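import Vale.Agent.Lib.P154.PChain.BE.R7_0

set_option linter.all false

namespace Vale.Agent.Lib.P154.PChain.BE.S8

open Vale.Agent.Lib.P154.Chain

noncomputable def pc0 : PT := (PT.nd (nat_lit 13178178) (PT.nd (nat_lit 12934662) (PT.nd (nat_lit 12772422) (PT.nd (nat_lit 8633274) (PT.nd (nat_lit 8552154) (PT.nd (nat_lit 8552076) PT.nil (PT.lf (nat_lit 76) (nat_lit 6) (nat_lit 1) (nat_lit 3) (nat_lit 337) (nat_lit 105) (nat_lit 338))) (PT.lf (nat_lit 76) (nat_lit 6) (nat_lit 1) (nat_lit 1) (nat_lit 338) (nat_lit 105) (nat_lit 337))) (PT.nd (nat_lit 4139070) (PT.lf (nat_lit 152) (nat_lit 3) (nat_lit 2) (nat_lit 1) (nat_lit 337) (nat_lit 106) (nat_lit 337)) (PT.lf (nat_lit 684) (nat_lit 6) (nat_lit 9) (nat_lit 3) (nat_lit 311) (nat_lit 157) (nat_lit 312)))) (PT.nd (nat_lit 81120) (PT.nd (nat_lit 81042) (PT.lf (nat_lit 684) (nat_lit 6) (nat_lit 9) (nat_lit 1) (nat_lit 312) (nat_lit 157) (nat_lit 311)) (PT.lf (nat_lit 760) (nat_lit 6) (nat_lit 10) (nat_lit 3) (nat_lit 310)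 (nat_lit 158) (nat_lit 312))) (PT.nd (nat_lit 78) (PT.lf (nat_lit 836) (nat_lit 3) (nat_lit 11) (nat_lit 1) (nat_lit 311) (nat_lit 158) (nat_lit 311)) (PT.lf (nat_lit 760) (nat_lit 6) (nat_lit 10) (nat_lit 1) (nat_lit 312) (nat_lit 158) (nat_lit 310))))) (PT.nd (nat_lit 81276) (PT.nd (nat_lit 81120) (PT.nd (nat_lit 78) (PT.lf (nat_lit 912) (nat_lit 6) (nat_lit 12) (nat_lit 3) (nat_lit 310) (nat_lit 159) (nat_lit 311)) (PT.lf (nat_lit 912) (nat_lit 6) (nat_lit 12) (nat_lit 1) (nat_lit 311) (nat_lit 159) (nat_lit 310))) (PT.nd (nat_lit 78) (PT.lf (nat_lit 988) (nat_lit 6) (nat_lit 13) (nat_lit 3) (nat_lit 309) (nat_lit 160) (nat_lit 311)) (PT.lf (nat_lit 1064) (nat_lit 3) (nat_lit 14) (nat_lit 1) (nat_lit 310) (nat_lit 160) (nat_lit 310)))) (PT.nd (nat_lit 81120) (PT.nd (nat_lit 81042) (PT.lf (nat_lit 988) (nat_lit 6) (nat_lit 13) (nat_lit 1) (nat_lit 311) (nat_lit 160) (nat_lit 309)) (PT.lf (nat_lit 1216) (nat_lit 6) (nat_lit 16) (nat_lit 3) (nat_lit 309) (nat_lit 161)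 (nat_lit 310))) (PT.nd (nat_lit 81042) (PT.lf (nat_lit 1216) (nat_lit 6) (nat_lit 16) (nat_lit 1) (nat_lit 310) (nat_lit 161) (nat_lit 309)) (PT.lf (nat_lit 1292) (nat_lit 6) (nat_lit 17) (nat_lit 3) (nat_lit 308) (nat_lit 162) (nat_lit 310)))))) (PT.nd (nat_lit 243438) (PT.nd (nat_lit 162240) (PT.nd (nat_lit 81120) (PT.nd (nat_lit 78) (PT.lf (nat_lit 1368) (nat_lit 3) (nat_lit 18) (nat_lit 1) (nat_lit 309) (nat_lit 162) (nat_lit 309)) (PT.lf (nat_lit 1292) (nat_lit 6) (nat_lit 17) (nat_lit 1) (nat_lit 310) (nat_lit 162) (nat_lit 308))) (PT.nd (nat_lit 78) (PT.lf (nat_lit 1520) (nat_lit 6) (nat_lit 20) (nat_lit 3) (nat_lit 308) (nat_lit 163) (nat_lit 309)) (PT.lf (nat_lit 1520) (nat_lit 6) (nat_lit 20) (nat_lit 1) (nat_lit 309) (nat_lit 163) (nat_lit 308)))) (PT.nd (nat_lit 156) (PT.nd (nat_lit 78) (PT.lf (nat_lit 1596) (nat_lit 6) (nat_lit 21) (nat_lit 3) (nat_lit 307) (nat_lit 164) (nat_lit 309)) (PT.lf (nat_lit 1672) (nat_lit 3) (nat_lit 22) (nat_lit 1) (nat_lit 308)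 (nat_lit 164) (nat_lit 308))) (PT.nd (nat_lit 80964) (PT.lf (nat_lit 1596) (nat_lit 6) (nat_lit 21) (nat_lit 1) (nat_lit 309) (nat_lit 164) (nat_lit 307)) (PT.lf (nat_lit 1748) (nat_lit 6) (nat_lit 23) (nat_lit 3) (nat_lit 306) (nat_lit 165) (nat_lit 309))))) (PT.nd (nat_lit 81198) (PT.nd (nat_lit 156) (PT.nd (nat_lit 78) (PT.lf (nat_lit 1824) (nat_lit 6) (nat_lit 24) (nat_lit 3) (nat_lit 307) (nat_lit 165) (nat_lit 308)) (PT.lf (nat_lit 1824) (nat_lit 6) (nat_lit 24) (nat_lit 1) (nat_lit 308) (nat_lit 165) (nat_lit 307))) (PT.nd (nat_lit 80964) (PT.lf (nat_lit 1748) (nat_lit 6) (nat_lit 23) (nat_lit 1) (nat_lit 309) (nat_lit 165) (nat_lit 306)) (PT.lf (nat_lit 1900) (nat_lit 6) (nat_lit 25) (nat_lit 3) (nat_lit 306) (nat_lit 166) (nat_lit 308)))) (PT.nd (nat_lit 81042) (PT.nd (nat_lit 78) (PT.lf (nat_lit 1976) (nat_lit 3) (nat_lit 26) (nat_lit 1) (nat_lit 307) (nat_lit 166) (nat_lit 307)) (PT.lf (nat_lit 1900) (nat_lit 6) (nat_lit 25) (nat_lit 1) (nat_lit 308) (nat_lit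 166) (nat_lit 306))) (PT.nd (nat_lit 78) (PT.lf (nat_lit 2052) (nat_lit 6) (nat_lit 27) (nat_lit 3) (nat_lit 305) (nat_lit 167) (nat_lit 308)) (PT.nd (nat_lit 78) (PT.lf (nat_lit 2128) (nat_lit 6) (nat_lit 28) (nat_lit 3) (nat_lit 306) (nat_lit 167) (nat_lit 307)) (PT.lf (nat_lit 2128) (nat_lit 6) (nat_lit 28) (nat_lit 1) (nat_lit 307) (nat_lit 167) (nat_lit 306))))))))
noncomputable def pc1 : PT := (PT.nd (nat_lit 405600) (PT.nd (nat_lit 243282) (PT.nd (nat_lit 162084) (PT.nd (nat_lit 81042) (PT.nd (nat_lit 80964) (PT.lf (nat_lit 2052) (nat_lit 6) (nat_lit 27) (nat_lit 1) (nat_lit 308) (nat_lit 167) (nat_lit 305)) (PT.lf (nat_lit 2280) (nat_lit 6) (nat_lit 30) (nat_lit 3) (nat_lit 305) (nat_lit 168) (nat_lit 307))) (PT.nd (nat_lit 78) (PT.lf (nat_lit 2356) (nat_lit 3) (nat_lit 31) (nat_lit 1) (nat_lit 306) (nat_lit 168) (nat_lit 306)) (PT.lf (nat_lit 2280) (nat_lit 6) (nat_lit 30) (nat_lit 1) (nat_lit 307) (nat_lit 168) (nat_lit 305)))) (PT.nd (nat_lit 156) (PT.nd (nat_lit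 78) (PT.lf (nat_lit 2432) (nat_lit 6) (nat_lit 32) (nat_lit 3) (nat_lit 304) (nat_lit 169) (nat_lit 307)) (PT.lf (nat_lit 2508) (nat_lit 6) (nat_lit 33) (nat_lit 3) (nat_lit 305) (nat_lit 169) (nat_lit 306))) (PT.nd (nat_lit 78) (PT.lf (nat_lit 2508) (nat_lit 6) (nat_lit 33) (nat_lit 1) (nat_lit 306) (nat_lit 169) (nat_lit 305)) (PT.lf (nat_lit 2432) (nat_lit 6) (nat_lit 32) (nat_lit 1) (nat_lit 307) (nat_lit 169) (nat_lit 304))))) (PT.nd (nat_lit 81198) (PT.nd (nat_lit 156) (PT.nd (nat_lit 78) (PT.lf (nat_lit 2660) (nat_lit 6) (nat_lit 35) (nat_lit 3) (nat_lit 304) (nat_lit 170) (nat_lit 306)) (PT.lf (nat_lit 2736) (nat_lit 3) (nat_lit 36) (nat_lit 1) (nat_lit 305) (nat_lit 170) (nat_lit 305))) (PT.nd (nat_lit 80964) (PT.lf (nat_lit 2660) (nat_lit 6) (nat_lit 35) (nat_lit 1) (nat_lit 306) (nat_lit 170) (nat_lit 304)) (PT.lf (nat_lit 2812) (nat_lit 6) (nat_lit 37) (nat_lit 3) (nat_lit 303) (nat_lit 171) (nat_lit 306)))) (PT.nd (nat_lit 156) (PT.nd (nat_lit 78) (PT.lf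 (nat_lit 2888) (nat_lit 6) (nat_lit 38) (nat_lit 3) (nat_lit 304) (nat_lit 171) (nat_lit 305)) (PT.lf (nat_lit 2888) (nat_lit 6) (nat_lit 38) (nat_lit 1) (nat_lit 305) (nat_lit 171) (nat_lit 304))) (PT.nd (nat_lit 80886) (PT.lf (nat_lit 2812) (nat_lit 6) (nat_lit 37) (nat_lit 1) (nat_lit 306) (nat_lit 171) (nat_lit 303)) (PT.lf (nat_lit 2964) (nat_lit 6) (nat_lit 39) (nat_lit 3) (nat_lit 302) (nat_lit 172) (nat_lit 306)))))) (PT.nd (nat_lit 162240) (PT.nd (nat_lit 81120) (PT.nd (nat_lit 156) (PT.nd (nat_lit 78) (PT.lf (nat_lit 3040) (nat_lit 6) (nat_lit 40) (nat_lit 3) (nat_lit 303) (nat_lit 172) (nat_lit 305)) (PT.lf (nat_lit 3116) (nat_lit 3) (nat_lit 41) (nat_lit 1) (nat_lit 304) (nat_lit 172) (nat_lit 304))) (PT.nd (nat_lit 78) (PT.lf (nat_lit 3040) (nat_lit 6) (nat_lit 40) (nat_lit 1) (nat_lit 305) (nat_lit 172) (nat_lit 303)) (PT.lf (nat_lit 2964) (nat_lit 6) (nat_lit 39) (nat_lit 1) (nat_lit 306) (nat_lit 172) (nat_lit 302)))) (PT.nd (nat_lit 156) (PT.nd (nat_lit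 78) (PT.lf (nat_lit 3192) (nat_lit 6) (nat_lit 42) (nat_lit 3) (nat_lit 302) (nat_lit 173) (nat_lit 305)) (PT.lf (nat_lit 3268) (nat_lit 6) (nat_lit 43) (nat_lit 3) (nat_lit 303) (nat_lit 173) (nat_lit 304))) (PT.nd (nat_lit 78) (PT.lf (nat_lit 3268) (nat_lit 6) (nat_lit 43) (nat_lit 1) (nat_lit 304) (nat_lit 173) (nat_lit 303)) (PT.lf (nat_lit 3192) (nat_lit 6) (nat_lit 42) (nat_lit 1) (nat_lit 305) (nat_lit 173) (nat_lit 302))))) (PT.nd (nat_lit 312) (PT.nd (nat_lit 156) (PT.nd (nat_lit 78) (PT.lf (nat_lit 3344) (nat_lit 6) (nat_lit 44) (nat_lit 3) (nat_lit 301) (nat_lit 174) (nat_lit 305)) (PT.lf (nat_lit 3420) (nat_lit 6) (nat_lit 45) (nat_lit 3) (nat_lit 302) (nat_lit 174) (nat_lit 304))) (PT.nd (nat_lit 78) (PT.lf (nat_lit 3496) (nat_lit 3) (nat_lit 46) (nat_lit 1) (nat_lit 303) (nat_lit 174) (nat_lit 303)) (PT.lf (nat_lit 3420) (nat_lit 6) (nat_lit 45) (nat_lit 1) (nat_lit 304) (nat_lit 174) (nat_lit 302)))) (PT.nd (nat_lit 80964) (PT.nd (nat_lit 80886) (PT.lf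 (nat_lit 3344) (nat_lit 6) (nat_lit 44) (nat_lit 1) (nat_lit 305) (nat_lit 174) (nat_lit 301)) (PT.lf (nat_lit 3648) (nat_lit 6) (nat_lit 48) (nat_lit 3) (nat_lit 301) (nat_lit 175) (nat_lit 304))) (PT.nd (nat_lit 78) (PT.lf (nat_lit 3724) (nat_lit 6) (nat_lit 49) (nat_lit 3) (nat_lit 302) (nat_lit 175) (nat_lit 303)) (PT.nd (nat_lit 78) (PT.lf (nat_lit 3724) (nat_lit 6) (nat_lit 49) (nat_lit 1) (nat_lit 303) (nat_lit 175) (nat_lit 302)) (PT.lf (nat_lit 3648) (nat_lit 6) (nat_lit 48) (nat_lit 1) (nat_lit 304) (nat_lit 175) (nat_lit 301))))))))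
noncomputable def pc2 : PT := (PT.nd (nat_lit 243438) (PT.nd (nat_lit 81354) (PT.nd (nat_lit 312) (PT.nd (nat_lit 156) (PT.nd (nat_lit 78) (PT.lf (nat_lit 3800) (nat_lit 6) (nat_lit 50) (nat_lit 3) (nat_lit 300) (nat_lit 176) (nat_lit 304)) (PT.lf (nat_lit 3876) (nat_lit 6) (nat_lit 51) (nat_lit 3) (nat_lit 301) (nat_lit 176) (nat_lit 303))) (PT.nd (nat_lit 78) (PT.lf (nat_lit 3952) (nat_lit 3) (nat_lit 52) (nat_lit 1) (nat_lit 302) (nat_lit 176) (nat_lit 302)) (PT.lf (nat_lit 3876) (nat_lit 6) (nat_lit 51) (nat_lit 1) (nat_lit 303) (nat_lit 176) (nat_lit 301)))) (PT.nd (nat_lit 80886) (PT.nd (nat_lit 80808) (PT.lf (nat_lit 3800) (nat_lit 6) (nat_lit 50) (nat_lit 1) (nat_lit 304) (nat_lit 176) (nat_lit 300)) (PT.lf (nat_lit 4028) (nat_lit 6) (nat_lit 53) (nat_lit 3) (nat_lit 299) (nat_lit 177) (nat_lit 304))) (PT.nd (nat_lit 78) (PT.lf (nat_lit 4104) (nat_lit 6) (nat_lit 54) (nat_lit 3) (nat_lit 300) (nat_lit 177) (nat_lit 303)) (PT.lf (nat_lit 4180) (nat_lit 6) (nat_lit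 55) (nat_lit 3) (nat_lit 301) (nat_lit 177) (nat_lit 302))))) (PT.nd (nat_lit 81042) (PT.nd (nat_lit 156) (PT.nd (nat_lit 78) (PT.lf (nat_lit 4180) (nat_lit 6) (nat_lit 55) (nat_lit 1) (nat_lit 302) (nat_lit 177) (nat_lit 301)) (PT.lf (nat_lit 4104) (nat_lit 6) (nat_lit 54) (nat_lit 1) (nat_lit 303) (nat_lit 177) (nat_lit 300))) (PT.nd (nat_lit 80808) (PT.lf (nat_lit 4028) (nat_lit 6) (nat_lit 53) (nat_lit 1) (nat_lit 304) (nat_lit 177) (nat_lit 299)) (PT.lf (nat_lit 4256) (nat_lit 6) (nat_lit 56) (nat_lit 3) (nat_lit 299) (nat_lit 178) (nat_lit 303)))) (PT.nd (nat_lit 156) (PT.nd (nat_lit 78) (PT.lf (nat_lit 4332) (nat_lit 6) (nat_lit 57) (nat_lit 3) (nat_lit 300) (nat_lit 178) (nat_lit 302)) (PT.lf (nat_lit 4408) (nat_lit 3) (nat_lit 58) (nat_lit 1) (nat_lit 301) (nat_lit 178) (nat_lit 301))) (PT.nd (nat_lit 78) (PT.lf (nat_lit 4332) (nat_lit 6) (nat_lit 57) (nat_lit 1) (nat_lit 302) (nat_lit 178) (nat_lit 300)) (PT.lf (nat_lit 4256) (nat_lit 6) (nat_lit 56) (nat_lit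 1) (nat_lit 303) (nat_lit 178) (nat_lit 299)))))) (PT.nd (nat_lit 81354) (PT.nd (nat_lit 312) (PT.nd (nat_lit 156) (PT.nd (nat_lit 78) (PT.lf (nat_lit 4484) (nat_lit 6) (nat_lit 59) (nat_lit 3) (nat_lit 298) (nat_lit 179) (nat_lit 303)) (PT.lf (nat_lit 4560) (nat_lit 6) (nat_lit 60) (nat_lit 3) (nat_lit 299) (nat_lit 179) (nat_lit 302))) (PT.nd (nat_lit 78) (PT.lf (nat_lit 4636) (nat_lit 6) (nat_lit 61) (nat_lit 3) (nat_lit 300) (nat_lit 179) (nat_lit 301)) (PT.lf (nat_lit 4636) (nat_lit 6) (nat_lit 61) (nat_lit 1) (nat_lit 301) (nat_lit 179) (nat_lit 300)))) (PT.nd (nat_lit 80886) (PT.nd (nat_lit 78) (PT.lf (nat_lit 4560) (nat_lit 6) (nat_lit 60) (nat_lit 1) (nat_lit 302) (nat_lit 179) (nat_lit 299)) (PT.lf (nat_lit 4484) (nat_lit 6) (nat_lit 59) (nat_lit 1) (nat_lit 303) (nat_lit 179) (nat_lit 298))) (PT.nd (nat_lit 78) (PT.lf (nat_lit 4712) (nat_lit 6) (nat_lit 62) (nat_lit 3) (nat_lit 298) (nat_lit 180) (nat_lit 302)) (PT.lf (nat_lit 4788) (nat_lit 6) (nat_lit 63)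 (nat_lit 3) (nat_lit 299) (nat_lit 180) (nat_lit 301))))) (PT.nd (nat_lit 81042) (PT.nd (nat_lit 156) (PT.nd (nat_lit 78) (PT.lf (nat_lit 4864) (nat_lit 3) (nat_lit 64) (nat_lit 1) (nat_lit 300) (nat_lit 180) (nat_lit 300)) (PT.lf (nat_lit 4788) (nat_lit 6) (nat_lit 63) (nat_lit 1) (nat_lit 301) (nat_lit 180) (nat_lit 299))) (PT.nd (nat_lit 80808) (PT.lf (nat_lit 4712) (nat_lit 6) (nat_lit 62) (nat_lit 1) (nat_lit 302) (nat_lit 180) (nat_lit 298)) (PT.lf (nat_lit 4940) (nat_lit 6) (nat_lit 65) (nat_lit 3) (nat_lit 297) (nat_lit 181) (nat_lit 302)))) (PT.nd (nat_lit 156) (PT.nd (nat_lit 78) (PT.lf (nat_lit 5016) (nat_lit 6) (nat_lit 66) (nat_lit 3) (nat_lit 298) (nat_lit 181) (nat_lit 301)) (PT.lf (nat_lit 5092) (nat_lit 6) (nat_lit 67) (nat_lit 3) (nat_lit 299) (nat_lit 181) (nat_lit 300))) (PT.nd (nat_lit 78) (PT.lf (nat_lit 5092) (nat_lit 6) (nat_lit 67) (nat_lit 1) (nat_lit 300) (nat_lit 181) (nat_lit 299)) (PT.nd (nat_lit 78) (PT.lf (nat_lit 5016) (nat_lit 6) (nat_lit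 66) (nat_lit 1) (nat_lit 301) (nat_lit 181) (nat_lit 298)) (PT.lf (nat_lit 4940) (nat_lit 6) (nat_lit 65) (nat_lit 1) (nat_lit 302) (nat_lit 181) (nat_lit 297))))))))
noncomputable def pc3 : PT := (PT.nd (nat_lit 162630) (PT.nd (nat_lit 81354) (PT.nd (nat_lit 312) (PT.nd (nat_lit 156) (PT.nd (nat_lit 78) (PT.lf (nat_lit 5244) (nat_lit 6) (nat_lit 69) (nat_lit 3) (nat_lit 297) (nat_lit 182) (nat_lit 301)) (PT.lf (nat_lit 5320) (nat_lit 6) (nat_lit 70) (nat_lit 3) (nat_lit 298) (nat_lit 182) (nat_lit 300))) (PT.nd (nat_lit 78) (PT.lf (nat_lit 5396) (nat_lit 3) (nat_lit 71) (nat_lit 1) (nat_lit 299) (nat_lit 182) (nat_lit 299)) (PT.lf (nat_lit 5320) (nat_lit 6) (nat_lit 70) (nat_lit 1) (nat_lit 300) (nat_lit 182) (nat_lit 298)))) (PT.nd (nat_lit 80886) (PT.nd (nat_lit 80808) (PT.lf (nat_lit 5244) (nat_lit 6) (nat_lit 69) (nat_lit 1) (nat_lit 301) (nat_lit 182) (nat_lit 297)) (PT.lf (nat_lit 5472) (nat_lit 6) (nat_lit 72) (nat_lit 3) (nat_lit 296) (nat_lit 183) (nat_lit 301)))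 (PT.nd (nat_lit 78) (PT.lf (nat_lit 5548) (nat_lit 6) (nat_lit 73) (nat_lit 3) (nat_lit 297) (nat_lit 183) (nat_lit 300)) (PT.lf (nat_lit 5624) (nat_lit 6) (nat_lit 74) (nat_lit 3) (nat_lit 298) (nat_lit 183) (nat_lit 299))))) (PT.nd (nat_lit 80964) (PT.nd (nat_lit 156) (PT.nd (nat_lit 78) (PT.lf (nat_lit 5624) (nat_lit 6) (nat_lit 74) (nat_lit 1) (nat_lit 299) (nat_lit 183) (nat_lit 298)) (PT.lf (nat_lit 5548) (nat_lit 6) (nat_lit 73) (nat_lit 1) (nat_lit 300) (nat_lit 183) (nat_lit 297))) (PT.nd (nat_lit 80730) (PT.lf (nat_lit 5472) (nat_lit 6) (nat_lit 72) (nat_lit 1) (nat_lit 301) (nat_lit 183) (nat_lit 296)) (PT.lf (nat_lit 5700) (nat_lit 6) (nat_lit 75) (nat_lit 3) (nat_lit 295) (nat_lit 184) (nat_lit 301)))) (PT.nd (nat_lit 156) (PT.nd (nat_lit 78) (PT.lf (nat_lit 5776) (nat_lit 6) (nat_lit 76) (nat_lit 3) (nat_lit 296) (nat_lit 184) (nat_lit 300)) (PT.lf (nat_lit 5852) (nat_lit 6) (nat_lit 77) (nat_lit 3) (nat_lit 297) (nat_lit 184) (nat_lit 299))) (PT.nd (nat_lit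 78) (PT.lf (nat_lit 5928) (nat_lit 3) (nat_lit 78) (nat_lit 1) (nat_lit 298) (nat_lit 184) (nat_lit 298)) (PT.lf (nat_lit 5852) (nat_lit 6) (nat_lit 77) (nat_lit 1) (nat_lit 299) (nat_lit 184) (nat_lit 297)))))) (PT.nd (nat_lit 161928) (PT.nd (nat_lit 80964) (PT.nd (nat_lit 80808) (PT.nd (nat_lit 78) (PT.lf (nat_lit 5776) (nat_lit 6) (nat_lit 76) (nat_lit 1) (nat_lit 300) (nat_lit 184) (nat_lit 296)) (PT.lf (nat_lit 5700) (nat_lit 6) (nat_lit 75) (nat_lit 1) (nat_lit 301) (nat_lit 184) (nat_lit 295))) (PT.nd (nat_lit 78) (PT.lf (nat_lit 6004) (nat_lit 6) (nat_lit 79) (nat_lit 3) (nat_lit 295) (nat_lit 185) (nat_lit 300)) (PT.lf (nat_lit 6080) (nat_lit 6) (nat_lit 80) (nat_lit 3) (nat_lit 296) (nat_lit 185) (nat_lit 299)))) (PT.nd (nat_lit 156) (PT.nd (nat_lit 78) (PT.lf (nat_lit 6156) (nat_lit 6) (nat_lit 81) (nat_lit 3) (nat_lit 297) (nat_lit 185) (nat_lit 298)) (PT.lf (nat_lit 6156) (nat_lit 6) (nat_lit 81) (nat_lit 1) (nat_lit 298) (nat_lit 185) (nat_lit 297))) (PT.nd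 (nat_lit 78) (PT.lf (nat_lit 6080) (nat_lit 6) (nat_lit 80) (nat_lit 1) (nat_lit 299) (nat_lit 185) (nat_lit 296)) (PT.lf (nat_lit 6004) (nat_lit 6) (nat_lit 79) (nat_lit 1) (nat_lit 300) (nat_lit 185) (nat_lit 295))))) (PT.nd (nat_lit 312) (PT.nd (nat_lit 156) (PT.nd (nat_lit 78) (PT.lf (nat_lit 6232) (nat_lit 6) (nat_lit 82) (nat_lit 3) (nat_lit 294) (nat_lit 186) (nat_lit 300)) (PT.lf (nat_lit 6308) (nat_lit 6) (nat_lit 83) (nat_lit 3) (nat_lit 295) (nat_lit 186) (nat_lit 299))) (PT.nd (nat_lit 78) (PT.lf (nat_lit 6384) (nat_lit 6) (nat_lit 84) (nat_lit 3) (nat_lit 296) (nat_lit 186) (nat_lit 298)) (PT.lf (nat_lit 6460) (nat_lit 3) (nat_lit 85) (nat_lit 1) (nat_lit 297) (nat_lit 186) (nat_lit 297)))) (PT.nd (nat_lit 156) (PT.nd (nat_lit 78) (PT.lf (nat_lit 6384) (nat_lit 6) (nat_lit 84) (nat_lit 1) (nat_lit 298) (nat_lit 186) (nat_lit 296)) (PT.lf (nat_lit 6308) (nat_lit 6) (nat_lit 83) (nat_lit 1) (nat_lit 299) (nat_lit 186) (nat_lit 295))) (PT.nd (nat_lit 80730)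 (PT.lf (nat_lit 6232) (nat_lit 6) (nat_lit 82) (nat_lit 1) (nat_lit 300) (nat_lit 186) (nat_lit 294)) (PT.nd (nat_lit 78) (PT.lf (nat_lit 6536) (nat_lit 6) (nat_lit 86) (nat_lit 3) (nat_lit 294) (nat_lit 187) (nat_lit 299)) (PT.lf (nat_lit 6612) (nat_lit 6) (nat_lit 87) (nat_lit 3) (nat_lit 295) (nat_lit 187) (nat_lit 298))))))))
noncomputable def pc4 : PT := (PT.nd (nat_lit 162474) (PT.nd (nat_lit 81276) (PT.nd (nat_lit 80964) (PT.nd (nat_lit 156) (PT.nd (nat_lit 78) (PT.lf (nat_lit 6688) (nat_lit 6) (nat_lit 88) (nat_lit 3) (nat_lit 296) (nat_lit 187) (nat_lit 297)) (PT.lf (nat_lit 6688) (nat_lit 6) (nat_lit 88) (nat_lit 1) (nat_lit 297) (nat_lit 187) (nat_lit 296))) (PT.nd (nat_lit 78) (PT.lf (nat_lit 6612) (nat_lit 6) (nat_lit 87) (nat_lit 1) (nat_lit 298) (nat_lit 187) (nat_lit 295)) (PT.lf (nat_lit 6536) (nat_lit 6) (nat_lit 86) (nat_lit 1) (nat_lit 299) (nat_lit 187) (nat_lit 294)))) (PT.nd (nat_lit 156) (PT.nd (nat_lit 78) (PT.lf (nat_lit 6764) (nat_lit 6) (nat_lit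 89) (nat_lit 3) (nat_lit 293) (nat_lit 188) (nat_lit 299)) (PT.lf (nat_lit 6840) (nat_lit 6) (nat_lit 90) (nat_lit 3) (nat_lit 294) (nat_lit 188) (nat_lit 298))) (PT.nd (nat_lit 78) (PT.lf (nat_lit 6916) (nat_lit 6) (nat_lit 91) (nat_lit 3) (nat_lit 295) (nat_lit 188) (nat_lit 297)) (PT.lf (nat_lit 6992) (nat_lit 3) (nat_lit 92) (nat_lit 1) (nat_lit 296) (nat_lit 188) (nat_lit 296))))) (PT.nd (nat_lit 80886) (PT.nd (nat_lit 156) (PT.nd (nat_lit 78) (PT.lf (nat_lit 6916) (nat_lit 6) (nat_lit 91) (nat_lit 1) (nat_lit 297) (nat_lit 188) (nat_lit 295)) (PT.lf (nat_lit 6840) (nat_lit 6) (nat_lit 90) (nat_lit 1) (nat_lit 298) (nat_lit 188) (nat_lit 294))) (PT.nd (nat_lit 80652) (PT.lf (nat_lit 6764) (nat_lit 6) (nat_lit 89) (nat_lit 1) (nat_lit 299) (nat_lit 188) (nat_lit 293)) (PT.lf (nat_lit 7068) (nat_lit 6) (nat_lit 93) (nat_lit 3) (nat_lit 292) (nat_lit 189) (nat_lit 299)))) (PT.nd (nat_lit 156) (PT.nd (nat_lit 78) (PT.lf (nat_lit 7144) (nat_lit 6) (nat_lit 94) (nat_lit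 3) (nat_lit 293) (nat_lit 189) (nat_lit 298)) (PT.lf (nat_lit 7220) (nat_lit 6) (nat_lit 95) (nat_lit 3) (nat_lit 294) (nat_lit 189) (nat_lit 297))) (PT.nd (nat_lit 78) (PT.lf (nat_lit 7296) (nat_lit 6) (nat_lit 96) (nat_lit 3) (nat_lit 295) (nat_lit 189) (nat_lit 296)) (PT.lf (nat_lit 7296) (nat_lit 6) (nat_lit 96) (nat_lit 1) (nat_lit 296) (nat_lit 189) (nat_lit 295)))))) (PT.nd (nat_lit 81198) (PT.nd (nat_lit 80886) (PT.nd (nat_lit 156) (PT.nd (nat_lit 78) (PT.lf (nat_lit 7220) (nat_lit 6) (nat_lit 95) (nat_lit 1) (nat_lit 297) (nat_lit 189) (nat_lit 294)) (PT.lf (nat_lit 7144) (nat_lit 6) (nat_lit 94) (nat_lit 1) (nat_lit 298) (nat_lit 189) (nat_lit 293))) (PT.nd (nat_lit 80652) (PT.lf (nat_lit 7068) (nat_lit 6) (nat_lit 93) (nat_lit 1) (nat_lit 299) (nat_lit 189) (nat_lit 292)) (PT.lf (nat_lit 7372) (nat_lit 6) (nat_lit 97) (nat_lit 3) (nat_lit 292) (nat_lit 190) (nat_lit 298)))) (PT.nd (nat_lit 156) (PT.nd (nat_lit 78) (PT.lf (nat_lit 7448) (nat_lit 6) (nat_lit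 98) (nat_lit 3) (nat_lit 293) (nat_lit 190) (nat_lit 297)) (PT.lf (nat_lit 7524) (nat_lit 6) (nat_lit 99) (nat_lit 3) (nat_lit 294) (nat_lit 190) (nat_lit 296))) (PT.nd (nat_lit 78) (PT.lf (nat_lit 7600) (nat_lit 3) (nat_lit 100) (nat_lit 1) (nat_lit 295) (nat_lit 190) (nat_lit 295)) (PT.lf (nat_lit 7524) (nat_lit 6) (nat_lit 99) (nat_lit 1) (nat_lit 296) (nat_lit 190) (nat_lit 294))))) (PT.nd (nat_lit 80886) (PT.nd (nat_lit 80730) (PT.nd (nat_lit 78) (PT.lf (nat_lit 7448) (nat_lit 6) (nat_lit 98) (nat_lit 1) (nat_lit 297) (nat_lit 190) (nat_lit 293)) (PT.lf (nat_lit 7372) (nat_lit 6) (nat_lit 97) (nat_lit 1) (nat_lit 298) (nat_lit 190) (nat_lit 292))) (PT.nd (nat_lit 78) (PT.lf (nat_lit 7676) (nat_lit 6) (nat_lit 101) (nat_lit 3) (nat_lit 291) (nat_lit 191) (nat_lit 298)) (PT.lf (nat_lit 7752) (nat_lit 6) (nat_lit 102) (nat_lit 3) (nat_lit 292) (nat_lit 191) (nat_lit 297)))) (PT.nd (nat_lit 156) (PT.nd (nat_lit 78) (PT.lf (nat_lit 7828) (nat_lit 6) (nat_lit 103) (nat_lit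 3) (nat_lit 293) (nat_lit 191) (nat_lit 296)) (PT.lf (nat_lit 7904) (nat_lit 6) (nat_lit 104) (nat_lit 3) (nat_lit 294) (nat_lit 191) (nat_lit 295))) (PT.nd (nat_lit 78) (PT.lf (nat_lit 7904) (nat_lit 6) (nat_lit 104) (nat_lit 1) (nat_lit 295) (nat_lit 191) (nat_lit 294)) (PT.nd (nat_lit 78) (PT.lf (nat_lit 7828) (nat_lit 6) (nat_lit 103) (nat_lit 1) (nat_lit 296) (nat_lit 191) (nat_lit 293)) (PT.lf (nat_lit 7752) (nat_lit 6) (nat_lit 102) (nat_lit 1) (nat_lit 297) (nat_lit 191) (nat_lit 292))))))))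
noncomputable def pc5 : PT := (PT.nd (nat_lit 242892) (PT.nd (nat_lit 161772) (PT.nd (nat_lit 80886) (PT.nd (nat_lit 80730) (PT.nd (nat_lit 80652) (PT.lf (nat_lit 7676) (nat_lit 6) (nat_lit 101) (nat_lit 1) (nat_lit 298) (nat_lit 191) (nat_lit 291)) (PT.lf (nat_lit 7980) (nat_lit 6) (nat_lit 105) (nat_lit 3) (nat_lit 291) (nat_lit 192) (nat_lit 297))) (PT.nd (nat_lit 78) (PT.lf (nat_lit 8056) (nat_lit 6) (nat_lit 106) (nat_lit 3) (nat_lit 292) (nat_lit 192) (nat_lit 296)) (PT.lf (nat_lit 8132) (nat_lit 6) (nat_lit 107) (nat_lit 3) (nat_lit 293) (nat_lit 192) (nat_lit 295)))) (PT.nd (nat_lit 156) (PT.nd (nat_lit 78) (PT.lf (nat_lit 8208) (nat_lit 3) (nat_lit 108) (nat_lit 1) (nat_lit 294) (nat_lit 192) (nat_lit 294)) (PT.lf (nat_lit 8132) (nat_lit 6) (nat_lit 107) (nat_lit 1) (nat_lit 295) (nat_lit 192) (nat_lit 293))) (PT.nd (nat_lit 78) (PT.lf (nat_lit 8056) (nat_lit 6) (nat_lit 106) (nat_lit 1) (nat_lit 296) (nat_lit 192) (nat_lit 292)) (PT.lf (nat_lit 7980) (nat_lit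 6) (nat_lit 105) (nat_lit 1) (nat_lit 297) (nat_lit 192) (nat_lit 291))))) (PT.nd (nat_lit 312) (PT.nd (nat_lit 156) (PT.nd (nat_lit 78) (PT.lf (nat_lit 8284) (nat_lit 6) (nat_lit 109) (nat_lit 3) (nat_lit 290) (nat_lit 193) (nat_lit 297)) (PT.lf (nat_lit 8360) (nat_lit 6) (nat_lit 110) (nat_lit 3) (nat_lit 291) (nat_lit 193) (nat_lit 296))) (PT.nd (nat_lit 78) (PT.lf (nat_lit 8436) (nat_lit 6) (nat_lit 111) (nat_lit 3) (nat_lit 292) (nat_lit 193) (nat_lit 295)) (PT.lf (nat_lit 8512) (nat_lit 6) (nat_lit 112) (nat_lit 3) (nat_lit 293) (nat_lit 193) (nat_lit 294)))) (PT.nd (nat_lit 156) (PT.nd (nat_lit 78) (PT.lf (nat_lit 8512) (nat_lit 6) (nat_lit 112) (nat_lit 1) (nat_lit 294) (nat_lit 193) (nat_lit 293)) (PT.lf (nat_lit 8436) (nat_lit 6) (nat_lit 111) (nat_lit 1) (nat_lit 295) (nat_lit 193) (nat_lit 292))) (PT.nd (nat_lit 78) (PT.lf (nat_lit 8360) (nat_lit 6) (nat_lit 110) (nat_lit 1) (nat_lit 296) (nat_lit 193) (nat_lit 291)) (PT.lf (nat_lit 8284) (nat_lit 6) (nat_lit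 109) (nat_lit 1) (nat_lit 297) (nat_lit 193) (nat_lit 290)))))) (PT.nd (nat_lit 624) (PT.nd (nat_lit 312) (PT.nd (nat_lit 156) (PT.nd (nat_lit 78) (PT.lf (nat_lit 8588) (nat_lit 6) (nat_lit 113) (nat_lit 3) (nat_lit 289) (nat_lit 194) (nat_lit 297)) (PT.lf (nat_lit 8664) (nat_lit 6) (nat_lit 114) (nat_lit 3) (nat_lit 290) (nat_lit 194) (nat_lit 296))) (PT.nd (nat_lit 78) (PT.lf (nat_lit 8740) (nat_lit 6) (nat_lit 115) (nat_lit 3) (nat_lit 291) (nat_lit 194) (nat_lit 295)) (PT.lf (nat_lit 8816) (nat_lit 6) (nat_lit 116) (nat_lit 3) (nat_lit 292) (nat_lit 194) (nat_lit 294)))) (PT.nd (nat_lit 156) (PT.nd (nat_lit 78) (PT.lf (nat_lit 8892) (nat_lit 3) (nat_lit 117) (nat_lit 1) (nat_lit 293) (nat_lit 194) (nat_lit 293)) (PT.lf (nat_lit 8816) (nat_lit 6) (nat_lit 116) (nat_lit 1) (nat_lit 294) (nat_lit 194) (nat_lit 292))) (PT.nd (nat_lit 78) (PT.lf (nat_lit 8740) (nat_lit 6) (nat_lit 115) (nat_lit 1) (nat_lit 295) (nat_lit 194) (nat_lit 291)) (PT.lf (nat_lit 8664) (nat_lit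 6) (nat_lit 114) (nat_lit 1) (nat_lit 296) (nat_lit 194) (nat_lit 290))))) (PT.nd (nat_lit 80808) (PT.nd (nat_lit 80652) (PT.nd (nat_lit 80574) (PT.lf (nat_lit 8588) (nat_lit 6) (nat_lit 113) (nat_lit 1) (nat_lit 297) (nat_lit 194) (nat_lit 289)) (PT.lf (nat_lit 8968) (nat_lit 6) (nat_lit 118) (nat_lit 3) (nat_lit 289) (nat_lit 195) (nat_lit 296))) (PT.nd (nat_lit 78) (PT.lf (nat_lit 9044) (nat_lit 6) (nat_lit 119) (nat_lit 3) (nat_lit 290) (nat_lit 195) (nat_lit 295)) (PT.lf (nat_lit 9120) (nat_lit 6) (nat_lit 120) (nat_lit 3) (nat_lit 291) (nat_lit 195) (nat_lit 294)))) (PT.nd (nat_lit 156) (PT.nd (nat_lit 78) (PT.lf (nat_lit 9196) (nat_lit 6) (nat_lit 121) (nat_lit 3) (nat_lit 292) (nat_lit 195) (nat_lit 293)) (PT.lf (nat_lit 9196) (nat_lit 6) (nat_lit 121) (nat_lit 1) (nat_lit 293) (nat_lit 195) (nat_lit 292))) (PT.nd (nat_lit 78) (PT.lf (nat_lit 9120) (nat_lit 6) (nat_lit 120) (nat_lit 1) (nat_lit 294) (nat_lit 195) (nat_lit 291)) (PT.nd (nat_lit 78) (PT.lf (nat_lit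 9044) (nat_lit 6) (nat_lit 119) (nat_lit 1) (nat_lit 295) (nat_lit 195) (nat_lit 290)) (PT.lf (nat_lit 8968) (nat_lit 6) (nat_lit 118) (nat_lit 1) (nat_lit 296) (nat_lit 195) (nat_lit 289))))))))
noncomputable def pc6 : PT := (PT.nd (nat_lit 81744) (PT.nd (nat_lit 624) (PT.nd (nat_lit 312) (PT.nd (nat_lit 156) (PT.nd (nat_lit 78) (PT.lf (nat_lit 9272) (nat_lit 6) (nat_lit 122) (nat_lit 3) (nat_lit 288) (nat_lit 196) (nat_lit 296)) (PT.lf (nat_lit 9348) (nat_lit 6) (nat_lit 123) (nat_lit 3) (nat_lit 289) (nat_lit 196) (nat_lit 295))) (PT.nd (nat_lit 78) (PT.lf (nat_lit 9424) (nat_lit 6) (nat_lit 124) (nat_lit 3) (nat_lit 290) (nat_lit 196) (nat_lit 294)) (PT.lf (nat_lit 9500) (nat_lit 6) (nat_lit 125) (nat_lit 3) (nat_lit 291) (nat_lit 196) (nat_lit 293)))) (PT.nd (nat_lit 156) (PT.nd (nat_lit 78) (PT.lf (nat_lit 9576) (nat_lit 3) (nat_lit 126) (nat_lit 1) (nat_lit 292) (nat_lit 196) (nat_lit 292)) (PT.lf (nat_lit 9500) (nat_lit 6) (nat_lit 125) (nat_lit 1) (nat_lit 293)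 (nat_lit 196) (nat_lit 291))) (PT.nd (nat_lit 78) (PT.lf (nat_lit 9424) (nat_lit 6) (nat_lit 124) (nat_lit 1) (nat_lit 294) (nat_lit 196) (nat_lit 290)) (PT.lf (nat_lit 9348) (nat_lit 6) (nat_lit 123) (nat_lit 1) (nat_lit 295) (nat_lit 196) (nat_lit 289))))) (PT.nd (nat_lit 80808) (PT.nd (nat_lit 80652) (PT.nd (nat_lit 80574) (PT.lf (nat_lit 9272) (nat_lit 6) (nat_lit 122) (nat_lit 1) (nat_lit 296) (nat_lit 196) (nat_lit 288)) (PT.lf (nat_lit 9652) (nat_lit 6) (nat_lit 127) (nat_lit 3) (nat_lit 288) (nat_lit 197) (nat_lit 295))) (PT.nd (nat_lit 78) (PT.lf (nat_lit 9728) (nat_lit 6) (nat_lit 128) (nat_lit 3) (nat_lit 289) (nat_lit 197) (nat_lit 294)) (PT.lf (nat_lit 9804) (nat_lit 6) (nat_lit 129) (nat_lit 3) (nat_lit 290) (nat_lit 197) (nat_lit 293)))) (PT.nd (nat_lit 156) (PT.nd (nat_lit 78) (PT.lf (nat_lit 9880) (nat_lit 6) (nat_lit 130) (nat_lit 3) (nat_lit 291) (nat_lit 197) (nat_lit 292)) (PT.lf (nat_lit 9880) (nat_lit 6) (nat_lit 130) (nat_lit 1) (nat_lit 292) (nat_lit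 197) (nat_lit 291))) (PT.nd (nat_lit 78) (PT.lf (nat_lit 9804) (nat_lit 6) (nat_lit 129) (nat_lit 1) (nat_lit 293) (nat_lit 197) (nat_lit 290)) (PT.lf (nat_lit 9728) (nat_lit 6) (nat_lit 128) (nat_lit 1) (nat_lit 294) (nat_lit 197) (nat_lit 289)))))) (PT.nd (nat_lit 81120) (PT.nd (nat_lit 80808) (PT.nd (nat_lit 80652) (PT.nd (nat_lit 80574) (PT.lf (nat_lit 9652) (nat_lit 6) (nat_lit 127) (nat_lit 1) (nat_lit 295) (nat_lit 197) (nat_lit 288)) (PT.lf (nat_lit 9956) (nat_lit 6) (nat_lit 131) (nat_lit 3) (nat_lit 287) (nat_lit 198) (nat_lit 295))) (PT.nd (nat_lit 78) (PT.lf (nat_lit 10032) (nat_lit 6) (nat_lit 132) (nat_lit 3) (nat_lit 288) (nat_lit 198) (nat_lit 294)) (PT.lf (nat_lit 10108) (nat_lit 6) (nat_lit 133) (nat_lit 3) (nat_lit 289) (nat_lit 198) (nat_lit 293)))) (PT.nd (nat_lit 156) (PT.nd (nat_lit 78) (PT.lf (nat_lit 10184) (nat_lit 6) (nat_lit 134) (nat_lit 3) (nat_lit 290) (nat_lit 198) (nat_lit 292)) (PT.lf (nat_lit 10260) (nat_lit 3) (nat_lit 135) (nat_lit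 1) (nat_lit 291) (nat_lit 198) (nat_lit 291))) (PT.nd (nat_lit 78) (PT.lf (nat_lit 10184) (nat_lit 6) (nat_lit 134) (nat_lit 1) (nat_lit 292) (nat_lit 198) (nat_lit 290)) (PT.lf (nat_lit 10108) (nat_lit 6) (nat_lit 133) (nat_lit 1) (nat_lit 293) (nat_lit 198) (nat_lit 289))))) (PT.nd (nat_lit 80730) (PT.nd (nat_lit 80574) (PT.nd (nat_lit 78) (PT.lf (nat_lit 10032) (nat_lit 6) (nat_lit 132) (nat_lit 1) (nat_lit 294) (nat_lit 198) (nat_lit 288)) (PT.lf (nat_lit 9956) (nat_lit 6) (nat_lit 131) (nat_lit 1) (nat_lit 295) (nat_lit 198) (nat_lit 287))) (PT.nd (nat_lit 78) (PT.lf (nat_lit 10336) (nat_lit 6) (nat_lit 136) (nat_lit 3) (nat_lit 286) (nat_lit 199) (nat_lit 295)) (PT.lf (nat_lit 10412) (nat_lit 6) (nat_lit 137) (nat_lit 3) (nat_lit 287) (nat_lit 199) (nat_lit 294)))) (PT.nd (nat_lit 156) (PT.nd (nat_lit 78) (PT.lf (nat_lit 10488) (nat_lit 6) (nat_lit 138) (nat_lit 3) (nat_lit 288) (nat_lit 199) (nat_lit 293)) (PT.lf (nat_lit 10564) (nat_lit 6) (nat_lit 139) (nat_lit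 3) (nat_lit 289) (nat_lit 199) (nat_lit 292))) (PT.nd (nat_lit 78) (PT.lf (nat_lit 10640) (nat_lit 6) (nat_lit 140) (nat_lit 3) (nat_lit 290) (nat_lit 199) (nat_lit 291)) (PT.nd (nat_lit 78) (PT.lf (nat_lit 10640) (nat_lit 6) (nat_lit 140) (nat_lit 1) (nat_lit 291) (nat_lit 199) (nat_lit 290)) (PT.lf (nat_lit 10564) (nat_lit 6) (nat_lit 139) (nat_lit 1) (nat_lit 292) (nat_lit 199) (nat_lit 289))))))))
noncomputable def pc7 : PT := (PT.nd (nat_lit 162162) (PT.nd (nat_lit 81042) (PT.nd (nat_lit 80730) (PT.nd (nat_lit 156) (PT.nd (nat_lit 78) (PT.lf (nat_lit 10488) (nat_lit 6) (nat_lit 138) (nat_lit 1) (nat_lit 293) (nat_lit 199) (nat_lit 288)) (PT.lf (nat_lit 10412) (nat_lit 6) (nat_lit 137) (nat_lit 1) (nat_lit 294) (nat_lit 199) (nat_lit 287))) (PT.nd (nat_lit 80496) (PT.lf (nat_lit 10336) (nat_lit 6) (nat_lit 136) (nat_lit 1) (nat_lit 295) (nat_lit 199) (nat_lit 286)) (PT.lf (nat_lit 10716) (nat_lit 6) (nat_lit 141) (nat_lit 3) (nat_lit 286) (nat_lit 200) (nat_lit 294))))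 (PT.nd (nat_lit 156) (PT.nd (nat_lit 78) (PT.lf (nat_lit 10792) (nat_lit 6) (nat_lit 142) (nat_lit 3) (nat_lit 287) (nat_lit 200) (nat_lit 293)) (PT.lf (nat_lit 10868) (nat_lit 6) (nat_lit 143) (nat_lit 3) (nat_lit 288) (nat_lit 200) (nat_lit 292))) (PT.nd (nat_lit 78) (PT.lf (nat_lit 10944) (nat_lit 6) (nat_lit 144) (nat_lit 3) (nat_lit 289) (nat_lit 200) (nat_lit 291)) (PT.lf (nat_lit 11020) (nat_lit 3) (nat_lit 145) (nat_lit 1) (nat_lit 290) (nat_lit 200) (nat_lit 290))))) (PT.nd (nat_lit 80730) (PT.nd (nat_lit 156) (PT.nd (nat_lit 78) (PT.lf (nat_lit 10944) (nat_lit 6) (nat_lit 144) (nat_lit 1) (nat_lit 291) (nat_lit 200) (nat_lit 289)) (PT.lf (nat_lit 10868) (nat_lit 6) (nat_lit 143) (nat_lit 1) (nat_lit 292) (nat_lit 200) (nat_lit 288))) (PT.nd (nat_lit 78) (PT.lf (nat_lit 10792) (nat_lit 6) (nat_lit 142) (nat_lit 1) (nat_lit 293) (nat_lit 200) (nat_lit 287)) (PT.lf (nat_lit 10716) (nat_lit 6) (nat_lit 141) (nat_lit 1) (nat_lit 294) (nat_lit 200) (nat_lit 286))))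 (PT.nd (nat_lit 156) (PT.nd (nat_lit 78) (PT.lf (nat_lit 11096) (nat_lit 6) (nat_lit 146) (nat_lit 3) (nat_lit 285) (nat_lit 201) (nat_lit 294)) (PT.lf (nat_lit 11172) (nat_lit 6) (nat_lit 147) (nat_lit 3) (nat_lit 286) (nat_lit 201) (nat_lit 293))) (PT.nd (nat_lit 78) (PT.lf (nat_lit 11248) (nat_lit 6) (nat_lit 148) (nat_lit 3) (nat_lit 287) (nat_lit 201) (nat_lit 292)) (PT.nd (nat_lit 78) (PT.lf (nat_lit 11324) (nat_lit 6) (nat_lit 149) (nat_lit 3) (nat_lit 288) (nat_lit 201) (nat_lit 291)) (PT.lf (nat_lit 11400) (nat_lit 6) (nat_lit 150) (nat_lit 3) (nat_lit 289) (nat_lit 201) (nat_lit 290))))))) (PT.nd (nat_lit 80964) (PT.nd (nat_lit 312) (PT.nd (nat_lit 156) (PT.nd (nat_lit 78) (PT.lf (nat_lit 11400) (nat_lit 6) (nat_lit 150) (nat_lit 1) (nat_lit 290) (nat_lit 201) (nat_lit 289)) (PT.lf (nat_lit 11324) (nat_lit 6) (nat_lit 149) (nat_lit 1) (nat_lit 291) (nat_lit 201) (nat_lit 288))) (PT.nd (nat_lit 78) (PT.lf (nat_lit 11248) (nat_lit 6) (nat_lit 148) (nat_lit 1)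 (nat_lit 292) (nat_lit 201) (nat_lit 287)) (PT.lf (nat_lit 11172) (nat_lit 6) (nat_lit 147) (nat_lit 1) (nat_lit 293) (nat_lit 201) (nat_lit 286)))) (PT.nd (nat_lit 80496) (PT.nd (nat_lit 80418) (PT.lf (nat_lit 11096) (nat_lit 6) (nat_lit 146) (nat_lit 1) (nat_lit 294) (nat_lit 201) (nat_lit 285)) (PT.lf (nat_lit 11476) (nat_lit 6) (nat_lit 151) (nat_lit 3) (nat_lit 284) (nat_lit 202) (nat_lit 294))) (PT.nd (nat_lit 78) (PT.lf (nat_lit 11552) (nat_lit 6) (nat_lit 152) (nat_lit 3) (nat_lit 285) (nat_lit 202) (nat_lit 293)) (PT.lf (nat_lit 11628) (nat_lit 6) (nat_lit 153) (nat_lit 3) (nat_lit 286) (nat_lit 202) (nat_lit 292))))) (PT.nd (nat_lit 312) (PT.nd (nat_lit 156) (PT.nd (nat_lit 78) (PT.lf (nat_lit 11704) (nat_lit 6) (nat_lit 154) (nat_lit 3) (nat_lit 287) (nat_lit 202) (nat_lit 291)) (PT.lf (nat_lit 11780) (nat_lit 6) (nat_lit 155) (nat_lit 3) (nat_lit 288) (nat_lit 202) (nat_lit 290))) (PT.nd (nat_lit 78) (PT.lf (nat_lit 11856) (nat_lit 3) (nat_lit 156) (nat_lit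 1) (nat_lit 289) (nat_lit 202) (nat_lit 289)) (PT.lf (nat_lit 11780) (nat_lit 6) (nat_lit 155) (nat_lit 1) (nat_lit 290) (nat_lit 202) (nat_lit 288)))) (PT.nd (nat_lit 156) (PT.nd (nat_lit 78) (PT.lf (nat_lit 11704) (nat_lit 6) (nat_lit 154) (nat_lit 1) (nat_lit 291) (nat_lit 202) (nat_lit 287)) (PT.lf (nat_lit 11628) (nat_lit 6) (nat_lit 153) (nat_lit 1) (nat_lit 292) (nat_lit 202) (nat_lit 286))) (PT.nd (nat_lit 78) (PT.lf (nat_lit 11552) (nat_lit 6) (nat_lit 152) (nat_lit 1) (nat_lit 293) (nat_lit 202) (nat_lit 285)) (PT.nd (nat_lit 80418) (PT.lf (nat_lit 11476) (nat_lit 6) (nat_lit 151) (nat_lit 1) (nat_lit 294) (nat_lit 202) (nat_lit 284)) (PT.lf (nat_lit 11932) (nat_lit 6) (nat_lit 157) (nat_lit 3) (nat_lit 284) (nat_lit 203) (nat_lit 293))))))))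
noncomputable def pc8 : PT := (PT.nd (nat_lit 81588) (PT.nd (nat_lit 624) (PT.nd (nat_lit 312) (PT.nd (nat_lit 156) (PT.nd (nat_lit 78) (PT.lf (nat_lit 12008) (nat_lit 6) (nat_lit 158) (nat_lit 3) (nat_lit 285) (nat_lit 203) (nat_lit 292)) (PT.lf (nat_lit 12084) (nat_lit 6) (nat_lit 159) (nat_lit 3) (nat_lit 286) (nat_lit 203) (nat_lit 291))) (PT.nd (nat_lit 78) (PT.lf (nat_lit 12160) (nat_lit 6) (nat_lit 160) (nat_lit 3) (nat_lit 287) (nat_lit 203) (nat_lit 290)) (PT.lf (nat_lit 12236) (nat_lit 6) (nat_lit 161) (nat_lit 3) (nat_lit 288) (nat_lit 203) (nat_lit 289)))) (PT.nd (nat_lit 156) (PT.nd (nat_lit 78) (PT.lf (nat_lit 12236) (nat_lit 6) (nat_lit 161) (nat_lit 1) (nat_lit 289) (nat_lit 203) (nat_lit 288)) (PT.lf (nat_lit 12160) (nat_lit 6) (nat_lit 160) (nat_lit 1) (nat_lit 290) (nat_lit 203) (nat_lit 287))) (PT.nd (nat_lit 78) (PT.lf (nat_lit 12084) (nat_lit 6) (nat_lit 159) (nat_lit 1) (nat_lit 291) (nat_lit 203) (nat_lit 286)) (PT.lf (nat_lit 12008) (nat_lit 6)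 (nat_lit 158) (nat_lit 1) (nat_lit 292) (nat_lit 203) (nat_lit 285))))) (PT.nd (nat_lit 80652) (PT.nd (nat_lit 80496) (PT.nd (nat_lit 80418) (PT.lf (nat_lit 11932) (nat_lit 6) (nat_lit 157) (nat_lit 1) (nat_lit 293) (nat_lit 203) (nat_lit 284)) (PT.lf (nat_lit 12312) (nat_lit 6) (nat_lit 162) (nat_lit 3) (nat_lit 283) (nat_lit 204) (nat_lit 293))) (PT.nd (nat_lit 78) (PT.lf (nat_lit 12388) (nat_lit 6) (nat_lit 163) (nat_lit 3) (nat_lit 284) (nat_lit 204) (nat_lit 292)) (PT.lf (nat_lit 12464) (nat_lit 6) (nat_lit 164) (nat_lit 3) (nat_lit 285) (nat_lit 204) (nat_lit 291)))) (PT.nd (nat_lit 156) (PT.nd (nat_lit 78) (PT.lf (nat_lit 12540) (nat_lit 6) (nat_lit 165) (nat_lit 3) (nat_lit 286) (nat_lit 204) (nat_lit 290)) (PT.lf (nat_lit 12616) (nat_lit 6) (nat_lit 166) (nat_lit 3) (nat_lit 287) (nat_lit 204) (nat_lit 289))) (PT.nd (nat_lit 78) (PT.lf (nat_lit 12692) (nat_lit 3) (nat_lit 167) (nat_lit 1) (nat_lit 288) (nat_lit 204) (nat_lit 288)) (PT.lf (nat_lit 12616) (nat_lit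 6) (nat_lit 166) (nat_lit 1) (nat_lit 289) (nat_lit 204) (nat_lit 287)))))) (PT.nd (nat_lit 80886) (PT.nd (nat_lit 80574) (PT.nd (nat_lit 156) (PT.nd (nat_lit 78) (PT.lf (nat_lit 12540) (nat_lit 6) (nat_lit 165) (nat_lit 1) (nat_lit 290) (nat_lit 204) (nat_lit 286)) (PT.lf (nat_lit 12464) (nat_lit 6) (nat_lit 164) (nat_lit 1) (nat_lit 291) (nat_lit 204) (nat_lit 285))) (PT.nd (nat_lit 78) (PT.lf (nat_lit 12388) (nat_lit 6) (nat_lit 163) (nat_lit 1) (nat_lit 292) (nat_lit 204) (nat_lit 284)) (PT.lf (nat_lit 12312) (nat_lit 6) (nat_lit 162) (nat_lit 1) (nat_lit 293) (nat_lit 204) (nat_lit 283)))) (PT.nd (nat_lit 156) (PT.nd (nat_lit 78) (PT.lf (nat_lit 12768) (nat_lit 6) (nat_lit 168) (nat_lit 3) (nat_lit 282) (nat_lit 205) (nat_lit 293)) (PT.lf (nat_lit 12844) (nat_lit 6) (nat_lit 169) (nat_lit 3) (nat_lit 283) (nat_lit 205) (nat_lit 292))) (PT.nd (nat_lit 78) (PT.lf (nat_lit 12920) (nat_lit 6) (nat_lit 170) (nat_lit 3) (nat_lit 284) (nat_lit 205) (nat_lit 291)) (PT.lf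 (nat_lit 12996) (nat_lit 6) (nat_lit 171) (nat_lit 3) (nat_lit 285) (nat_lit 205) (nat_lit 290))))) (PT.nd (nat_lit 312) (PT.nd (nat_lit 156) (PT.nd (nat_lit 78) (PT.lf (nat_lit 13072) (nat_lit 6) (nat_lit 172) (nat_lit 3) (nat_lit 286) (nat_lit 205) (nat_lit 289)) (PT.lf (nat_lit 13148) (nat_lit 6) (nat_lit 173) (nat_lit 3) (nat_lit 287) (nat_lit 205) (nat_lit 288))) (PT.nd (nat_lit 78) (PT.lf (nat_lit 13148) (nat_lit 6) (nat_lit 173) (nat_lit 1) (nat_lit 288) (nat_lit 205) (nat_lit 287)) (PT.lf (nat_lit 13072) (nat_lit 6) (nat_lit 172) (nat_lit 1) (nat_lit 289) (nat_lit 205) (nat_lit 286)))) (PT.nd (nat_lit 156) (PT.nd (nat_lit 78) (PT.lf (nat_lit 12996) (nat_lit 6) (nat_lit 171) (nat_lit 1) (nat_lit 290) (nat_lit 205) (nat_lit 285)) (PT.lf (nat_lit 12920) (nat_lit 6) (nat_lit 170) (nat_lit 1) (nat_lit 291) (nat_lit 205) (nat_lit 284))) (PT.nd (nat_lit 78) (PT.lf (nat_lit 12844) (nat_lit 6) (nat_lit 169) (nat_lit 1) (nat_lit 292) (nat_lit 205) (nat_lit 283)) (PT.nd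 (nat_lit 80340) (PT.lf (nat_lit 12768) (nat_lit 6) (nat_lit 168) (nat_lit 1) (nat_lit 293) (nat_lit 205) (nat_lit 282)) (PT.lf (nat_lit 13224) (nat_lit 6) (nat_lit 174) (nat_lit 3) (nat_lit 282) (nat_lit 206) (nat_lit 292))))))))
noncomputable def pc9 : PT := (PT.nd (nat_lit 81510) (PT.nd (nat_lit 624) (PT.nd (nat_lit 312) (PT.nd (nat_lit 156) (PT.nd (nat_lit 78) (PT.lf (nat_lit 13300) (nat_lit 6) (nat_lit 175) (nat_lit 3) (nat_lit 283) (nat_lit 206) (nat_lit 291)) (PT.lf (nat_lit 13376) (nat_lit 6) (nat_lit 176) (nat_lit 3) (nat_lit 284) (nat_lit 206) (nat_lit 290))) (PT.nd (nat_lit 78) (PT.lf (nat_lit 13452) (nat_lit 6) (nat_lit 177) (nat_lit 3) (nat_lit 285) (nat_lit 206) (nat_lit 289)) (PT.lf (nat_lit 13528) (nat_lit 6) (nat_lit 178) (nat_lit 3) (nat_lit 286) (nat_lit 206) (nat_lit 288)))) (PT.nd (nat_lit 156) (PT.nd (nat_lit 78) (PT.lf (nat_lit 13604) (nat_lit 3) (nat_lit 179) (nat_lit 1) (nat_lit 287) (nat_lit 206) (nat_lit 287)) (PT.lf (nat_lit 13528) (nat_lit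 6) (nat_lit 178) (nat_lit 1) (nat_lit 288) (nat_lit 206) (nat_lit 286))) (PT.nd (nat_lit 78) (PT.lf (nat_lit 13452) (nat_lit 6) (nat_lit 177) (nat_lit 1) (nat_lit 289) (nat_lit 206) (nat_lit 285)) (PT.lf (nat_lit 13376) (nat_lit 6) (nat_lit 176) (nat_lit 1) (nat_lit 290) (nat_lit 206) (nat_lit 284))))) (PT.nd (nat_lit 80574) (PT.nd (nat_lit 80418) (PT.nd (nat_lit 78) (PT.lf (nat_lit 13300) (nat_lit 6) (nat_lit 175) (nat_lit 1) (nat_lit 291) (nat_lit 206) (nat_lit 283)) (PT.lf (nat_lit 13224) (nat_lit 6) (nat_lit 174) (nat_lit 1) (nat_lit 292) (nat_lit 206) (nat_lit 282))) (PT.nd (nat_lit 78) (PT.lf (nat_lit 13680) (nat_lit 6) (nat_lit 180) (nat_lit 3) (nat_lit 281) (nat_lit 207) (nat_lit 292)) (PT.lf (nat_lit 13756) (nat_lit 6) (nat_lit 181) (nat_lit 3) (nat_lit 282) (nat_lit 207) (nat_lit 291)))) (PT.nd (nat_lit 156) (PT.nd (nat_lit 78) (PT.lf (nat_lit 13832) (nat_lit 6) (nat_lit 182) (nat_lit 3) (nat_lit 283) (nat_lit 207) (nat_lit 290)) (PT.lf (nat_lit 13908) (nat_lit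 6) (nat_lit 183) (nat_lit 3) (nat_lit 284) (nat_lit 207) (nat_lit 289))) (PT.nd (nat_lit 78) (PT.lf (nat_lit 13984) (nat_lit 6) (nat_lit 184) (nat_lit 3) (nat_lit 285) (nat_lit 207) (nat_lit 288)) (PT.lf (nat_lit 14060) (nat_lit 6) (nat_lit 185) (nat_lit 3) (nat_lit 286) (nat_lit 207) (nat_lit 287)))))) (PT.nd (nat_lit 80886) (PT.nd (nat_lit 312) (PT.nd (nat_lit 156) (PT.nd (nat_lit 78) (PT.lf (nat_lit 14060) (nat_lit 6) (nat_lit 185) (nat_lit 1) (nat_lit 287) (nat_lit 207) (nat_lit 286)) (PT.lf (nat_lit 13984) (nat_lit 6) (nat_lit 184) (nat_lit 1) (nat_lit 288) (nat_lit 207) (nat_lit 285))) (PT.nd (nat_lit 78) (PT.lf (nat_lit 13908) (nat_lit 6) (nat_lit 183) (nat_lit 1) (nat_lit 289) (nat_lit 207) (nat_lit 284)) (PT.lf (nat_lit 13832) (nat_lit 6) (nat_lit 182) (nat_lit 1) (nat_lit 290) (nat_lit 207) (nat_lit 283)))) (PT.nd (nat_lit 80418) (PT.nd (nat_lit 78) (PT.lf (nat_lit 13756) (nat_lit 6) (nat_lit 181) (nat_lit 1) (nat_lit 291) (nat_lit 207) (nat_lit 282)) (PT.lf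 (nat_lit 13680) (nat_lit 6) (nat_lit 180) (nat_lit 1) (nat_lit 292) (nat_lit 207) (nat_lit 281))) (PT.nd (nat_lit 78) (PT.lf (nat_lit 14212) (nat_lit 6) (nat_lit 187) (nat_lit 3) (nat_lit 281) (nat_lit 208) (nat_lit 291)) (PT.lf (nat_lit 14288) (nat_lit 6) (nat_lit 188) (nat_lit 3) (nat_lit 282) (nat_lit 208) (nat_lit 290))))) (PT.nd (nat_lit 312) (PT.nd (nat_lit 156) (PT.nd (nat_lit 78) (PT.lf (nat_lit 14364) (nat_lit 6) (nat_lit 189) (nat_lit 3) (nat_lit 283) (nat_lit 208) (nat_lit 289)) (PT.lf (nat_lit 14440) (nat_lit 6) (nat_lit 190) (nat_lit 3) (nat_lit 284) (nat_lit 208) (nat_lit 288))) (PT.nd (nat_lit 78) (PT.lf (nat_lit 14516) (nat_lit 6) (nat_lit 191) (nat_lit 3) (nat_lit 285) (nat_lit 208) (nat_lit 287)) (PT.lf (nat_lit 14592) (nat_lit 3) (nat_lit 192) (nat_lit 1) (nat_lit 286) (nat_lit 208) (nat_lit 286)))) (PT.nd (nat_lit 156) (PT.nd (nat_lit 78) (PT.lf (nat_lit 14516) (nat_lit 6) (nat_lit 191) (nat_lit 1) (nat_lit 287) (nat_lit 208) (nat_lit 285)) (PT.lf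 (nat_lit 14440) (nat_lit 6) (nat_lit 190) (nat_lit 1) (nat_lit 288) (nat_lit 208) (nat_lit 284))) (PT.nd (nat_lit 78) (PT.lf (nat_lit 14364) (nat_lit 6) (nat_lit 189) (nat_lit 1) (nat_lit 289) (nat_lit 208) (nat_lit 283)) (PT.nd (nat_lit 78) (PT.lf (nat_lit 14288) (nat_lit 6) (nat_lit 188) (nat_lit 1) (nat_lit 290) (nat_lit 208) (nat_lit 282)) (PT.lf (nat_lit 14212) (nat_lit 6) (nat_lit 187) (nat_lit 1) (nat_lit 291) (nat_lit 208) (nat_lit 281))))))))
noncomputable def pc10 : PT := (PT.nd (nat_lit 81432) (PT.nd (nat_lit 624) (PT.nd (nat_lit 312) (PT.nd (nat_lit 156) (PT.nd (nat_lit 78) (PT.lf (nat_lit 14668) (nat_lit 6) (nat_lit 193) (nat_lit 3) (nat_lit 280) (nat_lit 209) (nat_lit 291)) (PT.lf (nat_lit 14744) (nat_lit 6) (nat_lit 194) (nat_lit 3) (nat_lit 281) (nat_lit 209) (nat_lit 290))) (PT.nd (nat_lit 78) (PT.lf (nat_lit 14820) (nat_lit 6) (nat_lit 195) (nat_lit 3) (nat_lit 282) (nat_lit 209) (nat_lit 289)) (PT.lf (nat_lit 14896) (nat_lit 6) (nat_lit 196) (nat_lit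 3) (nat_lit 283) (nat_lit 209) (nat_lit 288)))) (PT.nd (nat_lit 156) (PT.nd (nat_lit 78) (PT.lf (nat_lit 14972) (nat_lit 6) (nat_lit 197) (nat_lit 3) (nat_lit 284) (nat_lit 209) (nat_lit 287)) (PT.lf (nat_lit 15048) (nat_lit 6) (nat_lit 198) (nat_lit 3) (nat_lit 285) (nat_lit 209) (nat_lit 286))) (PT.nd (nat_lit 78) (PT.lf (nat_lit 15048) (nat_lit 6) (nat_lit 198) (nat_lit 1) (nat_lit 286) (nat_lit 209) (nat_lit 285)) (PT.lf (nat_lit 14972) (nat_lit 6) (nat_lit 197) (nat_lit 1) (nat_lit 287) (nat_lit 209) (nat_lit 284))))) (PT.nd (nat_lit 80496) (PT.nd (nat_lit 156) (PT.nd (nat_lit 78) (PT.lf (nat_lit 14896) (nat_lit 6) (nat_lit 196) (nat_lit 1) (nat_lit 288) (nat_lit 209) (nat_lit 283)) (PT.lf (nat_lit 14820) (nat_lit 6) (nat_lit 195) (nat_lit 1) (nat_lit 289) (nat_lit 209) (nat_lit 282))) (PT.nd (nat_lit 78) (PT.lf (nat_lit 14744) (nat_lit 6) (nat_lit 194) (nat_lit 1) (nat_lit 290) (nat_lit 209) (nat_lit 281)) (PT.lf (nat_lit 14668) (nat_lit 6) (nat_lit 193) (nat_lit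 1) (nat_lit 291) (nat_lit 209) (nat_lit 280)))) (PT.nd (nat_lit 156) (PT.nd (nat_lit 78) (PT.lf (nat_lit 15124) (nat_lit 6) (nat_lit 199) (nat_lit 3) (nat_lit 279) (nat_lit 210) (nat_lit 291)) (PT.lf (nat_lit 15200) (nat_lit 6) (nat_lit 200) (nat_lit 3) (nat_lit 280) (nat_lit 210) (nat_lit 290))) (PT.nd (nat_lit 78) (PT.lf (nat_lit 15276) (nat_lit 6) (nat_lit 201) (nat_lit 3) (nat_lit 281) (nat_lit 210) (nat_lit 289)) (PT.lf (nat_lit 15352) (nat_lit 6) (nat_lit 202) (nat_lit 3) (nat_lit 282) (nat_lit 210) (nat_lit 288)))))) (PT.nd (nat_lit 624) (PT.nd (nat_lit 312) (PT.nd (nat_lit 156) (PT.nd (nat_lit 78) (PT.lf (nat_lit 15428) (nat_lit 6) (nat_lit 203) (nat_lit 3) (nat_lit 283) (nat_lit 210) (nat_lit 287)) (PT.lf (nat_lit 15504) (nat_lit 6) (nat_lit 204) (nat_lit 3) (nat_lit 284) (nat_lit 210) (nat_lit 286))) (PT.nd (nat_lit 78) (PT.lf (nat_lit 15580) (nat_lit 3) (nat_lit 205) (nat_lit 1) (nat_lit 285) (nat_lit 210) (nat_lit 285)) (PT.lf (nat_lit 15504) (nat_lit 6) (nat_lit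 204) (nat_lit 1) (nat_lit 286) (nat_lit 210) (nat_lit 284)))) (PT.nd (nat_lit 156) (PT.nd (nat_lit 78) (PT.lf (nat_lit 15428) (nat_lit 6) (nat_lit 203) (nat_lit 1) (nat_lit 287) (nat_lit 210) (nat_lit 283)) (PT.lf (nat_lit 15352) (nat_lit 6) (nat_lit 202) (nat_lit 1) (nat_lit 288) (nat_lit 210) (nat_lit 282))) (PT.nd (nat_lit 78) (PT.lf (nat_lit 15276) (nat_lit 6) (nat_lit 201) (nat_lit 1) (nat_lit 289) (nat_lit 210) (nat_lit 281)) (PT.lf (nat_lit 15200) (nat_lit 6) (nat_lit 200) (nat_lit 1) (nat_lit 290) (nat_lit 210) (nat_lit 280))))) (PT.nd (nat_lit 80418) (PT.nd (nat_lit 80262) (PT.nd (nat_lit 80184) (PT.lf (nat_lit 15124) (nat_lit 6) (nat_lit 199) (nat_lit 1) (nat_lit 291) (nat_lit 210) (nat_lit 279)) (PT.lf (nat_lit 15656) (nat_lit 6) (nat_lit 206) (nat_lit 3) (nat_lit 278) (nat_lit 211) (nat_lit 291))) (PT.nd (nat_lit 78) (PT.lf (nat_lit 15732) (nat_lit 6) (nat_lit 207) (nat_lit 3) (nat_lit 279) (nat_lit 211) (nat_lit 290)) (PT.lf (nat_lit 15808) (nat_lit 6) (nat_lit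 208) (nat_lit 3) (nat_lit 280) (nat_lit 211) (nat_lit 289)))) (PT.nd (nat_lit 156) (PT.nd (nat_lit 78) (PT.lf (nat_lit 15884) (nat_lit 6) (nat_lit 209) (nat_lit 3) (nat_lit 281) (nat_lit 211) (nat_lit 288)) (PT.lf (nat_lit 15960) (nat_lit 6) (nat_lit 210) (nat_lit 3) (nat_lit 282) (nat_lit 211) (nat_lit 287))) (PT.nd (nat_lit 78) (PT.lf (nat_lit 16036) (nat_lit 6) (nat_lit 211) (nat_lit 3) (nat_lit 283) (nat_lit 211) (nat_lit 286)) (PT.nd (nat_lit 78) (PT.lf (nat_lit 16112) (nat_lit 6) (nat_lit 212) (nat_lit 3) (nat_lit 284) (nat_lit 211) (nat_lit 285)) (PT.lf (nat_lit 16112) (nat_lit 6) (nat_lit 212) (nat_lit 1) (nat_lit 285) (nat_lit 211) (nat_lit 284))))))))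
noncomputable def pc11 : PT := (PT.nd (nat_lit 81354) (PT.nd (nat_lit 80730) (PT.nd (nat_lit 312) (PT.nd (nat_lit 156) (PT.nd (nat_lit 78) (PT.lf (nat_lit 16036) (nat_lit 6) (nat_lit 211) (nat_lit 1) (nat_lit 286) (nat_lit 211) (nat_lit 283)) (PT.lf (nat_lit 15960) (nat_lit 6) (nat_lit 210) (nat_lit 1) (nat_lit 287) (nat_lit 211) (nat_lit 282))) (PT.nd (nat_lit 78) (PT.lf (nat_lit 15884) (nat_lit 6) (nat_lit 209) (nat_lit 1) (nat_lit 288) (nat_lit 211) (nat_lit 281)) (PT.lf (nat_lit 15808) (nat_lit 6) (nat_lit 208) (nat_lit 1) (nat_lit 289) (nat_lit 211) (nat_lit 280)))) (PT.nd (nat_lit 80262) (PT.nd (nat_lit 78) (PT.lf (nat_lit 15732) (nat_lit 6) (nat_lit 207) (nat_lit 1) (nat_lit 290) (nat_lit 211) (nat_lit 279)) (PT.lf (nat_lit 15656) (nat_lit 6) (nat_lit 206) (nat_lit 1) (nat_lit 291) (nat_lit 211) (nat_lit 278))) (PT.nd (nat_lit 78) (PT.lf (nat_lit 16188) (nat_lit 6) (nat_lit 213) (nat_lit 3) (nat_lit 278) (nat_lit 212) (nat_lit 290)) (PT.lf (nat_lit 16264) (nat_lit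 6) (nat_lit 214) (nat_lit 3) (nat_lit 279) (nat_lit 212) (nat_lit 289))))) (PT.nd (nat_lit 312) (PT.nd (nat_lit 156) (PT.nd (nat_lit 78) (PT.lf (nat_lit 16340) (nat_lit 6) (nat_lit 215) (nat_lit 3) (nat_lit 280) (nat_lit 212) (nat_lit 288)) (PT.lf (nat_lit 16416) (nat_lit 6) (nat_lit 216) (nat_lit 3) (nat_lit 281) (nat_lit 212) (nat_lit 287))) (PT.nd (nat_lit 78) (PT.lf (nat_lit 16492) (nat_lit 6) (nat_lit 217) (nat_lit 3) (nat_lit 282) (nat_lit 212) (nat_lit 286)) (PT.lf (nat_lit 16568) (nat_lit 6) (nat_lit 218) (nat_lit 3) (nat_lit 283) (nat_lit 212) (nat_lit 285)))) (PT.nd (nat_lit 156) (PT.nd (nat_lit 78) (PT.lf (nat_lit 16644) (nat_lit 3) (nat_lit 219) (nat_lit 1) (nat_lit 284) (nat_lit 212) (nat_lit 284)) (PT.lf (nat_lit 16568) (nat_lit 6) (nat_lit 218) (nat_lit 1) (nat_lit 285) (nat_lit 212) (nat_lit 283))) (PT.nd (nat_lit 78) (PT.lf (nat_lit 16492) (nat_lit 6) (nat_lit 217) (nat_lit 1) (nat_lit 286) (nat_lit 212) (nat_lit 282)) (PT.lf (nat_lit 16416) (nat_lit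 6) (nat_lit 216) (nat_lit 1) (nat_lit 287) (nat_lit 212) (nat_lit 281)))))) (PT.nd (nat_lit 80730) (PT.nd (nat_lit 80418) (PT.nd (nat_lit 156) (PT.nd (nat_lit 78) (PT.lf (nat_lit 16340) (nat_lit 6) (nat_lit 215) (nat_lit 1) (nat_lit 288) (nat_lit 212) (nat_lit 280)) (PT.lf (nat_lit 16264) (nat_lit 6) (nat_lit 214) (nat_lit 1) (nat_lit 289) (nat_lit 212) (nat_lit 279))) (PT.nd (nat_lit 80184) (PT.lf (nat_lit 16188) (nat_lit 6) (nat_lit 213) (nat_lit 1) (nat_lit 290) (nat_lit 212) (nat_lit 278)) (PT.lf (nat_lit 16720) (nat_lit 6) (nat_lit 220) (nat_lit 3) (nat_lit 277) (nat_lit 213) (nat_lit 290)))) (PT.nd (nat_lit 156) (PT.nd (nat_lit 78) (PT.lf (nat_lit 16796) (nat_lit 6) (nat_lit 221) (nat_lit 3) (nat_lit 278) (nat_lit 213) (nat_lit 289)) (PT.lf (nat_lit 16872) (nat_lit 6) (nat_lit 222) (nat_lit 3) (nat_lit 279) (nat_lit 213) (nat_lit 288))) (PT.nd (nat_lit 78) (PT.lf (nat_lit 16948) (nat_lit 6) (nat_lit 223) (nat_lit 3) (nat_lit 280) (nat_lit 213) (nat_lit 287)) (PT.lf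 (nat_lit 17024) (nat_lit 6) (nat_lit 224) (nat_lit 3) (nat_lit 281) (nat_lit 213) (nat_lit 286))))) (PT.nd (nat_lit 312) (PT.nd (nat_lit 156) (PT.nd (nat_lit 78) (PT.lf (nat_lit 17100) (nat_lit 6) (nat_lit 225) (nat_lit 3) (nat_lit 282) (nat_lit 213) (nat_lit 285)) (PT.lf (nat_lit 17176) (nat_lit 6) (nat_lit 226) (nat_lit 3) (nat_lit 283) (nat_lit 213) (nat_lit 284))) (PT.nd (nat_lit 78) (PT.lf (nat_lit 17176) (nat_lit 6) (nat_lit 226) (nat_lit 1) (nat_lit 284) (nat_lit 213) (nat_lit 283)) (PT.lf (nat_lit 17100) (nat_lit 6) (nat_lit 225) (nat_lit 1) (nat_lit 285) (nat_lit 213) (nat_lit 282)))) (PT.nd (nat_lit 156) (PT.nd (nat_lit 78) (PT.lf (nat_lit 17024) (nat_lit 6) (nat_lit 224) (nat_lit 1) (nat_lit 286) (nat_lit 213) (nat_lit 281)) (PT.lf (nat_lit 16948) (nat_lit 6) (nat_lit 223) (nat_lit 1) (nat_lit 287) (nat_lit 213) (nat_lit 280))) (PT.nd (nat_lit 78) (PT.lf (nat_lit 16872) (nat_lit 6) (nat_lit 222) (nat_lit 1) (nat_lit 288) (nat_lit 213) (nat_lit 279)) (PT.nd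 (nat_lit 78) (PT.lf (nat_lit 16796) (nat_lit 6) (nat_lit 221) (nat_lit 1) (nat_lit 289) (nat_lit 213) (nat_lit 278)) (PT.lf (nat_lit 16720) (nat_lit 6) (nat_lit 220) (nat_lit 1) (nat_lit 290) (nat_lit 213) (nat_lit 277))))))))
noncomputable def pc12 : PT := (PT.nd (nat_lit 81276) (PT.nd (nat_lit 624) (PT.nd (nat_lit 312) (PT.nd (nat_lit 156) (PT.nd (nat_lit 78) (PT.lf (nat_lit 17252) (nat_lit 6) (nat_lit 227) (nat_lit 3) (nat_lit 276) (nat_lit 214) (nat_lit 290)) (PT.lf (nat_lit 17328) (nat_lit 6) (nat_lit 228) (nat_lit 3) (nat_lit 277) (nat_lit 214) (nat_lit 289))) (PT.nd (nat_lit 78) (PT.lf (nat_lit 17404) (nat_lit 6) (nat_lit 229) (nat_lit 3) (nat_lit 278) (nat_lit 214) (nat_lit 288)) (PT.lf (nat_lit 17480) (nat_lit 6) (nat_lit 230) (nat_lit 3) (nat_lit 279) (nat_lit 214) (nat_lit 287)))) (PT.nd (nat_lit 156) (PT.nd (nat_lit 78) (PT.lf (nat_lit 17556) (nat_lit 6) (nat_lit 231) (nat_lit 3) (nat_lit 280) (nat_lit 214) (nat_lit 286)) (PT.lf (nat_lit 17632) (nat_lit 6)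 (nat_lit 232) (nat_lit 3) (nat_lit 281) (nat_lit 214) (nat_lit 285))) (PT.nd (nat_lit 78) (PT.lf (nat_lit 17708) (nat_lit 6) (nat_lit 233) (nat_lit 3) (nat_lit 282) (nat_lit 214) (nat_lit 284)) (PT.lf (nat_lit 17784) (nat_lit 3) (nat_lit 234) (nat_lit 1) (nat_lit 283) (nat_lit 214) (nat_lit 283))))) (PT.nd (nat_lit 312) (PT.nd (nat_lit 156) (PT.nd (nat_lit 78) (PT.lf (nat_lit 17708) (nat_lit 6) (nat_lit 233) (nat_lit 1) (nat_lit 284) (nat_lit 214) (nat_lit 282)) (PT.lf (nat_lit 17632) (nat_lit 6) (nat_lit 232) (nat_lit 1) (nat_lit 285) (nat_lit 214) (nat_lit 281))) (PT.nd (nat_lit 78) (PT.lf (nat_lit 17556) (nat_lit 6) (nat_lit 231) (nat_lit 1) (nat_lit 286) (nat_lit 214) (nat_lit 280)) (PT.lf (nat_lit 17480) (nat_lit 6) (nat_lit 230) (nat_lit 1) (nat_lit 287) (nat_lit 214) (nat_lit 279)))) (PT.nd (nat_lit 156) (PT.nd (nat_lit 78) (PT.lf (nat_lit 17404) (nat_lit 6) (nat_lit 229) (nat_lit 1) (nat_lit 288) (nat_lit 214) (nat_lit 278)) (PT.lf (nat_lit 17328) (nat_lit 6)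 (nat_lit 228) (nat_lit 1) (nat_lit 289) (nat_lit 214) (nat_lit 277))) (PT.nd (nat_lit 80106) (PT.lf (nat_lit 17252) (nat_lit 6) (nat_lit 227) (nat_lit 1) (nat_lit 290) (nat_lit 214) (nat_lit 276)) (PT.lf (nat_lit 17860) (nat_lit 6) (nat_lit 235) (nat_lit 3) (nat_lit 276) (nat_lit 215) (nat_lit 289)))))) (PT.nd (nat_lit 624) (PT.nd (nat_lit 312) (PT.nd (nat_lit 156) (PT.nd (nat_lit 78) (PT.lf (nat_lit 17936) (nat_lit 6) (nat_lit 236) (nat_lit 3) (nat_lit 277) (nat_lit 215) (nat_lit 288)) (PT.lf (nat_lit 18012) (nat_lit 6) (nat_lit 237) (nat_lit 3) (nat_lit 278) (nat_lit 215) (nat_lit 287))) (PT.nd (nat_lit 78) (PT.lf (nat_lit 18088) (nat_lit 6) (nat_lit 238) (nat_lit 3) (nat_lit 279) (nat_lit 215) (nat_lit 286)) (PT.lf (nat_lit 18164) (nat_lit 6) (nat_lit 239) (nat_lit 3) (nat_lit 280) (nat_lit 215) (nat_lit 285)))) (PT.nd (nat_lit 156) (PT.nd (nat_lit 78) (PT.lf (nat_lit 18240) (nat_lit 6) (nat_lit 240) (nat_lit 3) (nat_lit 281) (nat_lit 215) (nat_lit 284)) (PT.lf (nat_lit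 18316) (nat_lit 6) (nat_lit 241) (nat_lit 3) (nat_lit 282) (nat_lit 215) (nat_lit 283))) (PT.nd (nat_lit 78) (PT.lf (nat_lit 18316) (nat_lit 6) (nat_lit 241) (nat_lit 1) (nat_lit 283) (nat_lit 215) (nat_lit 282)) (PT.lf (nat_lit 18240) (nat_lit 6) (nat_lit 240) (nat_lit 1) (nat_lit 284) (nat_lit 215) (nat_lit 281))))) (PT.nd (nat_lit 312) (PT.nd (nat_lit 156) (PT.nd (nat_lit 78) (PT.lf (nat_lit 18164) (nat_lit 6) (nat_lit 239) (nat_lit 1) (nat_lit 285) (nat_lit 215) (nat_lit 280)) (PT.lf (nat_lit 18088) (nat_lit 6) (nat_lit 238) (nat_lit 1) (nat_lit 286) (nat_lit 215) (nat_lit 279))) (PT.nd (nat_lit 78) (PT.lf (nat_lit 18012) (nat_lit 6) (nat_lit 237) (nat_lit 1) (nat_lit 287) (nat_lit 215) (nat_lit 278)) (PT.lf (nat_lit 17936) (nat_lit 6) (nat_lit 236) (nat_lit 1) (nat_lit 288) (nat_lit 215) (nat_lit 277)))) (PT.nd (nat_lit 80184) (PT.nd (nat_lit 80106) (PT.lf (nat_lit 17860) (nat_lit 6) (nat_lit 235) (nat_lit 1) (nat_lit 289) (nat_lit 215) (nat_lit 276)) (PT.lf (nat_lit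 18392) (nat_lit 6) (nat_lit 242) (nat_lit 3) (nat_lit 275) (nat_lit 216) (nat_lit 289))) (PT.nd (nat_lit 78) (PT.lf (nat_lit 18468) (nat_lit 6) (nat_lit 243) (nat_lit 3) (nat_lit 276) (nat_lit 216) (nat_lit 288)) (PT.nd (nat_lit 78) (PT.lf (nat_lit 18544) (nat_lit 6) (nat_lit 244) (nat_lit 3) (nat_lit 277) (nat_lit 216) (nat_lit 287)) (PT.lf (nat_lit 18620) (nat_lit 6) (nat_lit 245) (nat_lit 3) (nat_lit 278) (nat_lit 216) (nat_lit 286))))))))
noncomputable def pc13 : PT := (PT.nd (nat_lit 81198) (PT.nd (nat_lit 624) (PT.nd (nat_lit 312) (PT.nd (nat_lit 156) (PT.nd (nat_lit 78) (PT.lf (nat_lit 18696) (nat_lit 6) (nat_lit 246) (nat_lit 3) (nat_lit 279) (nat_lit 216) (nat_lit 285)) (PT.lf (nat_lit 18772) (nat_lit 6) (nat_lit 247) (nat_lit 3) (nat_lit 280) (nat_lit 216) (nat_lit 284))) (PT.nd (nat_lit 78) (PT.lf (nat_lit 18848) (nat_lit 6) (nat_lit 248) (nat_lit 3) (nat_lit 281) (nat_lit 216) (nat_lit 283)) (PT.lf (nat_lit 18924) (nat_lit 3) (nat_lit 249) (nat_lit 1) (nat_lit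 282) (nat_lit 216) (nat_lit 282)))) (PT.nd (nat_lit 156) (PT.nd (nat_lit 78) (PT.lf (nat_lit 18848) (nat_lit 6) (nat_lit 248) (nat_lit 1) (nat_lit 283) (nat_lit 216) (nat_lit 281)) (PT.lf (nat_lit 18772) (nat_lit 6) (nat_lit 247) (nat_lit 1) (nat_lit 284) (nat_lit 216) (nat_lit 280))) (PT.nd (nat_lit 78) (PT.lf (nat_lit 18696) (nat_lit 6) (nat_lit 246) (nat_lit 1) (nat_lit 285) (nat_lit 216) (nat_lit 279)) (PT.lf (nat_lit 18620) (nat_lit 6) (nat_lit 245) (nat_lit 1) (nat_lit 286) (nat_lit 216) (nat_lit 278))))) (PT.nd (nat_lit 80262) (PT.nd (nat_lit 156) (PT.nd (nat_lit 78) (PT.lf (nat_lit 18544) (nat_lit 6) (nat_lit 244) (nat_lit 1) (nat_lit 287) (nat_lit 216) (nat_lit 277)) (PT.lf (nat_lit 18468) (nat_lit 6) (nat_lit 243) (nat_lit 1) (nat_lit 288) (nat_lit 216) (nat_lit 276))) (PT.nd (nat_lit 80028) (PT.lf (nat_lit 18392) (nat_lit 6) (nat_lit 242) (nat_lit 1) (nat_lit 289) (nat_lit 216) (nat_lit 275)) (PT.lf (nat_lit 19000) (nat_lit 6) (nat_lit 250) (nat_lit 3) (nat_lit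 274) (nat_lit 217) (nat_lit 289)))) (PT.nd (nat_lit 156) (PT.nd (nat_lit 78) (PT.lf (nat_lit 19076) (nat_lit 6) (nat_lit 251) (nat_lit 3) (nat_lit 275) (nat_lit 217) (nat_lit 288)) (PT.lf (nat_lit 19152) (nat_lit 6) (nat_lit 252) (nat_lit 3) (nat_lit 276) (nat_lit 217) (nat_lit 287))) (PT.nd (nat_lit 78) (PT.lf (nat_lit 19228) (nat_lit 6) (nat_lit 253) (nat_lit 3) (nat_lit 277) (nat_lit 217) (nat_lit 286)) (PT.lf (nat_lit 19304) (nat_lit 6) (nat_lit 254) (nat_lit 3) (nat_lit 278) (nat_lit 217) (nat_lit 285)))))) (PT.nd (nat_lit 624) (PT.nd (nat_lit 312) (PT.nd (nat_lit 156) (PT.nd (nat_lit 78) (PT.lf (nat_lit 19380) (nat_lit 6) (nat_lit 255) (nat_lit 3) (nat_lit 279) (nat_lit 217) (nat_lit 284)) (PT.lf (nat_lit 19456) (nat_lit 6) (nat_lit 256) (nat_lit 3) (nat_lit 280) (nat_lit 217) (nat_lit 283))) (PT.nd (nat_lit 78) (PT.lf (nat_lit 19532) (nat_lit 6) (nat_lit 257) (nat_lit 3) (nat_lit 281) (nat_lit 217) (nat_lit 282)) (PT.lf (nat_lit 19532) (nat_lit 6) (nat_lit 257)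 (nat_lit 1) (nat_lit 282) (nat_lit 217) (nat_lit 281)))) (PT.nd (nat_lit 156) (PT.nd (nat_lit 78) (PT.lf (nat_lit 19456) (nat_lit 6) (nat_lit 256) (nat_lit 1) (nat_lit 283) (nat_lit 217) (nat_lit 280)) (PT.lf (nat_lit 19380) (nat_lit 6) (nat_lit 255) (nat_lit 1) (nat_lit 284) (nat_lit 217) (nat_lit 279))) (PT.nd (nat_lit 78) (PT.lf (nat_lit 19304) (nat_lit 6) (nat_lit 254) (nat_lit 1) (nat_lit 285) (nat_lit 217) (nat_lit 278)) (PT.lf (nat_lit 19228) (nat_lit 6) (nat_lit 253) (nat_lit 1) (nat_lit 286) (nat_lit 217) (nat_lit 277))))) (PT.nd (nat_lit 80262) (PT.nd (nat_lit 156) (PT.nd (nat_lit 78) (PT.lf (nat_lit 19152) (nat_lit 6) (nat_lit 252) (nat_lit 1) (nat_lit 287) (nat_lit 217) (nat_lit 276)) (PT.lf (nat_lit 19076) (nat_lit 6) (nat_lit 251) (nat_lit 1) (nat_lit 288) (nat_lit 217) (nat_lit 275))) (PT.nd (nat_lit 80028) (PT.lf (nat_lit 19000) (nat_lit 6) (nat_lit 250) (nat_lit 1) (nat_lit 289) (nat_lit 217) (nat_lit 274)) (PT.lf (nat_lit 19608) (nat_lit 6) (nat_lit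 258) (nat_lit 3) (nat_lit 274) (nat_lit 218) (nat_lit 288)))) (PT.nd (nat_lit 156) (PT.nd (nat_lit 78) (PT.lf (nat_lit 19684) (nat_lit 6) (nat_lit 259) (nat_lit 3) (nat_lit 275) (nat_lit 218) (nat_lit 287)) (PT.lf (nat_lit 19760) (nat_lit 6) (nat_lit 260) (nat_lit 3) (nat_lit 276) (nat_lit 218) (nat_lit 286))) (PT.nd (nat_lit 78) (PT.lf (nat_lit 19836) (nat_lit 6) (nat_lit 261) (nat_lit 3) (nat_lit 277) (nat_lit 218) (nat_lit 285)) (PT.nd (nat_lit 78) (PT.lf (nat_lit 19912) (nat_lit 6) (nat_lit 262) (nat_lit 3) (nat_lit 278) (nat_lit 218) (nat_lit 284)) (PT.lf (nat_lit 19988) (nat_lit 6) (nat_lit 263) (nat_lit 3) (nat_lit 279) (nat_lit 218) (nat_lit 283))))))))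
noncomputable def pc14 : PT := (PT.nd (nat_lit 81198) (PT.nd (nat_lit 624) (PT.nd (nat_lit 312) (PT.nd (nat_lit 156) (PT.nd (nat_lit 78) (PT.lf (nat_lit 20064) (nat_lit 6) (nat_lit 264) (nat_lit 3) (nat_lit 280) (nat_lit 218) (nat_lit 282)) (PT.lf (nat_lit 20140) (nat_lit 3) (nat_lit 265) (nat_lit 1) (nat_lit 281) (nat_lit 218) (nat_lit 281))) (PT.nd (nat_lit 78) (PT.lf (nat_lit 20064) (nat_lit 6) (nat_lit 264) (nat_lit 1) (nat_lit 282) (nat_lit 218) (nat_lit 280)) (PT.lf (nat_lit 19988) (nat_lit 6) (nat_lit 263) (nat_lit 1) (nat_lit 283) (nat_lit 218) (nat_lit 279)))) (PT.nd (nat_lit 156) (PT.nd (nat_lit 78) (PT.lf (nat_lit 19912) (nat_lit 6) (nat_lit 262) (nat_lit 1) (nat_lit 284) (nat_lit 218) (nat_lit 278)) (PT.lf (nat_lit 19836) (nat_lit 6) (nat_lit 261) (nat_lit 1) (nat_lit 285) (nat_lit 218) (nat_lit 277))) (PT.nd (nat_lit 78) (PT.lf (nat_lit 19760) (nat_lit 6) (nat_lit 260) (nat_lit 1) (nat_lit 286) (nat_lit 218) (nat_lit 276)) (PT.lf (nat_lit 19684) (nat_lit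 6) (nat_lit 259) (nat_lit 1) (nat_lit 287) (nat_lit 218) (nat_lit 275))))) (PT.nd (nat_lit 80262) (PT.nd (nat_lit 80106) (PT.nd (nat_lit 80028) (PT.lf (nat_lit 19608) (nat_lit 6) (nat_lit 258) (nat_lit 1) (nat_lit 288) (nat_lit 218) (nat_lit 274)) (PT.lf (nat_lit 20216) (nat_lit 6) (nat_lit 266) (nat_lit 3) (nat_lit 273) (nat_lit 219) (nat_lit 288))) (PT.nd (nat_lit 78) (PT.lf (nat_lit 20292) (nat_lit 6) (nat_lit 267) (nat_lit 3) (nat_lit 274) (nat_lit 219) (nat_lit 287)) (PT.lf (nat_lit 20368) (nat_lit 6) (nat_lit 268) (nat_lit 3) (nat_lit 275) (nat_lit 219) (nat_lit 286)))) (PT.nd (nat_lit 156) (PT.nd (nat_lit 78) (PT.lf (nat_lit 20444) (nat_lit 6) (nat_lit 269) (nat_lit 3) (nat_lit 276) (nat_lit 219) (nat_lit 285)) (PT.lf (nat_lit 20520) (nat_lit 6) (nat_lit 270) (nat_lit 3) (nat_lit 277) (nat_lit 219) (nat_lit 284))) (PT.nd (nat_lit 78) (PT.lf (nat_lit 20596) (nat_lit 6) (nat_lit 271) (nat_lit 3) (nat_lit 278) (nat_lit 219) (nat_lit 283)) (PT.lf (nat_lit 20672) (nat_lit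 6) (nat_lit 272) (nat_lit 3) (nat_lit 279) (nat_lit 219) (nat_lit 282)))))) (PT.nd (nat_lit 624) (PT.nd (nat_lit 312) (PT.nd (nat_lit 156) (PT.nd (nat_lit 78) (PT.lf (nat_lit 20748) (nat_lit 6) (nat_lit 273) (nat_lit 3) (nat_lit 280) (nat_lit 219) (nat_lit 281)) (PT.lf (nat_lit 20748) (nat_lit 6) (nat_lit 273) (nat_lit 1) (nat_lit 281) (nat_lit 219) (nat_lit 280))) (PT.nd (nat_lit 78) (PT.lf (nat_lit 20672) (nat_lit 6) (nat_lit 272) (nat_lit 1) (nat_lit 282) (nat_lit 219) (nat_lit 279)) (PT.lf (nat_lit 20596) (nat_lit 6) (nat_lit 271) (nat_lit 1) (nat_lit 283) (nat_lit 219) (nat_lit 278)))) (PT.nd (nat_lit 156) (PT.nd (nat_lit 78) (PT.lf (nat_lit 20520) (nat_lit 6) (nat_lit 270) (nat_lit 1) (nat_lit 284) (nat_lit 219) (nat_lit 277)) (PT.lf (nat_lit 20444) (nat_lit 6) (nat_lit 269) (nat_lit 1) (nat_lit 285) (nat_lit 219) (nat_lit 276))) (PT.nd (nat_lit 78) (PT.lf (nat_lit 20368) (nat_lit 6) (nat_lit 268) (nat_lit 1) (nat_lit 286) (nat_lit 219) (nat_lit 275)) (PT.lf (nat_lit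 20292) (nat_lit 6) (nat_lit 267) (nat_lit 1) (nat_lit 287) (nat_lit 219) (nat_lit 274))))) (PT.nd (nat_lit 80184) (PT.nd (nat_lit 80028) (PT.nd (nat_lit 79950) (PT.lf (nat_lit 20216) (nat_lit 6) (nat_lit 266) (nat_lit 1) (nat_lit 288) (nat_lit 219) (nat_lit 273)) (PT.lf (nat_lit 20824) (nat_lit 6) (nat_lit 274) (nat_lit 3) (nat_lit 272) (nat_lit 220) (nat_lit 288))) (PT.nd (nat_lit 78) (PT.lf (nat_lit 20900) (nat_lit 6) (nat_lit 275) (nat_lit 3) (nat_lit 273) (nat_lit 220) (nat_lit 287)) (PT.lf (nat_lit 20976) (nat_lit 6) (nat_lit 276) (nat_lit 3) (nat_lit 274) (nat_lit 220) (nat_lit 286)))) (PT.nd (nat_lit 156) (PT.nd (nat_lit 78) (PT.lf (nat_lit 21052) (nat_lit 6) (nat_lit 277) (nat_lit 3) (nat_lit 275) (nat_lit 220) (nat_lit 285)) (PT.lf (nat_lit 21128) (nat_lit 6) (nat_lit 278) (nat_lit 3) (nat_lit 276) (nat_lit 220) (nat_lit 284))) (PT.nd (nat_lit 78) (PT.lf (nat_lit 21204) (nat_lit 6) (nat_lit 279) (nat_lit 3) (nat_lit 277) (nat_lit 220) (nat_lit 283)) (PT.nd (nat_lit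 78) (PT.lf (nat_lit 21280) (nat_lit 6) (nat_lit 280) (nat_lit 3) (nat_lit 278) (nat_lit 220) (nat_lit 282)) (PT.lf (nat_lit 21356) (nat_lit 6) (nat_lit 281) (nat_lit 3) (nat_lit 279) (nat_lit 220) (nat_lit 281))))))))
noncomputable def pc15 : PT := (PT.nd (nat_lit 81120) (PT.nd (nat_lit 624) (PT.nd (nat_lit 312) (PT.nd (nat_lit 156) (PT.nd (nat_lit 78) (PT.lf (nat_lit 21432) (nat_lit 3) (nat_lit 282) (nat_lit 1) (nat_lit 280) (nat_lit 220) (nat_lit 280)) (PT.lf (nat_lit 21356) (nat_lit 6) (nat_lit 281) (nat_lit 1) (nat_lit 281) (nat_lit 220) (nat_lit 279))) (PT.nd (nat_lit 78) (PT.lf (nat_lit 21280) (nat_lit 6) (nat_lit 280) (nat_lit 1) (nat_lit 282) (nat_lit 220) (nat_lit 278)) (PT.lf (nat_lit 21204) (nat_lit 6) (nat_lit 279) (nat_lit 1) (nat_lit 283) (nat_lit 220) (nat_lit 277)))) (PT.nd (nat_lit 156) (PT.nd (nat_lit 78) (PT.lf (nat_lit 21128) (nat_lit 6) (nat_lit 278) (nat_lit 1) (nat_lit 284) (nat_lit 220) (nat_lit 276)) (PT.lf (nat_lit 21052) (nat_lit 6) (nat_lit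 277) (nat_lit 1) (nat_lit 285) (nat_lit 220) (nat_lit 275))) (PT.nd (nat_lit 78) (PT.lf (nat_lit 20976) (nat_lit 6) (nat_lit 276) (nat_lit 1) (nat_lit 286) (nat_lit 220) (nat_lit 274)) (PT.lf (nat_lit 20900) (nat_lit 6) (nat_lit 275) (nat_lit 1) (nat_lit 287) (nat_lit 220) (nat_lit 273))))) (PT.nd (nat_lit 80106) (PT.nd (nat_lit 79950) (PT.nd (nat_lit 79872) (PT.lf (nat_lit 20824) (nat_lit 6) (nat_lit 274) (nat_lit 1) (nat_lit 288) (nat_lit 220) (nat_lit 272)) (PT.lf (nat_lit 21508) (nat_lit 6) (nat_lit 283) (nat_lit 3) (nat_lit 271) (nat_lit 221) (nat_lit 288))) (PT.nd (nat_lit 78) (PT.lf (nat_lit 21584) (nat_lit 6) (nat_lit 284) (nat_lit 3) (nat_lit 272) (nat_lit 221) (nat_lit 287)) (PT.lf (nat_lit 21660) (nat_lit 6) (nat_lit 285) (nat_lit 3) (nat_lit 273) (nat_lit 221) (nat_lit 286)))) (PT.nd (nat_lit 156) (PT.nd (nat_lit 78) (PT.lf (nat_lit 21736) (nat_lit 6) (nat_lit 286) (nat_lit 3) (nat_lit 274) (nat_lit 221) (nat_lit 285)) (PT.lf (nat_lit 21812) (nat_lit 6) (nat_lit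 287) (nat_lit 3) (nat_lit 275) (nat_lit 221) (nat_lit 284))) (PT.nd (nat_lit 78) (PT.lf (nat_lit 21888) (nat_lit 6) (nat_lit 288) (nat_lit 3) (nat_lit 276) (nat_lit 221) (nat_lit 283)) (PT.nd (nat_lit 78) (PT.lf (nat_lit 21964) (nat_lit 6) (nat_lit 289) (nat_lit 3) (nat_lit 277) (nat_lit 221) (nat_lit 282)) (PT.lf (nat_lit 22040) (nat_lit 6) (nat_lit 290) (nat_lit 3) (nat_lit 278) (nat_lit 221) (nat_lit 281))))))) (PT.nd (nat_lit 624) (PT.nd (nat_lit 312) (PT.nd (nat_lit 156) (PT.nd (nat_lit 78) (PT.lf (nat_lit 22116) (nat_lit 6) (nat_lit 291) (nat_lit 3) (nat_lit 279) (nat_lit 221) (nat_lit 280)) (PT.lf (nat_lit 22116) (nat_lit 6) (nat_lit 291) (nat_lit 1) (nat_lit 280) (nat_lit 221) (nat_lit 279))) (PT.nd (nat_lit 78) (PT.lf (nat_lit 22040) (nat_lit 6) (nat_lit 290) (nat_lit 1) (nat_lit 281) (nat_lit 221) (nat_lit 278)) (PT.lf (nat_lit 21964) (nat_lit 6) (nat_lit 289) (nat_lit 1) (nat_lit 282) (nat_lit 221) (nat_lit 277)))) (PT.nd (nat_lit 156) (PT.nd (nat_lit 78) (PT.lf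 (nat_lit 21888) (nat_lit 6) (nat_lit 288) (nat_lit 1) (nat_lit 283) (nat_lit 221) (nat_lit 276)) (PT.lf (nat_lit 21812) (nat_lit 6) (nat_lit 287) (nat_lit 1) (nat_lit 284) (nat_lit 221) (nat_lit 275))) (PT.nd (nat_lit 78) (PT.lf (nat_lit 21736) (nat_lit 6) (nat_lit 286) (nat_lit 1) (nat_lit 285) (nat_lit 221) (nat_lit 274)) (PT.lf (nat_lit 21660) (nat_lit 6) (nat_lit 285) (nat_lit 1) (nat_lit 286) (nat_lit 221) (nat_lit 273))))) (PT.nd (nat_lit 80106) (PT.nd (nat_lit 79950) (PT.nd (nat_lit 78) (PT.lf (nat_lit 21584) (nat_lit 6) (nat_lit 284) (nat_lit 1) (nat_lit 287) (nat_lit 221) (nat_lit 272)) (PT.lf (nat_lit 21508) (nat_lit 6) (nat_lit 283) (nat_lit 1) (nat_lit 288) (nat_lit 221) (nat_lit 271))) (PT.nd (nat_lit 78) (PT.lf (nat_lit 22192) (nat_lit 6) (nat_lit 292) (nat_lit 3) (nat_lit 271) (nat_lit 222) (nat_lit 287)) (PT.lf (nat_lit 22268) (nat_lit 6) (nat_lit 293) (nat_lit 3) (nat_lit 272) (nat_lit 222) (nat_lit 286)))) (PT.nd (nat_lit 156) (PT.nd (nat_lit 78) (PT.lf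 (nat_lit 22344) (nat_lit 6) (nat_lit 294) (nat_lit 3) (nat_lit 273) (nat_lit 222) (nat_lit 285)) (PT.lf (nat_lit 22420) (nat_lit 6) (nat_lit 295) (nat_lit 3) (nat_lit 274) (nat_lit 222) (nat_lit 284))) (PT.nd (nat_lit 78) (PT.lf (nat_lit 22496) (nat_lit 6) (nat_lit 296) (nat_lit 3) (nat_lit 275) (nat_lit 222) (nat_lit 283)) (PT.nd (nat_lit 78) (PT.lf (nat_lit 22572) (nat_lit 6) (nat_lit 297) (nat_lit 3) (nat_lit 276) (nat_lit 222) (nat_lit 282)) (PT.lf (nat_lit 22648) (nat_lit 6) (nat_lit 298) (nat_lit 3) (nat_lit 277) (nat_lit 222) (nat_lit 281))))))))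
noncomputable def pc16 : PT := (PT.nd (nat_lit 81042) (PT.nd (nat_lit 624) (PT.nd (nat_lit 312) (PT.nd (nat_lit 156) (PT.nd (nat_lit 78) (PT.lf (nat_lit 22724) (nat_lit 6) (nat_lit 299) (nat_lit 3) (nat_lit 278) (nat_lit 222) (nat_lit 280)) (PT.lf (nat_lit 22800) (nat_lit 3) (nat_lit 300) (nat_lit 1) (nat_lit 279) (nat_lit 222) (nat_lit 279))) (PT.nd (nat_lit 78) (PT.lf (nat_lit 22724) (nat_lit 6) (nat_lit 299) (nat_lit 1) (nat_lit 280) (nat_lit 222) (nat_lit 278)) (PT.lf (nat_lit 22648) (nat_lit 6) (nat_lit 298) (nat_lit 1) (nat_lit 281) (nat_lit 222) (nat_lit 277)))) (PT.nd (nat_lit 156) (PT.nd (nat_lit 78) (PT.lf (nat_lit 22572) (nat_lit 6) (nat_lit 297) (nat_lit 1) (nat_lit 282) (nat_lit 222) (nat_lit 276)) (PT.lf (nat_lit 22496) (nat_lit 6) (nat_lit 296) (nat_lit 1) (nat_lit 283) (nat_lit 222) (nat_lit 275))) (PT.nd (nat_lit 78) (PT.lf (nat_lit 22420) (nat_lit 6) (nat_lit 295) (nat_lit 1) (nat_lit 284) (nat_lit 222) (nat_lit 274)) (PT.lf (nat_lit 22344) (nat_lit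 6) (nat_lit 294) (nat_lit 1) (nat_lit 285) (nat_lit 222) (nat_lit 273))))) (PT.nd (nat_lit 80106) (PT.nd (nat_lit 79950) (PT.nd (nat_lit 78) (PT.lf (nat_lit 22268) (nat_lit 6) (nat_lit 293) (nat_lit 1) (nat_lit 286) (nat_lit 222) (nat_lit 272)) (PT.lf (nat_lit 22192) (nat_lit 6) (nat_lit 292) (nat_lit 1) (nat_lit 287) (nat_lit 222) (nat_lit 271))) (PT.nd (nat_lit 78) (PT.lf (nat_lit 22876) (nat_lit 6) (nat_lit 301) (nat_lit 3) (nat_lit 270) (nat_lit 223) (nat_lit 287)) (PT.lf (nat_lit 22952) (nat_lit 6) (nat_lit 302) (nat_lit 3) (nat_lit 271) (nat_lit 223) (nat_lit 286)))) (PT.nd (nat_lit 156) (PT.nd (nat_lit 78) (PT.lf (nat_lit 23028) (nat_lit 6) (nat_lit 303) (nat_lit 3) (nat_lit 272) (nat_lit 223) (nat_lit 285)) (PT.lf (nat_lit 23104) (nat_lit 6) (nat_lit 304) (nat_lit 3) (nat_lit 273) (nat_lit 223) (nat_lit 284))) (PT.nd (nat_lit 78) (PT.lf (nat_lit 23180) (nat_lit 6) (nat_lit 305) (nat_lit 3) (nat_lit 274) (nat_lit 223) (nat_lit 283)) (PT.lf (nat_lit 23256) (nat_lit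 6) (nat_lit 306) (nat_lit 3) (nat_lit 275) (nat_lit 223) (nat_lit 282)))))) (PT.nd (nat_lit 624) (PT.nd (nat_lit 312) (PT.nd (nat_lit 156) (PT.nd (nat_lit 78) (PT.lf (nat_lit 23332) (nat_lit 6) (nat_lit 307) (nat_lit 3) (nat_lit 276) (nat_lit 223) (nat_lit 281)) (PT.lf (nat_lit 23408) (nat_lit 6) (nat_lit 308) (nat_lit 3) (nat_lit 277) (nat_lit 223) (nat_lit 280))) (PT.nd (nat_lit 78) (PT.lf (nat_lit 23484) (nat_lit 6) (nat_lit 309) (nat_lit 3) (nat_lit 278) (nat_lit 223) (nat_lit 279)) (PT.lf (nat_lit 23484) (nat_lit 6) (nat_lit 309) (nat_lit 1) (nat_lit 279) (nat_lit 223) (nat_lit 278)))) (PT.nd (nat_lit 156) (PT.nd (nat_lit 78) (PT.lf (nat_lit 23408) (nat_lit 6) (nat_lit 308) (nat_lit 1) (nat_lit 280) (nat_lit 223) (nat_lit 277)) (PT.lf (nat_lit 23332) (nat_lit 6) (nat_lit 307) (nat_lit 1) (nat_lit 281) (nat_lit 223) (nat_lit 276))) (PT.nd (nat_lit 78) (PT.lf (nat_lit 23256) (nat_lit 6) (nat_lit 306) (nat_lit 1) (nat_lit 282) (nat_lit 223) (nat_lit 275)) (PT.lf (nat_lit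 23180) (nat_lit 6) (nat_lit 305) (nat_lit 1) (nat_lit 283) (nat_lit 223) (nat_lit 274))))) (PT.nd (nat_lit 80028) (PT.nd (nat_lit 156) (PT.nd (nat_lit 78) (PT.lf (nat_lit 23104) (nat_lit 6) (nat_lit 304) (nat_lit 1) (nat_lit 284) (nat_lit 223) (nat_lit 273)) (PT.lf (nat_lit 23028) (nat_lit 6) (nat_lit 303) (nat_lit 1) (nat_lit 285) (nat_lit 223) (nat_lit 272))) (PT.nd (nat_lit 78) (PT.lf (nat_lit 22952) (nat_lit 6) (nat_lit 302) (nat_lit 1) (nat_lit 286) (nat_lit 223) (nat_lit 271)) (PT.lf (nat_lit 22876) (nat_lit 6) (nat_lit 301) (nat_lit 1) (nat_lit 287) (nat_lit 223) (nat_lit 270)))) (PT.nd (nat_lit 156) (PT.nd (nat_lit 78) (PT.lf (nat_lit 23560) (nat_lit 6) (nat_lit 310) (nat_lit 3) (nat_lit 269) (nat_lit 224) (nat_lit 287)) (PT.lf (nat_lit 23636) (nat_lit 6) (nat_lit 311) (nat_lit 3) (nat_lit 270) (nat_lit 224) (nat_lit 286))) (PT.nd (nat_lit 78) (PT.lf (nat_lit 23712) (nat_lit 6) (nat_lit 312) (nat_lit 3) (nat_lit 271) (nat_lit 224) (nat_lit 285)) (PT.nd (nat_lit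 78) (PT.lf (nat_lit 23788) (nat_lit 6) (nat_lit 313) (nat_lit 3) (nat_lit 272) (nat_lit 224) (nat_lit 284)) (PT.lf (nat_lit 23864) (nat_lit 6) (nat_lit 314) (nat_lit 3) (nat_lit 273) (nat_lit 224) (nat_lit 283))))))))
noncomputable def pc17 : PT := (PT.nd (nat_lit 80886) (PT.nd (nat_lit 624) (PT.nd (nat_lit 312) (PT.nd (nat_lit 156) (PT.nd (nat_lit 78) (PT.lf (nat_lit 23940) (nat_lit 6) (nat_lit 315) (nat_lit 3) (nat_lit 274) (nat_lit 224) (nat_lit 282)) (PT.lf (nat_lit 24016) (nat_lit 6) (nat_lit 316) (nat_lit 3) (nat_lit 275) (nat_lit 224) (nat_lit 281))) (PT.nd (nat_lit 78) (PT.lf (nat_lit 24092) (nat_lit 6) (nat_lit 317) (nat_lit 3) (nat_lit 276) (nat_lit 224) (nat_lit 280)) (PT.lf (nat_lit 24168) (nat_lit 6) (nat_lit 318) (nat_lit 3) (nat_lit 277) (nat_lit 224) (nat_lit 279)))) (PT.nd (nat_lit 156) (PT.nd (nat_lit 78) (PT.lf (nat_lit 24244) (nat_lit 3) (nat_lit 319) (nat_lit 1) (nat_lit 278) (nat_lit 224) (nat_lit 278)) (PT.lf (nat_lit 24168) (nat_lit 6) (nat_lit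 318) (nat_lit 1) (nat_lit 279) (nat_lit 224) (nat_lit 277))) (PT.nd (nat_lit 78) (PT.lf (nat_lit 24092) (nat_lit 6) (nat_lit 317) (nat_lit 1) (nat_lit 280) (nat_lit 224) (nat_lit 276)) (PT.lf (nat_lit 24016) (nat_lit 6) (nat_lit 316) (nat_lit 1) (nat_lit 281) (nat_lit 224) (nat_lit 275))))) (PT.nd (nat_lit 312) (PT.nd (nat_lit 156) (PT.nd (nat_lit 78) (PT.lf (nat_lit 23940) (nat_lit 6) (nat_lit 315) (nat_lit 1) (nat_lit 282) (nat_lit 224) (nat_lit 274)) (PT.lf (nat_lit 23864) (nat_lit 6) (nat_lit 314) (nat_lit 1) (nat_lit 283) (nat_lit 224) (nat_lit 273))) (PT.nd (nat_lit 78) (PT.lf (nat_lit 23788) (nat_lit 6) (nat_lit 313) (nat_lit 1) (nat_lit 284) (nat_lit 224) (nat_lit 272)) (PT.lf (nat_lit 23712) (nat_lit 6) (nat_lit 312) (nat_lit 1) (nat_lit 285) (nat_lit 224) (nat_lit 271)))) (PT.nd (nat_lit 79794) (PT.nd (nat_lit 78) (PT.lf (nat_lit 23636) (nat_lit 6) (nat_lit 311) (nat_lit 1) (nat_lit 286) (nat_lit 224) (nat_lit 270)) (PT.lf (nat_lit 23560) (nat_lit 6) (nat_lit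 310) (nat_lit 1) (nat_lit 287) (nat_lit 224) (nat_lit 269))) (PT.nd (nat_lit 78) (PT.lf (nat_lit 24320) (nat_lit 6) (nat_lit 320) (nat_lit 3) (nat_lit 268) (nat_lit 225) (nat_lit 287)) (PT.lf (nat_lit 24396) (nat_lit 6) (nat_lit 321) (nat_lit 3) (nat_lit 269) (nat_lit 225) (nat_lit 286)))))) (PT.nd (nat_lit 624) (PT.nd (nat_lit 312) (PT.nd (nat_lit 156) (PT.nd (nat_lit 78) (PT.lf (nat_lit 24472) (nat_lit 6) (nat_lit 322) (nat_lit 3) (nat_lit 270) (nat_lit 225) (nat_lit 285)) (PT.lf (nat_lit 24548) (nat_lit 6) (nat_lit 323) (nat_lit 3) (nat_lit 271) (nat_lit 225) (nat_lit 284))) (PT.nd (nat_lit 78) (PT.lf (nat_lit 24624) (nat_lit 6) (nat_lit 324) (nat_lit 3) (nat_lit 272) (nat_lit 225) (nat_lit 283)) (PT.lf (nat_lit 24700) (nat_lit 6) (nat_lit 325) (nat_lit 3) (nat_lit 273) (nat_lit 225) (nat_lit 282)))) (PT.nd (nat_lit 156) (PT.nd (nat_lit 78) (PT.lf (nat_lit 24776) (nat_lit 6) (nat_lit 326) (nat_lit 3) (nat_lit 274) (nat_lit 225) (nat_lit 281)) (PT.lf (nat_lit 24852)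 (nat_lit 6) (nat_lit 327) (nat_lit 3) (nat_lit 275) (nat_lit 225) (nat_lit 280))) (PT.nd (nat_lit 78) (PT.lf (nat_lit 24928) (nat_lit 6) (nat_lit 328) (nat_lit 3) (nat_lit 276) (nat_lit 225) (nat_lit 279)) (PT.lf (nat_lit 25004) (nat_lit 6) (nat_lit 329) (nat_lit 3) (nat_lit 277) (nat_lit 225) (nat_lit 278))))) (PT.nd (nat_lit 312) (PT.nd (nat_lit 156) (PT.nd (nat_lit 78) (PT.lf (nat_lit 25004) (nat_lit 6) (nat_lit 329) (nat_lit 1) (nat_lit 278) (nat_lit 225) (nat_lit 277)) (PT.lf (nat_lit 24928) (nat_lit 6) (nat_lit 328) (nat_lit 1) (nat_lit 279) (nat_lit 225) (nat_lit 276))) (PT.nd (nat_lit 78) (PT.lf (nat_lit 24852) (nat_lit 6) (nat_lit 327) (nat_lit 1) (nat_lit 280) (nat_lit 225) (nat_lit 275)) (PT.lf (nat_lit 24776) (nat_lit 6) (nat_lit 326) (nat_lit 1) (nat_lit 281) (nat_lit 225) (nat_lit 274)))) (PT.nd (nat_lit 156) (PT.nd (nat_lit 78) (PT.lf (nat_lit 24700) (nat_lit 6) (nat_lit 325) (nat_lit 1) (nat_lit 282) (nat_lit 225) (nat_lit 273)) (PT.lf (nat_lit 24624)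 (nat_lit 6) (nat_lit 324) (nat_lit 1) (nat_lit 283) (nat_lit 225) (nat_lit 272))) (PT.nd (nat_lit 78) (PT.lf (nat_lit 24548) (nat_lit 6) (nat_lit 323) (nat_lit 1) (nat_lit 284) (nat_lit 225) (nat_lit 271)) (PT.nd (nat_lit 78) (PT.lf (nat_lit 24472) (nat_lit 6) (nat_lit 322) (nat_lit 1) (nat_lit 285) (nat_lit 225) (nat_lit 270)) (PT.lf (nat_lit 24396) (nat_lit 6) (nat_lit 321) (nat_lit 1) (nat_lit 286) (nat_lit 225) (nat_lit 269))))))))
noncomputable def pc18 : PT := (PT.nd (nat_lit 80886) (PT.nd (nat_lit 80262) (PT.nd (nat_lit 79950) (PT.nd (nat_lit 79794) (PT.nd (nat_lit 79716) (PT.lf (nat_lit 24320) (nat_lit 6) (nat_lit 320) (nat_lit 1) (nat_lit 287) (nat_lit 225) (nat_lit 268)) (PT.lf (nat_lit 25080) (nat_lit 6) (nat_lit 330) (nat_lit 3) (nat_lit 268) (nat_lit 226) (nat_lit 286))) (PT.nd (nat_lit 78) (PT.lf (nat_lit 25156) (nat_lit 6) (nat_lit 331) (nat_lit 3) (nat_lit 269) (nat_lit 226) (nat_lit 285)) (PT.lf (nat_lit 25232) (nat_lit 6) (nat_lit 332) (nat_lit 3) (nat_lit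 270) (nat_lit 226) (nat_lit 284)))) (PT.nd (nat_lit 156) (PT.nd (nat_lit 78) (PT.lf (nat_lit 25308) (nat_lit 6) (nat_lit 333) (nat_lit 3) (nat_lit 271) (nat_lit 226) (nat_lit 283)) (PT.lf (nat_lit 25384) (nat_lit 6) (nat_lit 334) (nat_lit 3) (nat_lit 272) (nat_lit 226) (nat_lit 282))) (PT.nd (nat_lit 78) (PT.lf (nat_lit 25460) (nat_lit 6) (nat_lit 335) (nat_lit 3) (nat_lit 273) (nat_lit 226) (nat_lit 281)) (PT.lf (nat_lit 25536) (nat_lit 6) (nat_lit 336) (nat_lit 3) (nat_lit 274) (nat_lit 226) (nat_lit 280))))) (PT.nd (nat_lit 312) (PT.nd (nat_lit 156) (PT.nd (nat_lit 78) (PT.lf (nat_lit 25612) (nat_lit 6) (nat_lit 337) (nat_lit 3) (nat_lit 275) (nat_lit 226) (nat_lit 279)) (PT.lf (nat_lit 25688) (nat_lit 6) (nat_lit 338) (nat_lit 3) (nat_lit 276) (nat_lit 226) (nat_lit 278))) (PT.nd (nat_lit 78) (PT.lf (nat_lit 25764) (nat_lit 3) (nat_lit 339) (nat_lit 1) (nat_lit 277) (nat_lit 226) (nat_lit 277)) (PT.lf (nat_lit 25688) (nat_lit 6) (nat_lit 338) (nat_lit 1) (nat_lit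 278) (nat_lit 226) (nat_lit 276)))) (PT.nd (nat_lit 156) (PT.nd (nat_lit 78) (PT.lf (nat_lit 25612) (nat_lit 6) (nat_lit 337) (nat_lit 1) (nat_lit 279) (nat_lit 226) (nat_lit 275)) (PT.lf (nat_lit 25536) (nat_lit 6) (nat_lit 336) (nat_lit 1) (nat_lit 280) (nat_lit 226) (nat_lit 274))) (PT.nd (nat_lit 78) (PT.lf (nat_lit 25460) (nat_lit 6) (nat_lit 335) (nat_lit 1) (nat_lit 281) (nat_lit 226) (nat_lit 273)) (PT.lf (nat_lit 25384) (nat_lit 6) (nat_lit 334) (nat_lit 1) (nat_lit 282) (nat_lit 226) (nat_lit 272)))))) (PT.nd (nat_lit 80262) (PT.nd (nat_lit 79950) (PT.nd (nat_lit 156) (PT.nd (nat_lit 78) (PT.lf (nat_lit 25308) (nat_lit 6) (nat_lit 333) (nat_lit 1) (nat_lit 283) (nat_lit 226) (nat_lit 271)) (PT.lf (nat_lit 25232) (nat_lit 6) (nat_lit 332) (nat_lit 1) (nat_lit 284) (nat_lit 226) (nat_lit 270))) (PT.nd (nat_lit 78) (PT.lf (nat_lit 25156) (nat_lit 6) (nat_lit 331) (nat_lit 1) (nat_lit 285) (nat_lit 226) (nat_lit 269)) (PT.lf (nat_lit 25080) (nat_lit 6) (nat_lit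 330) (nat_lit 1) (nat_lit 286) (nat_lit 226) (nat_lit 268)))) (PT.nd (nat_lit 156) (PT.nd (nat_lit 78) (PT.lf (nat_lit 25840) (nat_lit 6) (nat_lit 340) (nat_lit 3) (nat_lit 267) (nat_lit 227) (nat_lit 286)) (PT.lf (nat_lit 25916) (nat_lit 6) (nat_lit 341) (nat_lit 3) (nat_lit 268) (nat_lit 227) (nat_lit 285))) (PT.nd (nat_lit 78) (PT.lf (nat_lit 25992) (nat_lit 6) (nat_lit 342) (nat_lit 3) (nat_lit 269) (nat_lit 227) (nat_lit 284)) (PT.lf (nat_lit 26068) (nat_lit 6) (nat_lit 343) (nat_lit 3) (nat_lit 270) (nat_lit 227) (nat_lit 283))))) (PT.nd (nat_lit 312) (PT.nd (nat_lit 156) (PT.nd (nat_lit 78) (PT.lf (nat_lit 26144) (nat_lit 6) (nat_lit 344) (nat_lit 3) (nat_lit 271) (nat_lit 227) (nat_lit 282)) (PT.lf (nat_lit 26220) (nat_lit 6) (nat_lit 345) (nat_lit 3) (nat_lit 272) (nat_lit 227) (nat_lit 281))) (PT.nd (nat_lit 78) (PT.lf (nat_lit 26296) (nat_lit 6) (nat_lit 346) (nat_lit 3) (nat_lit 273) (nat_lit 227) (nat_lit 280)) (PT.lf (nat_lit 26372) (nat_lit 6) (nat_lit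 347) (nat_lit 3) (nat_lit 274) (nat_lit 227) (nat_lit 279)))) (PT.nd (nat_lit 156) (PT.nd (nat_lit 78) (PT.lf (nat_lit 26448) (nat_lit 6) (nat_lit 348) (nat_lit 3) (nat_lit 275) (nat_lit 227) (nat_lit 278)) (PT.lf (nat_lit 26524) (nat_lit 6) (nat_lit 349) (nat_lit 3) (nat_lit 276) (nat_lit 227) (nat_lit 277))) (PT.nd (nat_lit 78) (PT.lf (nat_lit 26524) (nat_lit 6) (nat_lit 349) (nat_lit 1) (nat_lit 277) (nat_lit 227) (nat_lit 276)) (PT.nd (nat_lit 78) (PT.lf (nat_lit 26448) (nat_lit 6) (nat_lit 348) (nat_lit 1) (nat_lit 278) (nat_lit 227) (nat_lit 275)) (PT.lf (nat_lit 26372) (nat_lit 6) (nat_lit 347) (nat_lit 1) (nat_lit 279) (nat_lit 227) (nat_lit 274))))))))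
noncomputable def pc19 : PT := (PT.nd (nat_lit 80808) (PT.nd (nat_lit 80184) (PT.nd (nat_lit 312) (PT.nd (nat_lit 156) (PT.nd (nat_lit 78) (PT.lf (nat_lit 26296) (nat_lit 6) (nat_lit 346) (nat_lit 1) (nat_lit 280) (nat_lit 227) (nat_lit 273)) (PT.lf (nat_lit 26220) (nat_lit 6) (nat_lit 345) (nat_lit 1) (nat_lit 281) (nat_lit 227) (nat_lit 272))) (PT.nd (nat_lit 78) (PT.lf (nat_lit 26144) (nat_lit 6) (nat_lit 344) (nat_lit 1) (nat_lit 282) (nat_lit 227) (nat_lit 271)) (PT.lf (nat_lit 26068) (nat_lit 6) (nat_lit 343) (nat_lit 1) (nat_lit 283) (nat_lit 227) (nat_lit 270)))) (PT.nd (nat_lit 156) (PT.nd (nat_lit 78) (PT.lf (nat_lit 25992) (nat_lit 6) (nat_lit 342) (nat_lit 1) (nat_lit 284) (nat_lit 227) (nat_lit 269)) (PT.lf (nat_lit 25916) (nat_lit 6) (nat_lit 341) (nat_lit 1) (nat_lit 285) (nat_lit 227) (nat_lit 268))) (PT.nd (nat_lit 79638) (PT.lf (nat_lit 25840) (nat_lit 6) (nat_lit 340) (nat_lit 1) (nat_lit 286) (nat_lit 227) (nat_lit 267)) (PT.lf (nat_lit 26600) (nat_lit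 6) (nat_lit 350) (nat_lit 3) (nat_lit 266) (nat_lit 228) (nat_lit 286))))) (PT.nd (nat_lit 312) (PT.nd (nat_lit 156) (PT.nd (nat_lit 78) (PT.lf (nat_lit 26676) (nat_lit 6) (nat_lit 351) (nat_lit 3) (nat_lit 267) (nat_lit 228) (nat_lit 285)) (PT.lf (nat_lit 26752) (nat_lit 6) (nat_lit 352) (nat_lit 3) (nat_lit 268) (nat_lit 228) (nat_lit 284))) (PT.nd (nat_lit 78) (PT.lf (nat_lit 26828) (nat_lit 6) (nat_lit 353) (nat_lit 3) (nat_lit 269) (nat_lit 228) (nat_lit 283)) (PT.lf (nat_lit 26904) (nat_lit 6) (nat_lit 354) (nat_lit 3) (nat_lit 270) (nat_lit 228) (nat_lit 282)))) (PT.nd (nat_lit 156) (PT.nd (nat_lit 78) (PT.lf (nat_lit 26980) (nat_lit 6) (nat_lit 355) (nat_lit 3) (nat_lit 271) (nat_lit 228) (nat_lit 281)) (PT.lf (nat_lit 27056) (nat_lit 6) (nat_lit 356) (nat_lit 3) (nat_lit 272) (nat_lit 228) (nat_lit 280))) (PT.nd (nat_lit 78) (PT.lf (nat_lit 27132) (nat_lit 6) (nat_lit 357) (nat_lit 3) (nat_lit 273) (nat_lit 228) (nat_lit 279)) (PT.lf (nat_lit 27208) (nat_lit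 6) (nat_lit 358) (nat_lit 3) (nat_lit 274) (nat_lit 228) (nat_lit 278)))))) (PT.nd (nat_lit 624) (PT.nd (nat_lit 312) (PT.nd (nat_lit 156) (PT.nd (nat_lit 78) (PT.lf (nat_lit 27284) (nat_lit 6) (nat_lit 359) (nat_lit 3) (nat_lit 275) (nat_lit 228) (nat_lit 277)) (PT.lf (nat_lit 27360) (nat_lit 3) (nat_lit 360) (nat_lit 1) (nat_lit 276) (nat_lit 228) (nat_lit 276))) (PT.nd (nat_lit 78) (PT.lf (nat_lit 27284) (nat_lit 6) (nat_lit 359) (nat_lit 1) (nat_lit 277) (nat_lit 228) (nat_lit 275)) (PT.lf (nat_lit 27208) (nat_lit 6) (nat_lit 358) (nat_lit 1) (nat_lit 278) (nat_lit 228) (nat_lit 274)))) (PT.nd (nat_lit 156) (PT.nd (nat_lit 78) (PT.lf (nat_lit 27132) (nat_lit 6) (nat_lit 357) (nat_lit 1) (nat_lit 279) (nat_lit 228) (nat_lit 273)) (PT.lf (nat_lit 27056) (nat_lit 6) (nat_lit 356) (nat_lit 1) (nat_lit 280) (nat_lit 228) (nat_lit 272))) (PT.nd (nat_lit 78) (PT.lf (nat_lit 26980) (nat_lit 6) (nat_lit 355) (nat_lit 1) (nat_lit 281) (nat_lit 228) (nat_lit 271)) (PT.lf (nat_lit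 26904) (nat_lit 6) (nat_lit 354) (nat_lit 1) (nat_lit 282) (nat_lit 228) (nat_lit 270))))) (PT.nd (nat_lit 79794) (PT.nd (nat_lit 156) (PT.nd (nat_lit 78) (PT.lf (nat_lit 26828) (nat_lit 6) (nat_lit 353) (nat_lit 1) (nat_lit 283) (nat_lit 228) (nat_lit 269)) (PT.lf (nat_lit 26752) (nat_lit 6) (nat_lit 352) (nat_lit 1) (nat_lit 284) (nat_lit 228) (nat_lit 268))) (PT.nd (nat_lit 78) (PT.lf (nat_lit 26676) (nat_lit 6) (nat_lit 351) (nat_lit 1) (nat_lit 285) (nat_lit 228) (nat_lit 267)) (PT.lf (nat_lit 26600) (nat_lit 6) (nat_lit 350) (nat_lit 1) (nat_lit 286) (nat_lit 228) (nat_lit 266)))) (PT.nd (nat_lit 156) (PT.nd (nat_lit 78) (PT.lf (nat_lit 27436) (nat_lit 6) (nat_lit 361) (nat_lit 3) (nat_lit 265) (nat_lit 229) (nat_lit 286)) (PT.lf (nat_lit 27512) (nat_lit 6) (nat_lit 362) (nat_lit 3) (nat_lit 266) (nat_lit 229) (nat_lit 285))) (PT.nd (nat_lit 78) (PT.lf (nat_lit 27588) (nat_lit 6) (nat_lit 363) (nat_lit 3) (nat_lit 267) (nat_lit 229) (nat_lit 284)) (PT.nd (nat_lit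 78) (PT.lf (nat_lit 27664) (nat_lit 6) (nat_lit 364) (nat_lit 3) (nat_lit 268) (nat_lit 229) (nat_lit 283)) (PT.lf (nat_lit 27740) (nat_lit 6) (nat_lit 365) (nat_lit 3) (nat_lit 269) (nat_lit 229) (nat_lit 282))))))))
noncomputable def pc20 : PT := (PT.nd (nat_lit 1248) (PT.nd (nat_lit 624) (PT.nd (nat_lit 312) (PT.nd (nat_lit 156) (PT.nd (nat_lit 78) (PT.lf (nat_lit 27816) (nat_lit 6) (nat_lit 366) (nat_lit 3) (nat_lit 270) (nat_lit 229) (nat_lit 281)) (PT.lf (nat_lit 27892) (nat_lit 6) (nat_lit 367) (nat_lit 3) (nat_lit 271) (nat_lit 229) (nat_lit 280))) (PT.nd (nat_lit 78) (PT.lf (nat_lit 27968) (nat_lit 6) (nat_lit 368) (nat_lit 3) (nat_lit 272) (nat_lit 229) (nat_lit 279)) (PT.lf (nat_lit 28044) (nat_lit 6) (nat_lit 369) (nat_lit 3) (nat_lit 273) (nat_lit 229) (nat_lit 278)))) (PT.nd (nat_lit 156) (PT.nd (nat_lit 78) (PT.lf (nat_lit 28120) (nat_lit 6) (nat_lit 370) (nat_lit 3) (nat_lit 274) (nat_lit 229) (nat_lit 277)) (PT.lf (nat_lit 28196) (nat_lit 6) (nat_lit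 371) (nat_lit 3) (nat_lit 275) (nat_lit 229) (nat_lit 276))) (PT.nd (nat_lit 78) (PT.lf (nat_lit 28196) (nat_lit 6) (nat_lit 371) (nat_lit 1) (nat_lit 276) (nat_lit 229) (nat_lit 275)) (PT.lf (nat_lit 28120) (nat_lit 6) (nat_lit 370) (nat_lit 1) (nat_lit 277) (nat_lit 229) (nat_lit 274))))) (PT.nd (nat_lit 312) (PT.nd (nat_lit 156) (PT.nd (nat_lit 78) (PT.lf (nat_lit 28044) (nat_lit 6) (nat_lit 369) (nat_lit 1) (nat_lit 278) (nat_lit 229) (nat_lit 273)) (PT.lf (nat_lit 27968) (nat_lit 6) (nat_lit 368) (nat_lit 1) (nat_lit 279) (nat_lit 229) (nat_lit 272))) (PT.nd (nat_lit 78) (PT.lf (nat_lit 27892) (nat_lit 6) (nat_lit 367) (nat_lit 1) (nat_lit 280) (nat_lit 229) (nat_lit 271)) (PT.lf (nat_lit 27816) (nat_lit 6) (nat_lit 366) (nat_lit 1) (nat_lit 281) (nat_lit 229) (nat_lit 270)))) (PT.nd (nat_lit 156) (PT.nd (nat_lit 78) (PT.lf (nat_lit 27740) (nat_lit 6) (nat_lit 365) (nat_lit 1) (nat_lit 282) (nat_lit 229) (nat_lit 269)) (PT.lf (nat_lit 27664) (nat_lit 6) (nat_lit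 364) (nat_lit 1) (nat_lit 283) (nat_lit 229) (nat_lit 268))) (PT.nd (nat_lit 78) (PT.lf (nat_lit 27588) (nat_lit 6) (nat_lit 363) (nat_lit 1) (nat_lit 284) (nat_lit 229) (nat_lit 267)) (PT.lf (nat_lit 27512) (nat_lit 6) (nat_lit 362) (nat_lit 1) (nat_lit 285) (nat_lit 229) (nat_lit 266)))))) (PT.nd (nat_lit 80106) (PT.nd (nat_lit 79794) (PT.nd (nat_lit 79638) (PT.nd (nat_lit 79560) (PT.lf (nat_lit 27436) (nat_lit 6) (nat_lit 361) (nat_lit 1) (nat_lit 286) (nat_lit 229) (nat_lit 265)) (PT.lf (nat_lit 28272) (nat_lit 6) (nat_lit 372) (nat_lit 3) (nat_lit 265) (nat_lit 230) (nat_lit 285))) (PT.nd (nat_lit 78) (PT.lf (nat_lit 28348) (nat_lit 6) (nat_lit 373) (nat_lit 3) (nat_lit 266) (nat_lit 230) (nat_lit 284)) (PT.lf (nat_lit 28424) (nat_lit 6) (nat_lit 374) (nat_lit 3) (nat_lit 267) (nat_lit 230) (nat_lit 283)))) (PT.nd (nat_lit 156) (PT.nd (nat_lit 78) (PT.lf (nat_lit 28500) (nat_lit 6) (nat_lit 375) (nat_lit 3) (nat_lit 268) (nat_lit 230) (nat_lit 282)) (PT.lf (nat_lit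 28576) (nat_lit 6) (nat_lit 376) (nat_lit 3) (nat_lit 269) (nat_lit 230) (nat_lit 281))) (PT.nd (nat_lit 78) (PT.lf (nat_lit 28652) (nat_lit 6) (nat_lit 377) (nat_lit 3) (nat_lit 270) (nat_lit 230) (nat_lit 280)) (PT.lf (nat_lit 28728) (nat_lit 6) (nat_lit 378) (nat_lit 3) (nat_lit 271) (nat_lit 230) (nat_lit 279))))) (PT.nd (nat_lit 312) (PT.nd (nat_lit 156) (PT.nd (nat_lit 78) (PT.lf (nat_lit 28804) (nat_lit 6) (nat_lit 379) (nat_lit 3) (nat_lit 272) (nat_lit 230) (nat_lit 278)) (PT.lf (nat_lit 28880) (nat_lit 6) (nat_lit 380) (nat_lit 3) (nat_lit 273) (nat_lit 230) (nat_lit 277))) (PT.nd (nat_lit 78) (PT.lf (nat_lit 28956) (nat_lit 6) (nat_lit 381) (nat_lit 3) (nat_lit 274) (nat_lit 230) (nat_lit 276)) (PT.lf (nat_lit 29032) (nat_lit 3) (nat_lit 382) (nat_lit 1) (nat_lit 275) (nat_lit 230) (nat_lit 275)))) (PT.nd (nat_lit 156) (PT.nd (nat_lit 78) (PT.lf (nat_lit 28956) (nat_lit 6) (nat_lit 381) (nat_lit 1) (nat_lit 276) (nat_lit 230) (nat_lit 274)) (PT.lf (nat_lit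 28880) (nat_lit 6) (nat_lit 380) (nat_lit 1) (nat_lit 277) (nat_lit 230) (nat_lit 273))) (PT.nd (nat_lit 78) (PT.lf (nat_lit 28804) (nat_lit 6) (nat_lit 379) (nat_lit 1) (nat_lit 278) (nat_lit 230) (nat_lit 272)) (PT.nd (nat_lit 78) (PT.lf (nat_lit 28728) (nat_lit 6) (nat_lit 378) (nat_lit 1) (nat_lit 279) (nat_lit 230) (nat_lit 271)) (PT.lf (nat_lit 28652) (nat_lit 6) (nat_lit 377) (nat_lit 1) (nat_lit 280) (nat_lit 230) (nat_lit 270))))))))
noncomputable def pc21 : PT := (PT.nd (nat_lit 80730) (PT.nd (nat_lit 80106) (PT.nd (nat_lit 312) (PT.nd (nat_lit 156) (PT.nd (nat_lit 78) (PT.lf (nat_lit 28576) (nat_lit 6) (nat_lit 376) (nat_lit 1) (nat_lit 281) (nat_lit 230) (nat_lit 269)) (PT.lf (nat_lit 28500) (nat_lit 6) (nat_lit 375) (nat_lit 1) (nat_lit 282) (nat_lit 230) (nat_lit 268))) (PT.nd (nat_lit 78) (PT.lf (nat_lit 28424) (nat_lit 6) (nat_lit 374) (nat_lit 1) (nat_lit 283) (nat_lit 230) (nat_lit 267)) (PT.lf (nat_lit 28348) (nat_lit 6) (nat_lit 373) (nat_lit 1) (nat_lit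 284) (nat_lit 230) (nat_lit 266)))) (PT.nd (nat_lit 79638) (PT.nd (nat_lit 79560) (PT.lf (nat_lit 28272) (nat_lit 6) (nat_lit 372) (nat_lit 1) (nat_lit 285) (nat_lit 230) (nat_lit 265)) (PT.lf (nat_lit 29108) (nat_lit 6) (nat_lit 383) (nat_lit 3) (nat_lit 264) (nat_lit 231) (nat_lit 285))) (PT.nd (nat_lit 78) (PT.lf (nat_lit 29184) (nat_lit 6) (nat_lit 384) (nat_lit 3) (nat_lit 265) (nat_lit 231) (nat_lit 284)) (PT.lf (nat_lit 29260) (nat_lit 6) (nat_lit 385) (nat_lit 3) (nat_lit 266) (nat_lit 231) (nat_lit 283))))) (PT.nd (nat_lit 312) (PT.nd (nat_lit 156) (PT.nd (nat_lit 78) (PT.lf (nat_lit 29336) (nat_lit 6) (nat_lit 386) (nat_lit 3) (nat_lit 267) (nat_lit 231) (nat_lit 282)) (PT.lf (nat_lit 29412) (nat_lit 6) (nat_lit 387) (nat_lit 3) (nat_lit 268) (nat_lit 231) (nat_lit 281))) (PT.nd (nat_lit 78) (PT.lf (nat_lit 29488) (nat_lit 6) (nat_lit 388) (nat_lit 3) (nat_lit 269) (nat_lit 231) (nat_lit 280)) (PT.lf (nat_lit 29564) (nat_lit 6) (nat_lit 389) (nat_lit 3) (nat_lit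 270) (nat_lit 231) (nat_lit 279)))) (PT.nd (nat_lit 156) (PT.nd (nat_lit 78) (PT.lf (nat_lit 29640) (nat_lit 6) (nat_lit 390) (nat_lit 3) (nat_lit 271) (nat_lit 231) (nat_lit 278)) (PT.lf (nat_lit 29716) (nat_lit 6) (nat_lit 391) (nat_lit 3) (nat_lit 272) (nat_lit 231) (nat_lit 277))) (PT.nd (nat_lit 78) (PT.lf (nat_lit 29792) (nat_lit 6) (nat_lit 392) (nat_lit 3) (nat_lit 273) (nat_lit 231) (nat_lit 276)) (PT.lf (nat_lit 29868) (nat_lit 6) (nat_lit 393) (nat_lit 3) (nat_lit 274) (nat_lit 231) (nat_lit 275)))))) (PT.nd (nat_lit 624) (PT.nd (nat_lit 312) (PT.nd (nat_lit 156) (PT.nd (nat_lit 78) (PT.lf (nat_lit 29868) (nat_lit 6) (nat_lit 393) (nat_lit 1) (nat_lit 275) (nat_lit 231) (nat_lit 274)) (PT.lf (nat_lit 29792) (nat_lit 6) (nat_lit 392) (nat_lit 1) (nat_lit 276) (nat_lit 231) (nat_lit 273))) (PT.nd (nat_lit 78) (PT.lf (nat_lit 29716) (nat_lit 6) (nat_lit 391) (nat_lit 1) (nat_lit 277) (nat_lit 231) (nat_lit 272)) (PT.lf (nat_lit 29640) (nat_lit 6) (nat_lit 390)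 (nat_lit 1) (nat_lit 278) (nat_lit 231) (nat_lit 271)))) (PT.nd (nat_lit 156) (PT.nd (nat_lit 78) (PT.lf (nat_lit 29564) (nat_lit 6) (nat_lit 389) (nat_lit 1) (nat_lit 279) (nat_lit 231) (nat_lit 270)) (PT.lf (nat_lit 29488) (nat_lit 6) (nat_lit 388) (nat_lit 1) (nat_lit 280) (nat_lit 231) (nat_lit 269))) (PT.nd (nat_lit 78) (PT.lf (nat_lit 29412) (nat_lit 6) (nat_lit 387) (nat_lit 1) (nat_lit 281) (nat_lit 231) (nat_lit 268)) (PT.lf (nat_lit 29336) (nat_lit 6) (nat_lit 386) (nat_lit 1) (nat_lit 282) (nat_lit 231) (nat_lit 267))))) (PT.nd (nat_lit 79716) (PT.nd (nat_lit 156) (PT.nd (nat_lit 78) (PT.lf (nat_lit 29260) (nat_lit 6) (nat_lit 385) (nat_lit 1) (nat_lit 283) (nat_lit 231) (nat_lit 266)) (PT.lf (nat_lit 29184) (nat_lit 6) (nat_lit 384) (nat_lit 1) (nat_lit 284) (nat_lit 231) (nat_lit 265))) (PT.nd (nat_lit 79482) (PT.lf (nat_lit 29108) (nat_lit 6) (nat_lit 383) (nat_lit 1) (nat_lit 285) (nat_lit 231) (nat_lit 264)) (PT.lf (nat_lit 29944) (nat_lit 6) (nat_lit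 394) (nat_lit 3) (nat_lit 263) (nat_lit 232) (nat_lit 285)))) (PT.nd (nat_lit 156) (PT.nd (nat_lit 78) (PT.lf (nat_lit 30020) (nat_lit 6) (nat_lit 395) (nat_lit 3) (nat_lit 264) (nat_lit 232) (nat_lit 284)) (PT.lf (nat_lit 30096) (nat_lit 6) (nat_lit 396) (nat_lit 3) (nat_lit 265) (nat_lit 232) (nat_lit 283))) (PT.nd (nat_lit 78) (PT.lf (nat_lit 30172) (nat_lit 6) (nat_lit 397) (nat_lit 3) (nat_lit 266) (nat_lit 232) (nat_lit 282)) (PT.nd (nat_lit 78) (PT.lf (nat_lit 30248) (nat_lit 6) (nat_lit 398) (nat_lit 3) (nat_lit 267) (nat_lit 232) (nat_lit 281)) (PT.lf (nat_lit 30324) (nat_lit 6) (nat_lit 399) (nat_lit 3) (nat_lit 268) (nat_lit 232) (nat_lit 280))))))))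
noncomputable def pc22 : PT := (PT.nd (nat_lit 1248) (PT.nd (nat_lit 624) (PT.nd (nat_lit 312) (PT.nd (nat_lit 156) (PT.nd (nat_lit 78) (PT.lf (nat_lit 30400) (nat_lit 6) (nat_lit 400) (nat_lit 3) (nat_lit 269) (nat_lit 232) (nat_lit 279)) (PT.lf (nat_lit 30476) (nat_lit 6) (nat_lit 401) (nat_lit 3) (nat_lit 270) (nat_lit 232) (nat_lit 278))) (PT.nd (nat_lit 78) (PT.lf (nat_lit 30552) (nat_lit 6) (nat_lit 402) (nat_lit 3) (nat_lit 271) (nat_lit 232) (nat_lit 277)) (PT.lf (nat_lit 30628) (nat_lit 6) (nat_lit 403) (nat_lit 3) (nat_lit 272) (nat_lit 232) (nat_lit 276)))) (PT.nd (nat_lit 156) (PT.nd (nat_lit 78) (PT.lf (nat_lit 30704) (nat_lit 6) (nat_lit 404) (nat_lit 3) (nat_lit 273) (nat_lit 232) (nat_lit 275)) (PT.lf (nat_lit 30780) (nat_lit 3) (nat_lit 405) (nat_lit 1) (nat_lit 274) (nat_lit 232) (nat_lit 274))) (PT.nd (nat_lit 78) (PT.lf (nat_lit 30704) (nat_lit 6) (nat_lit 404) (nat_lit 1) (nat_lit 275) (nat_lit 232) (nat_lit 273)) (PT.lf (nat_lit 30628) (nat_lit 6)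 (nat_lit 403) (nat_lit 1) (nat_lit 276) (nat_lit 232) (nat_lit 272))))) (PT.nd (nat_lit 312) (PT.nd (nat_lit 156) (PT.nd (nat_lit 78) (PT.lf (nat_lit 30552) (nat_lit 6) (nat_lit 402) (nat_lit 1) (nat_lit 277) (nat_lit 232) (nat_lit 271)) (PT.lf (nat_lit 30476) (nat_lit 6) (nat_lit 401) (nat_lit 1) (nat_lit 278) (nat_lit 232) (nat_lit 270))) (PT.nd (nat_lit 78) (PT.lf (nat_lit 30400) (nat_lit 6) (nat_lit 400) (nat_lit 1) (nat_lit 279) (nat_lit 232) (nat_lit 269)) (PT.lf (nat_lit 30324) (nat_lit 6) (nat_lit 399) (nat_lit 1) (nat_lit 280) (nat_lit 232) (nat_lit 268)))) (PT.nd (nat_lit 156) (PT.nd (nat_lit 78) (PT.lf (nat_lit 30248) (nat_lit 6) (nat_lit 398) (nat_lit 1) (nat_lit 281) (nat_lit 232) (nat_lit 267)) (PT.lf (nat_lit 30172) (nat_lit 6) (nat_lit 397) (nat_lit 1) (nat_lit 282) (nat_lit 232) (nat_lit 266))) (PT.nd (nat_lit 78) (PT.lf (nat_lit 30096) (nat_lit 6) (nat_lit 396) (nat_lit 1) (nat_lit 283) (nat_lit 232) (nat_lit 265)) (PT.lf (nat_lit 30020) (nat_lit 6)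 (nat_lit 395) (nat_lit 1) (nat_lit 284) (nat_lit 232) (nat_lit 264)))))) (PT.nd (nat_lit 79950) (PT.nd (nat_lit 79638) (PT.nd (nat_lit 79482) (PT.nd (nat_lit 79404) (PT.lf (nat_lit 29944) (nat_lit 6) (nat_lit 394) (nat_lit 1) (nat_lit 285) (nat_lit 232) (nat_lit 263)) (PT.lf (nat_lit 30856) (nat_lit 6) (nat_lit 406) (nat_lit 3) (nat_lit 262) (nat_lit 233) (nat_lit 285))) (PT.nd (nat_lit 78) (PT.lf (nat_lit 30932) (nat_lit 6) (nat_lit 407) (nat_lit 3) (nat_lit 263) (nat_lit 233) (nat_lit 284)) (PT.lf (nat_lit 31008) (nat_lit 6) (nat_lit 408) (nat_lit 3) (nat_lit 264) (nat_lit 233) (nat_lit 283)))) (PT.nd (nat_lit 156) (PT.nd (nat_lit 78) (PT.lf (nat_lit 31084) (nat_lit 6) (nat_lit 409) (nat_lit 3) (nat_lit 265) (nat_lit 233) (nat_lit 282)) (PT.lf (nat_lit 31160) (nat_lit 6) (nat_lit 410) (nat_lit 3) (nat_lit 266) (nat_lit 233) (nat_lit 281))) (PT.nd (nat_lit 78) (PT.lf (nat_lit 31236) (nat_lit 6) (nat_lit 411) (nat_lit 3) (nat_lit 267) (nat_lit 233) (nat_lit 280)) (PT.lf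 (nat_lit 31312) (nat_lit 6) (nat_lit 412) (nat_lit 3) (nat_lit 268) (nat_lit 233) (nat_lit 279))))) (PT.nd (nat_lit 312) (PT.nd (nat_lit 156) (PT.nd (nat_lit 78) (PT.lf (nat_lit 31388) (nat_lit 6) (nat_lit 413) (nat_lit 3) (nat_lit 269) (nat_lit 233) (nat_lit 278)) (PT.lf (nat_lit 31464) (nat_lit 6) (nat_lit 414) (nat_lit 3) (nat_lit 270) (nat_lit 233) (nat_lit 277))) (PT.nd (nat_lit 78) (PT.lf (nat_lit 31540) (nat_lit 6) (nat_lit 415) (nat_lit 3) (nat_lit 271) (nat_lit 233) (nat_lit 276)) (PT.lf (nat_lit 31616) (nat_lit 6) (nat_lit 416) (nat_lit 3) (nat_lit 272) (nat_lit 233) (nat_lit 275)))) (PT.nd (nat_lit 156) (PT.nd (nat_lit 78) (PT.lf (nat_lit 31692) (nat_lit 6) (nat_lit 417) (nat_lit 3) (nat_lit 273) (nat_lit 233) (nat_lit 274)) (PT.lf (nat_lit 31692) (nat_lit 6) (nat_lit 417) (nat_lit 1) (nat_lit 274) (nat_lit 233) (nat_lit 273))) (PT.nd (nat_lit 78) (PT.lf (nat_lit 31616) (nat_lit 6) (nat_lit 416) (nat_lit 1) (nat_lit 275) (nat_lit 233) (nat_lit 272)) (PT.nd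 (nat_lit 78) (PT.lf (nat_lit 31540) (nat_lit 6) (nat_lit 415) (nat_lit 1) (nat_lit 276) (nat_lit 233) (nat_lit 271)) (PT.lf (nat_lit 31464) (nat_lit 6) (nat_lit 414) (nat_lit 1) (nat_lit 277) (nat_lit 233) (nat_lit 270))))))))
noncomputable def pc23 : PT := (PT.nd (nat_lit 80574) (PT.nd (nat_lit 79872) (PT.nd (nat_lit 312) (PT.nd (nat_lit 156) (PT.nd (nat_lit 78) (PT.lf (nat_lit 31388) (nat_lit 6) (nat_lit 413) (nat_lit 1) (nat_lit 278) (nat_lit 233) (nat_lit 269)) (PT.lf (nat_lit 31312) (nat_lit 6) (nat_lit 412) (nat_lit 1) (nat_lit 279) (nat_lit 233) (nat_lit 268))) (PT.nd (nat_lit 78) (PT.lf (nat_lit 31236) (nat_lit 6) (nat_lit 411) (nat_lit 1) (nat_lit 280) (nat_lit 233) (nat_lit 267)) (PT.lf (nat_lit 31160) (nat_lit 6) (nat_lit 410) (nat_lit 1) (nat_lit 281) (nat_lit 233) (nat_lit 266)))) (PT.nd (nat_lit 156) (PT.nd (nat_lit 78) (PT.lf (nat_lit 31084) (nat_lit 6) (nat_lit 409) (nat_lit 1) (nat_lit 282) (nat_lit 233) (nat_lit 265)) (PT.lf (nat_lit 31008) (nat_lit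 6) (nat_lit 408) (nat_lit 1) (nat_lit 283) (nat_lit 233) (nat_lit 264))) (PT.nd (nat_lit 78) (PT.lf (nat_lit 30932) (nat_lit 6) (nat_lit 407) (nat_lit 1) (nat_lit 284) (nat_lit 233) (nat_lit 263)) (PT.lf (nat_lit 30856) (nat_lit 6) (nat_lit 406) (nat_lit 1) (nat_lit 285) (nat_lit 233) (nat_lit 262))))) (PT.nd (nat_lit 312) (PT.nd (nat_lit 156) (PT.nd (nat_lit 78) (PT.lf (nat_lit 31768) (nat_lit 6) (nat_lit 418) (nat_lit 3) (nat_lit 261) (nat_lit 234) (nat_lit 285)) (PT.lf (nat_lit 31844) (nat_lit 6) (nat_lit 419) (nat_lit 3) (nat_lit 262) (nat_lit 234) (nat_lit 284))) (PT.nd (nat_lit 78) (PT.lf (nat_lit 31920) (nat_lit 6) (nat_lit 420) (nat_lit 3) (nat_lit 263) (nat_lit 234) (nat_lit 283)) (PT.lf (nat_lit 31996) (nat_lit 6) (nat_lit 421) (nat_lit 3) (nat_lit 264) (nat_lit 234) (nat_lit 282)))) (PT.nd (nat_lit 156) (PT.nd (nat_lit 78) (PT.lf (nat_lit 32072) (nat_lit 6) (nat_lit 422) (nat_lit 3) (nat_lit 265) (nat_lit 234) (nat_lit 281)) (PT.lf (nat_lit 32148) (nat_lit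 6) (nat_lit 423) (nat_lit 3) (nat_lit 266) (nat_lit 234) (nat_lit 280))) (PT.nd (nat_lit 78) (PT.lf (nat_lit 32224) (nat_lit 6) (nat_lit 424) (nat_lit 3) (nat_lit 267) (nat_lit 234) (nat_lit 279)) (PT.nd (nat_lit 78) (PT.lf (nat_lit 32300) (nat_lit 6) (nat_lit 425) (nat_lit 3) (nat_lit 268) (nat_lit 234) (nat_lit 278)) (PT.lf (nat_lit 32376) (nat_lit 6) (nat_lit 426) (nat_lit 3) (nat_lit 269) (nat_lit 234) (nat_lit 277))))))) (PT.nd (nat_lit 624) (PT.nd (nat_lit 312) (PT.nd (nat_lit 156) (PT.nd (nat_lit 78) (PT.lf (nat_lit 32452) (nat_lit 6) (nat_lit 427) (nat_lit 3) (nat_lit 270) (nat_lit 234) (nat_lit 276)) (PT.lf (nat_lit 32528) (nat_lit 6) (nat_lit 428) (nat_lit 3) (nat_lit 271) (nat_lit 234) (nat_lit 275))) (PT.nd (nat_lit 78) (PT.lf (nat_lit 32604) (nat_lit 6) (nat_lit 429) (nat_lit 3) (nat_lit 272) (nat_lit 234) (nat_lit 274)) (PT.lf (nat_lit 32680) (nat_lit 3) (nat_lit 430) (nat_lit 1) (nat_lit 273) (nat_lit 234) (nat_lit 273)))) (PT.nd (nat_lit 156) (PT.nd (nat_lit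 78) (PT.lf (nat_lit 32604) (nat_lit 6) (nat_lit 429) (nat_lit 1) (nat_lit 274) (nat_lit 234) (nat_lit 272)) (PT.lf (nat_lit 32528) (nat_lit 6) (nat_lit 428) (nat_lit 1) (nat_lit 275) (nat_lit 234) (nat_lit 271))) (PT.nd (nat_lit 78) (PT.lf (nat_lit 32452) (nat_lit 6) (nat_lit 427) (nat_lit 1) (nat_lit 276) (nat_lit 234) (nat_lit 270)) (PT.lf (nat_lit 32376) (nat_lit 6) (nat_lit 426) (nat_lit 1) (nat_lit 277) (nat_lit 234) (nat_lit 269))))) (PT.nd (nat_lit 312) (PT.nd (nat_lit 156) (PT.nd (nat_lit 78) (PT.lf (nat_lit 32300) (nat_lit 6) (nat_lit 425) (nat_lit 1) (nat_lit 278) (nat_lit 234) (nat_lit 268)) (PT.lf (nat_lit 32224) (nat_lit 6) (nat_lit 424) (nat_lit 1) (nat_lit 279) (nat_lit 234) (nat_lit 267))) (PT.nd (nat_lit 78) (PT.lf (nat_lit 32148) (nat_lit 6) (nat_lit 423) (nat_lit 1) (nat_lit 280) (nat_lit 234) (nat_lit 266)) (PT.lf (nat_lit 32072) (nat_lit 6) (nat_lit 422) (nat_lit 1) (nat_lit 281) (nat_lit 234) (nat_lit 265)))) (PT.nd (nat_lit 156) (PT.nd (nat_lit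 78) (PT.lf (nat_lit 31996) (nat_lit 6) (nat_lit 421) (nat_lit 1) (nat_lit 282) (nat_lit 234) (nat_lit 264)) (PT.lf (nat_lit 31920) (nat_lit 6) (nat_lit 420) (nat_lit 1) (nat_lit 283) (nat_lit 234) (nat_lit 263))) (PT.nd (nat_lit 78) (PT.lf (nat_lit 31844) (nat_lit 6) (nat_lit 419) (nat_lit 1) (nat_lit 284) (nat_lit 234) (nat_lit 262)) (PT.nd (nat_lit 79248) (PT.lf (nat_lit 31768) (nat_lit 6) (nat_lit 418) (nat_lit 1) (nat_lit 285) (nat_lit 234) (nat_lit 261)) (PT.lf (nat_lit 32756) (nat_lit 6) (nat_lit 431) (nat_lit 3) (nat_lit 260) (nat_lit 235) (nat_lit 285))))))))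
noncomputable def pc24 : PT := (PT.nd (nat_lit 1248) (PT.nd (nat_lit 624) (PT.nd (nat_lit 312) (PT.nd (nat_lit 156) (PT.nd (nat_lit 78) (PT.lf (nat_lit 32832) (nat_lit 6) (nat_lit 432) (nat_lit 3) (nat_lit 261) (nat_lit 235) (nat_lit 284)) (PT.lf (nat_lit 32908) (nat_lit 6) (nat_lit 433) (nat_lit 3) (nat_lit 262) (nat_lit 235) (nat_lit 283))) (PT.nd (nat_lit 78) (PT.lf (nat_lit 32984) (nat_lit 6) (nat_lit 434) (nat_lit 3) (nat_lit 263) (nat_lit 235) (nat_lit 282)) (PT.lf (nat_lit 33060) (nat_lit 6) (nat_lit 435) (nat_lit 3) (nat_lit 264) (nat_lit 235) (nat_lit 281)))) (PT.nd (nat_lit 156) (PT.nd (nat_lit 78) (PT.lf (nat_lit 33136) (nat_lit 6) (nat_lit 436) (nat_lit 3) (nat_lit 265) (nat_lit 235) (nat_lit 280)) (PT.lf (nat_lit 33212) (nat_lit 6) (nat_lit 437) (nat_lit 3) (nat_lit 266) (nat_lit 235) (nat_lit 279))) (PT.nd (nat_lit 78) (PT.lf (nat_lit 33288) (nat_lit 6) (nat_lit 438) (nat_lit 3) (nat_lit 267) (nat_lit 235) (nat_lit 278)) (PT.lf (nat_lit 33364) (nat_lit 6)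 (nat_lit 439) (nat_lit 3) (nat_lit 268) (nat_lit 235) (nat_lit 277))))) (PT.nd (nat_lit 312) (PT.nd (nat_lit 156) (PT.nd (nat_lit 78) (PT.lf (nat_lit 33440) (nat_lit 6) (nat_lit 440) (nat_lit 3) (nat_lit 269) (nat_lit 235) (nat_lit 276)) (PT.lf (nat_lit 33516) (nat_lit 6) (nat_lit 441) (nat_lit 3) (nat_lit 270) (nat_lit 235) (nat_lit 275))) (PT.nd (nat_lit 78) (PT.lf (nat_lit 33592) (nat_lit 6) (nat_lit 442) (nat_lit 3) (nat_lit 271) (nat_lit 235) (nat_lit 274)) (PT.lf (nat_lit 33668) (nat_lit 6) (nat_lit 443) (nat_lit 3) (nat_lit 272) (nat_lit 235) (nat_lit 273)))) (PT.nd (nat_lit 156) (PT.nd (nat_lit 78) (PT.lf (nat_lit 33668) (nat_lit 6) (nat_lit 443) (nat_lit 1) (nat_lit 273) (nat_lit 235) (nat_lit 272)) (PT.lf (nat_lit 33592) (nat_lit 6) (nat_lit 442) (nat_lit 1) (nat_lit 274) (nat_lit 235) (nat_lit 271))) (PT.nd (nat_lit 78) (PT.lf (nat_lit 33516) (nat_lit 6) (nat_lit 441) (nat_lit 1) (nat_lit 275) (nat_lit 235) (nat_lit 270)) (PT.lf (nat_lit 33440) (nat_lit 6)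 (nat_lit 440) (nat_lit 1) (nat_lit 276) (nat_lit 235) (nat_lit 269)))))) (PT.nd (nat_lit 624) (PT.nd (nat_lit 312) (PT.nd (nat_lit 156) (PT.nd (nat_lit 78) (PT.lf (nat_lit 33364) (nat_lit 6) (nat_lit 439) (nat_lit 1) (nat_lit 277) (nat_lit 235) (nat_lit 268)) (PT.lf (nat_lit 33288) (nat_lit 6) (nat_lit 438) (nat_lit 1) (nat_lit 278) (nat_lit 235) (nat_lit 267))) (PT.nd (nat_lit 78) (PT.lf (nat_lit 33212) (nat_lit 6) (nat_lit 437) (nat_lit 1) (nat_lit 279) (nat_lit 235) (nat_lit 266)) (PT.lf (nat_lit 33136) (nat_lit 6) (nat_lit 436) (nat_lit 1) (nat_lit 280) (nat_lit 235) (nat_lit 265)))) (PT.nd (nat_lit 156) (PT.nd (nat_lit 78) (PT.lf (nat_lit 33060) (nat_lit 6) (nat_lit 435) (nat_lit 1) (nat_lit 281) (nat_lit 235) (nat_lit 264)) (PT.lf (nat_lit 32984) (nat_lit 6) (nat_lit 434) (nat_lit 1) (nat_lit 282) (nat_lit 235) (nat_lit 263))) (PT.nd (nat_lit 78) (PT.lf (nat_lit 32908) (nat_lit 6) (nat_lit 433) (nat_lit 1) (nat_lit 283) (nat_lit 235) (nat_lit 262)) (PT.lf (nat_lit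 32832) (nat_lit 6) (nat_lit 432) (nat_lit 1) (nat_lit 284) (nat_lit 235) (nat_lit 261))))) (PT.nd (nat_lit 79482) (PT.nd (nat_lit 79326) (PT.nd (nat_lit 79248) (PT.lf (nat_lit 32756) (nat_lit 6) (nat_lit 431) (nat_lit 1) (nat_lit 285) (nat_lit 235) (nat_lit 260)) (PT.lf (nat_lit 34504) (nat_lit 6) (nat_lit 454) (nat_lit 3) (nat_lit 260) (nat_lit 236) (nat_lit 284))) (PT.nd (nat_lit 78) (PT.lf (nat_lit 34580) (nat_lit 6) (nat_lit 455) (nat_lit 3) (nat_lit 261) (nat_lit 236) (nat_lit 283)) (PT.lf (nat_lit 34656) (nat_lit 6) (nat_lit 456) (nat_lit 3) (nat_lit 262) (nat_lit 236) (nat_lit 282)))) (PT.nd (nat_lit 156) (PT.nd (nat_lit 78) (PT.lf (nat_lit 34732) (nat_lit 6) (nat_lit 457) (nat_lit 3) (nat_lit 263) (nat_lit 236) (nat_lit 281)) (PT.lf (nat_lit 34808) (nat_lit 6) (nat_lit 458) (nat_lit 3) (nat_lit 264) (nat_lit 236) (nat_lit 280))) (PT.nd (nat_lit 78) (PT.lf (nat_lit 34884) (nat_lit 6) (nat_lit 459) (nat_lit 3) (nat_lit 265) (nat_lit 236) (nat_lit 279)) (PT.nd (nat_lit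 78) (PT.lf (nat_lit 34960) (nat_lit 6) (nat_lit 460) (nat_lit 3) (nat_lit 266) (nat_lit 236) (nat_lit 278)) (PT.lf (nat_lit 35036) (nat_lit 6) (nat_lit 461) (nat_lit 3) (nat_lit 267) (nat_lit 236) (nat_lit 277))))))))
noncomputable def pc25 : PT := (PT.nd (nat_lit 1248) (PT.nd (nat_lit 624) (PT.nd (nat_lit 312) (PT.nd (nat_lit 156) (PT.nd (nat_lit 78) (PT.lf (nat_lit 35112) (nat_lit 6) (nat_lit 462) (nat_lit 3) (nat_lit 268) (nat_lit 236) (nat_lit 276)) (PT.lf (nat_lit 35188) (nat_lit 6) (nat_lit 463) (nat_lit 3) (nat_lit 269) (nat_lit 236) (nat_lit 275))) (PT.nd (nat_lit 78) (PT.lf (nat_lit 35264) (nat_lit 6) (nat_lit 464) (nat_lit 3) (nat_lit 270) (nat_lit 236) (nat_lit 274)) (PT.lf (nat_lit 35340) (nat_lit 6) (nat_lit 465) (nat_lit 3) (nat_lit 271) (nat_lit 236) (nat_lit 273)))) (PT.nd (nat_lit 156) (PT.nd (nat_lit 78) (PT.lf (nat_lit 35416) (nat_lit 3) (nat_lit 466) (nat_lit 1) (nat_lit 272) (nat_lit 236) (nat_lit 272)) (PT.lf (nat_lit 35340) (nat_lit 6) (nat_lit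 465) (nat_lit 1) (nat_lit 273) (nat_lit 236) (nat_lit 271))) (PT.nd (nat_lit 78) (PT.lf (nat_lit 35264) (nat_lit 6) (nat_lit 464) (nat_lit 1) (nat_lit 274) (nat_lit 236) (nat_lit 270)) (PT.lf (nat_lit 35188) (nat_lit 6) (nat_lit 463) (nat_lit 1) (nat_lit 275) (nat_lit 236) (nat_lit 269))))) (PT.nd (nat_lit 312) (PT.nd (nat_lit 156) (PT.nd (nat_lit 78) (PT.lf (nat_lit 35112) (nat_lit 6) (nat_lit 462) (nat_lit 1) (nat_lit 276) (nat_lit 236) (nat_lit 268)) (PT.lf (nat_lit 35036) (nat_lit 6) (nat_lit 461) (nat_lit 1) (nat_lit 277) (nat_lit 236) (nat_lit 267))) (PT.nd (nat_lit 78) (PT.lf (nat_lit 34960) (nat_lit 6) (nat_lit 460) (nat_lit 1) (nat_lit 278) (nat_lit 236) (nat_lit 266)) (PT.lf (nat_lit 34884) (nat_lit 6) (nat_lit 459) (nat_lit 1) (nat_lit 279) (nat_lit 236) (nat_lit 265)))) (PT.nd (nat_lit 156) (PT.nd (nat_lit 78) (PT.lf (nat_lit 34808) (nat_lit 6) (nat_lit 458) (nat_lit 1) (nat_lit 280) (nat_lit 236) (nat_lit 264)) (PT.lf (nat_lit 34732) (nat_lit 6) (nat_lit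 457) (nat_lit 1) (nat_lit 281) (nat_lit 236) (nat_lit 263))) (PT.nd (nat_lit 78) (PT.lf (nat_lit 34656) (nat_lit 6) (nat_lit 456) (nat_lit 1) (nat_lit 282) (nat_lit 236) (nat_lit 262)) (PT.lf (nat_lit 34580) (nat_lit 6) (nat_lit 455) (nat_lit 1) (nat_lit 283) (nat_lit 236) (nat_lit 261)))))) (PT.nd (nat_lit 79794) (PT.nd (nat_lit 79482) (PT.nd (nat_lit 79326) (PT.nd (nat_lit 79248) (PT.lf (nat_lit 34504) (nat_lit 6) (nat_lit 454) (nat_lit 1) (nat_lit 284) (nat_lit 236) (nat_lit 260)) (PT.lf (nat_lit 34428) (nat_lit 6) (nat_lit 453) (nat_lit 3) (nat_lit 259) (nat_lit 237) (nat_lit 284))) (PT.nd (nat_lit 78) (PT.lf (nat_lit 36328) (nat_lit 6) (nat_lit 478) (nat_lit 3) (nat_lit 260) (nat_lit 237) (nat_lit 283)) (PT.lf (nat_lit 36404) (nat_lit 6) (nat_lit 479) (nat_lit 3) (nat_lit 261) (nat_lit 237) (nat_lit 282)))) (PT.nd (nat_lit 156) (PT.nd (nat_lit 78) (PT.lf (nat_lit 36480) (nat_lit 6) (nat_lit 480) (nat_lit 3) (nat_lit 262) (nat_lit 237) (nat_lit 281)) (PT.lf (nat_lit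 36556) (nat_lit 6) (nat_lit 481) (nat_lit 3) (nat_lit 263) (nat_lit 237) (nat_lit 280))) (PT.nd (nat_lit 78) (PT.lf (nat_lit 36632) (nat_lit 6) (nat_lit 482) (nat_lit 3) (nat_lit 264) (nat_lit 237) (nat_lit 279)) (PT.lf (nat_lit 36708) (nat_lit 6) (nat_lit 483) (nat_lit 3) (nat_lit 265) (nat_lit 237) (nat_lit 278))))) (PT.nd (nat_lit 312) (PT.nd (nat_lit 156) (PT.nd (nat_lit 78) (PT.lf (nat_lit 36784) (nat_lit 6) (nat_lit 484) (nat_lit 3) (nat_lit 266) (nat_lit 237) (nat_lit 277)) (PT.lf (nat_lit 36860) (nat_lit 6) (nat_lit 485) (nat_lit 3) (nat_lit 267) (nat_lit 237) (nat_lit 276))) (PT.nd (nat_lit 78) (PT.lf (nat_lit 36936) (nat_lit 6) (nat_lit 486) (nat_lit 3) (nat_lit 268) (nat_lit 237) (nat_lit 275)) (PT.lf (nat_lit 37012) (nat_lit 6) (nat_lit 487) (nat_lit 3) (nat_lit 269) (nat_lit 237) (nat_lit 274)))) (PT.nd (nat_lit 156) (PT.nd (nat_lit 78) (PT.lf (nat_lit 37088) (nat_lit 6) (nat_lit 488) (nat_lit 3) (nat_lit 270) (nat_lit 237) (nat_lit 273)) (PT.lf (nat_lit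 37164) (nat_lit 6) (nat_lit 489) (nat_lit 3) (nat_lit 271) (nat_lit 237) (nat_lit 272))) (PT.nd (nat_lit 78) (PT.lf (nat_lit 37164) (nat_lit 6) (nat_lit 489) (nat_lit 1) (nat_lit 272) (nat_lit 237) (nat_lit 271)) (PT.nd (nat_lit 78) (PT.lf (nat_lit 37088) (nat_lit 6) (nat_lit 488) (nat_lit 1) (nat_lit 273) (nat_lit 237) (nat_lit 270)) (PT.lf (nat_lit 37012) (nat_lit 6) (nat_lit 487) (nat_lit 1) (nat_lit 274) (nat_lit 237) (nat_lit 269))))))))
noncomputable def pc26 : PT := (PT.nd (nat_lit 80340) (PT.nd (nat_lit 624) (PT.nd (nat_lit 312) (PT.nd (nat_lit 156) (PT.nd (nat_lit 78) (PT.lf (nat_lit 36936) (nat_lit 6) (nat_lit 486) (nat_lit 1) (nat_lit 275) (nat_lit 237) (nat_lit 268)) (PT.lf (nat_lit 36860) (nat_lit 6) (nat_lit 485) (nat_lit 1) (nat_lit 276) (nat_lit 237) (nat_lit 267))) (PT.nd (nat_lit 78) (PT.lf (nat_lit 36784) (nat_lit 6) (nat_lit 484) (nat_lit 1) (nat_lit 277) (nat_lit 237) (nat_lit 266)) (PT.lf (nat_lit 36708) (nat_lit 6) (nat_lit 483) (nat_lit 1) (nat_lit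 278) (nat_lit 237) (nat_lit 265)))) (PT.nd (nat_lit 156) (PT.nd (nat_lit 78) (PT.lf (nat_lit 36632) (nat_lit 6) (nat_lit 482) (nat_lit 1) (nat_lit 279) (nat_lit 237) (nat_lit 264)) (PT.lf (nat_lit 36556) (nat_lit 6) (nat_lit 481) (nat_lit 1) (nat_lit 280) (nat_lit 237) (nat_lit 263))) (PT.nd (nat_lit 78) (PT.lf (nat_lit 36480) (nat_lit 6) (nat_lit 480) (nat_lit 1) (nat_lit 281) (nat_lit 237) (nat_lit 262)) (PT.lf (nat_lit 36404) (nat_lit 6) (nat_lit 479) (nat_lit 1) (nat_lit 282) (nat_lit 237) (nat_lit 261))))) (PT.nd (nat_lit 79404) (PT.nd (nat_lit 79248) (PT.nd (nat_lit 78) (PT.lf (nat_lit 36328) (nat_lit 6) (nat_lit 478) (nat_lit 1) (nat_lit 283) (nat_lit 237) (nat_lit 260)) (PT.lf (nat_lit 34428) (nat_lit 6) (nat_lit 453) (nat_lit 1) (nat_lit 284) (nat_lit 237) (nat_lit 259))) (PT.nd (nat_lit 78) (PT.lf (nat_lit 34352) (nat_lit 6) (nat_lit 452) (nat_lit 3) (nat_lit 258) (nat_lit 238) (nat_lit 284)) (PT.lf (nat_lit 36252) (nat_lit 6) (nat_lit 477) (nat_lit 3) (nat_lit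 259) (nat_lit 238) (nat_lit 283)))) (PT.nd (nat_lit 156) (PT.nd (nat_lit 78) (PT.lf (nat_lit 38076) (nat_lit 6) (nat_lit 501) (nat_lit 3) (nat_lit 260) (nat_lit 238) (nat_lit 282)) (PT.lf (nat_lit 38152) (nat_lit 6) (nat_lit 502) (nat_lit 3) (nat_lit 261) (nat_lit 238) (nat_lit 281))) (PT.nd (nat_lit 78) (PT.lf (nat_lit 38228) (nat_lit 6) (nat_lit 503) (nat_lit 3) (nat_lit 262) (nat_lit 238) (nat_lit 280)) (PT.lf (nat_lit 38304) (nat_lit 6) (nat_lit 504) (nat_lit 3) (nat_lit 263) (nat_lit 238) (nat_lit 279)))))) (PT.nd (nat_lit 624) (PT.nd (nat_lit 312) (PT.nd (nat_lit 156) (PT.nd (nat_lit 78) (PT.lf (nat_lit 38380) (nat_lit 6) (nat_lit 505) (nat_lit 3) (nat_lit 264) (nat_lit 238) (nat_lit 278)) (PT.lf (nat_lit 38456) (nat_lit 6) (nat_lit 506) (nat_lit 3) (nat_lit 265) (nat_lit 238) (nat_lit 277))) (PT.nd (nat_lit 78) (PT.lf (nat_lit 38532) (nat_lit 6) (nat_lit 507) (nat_lit 3) (nat_lit 266) (nat_lit 238) (nat_lit 276)) (PT.lf (nat_lit 38608) (nat_lit 6) (nat_lit 508)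 (nat_lit 3) (nat_lit 267) (nat_lit 238) (nat_lit 275)))) (PT.nd (nat_lit 156) (PT.nd (nat_lit 78) (PT.lf (nat_lit 38684) (nat_lit 6) (nat_lit 509) (nat_lit 3) (nat_lit 268) (nat_lit 238) (nat_lit 274)) (PT.lf (nat_lit 38760) (nat_lit 6) (nat_lit 510) (nat_lit 3) (nat_lit 269) (nat_lit 238) (nat_lit 273))) (PT.nd (nat_lit 78) (PT.lf (nat_lit 38836) (nat_lit 6) (nat_lit 511) (nat_lit 3) (nat_lit 270) (nat_lit 238) (nat_lit 272)) (PT.lf (nat_lit 38912) (nat_lit 3) (nat_lit 512) (nat_lit 1) (nat_lit 271) (nat_lit 238) (nat_lit 271))))) (PT.nd (nat_lit 312) (PT.nd (nat_lit 156) (PT.nd (nat_lit 78) (PT.lf (nat_lit 38836) (nat_lit 6) (nat_lit 511) (nat_lit 1) (nat_lit 272) (nat_lit 238) (nat_lit 270)) (PT.lf (nat_lit 38760) (nat_lit 6) (nat_lit 510) (nat_lit 1) (nat_lit 273) (nat_lit 238) (nat_lit 269))) (PT.nd (nat_lit 78) (PT.lf (nat_lit 38684) (nat_lit 6) (nat_lit 509) (nat_lit 1) (nat_lit 274) (nat_lit 238) (nat_lit 268)) (PT.lf (nat_lit 38608) (nat_lit 6) (nat_lit 508)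 (nat_lit 1) (nat_lit 275) (nat_lit 238) (nat_lit 267)))) (PT.nd (nat_lit 156) (PT.nd (nat_lit 78) (PT.lf (nat_lit 38532) (nat_lit 6) (nat_lit 507) (nat_lit 1) (nat_lit 276) (nat_lit 238) (nat_lit 266)) (PT.lf (nat_lit 38456) (nat_lit 6) (nat_lit 506) (nat_lit 1) (nat_lit 277) (nat_lit 238) (nat_lit 265))) (PT.nd (nat_lit 78) (PT.lf (nat_lit 38380) (nat_lit 6) (nat_lit 505) (nat_lit 1) (nat_lit 278) (nat_lit 238) (nat_lit 264)) (PT.nd (nat_lit 78) (PT.lf (nat_lit 38304) (nat_lit 6) (nat_lit 504) (nat_lit 1) (nat_lit 279) (nat_lit 238) (nat_lit 263)) (PT.lf (nat_lit 38228) (nat_lit 6) (nat_lit 503) (nat_lit 1) (nat_lit 280) (nat_lit 238) (nat_lit 262))))))))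
noncomputable def pc27 : PT := (PT.nd (nat_lit 80340) (PT.nd (nat_lit 79638) (PT.nd (nat_lit 79326) (PT.nd (nat_lit 156) (PT.nd (nat_lit 78) (PT.lf (nat_lit 38152) (nat_lit 6) (nat_lit 502) (nat_lit 1) (nat_lit 281) (nat_lit 238) (nat_lit 261)) (PT.lf (nat_lit 38076) (nat_lit 6) (nat_lit 501) (nat_lit 1) (nat_lit 282) (nat_lit 238) (nat_lit 260))) (PT.nd (nat_lit 78) (PT.lf (nat_lit 36252) (nat_lit 6) (nat_lit 477) (nat_lit 1) (nat_lit 283) (nat_lit 238) (nat_lit 259)) (PT.lf (nat_lit 34352) (nat_lit 6) (nat_lit 452) (nat_lit 1) (nat_lit 284) (nat_lit 238) (nat_lit 258)))) (PT.nd (nat_lit 156) (PT.nd (nat_lit 78) (PT.lf (nat_lit 34276) (nat_lit 6) (nat_lit 451) (nat_lit 3) (nat_lit 257) (nat_lit 239) (nat_lit 284)) (PT.lf (nat_lit 36176) (nat_lit 6) (nat_lit 476) (nat_lit 3) (nat_lit 258) (nat_lit 239) (nat_lit 283))) (PT.nd (nat_lit 78) (PT.lf (nat_lit 38000) (nat_lit 6) (nat_lit 500) (nat_lit 3) (nat_lit 259) (nat_lit 239) (nat_lit 282)) (PT.lf (nat_lit 39748) (nat_lit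 6) (nat_lit 523) (nat_lit 3) (nat_lit 260) (nat_lit 239) (nat_lit 281))))) (PT.nd (nat_lit 312) (PT.nd (nat_lit 156) (PT.nd (nat_lit 78) (PT.lf (nat_lit 39824) (nat_lit 6) (nat_lit 524) (nat_lit 3) (nat_lit 261) (nat_lit 239) (nat_lit 280)) (PT.lf (nat_lit 39900) (nat_lit 6) (nat_lit 525) (nat_lit 3) (nat_lit 262) (nat_lit 239) (nat_lit 279))) (PT.nd (nat_lit 78) (PT.lf (nat_lit 39976) (nat_lit 6) (nat_lit 526) (nat_lit 3) (nat_lit 263) (nat_lit 239) (nat_lit 278)) (PT.lf (nat_lit 40052) (nat_lit 6) (nat_lit 527) (nat_lit 3) (nat_lit 264) (nat_lit 239) (nat_lit 277)))) (PT.nd (nat_lit 156) (PT.nd (nat_lit 78) (PT.lf (nat_lit 40128) (nat_lit 6) (nat_lit 528) (nat_lit 3) (nat_lit 265) (nat_lit 239) (nat_lit 276)) (PT.lf (nat_lit 40204) (nat_lit 6) (nat_lit 529) (nat_lit 3) (nat_lit 266) (nat_lit 239) (nat_lit 275))) (PT.nd (nat_lit 78) (PT.lf (nat_lit 40280) (nat_lit 6) (nat_lit 530) (nat_lit 3) (nat_lit 267) (nat_lit 239) (nat_lit 274)) (PT.nd (nat_lit 78) (PT.lf (nat_lit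 40356) (nat_lit 6) (nat_lit 531) (nat_lit 3) (nat_lit 268) (nat_lit 239) (nat_lit 273)) (PT.lf (nat_lit 40432) (nat_lit 6) (nat_lit 532) (nat_lit 3) (nat_lit 269) (nat_lit 239) (nat_lit 272))))))) (PT.nd (nat_lit 624) (PT.nd (nat_lit 312) (PT.nd (nat_lit 156) (PT.nd (nat_lit 78) (PT.lf (nat_lit 40508) (nat_lit 6) (nat_lit 533) (nat_lit 3) (nat_lit 270) (nat_lit 239) (nat_lit 271)) (PT.lf (nat_lit 40508) (nat_lit 6) (nat_lit 533) (nat_lit 1) (nat_lit 271) (nat_lit 239) (nat_lit 270))) (PT.nd (nat_lit 78) (PT.lf (nat_lit 40432) (nat_lit 6) (nat_lit 532) (nat_lit 1) (nat_lit 272) (nat_lit 239) (nat_lit 269)) (PT.lf (nat_lit 40356) (nat_lit 6) (nat_lit 531) (nat_lit 1) (nat_lit 273) (nat_lit 239) (nat_lit 268)))) (PT.nd (nat_lit 156) (PT.nd (nat_lit 78) (PT.lf (nat_lit 40280) (nat_lit 6) (nat_lit 530) (nat_lit 1) (nat_lit 274) (nat_lit 239) (nat_lit 267)) (PT.lf (nat_lit 40204) (nat_lit 6) (nat_lit 529) (nat_lit 1) (nat_lit 275) (nat_lit 239) (nat_lit 266))) (PT.nd (nat_lit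 78) (PT.lf (nat_lit 40128) (nat_lit 6) (nat_lit 528) (nat_lit 1) (nat_lit 276) (nat_lit 239) (nat_lit 265)) (PT.lf (nat_lit 40052) (nat_lit 6) (nat_lit 527) (nat_lit 1) (nat_lit 277) (nat_lit 239) (nat_lit 264))))) (PT.nd (nat_lit 312) (PT.nd (nat_lit 156) (PT.nd (nat_lit 78) (PT.lf (nat_lit 39976) (nat_lit 6) (nat_lit 526) (nat_lit 1) (nat_lit 278) (nat_lit 239) (nat_lit 263)) (PT.lf (nat_lit 39900) (nat_lit 6) (nat_lit 525) (nat_lit 1) (nat_lit 279) (nat_lit 239) (nat_lit 262))) (PT.nd (nat_lit 78) (PT.lf (nat_lit 39824) (nat_lit 6) (nat_lit 524) (nat_lit 1) (nat_lit 280) (nat_lit 239) (nat_lit 261)) (PT.lf (nat_lit 39748) (nat_lit 6) (nat_lit 523) (nat_lit 1) (nat_lit 281) (nat_lit 239) (nat_lit 260)))) (PT.nd (nat_lit 156) (PT.nd (nat_lit 78) (PT.lf (nat_lit 38000) (nat_lit 6) (nat_lit 500) (nat_lit 1) (nat_lit 282) (nat_lit 239) (nat_lit 259)) (PT.lf (nat_lit 36176) (nat_lit 6) (nat_lit 476) (nat_lit 1) (nat_lit 283) (nat_lit 239) (nat_lit 258))) (PT.nd (nat_lit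 79014) (PT.lf (nat_lit 34276) (nat_lit 6) (nat_lit 451) (nat_lit 1) (nat_lit 284) (nat_lit 239) (nat_lit 257)) (PT.nd (nat_lit 78) (PT.lf (nat_lit 34200) (nat_lit 6) (nat_lit 450) (nat_lit 3) (nat_lit 256) (nat_lit 240) (nat_lit 284)) (PT.lf (nat_lit 36100) (nat_lit 6) (nat_lit 475) (nat_lit 3) (nat_lit 257) (nat_lit 240) (nat_lit 283))))))))
noncomputable def pc28 : PT := (PT.nd (nat_lit 1248) (PT.nd (nat_lit 624) (PT.nd (nat_lit 312) (PT.nd (nat_lit 156) (PT.nd (nat_lit 78) (PT.lf (nat_lit 37924) (nat_lit 6) (nat_lit 499) (nat_lit 3) (nat_lit 258) (nat_lit 240) (nat_lit 282)) (PT.lf (nat_lit 39672) (nat_lit 6) (nat_lit 522) (nat_lit 3) (nat_lit 259) (nat_lit 240) (nat_lit 281))) (PT.nd (nat_lit 78) (PT.lf (nat_lit 41344) (nat_lit 6) (nat_lit 544) (nat_lit 3) (nat_lit 260) (nat_lit 240) (nat_lit 280)) (PT.lf (nat_lit 41420) (nat_lit 6) (nat_lit 545) (nat_lit 3) (nat_lit 261) (nat_lit 240) (nat_lit 279)))) (PT.nd (nat_lit 156) (PT.nd (nat_lit 78) (PT.lf (nat_lit 41496)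 (nat_lit 6) (nat_lit 546) (nat_lit 3) (nat_lit 262) (nat_lit 240) (nat_lit 278)) (PT.lf (nat_lit 41572) (nat_lit 6) (nat_lit 547) (nat_lit 3) (nat_lit 263) (nat_lit 240) (nat_lit 277))) (PT.nd (nat_lit 78) (PT.lf (nat_lit 41648) (nat_lit 6) (nat_lit 548) (nat_lit 3) (nat_lit 264) (nat_lit 240) (nat_lit 276)) (PT.lf (nat_lit 41724) (nat_lit 6) (nat_lit 549) (nat_lit 3) (nat_lit 265) (nat_lit 240) (nat_lit 275))))) (PT.nd (nat_lit 312) (PT.nd (nat_lit 156) (PT.nd (nat_lit 78) (PT.lf (nat_lit 41800) (nat_lit 6) (nat_lit 550) (nat_lit 3) (nat_lit 266) (nat_lit 240) (nat_lit 274)) (PT.lf (nat_lit 41876) (nat_lit 6) (nat_lit 551) (nat_lit 3) (nat_lit 267) (nat_lit 240) (nat_lit 273))) (PT.nd (nat_lit 78) (PT.lf (nat_lit 41952) (nat_lit 6) (nat_lit 552) (nat_lit 3) (nat_lit 268) (nat_lit 240) (nat_lit 272)) (PT.lf (nat_lit 42028) (nat_lit 6) (nat_lit 553) (nat_lit 3) (nat_lit 269) (nat_lit 240) (nat_lit 271)))) (PT.nd (nat_lit 156) (PT.nd (nat_lit 78) (PT.lf (nat_lit 42104)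 (nat_lit 3) (nat_lit 554) (nat_lit 1) (nat_lit 270) (nat_lit 240) (nat_lit 270)) (PT.lf (nat_lit 42028) (nat_lit 6) (nat_lit 553) (nat_lit 1) (nat_lit 271) (nat_lit 240) (nat_lit 269))) (PT.nd (nat_lit 78) (PT.lf (nat_lit 41952) (nat_lit 6) (nat_lit 552) (nat_lit 1) (nat_lit 272) (nat_lit 240) (nat_lit 268)) (PT.lf (nat_lit 41876) (nat_lit 6) (nat_lit 551) (nat_lit 1) (nat_lit 273) (nat_lit 240) (nat_lit 267)))))) (PT.nd (nat_lit 624) (PT.nd (nat_lit 312) (PT.nd (nat_lit 156) (PT.nd (nat_lit 78) (PT.lf (nat_lit 41800) (nat_lit 6) (nat_lit 550) (nat_lit 1) (nat_lit 274) (nat_lit 240) (nat_lit 266)) (PT.lf (nat_lit 41724) (nat_lit 6) (nat_lit 549) (nat_lit 1) (nat_lit 275) (nat_lit 240) (nat_lit 265))) (PT.nd (nat_lit 78) (PT.lf (nat_lit 41648) (nat_lit 6) (nat_lit 548) (nat_lit 1) (nat_lit 276) (nat_lit 240) (nat_lit 264)) (PT.lf (nat_lit 41572) (nat_lit 6) (nat_lit 547) (nat_lit 1) (nat_lit 277) (nat_lit 240) (nat_lit 263)))) (PT.nd (nat_lit 156) (PT.nd (nat_lit 78) (PT.lf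 (nat_lit 41496) (nat_lit 6) (nat_lit 546) (nat_lit 1) (nat_lit 278) (nat_lit 240) (nat_lit 262)) (PT.lf (nat_lit 41420) (nat_lit 6) (nat_lit 545) (nat_lit 1) (nat_lit 279) (nat_lit 240) (nat_lit 261))) (PT.nd (nat_lit 78) (PT.lf (nat_lit 41344) (nat_lit 6) (nat_lit 544) (nat_lit 1) (nat_lit 280) (nat_lit 240) (nat_lit 260)) (PT.lf (nat_lit 39672) (nat_lit 6) (nat_lit 522) (nat_lit 1) (nat_lit 281) (nat_lit 240) (nat_lit 259))))) (PT.nd (nat_lit 79170) (PT.nd (nat_lit 156) (PT.nd (nat_lit 78) (PT.lf (nat_lit 37924) (nat_lit 6) (nat_lit 499) (nat_lit 1) (nat_lit 282) (nat_lit 240) (nat_lit 258)) (PT.lf (nat_lit 36100) (nat_lit 6) (nat_lit 475) (nat_lit 1) (nat_lit 283) (nat_lit 240) (nat_lit 257))) (PT.nd (nat_lit 78936) (PT.lf (nat_lit 34200) (nat_lit 6) (nat_lit 450) (nat_lit 1) (nat_lit 284) (nat_lit 240) (nat_lit 256)) (PT.lf (nat_lit 34124) (nat_lit 6) (nat_lit 449) (nat_lit 3) (nat_lit 255) (nat_lit 241) (nat_lit 284)))) (PT.nd (nat_lit 156) (PT.nd (nat_lit 78) (PT.lf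 (nat_lit 36024) (nat_lit 6) (nat_lit 474) (nat_lit 3) (nat_lit 256) (nat_lit 241) (nat_lit 283)) (PT.lf (nat_lit 37848) (nat_lit 6) (nat_lit 498) (nat_lit 3) (nat_lit 257) (nat_lit 241) (nat_lit 282))) (PT.nd (nat_lit 78) (PT.lf (nat_lit 39596) (nat_lit 6) (nat_lit 521) (nat_lit 3) (nat_lit 258) (nat_lit 241) (nat_lit 281)) (PT.nd (nat_lit 78) (PT.lf (nat_lit 41268) (nat_lit 6) (nat_lit 543) (nat_lit 3) (nat_lit 259) (nat_lit 241) (nat_lit 280)) (PT.lf (nat_lit 42864) (nat_lit 6) (nat_lit 564) (nat_lit 3) (nat_lit 260) (nat_lit 241) (nat_lit 279))))))))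
noncomputable def pc29 : PT := (PT.nd (nat_lit 1248) (PT.nd (nat_lit 624) (PT.nd (nat_lit 312) (PT.nd (nat_lit 156) (PT.nd (nat_lit 78) (PT.lf (nat_lit 42940) (nat_lit 6) (nat_lit 565) (nat_lit 3) (nat_lit 261) (nat_lit 241) (nat_lit 278)) (PT.lf (nat_lit 43016) (nat_lit 6) (nat_lit 566) (nat_lit 3) (nat_lit 262) (nat_lit 241) (nat_lit 277))) (PT.nd (nat_lit 78) (PT.lf (nat_lit 43092) (nat_lit 6) (nat_lit 567) (nat_lit 3) (nat_lit 263) (nat_lit 241) (nat_lit 276)) (PT.lf (nat_lit 43168) (nat_lit 6) (nat_lit 568) (nat_lit 3) (nat_lit 264) (nat_lit 241) (nat_lit 275)))) (PT.nd (nat_lit 156) (PT.nd (nat_lit 78) (PT.lf (nat_lit 43244) (nat_lit 6) (nat_lit 569) (nat_lit 3) (nat_lit 265) (nat_lit 241) (nat_lit 274)) (PT.lf (nat_lit 43320) (nat_lit 6) (nat_lit 570) (nat_lit 3) (nat_lit 266) (nat_lit 241) (nat_lit 273))) (PT.nd (nat_lit 78) (PT.lf (nat_lit 43396) (nat_lit 6) (nat_lit 571) (nat_lit 3) (nat_lit 267) (nat_lit 241) (nat_lit 272)) (PT.lf (nat_lit 43472) (nat_lit 6)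 (nat_lit 572) (nat_lit 3) (nat_lit 268) (nat_lit 241) (nat_lit 271))))) (PT.nd (nat_lit 312) (PT.nd (nat_lit 156) (PT.nd (nat_lit 78) (PT.lf (nat_lit 43548) (nat_lit 6) (nat_lit 573) (nat_lit 3) (nat_lit 269) (nat_lit 241) (nat_lit 270)) (PT.lf (nat_lit 43548) (nat_lit 6) (nat_lit 573) (nat_lit 1) (nat_lit 270) (nat_lit 241) (nat_lit 269))) (PT.nd (nat_lit 78) (PT.lf (nat_lit 43472) (nat_lit 6) (nat_lit 572) (nat_lit 1) (nat_lit 271) (nat_lit 241) (nat_lit 268)) (PT.lf (nat_lit 43396) (nat_lit 6) (nat_lit 571) (nat_lit 1) (nat_lit 272) (nat_lit 241) (nat_lit 267)))) (PT.nd (nat_lit 156) (PT.nd (nat_lit 78) (PT.lf (nat_lit 43320) (nat_lit 6) (nat_lit 570) (nat_lit 1) (nat_lit 273) (nat_lit 241) (nat_lit 266)) (PT.lf (nat_lit 43244) (nat_lit 6) (nat_lit 569) (nat_lit 1) (nat_lit 274) (nat_lit 241) (nat_lit 265))) (PT.nd (nat_lit 78) (PT.lf (nat_lit 43168) (nat_lit 6) (nat_lit 568) (nat_lit 1) (nat_lit 275) (nat_lit 241) (nat_lit 264)) (PT.lf (nat_lit 43092) (nat_lit 6)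 (nat_lit 567) (nat_lit 1) (nat_lit 276) (nat_lit 241) (nat_lit 263)))))) (PT.nd (nat_lit 79404) (PT.nd (nat_lit 312) (PT.nd (nat_lit 156) (PT.nd (nat_lit 78) (PT.lf (nat_lit 43016) (nat_lit 6) (nat_lit 566) (nat_lit 1) (nat_lit 277) (nat_lit 241) (nat_lit 262)) (PT.lf (nat_lit 42940) (nat_lit 6) (nat_lit 565) (nat_lit 1) (nat_lit 278) (nat_lit 241) (nat_lit 261))) (PT.nd (nat_lit 78) (PT.lf (nat_lit 42864) (nat_lit 6) (nat_lit 564) (nat_lit 1) (nat_lit 279) (nat_lit 241) (nat_lit 260)) (PT.lf (nat_lit 41268) (nat_lit 6) (nat_lit 543) (nat_lit 1) (nat_lit 280) (nat_lit 241) (nat_lit 259)))) (PT.nd (nat_lit 156) (PT.nd (nat_lit 78) (PT.lf (nat_lit 39596) (nat_lit 6) (nat_lit 521) (nat_lit 1) (nat_lit 281) (nat_lit 241) (nat_lit 258)) (PT.lf (nat_lit 37848) (nat_lit 6) (nat_lit 498) (nat_lit 1) (nat_lit 282) (nat_lit 241) (nat_lit 257))) (PT.nd (nat_lit 78) (PT.lf (nat_lit 36024) (nat_lit 6) (nat_lit 474) (nat_lit 1) (nat_lit 283) (nat_lit 241) (nat_lit 256)) (PT.lf (nat_lit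 34124) (nat_lit 6) (nat_lit 449) (nat_lit 1) (nat_lit 284) (nat_lit 241) (nat_lit 255))))) (PT.nd (nat_lit 312) (PT.nd (nat_lit 156) (PT.nd (nat_lit 78) (PT.lf (nat_lit 34048) (nat_lit 6) (nat_lit 448) (nat_lit 3) (nat_lit 254) (nat_lit 242) (nat_lit 284)) (PT.lf (nat_lit 35948) (nat_lit 6) (nat_lit 473) (nat_lit 3) (nat_lit 255) (nat_lit 242) (nat_lit 283))) (PT.nd (nat_lit 78) (PT.lf (nat_lit 37772) (nat_lit 6) (nat_lit 497) (nat_lit 3) (nat_lit 256) (nat_lit 242) (nat_lit 282)) (PT.lf (nat_lit 39520) (nat_lit 6) (nat_lit 520) (nat_lit 3) (nat_lit 257) (nat_lit 242) (nat_lit 281)))) (PT.nd (nat_lit 156) (PT.nd (nat_lit 78) (PT.lf (nat_lit 41192) (nat_lit 6) (nat_lit 542) (nat_lit 3) (nat_lit 258) (nat_lit 242) (nat_lit 280)) (PT.lf (nat_lit 42788) (nat_lit 6) (nat_lit 563) (nat_lit 3) (nat_lit 259) (nat_lit 242) (nat_lit 279))) (PT.nd (nat_lit 78) (PT.lf (nat_lit 44308) (nat_lit 6) (nat_lit 583) (nat_lit 3) (nat_lit 260) (nat_lit 242) (nat_lit 278)) (PT.nd (nat_lit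 78) (PT.lf (nat_lit 44384) (nat_lit 6) (nat_lit 584) (nat_lit 3) (nat_lit 261) (nat_lit 242) (nat_lit 277)) (PT.lf (nat_lit 44460) (nat_lit 6) (nat_lit 585) (nat_lit 3) (nat_lit 262) (nat_lit 242) (nat_lit 276))))))))
noncomputable def pc30 : PT := (PT.nd (nat_lit 1248) (PT.nd (nat_lit 624) (PT.nd (nat_lit 312) (PT.nd (nat_lit 156) (PT.nd (nat_lit 78) (PT.lf (nat_lit 44536) (nat_lit 6) (nat_lit 586) (nat_lit 3) (nat_lit 263) (nat_lit 242) (nat_lit 275)) (PT.lf (nat_lit 44612) (nat_lit 6) (nat_lit 587) (nat_lit 3) (nat_lit 264) (nat_lit 242) (nat_lit 274))) (PT.nd (nat_lit 78) (PT.lf (nat_lit 44688) (nat_lit 6) (nat_lit 588) (nat_lit 3) (nat_lit 265) (nat_lit 242) (nat_lit 273)) (PT.lf (nat_lit 44764) (nat_lit 6) (nat_lit 589) (nat_lit 3) (nat_lit 266) (nat_lit 242) (nat_lit 272)))) (PT.nd (nat_lit 156) (PT.nd (nat_lit 78) (PT.lf (nat_lit 44840) (nat_lit 6) (nat_lit 590) (nat_lit 3) (nat_lit 267) (nat_lit 242) (nat_lit 271)) (PT.lf (nat_lit 44916) (nat_lit 6) (nat_lit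 591) (nat_lit 3) (nat_lit 268) (nat_lit 242) (nat_lit 270))) (PT.nd (nat_lit 78) (PT.lf (nat_lit 44992) (nat_lit 3) (nat_lit 592) (nat_lit 1) (nat_lit 269) (nat_lit 242) (nat_lit 269)) (PT.lf (nat_lit 44916) (nat_lit 6) (nat_lit 591) (nat_lit 1) (nat_lit 270) (nat_lit 242) (nat_lit 268))))) (PT.nd (nat_lit 312) (PT.nd (nat_lit 156) (PT.nd (nat_lit 78) (PT.lf (nat_lit 44840) (nat_lit 6) (nat_lit 590) (nat_lit 1) (nat_lit 271) (nat_lit 242) (nat_lit 267)) (PT.lf (nat_lit 44764) (nat_lit 6) (nat_lit 589) (nat_lit 1) (nat_lit 272) (nat_lit 242) (nat_lit 266))) (PT.nd (nat_lit 78) (PT.lf (nat_lit 44688) (nat_lit 6) (nat_lit 588) (nat_lit 1) (nat_lit 273) (nat_lit 242) (nat_lit 265)) (PT.lf (nat_lit 44612) (nat_lit 6) (nat_lit 587) (nat_lit 1) (nat_lit 274) (nat_lit 242) (nat_lit 264)))) (PT.nd (nat_lit 156) (PT.nd (nat_lit 78) (PT.lf (nat_lit 44536) (nat_lit 6) (nat_lit 586) (nat_lit 1) (nat_lit 275) (nat_lit 242) (nat_lit 263)) (PT.lf (nat_lit 44460) (nat_lit 6) (nat_lit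 585) (nat_lit 1) (nat_lit 276) (nat_lit 242) (nat_lit 262))) (PT.nd (nat_lit 78) (PT.lf (nat_lit 44384) (nat_lit 6) (nat_lit 584) (nat_lit 1) (nat_lit 277) (nat_lit 242) (nat_lit 261)) (PT.lf (nat_lit 44308) (nat_lit 6) (nat_lit 583) (nat_lit 1) (nat_lit 278) (nat_lit 242) (nat_lit 260)))))) (PT.nd (nat_lit 79326) (PT.nd (nat_lit 312) (PT.nd (nat_lit 156) (PT.nd (nat_lit 78) (PT.lf (nat_lit 42788) (nat_lit 6) (nat_lit 563) (nat_lit 1) (nat_lit 279) (nat_lit 242) (nat_lit 259)) (PT.lf (nat_lit 41192) (nat_lit 6) (nat_lit 542) (nat_lit 1) (nat_lit 280) (nat_lit 242) (nat_lit 258))) (PT.nd (nat_lit 78) (PT.lf (nat_lit 39520) (nat_lit 6) (nat_lit 520) (nat_lit 1) (nat_lit 281) (nat_lit 242) (nat_lit 257)) (PT.lf (nat_lit 37772) (nat_lit 6) (nat_lit 497) (nat_lit 1) (nat_lit 282) (nat_lit 242) (nat_lit 256)))) (PT.nd (nat_lit 78858) (PT.nd (nat_lit 78) (PT.lf (nat_lit 35948) (nat_lit 6) (nat_lit 473) (nat_lit 1) (nat_lit 283) (nat_lit 242) (nat_lit 255)) (PT.lf (nat_lit 34048)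 (nat_lit 6) (nat_lit 448) (nat_lit 1) (nat_lit 284) (nat_lit 242) (nat_lit 254))) (PT.nd (nat_lit 78) (PT.lf (nat_lit 33972) (nat_lit 6) (nat_lit 447) (nat_lit 3) (nat_lit 253) (nat_lit 243) (nat_lit 284)) (PT.lf (nat_lit 35872) (nat_lit 6) (nat_lit 472) (nat_lit 3) (nat_lit 254) (nat_lit 243) (nat_lit 283))))) (PT.nd (nat_lit 312) (PT.nd (nat_lit 156) (PT.nd (nat_lit 78) (PT.lf (nat_lit 37696) (nat_lit 6) (nat_lit 496) (nat_lit 3) (nat_lit 255) (nat_lit 243) (nat_lit 282)) (PT.lf (nat_lit 39444) (nat_lit 6) (nat_lit 519) (nat_lit 3) (nat_lit 256) (nat_lit 243) (nat_lit 281))) (PT.nd (nat_lit 78) (PT.lf (nat_lit 41116) (nat_lit 6) (nat_lit 541) (nat_lit 3) (nat_lit 257) (nat_lit 243) (nat_lit 280)) (PT.lf (nat_lit 42712) (nat_lit 6) (nat_lit 562) (nat_lit 3) (nat_lit 258) (nat_lit 243) (nat_lit 279)))) (PT.nd (nat_lit 156) (PT.nd (nat_lit 78) (PT.lf (nat_lit 44232) (nat_lit 6) (nat_lit 582) (nat_lit 3) (nat_lit 259) (nat_lit 243) (nat_lit 278)) (PT.lf (nat_lit 45676)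 (nat_lit 6) (nat_lit 601) (nat_lit 3) (nat_lit 260) (nat_lit 243) (nat_lit 277))) (PT.nd (nat_lit 78) (PT.lf (nat_lit 45752) (nat_lit 6) (nat_lit 602) (nat_lit 3) (nat_lit 261) (nat_lit 243) (nat_lit 276)) (PT.nd (nat_lit 78) (PT.lf (nat_lit 45828) (nat_lit 6) (nat_lit 603) (nat_lit 3) (nat_lit 262) (nat_lit 243) (nat_lit 275)) (PT.lf (nat_lit 45904) (nat_lit 6) (nat_lit 604) (nat_lit 3) (nat_lit 263) (nat_lit 243) (nat_lit 274))))))))
noncomputable def pc31 : PT := (PT.nd (nat_lit 1326) (PT.nd (nat_lit 624) (PT.nd (nat_lit 312) (PT.nd (nat_lit 156) (PT.nd (nat_lit 78) (PT.lf (nat_lit 45980) (nat_lit 6) (nat_lit 605) (nat_lit 3) (nat_lit 264) (nat_lit 243) (nat_lit 273)) (PT.lf (nat_lit 46056) (nat_lit 6) (nat_lit 606) (nat_lit 3) (nat_lit 265) (nat_lit 243) (nat_lit 272))) (PT.nd (nat_lit 78) (PT.lf (nat_lit 46132) (nat_lit 6) (nat_lit 607) (nat_lit 3) (nat_lit 266) (nat_lit 243) (nat_lit 271)) (PT.lf (nat_lit 46208) (nat_lit 6) (nat_lit 608) (nat_lit 3) (nat_lit 267)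 (nat_lit 243) (nat_lit 270)))) (PT.nd (nat_lit 156) (PT.nd (nat_lit 78) (PT.lf (nat_lit 46284) (nat_lit 6) (nat_lit 609) (nat_lit 3) (nat_lit 268) (nat_lit 243) (nat_lit 269)) (PT.lf (nat_lit 46284) (nat_lit 6) (nat_lit 609) (nat_lit 1) (nat_lit 269) (nat_lit 243) (nat_lit 268))) (PT.nd (nat_lit 78) (PT.lf (nat_lit 46208) (nat_lit 6) (nat_lit 608) (nat_lit 1) (nat_lit 270) (nat_lit 243) (nat_lit 267)) (PT.lf (nat_lit 46132) (nat_lit 6) (nat_lit 607) (nat_lit 1) (nat_lit 271) (nat_lit 243) (nat_lit 266))))) (PT.nd (nat_lit 312) (PT.nd (nat_lit 156) (PT.nd (nat_lit 78) (PT.lf (nat_lit 46056) (nat_lit 6) (nat_lit 606) (nat_lit 1) (nat_lit 272) (nat_lit 243) (nat_lit 265)) (PT.lf (nat_lit 45980) (nat_lit 6) (nat_lit 605) (nat_lit 1) (nat_lit 273) (nat_lit 243) (nat_lit 264))) (PT.nd (nat_lit 78) (PT.lf (nat_lit 45904) (nat_lit 6) (nat_lit 604) (nat_lit 1) (nat_lit 274) (nat_lit 243) (nat_lit 263)) (PT.lf (nat_lit 45828) (nat_lit 6) (nat_lit 603) (nat_lit 1) (nat_lit 275)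 (nat_lit 243) (nat_lit 262)))) (PT.nd (nat_lit 156) (PT.nd (nat_lit 78) (PT.lf (nat_lit 45752) (nat_lit 6) (nat_lit 602) (nat_lit 1) (nat_lit 276) (nat_lit 243) (nat_lit 261)) (PT.lf (nat_lit 45676) (nat_lit 6) (nat_lit 601) (nat_lit 1) (nat_lit 277) (nat_lit 243) (nat_lit 260))) (PT.nd (nat_lit 78) (PT.lf (nat_lit 44232) (nat_lit 6) (nat_lit 582) (nat_lit 1) (nat_lit 278) (nat_lit 243) (nat_lit 259)) (PT.nd (nat_lit 78) (PT.lf (nat_lit 42712) (nat_lit 6) (nat_lit 562) (nat_lit 1) (nat_lit 279) (nat_lit 243) (nat_lit 258)) (PT.lf (nat_lit 41116) (nat_lit 6) (nat_lit 541) (nat_lit 1) (nat_lit 280) (nat_lit 243) (nat_lit 257))))))) (PT.nd (nat_lit 79248) (PT.nd (nat_lit 78936) (PT.nd (nat_lit 156) (PT.nd (nat_lit 78) (PT.lf (nat_lit 39444) (nat_lit 6) (nat_lit 519) (nat_lit 1) (nat_lit 281) (nat_lit 243) (nat_lit 256)) (PT.lf (nat_lit 37696) (nat_lit 6) (nat_lit 496) (nat_lit 1) (nat_lit 282) (nat_lit 243) (nat_lit 255))) (PT.nd (nat_lit 78) (PT.lf (nat_lit 35872) (nat_lit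 6) (nat_lit 472) (nat_lit 1) (nat_lit 283) (nat_lit 243) (nat_lit 254)) (PT.lf (nat_lit 33972) (nat_lit 6) (nat_lit 447) (nat_lit 1) (nat_lit 284) (nat_lit 243) (nat_lit 253)))) (PT.nd (nat_lit 156) (PT.nd (nat_lit 78) (PT.lf (nat_lit 33896) (nat_lit 6) (nat_lit 446) (nat_lit 3) (nat_lit 252) (nat_lit 244) (nat_lit 284)) (PT.lf (nat_lit 35796) (nat_lit 6) (nat_lit 471) (nat_lit 3) (nat_lit 253) (nat_lit 244) (nat_lit 283))) (PT.nd (nat_lit 78) (PT.lf (nat_lit 37620) (nat_lit 6) (nat_lit 495) (nat_lit 3) (nat_lit 254) (nat_lit 244) (nat_lit 282)) (PT.lf (nat_lit 39368) (nat_lit 6) (nat_lit 518) (nat_lit 3) (nat_lit 255) (nat_lit 244) (nat_lit 281))))) (PT.nd (nat_lit 312) (PT.nd (nat_lit 156) (PT.nd (nat_lit 78) (PT.lf (nat_lit 41040) (nat_lit 6) (nat_lit 540) (nat_lit 3) (nat_lit 256) (nat_lit 244) (nat_lit 280)) (PT.lf (nat_lit 42636) (nat_lit 6) (nat_lit 561) (nat_lit 3) (nat_lit 257) (nat_lit 244) (nat_lit 279))) (PT.nd (nat_lit 78) (PT.lf (nat_lit 44156) (nat_lit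 6) (nat_lit 581) (nat_lit 3) (nat_lit 258) (nat_lit 244) (nat_lit 278)) (PT.lf (nat_lit 45600) (nat_lit 6) (nat_lit 600) (nat_lit 3) (nat_lit 259) (nat_lit 244) (nat_lit 277)))) (PT.nd (nat_lit 156) (PT.nd (nat_lit 78) (PT.lf (nat_lit 46968) (nat_lit 6) (nat_lit 618) (nat_lit 3) (nat_lit 260) (nat_lit 244) (nat_lit 276)) (PT.lf (nat_lit 47044) (nat_lit 6) (nat_lit 619) (nat_lit 3) (nat_lit 261) (nat_lit 244) (nat_lit 275))) (PT.nd (nat_lit 78) (PT.lf (nat_lit 47120) (nat_lit 6) (nat_lit 620) (nat_lit 3) (nat_lit 262) (nat_lit 244) (nat_lit 274)) (PT.nd (nat_lit 78) (PT.lf (nat_lit 47196) (nat_lit 6) (nat_lit 621) (nat_lit 3) (nat_lit 263) (nat_lit 244) (nat_lit 273)) (PT.lf (nat_lit 47272) (nat_lit 6) (nat_lit 622) (nat_lit 3) (nat_lit 264) (nat_lit 244) (nat_lit 272))))))))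
noncomputable def pc32 : PT := (PT.nd (nat_lit 1248) (PT.nd (nat_lit 624) (PT.nd (nat_lit 312) (PT.nd (nat_lit 156) (PT.nd (nat_lit 78) (PT.lf (nat_lit 47348) (nat_lit 6) (nat_lit 623) (nat_lit 3) (nat_lit 265) (nat_lit 244) (nat_lit 271)) (PT.lf (nat_lit 47424) (nat_lit 6) (nat_lit 624) (nat_lit 3) (nat_lit 266) (nat_lit 244) (nat_lit 270))) (PT.nd (nat_lit 78) (PT.lf (nat_lit 47500) (nat_lit 6) (nat_lit 625) (nat_lit 3) (nat_lit 267) (nat_lit 244) (nat_lit 269)) (PT.lf (nat_lit 47576) (nat_lit 3) (nat_lit 626) (nat_lit 1) (nat_lit 268) (nat_lit 244) (nat_lit 268)))) (PT.nd (nat_lit 156) (PT.nd (nat_lit 78) (PT.lf (nat_lit 47500) (nat_lit 6) (nat_lit 625) (nat_lit 1) (nat_lit 269) (nat_lit 244) (nat_lit 267)) (PT.lf (nat_lit 47424) (nat_lit 6) (nat_lit 624) (nat_lit 1) (nat_lit 270) (nat_lit 244) (nat_lit 266))) (PT.nd (nat_lit 78) (PT.lf (nat_lit 47348) (nat_lit 6) (nat_lit 623) (nat_lit 1) (nat_lit 271) (nat_lit 244) (nat_lit 265)) (PT.lf (nat_lit 47272) (nat_lit 6)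 (nat_lit 622) (nat_lit 1) (nat_lit 272) (nat_lit 244) (nat_lit 264))))) (PT.nd (nat_lit 312) (PT.nd (nat_lit 156) (PT.nd (nat_lit 78) (PT.lf (nat_lit 47196) (nat_lit 6) (nat_lit 621) (nat_lit 1) (nat_lit 273) (nat_lit 244) (nat_lit 263)) (PT.lf (nat_lit 47120) (nat_lit 6) (nat_lit 620) (nat_lit 1) (nat_lit 274) (nat_lit 244) (nat_lit 262))) (PT.nd (nat_lit 78) (PT.lf (nat_lit 47044) (nat_lit 6) (nat_lit 619) (nat_lit 1) (nat_lit 275) (nat_lit 244) (nat_lit 261)) (PT.lf (nat_lit 46968) (nat_lit 6) (nat_lit 618) (nat_lit 1) (nat_lit 276) (nat_lit 244) (nat_lit 260)))) (PT.nd (nat_lit 156) (PT.nd (nat_lit 78) (PT.lf (nat_lit 45600) (nat_lit 6) (nat_lit 600) (nat_lit 1) (nat_lit 277) (nat_lit 244) (nat_lit 259)) (PT.lf (nat_lit 44156) (nat_lit 6) (nat_lit 581) (nat_lit 1) (nat_lit 278) (nat_lit 244) (nat_lit 258))) (PT.nd (nat_lit 78) (PT.lf (nat_lit 42636) (nat_lit 6) (nat_lit 561) (nat_lit 1) (nat_lit 279) (nat_lit 244) (nat_lit 257)) (PT.lf (nat_lit 41040) (nat_lit 6)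 (nat_lit 540) (nat_lit 1) (nat_lit 280) (nat_lit 244) (nat_lit 256)))))) (PT.nd (nat_lit 79170) (PT.nd (nat_lit 78858) (PT.nd (nat_lit 156) (PT.nd (nat_lit 78) (PT.lf (nat_lit 39368) (nat_lit 6) (nat_lit 518) (nat_lit 1) (nat_lit 281) (nat_lit 244) (nat_lit 255)) (PT.lf (nat_lit 37620) (nat_lit 6) (nat_lit 495) (nat_lit 1) (nat_lit 282) (nat_lit 244) (nat_lit 254))) (PT.nd (nat_lit 78) (PT.lf (nat_lit 35796) (nat_lit 6) (nat_lit 471) (nat_lit 1) (nat_lit 283) (nat_lit 244) (nat_lit 253)) (PT.lf (nat_lit 33896) (nat_lit 6) (nat_lit 446) (nat_lit 1) (nat_lit 284) (nat_lit 244) (nat_lit 252)))) (PT.nd (nat_lit 156) (PT.nd (nat_lit 78) (PT.lf (nat_lit 33820) (nat_lit 6) (nat_lit 445) (nat_lit 3) (nat_lit 251) (nat_lit 245) (nat_lit 284)) (PT.lf (nat_lit 35720) (nat_lit 6) (nat_lit 470) (nat_lit 3) (nat_lit 252) (nat_lit 245) (nat_lit 283))) (PT.nd (nat_lit 78) (PT.lf (nat_lit 37544) (nat_lit 6) (nat_lit 494) (nat_lit 3) (nat_lit 253) (nat_lit 245) (nat_lit 282)) (PT.lf (nat_lit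 39292) (nat_lit 6) (nat_lit 517) (nat_lit 3) (nat_lit 254) (nat_lit 245) (nat_lit 281))))) (PT.nd (nat_lit 312) (PT.nd (nat_lit 156) (PT.nd (nat_lit 78) (PT.lf (nat_lit 40964) (nat_lit 6) (nat_lit 539) (nat_lit 3) (nat_lit 255) (nat_lit 245) (nat_lit 280)) (PT.lf (nat_lit 42560) (nat_lit 6) (nat_lit 560) (nat_lit 3) (nat_lit 256) (nat_lit 245) (nat_lit 279))) (PT.nd (nat_lit 78) (PT.lf (nat_lit 44080) (nat_lit 6) (nat_lit 580) (nat_lit 3) (nat_lit 257) (nat_lit 245) (nat_lit 278)) (PT.lf (nat_lit 45524) (nat_lit 6) (nat_lit 599) (nat_lit 3) (nat_lit 258) (nat_lit 245) (nat_lit 277)))) (PT.nd (nat_lit 156) (PT.nd (nat_lit 78) (PT.lf (nat_lit 46892) (nat_lit 6) (nat_lit 617) (nat_lit 3) (nat_lit 259) (nat_lit 245) (nat_lit 276)) (PT.lf (nat_lit 48184) (nat_lit 6) (nat_lit 634) (nat_lit 3) (nat_lit 260) (nat_lit 245) (nat_lit 275))) (PT.nd (nat_lit 78) (PT.lf (nat_lit 48260) (nat_lit 6) (nat_lit 635) (nat_lit 3) (nat_lit 261) (nat_lit 245) (nat_lit 274)) (PT.nd (nat_lit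 78) (PT.lf (nat_lit 48336) (nat_lit 6) (nat_lit 636) (nat_lit 3) (nat_lit 262) (nat_lit 245) (nat_lit 273)) (PT.lf (nat_lit 48412) (nat_lit 6) (nat_lit 637) (nat_lit 3) (nat_lit 263) (nat_lit 245) (nat_lit 272))))))))
noncomputable def pc33 : PT := (PT.nd (nat_lit 1248) (PT.nd (nat_lit 624) (PT.nd (nat_lit 312) (PT.nd (nat_lit 156) (PT.nd (nat_lit 78) (PT.lf (nat_lit 48488) (nat_lit 6) (nat_lit 638) (nat_lit 3) (nat_lit 264) (nat_lit 245) (nat_lit 271)) (PT.lf (nat_lit 48564) (nat_lit 6) (nat_lit 639) (nat_lit 3) (nat_lit 265) (nat_lit 245) (nat_lit 270))) (PT.nd (nat_lit 78) (PT.lf (nat_lit 48640) (nat_lit 6) (nat_lit 640) (nat_lit 3) (nat_lit 266) (nat_lit 245) (nat_lit 269)) (PT.lf (nat_lit 48716) (nat_lit 6) (nat_lit 641) (nat_lit 3) (nat_lit 267) (nat_lit 245) (nat_lit 268)))) (PT.nd (nat_lit 156) (PT.nd (nat_lit 78) (PT.lf (nat_lit 48716) (nat_lit 6) (nat_lit 641) (nat_lit 1) (nat_lit 268) (nat_lit 245) (nat_lit 267)) (PT.lf (nat_lit 48640) (nat_lit 6) (nat_lit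 640) (nat_lit 1) (nat_lit 269) (nat_lit 245) (nat_lit 266))) (PT.nd (nat_lit 78) (PT.lf (nat_lit 48564) (nat_lit 6) (nat_lit 639) (nat_lit 1) (nat_lit 270) (nat_lit 245) (nat_lit 265)) (PT.lf (nat_lit 48488) (nat_lit 6) (nat_lit 638) (nat_lit 1) (nat_lit 271) (nat_lit 245) (nat_lit 264))))) (PT.nd (nat_lit 312) (PT.nd (nat_lit 156) (PT.nd (nat_lit 78) (PT.lf (nat_lit 48412) (nat_lit 6) (nat_lit 637) (nat_lit 1) (nat_lit 272) (nat_lit 245) (nat_lit 263)) (PT.lf (nat_lit 48336) (nat_lit 6) (nat_lit 636) (nat_lit 1) (nat_lit 273) (nat_lit 245) (nat_lit 262))) (PT.nd (nat_lit 78) (PT.lf (nat_lit 48260) (nat_lit 6) (nat_lit 635) (nat_lit 1) (nat_lit 274) (nat_lit 245) (nat_lit 261)) (PT.lf (nat_lit 48184) (nat_lit 6) (nat_lit 634) (nat_lit 1) (nat_lit 275) (nat_lit 245) (nat_lit 260)))) (PT.nd (nat_lit 156) (PT.nd (nat_lit 78) (PT.lf (nat_lit 46892) (nat_lit 6) (nat_lit 617) (nat_lit 1) (nat_lit 276) (nat_lit 245) (nat_lit 259)) (PT.lf (nat_lit 45524) (nat_lit 6) (nat_lit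 599) (nat_lit 1) (nat_lit 277) (nat_lit 245) (nat_lit 258))) (PT.nd (nat_lit 78) (PT.lf (nat_lit 44080) (nat_lit 6) (nat_lit 580) (nat_lit 1) (nat_lit 278) (nat_lit 245) (nat_lit 257)) (PT.lf (nat_lit 42560) (nat_lit 6) (nat_lit 560) (nat_lit 1) (nat_lit 279) (nat_lit 245) (nat_lit 256)))))) (PT.nd (nat_lit 79170) (PT.nd (nat_lit 312) (PT.nd (nat_lit 156) (PT.nd (nat_lit 78) (PT.lf (nat_lit 40964) (nat_lit 6) (nat_lit 539) (nat_lit 1) (nat_lit 280) (nat_lit 245) (nat_lit 255)) (PT.lf (nat_lit 39292) (nat_lit 6) (nat_lit 517) (nat_lit 1) (nat_lit 281) (nat_lit 245) (nat_lit 254))) (PT.nd (nat_lit 78) (PT.lf (nat_lit 37544) (nat_lit 6) (nat_lit 494) (nat_lit 1) (nat_lit 282) (nat_lit 245) (nat_lit 253)) (PT.lf (nat_lit 35720) (nat_lit 6) (nat_lit 470) (nat_lit 1) (nat_lit 283) (nat_lit 245) (nat_lit 252)))) (PT.nd (nat_lit 78702) (PT.nd (nat_lit 78624) (PT.lf (nat_lit 33820) (nat_lit 6) (nat_lit 445) (nat_lit 1) (nat_lit 284) (nat_lit 245) (nat_lit 251)) (PT.lf (nat_lit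 35644) (nat_lit 6) (nat_lit 469) (nat_lit 3) (nat_lit 251) (nat_lit 246) (nat_lit 283))) (PT.nd (nat_lit 78) (PT.lf (nat_lit 37468) (nat_lit 6) (nat_lit 493) (nat_lit 3) (nat_lit 252) (nat_lit 246) (nat_lit 282)) (PT.lf (nat_lit 39216) (nat_lit 6) (nat_lit 516) (nat_lit 3) (nat_lit 253) (nat_lit 246) (nat_lit 281))))) (PT.nd (nat_lit 312) (PT.nd (nat_lit 156) (PT.nd (nat_lit 78) (PT.lf (nat_lit 40888) (nat_lit 6) (nat_lit 538) (nat_lit 3) (nat_lit 254) (nat_lit 246) (nat_lit 280)) (PT.lf (nat_lit 42484) (nat_lit 6) (nat_lit 559) (nat_lit 3) (nat_lit 255) (nat_lit 246) (nat_lit 279))) (PT.nd (nat_lit 78) (PT.lf (nat_lit 44004) (nat_lit 6) (nat_lit 579) (nat_lit 3) (nat_lit 256) (nat_lit 246) (nat_lit 278)) (PT.lf (nat_lit 45448) (nat_lit 6) (nat_lit 598) (nat_lit 3) (nat_lit 257) (nat_lit 246) (nat_lit 277)))) (PT.nd (nat_lit 156) (PT.nd (nat_lit 78) (PT.lf (nat_lit 46816) (nat_lit 6) (nat_lit 616) (nat_lit 3) (nat_lit 258) (nat_lit 246) (nat_lit 276)) (PT.lf (nat_lit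 48108) (nat_lit 6) (nat_lit 633) (nat_lit 3) (nat_lit 259) (nat_lit 246) (nat_lit 275))) (PT.nd (nat_lit 78) (PT.lf (nat_lit 49324) (nat_lit 6) (nat_lit 649) (nat_lit 3) (nat_lit 260) (nat_lit 246) (nat_lit 274)) (PT.nd (nat_lit 78) (PT.lf (nat_lit 49400) (nat_lit 6) (nat_lit 650) (nat_lit 3) (nat_lit 261) (nat_lit 246) (nat_lit 273)) (PT.lf (nat_lit 49476) (nat_lit 6) (nat_lit 651) (nat_lit 3) (nat_lit 262) (nat_lit 246) (nat_lit 272))))))))
noncomputable def pc34 : PT := (PT.nd (nat_lit 1248) (PT.nd (nat_lit 624) (PT.nd (nat_lit 312) (PT.nd (nat_lit 156) (PT.nd (nat_lit 78) (PT.lf (nat_lit 49552) (nat_lit 6) (nat_lit 652) (nat_lit 3) (nat_lit 263) (nat_lit 246) (nat_lit 271)) (PT.lf (nat_lit 49628) (nat_lit 6) (nat_lit 653) (nat_lit 3) (nat_lit 264) (nat_lit 246) (nat_lit 270))) (PT.nd (nat_lit 78) (PT.lf (nat_lit 49704) (nat_lit 6) (nat_lit 654) (nat_lit 3) (nat_lit 265) (nat_lit 246) (nat_lit 269)) (PT.lf (nat_lit 49780) (nat_lit 6) (nat_lit 655) (nat_lit 3) (nat_lit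 266) (nat_lit 246) (nat_lit 268)))) (PT.nd (nat_lit 156) (PT.nd (nat_lit 78) (PT.lf (nat_lit 49856) (nat_lit 3) (nat_lit 656) (nat_lit 1) (nat_lit 267) (nat_lit 246) (nat_lit 267)) (PT.lf (nat_lit 49780) (nat_lit 6) (nat_lit 655) (nat_lit 1) (nat_lit 268) (nat_lit 246) (nat_lit 266))) (PT.nd (nat_lit 78) (PT.lf (nat_lit 49704) (nat_lit 6) (nat_lit 654) (nat_lit 1) (nat_lit 269) (nat_lit 246) (nat_lit 265)) (PT.lf (nat_lit 49628) (nat_lit 6) (nat_lit 653) (nat_lit 1) (nat_lit 270) (nat_lit 246) (nat_lit 264))))) (PT.nd (nat_lit 312) (PT.nd (nat_lit 156) (PT.nd (nat_lit 78) (PT.lf (nat_lit 49552) (nat_lit 6) (nat_lit 652) (nat_lit 1) (nat_lit 271) (nat_lit 246) (nat_lit 263)) (PT.lf (nat_lit 49476) (nat_lit 6) (nat_lit 651) (nat_lit 1) (nat_lit 272) (nat_lit 246) (nat_lit 262))) (PT.nd (nat_lit 78) (PT.lf (nat_lit 49400) (nat_lit 6) (nat_lit 650) (nat_lit 1) (nat_lit 273) (nat_lit 246) (nat_lit 261)) (PT.lf (nat_lit 49324) (nat_lit 6) (nat_lit 649) (nat_lit 1) (nat_lit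 274) (nat_lit 246) (nat_lit 260)))) (PT.nd (nat_lit 156) (PT.nd (nat_lit 78) (PT.lf (nat_lit 48108) (nat_lit 6) (nat_lit 633) (nat_lit 1) (nat_lit 275) (nat_lit 246) (nat_lit 259)) (PT.lf (nat_lit 46816) (nat_lit 6) (nat_lit 616) (nat_lit 1) (nat_lit 276) (nat_lit 246) (nat_lit 258))) (PT.nd (nat_lit 78) (PT.lf (nat_lit 45448) (nat_lit 6) (nat_lit 598) (nat_lit 1) (nat_lit 277) (nat_lit 246) (nat_lit 257)) (PT.lf (nat_lit 44004) (nat_lit 6) (nat_lit 579) (nat_lit 1) (nat_lit 278) (nat_lit 246) (nat_lit 256)))))) (PT.nd (nat_lit 79170) (PT.nd (nat_lit 312) (PT.nd (nat_lit 156) (PT.nd (nat_lit 78) (PT.lf (nat_lit 42484) (nat_lit 6) (nat_lit 559) (nat_lit 1) (nat_lit 279) (nat_lit 246) (nat_lit 255)) (PT.lf (nat_lit 40888) (nat_lit 6) (nat_lit 538) (nat_lit 1) (nat_lit 280) (nat_lit 246) (nat_lit 254))) (PT.nd (nat_lit 78) (PT.lf (nat_lit 39216) (nat_lit 6) (nat_lit 516) (nat_lit 1) (nat_lit 281) (nat_lit 246) (nat_lit 253)) (PT.lf (nat_lit 37468) (nat_lit 6) (nat_lit 493)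 (nat_lit 1) (nat_lit 282) (nat_lit 246) (nat_lit 252)))) (PT.nd (nat_lit 78702) (PT.nd (nat_lit 78624) (PT.lf (nat_lit 35644) (nat_lit 6) (nat_lit 469) (nat_lit 1) (nat_lit 283) (nat_lit 246) (nat_lit 251)) (PT.lf (nat_lit 35568) (nat_lit 6) (nat_lit 468) (nat_lit 3) (nat_lit 250) (nat_lit 247) (nat_lit 283))) (PT.nd (nat_lit 78) (PT.lf (nat_lit 37392) (nat_lit 6) (nat_lit 492) (nat_lit 3) (nat_lit 251) (nat_lit 247) (nat_lit 282)) (PT.lf (nat_lit 39140) (nat_lit 6) (nat_lit 515) (nat_lit 3) (nat_lit 252) (nat_lit 247) (nat_lit 281))))) (PT.nd (nat_lit 312) (PT.nd (nat_lit 156) (PT.nd (nat_lit 78) (PT.lf (nat_lit 40812) (nat_lit 6) (nat_lit 537) (nat_lit 3) (nat_lit 253) (nat_lit 247) (nat_lit 280)) (PT.lf (nat_lit 42408) (nat_lit 6) (nat_lit 558) (nat_lit 3) (nat_lit 254) (nat_lit 247) (nat_lit 279))) (PT.nd (nat_lit 78) (PT.lf (nat_lit 43928) (nat_lit 6) (nat_lit 578) (nat_lit 3) (nat_lit 255) (nat_lit 247) (nat_lit 278)) (PT.lf (nat_lit 45372) (nat_lit 6) (nat_lit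 597) (nat_lit 3) (nat_lit 256) (nat_lit 247) (nat_lit 277)))) (PT.nd (nat_lit 156) (PT.nd (nat_lit 78) (PT.lf (nat_lit 46740) (nat_lit 6) (nat_lit 615) (nat_lit 3) (nat_lit 257) (nat_lit 247) (nat_lit 276)) (PT.lf (nat_lit 48032) (nat_lit 6) (nat_lit 632) (nat_lit 3) (nat_lit 258) (nat_lit 247) (nat_lit 275))) (PT.nd (nat_lit 78) (PT.lf (nat_lit 49248) (nat_lit 6) (nat_lit 648) (nat_lit 3) (nat_lit 259) (nat_lit 247) (nat_lit 274)) (PT.nd (nat_lit 78) (PT.lf (nat_lit 50388) (nat_lit 6) (nat_lit 663) (nat_lit 3) (nat_lit 260) (nat_lit 247) (nat_lit 273)) (PT.lf (nat_lit 50464) (nat_lit 6) (nat_lit 664) (nat_lit 3) (nat_lit 261) (nat_lit 247) (nat_lit 272))))))))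
noncomputable def pc35 : PT := (PT.nd (nat_lit 1248) (PT.nd (nat_lit 624) (PT.nd (nat_lit 312) (PT.nd (nat_lit 156) (PT.nd (nat_lit 78) (PT.lf (nat_lit 50540) (nat_lit 6) (nat_lit 665) (nat_lit 3) (nat_lit 262) (nat_lit 247) (nat_lit 271)) (PT.lf (nat_lit 50616) (nat_lit 6) (nat_lit 666) (nat_lit 3) (nat_lit 263) (nat_lit 247) (nat_lit 270))) (PT.nd (nat_lit 78) (PT.lf (nat_lit 50692) (nat_lit 6) (nat_lit 667) (nat_lit 3) (nat_lit 264) (nat_lit 247) (nat_lit 269)) (PT.lf (nat_lit 50768) (nat_lit 6) (nat_lit 668) (nat_lit 3) (nat_lit 265) (nat_lit 247) (nat_lit 268)))) (PT.nd (nat_lit 156) (PT.nd (nat_lit 78) (PT.lf (nat_lit 50844) (nat_lit 6) (nat_lit 669) (nat_lit 3) (nat_lit 266) (nat_lit 247) (nat_lit 267)) (PT.lf (nat_lit 50844) (nat_lit 6) (nat_lit 669) (nat_lit 1) (nat_lit 267) (nat_lit 247) (nat_lit 266))) (PT.nd (nat_lit 78) (PT.lf (nat_lit 50768) (nat_lit 6) (nat_lit 668) (nat_lit 1) (nat_lit 268) (nat_lit 247) (nat_lit 265)) (PT.lf (nat_lit 50692) (nat_lit 6)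 (nat_lit 667) (nat_lit 1) (nat_lit 269) (nat_lit 247) (nat_lit 264))))) (PT.nd (nat_lit 312) (PT.nd (nat_lit 156) (PT.nd (nat_lit 78) (PT.lf (nat_lit 50616) (nat_lit 6) (nat_lit 666) (nat_lit 1) (nat_lit 270) (nat_lit 247) (nat_lit 263)) (PT.lf (nat_lit 50540) (nat_lit 6) (nat_lit 665) (nat_lit 1) (nat_lit 271) (nat_lit 247) (nat_lit 262))) (PT.nd (nat_lit 78) (PT.lf (nat_lit 50464) (nat_lit 6) (nat_lit 664) (nat_lit 1) (nat_lit 272) (nat_lit 247) (nat_lit 261)) (PT.lf (nat_lit 50388) (nat_lit 6) (nat_lit 663) (nat_lit 1) (nat_lit 273) (nat_lit 247) (nat_lit 260)))) (PT.nd (nat_lit 156) (PT.nd (nat_lit 78) (PT.lf (nat_lit 49248) (nat_lit 6) (nat_lit 648) (nat_lit 1) (nat_lit 274) (nat_lit 247) (nat_lit 259)) (PT.lf (nat_lit 48032) (nat_lit 6) (nat_lit 632) (nat_lit 1) (nat_lit 275) (nat_lit 247) (nat_lit 258))) (PT.nd (nat_lit 78) (PT.lf (nat_lit 46740) (nat_lit 6) (nat_lit 615) (nat_lit 1) (nat_lit 276) (nat_lit 247) (nat_lit 257)) (PT.lf (nat_lit 45372) (nat_lit 6)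 (nat_lit 597) (nat_lit 1) (nat_lit 277) (nat_lit 247) (nat_lit 256)))))) (PT.nd (nat_lit 79092) (PT.nd (nat_lit 312) (PT.nd (nat_lit 156) (PT.nd (nat_lit 78) (PT.lf (nat_lit 43928) (nat_lit 6) (nat_lit 578) (nat_lit 1) (nat_lit 278) (nat_lit 247) (nat_lit 255)) (PT.lf (nat_lit 42408) (nat_lit 6) (nat_lit 558) (nat_lit 1) (nat_lit 279) (nat_lit 247) (nat_lit 254))) (PT.nd (nat_lit 78) (PT.lf (nat_lit 40812) (nat_lit 6) (nat_lit 537) (nat_lit 1) (nat_lit 280) (nat_lit 247) (nat_lit 253)) (PT.lf (nat_lit 39140) (nat_lit 6) (nat_lit 515) (nat_lit 1) (nat_lit 281) (nat_lit 247) (nat_lit 252)))) (PT.nd (nat_lit 78624) (PT.nd (nat_lit 78) (PT.lf (nat_lit 37392) (nat_lit 6) (nat_lit 492) (nat_lit 1) (nat_lit 282) (nat_lit 247) (nat_lit 251)) (PT.lf (nat_lit 35568) (nat_lit 6) (nat_lit 468) (nat_lit 1) (nat_lit 283) (nat_lit 247) (nat_lit 250))) (PT.nd (nat_lit 78) (PT.lf (nat_lit 35492) (nat_lit 6) (nat_lit 467) (nat_lit 3) (nat_lit 249) (nat_lit 248) (nat_lit 283)) (PT.lf (nat_lit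 37316) (nat_lit 6) (nat_lit 491) (nat_lit 3) (nat_lit 250) (nat_lit 248) (nat_lit 282))))) (PT.nd (nat_lit 312) (PT.nd (nat_lit 156) (PT.nd (nat_lit 78) (PT.lf (nat_lit 39064) (nat_lit 6) (nat_lit 514) (nat_lit 3) (nat_lit 251) (nat_lit 248) (nat_lit 281)) (PT.lf (nat_lit 40736) (nat_lit 6) (nat_lit 536) (nat_lit 3) (nat_lit 252) (nat_lit 248) (nat_lit 280))) (PT.nd (nat_lit 78) (PT.lf (nat_lit 42332) (nat_lit 6) (nat_lit 557) (nat_lit 3) (nat_lit 253) (nat_lit 248) (nat_lit 279)) (PT.lf (nat_lit 43852) (nat_lit 6) (nat_lit 577) (nat_lit 3) (nat_lit 254) (nat_lit 248) (nat_lit 278)))) (PT.nd (nat_lit 156) (PT.nd (nat_lit 78) (PT.lf (nat_lit 45296) (nat_lit 6) (nat_lit 596) (nat_lit 3) (nat_lit 255) (nat_lit 248) (nat_lit 277)) (PT.lf (nat_lit 46664) (nat_lit 6) (nat_lit 614) (nat_lit 3) (nat_lit 256) (nat_lit 248) (nat_lit 276))) (PT.nd (nat_lit 78) (PT.lf (nat_lit 47956) (nat_lit 6) (nat_lit 631) (nat_lit 3) (nat_lit 257) (nat_lit 248) (nat_lit 275)) (PT.nd (nat_lit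 78) (PT.lf (nat_lit 49172) (nat_lit 6) (nat_lit 647) (nat_lit 3) (nat_lit 258) (nat_lit 248) (nat_lit 274)) (PT.lf (nat_lit 50312) (nat_lit 6) (nat_lit 662) (nat_lit 3) (nat_lit 259) (nat_lit 248) (nat_lit 273))))))))
noncomputable def pc36 : PT := (PT.nd (nat_lit 1248) (PT.nd (nat_lit 624) (PT.nd (nat_lit 312) (PT.nd (nat_lit 156) (PT.nd (nat_lit 78) (PT.lf (nat_lit 51376) (nat_lit 6) (nat_lit 676) (nat_lit 3) (nat_lit 260) (nat_lit 248) (nat_lit 272)) (PT.lf (nat_lit 51452) (nat_lit 6) (nat_lit 677) (nat_lit 3) (nat_lit 261) (nat_lit 248) (nat_lit 271))) (PT.nd (nat_lit 78) (PT.lf (nat_lit 51528) (nat_lit 6) (nat_lit 678) (nat_lit 3) (nat_lit 262) (nat_lit 248) (nat_lit 270)) (PT.lf (nat_lit 51604) (nat_lit 6) (nat_lit 679) (nat_lit 3) (nat_lit 263) (nat_lit 248) (nat_lit 269)))) (PT.nd (nat_lit 156) (PT.nd (nat_lit 78) (PT.lf (nat_lit 51680) (nat_lit 6) (nat_lit 680) (nat_lit 3) (nat_lit 264) (nat_lit 248) (nat_lit 268)) (PT.lf (nat_lit 51756) (nat_lit 6) (nat_lit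 681) (nat_lit 3) (nat_lit 265) (nat_lit 248) (nat_lit 267))) (PT.nd (nat_lit 78) (PT.lf (nat_lit 51832) (nat_lit 3) (nat_lit 682) (nat_lit 1) (nat_lit 266) (nat_lit 248) (nat_lit 266)) (PT.lf (nat_lit 51756) (nat_lit 6) (nat_lit 681) (nat_lit 1) (nat_lit 267) (nat_lit 248) (nat_lit 265))))) (PT.nd (nat_lit 312) (PT.nd (nat_lit 156) (PT.nd (nat_lit 78) (PT.lf (nat_lit 51680) (nat_lit 6) (nat_lit 680) (nat_lit 1) (nat_lit 268) (nat_lit 248) (nat_lit 264)) (PT.lf (nat_lit 51604) (nat_lit 6) (nat_lit 679) (nat_lit 1) (nat_lit 269) (nat_lit 248) (nat_lit 263))) (PT.nd (nat_lit 78) (PT.lf (nat_lit 51528) (nat_lit 6) (nat_lit 678) (nat_lit 1) (nat_lit 270) (nat_lit 248) (nat_lit 262)) (PT.lf (nat_lit 51452) (nat_lit 6) (nat_lit 677) (nat_lit 1) (nat_lit 271) (nat_lit 248) (nat_lit 261)))) (PT.nd (nat_lit 156) (PT.nd (nat_lit 78) (PT.lf (nat_lit 51376) (nat_lit 6) (nat_lit 676) (nat_lit 1) (nat_lit 272) (nat_lit 248) (nat_lit 260)) (PT.lf (nat_lit 50312) (nat_lit 6) (nat_lit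 662) (nat_lit 1) (nat_lit 273) (nat_lit 248) (nat_lit 259))) (PT.nd (nat_lit 78) (PT.lf (nat_lit 49172) (nat_lit 6) (nat_lit 647) (nat_lit 1) (nat_lit 274) (nat_lit 248) (nat_lit 258)) (PT.lf (nat_lit 47956) (nat_lit 6) (nat_lit 631) (nat_lit 1) (nat_lit 275) (nat_lit 248) (nat_lit 257)))))) (PT.nd (nat_lit 79014) (PT.nd (nat_lit 312) (PT.nd (nat_lit 156) (PT.nd (nat_lit 78) (PT.lf (nat_lit 46664) (nat_lit 6) (nat_lit 614) (nat_lit 1) (nat_lit 276) (nat_lit 248) (nat_lit 256)) (PT.lf (nat_lit 45296) (nat_lit 6) (nat_lit 596) (nat_lit 1) (nat_lit 277) (nat_lit 248) (nat_lit 255))) (PT.nd (nat_lit 78) (PT.lf (nat_lit 43852) (nat_lit 6) (nat_lit 577) (nat_lit 1) (nat_lit 278) (nat_lit 248) (nat_lit 254)) (PT.lf (nat_lit 42332) (nat_lit 6) (nat_lit 557) (nat_lit 1) (nat_lit 279) (nat_lit 248) (nat_lit 253)))) (PT.nd (nat_lit 156) (PT.nd (nat_lit 78) (PT.lf (nat_lit 40736) (nat_lit 6) (nat_lit 536) (nat_lit 1) (nat_lit 280) (nat_lit 248) (nat_lit 252)) (PT.lf (nat_lit 39064)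 (nat_lit 6) (nat_lit 514) (nat_lit 1) (nat_lit 281) (nat_lit 248) (nat_lit 251))) (PT.nd (nat_lit 78) (PT.lf (nat_lit 37316) (nat_lit 6) (nat_lit 491) (nat_lit 1) (nat_lit 282) (nat_lit 248) (nat_lit 250)) (PT.lf (nat_lit 35492) (nat_lit 6) (nat_lit 467) (nat_lit 1) (nat_lit 283) (nat_lit 248) (nat_lit 249))))) (PT.nd (nat_lit 312) (PT.nd (nat_lit 156) (PT.nd (nat_lit 78) (PT.lf (nat_lit 35492) (nat_lit 6) (nat_lit 467) (nat_lit 5) (nat_lit 248) (nat_lit 249) (nat_lit 283)) (PT.lf (nat_lit 37240) (nat_lit 3) (nat_lit 490) (nat_lit 3) (nat_lit 249) (nat_lit 249) (nat_lit 282))) (PT.nd (nat_lit 78) (PT.lf (nat_lit 38988) (nat_lit 6) (nat_lit 513) (nat_lit 3) (nat_lit 250) (nat_lit 249) (nat_lit 281)) (PT.lf (nat_lit 40660) (nat_lit 6) (nat_lit 535) (nat_lit 3) (nat_lit 251) (nat_lit 249) (nat_lit 280)))) (PT.nd (nat_lit 156) (PT.nd (nat_lit 78) (PT.lf (nat_lit 42256) (nat_lit 6) (nat_lit 556) (nat_lit 3) (nat_lit 252) (nat_lit 249) (nat_lit 279)) (PT.lf (nat_lit 43776)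 (nat_lit 6) (nat_lit 576) (nat_lit 3) (nat_lit 253) (nat_lit 249) (nat_lit 278))) (PT.nd (nat_lit 78) (PT.lf (nat_lit 45220) (nat_lit 6) (nat_lit 595) (nat_lit 3) (nat_lit 254) (nat_lit 249) (nat_lit 277)) (PT.nd (nat_lit 78) (PT.lf (nat_lit 46588) (nat_lit 6) (nat_lit 613) (nat_lit 3) (nat_lit 255) (nat_lit 249) (nat_lit 276)) (PT.lf (nat_lit 47880) (nat_lit 6) (nat_lit 630) (nat_lit 3) (nat_lit 256) (nat_lit 249) (nat_lit 275))))))))
noncomputable def pc37 : PT := (PT.nd (nat_lit 1248) (PT.nd (nat_lit 624) (PT.nd (nat_lit 312) (PT.nd (nat_lit 156) (PT.nd (nat_lit 78) (PT.lf (nat_lit 49096) (nat_lit 6) (nat_lit 646) (nat_lit 3) (nat_lit 257) (nat_lit 249) (nat_lit 274)) (PT.lf (nat_lit 50236) (nat_lit 6) (nat_lit 661) (nat_lit 3) (nat_lit 258) (nat_lit 249) (nat_lit 273))) (PT.nd (nat_lit 78) (PT.lf (nat_lit 51300) (nat_lit 6) (nat_lit 675) (nat_lit 3) (nat_lit 259) (nat_lit 249) (nat_lit 272)) (PT.lf (nat_lit 52288) (nat_lit 6) (nat_lit 688) (nat_lit 3) (nat_lit 260)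 (nat_lit 249) (nat_lit 271)))) (PT.nd (nat_lit 156) (PT.nd (nat_lit 78) (PT.lf (nat_lit 52364) (nat_lit 6) (nat_lit 689) (nat_lit 3) (nat_lit 261) (nat_lit 249) (nat_lit 270)) (PT.lf (nat_lit 52440) (nat_lit 6) (nat_lit 690) (nat_lit 3) (nat_lit 262) (nat_lit 249) (nat_lit 269))) (PT.nd (nat_lit 78) (PT.lf (nat_lit 52516) (nat_lit 6) (nat_lit 691) (nat_lit 3) (nat_lit 263) (nat_lit 249) (nat_lit 268)) (PT.lf (nat_lit 52592) (nat_lit 6) (nat_lit 692) (nat_lit 3) (nat_lit 264) (nat_lit 249) (nat_lit 267))))) (PT.nd (nat_lit 312) (PT.nd (nat_lit 156) (PT.nd (nat_lit 78) (PT.lf (nat_lit 52668) (nat_lit 6) (nat_lit 693) (nat_lit 3) (nat_lit 265) (nat_lit 249) (nat_lit 266)) (PT.lf (nat_lit 52668) (nat_lit 6) (nat_lit 693) (nat_lit 1) (nat_lit 266) (nat_lit 249) (nat_lit 265))) (PT.nd (nat_lit 78) (PT.lf (nat_lit 52592) (nat_lit 6) (nat_lit 692) (nat_lit 1) (nat_lit 267) (nat_lit 249) (nat_lit 264)) (PT.lf (nat_lit 52516) (nat_lit 6) (nat_lit 691) (nat_lit 1) (nat_lit 268)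 (nat_lit 249) (nat_lit 263)))) (PT.nd (nat_lit 156) (PT.nd (nat_lit 78) (PT.lf (nat_lit 52440) (nat_lit 6) (nat_lit 690) (nat_lit 1) (nat_lit 269) (nat_lit 249) (nat_lit 262)) (PT.lf (nat_lit 52364) (nat_lit 6) (nat_lit 689) (nat_lit 1) (nat_lit 270) (nat_lit 249) (nat_lit 261))) (PT.nd (nat_lit 78) (PT.lf (nat_lit 52288) (nat_lit 6) (nat_lit 688) (nat_lit 1) (nat_lit 271) (nat_lit 249) (nat_lit 260)) (PT.lf (nat_lit 51300) (nat_lit 6) (nat_lit 675) (nat_lit 1) (nat_lit 272) (nat_lit 249) (nat_lit 259)))))) (PT.nd (nat_lit 624) (PT.nd (nat_lit 312) (PT.nd (nat_lit 156) (PT.nd (nat_lit 78) (PT.lf (nat_lit 50236) (nat_lit 6) (nat_lit 661) (nat_lit 1) (nat_lit 273) (nat_lit 249) (nat_lit 258)) (PT.lf (nat_lit 49096) (nat_lit 6) (nat_lit 646) (nat_lit 1) (nat_lit 274) (nat_lit 249) (nat_lit 257))) (PT.nd (nat_lit 78) (PT.lf (nat_lit 47880) (nat_lit 6) (nat_lit 630) (nat_lit 1) (nat_lit 275) (nat_lit 249) (nat_lit 256)) (PT.lf (nat_lit 46588) (nat_lit 6) (nat_lit 613) (nat_lit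 1) (nat_lit 276) (nat_lit 249) (nat_lit 255)))) (PT.nd (nat_lit 156) (PT.nd (nat_lit 78) (PT.lf (nat_lit 45220) (nat_lit 6) (nat_lit 595) (nat_lit 1) (nat_lit 277) (nat_lit 249) (nat_lit 254)) (PT.lf (nat_lit 43776) (nat_lit 6) (nat_lit 576) (nat_lit 1) (nat_lit 278) (nat_lit 249) (nat_lit 253))) (PT.nd (nat_lit 78) (PT.lf (nat_lit 42256) (nat_lit 6) (nat_lit 556) (nat_lit 1) (nat_lit 279) (nat_lit 249) (nat_lit 252)) (PT.lf (nat_lit 40660) (nat_lit 6) (nat_lit 535) (nat_lit 1) (nat_lit 280) (nat_lit 249) (nat_lit 251))))) (PT.nd (nat_lit 78624) (PT.nd (nat_lit 156) (PT.nd (nat_lit 78) (PT.lf (nat_lit 38988) (nat_lit 6) (nat_lit 513) (nat_lit 1) (nat_lit 281) (nat_lit 249) (nat_lit 250)) (PT.lf (nat_lit 37240) (nat_lit 3) (nat_lit 490) (nat_lit 0) (nat_lit 282) (nat_lit 249) (nat_lit 249))) (PT.nd (nat_lit 78390) (PT.lf (nat_lit 35492) (nat_lit 6) (nat_lit 467) (nat_lit 0) (nat_lit 283) (nat_lit 249) (nat_lit 248)) (PT.lf (nat_lit 35568) (nat_lit 6) (nat_lit 468) (nat_lit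 5) (nat_lit 247) (nat_lit 250) (nat_lit 283)))) (PT.nd (nat_lit 156) (PT.nd (nat_lit 78) (PT.lf (nat_lit 37316) (nat_lit 6) (nat_lit 491) (nat_lit 5) (nat_lit 248) (nat_lit 250) (nat_lit 282)) (PT.lf (nat_lit 38988) (nat_lit 6) (nat_lit 513) (nat_lit 5) (nat_lit 249) (nat_lit 250) (nat_lit 281))) (PT.nd (nat_lit 78) (PT.lf (nat_lit 40584) (nat_lit 3) (nat_lit 534) (nat_lit 3) (nat_lit 250) (nat_lit 250) (nat_lit 280)) (PT.nd (nat_lit 78) (PT.lf (nat_lit 42180) (nat_lit 6) (nat_lit 555) (nat_lit 3) (nat_lit 251) (nat_lit 250) (nat_lit 279)) (PT.lf (nat_lit 43700) (nat_lit 6) (nat_lit 575) (nat_lit 3) (nat_lit 252) (nat_lit 250) (nat_lit 278))))))))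
noncomputable def pc38 : PT := (PT.nd (nat_lit 1248) (PT.nd (nat_lit 624) (PT.nd (nat_lit 312) (PT.nd (nat_lit 156) (PT.nd (nat_lit 78) (PT.lf (nat_lit 45144) (nat_lit 6) (nat_lit 594) (nat_lit 3) (nat_lit 253) (nat_lit 250) (nat_lit 277)) (PT.lf (nat_lit 46512) (nat_lit 6) (nat_lit 612) (nat_lit 3) (nat_lit 254) (nat_lit 250) (nat_lit 276))) (PT.nd (nat_lit 78) (PT.lf (nat_lit 47804) (nat_lit 6) (nat_lit 629) (nat_lit 3) (nat_lit 255) (nat_lit 250) (nat_lit 275)) (PT.lf (nat_lit 49020) (nat_lit 6) (nat_lit 645) (nat_lit 3) (nat_lit 256) (nat_lit 250) (nat_lit 274)))) (PT.nd (nat_lit 156) (PT.nd (nat_lit 78) (PT.lf (nat_lit 50160) (nat_lit 6) (nat_lit 660) (nat_lit 3) (nat_lit 257) (nat_lit 250) (nat_lit 273)) (PT.lf (nat_lit 51224) (nat_lit 6) (nat_lit 674) (nat_lit 3) (nat_lit 258) (nat_lit 250) (nat_lit 272))) (PT.nd (nat_lit 78) (PT.lf (nat_lit 52212) (nat_lit 6) (nat_lit 687) (nat_lit 3) (nat_lit 259) (nat_lit 250) (nat_lit 271)) (PT.lf (nat_lit 53124) (nat_lit 6)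 (nat_lit 699) (nat_lit 3) (nat_lit 260) (nat_lit 250) (nat_lit 270))))) (PT.nd (nat_lit 312) (PT.nd (nat_lit 156) (PT.nd (nat_lit 78) (PT.lf (nat_lit 53200) (nat_lit 6) (nat_lit 700) (nat_lit 3) (nat_lit 261) (nat_lit 250) (nat_lit 269)) (PT.lf (nat_lit 53276) (nat_lit 6) (nat_lit 701) (nat_lit 3) (nat_lit 262) (nat_lit 250) (nat_lit 268))) (PT.nd (nat_lit 78) (PT.lf (nat_lit 53352) (nat_lit 6) (nat_lit 702) (nat_lit 3) (nat_lit 263) (nat_lit 250) (nat_lit 267)) (PT.lf (nat_lit 53428) (nat_lit 6) (nat_lit 703) (nat_lit 3) (nat_lit 264) (nat_lit 250) (nat_lit 266)))) (PT.nd (nat_lit 156) (PT.nd (nat_lit 78) (PT.lf (nat_lit 53504) (nat_lit 3) (nat_lit 704) (nat_lit 1) (nat_lit 265) (nat_lit 250) (nat_lit 265)) (PT.lf (nat_lit 53428) (nat_lit 6) (nat_lit 703) (nat_lit 1) (nat_lit 266) (nat_lit 250) (nat_lit 264))) (PT.nd (nat_lit 78) (PT.lf (nat_lit 53352) (nat_lit 6) (nat_lit 702) (nat_lit 1) (nat_lit 267) (nat_lit 250) (nat_lit 263)) (PT.lf (nat_lit 53276) (nat_lit 6)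 (nat_lit 701) (nat_lit 1) (nat_lit 268) (nat_lit 250) (nat_lit 262)))))) (PT.nd (nat_lit 624) (PT.nd (nat_lit 312) (PT.nd (nat_lit 156) (PT.nd (nat_lit 78) (PT.lf (nat_lit 53200) (nat_lit 6) (nat_lit 700) (nat_lit 1) (nat_lit 269) (nat_lit 250) (nat_lit 261)) (PT.lf (nat_lit 53124) (nat_lit 6) (nat_lit 699) (nat_lit 1) (nat_lit 270) (nat_lit 250) (nat_lit 260))) (PT.nd (nat_lit 78) (PT.lf (nat_lit 52212) (nat_lit 6) (nat_lit 687) (nat_lit 1) (nat_lit 271) (nat_lit 250) (nat_lit 259)) (PT.lf (nat_lit 51224) (nat_lit 6) (nat_lit 674) (nat_lit 1) (nat_lit 272) (nat_lit 250) (nat_lit 258)))) (PT.nd (nat_lit 156) (PT.nd (nat_lit 78) (PT.lf (nat_lit 50160) (nat_lit 6) (nat_lit 660) (nat_lit 1) (nat_lit 273) (nat_lit 250) (nat_lit 257)) (PT.lf (nat_lit 49020) (nat_lit 6) (nat_lit 645) (nat_lit 1) (nat_lit 274) (nat_lit 250) (nat_lit 256))) (PT.nd (nat_lit 78) (PT.lf (nat_lit 47804) (nat_lit 6) (nat_lit 629) (nat_lit 1) (nat_lit 275) (nat_lit 250) (nat_lit 255)) (PT.lf (nat_lit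 46512) (nat_lit 6) (nat_lit 612) (nat_lit 1) (nat_lit 276) (nat_lit 250) (nat_lit 254))))) (PT.nd (nat_lit 312) (PT.nd (nat_lit 156) (PT.nd (nat_lit 78) (PT.lf (nat_lit 45144) (nat_lit 6) (nat_lit 594) (nat_lit 1) (nat_lit 277) (nat_lit 250) (nat_lit 253)) (PT.lf (nat_lit 43700) (nat_lit 6) (nat_lit 575) (nat_lit 1) (nat_lit 278) (nat_lit 250) (nat_lit 252))) (PT.nd (nat_lit 78) (PT.lf (nat_lit 42180) (nat_lit 6) (nat_lit 555) (nat_lit 1) (nat_lit 279) (nat_lit 250) (nat_lit 251)) (PT.lf (nat_lit 40584) (nat_lit 3) (nat_lit 534) (nat_lit 0) (nat_lit 280) (nat_lit 250) (nat_lit 250)))) (PT.nd (nat_lit 156) (PT.nd (nat_lit 78) (PT.lf (nat_lit 38988) (nat_lit 6) (nat_lit 513) (nat_lit 0) (nat_lit 281) (nat_lit 250) (nat_lit 249)) (PT.lf (nat_lit 37316) (nat_lit 6) (nat_lit 491) (nat_lit 0) (nat_lit 282) (nat_lit 250) (nat_lit 248))) (PT.nd (nat_lit 78234) (PT.lf (nat_lit 35568) (nat_lit 6) (nat_lit 468) (nat_lit 0) (nat_lit 283) (nat_lit 250) (nat_lit 247)) (PT.nd (nat_lit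 78) (PT.lf (nat_lit 33820) (nat_lit 6) (nat_lit 445) (nat_lit 5) (nat_lit 245) (nat_lit 251) (nat_lit 284)) (PT.lf (nat_lit 35644) (nat_lit 6) (nat_lit 469) (nat_lit 5) (nat_lit 246) (nat_lit 251) (nat_lit 283))))))))
noncomputable def pc39 : PT := (PT.nd (nat_lit 1326) (PT.nd (nat_lit 624) (PT.nd (nat_lit 312) (PT.nd (nat_lit 156) (PT.nd (nat_lit 78) (PT.lf (nat_lit 37392) (nat_lit 6) (nat_lit 492) (nat_lit 5) (nat_lit 247) (nat_lit 251) (nat_lit 282)) (PT.lf (nat_lit 39064) (nat_lit 6) (nat_lit 514) (nat_lit 5) (nat_lit 248) (nat_lit 251) (nat_lit 281))) (PT.nd (nat_lit 78) (PT.lf (nat_lit 40660) (nat_lit 6) (nat_lit 535) (nat_lit 5) (nat_lit 249) (nat_lit 251) (nat_lit 280)) (PT.lf (nat_lit 42180) (nat_lit 6) (nat_lit 555) (nat_lit 5) (nat_lit 250) (nat_lit 251) (nat_lit 279)))) (PT.nd (nat_lit 156) (PT.nd (nat_lit 78) (PT.lf (nat_lit 43624) (nat_lit 3) (nat_lit 574) (nat_lit 3) (nat_lit 251) (nat_lit 251) (nat_lit 278)) (PT.lf (nat_lit 45068) (nat_lit 6) (nat_lit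 593) (nat_lit 3) (nat_lit 252) (nat_lit 251) (nat_lit 277))) (PT.nd (nat_lit 78) (PT.lf (nat_lit 46436) (nat_lit 6) (nat_lit 611) (nat_lit 3) (nat_lit 253) (nat_lit 251) (nat_lit 276)) (PT.lf (nat_lit 47728) (nat_lit 6) (nat_lit 628) (nat_lit 3) (nat_lit 254) (nat_lit 251) (nat_lit 275))))) (PT.nd (nat_lit 312) (PT.nd (nat_lit 156) (PT.nd (nat_lit 78) (PT.lf (nat_lit 48944) (nat_lit 6) (nat_lit 644) (nat_lit 3) (nat_lit 255) (nat_lit 251) (nat_lit 274)) (PT.lf (nat_lit 50084) (nat_lit 6) (nat_lit 659) (nat_lit 3) (nat_lit 256) (nat_lit 251) (nat_lit 273))) (PT.nd (nat_lit 78) (PT.lf (nat_lit 51148) (nat_lit 6) (nat_lit 673) (nat_lit 3) (nat_lit 257) (nat_lit 251) (nat_lit 272)) (PT.lf (nat_lit 52136) (nat_lit 6) (nat_lit 686) (nat_lit 3) (nat_lit 258) (nat_lit 251) (nat_lit 271)))) (PT.nd (nat_lit 156) (PT.nd (nat_lit 78) (PT.lf (nat_lit 53048) (nat_lit 6) (nat_lit 698) (nat_lit 3) (nat_lit 259) (nat_lit 251) (nat_lit 270)) (PT.lf (nat_lit 53884) (nat_lit 6) (nat_lit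 709) (nat_lit 3) (nat_lit 260) (nat_lit 251) (nat_lit 269))) (PT.nd (nat_lit 78) (PT.lf (nat_lit 53960) (nat_lit 6) (nat_lit 710) (nat_lit 3) (nat_lit 261) (nat_lit 251) (nat_lit 268)) (PT.nd (nat_lit 78) (PT.lf (nat_lit 54036) (nat_lit 6) (nat_lit 711) (nat_lit 3) (nat_lit 262) (nat_lit 251) (nat_lit 267)) (PT.lf (nat_lit 54112) (nat_lit 6) (nat_lit 712) (nat_lit 3) (nat_lit 263) (nat_lit 251) (nat_lit 266))))))) (PT.nd (nat_lit 624) (PT.nd (nat_lit 312) (PT.nd (nat_lit 156) (PT.nd (nat_lit 78) (PT.lf (nat_lit 54188) (nat_lit 6) (nat_lit 713) (nat_lit 3) (nat_lit 264) (nat_lit 251) (nat_lit 265)) (PT.lf (nat_lit 54188) (nat_lit 6) (nat_lit 713) (nat_lit 1) (nat_lit 265) (nat_lit 251) (nat_lit 264))) (PT.nd (nat_lit 78) (PT.lf (nat_lit 54112) (nat_lit 6) (nat_lit 712) (nat_lit 1) (nat_lit 266) (nat_lit 251) (nat_lit 263)) (PT.lf (nat_lit 54036) (nat_lit 6) (nat_lit 711) (nat_lit 1) (nat_lit 267) (nat_lit 251) (nat_lit 262)))) (PT.nd (nat_lit 156) (PT.nd (nat_lit 78) (PT.lf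 (nat_lit 53960) (nat_lit 6) (nat_lit 710) (nat_lit 1) (nat_lit 268) (nat_lit 251) (nat_lit 261)) (PT.lf (nat_lit 53884) (nat_lit 6) (nat_lit 709) (nat_lit 1) (nat_lit 269) (nat_lit 251) (nat_lit 260))) (PT.nd (nat_lit 78) (PT.lf (nat_lit 53048) (nat_lit 6) (nat_lit 698) (nat_lit 1) (nat_lit 270) (nat_lit 251) (nat_lit 259)) (PT.lf (nat_lit 52136) (nat_lit 6) (nat_lit 686) (nat_lit 1) (nat_lit 271) (nat_lit 251) (nat_lit 258))))) (PT.nd (nat_lit 312) (PT.nd (nat_lit 156) (PT.nd (nat_lit 78) (PT.lf (nat_lit 51148) (nat_lit 6) (nat_lit 673) (nat_lit 1) (nat_lit 272) (nat_lit 251) (nat_lit 257)) (PT.lf (nat_lit 50084) (nat_lit 6) (nat_lit 659) (nat_lit 1) (nat_lit 273) (nat_lit 251) (nat_lit 256))) (PT.nd (nat_lit 78) (PT.lf (nat_lit 48944) (nat_lit 6) (nat_lit 644) (nat_lit 1) (nat_lit 274) (nat_lit 251) (nat_lit 255)) (PT.lf (nat_lit 47728) (nat_lit 6) (nat_lit 628) (nat_lit 1) (nat_lit 275) (nat_lit 251) (nat_lit 254)))) (PT.nd (nat_lit 156) (PT.nd (nat_lit 78) (PT.lf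 (nat_lit 46436) (nat_lit 6) (nat_lit 611) (nat_lit 1) (nat_lit 276) (nat_lit 251) (nat_lit 253)) (PT.lf (nat_lit 45068) (nat_lit 6) (nat_lit 593) (nat_lit 1) (nat_lit 277) (nat_lit 251) (nat_lit 252))) (PT.nd (nat_lit 78) (PT.lf (nat_lit 43624) (nat_lit 3) (nat_lit 574) (nat_lit 0) (nat_lit 278) (nat_lit 251) (nat_lit 251)) (PT.nd (nat_lit 78) (PT.lf (nat_lit 42180) (nat_lit 6) (nat_lit 555) (nat_lit 0) (nat_lit 279) (nat_lit 251) (nat_lit 250)) (PT.lf (nat_lit 40660) (nat_lit 6) (nat_lit 535) (nat_lit 0) (nat_lit 280) (nat_lit 251) (nat_lit 249))))))))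
noncomputable def pc40 : PT := (PT.nd (nat_lit 79248) (PT.nd (nat_lit 78624) (PT.nd (nat_lit 78312) (PT.nd (nat_lit 156) (PT.nd (nat_lit 78) (PT.lf (nat_lit 39064) (nat_lit 6) (nat_lit 514) (nat_lit 0) (nat_lit 281) (nat_lit 251) (nat_lit 248)) (PT.lf (nat_lit 37392) (nat_lit 6) (nat_lit 492) (nat_lit 0) (nat_lit 282) (nat_lit 251) (nat_lit 247))) (PT.nd (nat_lit 78) (PT.lf (nat_lit 35644) (nat_lit 6) (nat_lit 469) (nat_lit 0) (nat_lit 283) (nat_lit 251) (nat_lit 246)) (PT.lf (nat_lit 33820) (nat_lit 6) (nat_lit 445) (nat_lit 0) (nat_lit 284) (nat_lit 251) (nat_lit 245)))) (PT.nd (nat_lit 156) (PT.nd (nat_lit 78) (PT.lf (nat_lit 33896) (nat_lit 6) (nat_lit 446) (nat_lit 5) (nat_lit 244) (nat_lit 252) (nat_lit 284)) (PT.lf (nat_lit 35720) (nat_lit 6) (nat_lit 470) (nat_lit 5) (nat_lit 245) (nat_lit 252) (nat_lit 283))) (PT.nd (nat_lit 78) (PT.lf (nat_lit 37468) (nat_lit 6) (nat_lit 493) (nat_lit 5) (nat_lit 246) (nat_lit 252) (nat_lit 282)) (PT.lf (nat_lit 39140) (nat_lit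 6) (nat_lit 515) (nat_lit 5) (nat_lit 247) (nat_lit 252) (nat_lit 281))))) (PT.nd (nat_lit 312) (PT.nd (nat_lit 156) (PT.nd (nat_lit 78) (PT.lf (nat_lit 40736) (nat_lit 6) (nat_lit 536) (nat_lit 5) (nat_lit 248) (nat_lit 252) (nat_lit 280)) (PT.lf (nat_lit 42256) (nat_lit 6) (nat_lit 556) (nat_lit 5) (nat_lit 249) (nat_lit 252) (nat_lit 279))) (PT.nd (nat_lit 78) (PT.lf (nat_lit 43700) (nat_lit 6) (nat_lit 575) (nat_lit 5) (nat_lit 250) (nat_lit 252) (nat_lit 278)) (PT.lf (nat_lit 45068) (nat_lit 6) (nat_lit 593) (nat_lit 5) (nat_lit 251) (nat_lit 252) (nat_lit 277)))) (PT.nd (nat_lit 156) (PT.nd (nat_lit 78) (PT.lf (nat_lit 46360) (nat_lit 3) (nat_lit 610) (nat_lit 3) (nat_lit 252) (nat_lit 252) (nat_lit 276)) (PT.lf (nat_lit 47652) (nat_lit 6) (nat_lit 627) (nat_lit 3) (nat_lit 253) (nat_lit 252) (nat_lit 275))) (PT.nd (nat_lit 78) (PT.lf (nat_lit 48868) (nat_lit 6) (nat_lit 643) (nat_lit 3) (nat_lit 254) (nat_lit 252) (nat_lit 274)) (PT.lf (nat_lit 50008) (nat_lit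 6) (nat_lit 658) (nat_lit 3) (nat_lit 255) (nat_lit 252) (nat_lit 273)))))) (PT.nd (nat_lit 624) (PT.nd (nat_lit 312) (PT.nd (nat_lit 156) (PT.nd (nat_lit 78) (PT.lf (nat_lit 51072) (nat_lit 6) (nat_lit 672) (nat_lit 3) (nat_lit 256) (nat_lit 252) (nat_lit 272)) (PT.lf (nat_lit 52060) (nat_lit 6) (nat_lit 685) (nat_lit 3) (nat_lit 257) (nat_lit 252) (nat_lit 271))) (PT.nd (nat_lit 78) (PT.lf (nat_lit 52972) (nat_lit 6) (nat_lit 697) (nat_lit 3) (nat_lit 258) (nat_lit 252) (nat_lit 270)) (PT.lf (nat_lit 53808) (nat_lit 6) (nat_lit 708) (nat_lit 3) (nat_lit 259) (nat_lit 252) (nat_lit 269)))) (PT.nd (nat_lit 156) (PT.nd (nat_lit 78) (PT.lf (nat_lit 54568) (nat_lit 6) (nat_lit 718) (nat_lit 3) (nat_lit 260) (nat_lit 252) (nat_lit 268)) (PT.lf (nat_lit 54644) (nat_lit 6) (nat_lit 719) (nat_lit 3) (nat_lit 261) (nat_lit 252) (nat_lit 267))) (PT.nd (nat_lit 78) (PT.lf (nat_lit 54720) (nat_lit 6) (nat_lit 720) (nat_lit 3) (nat_lit 262) (nat_lit 252) (nat_lit 266)) (PT.lf (nat_lit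 54796) (nat_lit 6) (nat_lit 721) (nat_lit 3) (nat_lit 263) (nat_lit 252) (nat_lit 265))))) (PT.nd (nat_lit 312) (PT.nd (nat_lit 156) (PT.nd (nat_lit 78) (PT.lf (nat_lit 54872) (nat_lit 3) (nat_lit 722) (nat_lit 1) (nat_lit 264) (nat_lit 252) (nat_lit 264)) (PT.lf (nat_lit 54796) (nat_lit 6) (nat_lit 721) (nat_lit 1) (nat_lit 265) (nat_lit 252) (nat_lit 263))) (PT.nd (nat_lit 78) (PT.lf (nat_lit 54720) (nat_lit 6) (nat_lit 720) (nat_lit 1) (nat_lit 266) (nat_lit 252) (nat_lit 262)) (PT.lf (nat_lit 54644) (nat_lit 6) (nat_lit 719) (nat_lit 1) (nat_lit 267) (nat_lit 252) (nat_lit 261)))) (PT.nd (nat_lit 156) (PT.nd (nat_lit 78) (PT.lf (nat_lit 54568) (nat_lit 6) (nat_lit 718) (nat_lit 1) (nat_lit 268) (nat_lit 252) (nat_lit 260)) (PT.lf (nat_lit 53808) (nat_lit 6) (nat_lit 708) (nat_lit 1) (nat_lit 269) (nat_lit 252) (nat_lit 259))) (PT.nd (nat_lit 78) (PT.lf (nat_lit 52972) (nat_lit 6) (nat_lit 697) (nat_lit 1) (nat_lit 270) (nat_lit 252) (nat_lit 258)) (PT.nd (nat_lit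 78) (PT.lf (nat_lit 52060) (nat_lit 6) (nat_lit 685) (nat_lit 1) (nat_lit 271) (nat_lit 252) (nat_lit 257)) (PT.lf (nat_lit 51072) (nat_lit 6) (nat_lit 672) (nat_lit 1) (nat_lit 272) (nat_lit 252) (nat_lit 256))))))))
noncomputable def pc41 : PT := (PT.nd (nat_lit 79170) (PT.nd (nat_lit 624) (PT.nd (nat_lit 312) (PT.nd (nat_lit 156) (PT.nd (nat_lit 78) (PT.lf (nat_lit 50008) (nat_lit 6) (nat_lit 658) (nat_lit 1) (nat_lit 273) (nat_lit 252) (nat_lit 255)) (PT.lf (nat_lit 48868) (nat_lit 6) (nat_lit 643) (nat_lit 1) (nat_lit 274) (nat_lit 252) (nat_lit 254))) (PT.nd (nat_lit 78) (PT.lf (nat_lit 47652) (nat_lit 6) (nat_lit 627) (nat_lit 1) (nat_lit 275) (nat_lit 252) (nat_lit 253)) (PT.lf (nat_lit 46360) (nat_lit 3) (nat_lit 610) (nat_lit 0) (nat_lit 276) (nat_lit 252) (nat_lit 252)))) (PT.nd (nat_lit 156) (PT.nd (nat_lit 78) (PT.lf (nat_lit 45068) (nat_lit 6) (nat_lit 593) (nat_lit 0) (nat_lit 277) (nat_lit 252) (nat_lit 251)) (PT.lf (nat_lit 43700) (nat_lit 6) (nat_lit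 575) (nat_lit 0) (nat_lit 278) (nat_lit 252) (nat_lit 250))) (PT.nd (nat_lit 78) (PT.lf (nat_lit 42256) (nat_lit 6) (nat_lit 556) (nat_lit 0) (nat_lit 279) (nat_lit 252) (nat_lit 249)) (PT.lf (nat_lit 40736) (nat_lit 6) (nat_lit 536) (nat_lit 0) (nat_lit 280) (nat_lit 252) (nat_lit 248))))) (PT.nd (nat_lit 78234) (PT.nd (nat_lit 156) (PT.nd (nat_lit 78) (PT.lf (nat_lit 39140) (nat_lit 6) (nat_lit 515) (nat_lit 0) (nat_lit 281) (nat_lit 252) (nat_lit 247)) (PT.lf (nat_lit 37468) (nat_lit 6) (nat_lit 493) (nat_lit 0) (nat_lit 282) (nat_lit 252) (nat_lit 246))) (PT.nd (nat_lit 78) (PT.lf (nat_lit 35720) (nat_lit 6) (nat_lit 470) (nat_lit 0) (nat_lit 283) (nat_lit 252) (nat_lit 245)) (PT.lf (nat_lit 33896) (nat_lit 6) (nat_lit 446) (nat_lit 0) (nat_lit 284) (nat_lit 252) (nat_lit 244)))) (PT.nd (nat_lit 156) (PT.nd (nat_lit 78) (PT.lf (nat_lit 33972) (nat_lit 6) (nat_lit 447) (nat_lit 5) (nat_lit 243) (nat_lit 253) (nat_lit 284)) (PT.lf (nat_lit 35796) (nat_lit 6) (nat_lit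 471) (nat_lit 5) (nat_lit 244) (nat_lit 253) (nat_lit 283))) (PT.nd (nat_lit 78) (PT.lf (nat_lit 37544) (nat_lit 6) (nat_lit 494) (nat_lit 5) (nat_lit 245) (nat_lit 253) (nat_lit 282)) (PT.lf (nat_lit 39216) (nat_lit 6) (nat_lit 516) (nat_lit 5) (nat_lit 246) (nat_lit 253) (nat_lit 281)))))) (PT.nd (nat_lit 624) (PT.nd (nat_lit 312) (PT.nd (nat_lit 156) (PT.nd (nat_lit 78) (PT.lf (nat_lit 40812) (nat_lit 6) (nat_lit 537) (nat_lit 5) (nat_lit 247) (nat_lit 253) (nat_lit 280)) (PT.lf (nat_lit 42332) (nat_lit 6) (nat_lit 557) (nat_lit 5) (nat_lit 248) (nat_lit 253) (nat_lit 279))) (PT.nd (nat_lit 78) (PT.lf (nat_lit 43776) (nat_lit 6) (nat_lit 576) (nat_lit 5) (nat_lit 249) (nat_lit 253) (nat_lit 278)) (PT.lf (nat_lit 45144) (nat_lit 6) (nat_lit 594) (nat_lit 5) (nat_lit 250) (nat_lit 253) (nat_lit 277)))) (PT.nd (nat_lit 156) (PT.nd (nat_lit 78) (PT.lf (nat_lit 46436) (nat_lit 6) (nat_lit 611) (nat_lit 5) (nat_lit 251) (nat_lit 253) (nat_lit 276)) (PT.lf (nat_lit 47652)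 (nat_lit 6) (nat_lit 627) (nat_lit 5) (nat_lit 252) (nat_lit 253) (nat_lit 275))) (PT.nd (nat_lit 78) (PT.lf (nat_lit 48792) (nat_lit 3) (nat_lit 642) (nat_lit 3) (nat_lit 253) (nat_lit 253) (nat_lit 274)) (PT.lf (nat_lit 49932) (nat_lit 6) (nat_lit 657) (nat_lit 3) (nat_lit 254) (nat_lit 253) (nat_lit 273))))) (PT.nd (nat_lit 312) (PT.nd (nat_lit 156) (PT.nd (nat_lit 78) (PT.lf (nat_lit 50996) (nat_lit 6) (nat_lit 671) (nat_lit 3) (nat_lit 255) (nat_lit 253) (nat_lit 272)) (PT.lf (nat_lit 51984) (nat_lit 6) (nat_lit 684) (nat_lit 3) (nat_lit 256) (nat_lit 253) (nat_lit 271))) (PT.nd (nat_lit 78) (PT.lf (nat_lit 52896) (nat_lit 6) (nat_lit 696) (nat_lit 3) (nat_lit 257) (nat_lit 253) (nat_lit 270)) (PT.lf (nat_lit 53732) (nat_lit 6) (nat_lit 707) (nat_lit 3) (nat_lit 258) (nat_lit 253) (nat_lit 269)))) (PT.nd (nat_lit 156) (PT.nd (nat_lit 78) (PT.lf (nat_lit 54492) (nat_lit 6) (nat_lit 717) (nat_lit 3) (nat_lit 259) (nat_lit 253) (nat_lit 268)) (PT.lf (nat_lit 55176)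 (nat_lit 6) (nat_lit 726) (nat_lit 3) (nat_lit 260) (nat_lit 253) (nat_lit 267))) (PT.nd (nat_lit 78) (PT.lf (nat_lit 55252) (nat_lit 6) (nat_lit 727) (nat_lit 3) (nat_lit 261) (nat_lit 253) (nat_lit 266)) (PT.nd (nat_lit 78) (PT.lf (nat_lit 55328) (nat_lit 6) (nat_lit 728) (nat_lit 3) (nat_lit 262) (nat_lit 253) (nat_lit 265)) (PT.lf (nat_lit 55404) (nat_lit 6) (nat_lit 729) (nat_lit 3) (nat_lit 263) (nat_lit 253) (nat_lit 264))))))))
noncomputable def pc42 : PT := (PT.nd (nat_lit 1248) (PT.nd (nat_lit 624) (PT.nd (nat_lit 312) (PT.nd (nat_lit 156) (PT.nd (nat_lit 78) (PT.lf (nat_lit 55404) (nat_lit 6) (nat_lit 729) (nat_lit 1) (nat_lit 264) (nat_lit 253) (nat_lit 263)) (PT.lf (nat_lit 55328) (nat_lit 6) (nat_lit 728) (nat_lit 1) (nat_lit 265) (nat_lit 253) (nat_lit 262))) (PT.nd (nat_lit 78) (PT.lf (nat_lit 55252) (nat_lit 6) (nat_lit 727) (nat_lit 1) (nat_lit 266) (nat_lit 253) (nat_lit 261)) (PT.lf (nat_lit 55176) (nat_lit 6) (nat_lit 726) (nat_lit 1) (nat_lit 267)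 (nat_lit 253) (nat_lit 260)))) (PT.nd (nat_lit 156) (PT.nd (nat_lit 78) (PT.lf (nat_lit 54492) (nat_lit 6) (nat_lit 717) (nat_lit 1) (nat_lit 268) (nat_lit 253) (nat_lit 259)) (PT.lf (nat_lit 53732) (nat_lit 6) (nat_lit 707) (nat_lit 1) (nat_lit 269) (nat_lit 253) (nat_lit 258))) (PT.nd (nat_lit 78) (PT.lf (nat_lit 52896) (nat_lit 6) (nat_lit 696) (nat_lit 1) (nat_lit 270) (nat_lit 253) (nat_lit 257)) (PT.lf (nat_lit 51984) (nat_lit 6) (nat_lit 684) (nat_lit 1) (nat_lit 271) (nat_lit 253) (nat_lit 256))))) (PT.nd (nat_lit 312) (PT.nd (nat_lit 156) (PT.nd (nat_lit 78) (PT.lf (nat_lit 50996) (nat_lit 6) (nat_lit 671) (nat_lit 1) (nat_lit 272) (nat_lit 253) (nat_lit 255)) (PT.lf (nat_lit 49932) (nat_lit 6) (nat_lit 657) (nat_lit 1) (nat_lit 273) (nat_lit 253) (nat_lit 254))) (PT.nd (nat_lit 78) (PT.lf (nat_lit 48792) (nat_lit 3) (nat_lit 642) (nat_lit 0) (nat_lit 274) (nat_lit 253) (nat_lit 253)) (PT.lf (nat_lit 47652) (nat_lit 6) (nat_lit 627) (nat_lit 0) (nat_lit 275)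 (nat_lit 253) (nat_lit 252)))) (PT.nd (nat_lit 156) (PT.nd (nat_lit 78) (PT.lf (nat_lit 46436) (nat_lit 6) (nat_lit 611) (nat_lit 0) (nat_lit 276) (nat_lit 253) (nat_lit 251)) (PT.lf (nat_lit 45144) (nat_lit 6) (nat_lit 594) (nat_lit 0) (nat_lit 277) (nat_lit 253) (nat_lit 250))) (PT.nd (nat_lit 78) (PT.lf (nat_lit 43776) (nat_lit 6) (nat_lit 576) (nat_lit 0) (nat_lit 278) (nat_lit 253) (nat_lit 249)) (PT.lf (nat_lit 42332) (nat_lit 6) (nat_lit 557) (nat_lit 0) (nat_lit 279) (nat_lit 253) (nat_lit 248)))))) (PT.nd (nat_lit 78468) (PT.nd (nat_lit 312) (PT.nd (nat_lit 156) (PT.nd (nat_lit 78) (PT.lf (nat_lit 40812) (nat_lit 6) (nat_lit 537) (nat_lit 0) (nat_lit 280) (nat_lit 253) (nat_lit 247)) (PT.lf (nat_lit 39216) (nat_lit 6) (nat_lit 516) (nat_lit 0) (nat_lit 281) (nat_lit 253) (nat_lit 246))) (PT.nd (nat_lit 78) (PT.lf (nat_lit 37544) (nat_lit 6) (nat_lit 494) (nat_lit 0) (nat_lit 282) (nat_lit 253) (nat_lit 245)) (PT.lf (nat_lit 35796) (nat_lit 6) (nat_lit 471) (nat_lit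 0) (nat_lit 283) (nat_lit 253) (nat_lit 244)))) (PT.nd (nat_lit 78000) (PT.nd (nat_lit 77922) (PT.lf (nat_lit 33972) (nat_lit 6) (nat_lit 447) (nat_lit 0) (nat_lit 284) (nat_lit 253) (nat_lit 243)) (PT.lf (nat_lit 34048) (nat_lit 6) (nat_lit 448) (nat_lit 5) (nat_lit 242) (nat_lit 254) (nat_lit 284))) (PT.nd (nat_lit 78) (PT.lf (nat_lit 35872) (nat_lit 6) (nat_lit 472) (nat_lit 5) (nat_lit 243) (nat_lit 254) (nat_lit 283)) (PT.lf (nat_lit 37620) (nat_lit 6) (nat_lit 495) (nat_lit 5) (nat_lit 244) (nat_lit 254) (nat_lit 282))))) (PT.nd (nat_lit 312) (PT.nd (nat_lit 156) (PT.nd (nat_lit 78) (PT.lf (nat_lit 39292) (nat_lit 6) (nat_lit 517) (nat_lit 5) (nat_lit 245) (nat_lit 254) (nat_lit 281)) (PT.lf (nat_lit 40888) (nat_lit 6) (nat_lit 538) (nat_lit 5) (nat_lit 246) (nat_lit 254) (nat_lit 280))) (PT.nd (nat_lit 78) (PT.lf (nat_lit 42408) (nat_lit 6) (nat_lit 558) (nat_lit 5) (nat_lit 247) (nat_lit 254) (nat_lit 279)) (PT.lf (nat_lit 43852) (nat_lit 6) (nat_lit 577) (nat_lit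 5) (nat_lit 248) (nat_lit 254) (nat_lit 278)))) (PT.nd (nat_lit 156) (PT.nd (nat_lit 78) (PT.lf (nat_lit 45220) (nat_lit 6) (nat_lit 595) (nat_lit 5) (nat_lit 249) (nat_lit 254) (nat_lit 277)) (PT.lf (nat_lit 46512) (nat_lit 6) (nat_lit 612) (nat_lit 5) (nat_lit 250) (nat_lit 254) (nat_lit 276))) (PT.nd (nat_lit 78) (PT.lf (nat_lit 47728) (nat_lit 6) (nat_lit 628) (nat_lit 5) (nat_lit 251) (nat_lit 254) (nat_lit 275)) (PT.nd (nat_lit 78) (PT.lf (nat_lit 48868) (nat_lit 6) (nat_lit 643) (nat_lit 5) (nat_lit 252) (nat_lit 254) (nat_lit 274)) (PT.lf (nat_lit 49932) (nat_lit 6) (nat_lit 657) (nat_lit 5) (nat_lit 253) (nat_lit 254) (nat_lit 273))))))))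
noncomputable def pc43 : PT := (PT.nd (nat_lit 1326) (PT.nd (nat_lit 624) (PT.nd (nat_lit 312) (PT.nd (nat_lit 156) (PT.nd (nat_lit 78) (PT.lf (nat_lit 50920) (nat_lit 3) (nat_lit 670) (nat_lit 3) (nat_lit 254) (nat_lit 254) (nat_lit 272)) (PT.lf (nat_lit 51908) (nat_lit 6) (nat_lit 683) (nat_lit 3) (nat_lit 255) (nat_lit 254) (nat_lit 271))) (PT.nd (nat_lit 78) (PT.lf (nat_lit 52820) (nat_lit 6) (nat_lit 695) (nat_lit 3) (nat_lit 256) (nat_lit 254) (nat_lit 270)) (PT.lf (nat_lit 53656) (nat_lit 6) (nat_lit 706) (nat_lit 3) (nat_lit 257) (nat_lit 254) (nat_lit 269)))) (PT.nd (nat_lit 156) (PT.nd (nat_lit 78) (PT.lf (nat_lit 54416) (nat_lit 6) (nat_lit 716) (nat_lit 3) (nat_lit 258) (nat_lit 254) (nat_lit 268)) (PT.lf (nat_lit 55100) (nat_lit 6) (nat_lit 725) (nat_lit 3) (nat_lit 259) (nat_lit 254) (nat_lit 267))) (PT.nd (nat_lit 78) (PT.lf (nat_lit 55708) (nat_lit 6) (nat_lit 733) (nat_lit 3) (nat_lit 260) (nat_lit 254) (nat_lit 266)) (PT.lf (nat_lit 55784) (nat_lit 6)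 (nat_lit 734) (nat_lit 3) (nat_lit 261) (nat_lit 254) (nat_lit 265))))) (PT.nd (nat_lit 312) (PT.nd (nat_lit 156) (PT.nd (nat_lit 78) (PT.lf (nat_lit 55860) (nat_lit 6) (nat_lit 735) (nat_lit 3) (nat_lit 262) (nat_lit 254) (nat_lit 264)) (PT.lf (nat_lit 55936) (nat_lit 3) (nat_lit 736) (nat_lit 1) (nat_lit 263) (nat_lit 254) (nat_lit 263))) (PT.nd (nat_lit 78) (PT.lf (nat_lit 55860) (nat_lit 6) (nat_lit 735) (nat_lit 1) (nat_lit 264) (nat_lit 254) (nat_lit 262)) (PT.lf (nat_lit 55784) (nat_lit 6) (nat_lit 734) (nat_lit 1) (nat_lit 265) (nat_lit 254) (nat_lit 261)))) (PT.nd (nat_lit 156) (PT.nd (nat_lit 78) (PT.lf (nat_lit 55708) (nat_lit 6) (nat_lit 733) (nat_lit 1) (nat_lit 266) (nat_lit 254) (nat_lit 260)) (PT.lf (nat_lit 55100) (nat_lit 6) (nat_lit 725) (nat_lit 1) (nat_lit 267) (nat_lit 254) (nat_lit 259))) (PT.nd (nat_lit 78) (PT.lf (nat_lit 54416) (nat_lit 6) (nat_lit 716) (nat_lit 1) (nat_lit 268) (nat_lit 254) (nat_lit 258)) (PT.nd (nat_lit 78) (PT.lf (nat_lit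 53656) (nat_lit 6) (nat_lit 706) (nat_lit 1) (nat_lit 269) (nat_lit 254) (nat_lit 257)) (PT.lf (nat_lit 52820) (nat_lit 6) (nat_lit 695) (nat_lit 1) (nat_lit 270) (nat_lit 254) (nat_lit 256))))))) (PT.nd (nat_lit 624) (PT.nd (nat_lit 312) (PT.nd (nat_lit 156) (PT.nd (nat_lit 78) (PT.lf (nat_lit 51908) (nat_lit 6) (nat_lit 683) (nat_lit 1) (nat_lit 271) (nat_lit 254) (nat_lit 255)) (PT.lf (nat_lit 50920) (nat_lit 3) (nat_lit 670) (nat_lit 0) (nat_lit 272) (nat_lit 254) (nat_lit 254))) (PT.nd (nat_lit 78) (PT.lf (nat_lit 49932) (nat_lit 6) (nat_lit 657) (nat_lit 0) (nat_lit 273) (nat_lit 254) (nat_lit 253)) (PT.lf (nat_lit 48868) (nat_lit 6) (nat_lit 643) (nat_lit 0) (nat_lit 274) (nat_lit 254) (nat_lit 252)))) (PT.nd (nat_lit 156) (PT.nd (nat_lit 78) (PT.lf (nat_lit 47728) (nat_lit 6) (nat_lit 628) (nat_lit 0) (nat_lit 275) (nat_lit 254) (nat_lit 251)) (PT.lf (nat_lit 46512) (nat_lit 6) (nat_lit 612) (nat_lit 0) (nat_lit 276) (nat_lit 254) (nat_lit 250))) (PT.nd (nat_lit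 78) (PT.lf (nat_lit 45220) (nat_lit 6) (nat_lit 595) (nat_lit 0) (nat_lit 277) (nat_lit 254) (nat_lit 249)) (PT.lf (nat_lit 43852) (nat_lit 6) (nat_lit 577) (nat_lit 0) (nat_lit 278) (nat_lit 254) (nat_lit 248))))) (PT.nd (nat_lit 312) (PT.nd (nat_lit 156) (PT.nd (nat_lit 78) (PT.lf (nat_lit 42408) (nat_lit 6) (nat_lit 558) (nat_lit 0) (nat_lit 279) (nat_lit 254) (nat_lit 247)) (PT.lf (nat_lit 40888) (nat_lit 6) (nat_lit 538) (nat_lit 0) (nat_lit 280) (nat_lit 254) (nat_lit 246))) (PT.nd (nat_lit 78) (PT.lf (nat_lit 39292) (nat_lit 6) (nat_lit 517) (nat_lit 0) (nat_lit 281) (nat_lit 254) (nat_lit 245)) (PT.lf (nat_lit 37620) (nat_lit 6) (nat_lit 495) (nat_lit 0) (nat_lit 282) (nat_lit 254) (nat_lit 244)))) (PT.nd (nat_lit 77922) (PT.nd (nat_lit 78) (PT.lf (nat_lit 35872) (nat_lit 6) (nat_lit 472) (nat_lit 0) (nat_lit 283) (nat_lit 254) (nat_lit 243)) (PT.lf (nat_lit 34048) (nat_lit 6) (nat_lit 448) (nat_lit 0) (nat_lit 284) (nat_lit 254) (nat_lit 242))) (PT.nd (nat_lit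 78) (PT.lf (nat_lit 34124) (nat_lit 6) (nat_lit 449) (nat_lit 5) (nat_lit 241) (nat_lit 255) (nat_lit 284)) (PT.nd (nat_lit 78) (PT.lf (nat_lit 35948) (nat_lit 6) (nat_lit 473) (nat_lit 5) (nat_lit 242) (nat_lit 255) (nat_lit 283)) (PT.lf (nat_lit 37696) (nat_lit 6) (nat_lit 496) (nat_lit 5) (nat_lit 243) (nat_lit 255) (nat_lit 282))))))))
noncomputable def pc44 : PT := (PT.nd (nat_lit 1248) (PT.nd (nat_lit 624) (PT.nd (nat_lit 312) (PT.nd (nat_lit 156) (PT.nd (nat_lit 78) (PT.lf (nat_lit 39368) (nat_lit 6) (nat_lit 518) (nat_lit 5) (nat_lit 244) (nat_lit 255) (nat_lit 281)) (PT.lf (nat_lit 40964) (nat_lit 6) (nat_lit 539) (nat_lit 5) (nat_lit 245) (nat_lit 255) (nat_lit 280))) (PT.nd (nat_lit 78) (PT.lf (nat_lit 42484) (nat_lit 6) (nat_lit 559) (nat_lit 5) (nat_lit 246) (nat_lit 255) (nat_lit 279)) (PT.lf (nat_lit 43928) (nat_lit 6) (nat_lit 578) (nat_lit 5) (nat_lit 247) (nat_lit 255) (nat_lit 278)))) (PT.nd (nat_lit 156) (PT.nd (nat_lit 78) (PT.lf (nat_lit 45296) (nat_lit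 6) (nat_lit 596) (nat_lit 5) (nat_lit 248) (nat_lit 255) (nat_lit 277)) (PT.lf (nat_lit 46588) (nat_lit 6) (nat_lit 613) (nat_lit 5) (nat_lit 249) (nat_lit 255) (nat_lit 276))) (PT.nd (nat_lit 78) (PT.lf (nat_lit 47804) (nat_lit 6) (nat_lit 629) (nat_lit 5) (nat_lit 250) (nat_lit 255) (nat_lit 275)) (PT.lf (nat_lit 48944) (nat_lit 6) (nat_lit 644) (nat_lit 5) (nat_lit 251) (nat_lit 255) (nat_lit 274))))) (PT.nd (nat_lit 312) (PT.nd (nat_lit 156) (PT.nd (nat_lit 78) (PT.lf (nat_lit 50008) (nat_lit 6) (nat_lit 658) (nat_lit 5) (nat_lit 252) (nat_lit 255) (nat_lit 273)) (PT.lf (nat_lit 50996) (nat_lit 6) (nat_lit 671) (nat_lit 5) (nat_lit 253) (nat_lit 255) (nat_lit 272))) (PT.nd (nat_lit 78) (PT.lf (nat_lit 51908) (nat_lit 6) (nat_lit 683) (nat_lit 5) (nat_lit 254) (nat_lit 255) (nat_lit 271)) (PT.lf (nat_lit 52744) (nat_lit 3) (nat_lit 694) (nat_lit 3) (nat_lit 255) (nat_lit 255) (nat_lit 270)))) (PT.nd (nat_lit 156) (PT.nd (nat_lit 78) (PT.lf (nat_lit 53580) (nat_lit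 6) (nat_lit 705) (nat_lit 3) (nat_lit 256) (nat_lit 255) (nat_lit 269)) (PT.lf (nat_lit 54340) (nat_lit 6) (nat_lit 715) (nat_lit 3) (nat_lit 257) (nat_lit 255) (nat_lit 268))) (PT.nd (nat_lit 78) (PT.lf (nat_lit 55024) (nat_lit 6) (nat_lit 724) (nat_lit 3) (nat_lit 258) (nat_lit 255) (nat_lit 267)) (PT.lf (nat_lit 55632) (nat_lit 6) (nat_lit 732) (nat_lit 3) (nat_lit 259) (nat_lit 255) (nat_lit 266)))))) (PT.nd (nat_lit 624) (PT.nd (nat_lit 312) (PT.nd (nat_lit 156) (PT.nd (nat_lit 78) (PT.lf (nat_lit 56164) (nat_lit 6) (nat_lit 739) (nat_lit 3) (nat_lit 260) (nat_lit 255) (nat_lit 265)) (PT.lf (nat_lit 56240) (nat_lit 6) (nat_lit 740) (nat_lit 3) (nat_lit 261) (nat_lit 255) (nat_lit 264))) (PT.nd (nat_lit 78) (PT.lf (nat_lit 56316) (nat_lit 6) (nat_lit 741) (nat_lit 3) (nat_lit 262) (nat_lit 255) (nat_lit 263)) (PT.lf (nat_lit 56316) (nat_lit 6) (nat_lit 741) (nat_lit 1) (nat_lit 263) (nat_lit 255) (nat_lit 262)))) (PT.nd (nat_lit 156) (PT.nd (nat_lit 78) (PT.lf (nat_lit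 56240) (nat_lit 6) (nat_lit 740) (nat_lit 1) (nat_lit 264) (nat_lit 255) (nat_lit 261)) (PT.lf (nat_lit 56164) (nat_lit 6) (nat_lit 739) (nat_lit 1) (nat_lit 265) (nat_lit 255) (nat_lit 260))) (PT.nd (nat_lit 78) (PT.lf (nat_lit 55632) (nat_lit 6) (nat_lit 732) (nat_lit 1) (nat_lit 266) (nat_lit 255) (nat_lit 259)) (PT.lf (nat_lit 55024) (nat_lit 6) (nat_lit 724) (nat_lit 1) (nat_lit 267) (nat_lit 255) (nat_lit 258))))) (PT.nd (nat_lit 312) (PT.nd (nat_lit 156) (PT.nd (nat_lit 78) (PT.lf (nat_lit 54340) (nat_lit 6) (nat_lit 715) (nat_lit 1) (nat_lit 268) (nat_lit 255) (nat_lit 257)) (PT.lf (nat_lit 53580) (nat_lit 6) (nat_lit 705) (nat_lit 1) (nat_lit 269) (nat_lit 255) (nat_lit 256))) (PT.nd (nat_lit 78) (PT.lf (nat_lit 52744) (nat_lit 3) (nat_lit 694) (nat_lit 0) (nat_lit 270) (nat_lit 255) (nat_lit 255)) (PT.lf (nat_lit 51908) (nat_lit 6) (nat_lit 683) (nat_lit 0) (nat_lit 271) (nat_lit 255) (nat_lit 254)))) (PT.nd (nat_lit 156) (PT.nd (nat_lit 78) (PT.lf (nat_lit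 50996) (nat_lit 6) (nat_lit 671) (nat_lit 0) (nat_lit 272) (nat_lit 255) (nat_lit 253)) (PT.lf (nat_lit 50008) (nat_lit 6) (nat_lit 658) (nat_lit 0) (nat_lit 273) (nat_lit 255) (nat_lit 252))) (PT.nd (nat_lit 78) (PT.lf (nat_lit 48944) (nat_lit 6) (nat_lit 644) (nat_lit 0) (nat_lit 274) (nat_lit 255) (nat_lit 251)) (PT.nd (nat_lit 78) (PT.lf (nat_lit 47804) (nat_lit 6) (nat_lit 629) (nat_lit 0) (nat_lit 275) (nat_lit 255) (nat_lit 250)) (PT.lf (nat_lit 46588) (nat_lit 6) (nat_lit 613) (nat_lit 0) (nat_lit 276) (nat_lit 255) (nat_lit 249))))))))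
noncomputable def pc45 : PT := (PT.nd (nat_lit 78936) (PT.nd (nat_lit 78312) (PT.nd (nat_lit 312) (PT.nd (nat_lit 156) (PT.nd (nat_lit 78) (PT.lf (nat_lit 45296) (nat_lit 6) (nat_lit 596) (nat_lit 0) (nat_lit 277) (nat_lit 255) (nat_lit 248)) (PT.lf (nat_lit 43928) (nat_lit 6) (nat_lit 578) (nat_lit 0) (nat_lit 278) (nat_lit 255) (nat_lit 247))) (PT.nd (nat_lit 78) (PT.lf (nat_lit 42484) (nat_lit 6) (nat_lit 559) (nat_lit 0) (nat_lit 279) (nat_lit 255) (nat_lit 246)) (PT.lf (nat_lit 40964) (nat_lit 6) (nat_lit 539) (nat_lit 0) (nat_lit 280) (nat_lit 255) (nat_lit 245)))) (PT.nd (nat_lit 156) (PT.nd (nat_lit 78) (PT.lf (nat_lit 39368) (nat_lit 6) (nat_lit 518) (nat_lit 0) (nat_lit 281) (nat_lit 255) (nat_lit 244)) (PT.lf (nat_lit 37696) (nat_lit 6) (nat_lit 496) (nat_lit 0) (nat_lit 282) (nat_lit 255) (nat_lit 243))) (PT.nd (nat_lit 78) (PT.lf (nat_lit 35948) (nat_lit 6) (nat_lit 473) (nat_lit 0) (nat_lit 283) (nat_lit 255) (nat_lit 242)) (PT.lf (nat_lit 34124) (nat_lit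 6) (nat_lit 449) (nat_lit 0) (nat_lit 284) (nat_lit 255) (nat_lit 241))))) (PT.nd (nat_lit 312) (PT.nd (nat_lit 156) (PT.nd (nat_lit 78) (PT.lf (nat_lit 34200) (nat_lit 6) (nat_lit 450) (nat_lit 5) (nat_lit 240) (nat_lit 256) (nat_lit 284)) (PT.lf (nat_lit 36024) (nat_lit 6) (nat_lit 474) (nat_lit 5) (nat_lit 241) (nat_lit 256) (nat_lit 283))) (PT.nd (nat_lit 78) (PT.lf (nat_lit 37772) (nat_lit 6) (nat_lit 497) (nat_lit 5) (nat_lit 242) (nat_lit 256) (nat_lit 282)) (PT.lf (nat_lit 39444) (nat_lit 6) (nat_lit 519) (nat_lit 5) (nat_lit 243) (nat_lit 256) (nat_lit 281)))) (PT.nd (nat_lit 156) (PT.nd (nat_lit 78) (PT.lf (nat_lit 41040) (nat_lit 6) (nat_lit 540) (nat_lit 5) (nat_lit 244) (nat_lit 256) (nat_lit 280)) (PT.lf (nat_lit 42560) (nat_lit 6) (nat_lit 560) (nat_lit 5) (nat_lit 245) (nat_lit 256) (nat_lit 279))) (PT.nd (nat_lit 78) (PT.lf (nat_lit 44004) (nat_lit 6) (nat_lit 579) (nat_lit 5) (nat_lit 246) (nat_lit 256) (nat_lit 278)) (PT.lf (nat_lit 45372) (nat_lit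 6) (nat_lit 597) (nat_lit 5) (nat_lit 247) (nat_lit 256) (nat_lit 277)))))) (PT.nd (nat_lit 624) (PT.nd (nat_lit 312) (PT.nd (nat_lit 156) (PT.nd (nat_lit 78) (PT.lf (nat_lit 46664) (nat_lit 6) (nat_lit 614) (nat_lit 5) (nat_lit 248) (nat_lit 256) (nat_lit 276)) (PT.lf (nat_lit 47880) (nat_lit 6) (nat_lit 630) (nat_lit 5) (nat_lit 249) (nat_lit 256) (nat_lit 275))) (PT.nd (nat_lit 78) (PT.lf (nat_lit 49020) (nat_lit 6) (nat_lit 645) (nat_lit 5) (nat_lit 250) (nat_lit 256) (nat_lit 274)) (PT.lf (nat_lit 50084) (nat_lit 6) (nat_lit 659) (nat_lit 5) (nat_lit 251) (nat_lit 256) (nat_lit 273)))) (PT.nd (nat_lit 156) (PT.nd (nat_lit 78) (PT.lf (nat_lit 51072) (nat_lit 6) (nat_lit 672) (nat_lit 5) (nat_lit 252) (nat_lit 256) (nat_lit 272)) (PT.lf (nat_lit 51984) (nat_lit 6) (nat_lit 684) (nat_lit 5) (nat_lit 253) (nat_lit 256) (nat_lit 271))) (PT.nd (nat_lit 78) (PT.lf (nat_lit 52820) (nat_lit 6) (nat_lit 695) (nat_lit 5) (nat_lit 254) (nat_lit 256) (nat_lit 270)) (PT.lf (nat_lit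 53580) (nat_lit 6) (nat_lit 705) (nat_lit 5) (nat_lit 255) (nat_lit 256) (nat_lit 269))))) (PT.nd (nat_lit 312) (PT.nd (nat_lit 156) (PT.nd (nat_lit 78) (PT.lf (nat_lit 54264) (nat_lit 3) (nat_lit 714) (nat_lit 3) (nat_lit 256) (nat_lit 256) (nat_lit 268)) (PT.lf (nat_lit 54948) (nat_lit 6) (nat_lit 723) (nat_lit 3) (nat_lit 257) (nat_lit 256) (nat_lit 267))) (PT.nd (nat_lit 78) (PT.lf (nat_lit 55556) (nat_lit 6) (nat_lit 731) (nat_lit 3) (nat_lit 258) (nat_lit 256) (nat_lit 266)) (PT.lf (nat_lit 56088) (nat_lit 6) (nat_lit 738) (nat_lit 3) (nat_lit 259) (nat_lit 256) (nat_lit 265)))) (PT.nd (nat_lit 156) (PT.nd (nat_lit 78) (PT.lf (nat_lit 56544) (nat_lit 6) (nat_lit 744) (nat_lit 3) (nat_lit 260) (nat_lit 256) (nat_lit 264)) (PT.lf (nat_lit 56620) (nat_lit 6) (nat_lit 745) (nat_lit 3) (nat_lit 261) (nat_lit 256) (nat_lit 263))) (PT.nd (nat_lit 78) (PT.lf (nat_lit 56696) (nat_lit 3) (nat_lit 746) (nat_lit 1) (nat_lit 262) (nat_lit 256) (nat_lit 262)) (PT.nd (nat_lit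 78) (PT.lf (nat_lit 56620) (nat_lit 6) (nat_lit 745) (nat_lit 1) (nat_lit 263) (nat_lit 256) (nat_lit 261)) (PT.lf (nat_lit 56544) (nat_lit 6) (nat_lit 744) (nat_lit 1) (nat_lit 264) (nat_lit 256) (nat_lit 260))))))))
noncomputable def pc46 : PT := (PT.nd (nat_lit 1248) (PT.nd (nat_lit 624) (PT.nd (nat_lit 312) (PT.nd (nat_lit 156) (PT.nd (nat_lit 78) (PT.lf (nat_lit 56088) (nat_lit 6) (nat_lit 738) (nat_lit 1) (nat_lit 265) (nat_lit 256) (nat_lit 259)) (PT.lf (nat_lit 55556) (nat_lit 6) (nat_lit 731) (nat_lit 1) (nat_lit 266) (nat_lit 256) (nat_lit 258))) (PT.nd (nat_lit 78) (PT.lf (nat_lit 54948) (nat_lit 6) (nat_lit 723) (nat_lit 1) (nat_lit 267) (nat_lit 256) (nat_lit 257)) (PT.lf (nat_lit 54264) (nat_lit 3) (nat_lit 714) (nat_lit 0) (nat_lit 268) (nat_lit 256) (nat_lit 256)))) (PT.nd (nat_lit 156) (PT.nd (nat_lit 78) (PT.lf (nat_lit 53580) (nat_lit 6) (nat_lit 705) (nat_lit 0) (nat_lit 269) (nat_lit 256) (nat_lit 255)) (PT.lf (nat_lit 52820) (nat_lit 6) (nat_lit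 695) (nat_lit 0) (nat_lit 270) (nat_lit 256) (nat_lit 254))) (PT.nd (nat_lit 78) (PT.lf (nat_lit 51984) (nat_lit 6) (nat_lit 684) (nat_lit 0) (nat_lit 271) (nat_lit 256) (nat_lit 253)) (PT.lf (nat_lit 51072) (nat_lit 6) (nat_lit 672) (nat_lit 0) (nat_lit 272) (nat_lit 256) (nat_lit 252))))) (PT.nd (nat_lit 312) (PT.nd (nat_lit 156) (PT.nd (nat_lit 78) (PT.lf (nat_lit 50084) (nat_lit 6) (nat_lit 659) (nat_lit 0) (nat_lit 273) (nat_lit 256) (nat_lit 251)) (PT.lf (nat_lit 49020) (nat_lit 6) (nat_lit 645) (nat_lit 0) (nat_lit 274) (nat_lit 256) (nat_lit 250))) (PT.nd (nat_lit 78) (PT.lf (nat_lit 47880) (nat_lit 6) (nat_lit 630) (nat_lit 0) (nat_lit 275) (nat_lit 256) (nat_lit 249)) (PT.lf (nat_lit 46664) (nat_lit 6) (nat_lit 614) (nat_lit 0) (nat_lit 276) (nat_lit 256) (nat_lit 248)))) (PT.nd (nat_lit 156) (PT.nd (nat_lit 78) (PT.lf (nat_lit 45372) (nat_lit 6) (nat_lit 597) (nat_lit 0) (nat_lit 277) (nat_lit 256) (nat_lit 247)) (PT.lf (nat_lit 44004) (nat_lit 6) (nat_lit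 579) (nat_lit 0) (nat_lit 278) (nat_lit 256) (nat_lit 246))) (PT.nd (nat_lit 78) (PT.lf (nat_lit 42560) (nat_lit 6) (nat_lit 560) (nat_lit 0) (nat_lit 279) (nat_lit 256) (nat_lit 245)) (PT.lf (nat_lit 41040) (nat_lit 6) (nat_lit 540) (nat_lit 0) (nat_lit 280) (nat_lit 256) (nat_lit 244)))))) (PT.nd (nat_lit 78234) (PT.nd (nat_lit 77922) (PT.nd (nat_lit 156) (PT.nd (nat_lit 78) (PT.lf (nat_lit 39444) (nat_lit 6) (nat_lit 519) (nat_lit 0) (nat_lit 281) (nat_lit 256) (nat_lit 243)) (PT.lf (nat_lit 37772) (nat_lit 6) (nat_lit 497) (nat_lit 0) (nat_lit 282) (nat_lit 256) (nat_lit 242))) (PT.nd (nat_lit 78) (PT.lf (nat_lit 36024) (nat_lit 6) (nat_lit 474) (nat_lit 0) (nat_lit 283) (nat_lit 256) (nat_lit 241)) (PT.lf (nat_lit 34200) (nat_lit 6) (nat_lit 450) (nat_lit 0) (nat_lit 284) (nat_lit 256) (nat_lit 240)))) (PT.nd (nat_lit 156) (PT.nd (nat_lit 78) (PT.lf (nat_lit 34276) (nat_lit 6) (nat_lit 451) (nat_lit 5) (nat_lit 239) (nat_lit 257) (nat_lit 284)) (PT.lf (nat_lit 36100)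 (nat_lit 6) (nat_lit 475) (nat_lit 5) (nat_lit 240) (nat_lit 257) (nat_lit 283))) (PT.nd (nat_lit 78) (PT.lf (nat_lit 37848) (nat_lit 6) (nat_lit 498) (nat_lit 5) (nat_lit 241) (nat_lit 257) (nat_lit 282)) (PT.lf (nat_lit 39520) (nat_lit 6) (nat_lit 520) (nat_lit 5) (nat_lit 242) (nat_lit 257) (nat_lit 281))))) (PT.nd (nat_lit 312) (PT.nd (nat_lit 156) (PT.nd (nat_lit 78) (PT.lf (nat_lit 41116) (nat_lit 6) (nat_lit 541) (nat_lit 5) (nat_lit 243) (nat_lit 257) (nat_lit 280)) (PT.lf (nat_lit 42636) (nat_lit 6) (nat_lit 561) (nat_lit 5) (nat_lit 244) (nat_lit 257) (nat_lit 279))) (PT.nd (nat_lit 78) (PT.lf (nat_lit 44080) (nat_lit 6) (nat_lit 580) (nat_lit 5) (nat_lit 245) (nat_lit 257) (nat_lit 278)) (PT.lf (nat_lit 45448) (nat_lit 6) (nat_lit 598) (nat_lit 5) (nat_lit 246) (nat_lit 257) (nat_lit 277)))) (PT.nd (nat_lit 156) (PT.nd (nat_lit 78) (PT.lf (nat_lit 46740) (nat_lit 6) (nat_lit 615) (nat_lit 5) (nat_lit 247) (nat_lit 257) (nat_lit 276)) (PT.lf (nat_lit 47956)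 (nat_lit 6) (nat_lit 631) (nat_lit 5) (nat_lit 248) (nat_lit 257) (nat_lit 275))) (PT.nd (nat_lit 78) (PT.lf (nat_lit 49096) (nat_lit 6) (nat_lit 646) (nat_lit 5) (nat_lit 249) (nat_lit 257) (nat_lit 274)) (PT.nd (nat_lit 78) (PT.lf (nat_lit 50160) (nat_lit 6) (nat_lit 660) (nat_lit 5) (nat_lit 250) (nat_lit 257) (nat_lit 273)) (PT.lf (nat_lit 51148) (nat_lit 6) (nat_lit 673) (nat_lit 5) (nat_lit 251) (nat_lit 257) (nat_lit 272))))))))
noncomputable def pc47 : PT := (PT.nd (nat_lit 1326) (PT.nd (nat_lit 624) (PT.nd (nat_lit 312) (PT.nd (nat_lit 156) (PT.nd (nat_lit 78) (PT.lf (nat_lit 52060) (nat_lit 6) (nat_lit 685) (nat_lit 5) (nat_lit 252) (nat_lit 257) (nat_lit 271)) (PT.lf (nat_lit 52896) (nat_lit 6) (nat_lit 696) (nat_lit 5) (nat_lit 253) (nat_lit 257) (nat_lit 270))) (PT.nd (nat_lit 78) (PT.lf (nat_lit 53656) (nat_lit 6) (nat_lit 706) (nat_lit 5) (nat_lit 254) (nat_lit 257) (nat_lit 269)) (PT.lf (nat_lit 54340) (nat_lit 6) (nat_lit 715) (nat_lit 5) (nat_lit 255)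 (nat_lit 257) (nat_lit 268)))) (PT.nd (nat_lit 156) (PT.nd (nat_lit 78) (PT.lf (nat_lit 54948) (nat_lit 6) (nat_lit 723) (nat_lit 5) (nat_lit 256) (nat_lit 257) (nat_lit 267)) (PT.lf (nat_lit 55480) (nat_lit 3) (nat_lit 730) (nat_lit 3) (nat_lit 257) (nat_lit 257) (nat_lit 266))) (PT.nd (nat_lit 78) (PT.lf (nat_lit 56012) (nat_lit 6) (nat_lit 737) (nat_lit 3) (nat_lit 258) (nat_lit 257) (nat_lit 265)) (PT.lf (nat_lit 56468) (nat_lit 6) (nat_lit 743) (nat_lit 3) (nat_lit 259) (nat_lit 257) (nat_lit 264))))) (PT.nd (nat_lit 312) (PT.nd (nat_lit 156) (PT.nd (nat_lit 78) (PT.lf (nat_lit 56848) (nat_lit 6) (nat_lit 748) (nat_lit 3) (nat_lit 260) (nat_lit 257) (nat_lit 263)) (PT.lf (nat_lit 56924) (nat_lit 6) (nat_lit 749) (nat_lit 3) (nat_lit 261) (nat_lit 257) (nat_lit 262))) (PT.nd (nat_lit 78) (PT.lf (nat_lit 56924) (nat_lit 6) (nat_lit 749) (nat_lit 1) (nat_lit 262) (nat_lit 257) (nat_lit 261)) (PT.lf (nat_lit 56848) (nat_lit 6) (nat_lit 748) (nat_lit 1) (nat_lit 263)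 (nat_lit 257) (nat_lit 260)))) (PT.nd (nat_lit 156) (PT.nd (nat_lit 78) (PT.lf (nat_lit 56468) (nat_lit 6) (nat_lit 743) (nat_lit 1) (nat_lit 264) (nat_lit 257) (nat_lit 259)) (PT.lf (nat_lit 56012) (nat_lit 6) (nat_lit 737) (nat_lit 1) (nat_lit 265) (nat_lit 257) (nat_lit 258))) (PT.nd (nat_lit 78) (PT.lf (nat_lit 55480) (nat_lit 3) (nat_lit 730) (nat_lit 0) (nat_lit 266) (nat_lit 257) (nat_lit 257)) (PT.nd (nat_lit 78) (PT.lf (nat_lit 54948) (nat_lit 6) (nat_lit 723) (nat_lit 0) (nat_lit 267) (nat_lit 257) (nat_lit 256)) (PT.lf (nat_lit 54340) (nat_lit 6) (nat_lit 715) (nat_lit 0) (nat_lit 268) (nat_lit 257) (nat_lit 255))))))) (PT.nd (nat_lit 624) (PT.nd (nat_lit 312) (PT.nd (nat_lit 156) (PT.nd (nat_lit 78) (PT.lf (nat_lit 53656) (nat_lit 6) (nat_lit 706) (nat_lit 0) (nat_lit 269) (nat_lit 257) (nat_lit 254)) (PT.lf (nat_lit 52896) (nat_lit 6) (nat_lit 696) (nat_lit 0) (nat_lit 270) (nat_lit 257) (nat_lit 253))) (PT.nd (nat_lit 78) (PT.lf (nat_lit 52060) (nat_lit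 6) (nat_lit 685) (nat_lit 0) (nat_lit 271) (nat_lit 257) (nat_lit 252)) (PT.lf (nat_lit 51148) (nat_lit 6) (nat_lit 673) (nat_lit 0) (nat_lit 272) (nat_lit 257) (nat_lit 251)))) (PT.nd (nat_lit 156) (PT.nd (nat_lit 78) (PT.lf (nat_lit 50160) (nat_lit 6) (nat_lit 660) (nat_lit 0) (nat_lit 273) (nat_lit 257) (nat_lit 250)) (PT.lf (nat_lit 49096) (nat_lit 6) (nat_lit 646) (nat_lit 0) (nat_lit 274) (nat_lit 257) (nat_lit 249))) (PT.nd (nat_lit 78) (PT.lf (nat_lit 47956) (nat_lit 6) (nat_lit 631) (nat_lit 0) (nat_lit 275) (nat_lit 257) (nat_lit 248)) (PT.lf (nat_lit 46740) (nat_lit 6) (nat_lit 615) (nat_lit 0) (nat_lit 276) (nat_lit 257) (nat_lit 247))))) (PT.nd (nat_lit 312) (PT.nd (nat_lit 156) (PT.nd (nat_lit 78) (PT.lf (nat_lit 45448) (nat_lit 6) (nat_lit 598) (nat_lit 0) (nat_lit 277) (nat_lit 257) (nat_lit 246)) (PT.lf (nat_lit 44080) (nat_lit 6) (nat_lit 580) (nat_lit 0) (nat_lit 278) (nat_lit 257) (nat_lit 245))) (PT.nd (nat_lit 78) (PT.lf (nat_lit 42636) (nat_lit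 6) (nat_lit 561) (nat_lit 0) (nat_lit 279) (nat_lit 257) (nat_lit 244)) (PT.lf (nat_lit 41116) (nat_lit 6) (nat_lit 541) (nat_lit 0) (nat_lit 280) (nat_lit 257) (nat_lit 243)))) (PT.nd (nat_lit 156) (PT.nd (nat_lit 78) (PT.lf (nat_lit 39520) (nat_lit 6) (nat_lit 520) (nat_lit 0) (nat_lit 281) (nat_lit 257) (nat_lit 242)) (PT.lf (nat_lit 37848) (nat_lit 6) (nat_lit 498) (nat_lit 0) (nat_lit 282) (nat_lit 257) (nat_lit 241))) (PT.nd (nat_lit 78) (PT.lf (nat_lit 36100) (nat_lit 6) (nat_lit 475) (nat_lit 0) (nat_lit 283) (nat_lit 257) (nat_lit 240)) (PT.nd (nat_lit 77610) (PT.lf (nat_lit 34276) (nat_lit 6) (nat_lit 451) (nat_lit 0) (nat_lit 284) (nat_lit 257) (nat_lit 239)) (PT.lf (nat_lit 34352) (nat_lit 6) (nat_lit 452) (nat_lit 5) (nat_lit 238) (nat_lit 258) (nat_lit 284))))))))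
noncomputable def pc48 : PT := (PT.nd (nat_lit 1248) (PT.nd (nat_lit 624) (PT.nd (nat_lit 312) (PT.nd (nat_lit 156) (PT.nd (nat_lit 78) (PT.lf (nat_lit 36176) (nat_lit 6) (nat_lit 476) (nat_lit 5) (nat_lit 239) (nat_lit 258) (nat_lit 283)) (PT.lf (nat_lit 37924) (nat_lit 6) (nat_lit 499) (nat_lit 5) (nat_lit 240) (nat_lit 258) (nat_lit 282))) (PT.nd (nat_lit 78) (PT.lf (nat_lit 39596) (nat_lit 6) (nat_lit 521) (nat_lit 5) (nat_lit 241) (nat_lit 258) (nat_lit 281)) (PT.lf (nat_lit 41192) (nat_lit 6) (nat_lit 542) (nat_lit 5) (nat_lit 242) (nat_lit 258) (nat_lit 280)))) (PT.nd (nat_lit 156) (PT.nd (nat_lit 78) (PT.lf (nat_lit 42712) (nat_lit 6) (nat_lit 562) (nat_lit 5) (nat_lit 243) (nat_lit 258) (nat_lit 279)) (PT.lf (nat_lit 44156) (nat_lit 6) (nat_lit 581) (nat_lit 5) (nat_lit 244) (nat_lit 258) (nat_lit 278))) (PT.nd (nat_lit 78) (PT.lf (nat_lit 45524) (nat_lit 6) (nat_lit 599) (nat_lit 5) (nat_lit 245) (nat_lit 258) (nat_lit 277)) (PT.lf (nat_lit 46816) (nat_lit 6)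 (nat_lit 616) (nat_lit 5) (nat_lit 246) (nat_lit 258) (nat_lit 276))))) (PT.nd (nat_lit 312) (PT.nd (nat_lit 156) (PT.nd (nat_lit 78) (PT.lf (nat_lit 48032) (nat_lit 6) (nat_lit 632) (nat_lit 5) (nat_lit 247) (nat_lit 258) (nat_lit 275)) (PT.lf (nat_lit 49172) (nat_lit 6) (nat_lit 647) (nat_lit 5) (nat_lit 248) (nat_lit 258) (nat_lit 274))) (PT.nd (nat_lit 78) (PT.lf (nat_lit 50236) (nat_lit 6) (nat_lit 661) (nat_lit 5) (nat_lit 249) (nat_lit 258) (nat_lit 273)) (PT.lf (nat_lit 51224) (nat_lit 6) (nat_lit 674) (nat_lit 5) (nat_lit 250) (nat_lit 258) (nat_lit 272)))) (PT.nd (nat_lit 156) (PT.nd (nat_lit 78) (PT.lf (nat_lit 52136) (nat_lit 6) (nat_lit 686) (nat_lit 5) (nat_lit 251) (nat_lit 258) (nat_lit 271)) (PT.lf (nat_lit 52972) (nat_lit 6) (nat_lit 697) (nat_lit 5) (nat_lit 252) (nat_lit 258) (nat_lit 270))) (PT.nd (nat_lit 78) (PT.lf (nat_lit 53732) (nat_lit 6) (nat_lit 707) (nat_lit 5) (nat_lit 253) (nat_lit 258) (nat_lit 269)) (PT.lf (nat_lit 54416) (nat_lit 6)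 (nat_lit 716) (nat_lit 5) (nat_lit 254) (nat_lit 258) (nat_lit 268)))))) (PT.nd (nat_lit 624) (PT.nd (nat_lit 312) (PT.nd (nat_lit 156) (PT.nd (nat_lit 78) (PT.lf (nat_lit 55024) (nat_lit 6) (nat_lit 724) (nat_lit 5) (nat_lit 255) (nat_lit 258) (nat_lit 267)) (PT.lf (nat_lit 55556) (nat_lit 6) (nat_lit 731) (nat_lit 5) (nat_lit 256) (nat_lit 258) (nat_lit 266))) (PT.nd (nat_lit 78) (PT.lf (nat_lit 56012) (nat_lit 6) (nat_lit 737) (nat_lit 5) (nat_lit 257) (nat_lit 258) (nat_lit 265)) (PT.lf (nat_lit 56392) (nat_lit 3) (nat_lit 742) (nat_lit 3) (nat_lit 258) (nat_lit 258) (nat_lit 264)))) (PT.nd (nat_lit 156) (PT.nd (nat_lit 78) (PT.lf (nat_lit 56772) (nat_lit 6) (nat_lit 747) (nat_lit 3) (nat_lit 259) (nat_lit 258) (nat_lit 263)) (PT.lf (nat_lit 57076) (nat_lit 6) (nat_lit 751) (nat_lit 3) (nat_lit 260) (nat_lit 258) (nat_lit 262))) (PT.nd (nat_lit 78) (PT.lf (nat_lit 57152) (nat_lit 3) (nat_lit 752) (nat_lit 1) (nat_lit 261) (nat_lit 258) (nat_lit 261)) (PT.lf (nat_lit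 57076) (nat_lit 6) (nat_lit 751) (nat_lit 1) (nat_lit 262) (nat_lit 258) (nat_lit 260))))) (PT.nd (nat_lit 312) (PT.nd (nat_lit 156) (PT.nd (nat_lit 78) (PT.lf (nat_lit 56772) (nat_lit 6) (nat_lit 747) (nat_lit 1) (nat_lit 263) (nat_lit 258) (nat_lit 259)) (PT.lf (nat_lit 56392) (nat_lit 3) (nat_lit 742) (nat_lit 0) (nat_lit 264) (nat_lit 258) (nat_lit 258))) (PT.nd (nat_lit 78) (PT.lf (nat_lit 56012) (nat_lit 6) (nat_lit 737) (nat_lit 0) (nat_lit 265) (nat_lit 258) (nat_lit 257)) (PT.lf (nat_lit 55556) (nat_lit 6) (nat_lit 731) (nat_lit 0) (nat_lit 266) (nat_lit 258) (nat_lit 256)))) (PT.nd (nat_lit 156) (PT.nd (nat_lit 78) (PT.lf (nat_lit 55024) (nat_lit 6) (nat_lit 724) (nat_lit 0) (nat_lit 267) (nat_lit 258) (nat_lit 255)) (PT.lf (nat_lit 54416) (nat_lit 6) (nat_lit 716) (nat_lit 0) (nat_lit 268) (nat_lit 258) (nat_lit 254))) (PT.nd (nat_lit 78) (PT.lf (nat_lit 53732) (nat_lit 6) (nat_lit 707) (nat_lit 0) (nat_lit 269) (nat_lit 258) (nat_lit 253)) (PT.nd (nat_lit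 78) (PT.lf (nat_lit 52972) (nat_lit 6) (nat_lit 697) (nat_lit 0) (nat_lit 270) (nat_lit 258) (nat_lit 252)) (PT.lf (nat_lit 52136) (nat_lit 6) (nat_lit 686) (nat_lit 0) (nat_lit 271) (nat_lit 258) (nat_lit 251))))))))
noncomputable def pc49 : PT := (PT.nd (nat_lit 78702) (PT.nd (nat_lit 624) (PT.nd (nat_lit 312) (PT.nd (nat_lit 156) (PT.nd (nat_lit 78) (PT.lf (nat_lit 51224) (nat_lit 6) (nat_lit 674) (nat_lit 0) (nat_lit 272) (nat_lit 258) (nat_lit 250)) (PT.lf (nat_lit 50236) (nat_lit 6) (nat_lit 661) (nat_lit 0) (nat_lit 273) (nat_lit 258) (nat_lit 249))) (PT.nd (nat_lit 78) (PT.lf (nat_lit 49172) (nat_lit 6) (nat_lit 647) (nat_lit 0) (nat_lit 274) (nat_lit 258) (nat_lit 248)) (PT.lf (nat_lit 48032) (nat_lit 6) (nat_lit 632) (nat_lit 0) (nat_lit 275) (nat_lit 258) (nat_lit 247)))) (PT.nd (nat_lit 156) (PT.nd (nat_lit 78) (PT.lf (nat_lit 46816) (nat_lit 6) (nat_lit 616) (nat_lit 0) (nat_lit 276) (nat_lit 258) (nat_lit 246)) (PT.lf (nat_lit 45524) (nat_lit 6) (nat_lit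 599) (nat_lit 0) (nat_lit 277) (nat_lit 258) (nat_lit 245))) (PT.nd (nat_lit 78) (PT.lf (nat_lit 44156) (nat_lit 6) (nat_lit 581) (nat_lit 0) (nat_lit 278) (nat_lit 258) (nat_lit 244)) (PT.lf (nat_lit 42712) (nat_lit 6) (nat_lit 562) (nat_lit 0) (nat_lit 279) (nat_lit 258) (nat_lit 243))))) (PT.nd (nat_lit 312) (PT.nd (nat_lit 156) (PT.nd (nat_lit 78) (PT.lf (nat_lit 41192) (nat_lit 6) (nat_lit 542) (nat_lit 0) (nat_lit 280) (nat_lit 258) (nat_lit 242)) (PT.lf (nat_lit 39596) (nat_lit 6) (nat_lit 521) (nat_lit 0) (nat_lit 281) (nat_lit 258) (nat_lit 241))) (PT.nd (nat_lit 78) (PT.lf (nat_lit 37924) (nat_lit 6) (nat_lit 499) (nat_lit 0) (nat_lit 282) (nat_lit 258) (nat_lit 240)) (PT.lf (nat_lit 36176) (nat_lit 6) (nat_lit 476) (nat_lit 0) (nat_lit 283) (nat_lit 258) (nat_lit 239)))) (PT.nd (nat_lit 77610) (PT.nd (nat_lit 77532) (PT.lf (nat_lit 34352) (nat_lit 6) (nat_lit 452) (nat_lit 0) (nat_lit 284) (nat_lit 258) (nat_lit 238)) (PT.lf (nat_lit 34428) (nat_lit 6) (nat_lit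 453) (nat_lit 5) (nat_lit 237) (nat_lit 259) (nat_lit 284))) (PT.nd (nat_lit 78) (PT.lf (nat_lit 36252) (nat_lit 6) (nat_lit 477) (nat_lit 5) (nat_lit 238) (nat_lit 259) (nat_lit 283)) (PT.lf (nat_lit 38000) (nat_lit 6) (nat_lit 500) (nat_lit 5) (nat_lit 239) (nat_lit 259) (nat_lit 282)))))) (PT.nd (nat_lit 624) (PT.nd (nat_lit 312) (PT.nd (nat_lit 156) (PT.nd (nat_lit 78) (PT.lf (nat_lit 39672) (nat_lit 6) (nat_lit 522) (nat_lit 5) (nat_lit 240) (nat_lit 259) (nat_lit 281)) (PT.lf (nat_lit 41268) (nat_lit 6) (nat_lit 543) (nat_lit 5) (nat_lit 241) (nat_lit 259) (nat_lit 280))) (PT.nd (nat_lit 78) (PT.lf (nat_lit 42788) (nat_lit 6) (nat_lit 563) (nat_lit 5) (nat_lit 242) (nat_lit 259) (nat_lit 279)) (PT.lf (nat_lit 44232) (nat_lit 6) (nat_lit 582) (nat_lit 5) (nat_lit 243) (nat_lit 259) (nat_lit 278)))) (PT.nd (nat_lit 156) (PT.nd (nat_lit 78) (PT.lf (nat_lit 45600) (nat_lit 6) (nat_lit 600) (nat_lit 5) (nat_lit 244) (nat_lit 259) (nat_lit 277)) (PT.lf (nat_lit 46892)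 (nat_lit 6) (nat_lit 617) (nat_lit 5) (nat_lit 245) (nat_lit 259) (nat_lit 276))) (PT.nd (nat_lit 78) (PT.lf (nat_lit 48108) (nat_lit 6) (nat_lit 633) (nat_lit 5) (nat_lit 246) (nat_lit 259) (nat_lit 275)) (PT.lf (nat_lit 49248) (nat_lit 6) (nat_lit 648) (nat_lit 5) (nat_lit 247) (nat_lit 259) (nat_lit 274))))) (PT.nd (nat_lit 312) (PT.nd (nat_lit 156) (PT.nd (nat_lit 78) (PT.lf (nat_lit 50312) (nat_lit 6) (nat_lit 662) (nat_lit 5) (nat_lit 248) (nat_lit 259) (nat_lit 273)) (PT.lf (nat_lit 51300) (nat_lit 6) (nat_lit 675) (nat_lit 5) (nat_lit 249) (nat_lit 259) (nat_lit 272))) (PT.nd (nat_lit 78) (PT.lf (nat_lit 52212) (nat_lit 6) (nat_lit 687) (nat_lit 5) (nat_lit 250) (nat_lit 259) (nat_lit 271)) (PT.lf (nat_lit 53048) (nat_lit 6) (nat_lit 698) (nat_lit 5) (nat_lit 251) (nat_lit 259) (nat_lit 270)))) (PT.nd (nat_lit 156) (PT.nd (nat_lit 78) (PT.lf (nat_lit 53808) (nat_lit 6) (nat_lit 708) (nat_lit 5) (nat_lit 252) (nat_lit 259) (nat_lit 269)) (PT.lf (nat_lit 54492)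 (nat_lit 6) (nat_lit 717) (nat_lit 5) (nat_lit 253) (nat_lit 259) (nat_lit 268))) (PT.nd (nat_lit 78) (PT.lf (nat_lit 55100) (nat_lit 6) (nat_lit 725) (nat_lit 5) (nat_lit 254) (nat_lit 259) (nat_lit 267)) (PT.nd (nat_lit 78) (PT.lf (nat_lit 55632) (nat_lit 6) (nat_lit 732) (nat_lit 5) (nat_lit 255) (nat_lit 259) (nat_lit 266)) (PT.lf (nat_lit 56088) (nat_lit 6) (nat_lit 738) (nat_lit 5) (nat_lit 256) (nat_lit 259) (nat_lit 265))))))))
noncomputable def pc50 : PT := (PT.nd (nat_lit 1248) (PT.nd (nat_lit 624) (PT.nd (nat_lit 312) (PT.nd (nat_lit 156) (PT.nd (nat_lit 78) (PT.lf (nat_lit 56468) (nat_lit 6) (nat_lit 743) (nat_lit 5) (nat_lit 257) (nat_lit 259) (nat_lit 264)) (PT.lf (nat_lit 56772) (nat_lit 6) (nat_lit 747) (nat_lit 5) (nat_lit 258) (nat_lit 259) (nat_lit 263))) (PT.nd (nat_lit 78) (PT.lf (nat_lit 57000) (nat_lit 3) (nat_lit 750) (nat_lit 3) (nat_lit 259) (nat_lit 259) (nat_lit 262)) (PT.lf (nat_lit 57228) (nat_lit 6) (nat_lit 753) (nat_lit 3) (nat_lit 260)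 (nat_lit 259) (nat_lit 261)))) (PT.nd (nat_lit 156) (PT.nd (nat_lit 78) (PT.lf (nat_lit 57228) (nat_lit 6) (nat_lit 753) (nat_lit 1) (nat_lit 261) (nat_lit 259) (nat_lit 260)) (PT.lf (nat_lit 57000) (nat_lit 3) (nat_lit 750) (nat_lit 0) (nat_lit 262) (nat_lit 259) (nat_lit 259))) (PT.nd (nat_lit 78) (PT.lf (nat_lit 56772) (nat_lit 6) (nat_lit 747) (nat_lit 0) (nat_lit 263) (nat_lit 259) (nat_lit 258)) (PT.lf (nat_lit 56468) (nat_lit 6) (nat_lit 743) (nat_lit 0) (nat_lit 264) (nat_lit 259) (nat_lit 257))))) (PT.nd (nat_lit 312) (PT.nd (nat_lit 156) (PT.nd (nat_lit 78) (PT.lf (nat_lit 56088) (nat_lit 6) (nat_lit 738) (nat_lit 0) (nat_lit 265) (nat_lit 259) (nat_lit 256)) (PT.lf (nat_lit 55632) (nat_lit 6) (nat_lit 732) (nat_lit 0) (nat_lit 266) (nat_lit 259) (nat_lit 255))) (PT.nd (nat_lit 78) (PT.lf (nat_lit 55100) (nat_lit 6) (nat_lit 725) (nat_lit 0) (nat_lit 267) (nat_lit 259) (nat_lit 254)) (PT.lf (nat_lit 54492) (nat_lit 6) (nat_lit 717) (nat_lit 0) (nat_lit 268)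 (nat_lit 259) (nat_lit 253)))) (PT.nd (nat_lit 156) (PT.nd (nat_lit 78) (PT.lf (nat_lit 53808) (nat_lit 6) (nat_lit 708) (nat_lit 0) (nat_lit 269) (nat_lit 259) (nat_lit 252)) (PT.lf (nat_lit 53048) (nat_lit 6) (nat_lit 698) (nat_lit 0) (nat_lit 270) (nat_lit 259) (nat_lit 251))) (PT.nd (nat_lit 78) (PT.lf (nat_lit 52212) (nat_lit 6) (nat_lit 687) (nat_lit 0) (nat_lit 271) (nat_lit 259) (nat_lit 250)) (PT.lf (nat_lit 51300) (nat_lit 6) (nat_lit 675) (nat_lit 0) (nat_lit 272) (nat_lit 259) (nat_lit 249)))))) (PT.nd (nat_lit 624) (PT.nd (nat_lit 312) (PT.nd (nat_lit 156) (PT.nd (nat_lit 78) (PT.lf (nat_lit 50312) (nat_lit 6) (nat_lit 662) (nat_lit 0) (nat_lit 273) (nat_lit 259) (nat_lit 248)) (PT.lf (nat_lit 49248) (nat_lit 6) (nat_lit 648) (nat_lit 0) (nat_lit 274) (nat_lit 259) (nat_lit 247))) (PT.nd (nat_lit 78) (PT.lf (nat_lit 48108) (nat_lit 6) (nat_lit 633) (nat_lit 0) (nat_lit 275) (nat_lit 259) (nat_lit 246)) (PT.lf (nat_lit 46892) (nat_lit 6) (nat_lit 617) (nat_lit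 0) (nat_lit 276) (nat_lit 259) (nat_lit 245)))) (PT.nd (nat_lit 156) (PT.nd (nat_lit 78) (PT.lf (nat_lit 45600) (nat_lit 6) (nat_lit 600) (nat_lit 0) (nat_lit 277) (nat_lit 259) (nat_lit 244)) (PT.lf (nat_lit 44232) (nat_lit 6) (nat_lit 582) (nat_lit 0) (nat_lit 278) (nat_lit 259) (nat_lit 243))) (PT.nd (nat_lit 78) (PT.lf (nat_lit 42788) (nat_lit 6) (nat_lit 563) (nat_lit 0) (nat_lit 279) (nat_lit 259) (nat_lit 242)) (PT.lf (nat_lit 41268) (nat_lit 6) (nat_lit 543) (nat_lit 0) (nat_lit 280) (nat_lit 259) (nat_lit 241))))) (PT.nd (nat_lit 77610) (PT.nd (nat_lit 156) (PT.nd (nat_lit 78) (PT.lf (nat_lit 39672) (nat_lit 6) (nat_lit 522) (nat_lit 0) (nat_lit 281) (nat_lit 259) (nat_lit 240)) (PT.lf (nat_lit 38000) (nat_lit 6) (nat_lit 500) (nat_lit 0) (nat_lit 282) (nat_lit 259) (nat_lit 239))) (PT.nd (nat_lit 78) (PT.lf (nat_lit 36252) (nat_lit 6) (nat_lit 477) (nat_lit 0) (nat_lit 283) (nat_lit 259) (nat_lit 238)) (PT.lf (nat_lit 34428) (nat_lit 6) (nat_lit 453) (nat_lit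 0) (nat_lit 284) (nat_lit 259) (nat_lit 237)))) (PT.nd (nat_lit 156) (PT.nd (nat_lit 78) (PT.lf (nat_lit 32756) (nat_lit 6) (nat_lit 431) (nat_lit 5) (nat_lit 235) (nat_lit 260) (nat_lit 285)) (PT.lf (nat_lit 34504) (nat_lit 6) (nat_lit 454) (nat_lit 5) (nat_lit 236) (nat_lit 260) (nat_lit 284))) (PT.nd (nat_lit 78) (PT.lf (nat_lit 36328) (nat_lit 6) (nat_lit 478) (nat_lit 5) (nat_lit 237) (nat_lit 260) (nat_lit 283)) (PT.nd (nat_lit 78) (PT.lf (nat_lit 38076) (nat_lit 6) (nat_lit 501) (nat_lit 5) (nat_lit 238) (nat_lit 260) (nat_lit 282)) (PT.lf (nat_lit 39748) (nat_lit 6) (nat_lit 523) (nat_lit 5) (nat_lit 239) (nat_lit 260) (nat_lit 281))))))))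
noncomputable def pc51 : PT := (PT.nd (nat_lit 1248) (PT.nd (nat_lit 624) (PT.nd (nat_lit 312) (PT.nd (nat_lit 156) (PT.nd (nat_lit 78) (PT.lf (nat_lit 41344) (nat_lit 6) (nat_lit 544) (nat_lit 5) (nat_lit 240) (nat_lit 260) (nat_lit 280)) (PT.lf (nat_lit 42864) (nat_lit 6) (nat_lit 564) (nat_lit 5) (nat_lit 241) (nat_lit 260) (nat_lit 279))) (PT.nd (nat_lit 78) (PT.lf (nat_lit 44308) (nat_lit 6) (nat_lit 583) (nat_lit 5) (nat_lit 242) (nat_lit 260) (nat_lit 278)) (PT.lf (nat_lit 45676) (nat_lit 6) (nat_lit 601) (nat_lit 5) (nat_lit 243) (nat_lit 260) (nat_lit 277)))) (PT.nd (nat_lit 156) (PT.nd (nat_lit 78) (PT.lf (nat_lit 46968) (nat_lit 6) (nat_lit 618) (nat_lit 5) (nat_lit 244) (nat_lit 260) (nat_lit 276)) (PT.lf (nat_lit 48184) (nat_lit 6) (nat_lit 634) (nat_lit 5) (nat_lit 245) (nat_lit 260) (nat_lit 275))) (PT.nd (nat_lit 78) (PT.lf (nat_lit 49324) (nat_lit 6) (nat_lit 649) (nat_lit 5) (nat_lit 246) (nat_lit 260) (nat_lit 274)) (PT.lf (nat_lit 50388) (nat_lit 6)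 (nat_lit 663) (nat_lit 5) (nat_lit 247) (nat_lit 260) (nat_lit 273))))) (PT.nd (nat_lit 312) (PT.nd (nat_lit 156) (PT.nd (nat_lit 78) (PT.lf (nat_lit 51376) (nat_lit 6) (nat_lit 676) (nat_lit 5) (nat_lit 248) (nat_lit 260) (nat_lit 272)) (PT.lf (nat_lit 52288) (nat_lit 6) (nat_lit 688) (nat_lit 5) (nat_lit 249) (nat_lit 260) (nat_lit 271))) (PT.nd (nat_lit 78) (PT.lf (nat_lit 53124) (nat_lit 6) (nat_lit 699) (nat_lit 5) (nat_lit 250) (nat_lit 260) (nat_lit 270)) (PT.lf (nat_lit 53884) (nat_lit 6) (nat_lit 709) (nat_lit 5) (nat_lit 251) (nat_lit 260) (nat_lit 269)))) (PT.nd (nat_lit 156) (PT.nd (nat_lit 78) (PT.lf (nat_lit 54568) (nat_lit 6) (nat_lit 718) (nat_lit 5) (nat_lit 252) (nat_lit 260) (nat_lit 268)) (PT.lf (nat_lit 55176) (nat_lit 6) (nat_lit 726) (nat_lit 5) (nat_lit 253) (nat_lit 260) (nat_lit 267))) (PT.nd (nat_lit 78) (PT.lf (nat_lit 55708) (nat_lit 6) (nat_lit 733) (nat_lit 5) (nat_lit 254) (nat_lit 260) (nat_lit 266)) (PT.lf (nat_lit 56164) (nat_lit 6)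 (nat_lit 739) (nat_lit 5) (nat_lit 255) (nat_lit 260) (nat_lit 265)))))) (PT.nd (nat_lit 624) (PT.nd (nat_lit 312) (PT.nd (nat_lit 156) (PT.nd (nat_lit 78) (PT.lf (nat_lit 56544) (nat_lit 6) (nat_lit 744) (nat_lit 5) (nat_lit 256) (nat_lit 260) (nat_lit 264)) (PT.lf (nat_lit 56848) (nat_lit 6) (nat_lit 748) (nat_lit 5) (nat_lit 257) (nat_lit 260) (nat_lit 263))) (PT.nd (nat_lit 78) (PT.lf (nat_lit 57076) (nat_lit 6) (nat_lit 751) (nat_lit 5) (nat_lit 258) (nat_lit 260) (nat_lit 262)) (PT.lf (nat_lit 57228) (nat_lit 6) (nat_lit 753) (nat_lit 5) (nat_lit 259) (nat_lit 260) (nat_lit 261)))) (PT.nd (nat_lit 156) (PT.nd (nat_lit 78) (PT.lf (nat_lit 57304) (nat_lit 1) (nat_lit 754) (nat_lit 0) (nat_lit 260) (nat_lit 260) (nat_lit 260)) (PT.lf (nat_lit 57228) (nat_lit 6) (nat_lit 753) (nat_lit 0) (nat_lit 261) (nat_lit 260) (nat_lit 259))) (PT.nd (nat_lit 78) (PT.lf (nat_lit 57076) (nat_lit 6) (nat_lit 751) (nat_lit 0) (nat_lit 262) (nat_lit 260) (nat_lit 258)) (PT.lf (nat_lit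 56848) (nat_lit 6) (nat_lit 748) (nat_lit 0) (nat_lit 263) (nat_lit 260) (nat_lit 257))))) (PT.nd (nat_lit 312) (PT.nd (nat_lit 156) (PT.nd (nat_lit 78) (PT.lf (nat_lit 56544) (nat_lit 6) (nat_lit 744) (nat_lit 0) (nat_lit 264) (nat_lit 260) (nat_lit 256)) (PT.lf (nat_lit 56164) (nat_lit 6) (nat_lit 739) (nat_lit 0) (nat_lit 265) (nat_lit 260) (nat_lit 255))) (PT.nd (nat_lit 78) (PT.lf (nat_lit 55708) (nat_lit 6) (nat_lit 733) (nat_lit 0) (nat_lit 266) (nat_lit 260) (nat_lit 254)) (PT.lf (nat_lit 55176) (nat_lit 6) (nat_lit 726) (nat_lit 0) (nat_lit 267) (nat_lit 260) (nat_lit 253)))) (PT.nd (nat_lit 156) (PT.nd (nat_lit 78) (PT.lf (nat_lit 54568) (nat_lit 6) (nat_lit 718) (nat_lit 0) (nat_lit 268) (nat_lit 260) (nat_lit 252)) (PT.lf (nat_lit 53884) (nat_lit 6) (nat_lit 709) (nat_lit 0) (nat_lit 269) (nat_lit 260) (nat_lit 251))) (PT.nd (nat_lit 78) (PT.lf (nat_lit 53124) (nat_lit 6) (nat_lit 699) (nat_lit 0) (nat_lit 270) (nat_lit 260) (nat_lit 250)) (PT.nd (nat_lit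 78) (PT.lf (nat_lit 52288) (nat_lit 6) (nat_lit 688) (nat_lit 0) (nat_lit 271) (nat_lit 260) (nat_lit 249)) (PT.lf (nat_lit 51376) (nat_lit 6) (nat_lit 676) (nat_lit 0) (nat_lit 272) (nat_lit 260) (nat_lit 248))))))))
noncomputable def pc52 : PT := (PT.nd (nat_lit 78390) (PT.nd (nat_lit 624) (PT.nd (nat_lit 312) (PT.nd (nat_lit 156) (PT.nd (nat_lit 78) (PT.lf (nat_lit 50388) (nat_lit 6) (nat_lit 663) (nat_lit 0) (nat_lit 273) (nat_lit 260) (nat_lit 247)) (PT.lf (nat_lit 49324) (nat_lit 6) (nat_lit 649) (nat_lit 0) (nat_lit 274) (nat_lit 260) (nat_lit 246))) (PT.nd (nat_lit 78) (PT.lf (nat_lit 48184) (nat_lit 6) (nat_lit 634) (nat_lit 0) (nat_lit 275) (nat_lit 260) (nat_lit 245)) (PT.lf (nat_lit 46968) (nat_lit 6) (nat_lit 618) (nat_lit 0) (nat_lit 276) (nat_lit 260) (nat_lit 244)))) (PT.nd (nat_lit 156) (PT.nd (nat_lit 78) (PT.lf (nat_lit 45676) (nat_lit 6) (nat_lit 601) (nat_lit 0) (nat_lit 277) (nat_lit 260) (nat_lit 243)) (PT.lf (nat_lit 44308) (nat_lit 6) (nat_lit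 583) (nat_lit 0) (nat_lit 278) (nat_lit 260) (nat_lit 242))) (PT.nd (nat_lit 78) (PT.lf (nat_lit 42864) (nat_lit 6) (nat_lit 564) (nat_lit 0) (nat_lit 279) (nat_lit 260) (nat_lit 241)) (PT.lf (nat_lit 41344) (nat_lit 6) (nat_lit 544) (nat_lit 0) (nat_lit 280) (nat_lit 260) (nat_lit 240))))) (PT.nd (nat_lit 312) (PT.nd (nat_lit 156) (PT.nd (nat_lit 78) (PT.lf (nat_lit 39748) (nat_lit 6) (nat_lit 523) (nat_lit 0) (nat_lit 281) (nat_lit 260) (nat_lit 239)) (PT.lf (nat_lit 38076) (nat_lit 6) (nat_lit 501) (nat_lit 0) (nat_lit 282) (nat_lit 260) (nat_lit 238))) (PT.nd (nat_lit 78) (PT.lf (nat_lit 36328) (nat_lit 6) (nat_lit 478) (nat_lit 0) (nat_lit 283) (nat_lit 260) (nat_lit 237)) (PT.lf (nat_lit 34504) (nat_lit 6) (nat_lit 454) (nat_lit 0) (nat_lit 284) (nat_lit 260) (nat_lit 236)))) (PT.nd (nat_lit 77298) (PT.nd (nat_lit 77220) (PT.lf (nat_lit 32756) (nat_lit 6) (nat_lit 431) (nat_lit 0) (nat_lit 285) (nat_lit 260) (nat_lit 235)) (PT.lf (nat_lit 31768) (nat_lit 6) (nat_lit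 418) (nat_lit 5) (nat_lit 234) (nat_lit 261) (nat_lit 285))) (PT.nd (nat_lit 78) (PT.lf (nat_lit 32832) (nat_lit 6) (nat_lit 432) (nat_lit 5) (nat_lit 235) (nat_lit 261) (nat_lit 284)) (PT.lf (nat_lit 34580) (nat_lit 6) (nat_lit 455) (nat_lit 5) (nat_lit 236) (nat_lit 261) (nat_lit 283)))))) (PT.nd (nat_lit 624) (PT.nd (nat_lit 312) (PT.nd (nat_lit 156) (PT.nd (nat_lit 78) (PT.lf (nat_lit 36404) (nat_lit 6) (nat_lit 479) (nat_lit 5) (nat_lit 237) (nat_lit 261) (nat_lit 282)) (PT.lf (nat_lit 38152) (nat_lit 6) (nat_lit 502) (nat_lit 5) (nat_lit 238) (nat_lit 261) (nat_lit 281))) (PT.nd (nat_lit 78) (PT.lf (nat_lit 39824) (nat_lit 6) (nat_lit 524) (nat_lit 5) (nat_lit 239) (nat_lit 261) (nat_lit 280)) (PT.lf (nat_lit 41420) (nat_lit 6) (nat_lit 545) (nat_lit 5) (nat_lit 240) (nat_lit 261) (nat_lit 279)))) (PT.nd (nat_lit 156) (PT.nd (nat_lit 78) (PT.lf (nat_lit 42940) (nat_lit 6) (nat_lit 565) (nat_lit 5) (nat_lit 241) (nat_lit 261) (nat_lit 278)) (PT.lf (nat_lit 44384)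 (nat_lit 6) (nat_lit 584) (nat_lit 5) (nat_lit 242) (nat_lit 261) (nat_lit 277))) (PT.nd (nat_lit 78) (PT.lf (nat_lit 45752) (nat_lit 6) (nat_lit 602) (nat_lit 5) (nat_lit 243) (nat_lit 261) (nat_lit 276)) (PT.lf (nat_lit 47044) (nat_lit 6) (nat_lit 619) (nat_lit 5) (nat_lit 244) (nat_lit 261) (nat_lit 275))))) (PT.nd (nat_lit 312) (PT.nd (nat_lit 156) (PT.nd (nat_lit 78) (PT.lf (nat_lit 48260) (nat_lit 6) (nat_lit 635) (nat_lit 5) (nat_lit 245) (nat_lit 261) (nat_lit 274)) (PT.lf (nat_lit 49400) (nat_lit 6) (nat_lit 650) (nat_lit 5) (nat_lit 246) (nat_lit 261) (nat_lit 273))) (PT.nd (nat_lit 78) (PT.lf (nat_lit 50464) (nat_lit 6) (nat_lit 664) (nat_lit 5) (nat_lit 247) (nat_lit 261) (nat_lit 272)) (PT.lf (nat_lit 51452) (nat_lit 6) (nat_lit 677) (nat_lit 5) (nat_lit 248) (nat_lit 261) (nat_lit 271)))) (PT.nd (nat_lit 156) (PT.nd (nat_lit 78) (PT.lf (nat_lit 52364) (nat_lit 6) (nat_lit 689) (nat_lit 5) (nat_lit 249) (nat_lit 261) (nat_lit 270)) (PT.lf (nat_lit 53200)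 (nat_lit 6) (nat_lit 700) (nat_lit 5) (nat_lit 250) (nat_lit 261) (nat_lit 269))) (PT.nd (nat_lit 78) (PT.lf (nat_lit 53960) (nat_lit 6) (nat_lit 710) (nat_lit 5) (nat_lit 251) (nat_lit 261) (nat_lit 268)) (PT.nd (nat_lit 78) (PT.lf (nat_lit 54644) (nat_lit 6) (nat_lit 719) (nat_lit 5) (nat_lit 252) (nat_lit 261) (nat_lit 267)) (PT.lf (nat_lit 55252) (nat_lit 6) (nat_lit 727) (nat_lit 5) (nat_lit 253) (nat_lit 261) (nat_lit 266))))))))
noncomputable def pc53 : PT := (PT.nd (nat_lit 1248) (PT.nd (nat_lit 624) (PT.nd (nat_lit 312) (PT.nd (nat_lit 156) (PT.nd (nat_lit 78) (PT.lf (nat_lit 55784) (nat_lit 6) (nat_lit 734) (nat_lit 5) (nat_lit 254) (nat_lit 261) (nat_lit 265)) (PT.lf (nat_lit 56240) (nat_lit 6) (nat_lit 740) (nat_lit 5) (nat_lit 255) (nat_lit 261) (nat_lit 264))) (PT.nd (nat_lit 78) (PT.lf (nat_lit 56620) (nat_lit 6) (nat_lit 745) (nat_lit 5) (nat_lit 256) (nat_lit 261) (nat_lit 263)) (PT.lf (nat_lit 56924) (nat_lit 6) (nat_lit 749) (nat_lit 5) (nat_lit 257)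 (nat_lit 261) (nat_lit 262)))) (PT.nd (nat_lit 156) (PT.nd (nat_lit 78) (PT.lf (nat_lit 57152) (nat_lit 3) (nat_lit 752) (nat_lit 4) (nat_lit 258) (nat_lit 261) (nat_lit 261)) (PT.lf (nat_lit 57228) (nat_lit 6) (nat_lit 753) (nat_lit 4) (nat_lit 259) (nat_lit 261) (nat_lit 260))) (PT.nd (nat_lit 78) (PT.lf (nat_lit 57228) (nat_lit 6) (nat_lit 753) (nat_lit 2) (nat_lit 260) (nat_lit 261) (nat_lit 259)) (PT.lf (nat_lit 57152) (nat_lit 3) (nat_lit 752) (nat_lit 0) (nat_lit 261) (nat_lit 261) (nat_lit 258))))) (PT.nd (nat_lit 312) (PT.nd (nat_lit 156) (PT.nd (nat_lit 78) (PT.lf (nat_lit 56924) (nat_lit 6) (nat_lit 749) (nat_lit 0) (nat_lit 262) (nat_lit 261) (nat_lit 257)) (PT.lf (nat_lit 56620) (nat_lit 6) (nat_lit 745) (nat_lit 0) (nat_lit 263) (nat_lit 261) (nat_lit 256))) (PT.nd (nat_lit 78) (PT.lf (nat_lit 56240) (nat_lit 6) (nat_lit 740) (nat_lit 0) (nat_lit 264) (nat_lit 261) (nat_lit 255)) (PT.lf (nat_lit 55784) (nat_lit 6) (nat_lit 734) (nat_lit 0) (nat_lit 265)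 (nat_lit 261) (nat_lit 254)))) (PT.nd (nat_lit 156) (PT.nd (nat_lit 78) (PT.lf (nat_lit 55252) (nat_lit 6) (nat_lit 727) (nat_lit 0) (nat_lit 266) (nat_lit 261) (nat_lit 253)) (PT.lf (nat_lit 54644) (nat_lit 6) (nat_lit 719) (nat_lit 0) (nat_lit 267) (nat_lit 261) (nat_lit 252))) (PT.nd (nat_lit 78) (PT.lf (nat_lit 53960) (nat_lit 6) (nat_lit 710) (nat_lit 0) (nat_lit 268) (nat_lit 261) (nat_lit 251)) (PT.lf (nat_lit 53200) (nat_lit 6) (nat_lit 700) (nat_lit 0) (nat_lit 269) (nat_lit 261) (nat_lit 250)))))) (PT.nd (nat_lit 624) (PT.nd (nat_lit 312) (PT.nd (nat_lit 156) (PT.nd (nat_lit 78) (PT.lf (nat_lit 52364) (nat_lit 6) (nat_lit 689) (nat_lit 0) (nat_lit 270) (nat_lit 261) (nat_lit 249)) (PT.lf (nat_lit 51452) (nat_lit 6) (nat_lit 677) (nat_lit 0) (nat_lit 271) (nat_lit 261) (nat_lit 248))) (PT.nd (nat_lit 78) (PT.lf (nat_lit 50464) (nat_lit 6) (nat_lit 664) (nat_lit 0) (nat_lit 272) (nat_lit 261) (nat_lit 247)) (PT.lf (nat_lit 49400) (nat_lit 6) (nat_lit 650) (nat_lit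 0) (nat_lit 273) (nat_lit 261) (nat_lit 246)))) (PT.nd (nat_lit 156) (PT.nd (nat_lit 78) (PT.lf (nat_lit 48260) (nat_lit 6) (nat_lit 635) (nat_lit 0) (nat_lit 274) (nat_lit 261) (nat_lit 245)) (PT.lf (nat_lit 47044) (nat_lit 6) (nat_lit 619) (nat_lit 0) (nat_lit 275) (nat_lit 261) (nat_lit 244))) (PT.nd (nat_lit 78) (PT.lf (nat_lit 45752) (nat_lit 6) (nat_lit 602) (nat_lit 0) (nat_lit 276) (nat_lit 261) (nat_lit 243)) (PT.lf (nat_lit 44384) (nat_lit 6) (nat_lit 584) (nat_lit 0) (nat_lit 277) (nat_lit 261) (nat_lit 242))))) (PT.nd (nat_lit 312) (PT.nd (nat_lit 156) (PT.nd (nat_lit 78) (PT.lf (nat_lit 42940) (nat_lit 6) (nat_lit 565) (nat_lit 0) (nat_lit 278) (nat_lit 261) (nat_lit 241)) (PT.lf (nat_lit 41420) (nat_lit 6) (nat_lit 545) (nat_lit 0) (nat_lit 279) (nat_lit 261) (nat_lit 240))) (PT.nd (nat_lit 78) (PT.lf (nat_lit 39824) (nat_lit 6) (nat_lit 524) (nat_lit 0) (nat_lit 280) (nat_lit 261) (nat_lit 239)) (PT.lf (nat_lit 38152) (nat_lit 6) (nat_lit 502) (nat_lit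 0) (nat_lit 281) (nat_lit 261) (nat_lit 238)))) (PT.nd (nat_lit 156) (PT.nd (nat_lit 78) (PT.lf (nat_lit 36404) (nat_lit 6) (nat_lit 479) (nat_lit 0) (nat_lit 282) (nat_lit 261) (nat_lit 237)) (PT.lf (nat_lit 34580) (nat_lit 6) (nat_lit 455) (nat_lit 0) (nat_lit 283) (nat_lit 261) (nat_lit 236))) (PT.nd (nat_lit 78) (PT.lf (nat_lit 32832) (nat_lit 6) (nat_lit 432) (nat_lit 0) (nat_lit 284) (nat_lit 261) (nat_lit 235)) (PT.nd (nat_lit 77142) (PT.lf (nat_lit 31768) (nat_lit 6) (nat_lit 418) (nat_lit 0) (nat_lit 285) (nat_lit 261) (nat_lit 234)) (PT.lf (nat_lit 30856) (nat_lit 6) (nat_lit 406) (nat_lit 5) (nat_lit 233) (nat_lit 262) (nat_lit 285))))))))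
noncomputable def pc54 : PT := (PT.nd (nat_lit 1248) (PT.nd (nat_lit 624) (PT.nd (nat_lit 312) (PT.nd (nat_lit 156) (PT.nd (nat_lit 78) (PT.lf (nat_lit 31844) (nat_lit 6) (nat_lit 419) (nat_lit 5) (nat_lit 234) (nat_lit 262) (nat_lit 284)) (PT.lf (nat_lit 32908) (nat_lit 6) (nat_lit 433) (nat_lit 5) (nat_lit 235) (nat_lit 262) (nat_lit 283))) (PT.nd (nat_lit 78) (PT.lf (nat_lit 34656) (nat_lit 6) (nat_lit 456) (nat_lit 5) (nat_lit 236) (nat_lit 262) (nat_lit 282)) (PT.lf (nat_lit 36480) (nat_lit 6) (nat_lit 480) (nat_lit 5) (nat_lit 237) (nat_lit 262) (nat_lit 281)))) (PT.nd (nat_lit 156) (PT.nd (nat_lit 78) (PT.lf (nat_lit 38228) (nat_lit 6) (nat_lit 503) (nat_lit 5) (nat_lit 238) (nat_lit 262) (nat_lit 280)) (PT.lf (nat_lit 39900) (nat_lit 6) (nat_lit 525) (nat_lit 5) (nat_lit 239) (nat_lit 262) (nat_lit 279))) (PT.nd (nat_lit 78) (PT.lf (nat_lit 41496) (nat_lit 6) (nat_lit 546) (nat_lit 5) (nat_lit 240) (nat_lit 262) (nat_lit 278)) (PT.lf (nat_lit 43016) (nat_lit 6)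 (nat_lit 566) (nat_lit 5) (nat_lit 241) (nat_lit 262) (nat_lit 277))))) (PT.nd (nat_lit 312) (PT.nd (nat_lit 156) (PT.nd (nat_lit 78) (PT.lf (nat_lit 44460) (nat_lit 6) (nat_lit 585) (nat_lit 5) (nat_lit 242) (nat_lit 262) (nat_lit 276)) (PT.lf (nat_lit 45828) (nat_lit 6) (nat_lit 603) (nat_lit 5) (nat_lit 243) (nat_lit 262) (nat_lit 275))) (PT.nd (nat_lit 78) (PT.lf (nat_lit 47120) (nat_lit 6) (nat_lit 620) (nat_lit 5) (nat_lit 244) (nat_lit 262) (nat_lit 274)) (PT.lf (nat_lit 48336) (nat_lit 6) (nat_lit 636) (nat_lit 5) (nat_lit 245) (nat_lit 262) (nat_lit 273)))) (PT.nd (nat_lit 156) (PT.nd (nat_lit 78) (PT.lf (nat_lit 49476) (nat_lit 6) (nat_lit 651) (nat_lit 5) (nat_lit 246) (nat_lit 262) (nat_lit 272)) (PT.lf (nat_lit 50540) (nat_lit 6) (nat_lit 665) (nat_lit 5) (nat_lit 247) (nat_lit 262) (nat_lit 271))) (PT.nd (nat_lit 78) (PT.lf (nat_lit 51528) (nat_lit 6) (nat_lit 678) (nat_lit 5) (nat_lit 248) (nat_lit 262) (nat_lit 270)) (PT.lf (nat_lit 52440) (nat_lit 6)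 (nat_lit 690) (nat_lit 5) (nat_lit 249) (nat_lit 262) (nat_lit 269)))))) (PT.nd (nat_lit 624) (PT.nd (nat_lit 312) (PT.nd (nat_lit 156) (PT.nd (nat_lit 78) (PT.lf (nat_lit 53276) (nat_lit 6) (nat_lit 701) (nat_lit 5) (nat_lit 250) (nat_lit 262) (nat_lit 268)) (PT.lf (nat_lit 54036) (nat_lit 6) (nat_lit 711) (nat_lit 5) (nat_lit 251) (nat_lit 262) (nat_lit 267))) (PT.nd (nat_lit 78) (PT.lf (nat_lit 54720) (nat_lit 6) (nat_lit 720) (nat_lit 5) (nat_lit 252) (nat_lit 262) (nat_lit 266)) (PT.lf (nat_lit 55328) (nat_lit 6) (nat_lit 728) (nat_lit 5) (nat_lit 253) (nat_lit 262) (nat_lit 265)))) (PT.nd (nat_lit 156) (PT.nd (nat_lit 78) (PT.lf (nat_lit 55860) (nat_lit 6) (nat_lit 735) (nat_lit 5) (nat_lit 254) (nat_lit 262) (nat_lit 264)) (PT.lf (nat_lit 56316) (nat_lit 6) (nat_lit 741) (nat_lit 5) (nat_lit 255) (nat_lit 262) (nat_lit 263))) (PT.nd (nat_lit 78) (PT.lf (nat_lit 56696) (nat_lit 3) (nat_lit 746) (nat_lit 4) (nat_lit 256) (nat_lit 262) (nat_lit 262)) (PT.lf (nat_lit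 56924) (nat_lit 6) (nat_lit 749) (nat_lit 4) (nat_lit 257) (nat_lit 262) (nat_lit 261))))) (PT.nd (nat_lit 312) (PT.nd (nat_lit 156) (PT.nd (nat_lit 78) (PT.lf (nat_lit 57076) (nat_lit 6) (nat_lit 751) (nat_lit 4) (nat_lit 258) (nat_lit 262) (nat_lit 260)) (PT.lf (nat_lit 57000) (nat_lit 3) (nat_lit 750) (nat_lit 2) (nat_lit 259) (nat_lit 262) (nat_lit 259))) (PT.nd (nat_lit 78) (PT.lf (nat_lit 57076) (nat_lit 6) (nat_lit 751) (nat_lit 2) (nat_lit 260) (nat_lit 262) (nat_lit 258)) (PT.lf (nat_lit 56924) (nat_lit 6) (nat_lit 749) (nat_lit 2) (nat_lit 261) (nat_lit 262) (nat_lit 257)))) (PT.nd (nat_lit 156) (PT.nd (nat_lit 78) (PT.lf (nat_lit 56696) (nat_lit 3) (nat_lit 746) (nat_lit 0) (nat_lit 262) (nat_lit 262) (nat_lit 256)) (PT.lf (nat_lit 56316) (nat_lit 6) (nat_lit 741) (nat_lit 0) (nat_lit 263) (nat_lit 262) (nat_lit 255))) (PT.nd (nat_lit 78) (PT.lf (nat_lit 55860) (nat_lit 6) (nat_lit 735) (nat_lit 0) (nat_lit 264) (nat_lit 262) (nat_lit 254)) (PT.nd (nat_lit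 78) (PT.lf (nat_lit 55328) (nat_lit 6) (nat_lit 728) (nat_lit 0) (nat_lit 265) (nat_lit 262) (nat_lit 253)) (PT.lf (nat_lit 54720) (nat_lit 6) (nat_lit 720) (nat_lit 0) (nat_lit 266) (nat_lit 262) (nat_lit 252))))))))
noncomputable def pc55 : PT := (PT.nd (nat_lit 1326) (PT.nd (nat_lit 624) (PT.nd (nat_lit 312) (PT.nd (nat_lit 156) (PT.nd (nat_lit 78) (PT.lf (nat_lit 54036) (nat_lit 6) (nat_lit 711) (nat_lit 0) (nat_lit 267) (nat_lit 262) (nat_lit 251)) (PT.lf (nat_lit 53276) (nat_lit 6) (nat_lit 701) (nat_lit 0) (nat_lit 268) (nat_lit 262) (nat_lit 250))) (PT.nd (nat_lit 78) (PT.lf (nat_lit 52440) (nat_lit 6) (nat_lit 690) (nat_lit 0) (nat_lit 269) (nat_lit 262) (nat_lit 249)) (PT.lf (nat_lit 51528) (nat_lit 6) (nat_lit 678) (nat_lit 0) (nat_lit 270) (nat_lit 262) (nat_lit 248)))) (PT.nd (nat_lit 156) (PT.nd (nat_lit 78) (PT.lf (nat_lit 50540) (nat_lit 6) (nat_lit 665) (nat_lit 0) (nat_lit 271) (nat_lit 262) (nat_lit 247)) (PT.lf (nat_lit 49476) (nat_lit 6) (nat_lit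 651) (nat_lit 0) (nat_lit 272) (nat_lit 262) (nat_lit 246))) (PT.nd (nat_lit 78) (PT.lf (nat_lit 48336) (nat_lit 6) (nat_lit 636) (nat_lit 0) (nat_lit 273) (nat_lit 262) (nat_lit 245)) (PT.lf (nat_lit 47120) (nat_lit 6) (nat_lit 620) (nat_lit 0) (nat_lit 274) (nat_lit 262) (nat_lit 244))))) (PT.nd (nat_lit 312) (PT.nd (nat_lit 156) (PT.nd (nat_lit 78) (PT.lf (nat_lit 45828) (nat_lit 6) (nat_lit 603) (nat_lit 0) (nat_lit 275) (nat_lit 262) (nat_lit 243)) (PT.lf (nat_lit 44460) (nat_lit 6) (nat_lit 585) (nat_lit 0) (nat_lit 276) (nat_lit 262) (nat_lit 242))) (PT.nd (nat_lit 78) (PT.lf (nat_lit 43016) (nat_lit 6) (nat_lit 566) (nat_lit 0) (nat_lit 277) (nat_lit 262) (nat_lit 241)) (PT.lf (nat_lit 41496) (nat_lit 6) (nat_lit 546) (nat_lit 0) (nat_lit 278) (nat_lit 262) (nat_lit 240)))) (PT.nd (nat_lit 156) (PT.nd (nat_lit 78) (PT.lf (nat_lit 39900) (nat_lit 6) (nat_lit 525) (nat_lit 0) (nat_lit 279) (nat_lit 262) (nat_lit 239)) (PT.lf (nat_lit 38228) (nat_lit 6) (nat_lit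 503) (nat_lit 0) (nat_lit 280) (nat_lit 262) (nat_lit 238))) (PT.nd (nat_lit 78) (PT.lf (nat_lit 36480) (nat_lit 6) (nat_lit 480) (nat_lit 0) (nat_lit 281) (nat_lit 262) (nat_lit 237)) (PT.nd (nat_lit 78) (PT.lf (nat_lit 34656) (nat_lit 6) (nat_lit 456) (nat_lit 0) (nat_lit 282) (nat_lit 262) (nat_lit 236)) (PT.lf (nat_lit 32908) (nat_lit 6) (nat_lit 433) (nat_lit 0) (nat_lit 283) (nat_lit 262) (nat_lit 235))))))) (PT.nd (nat_lit 77610) (PT.nd (nat_lit 77298) (PT.nd (nat_lit 77142) (PT.nd (nat_lit 78) (PT.lf (nat_lit 31844) (nat_lit 6) (nat_lit 419) (nat_lit 0) (nat_lit 284) (nat_lit 262) (nat_lit 234)) (PT.lf (nat_lit 30856) (nat_lit 6) (nat_lit 406) (nat_lit 0) (nat_lit 285) (nat_lit 262) (nat_lit 233))) (PT.nd (nat_lit 78) (PT.lf (nat_lit 29944) (nat_lit 6) (nat_lit 394) (nat_lit 5) (nat_lit 232) (nat_lit 263) (nat_lit 285)) (PT.lf (nat_lit 30932) (nat_lit 6) (nat_lit 407) (nat_lit 5) (nat_lit 233) (nat_lit 263) (nat_lit 284)))) (PT.nd (nat_lit 156) (PT.nd (nat_lit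 78) (PT.lf (nat_lit 31920) (nat_lit 6) (nat_lit 420) (nat_lit 5) (nat_lit 234) (nat_lit 263) (nat_lit 283)) (PT.lf (nat_lit 32984) (nat_lit 6) (nat_lit 434) (nat_lit 5) (nat_lit 235) (nat_lit 263) (nat_lit 282))) (PT.nd (nat_lit 78) (PT.lf (nat_lit 34732) (nat_lit 6) (nat_lit 457) (nat_lit 5) (nat_lit 236) (nat_lit 263) (nat_lit 281)) (PT.lf (nat_lit 36556) (nat_lit 6) (nat_lit 481) (nat_lit 5) (nat_lit 237) (nat_lit 263) (nat_lit 280))))) (PT.nd (nat_lit 312) (PT.nd (nat_lit 156) (PT.nd (nat_lit 78) (PT.lf (nat_lit 38304) (nat_lit 6) (nat_lit 504) (nat_lit 5) (nat_lit 238) (nat_lit 263) (nat_lit 279)) (PT.lf (nat_lit 39976) (nat_lit 6) (nat_lit 526) (nat_lit 5) (nat_lit 239) (nat_lit 263) (nat_lit 278))) (PT.nd (nat_lit 78) (PT.lf (nat_lit 41572) (nat_lit 6) (nat_lit 547) (nat_lit 5) (nat_lit 240) (nat_lit 263) (nat_lit 277)) (PT.lf (nat_lit 43092) (nat_lit 6) (nat_lit 567) (nat_lit 5) (nat_lit 241) (nat_lit 263) (nat_lit 276)))) (PT.nd (nat_lit 156) (PT.nd (nat_lit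 78) (PT.lf (nat_lit 44536) (nat_lit 6) (nat_lit 586) (nat_lit 5) (nat_lit 242) (nat_lit 263) (nat_lit 275)) (PT.lf (nat_lit 45904) (nat_lit 6) (nat_lit 604) (nat_lit 5) (nat_lit 243) (nat_lit 263) (nat_lit 274))) (PT.nd (nat_lit 78) (PT.lf (nat_lit 47196) (nat_lit 6) (nat_lit 621) (nat_lit 5) (nat_lit 244) (nat_lit 263) (nat_lit 273)) (PT.nd (nat_lit 78) (PT.lf (nat_lit 48412) (nat_lit 6) (nat_lit 637) (nat_lit 5) (nat_lit 245) (nat_lit 263) (nat_lit 272)) (PT.lf (nat_lit 49552) (nat_lit 6) (nat_lit 652) (nat_lit 5) (nat_lit 246) (nat_lit 263) (nat_lit 271))))))))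
noncomputable def pc56 : PT := (PT.nd (nat_lit 1248) (PT.nd (nat_lit 624) (PT.nd (nat_lit 312) (PT.nd (nat_lit 156) (PT.nd (nat_lit 78) (PT.lf (nat_lit 50616) (nat_lit 6) (nat_lit 666) (nat_lit 5) (nat_lit 247) (nat_lit 263) (nat_lit 270)) (PT.lf (nat_lit 51604) (nat_lit 6) (nat_lit 679) (nat_lit 5) (nat_lit 248) (nat_lit 263) (nat_lit 269))) (PT.nd (nat_lit 78) (PT.lf (nat_lit 52516) (nat_lit 6) (nat_lit 691) (nat_lit 5) (nat_lit 249) (nat_lit 263) (nat_lit 268)) (PT.lf (nat_lit 53352) (nat_lit 6) (nat_lit 702) (nat_lit 5) (nat_lit 250) (nat_lit 263) (nat_lit 267)))) (PT.nd (nat_lit 156) (PT.nd (nat_lit 78) (PT.lf (nat_lit 54112) (nat_lit 6) (nat_lit 712) (nat_lit 5) (nat_lit 251) (nat_lit 263) (nat_lit 266)) (PT.lf (nat_lit 54796) (nat_lit 6) (nat_lit 721) (nat_lit 5) (nat_lit 252) (nat_lit 263) (nat_lit 265))) (PT.nd (nat_lit 78) (PT.lf (nat_lit 55404) (nat_lit 6) (nat_lit 729) (nat_lit 5) (nat_lit 253) (nat_lit 263) (nat_lit 264)) (PT.lf (nat_lit 55936) (nat_lit 3)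 (nat_lit 736) (nat_lit 4) (nat_lit 254) (nat_lit 263) (nat_lit 263))))) (PT.nd (nat_lit 312) (PT.nd (nat_lit 156) (PT.nd (nat_lit 78) (PT.lf (nat_lit 56316) (nat_lit 6) (nat_lit 741) (nat_lit 4) (nat_lit 255) (nat_lit 263) (nat_lit 262)) (PT.lf (nat_lit 56620) (nat_lit 6) (nat_lit 745) (nat_lit 4) (nat_lit 256) (nat_lit 263) (nat_lit 261))) (PT.nd (nat_lit 78) (PT.lf (nat_lit 56848) (nat_lit 6) (nat_lit 748) (nat_lit 4) (nat_lit 257) (nat_lit 263) (nat_lit 260)) (PT.lf (nat_lit 56772) (nat_lit 6) (nat_lit 747) (nat_lit 4) (nat_lit 258) (nat_lit 263) (nat_lit 259)))) (PT.nd (nat_lit 156) (PT.nd (nat_lit 78) (PT.lf (nat_lit 56772) (nat_lit 6) (nat_lit 747) (nat_lit 2) (nat_lit 259) (nat_lit 263) (nat_lit 258)) (PT.lf (nat_lit 56848) (nat_lit 6) (nat_lit 748) (nat_lit 2) (nat_lit 260) (nat_lit 263) (nat_lit 257))) (PT.nd (nat_lit 78) (PT.lf (nat_lit 56620) (nat_lit 6) (nat_lit 745) (nat_lit 2) (nat_lit 261) (nat_lit 263) (nat_lit 256)) (PT.lf (nat_lit 56316) (nat_lit 6)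 (nat_lit 741) (nat_lit 2) (nat_lit 262) (nat_lit 263) (nat_lit 255)))))) (PT.nd (nat_lit 624) (PT.nd (nat_lit 312) (PT.nd (nat_lit 156) (PT.nd (nat_lit 78) (PT.lf (nat_lit 55936) (nat_lit 3) (nat_lit 736) (nat_lit 0) (nat_lit 263) (nat_lit 263) (nat_lit 254)) (PT.lf (nat_lit 55404) (nat_lit 6) (nat_lit 729) (nat_lit 0) (nat_lit 264) (nat_lit 263) (nat_lit 253))) (PT.nd (nat_lit 78) (PT.lf (nat_lit 54796) (nat_lit 6) (nat_lit 721) (nat_lit 0) (nat_lit 265) (nat_lit 263) (nat_lit 252)) (PT.lf (nat_lit 54112) (nat_lit 6) (nat_lit 712) (nat_lit 0) (nat_lit 266) (nat_lit 263) (nat_lit 251)))) (PT.nd (nat_lit 156) (PT.nd (nat_lit 78) (PT.lf (nat_lit 53352) (nat_lit 6) (nat_lit 702) (nat_lit 0) (nat_lit 267) (nat_lit 263) (nat_lit 250)) (PT.lf (nat_lit 52516) (nat_lit 6) (nat_lit 691) (nat_lit 0) (nat_lit 268) (nat_lit 263) (nat_lit 249))) (PT.nd (nat_lit 78) (PT.lf (nat_lit 51604) (nat_lit 6) (nat_lit 679) (nat_lit 0) (nat_lit 269) (nat_lit 263) (nat_lit 248)) (PT.lf (nat_lit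 50616) (nat_lit 6) (nat_lit 666) (nat_lit 0) (nat_lit 270) (nat_lit 263) (nat_lit 247))))) (PT.nd (nat_lit 312) (PT.nd (nat_lit 156) (PT.nd (nat_lit 78) (PT.lf (nat_lit 49552) (nat_lit 6) (nat_lit 652) (nat_lit 0) (nat_lit 271) (nat_lit 263) (nat_lit 246)) (PT.lf (nat_lit 48412) (nat_lit 6) (nat_lit 637) (nat_lit 0) (nat_lit 272) (nat_lit 263) (nat_lit 245))) (PT.nd (nat_lit 78) (PT.lf (nat_lit 47196) (nat_lit 6) (nat_lit 621) (nat_lit 0) (nat_lit 273) (nat_lit 263) (nat_lit 244)) (PT.lf (nat_lit 45904) (nat_lit 6) (nat_lit 604) (nat_lit 0) (nat_lit 274) (nat_lit 263) (nat_lit 243)))) (PT.nd (nat_lit 156) (PT.nd (nat_lit 78) (PT.lf (nat_lit 44536) (nat_lit 6) (nat_lit 586) (nat_lit 0) (nat_lit 275) (nat_lit 263) (nat_lit 242)) (PT.lf (nat_lit 43092) (nat_lit 6) (nat_lit 567) (nat_lit 0) (nat_lit 276) (nat_lit 263) (nat_lit 241))) (PT.nd (nat_lit 78) (PT.lf (nat_lit 41572) (nat_lit 6) (nat_lit 547) (nat_lit 0) (nat_lit 277) (nat_lit 263) (nat_lit 240)) (PT.nd (nat_lit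 78) (PT.lf (nat_lit 39976) (nat_lit 6) (nat_lit 526) (nat_lit 0) (nat_lit 278) (nat_lit 263) (nat_lit 239)) (PT.lf (nat_lit 38304) (nat_lit 6) (nat_lit 504) (nat_lit 0) (nat_lit 279) (nat_lit 263) (nat_lit 238))))))))
noncomputable def pc57 : PT := (PT.nd (nat_lit 78156) (PT.nd (nat_lit 77532) (PT.nd (nat_lit 312) (PT.nd (nat_lit 156) (PT.nd (nat_lit 78) (PT.lf (nat_lit 36556) (nat_lit 6) (nat_lit 481) (nat_lit 0) (nat_lit 280) (nat_lit 263) (nat_lit 237)) (PT.lf (nat_lit 34732) (nat_lit 6) (nat_lit 457) (nat_lit 0) (nat_lit 281) (nat_lit 263) (nat_lit 236))) (PT.nd (nat_lit 78) (PT.lf (nat_lit 32984) (nat_lit 6) (nat_lit 434) (nat_lit 0) (nat_lit 282) (nat_lit 263) (nat_lit 235)) (PT.lf (nat_lit 31920) (nat_lit 6) (nat_lit 420) (nat_lit 0) (nat_lit 283) (nat_lit 263) (nat_lit 234)))) (PT.nd (nat_lit 77064) (PT.nd (nat_lit 78) (PT.lf (nat_lit 30932) (nat_lit 6) (nat_lit 407) (nat_lit 0) (nat_lit 284) (nat_lit 263) (nat_lit 233)) (PT.lf (nat_lit 29944) (nat_lit 6) (nat_lit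 394) (nat_lit 0) (nat_lit 285) (nat_lit 263) (nat_lit 232))) (PT.nd (nat_lit 78) (PT.lf (nat_lit 29108) (nat_lit 6) (nat_lit 383) (nat_lit 5) (nat_lit 231) (nat_lit 264) (nat_lit 285)) (PT.lf (nat_lit 30020) (nat_lit 6) (nat_lit 395) (nat_lit 5) (nat_lit 232) (nat_lit 264) (nat_lit 284))))) (PT.nd (nat_lit 312) (PT.nd (nat_lit 156) (PT.nd (nat_lit 78) (PT.lf (nat_lit 31008) (nat_lit 6) (nat_lit 408) (nat_lit 5) (nat_lit 233) (nat_lit 264) (nat_lit 283)) (PT.lf (nat_lit 31996) (nat_lit 6) (nat_lit 421) (nat_lit 5) (nat_lit 234) (nat_lit 264) (nat_lit 282))) (PT.nd (nat_lit 78) (PT.lf (nat_lit 33060) (nat_lit 6) (nat_lit 435) (nat_lit 5) (nat_lit 235) (nat_lit 264) (nat_lit 281)) (PT.lf (nat_lit 34808) (nat_lit 6) (nat_lit 458) (nat_lit 5) (nat_lit 236) (nat_lit 264) (nat_lit 280)))) (PT.nd (nat_lit 156) (PT.nd (nat_lit 78) (PT.lf (nat_lit 36632) (nat_lit 6) (nat_lit 482) (nat_lit 5) (nat_lit 237) (nat_lit 264) (nat_lit 279)) (PT.lf (nat_lit 38380) (nat_lit 6) (nat_lit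 505) (nat_lit 5) (nat_lit 238) (nat_lit 264) (nat_lit 278))) (PT.nd (nat_lit 78) (PT.lf (nat_lit 40052) (nat_lit 6) (nat_lit 527) (nat_lit 5) (nat_lit 239) (nat_lit 264) (nat_lit 277)) (PT.lf (nat_lit 41648) (nat_lit 6) (nat_lit 548) (nat_lit 5) (nat_lit 240) (nat_lit 264) (nat_lit 276)))))) (PT.nd (nat_lit 624) (PT.nd (nat_lit 312) (PT.nd (nat_lit 156) (PT.nd (nat_lit 78) (PT.lf (nat_lit 43168) (nat_lit 6) (nat_lit 568) (nat_lit 5) (nat_lit 241) (nat_lit 264) (nat_lit 275)) (PT.lf (nat_lit 44612) (nat_lit 6) (nat_lit 587) (nat_lit 5) (nat_lit 242) (nat_lit 264) (nat_lit 274))) (PT.nd (nat_lit 78) (PT.lf (nat_lit 45980) (nat_lit 6) (nat_lit 605) (nat_lit 5) (nat_lit 243) (nat_lit 264) (nat_lit 273)) (PT.lf (nat_lit 47272) (nat_lit 6) (nat_lit 622) (nat_lit 5) (nat_lit 244) (nat_lit 264) (nat_lit 272)))) (PT.nd (nat_lit 156) (PT.nd (nat_lit 78) (PT.lf (nat_lit 48488) (nat_lit 6) (nat_lit 638) (nat_lit 5) (nat_lit 245) (nat_lit 264) (nat_lit 271)) (PT.lf (nat_lit 49628)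 (nat_lit 6) (nat_lit 653) (nat_lit 5) (nat_lit 246) (nat_lit 264) (nat_lit 270))) (PT.nd (nat_lit 78) (PT.lf (nat_lit 50692) (nat_lit 6) (nat_lit 667) (nat_lit 5) (nat_lit 247) (nat_lit 264) (nat_lit 269)) (PT.lf (nat_lit 51680) (nat_lit 6) (nat_lit 680) (nat_lit 5) (nat_lit 248) (nat_lit 264) (nat_lit 268))))) (PT.nd (nat_lit 312) (PT.nd (nat_lit 156) (PT.nd (nat_lit 78) (PT.lf (nat_lit 52592) (nat_lit 6) (nat_lit 692) (nat_lit 5) (nat_lit 249) (nat_lit 264) (nat_lit 267)) (PT.lf (nat_lit 53428) (nat_lit 6) (nat_lit 703) (nat_lit 5) (nat_lit 250) (nat_lit 264) (nat_lit 266))) (PT.nd (nat_lit 78) (PT.lf (nat_lit 54188) (nat_lit 6) (nat_lit 713) (nat_lit 5) (nat_lit 251) (nat_lit 264) (nat_lit 265)) (PT.lf (nat_lit 54872) (nat_lit 3) (nat_lit 722) (nat_lit 4) (nat_lit 252) (nat_lit 264) (nat_lit 264)))) (PT.nd (nat_lit 156) (PT.nd (nat_lit 78) (PT.lf (nat_lit 55404) (nat_lit 6) (nat_lit 729) (nat_lit 4) (nat_lit 253) (nat_lit 264) (nat_lit 263)) (PT.lf (nat_lit 55860)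 (nat_lit 6) (nat_lit 735) (nat_lit 4) (nat_lit 254) (nat_lit 264) (nat_lit 262))) (PT.nd (nat_lit 78) (PT.lf (nat_lit 56240) (nat_lit 6) (nat_lit 740) (nat_lit 4) (nat_lit 255) (nat_lit 264) (nat_lit 261)) (PT.nd (nat_lit 78) (PT.lf (nat_lit 56544) (nat_lit 6) (nat_lit 744) (nat_lit 4) (nat_lit 256) (nat_lit 264) (nat_lit 260)) (PT.lf (nat_lit 56468) (nat_lit 6) (nat_lit 743) (nat_lit 4) (nat_lit 257) (nat_lit 264) (nat_lit 259))))))))
noncomputable def pc58 : PT := (PT.nd (nat_lit 1248) (PT.nd (nat_lit 624) (PT.nd (nat_lit 312) (PT.nd (nat_lit 156) (PT.nd (nat_lit 78) (PT.lf (nat_lit 56392) (nat_lit 3) (nat_lit 742) (nat_lit 2) (nat_lit 258) (nat_lit 264) (nat_lit 258)) (PT.lf (nat_lit 56468) (nat_lit 6) (nat_lit 743) (nat_lit 2) (nat_lit 259) (nat_lit 264) (nat_lit 257))) (PT.nd (nat_lit 78) (PT.lf (nat_lit 56544) (nat_lit 6) (nat_lit 744) (nat_lit 2) (nat_lit 260) (nat_lit 264) (nat_lit 256)) (PT.lf (nat_lit 56240) (nat_lit 6) (nat_lit 740) (nat_lit 2) (nat_lit 261)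 (nat_lit 264) (nat_lit 255)))) (PT.nd (nat_lit 156) (PT.nd (nat_lit 78) (PT.lf (nat_lit 55860) (nat_lit 6) (nat_lit 735) (nat_lit 2) (nat_lit 262) (nat_lit 264) (nat_lit 254)) (PT.lf (nat_lit 55404) (nat_lit 6) (nat_lit 729) (nat_lit 2) (nat_lit 263) (nat_lit 264) (nat_lit 253))) (PT.nd (nat_lit 78) (PT.lf (nat_lit 54872) (nat_lit 3) (nat_lit 722) (nat_lit 0) (nat_lit 264) (nat_lit 264) (nat_lit 252)) (PT.lf (nat_lit 54188) (nat_lit 6) (nat_lit 713) (nat_lit 0) (nat_lit 265) (nat_lit 264) (nat_lit 251))))) (PT.nd (nat_lit 312) (PT.nd (nat_lit 156) (PT.nd (nat_lit 78) (PT.lf (nat_lit 53428) (nat_lit 6) (nat_lit 703) (nat_lit 0) (nat_lit 266) (nat_lit 264) (nat_lit 250)) (PT.lf (nat_lit 52592) (nat_lit 6) (nat_lit 692) (nat_lit 0) (nat_lit 267) (nat_lit 264) (nat_lit 249))) (PT.nd (nat_lit 78) (PT.lf (nat_lit 51680) (nat_lit 6) (nat_lit 680) (nat_lit 0) (nat_lit 268) (nat_lit 264) (nat_lit 248)) (PT.lf (nat_lit 50692) (nat_lit 6) (nat_lit 667) (nat_lit 0) (nat_lit 269)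 (nat_lit 264) (nat_lit 247)))) (PT.nd (nat_lit 156) (PT.nd (nat_lit 78) (PT.lf (nat_lit 49628) (nat_lit 6) (nat_lit 653) (nat_lit 0) (nat_lit 270) (nat_lit 264) (nat_lit 246)) (PT.lf (nat_lit 48488) (nat_lit 6) (nat_lit 638) (nat_lit 0) (nat_lit 271) (nat_lit 264) (nat_lit 245))) (PT.nd (nat_lit 78) (PT.lf (nat_lit 47272) (nat_lit 6) (nat_lit 622) (nat_lit 0) (nat_lit 272) (nat_lit 264) (nat_lit 244)) (PT.lf (nat_lit 45980) (nat_lit 6) (nat_lit 605) (nat_lit 0) (nat_lit 273) (nat_lit 264) (nat_lit 243)))))) (PT.nd (nat_lit 624) (PT.nd (nat_lit 312) (PT.nd (nat_lit 156) (PT.nd (nat_lit 78) (PT.lf (nat_lit 44612) (nat_lit 6) (nat_lit 587) (nat_lit 0) (nat_lit 274) (nat_lit 264) (nat_lit 242)) (PT.lf (nat_lit 43168) (nat_lit 6) (nat_lit 568) (nat_lit 0) (nat_lit 275) (nat_lit 264) (nat_lit 241))) (PT.nd (nat_lit 78) (PT.lf (nat_lit 41648) (nat_lit 6) (nat_lit 548) (nat_lit 0) (nat_lit 276) (nat_lit 264) (nat_lit 240)) (PT.lf (nat_lit 40052) (nat_lit 6) (nat_lit 527) (nat_lit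 0) (nat_lit 277) (nat_lit 264) (nat_lit 239)))) (PT.nd (nat_lit 156) (PT.nd (nat_lit 78) (PT.lf (nat_lit 38380) (nat_lit 6) (nat_lit 505) (nat_lit 0) (nat_lit 278) (nat_lit 264) (nat_lit 238)) (PT.lf (nat_lit 36632) (nat_lit 6) (nat_lit 482) (nat_lit 0) (nat_lit 279) (nat_lit 264) (nat_lit 237))) (PT.nd (nat_lit 78) (PT.lf (nat_lit 34808) (nat_lit 6) (nat_lit 458) (nat_lit 0) (nat_lit 280) (nat_lit 264) (nat_lit 236)) (PT.lf (nat_lit 33060) (nat_lit 6) (nat_lit 435) (nat_lit 0) (nat_lit 281) (nat_lit 264) (nat_lit 235))))) (PT.nd (nat_lit 77064) (PT.nd (nat_lit 156) (PT.nd (nat_lit 78) (PT.lf (nat_lit 31996) (nat_lit 6) (nat_lit 421) (nat_lit 0) (nat_lit 282) (nat_lit 264) (nat_lit 234)) (PT.lf (nat_lit 31008) (nat_lit 6) (nat_lit 408) (nat_lit 0) (nat_lit 283) (nat_lit 264) (nat_lit 233))) (PT.nd (nat_lit 78) (PT.lf (nat_lit 30020) (nat_lit 6) (nat_lit 395) (nat_lit 0) (nat_lit 284) (nat_lit 264) (nat_lit 232)) (PT.lf (nat_lit 29108) (nat_lit 6) (nat_lit 383) (nat_lit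 0) (nat_lit 285) (nat_lit 264) (nat_lit 231)))) (PT.nd (nat_lit 156) (PT.nd (nat_lit 78) (PT.lf (nat_lit 27436) (nat_lit 6) (nat_lit 361) (nat_lit 5) (nat_lit 229) (nat_lit 265) (nat_lit 286)) (PT.lf (nat_lit 28272) (nat_lit 6) (nat_lit 372) (nat_lit 5) (nat_lit 230) (nat_lit 265) (nat_lit 285))) (PT.nd (nat_lit 78) (PT.lf (nat_lit 29184) (nat_lit 6) (nat_lit 384) (nat_lit 5) (nat_lit 231) (nat_lit 265) (nat_lit 284)) (PT.nd (nat_lit 78) (PT.lf (nat_lit 30096) (nat_lit 6) (nat_lit 396) (nat_lit 5) (nat_lit 232) (nat_lit 265) (nat_lit 283)) (PT.lf (nat_lit 31084) (nat_lit 6) (nat_lit 409) (nat_lit 5) (nat_lit 233) (nat_lit 265) (nat_lit 282))))))))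
noncomputable def pc59 : PT := (PT.nd (nat_lit 1326) (PT.nd (nat_lit 624) (PT.nd (nat_lit 312) (PT.nd (nat_lit 156) (PT.nd (nat_lit 78) (PT.lf (nat_lit 32072) (nat_lit 6) (nat_lit 422) (nat_lit 5) (nat_lit 234) (nat_lit 265) (nat_lit 281)) (PT.lf (nat_lit 33136) (nat_lit 6) (nat_lit 436) (nat_lit 5) (nat_lit 235) (nat_lit 265) (nat_lit 280))) (PT.nd (nat_lit 78) (PT.lf (nat_lit 34884) (nat_lit 6) (nat_lit 459) (nat_lit 5) (nat_lit 236) (nat_lit 265) (nat_lit 279)) (PT.lf (nat_lit 36708) (nat_lit 6) (nat_lit 483) (nat_lit 5) (nat_lit 237) (nat_lit 265) (nat_lit 278)))) (PT.nd (nat_lit 156) (PT.nd (nat_lit 78) (PT.lf (nat_lit 38456) (nat_lit 6) (nat_lit 506) (nat_lit 5) (nat_lit 238) (nat_lit 265) (nat_lit 277)) (PT.lf (nat_lit 40128) (nat_lit 6) (nat_lit 528) (nat_lit 5) (nat_lit 239) (nat_lit 265) (nat_lit 276))) (PT.nd (nat_lit 78) (PT.lf (nat_lit 41724) (nat_lit 6) (nat_lit 549) (nat_lit 5) (nat_lit 240) (nat_lit 265) (nat_lit 275)) (PT.lf (nat_lit 43244) (nat_lit 6)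 (nat_lit 569) (nat_lit 5) (nat_lit 241) (nat_lit 265) (nat_lit 274))))) (PT.nd (nat_lit 312) (PT.nd (nat_lit 156) (PT.nd (nat_lit 78) (PT.lf (nat_lit 44688) (nat_lit 6) (nat_lit 588) (nat_lit 5) (nat_lit 242) (nat_lit 265) (nat_lit 273)) (PT.lf (nat_lit 46056) (nat_lit 6) (nat_lit 606) (nat_lit 5) (nat_lit 243) (nat_lit 265) (nat_lit 272))) (PT.nd (nat_lit 78) (PT.lf (nat_lit 47348) (nat_lit 6) (nat_lit 623) (nat_lit 5) (nat_lit 244) (nat_lit 265) (nat_lit 271)) (PT.lf (nat_lit 48564) (nat_lit 6) (nat_lit 639) (nat_lit 5) (nat_lit 245) (nat_lit 265) (nat_lit 270)))) (PT.nd (nat_lit 156) (PT.nd (nat_lit 78) (PT.lf (nat_lit 49704) (nat_lit 6) (nat_lit 654) (nat_lit 5) (nat_lit 246) (nat_lit 265) (nat_lit 269)) (PT.lf (nat_lit 50768) (nat_lit 6) (nat_lit 668) (nat_lit 5) (nat_lit 247) (nat_lit 265) (nat_lit 268))) (PT.nd (nat_lit 78) (PT.lf (nat_lit 51756) (nat_lit 6) (nat_lit 681) (nat_lit 5) (nat_lit 248) (nat_lit 265) (nat_lit 267)) (PT.nd (nat_lit 78) (PT.lf (nat_lit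 52668) (nat_lit 6) (nat_lit 693) (nat_lit 5) (nat_lit 249) (nat_lit 265) (nat_lit 266)) (PT.lf (nat_lit 53504) (nat_lit 3) (nat_lit 704) (nat_lit 4) (nat_lit 250) (nat_lit 265) (nat_lit 265))))))) (PT.nd (nat_lit 624) (PT.nd (nat_lit 312) (PT.nd (nat_lit 156) (PT.nd (nat_lit 78) (PT.lf (nat_lit 54188) (nat_lit 6) (nat_lit 713) (nat_lit 4) (nat_lit 251) (nat_lit 265) (nat_lit 264)) (PT.lf (nat_lit 54796) (nat_lit 6) (nat_lit 721) (nat_lit 4) (nat_lit 252) (nat_lit 265) (nat_lit 263))) (PT.nd (nat_lit 78) (PT.lf (nat_lit 55328) (nat_lit 6) (nat_lit 728) (nat_lit 4) (nat_lit 253) (nat_lit 265) (nat_lit 262)) (PT.lf (nat_lit 55784) (nat_lit 6) (nat_lit 734) (nat_lit 4) (nat_lit 254) (nat_lit 265) (nat_lit 261)))) (PT.nd (nat_lit 156) (PT.nd (nat_lit 78) (PT.lf (nat_lit 56164) (nat_lit 6) (nat_lit 739) (nat_lit 4) (nat_lit 255) (nat_lit 265) (nat_lit 260)) (PT.lf (nat_lit 56088) (nat_lit 6) (nat_lit 738) (nat_lit 4) (nat_lit 256) (nat_lit 265) (nat_lit 259))) (PT.nd (nat_lit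 78) (PT.lf (nat_lit 56012) (nat_lit 6) (nat_lit 737) (nat_lit 4) (nat_lit 257) (nat_lit 265) (nat_lit 258)) (PT.lf (nat_lit 56012) (nat_lit 6) (nat_lit 737) (nat_lit 2) (nat_lit 258) (nat_lit 265) (nat_lit 257))))) (PT.nd (nat_lit 312) (PT.nd (nat_lit 156) (PT.nd (nat_lit 78) (PT.lf (nat_lit 56088) (nat_lit 6) (nat_lit 738) (nat_lit 2) (nat_lit 259) (nat_lit 265) (nat_lit 256)) (PT.lf (nat_lit 56164) (nat_lit 6) (nat_lit 739) (nat_lit 2) (nat_lit 260) (nat_lit 265) (nat_lit 255))) (PT.nd (nat_lit 78) (PT.lf (nat_lit 55784) (nat_lit 6) (nat_lit 734) (nat_lit 2) (nat_lit 261) (nat_lit 265) (nat_lit 254)) (PT.lf (nat_lit 55328) (nat_lit 6) (nat_lit 728) (nat_lit 2) (nat_lit 262) (nat_lit 265) (nat_lit 253)))) (PT.nd (nat_lit 156) (PT.nd (nat_lit 78) (PT.lf (nat_lit 54796) (nat_lit 6) (nat_lit 721) (nat_lit 2) (nat_lit 263) (nat_lit 265) (nat_lit 252)) (PT.lf (nat_lit 54188) (nat_lit 6) (nat_lit 713) (nat_lit 2) (nat_lit 264) (nat_lit 265) (nat_lit 251))) (PT.nd (nat_lit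 78) (PT.lf (nat_lit 53504) (nat_lit 3) (nat_lit 704) (nat_lit 0) (nat_lit 265) (nat_lit 265) (nat_lit 250)) (PT.nd (nat_lit 78) (PT.lf (nat_lit 52668) (nat_lit 6) (nat_lit 693) (nat_lit 0) (nat_lit 266) (nat_lit 265) (nat_lit 249)) (PT.lf (nat_lit 51756) (nat_lit 6) (nat_lit 681) (nat_lit 0) (nat_lit 267) (nat_lit 265) (nat_lit 248))))))))
noncomputable def pc60 : PT := (PT.nd (nat_lit 1248) (PT.nd (nat_lit 624) (PT.nd (nat_lit 312) (PT.nd (nat_lit 156) (PT.nd (nat_lit 78) (PT.lf (nat_lit 50768) (nat_lit 6) (nat_lit 668) (nat_lit 0) (nat_lit 268) (nat_lit 265) (nat_lit 247)) (PT.lf (nat_lit 49704) (nat_lit 6) (nat_lit 654) (nat_lit 0) (nat_lit 269) (nat_lit 265) (nat_lit 246))) (PT.nd (nat_lit 78) (PT.lf (nat_lit 48564) (nat_lit 6) (nat_lit 639) (nat_lit 0) (nat_lit 270) (nat_lit 265) (nat_lit 245)) (PT.lf (nat_lit 47348) (nat_lit 6) (nat_lit 623) (nat_lit 0) (nat_lit 271) (nat_lit 265) (nat_lit 244)))) (PT.nd (nat_lit 156) (PT.nd (nat_lit 78) (PT.lf (nat_lit 46056) (nat_lit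 6) (nat_lit 606) (nat_lit 0) (nat_lit 272) (nat_lit 265) (nat_lit 243)) (PT.lf (nat_lit 44688) (nat_lit 6) (nat_lit 588) (nat_lit 0) (nat_lit 273) (nat_lit 265) (nat_lit 242))) (PT.nd (nat_lit 78) (PT.lf (nat_lit 43244) (nat_lit 6) (nat_lit 569) (nat_lit 0) (nat_lit 274) (nat_lit 265) (nat_lit 241)) (PT.lf (nat_lit 41724) (nat_lit 6) (nat_lit 549) (nat_lit 0) (nat_lit 275) (nat_lit 265) (nat_lit 240))))) (PT.nd (nat_lit 312) (PT.nd (nat_lit 156) (PT.nd (nat_lit 78) (PT.lf (nat_lit 40128) (nat_lit 6) (nat_lit 528) (nat_lit 0) (nat_lit 276) (nat_lit 265) (nat_lit 239)) (PT.lf (nat_lit 38456) (nat_lit 6) (nat_lit 506) (nat_lit 0) (nat_lit 277) (nat_lit 265) (nat_lit 238))) (PT.nd (nat_lit 78) (PT.lf (nat_lit 36708) (nat_lit 6) (nat_lit 483) (nat_lit 0) (nat_lit 278) (nat_lit 265) (nat_lit 237)) (PT.lf (nat_lit 34884) (nat_lit 6) (nat_lit 459) (nat_lit 0) (nat_lit 279) (nat_lit 265) (nat_lit 236)))) (PT.nd (nat_lit 156) (PT.nd (nat_lit 78) (PT.lf (nat_lit 33136) (nat_lit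 6) (nat_lit 436) (nat_lit 0) (nat_lit 280) (nat_lit 265) (nat_lit 235)) (PT.lf (nat_lit 32072) (nat_lit 6) (nat_lit 422) (nat_lit 0) (nat_lit 281) (nat_lit 265) (nat_lit 234))) (PT.nd (nat_lit 78) (PT.lf (nat_lit 31084) (nat_lit 6) (nat_lit 409) (nat_lit 0) (nat_lit 282) (nat_lit 265) (nat_lit 233)) (PT.lf (nat_lit 30096) (nat_lit 6) (nat_lit 396) (nat_lit 0) (nat_lit 283) (nat_lit 265) (nat_lit 232)))))) (PT.nd (nat_lit 77220) (PT.nd (nat_lit 76908) (PT.nd (nat_lit 156) (PT.nd (nat_lit 78) (PT.lf (nat_lit 29184) (nat_lit 6) (nat_lit 384) (nat_lit 0) (nat_lit 284) (nat_lit 265) (nat_lit 231)) (PT.lf (nat_lit 28272) (nat_lit 6) (nat_lit 372) (nat_lit 0) (nat_lit 285) (nat_lit 265) (nat_lit 230))) (PT.nd (nat_lit 76674) (PT.lf (nat_lit 27436) (nat_lit 6) (nat_lit 361) (nat_lit 0) (nat_lit 286) (nat_lit 265) (nat_lit 229)) (PT.lf (nat_lit 26600) (nat_lit 6) (nat_lit 350) (nat_lit 5) (nat_lit 228) (nat_lit 266) (nat_lit 286)))) (PT.nd (nat_lit 156) (PT.nd (nat_lit 78) (PT.lf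 (nat_lit 27512) (nat_lit 6) (nat_lit 362) (nat_lit 5) (nat_lit 229) (nat_lit 266) (nat_lit 285)) (PT.lf (nat_lit 28348) (nat_lit 6) (nat_lit 373) (nat_lit 5) (nat_lit 230) (nat_lit 266) (nat_lit 284))) (PT.nd (nat_lit 78) (PT.lf (nat_lit 29260) (nat_lit 6) (nat_lit 385) (nat_lit 5) (nat_lit 231) (nat_lit 266) (nat_lit 283)) (PT.lf (nat_lit 30172) (nat_lit 6) (nat_lit 397) (nat_lit 5) (nat_lit 232) (nat_lit 266) (nat_lit 282))))) (PT.nd (nat_lit 312) (PT.nd (nat_lit 156) (PT.nd (nat_lit 78) (PT.lf (nat_lit 31160) (nat_lit 6) (nat_lit 410) (nat_lit 5) (nat_lit 233) (nat_lit 266) (nat_lit 281)) (PT.lf (nat_lit 32148) (nat_lit 6) (nat_lit 423) (nat_lit 5) (nat_lit 234) (nat_lit 266) (nat_lit 280))) (PT.nd (nat_lit 78) (PT.lf (nat_lit 33212) (nat_lit 6) (nat_lit 437) (nat_lit 5) (nat_lit 235) (nat_lit 266) (nat_lit 279)) (PT.lf (nat_lit 34960) (nat_lit 6) (nat_lit 460) (nat_lit 5) (nat_lit 236) (nat_lit 266) (nat_lit 278)))) (PT.nd (nat_lit 156) (PT.nd (nat_lit 78) (PT.lf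 (nat_lit 36784) (nat_lit 6) (nat_lit 484) (nat_lit 5) (nat_lit 237) (nat_lit 266) (nat_lit 277)) (PT.lf (nat_lit 38532) (nat_lit 6) (nat_lit 507) (nat_lit 5) (nat_lit 238) (nat_lit 266) (nat_lit 276))) (PT.nd (nat_lit 78) (PT.lf (nat_lit 40204) (nat_lit 6) (nat_lit 529) (nat_lit 5) (nat_lit 239) (nat_lit 266) (nat_lit 275)) (PT.nd (nat_lit 78) (PT.lf (nat_lit 41800) (nat_lit 6) (nat_lit 550) (nat_lit 5) (nat_lit 240) (nat_lit 266) (nat_lit 274)) (PT.lf (nat_lit 43320) (nat_lit 6) (nat_lit 570) (nat_lit 5) (nat_lit 241) (nat_lit 266) (nat_lit 273))))))))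
noncomputable def pc61 : PT := (PT.nd (nat_lit 1248) (PT.nd (nat_lit 624) (PT.nd (nat_lit 312) (PT.nd (nat_lit 156) (PT.nd (nat_lit 78) (PT.lf (nat_lit 44764) (nat_lit 6) (nat_lit 589) (nat_lit 5) (nat_lit 242) (nat_lit 266) (nat_lit 272)) (PT.lf (nat_lit 46132) (nat_lit 6) (nat_lit 607) (nat_lit 5) (nat_lit 243) (nat_lit 266) (nat_lit 271))) (PT.nd (nat_lit 78) (PT.lf (nat_lit 47424) (nat_lit 6) (nat_lit 624) (nat_lit 5) (nat_lit 244) (nat_lit 266) (nat_lit 270)) (PT.lf (nat_lit 48640) (nat_lit 6) (nat_lit 640) (nat_lit 5) (nat_lit 245) (nat_lit 266) (nat_lit 269)))) (PT.nd (nat_lit 156) (PT.nd (nat_lit 78) (PT.lf (nat_lit 49780) (nat_lit 6) (nat_lit 655) (nat_lit 5) (nat_lit 246) (nat_lit 266) (nat_lit 268)) (PT.lf (nat_lit 50844) (nat_lit 6) (nat_lit 669) (nat_lit 5) (nat_lit 247) (nat_lit 266) (nat_lit 267))) (PT.nd (nat_lit 78) (PT.lf (nat_lit 51832) (nat_lit 3) (nat_lit 682) (nat_lit 4) (nat_lit 248) (nat_lit 266) (nat_lit 266)) (PT.lf (nat_lit 52668) (nat_lit 6)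 (nat_lit 693) (nat_lit 4) (nat_lit 249) (nat_lit 266) (nat_lit 265))))) (PT.nd (nat_lit 312) (PT.nd (nat_lit 156) (PT.nd (nat_lit 78) (PT.lf (nat_lit 53428) (nat_lit 6) (nat_lit 703) (nat_lit 4) (nat_lit 250) (nat_lit 266) (nat_lit 264)) (PT.lf (nat_lit 54112) (nat_lit 6) (nat_lit 712) (nat_lit 4) (nat_lit 251) (nat_lit 266) (nat_lit 263))) (PT.nd (nat_lit 78) (PT.lf (nat_lit 54720) (nat_lit 6) (nat_lit 720) (nat_lit 4) (nat_lit 252) (nat_lit 266) (nat_lit 262)) (PT.lf (nat_lit 55252) (nat_lit 6) (nat_lit 727) (nat_lit 4) (nat_lit 253) (nat_lit 266) (nat_lit 261)))) (PT.nd (nat_lit 156) (PT.nd (nat_lit 78) (PT.lf (nat_lit 55708) (nat_lit 6) (nat_lit 733) (nat_lit 4) (nat_lit 254) (nat_lit 266) (nat_lit 260)) (PT.lf (nat_lit 55632) (nat_lit 6) (nat_lit 732) (nat_lit 4) (nat_lit 255) (nat_lit 266) (nat_lit 259))) (PT.nd (nat_lit 78) (PT.lf (nat_lit 55556) (nat_lit 6) (nat_lit 731) (nat_lit 4) (nat_lit 256) (nat_lit 266) (nat_lit 258)) (PT.lf (nat_lit 55480) (nat_lit 3)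 (nat_lit 730) (nat_lit 2) (nat_lit 257) (nat_lit 266) (nat_lit 257)))))) (PT.nd (nat_lit 624) (PT.nd (nat_lit 312) (PT.nd (nat_lit 156) (PT.nd (nat_lit 78) (PT.lf (nat_lit 55556) (nat_lit 6) (nat_lit 731) (nat_lit 2) (nat_lit 258) (nat_lit 266) (nat_lit 256)) (PT.lf (nat_lit 55632) (nat_lit 6) (nat_lit 732) (nat_lit 2) (nat_lit 259) (nat_lit 266) (nat_lit 255))) (PT.nd (nat_lit 78) (PT.lf (nat_lit 55708) (nat_lit 6) (nat_lit 733) (nat_lit 2) (nat_lit 260) (nat_lit 266) (nat_lit 254)) (PT.lf (nat_lit 55252) (nat_lit 6) (nat_lit 727) (nat_lit 2) (nat_lit 261) (nat_lit 266) (nat_lit 253)))) (PT.nd (nat_lit 156) (PT.nd (nat_lit 78) (PT.lf (nat_lit 54720) (nat_lit 6) (nat_lit 720) (nat_lit 2) (nat_lit 262) (nat_lit 266) (nat_lit 252)) (PT.lf (nat_lit 54112) (nat_lit 6) (nat_lit 712) (nat_lit 2) (nat_lit 263) (nat_lit 266) (nat_lit 251))) (PT.nd (nat_lit 78) (PT.lf (nat_lit 53428) (nat_lit 6) (nat_lit 703) (nat_lit 2) (nat_lit 264) (nat_lit 266) (nat_lit 250)) (PT.lf (nat_lit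 52668) (nat_lit 6) (nat_lit 693) (nat_lit 2) (nat_lit 265) (nat_lit 266) (nat_lit 249))))) (PT.nd (nat_lit 312) (PT.nd (nat_lit 156) (PT.nd (nat_lit 78) (PT.lf (nat_lit 51832) (nat_lit 3) (nat_lit 682) (nat_lit 0) (nat_lit 266) (nat_lit 266) (nat_lit 248)) (PT.lf (nat_lit 50844) (nat_lit 6) (nat_lit 669) (nat_lit 0) (nat_lit 267) (nat_lit 266) (nat_lit 247))) (PT.nd (nat_lit 78) (PT.lf (nat_lit 49780) (nat_lit 6) (nat_lit 655) (nat_lit 0) (nat_lit 268) (nat_lit 266) (nat_lit 246)) (PT.lf (nat_lit 48640) (nat_lit 6) (nat_lit 640) (nat_lit 0) (nat_lit 269) (nat_lit 266) (nat_lit 245)))) (PT.nd (nat_lit 156) (PT.nd (nat_lit 78) (PT.lf (nat_lit 47424) (nat_lit 6) (nat_lit 624) (nat_lit 0) (nat_lit 270) (nat_lit 266) (nat_lit 244)) (PT.lf (nat_lit 46132) (nat_lit 6) (nat_lit 607) (nat_lit 0) (nat_lit 271) (nat_lit 266) (nat_lit 243))) (PT.nd (nat_lit 78) (PT.lf (nat_lit 44764) (nat_lit 6) (nat_lit 589) (nat_lit 0) (nat_lit 272) (nat_lit 266) (nat_lit 242)) (PT.nd (nat_lit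 78) (PT.lf (nat_lit 43320) (nat_lit 6) (nat_lit 570) (nat_lit 0) (nat_lit 273) (nat_lit 266) (nat_lit 241)) (PT.lf (nat_lit 41800) (nat_lit 6) (nat_lit 550) (nat_lit 0) (nat_lit 274) (nat_lit 266) (nat_lit 240))))))))
noncomputable def pc62 : PT := (PT.nd (nat_lit 77766) (PT.nd (nat_lit 624) (PT.nd (nat_lit 312) (PT.nd (nat_lit 156) (PT.nd (nat_lit 78) (PT.lf (nat_lit 40204) (nat_lit 6) (nat_lit 529) (nat_lit 0) (nat_lit 275) (nat_lit 266) (nat_lit 239)) (PT.lf (nat_lit 38532) (nat_lit 6) (nat_lit 507) (nat_lit 0) (nat_lit 276) (nat_lit 266) (nat_lit 238))) (PT.nd (nat_lit 78) (PT.lf (nat_lit 36784) (nat_lit 6) (nat_lit 484) (nat_lit 0) (nat_lit 277) (nat_lit 266) (nat_lit 237)) (PT.lf (nat_lit 34960) (nat_lit 6) (nat_lit 460) (nat_lit 0) (nat_lit 278) (nat_lit 266) (nat_lit 236)))) (PT.nd (nat_lit 156) (PT.nd (nat_lit 78) (PT.lf (nat_lit 33212) (nat_lit 6) (nat_lit 437) (nat_lit 0) (nat_lit 279) (nat_lit 266) (nat_lit 235)) (PT.lf (nat_lit 32148) (nat_lit 6) (nat_lit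 423) (nat_lit 0) (nat_lit 280) (nat_lit 266) (nat_lit 234))) (PT.nd (nat_lit 78) (PT.lf (nat_lit 31160) (nat_lit 6) (nat_lit 410) (nat_lit 0) (nat_lit 281) (nat_lit 266) (nat_lit 233)) (PT.lf (nat_lit 30172) (nat_lit 6) (nat_lit 397) (nat_lit 0) (nat_lit 282) (nat_lit 266) (nat_lit 232))))) (PT.nd (nat_lit 76830) (PT.nd (nat_lit 156) (PT.nd (nat_lit 78) (PT.lf (nat_lit 29260) (nat_lit 6) (nat_lit 385) (nat_lit 0) (nat_lit 283) (nat_lit 266) (nat_lit 231)) (PT.lf (nat_lit 28348) (nat_lit 6) (nat_lit 373) (nat_lit 0) (nat_lit 284) (nat_lit 266) (nat_lit 230))) (PT.nd (nat_lit 78) (PT.lf (nat_lit 27512) (nat_lit 6) (nat_lit 362) (nat_lit 0) (nat_lit 285) (nat_lit 266) (nat_lit 229)) (PT.lf (nat_lit 26600) (nat_lit 6) (nat_lit 350) (nat_lit 0) (nat_lit 286) (nat_lit 266) (nat_lit 228)))) (PT.nd (nat_lit 156) (PT.nd (nat_lit 78) (PT.lf (nat_lit 25840) (nat_lit 6) (nat_lit 340) (nat_lit 5) (nat_lit 227) (nat_lit 267) (nat_lit 286)) (PT.lf (nat_lit 26676) (nat_lit 6) (nat_lit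 351) (nat_lit 5) (nat_lit 228) (nat_lit 267) (nat_lit 285))) (PT.nd (nat_lit 78) (PT.lf (nat_lit 27588) (nat_lit 6) (nat_lit 363) (nat_lit 5) (nat_lit 229) (nat_lit 267) (nat_lit 284)) (PT.lf (nat_lit 28424) (nat_lit 6) (nat_lit 374) (nat_lit 5) (nat_lit 230) (nat_lit 267) (nat_lit 283)))))) (PT.nd (nat_lit 624) (PT.nd (nat_lit 312) (PT.nd (nat_lit 156) (PT.nd (nat_lit 78) (PT.lf (nat_lit 29336) (nat_lit 6) (nat_lit 386) (nat_lit 5) (nat_lit 231) (nat_lit 267) (nat_lit 282)) (PT.lf (nat_lit 30248) (nat_lit 6) (nat_lit 398) (nat_lit 5) (nat_lit 232) (nat_lit 267) (nat_lit 281))) (PT.nd (nat_lit 78) (PT.lf (nat_lit 31236) (nat_lit 6) (nat_lit 411) (nat_lit 5) (nat_lit 233) (nat_lit 267) (nat_lit 280)) (PT.lf (nat_lit 32224) (nat_lit 6) (nat_lit 424) (nat_lit 5) (nat_lit 234) (nat_lit 267) (nat_lit 279)))) (PT.nd (nat_lit 156) (PT.nd (nat_lit 78) (PT.lf (nat_lit 33288) (nat_lit 6) (nat_lit 438) (nat_lit 5) (nat_lit 235) (nat_lit 267) (nat_lit 278)) (PT.lf (nat_lit 35036)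 (nat_lit 6) (nat_lit 461) (nat_lit 5) (nat_lit 236) (nat_lit 267) (nat_lit 277))) (PT.nd (nat_lit 78) (PT.lf (nat_lit 36860) (nat_lit 6) (nat_lit 485) (nat_lit 5) (nat_lit 237) (nat_lit 267) (nat_lit 276)) (PT.lf (nat_lit 38608) (nat_lit 6) (nat_lit 508) (nat_lit 5) (nat_lit 238) (nat_lit 267) (nat_lit 275))))) (PT.nd (nat_lit 312) (PT.nd (nat_lit 156) (PT.nd (nat_lit 78) (PT.lf (nat_lit 40280) (nat_lit 6) (nat_lit 530) (nat_lit 5) (nat_lit 239) (nat_lit 267) (nat_lit 274)) (PT.lf (nat_lit 41876) (nat_lit 6) (nat_lit 551) (nat_lit 5) (nat_lit 240) (nat_lit 267) (nat_lit 273))) (PT.nd (nat_lit 78) (PT.lf (nat_lit 43396) (nat_lit 6) (nat_lit 571) (nat_lit 5) (nat_lit 241) (nat_lit 267) (nat_lit 272)) (PT.lf (nat_lit 44840) (nat_lit 6) (nat_lit 590) (nat_lit 5) (nat_lit 242) (nat_lit 267) (nat_lit 271)))) (PT.nd (nat_lit 156) (PT.nd (nat_lit 78) (PT.lf (nat_lit 46208) (nat_lit 6) (nat_lit 608) (nat_lit 5) (nat_lit 243) (nat_lit 267) (nat_lit 270)) (PT.lf (nat_lit 47500)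 (nat_lit 6) (nat_lit 625) (nat_lit 5) (nat_lit 244) (nat_lit 267) (nat_lit 269))) (PT.nd (nat_lit 78) (PT.lf (nat_lit 48716) (nat_lit 6) (nat_lit 641) (nat_lit 5) (nat_lit 245) (nat_lit 267) (nat_lit 268)) (PT.nd (nat_lit 78) (PT.lf (nat_lit 49856) (nat_lit 3) (nat_lit 656) (nat_lit 4) (nat_lit 246) (nat_lit 267) (nat_lit 267)) (PT.lf (nat_lit 50844) (nat_lit 6) (nat_lit 669) (nat_lit 4) (nat_lit 247) (nat_lit 267) (nat_lit 266))))))))
noncomputable def pc63 : PT := (PT.nd (nat_lit 1326) (PT.nd (nat_lit 624) (PT.nd (nat_lit 312) (PT.nd (nat_lit 156) (PT.nd (nat_lit 78) (PT.lf (nat_lit 51756) (nat_lit 6) (nat_lit 681) (nat_lit 4) (nat_lit 248) (nat_lit 267) (nat_lit 265)) (PT.lf (nat_lit 52592) (nat_lit 6) (nat_lit 692) (nat_lit 4) (nat_lit 249) (nat_lit 267) (nat_lit 264))) (PT.nd (nat_lit 78) (PT.lf (nat_lit 53352) (nat_lit 6) (nat_lit 702) (nat_lit 4) (nat_lit 250) (nat_lit 267) (nat_lit 263)) (PT.lf (nat_lit 54036) (nat_lit 6) (nat_lit 711) (nat_lit 4) (nat_lit 251)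 (nat_lit 267) (nat_lit 262)))) (PT.nd (nat_lit 156) (PT.nd (nat_lit 78) (PT.lf (nat_lit 54644) (nat_lit 6) (nat_lit 719) (nat_lit 4) (nat_lit 252) (nat_lit 267) (nat_lit 261)) (PT.lf (nat_lit 55176) (nat_lit 6) (nat_lit 726) (nat_lit 4) (nat_lit 253) (nat_lit 267) (nat_lit 260))) (PT.nd (nat_lit 78) (PT.lf (nat_lit 55100) (nat_lit 6) (nat_lit 725) (nat_lit 4) (nat_lit 254) (nat_lit 267) (nat_lit 259)) (PT.lf (nat_lit 55024) (nat_lit 6) (nat_lit 724) (nat_lit 4) (nat_lit 255) (nat_lit 267) (nat_lit 258))))) (PT.nd (nat_lit 312) (PT.nd (nat_lit 156) (PT.nd (nat_lit 78) (PT.lf (nat_lit 54948) (nat_lit 6) (nat_lit 723) (nat_lit 4) (nat_lit 256) (nat_lit 267) (nat_lit 257)) (PT.lf (nat_lit 54948) (nat_lit 6) (nat_lit 723) (nat_lit 2) (nat_lit 257) (nat_lit 267) (nat_lit 256))) (PT.nd (nat_lit 78) (PT.lf (nat_lit 55024) (nat_lit 6) (nat_lit 724) (nat_lit 2) (nat_lit 258) (nat_lit 267) (nat_lit 255)) (PT.lf (nat_lit 55100) (nat_lit 6) (nat_lit 725) (nat_lit 2) (nat_lit 259)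 (nat_lit 267) (nat_lit 254)))) (PT.nd (nat_lit 156) (PT.nd (nat_lit 78) (PT.lf (nat_lit 55176) (nat_lit 6) (nat_lit 726) (nat_lit 2) (nat_lit 260) (nat_lit 267) (nat_lit 253)) (PT.lf (nat_lit 54644) (nat_lit 6) (nat_lit 719) (nat_lit 2) (nat_lit 261) (nat_lit 267) (nat_lit 252))) (PT.nd (nat_lit 78) (PT.lf (nat_lit 54036) (nat_lit 6) (nat_lit 711) (nat_lit 2) (nat_lit 262) (nat_lit 267) (nat_lit 251)) (PT.nd (nat_lit 78) (PT.lf (nat_lit 53352) (nat_lit 6) (nat_lit 702) (nat_lit 2) (nat_lit 263) (nat_lit 267) (nat_lit 250)) (PT.lf (nat_lit 52592) (nat_lit 6) (nat_lit 692) (nat_lit 2) (nat_lit 264) (nat_lit 267) (nat_lit 249))))))) (PT.nd (nat_lit 624) (PT.nd (nat_lit 312) (PT.nd (nat_lit 156) (PT.nd (nat_lit 78) (PT.lf (nat_lit 51756) (nat_lit 6) (nat_lit 681) (nat_lit 2) (nat_lit 265) (nat_lit 267) (nat_lit 248)) (PT.lf (nat_lit 50844) (nat_lit 6) (nat_lit 669) (nat_lit 2) (nat_lit 266) (nat_lit 267) (nat_lit 247))) (PT.nd (nat_lit 78) (PT.lf (nat_lit 49856) (nat_lit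 3) (nat_lit 656) (nat_lit 0) (nat_lit 267) (nat_lit 267) (nat_lit 246)) (PT.lf (nat_lit 48716) (nat_lit 6) (nat_lit 641) (nat_lit 0) (nat_lit 268) (nat_lit 267) (nat_lit 245)))) (PT.nd (nat_lit 156) (PT.nd (nat_lit 78) (PT.lf (nat_lit 47500) (nat_lit 6) (nat_lit 625) (nat_lit 0) (nat_lit 269) (nat_lit 267) (nat_lit 244)) (PT.lf (nat_lit 46208) (nat_lit 6) (nat_lit 608) (nat_lit 0) (nat_lit 270) (nat_lit 267) (nat_lit 243))) (PT.nd (nat_lit 78) (PT.lf (nat_lit 44840) (nat_lit 6) (nat_lit 590) (nat_lit 0) (nat_lit 271) (nat_lit 267) (nat_lit 242)) (PT.lf (nat_lit 43396) (nat_lit 6) (nat_lit 571) (nat_lit 0) (nat_lit 272) (nat_lit 267) (nat_lit 241))))) (PT.nd (nat_lit 312) (PT.nd (nat_lit 156) (PT.nd (nat_lit 78) (PT.lf (nat_lit 41876) (nat_lit 6) (nat_lit 551) (nat_lit 0) (nat_lit 273) (nat_lit 267) (nat_lit 240)) (PT.lf (nat_lit 40280) (nat_lit 6) (nat_lit 530) (nat_lit 0) (nat_lit 274) (nat_lit 267) (nat_lit 239))) (PT.nd (nat_lit 78) (PT.lf (nat_lit 38608) (nat_lit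 6) (nat_lit 508) (nat_lit 0) (nat_lit 275) (nat_lit 267) (nat_lit 238)) (PT.lf (nat_lit 36860) (nat_lit 6) (nat_lit 485) (nat_lit 0) (nat_lit 276) (nat_lit 267) (nat_lit 237)))) (PT.nd (nat_lit 156) (PT.nd (nat_lit 78) (PT.lf (nat_lit 35036) (nat_lit 6) (nat_lit 461) (nat_lit 0) (nat_lit 277) (nat_lit 267) (nat_lit 236)) (PT.lf (nat_lit 33288) (nat_lit 6) (nat_lit 438) (nat_lit 0) (nat_lit 278) (nat_lit 267) (nat_lit 235))) (PT.nd (nat_lit 78) (PT.lf (nat_lit 32224) (nat_lit 6) (nat_lit 424) (nat_lit 0) (nat_lit 279) (nat_lit 267) (nat_lit 234)) (PT.nd (nat_lit 78) (PT.lf (nat_lit 31236) (nat_lit 6) (nat_lit 411) (nat_lit 0) (nat_lit 280) (nat_lit 267) (nat_lit 233)) (PT.lf (nat_lit 30248) (nat_lit 6) (nat_lit 398) (nat_lit 0) (nat_lit 281) (nat_lit 267) (nat_lit 232))))))))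
noncomputable def pc64 : PT := (PT.nd (nat_lit 77610) (PT.nd (nat_lit 76986) (PT.nd (nat_lit 312) (PT.nd (nat_lit 156) (PT.nd (nat_lit 78) (PT.lf (nat_lit 29336) (nat_lit 6) (nat_lit 386) (nat_lit 0) (nat_lit 282) (nat_lit 267) (nat_lit 231)) (PT.lf (nat_lit 28424) (nat_lit 6) (nat_lit 374) (nat_lit 0) (nat_lit 283) (nat_lit 267) (nat_lit 230))) (PT.nd (nat_lit 78) (PT.lf (nat_lit 27588) (nat_lit 6) (nat_lit 363) (nat_lit 0) (nat_lit 284) (nat_lit 267) (nat_lit 229)) (PT.lf (nat_lit 26676) (nat_lit 6) (nat_lit 351) (nat_lit 0) (nat_lit 285) (nat_lit 267) (nat_lit 228)))) (PT.nd (nat_lit 76518) (PT.nd (nat_lit 76440) (PT.lf (nat_lit 25840) (nat_lit 6) (nat_lit 340) (nat_lit 0) (nat_lit 286) (nat_lit 267) (nat_lit 227)) (PT.lf (nat_lit 24320) (nat_lit 6) (nat_lit 320) (nat_lit 5) (nat_lit 225) (nat_lit 268) (nat_lit 287))) (PT.nd (nat_lit 78) (PT.lf (nat_lit 25080) (nat_lit 6) (nat_lit 330) (nat_lit 5) (nat_lit 226) (nat_lit 268) (nat_lit 286)) (PT.lf (nat_lit 25916) (nat_lit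 6) (nat_lit 341) (nat_lit 5) (nat_lit 227) (nat_lit 268) (nat_lit 285))))) (PT.nd (nat_lit 312) (PT.nd (nat_lit 156) (PT.nd (nat_lit 78) (PT.lf (nat_lit 26752) (nat_lit 6) (nat_lit 352) (nat_lit 5) (nat_lit 228) (nat_lit 268) (nat_lit 284)) (PT.lf (nat_lit 27664) (nat_lit 6) (nat_lit 364) (nat_lit 5) (nat_lit 229) (nat_lit 268) (nat_lit 283))) (PT.nd (nat_lit 78) (PT.lf (nat_lit 28500) (nat_lit 6) (nat_lit 375) (nat_lit 5) (nat_lit 230) (nat_lit 268) (nat_lit 282)) (PT.lf (nat_lit 29412) (nat_lit 6) (nat_lit 387) (nat_lit 5) (nat_lit 231) (nat_lit 268) (nat_lit 281)))) (PT.nd (nat_lit 156) (PT.nd (nat_lit 78) (PT.lf (nat_lit 30324) (nat_lit 6) (nat_lit 399) (nat_lit 5) (nat_lit 232) (nat_lit 268) (nat_lit 280)) (PT.lf (nat_lit 31312) (nat_lit 6) (nat_lit 412) (nat_lit 5) (nat_lit 233) (nat_lit 268) (nat_lit 279))) (PT.nd (nat_lit 78) (PT.lf (nat_lit 32300) (nat_lit 6) (nat_lit 425) (nat_lit 5) (nat_lit 234) (nat_lit 268) (nat_lit 278)) (PT.lf (nat_lit 33364) (nat_lit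 6) (nat_lit 439) (nat_lit 5) (nat_lit 235) (nat_lit 268) (nat_lit 277)))))) (PT.nd (nat_lit 624) (PT.nd (nat_lit 312) (PT.nd (nat_lit 156) (PT.nd (nat_lit 78) (PT.lf (nat_lit 35112) (nat_lit 6) (nat_lit 462) (nat_lit 5) (nat_lit 236) (nat_lit 268) (nat_lit 276)) (PT.lf (nat_lit 36936) (nat_lit 6) (nat_lit 486) (nat_lit 5) (nat_lit 237) (nat_lit 268) (nat_lit 275))) (PT.nd (nat_lit 78) (PT.lf (nat_lit 38684) (nat_lit 6) (nat_lit 509) (nat_lit 5) (nat_lit 238) (nat_lit 268) (nat_lit 274)) (PT.lf (nat_lit 40356) (nat_lit 6) (nat_lit 531) (nat_lit 5) (nat_lit 239) (nat_lit 268) (nat_lit 273)))) (PT.nd (nat_lit 156) (PT.nd (nat_lit 78) (PT.lf (nat_lit 41952) (nat_lit 6) (nat_lit 552) (nat_lit 5) (nat_lit 240) (nat_lit 268) (nat_lit 272)) (PT.lf (nat_lit 43472) (nat_lit 6) (nat_lit 572) (nat_lit 5) (nat_lit 241) (nat_lit 268) (nat_lit 271))) (PT.nd (nat_lit 78) (PT.lf (nat_lit 44916) (nat_lit 6) (nat_lit 591) (nat_lit 5) (nat_lit 242) (nat_lit 268) (nat_lit 270)) (PT.lf (nat_lit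 46284) (nat_lit 6) (nat_lit 609) (nat_lit 5) (nat_lit 243) (nat_lit 268) (nat_lit 269))))) (PT.nd (nat_lit 312) (PT.nd (nat_lit 156) (PT.nd (nat_lit 78) (PT.lf (nat_lit 47576) (nat_lit 3) (nat_lit 626) (nat_lit 4) (nat_lit 244) (nat_lit 268) (nat_lit 268)) (PT.lf (nat_lit 48716) (nat_lit 6) (nat_lit 641) (nat_lit 4) (nat_lit 245) (nat_lit 268) (nat_lit 267))) (PT.nd (nat_lit 78) (PT.lf (nat_lit 49780) (nat_lit 6) (nat_lit 655) (nat_lit 4) (nat_lit 246) (nat_lit 268) (nat_lit 266)) (PT.lf (nat_lit 50768) (nat_lit 6) (nat_lit 668) (nat_lit 4) (nat_lit 247) (nat_lit 268) (nat_lit 265)))) (PT.nd (nat_lit 156) (PT.nd (nat_lit 78) (PT.lf (nat_lit 51680) (nat_lit 6) (nat_lit 680) (nat_lit 4) (nat_lit 248) (nat_lit 268) (nat_lit 264)) (PT.lf (nat_lit 52516) (nat_lit 6) (nat_lit 691) (nat_lit 4) (nat_lit 249) (nat_lit 268) (nat_lit 263))) (PT.nd (nat_lit 78) (PT.lf (nat_lit 53276) (nat_lit 6) (nat_lit 701) (nat_lit 4) (nat_lit 250) (nat_lit 268) (nat_lit 262)) (PT.nd (nat_lit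 78) (PT.lf (nat_lit 53960) (nat_lit 6) (nat_lit 710) (nat_lit 4) (nat_lit 251) (nat_lit 268) (nat_lit 261)) (PT.lf (nat_lit 54568) (nat_lit 6) (nat_lit 718) (nat_lit 4) (nat_lit 252) (nat_lit 268) (nat_lit 260))))))))
noncomputable def pc65 : PT := (PT.nd (nat_lit 1248) (PT.nd (nat_lit 624) (PT.nd (nat_lit 312) (PT.nd (nat_lit 156) (PT.nd (nat_lit 78) (PT.lf (nat_lit 54492) (nat_lit 6) (nat_lit 717) (nat_lit 4) (nat_lit 253) (nat_lit 268) (nat_lit 259)) (PT.lf (nat_lit 54416) (nat_lit 6) (nat_lit 716) (nat_lit 4) (nat_lit 254) (nat_lit 268) (nat_lit 258))) (PT.nd (nat_lit 78) (PT.lf (nat_lit 54340) (nat_lit 6) (nat_lit 715) (nat_lit 4) (nat_lit 255) (nat_lit 268) (nat_lit 257)) (PT.lf (nat_lit 54264) (nat_lit 3) (nat_lit 714) (nat_lit 2) (nat_lit 256) (nat_lit 268) (nat_lit 256)))) (PT.nd (nat_lit 156) (PT.nd (nat_lit 78) (PT.lf (nat_lit 54340) (nat_lit 6) (nat_lit 715) (nat_lit 2) (nat_lit 257) (nat_lit 268) (nat_lit 255)) (PT.lf (nat_lit 54416) (nat_lit 6) (nat_lit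 716) (nat_lit 2) (nat_lit 258) (nat_lit 268) (nat_lit 254))) (PT.nd (nat_lit 78) (PT.lf (nat_lit 54492) (nat_lit 6) (nat_lit 717) (nat_lit 2) (nat_lit 259) (nat_lit 268) (nat_lit 253)) (PT.lf (nat_lit 54568) (nat_lit 6) (nat_lit 718) (nat_lit 2) (nat_lit 260) (nat_lit 268) (nat_lit 252))))) (PT.nd (nat_lit 312) (PT.nd (nat_lit 156) (PT.nd (nat_lit 78) (PT.lf (nat_lit 53960) (nat_lit 6) (nat_lit 710) (nat_lit 2) (nat_lit 261) (nat_lit 268) (nat_lit 251)) (PT.lf (nat_lit 53276) (nat_lit 6) (nat_lit 701) (nat_lit 2) (nat_lit 262) (nat_lit 268) (nat_lit 250))) (PT.nd (nat_lit 78) (PT.lf (nat_lit 52516) (nat_lit 6) (nat_lit 691) (nat_lit 2) (nat_lit 263) (nat_lit 268) (nat_lit 249)) (PT.lf (nat_lit 51680) (nat_lit 6) (nat_lit 680) (nat_lit 2) (nat_lit 264) (nat_lit 268) (nat_lit 248)))) (PT.nd (nat_lit 156) (PT.nd (nat_lit 78) (PT.lf (nat_lit 50768) (nat_lit 6) (nat_lit 668) (nat_lit 2) (nat_lit 265) (nat_lit 268) (nat_lit 247)) (PT.lf (nat_lit 49780) (nat_lit 6) (nat_lit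 655) (nat_lit 2) (nat_lit 266) (nat_lit 268) (nat_lit 246))) (PT.nd (nat_lit 78) (PT.lf (nat_lit 48716) (nat_lit 6) (nat_lit 641) (nat_lit 2) (nat_lit 267) (nat_lit 268) (nat_lit 245)) (PT.lf (nat_lit 47576) (nat_lit 3) (nat_lit 626) (nat_lit 0) (nat_lit 268) (nat_lit 268) (nat_lit 244)))))) (PT.nd (nat_lit 624) (PT.nd (nat_lit 312) (PT.nd (nat_lit 156) (PT.nd (nat_lit 78) (PT.lf (nat_lit 46284) (nat_lit 6) (nat_lit 609) (nat_lit 0) (nat_lit 269) (nat_lit 268) (nat_lit 243)) (PT.lf (nat_lit 44916) (nat_lit 6) (nat_lit 591) (nat_lit 0) (nat_lit 270) (nat_lit 268) (nat_lit 242))) (PT.nd (nat_lit 78) (PT.lf (nat_lit 43472) (nat_lit 6) (nat_lit 572) (nat_lit 0) (nat_lit 271) (nat_lit 268) (nat_lit 241)) (PT.lf (nat_lit 41952) (nat_lit 6) (nat_lit 552) (nat_lit 0) (nat_lit 272) (nat_lit 268) (nat_lit 240)))) (PT.nd (nat_lit 156) (PT.nd (nat_lit 78) (PT.lf (nat_lit 40356) (nat_lit 6) (nat_lit 531) (nat_lit 0) (nat_lit 273) (nat_lit 268) (nat_lit 239)) (PT.lf (nat_lit 38684)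 (nat_lit 6) (nat_lit 509) (nat_lit 0) (nat_lit 274) (nat_lit 268) (nat_lit 238))) (PT.nd (nat_lit 78) (PT.lf (nat_lit 36936) (nat_lit 6) (nat_lit 486) (nat_lit 0) (nat_lit 275) (nat_lit 268) (nat_lit 237)) (PT.lf (nat_lit 35112) (nat_lit 6) (nat_lit 462) (nat_lit 0) (nat_lit 276) (nat_lit 268) (nat_lit 236))))) (PT.nd (nat_lit 312) (PT.nd (nat_lit 156) (PT.nd (nat_lit 78) (PT.lf (nat_lit 33364) (nat_lit 6) (nat_lit 439) (nat_lit 0) (nat_lit 277) (nat_lit 268) (nat_lit 235)) (PT.lf (nat_lit 32300) (nat_lit 6) (nat_lit 425) (nat_lit 0) (nat_lit 278) (nat_lit 268) (nat_lit 234))) (PT.nd (nat_lit 78) (PT.lf (nat_lit 31312) (nat_lit 6) (nat_lit 412) (nat_lit 0) (nat_lit 279) (nat_lit 268) (nat_lit 233)) (PT.lf (nat_lit 30324) (nat_lit 6) (nat_lit 399) (nat_lit 0) (nat_lit 280) (nat_lit 268) (nat_lit 232)))) (PT.nd (nat_lit 156) (PT.nd (nat_lit 78) (PT.lf (nat_lit 29412) (nat_lit 6) (nat_lit 387) (nat_lit 0) (nat_lit 281) (nat_lit 268) (nat_lit 231)) (PT.lf (nat_lit 28500)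 (nat_lit 6) (nat_lit 375) (nat_lit 0) (nat_lit 282) (nat_lit 268) (nat_lit 230))) (PT.nd (nat_lit 78) (PT.lf (nat_lit 27664) (nat_lit 6) (nat_lit 364) (nat_lit 0) (nat_lit 283) (nat_lit 268) (nat_lit 229)) (PT.nd (nat_lit 78) (PT.lf (nat_lit 26752) (nat_lit 6) (nat_lit 352) (nat_lit 0) (nat_lit 284) (nat_lit 268) (nat_lit 228)) (PT.lf (nat_lit 25916) (nat_lit 6) (nat_lit 341) (nat_lit 0) (nat_lit 285) (nat_lit 268) (nat_lit 227))))))))
noncomputable def pc66 : PT := (PT.nd (nat_lit 77454) (PT.nd (nat_lit 76830) (PT.nd (nat_lit 76518) (PT.nd (nat_lit 76362) (PT.nd (nat_lit 78) (PT.lf (nat_lit 25080) (nat_lit 6) (nat_lit 330) (nat_lit 0) (nat_lit 286) (nat_lit 268) (nat_lit 226)) (PT.lf (nat_lit 24320) (nat_lit 6) (nat_lit 320) (nat_lit 0) (nat_lit 287) (nat_lit 268) (nat_lit 225))) (PT.nd (nat_lit 78) (PT.lf (nat_lit 23560) (nat_lit 6) (nat_lit 310) (nat_lit 5) (nat_lit 224) (nat_lit 269) (nat_lit 287)) (PT.lf (nat_lit 24396) (nat_lit 6) (nat_lit 321) (nat_lit 5) (nat_lit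 225) (nat_lit 269) (nat_lit 286)))) (PT.nd (nat_lit 156) (PT.nd (nat_lit 78) (PT.lf (nat_lit 25156) (nat_lit 6) (nat_lit 331) (nat_lit 5) (nat_lit 226) (nat_lit 269) (nat_lit 285)) (PT.lf (nat_lit 25992) (nat_lit 6) (nat_lit 342) (nat_lit 5) (nat_lit 227) (nat_lit 269) (nat_lit 284))) (PT.nd (nat_lit 78) (PT.lf (nat_lit 26828) (nat_lit 6) (nat_lit 353) (nat_lit 5) (nat_lit 228) (nat_lit 269) (nat_lit 283)) (PT.lf (nat_lit 27740) (nat_lit 6) (nat_lit 365) (nat_lit 5) (nat_lit 229) (nat_lit 269) (nat_lit 282))))) (PT.nd (nat_lit 312) (PT.nd (nat_lit 156) (PT.nd (nat_lit 78) (PT.lf (nat_lit 28576) (nat_lit 6) (nat_lit 376) (nat_lit 5) (nat_lit 230) (nat_lit 269) (nat_lit 281)) (PT.lf (nat_lit 29488) (nat_lit 6) (nat_lit 388) (nat_lit 5) (nat_lit 231) (nat_lit 269) (nat_lit 280))) (PT.nd (nat_lit 78) (PT.lf (nat_lit 30400) (nat_lit 6) (nat_lit 400) (nat_lit 5) (nat_lit 232) (nat_lit 269) (nat_lit 279)) (PT.lf (nat_lit 31388) (nat_lit 6) (nat_lit 413) (nat_lit 5) (nat_lit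 233) (nat_lit 269) (nat_lit 278)))) (PT.nd (nat_lit 156) (PT.nd (nat_lit 78) (PT.lf (nat_lit 32376) (nat_lit 6) (nat_lit 426) (nat_lit 5) (nat_lit 234) (nat_lit 269) (nat_lit 277)) (PT.lf (nat_lit 33440) (nat_lit 6) (nat_lit 440) (nat_lit 5) (nat_lit 235) (nat_lit 269) (nat_lit 276))) (PT.nd (nat_lit 78) (PT.lf (nat_lit 35188) (nat_lit 6) (nat_lit 463) (nat_lit 5) (nat_lit 236) (nat_lit 269) (nat_lit 275)) (PT.lf (nat_lit 37012) (nat_lit 6) (nat_lit 487) (nat_lit 5) (nat_lit 237) (nat_lit 269) (nat_lit 274)))))) (PT.nd (nat_lit 624) (PT.nd (nat_lit 312) (PT.nd (nat_lit 156) (PT.nd (nat_lit 78) (PT.lf (nat_lit 38760) (nat_lit 6) (nat_lit 510) (nat_lit 5) (nat_lit 238) (nat_lit 269) (nat_lit 273)) (PT.lf (nat_lit 40432) (nat_lit 6) (nat_lit 532) (nat_lit 5) (nat_lit 239) (nat_lit 269) (nat_lit 272))) (PT.nd (nat_lit 78) (PT.lf (nat_lit 42028) (nat_lit 6) (nat_lit 553) (nat_lit 5) (nat_lit 240) (nat_lit 269) (nat_lit 271)) (PT.lf (nat_lit 43548) (nat_lit 6) (nat_lit 573)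 (nat_lit 5) (nat_lit 241) (nat_lit 269) (nat_lit 270)))) (PT.nd (nat_lit 156) (PT.nd (nat_lit 78) (PT.lf (nat_lit 44992) (nat_lit 3) (nat_lit 592) (nat_lit 4) (nat_lit 242) (nat_lit 269) (nat_lit 269)) (PT.lf (nat_lit 46284) (nat_lit 6) (nat_lit 609) (nat_lit 4) (nat_lit 243) (nat_lit 269) (nat_lit 268))) (PT.nd (nat_lit 78) (PT.lf (nat_lit 47500) (nat_lit 6) (nat_lit 625) (nat_lit 4) (nat_lit 244) (nat_lit 269) (nat_lit 267)) (PT.lf (nat_lit 48640) (nat_lit 6) (nat_lit 640) (nat_lit 4) (nat_lit 245) (nat_lit 269) (nat_lit 266))))) (PT.nd (nat_lit 312) (PT.nd (nat_lit 156) (PT.nd (nat_lit 78) (PT.lf (nat_lit 49704) (nat_lit 6) (nat_lit 654) (nat_lit 4) (nat_lit 246) (nat_lit 269) (nat_lit 265)) (PT.lf (nat_lit 50692) (nat_lit 6) (nat_lit 667) (nat_lit 4) (nat_lit 247) (nat_lit 269) (nat_lit 264))) (PT.nd (nat_lit 78) (PT.lf (nat_lit 51604) (nat_lit 6) (nat_lit 679) (nat_lit 4) (nat_lit 248) (nat_lit 269) (nat_lit 263)) (PT.lf (nat_lit 52440) (nat_lit 6) (nat_lit 690)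 (nat_lit 4) (nat_lit 249) (nat_lit 269) (nat_lit 262)))) (PT.nd (nat_lit 156) (PT.nd (nat_lit 78) (PT.lf (nat_lit 53200) (nat_lit 6) (nat_lit 700) (nat_lit 4) (nat_lit 250) (nat_lit 269) (nat_lit 261)) (PT.lf (nat_lit 53884) (nat_lit 6) (nat_lit 709) (nat_lit 4) (nat_lit 251) (nat_lit 269) (nat_lit 260))) (PT.nd (nat_lit 78) (PT.lf (nat_lit 53808) (nat_lit 6) (nat_lit 708) (nat_lit 4) (nat_lit 252) (nat_lit 269) (nat_lit 259)) (PT.nd (nat_lit 78) (PT.lf (nat_lit 53732) (nat_lit 6) (nat_lit 707) (nat_lit 4) (nat_lit 253) (nat_lit 269) (nat_lit 258)) (PT.lf (nat_lit 53656) (nat_lit 6) (nat_lit 706) (nat_lit 4) (nat_lit 254) (nat_lit 269) (nat_lit 257))))))))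
noncomputable def pc67 : PT := (PT.nd (nat_lit 1248) (PT.nd (nat_lit 624) (PT.nd (nat_lit 312) (PT.nd (nat_lit 156) (PT.nd (nat_lit 78) (PT.lf (nat_lit 53580) (nat_lit 6) (nat_lit 705) (nat_lit 4) (nat_lit 255) (nat_lit 269) (nat_lit 256)) (PT.lf (nat_lit 53580) (nat_lit 6) (nat_lit 705) (nat_lit 2) (nat_lit 256) (nat_lit 269) (nat_lit 255))) (PT.nd (nat_lit 78) (PT.lf (nat_lit 53656) (nat_lit 6) (nat_lit 706) (nat_lit 2) (nat_lit 257) (nat_lit 269) (nat_lit 254)) (PT.lf (nat_lit 53732) (nat_lit 6) (nat_lit 707) (nat_lit 2) (nat_lit 258) (nat_lit 269) (nat_lit 253)))) (PT.nd (nat_lit 156) (PT.nd (nat_lit 78) (PT.lf (nat_lit 53808) (nat_lit 6) (nat_lit 708) (nat_lit 2) (nat_lit 259) (nat_lit 269) (nat_lit 252)) (PT.lf (nat_lit 53884) (nat_lit 6) (nat_lit 709) (nat_lit 2) (nat_lit 260) (nat_lit 269) (nat_lit 251))) (PT.nd (nat_lit 78) (PT.lf (nat_lit 53200) (nat_lit 6) (nat_lit 700) (nat_lit 2) (nat_lit 261) (nat_lit 269) (nat_lit 250)) (PT.lf (nat_lit 52440) (nat_lit 6)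 (nat_lit 690) (nat_lit 2) (nat_lit 262) (nat_lit 269) (nat_lit 249))))) (PT.nd (nat_lit 312) (PT.nd (nat_lit 156) (PT.nd (nat_lit 78) (PT.lf (nat_lit 51604) (nat_lit 6) (nat_lit 679) (nat_lit 2) (nat_lit 263) (nat_lit 269) (nat_lit 248)) (PT.lf (nat_lit 50692) (nat_lit 6) (nat_lit 667) (nat_lit 2) (nat_lit 264) (nat_lit 269) (nat_lit 247))) (PT.nd (nat_lit 78) (PT.lf (nat_lit 49704) (nat_lit 6) (nat_lit 654) (nat_lit 2) (nat_lit 265) (nat_lit 269) (nat_lit 246)) (PT.lf (nat_lit 48640) (nat_lit 6) (nat_lit 640) (nat_lit 2) (nat_lit 266) (nat_lit 269) (nat_lit 245)))) (PT.nd (nat_lit 156) (PT.nd (nat_lit 78) (PT.lf (nat_lit 47500) (nat_lit 6) (nat_lit 625) (nat_lit 2) (nat_lit 267) (nat_lit 269) (nat_lit 244)) (PT.lf (nat_lit 46284) (nat_lit 6) (nat_lit 609) (nat_lit 2) (nat_lit 268) (nat_lit 269) (nat_lit 243))) (PT.nd (nat_lit 78) (PT.lf (nat_lit 44992) (nat_lit 3) (nat_lit 592) (nat_lit 0) (nat_lit 269) (nat_lit 269) (nat_lit 242)) (PT.lf (nat_lit 43548) (nat_lit 6)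 (nat_lit 573) (nat_lit 0) (nat_lit 270) (nat_lit 269) (nat_lit 241)))))) (PT.nd (nat_lit 624) (PT.nd (nat_lit 312) (PT.nd (nat_lit 156) (PT.nd (nat_lit 78) (PT.lf (nat_lit 42028) (nat_lit 6) (nat_lit 553) (nat_lit 0) (nat_lit 271) (nat_lit 269) (nat_lit 240)) (PT.lf (nat_lit 40432) (nat_lit 6) (nat_lit 532) (nat_lit 0) (nat_lit 272) (nat_lit 269) (nat_lit 239))) (PT.nd (nat_lit 78) (PT.lf (nat_lit 38760) (nat_lit 6) (nat_lit 510) (nat_lit 0) (nat_lit 273) (nat_lit 269) (nat_lit 238)) (PT.lf (nat_lit 37012) (nat_lit 6) (nat_lit 487) (nat_lit 0) (nat_lit 274) (nat_lit 269) (nat_lit 237)))) (PT.nd (nat_lit 156) (PT.nd (nat_lit 78) (PT.lf (nat_lit 35188) (nat_lit 6) (nat_lit 463) (nat_lit 0) (nat_lit 275) (nat_lit 269) (nat_lit 236)) (PT.lf (nat_lit 33440) (nat_lit 6) (nat_lit 440) (nat_lit 0) (nat_lit 276) (nat_lit 269) (nat_lit 235))) (PT.nd (nat_lit 78) (PT.lf (nat_lit 32376) (nat_lit 6) (nat_lit 426) (nat_lit 0) (nat_lit 277) (nat_lit 269) (nat_lit 234)) (PT.lf (nat_lit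 31388) (nat_lit 6) (nat_lit 413) (nat_lit 0) (nat_lit 278) (nat_lit 269) (nat_lit 233))))) (PT.nd (nat_lit 312) (PT.nd (nat_lit 156) (PT.nd (nat_lit 78) (PT.lf (nat_lit 30400) (nat_lit 6) (nat_lit 400) (nat_lit 0) (nat_lit 279) (nat_lit 269) (nat_lit 232)) (PT.lf (nat_lit 29488) (nat_lit 6) (nat_lit 388) (nat_lit 0) (nat_lit 280) (nat_lit 269) (nat_lit 231))) (PT.nd (nat_lit 78) (PT.lf (nat_lit 28576) (nat_lit 6) (nat_lit 376) (nat_lit 0) (nat_lit 281) (nat_lit 269) (nat_lit 230)) (PT.lf (nat_lit 27740) (nat_lit 6) (nat_lit 365) (nat_lit 0) (nat_lit 282) (nat_lit 269) (nat_lit 229)))) (PT.nd (nat_lit 156) (PT.nd (nat_lit 78) (PT.lf (nat_lit 26828) (nat_lit 6) (nat_lit 353) (nat_lit 0) (nat_lit 283) (nat_lit 269) (nat_lit 228)) (PT.lf (nat_lit 25992) (nat_lit 6) (nat_lit 342) (nat_lit 0) (nat_lit 284) (nat_lit 269) (nat_lit 227))) (PT.nd (nat_lit 78) (PT.lf (nat_lit 25156) (nat_lit 6) (nat_lit 331) (nat_lit 0) (nat_lit 285) (nat_lit 269) (nat_lit 226)) (PT.nd (nat_lit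 78) (PT.lf (nat_lit 24396) (nat_lit 6) (nat_lit 321) (nat_lit 0) (nat_lit 286) (nat_lit 269) (nat_lit 225)) (PT.lf (nat_lit 23560) (nat_lit 6) (nat_lit 310) (nat_lit 0) (nat_lit 287) (nat_lit 269) (nat_lit 224))))))))
noncomputable def pc68 : PT := (PT.nd (nat_lit 1248) (PT.nd (nat_lit 624) (PT.nd (nat_lit 312) (PT.nd (nat_lit 156) (PT.nd (nat_lit 78) (PT.lf (nat_lit 22876) (nat_lit 6) (nat_lit 301) (nat_lit 5) (nat_lit 223) (nat_lit 270) (nat_lit 287)) (PT.lf (nat_lit 23636) (nat_lit 6) (nat_lit 311) (nat_lit 5) (nat_lit 224) (nat_lit 270) (nat_lit 286))) (PT.nd (nat_lit 78) (PT.lf (nat_lit 24472) (nat_lit 6) (nat_lit 322) (nat_lit 5) (nat_lit 225) (nat_lit 270) (nat_lit 285)) (PT.lf (nat_lit 25232) (nat_lit 6) (nat_lit 332) (nat_lit 5) (nat_lit 226) (nat_lit 270) (nat_lit 284)))) (PT.nd (nat_lit 156) (PT.nd (nat_lit 78) (PT.lf (nat_lit 26068) (nat_lit 6) (nat_lit 343) (nat_lit 5) (nat_lit 227) (nat_lit 270) (nat_lit 283)) (PT.lf (nat_lit 26904) (nat_lit 6) (nat_lit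 354) (nat_lit 5) (nat_lit 228) (nat_lit 270) (nat_lit 282))) (PT.nd (nat_lit 78) (PT.lf (nat_lit 27816) (nat_lit 6) (nat_lit 366) (nat_lit 5) (nat_lit 229) (nat_lit 270) (nat_lit 281)) (PT.lf (nat_lit 28652) (nat_lit 6) (nat_lit 377) (nat_lit 5) (nat_lit 230) (nat_lit 270) (nat_lit 280))))) (PT.nd (nat_lit 312) (PT.nd (nat_lit 156) (PT.nd (nat_lit 78) (PT.lf (nat_lit 29564) (nat_lit 6) (nat_lit 389) (nat_lit 5) (nat_lit 231) (nat_lit 270) (nat_lit 279)) (PT.lf (nat_lit 30476) (nat_lit 6) (nat_lit 401) (nat_lit 5) (nat_lit 232) (nat_lit 270) (nat_lit 278))) (PT.nd (nat_lit 78) (PT.lf (nat_lit 31464) (nat_lit 6) (nat_lit 414) (nat_lit 5) (nat_lit 233) (nat_lit 270) (nat_lit 277)) (PT.lf (nat_lit 32452) (nat_lit 6) (nat_lit 427) (nat_lit 5) (nat_lit 234) (nat_lit 270) (nat_lit 276)))) (PT.nd (nat_lit 156) (PT.nd (nat_lit 78) (PT.lf (nat_lit 33516) (nat_lit 6) (nat_lit 441) (nat_lit 5) (nat_lit 235) (nat_lit 270) (nat_lit 275)) (PT.lf (nat_lit 35264) (nat_lit 6) (nat_lit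 464) (nat_lit 5) (nat_lit 236) (nat_lit 270) (nat_lit 274))) (PT.nd (nat_lit 78) (PT.lf (nat_lit 37088) (nat_lit 6) (nat_lit 488) (nat_lit 5) (nat_lit 237) (nat_lit 270) (nat_lit 273)) (PT.lf (nat_lit 38836) (nat_lit 6) (nat_lit 511) (nat_lit 5) (nat_lit 238) (nat_lit 270) (nat_lit 272)))))) (PT.nd (nat_lit 624) (PT.nd (nat_lit 312) (PT.nd (nat_lit 156) (PT.nd (nat_lit 78) (PT.lf (nat_lit 40508) (nat_lit 6) (nat_lit 533) (nat_lit 5) (nat_lit 239) (nat_lit 270) (nat_lit 271)) (PT.lf (nat_lit 42104) (nat_lit 3) (nat_lit 554) (nat_lit 4) (nat_lit 240) (nat_lit 270) (nat_lit 270))) (PT.nd (nat_lit 78) (PT.lf (nat_lit 43548) (nat_lit 6) (nat_lit 573) (nat_lit 4) (nat_lit 241) (nat_lit 270) (nat_lit 269)) (PT.lf (nat_lit 44916) (nat_lit 6) (nat_lit 591) (nat_lit 4) (nat_lit 242) (nat_lit 270) (nat_lit 268)))) (PT.nd (nat_lit 156) (PT.nd (nat_lit 78) (PT.lf (nat_lit 46208) (nat_lit 6) (nat_lit 608) (nat_lit 4) (nat_lit 243) (nat_lit 270) (nat_lit 267)) (PT.lf (nat_lit 47424)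 (nat_lit 6) (nat_lit 624) (nat_lit 4) (nat_lit 244) (nat_lit 270) (nat_lit 266))) (PT.nd (nat_lit 78) (PT.lf (nat_lit 48564) (nat_lit 6) (nat_lit 639) (nat_lit 4) (nat_lit 245) (nat_lit 270) (nat_lit 265)) (PT.lf (nat_lit 49628) (nat_lit 6) (nat_lit 653) (nat_lit 4) (nat_lit 246) (nat_lit 270) (nat_lit 264))))) (PT.nd (nat_lit 312) (PT.nd (nat_lit 156) (PT.nd (nat_lit 78) (PT.lf (nat_lit 50616) (nat_lit 6) (nat_lit 666) (nat_lit 4) (nat_lit 247) (nat_lit 270) (nat_lit 263)) (PT.lf (nat_lit 51528) (nat_lit 6) (nat_lit 678) (nat_lit 4) (nat_lit 248) (nat_lit 270) (nat_lit 262))) (PT.nd (nat_lit 78) (PT.lf (nat_lit 52364) (nat_lit 6) (nat_lit 689) (nat_lit 4) (nat_lit 249) (nat_lit 270) (nat_lit 261)) (PT.lf (nat_lit 53124) (nat_lit 6) (nat_lit 699) (nat_lit 4) (nat_lit 250) (nat_lit 270) (nat_lit 260)))) (PT.nd (nat_lit 156) (PT.nd (nat_lit 78) (PT.lf (nat_lit 53048) (nat_lit 6) (nat_lit 698) (nat_lit 4) (nat_lit 251) (nat_lit 270) (nat_lit 259)) (PT.lf (nat_lit 52972)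 (nat_lit 6) (nat_lit 697) (nat_lit 4) (nat_lit 252) (nat_lit 270) (nat_lit 258))) (PT.nd (nat_lit 78) (PT.lf (nat_lit 52896) (nat_lit 6) (nat_lit 696) (nat_lit 4) (nat_lit 253) (nat_lit 270) (nat_lit 257)) (PT.nd (nat_lit 78) (PT.lf (nat_lit 52820) (nat_lit 6) (nat_lit 695) (nat_lit 4) (nat_lit 254) (nat_lit 270) (nat_lit 256)) (PT.lf (nat_lit 52744) (nat_lit 3) (nat_lit 694) (nat_lit 2) (nat_lit 255) (nat_lit 270) (nat_lit 255))))))))
noncomputable def pc69 : PT := (PT.nd (nat_lit 1248) (PT.nd (nat_lit 624) (PT.nd (nat_lit 312) (PT.nd (nat_lit 156) (PT.nd (nat_lit 78) (PT.lf (nat_lit 52820) (nat_lit 6) (nat_lit 695) (nat_lit 2) (nat_lit 256) (nat_lit 270) (nat_lit 254)) (PT.lf (nat_lit 52896) (nat_lit 6) (nat_lit 696) (nat_lit 2) (nat_lit 257) (nat_lit 270) (nat_lit 253))) (PT.nd (nat_lit 78) (PT.lf (nat_lit 52972) (nat_lit 6) (nat_lit 697) (nat_lit 2) (nat_lit 258) (nat_lit 270) (nat_lit 252)) (PT.lf (nat_lit 53048) (nat_lit 6) (nat_lit 698) (nat_lit 2) (nat_lit 259)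 (nat_lit 270) (nat_lit 251)))) (PT.nd (nat_lit 156) (PT.nd (nat_lit 78) (PT.lf (nat_lit 53124) (nat_lit 6) (nat_lit 699) (nat_lit 2) (nat_lit 260) (nat_lit 270) (nat_lit 250)) (PT.lf (nat_lit 52364) (nat_lit 6) (nat_lit 689) (nat_lit 2) (nat_lit 261) (nat_lit 270) (nat_lit 249))) (PT.nd (nat_lit 78) (PT.lf (nat_lit 51528) (nat_lit 6) (nat_lit 678) (nat_lit 2) (nat_lit 262) (nat_lit 270) (nat_lit 248)) (PT.lf (nat_lit 50616) (nat_lit 6) (nat_lit 666) (nat_lit 2) (nat_lit 263) (nat_lit 270) (nat_lit 247))))) (PT.nd (nat_lit 312) (PT.nd (nat_lit 156) (PT.nd (nat_lit 78) (PT.lf (nat_lit 49628) (nat_lit 6) (nat_lit 653) (nat_lit 2) (nat_lit 264) (nat_lit 270) (nat_lit 246)) (PT.lf (nat_lit 48564) (nat_lit 6) (nat_lit 639) (nat_lit 2) (nat_lit 265) (nat_lit 270) (nat_lit 245))) (PT.nd (nat_lit 78) (PT.lf (nat_lit 47424) (nat_lit 6) (nat_lit 624) (nat_lit 2) (nat_lit 266) (nat_lit 270) (nat_lit 244)) (PT.lf (nat_lit 46208) (nat_lit 6) (nat_lit 608) (nat_lit 2) (nat_lit 267)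 (nat_lit 270) (nat_lit 243)))) (PT.nd (nat_lit 156) (PT.nd (nat_lit 78) (PT.lf (nat_lit 44916) (nat_lit 6) (nat_lit 591) (nat_lit 2) (nat_lit 268) (nat_lit 270) (nat_lit 242)) (PT.lf (nat_lit 43548) (nat_lit 6) (nat_lit 573) (nat_lit 2) (nat_lit 269) (nat_lit 270) (nat_lit 241))) (PT.nd (nat_lit 78) (PT.lf (nat_lit 42104) (nat_lit 3) (nat_lit 554) (nat_lit 0) (nat_lit 270) (nat_lit 270) (nat_lit 240)) (PT.lf (nat_lit 40508) (nat_lit 6) (nat_lit 533) (nat_lit 0) (nat_lit 271) (nat_lit 270) (nat_lit 239)))))) (PT.nd (nat_lit 624) (PT.nd (nat_lit 312) (PT.nd (nat_lit 156) (PT.nd (nat_lit 78) (PT.lf (nat_lit 38836) (nat_lit 6) (nat_lit 511) (nat_lit 0) (nat_lit 272) (nat_lit 270) (nat_lit 238)) (PT.lf (nat_lit 37088) (nat_lit 6) (nat_lit 488) (nat_lit 0) (nat_lit 273) (nat_lit 270) (nat_lit 237))) (PT.nd (nat_lit 78) (PT.lf (nat_lit 35264) (nat_lit 6) (nat_lit 464) (nat_lit 0) (nat_lit 274) (nat_lit 270) (nat_lit 236)) (PT.lf (nat_lit 33516) (nat_lit 6) (nat_lit 441) (nat_lit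 0) (nat_lit 275) (nat_lit 270) (nat_lit 235)))) (PT.nd (nat_lit 156) (PT.nd (nat_lit 78) (PT.lf (nat_lit 32452) (nat_lit 6) (nat_lit 427) (nat_lit 0) (nat_lit 276) (nat_lit 270) (nat_lit 234)) (PT.lf (nat_lit 31464) (nat_lit 6) (nat_lit 414) (nat_lit 0) (nat_lit 277) (nat_lit 270) (nat_lit 233))) (PT.nd (nat_lit 78) (PT.lf (nat_lit 30476) (nat_lit 6) (nat_lit 401) (nat_lit 0) (nat_lit 278) (nat_lit 270) (nat_lit 232)) (PT.lf (nat_lit 29564) (nat_lit 6) (nat_lit 389) (nat_lit 0) (nat_lit 279) (nat_lit 270) (nat_lit 231))))) (PT.nd (nat_lit 312) (PT.nd (nat_lit 156) (PT.nd (nat_lit 78) (PT.lf (nat_lit 28652) (nat_lit 6) (nat_lit 377) (nat_lit 0) (nat_lit 280) (nat_lit 270) (nat_lit 230)) (PT.lf (nat_lit 27816) (nat_lit 6) (nat_lit 366) (nat_lit 0) (nat_lit 281) (nat_lit 270) (nat_lit 229))) (PT.nd (nat_lit 78) (PT.lf (nat_lit 26904) (nat_lit 6) (nat_lit 354) (nat_lit 0) (nat_lit 282) (nat_lit 270) (nat_lit 228)) (PT.lf (nat_lit 26068) (nat_lit 6) (nat_lit 343) (nat_lit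 0) (nat_lit 283) (nat_lit 270) (nat_lit 227)))) (PT.nd (nat_lit 156) (PT.nd (nat_lit 78) (PT.lf (nat_lit 25232) (nat_lit 6) (nat_lit 332) (nat_lit 0) (nat_lit 284) (nat_lit 270) (nat_lit 226)) (PT.lf (nat_lit 24472) (nat_lit 6) (nat_lit 322) (nat_lit 0) (nat_lit 285) (nat_lit 270) (nat_lit 225))) (PT.nd (nat_lit 78) (PT.lf (nat_lit 23636) (nat_lit 6) (nat_lit 311) (nat_lit 0) (nat_lit 286) (nat_lit 270) (nat_lit 224)) (PT.nd (nat_lit 76050) (PT.lf (nat_lit 22876) (nat_lit 6) (nat_lit 301) (nat_lit 0) (nat_lit 287) (nat_lit 270) (nat_lit 223)) (PT.lf (nat_lit 21508) (nat_lit 6) (nat_lit 283) (nat_lit 5) (nat_lit 221) (nat_lit 271) (nat_lit 288))))))))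
noncomputable def pc70 : PT := (PT.nd (nat_lit 1248) (PT.nd (nat_lit 624) (PT.nd (nat_lit 312) (PT.nd (nat_lit 156) (PT.nd (nat_lit 78) (PT.lf (nat_lit 22192) (nat_lit 6) (nat_lit 292) (nat_lit 5) (nat_lit 222) (nat_lit 271) (nat_lit 287)) (PT.lf (nat_lit 22952) (nat_lit 6) (nat_lit 302) (nat_lit 5) (nat_lit 223) (nat_lit 271) (nat_lit 286))) (PT.nd (nat_lit 78) (PT.lf (nat_lit 23712) (nat_lit 6) (nat_lit 312) (nat_lit 5) (nat_lit 224) (nat_lit 271) (nat_lit 285)) (PT.lf (nat_lit 24548) (nat_lit 6) (nat_lit 323) (nat_lit 5) (nat_lit 225) (nat_lit 271) (nat_lit 284)))) (PT.nd (nat_lit 156) (PT.nd (nat_lit 78) (PT.lf (nat_lit 25308) (nat_lit 6) (nat_lit 333) (nat_lit 5) (nat_lit 226) (nat_lit 271) (nat_lit 283)) (PT.lf (nat_lit 26144) (nat_lit 6) (nat_lit 344) (nat_lit 5) (nat_lit 227) (nat_lit 271) (nat_lit 282))) (PT.nd (nat_lit 78) (PT.lf (nat_lit 26980) (nat_lit 6) (nat_lit 355) (nat_lit 5) (nat_lit 228) (nat_lit 271) (nat_lit 281)) (PT.lf (nat_lit 27892) (nat_lit 6)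 (nat_lit 367) (nat_lit 5) (nat_lit 229) (nat_lit 271) (nat_lit 280))))) (PT.nd (nat_lit 312) (PT.nd (nat_lit 156) (PT.nd (nat_lit 78) (PT.lf (nat_lit 28728) (nat_lit 6) (nat_lit 378) (nat_lit 5) (nat_lit 230) (nat_lit 271) (nat_lit 279)) (PT.lf (nat_lit 29640) (nat_lit 6) (nat_lit 390) (nat_lit 5) (nat_lit 231) (nat_lit 271) (nat_lit 278))) (PT.nd (nat_lit 78) (PT.lf (nat_lit 30552) (nat_lit 6) (nat_lit 402) (nat_lit 5) (nat_lit 232) (nat_lit 271) (nat_lit 277)) (PT.lf (nat_lit 31540) (nat_lit 6) (nat_lit 415) (nat_lit 5) (nat_lit 233) (nat_lit 271) (nat_lit 276)))) (PT.nd (nat_lit 156) (PT.nd (nat_lit 78) (PT.lf (nat_lit 32528) (nat_lit 6) (nat_lit 428) (nat_lit 5) (nat_lit 234) (nat_lit 271) (nat_lit 275)) (PT.lf (nat_lit 33592) (nat_lit 6) (nat_lit 442) (nat_lit 5) (nat_lit 235) (nat_lit 271) (nat_lit 274))) (PT.nd (nat_lit 78) (PT.lf (nat_lit 35340) (nat_lit 6) (nat_lit 465) (nat_lit 5) (nat_lit 236) (nat_lit 271) (nat_lit 273)) (PT.lf (nat_lit 37164) (nat_lit 6)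 (nat_lit 489) (nat_lit 5) (nat_lit 237) (nat_lit 271) (nat_lit 272)))))) (PT.nd (nat_lit 624) (PT.nd (nat_lit 312) (PT.nd (nat_lit 156) (PT.nd (nat_lit 78) (PT.lf (nat_lit 38912) (nat_lit 3) (nat_lit 512) (nat_lit 4) (nat_lit 238) (nat_lit 271) (nat_lit 271)) (PT.lf (nat_lit 40508) (nat_lit 6) (nat_lit 533) (nat_lit 4) (nat_lit 239) (nat_lit 271) (nat_lit 270))) (PT.nd (nat_lit 78) (PT.lf (nat_lit 42028) (nat_lit 6) (nat_lit 553) (nat_lit 4) (nat_lit 240) (nat_lit 271) (nat_lit 269)) (PT.lf (nat_lit 43472) (nat_lit 6) (nat_lit 572) (nat_lit 4) (nat_lit 241) (nat_lit 271) (nat_lit 268)))) (PT.nd (nat_lit 156) (PT.nd (nat_lit 78) (PT.lf (nat_lit 44840) (nat_lit 6) (nat_lit 590) (nat_lit 4) (nat_lit 242) (nat_lit 271) (nat_lit 267)) (PT.lf (nat_lit 46132) (nat_lit 6) (nat_lit 607) (nat_lit 4) (nat_lit 243) (nat_lit 271) (nat_lit 266))) (PT.nd (nat_lit 78) (PT.lf (nat_lit 47348) (nat_lit 6) (nat_lit 623) (nat_lit 4) (nat_lit 244) (nat_lit 271) (nat_lit 265)) (PT.lf (nat_lit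 48488) (nat_lit 6) (nat_lit 638) (nat_lit 4) (nat_lit 245) (nat_lit 271) (nat_lit 264))))) (PT.nd (nat_lit 312) (PT.nd (nat_lit 156) (PT.nd (nat_lit 78) (PT.lf (nat_lit 49552) (nat_lit 6) (nat_lit 652) (nat_lit 4) (nat_lit 246) (nat_lit 271) (nat_lit 263)) (PT.lf (nat_lit 50540) (nat_lit 6) (nat_lit 665) (nat_lit 4) (nat_lit 247) (nat_lit 271) (nat_lit 262))) (PT.nd (nat_lit 78) (PT.lf (nat_lit 51452) (nat_lit 6) (nat_lit 677) (nat_lit 4) (nat_lit 248) (nat_lit 271) (nat_lit 261)) (PT.lf (nat_lit 52288) (nat_lit 6) (nat_lit 688) (nat_lit 4) (nat_lit 249) (nat_lit 271) (nat_lit 260)))) (PT.nd (nat_lit 156) (PT.nd (nat_lit 78) (PT.lf (nat_lit 52212) (nat_lit 6) (nat_lit 687) (nat_lit 4) (nat_lit 250) (nat_lit 271) (nat_lit 259)) (PT.lf (nat_lit 52136) (nat_lit 6) (nat_lit 686) (nat_lit 4) (nat_lit 251) (nat_lit 271) (nat_lit 258))) (PT.nd (nat_lit 78) (PT.lf (nat_lit 52060) (nat_lit 6) (nat_lit 685) (nat_lit 4) (nat_lit 252) (nat_lit 271) (nat_lit 257)) (PT.nd (nat_lit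 78) (PT.lf (nat_lit 51984) (nat_lit 6) (nat_lit 684) (nat_lit 4) (nat_lit 253) (nat_lit 271) (nat_lit 256)) (PT.lf (nat_lit 51908) (nat_lit 6) (nat_lit 683) (nat_lit 4) (nat_lit 254) (nat_lit 271) (nat_lit 255))))))))
noncomputable def pc71 : PT := (PT.nd (nat_lit 1326) (PT.nd (nat_lit 624) (PT.nd (nat_lit 312) (PT.nd (nat_lit 156) (PT.nd (nat_lit 78) (PT.lf (nat_lit 51908) (nat_lit 6) (nat_lit 683) (nat_lit 2) (nat_lit 255) (nat_lit 271) (nat_lit 254)) (PT.lf (nat_lit 51984) (nat_lit 6) (nat_lit 684) (nat_lit 2) (nat_lit 256) (nat_lit 271) (nat_lit 253))) (PT.nd (nat_lit 78) (PT.lf (nat_lit 52060) (nat_lit 6) (nat_lit 685) (nat_lit 2) (nat_lit 257) (nat_lit 271) (nat_lit 252)) (PT.lf (nat_lit 52136) (nat_lit 6) (nat_lit 686) (nat_lit 2) (nat_lit 258) (nat_lit 271) (nat_lit 251)))) (PT.nd (nat_lit 156) (PT.nd (nat_lit 78) (PT.lf (nat_lit 52212) (nat_lit 6) (nat_lit 687) (nat_lit 2) (nat_lit 259) (nat_lit 271) (nat_lit 250)) (PT.lf (nat_lit 52288) (nat_lit 6) (nat_lit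 688) (nat_lit 2) (nat_lit 260) (nat_lit 271) (nat_lit 249))) (PT.nd (nat_lit 78) (PT.lf (nat_lit 51452) (nat_lit 6) (nat_lit 677) (nat_lit 2) (nat_lit 261) (nat_lit 271) (nat_lit 248)) (PT.lf (nat_lit 50540) (nat_lit 6) (nat_lit 665) (nat_lit 2) (nat_lit 262) (nat_lit 271) (nat_lit 247))))) (PT.nd (nat_lit 312) (PT.nd (nat_lit 156) (PT.nd (nat_lit 78) (PT.lf (nat_lit 49552) (nat_lit 6) (nat_lit 652) (nat_lit 2) (nat_lit 263) (nat_lit 271) (nat_lit 246)) (PT.lf (nat_lit 48488) (nat_lit 6) (nat_lit 638) (nat_lit 2) (nat_lit 264) (nat_lit 271) (nat_lit 245))) (PT.nd (nat_lit 78) (PT.lf (nat_lit 47348) (nat_lit 6) (nat_lit 623) (nat_lit 2) (nat_lit 265) (nat_lit 271) (nat_lit 244)) (PT.lf (nat_lit 46132) (nat_lit 6) (nat_lit 607) (nat_lit 2) (nat_lit 266) (nat_lit 271) (nat_lit 243)))) (PT.nd (nat_lit 156) (PT.nd (nat_lit 78) (PT.lf (nat_lit 44840) (nat_lit 6) (nat_lit 590) (nat_lit 2) (nat_lit 267) (nat_lit 271) (nat_lit 242)) (PT.lf (nat_lit 43472) (nat_lit 6) (nat_lit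 572) (nat_lit 2) (nat_lit 268) (nat_lit 271) (nat_lit 241))) (PT.nd (nat_lit 78) (PT.lf (nat_lit 42028) (nat_lit 6) (nat_lit 553) (nat_lit 2) (nat_lit 269) (nat_lit 271) (nat_lit 240)) (PT.nd (nat_lit 78) (PT.lf (nat_lit 40508) (nat_lit 6) (nat_lit 533) (nat_lit 2) (nat_lit 270) (nat_lit 271) (nat_lit 239)) (PT.lf (nat_lit 38912) (nat_lit 3) (nat_lit 512) (nat_lit 0) (nat_lit 271) (nat_lit 271) (nat_lit 238))))))) (PT.nd (nat_lit 624) (PT.nd (nat_lit 312) (PT.nd (nat_lit 156) (PT.nd (nat_lit 78) (PT.lf (nat_lit 37164) (nat_lit 6) (nat_lit 489) (nat_lit 0) (nat_lit 272) (nat_lit 271) (nat_lit 237)) (PT.lf (nat_lit 35340) (nat_lit 6) (nat_lit 465) (nat_lit 0) (nat_lit 273) (nat_lit 271) (nat_lit 236))) (PT.nd (nat_lit 78) (PT.lf (nat_lit 33592) (nat_lit 6) (nat_lit 442) (nat_lit 0) (nat_lit 274) (nat_lit 271) (nat_lit 235)) (PT.lf (nat_lit 32528) (nat_lit 6) (nat_lit 428) (nat_lit 0) (nat_lit 275) (nat_lit 271) (nat_lit 234)))) (PT.nd (nat_lit 156) (PT.nd (nat_lit 78) (PT.lf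 (nat_lit 31540) (nat_lit 6) (nat_lit 415) (nat_lit 0) (nat_lit 276) (nat_lit 271) (nat_lit 233)) (PT.lf (nat_lit 30552) (nat_lit 6) (nat_lit 402) (nat_lit 0) (nat_lit 277) (nat_lit 271) (nat_lit 232))) (PT.nd (nat_lit 78) (PT.lf (nat_lit 29640) (nat_lit 6) (nat_lit 390) (nat_lit 0) (nat_lit 278) (nat_lit 271) (nat_lit 231)) (PT.lf (nat_lit 28728) (nat_lit 6) (nat_lit 378) (nat_lit 0) (nat_lit 279) (nat_lit 271) (nat_lit 230))))) (PT.nd (nat_lit 312) (PT.nd (nat_lit 156) (PT.nd (nat_lit 78) (PT.lf (nat_lit 27892) (nat_lit 6) (nat_lit 367) (nat_lit 0) (nat_lit 280) (nat_lit 271) (nat_lit 229)) (PT.lf (nat_lit 26980) (nat_lit 6) (nat_lit 355) (nat_lit 0) (nat_lit 281) (nat_lit 271) (nat_lit 228))) (PT.nd (nat_lit 78) (PT.lf (nat_lit 26144) (nat_lit 6) (nat_lit 344) (nat_lit 0) (nat_lit 282) (nat_lit 271) (nat_lit 227)) (PT.lf (nat_lit 25308) (nat_lit 6) (nat_lit 333) (nat_lit 0) (nat_lit 283) (nat_lit 271) (nat_lit 226)))) (PT.nd (nat_lit 156) (PT.nd (nat_lit 78) (PT.lf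 (nat_lit 24548) (nat_lit 6) (nat_lit 323) (nat_lit 0) (nat_lit 284) (nat_lit 271) (nat_lit 225)) (PT.lf (nat_lit 23712) (nat_lit 6) (nat_lit 312) (nat_lit 0) (nat_lit 285) (nat_lit 271) (nat_lit 224))) (PT.nd (nat_lit 78) (PT.lf (nat_lit 22952) (nat_lit 6) (nat_lit 302) (nat_lit 0) (nat_lit 286) (nat_lit 271) (nat_lit 223)) (PT.nd (nat_lit 78) (PT.lf (nat_lit 22192) (nat_lit 6) (nat_lit 292) (nat_lit 0) (nat_lit 287) (nat_lit 271) (nat_lit 222)) (PT.lf (nat_lit 21508) (nat_lit 6) (nat_lit 283) (nat_lit 0) (nat_lit 288) (nat_lit 271) (nat_lit 221))))))))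
noncomputable def pc72 : PT := (PT.nd (nat_lit 1248) (PT.nd (nat_lit 624) (PT.nd (nat_lit 312) (PT.nd (nat_lit 156) (PT.nd (nat_lit 78) (PT.lf (nat_lit 20824) (nat_lit 6) (nat_lit 274) (nat_lit 5) (nat_lit 220) (nat_lit 272) (nat_lit 288)) (PT.lf (nat_lit 21584) (nat_lit 6) (nat_lit 284) (nat_lit 5) (nat_lit 221) (nat_lit 272) (nat_lit 287))) (PT.nd (nat_lit 78) (PT.lf (nat_lit 22268) (nat_lit 6) (nat_lit 293) (nat_lit 5) (nat_lit 222) (nat_lit 272) (nat_lit 286)) (PT.lf (nat_lit 23028) (nat_lit 6) (nat_lit 303) (nat_lit 5) (nat_lit 223) (nat_lit 272) (nat_lit 285)))) (PT.nd (nat_lit 156) (PT.nd (nat_lit 78) (PT.lf (nat_lit 23788) (nat_lit 6) (nat_lit 313) (nat_lit 5) (nat_lit 224) (nat_lit 272) (nat_lit 284)) (PT.lf (nat_lit 24624) (nat_lit 6) (nat_lit 324) (nat_lit 5) (nat_lit 225) (nat_lit 272) (nat_lit 283))) (PT.nd (nat_lit 78) (PT.lf (nat_lit 25384) (nat_lit 6) (nat_lit 334) (nat_lit 5) (nat_lit 226) (nat_lit 272) (nat_lit 282)) (PT.lf (nat_lit 26220) (nat_lit 6)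 (nat_lit 345) (nat_lit 5) (nat_lit 227) (nat_lit 272) (nat_lit 281))))) (PT.nd (nat_lit 312) (PT.nd (nat_lit 156) (PT.nd (nat_lit 78) (PT.lf (nat_lit 27056) (nat_lit 6) (nat_lit 356) (nat_lit 5) (nat_lit 228) (nat_lit 272) (nat_lit 280)) (PT.lf (nat_lit 27968) (nat_lit 6) (nat_lit 368) (nat_lit 5) (nat_lit 229) (nat_lit 272) (nat_lit 279))) (PT.nd (nat_lit 78) (PT.lf (nat_lit 28804) (nat_lit 6) (nat_lit 379) (nat_lit 5) (nat_lit 230) (nat_lit 272) (nat_lit 278)) (PT.lf (nat_lit 29716) (nat_lit 6) (nat_lit 391) (nat_lit 5) (nat_lit 231) (nat_lit 272) (nat_lit 277)))) (PT.nd (nat_lit 156) (PT.nd (nat_lit 78) (PT.lf (nat_lit 30628) (nat_lit 6) (nat_lit 403) (nat_lit 5) (nat_lit 232) (nat_lit 272) (nat_lit 276)) (PT.lf (nat_lit 31616) (nat_lit 6) (nat_lit 416) (nat_lit 5) (nat_lit 233) (nat_lit 272) (nat_lit 275))) (PT.nd (nat_lit 78) (PT.lf (nat_lit 32604) (nat_lit 6) (nat_lit 429) (nat_lit 5) (nat_lit 234) (nat_lit 272) (nat_lit 274)) (PT.lf (nat_lit 33668) (nat_lit 6)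 (nat_lit 443) (nat_lit 5) (nat_lit 235) (nat_lit 272) (nat_lit 273)))))) (PT.nd (nat_lit 624) (PT.nd (nat_lit 312) (PT.nd (nat_lit 156) (PT.nd (nat_lit 78) (PT.lf (nat_lit 35416) (nat_lit 3) (nat_lit 466) (nat_lit 4) (nat_lit 236) (nat_lit 272) (nat_lit 272)) (PT.lf (nat_lit 37164) (nat_lit 6) (nat_lit 489) (nat_lit 4) (nat_lit 237) (nat_lit 272) (nat_lit 271))) (PT.nd (nat_lit 78) (PT.lf (nat_lit 38836) (nat_lit 6) (nat_lit 511) (nat_lit 4) (nat_lit 238) (nat_lit 272) (nat_lit 270)) (PT.lf (nat_lit 40432) (nat_lit 6) (nat_lit 532) (nat_lit 4) (nat_lit 239) (nat_lit 272) (nat_lit 269)))) (PT.nd (nat_lit 156) (PT.nd (nat_lit 78) (PT.lf (nat_lit 41952) (nat_lit 6) (nat_lit 552) (nat_lit 4) (nat_lit 240) (nat_lit 272) (nat_lit 268)) (PT.lf (nat_lit 43396) (nat_lit 6) (nat_lit 571) (nat_lit 4) (nat_lit 241) (nat_lit 272) (nat_lit 267))) (PT.nd (nat_lit 78) (PT.lf (nat_lit 44764) (nat_lit 6) (nat_lit 589) (nat_lit 4) (nat_lit 242) (nat_lit 272) (nat_lit 266)) (PT.lf (nat_lit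 46056) (nat_lit 6) (nat_lit 606) (nat_lit 4) (nat_lit 243) (nat_lit 272) (nat_lit 265))))) (PT.nd (nat_lit 312) (PT.nd (nat_lit 156) (PT.nd (nat_lit 78) (PT.lf (nat_lit 47272) (nat_lit 6) (nat_lit 622) (nat_lit 4) (nat_lit 244) (nat_lit 272) (nat_lit 264)) (PT.lf (nat_lit 48412) (nat_lit 6) (nat_lit 637) (nat_lit 4) (nat_lit 245) (nat_lit 272) (nat_lit 263))) (PT.nd (nat_lit 78) (PT.lf (nat_lit 49476) (nat_lit 6) (nat_lit 651) (nat_lit 4) (nat_lit 246) (nat_lit 272) (nat_lit 262)) (PT.lf (nat_lit 50464) (nat_lit 6) (nat_lit 664) (nat_lit 4) (nat_lit 247) (nat_lit 272) (nat_lit 261)))) (PT.nd (nat_lit 156) (PT.nd (nat_lit 78) (PT.lf (nat_lit 51376) (nat_lit 6) (nat_lit 676) (nat_lit 4) (nat_lit 248) (nat_lit 272) (nat_lit 260)) (PT.lf (nat_lit 51300) (nat_lit 6) (nat_lit 675) (nat_lit 4) (nat_lit 249) (nat_lit 272) (nat_lit 259))) (PT.nd (nat_lit 78) (PT.lf (nat_lit 51224) (nat_lit 6) (nat_lit 674) (nat_lit 4) (nat_lit 250) (nat_lit 272) (nat_lit 258)) (PT.nd (nat_lit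 78) (PT.lf (nat_lit 51148) (nat_lit 6) (nat_lit 673) (nat_lit 4) (nat_lit 251) (nat_lit 272) (nat_lit 257)) (PT.lf (nat_lit 51072) (nat_lit 6) (nat_lit 672) (nat_lit 4) (nat_lit 252) (nat_lit 272) (nat_lit 256))))))))
noncomputable def pc73 : PT := (PT.nd (nat_lit 1248) (PT.nd (nat_lit 624) (PT.nd (nat_lit 312) (PT.nd (nat_lit 156) (PT.nd (nat_lit 78) (PT.lf (nat_lit 50996) (nat_lit 6) (nat_lit 671) (nat_lit 4) (nat_lit 253) (nat_lit 272) (nat_lit 255)) (PT.lf (nat_lit 50920) (nat_lit 3) (nat_lit 670) (nat_lit 2) (nat_lit 254) (nat_lit 272) (nat_lit 254))) (PT.nd (nat_lit 78) (PT.lf (nat_lit 50996) (nat_lit 6) (nat_lit 671) (nat_lit 2) (nat_lit 255) (nat_lit 272) (nat_lit 253)) (PT.lf (nat_lit 51072) (nat_lit 6) (nat_lit 672) (nat_lit 2) (nat_lit 256) (nat_lit 272) (nat_lit 252)))) (PT.nd (nat_lit 156) (PT.nd (nat_lit 78) (PT.lf (nat_lit 51148) (nat_lit 6) (nat_lit 673) (nat_lit 2) (nat_lit 257) (nat_lit 272) (nat_lit 251)) (PT.lf (nat_lit 51224) (nat_lit 6) (nat_lit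 674) (nat_lit 2) (nat_lit 258) (nat_lit 272) (nat_lit 250))) (PT.nd (nat_lit 78) (PT.lf (nat_lit 51300) (nat_lit 6) (nat_lit 675) (nat_lit 2) (nat_lit 259) (nat_lit 272) (nat_lit 249)) (PT.lf (nat_lit 51376) (nat_lit 6) (nat_lit 676) (nat_lit 2) (nat_lit 260) (nat_lit 272) (nat_lit 248))))) (PT.nd (nat_lit 312) (PT.nd (nat_lit 156) (PT.nd (nat_lit 78) (PT.lf (nat_lit 50464) (nat_lit 6) (nat_lit 664) (nat_lit 2) (nat_lit 261) (nat_lit 272) (nat_lit 247)) (PT.lf (nat_lit 49476) (nat_lit 6) (nat_lit 651) (nat_lit 2) (nat_lit 262) (nat_lit 272) (nat_lit 246))) (PT.nd (nat_lit 78) (PT.lf (nat_lit 48412) (nat_lit 6) (nat_lit 637) (nat_lit 2) (nat_lit 263) (nat_lit 272) (nat_lit 245)) (PT.lf (nat_lit 47272) (nat_lit 6) (nat_lit 622) (nat_lit 2) (nat_lit 264) (nat_lit 272) (nat_lit 244)))) (PT.nd (nat_lit 156) (PT.nd (nat_lit 78) (PT.lf (nat_lit 46056) (nat_lit 6) (nat_lit 606) (nat_lit 2) (nat_lit 265) (nat_lit 272) (nat_lit 243)) (PT.lf (nat_lit 44764) (nat_lit 6) (nat_lit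 589) (nat_lit 2) (nat_lit 266) (nat_lit 272) (nat_lit 242))) (PT.nd (nat_lit 78) (PT.lf (nat_lit 43396) (nat_lit 6) (nat_lit 571) (nat_lit 2) (nat_lit 267) (nat_lit 272) (nat_lit 241)) (PT.lf (nat_lit 41952) (nat_lit 6) (nat_lit 552) (nat_lit 2) (nat_lit 268) (nat_lit 272) (nat_lit 240)))))) (PT.nd (nat_lit 624) (PT.nd (nat_lit 312) (PT.nd (nat_lit 156) (PT.nd (nat_lit 78) (PT.lf (nat_lit 40432) (nat_lit 6) (nat_lit 532) (nat_lit 2) (nat_lit 269) (nat_lit 272) (nat_lit 239)) (PT.lf (nat_lit 38836) (nat_lit 6) (nat_lit 511) (nat_lit 2) (nat_lit 270) (nat_lit 272) (nat_lit 238))) (PT.nd (nat_lit 78) (PT.lf (nat_lit 37164) (nat_lit 6) (nat_lit 489) (nat_lit 2) (nat_lit 271) (nat_lit 272) (nat_lit 237)) (PT.lf (nat_lit 35416) (nat_lit 3) (nat_lit 466) (nat_lit 0) (nat_lit 272) (nat_lit 272) (nat_lit 236)))) (PT.nd (nat_lit 156) (PT.nd (nat_lit 78) (PT.lf (nat_lit 33668) (nat_lit 6) (nat_lit 443) (nat_lit 0) (nat_lit 273) (nat_lit 272) (nat_lit 235)) (PT.lf (nat_lit 32604)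 (nat_lit 6) (nat_lit 429) (nat_lit 0) (nat_lit 274) (nat_lit 272) (nat_lit 234))) (PT.nd (nat_lit 78) (PT.lf (nat_lit 31616) (nat_lit 6) (nat_lit 416) (nat_lit 0) (nat_lit 275) (nat_lit 272) (nat_lit 233)) (PT.lf (nat_lit 30628) (nat_lit 6) (nat_lit 403) (nat_lit 0) (nat_lit 276) (nat_lit 272) (nat_lit 232))))) (PT.nd (nat_lit 312) (PT.nd (nat_lit 156) (PT.nd (nat_lit 78) (PT.lf (nat_lit 29716) (nat_lit 6) (nat_lit 391) (nat_lit 0) (nat_lit 277) (nat_lit 272) (nat_lit 231)) (PT.lf (nat_lit 28804) (nat_lit 6) (nat_lit 379) (nat_lit 0) (nat_lit 278) (nat_lit 272) (nat_lit 230))) (PT.nd (nat_lit 78) (PT.lf (nat_lit 27968) (nat_lit 6) (nat_lit 368) (nat_lit 0) (nat_lit 279) (nat_lit 272) (nat_lit 229)) (PT.lf (nat_lit 27056) (nat_lit 6) (nat_lit 356) (nat_lit 0) (nat_lit 280) (nat_lit 272) (nat_lit 228)))) (PT.nd (nat_lit 156) (PT.nd (nat_lit 78) (PT.lf (nat_lit 26220) (nat_lit 6) (nat_lit 345) (nat_lit 0) (nat_lit 281) (nat_lit 272) (nat_lit 227)) (PT.lf (nat_lit 25384)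 (nat_lit 6) (nat_lit 334) (nat_lit 0) (nat_lit 282) (nat_lit 272) (nat_lit 226))) (PT.nd (nat_lit 78) (PT.lf (nat_lit 24624) (nat_lit 6) (nat_lit 324) (nat_lit 0) (nat_lit 283) (nat_lit 272) (nat_lit 225)) (PT.nd (nat_lit 78) (PT.lf (nat_lit 23788) (nat_lit 6) (nat_lit 313) (nat_lit 0) (nat_lit 284) (nat_lit 272) (nat_lit 224)) (PT.lf (nat_lit 23028) (nat_lit 6) (nat_lit 303) (nat_lit 0) (nat_lit 285) (nat_lit 272) (nat_lit 223))))))))
noncomputable def pc74 : PT := (PT.nd (nat_lit 76986) (PT.nd (nat_lit 76362) (PT.nd (nat_lit 76050) (PT.nd (nat_lit 156) (PT.nd (nat_lit 78) (PT.lf (nat_lit 22268) (nat_lit 6) (nat_lit 293) (nat_lit 0) (nat_lit 286) (nat_lit 272) (nat_lit 222)) (PT.lf (nat_lit 21584) (nat_lit 6) (nat_lit 284) (nat_lit 0) (nat_lit 287) (nat_lit 272) (nat_lit 221))) (PT.nd (nat_lit 75816) (PT.lf (nat_lit 20824) (nat_lit 6) (nat_lit 274) (nat_lit 0) (nat_lit 288) (nat_lit 272) (nat_lit 220)) (PT.lf (nat_lit 20216) (nat_lit 6) (nat_lit 266) (nat_lit 5) (nat_lit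 219) (nat_lit 273) (nat_lit 288)))) (PT.nd (nat_lit 156) (PT.nd (nat_lit 78) (PT.lf (nat_lit 20900) (nat_lit 6) (nat_lit 275) (nat_lit 5) (nat_lit 220) (nat_lit 273) (nat_lit 287)) (PT.lf (nat_lit 21660) (nat_lit 6) (nat_lit 285) (nat_lit 5) (nat_lit 221) (nat_lit 273) (nat_lit 286))) (PT.nd (nat_lit 78) (PT.lf (nat_lit 22344) (nat_lit 6) (nat_lit 294) (nat_lit 5) (nat_lit 222) (nat_lit 273) (nat_lit 285)) (PT.lf (nat_lit 23104) (nat_lit 6) (nat_lit 304) (nat_lit 5) (nat_lit 223) (nat_lit 273) (nat_lit 284))))) (PT.nd (nat_lit 312) (PT.nd (nat_lit 156) (PT.nd (nat_lit 78) (PT.lf (nat_lit 23864) (nat_lit 6) (nat_lit 314) (nat_lit 5) (nat_lit 224) (nat_lit 273) (nat_lit 283)) (PT.lf (nat_lit 24700) (nat_lit 6) (nat_lit 325) (nat_lit 5) (nat_lit 225) (nat_lit 273) (nat_lit 282))) (PT.nd (nat_lit 78) (PT.lf (nat_lit 25460) (nat_lit 6) (nat_lit 335) (nat_lit 5) (nat_lit 226) (nat_lit 273) (nat_lit 281)) (PT.lf (nat_lit 26296) (nat_lit 6) (nat_lit 346) (nat_lit 5) (nat_lit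 227) (nat_lit 273) (nat_lit 280)))) (PT.nd (nat_lit 156) (PT.nd (nat_lit 78) (PT.lf (nat_lit 27132) (nat_lit 6) (nat_lit 357) (nat_lit 5) (nat_lit 228) (nat_lit 273) (nat_lit 279)) (PT.lf (nat_lit 28044) (nat_lit 6) (nat_lit 369) (nat_lit 5) (nat_lit 229) (nat_lit 273) (nat_lit 278))) (PT.nd (nat_lit 78) (PT.lf (nat_lit 28880) (nat_lit 6) (nat_lit 380) (nat_lit 5) (nat_lit 230) (nat_lit 273) (nat_lit 277)) (PT.lf (nat_lit 29792) (nat_lit 6) (nat_lit 392) (nat_lit 5) (nat_lit 231) (nat_lit 273) (nat_lit 276)))))) (PT.nd (nat_lit 624) (PT.nd (nat_lit 312) (PT.nd (nat_lit 156) (PT.nd (nat_lit 78) (PT.lf (nat_lit 30704) (nat_lit 6) (nat_lit 404) (nat_lit 5) (nat_lit 232) (nat_lit 273) (nat_lit 275)) (PT.lf (nat_lit 31692) (nat_lit 6) (nat_lit 417) (nat_lit 5) (nat_lit 233) (nat_lit 273) (nat_lit 274))) (PT.nd (nat_lit 78) (PT.lf (nat_lit 32680) (nat_lit 3) (nat_lit 430) (nat_lit 4) (nat_lit 234) (nat_lit 273) (nat_lit 273)) (PT.lf (nat_lit 33668) (nat_lit 6) (nat_lit 443)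 (nat_lit 4) (nat_lit 235) (nat_lit 273) (nat_lit 272)))) (PT.nd (nat_lit 156) (PT.nd (nat_lit 78) (PT.lf (nat_lit 35340) (nat_lit 6) (nat_lit 465) (nat_lit 4) (nat_lit 236) (nat_lit 273) (nat_lit 271)) (PT.lf (nat_lit 37088) (nat_lit 6) (nat_lit 488) (nat_lit 4) (nat_lit 237) (nat_lit 273) (nat_lit 270))) (PT.nd (nat_lit 78) (PT.lf (nat_lit 38760) (nat_lit 6) (nat_lit 510) (nat_lit 4) (nat_lit 238) (nat_lit 273) (nat_lit 269)) (PT.lf (nat_lit 40356) (nat_lit 6) (nat_lit 531) (nat_lit 4) (nat_lit 239) (nat_lit 273) (nat_lit 268))))) (PT.nd (nat_lit 312) (PT.nd (nat_lit 156) (PT.nd (nat_lit 78) (PT.lf (nat_lit 41876) (nat_lit 6) (nat_lit 551) (nat_lit 4) (nat_lit 240) (nat_lit 273) (nat_lit 267)) (PT.lf (nat_lit 43320) (nat_lit 6) (nat_lit 570) (nat_lit 4) (nat_lit 241) (nat_lit 273) (nat_lit 266))) (PT.nd (nat_lit 78) (PT.lf (nat_lit 44688) (nat_lit 6) (nat_lit 588) (nat_lit 4) (nat_lit 242) (nat_lit 273) (nat_lit 265)) (PT.lf (nat_lit 45980) (nat_lit 6) (nat_lit 605)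 (nat_lit 4) (nat_lit 243) (nat_lit 273) (nat_lit 264)))) (PT.nd (nat_lit 156) (PT.nd (nat_lit 78) (PT.lf (nat_lit 47196) (nat_lit 6) (nat_lit 621) (nat_lit 4) (nat_lit 244) (nat_lit 273) (nat_lit 263)) (PT.lf (nat_lit 48336) (nat_lit 6) (nat_lit 636) (nat_lit 4) (nat_lit 245) (nat_lit 273) (nat_lit 262))) (PT.nd (nat_lit 78) (PT.lf (nat_lit 49400) (nat_lit 6) (nat_lit 650) (nat_lit 4) (nat_lit 246) (nat_lit 273) (nat_lit 261)) (PT.nd (nat_lit 78) (PT.lf (nat_lit 50388) (nat_lit 6) (nat_lit 663) (nat_lit 4) (nat_lit 247) (nat_lit 273) (nat_lit 260)) (PT.lf (nat_lit 50312) (nat_lit 6) (nat_lit 662) (nat_lit 4) (nat_lit 248) (nat_lit 273) (nat_lit 259))))))))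
noncomputable def pc75 : PT := (PT.nd (nat_lit 1248) (PT.nd (nat_lit 624) (PT.nd (nat_lit 312) (PT.nd (nat_lit 156) (PT.nd (nat_lit 78) (PT.lf (nat_lit 50236) (nat_lit 6) (nat_lit 661) (nat_lit 4) (nat_lit 249) (nat_lit 273) (nat_lit 258)) (PT.lf (nat_lit 50160) (nat_lit 6) (nat_lit 660) (nat_lit 4) (nat_lit 250) (nat_lit 273) (nat_lit 257))) (PT.nd (nat_lit 78) (PT.lf (nat_lit 50084) (nat_lit 6) (nat_lit 659) (nat_lit 4) (nat_lit 251) (nat_lit 273) (nat_lit 256)) (PT.lf (nat_lit 50008) (nat_lit 6) (nat_lit 658) (nat_lit 4) (nat_lit 252) (nat_lit 273) (nat_lit 255)))) (PT.nd (nat_lit 156) (PT.nd (nat_lit 78) (PT.lf (nat_lit 49932) (nat_lit 6) (nat_lit 657) (nat_lit 4) (nat_lit 253) (nat_lit 273) (nat_lit 254)) (PT.lf (nat_lit 49932) (nat_lit 6) (nat_lit 657) (nat_lit 2) (nat_lit 254) (nat_lit 273) (nat_lit 253))) (PT.nd (nat_lit 78) (PT.lf (nat_lit 50008) (nat_lit 6) (nat_lit 658) (nat_lit 2) (nat_lit 255) (nat_lit 273) (nat_lit 252)) (PT.lf (nat_lit 50084) (nat_lit 6)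 (nat_lit 659) (nat_lit 2) (nat_lit 256) (nat_lit 273) (nat_lit 251))))) (PT.nd (nat_lit 312) (PT.nd (nat_lit 156) (PT.nd (nat_lit 78) (PT.lf (nat_lit 50160) (nat_lit 6) (nat_lit 660) (nat_lit 2) (nat_lit 257) (nat_lit 273) (nat_lit 250)) (PT.lf (nat_lit 50236) (nat_lit 6) (nat_lit 661) (nat_lit 2) (nat_lit 258) (nat_lit 273) (nat_lit 249))) (PT.nd (nat_lit 78) (PT.lf (nat_lit 50312) (nat_lit 6) (nat_lit 662) (nat_lit 2) (nat_lit 259) (nat_lit 273) (nat_lit 248)) (PT.lf (nat_lit 50388) (nat_lit 6) (nat_lit 663) (nat_lit 2) (nat_lit 260) (nat_lit 273) (nat_lit 247)))) (PT.nd (nat_lit 156) (PT.nd (nat_lit 78) (PT.lf (nat_lit 49400) (nat_lit 6) (nat_lit 650) (nat_lit 2) (nat_lit 261) (nat_lit 273) (nat_lit 246)) (PT.lf (nat_lit 48336) (nat_lit 6) (nat_lit 636) (nat_lit 2) (nat_lit 262) (nat_lit 273) (nat_lit 245))) (PT.nd (nat_lit 78) (PT.lf (nat_lit 47196) (nat_lit 6) (nat_lit 621) (nat_lit 2) (nat_lit 263) (nat_lit 273) (nat_lit 244)) (PT.lf (nat_lit 45980) (nat_lit 6)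 (nat_lit 605) (nat_lit 2) (nat_lit 264) (nat_lit 273) (nat_lit 243)))))) (PT.nd (nat_lit 624) (PT.nd (nat_lit 312) (PT.nd (nat_lit 156) (PT.nd (nat_lit 78) (PT.lf (nat_lit 44688) (nat_lit 6) (nat_lit 588) (nat_lit 2) (nat_lit 265) (nat_lit 273) (nat_lit 242)) (PT.lf (nat_lit 43320) (nat_lit 6) (nat_lit 570) (nat_lit 2) (nat_lit 266) (nat_lit 273) (nat_lit 241))) (PT.nd (nat_lit 78) (PT.lf (nat_lit 41876) (nat_lit 6) (nat_lit 551) (nat_lit 2) (nat_lit 267) (nat_lit 273) (nat_lit 240)) (PT.lf (nat_lit 40356) (nat_lit 6) (nat_lit 531) (nat_lit 2) (nat_lit 268) (nat_lit 273) (nat_lit 239)))) (PT.nd (nat_lit 156) (PT.nd (nat_lit 78) (PT.lf (nat_lit 38760) (nat_lit 6) (nat_lit 510) (nat_lit 2) (nat_lit 269) (nat_lit 273) (nat_lit 238)) (PT.lf (nat_lit 37088) (nat_lit 6) (nat_lit 488) (nat_lit 2) (nat_lit 270) (nat_lit 273) (nat_lit 237))) (PT.nd (nat_lit 78) (PT.lf (nat_lit 35340) (nat_lit 6) (nat_lit 465) (nat_lit 2) (nat_lit 271) (nat_lit 273) (nat_lit 236)) (PT.lf (nat_lit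 33668) (nat_lit 6) (nat_lit 443) (nat_lit 2) (nat_lit 272) (nat_lit 273) (nat_lit 235))))) (PT.nd (nat_lit 312) (PT.nd (nat_lit 156) (PT.nd (nat_lit 78) (PT.lf (nat_lit 32680) (nat_lit 3) (nat_lit 430) (nat_lit 0) (nat_lit 273) (nat_lit 273) (nat_lit 234)) (PT.lf (nat_lit 31692) (nat_lit 6) (nat_lit 417) (nat_lit 0) (nat_lit 274) (nat_lit 273) (nat_lit 233))) (PT.nd (nat_lit 78) (PT.lf (nat_lit 30704) (nat_lit 6) (nat_lit 404) (nat_lit 0) (nat_lit 275) (nat_lit 273) (nat_lit 232)) (PT.lf (nat_lit 29792) (nat_lit 6) (nat_lit 392) (nat_lit 0) (nat_lit 276) (nat_lit 273) (nat_lit 231)))) (PT.nd (nat_lit 156) (PT.nd (nat_lit 78) (PT.lf (nat_lit 28880) (nat_lit 6) (nat_lit 380) (nat_lit 0) (nat_lit 277) (nat_lit 273) (nat_lit 230)) (PT.lf (nat_lit 28044) (nat_lit 6) (nat_lit 369) (nat_lit 0) (nat_lit 278) (nat_lit 273) (nat_lit 229))) (PT.nd (nat_lit 78) (PT.lf (nat_lit 27132) (nat_lit 6) (nat_lit 357) (nat_lit 0) (nat_lit 279) (nat_lit 273) (nat_lit 228)) (PT.nd (nat_lit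 78) (PT.lf (nat_lit 26296) (nat_lit 6) (nat_lit 346) (nat_lit 0) (nat_lit 280) (nat_lit 273) (nat_lit 227)) (PT.lf (nat_lit 25460) (nat_lit 6) (nat_lit 335) (nat_lit 0) (nat_lit 281) (nat_lit 273) (nat_lit 226))))))))
noncomputable def pc76 : PT := (PT.nd (nat_lit 76830) (PT.nd (nat_lit 76206) (PT.nd (nat_lit 312) (PT.nd (nat_lit 156) (PT.nd (nat_lit 78) (PT.lf (nat_lit 24700) (nat_lit 6) (nat_lit 325) (nat_lit 0) (nat_lit 282) (nat_lit 273) (nat_lit 225)) (PT.lf (nat_lit 23864) (nat_lit 6) (nat_lit 314) (nat_lit 0) (nat_lit 283) (nat_lit 273) (nat_lit 224))) (PT.nd (nat_lit 78) (PT.lf (nat_lit 23104) (nat_lit 6) (nat_lit 304) (nat_lit 0) (nat_lit 284) (nat_lit 273) (nat_lit 223)) (PT.lf (nat_lit 22344) (nat_lit 6) (nat_lit 294) (nat_lit 0) (nat_lit 285) (nat_lit 273) (nat_lit 222)))) (PT.nd (nat_lit 156) (PT.nd (nat_lit 78) (PT.lf (nat_lit 21660) (nat_lit 6) (nat_lit 285) (nat_lit 0) (nat_lit 286) (nat_lit 273) (nat_lit 221)) (PT.lf (nat_lit 20900) (nat_lit 6) (nat_lit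 275) (nat_lit 0) (nat_lit 287) (nat_lit 273) (nat_lit 220))) (PT.nd (nat_lit 75660) (PT.lf (nat_lit 20216) (nat_lit 6) (nat_lit 266) (nat_lit 0) (nat_lit 288) (nat_lit 273) (nat_lit 219)) (PT.lf (nat_lit 19000) (nat_lit 6) (nat_lit 250) (nat_lit 5) (nat_lit 217) (nat_lit 274) (nat_lit 289))))) (PT.nd (nat_lit 312) (PT.nd (nat_lit 156) (PT.nd (nat_lit 78) (PT.lf (nat_lit 19608) (nat_lit 6) (nat_lit 258) (nat_lit 5) (nat_lit 218) (nat_lit 274) (nat_lit 288)) (PT.lf (nat_lit 20292) (nat_lit 6) (nat_lit 267) (nat_lit 5) (nat_lit 219) (nat_lit 274) (nat_lit 287))) (PT.nd (nat_lit 78) (PT.lf (nat_lit 20976) (nat_lit 6) (nat_lit 276) (nat_lit 5) (nat_lit 220) (nat_lit 274) (nat_lit 286)) (PT.lf (nat_lit 21736) (nat_lit 6) (nat_lit 286) (nat_lit 5) (nat_lit 221) (nat_lit 274) (nat_lit 285)))) (PT.nd (nat_lit 156) (PT.nd (nat_lit 78) (PT.lf (nat_lit 22420) (nat_lit 6) (nat_lit 295) (nat_lit 5) (nat_lit 222) (nat_lit 274) (nat_lit 284)) (PT.lf (nat_lit 23180) (nat_lit 6) (nat_lit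 305) (nat_lit 5) (nat_lit 223) (nat_lit 274) (nat_lit 283))) (PT.nd (nat_lit 78) (PT.lf (nat_lit 23940) (nat_lit 6) (nat_lit 315) (nat_lit 5) (nat_lit 224) (nat_lit 274) (nat_lit 282)) (PT.lf (nat_lit 24776) (nat_lit 6) (nat_lit 326) (nat_lit 5) (nat_lit 225) (nat_lit 274) (nat_lit 281)))))) (PT.nd (nat_lit 624) (PT.nd (nat_lit 312) (PT.nd (nat_lit 156) (PT.nd (nat_lit 78) (PT.lf (nat_lit 25536) (nat_lit 6) (nat_lit 336) (nat_lit 5) (nat_lit 226) (nat_lit 274) (nat_lit 280)) (PT.lf (nat_lit 26372) (nat_lit 6) (nat_lit 347) (nat_lit 5) (nat_lit 227) (nat_lit 274) (nat_lit 279))) (PT.nd (nat_lit 78) (PT.lf (nat_lit 27208) (nat_lit 6) (nat_lit 358) (nat_lit 5) (nat_lit 228) (nat_lit 274) (nat_lit 278)) (PT.lf (nat_lit 28120) (nat_lit 6) (nat_lit 370) (nat_lit 5) (nat_lit 229) (nat_lit 274) (nat_lit 277)))) (PT.nd (nat_lit 156) (PT.nd (nat_lit 78) (PT.lf (nat_lit 28956) (nat_lit 6) (nat_lit 381) (nat_lit 5) (nat_lit 230) (nat_lit 274) (nat_lit 276)) (PT.lf (nat_lit 29868)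 (nat_lit 6) (nat_lit 393) (nat_lit 5) (nat_lit 231) (nat_lit 274) (nat_lit 275))) (PT.nd (nat_lit 78) (PT.lf (nat_lit 30780) (nat_lit 3) (nat_lit 405) (nat_lit 4) (nat_lit 232) (nat_lit 274) (nat_lit 274)) (PT.lf (nat_lit 31692) (nat_lit 6) (nat_lit 417) (nat_lit 4) (nat_lit 233) (nat_lit 274) (nat_lit 273))))) (PT.nd (nat_lit 312) (PT.nd (nat_lit 156) (PT.nd (nat_lit 78) (PT.lf (nat_lit 32604) (nat_lit 6) (nat_lit 429) (nat_lit 4) (nat_lit 234) (nat_lit 274) (nat_lit 272)) (PT.lf (nat_lit 33592) (nat_lit 6) (nat_lit 442) (nat_lit 4) (nat_lit 235) (nat_lit 274) (nat_lit 271))) (PT.nd (nat_lit 78) (PT.lf (nat_lit 35264) (nat_lit 6) (nat_lit 464) (nat_lit 4) (nat_lit 236) (nat_lit 274) (nat_lit 270)) (PT.lf (nat_lit 37012) (nat_lit 6) (nat_lit 487) (nat_lit 4) (nat_lit 237) (nat_lit 274) (nat_lit 269)))) (PT.nd (nat_lit 156) (PT.nd (nat_lit 78) (PT.lf (nat_lit 38684) (nat_lit 6) (nat_lit 509) (nat_lit 4) (nat_lit 238) (nat_lit 274) (nat_lit 268)) (PT.lf (nat_lit 40280)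 (nat_lit 6) (nat_lit 530) (nat_lit 4) (nat_lit 239) (nat_lit 274) (nat_lit 267))) (PT.nd (nat_lit 78) (PT.lf (nat_lit 41800) (nat_lit 6) (nat_lit 550) (nat_lit 4) (nat_lit 240) (nat_lit 274) (nat_lit 266)) (PT.nd (nat_lit 78) (PT.lf (nat_lit 43244) (nat_lit 6) (nat_lit 569) (nat_lit 4) (nat_lit 241) (nat_lit 274) (nat_lit 265)) (PT.lf (nat_lit 44612) (nat_lit 6) (nat_lit 587) (nat_lit 4) (nat_lit 242) (nat_lit 274) (nat_lit 264))))))))
noncomputable def pc77 : PT := (PT.nd (nat_lit 1248) (PT.nd (nat_lit 624) (PT.nd (nat_lit 312) (PT.nd (nat_lit 156) (PT.nd (nat_lit 78) (PT.lf (nat_lit 45904) (nat_lit 6) (nat_lit 604) (nat_lit 4) (nat_lit 243) (nat_lit 274) (nat_lit 263)) (PT.lf (nat_lit 47120) (nat_lit 6) (nat_lit 620) (nat_lit 4) (nat_lit 244) (nat_lit 274) (nat_lit 262))) (PT.nd (nat_lit 78) (PT.lf (nat_lit 48260) (nat_lit 6) (nat_lit 635) (nat_lit 4) (nat_lit 245) (nat_lit 274) (nat_lit 261)) (PT.lf (nat_lit 49324) (nat_lit 6) (nat_lit 649) (nat_lit 4) (nat_lit 246)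 (nat_lit 274) (nat_lit 260)))) (PT.nd (nat_lit 156) (PT.nd (nat_lit 78) (PT.lf (nat_lit 49248) (nat_lit 6) (nat_lit 648) (nat_lit 4) (nat_lit 247) (nat_lit 274) (nat_lit 259)) (PT.lf (nat_lit 49172) (nat_lit 6) (nat_lit 647) (nat_lit 4) (nat_lit 248) (nat_lit 274) (nat_lit 258))) (PT.nd (nat_lit 78) (PT.lf (nat_lit 49096) (nat_lit 6) (nat_lit 646) (nat_lit 4) (nat_lit 249) (nat_lit 274) (nat_lit 257)) (PT.lf (nat_lit 49020) (nat_lit 6) (nat_lit 645) (nat_lit 4) (nat_lit 250) (nat_lit 274) (nat_lit 256))))) (PT.nd (nat_lit 312) (PT.nd (nat_lit 156) (PT.nd (nat_lit 78) (PT.lf (nat_lit 48944) (nat_lit 6) (nat_lit 644) (nat_lit 4) (nat_lit 251) (nat_lit 274) (nat_lit 255)) (PT.lf (nat_lit 48868) (nat_lit 6) (nat_lit 643) (nat_lit 4) (nat_lit 252) (nat_lit 274) (nat_lit 254))) (PT.nd (nat_lit 78) (PT.lf (nat_lit 48792) (nat_lit 3) (nat_lit 642) (nat_lit 2) (nat_lit 253) (nat_lit 274) (nat_lit 253)) (PT.lf (nat_lit 48868) (nat_lit 6) (nat_lit 643) (nat_lit 2) (nat_lit 254)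 (nat_lit 274) (nat_lit 252)))) (PT.nd (nat_lit 156) (PT.nd (nat_lit 78) (PT.lf (nat_lit 48944) (nat_lit 6) (nat_lit 644) (nat_lit 2) (nat_lit 255) (nat_lit 274) (nat_lit 251)) (PT.lf (nat_lit 49020) (nat_lit 6) (nat_lit 645) (nat_lit 2) (nat_lit 256) (nat_lit 274) (nat_lit 250))) (PT.nd (nat_lit 78) (PT.lf (nat_lit 49096) (nat_lit 6) (nat_lit 646) (nat_lit 2) (nat_lit 257) (nat_lit 274) (nat_lit 249)) (PT.lf (nat_lit 49172) (nat_lit 6) (nat_lit 647) (nat_lit 2) (nat_lit 258) (nat_lit 274) (nat_lit 248)))))) (PT.nd (nat_lit 624) (PT.nd (nat_lit 312) (PT.nd (nat_lit 156) (PT.nd (nat_lit 78) (PT.lf (nat_lit 49248) (nat_lit 6) (nat_lit 648) (nat_lit 2) (nat_lit 259) (nat_lit 274) (nat_lit 247)) (PT.lf (nat_lit 49324) (nat_lit 6) (nat_lit 649) (nat_lit 2) (nat_lit 260) (nat_lit 274) (nat_lit 246))) (PT.nd (nat_lit 78) (PT.lf (nat_lit 48260) (nat_lit 6) (nat_lit 635) (nat_lit 2) (nat_lit 261) (nat_lit 274) (nat_lit 245)) (PT.lf (nat_lit 47120) (nat_lit 6) (nat_lit 620) (nat_lit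 2) (nat_lit 262) (nat_lit 274) (nat_lit 244)))) (PT.nd (nat_lit 156) (PT.nd (nat_lit 78) (PT.lf (nat_lit 45904) (nat_lit 6) (nat_lit 604) (nat_lit 2) (nat_lit 263) (nat_lit 274) (nat_lit 243)) (PT.lf (nat_lit 44612) (nat_lit 6) (nat_lit 587) (nat_lit 2) (nat_lit 264) (nat_lit 274) (nat_lit 242))) (PT.nd (nat_lit 78) (PT.lf (nat_lit 43244) (nat_lit 6) (nat_lit 569) (nat_lit 2) (nat_lit 265) (nat_lit 274) (nat_lit 241)) (PT.lf (nat_lit 41800) (nat_lit 6) (nat_lit 550) (nat_lit 2) (nat_lit 266) (nat_lit 274) (nat_lit 240))))) (PT.nd (nat_lit 312) (PT.nd (nat_lit 156) (PT.nd (nat_lit 78) (PT.lf (nat_lit 40280) (nat_lit 6) (nat_lit 530) (nat_lit 2) (nat_lit 267) (nat_lit 274) (nat_lit 239)) (PT.lf (nat_lit 38684) (nat_lit 6) (nat_lit 509) (nat_lit 2) (nat_lit 268) (nat_lit 274) (nat_lit 238))) (PT.nd (nat_lit 78) (PT.lf (nat_lit 37012) (nat_lit 6) (nat_lit 487) (nat_lit 2) (nat_lit 269) (nat_lit 274) (nat_lit 237)) (PT.lf (nat_lit 35264) (nat_lit 6) (nat_lit 464) (nat_lit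 2) (nat_lit 270) (nat_lit 274) (nat_lit 236)))) (PT.nd (nat_lit 156) (PT.nd (nat_lit 78) (PT.lf (nat_lit 33592) (nat_lit 6) (nat_lit 442) (nat_lit 2) (nat_lit 271) (nat_lit 274) (nat_lit 235)) (PT.lf (nat_lit 32604) (nat_lit 6) (nat_lit 429) (nat_lit 2) (nat_lit 272) (nat_lit 274) (nat_lit 234))) (PT.nd (nat_lit 78) (PT.lf (nat_lit 31692) (nat_lit 6) (nat_lit 417) (nat_lit 2) (nat_lit 273) (nat_lit 274) (nat_lit 233)) (PT.nd (nat_lit 78) (PT.lf (nat_lit 30780) (nat_lit 3) (nat_lit 405) (nat_lit 0) (nat_lit 274) (nat_lit 274) (nat_lit 232)) (PT.lf (nat_lit 29868) (nat_lit 6) (nat_lit 393) (nat_lit 0) (nat_lit 275) (nat_lit 274) (nat_lit 231))))))))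
noncomputable def pc78 : PT := (PT.nd (nat_lit 76674) (PT.nd (nat_lit 624) (PT.nd (nat_lit 312) (PT.nd (nat_lit 156) (PT.nd (nat_lit 78) (PT.lf (nat_lit 28956) (nat_lit 6) (nat_lit 381) (nat_lit 0) (nat_lit 276) (nat_lit 274) (nat_lit 230)) (PT.lf (nat_lit 28120) (nat_lit 6) (nat_lit 370) (nat_lit 0) (nat_lit 277) (nat_lit 274) (nat_lit 229))) (PT.nd (nat_lit 78) (PT.lf (nat_lit 27208) (nat_lit 6) (nat_lit 358) (nat_lit 0) (nat_lit 278) (nat_lit 274) (nat_lit 228)) (PT.lf (nat_lit 26372) (nat_lit 6) (nat_lit 347) (nat_lit 0) (nat_lit 279) (nat_lit 274) (nat_lit 227)))) (PT.nd (nat_lit 156) (PT.nd (nat_lit 78) (PT.lf (nat_lit 25536) (nat_lit 6) (nat_lit 336) (nat_lit 0) (nat_lit 280) (nat_lit 274) (nat_lit 226)) (PT.lf (nat_lit 24776) (nat_lit 6) (nat_lit 326) (nat_lit 0) (nat_lit 281) (nat_lit 274) (nat_lit 225))) (PT.nd (nat_lit 78) (PT.lf (nat_lit 23940) (nat_lit 6) (nat_lit 315) (nat_lit 0) (nat_lit 282) (nat_lit 274) (nat_lit 224)) (PT.lf (nat_lit 23180) (nat_lit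 6) (nat_lit 305) (nat_lit 0) (nat_lit 283) (nat_lit 274) (nat_lit 223))))) (PT.nd (nat_lit 312) (PT.nd (nat_lit 156) (PT.nd (nat_lit 78) (PT.lf (nat_lit 22420) (nat_lit 6) (nat_lit 295) (nat_lit 0) (nat_lit 284) (nat_lit 274) (nat_lit 222)) (PT.lf (nat_lit 21736) (nat_lit 6) (nat_lit 286) (nat_lit 0) (nat_lit 285) (nat_lit 274) (nat_lit 221))) (PT.nd (nat_lit 78) (PT.lf (nat_lit 20976) (nat_lit 6) (nat_lit 276) (nat_lit 0) (nat_lit 286) (nat_lit 274) (nat_lit 220)) (PT.lf (nat_lit 20292) (nat_lit 6) (nat_lit 267) (nat_lit 0) (nat_lit 287) (nat_lit 274) (nat_lit 219)))) (PT.nd (nat_lit 75582) (PT.nd (nat_lit 78) (PT.lf (nat_lit 19608) (nat_lit 6) (nat_lit 258) (nat_lit 0) (nat_lit 288) (nat_lit 274) (nat_lit 218)) (PT.lf (nat_lit 19000) (nat_lit 6) (nat_lit 250) (nat_lit 0) (nat_lit 289) (nat_lit 274) (nat_lit 217))) (PT.nd (nat_lit 78) (PT.lf (nat_lit 18392) (nat_lit 6) (nat_lit 242) (nat_lit 5) (nat_lit 216) (nat_lit 275) (nat_lit 289)) (PT.lf (nat_lit 19076) (nat_lit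 6) (nat_lit 251) (nat_lit 5) (nat_lit 217) (nat_lit 275) (nat_lit 288)))))) (PT.nd (nat_lit 624) (PT.nd (nat_lit 312) (PT.nd (nat_lit 156) (PT.nd (nat_lit 78) (PT.lf (nat_lit 19684) (nat_lit 6) (nat_lit 259) (nat_lit 5) (nat_lit 218) (nat_lit 275) (nat_lit 287)) (PT.lf (nat_lit 20368) (nat_lit 6) (nat_lit 268) (nat_lit 5) (nat_lit 219) (nat_lit 275) (nat_lit 286))) (PT.nd (nat_lit 78) (PT.lf (nat_lit 21052) (nat_lit 6) (nat_lit 277) (nat_lit 5) (nat_lit 220) (nat_lit 275) (nat_lit 285)) (PT.lf (nat_lit 21812) (nat_lit 6) (nat_lit 287) (nat_lit 5) (nat_lit 221) (nat_lit 275) (nat_lit 284)))) (PT.nd (nat_lit 156) (PT.nd (nat_lit 78) (PT.lf (nat_lit 22496) (nat_lit 6) (nat_lit 296) (nat_lit 5) (nat_lit 222) (nat_lit 275) (nat_lit 283)) (PT.lf (nat_lit 23256) (nat_lit 6) (nat_lit 306) (nat_lit 5) (nat_lit 223) (nat_lit 275) (nat_lit 282))) (PT.nd (nat_lit 78) (PT.lf (nat_lit 24016) (nat_lit 6) (nat_lit 316) (nat_lit 5) (nat_lit 224) (nat_lit 275) (nat_lit 281)) (PT.lf (nat_lit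 24852) (nat_lit 6) (nat_lit 327) (nat_lit 5) (nat_lit 225) (nat_lit 275) (nat_lit 280))))) (PT.nd (nat_lit 312) (PT.nd (nat_lit 156) (PT.nd (nat_lit 78) (PT.lf (nat_lit 25612) (nat_lit 6) (nat_lit 337) (nat_lit 5) (nat_lit 226) (nat_lit 275) (nat_lit 279)) (PT.lf (nat_lit 26448) (nat_lit 6) (nat_lit 348) (nat_lit 5) (nat_lit 227) (nat_lit 275) (nat_lit 278))) (PT.nd (nat_lit 78) (PT.lf (nat_lit 27284) (nat_lit 6) (nat_lit 359) (nat_lit 5) (nat_lit 228) (nat_lit 275) (nat_lit 277)) (PT.lf (nat_lit 28196) (nat_lit 6) (nat_lit 371) (nat_lit 5) (nat_lit 229) (nat_lit 275) (nat_lit 276)))) (PT.nd (nat_lit 156) (PT.nd (nat_lit 78) (PT.lf (nat_lit 29032) (nat_lit 3) (nat_lit 382) (nat_lit 4) (nat_lit 230) (nat_lit 275) (nat_lit 275)) (PT.lf (nat_lit 29868) (nat_lit 6) (nat_lit 393) (nat_lit 4) (nat_lit 231) (nat_lit 275) (nat_lit 274))) (PT.nd (nat_lit 78) (PT.lf (nat_lit 30704) (nat_lit 6) (nat_lit 404) (nat_lit 4) (nat_lit 232) (nat_lit 275) (nat_lit 273)) (PT.nd (nat_lit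 78) (PT.lf (nat_lit 31616) (nat_lit 6) (nat_lit 416) (nat_lit 4) (nat_lit 233) (nat_lit 275) (nat_lit 272)) (PT.lf (nat_lit 32528) (nat_lit 6) (nat_lit 428) (nat_lit 4) (nat_lit 234) (nat_lit 275) (nat_lit 271))))))))
noncomputable def pc79 : PT := (PT.nd (nat_lit 1326) (PT.nd (nat_lit 624) (PT.nd (nat_lit 312) (PT.nd (nat_lit 156) (PT.nd (nat_lit 78) (PT.lf (nat_lit 33516) (nat_lit 6) (nat_lit 441) (nat_lit 4) (nat_lit 235) (nat_lit 275) (nat_lit 270)) (PT.lf (nat_lit 35188) (nat_lit 6) (nat_lit 463) (nat_lit 4) (nat_lit 236) (nat_lit 275) (nat_lit 269))) (PT.nd (nat_lit 78) (PT.lf (nat_lit 36936) (nat_lit 6) (nat_lit 486) (nat_lit 4) (nat_lit 237) (nat_lit 275) (nat_lit 268)) (PT.lf (nat_lit 38608) (nat_lit 6) (nat_lit 508) (nat_lit 4) (nat_lit 238) (nat_lit 275) (nat_lit 267)))) (PT.nd (nat_lit 156) (PT.nd (nat_lit 78) (PT.lf (nat_lit 40204) (nat_lit 6) (nat_lit 529) (nat_lit 4) (nat_lit 239) (nat_lit 275) (nat_lit 266)) (PT.lf (nat_lit 41724) (nat_lit 6) (nat_lit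 549) (nat_lit 4) (nat_lit 240) (nat_lit 275) (nat_lit 265))) (PT.nd (nat_lit 78) (PT.lf (nat_lit 43168) (nat_lit 6) (nat_lit 568) (nat_lit 4) (nat_lit 241) (nat_lit 275) (nat_lit 264)) (PT.lf (nat_lit 44536) (nat_lit 6) (nat_lit 586) (nat_lit 4) (nat_lit 242) (nat_lit 275) (nat_lit 263))))) (PT.nd (nat_lit 312) (PT.nd (nat_lit 156) (PT.nd (nat_lit 78) (PT.lf (nat_lit 45828) (nat_lit 6) (nat_lit 603) (nat_lit 4) (nat_lit 243) (nat_lit 275) (nat_lit 262)) (PT.lf (nat_lit 47044) (nat_lit 6) (nat_lit 619) (nat_lit 4) (nat_lit 244) (nat_lit 275) (nat_lit 261))) (PT.nd (nat_lit 78) (PT.lf (nat_lit 48184) (nat_lit 6) (nat_lit 634) (nat_lit 4) (nat_lit 245) (nat_lit 275) (nat_lit 260)) (PT.lf (nat_lit 48108) (nat_lit 6) (nat_lit 633) (nat_lit 4) (nat_lit 246) (nat_lit 275) (nat_lit 259)))) (PT.nd (nat_lit 156) (PT.nd (nat_lit 78) (PT.lf (nat_lit 48032) (nat_lit 6) (nat_lit 632) (nat_lit 4) (nat_lit 247) (nat_lit 275) (nat_lit 258)) (PT.lf (nat_lit 47956) (nat_lit 6) (nat_lit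 631) (nat_lit 4) (nat_lit 248) (nat_lit 275) (nat_lit 257))) (PT.nd (nat_lit 78) (PT.lf (nat_lit 47880) (nat_lit 6) (nat_lit 630) (nat_lit 4) (nat_lit 249) (nat_lit 275) (nat_lit 256)) (PT.nd (nat_lit 78) (PT.lf (nat_lit 47804) (nat_lit 6) (nat_lit 629) (nat_lit 4) (nat_lit 250) (nat_lit 275) (nat_lit 255)) (PT.lf (nat_lit 47728) (nat_lit 6) (nat_lit 628) (nat_lit 4) (nat_lit 251) (nat_lit 275) (nat_lit 254))))))) (PT.nd (nat_lit 624) (PT.nd (nat_lit 312) (PT.nd (nat_lit 156) (PT.nd (nat_lit 78) (PT.lf (nat_lit 47652) (nat_lit 6) (nat_lit 627) (nat_lit 4) (nat_lit 252) (nat_lit 275) (nat_lit 253)) (PT.lf (nat_lit 47652) (nat_lit 6) (nat_lit 627) (nat_lit 2) (nat_lit 253) (nat_lit 275) (nat_lit 252))) (PT.nd (nat_lit 78) (PT.lf (nat_lit 47728) (nat_lit 6) (nat_lit 628) (nat_lit 2) (nat_lit 254) (nat_lit 275) (nat_lit 251)) (PT.lf (nat_lit 47804) (nat_lit 6) (nat_lit 629) (nat_lit 2) (nat_lit 255) (nat_lit 275) (nat_lit 250)))) (PT.nd (nat_lit 156) (PT.nd (nat_lit 78) (PT.lf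 (nat_lit 47880) (nat_lit 6) (nat_lit 630) (nat_lit 2) (nat_lit 256) (nat_lit 275) (nat_lit 249)) (PT.lf (nat_lit 47956) (nat_lit 6) (nat_lit 631) (nat_lit 2) (nat_lit 257) (nat_lit 275) (nat_lit 248))) (PT.nd (nat_lit 78) (PT.lf (nat_lit 48032) (nat_lit 6) (nat_lit 632) (nat_lit 2) (nat_lit 258) (nat_lit 275) (nat_lit 247)) (PT.lf (nat_lit 48108) (nat_lit 6) (nat_lit 633) (nat_lit 2) (nat_lit 259) (nat_lit 275) (nat_lit 246))))) (PT.nd (nat_lit 312) (PT.nd (nat_lit 156) (PT.nd (nat_lit 78) (PT.lf (nat_lit 48184) (nat_lit 6) (nat_lit 634) (nat_lit 2) (nat_lit 260) (nat_lit 275) (nat_lit 245)) (PT.lf (nat_lit 47044) (nat_lit 6) (nat_lit 619) (nat_lit 2) (nat_lit 261) (nat_lit 275) (nat_lit 244))) (PT.nd (nat_lit 78) (PT.lf (nat_lit 45828) (nat_lit 6) (nat_lit 603) (nat_lit 2) (nat_lit 262) (nat_lit 275) (nat_lit 243)) (PT.lf (nat_lit 44536) (nat_lit 6) (nat_lit 586) (nat_lit 2) (nat_lit 263) (nat_lit 275) (nat_lit 242)))) (PT.nd (nat_lit 156) (PT.nd (nat_lit 78) (PT.lf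 (nat_lit 43168) (nat_lit 6) (nat_lit 568) (nat_lit 2) (nat_lit 264) (nat_lit 275) (nat_lit 241)) (PT.lf (nat_lit 41724) (nat_lit 6) (nat_lit 549) (nat_lit 2) (nat_lit 265) (nat_lit 275) (nat_lit 240))) (PT.nd (nat_lit 78) (PT.lf (nat_lit 40204) (nat_lit 6) (nat_lit 529) (nat_lit 2) (nat_lit 266) (nat_lit 275) (nat_lit 239)) (PT.nd (nat_lit 78) (PT.lf (nat_lit 38608) (nat_lit 6) (nat_lit 508) (nat_lit 2) (nat_lit 267) (nat_lit 275) (nat_lit 238)) (PT.lf (nat_lit 36936) (nat_lit 6) (nat_lit 486) (nat_lit 2) (nat_lit 268) (nat_lit 275) (nat_lit 237))))))))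
noncomputable def pc80 : PT := (PT.nd (nat_lit 1248) (PT.nd (nat_lit 624) (PT.nd (nat_lit 312) (PT.nd (nat_lit 156) (PT.nd (nat_lit 78) (PT.lf (nat_lit 35188) (nat_lit 6) (nat_lit 463) (nat_lit 2) (nat_lit 269) (nat_lit 275) (nat_lit 236)) (PT.lf (nat_lit 33516) (nat_lit 6) (nat_lit 441) (nat_lit 2) (nat_lit 270) (nat_lit 275) (nat_lit 235))) (PT.nd (nat_lit 78) (PT.lf (nat_lit 32528) (nat_lit 6) (nat_lit 428) (nat_lit 2) (nat_lit 271) (nat_lit 275) (nat_lit 234)) (PT.lf (nat_lit 31616) (nat_lit 6) (nat_lit 416) (nat_lit 2) (nat_lit 272) (nat_lit 275) (nat_lit 233)))) (PT.nd (nat_lit 156) (PT.nd (nat_lit 78) (PT.lf (nat_lit 30704) (nat_lit 6) (nat_lit 404) (nat_lit 2) (nat_lit 273) (nat_lit 275) (nat_lit 232)) (PT.lf (nat_lit 29868) (nat_lit 6) (nat_lit 393) (nat_lit 2) (nat_lit 274) (nat_lit 275) (nat_lit 231))) (PT.nd (nat_lit 78) (PT.lf (nat_lit 29032) (nat_lit 3) (nat_lit 382) (nat_lit 0) (nat_lit 275) (nat_lit 275) (nat_lit 230)) (PT.lf (nat_lit 28196) (nat_lit 6)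 (nat_lit 371) (nat_lit 0) (nat_lit 276) (nat_lit 275) (nat_lit 229))))) (PT.nd (nat_lit 312) (PT.nd (nat_lit 156) (PT.nd (nat_lit 78) (PT.lf (nat_lit 27284) (nat_lit 6) (nat_lit 359) (nat_lit 0) (nat_lit 277) (nat_lit 275) (nat_lit 228)) (PT.lf (nat_lit 26448) (nat_lit 6) (nat_lit 348) (nat_lit 0) (nat_lit 278) (nat_lit 275) (nat_lit 227))) (PT.nd (nat_lit 78) (PT.lf (nat_lit 25612) (nat_lit 6) (nat_lit 337) (nat_lit 0) (nat_lit 279) (nat_lit 275) (nat_lit 226)) (PT.lf (nat_lit 24852) (nat_lit 6) (nat_lit 327) (nat_lit 0) (nat_lit 280) (nat_lit 275) (nat_lit 225)))) (PT.nd (nat_lit 156) (PT.nd (nat_lit 78) (PT.lf (nat_lit 24016) (nat_lit 6) (nat_lit 316) (nat_lit 0) (nat_lit 281) (nat_lit 275) (nat_lit 224)) (PT.lf (nat_lit 23256) (nat_lit 6) (nat_lit 306) (nat_lit 0) (nat_lit 282) (nat_lit 275) (nat_lit 223))) (PT.nd (nat_lit 78) (PT.lf (nat_lit 22496) (nat_lit 6) (nat_lit 296) (nat_lit 0) (nat_lit 283) (nat_lit 275) (nat_lit 222)) (PT.lf (nat_lit 21812) (nat_lit 6)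 (nat_lit 287) (nat_lit 0) (nat_lit 284) (nat_lit 275) (nat_lit 221)))))) (PT.nd (nat_lit 75894) (PT.nd (nat_lit 312) (PT.nd (nat_lit 156) (PT.nd (nat_lit 78) (PT.lf (nat_lit 21052) (nat_lit 6) (nat_lit 277) (nat_lit 0) (nat_lit 285) (nat_lit 275) (nat_lit 220)) (PT.lf (nat_lit 20368) (nat_lit 6) (nat_lit 268) (nat_lit 0) (nat_lit 286) (nat_lit 275) (nat_lit 219))) (PT.nd (nat_lit 78) (PT.lf (nat_lit 19684) (nat_lit 6) (nat_lit 259) (nat_lit 0) (nat_lit 287) (nat_lit 275) (nat_lit 218)) (PT.lf (nat_lit 19076) (nat_lit 6) (nat_lit 251) (nat_lit 0) (nat_lit 288) (nat_lit 275) (nat_lit 217)))) (PT.nd (nat_lit 75426) (PT.nd (nat_lit 75348) (PT.lf (nat_lit 18392) (nat_lit 6) (nat_lit 242) (nat_lit 0) (nat_lit 289) (nat_lit 275) (nat_lit 216)) (PT.lf (nat_lit 17252) (nat_lit 6) (nat_lit 227) (nat_lit 5) (nat_lit 214) (nat_lit 276) (nat_lit 290))) (PT.nd (nat_lit 78) (PT.lf (nat_lit 17860) (nat_lit 6) (nat_lit 235) (nat_lit 5) (nat_lit 215) (nat_lit 276) (nat_lit 289)) (PT.lf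 (nat_lit 18468) (nat_lit 6) (nat_lit 243) (nat_lit 5) (nat_lit 216) (nat_lit 276) (nat_lit 288))))) (PT.nd (nat_lit 312) (PT.nd (nat_lit 156) (PT.nd (nat_lit 78) (PT.lf (nat_lit 19152) (nat_lit 6) (nat_lit 252) (nat_lit 5) (nat_lit 217) (nat_lit 276) (nat_lit 287)) (PT.lf (nat_lit 19760) (nat_lit 6) (nat_lit 260) (nat_lit 5) (nat_lit 218) (nat_lit 276) (nat_lit 286))) (PT.nd (nat_lit 78) (PT.lf (nat_lit 20444) (nat_lit 6) (nat_lit 269) (nat_lit 5) (nat_lit 219) (nat_lit 276) (nat_lit 285)) (PT.lf (nat_lit 21128) (nat_lit 6) (nat_lit 278) (nat_lit 5) (nat_lit 220) (nat_lit 276) (nat_lit 284)))) (PT.nd (nat_lit 156) (PT.nd (nat_lit 78) (PT.lf (nat_lit 21888) (nat_lit 6) (nat_lit 288) (nat_lit 5) (nat_lit 221) (nat_lit 276) (nat_lit 283)) (PT.lf (nat_lit 22572) (nat_lit 6) (nat_lit 297) (nat_lit 5) (nat_lit 222) (nat_lit 276) (nat_lit 282))) (PT.nd (nat_lit 78) (PT.lf (nat_lit 23332) (nat_lit 6) (nat_lit 307) (nat_lit 5) (nat_lit 223) (nat_lit 276) (nat_lit 281)) (PT.nd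 (nat_lit 78) (PT.lf (nat_lit 24092) (nat_lit 6) (nat_lit 317) (nat_lit 5) (nat_lit 224) (nat_lit 276) (nat_lit 280)) (PT.lf (nat_lit 24928) (nat_lit 6) (nat_lit 328) (nat_lit 5) (nat_lit 225) (nat_lit 276) (nat_lit 279))))))))
noncomputable def pc81 : PT := (PT.nd (nat_lit 1248) (PT.nd (nat_lit 624) (PT.nd (nat_lit 312) (PT.nd (nat_lit 156) (PT.nd (nat_lit 78) (PT.lf (nat_lit 25688) (nat_lit 6) (nat_lit 338) (nat_lit 5) (nat_lit 226) (nat_lit 276) (nat_lit 278)) (PT.lf (nat_lit 26524) (nat_lit 6) (nat_lit 349) (nat_lit 5) (nat_lit 227) (nat_lit 276) (nat_lit 277))) (PT.nd (nat_lit 78) (PT.lf (nat_lit 27360) (nat_lit 3) (nat_lit 360) (nat_lit 4) (nat_lit 228) (nat_lit 276) (nat_lit 276)) (PT.lf (nat_lit 28196) (nat_lit 6) (nat_lit 371) (nat_lit 4) (nat_lit 229) (nat_lit 276) (nat_lit 275)))) (PT.nd (nat_lit 156) (PT.nd (nat_lit 78) (PT.lf (nat_lit 28956) (nat_lit 6) (nat_lit 381) (nat_lit 4) (nat_lit 230) (nat_lit 276) (nat_lit 274)) (PT.lf (nat_lit 29792) (nat_lit 6)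 (nat_lit 392) (nat_lit 4) (nat_lit 231) (nat_lit 276) (nat_lit 273))) (PT.nd (nat_lit 78) (PT.lf (nat_lit 30628) (nat_lit 6) (nat_lit 403) (nat_lit 4) (nat_lit 232) (nat_lit 276) (nat_lit 272)) (PT.lf (nat_lit 31540) (nat_lit 6) (nat_lit 415) (nat_lit 4) (nat_lit 233) (nat_lit 276) (nat_lit 271))))) (PT.nd (nat_lit 312) (PT.nd (nat_lit 156) (PT.nd (nat_lit 78) (PT.lf (nat_lit 32452) (nat_lit 6) (nat_lit 427) (nat_lit 4) (nat_lit 234) (nat_lit 276) (nat_lit 270)) (PT.lf (nat_lit 33440) (nat_lit 6) (nat_lit 440) (nat_lit 4) (nat_lit 235) (nat_lit 276) (nat_lit 269))) (PT.nd (nat_lit 78) (PT.lf (nat_lit 35112) (nat_lit 6) (nat_lit 462) (nat_lit 4) (nat_lit 236) (nat_lit 276) (nat_lit 268)) (PT.lf (nat_lit 36860) (nat_lit 6) (nat_lit 485) (nat_lit 4) (nat_lit 237) (nat_lit 276) (nat_lit 267)))) (PT.nd (nat_lit 156) (PT.nd (nat_lit 78) (PT.lf (nat_lit 38532) (nat_lit 6) (nat_lit 507) (nat_lit 4) (nat_lit 238) (nat_lit 276) (nat_lit 266)) (PT.lf (nat_lit 40128) (nat_lit 6)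 (nat_lit 528) (nat_lit 4) (nat_lit 239) (nat_lit 276) (nat_lit 265))) (PT.nd (nat_lit 78) (PT.lf (nat_lit 41648) (nat_lit 6) (nat_lit 548) (nat_lit 4) (nat_lit 240) (nat_lit 276) (nat_lit 264)) (PT.lf (nat_lit 43092) (nat_lit 6) (nat_lit 567) (nat_lit 4) (nat_lit 241) (nat_lit 276) (nat_lit 263)))))) (PT.nd (nat_lit 624) (PT.nd (nat_lit 312) (PT.nd (nat_lit 156) (PT.nd (nat_lit 78) (PT.lf (nat_lit 44460) (nat_lit 6) (nat_lit 585) (nat_lit 4) (nat_lit 242) (nat_lit 276) (nat_lit 262)) (PT.lf (nat_lit 45752) (nat_lit 6) (nat_lit 602) (nat_lit 4) (nat_lit 243) (nat_lit 276) (nat_lit 261))) (PT.nd (nat_lit 78) (PT.lf (nat_lit 46968) (nat_lit 6) (nat_lit 618) (nat_lit 4) (nat_lit 244) (nat_lit 276) (nat_lit 260)) (PT.lf (nat_lit 46892) (nat_lit 6) (nat_lit 617) (nat_lit 4) (nat_lit 245) (nat_lit 276) (nat_lit 259)))) (PT.nd (nat_lit 156) (PT.nd (nat_lit 78) (PT.lf (nat_lit 46816) (nat_lit 6) (nat_lit 616) (nat_lit 4) (nat_lit 246) (nat_lit 276) (nat_lit 258)) (PT.lf (nat_lit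 46740) (nat_lit 6) (nat_lit 615) (nat_lit 4) (nat_lit 247) (nat_lit 276) (nat_lit 257))) (PT.nd (nat_lit 78) (PT.lf (nat_lit 46664) (nat_lit 6) (nat_lit 614) (nat_lit 4) (nat_lit 248) (nat_lit 276) (nat_lit 256)) (PT.lf (nat_lit 46588) (nat_lit 6) (nat_lit 613) (nat_lit 4) (nat_lit 249) (nat_lit 276) (nat_lit 255))))) (PT.nd (nat_lit 312) (PT.nd (nat_lit 156) (PT.nd (nat_lit 78) (PT.lf (nat_lit 46512) (nat_lit 6) (nat_lit 612) (nat_lit 4) (nat_lit 250) (nat_lit 276) (nat_lit 254)) (PT.lf (nat_lit 46436) (nat_lit 6) (nat_lit 611) (nat_lit 4) (nat_lit 251) (nat_lit 276) (nat_lit 253))) (PT.nd (nat_lit 78) (PT.lf (nat_lit 46360) (nat_lit 3) (nat_lit 610) (nat_lit 2) (nat_lit 252) (nat_lit 276) (nat_lit 252)) (PT.lf (nat_lit 46436) (nat_lit 6) (nat_lit 611) (nat_lit 2) (nat_lit 253) (nat_lit 276) (nat_lit 251)))) (PT.nd (nat_lit 156) (PT.nd (nat_lit 78) (PT.lf (nat_lit 46512) (nat_lit 6) (nat_lit 612) (nat_lit 2) (nat_lit 254) (nat_lit 276) (nat_lit 250)) (PT.lf (nat_lit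 46588) (nat_lit 6) (nat_lit 613) (nat_lit 2) (nat_lit 255) (nat_lit 276) (nat_lit 249))) (PT.nd (nat_lit 78) (PT.lf (nat_lit 46664) (nat_lit 6) (nat_lit 614) (nat_lit 2) (nat_lit 256) (nat_lit 276) (nat_lit 248)) (PT.nd (nat_lit 78) (PT.lf (nat_lit 46740) (nat_lit 6) (nat_lit 615) (nat_lit 2) (nat_lit 257) (nat_lit 276) (nat_lit 247)) (PT.lf (nat_lit 46816) (nat_lit 6) (nat_lit 616) (nat_lit 2) (nat_lit 258) (nat_lit 276) (nat_lit 246))))))))
noncomputable def pc82 : PT := (PT.nd (nat_lit 1248) (PT.nd (nat_lit 624) (PT.nd (nat_lit 312) (PT.nd (nat_lit 156) (PT.nd (nat_lit 78) (PT.lf (nat_lit 46892) (nat_lit 6) (nat_lit 617) (nat_lit 2) (nat_lit 259) (nat_lit 276) (nat_lit 245)) (PT.lf (nat_lit 46968) (nat_lit 6) (nat_lit 618) (nat_lit 2) (nat_lit 260) (nat_lit 276) (nat_lit 244))) (PT.nd (nat_lit 78) (PT.lf (nat_lit 45752) (nat_lit 6) (nat_lit 602) (nat_lit 2) (nat_lit 261) (nat_lit 276) (nat_lit 243)) (PT.lf (nat_lit 44460) (nat_lit 6) (nat_lit 585) (nat_lit 2) (nat_lit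 262) (nat_lit 276) (nat_lit 242)))) (PT.nd (nat_lit 156) (PT.nd (nat_lit 78) (PT.lf (nat_lit 43092) (nat_lit 6) (nat_lit 567) (nat_lit 2) (nat_lit 263) (nat_lit 276) (nat_lit 241)) (PT.lf (nat_lit 41648) (nat_lit 6) (nat_lit 548) (nat_lit 2) (nat_lit 264) (nat_lit 276) (nat_lit 240))) (PT.nd (nat_lit 78) (PT.lf (nat_lit 40128) (nat_lit 6) (nat_lit 528) (nat_lit 2) (nat_lit 265) (nat_lit 276) (nat_lit 239)) (PT.lf (nat_lit 38532) (nat_lit 6) (nat_lit 507) (nat_lit 2) (nat_lit 266) (nat_lit 276) (nat_lit 238))))) (PT.nd (nat_lit 312) (PT.nd (nat_lit 156) (PT.nd (nat_lit 78) (PT.lf (nat_lit 36860) (nat_lit 6) (nat_lit 485) (nat_lit 2) (nat_lit 267) (nat_lit 276) (nat_lit 237)) (PT.lf (nat_lit 35112) (nat_lit 6) (nat_lit 462) (nat_lit 2) (nat_lit 268) (nat_lit 276) (nat_lit 236))) (PT.nd (nat_lit 78) (PT.lf (nat_lit 33440) (nat_lit 6) (nat_lit 440) (nat_lit 2) (nat_lit 269) (nat_lit 276) (nat_lit 235)) (PT.lf (nat_lit 32452) (nat_lit 6) (nat_lit 427) (nat_lit 2) (nat_lit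 270) (nat_lit 276) (nat_lit 234)))) (PT.nd (nat_lit 156) (PT.nd (nat_lit 78) (PT.lf (nat_lit 31540) (nat_lit 6) (nat_lit 415) (nat_lit 2) (nat_lit 271) (nat_lit 276) (nat_lit 233)) (PT.lf (nat_lit 30628) (nat_lit 6) (nat_lit 403) (nat_lit 2) (nat_lit 272) (nat_lit 276) (nat_lit 232))) (PT.nd (nat_lit 78) (PT.lf (nat_lit 29792) (nat_lit 6) (nat_lit 392) (nat_lit 2) (nat_lit 273) (nat_lit 276) (nat_lit 231)) (PT.lf (nat_lit 28956) (nat_lit 6) (nat_lit 381) (nat_lit 2) (nat_lit 274) (nat_lit 276) (nat_lit 230)))))) (PT.nd (nat_lit 624) (PT.nd (nat_lit 312) (PT.nd (nat_lit 156) (PT.nd (nat_lit 78) (PT.lf (nat_lit 28196) (nat_lit 6) (nat_lit 371) (nat_lit 2) (nat_lit 275) (nat_lit 276) (nat_lit 229)) (PT.lf (nat_lit 27360) (nat_lit 3) (nat_lit 360) (nat_lit 0) (nat_lit 276) (nat_lit 276) (nat_lit 228))) (PT.nd (nat_lit 78) (PT.lf (nat_lit 26524) (nat_lit 6) (nat_lit 349) (nat_lit 0) (nat_lit 277) (nat_lit 276) (nat_lit 227)) (PT.lf (nat_lit 25688) (nat_lit 6) (nat_lit 338)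 (nat_lit 0) (nat_lit 278) (nat_lit 276) (nat_lit 226)))) (PT.nd (nat_lit 156) (PT.nd (nat_lit 78) (PT.lf (nat_lit 24928) (nat_lit 6) (nat_lit 328) (nat_lit 0) (nat_lit 279) (nat_lit 276) (nat_lit 225)) (PT.lf (nat_lit 24092) (nat_lit 6) (nat_lit 317) (nat_lit 0) (nat_lit 280) (nat_lit 276) (nat_lit 224))) (PT.nd (nat_lit 78) (PT.lf (nat_lit 23332) (nat_lit 6) (nat_lit 307) (nat_lit 0) (nat_lit 281) (nat_lit 276) (nat_lit 223)) (PT.lf (nat_lit 22572) (nat_lit 6) (nat_lit 297) (nat_lit 0) (nat_lit 282) (nat_lit 276) (nat_lit 222))))) (PT.nd (nat_lit 312) (PT.nd (nat_lit 156) (PT.nd (nat_lit 78) (PT.lf (nat_lit 21888) (nat_lit 6) (nat_lit 288) (nat_lit 0) (nat_lit 283) (nat_lit 276) (nat_lit 221)) (PT.lf (nat_lit 21128) (nat_lit 6) (nat_lit 278) (nat_lit 0) (nat_lit 284) (nat_lit 276) (nat_lit 220))) (PT.nd (nat_lit 78) (PT.lf (nat_lit 20444) (nat_lit 6) (nat_lit 269) (nat_lit 0) (nat_lit 285) (nat_lit 276) (nat_lit 219)) (PT.lf (nat_lit 19760) (nat_lit 6) (nat_lit 260)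 (nat_lit 0) (nat_lit 286) (nat_lit 276) (nat_lit 218)))) (PT.nd (nat_lit 156) (PT.nd (nat_lit 78) (PT.lf (nat_lit 19152) (nat_lit 6) (nat_lit 252) (nat_lit 0) (nat_lit 287) (nat_lit 276) (nat_lit 217)) (PT.lf (nat_lit 18468) (nat_lit 6) (nat_lit 243) (nat_lit 0) (nat_lit 288) (nat_lit 276) (nat_lit 216))) (PT.nd (nat_lit 78) (PT.lf (nat_lit 17860) (nat_lit 6) (nat_lit 235) (nat_lit 0) (nat_lit 289) (nat_lit 276) (nat_lit 215)) (PT.nd (nat_lit 75192) (PT.lf (nat_lit 17252) (nat_lit 6) (nat_lit 227) (nat_lit 0) (nat_lit 290) (nat_lit 276) (nat_lit 214)) (PT.lf (nat_lit 16720) (nat_lit 6) (nat_lit 220) (nat_lit 5) (nat_lit 213) (nat_lit 277) (nat_lit 290))))))))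
noncomputable def pc83 : PT := (PT.nd (nat_lit 1248) (PT.nd (nat_lit 624) (PT.nd (nat_lit 312) (PT.nd (nat_lit 156) (PT.nd (nat_lit 78) (PT.lf (nat_lit 17328) (nat_lit 6) (nat_lit 228) (nat_lit 5) (nat_lit 214) (nat_lit 277) (nat_lit 289)) (PT.lf (nat_lit 17936) (nat_lit 6) (nat_lit 236) (nat_lit 5) (nat_lit 215) (nat_lit 277) (nat_lit 288))) (PT.nd (nat_lit 78) (PT.lf (nat_lit 18544) (nat_lit 6) (nat_lit 244) (nat_lit 5) (nat_lit 216) (nat_lit 277) (nat_lit 287)) (PT.lf (nat_lit 19228) (nat_lit 6) (nat_lit 253) (nat_lit 5) (nat_lit 217) (nat_lit 277) (nat_lit 286)))) (PT.nd (nat_lit 156) (PT.nd (nat_lit 78) (PT.lf (nat_lit 19836) (nat_lit 6) (nat_lit 261) (nat_lit 5) (nat_lit 218) (nat_lit 277) (nat_lit 285)) (PT.lf (nat_lit 20520) (nat_lit 6) (nat_lit 270) (nat_lit 5) (nat_lit 219) (nat_lit 277) (nat_lit 284))) (PT.nd (nat_lit 78) (PT.lf (nat_lit 21204) (nat_lit 6) (nat_lit 279) (nat_lit 5) (nat_lit 220) (nat_lit 277) (nat_lit 283)) (PT.lf (nat_lit 21964) (nat_lit 6)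 (nat_lit 289) (nat_lit 5) (nat_lit 221) (nat_lit 277) (nat_lit 282))))) (PT.nd (nat_lit 312) (PT.nd (nat_lit 156) (PT.nd (nat_lit 78) (PT.lf (nat_lit 22648) (nat_lit 6) (nat_lit 298) (nat_lit 5) (nat_lit 222) (nat_lit 277) (nat_lit 281)) (PT.lf (nat_lit 23408) (nat_lit 6) (nat_lit 308) (nat_lit 5) (nat_lit 223) (nat_lit 277) (nat_lit 280))) (PT.nd (nat_lit 78) (PT.lf (nat_lit 24168) (nat_lit 6) (nat_lit 318) (nat_lit 5) (nat_lit 224) (nat_lit 277) (nat_lit 279)) (PT.lf (nat_lit 25004) (nat_lit 6) (nat_lit 329) (nat_lit 5) (nat_lit 225) (nat_lit 277) (nat_lit 278)))) (PT.nd (nat_lit 156) (PT.nd (nat_lit 78) (PT.lf (nat_lit 25764) (nat_lit 3) (nat_lit 339) (nat_lit 4) (nat_lit 226) (nat_lit 277) (nat_lit 277)) (PT.lf (nat_lit 26524) (nat_lit 6) (nat_lit 349) (nat_lit 4) (nat_lit 227) (nat_lit 277) (nat_lit 276))) (PT.nd (nat_lit 78) (PT.lf (nat_lit 27284) (nat_lit 6) (nat_lit 359) (nat_lit 4) (nat_lit 228) (nat_lit 277) (nat_lit 275)) (PT.lf (nat_lit 28120) (nat_lit 6)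 (nat_lit 370) (nat_lit 4) (nat_lit 229) (nat_lit 277) (nat_lit 274)))))) (PT.nd (nat_lit 624) (PT.nd (nat_lit 312) (PT.nd (nat_lit 156) (PT.nd (nat_lit 78) (PT.lf (nat_lit 28880) (nat_lit 6) (nat_lit 380) (nat_lit 4) (nat_lit 230) (nat_lit 277) (nat_lit 273)) (PT.lf (nat_lit 29716) (nat_lit 6) (nat_lit 391) (nat_lit 4) (nat_lit 231) (nat_lit 277) (nat_lit 272))) (PT.nd (nat_lit 78) (PT.lf (nat_lit 30552) (nat_lit 6) (nat_lit 402) (nat_lit 4) (nat_lit 232) (nat_lit 277) (nat_lit 271)) (PT.lf (nat_lit 31464) (nat_lit 6) (nat_lit 414) (nat_lit 4) (nat_lit 233) (nat_lit 277) (nat_lit 270)))) (PT.nd (nat_lit 156) (PT.nd (nat_lit 78) (PT.lf (nat_lit 32376) (nat_lit 6) (nat_lit 426) (nat_lit 4) (nat_lit 234) (nat_lit 277) (nat_lit 269)) (PT.lf (nat_lit 33364) (nat_lit 6) (nat_lit 439) (nat_lit 4) (nat_lit 235) (nat_lit 277) (nat_lit 268))) (PT.nd (nat_lit 78) (PT.lf (nat_lit 35036) (nat_lit 6) (nat_lit 461) (nat_lit 4) (nat_lit 236) (nat_lit 277) (nat_lit 267)) (PT.lf (nat_lit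 36784) (nat_lit 6) (nat_lit 484) (nat_lit 4) (nat_lit 237) (nat_lit 277) (nat_lit 266))))) (PT.nd (nat_lit 312) (PT.nd (nat_lit 156) (PT.nd (nat_lit 78) (PT.lf (nat_lit 38456) (nat_lit 6) (nat_lit 506) (nat_lit 4) (nat_lit 238) (nat_lit 277) (nat_lit 265)) (PT.lf (nat_lit 40052) (nat_lit 6) (nat_lit 527) (nat_lit 4) (nat_lit 239) (nat_lit 277) (nat_lit 264))) (PT.nd (nat_lit 78) (PT.lf (nat_lit 41572) (nat_lit 6) (nat_lit 547) (nat_lit 4) (nat_lit 240) (nat_lit 277) (nat_lit 263)) (PT.lf (nat_lit 43016) (nat_lit 6) (nat_lit 566) (nat_lit 4) (nat_lit 241) (nat_lit 277) (nat_lit 262)))) (PT.nd (nat_lit 156) (PT.nd (nat_lit 78) (PT.lf (nat_lit 44384) (nat_lit 6) (nat_lit 584) (nat_lit 4) (nat_lit 242) (nat_lit 277) (nat_lit 261)) (PT.lf (nat_lit 45676) (nat_lit 6) (nat_lit 601) (nat_lit 4) (nat_lit 243) (nat_lit 277) (nat_lit 260))) (PT.nd (nat_lit 78) (PT.lf (nat_lit 45600) (nat_lit 6) (nat_lit 600) (nat_lit 4) (nat_lit 244) (nat_lit 277) (nat_lit 259)) (PT.nd (nat_lit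 78) (PT.lf (nat_lit 45524) (nat_lit 6) (nat_lit 599) (nat_lit 4) (nat_lit 245) (nat_lit 277) (nat_lit 258)) (PT.lf (nat_lit 45448) (nat_lit 6) (nat_lit 598) (nat_lit 4) (nat_lit 246) (nat_lit 277) (nat_lit 257))))))))
noncomputable def pc84 : PT := (PT.nd (nat_lit 1248) (PT.nd (nat_lit 624) (PT.nd (nat_lit 312) (PT.nd (nat_lit 156) (PT.nd (nat_lit 78) (PT.lf (nat_lit 45372) (nat_lit 6) (nat_lit 597) (nat_lit 4) (nat_lit 247) (nat_lit 277) (nat_lit 256)) (PT.lf (nat_lit 45296) (nat_lit 6) (nat_lit 596) (nat_lit 4) (nat_lit 248) (nat_lit 277) (nat_lit 255))) (PT.nd (nat_lit 78) (PT.lf (nat_lit 45220) (nat_lit 6) (nat_lit 595) (nat_lit 4) (nat_lit 249) (nat_lit 277) (nat_lit 254)) (PT.lf (nat_lit 45144) (nat_lit 6) (nat_lit 594) (nat_lit 4) (nat_lit 250) (nat_lit 277) (nat_lit 253)))) (PT.nd (nat_lit 156) (PT.nd (nat_lit 78) (PT.lf (nat_lit 45068) (nat_lit 6) (nat_lit 593) (nat_lit 4) (nat_lit 251) (nat_lit 277) (nat_lit 252)) (PT.lf (nat_lit 45068) (nat_lit 6) (nat_lit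 593) (nat_lit 2) (nat_lit 252) (nat_lit 277) (nat_lit 251))) (PT.nd (nat_lit 78) (PT.lf (nat_lit 45144) (nat_lit 6) (nat_lit 594) (nat_lit 2) (nat_lit 253) (nat_lit 277) (nat_lit 250)) (PT.lf (nat_lit 45220) (nat_lit 6) (nat_lit 595) (nat_lit 2) (nat_lit 254) (nat_lit 277) (nat_lit 249))))) (PT.nd (nat_lit 312) (PT.nd (nat_lit 156) (PT.nd (nat_lit 78) (PT.lf (nat_lit 45296) (nat_lit 6) (nat_lit 596) (nat_lit 2) (nat_lit 255) (nat_lit 277) (nat_lit 248)) (PT.lf (nat_lit 45372) (nat_lit 6) (nat_lit 597) (nat_lit 2) (nat_lit 256) (nat_lit 277) (nat_lit 247))) (PT.nd (nat_lit 78) (PT.lf (nat_lit 45448) (nat_lit 6) (nat_lit 598) (nat_lit 2) (nat_lit 257) (nat_lit 277) (nat_lit 246)) (PT.lf (nat_lit 45524) (nat_lit 6) (nat_lit 599) (nat_lit 2) (nat_lit 258) (nat_lit 277) (nat_lit 245)))) (PT.nd (nat_lit 156) (PT.nd (nat_lit 78) (PT.lf (nat_lit 45600) (nat_lit 6) (nat_lit 600) (nat_lit 2) (nat_lit 259) (nat_lit 277) (nat_lit 244)) (PT.lf (nat_lit 45676) (nat_lit 6) (nat_lit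 601) (nat_lit 2) (nat_lit 260) (nat_lit 277) (nat_lit 243))) (PT.nd (nat_lit 78) (PT.lf (nat_lit 44384) (nat_lit 6) (nat_lit 584) (nat_lit 2) (nat_lit 261) (nat_lit 277) (nat_lit 242)) (PT.lf (nat_lit 43016) (nat_lit 6) (nat_lit 566) (nat_lit 2) (nat_lit 262) (nat_lit 277) (nat_lit 241)))))) (PT.nd (nat_lit 624) (PT.nd (nat_lit 312) (PT.nd (nat_lit 156) (PT.nd (nat_lit 78) (PT.lf (nat_lit 41572) (nat_lit 6) (nat_lit 547) (nat_lit 2) (nat_lit 263) (nat_lit 277) (nat_lit 240)) (PT.lf (nat_lit 40052) (nat_lit 6) (nat_lit 527) (nat_lit 2) (nat_lit 264) (nat_lit 277) (nat_lit 239))) (PT.nd (nat_lit 78) (PT.lf (nat_lit 38456) (nat_lit 6) (nat_lit 506) (nat_lit 2) (nat_lit 265) (nat_lit 277) (nat_lit 238)) (PT.lf (nat_lit 36784) (nat_lit 6) (nat_lit 484) (nat_lit 2) (nat_lit 266) (nat_lit 277) (nat_lit 237)))) (PT.nd (nat_lit 156) (PT.nd (nat_lit 78) (PT.lf (nat_lit 35036) (nat_lit 6) (nat_lit 461) (nat_lit 2) (nat_lit 267) (nat_lit 277) (nat_lit 236)) (PT.lf (nat_lit 33364)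 (nat_lit 6) (nat_lit 439) (nat_lit 2) (nat_lit 268) (nat_lit 277) (nat_lit 235))) (PT.nd (nat_lit 78) (PT.lf (nat_lit 32376) (nat_lit 6) (nat_lit 426) (nat_lit 2) (nat_lit 269) (nat_lit 277) (nat_lit 234)) (PT.lf (nat_lit 31464) (nat_lit 6) (nat_lit 414) (nat_lit 2) (nat_lit 270) (nat_lit 277) (nat_lit 233))))) (PT.nd (nat_lit 312) (PT.nd (nat_lit 156) (PT.nd (nat_lit 78) (PT.lf (nat_lit 30552) (nat_lit 6) (nat_lit 402) (nat_lit 2) (nat_lit 271) (nat_lit 277) (nat_lit 232)) (PT.lf (nat_lit 29716) (nat_lit 6) (nat_lit 391) (nat_lit 2) (nat_lit 272) (nat_lit 277) (nat_lit 231))) (PT.nd (nat_lit 78) (PT.lf (nat_lit 28880) (nat_lit 6) (nat_lit 380) (nat_lit 2) (nat_lit 273) (nat_lit 277) (nat_lit 230)) (PT.lf (nat_lit 28120) (nat_lit 6) (nat_lit 370) (nat_lit 2) (nat_lit 274) (nat_lit 277) (nat_lit 229)))) (PT.nd (nat_lit 156) (PT.nd (nat_lit 78) (PT.lf (nat_lit 27284) (nat_lit 6) (nat_lit 359) (nat_lit 2) (nat_lit 275) (nat_lit 277) (nat_lit 228)) (PT.lf (nat_lit 26524)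 (nat_lit 6) (nat_lit 349) (nat_lit 2) (nat_lit 276) (nat_lit 277) (nat_lit 227))) (PT.nd (nat_lit 78) (PT.lf (nat_lit 25764) (nat_lit 3) (nat_lit 339) (nat_lit 0) (nat_lit 277) (nat_lit 277) (nat_lit 226)) (PT.nd (nat_lit 78) (PT.lf (nat_lit 25004) (nat_lit 6) (nat_lit 329) (nat_lit 0) (nat_lit 278) (nat_lit 277) (nat_lit 225)) (PT.lf (nat_lit 24168) (nat_lit 6) (nat_lit 318) (nat_lit 0) (nat_lit 279) (nat_lit 277) (nat_lit 224))))))))
noncomputable def pc85 : PT := (PT.nd (nat_lit 76206) (PT.nd (nat_lit 624) (PT.nd (nat_lit 312) (PT.nd (nat_lit 156) (PT.nd (nat_lit 78) (PT.lf (nat_lit 23408) (nat_lit 6) (nat_lit 308) (nat_lit 0) (nat_lit 280) (nat_lit 277) (nat_lit 223)) (PT.lf (nat_lit 22648) (nat_lit 6) (nat_lit 298) (nat_lit 0) (nat_lit 281) (nat_lit 277) (nat_lit 222))) (PT.nd (nat_lit 78) (PT.lf (nat_lit 21964) (nat_lit 6) (nat_lit 289) (nat_lit 0) (nat_lit 282) (nat_lit 277) (nat_lit 221)) (PT.lf (nat_lit 21204) (nat_lit 6) (nat_lit 279) (nat_lit 0) (nat_lit 283)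 (nat_lit 277) (nat_lit 220)))) (PT.nd (nat_lit 156) (PT.nd (nat_lit 78) (PT.lf (nat_lit 20520) (nat_lit 6) (nat_lit 270) (nat_lit 0) (nat_lit 284) (nat_lit 277) (nat_lit 219)) (PT.lf (nat_lit 19836) (nat_lit 6) (nat_lit 261) (nat_lit 0) (nat_lit 285) (nat_lit 277) (nat_lit 218))) (PT.nd (nat_lit 78) (PT.lf (nat_lit 19228) (nat_lit 6) (nat_lit 253) (nat_lit 0) (nat_lit 286) (nat_lit 277) (nat_lit 217)) (PT.lf (nat_lit 18544) (nat_lit 6) (nat_lit 244) (nat_lit 0) (nat_lit 287) (nat_lit 277) (nat_lit 216))))) (PT.nd (nat_lit 75270) (PT.nd (nat_lit 156) (PT.nd (nat_lit 78) (PT.lf (nat_lit 17936) (nat_lit 6) (nat_lit 236) (nat_lit 0) (nat_lit 288) (nat_lit 277) (nat_lit 215)) (PT.lf (nat_lit 17328) (nat_lit 6) (nat_lit 228) (nat_lit 0) (nat_lit 289) (nat_lit 277) (nat_lit 214))) (PT.nd (nat_lit 75036) (PT.lf (nat_lit 16720) (nat_lit 6) (nat_lit 220) (nat_lit 0) (nat_lit 290) (nat_lit 277) (nat_lit 213)) (PT.lf (nat_lit 15656) (nat_lit 6) (nat_lit 206) (nat_lit 5) (nat_lit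 211) (nat_lit 278) (nat_lit 291)))) (PT.nd (nat_lit 156) (PT.nd (nat_lit 78) (PT.lf (nat_lit 16188) (nat_lit 6) (nat_lit 213) (nat_lit 5) (nat_lit 212) (nat_lit 278) (nat_lit 290)) (PT.lf (nat_lit 16796) (nat_lit 6) (nat_lit 221) (nat_lit 5) (nat_lit 213) (nat_lit 278) (nat_lit 289))) (PT.nd (nat_lit 78) (PT.lf (nat_lit 17404) (nat_lit 6) (nat_lit 229) (nat_lit 5) (nat_lit 214) (nat_lit 278) (nat_lit 288)) (PT.lf (nat_lit 18012) (nat_lit 6) (nat_lit 237) (nat_lit 5) (nat_lit 215) (nat_lit 278) (nat_lit 287)))))) (PT.nd (nat_lit 624) (PT.nd (nat_lit 312) (PT.nd (nat_lit 156) (PT.nd (nat_lit 78) (PT.lf (nat_lit 18620) (nat_lit 6) (nat_lit 245) (nat_lit 5) (nat_lit 216) (nat_lit 278) (nat_lit 286)) (PT.lf (nat_lit 19304) (nat_lit 6) (nat_lit 254) (nat_lit 5) (nat_lit 217) (nat_lit 278) (nat_lit 285))) (PT.nd (nat_lit 78) (PT.lf (nat_lit 19912) (nat_lit 6) (nat_lit 262) (nat_lit 5) (nat_lit 218) (nat_lit 278) (nat_lit 284)) (PT.lf (nat_lit 20596) (nat_lit 6) (nat_lit 271)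 (nat_lit 5) (nat_lit 219) (nat_lit 278) (nat_lit 283)))) (PT.nd (nat_lit 156) (PT.nd (nat_lit 78) (PT.lf (nat_lit 21280) (nat_lit 6) (nat_lit 280) (nat_lit 5) (nat_lit 220) (nat_lit 278) (nat_lit 282)) (PT.lf (nat_lit 22040) (nat_lit 6) (nat_lit 290) (nat_lit 5) (nat_lit 221) (nat_lit 278) (nat_lit 281))) (PT.nd (nat_lit 78) (PT.lf (nat_lit 22724) (nat_lit 6) (nat_lit 299) (nat_lit 5) (nat_lit 222) (nat_lit 278) (nat_lit 280)) (PT.lf (nat_lit 23484) (nat_lit 6) (nat_lit 309) (nat_lit 5) (nat_lit 223) (nat_lit 278) (nat_lit 279))))) (PT.nd (nat_lit 312) (PT.nd (nat_lit 156) (PT.nd (nat_lit 78) (PT.lf (nat_lit 24244) (nat_lit 3) (nat_lit 319) (nat_lit 4) (nat_lit 224) (nat_lit 278) (nat_lit 278)) (PT.lf (nat_lit 25004) (nat_lit 6) (nat_lit 329) (nat_lit 4) (nat_lit 225) (nat_lit 278) (nat_lit 277))) (PT.nd (nat_lit 78) (PT.lf (nat_lit 25688) (nat_lit 6) (nat_lit 338) (nat_lit 4) (nat_lit 226) (nat_lit 278) (nat_lit 276)) (PT.lf (nat_lit 26448) (nat_lit 6) (nat_lit 348)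 (nat_lit 4) (nat_lit 227) (nat_lit 278) (nat_lit 275)))) (PT.nd (nat_lit 156) (PT.nd (nat_lit 78) (PT.lf (nat_lit 27208) (nat_lit 6) (nat_lit 358) (nat_lit 4) (nat_lit 228) (nat_lit 278) (nat_lit 274)) (PT.lf (nat_lit 28044) (nat_lit 6) (nat_lit 369) (nat_lit 4) (nat_lit 229) (nat_lit 278) (nat_lit 273))) (PT.nd (nat_lit 78) (PT.lf (nat_lit 28804) (nat_lit 6) (nat_lit 379) (nat_lit 4) (nat_lit 230) (nat_lit 278) (nat_lit 272)) (PT.nd (nat_lit 78) (PT.lf (nat_lit 29640) (nat_lit 6) (nat_lit 390) (nat_lit 4) (nat_lit 231) (nat_lit 278) (nat_lit 271)) (PT.lf (nat_lit 30476) (nat_lit 6) (nat_lit 401) (nat_lit 4) (nat_lit 232) (nat_lit 278) (nat_lit 270))))))))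
noncomputable def pc86 : PT := (PT.nd (nat_lit 1248) (PT.nd (nat_lit 624) (PT.nd (nat_lit 312) (PT.nd (nat_lit 156) (PT.nd (nat_lit 78) (PT.lf (nat_lit 31388) (nat_lit 6) (nat_lit 413) (nat_lit 4) (nat_lit 233) (nat_lit 278) (nat_lit 269)) (PT.lf (nat_lit 32300) (nat_lit 6) (nat_lit 425) (nat_lit 4) (nat_lit 234) (nat_lit 278) (nat_lit 268))) (PT.nd (nat_lit 78) (PT.lf (nat_lit 33288) (nat_lit 6) (nat_lit 438) (nat_lit 4) (nat_lit 235) (nat_lit 278) (nat_lit 267)) (PT.lf (nat_lit 34960) (nat_lit 6) (nat_lit 460) (nat_lit 4) (nat_lit 236) (nat_lit 278) (nat_lit 266)))) (PT.nd (nat_lit 156) (PT.nd (nat_lit 78) (PT.lf (nat_lit 36708) (nat_lit 6) (nat_lit 483) (nat_lit 4) (nat_lit 237) (nat_lit 278) (nat_lit 265)) (PT.lf (nat_lit 38380) (nat_lit 6) (nat_lit 505) (nat_lit 4) (nat_lit 238) (nat_lit 278) (nat_lit 264))) (PT.nd (nat_lit 78) (PT.lf (nat_lit 39976) (nat_lit 6) (nat_lit 526) (nat_lit 4) (nat_lit 239) (nat_lit 278) (nat_lit 263)) (PT.lf (nat_lit 41496) (nat_lit 6)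 (nat_lit 546) (nat_lit 4) (nat_lit 240) (nat_lit 278) (nat_lit 262))))) (PT.nd (nat_lit 312) (PT.nd (nat_lit 156) (PT.nd (nat_lit 78) (PT.lf (nat_lit 42940) (nat_lit 6) (nat_lit 565) (nat_lit 4) (nat_lit 241) (nat_lit 278) (nat_lit 261)) (PT.lf (nat_lit 44308) (nat_lit 6) (nat_lit 583) (nat_lit 4) (nat_lit 242) (nat_lit 278) (nat_lit 260))) (PT.nd (nat_lit 78) (PT.lf (nat_lit 44232) (nat_lit 6) (nat_lit 582) (nat_lit 4) (nat_lit 243) (nat_lit 278) (nat_lit 259)) (PT.lf (nat_lit 44156) (nat_lit 6) (nat_lit 581) (nat_lit 4) (nat_lit 244) (nat_lit 278) (nat_lit 258)))) (PT.nd (nat_lit 156) (PT.nd (nat_lit 78) (PT.lf (nat_lit 44080) (nat_lit 6) (nat_lit 580) (nat_lit 4) (nat_lit 245) (nat_lit 278) (nat_lit 257)) (PT.lf (nat_lit 44004) (nat_lit 6) (nat_lit 579) (nat_lit 4) (nat_lit 246) (nat_lit 278) (nat_lit 256))) (PT.nd (nat_lit 78) (PT.lf (nat_lit 43928) (nat_lit 6) (nat_lit 578) (nat_lit 4) (nat_lit 247) (nat_lit 278) (nat_lit 255)) (PT.lf (nat_lit 43852) (nat_lit 6)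 (nat_lit 577) (nat_lit 4) (nat_lit 248) (nat_lit 278) (nat_lit 254)))))) (PT.nd (nat_lit 624) (PT.nd (nat_lit 312) (PT.nd (nat_lit 156) (PT.nd (nat_lit 78) (PT.lf (nat_lit 43776) (nat_lit 6) (nat_lit 576) (nat_lit 4) (nat_lit 249) (nat_lit 278) (nat_lit 253)) (PT.lf (nat_lit 43700) (nat_lit 6) (nat_lit 575) (nat_lit 4) (nat_lit 250) (nat_lit 278) (nat_lit 252))) (PT.nd (nat_lit 78) (PT.lf (nat_lit 43624) (nat_lit 3) (nat_lit 574) (nat_lit 2) (nat_lit 251) (nat_lit 278) (nat_lit 251)) (PT.lf (nat_lit 43700) (nat_lit 6) (nat_lit 575) (nat_lit 2) (nat_lit 252) (nat_lit 278) (nat_lit 250)))) (PT.nd (nat_lit 156) (PT.nd (nat_lit 78) (PT.lf (nat_lit 43776) (nat_lit 6) (nat_lit 576) (nat_lit 2) (nat_lit 253) (nat_lit 278) (nat_lit 249)) (PT.lf (nat_lit 43852) (nat_lit 6) (nat_lit 577) (nat_lit 2) (nat_lit 254) (nat_lit 278) (nat_lit 248))) (PT.nd (nat_lit 78) (PT.lf (nat_lit 43928) (nat_lit 6) (nat_lit 578) (nat_lit 2) (nat_lit 255) (nat_lit 278) (nat_lit 247)) (PT.lf (nat_lit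 44004) (nat_lit 6) (nat_lit 579) (nat_lit 2) (nat_lit 256) (nat_lit 278) (nat_lit 246))))) (PT.nd (nat_lit 312) (PT.nd (nat_lit 156) (PT.nd (nat_lit 78) (PT.lf (nat_lit 44080) (nat_lit 6) (nat_lit 580) (nat_lit 2) (nat_lit 257) (nat_lit 278) (nat_lit 245)) (PT.lf (nat_lit 44156) (nat_lit 6) (nat_lit 581) (nat_lit 2) (nat_lit 258) (nat_lit 278) (nat_lit 244))) (PT.nd (nat_lit 78) (PT.lf (nat_lit 44232) (nat_lit 6) (nat_lit 582) (nat_lit 2) (nat_lit 259) (nat_lit 278) (nat_lit 243)) (PT.lf (nat_lit 44308) (nat_lit 6) (nat_lit 583) (nat_lit 2) (nat_lit 260) (nat_lit 278) (nat_lit 242)))) (PT.nd (nat_lit 156) (PT.nd (nat_lit 78) (PT.lf (nat_lit 42940) (nat_lit 6) (nat_lit 565) (nat_lit 2) (nat_lit 261) (nat_lit 278) (nat_lit 241)) (PT.lf (nat_lit 41496) (nat_lit 6) (nat_lit 546) (nat_lit 2) (nat_lit 262) (nat_lit 278) (nat_lit 240))) (PT.nd (nat_lit 78) (PT.lf (nat_lit 39976) (nat_lit 6) (nat_lit 526) (nat_lit 2) (nat_lit 263) (nat_lit 278) (nat_lit 239)) (PT.nd (nat_lit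 78) (PT.lf (nat_lit 38380) (nat_lit 6) (nat_lit 505) (nat_lit 2) (nat_lit 264) (nat_lit 278) (nat_lit 238)) (PT.lf (nat_lit 36708) (nat_lit 6) (nat_lit 483) (nat_lit 2) (nat_lit 265) (nat_lit 278) (nat_lit 237))))))))
noncomputable def pc87 : PT := (PT.nd (nat_lit 1326) (PT.nd (nat_lit 624) (PT.nd (nat_lit 312) (PT.nd (nat_lit 156) (PT.nd (nat_lit 78) (PT.lf (nat_lit 34960) (nat_lit 6) (nat_lit 460) (nat_lit 2) (nat_lit 266) (nat_lit 278) (nat_lit 236)) (PT.lf (nat_lit 33288) (nat_lit 6) (nat_lit 438) (nat_lit 2) (nat_lit 267) (nat_lit 278) (nat_lit 235))) (PT.nd (nat_lit 78) (PT.lf (nat_lit 32300) (nat_lit 6) (nat_lit 425) (nat_lit 2) (nat_lit 268) (nat_lit 278) (nat_lit 234)) (PT.lf (nat_lit 31388) (nat_lit 6) (nat_lit 413) (nat_lit 2) (nat_lit 269) (nat_lit 278) (nat_lit 233)))) (PT.nd (nat_lit 156) (PT.nd (nat_lit 78) (PT.lf (nat_lit 30476) (nat_lit 6) (nat_lit 401) (nat_lit 2) (nat_lit 270) (nat_lit 278) (nat_lit 232)) (PT.lf (nat_lit 29640) (nat_lit 6) (nat_lit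 390) (nat_lit 2) (nat_lit 271) (nat_lit 278) (nat_lit 231))) (PT.nd (nat_lit 78) (PT.lf (nat_lit 28804) (nat_lit 6) (nat_lit 379) (nat_lit 2) (nat_lit 272) (nat_lit 278) (nat_lit 230)) (PT.lf (nat_lit 28044) (nat_lit 6) (nat_lit 369) (nat_lit 2) (nat_lit 273) (nat_lit 278) (nat_lit 229))))) (PT.nd (nat_lit 312) (PT.nd (nat_lit 156) (PT.nd (nat_lit 78) (PT.lf (nat_lit 27208) (nat_lit 6) (nat_lit 358) (nat_lit 2) (nat_lit 274) (nat_lit 278) (nat_lit 228)) (PT.lf (nat_lit 26448) (nat_lit 6) (nat_lit 348) (nat_lit 2) (nat_lit 275) (nat_lit 278) (nat_lit 227))) (PT.nd (nat_lit 78) (PT.lf (nat_lit 25688) (nat_lit 6) (nat_lit 338) (nat_lit 2) (nat_lit 276) (nat_lit 278) (nat_lit 226)) (PT.lf (nat_lit 25004) (nat_lit 6) (nat_lit 329) (nat_lit 2) (nat_lit 277) (nat_lit 278) (nat_lit 225)))) (PT.nd (nat_lit 156) (PT.nd (nat_lit 78) (PT.lf (nat_lit 24244) (nat_lit 3) (nat_lit 319) (nat_lit 0) (nat_lit 278) (nat_lit 278) (nat_lit 224)) (PT.lf (nat_lit 23484) (nat_lit 6) (nat_lit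 309) (nat_lit 0) (nat_lit 279) (nat_lit 278) (nat_lit 223))) (PT.nd (nat_lit 78) (PT.lf (nat_lit 22724) (nat_lit 6) (nat_lit 299) (nat_lit 0) (nat_lit 280) (nat_lit 278) (nat_lit 222)) (PT.nd (nat_lit 78) (PT.lf (nat_lit 22040) (nat_lit 6) (nat_lit 290) (nat_lit 0) (nat_lit 281) (nat_lit 278) (nat_lit 221)) (PT.lf (nat_lit 21280) (nat_lit 6) (nat_lit 280) (nat_lit 0) (nat_lit 282) (nat_lit 278) (nat_lit 220))))))) (PT.nd (nat_lit 624) (PT.nd (nat_lit 312) (PT.nd (nat_lit 156) (PT.nd (nat_lit 78) (PT.lf (nat_lit 20596) (nat_lit 6) (nat_lit 271) (nat_lit 0) (nat_lit 283) (nat_lit 278) (nat_lit 219)) (PT.lf (nat_lit 19912) (nat_lit 6) (nat_lit 262) (nat_lit 0) (nat_lit 284) (nat_lit 278) (nat_lit 218))) (PT.nd (nat_lit 78) (PT.lf (nat_lit 19304) (nat_lit 6) (nat_lit 254) (nat_lit 0) (nat_lit 285) (nat_lit 278) (nat_lit 217)) (PT.lf (nat_lit 18620) (nat_lit 6) (nat_lit 245) (nat_lit 0) (nat_lit 286) (nat_lit 278) (nat_lit 216)))) (PT.nd (nat_lit 156) (PT.nd (nat_lit 78) (PT.lf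 (nat_lit 18012) (nat_lit 6) (nat_lit 237) (nat_lit 0) (nat_lit 287) (nat_lit 278) (nat_lit 215)) (PT.lf (nat_lit 17404) (nat_lit 6) (nat_lit 229) (nat_lit 0) (nat_lit 288) (nat_lit 278) (nat_lit 214))) (PT.nd (nat_lit 78) (PT.lf (nat_lit 16796) (nat_lit 6) (nat_lit 221) (nat_lit 0) (nat_lit 289) (nat_lit 278) (nat_lit 213)) (PT.lf (nat_lit 16188) (nat_lit 6) (nat_lit 213) (nat_lit 0) (nat_lit 290) (nat_lit 278) (nat_lit 212))))) (PT.nd (nat_lit 75114) (PT.nd (nat_lit 74958) (PT.nd (nat_lit 74880) (PT.lf (nat_lit 15656) (nat_lit 6) (nat_lit 206) (nat_lit 0) (nat_lit 291) (nat_lit 278) (nat_lit 211)) (PT.lf (nat_lit 15124) (nat_lit 6) (nat_lit 199) (nat_lit 5) (nat_lit 210) (nat_lit 279) (nat_lit 291))) (PT.nd (nat_lit 78) (PT.lf (nat_lit 15732) (nat_lit 6) (nat_lit 207) (nat_lit 5) (nat_lit 211) (nat_lit 279) (nat_lit 290)) (PT.lf (nat_lit 16264) (nat_lit 6) (nat_lit 214) (nat_lit 5) (nat_lit 212) (nat_lit 279) (nat_lit 289)))) (PT.nd (nat_lit 156) (PT.nd (nat_lit 78)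 (PT.lf (nat_lit 16872) (nat_lit 6) (nat_lit 222) (nat_lit 5) (nat_lit 213) (nat_lit 279) (nat_lit 288)) (PT.lf (nat_lit 17480) (nat_lit 6) (nat_lit 230) (nat_lit 5) (nat_lit 214) (nat_lit 279) (nat_lit 287))) (PT.nd (nat_lit 78) (PT.lf (nat_lit 18088) (nat_lit 6) (nat_lit 238) (nat_lit 5) (nat_lit 215) (nat_lit 279) (nat_lit 286)) (PT.nd (nat_lit 78) (PT.lf (nat_lit 18696) (nat_lit 6) (nat_lit 246) (nat_lit 5) (nat_lit 216) (nat_lit 279) (nat_lit 285)) (PT.lf (nat_lit 19380) (nat_lit 6) (nat_lit 255) (nat_lit 5) (nat_lit 217) (nat_lit 279) (nat_lit 284))))))))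
noncomputable def pc88 : PT := (PT.nd (nat_lit 1248) (PT.nd (nat_lit 624) (PT.nd (nat_lit 312) (PT.nd (nat_lit 156) (PT.nd (nat_lit 78) (PT.lf (nat_lit 19988) (nat_lit 6) (nat_lit 263) (nat_lit 5) (nat_lit 218) (nat_lit 279) (nat_lit 283)) (PT.lf (nat_lit 20672) (nat_lit 6) (nat_lit 272) (nat_lit 5) (nat_lit 219) (nat_lit 279) (nat_lit 282))) (PT.nd (nat_lit 78) (PT.lf (nat_lit 21356) (nat_lit 6) (nat_lit 281) (nat_lit 5) (nat_lit 220) (nat_lit 279) (nat_lit 281)) (PT.lf (nat_lit 22116) (nat_lit 6) (nat_lit 291) (nat_lit 5) (nat_lit 221) (nat_lit 279) (nat_lit 280)))) (PT.nd (nat_lit 156) (PT.nd (nat_lit 78) (PT.lf (nat_lit 22800) (nat_lit 3) (nat_lit 300) (nat_lit 4) (nat_lit 222) (nat_lit 279) (nat_lit 279)) (PT.lf (nat_lit 23484) (nat_lit 6) (nat_lit 309) (nat_lit 4) (nat_lit 223) (nat_lit 279) (nat_lit 278))) (PT.nd (nat_lit 78) (PT.lf (nat_lit 24168) (nat_lit 6) (nat_lit 318) (nat_lit 4) (nat_lit 224) (nat_lit 279) (nat_lit 277)) (PT.lf (nat_lit 24928) (nat_lit 6)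 (nat_lit 328) (nat_lit 4) (nat_lit 225) (nat_lit 279) (nat_lit 276))))) (PT.nd (nat_lit 312) (PT.nd (nat_lit 156) (PT.nd (nat_lit 78) (PT.lf (nat_lit 25612) (nat_lit 6) (nat_lit 337) (nat_lit 4) (nat_lit 226) (nat_lit 279) (nat_lit 275)) (PT.lf (nat_lit 26372) (nat_lit 6) (nat_lit 347) (nat_lit 4) (nat_lit 227) (nat_lit 279) (nat_lit 274))) (PT.nd (nat_lit 78) (PT.lf (nat_lit 27132) (nat_lit 6) (nat_lit 357) (nat_lit 4) (nat_lit 228) (nat_lit 279) (nat_lit 273)) (PT.lf (nat_lit 27968) (nat_lit 6) (nat_lit 368) (nat_lit 4) (nat_lit 229) (nat_lit 279) (nat_lit 272)))) (PT.nd (nat_lit 156) (PT.nd (nat_lit 78) (PT.lf (nat_lit 28728) (nat_lit 6) (nat_lit 378) (nat_lit 4) (nat_lit 230) (nat_lit 279) (nat_lit 271)) (PT.lf (nat_lit 29564) (nat_lit 6) (nat_lit 389) (nat_lit 4) (nat_lit 231) (nat_lit 279) (nat_lit 270))) (PT.nd (nat_lit 78) (PT.lf (nat_lit 30400) (nat_lit 6) (nat_lit 400) (nat_lit 4) (nat_lit 232) (nat_lit 279) (nat_lit 269)) (PT.lf (nat_lit 31312) (nat_lit 6)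 (nat_lit 412) (nat_lit 4) (nat_lit 233) (nat_lit 279) (nat_lit 268)))))) (PT.nd (nat_lit 624) (PT.nd (nat_lit 312) (PT.nd (nat_lit 156) (PT.nd (nat_lit 78) (PT.lf (nat_lit 32224) (nat_lit 6) (nat_lit 424) (nat_lit 4) (nat_lit 234) (nat_lit 279) (nat_lit 267)) (PT.lf (nat_lit 33212) (nat_lit 6) (nat_lit 437) (nat_lit 4) (nat_lit 235) (nat_lit 279) (nat_lit 266))) (PT.nd (nat_lit 78) (PT.lf (nat_lit 34884) (nat_lit 6) (nat_lit 459) (nat_lit 4) (nat_lit 236) (nat_lit 279) (nat_lit 265)) (PT.lf (nat_lit 36632) (nat_lit 6) (nat_lit 482) (nat_lit 4) (nat_lit 237) (nat_lit 279) (nat_lit 264)))) (PT.nd (nat_lit 156) (PT.nd (nat_lit 78) (PT.lf (nat_lit 38304) (nat_lit 6) (nat_lit 504) (nat_lit 4) (nat_lit 238) (nat_lit 279) (nat_lit 263)) (PT.lf (nat_lit 39900) (nat_lit 6) (nat_lit 525) (nat_lit 4) (nat_lit 239) (nat_lit 279) (nat_lit 262))) (PT.nd (nat_lit 78) (PT.lf (nat_lit 41420) (nat_lit 6) (nat_lit 545) (nat_lit 4) (nat_lit 240) (nat_lit 279) (nat_lit 261)) (PT.lf (nat_lit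 42864) (nat_lit 6) (nat_lit 564) (nat_lit 4) (nat_lit 241) (nat_lit 279) (nat_lit 260))))) (PT.nd (nat_lit 312) (PT.nd (nat_lit 156) (PT.nd (nat_lit 78) (PT.lf (nat_lit 42788) (nat_lit 6) (nat_lit 563) (nat_lit 4) (nat_lit 242) (nat_lit 279) (nat_lit 259)) (PT.lf (nat_lit 42712) (nat_lit 6) (nat_lit 562) (nat_lit 4) (nat_lit 243) (nat_lit 279) (nat_lit 258))) (PT.nd (nat_lit 78) (PT.lf (nat_lit 42636) (nat_lit 6) (nat_lit 561) (nat_lit 4) (nat_lit 244) (nat_lit 279) (nat_lit 257)) (PT.lf (nat_lit 42560) (nat_lit 6) (nat_lit 560) (nat_lit 4) (nat_lit 245) (nat_lit 279) (nat_lit 256)))) (PT.nd (nat_lit 156) (PT.nd (nat_lit 78) (PT.lf (nat_lit 42484) (nat_lit 6) (nat_lit 559) (nat_lit 4) (nat_lit 246) (nat_lit 279) (nat_lit 255)) (PT.lf (nat_lit 42408) (nat_lit 6) (nat_lit 558) (nat_lit 4) (nat_lit 247) (nat_lit 279) (nat_lit 254))) (PT.nd (nat_lit 78) (PT.lf (nat_lit 42332) (nat_lit 6) (nat_lit 557) (nat_lit 4) (nat_lit 248) (nat_lit 279) (nat_lit 253)) (PT.nd (nat_lit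 78) (PT.lf (nat_lit 42256) (nat_lit 6) (nat_lit 556) (nat_lit 4) (nat_lit 249) (nat_lit 279) (nat_lit 252)) (PT.lf (nat_lit 42180) (nat_lit 6) (nat_lit 555) (nat_lit 4) (nat_lit 250) (nat_lit 279) (nat_lit 251))))))))
noncomputable def pc89 : PT := (PT.nd (nat_lit 1248) (PT.nd (nat_lit 624) (PT.nd (nat_lit 312) (PT.nd (nat_lit 156) (PT.nd (nat_lit 78) (PT.lf (nat_lit 42180) (nat_lit 6) (nat_lit 555) (nat_lit 2) (nat_lit 251) (nat_lit 279) (nat_lit 250)) (PT.lf (nat_lit 42256) (nat_lit 6) (nat_lit 556) (nat_lit 2) (nat_lit 252) (nat_lit 279) (nat_lit 249))) (PT.nd (nat_lit 78) (PT.lf (nat_lit 42332) (nat_lit 6) (nat_lit 557) (nat_lit 2) (nat_lit 253) (nat_lit 279) (nat_lit 248)) (PT.lf (nat_lit 42408) (nat_lit 6) (nat_lit 558) (nat_lit 2) (nat_lit 254) (nat_lit 279) (nat_lit 247)))) (PT.nd (nat_lit 156) (PT.nd (nat_lit 78) (PT.lf (nat_lit 42484) (nat_lit 6) (nat_lit 559) (nat_lit 2) (nat_lit 255) (nat_lit 279) (nat_lit 246)) (PT.lf (nat_lit 42560) (nat_lit 6) (nat_lit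 560) (nat_lit 2) (nat_lit 256) (nat_lit 279) (nat_lit 245))) (PT.nd (nat_lit 78) (PT.lf (nat_lit 42636) (nat_lit 6) (nat_lit 561) (nat_lit 2) (nat_lit 257) (nat_lit 279) (nat_lit 244)) (PT.lf (nat_lit 42712) (nat_lit 6) (nat_lit 562) (nat_lit 2) (nat_lit 258) (nat_lit 279) (nat_lit 243))))) (PT.nd (nat_lit 312) (PT.nd (nat_lit 156) (PT.nd (nat_lit 78) (PT.lf (nat_lit 42788) (nat_lit 6) (nat_lit 563) (nat_lit 2) (nat_lit 259) (nat_lit 279) (nat_lit 242)) (PT.lf (nat_lit 42864) (nat_lit 6) (nat_lit 564) (nat_lit 2) (nat_lit 260) (nat_lit 279) (nat_lit 241))) (PT.nd (nat_lit 78) (PT.lf (nat_lit 41420) (nat_lit 6) (nat_lit 545) (nat_lit 2) (nat_lit 261) (nat_lit 279) (nat_lit 240)) (PT.lf (nat_lit 39900) (nat_lit 6) (nat_lit 525) (nat_lit 2) (nat_lit 262) (nat_lit 279) (nat_lit 239)))) (PT.nd (nat_lit 156) (PT.nd (nat_lit 78) (PT.lf (nat_lit 38304) (nat_lit 6) (nat_lit 504) (nat_lit 2) (nat_lit 263) (nat_lit 279) (nat_lit 238)) (PT.lf (nat_lit 36632) (nat_lit 6) (nat_lit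 482) (nat_lit 2) (nat_lit 264) (nat_lit 279) (nat_lit 237))) (PT.nd (nat_lit 78) (PT.lf (nat_lit 34884) (nat_lit 6) (nat_lit 459) (nat_lit 2) (nat_lit 265) (nat_lit 279) (nat_lit 236)) (PT.lf (nat_lit 33212) (nat_lit 6) (nat_lit 437) (nat_lit 2) (nat_lit 266) (nat_lit 279) (nat_lit 235)))))) (PT.nd (nat_lit 624) (PT.nd (nat_lit 312) (PT.nd (nat_lit 156) (PT.nd (nat_lit 78) (PT.lf (nat_lit 32224) (nat_lit 6) (nat_lit 424) (nat_lit 2) (nat_lit 267) (nat_lit 279) (nat_lit 234)) (PT.lf (nat_lit 31312) (nat_lit 6) (nat_lit 412) (nat_lit 2) (nat_lit 268) (nat_lit 279) (nat_lit 233))) (PT.nd (nat_lit 78) (PT.lf (nat_lit 30400) (nat_lit 6) (nat_lit 400) (nat_lit 2) (nat_lit 269) (nat_lit 279) (nat_lit 232)) (PT.lf (nat_lit 29564) (nat_lit 6) (nat_lit 389) (nat_lit 2) (nat_lit 270) (nat_lit 279) (nat_lit 231)))) (PT.nd (nat_lit 156) (PT.nd (nat_lit 78) (PT.lf (nat_lit 28728) (nat_lit 6) (nat_lit 378) (nat_lit 2) (nat_lit 271) (nat_lit 279) (nat_lit 230)) (PT.lf (nat_lit 27968)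 (nat_lit 6) (nat_lit 368) (nat_lit 2) (nat_lit 272) (nat_lit 279) (nat_lit 229))) (PT.nd (nat_lit 78) (PT.lf (nat_lit 27132) (nat_lit 6) (nat_lit 357) (nat_lit 2) (nat_lit 273) (nat_lit 279) (nat_lit 228)) (PT.lf (nat_lit 26372) (nat_lit 6) (nat_lit 347) (nat_lit 2) (nat_lit 274) (nat_lit 279) (nat_lit 227))))) (PT.nd (nat_lit 312) (PT.nd (nat_lit 156) (PT.nd (nat_lit 78) (PT.lf (nat_lit 25612) (nat_lit 6) (nat_lit 337) (nat_lit 2) (nat_lit 275) (nat_lit 279) (nat_lit 226)) (PT.lf (nat_lit 24928) (nat_lit 6) (nat_lit 328) (nat_lit 2) (nat_lit 276) (nat_lit 279) (nat_lit 225))) (PT.nd (nat_lit 78) (PT.lf (nat_lit 24168) (nat_lit 6) (nat_lit 318) (nat_lit 2) (nat_lit 277) (nat_lit 279) (nat_lit 224)) (PT.lf (nat_lit 23484) (nat_lit 6) (nat_lit 309) (nat_lit 2) (nat_lit 278) (nat_lit 279) (nat_lit 223)))) (PT.nd (nat_lit 156) (PT.nd (nat_lit 78) (PT.lf (nat_lit 22800) (nat_lit 3) (nat_lit 300) (nat_lit 0) (nat_lit 279) (nat_lit 279) (nat_lit 222)) (PT.lf (nat_lit 22116)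 (nat_lit 6) (nat_lit 291) (nat_lit 0) (nat_lit 280) (nat_lit 279) (nat_lit 221))) (PT.nd (nat_lit 78) (PT.lf (nat_lit 21356) (nat_lit 6) (nat_lit 281) (nat_lit 0) (nat_lit 281) (nat_lit 279) (nat_lit 220)) (PT.nd (nat_lit 78) (PT.lf (nat_lit 20672) (nat_lit 6) (nat_lit 272) (nat_lit 0) (nat_lit 282) (nat_lit 279) (nat_lit 219)) (PT.lf (nat_lit 19988) (nat_lit 6) (nat_lit 263) (nat_lit 0) (nat_lit 283) (nat_lit 279) (nat_lit 218))))))))
noncomputable def pc90 : PT := (PT.nd (nat_lit 75972) (PT.nd (nat_lit 75348) (PT.nd (nat_lit 312) (PT.nd (nat_lit 156) (PT.nd (nat_lit 78) (PT.lf (nat_lit 19380) (nat_lit 6) (nat_lit 255) (nat_lit 0) (nat_lit 284) (nat_lit 279) (nat_lit 217)) (PT.lf (nat_lit 18696) (nat_lit 6) (nat_lit 246) (nat_lit 0) (nat_lit 285) (nat_lit 279) (nat_lit 216))) (PT.nd (nat_lit 78) (PT.lf (nat_lit 18088) (nat_lit 6) (nat_lit 238) (nat_lit 0) (nat_lit 286) (nat_lit 279) (nat_lit 215)) (PT.lf (nat_lit 17480) (nat_lit 6) (nat_lit 230) (nat_lit 0) (nat_lit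 287) (nat_lit 279) (nat_lit 214)))) (PT.nd (nat_lit 156) (PT.nd (nat_lit 78) (PT.lf (nat_lit 16872) (nat_lit 6) (nat_lit 222) (nat_lit 0) (nat_lit 288) (nat_lit 279) (nat_lit 213)) (PT.lf (nat_lit 16264) (nat_lit 6) (nat_lit 214) (nat_lit 0) (nat_lit 289) (nat_lit 279) (nat_lit 212))) (PT.nd (nat_lit 78) (PT.lf (nat_lit 15732) (nat_lit 6) (nat_lit 207) (nat_lit 0) (nat_lit 290) (nat_lit 279) (nat_lit 211)) (PT.lf (nat_lit 15124) (nat_lit 6) (nat_lit 199) (nat_lit 0) (nat_lit 291) (nat_lit 279) (nat_lit 210))))) (PT.nd (nat_lit 312) (PT.nd (nat_lit 156) (PT.nd (nat_lit 78) (PT.lf (nat_lit 14668) (nat_lit 6) (nat_lit 193) (nat_lit 5) (nat_lit 209) (nat_lit 280) (nat_lit 291)) (PT.lf (nat_lit 15200) (nat_lit 6) (nat_lit 200) (nat_lit 5) (nat_lit 210) (nat_lit 280) (nat_lit 290))) (PT.nd (nat_lit 78) (PT.lf (nat_lit 15808) (nat_lit 6) (nat_lit 208) (nat_lit 5) (nat_lit 211) (nat_lit 280) (nat_lit 289)) (PT.lf (nat_lit 16340) (nat_lit 6) (nat_lit 215) (nat_lit 5) (nat_lit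 212) (nat_lit 280) (nat_lit 288)))) (PT.nd (nat_lit 156) (PT.nd (nat_lit 78) (PT.lf (nat_lit 16948) (nat_lit 6) (nat_lit 223) (nat_lit 5) (nat_lit 213) (nat_lit 280) (nat_lit 287)) (PT.lf (nat_lit 17556) (nat_lit 6) (nat_lit 231) (nat_lit 5) (nat_lit 214) (nat_lit 280) (nat_lit 286))) (PT.nd (nat_lit 78) (PT.lf (nat_lit 18164) (nat_lit 6) (nat_lit 239) (nat_lit 5) (nat_lit 215) (nat_lit 280) (nat_lit 285)) (PT.lf (nat_lit 18772) (nat_lit 6) (nat_lit 247) (nat_lit 5) (nat_lit 216) (nat_lit 280) (nat_lit 284)))))) (PT.nd (nat_lit 624) (PT.nd (nat_lit 312) (PT.nd (nat_lit 156) (PT.nd (nat_lit 78) (PT.lf (nat_lit 19456) (nat_lit 6) (nat_lit 256) (nat_lit 5) (nat_lit 217) (nat_lit 280) (nat_lit 283)) (PT.lf (nat_lit 20064) (nat_lit 6) (nat_lit 264) (nat_lit 5) (nat_lit 218) (nat_lit 280) (nat_lit 282))) (PT.nd (nat_lit 78) (PT.lf (nat_lit 20748) (nat_lit 6) (nat_lit 273) (nat_lit 5) (nat_lit 219) (nat_lit 280) (nat_lit 281)) (PT.lf (nat_lit 21432) (nat_lit 3) (nat_lit 282)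 (nat_lit 4) (nat_lit 220) (nat_lit 280) (nat_lit 280)))) (PT.nd (nat_lit 156) (PT.nd (nat_lit 78) (PT.lf (nat_lit 22116) (nat_lit 6) (nat_lit 291) (nat_lit 4) (nat_lit 221) (nat_lit 280) (nat_lit 279)) (PT.lf (nat_lit 22724) (nat_lit 6) (nat_lit 299) (nat_lit 4) (nat_lit 222) (nat_lit 280) (nat_lit 278))) (PT.nd (nat_lit 78) (PT.lf (nat_lit 23408) (nat_lit 6) (nat_lit 308) (nat_lit 4) (nat_lit 223) (nat_lit 280) (nat_lit 277)) (PT.lf (nat_lit 24092) (nat_lit 6) (nat_lit 317) (nat_lit 4) (nat_lit 224) (nat_lit 280) (nat_lit 276))))) (PT.nd (nat_lit 312) (PT.nd (nat_lit 156) (PT.nd (nat_lit 78) (PT.lf (nat_lit 24852) (nat_lit 6) (nat_lit 327) (nat_lit 4) (nat_lit 225) (nat_lit 280) (nat_lit 275)) (PT.lf (nat_lit 25536) (nat_lit 6) (nat_lit 336) (nat_lit 4) (nat_lit 226) (nat_lit 280) (nat_lit 274))) (PT.nd (nat_lit 78) (PT.lf (nat_lit 26296) (nat_lit 6) (nat_lit 346) (nat_lit 4) (nat_lit 227) (nat_lit 280) (nat_lit 273)) (PT.lf (nat_lit 27056) (nat_lit 6) (nat_lit 356)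 (nat_lit 4) (nat_lit 228) (nat_lit 280) (nat_lit 272)))) (PT.nd (nat_lit 156) (PT.nd (nat_lit 78) (PT.lf (nat_lit 27892) (nat_lit 6) (nat_lit 367) (nat_lit 4) (nat_lit 229) (nat_lit 280) (nat_lit 271)) (PT.lf (nat_lit 28652) (nat_lit 6) (nat_lit 377) (nat_lit 4) (nat_lit 230) (nat_lit 280) (nat_lit 270))) (PT.nd (nat_lit 78) (PT.lf (nat_lit 29488) (nat_lit 6) (nat_lit 388) (nat_lit 4) (nat_lit 231) (nat_lit 280) (nat_lit 269)) (PT.nd (nat_lit 78) (PT.lf (nat_lit 30324) (nat_lit 6) (nat_lit 399) (nat_lit 4) (nat_lit 232) (nat_lit 280) (nat_lit 268)) (PT.lf (nat_lit 31236) (nat_lit 6) (nat_lit 411) (nat_lit 4) (nat_lit 233) (nat_lit 280) (nat_lit 267))))))))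
noncomputable def pc91 : PT := (PT.nd (nat_lit 1326) (PT.nd (nat_lit 624) (PT.nd (nat_lit 312) (PT.nd (nat_lit 156) (PT.nd (nat_lit 78) (PT.lf (nat_lit 32148) (nat_lit 6) (nat_lit 423) (nat_lit 4) (nat_lit 234) (nat_lit 280) (nat_lit 266)) (PT.lf (nat_lit 33136) (nat_lit 6) (nat_lit 436) (nat_lit 4) (nat_lit 235) (nat_lit 280) (nat_lit 265))) (PT.nd (nat_lit 78) (PT.lf (nat_lit 34808) (nat_lit 6) (nat_lit 458) (nat_lit 4) (nat_lit 236) (nat_lit 280) (nat_lit 264)) (PT.lf (nat_lit 36556) (nat_lit 6) (nat_lit 481) (nat_lit 4) (nat_lit 237) (nat_lit 280) (nat_lit 263)))) (PT.nd (nat_lit 156) (PT.nd (nat_lit 78) (PT.lf (nat_lit 38228) (nat_lit 6) (nat_lit 503) (nat_lit 4) (nat_lit 238) (nat_lit 280) (nat_lit 262)) (PT.lf (nat_lit 39824) (nat_lit 6) (nat_lit 524) (nat_lit 4) (nat_lit 239) (nat_lit 280) (nat_lit 261))) (PT.nd (nat_lit 78) (PT.lf (nat_lit 41344) (nat_lit 6) (nat_lit 544) (nat_lit 4) (nat_lit 240) (nat_lit 280) (nat_lit 260)) (PT.lf (nat_lit 41268) (nat_lit 6)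 (nat_lit 543) (nat_lit 4) (nat_lit 241) (nat_lit 280) (nat_lit 259))))) (PT.nd (nat_lit 312) (PT.nd (nat_lit 156) (PT.nd (nat_lit 78) (PT.lf (nat_lit 41192) (nat_lit 6) (nat_lit 542) (nat_lit 4) (nat_lit 242) (nat_lit 280) (nat_lit 258)) (PT.lf (nat_lit 41116) (nat_lit 6) (nat_lit 541) (nat_lit 4) (nat_lit 243) (nat_lit 280) (nat_lit 257))) (PT.nd (nat_lit 78) (PT.lf (nat_lit 41040) (nat_lit 6) (nat_lit 540) (nat_lit 4) (nat_lit 244) (nat_lit 280) (nat_lit 256)) (PT.lf (nat_lit 40964) (nat_lit 6) (nat_lit 539) (nat_lit 4) (nat_lit 245) (nat_lit 280) (nat_lit 255)))) (PT.nd (nat_lit 156) (PT.nd (nat_lit 78) (PT.lf (nat_lit 40888) (nat_lit 6) (nat_lit 538) (nat_lit 4) (nat_lit 246) (nat_lit 280) (nat_lit 254)) (PT.lf (nat_lit 40812) (nat_lit 6) (nat_lit 537) (nat_lit 4) (nat_lit 247) (nat_lit 280) (nat_lit 253))) (PT.nd (nat_lit 78) (PT.lf (nat_lit 40736) (nat_lit 6) (nat_lit 536) (nat_lit 4) (nat_lit 248) (nat_lit 280) (nat_lit 252)) (PT.nd (nat_lit 78) (PT.lf (nat_lit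 40660) (nat_lit 6) (nat_lit 535) (nat_lit 4) (nat_lit 249) (nat_lit 280) (nat_lit 251)) (PT.lf (nat_lit 40584) (nat_lit 3) (nat_lit 534) (nat_lit 2) (nat_lit 250) (nat_lit 280) (nat_lit 250))))))) (PT.nd (nat_lit 624) (PT.nd (nat_lit 312) (PT.nd (nat_lit 156) (PT.nd (nat_lit 78) (PT.lf (nat_lit 40660) (nat_lit 6) (nat_lit 535) (nat_lit 2) (nat_lit 251) (nat_lit 280) (nat_lit 249)) (PT.lf (nat_lit 40736) (nat_lit 6) (nat_lit 536) (nat_lit 2) (nat_lit 252) (nat_lit 280) (nat_lit 248))) (PT.nd (nat_lit 78) (PT.lf (nat_lit 40812) (nat_lit 6) (nat_lit 537) (nat_lit 2) (nat_lit 253) (nat_lit 280) (nat_lit 247)) (PT.lf (nat_lit 40888) (nat_lit 6) (nat_lit 538) (nat_lit 2) (nat_lit 254) (nat_lit 280) (nat_lit 246)))) (PT.nd (nat_lit 156) (PT.nd (nat_lit 78) (PT.lf (nat_lit 40964) (nat_lit 6) (nat_lit 539) (nat_lit 2) (nat_lit 255) (nat_lit 280) (nat_lit 245)) (PT.lf (nat_lit 41040) (nat_lit 6) (nat_lit 540) (nat_lit 2) (nat_lit 256) (nat_lit 280) (nat_lit 244))) (PT.nd (nat_lit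 78) (PT.lf (nat_lit 41116) (nat_lit 6) (nat_lit 541) (nat_lit 2) (nat_lit 257) (nat_lit 280) (nat_lit 243)) (PT.lf (nat_lit 41192) (nat_lit 6) (nat_lit 542) (nat_lit 2) (nat_lit 258) (nat_lit 280) (nat_lit 242))))) (PT.nd (nat_lit 312) (PT.nd (nat_lit 156) (PT.nd (nat_lit 78) (PT.lf (nat_lit 41268) (nat_lit 6) (nat_lit 543) (nat_lit 2) (nat_lit 259) (nat_lit 280) (nat_lit 241)) (PT.lf (nat_lit 41344) (nat_lit 6) (nat_lit 544) (nat_lit 2) (nat_lit 260) (nat_lit 280) (nat_lit 240))) (PT.nd (nat_lit 78) (PT.lf (nat_lit 39824) (nat_lit 6) (nat_lit 524) (nat_lit 2) (nat_lit 261) (nat_lit 280) (nat_lit 239)) (PT.lf (nat_lit 38228) (nat_lit 6) (nat_lit 503) (nat_lit 2) (nat_lit 262) (nat_lit 280) (nat_lit 238)))) (PT.nd (nat_lit 156) (PT.nd (nat_lit 78) (PT.lf (nat_lit 36556) (nat_lit 6) (nat_lit 481) (nat_lit 2) (nat_lit 263) (nat_lit 280) (nat_lit 237)) (PT.lf (nat_lit 34808) (nat_lit 6) (nat_lit 458) (nat_lit 2) (nat_lit 264) (nat_lit 280) (nat_lit 236))) (PT.nd (nat_lit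 78) (PT.lf (nat_lit 33136) (nat_lit 6) (nat_lit 436) (nat_lit 2) (nat_lit 265) (nat_lit 280) (nat_lit 235)) (PT.nd (nat_lit 78) (PT.lf (nat_lit 32148) (nat_lit 6) (nat_lit 423) (nat_lit 2) (nat_lit 266) (nat_lit 280) (nat_lit 234)) (PT.lf (nat_lit 31236) (nat_lit 6) (nat_lit 411) (nat_lit 2) (nat_lit 267) (nat_lit 280) (nat_lit 233))))))))
noncomputable def pc92 : PT := (PT.nd (nat_lit 1248) (PT.nd (nat_lit 624) (PT.nd (nat_lit 312) (PT.nd (nat_lit 156) (PT.nd (nat_lit 78) (PT.lf (nat_lit 30324) (nat_lit 6) (nat_lit 399) (nat_lit 2) (nat_lit 268) (nat_lit 280) (nat_lit 232)) (PT.lf (nat_lit 29488) (nat_lit 6) (nat_lit 388) (nat_lit 2) (nat_lit 269) (nat_lit 280) (nat_lit 231))) (PT.nd (nat_lit 78) (PT.lf (nat_lit 28652) (nat_lit 6) (nat_lit 377) (nat_lit 2) (nat_lit 270) (nat_lit 280) (nat_lit 230)) (PT.lf (nat_lit 27892) (nat_lit 6) (nat_lit 367) (nat_lit 2) (nat_lit 271) (nat_lit 280) (nat_lit 229)))) (PT.nd (nat_lit 156) (PT.nd (nat_lit 78) (PT.lf (nat_lit 27056) (nat_lit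 6) (nat_lit 356) (nat_lit 2) (nat_lit 272) (nat_lit 280) (nat_lit 228)) (PT.lf (nat_lit 26296) (nat_lit 6) (nat_lit 346) (nat_lit 2) (nat_lit 273) (nat_lit 280) (nat_lit 227))) (PT.nd (nat_lit 78) (PT.lf (nat_lit 25536) (nat_lit 6) (nat_lit 336) (nat_lit 2) (nat_lit 274) (nat_lit 280) (nat_lit 226)) (PT.lf (nat_lit 24852) (nat_lit 6) (nat_lit 327) (nat_lit 2) (nat_lit 275) (nat_lit 280) (nat_lit 225))))) (PT.nd (nat_lit 312) (PT.nd (nat_lit 156) (PT.nd (nat_lit 78) (PT.lf (nat_lit 24092) (nat_lit 6) (nat_lit 317) (nat_lit 2) (nat_lit 276) (nat_lit 280) (nat_lit 224)) (PT.lf (nat_lit 23408) (nat_lit 6) (nat_lit 308) (nat_lit 2) (nat_lit 277) (nat_lit 280) (nat_lit 223))) (PT.nd (nat_lit 78) (PT.lf (nat_lit 22724) (nat_lit 6) (nat_lit 299) (nat_lit 2) (nat_lit 278) (nat_lit 280) (nat_lit 222)) (PT.lf (nat_lit 22116) (nat_lit 6) (nat_lit 291) (nat_lit 2) (nat_lit 279) (nat_lit 280) (nat_lit 221)))) (PT.nd (nat_lit 156) (PT.nd (nat_lit 78) (PT.lf (nat_lit 21432) (nat_lit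 3) (nat_lit 282) (nat_lit 0) (nat_lit 280) (nat_lit 280) (nat_lit 220)) (PT.lf (nat_lit 20748) (nat_lit 6) (nat_lit 273) (nat_lit 0) (nat_lit 281) (nat_lit 280) (nat_lit 219))) (PT.nd (nat_lit 78) (PT.lf (nat_lit 20064) (nat_lit 6) (nat_lit 264) (nat_lit 0) (nat_lit 282) (nat_lit 280) (nat_lit 218)) (PT.lf (nat_lit 19456) (nat_lit 6) (nat_lit 256) (nat_lit 0) (nat_lit 283) (nat_lit 280) (nat_lit 217)))))) (PT.nd (nat_lit 75192) (PT.nd (nat_lit 312) (PT.nd (nat_lit 156) (PT.nd (nat_lit 78) (PT.lf (nat_lit 18772) (nat_lit 6) (nat_lit 247) (nat_lit 0) (nat_lit 284) (nat_lit 280) (nat_lit 216)) (PT.lf (nat_lit 18164) (nat_lit 6) (nat_lit 239) (nat_lit 0) (nat_lit 285) (nat_lit 280) (nat_lit 215))) (PT.nd (nat_lit 78) (PT.lf (nat_lit 17556) (nat_lit 6) (nat_lit 231) (nat_lit 0) (nat_lit 286) (nat_lit 280) (nat_lit 214)) (PT.lf (nat_lit 16948) (nat_lit 6) (nat_lit 223) (nat_lit 0) (nat_lit 287) (nat_lit 280) (nat_lit 213)))) (PT.nd (nat_lit 156) (PT.nd (nat_lit 78) (PT.lf (nat_lit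 16340) (nat_lit 6) (nat_lit 215) (nat_lit 0) (nat_lit 288) (nat_lit 280) (nat_lit 212)) (PT.lf (nat_lit 15808) (nat_lit 6) (nat_lit 208) (nat_lit 0) (nat_lit 289) (nat_lit 280) (nat_lit 211))) (PT.nd (nat_lit 78) (PT.lf (nat_lit 15200) (nat_lit 6) (nat_lit 200) (nat_lit 0) (nat_lit 290) (nat_lit 280) (nat_lit 210)) (PT.lf (nat_lit 14668) (nat_lit 6) (nat_lit 193) (nat_lit 0) (nat_lit 291) (nat_lit 280) (nat_lit 209))))) (PT.nd (nat_lit 312) (PT.nd (nat_lit 156) (PT.nd (nat_lit 78) (PT.lf (nat_lit 13680) (nat_lit 6) (nat_lit 180) (nat_lit 5) (nat_lit 207) (nat_lit 281) (nat_lit 292)) (PT.lf (nat_lit 14212) (nat_lit 6) (nat_lit 187) (nat_lit 5) (nat_lit 208) (nat_lit 281) (nat_lit 291))) (PT.nd (nat_lit 78) (PT.lf (nat_lit 14744) (nat_lit 6) (nat_lit 194) (nat_lit 5) (nat_lit 209) (nat_lit 281) (nat_lit 290)) (PT.lf (nat_lit 15276) (nat_lit 6) (nat_lit 201) (nat_lit 5) (nat_lit 210) (nat_lit 281) (nat_lit 289)))) (PT.nd (nat_lit 156) (PT.nd (nat_lit 78) (PT.lf (nat_lit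 15884) (nat_lit 6) (nat_lit 209) (nat_lit 5) (nat_lit 211) (nat_lit 281) (nat_lit 288)) (PT.lf (nat_lit 16416) (nat_lit 6) (nat_lit 216) (nat_lit 5) (nat_lit 212) (nat_lit 281) (nat_lit 287))) (PT.nd (nat_lit 78) (PT.lf (nat_lit 17024) (nat_lit 6) (nat_lit 224) (nat_lit 5) (nat_lit 213) (nat_lit 281) (nat_lit 286)) (PT.nd (nat_lit 78) (PT.lf (nat_lit 17632) (nat_lit 6) (nat_lit 232) (nat_lit 5) (nat_lit 214) (nat_lit 281) (nat_lit 285)) (PT.lf (nat_lit 18240) (nat_lit 6) (nat_lit 240) (nat_lit 5) (nat_lit 215) (nat_lit 281) (nat_lit 284))))))))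
noncomputable def pc93 : PT := (PT.nd (nat_lit 1248) (PT.nd (nat_lit 624) (PT.nd (nat_lit 312) (PT.nd (nat_lit 156) (PT.nd (nat_lit 78) (PT.lf (nat_lit 18848) (nat_lit 6) (nat_lit 248) (nat_lit 5) (nat_lit 216) (nat_lit 281) (nat_lit 283)) (PT.lf (nat_lit 19532) (nat_lit 6) (nat_lit 257) (nat_lit 5) (nat_lit 217) (nat_lit 281) (nat_lit 282))) (PT.nd (nat_lit 78) (PT.lf (nat_lit 20140) (nat_lit 3) (nat_lit 265) (nat_lit 4) (nat_lit 218) (nat_lit 281) (nat_lit 281)) (PT.lf (nat_lit 20748) (nat_lit 6) (nat_lit 273) (nat_lit 4) (nat_lit 219) (nat_lit 281) (nat_lit 280)))) (PT.nd (nat_lit 156) (PT.nd (nat_lit 78) (PT.lf (nat_lit 21356) (nat_lit 6) (nat_lit 281) (nat_lit 4) (nat_lit 220) (nat_lit 281) (nat_lit 279)) (PT.lf (nat_lit 22040) (nat_lit 6) (nat_lit 290) (nat_lit 4) (nat_lit 221) (nat_lit 281) (nat_lit 278))) (PT.nd (nat_lit 78) (PT.lf (nat_lit 22648) (nat_lit 6) (nat_lit 298) (nat_lit 4) (nat_lit 222) (nat_lit 281) (nat_lit 277)) (PT.lf (nat_lit 23332) (nat_lit 6)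 (nat_lit 307) (nat_lit 4) (nat_lit 223) (nat_lit 281) (nat_lit 276))))) (PT.nd (nat_lit 312) (PT.nd (nat_lit 156) (PT.nd (nat_lit 78) (PT.lf (nat_lit 24016) (nat_lit 6) (nat_lit 316) (nat_lit 4) (nat_lit 224) (nat_lit 281) (nat_lit 275)) (PT.lf (nat_lit 24776) (nat_lit 6) (nat_lit 326) (nat_lit 4) (nat_lit 225) (nat_lit 281) (nat_lit 274))) (PT.nd (nat_lit 78) (PT.lf (nat_lit 25460) (nat_lit 6) (nat_lit 335) (nat_lit 4) (nat_lit 226) (nat_lit 281) (nat_lit 273)) (PT.lf (nat_lit 26220) (nat_lit 6) (nat_lit 345) (nat_lit 4) (nat_lit 227) (nat_lit 281) (nat_lit 272)))) (PT.nd (nat_lit 156) (PT.nd (nat_lit 78) (PT.lf (nat_lit 26980) (nat_lit 6) (nat_lit 355) (nat_lit 4) (nat_lit 228) (nat_lit 281) (nat_lit 271)) (PT.lf (nat_lit 27816) (nat_lit 6) (nat_lit 366) (nat_lit 4) (nat_lit 229) (nat_lit 281) (nat_lit 270))) (PT.nd (nat_lit 78) (PT.lf (nat_lit 28576) (nat_lit 6) (nat_lit 376) (nat_lit 4) (nat_lit 230) (nat_lit 281) (nat_lit 269)) (PT.lf (nat_lit 29412) (nat_lit 6)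 (nat_lit 387) (nat_lit 4) (nat_lit 231) (nat_lit 281) (nat_lit 268)))))) (PT.nd (nat_lit 624) (PT.nd (nat_lit 312) (PT.nd (nat_lit 156) (PT.nd (nat_lit 78) (PT.lf (nat_lit 30248) (nat_lit 6) (nat_lit 398) (nat_lit 4) (nat_lit 232) (nat_lit 281) (nat_lit 267)) (PT.lf (nat_lit 31160) (nat_lit 6) (nat_lit 410) (nat_lit 4) (nat_lit 233) (nat_lit 281) (nat_lit 266))) (PT.nd (nat_lit 78) (PT.lf (nat_lit 32072) (nat_lit 6) (nat_lit 422) (nat_lit 4) (nat_lit 234) (nat_lit 281) (nat_lit 265)) (PT.lf (nat_lit 33060) (nat_lit 6) (nat_lit 435) (nat_lit 4) (nat_lit 235) (nat_lit 281) (nat_lit 264)))) (PT.nd (nat_lit 156) (PT.nd (nat_lit 78) (PT.lf (nat_lit 34732) (nat_lit 6) (nat_lit 457) (nat_lit 4) (nat_lit 236) (nat_lit 281) (nat_lit 263)) (PT.lf (nat_lit 36480) (nat_lit 6) (nat_lit 480) (nat_lit 4) (nat_lit 237) (nat_lit 281) (nat_lit 262))) (PT.nd (nat_lit 78) (PT.lf (nat_lit 38152) (nat_lit 6) (nat_lit 502) (nat_lit 4) (nat_lit 238) (nat_lit 281) (nat_lit 261)) (PT.lf (nat_lit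 39748) (nat_lit 6) (nat_lit 523) (nat_lit 4) (nat_lit 239) (nat_lit 281) (nat_lit 260))))) (PT.nd (nat_lit 312) (PT.nd (nat_lit 156) (PT.nd (nat_lit 78) (PT.lf (nat_lit 39672) (nat_lit 6) (nat_lit 522) (nat_lit 4) (nat_lit 240) (nat_lit 281) (nat_lit 259)) (PT.lf (nat_lit 39596) (nat_lit 6) (nat_lit 521) (nat_lit 4) (nat_lit 241) (nat_lit 281) (nat_lit 258))) (PT.nd (nat_lit 78) (PT.lf (nat_lit 39520) (nat_lit 6) (nat_lit 520) (nat_lit 4) (nat_lit 242) (nat_lit 281) (nat_lit 257)) (PT.lf (nat_lit 39444) (nat_lit 6) (nat_lit 519) (nat_lit 4) (nat_lit 243) (nat_lit 281) (nat_lit 256)))) (PT.nd (nat_lit 156) (PT.nd (nat_lit 78) (PT.lf (nat_lit 39368) (nat_lit 6) (nat_lit 518) (nat_lit 4) (nat_lit 244) (nat_lit 281) (nat_lit 255)) (PT.lf (nat_lit 39292) (nat_lit 6) (nat_lit 517) (nat_lit 4) (nat_lit 245) (nat_lit 281) (nat_lit 254))) (PT.nd (nat_lit 78) (PT.lf (nat_lit 39216) (nat_lit 6) (nat_lit 516) (nat_lit 4) (nat_lit 246) (nat_lit 281) (nat_lit 253)) (PT.nd (nat_lit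 78) (PT.lf (nat_lit 39140) (nat_lit 6) (nat_lit 515) (nat_lit 4) (nat_lit 247) (nat_lit 281) (nat_lit 252)) (PT.lf (nat_lit 39064) (nat_lit 6) (nat_lit 514) (nat_lit 4) (nat_lit 248) (nat_lit 281) (nat_lit 251))))))))
noncomputable def pc94 : PT := (PT.nd (nat_lit 1248) (PT.nd (nat_lit 624) (PT.nd (nat_lit 312) (PT.nd (nat_lit 156) (PT.nd (nat_lit 78) (PT.lf (nat_lit 38988) (nat_lit 6) (nat_lit 513) (nat_lit 4) (nat_lit 249) (nat_lit 281) (nat_lit 250)) (PT.lf (nat_lit 38988) (nat_lit 6) (nat_lit 513) (nat_lit 2) (nat_lit 250) (nat_lit 281) (nat_lit 249))) (PT.nd (nat_lit 78) (PT.lf (nat_lit 39064) (nat_lit 6) (nat_lit 514) (nat_lit 2) (nat_lit 251) (nat_lit 281) (nat_lit 248)) (PT.lf (nat_lit 39140) (nat_lit 6) (nat_lit 515) (nat_lit 2) (nat_lit 252) (nat_lit 281) (nat_lit 247)))) (PT.nd (nat_lit 156) (PT.nd (nat_lit 78) (PT.lf (nat_lit 39216) (nat_lit 6) (nat_lit 516) (nat_lit 2) (nat_lit 253) (nat_lit 281) (nat_lit 246)) (PT.lf (nat_lit 39292) (nat_lit 6) (nat_lit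 517) (nat_lit 2) (nat_lit 254) (nat_lit 281) (nat_lit 245))) (PT.nd (nat_lit 78) (PT.lf (nat_lit 39368) (nat_lit 6) (nat_lit 518) (nat_lit 2) (nat_lit 255) (nat_lit 281) (nat_lit 244)) (PT.lf (nat_lit 39444) (nat_lit 6) (nat_lit 519) (nat_lit 2) (nat_lit 256) (nat_lit 281) (nat_lit 243))))) (PT.nd (nat_lit 312) (PT.nd (nat_lit 156) (PT.nd (nat_lit 78) (PT.lf (nat_lit 39520) (nat_lit 6) (nat_lit 520) (nat_lit 2) (nat_lit 257) (nat_lit 281) (nat_lit 242)) (PT.lf (nat_lit 39596) (nat_lit 6) (nat_lit 521) (nat_lit 2) (nat_lit 258) (nat_lit 281) (nat_lit 241))) (PT.nd (nat_lit 78) (PT.lf (nat_lit 39672) (nat_lit 6) (nat_lit 522) (nat_lit 2) (nat_lit 259) (nat_lit 281) (nat_lit 240)) (PT.lf (nat_lit 39748) (nat_lit 6) (nat_lit 523) (nat_lit 2) (nat_lit 260) (nat_lit 281) (nat_lit 239)))) (PT.nd (nat_lit 156) (PT.nd (nat_lit 78) (PT.lf (nat_lit 38152) (nat_lit 6) (nat_lit 502) (nat_lit 2) (nat_lit 261) (nat_lit 281) (nat_lit 238)) (PT.lf (nat_lit 36480) (nat_lit 6) (nat_lit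 480) (nat_lit 2) (nat_lit 262) (nat_lit 281) (nat_lit 237))) (PT.nd (nat_lit 78) (PT.lf (nat_lit 34732) (nat_lit 6) (nat_lit 457) (nat_lit 2) (nat_lit 263) (nat_lit 281) (nat_lit 236)) (PT.lf (nat_lit 33060) (nat_lit 6) (nat_lit 435) (nat_lit 2) (nat_lit 264) (nat_lit 281) (nat_lit 235)))))) (PT.nd (nat_lit 624) (PT.nd (nat_lit 312) (PT.nd (nat_lit 156) (PT.nd (nat_lit 78) (PT.lf (nat_lit 32072) (nat_lit 6) (nat_lit 422) (nat_lit 2) (nat_lit 265) (nat_lit 281) (nat_lit 234)) (PT.lf (nat_lit 31160) (nat_lit 6) (nat_lit 410) (nat_lit 2) (nat_lit 266) (nat_lit 281) (nat_lit 233))) (PT.nd (nat_lit 78) (PT.lf (nat_lit 30248) (nat_lit 6) (nat_lit 398) (nat_lit 2) (nat_lit 267) (nat_lit 281) (nat_lit 232)) (PT.lf (nat_lit 29412) (nat_lit 6) (nat_lit 387) (nat_lit 2) (nat_lit 268) (nat_lit 281) (nat_lit 231)))) (PT.nd (nat_lit 156) (PT.nd (nat_lit 78) (PT.lf (nat_lit 28576) (nat_lit 6) (nat_lit 376) (nat_lit 2) (nat_lit 269) (nat_lit 281) (nat_lit 230)) (PT.lf (nat_lit 27816)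 (nat_lit 6) (nat_lit 366) (nat_lit 2) (nat_lit 270) (nat_lit 281) (nat_lit 229))) (PT.nd (nat_lit 78) (PT.lf (nat_lit 26980) (nat_lit 6) (nat_lit 355) (nat_lit 2) (nat_lit 271) (nat_lit 281) (nat_lit 228)) (PT.lf (nat_lit 26220) (nat_lit 6) (nat_lit 345) (nat_lit 2) (nat_lit 272) (nat_lit 281) (nat_lit 227))))) (PT.nd (nat_lit 312) (PT.nd (nat_lit 156) (PT.nd (nat_lit 78) (PT.lf (nat_lit 25460) (nat_lit 6) (nat_lit 335) (nat_lit 2) (nat_lit 273) (nat_lit 281) (nat_lit 226)) (PT.lf (nat_lit 24776) (nat_lit 6) (nat_lit 326) (nat_lit 2) (nat_lit 274) (nat_lit 281) (nat_lit 225))) (PT.nd (nat_lit 78) (PT.lf (nat_lit 24016) (nat_lit 6) (nat_lit 316) (nat_lit 2) (nat_lit 275) (nat_lit 281) (nat_lit 224)) (PT.lf (nat_lit 23332) (nat_lit 6) (nat_lit 307) (nat_lit 2) (nat_lit 276) (nat_lit 281) (nat_lit 223)))) (PT.nd (nat_lit 156) (PT.nd (nat_lit 78) (PT.lf (nat_lit 22648) (nat_lit 6) (nat_lit 298) (nat_lit 2) (nat_lit 277) (nat_lit 281) (nat_lit 222)) (PT.lf (nat_lit 22040)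 (nat_lit 6) (nat_lit 290) (nat_lit 2) (nat_lit 278) (nat_lit 281) (nat_lit 221))) (PT.nd (nat_lit 78) (PT.lf (nat_lit 21356) (nat_lit 6) (nat_lit 281) (nat_lit 2) (nat_lit 279) (nat_lit 281) (nat_lit 220)) (PT.nd (nat_lit 78) (PT.lf (nat_lit 20748) (nat_lit 6) (nat_lit 273) (nat_lit 2) (nat_lit 280) (nat_lit 281) (nat_lit 219)) (PT.lf (nat_lit 20140) (nat_lit 3) (nat_lit 265) (nat_lit 0) (nat_lit 281) (nat_lit 281) (nat_lit 218))))))))
noncomputable def pc95 : PT := (PT.nd (nat_lit 75660) (PT.nd (nat_lit 624) (PT.nd (nat_lit 312) (PT.nd (nat_lit 156) (PT.nd (nat_lit 78) (PT.lf (nat_lit 19532) (nat_lit 6) (nat_lit 257) (nat_lit 0) (nat_lit 282) (nat_lit 281) (nat_lit 217)) (PT.lf (nat_lit 18848) (nat_lit 6) (nat_lit 248) (nat_lit 0) (nat_lit 283) (nat_lit 281) (nat_lit 216))) (PT.nd (nat_lit 78) (PT.lf (nat_lit 18240) (nat_lit 6) (nat_lit 240) (nat_lit 0) (nat_lit 284) (nat_lit 281) (nat_lit 215)) (PT.lf (nat_lit 17632) (nat_lit 6) (nat_lit 232) (nat_lit 0) (nat_lit 285)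 (nat_lit 281) (nat_lit 214)))) (PT.nd (nat_lit 156) (PT.nd (nat_lit 78) (PT.lf (nat_lit 17024) (nat_lit 6) (nat_lit 224) (nat_lit 0) (nat_lit 286) (nat_lit 281) (nat_lit 213)) (PT.lf (nat_lit 16416) (nat_lit 6) (nat_lit 216) (nat_lit 0) (nat_lit 287) (nat_lit 281) (nat_lit 212))) (PT.nd (nat_lit 78) (PT.lf (nat_lit 15884) (nat_lit 6) (nat_lit 209) (nat_lit 0) (nat_lit 288) (nat_lit 281) (nat_lit 211)) (PT.lf (nat_lit 15276) (nat_lit 6) (nat_lit 201) (nat_lit 0) (nat_lit 289) (nat_lit 281) (nat_lit 210))))) (PT.nd (nat_lit 74646) (PT.nd (nat_lit 156) (PT.nd (nat_lit 78) (PT.lf (nat_lit 14744) (nat_lit 6) (nat_lit 194) (nat_lit 0) (nat_lit 290) (nat_lit 281) (nat_lit 209)) (PT.lf (nat_lit 14212) (nat_lit 6) (nat_lit 187) (nat_lit 0) (nat_lit 291) (nat_lit 281) (nat_lit 208))) (PT.nd (nat_lit 74412) (PT.lf (nat_lit 13680) (nat_lit 6) (nat_lit 180) (nat_lit 0) (nat_lit 292) (nat_lit 281) (nat_lit 207)) (PT.lf (nat_lit 12768) (nat_lit 6) (nat_lit 168) (nat_lit 5) (nat_lit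 205) (nat_lit 282) (nat_lit 293)))) (PT.nd (nat_lit 156) (PT.nd (nat_lit 78) (PT.lf (nat_lit 13224) (nat_lit 6) (nat_lit 174) (nat_lit 5) (nat_lit 206) (nat_lit 282) (nat_lit 292)) (PT.lf (nat_lit 13756) (nat_lit 6) (nat_lit 181) (nat_lit 5) (nat_lit 207) (nat_lit 282) (nat_lit 291))) (PT.nd (nat_lit 78) (PT.lf (nat_lit 14288) (nat_lit 6) (nat_lit 188) (nat_lit 5) (nat_lit 208) (nat_lit 282) (nat_lit 290)) (PT.nd (nat_lit 78) (PT.lf (nat_lit 14820) (nat_lit 6) (nat_lit 195) (nat_lit 5) (nat_lit 209) (nat_lit 282) (nat_lit 289)) (PT.lf (nat_lit 15352) (nat_lit 6) (nat_lit 202) (nat_lit 5) (nat_lit 210) (nat_lit 282) (nat_lit 288))))))) (PT.nd (nat_lit 624) (PT.nd (nat_lit 312) (PT.nd (nat_lit 156) (PT.nd (nat_lit 78) (PT.lf (nat_lit 15960) (nat_lit 6) (nat_lit 210) (nat_lit 5) (nat_lit 211) (nat_lit 282) (nat_lit 287)) (PT.lf (nat_lit 16492) (nat_lit 6) (nat_lit 217) (nat_lit 5) (nat_lit 212) (nat_lit 282) (nat_lit 286))) (PT.nd (nat_lit 78) (PT.lf (nat_lit 17100) (nat_lit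 6) (nat_lit 225) (nat_lit 5) (nat_lit 213) (nat_lit 282) (nat_lit 285)) (PT.lf (nat_lit 17708) (nat_lit 6) (nat_lit 233) (nat_lit 5) (nat_lit 214) (nat_lit 282) (nat_lit 284)))) (PT.nd (nat_lit 156) (PT.nd (nat_lit 78) (PT.lf (nat_lit 18316) (nat_lit 6) (nat_lit 241) (nat_lit 5) (nat_lit 215) (nat_lit 282) (nat_lit 283)) (PT.lf (nat_lit 18924) (nat_lit 3) (nat_lit 249) (nat_lit 4) (nat_lit 216) (nat_lit 282) (nat_lit 282))) (PT.nd (nat_lit 78) (PT.lf (nat_lit 19532) (nat_lit 6) (nat_lit 257) (nat_lit 4) (nat_lit 217) (nat_lit 282) (nat_lit 281)) (PT.lf (nat_lit 20064) (nat_lit 6) (nat_lit 264) (nat_lit 4) (nat_lit 218) (nat_lit 282) (nat_lit 280))))) (PT.nd (nat_lit 312) (PT.nd (nat_lit 156) (PT.nd (nat_lit 78) (PT.lf (nat_lit 20672) (nat_lit 6) (nat_lit 272) (nat_lit 4) (nat_lit 219) (nat_lit 282) (nat_lit 279)) (PT.lf (nat_lit 21280) (nat_lit 6) (nat_lit 280) (nat_lit 4) (nat_lit 220) (nat_lit 282) (nat_lit 278))) (PT.nd (nat_lit 78) (PT.lf (nat_lit 21964) (nat_lit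 6) (nat_lit 289) (nat_lit 4) (nat_lit 221) (nat_lit 282) (nat_lit 277)) (PT.lf (nat_lit 22572) (nat_lit 6) (nat_lit 297) (nat_lit 4) (nat_lit 222) (nat_lit 282) (nat_lit 276)))) (PT.nd (nat_lit 156) (PT.nd (nat_lit 78) (PT.lf (nat_lit 23256) (nat_lit 6) (nat_lit 306) (nat_lit 4) (nat_lit 223) (nat_lit 282) (nat_lit 275)) (PT.lf (nat_lit 23940) (nat_lit 6) (nat_lit 315) (nat_lit 4) (nat_lit 224) (nat_lit 282) (nat_lit 274))) (PT.nd (nat_lit 78) (PT.lf (nat_lit 24700) (nat_lit 6) (nat_lit 325) (nat_lit 4) (nat_lit 225) (nat_lit 282) (nat_lit 273)) (PT.nd (nat_lit 78) (PT.lf (nat_lit 25384) (nat_lit 6) (nat_lit 334) (nat_lit 4) (nat_lit 226) (nat_lit 282) (nat_lit 272)) (PT.lf (nat_lit 26144) (nat_lit 6) (nat_lit 344) (nat_lit 4) (nat_lit 227) (nat_lit 282) (nat_lit 271))))))))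
noncomputable def pc96 : PT := (PT.nd (nat_lit 1248) (PT.nd (nat_lit 624) (PT.nd (nat_lit 312) (PT.nd (nat_lit 156) (PT.nd (nat_lit 78) (PT.lf (nat_lit 26904) (nat_lit 6) (nat_lit 354) (nat_lit 4) (nat_lit 228) (nat_lit 282) (nat_lit 270)) (PT.lf (nat_lit 27740) (nat_lit 6) (nat_lit 365) (nat_lit 4) (nat_lit 229) (nat_lit 282) (nat_lit 269))) (PT.nd (nat_lit 78) (PT.lf (nat_lit 28500) (nat_lit 6) (nat_lit 375) (nat_lit 4) (nat_lit 230) (nat_lit 282) (nat_lit 268)) (PT.lf (nat_lit 29336) (nat_lit 6) (nat_lit 386) (nat_lit 4) (nat_lit 231) (nat_lit 282) (nat_lit 267)))) (PT.nd (nat_lit 156) (PT.nd (nat_lit 78) (PT.lf (nat_lit 30172) (nat_lit 6) (nat_lit 397) (nat_lit 4) (nat_lit 232) (nat_lit 282) (nat_lit 266)) (PT.lf (nat_lit 31084) (nat_lit 6) (nat_lit 409) (nat_lit 4) (nat_lit 233) (nat_lit 282) (nat_lit 265))) (PT.nd (nat_lit 78) (PT.lf (nat_lit 31996) (nat_lit 6) (nat_lit 421) (nat_lit 4) (nat_lit 234) (nat_lit 282) (nat_lit 264)) (PT.lf (nat_lit 32984) (nat_lit 6)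 (nat_lit 434) (nat_lit 4) (nat_lit 235) (nat_lit 282) (nat_lit 263))))) (PT.nd (nat_lit 312) (PT.nd (nat_lit 156) (PT.nd (nat_lit 78) (PT.lf (nat_lit 34656) (nat_lit 6) (nat_lit 456) (nat_lit 4) (nat_lit 236) (nat_lit 282) (nat_lit 262)) (PT.lf (nat_lit 36404) (nat_lit 6) (nat_lit 479) (nat_lit 4) (nat_lit 237) (nat_lit 282) (nat_lit 261))) (PT.nd (nat_lit 78) (PT.lf (nat_lit 38076) (nat_lit 6) (nat_lit 501) (nat_lit 4) (nat_lit 238) (nat_lit 282) (nat_lit 260)) (PT.lf (nat_lit 38000) (nat_lit 6) (nat_lit 500) (nat_lit 4) (nat_lit 239) (nat_lit 282) (nat_lit 259)))) (PT.nd (nat_lit 156) (PT.nd (nat_lit 78) (PT.lf (nat_lit 37924) (nat_lit 6) (nat_lit 499) (nat_lit 4) (nat_lit 240) (nat_lit 282) (nat_lit 258)) (PT.lf (nat_lit 37848) (nat_lit 6) (nat_lit 498) (nat_lit 4) (nat_lit 241) (nat_lit 282) (nat_lit 257))) (PT.nd (nat_lit 78) (PT.lf (nat_lit 37772) (nat_lit 6) (nat_lit 497) (nat_lit 4) (nat_lit 242) (nat_lit 282) (nat_lit 256)) (PT.lf (nat_lit 37696) (nat_lit 6)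 (nat_lit 496) (nat_lit 4) (nat_lit 243) (nat_lit 282) (nat_lit 255)))))) (PT.nd (nat_lit 624) (PT.nd (nat_lit 312) (PT.nd (nat_lit 156) (PT.nd (nat_lit 78) (PT.lf (nat_lit 37620) (nat_lit 6) (nat_lit 495) (nat_lit 4) (nat_lit 244) (nat_lit 282) (nat_lit 254)) (PT.lf (nat_lit 37544) (nat_lit 6) (nat_lit 494) (nat_lit 4) (nat_lit 245) (nat_lit 282) (nat_lit 253))) (PT.nd (nat_lit 78) (PT.lf (nat_lit 37468) (nat_lit 6) (nat_lit 493) (nat_lit 4) (nat_lit 246) (nat_lit 282) (nat_lit 252)) (PT.lf (nat_lit 37392) (nat_lit 6) (nat_lit 492) (nat_lit 4) (nat_lit 247) (nat_lit 282) (nat_lit 251)))) (PT.nd (nat_lit 156) (PT.nd (nat_lit 78) (PT.lf (nat_lit 37316) (nat_lit 6) (nat_lit 491) (nat_lit 4) (nat_lit 248) (nat_lit 282) (nat_lit 250)) (PT.lf (nat_lit 37240) (nat_lit 3) (nat_lit 490) (nat_lit 2) (nat_lit 249) (nat_lit 282) (nat_lit 249))) (PT.nd (nat_lit 78) (PT.lf (nat_lit 37316) (nat_lit 6) (nat_lit 491) (nat_lit 2) (nat_lit 250) (nat_lit 282) (nat_lit 248)) (PT.lf (nat_lit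 37392) (nat_lit 6) (nat_lit 492) (nat_lit 2) (nat_lit 251) (nat_lit 282) (nat_lit 247))))) (PT.nd (nat_lit 312) (PT.nd (nat_lit 156) (PT.nd (nat_lit 78) (PT.lf (nat_lit 37468) (nat_lit 6) (nat_lit 493) (nat_lit 2) (nat_lit 252) (nat_lit 282) (nat_lit 246)) (PT.lf (nat_lit 37544) (nat_lit 6) (nat_lit 494) (nat_lit 2) (nat_lit 253) (nat_lit 282) (nat_lit 245))) (PT.nd (nat_lit 78) (PT.lf (nat_lit 37620) (nat_lit 6) (nat_lit 495) (nat_lit 2) (nat_lit 254) (nat_lit 282) (nat_lit 244)) (PT.lf (nat_lit 37696) (nat_lit 6) (nat_lit 496) (nat_lit 2) (nat_lit 255) (nat_lit 282) (nat_lit 243)))) (PT.nd (nat_lit 156) (PT.nd (nat_lit 78) (PT.lf (nat_lit 37772) (nat_lit 6) (nat_lit 497) (nat_lit 2) (nat_lit 256) (nat_lit 282) (nat_lit 242)) (PT.lf (nat_lit 37848) (nat_lit 6) (nat_lit 498) (nat_lit 2) (nat_lit 257) (nat_lit 282) (nat_lit 241))) (PT.nd (nat_lit 78) (PT.lf (nat_lit 37924) (nat_lit 6) (nat_lit 499) (nat_lit 2) (nat_lit 258) (nat_lit 282) (nat_lit 240)) (PT.nd (nat_lit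 78) (PT.lf (nat_lit 38000) (nat_lit 6) (nat_lit 500) (nat_lit 2) (nat_lit 259) (nat_lit 282) (nat_lit 239)) (PT.lf (nat_lit 38076) (nat_lit 6) (nat_lit 501) (nat_lit 2) (nat_lit 260) (nat_lit 282) (nat_lit 238))))))))
noncomputable def pc97 : PT := (PT.nd (nat_lit 1248) (PT.nd (nat_lit 624) (PT.nd (nat_lit 312) (PT.nd (nat_lit 156) (PT.nd (nat_lit 78) (PT.lf (nat_lit 36404) (nat_lit 6) (nat_lit 479) (nat_lit 2) (nat_lit 261) (nat_lit 282) (nat_lit 237)) (PT.lf (nat_lit 34656) (nat_lit 6) (nat_lit 456) (nat_lit 2) (nat_lit 262) (nat_lit 282) (nat_lit 236))) (PT.nd (nat_lit 78) (PT.lf (nat_lit 32984) (nat_lit 6) (nat_lit 434) (nat_lit 2) (nat_lit 263) (nat_lit 282) (nat_lit 235)) (PT.lf (nat_lit 31996) (nat_lit 6) (nat_lit 421) (nat_lit 2) (nat_lit 264) (nat_lit 282) (nat_lit 234)))) (PT.nd (nat_lit 156) (PT.nd (nat_lit 78) (PT.lf (nat_lit 31084) (nat_lit 6) (nat_lit 409) (nat_lit 2) (nat_lit 265) (nat_lit 282) (nat_lit 233)) (PT.lf (nat_lit 30172) (nat_lit 6) (nat_lit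 397) (nat_lit 2) (nat_lit 266) (nat_lit 282) (nat_lit 232))) (PT.nd (nat_lit 78) (PT.lf (nat_lit 29336) (nat_lit 6) (nat_lit 386) (nat_lit 2) (nat_lit 267) (nat_lit 282) (nat_lit 231)) (PT.lf (nat_lit 28500) (nat_lit 6) (nat_lit 375) (nat_lit 2) (nat_lit 268) (nat_lit 282) (nat_lit 230))))) (PT.nd (nat_lit 312) (PT.nd (nat_lit 156) (PT.nd (nat_lit 78) (PT.lf (nat_lit 27740) (nat_lit 6) (nat_lit 365) (nat_lit 2) (nat_lit 269) (nat_lit 282) (nat_lit 229)) (PT.lf (nat_lit 26904) (nat_lit 6) (nat_lit 354) (nat_lit 2) (nat_lit 270) (nat_lit 282) (nat_lit 228))) (PT.nd (nat_lit 78) (PT.lf (nat_lit 26144) (nat_lit 6) (nat_lit 344) (nat_lit 2) (nat_lit 271) (nat_lit 282) (nat_lit 227)) (PT.lf (nat_lit 25384) (nat_lit 6) (nat_lit 334) (nat_lit 2) (nat_lit 272) (nat_lit 282) (nat_lit 226)))) (PT.nd (nat_lit 156) (PT.nd (nat_lit 78) (PT.lf (nat_lit 24700) (nat_lit 6) (nat_lit 325) (nat_lit 2) (nat_lit 273) (nat_lit 282) (nat_lit 225)) (PT.lf (nat_lit 23940) (nat_lit 6) (nat_lit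 315) (nat_lit 2) (nat_lit 274) (nat_lit 282) (nat_lit 224))) (PT.nd (nat_lit 78) (PT.lf (nat_lit 23256) (nat_lit 6) (nat_lit 306) (nat_lit 2) (nat_lit 275) (nat_lit 282) (nat_lit 223)) (PT.lf (nat_lit 22572) (nat_lit 6) (nat_lit 297) (nat_lit 2) (nat_lit 276) (nat_lit 282) (nat_lit 222)))))) (PT.nd (nat_lit 624) (PT.nd (nat_lit 312) (PT.nd (nat_lit 156) (PT.nd (nat_lit 78) (PT.lf (nat_lit 21964) (nat_lit 6) (nat_lit 289) (nat_lit 2) (nat_lit 277) (nat_lit 282) (nat_lit 221)) (PT.lf (nat_lit 21280) (nat_lit 6) (nat_lit 280) (nat_lit 2) (nat_lit 278) (nat_lit 282) (nat_lit 220))) (PT.nd (nat_lit 78) (PT.lf (nat_lit 20672) (nat_lit 6) (nat_lit 272) (nat_lit 2) (nat_lit 279) (nat_lit 282) (nat_lit 219)) (PT.lf (nat_lit 20064) (nat_lit 6) (nat_lit 264) (nat_lit 2) (nat_lit 280) (nat_lit 282) (nat_lit 218)))) (PT.nd (nat_lit 156) (PT.nd (nat_lit 78) (PT.lf (nat_lit 19532) (nat_lit 6) (nat_lit 257) (nat_lit 2) (nat_lit 281) (nat_lit 282) (nat_lit 217)) (PT.lf (nat_lit 18924)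 (nat_lit 3) (nat_lit 249) (nat_lit 0) (nat_lit 282) (nat_lit 282) (nat_lit 216))) (PT.nd (nat_lit 78) (PT.lf (nat_lit 18316) (nat_lit 6) (nat_lit 241) (nat_lit 0) (nat_lit 283) (nat_lit 282) (nat_lit 215)) (PT.lf (nat_lit 17708) (nat_lit 6) (nat_lit 233) (nat_lit 0) (nat_lit 284) (nat_lit 282) (nat_lit 214))))) (PT.nd (nat_lit 312) (PT.nd (nat_lit 156) (PT.nd (nat_lit 78) (PT.lf (nat_lit 17100) (nat_lit 6) (nat_lit 225) (nat_lit 0) (nat_lit 285) (nat_lit 282) (nat_lit 213)) (PT.lf (nat_lit 16492) (nat_lit 6) (nat_lit 217) (nat_lit 0) (nat_lit 286) (nat_lit 282) (nat_lit 212))) (PT.nd (nat_lit 78) (PT.lf (nat_lit 15960) (nat_lit 6) (nat_lit 210) (nat_lit 0) (nat_lit 287) (nat_lit 282) (nat_lit 211)) (PT.lf (nat_lit 15352) (nat_lit 6) (nat_lit 202) (nat_lit 0) (nat_lit 288) (nat_lit 282) (nat_lit 210)))) (PT.nd (nat_lit 156) (PT.nd (nat_lit 78) (PT.lf (nat_lit 14820) (nat_lit 6) (nat_lit 195) (nat_lit 0) (nat_lit 289) (nat_lit 282) (nat_lit 209)) (PT.lf (nat_lit 14288)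 (nat_lit 6) (nat_lit 188) (nat_lit 0) (nat_lit 290) (nat_lit 282) (nat_lit 208))) (PT.nd (nat_lit 78) (PT.lf (nat_lit 13756) (nat_lit 6) (nat_lit 181) (nat_lit 0) (nat_lit 291) (nat_lit 282) (nat_lit 207)) (PT.nd (nat_lit 78) (PT.lf (nat_lit 13224) (nat_lit 6) (nat_lit 174) (nat_lit 0) (nat_lit 292) (nat_lit 282) (nat_lit 206)) (PT.lf (nat_lit 12768) (nat_lit 6) (nat_lit 168) (nat_lit 0) (nat_lit 293) (nat_lit 282) (nat_lit 205))))))))
noncomputable def pc98 : PT := (PT.nd (nat_lit 1248) (PT.nd (nat_lit 624) (PT.nd (nat_lit 312) (PT.nd (nat_lit 156) (PT.nd (nat_lit 78) (PT.lf (nat_lit 12312) (nat_lit 6) (nat_lit 162) (nat_lit 5) (nat_lit 204) (nat_lit 283) (nat_lit 293)) (PT.lf (nat_lit 12844) (nat_lit 6) (nat_lit 169) (nat_lit 5) (nat_lit 205) (nat_lit 283) (nat_lit 292))) (PT.nd (nat_lit 78) (PT.lf (nat_lit 13300) (nat_lit 6) (nat_lit 175) (nat_lit 5) (nat_lit 206) (nat_lit 283) (nat_lit 291)) (PT.lf (nat_lit 13832) (nat_lit 6) (nat_lit 182) (nat_lit 5) (nat_lit 207)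 (nat_lit 283) (nat_lit 290)))) (PT.nd (nat_lit 156) (PT.nd (nat_lit 78) (PT.lf (nat_lit 14364) (nat_lit 6) (nat_lit 189) (nat_lit 5) (nat_lit 208) (nat_lit 283) (nat_lit 289)) (PT.lf (nat_lit 14896) (nat_lit 6) (nat_lit 196) (nat_lit 5) (nat_lit 209) (nat_lit 283) (nat_lit 288))) (PT.nd (nat_lit 78) (PT.lf (nat_lit 15428) (nat_lit 6) (nat_lit 203) (nat_lit 5) (nat_lit 210) (nat_lit 283) (nat_lit 287)) (PT.lf (nat_lit 16036) (nat_lit 6) (nat_lit 211) (nat_lit 5) (nat_lit 211) (nat_lit 283) (nat_lit 286))))) (PT.nd (nat_lit 312) (PT.nd (nat_lit 156) (PT.nd (nat_lit 78) (PT.lf (nat_lit 16568) (nat_lit 6) (nat_lit 218) (nat_lit 5) (nat_lit 212) (nat_lit 283) (nat_lit 285)) (PT.lf (nat_lit 17176) (nat_lit 6) (nat_lit 226) (nat_lit 5) (nat_lit 213) (nat_lit 283) (nat_lit 284))) (PT.nd (nat_lit 78) (PT.lf (nat_lit 17784) (nat_lit 3) (nat_lit 234) (nat_lit 4) (nat_lit 214) (nat_lit 283) (nat_lit 283)) (PT.lf (nat_lit 18316) (nat_lit 6) (nat_lit 241) (nat_lit 4) (nat_lit 215)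 (nat_lit 283) (nat_lit 282)))) (PT.nd (nat_lit 156) (PT.nd (nat_lit 78) (PT.lf (nat_lit 18848) (nat_lit 6) (nat_lit 248) (nat_lit 4) (nat_lit 216) (nat_lit 283) (nat_lit 281)) (PT.lf (nat_lit 19456) (nat_lit 6) (nat_lit 256) (nat_lit 4) (nat_lit 217) (nat_lit 283) (nat_lit 280))) (PT.nd (nat_lit 78) (PT.lf (nat_lit 19988) (nat_lit 6) (nat_lit 263) (nat_lit 4) (nat_lit 218) (nat_lit 283) (nat_lit 279)) (PT.lf (nat_lit 20596) (nat_lit 6) (nat_lit 271) (nat_lit 4) (nat_lit 219) (nat_lit 283) (nat_lit 278)))))) (PT.nd (nat_lit 624) (PT.nd (nat_lit 312) (PT.nd (nat_lit 156) (PT.nd (nat_lit 78) (PT.lf (nat_lit 21204) (nat_lit 6) (nat_lit 279) (nat_lit 4) (nat_lit 220) (nat_lit 283) (nat_lit 277)) (PT.lf (nat_lit 21888) (nat_lit 6) (nat_lit 288) (nat_lit 4) (nat_lit 221) (nat_lit 283) (nat_lit 276))) (PT.nd (nat_lit 78) (PT.lf (nat_lit 22496) (nat_lit 6) (nat_lit 296) (nat_lit 4) (nat_lit 222) (nat_lit 283) (nat_lit 275)) (PT.lf (nat_lit 23180) (nat_lit 6) (nat_lit 305) (nat_lit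 4) (nat_lit 223) (nat_lit 283) (nat_lit 274)))) (PT.nd (nat_lit 156) (PT.nd (nat_lit 78) (PT.lf (nat_lit 23864) (nat_lit 6) (nat_lit 314) (nat_lit 4) (nat_lit 224) (nat_lit 283) (nat_lit 273)) (PT.lf (nat_lit 24624) (nat_lit 6) (nat_lit 324) (nat_lit 4) (nat_lit 225) (nat_lit 283) (nat_lit 272))) (PT.nd (nat_lit 78) (PT.lf (nat_lit 25308) (nat_lit 6) (nat_lit 333) (nat_lit 4) (nat_lit 226) (nat_lit 283) (nat_lit 271)) (PT.lf (nat_lit 26068) (nat_lit 6) (nat_lit 343) (nat_lit 4) (nat_lit 227) (nat_lit 283) (nat_lit 270))))) (PT.nd (nat_lit 312) (PT.nd (nat_lit 156) (PT.nd (nat_lit 78) (PT.lf (nat_lit 26828) (nat_lit 6) (nat_lit 353) (nat_lit 4) (nat_lit 228) (nat_lit 283) (nat_lit 269)) (PT.lf (nat_lit 27664) (nat_lit 6) (nat_lit 364) (nat_lit 4) (nat_lit 229) (nat_lit 283) (nat_lit 268))) (PT.nd (nat_lit 78) (PT.lf (nat_lit 28424) (nat_lit 6) (nat_lit 374) (nat_lit 4) (nat_lit 230) (nat_lit 283) (nat_lit 267)) (PT.lf (nat_lit 29260) (nat_lit 6) (nat_lit 385) (nat_lit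 4) (nat_lit 231) (nat_lit 283) (nat_lit 266)))) (PT.nd (nat_lit 156) (PT.nd (nat_lit 78) (PT.lf (nat_lit 30096) (nat_lit 6) (nat_lit 396) (nat_lit 4) (nat_lit 232) (nat_lit 283) (nat_lit 265)) (PT.lf (nat_lit 31008) (nat_lit 6) (nat_lit 408) (nat_lit 4) (nat_lit 233) (nat_lit 283) (nat_lit 264))) (PT.nd (nat_lit 78) (PT.lf (nat_lit 31920) (nat_lit 6) (nat_lit 420) (nat_lit 4) (nat_lit 234) (nat_lit 283) (nat_lit 263)) (PT.nd (nat_lit 78) (PT.lf (nat_lit 32908) (nat_lit 6) (nat_lit 433) (nat_lit 4) (nat_lit 235) (nat_lit 283) (nat_lit 262)) (PT.lf (nat_lit 34580) (nat_lit 6) (nat_lit 455) (nat_lit 4) (nat_lit 236) (nat_lit 283) (nat_lit 261))))))))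
noncomputable def pc99 : PT := (PT.nd (nat_lit 1248) (PT.nd (nat_lit 624) (PT.nd (nat_lit 312) (PT.nd (nat_lit 156) (PT.nd (nat_lit 78) (PT.lf (nat_lit 36328) (nat_lit 6) (nat_lit 478) (nat_lit 4) (nat_lit 237) (nat_lit 283) (nat_lit 260)) (PT.lf (nat_lit 36252) (nat_lit 6) (nat_lit 477) (nat_lit 4) (nat_lit 238) (nat_lit 283) (nat_lit 259))) (PT.nd (nat_lit 78) (PT.lf (nat_lit 36176) (nat_lit 6) (nat_lit 476) (nat_lit 4) (nat_lit 239) (nat_lit 283) (nat_lit 258)) (PT.lf (nat_lit 36100) (nat_lit 6) (nat_lit 475) (nat_lit 4) (nat_lit 240) (nat_lit 283) (nat_lit 257)))) (PT.nd (nat_lit 156) (PT.nd (nat_lit 78) (PT.lf (nat_lit 36024) (nat_lit 6) (nat_lit 474) (nat_lit 4) (nat_lit 241) (nat_lit 283) (nat_lit 256)) (PT.lf (nat_lit 35948) (nat_lit 6) (nat_lit 473) (nat_lit 4) (nat_lit 242) (nat_lit 283) (nat_lit 255))) (PT.nd (nat_lit 78) (PT.lf (nat_lit 35872) (nat_lit 6) (nat_lit 472) (nat_lit 4) (nat_lit 243) (nat_lit 283) (nat_lit 254)) (PT.lf (nat_lit 35796) (nat_lit 6)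 (nat_lit 471) (nat_lit 4) (nat_lit 244) (nat_lit 283) (nat_lit 253))))) (PT.nd (nat_lit 312) (PT.nd (nat_lit 156) (PT.nd (nat_lit 78) (PT.lf (nat_lit 35720) (nat_lit 6) (nat_lit 470) (nat_lit 4) (nat_lit 245) (nat_lit 283) (nat_lit 252)) (PT.lf (nat_lit 35644) (nat_lit 6) (nat_lit 469) (nat_lit 4) (nat_lit 246) (nat_lit 283) (nat_lit 251))) (PT.nd (nat_lit 78) (PT.lf (nat_lit 35568) (nat_lit 6) (nat_lit 468) (nat_lit 4) (nat_lit 247) (nat_lit 283) (nat_lit 250)) (PT.lf (nat_lit 35492) (nat_lit 6) (nat_lit 467) (nat_lit 4) (nat_lit 248) (nat_lit 283) (nat_lit 249)))) (PT.nd (nat_lit 156) (PT.nd (nat_lit 78) (PT.lf (nat_lit 35492) (nat_lit 6) (nat_lit 467) (nat_lit 2) (nat_lit 249) (nat_lit 283) (nat_lit 248)) (PT.lf (nat_lit 35568) (nat_lit 6) (nat_lit 468) (nat_lit 2) (nat_lit 250) (nat_lit 283) (nat_lit 247))) (PT.nd (nat_lit 78) (PT.lf (nat_lit 35644) (nat_lit 6) (nat_lit 469) (nat_lit 2) (nat_lit 251) (nat_lit 283) (nat_lit 246)) (PT.lf (nat_lit 35720) (nat_lit 6)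 (nat_lit 470) (nat_lit 2) (nat_lit 252) (nat_lit 283) (nat_lit 245)))))) (PT.nd (nat_lit 624) (PT.nd (nat_lit 312) (PT.nd (nat_lit 156) (PT.nd (nat_lit 78) (PT.lf (nat_lit 35796) (nat_lit 6) (nat_lit 471) (nat_lit 2) (nat_lit 253) (nat_lit 283) (nat_lit 244)) (PT.lf (nat_lit 35872) (nat_lit 6) (nat_lit 472) (nat_lit 2) (nat_lit 254) (nat_lit 283) (nat_lit 243))) (PT.nd (nat_lit 78) (PT.lf (nat_lit 35948) (nat_lit 6) (nat_lit 473) (nat_lit 2) (nat_lit 255) (nat_lit 283) (nat_lit 242)) (PT.lf (nat_lit 36024) (nat_lit 6) (nat_lit 474) (nat_lit 2) (nat_lit 256) (nat_lit 283) (nat_lit 241)))) (PT.nd (nat_lit 156) (PT.nd (nat_lit 78) (PT.lf (nat_lit 36100) (nat_lit 6) (nat_lit 475) (nat_lit 2) (nat_lit 257) (nat_lit 283) (nat_lit 240)) (PT.lf (nat_lit 36176) (nat_lit 6) (nat_lit 476) (nat_lit 2) (nat_lit 258) (nat_lit 283) (nat_lit 239))) (PT.nd (nat_lit 78) (PT.lf (nat_lit 36252) (nat_lit 6) (nat_lit 477) (nat_lit 2) (nat_lit 259) (nat_lit 283) (nat_lit 238)) (PT.lf (nat_lit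 36328) (nat_lit 6) (nat_lit 478) (nat_lit 2) (nat_lit 260) (nat_lit 283) (nat_lit 237))))) (PT.nd (nat_lit 312) (PT.nd (nat_lit 156) (PT.nd (nat_lit 78) (PT.lf (nat_lit 34580) (nat_lit 6) (nat_lit 455) (nat_lit 2) (nat_lit 261) (nat_lit 283) (nat_lit 236)) (PT.lf (nat_lit 32908) (nat_lit 6) (nat_lit 433) (nat_lit 2) (nat_lit 262) (nat_lit 283) (nat_lit 235))) (PT.nd (nat_lit 78) (PT.lf (nat_lit 31920) (nat_lit 6) (nat_lit 420) (nat_lit 2) (nat_lit 263) (nat_lit 283) (nat_lit 234)) (PT.lf (nat_lit 31008) (nat_lit 6) (nat_lit 408) (nat_lit 2) (nat_lit 264) (nat_lit 283) (nat_lit 233)))) (PT.nd (nat_lit 156) (PT.nd (nat_lit 78) (PT.lf (nat_lit 30096) (nat_lit 6) (nat_lit 396) (nat_lit 2) (nat_lit 265) (nat_lit 283) (nat_lit 232)) (PT.lf (nat_lit 29260) (nat_lit 6) (nat_lit 385) (nat_lit 2) (nat_lit 266) (nat_lit 283) (nat_lit 231))) (PT.nd (nat_lit 78) (PT.lf (nat_lit 28424) (nat_lit 6) (nat_lit 374) (nat_lit 2) (nat_lit 267) (nat_lit 283) (nat_lit 230)) (PT.nd (nat_lit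 78) (PT.lf (nat_lit 27664) (nat_lit 6) (nat_lit 364) (nat_lit 2) (nat_lit 268) (nat_lit 283) (nat_lit 229)) (PT.lf (nat_lit 26828) (nat_lit 6) (nat_lit 353) (nat_lit 2) (nat_lit 269) (nat_lit 283) (nat_lit 228))))))))
noncomputable def pc100 : PT := (PT.nd (nat_lit 1248) (PT.nd (nat_lit 624) (PT.nd (nat_lit 312) (PT.nd (nat_lit 156) (PT.nd (nat_lit 78) (PT.lf (nat_lit 26068) (nat_lit 6) (nat_lit 343) (nat_lit 2) (nat_lit 270) (nat_lit 283) (nat_lit 227)) (PT.lf (nat_lit 25308) (nat_lit 6) (nat_lit 333) (nat_lit 2) (nat_lit 271) (nat_lit 283) (nat_lit 226))) (PT.nd (nat_lit 78) (PT.lf (nat_lit 24624) (nat_lit 6) (nat_lit 324) (nat_lit 2) (nat_lit 272) (nat_lit 283) (nat_lit 225)) (PT.lf (nat_lit 23864) (nat_lit 6) (nat_lit 314) (nat_lit 2) (nat_lit 273) (nat_lit 283) (nat_lit 224)))) (PT.nd (nat_lit 156) (PT.nd (nat_lit 78) (PT.lf (nat_lit 23180) (nat_lit 6) (nat_lit 305) (nat_lit 2) (nat_lit 274) (nat_lit 283) (nat_lit 223)) (PT.lf (nat_lit 22496) (nat_lit 6) (nat_lit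 296) (nat_lit 2) (nat_lit 275) (nat_lit 283) (nat_lit 222))) (PT.nd (nat_lit 78) (PT.lf (nat_lit 21888) (nat_lit 6) (nat_lit 288) (nat_lit 2) (nat_lit 276) (nat_lit 283) (nat_lit 221)) (PT.lf (nat_lit 21204) (nat_lit 6) (nat_lit 279) (nat_lit 2) (nat_lit 277) (nat_lit 283) (nat_lit 220))))) (PT.nd (nat_lit 312) (PT.nd (nat_lit 156) (PT.nd (nat_lit 78) (PT.lf (nat_lit 20596) (nat_lit 6) (nat_lit 271) (nat_lit 2) (nat_lit 278) (nat_lit 283) (nat_lit 219)) (PT.lf (nat_lit 19988) (nat_lit 6) (nat_lit 263) (nat_lit 2) (nat_lit 279) (nat_lit 283) (nat_lit 218))) (PT.nd (nat_lit 78) (PT.lf (nat_lit 19456) (nat_lit 6) (nat_lit 256) (nat_lit 2) (nat_lit 280) (nat_lit 283) (nat_lit 217)) (PT.lf (nat_lit 18848) (nat_lit 6) (nat_lit 248) (nat_lit 2) (nat_lit 281) (nat_lit 283) (nat_lit 216)))) (PT.nd (nat_lit 156) (PT.nd (nat_lit 78) (PT.lf (nat_lit 18316) (nat_lit 6) (nat_lit 241) (nat_lit 2) (nat_lit 282) (nat_lit 283) (nat_lit 215)) (PT.lf (nat_lit 17784) (nat_lit 3) (nat_lit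 234) (nat_lit 0) (nat_lit 283) (nat_lit 283) (nat_lit 214))) (PT.nd (nat_lit 78) (PT.lf (nat_lit 17176) (nat_lit 6) (nat_lit 226) (nat_lit 0) (nat_lit 284) (nat_lit 283) (nat_lit 213)) (PT.lf (nat_lit 16568) (nat_lit 6) (nat_lit 218) (nat_lit 0) (nat_lit 285) (nat_lit 283) (nat_lit 212)))))) (PT.nd (nat_lit 74646) (PT.nd (nat_lit 312) (PT.nd (nat_lit 156) (PT.nd (nat_lit 78) (PT.lf (nat_lit 16036) (nat_lit 6) (nat_lit 211) (nat_lit 0) (nat_lit 286) (nat_lit 283) (nat_lit 211)) (PT.lf (nat_lit 15428) (nat_lit 6) (nat_lit 203) (nat_lit 0) (nat_lit 287) (nat_lit 283) (nat_lit 210))) (PT.nd (nat_lit 78) (PT.lf (nat_lit 14896) (nat_lit 6) (nat_lit 196) (nat_lit 0) (nat_lit 288) (nat_lit 283) (nat_lit 209)) (PT.lf (nat_lit 14364) (nat_lit 6) (nat_lit 189) (nat_lit 0) (nat_lit 289) (nat_lit 283) (nat_lit 208)))) (PT.nd (nat_lit 156) (PT.nd (nat_lit 78) (PT.lf (nat_lit 13832) (nat_lit 6) (nat_lit 182) (nat_lit 0) (nat_lit 290) (nat_lit 283) (nat_lit 207)) (PT.lf (nat_lit 13300)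 (nat_lit 6) (nat_lit 175) (nat_lit 0) (nat_lit 291) (nat_lit 283) (nat_lit 206))) (PT.nd (nat_lit 78) (PT.lf (nat_lit 12844) (nat_lit 6) (nat_lit 169) (nat_lit 0) (nat_lit 292) (nat_lit 283) (nat_lit 205)) (PT.lf (nat_lit 12312) (nat_lit 6) (nat_lit 162) (nat_lit 0) (nat_lit 293) (nat_lit 283) (nat_lit 204))))) (PT.nd (nat_lit 312) (PT.nd (nat_lit 156) (PT.nd (nat_lit 78) (PT.lf (nat_lit 11476) (nat_lit 6) (nat_lit 151) (nat_lit 5) (nat_lit 202) (nat_lit 284) (nat_lit 294)) (PT.lf (nat_lit 11932) (nat_lit 6) (nat_lit 157) (nat_lit 5) (nat_lit 203) (nat_lit 284) (nat_lit 293))) (PT.nd (nat_lit 78) (PT.lf (nat_lit 12388) (nat_lit 6) (nat_lit 163) (nat_lit 5) (nat_lit 204) (nat_lit 284) (nat_lit 292)) (PT.lf (nat_lit 12920) (nat_lit 6) (nat_lit 170) (nat_lit 5) (nat_lit 205) (nat_lit 284) (nat_lit 291)))) (PT.nd (nat_lit 156) (PT.nd (nat_lit 78) (PT.lf (nat_lit 13376) (nat_lit 6) (nat_lit 176) (nat_lit 5) (nat_lit 206) (nat_lit 284) (nat_lit 290)) (PT.lf (nat_lit 13908)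 (nat_lit 6) (nat_lit 183) (nat_lit 5) (nat_lit 207) (nat_lit 284) (nat_lit 289))) (PT.nd (nat_lit 78) (PT.lf (nat_lit 14440) (nat_lit 6) (nat_lit 190) (nat_lit 5) (nat_lit 208) (nat_lit 284) (nat_lit 288)) (PT.nd (nat_lit 78) (PT.lf (nat_lit 14972) (nat_lit 6) (nat_lit 197) (nat_lit 5) (nat_lit 209) (nat_lit 284) (nat_lit 287)) (PT.lf (nat_lit 15504) (nat_lit 6) (nat_lit 204) (nat_lit 5) (nat_lit 210) (nat_lit 284) (nat_lit 286))))))))
noncomputable def pc101 : PT := (PT.nd (nat_lit 1248) (PT.nd (nat_lit 624) (PT.nd (nat_lit 312) (PT.nd (nat_lit 156) (PT.nd (nat_lit 78) (PT.lf (nat_lit 16112) (nat_lit 6) (nat_lit 212) (nat_lit 5) (nat_lit 211) (nat_lit 284) (nat_lit 285)) (PT.lf (nat_lit 16644) (nat_lit 3) (nat_lit 219) (nat_lit 4) (nat_lit 212) (nat_lit 284) (nat_lit 284))) (PT.nd (nat_lit 78) (PT.lf (nat_lit 17176) (nat_lit 6) (nat_lit 226) (nat_lit 4) (nat_lit 213) (nat_lit 284) (nat_lit 283)) (PT.lf (nat_lit 17708) (nat_lit 6) (nat_lit 233) (nat_lit 4) (nat_lit 214)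 (nat_lit 284) (nat_lit 282)))) (PT.nd (nat_lit 156) (PT.nd (nat_lit 78) (PT.lf (nat_lit 18240) (nat_lit 6) (nat_lit 240) (nat_lit 4) (nat_lit 215) (nat_lit 284) (nat_lit 281)) (PT.lf (nat_lit 18772) (nat_lit 6) (nat_lit 247) (nat_lit 4) (nat_lit 216) (nat_lit 284) (nat_lit 280))) (PT.nd (nat_lit 78) (PT.lf (nat_lit 19380) (nat_lit 6) (nat_lit 255) (nat_lit 4) (nat_lit 217) (nat_lit 284) (nat_lit 279)) (PT.lf (nat_lit 19912) (nat_lit 6) (nat_lit 262) (nat_lit 4) (nat_lit 218) (nat_lit 284) (nat_lit 278))))) (PT.nd (nat_lit 312) (PT.nd (nat_lit 156) (PT.nd (nat_lit 78) (PT.lf (nat_lit 20520) (nat_lit 6) (nat_lit 270) (nat_lit 4) (nat_lit 219) (nat_lit 284) (nat_lit 277)) (PT.lf (nat_lit 21128) (nat_lit 6) (nat_lit 278) (nat_lit 4) (nat_lit 220) (nat_lit 284) (nat_lit 276))) (PT.nd (nat_lit 78) (PT.lf (nat_lit 21812) (nat_lit 6) (nat_lit 287) (nat_lit 4) (nat_lit 221) (nat_lit 284) (nat_lit 275)) (PT.lf (nat_lit 22420) (nat_lit 6) (nat_lit 295) (nat_lit 4) (nat_lit 222)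 (nat_lit 284) (nat_lit 274)))) (PT.nd (nat_lit 156) (PT.nd (nat_lit 78) (PT.lf (nat_lit 23104) (nat_lit 6) (nat_lit 304) (nat_lit 4) (nat_lit 223) (nat_lit 284) (nat_lit 273)) (PT.lf (nat_lit 23788) (nat_lit 6) (nat_lit 313) (nat_lit 4) (nat_lit 224) (nat_lit 284) (nat_lit 272))) (PT.nd (nat_lit 78) (PT.lf (nat_lit 24548) (nat_lit 6) (nat_lit 323) (nat_lit 4) (nat_lit 225) (nat_lit 284) (nat_lit 271)) (PT.lf (nat_lit 25232) (nat_lit 6) (nat_lit 332) (nat_lit 4) (nat_lit 226) (nat_lit 284) (nat_lit 270)))))) (PT.nd (nat_lit 624) (PT.nd (nat_lit 312) (PT.nd (nat_lit 156) (PT.nd (nat_lit 78) (PT.lf (nat_lit 25992) (nat_lit 6) (nat_lit 342) (nat_lit 4) (nat_lit 227) (nat_lit 284) (nat_lit 269)) (PT.lf (nat_lit 26752) (nat_lit 6) (nat_lit 352) (nat_lit 4) (nat_lit 228) (nat_lit 284) (nat_lit 268))) (PT.nd (nat_lit 78) (PT.lf (nat_lit 27588) (nat_lit 6) (nat_lit 363) (nat_lit 4) (nat_lit 229) (nat_lit 284) (nat_lit 267)) (PT.lf (nat_lit 28348) (nat_lit 6) (nat_lit 373) (nat_lit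 4) (nat_lit 230) (nat_lit 284) (nat_lit 266)))) (PT.nd (nat_lit 156) (PT.nd (nat_lit 78) (PT.lf (nat_lit 29184) (nat_lit 6) (nat_lit 384) (nat_lit 4) (nat_lit 231) (nat_lit 284) (nat_lit 265)) (PT.lf (nat_lit 30020) (nat_lit 6) (nat_lit 395) (nat_lit 4) (nat_lit 232) (nat_lit 284) (nat_lit 264))) (PT.nd (nat_lit 78) (PT.lf (nat_lit 30932) (nat_lit 6) (nat_lit 407) (nat_lit 4) (nat_lit 233) (nat_lit 284) (nat_lit 263)) (PT.lf (nat_lit 31844) (nat_lit 6) (nat_lit 419) (nat_lit 4) (nat_lit 234) (nat_lit 284) (nat_lit 262))))) (PT.nd (nat_lit 312) (PT.nd (nat_lit 156) (PT.nd (nat_lit 78) (PT.lf (nat_lit 32832) (nat_lit 6) (nat_lit 432) (nat_lit 4) (nat_lit 235) (nat_lit 284) (nat_lit 261)) (PT.lf (nat_lit 34504) (nat_lit 6) (nat_lit 454) (nat_lit 4) (nat_lit 236) (nat_lit 284) (nat_lit 260))) (PT.nd (nat_lit 78) (PT.lf (nat_lit 34428) (nat_lit 6) (nat_lit 453) (nat_lit 4) (nat_lit 237) (nat_lit 284) (nat_lit 259)) (PT.lf (nat_lit 34352) (nat_lit 6) (nat_lit 452) (nat_lit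 4) (nat_lit 238) (nat_lit 284) (nat_lit 258)))) (PT.nd (nat_lit 156) (PT.nd (nat_lit 78) (PT.lf (nat_lit 34276) (nat_lit 6) (nat_lit 451) (nat_lit 4) (nat_lit 239) (nat_lit 284) (nat_lit 257)) (PT.lf (nat_lit 34200) (nat_lit 6) (nat_lit 450) (nat_lit 4) (nat_lit 240) (nat_lit 284) (nat_lit 256))) (PT.nd (nat_lit 78) (PT.lf (nat_lit 34124) (nat_lit 6) (nat_lit 449) (nat_lit 4) (nat_lit 241) (nat_lit 284) (nat_lit 255)) (PT.nd (nat_lit 78) (PT.lf (nat_lit 34048) (nat_lit 6) (nat_lit 448) (nat_lit 4) (nat_lit 242) (nat_lit 284) (nat_lit 254)) (PT.lf (nat_lit 33972) (nat_lit 6) (nat_lit 447) (nat_lit 4) (nat_lit 243) (nat_lit 284) (nat_lit 253))))))))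
noncomputable def pc102 : PT := (PT.nd (nat_lit 1638) (PT.nd (nat_lit 1014) (PT.nd (nat_lit 702) (PT.nd (nat_lit 546) (PT.nd (nat_lit 78) (PT.lf (nat_lit 33896) (nat_lit 6) (nat_lit 446) (nat_lit 4) (nat_lit 244) (nat_lit 284) (nat_lit 252)) (PT.lf (nat_lit 33820) (nat_lit 6) (nat_lit 445) (nat_lit 4) (nat_lit 245) (nat_lit 284) (nat_lit 251))) (PT.nd (nat_lit 78) (PT.lf (nat_lit 33820) (nat_lit 6) (nat_lit 445) (nat_lit 2) (nat_lit 251) (nat_lit 284) (nat_lit 245)) (PT.lf (nat_lit 33896) (nat_lit 6) (nat_lit 446) (nat_lit 2) (nat_lit 252) (nat_lit 284) (nat_lit 244)))) (PT.nd (nat_lit 156) (PT.nd (nat_lit 78) (PT.lf (nat_lit 33972) (nat_lit 6) (nat_lit 447) (nat_lit 2) (nat_lit 253) (nat_lit 284) (nat_lit 243)) (PT.lf (nat_lit 34048) (nat_lit 6) (nat_lit 448) (nat_lit 2) (nat_lit 254) (nat_lit 284) (nat_lit 242))) (PT.nd (nat_lit 78) (PT.lf (nat_lit 34124) (nat_lit 6) (nat_lit 449) (nat_lit 2) (nat_lit 255) (nat_lit 284) (nat_lit 241)) (PT.lf (nat_lit 34200) (nat_lit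 6) (nat_lit 450) (nat_lit 2) (nat_lit 256) (nat_lit 284) (nat_lit 240))))) (PT.nd (nat_lit 312) (PT.nd (nat_lit 156) (PT.nd (nat_lit 78) (PT.lf (nat_lit 34276) (nat_lit 6) (nat_lit 451) (nat_lit 2) (nat_lit 257) (nat_lit 284) (nat_lit 239)) (PT.lf (nat_lit 34352) (nat_lit 6) (nat_lit 452) (nat_lit 2) (nat_lit 258) (nat_lit 284) (nat_lit 238))) (PT.nd (nat_lit 78) (PT.lf (nat_lit 34428) (nat_lit 6) (nat_lit 453) (nat_lit 2) (nat_lit 259) (nat_lit 284) (nat_lit 237)) (PT.lf (nat_lit 34504) (nat_lit 6) (nat_lit 454) (nat_lit 2) (nat_lit 260) (nat_lit 284) (nat_lit 236)))) (PT.nd (nat_lit 156) (PT.nd (nat_lit 78) (PT.lf (nat_lit 32832) (nat_lit 6) (nat_lit 432) (nat_lit 2) (nat_lit 261) (nat_lit 284) (nat_lit 235)) (PT.lf (nat_lit 31844) (nat_lit 6) (nat_lit 419) (nat_lit 2) (nat_lit 262) (nat_lit 284) (nat_lit 234))) (PT.nd (nat_lit 78) (PT.lf (nat_lit 30932) (nat_lit 6) (nat_lit 407) (nat_lit 2) (nat_lit 263) (nat_lit 284) (nat_lit 233)) (PT.lf (nat_lit 30020) (nat_lit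 6) (nat_lit 395) (nat_lit 2) (nat_lit 264) (nat_lit 284) (nat_lit 232)))))) (PT.nd (nat_lit 624) (PT.nd (nat_lit 312) (PT.nd (nat_lit 156) (PT.nd (nat_lit 78) (PT.lf (nat_lit 29184) (nat_lit 6) (nat_lit 384) (nat_lit 2) (nat_lit 265) (nat_lit 284) (nat_lit 231)) (PT.lf (nat_lit 28348) (nat_lit 6) (nat_lit 373) (nat_lit 2) (nat_lit 266) (nat_lit 284) (nat_lit 230))) (PT.nd (nat_lit 78) (PT.lf (nat_lit 27588) (nat_lit 6) (nat_lit 363) (nat_lit 2) (nat_lit 267) (nat_lit 284) (nat_lit 229)) (PT.lf (nat_lit 26752) (nat_lit 6) (nat_lit 352) (nat_lit 2) (nat_lit 268) (nat_lit 284) (nat_lit 228)))) (PT.nd (nat_lit 156) (PT.nd (nat_lit 78) (PT.lf (nat_lit 25992) (nat_lit 6) (nat_lit 342) (nat_lit 2) (nat_lit 269) (nat_lit 284) (nat_lit 227)) (PT.lf (nat_lit 25232) (nat_lit 6) (nat_lit 332) (nat_lit 2) (nat_lit 270) (nat_lit 284) (nat_lit 226))) (PT.nd (nat_lit 78) (PT.lf (nat_lit 24548) (nat_lit 6) (nat_lit 323) (nat_lit 2) (nat_lit 271) (nat_lit 284) (nat_lit 225)) (PT.lf (nat_lit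 23788) (nat_lit 6) (nat_lit 313) (nat_lit 2) (nat_lit 272) (nat_lit 284) (nat_lit 224))))) (PT.nd (nat_lit 312) (PT.nd (nat_lit 156) (PT.nd (nat_lit 78) (PT.lf (nat_lit 23104) (nat_lit 6) (nat_lit 304) (nat_lit 2) (nat_lit 273) (nat_lit 284) (nat_lit 223)) (PT.lf (nat_lit 22420) (nat_lit 6) (nat_lit 295) (nat_lit 2) (nat_lit 274) (nat_lit 284) (nat_lit 222))) (PT.nd (nat_lit 78) (PT.lf (nat_lit 21812) (nat_lit 6) (nat_lit 287) (nat_lit 2) (nat_lit 275) (nat_lit 284) (nat_lit 221)) (PT.lf (nat_lit 21128) (nat_lit 6) (nat_lit 278) (nat_lit 2) (nat_lit 276) (nat_lit 284) (nat_lit 220)))) (PT.nd (nat_lit 156) (PT.nd (nat_lit 78) (PT.lf (nat_lit 20520) (nat_lit 6) (nat_lit 270) (nat_lit 2) (nat_lit 277) (nat_lit 284) (nat_lit 219)) (PT.lf (nat_lit 19912) (nat_lit 6) (nat_lit 262) (nat_lit 2) (nat_lit 278) (nat_lit 284) (nat_lit 218))) (PT.nd (nat_lit 78) (PT.lf (nat_lit 19380) (nat_lit 6) (nat_lit 255) (nat_lit 2) (nat_lit 279) (nat_lit 284) (nat_lit 217)) (PT.nd (nat_lit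 78) (PT.lf (nat_lit 18772) (nat_lit 6) (nat_lit 247) (nat_lit 2) (nat_lit 280) (nat_lit 284) (nat_lit 216)) (PT.lf (nat_lit 18240) (nat_lit 6) (nat_lit 240) (nat_lit 2) (nat_lit 281) (nat_lit 284) (nat_lit 215))))))))
noncomputable def pc103 : PT := (PT.nd (nat_lit 75192) (PT.nd (nat_lit 624) (PT.nd (nat_lit 312) (PT.nd (nat_lit 156) (PT.nd (nat_lit 78) (PT.lf (nat_lit 17708) (nat_lit 6) (nat_lit 233) (nat_lit 2) (nat_lit 282) (nat_lit 284) (nat_lit 214)) (PT.lf (nat_lit 17176) (nat_lit 6) (nat_lit 226) (nat_lit 2) (nat_lit 283) (nat_lit 284) (nat_lit 213))) (PT.nd (nat_lit 78) (PT.lf (nat_lit 16644) (nat_lit 3) (nat_lit 219) (nat_lit 0) (nat_lit 284) (nat_lit 284) (nat_lit 212)) (PT.lf (nat_lit 16112) (nat_lit 6) (nat_lit 212) (nat_lit 0) (nat_lit 285) (nat_lit 284) (nat_lit 211)))) (PT.nd (nat_lit 156) (PT.nd (nat_lit 78) (PT.lf (nat_lit 15504) (nat_lit 6) (nat_lit 204) (nat_lit 0) (nat_lit 286) (nat_lit 284) (nat_lit 210)) (PT.lf (nat_lit 14972) (nat_lit 6) (nat_lit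 197) (nat_lit 0) (nat_lit 287) (nat_lit 284) (nat_lit 209))) (PT.nd (nat_lit 78) (PT.lf (nat_lit 14440) (nat_lit 6) (nat_lit 190) (nat_lit 0) (nat_lit 288) (nat_lit 284) (nat_lit 208)) (PT.lf (nat_lit 13908) (nat_lit 6) (nat_lit 183) (nat_lit 0) (nat_lit 289) (nat_lit 284) (nat_lit 207))))) (PT.nd (nat_lit 312) (PT.nd (nat_lit 156) (PT.nd (nat_lit 78) (PT.lf (nat_lit 13376) (nat_lit 6) (nat_lit 176) (nat_lit 0) (nat_lit 290) (nat_lit 284) (nat_lit 206)) (PT.lf (nat_lit 12920) (nat_lit 6) (nat_lit 170) (nat_lit 0) (nat_lit 291) (nat_lit 284) (nat_lit 205))) (PT.nd (nat_lit 78) (PT.lf (nat_lit 12388) (nat_lit 6) (nat_lit 163) (nat_lit 0) (nat_lit 292) (nat_lit 284) (nat_lit 204)) (PT.lf (nat_lit 11932) (nat_lit 6) (nat_lit 157) (nat_lit 0) (nat_lit 293) (nat_lit 284) (nat_lit 203)))) (PT.nd (nat_lit 74022) (PT.nd (nat_lit 73944) (PT.lf (nat_lit 11476) (nat_lit 6) (nat_lit 151) (nat_lit 0) (nat_lit 294) (nat_lit 284) (nat_lit 202)) (PT.lf (nat_lit 11096) (nat_lit 6) (nat_lit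 146) (nat_lit 5) (nat_lit 201) (nat_lit 285) (nat_lit 294))) (PT.nd (nat_lit 78) (PT.lf (nat_lit 11552) (nat_lit 6) (nat_lit 152) (nat_lit 5) (nat_lit 202) (nat_lit 285) (nat_lit 293)) (PT.nd (nat_lit 78) (PT.lf (nat_lit 12008) (nat_lit 6) (nat_lit 158) (nat_lit 5) (nat_lit 203) (nat_lit 285) (nat_lit 292)) (PT.lf (nat_lit 12464) (nat_lit 6) (nat_lit 164) (nat_lit 5) (nat_lit 204) (nat_lit 285) (nat_lit 291))))))) (PT.nd (nat_lit 624) (PT.nd (nat_lit 312) (PT.nd (nat_lit 156) (PT.nd (nat_lit 78) (PT.lf (nat_lit 12996) (nat_lit 6) (nat_lit 171) (nat_lit 5) (nat_lit 205) (nat_lit 285) (nat_lit 290)) (PT.lf (nat_lit 13452) (nat_lit 6) (nat_lit 177) (nat_lit 5) (nat_lit 206) (nat_lit 285) (nat_lit 289))) (PT.nd (nat_lit 78) (PT.lf (nat_lit 13984) (nat_lit 6) (nat_lit 184) (nat_lit 5) (nat_lit 207) (nat_lit 285) (nat_lit 288)) (PT.lf (nat_lit 14516) (nat_lit 6) (nat_lit 191) (nat_lit 5) (nat_lit 208) (nat_lit 285) (nat_lit 287)))) (PT.nd (nat_lit 156) (PT.nd (nat_lit 78) (PT.lf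 (nat_lit 15048) (nat_lit 6) (nat_lit 198) (nat_lit 5) (nat_lit 209) (nat_lit 285) (nat_lit 286)) (PT.lf (nat_lit 15580) (nat_lit 3) (nat_lit 205) (nat_lit 4) (nat_lit 210) (nat_lit 285) (nat_lit 285))) (PT.nd (nat_lit 78) (PT.lf (nat_lit 16112) (nat_lit 6) (nat_lit 212) (nat_lit 4) (nat_lit 211) (nat_lit 285) (nat_lit 284)) (PT.lf (nat_lit 16568) (nat_lit 6) (nat_lit 218) (nat_lit 4) (nat_lit 212) (nat_lit 285) (nat_lit 283))))) (PT.nd (nat_lit 312) (PT.nd (nat_lit 156) (PT.nd (nat_lit 78) (PT.lf (nat_lit 17100) (nat_lit 6) (nat_lit 225) (nat_lit 4) (nat_lit 213) (nat_lit 285) (nat_lit 282)) (PT.lf (nat_lit 17632) (nat_lit 6) (nat_lit 232) (nat_lit 4) (nat_lit 214) (nat_lit 285) (nat_lit 281))) (PT.nd (nat_lit 78) (PT.lf (nat_lit 18164) (nat_lit 6) (nat_lit 239) (nat_lit 4) (nat_lit 215) (nat_lit 285) (nat_lit 280)) (PT.lf (nat_lit 18696) (nat_lit 6) (nat_lit 246) (nat_lit 4) (nat_lit 216) (nat_lit 285) (nat_lit 279)))) (PT.nd (nat_lit 156) (PT.nd (nat_lit 78) (PT.lf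 (nat_lit 19304) (nat_lit 6) (nat_lit 254) (nat_lit 4) (nat_lit 217) (nat_lit 285) (nat_lit 278)) (PT.lf (nat_lit 19836) (nat_lit 6) (nat_lit 261) (nat_lit 4) (nat_lit 218) (nat_lit 285) (nat_lit 277))) (PT.nd (nat_lit 78) (PT.lf (nat_lit 20444) (nat_lit 6) (nat_lit 269) (nat_lit 4) (nat_lit 219) (nat_lit 285) (nat_lit 276)) (PT.nd (nat_lit 78) (PT.lf (nat_lit 21052) (nat_lit 6) (nat_lit 277) (nat_lit 4) (nat_lit 220) (nat_lit 285) (nat_lit 275)) (PT.lf (nat_lit 21736) (nat_lit 6) (nat_lit 286) (nat_lit 4) (nat_lit 221) (nat_lit 285) (nat_lit 274))))))))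
noncomputable def pc104 : PT := (PT.nd (nat_lit 3120) (PT.nd (nat_lit 624) (PT.nd (nat_lit 312) (PT.nd (nat_lit 156) (PT.nd (nat_lit 78) (PT.lf (nat_lit 22344) (nat_lit 6) (nat_lit 294) (nat_lit 4) (nat_lit 222) (nat_lit 285) (nat_lit 273)) (PT.lf (nat_lit 23028) (nat_lit 6) (nat_lit 303) (nat_lit 4) (nat_lit 223) (nat_lit 285) (nat_lit 272))) (PT.nd (nat_lit 78) (PT.lf (nat_lit 23712) (nat_lit 6) (nat_lit 312) (nat_lit 4) (nat_lit 224) (nat_lit 285) (nat_lit 271)) (PT.lf (nat_lit 24472) (nat_lit 6) (nat_lit 322) (nat_lit 4) (nat_lit 225) (nat_lit 285) (nat_lit 270)))) (PT.nd (nat_lit 156) (PT.nd (nat_lit 78) (PT.lf (nat_lit 25156) (nat_lit 6) (nat_lit 331) (nat_lit 4) (nat_lit 226) (nat_lit 285) (nat_lit 269)) (PT.lf (nat_lit 25916) (nat_lit 6) (nat_lit 341) (nat_lit 4) (nat_lit 227) (nat_lit 285) (nat_lit 268))) (PT.nd (nat_lit 78) (PT.lf (nat_lit 26676) (nat_lit 6) (nat_lit 351) (nat_lit 4) (nat_lit 228) (nat_lit 285) (nat_lit 267)) (PT.lf (nat_lit 27512) (nat_lit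 6) (nat_lit 362) (nat_lit 4) (nat_lit 229) (nat_lit 285) (nat_lit 266))))) (PT.nd (nat_lit 312) (PT.nd (nat_lit 156) (PT.nd (nat_lit 78) (PT.lf (nat_lit 28272) (nat_lit 6) (nat_lit 372) (nat_lit 4) (nat_lit 230) (nat_lit 285) (nat_lit 265)) (PT.lf (nat_lit 29108) (nat_lit 6) (nat_lit 383) (nat_lit 4) (nat_lit 231) (nat_lit 285) (nat_lit 264))) (PT.nd (nat_lit 78) (PT.lf (nat_lit 29944) (nat_lit 6) (nat_lit 394) (nat_lit 4) (nat_lit 232) (nat_lit 285) (nat_lit 263)) (PT.lf (nat_lit 30856) (nat_lit 6) (nat_lit 406) (nat_lit 4) (nat_lit 233) (nat_lit 285) (nat_lit 262)))) (PT.nd (nat_lit 2028) (PT.nd (nat_lit 78) (PT.lf (nat_lit 31768) (nat_lit 6) (nat_lit 418) (nat_lit 4) (nat_lit 234) (nat_lit 285) (nat_lit 261)) (PT.lf (nat_lit 32756) (nat_lit 6) (nat_lit 431) (nat_lit 4) (nat_lit 235) (nat_lit 285) (nat_lit 260))) (PT.nd (nat_lit 78) (PT.lf (nat_lit 32756) (nat_lit 6) (nat_lit 431) (nat_lit 2) (nat_lit 260) (nat_lit 285) (nat_lit 235)) (PT.lf (nat_lit 31768) (nat_lit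 6) (nat_lit 418) (nat_lit 2) (nat_lit 261) (nat_lit 285) (nat_lit 234)))))) (PT.nd (nat_lit 624) (PT.nd (nat_lit 312) (PT.nd (nat_lit 156) (PT.nd (nat_lit 78) (PT.lf (nat_lit 30856) (nat_lit 6) (nat_lit 406) (nat_lit 2) (nat_lit 262) (nat_lit 285) (nat_lit 233)) (PT.lf (nat_lit 29944) (nat_lit 6) (nat_lit 394) (nat_lit 2) (nat_lit 263) (nat_lit 285) (nat_lit 232))) (PT.nd (nat_lit 78) (PT.lf (nat_lit 29108) (nat_lit 6) (nat_lit 383) (nat_lit 2) (nat_lit 264) (nat_lit 285) (nat_lit 231)) (PT.lf (nat_lit 28272) (nat_lit 6) (nat_lit 372) (nat_lit 2) (nat_lit 265) (nat_lit 285) (nat_lit 230)))) (PT.nd (nat_lit 156) (PT.nd (nat_lit 78) (PT.lf (nat_lit 27512) (nat_lit 6) (nat_lit 362) (nat_lit 2) (nat_lit 266) (nat_lit 285) (nat_lit 229)) (PT.lf (nat_lit 26676) (nat_lit 6) (nat_lit 351) (nat_lit 2) (nat_lit 267) (nat_lit 285) (nat_lit 228))) (PT.nd (nat_lit 78) (PT.lf (nat_lit 25916) (nat_lit 6) (nat_lit 341) (nat_lit 2) (nat_lit 268) (nat_lit 285) (nat_lit 227)) (PT.lf (nat_lit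 25156) (nat_lit 6) (nat_lit 331) (nat_lit 2) (nat_lit 269) (nat_lit 285) (nat_lit 226))))) (PT.nd (nat_lit 312) (PT.nd (nat_lit 156) (PT.nd (nat_lit 78) (PT.lf (nat_lit 24472) (nat_lit 6) (nat_lit 322) (nat_lit 2) (nat_lit 270) (nat_lit 285) (nat_lit 225)) (PT.lf (nat_lit 23712) (nat_lit 6) (nat_lit 312) (nat_lit 2) (nat_lit 271) (nat_lit 285) (nat_lit 224))) (PT.nd (nat_lit 78) (PT.lf (nat_lit 23028) (nat_lit 6) (nat_lit 303) (nat_lit 2) (nat_lit 272) (nat_lit 285) (nat_lit 223)) (PT.lf (nat_lit 22344) (nat_lit 6) (nat_lit 294) (nat_lit 2) (nat_lit 273) (nat_lit 285) (nat_lit 222)))) (PT.nd (nat_lit 156) (PT.nd (nat_lit 78) (PT.lf (nat_lit 21736) (nat_lit 6) (nat_lit 286) (nat_lit 2) (nat_lit 274) (nat_lit 285) (nat_lit 221)) (PT.lf (nat_lit 21052) (nat_lit 6) (nat_lit 277) (nat_lit 2) (nat_lit 275) (nat_lit 285) (nat_lit 220))) (PT.nd (nat_lit 78) (PT.lf (nat_lit 20444) (nat_lit 6) (nat_lit 269) (nat_lit 2) (nat_lit 276) (nat_lit 285) (nat_lit 219)) (PT.nd (nat_lit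 78) (PT.lf (nat_lit 19836) (nat_lit 6) (nat_lit 261) (nat_lit 2) (nat_lit 277) (nat_lit 285) (nat_lit 218)) (PT.lf (nat_lit 19304) (nat_lit 6) (nat_lit 254) (nat_lit 2) (nat_lit 278) (nat_lit 285) (nat_lit 217))))))))
noncomputable def pc105 : PT := (PT.nd (nat_lit 74958) (PT.nd (nat_lit 624) (PT.nd (nat_lit 312) (PT.nd (nat_lit 156) (PT.nd (nat_lit 78) (PT.lf (nat_lit 18696) (nat_lit 6) (nat_lit 246) (nat_lit 2) (nat_lit 279) (nat_lit 285) (nat_lit 216)) (PT.lf (nat_lit 18164) (nat_lit 6) (nat_lit 239) (nat_lit 2) (nat_lit 280) (nat_lit 285) (nat_lit 215))) (PT.nd (nat_lit 78) (PT.lf (nat_lit 17632) (nat_lit 6) (nat_lit 232) (nat_lit 2) (nat_lit 281) (nat_lit 285) (nat_lit 214)) (PT.lf (nat_lit 17100) (nat_lit 6) (nat_lit 225) (nat_lit 2) (nat_lit 282) (nat_lit 285) (nat_lit 213)))) (PT.nd (nat_lit 156) (PT.nd (nat_lit 78) (PT.lf (nat_lit 16568) (nat_lit 6) (nat_lit 218) (nat_lit 2) (nat_lit 283) (nat_lit 285) (nat_lit 212)) (PT.lf (nat_lit 16112) (nat_lit 6) (nat_lit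 212) (nat_lit 2) (nat_lit 284) (nat_lit 285) (nat_lit 211))) (PT.nd (nat_lit 78) (PT.lf (nat_lit 15580) (nat_lit 3) (nat_lit 205) (nat_lit 0) (nat_lit 285) (nat_lit 285) (nat_lit 210)) (PT.lf (nat_lit 15048) (nat_lit 6) (nat_lit 198) (nat_lit 0) (nat_lit 286) (nat_lit 285) (nat_lit 209))))) (PT.nd (nat_lit 312) (PT.nd (nat_lit 156) (PT.nd (nat_lit 78) (PT.lf (nat_lit 14516) (nat_lit 6) (nat_lit 191) (nat_lit 0) (nat_lit 287) (nat_lit 285) (nat_lit 208)) (PT.lf (nat_lit 13984) (nat_lit 6) (nat_lit 184) (nat_lit 0) (nat_lit 288) (nat_lit 285) (nat_lit 207))) (PT.nd (nat_lit 78) (PT.lf (nat_lit 13452) (nat_lit 6) (nat_lit 177) (nat_lit 0) (nat_lit 289) (nat_lit 285) (nat_lit 206)) (PT.lf (nat_lit 12996) (nat_lit 6) (nat_lit 171) (nat_lit 0) (nat_lit 290) (nat_lit 285) (nat_lit 205)))) (PT.nd (nat_lit 156) (PT.nd (nat_lit 78) (PT.lf (nat_lit 12464) (nat_lit 6) (nat_lit 164) (nat_lit 0) (nat_lit 291) (nat_lit 285) (nat_lit 204)) (PT.lf (nat_lit 12008) (nat_lit 6) (nat_lit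 158) (nat_lit 0) (nat_lit 292) (nat_lit 285) (nat_lit 203))) (PT.nd (nat_lit 78) (PT.lf (nat_lit 11552) (nat_lit 6) (nat_lit 152) (nat_lit 0) (nat_lit 293) (nat_lit 285) (nat_lit 202)) (PT.lf (nat_lit 11096) (nat_lit 6) (nat_lit 146) (nat_lit 0) (nat_lit 294) (nat_lit 285) (nat_lit 201)))))) (PT.nd (nat_lit 624) (PT.nd (nat_lit 312) (PT.nd (nat_lit 156) (PT.nd (nat_lit 78) (PT.lf (nat_lit 10336) (nat_lit 6) (nat_lit 136) (nat_lit 5) (nat_lit 199) (nat_lit 286) (nat_lit 295)) (PT.lf (nat_lit 10716) (nat_lit 6) (nat_lit 141) (nat_lit 5) (nat_lit 200) (nat_lit 286) (nat_lit 294))) (PT.nd (nat_lit 78) (PT.lf (nat_lit 11172) (nat_lit 6) (nat_lit 147) (nat_lit 5) (nat_lit 201) (nat_lit 286) (nat_lit 293)) (PT.lf (nat_lit 11628) (nat_lit 6) (nat_lit 153) (nat_lit 5) (nat_lit 202) (nat_lit 286) (nat_lit 292)))) (PT.nd (nat_lit 156) (PT.nd (nat_lit 78) (PT.lf (nat_lit 12084) (nat_lit 6) (nat_lit 159) (nat_lit 5) (nat_lit 203) (nat_lit 286) (nat_lit 291)) (PT.lf (nat_lit 12540)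 (nat_lit 6) (nat_lit 165) (nat_lit 5) (nat_lit 204) (nat_lit 286) (nat_lit 290))) (PT.nd (nat_lit 78) (PT.lf (nat_lit 13072) (nat_lit 6) (nat_lit 172) (nat_lit 5) (nat_lit 205) (nat_lit 286) (nat_lit 289)) (PT.lf (nat_lit 13528) (nat_lit 6) (nat_lit 178) (nat_lit 5) (nat_lit 206) (nat_lit 286) (nat_lit 288))))) (PT.nd (nat_lit 312) (PT.nd (nat_lit 156) (PT.nd (nat_lit 78) (PT.lf (nat_lit 14060) (nat_lit 6) (nat_lit 185) (nat_lit 5) (nat_lit 207) (nat_lit 286) (nat_lit 287)) (PT.lf (nat_lit 14592) (nat_lit 3) (nat_lit 192) (nat_lit 4) (nat_lit 208) (nat_lit 286) (nat_lit 286))) (PT.nd (nat_lit 78) (PT.lf (nat_lit 15048) (nat_lit 6) (nat_lit 198) (nat_lit 4) (nat_lit 209) (nat_lit 286) (nat_lit 285)) (PT.lf (nat_lit 15504) (nat_lit 6) (nat_lit 204) (nat_lit 4) (nat_lit 210) (nat_lit 286) (nat_lit 284)))) (PT.nd (nat_lit 156) (PT.nd (nat_lit 78) (PT.lf (nat_lit 16036) (nat_lit 6) (nat_lit 211) (nat_lit 4) (nat_lit 211) (nat_lit 286) (nat_lit 283)) (PT.lf (nat_lit 16492)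 (nat_lit 6) (nat_lit 217) (nat_lit 4) (nat_lit 212) (nat_lit 286) (nat_lit 282))) (PT.nd (nat_lit 78) (PT.lf (nat_lit 17024) (nat_lit 6) (nat_lit 224) (nat_lit 4) (nat_lit 213) (nat_lit 286) (nat_lit 281)) (PT.nd (nat_lit 78) (PT.lf (nat_lit 17556) (nat_lit 6) (nat_lit 231) (nat_lit 4) (nat_lit 214) (nat_lit 286) (nat_lit 280)) (PT.lf (nat_lit 18088) (nat_lit 6) (nat_lit 238) (nat_lit 4) (nat_lit 215) (nat_lit 286) (nat_lit 279))))))))
noncomputable def pc106 : PT := (PT.nd (nat_lit 3978) (PT.nd (nat_lit 624) (PT.nd (nat_lit 312) (PT.nd (nat_lit 156) (PT.nd (nat_lit 78) (PT.lf (nat_lit 18620) (nat_lit 6) (nat_lit 245) (nat_lit 4) (nat_lit 216) (nat_lit 286) (nat_lit 278)) (PT.lf (nat_lit 19228) (nat_lit 6) (nat_lit 253) (nat_lit 4) (nat_lit 217) (nat_lit 286) (nat_lit 277))) (PT.nd (nat_lit 78) (PT.lf (nat_lit 19760) (nat_lit 6) (nat_lit 260) (nat_lit 4) (nat_lit 218) (nat_lit 286) (nat_lit 276)) (PT.lf (nat_lit 20368) (nat_lit 6) (nat_lit 268) (nat_lit 4) (nat_lit 219)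 (nat_lit 286) (nat_lit 275)))) (PT.nd (nat_lit 156) (PT.nd (nat_lit 78) (PT.lf (nat_lit 20976) (nat_lit 6) (nat_lit 276) (nat_lit 4) (nat_lit 220) (nat_lit 286) (nat_lit 274)) (PT.lf (nat_lit 21660) (nat_lit 6) (nat_lit 285) (nat_lit 4) (nat_lit 221) (nat_lit 286) (nat_lit 273))) (PT.nd (nat_lit 78) (PT.lf (nat_lit 22268) (nat_lit 6) (nat_lit 293) (nat_lit 4) (nat_lit 222) (nat_lit 286) (nat_lit 272)) (PT.lf (nat_lit 22952) (nat_lit 6) (nat_lit 302) (nat_lit 4) (nat_lit 223) (nat_lit 286) (nat_lit 271))))) (PT.nd (nat_lit 312) (PT.nd (nat_lit 156) (PT.nd (nat_lit 78) (PT.lf (nat_lit 23636) (nat_lit 6) (nat_lit 311) (nat_lit 4) (nat_lit 224) (nat_lit 286) (nat_lit 270)) (PT.lf (nat_lit 24396) (nat_lit 6) (nat_lit 321) (nat_lit 4) (nat_lit 225) (nat_lit 286) (nat_lit 269))) (PT.nd (nat_lit 78) (PT.lf (nat_lit 25080) (nat_lit 6) (nat_lit 330) (nat_lit 4) (nat_lit 226) (nat_lit 286) (nat_lit 268)) (PT.lf (nat_lit 25840) (nat_lit 6) (nat_lit 340) (nat_lit 4) (nat_lit 227)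 (nat_lit 286) (nat_lit 267)))) (PT.nd (nat_lit 2886) (PT.nd (nat_lit 78) (PT.lf (nat_lit 26600) (nat_lit 6) (nat_lit 350) (nat_lit 4) (nat_lit 228) (nat_lit 286) (nat_lit 266)) (PT.lf (nat_lit 27436) (nat_lit 6) (nat_lit 361) (nat_lit 4) (nat_lit 229) (nat_lit 286) (nat_lit 265))) (PT.nd (nat_lit 78) (PT.lf (nat_lit 27436) (nat_lit 6) (nat_lit 361) (nat_lit 2) (nat_lit 265) (nat_lit 286) (nat_lit 229)) (PT.lf (nat_lit 26600) (nat_lit 6) (nat_lit 350) (nat_lit 2) (nat_lit 266) (nat_lit 286) (nat_lit 228)))))) (PT.nd (nat_lit 624) (PT.nd (nat_lit 312) (PT.nd (nat_lit 156) (PT.nd (nat_lit 78) (PT.lf (nat_lit 25840) (nat_lit 6) (nat_lit 340) (nat_lit 2) (nat_lit 267) (nat_lit 286) (nat_lit 227)) (PT.lf (nat_lit 25080) (nat_lit 6) (nat_lit 330) (nat_lit 2) (nat_lit 268) (nat_lit 286) (nat_lit 226))) (PT.nd (nat_lit 78) (PT.lf (nat_lit 24396) (nat_lit 6) (nat_lit 321) (nat_lit 2) (nat_lit 269) (nat_lit 286) (nat_lit 225)) (PT.lf (nat_lit 23636) (nat_lit 6) (nat_lit 311) (nat_lit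 2) (nat_lit 270) (nat_lit 286) (nat_lit 224)))) (PT.nd (nat_lit 156) (PT.nd (nat_lit 78) (PT.lf (nat_lit 22952) (nat_lit 6) (nat_lit 302) (nat_lit 2) (nat_lit 271) (nat_lit 286) (nat_lit 223)) (PT.lf (nat_lit 22268) (nat_lit 6) (nat_lit 293) (nat_lit 2) (nat_lit 272) (nat_lit 286) (nat_lit 222))) (PT.nd (nat_lit 78) (PT.lf (nat_lit 21660) (nat_lit 6) (nat_lit 285) (nat_lit 2) (nat_lit 273) (nat_lit 286) (nat_lit 221)) (PT.lf (nat_lit 20976) (nat_lit 6) (nat_lit 276) (nat_lit 2) (nat_lit 274) (nat_lit 286) (nat_lit 220))))) (PT.nd (nat_lit 312) (PT.nd (nat_lit 156) (PT.nd (nat_lit 78) (PT.lf (nat_lit 20368) (nat_lit 6) (nat_lit 268) (nat_lit 2) (nat_lit 275) (nat_lit 286) (nat_lit 219)) (PT.lf (nat_lit 19760) (nat_lit 6) (nat_lit 260) (nat_lit 2) (nat_lit 276) (nat_lit 286) (nat_lit 218))) (PT.nd (nat_lit 78) (PT.lf (nat_lit 19228) (nat_lit 6) (nat_lit 253) (nat_lit 2) (nat_lit 277) (nat_lit 286) (nat_lit 217)) (PT.lf (nat_lit 18620) (nat_lit 6) (nat_lit 245) (nat_lit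 2) (nat_lit 278) (nat_lit 286) (nat_lit 216)))) (PT.nd (nat_lit 156) (PT.nd (nat_lit 78) (PT.lf (nat_lit 18088) (nat_lit 6) (nat_lit 238) (nat_lit 2) (nat_lit 279) (nat_lit 286) (nat_lit 215)) (PT.lf (nat_lit 17556) (nat_lit 6) (nat_lit 231) (nat_lit 2) (nat_lit 280) (nat_lit 286) (nat_lit 214))) (PT.nd (nat_lit 78) (PT.lf (nat_lit 17024) (nat_lit 6) (nat_lit 224) (nat_lit 2) (nat_lit 281) (nat_lit 286) (nat_lit 213)) (PT.nd (nat_lit 78) (PT.lf (nat_lit 16492) (nat_lit 6) (nat_lit 217) (nat_lit 2) (nat_lit 282) (nat_lit 286) (nat_lit 212)) (PT.lf (nat_lit 16036) (nat_lit 6) (nat_lit 211) (nat_lit 2) (nat_lit 283) (nat_lit 286) (nat_lit 211))))))))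
noncomputable def pc107 : PT := (PT.nd (nat_lit 74880) (PT.nd (nat_lit 624) (PT.nd (nat_lit 312) (PT.nd (nat_lit 156) (PT.nd (nat_lit 78) (PT.lf (nat_lit 15504) (nat_lit 6) (nat_lit 204) (nat_lit 2) (nat_lit 284) (nat_lit 286) (nat_lit 210)) (PT.lf (nat_lit 15048) (nat_lit 6) (nat_lit 198) (nat_lit 2) (nat_lit 285) (nat_lit 286) (nat_lit 209))) (PT.nd (nat_lit 78) (PT.lf (nat_lit 14592) (nat_lit 3) (nat_lit 192) (nat_lit 0) (nat_lit 286) (nat_lit 286) (nat_lit 208)) (PT.lf (nat_lit 14060) (nat_lit 6) (nat_lit 185) (nat_lit 0) (nat_lit 287) (nat_lit 286) (nat_lit 207)))) (PT.nd (nat_lit 156) (PT.nd (nat_lit 78) (PT.lf (nat_lit 13528) (nat_lit 6) (nat_lit 178) (nat_lit 0) (nat_lit 288) (nat_lit 286) (nat_lit 206)) (PT.lf (nat_lit 13072) (nat_lit 6) (nat_lit 172) (nat_lit 0) (nat_lit 289) (nat_lit 286) (nat_lit 205))) (PT.nd (nat_lit 78) (PT.lf (nat_lit 12540) (nat_lit 6) (nat_lit 165) (nat_lit 0) (nat_lit 290) (nat_lit 286) (nat_lit 204)) (PT.lf (nat_lit 12084) (nat_lit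 6) (nat_lit 159) (nat_lit 0) (nat_lit 291) (nat_lit 286) (nat_lit 203))))) (PT.nd (nat_lit 73866) (PT.nd (nat_lit 156) (PT.nd (nat_lit 78) (PT.lf (nat_lit 11628) (nat_lit 6) (nat_lit 153) (nat_lit 0) (nat_lit 292) (nat_lit 286) (nat_lit 202)) (PT.lf (nat_lit 11172) (nat_lit 6) (nat_lit 147) (nat_lit 0) (nat_lit 293) (nat_lit 286) (nat_lit 201))) (PT.nd (nat_lit 78) (PT.lf (nat_lit 10716) (nat_lit 6) (nat_lit 141) (nat_lit 0) (nat_lit 294) (nat_lit 286) (nat_lit 200)) (PT.lf (nat_lit 10336) (nat_lit 6) (nat_lit 136) (nat_lit 0) (nat_lit 295) (nat_lit 286) (nat_lit 199)))) (PT.nd (nat_lit 156) (PT.nd (nat_lit 78) (PT.lf (nat_lit 9956) (nat_lit 6) (nat_lit 131) (nat_lit 5) (nat_lit 198) (nat_lit 287) (nat_lit 295)) (PT.lf (nat_lit 10412) (nat_lit 6) (nat_lit 137) (nat_lit 5) (nat_lit 199) (nat_lit 287) (nat_lit 294))) (PT.nd (nat_lit 78) (PT.lf (nat_lit 10792) (nat_lit 6) (nat_lit 142) (nat_lit 5) (nat_lit 200) (nat_lit 287) (nat_lit 293)) (PT.nd (nat_lit 78) (PT.lf (nat_lit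 11248) (nat_lit 6) (nat_lit 148) (nat_lit 5) (nat_lit 201) (nat_lit 287) (nat_lit 292)) (PT.lf (nat_lit 11704) (nat_lit 6) (nat_lit 154) (nat_lit 5) (nat_lit 202) (nat_lit 287) (nat_lit 291))))))) (PT.nd (nat_lit 624) (PT.nd (nat_lit 312) (PT.nd (nat_lit 156) (PT.nd (nat_lit 78) (PT.lf (nat_lit 12160) (nat_lit 6) (nat_lit 160) (nat_lit 5) (nat_lit 203) (nat_lit 287) (nat_lit 290)) (PT.lf (nat_lit 12616) (nat_lit 6) (nat_lit 166) (nat_lit 5) (nat_lit 204) (nat_lit 287) (nat_lit 289))) (PT.nd (nat_lit 78) (PT.lf (nat_lit 13148) (nat_lit 6) (nat_lit 173) (nat_lit 5) (nat_lit 205) (nat_lit 287) (nat_lit 288)) (PT.lf (nat_lit 13604) (nat_lit 3) (nat_lit 179) (nat_lit 4) (nat_lit 206) (nat_lit 287) (nat_lit 287)))) (PT.nd (nat_lit 156) (PT.nd (nat_lit 78) (PT.lf (nat_lit 14060) (nat_lit 6) (nat_lit 185) (nat_lit 4) (nat_lit 207) (nat_lit 287) (nat_lit 286)) (PT.lf (nat_lit 14516) (nat_lit 6) (nat_lit 191) (nat_lit 4) (nat_lit 208) (nat_lit 287) (nat_lit 285))) (PT.nd (nat_lit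 78) (PT.lf (nat_lit 14972) (nat_lit 6) (nat_lit 197) (nat_lit 4) (nat_lit 209) (nat_lit 287) (nat_lit 284)) (PT.lf (nat_lit 15428) (nat_lit 6) (nat_lit 203) (nat_lit 4) (nat_lit 210) (nat_lit 287) (nat_lit 283))))) (PT.nd (nat_lit 312) (PT.nd (nat_lit 156) (PT.nd (nat_lit 78) (PT.lf (nat_lit 15960) (nat_lit 6) (nat_lit 210) (nat_lit 4) (nat_lit 211) (nat_lit 287) (nat_lit 282)) (PT.lf (nat_lit 16416) (nat_lit 6) (nat_lit 216) (nat_lit 4) (nat_lit 212) (nat_lit 287) (nat_lit 281))) (PT.nd (nat_lit 78) (PT.lf (nat_lit 16948) (nat_lit 6) (nat_lit 223) (nat_lit 4) (nat_lit 213) (nat_lit 287) (nat_lit 280)) (PT.lf (nat_lit 17480) (nat_lit 6) (nat_lit 230) (nat_lit 4) (nat_lit 214) (nat_lit 287) (nat_lit 279)))) (PT.nd (nat_lit 156) (PT.nd (nat_lit 78) (PT.lf (nat_lit 18012) (nat_lit 6) (nat_lit 237) (nat_lit 4) (nat_lit 215) (nat_lit 287) (nat_lit 278)) (PT.lf (nat_lit 18544) (nat_lit 6) (nat_lit 244) (nat_lit 4) (nat_lit 216) (nat_lit 287) (nat_lit 277))) (PT.nd (nat_lit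 78) (PT.lf (nat_lit 19152) (nat_lit 6) (nat_lit 252) (nat_lit 4) (nat_lit 217) (nat_lit 287) (nat_lit 276)) (PT.nd (nat_lit 78) (PT.lf (nat_lit 19684) (nat_lit 6) (nat_lit 259) (nat_lit 4) (nat_lit 218) (nat_lit 287) (nat_lit 275)) (PT.lf (nat_lit 20292) (nat_lit 6) (nat_lit 267) (nat_lit 4) (nat_lit 219) (nat_lit 287) (nat_lit 274))))))))
noncomputable def pc108 : PT := (PT.nd (nat_lit 4524) (PT.nd (nat_lit 3900) (PT.nd (nat_lit 312) (PT.nd (nat_lit 156) (PT.nd (nat_lit 78) (PT.lf (nat_lit 20900) (nat_lit 6) (nat_lit 275) (nat_lit 4) (nat_lit 220) (nat_lit 287) (nat_lit 273)) (PT.lf (nat_lit 21584) (nat_lit 6) (nat_lit 284) (nat_lit 4) (nat_lit 221) (nat_lit 287) (nat_lit 272))) (PT.nd (nat_lit 78) (PT.lf (nat_lit 22192) (nat_lit 6) (nat_lit 292) (nat_lit 4) (nat_lit 222) (nat_lit 287) (nat_lit 271)) (PT.lf (nat_lit 22876) (nat_lit 6) (nat_lit 301) (nat_lit 4) (nat_lit 223) (nat_lit 287) (nat_lit 270)))) (PT.nd (nat_lit 3432) (PT.nd (nat_lit 78) (PT.lf (nat_lit 23560)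 (nat_lit 6) (nat_lit 310) (nat_lit 4) (nat_lit 224) (nat_lit 287) (nat_lit 269)) (PT.lf (nat_lit 24320) (nat_lit 6) (nat_lit 320) (nat_lit 4) (nat_lit 225) (nat_lit 287) (nat_lit 268))) (PT.nd (nat_lit 78) (PT.lf (nat_lit 24320) (nat_lit 6) (nat_lit 320) (nat_lit 2) (nat_lit 268) (nat_lit 287) (nat_lit 225)) (PT.lf (nat_lit 23560) (nat_lit 6) (nat_lit 310) (nat_lit 2) (nat_lit 269) (nat_lit 287) (nat_lit 224))))) (PT.nd (nat_lit 312) (PT.nd (nat_lit 156) (PT.nd (nat_lit 78) (PT.lf (nat_lit 22876) (nat_lit 6) (nat_lit 301) (nat_lit 2) (nat_lit 270) (nat_lit 287) (nat_lit 223)) (PT.lf (nat_lit 22192) (nat_lit 6) (nat_lit 292) (nat_lit 2) (nat_lit 271) (nat_lit 287) (nat_lit 222))) (PT.nd (nat_lit 78) (PT.lf (nat_lit 21584) (nat_lit 6) (nat_lit 284) (nat_lit 2) (nat_lit 272) (nat_lit 287) (nat_lit 221)) (PT.lf (nat_lit 20900) (nat_lit 6) (nat_lit 275) (nat_lit 2) (nat_lit 273) (nat_lit 287) (nat_lit 220)))) (PT.nd (nat_lit 156) (PT.nd (nat_lit 78) (PT.lf (nat_lit 20292)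 (nat_lit 6) (nat_lit 267) (nat_lit 2) (nat_lit 274) (nat_lit 287) (nat_lit 219)) (PT.lf (nat_lit 19684) (nat_lit 6) (nat_lit 259) (nat_lit 2) (nat_lit 275) (nat_lit 287) (nat_lit 218))) (PT.nd (nat_lit 78) (PT.lf (nat_lit 19152) (nat_lit 6) (nat_lit 252) (nat_lit 2) (nat_lit 276) (nat_lit 287) (nat_lit 217)) (PT.lf (nat_lit 18544) (nat_lit 6) (nat_lit 244) (nat_lit 2) (nat_lit 277) (nat_lit 287) (nat_lit 216)))))) (PT.nd (nat_lit 624) (PT.nd (nat_lit 312) (PT.nd (nat_lit 156) (PT.nd (nat_lit 78) (PT.lf (nat_lit 18012) (nat_lit 6) (nat_lit 237) (nat_lit 2) (nat_lit 278) (nat_lit 287) (nat_lit 215)) (PT.lf (nat_lit 17480) (nat_lit 6) (nat_lit 230) (nat_lit 2) (nat_lit 279) (nat_lit 287) (nat_lit 214))) (PT.nd (nat_lit 78) (PT.lf (nat_lit 16948) (nat_lit 6) (nat_lit 223) (nat_lit 2) (nat_lit 280) (nat_lit 287) (nat_lit 213)) (PT.lf (nat_lit 16416) (nat_lit 6) (nat_lit 216) (nat_lit 2) (nat_lit 281) (nat_lit 287) (nat_lit 212)))) (PT.nd (nat_lit 156) (PT.nd (nat_lit 78) (PT.lf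 (nat_lit 15960) (nat_lit 6) (nat_lit 210) (nat_lit 2) (nat_lit 282) (nat_lit 287) (nat_lit 211)) (PT.lf (nat_lit 15428) (nat_lit 6) (nat_lit 203) (nat_lit 2) (nat_lit 283) (nat_lit 287) (nat_lit 210))) (PT.nd (nat_lit 78) (PT.lf (nat_lit 14972) (nat_lit 6) (nat_lit 197) (nat_lit 2) (nat_lit 284) (nat_lit 287) (nat_lit 209)) (PT.lf (nat_lit 14516) (nat_lit 6) (nat_lit 191) (nat_lit 2) (nat_lit 285) (nat_lit 287) (nat_lit 208))))) (PT.nd (nat_lit 312) (PT.nd (nat_lit 156) (PT.nd (nat_lit 78) (PT.lf (nat_lit 14060) (nat_lit 6) (nat_lit 185) (nat_lit 2) (nat_lit 286) (nat_lit 287) (nat_lit 207)) (PT.lf (nat_lit 13604) (nat_lit 3) (nat_lit 179) (nat_lit 0) (nat_lit 287) (nat_lit 287) (nat_lit 206))) (PT.nd (nat_lit 78) (PT.lf (nat_lit 13148) (nat_lit 6) (nat_lit 173) (nat_lit 0) (nat_lit 288) (nat_lit 287) (nat_lit 205)) (PT.lf (nat_lit 12616) (nat_lit 6) (nat_lit 166) (nat_lit 0) (nat_lit 289) (nat_lit 287) (nat_lit 204)))) (PT.nd (nat_lit 156) (PT.nd (nat_lit 78) (PT.lf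 (nat_lit 12160) (nat_lit 6) (nat_lit 160) (nat_lit 0) (nat_lit 290) (nat_lit 287) (nat_lit 203)) (PT.lf (nat_lit 11704) (nat_lit 6) (nat_lit 154) (nat_lit 0) (nat_lit 291) (nat_lit 287) (nat_lit 202))) (PT.nd (nat_lit 78) (PT.lf (nat_lit 11248) (nat_lit 6) (nat_lit 148) (nat_lit 0) (nat_lit 292) (nat_lit 287) (nat_lit 201)) (PT.nd (nat_lit 78) (PT.lf (nat_lit 10792) (nat_lit 6) (nat_lit 142) (nat_lit 0) (nat_lit 293) (nat_lit 287) (nat_lit 200)) (PT.lf (nat_lit 10412) (nat_lit 6) (nat_lit 137) (nat_lit 0) (nat_lit 294) (nat_lit 287) (nat_lit 199))))))))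
noncomputable def pc109 : PT := (PT.nd (nat_lit 74646) (PT.nd (nat_lit 74022) (PT.nd (nat_lit 73710) (PT.nd (nat_lit 73554) (PT.nd (nat_lit 73476) (PT.lf (nat_lit 9956) (nat_lit 6) (nat_lit 131) (nat_lit 0) (nat_lit 295) (nat_lit 287) (nat_lit 198)) (PT.lf (nat_lit 9272) (nat_lit 6) (nat_lit 122) (nat_lit 5) (nat_lit 196) (nat_lit 288) (nat_lit 296))) (PT.nd (nat_lit 78) (PT.lf (nat_lit 9652) (nat_lit 6) (nat_lit 127) (nat_lit 5) (nat_lit 197) (nat_lit 288) (nat_lit 295)) (PT.lf (nat_lit 10032) (nat_lit 6) (nat_lit 132) (nat_lit 5) (nat_lit 198) (nat_lit 288) (nat_lit 294)))) (PT.nd (nat_lit 156) (PT.nd (nat_lit 78) (PT.lf (nat_lit 10488) (nat_lit 6) (nat_lit 138) (nat_lit 5) (nat_lit 199) (nat_lit 288) (nat_lit 293)) (PT.lf (nat_lit 10868) (nat_lit 6) (nat_lit 143) (nat_lit 5) (nat_lit 200) (nat_lit 288) (nat_lit 292))) (PT.nd (nat_lit 78) (PT.lf (nat_lit 11324) (nat_lit 6) (nat_lit 149) (nat_lit 5) (nat_lit 201) (nat_lit 288) (nat_lit 291)) (PT.lf (nat_lit 11780) (nat_lit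 6) (nat_lit 155) (nat_lit 5) (nat_lit 202) (nat_lit 288) (nat_lit 290))))) (PT.nd (nat_lit 312) (PT.nd (nat_lit 156) (PT.nd (nat_lit 78) (PT.lf (nat_lit 12236) (nat_lit 6) (nat_lit 161) (nat_lit 5) (nat_lit 203) (nat_lit 288) (nat_lit 289)) (PT.lf (nat_lit 12692) (nat_lit 3) (nat_lit 167) (nat_lit 4) (nat_lit 204) (nat_lit 288) (nat_lit 288))) (PT.nd (nat_lit 78) (PT.lf (nat_lit 13148) (nat_lit 6) (nat_lit 173) (nat_lit 4) (nat_lit 205) (nat_lit 288) (nat_lit 287)) (PT.lf (nat_lit 13528) (nat_lit 6) (nat_lit 178) (nat_lit 4) (nat_lit 206) (nat_lit 288) (nat_lit 286)))) (PT.nd (nat_lit 156) (PT.nd (nat_lit 78) (PT.lf (nat_lit 13984) (nat_lit 6) (nat_lit 184) (nat_lit 4) (nat_lit 207) (nat_lit 288) (nat_lit 285)) (PT.lf (nat_lit 14440) (nat_lit 6) (nat_lit 190) (nat_lit 4) (nat_lit 208) (nat_lit 288) (nat_lit 284))) (PT.nd (nat_lit 78) (PT.lf (nat_lit 14896) (nat_lit 6) (nat_lit 196) (nat_lit 4) (nat_lit 209) (nat_lit 288) (nat_lit 283)) (PT.lf (nat_lit 15352) (nat_lit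 6) (nat_lit 202) (nat_lit 4) (nat_lit 210) (nat_lit 288) (nat_lit 282)))))) (PT.nd (nat_lit 624) (PT.nd (nat_lit 312) (PT.nd (nat_lit 156) (PT.nd (nat_lit 78) (PT.lf (nat_lit 15884) (nat_lit 6) (nat_lit 209) (nat_lit 4) (nat_lit 211) (nat_lit 288) (nat_lit 281)) (PT.lf (nat_lit 16340) (nat_lit 6) (nat_lit 215) (nat_lit 4) (nat_lit 212) (nat_lit 288) (nat_lit 280))) (PT.nd (nat_lit 78) (PT.lf (nat_lit 16872) (nat_lit 6) (nat_lit 222) (nat_lit 4) (nat_lit 213) (nat_lit 288) (nat_lit 279)) (PT.lf (nat_lit 17404) (nat_lit 6) (nat_lit 229) (nat_lit 4) (nat_lit 214) (nat_lit 288) (nat_lit 278)))) (PT.nd (nat_lit 156) (PT.nd (nat_lit 78) (PT.lf (nat_lit 17936) (nat_lit 6) (nat_lit 236) (nat_lit 4) (nat_lit 215) (nat_lit 288) (nat_lit 277)) (PT.lf (nat_lit 18468) (nat_lit 6) (nat_lit 243) (nat_lit 4) (nat_lit 216) (nat_lit 288) (nat_lit 276))) (PT.nd (nat_lit 78) (PT.lf (nat_lit 19076) (nat_lit 6) (nat_lit 251) (nat_lit 4) (nat_lit 217) (nat_lit 288) (nat_lit 275)) (PT.lf (nat_lit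 19608) (nat_lit 6) (nat_lit 258) (nat_lit 4) (nat_lit 218) (nat_lit 288) (nat_lit 274))))) (PT.nd (nat_lit 4134) (PT.nd (nat_lit 156) (PT.nd (nat_lit 78) (PT.lf (nat_lit 20216) (nat_lit 6) (nat_lit 266) (nat_lit 4) (nat_lit 219) (nat_lit 288) (nat_lit 273)) (PT.lf (nat_lit 20824) (nat_lit 6) (nat_lit 274) (nat_lit 4) (nat_lit 220) (nat_lit 288) (nat_lit 272))) (PT.nd (nat_lit 3900) (PT.lf (nat_lit 21508) (nat_lit 6) (nat_lit 283) (nat_lit 4) (nat_lit 221) (nat_lit 288) (nat_lit 271)) (PT.lf (nat_lit 21508) (nat_lit 6) (nat_lit 283) (nat_lit 2) (nat_lit 271) (nat_lit 288) (nat_lit 221)))) (PT.nd (nat_lit 156) (PT.nd (nat_lit 78) (PT.lf (nat_lit 20824) (nat_lit 6) (nat_lit 274) (nat_lit 2) (nat_lit 272) (nat_lit 288) (nat_lit 220)) (PT.lf (nat_lit 20216) (nat_lit 6) (nat_lit 266) (nat_lit 2) (nat_lit 273) (nat_lit 288) (nat_lit 219))) (PT.nd (nat_lit 78) (PT.lf (nat_lit 19608) (nat_lit 6) (nat_lit 258) (nat_lit 2) (nat_lit 274) (nat_lit 288) (nat_lit 218)) (PT.nd (nat_lit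 78) (PT.lf (nat_lit 19076) (nat_lit 6) (nat_lit 251) (nat_lit 2) (nat_lit 275) (nat_lit 288) (nat_lit 217)) (PT.lf (nat_lit 18468) (nat_lit 6) (nat_lit 243) (nat_lit 2) (nat_lit 276) (nat_lit 288) (nat_lit 216))))))))
noncomputable def pc110 : PT := (PT.nd (nat_lit 1248) (PT.nd (nat_lit 624) (PT.nd (nat_lit 312) (PT.nd (nat_lit 156) (PT.nd (nat_lit 78) (PT.lf (nat_lit 17936) (nat_lit 6) (nat_lit 236) (nat_lit 2) (nat_lit 277) (nat_lit 288) (nat_lit 215)) (PT.lf (nat_lit 17404) (nat_lit 6) (nat_lit 229) (nat_lit 2) (nat_lit 278) (nat_lit 288) (nat_lit 214))) (PT.nd (nat_lit 78) (PT.lf (nat_lit 16872) (nat_lit 6) (nat_lit 222) (nat_lit 2) (nat_lit 279) (nat_lit 288) (nat_lit 213)) (PT.lf (nat_lit 16340) (nat_lit 6) (nat_lit 215) (nat_lit 2) (nat_lit 280) (nat_lit 288) (nat_lit 212)))) (PT.nd (nat_lit 156) (PT.nd (nat_lit 78) (PT.lf (nat_lit 15884) (nat_lit 6) (nat_lit 209) (nat_lit 2) (nat_lit 281) (nat_lit 288) (nat_lit 211)) (PT.lf (nat_lit 15352) (nat_lit 6) (nat_lit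 202) (nat_lit 2) (nat_lit 282) (nat_lit 288) (nat_lit 210))) (PT.nd (nat_lit 78) (PT.lf (nat_lit 14896) (nat_lit 6) (nat_lit 196) (nat_lit 2) (nat_lit 283) (nat_lit 288) (nat_lit 209)) (PT.lf (nat_lit 14440) (nat_lit 6) (nat_lit 190) (nat_lit 2) (nat_lit 284) (nat_lit 288) (nat_lit 208))))) (PT.nd (nat_lit 312) (PT.nd (nat_lit 156) (PT.nd (nat_lit 78) (PT.lf (nat_lit 13984) (nat_lit 6) (nat_lit 184) (nat_lit 2) (nat_lit 285) (nat_lit 288) (nat_lit 207)) (PT.lf (nat_lit 13528) (nat_lit 6) (nat_lit 178) (nat_lit 2) (nat_lit 286) (nat_lit 288) (nat_lit 206))) (PT.nd (nat_lit 78) (PT.lf (nat_lit 13148) (nat_lit 6) (nat_lit 173) (nat_lit 2) (nat_lit 287) (nat_lit 288) (nat_lit 205)) (PT.lf (nat_lit 12692) (nat_lit 3) (nat_lit 167) (nat_lit 0) (nat_lit 288) (nat_lit 288) (nat_lit 204)))) (PT.nd (nat_lit 156) (PT.nd (nat_lit 78) (PT.lf (nat_lit 12236) (nat_lit 6) (nat_lit 161) (nat_lit 0) (nat_lit 289) (nat_lit 288) (nat_lit 203)) (PT.lf (nat_lit 11780) (nat_lit 6) (nat_lit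 155) (nat_lit 0) (nat_lit 290) (nat_lit 288) (nat_lit 202))) (PT.nd (nat_lit 78) (PT.lf (nat_lit 11324) (nat_lit 6) (nat_lit 149) (nat_lit 0) (nat_lit 291) (nat_lit 288) (nat_lit 201)) (PT.lf (nat_lit 10868) (nat_lit 6) (nat_lit 143) (nat_lit 0) (nat_lit 292) (nat_lit 288) (nat_lit 200)))))) (PT.nd (nat_lit 73788) (PT.nd (nat_lit 73476) (PT.nd (nat_lit 156) (PT.nd (nat_lit 78) (PT.lf (nat_lit 10488) (nat_lit 6) (nat_lit 138) (nat_lit 0) (nat_lit 293) (nat_lit 288) (nat_lit 199)) (PT.lf (nat_lit 10032) (nat_lit 6) (nat_lit 132) (nat_lit 0) (nat_lit 294) (nat_lit 288) (nat_lit 198))) (PT.nd (nat_lit 78) (PT.lf (nat_lit 9652) (nat_lit 6) (nat_lit 127) (nat_lit 0) (nat_lit 295) (nat_lit 288) (nat_lit 197)) (PT.lf (nat_lit 9272) (nat_lit 6) (nat_lit 122) (nat_lit 0) (nat_lit 296) (nat_lit 288) (nat_lit 196)))) (PT.nd (nat_lit 156) (PT.nd (nat_lit 78) (PT.lf (nat_lit 8588) (nat_lit 6) (nat_lit 113) (nat_lit 5) (nat_lit 194) (nat_lit 289) (nat_lit 297)) (PT.lf (nat_lit 8968)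 (nat_lit 6) (nat_lit 118) (nat_lit 5) (nat_lit 195) (nat_lit 289) (nat_lit 296))) (PT.nd (nat_lit 78) (PT.lf (nat_lit 9348) (nat_lit 6) (nat_lit 123) (nat_lit 5) (nat_lit 196) (nat_lit 289) (nat_lit 295)) (PT.lf (nat_lit 9728) (nat_lit 6) (nat_lit 128) (nat_lit 5) (nat_lit 197) (nat_lit 289) (nat_lit 294))))) (PT.nd (nat_lit 312) (PT.nd (nat_lit 156) (PT.nd (nat_lit 78) (PT.lf (nat_lit 10108) (nat_lit 6) (nat_lit 133) (nat_lit 5) (nat_lit 198) (nat_lit 289) (nat_lit 293)) (PT.lf (nat_lit 10564) (nat_lit 6) (nat_lit 139) (nat_lit 5) (nat_lit 199) (nat_lit 289) (nat_lit 292))) (PT.nd (nat_lit 78) (PT.lf (nat_lit 10944) (nat_lit 6) (nat_lit 144) (nat_lit 5) (nat_lit 200) (nat_lit 289) (nat_lit 291)) (PT.lf (nat_lit 11400) (nat_lit 6) (nat_lit 150) (nat_lit 5) (nat_lit 201) (nat_lit 289) (nat_lit 290)))) (PT.nd (nat_lit 156) (PT.nd (nat_lit 78) (PT.lf (nat_lit 11856) (nat_lit 3) (nat_lit 156) (nat_lit 4) (nat_lit 202) (nat_lit 289) (nat_lit 289)) (PT.lf (nat_lit 12236) (nat_lit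 6) (nat_lit 161) (nat_lit 4) (nat_lit 203) (nat_lit 289) (nat_lit 288))) (PT.nd (nat_lit 78) (PT.lf (nat_lit 12616) (nat_lit 6) (nat_lit 166) (nat_lit 4) (nat_lit 204) (nat_lit 289) (nat_lit 287)) (PT.nd (nat_lit 78) (PT.lf (nat_lit 13072) (nat_lit 6) (nat_lit 172) (nat_lit 4) (nat_lit 205) (nat_lit 289) (nat_lit 286)) (PT.lf (nat_lit 13452) (nat_lit 6) (nat_lit 177) (nat_lit 4) (nat_lit 206) (nat_lit 289) (nat_lit 285))))))))
noncomputable def pc111 : PT := (PT.nd (nat_lit 5694) (PT.nd (nat_lit 624) (PT.nd (nat_lit 312) (PT.nd (nat_lit 156) (PT.nd (nat_lit 78) (PT.lf (nat_lit 13908) (nat_lit 6) (nat_lit 183) (nat_lit 4) (nat_lit 207) (nat_lit 289) (nat_lit 284)) (PT.lf (nat_lit 14364) (nat_lit 6) (nat_lit 189) (nat_lit 4) (nat_lit 208) (nat_lit 289) (nat_lit 283))) (PT.nd (nat_lit 78) (PT.lf (nat_lit 14820) (nat_lit 6) (nat_lit 195) (nat_lit 4) (nat_lit 209) (nat_lit 289) (nat_lit 282)) (PT.lf (nat_lit 15276) (nat_lit 6) (nat_lit 201) (nat_lit 4) (nat_lit 210) (nat_lit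 289) (nat_lit 281)))) (PT.nd (nat_lit 156) (PT.nd (nat_lit 78) (PT.lf (nat_lit 15808) (nat_lit 6) (nat_lit 208) (nat_lit 4) (nat_lit 211) (nat_lit 289) (nat_lit 280)) (PT.lf (nat_lit 16264) (nat_lit 6) (nat_lit 214) (nat_lit 4) (nat_lit 212) (nat_lit 289) (nat_lit 279))) (PT.nd (nat_lit 78) (PT.lf (nat_lit 16796) (nat_lit 6) (nat_lit 221) (nat_lit 4) (nat_lit 213) (nat_lit 289) (nat_lit 278)) (PT.lf (nat_lit 17328) (nat_lit 6) (nat_lit 228) (nat_lit 4) (nat_lit 214) (nat_lit 289) (nat_lit 277))))) (PT.nd (nat_lit 4680) (PT.nd (nat_lit 156) (PT.nd (nat_lit 78) (PT.lf (nat_lit 17860) (nat_lit 6) (nat_lit 235) (nat_lit 4) (nat_lit 215) (nat_lit 289) (nat_lit 276)) (PT.lf (nat_lit 18392) (nat_lit 6) (nat_lit 242) (nat_lit 4) (nat_lit 216) (nat_lit 289) (nat_lit 275))) (PT.nd (nat_lit 4446) (PT.lf (nat_lit 19000) (nat_lit 6) (nat_lit 250) (nat_lit 4) (nat_lit 217) (nat_lit 289) (nat_lit 274)) (PT.lf (nat_lit 19000) (nat_lit 6) (nat_lit 250) (nat_lit 2) (nat_lit 274) (nat_lit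 289) (nat_lit 217)))) (PT.nd (nat_lit 156) (PT.nd (nat_lit 78) (PT.lf (nat_lit 18392) (nat_lit 6) (nat_lit 242) (nat_lit 2) (nat_lit 275) (nat_lit 289) (nat_lit 216)) (PT.lf (nat_lit 17860) (nat_lit 6) (nat_lit 235) (nat_lit 2) (nat_lit 276) (nat_lit 289) (nat_lit 215))) (PT.nd (nat_lit 78) (PT.lf (nat_lit 17328) (nat_lit 6) (nat_lit 228) (nat_lit 2) (nat_lit 277) (nat_lit 289) (nat_lit 214)) (PT.nd (nat_lit 78) (PT.lf (nat_lit 16796) (nat_lit 6) (nat_lit 221) (nat_lit 2) (nat_lit 278) (nat_lit 289) (nat_lit 213)) (PT.lf (nat_lit 16264) (nat_lit 6) (nat_lit 214) (nat_lit 2) (nat_lit 279) (nat_lit 289) (nat_lit 212))))))) (PT.nd (nat_lit 624) (PT.nd (nat_lit 312) (PT.nd (nat_lit 156) (PT.nd (nat_lit 78) (PT.lf (nat_lit 15808) (nat_lit 6) (nat_lit 208) (nat_lit 2) (nat_lit 280) (nat_lit 289) (nat_lit 211)) (PT.lf (nat_lit 15276) (nat_lit 6) (nat_lit 201) (nat_lit 2) (nat_lit 281) (nat_lit 289) (nat_lit 210))) (PT.nd (nat_lit 78) (PT.lf (nat_lit 14820) (nat_lit 6) (nat_lit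 195) (nat_lit 2) (nat_lit 282) (nat_lit 289) (nat_lit 209)) (PT.lf (nat_lit 14364) (nat_lit 6) (nat_lit 189) (nat_lit 2) (nat_lit 283) (nat_lit 289) (nat_lit 208)))) (PT.nd (nat_lit 156) (PT.nd (nat_lit 78) (PT.lf (nat_lit 13908) (nat_lit 6) (nat_lit 183) (nat_lit 2) (nat_lit 284) (nat_lit 289) (nat_lit 207)) (PT.lf (nat_lit 13452) (nat_lit 6) (nat_lit 177) (nat_lit 2) (nat_lit 285) (nat_lit 289) (nat_lit 206))) (PT.nd (nat_lit 78) (PT.lf (nat_lit 13072) (nat_lit 6) (nat_lit 172) (nat_lit 2) (nat_lit 286) (nat_lit 289) (nat_lit 205)) (PT.lf (nat_lit 12616) (nat_lit 6) (nat_lit 166) (nat_lit 2) (nat_lit 287) (nat_lit 289) (nat_lit 204))))) (PT.nd (nat_lit 312) (PT.nd (nat_lit 156) (PT.nd (nat_lit 78) (PT.lf (nat_lit 12236) (nat_lit 6) (nat_lit 161) (nat_lit 2) (nat_lit 288) (nat_lit 289) (nat_lit 203)) (PT.lf (nat_lit 11856) (nat_lit 3) (nat_lit 156) (nat_lit 0) (nat_lit 289) (nat_lit 289) (nat_lit 202))) (PT.nd (nat_lit 78) (PT.lf (nat_lit 11400) (nat_lit 6) (nat_lit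 150) (nat_lit 0) (nat_lit 290) (nat_lit 289) (nat_lit 201)) (PT.lf (nat_lit 10944) (nat_lit 6) (nat_lit 144) (nat_lit 0) (nat_lit 291) (nat_lit 289) (nat_lit 200)))) (PT.nd (nat_lit 156) (PT.nd (nat_lit 78) (PT.lf (nat_lit 10564) (nat_lit 6) (nat_lit 139) (nat_lit 0) (nat_lit 292) (nat_lit 289) (nat_lit 199)) (PT.lf (nat_lit 10108) (nat_lit 6) (nat_lit 133) (nat_lit 0) (nat_lit 293) (nat_lit 289) (nat_lit 198))) (PT.nd (nat_lit 78) (PT.lf (nat_lit 9728) (nat_lit 6) (nat_lit 128) (nat_lit 0) (nat_lit 294) (nat_lit 289) (nat_lit 197)) (PT.nd (nat_lit 78) (PT.lf (nat_lit 9348) (nat_lit 6) (nat_lit 123) (nat_lit 0) (nat_lit 295) (nat_lit 289) (nat_lit 196)) (PT.lf (nat_lit 8968) (nat_lit 6) (nat_lit 118) (nat_lit 0) (nat_lit 296) (nat_lit 289) (nat_lit 195))))))))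
noncomputable def pc112 : PT := (PT.nd (nat_lit 74256) (PT.nd (nat_lit 73632) (PT.nd (nat_lit 73320) (PT.nd (nat_lit 73164) (PT.nd (nat_lit 73086) (PT.lf (nat_lit 8588) (nat_lit 6) (nat_lit 113) (nat_lit 0) (nat_lit 297) (nat_lit 289) (nat_lit 194)) (PT.lf (nat_lit 8284) (nat_lit 6) (nat_lit 109) (nat_lit 5) (nat_lit 193) (nat_lit 290) (nat_lit 297))) (PT.nd (nat_lit 78) (PT.lf (nat_lit 8664) (nat_lit 6) (nat_lit 114) (nat_lit 5) (nat_lit 194) (nat_lit 290) (nat_lit 296)) (PT.lf (nat_lit 9044) (nat_lit 6) (nat_lit 119) (nat_lit 5) (nat_lit 195) (nat_lit 290) (nat_lit 295)))) (PT.nd (nat_lit 156) (PT.nd (nat_lit 78) (PT.lf (nat_lit 9424) (nat_lit 6) (nat_lit 124) (nat_lit 5) (nat_lit 196) (nat_lit 290) (nat_lit 294)) (PT.lf (nat_lit 9804) (nat_lit 6) (nat_lit 129) (nat_lit 5) (nat_lit 197) (nat_lit 290) (nat_lit 293))) (PT.nd (nat_lit 78) (PT.lf (nat_lit 10184) (nat_lit 6) (nat_lit 134) (nat_lit 5) (nat_lit 198) (nat_lit 290) (nat_lit 292)) (PT.lf (nat_lit 10640) (nat_lit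 6) (nat_lit 140) (nat_lit 5) (nat_lit 199) (nat_lit 290) (nat_lit 291))))) (PT.nd (nat_lit 312) (PT.nd (nat_lit 156) (PT.nd (nat_lit 78) (PT.lf (nat_lit 11020) (nat_lit 3) (nat_lit 145) (nat_lit 4) (nat_lit 200) (nat_lit 290) (nat_lit 290)) (PT.lf (nat_lit 11400) (nat_lit 6) (nat_lit 150) (nat_lit 4) (nat_lit 201) (nat_lit 290) (nat_lit 289))) (PT.nd (nat_lit 78) (PT.lf (nat_lit 11780) (nat_lit 6) (nat_lit 155) (nat_lit 4) (nat_lit 202) (nat_lit 290) (nat_lit 288)) (PT.lf (nat_lit 12160) (nat_lit 6) (nat_lit 160) (nat_lit 4) (nat_lit 203) (nat_lit 290) (nat_lit 287)))) (PT.nd (nat_lit 156) (PT.nd (nat_lit 78) (PT.lf (nat_lit 12540) (nat_lit 6) (nat_lit 165) (nat_lit 4) (nat_lit 204) (nat_lit 290) (nat_lit 286)) (PT.lf (nat_lit 12996) (nat_lit 6) (nat_lit 171) (nat_lit 4) (nat_lit 205) (nat_lit 290) (nat_lit 285))) (PT.nd (nat_lit 78) (PT.lf (nat_lit 13376) (nat_lit 6) (nat_lit 176) (nat_lit 4) (nat_lit 206) (nat_lit 290) (nat_lit 284)) (PT.lf (nat_lit 13832) (nat_lit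 6) (nat_lit 182) (nat_lit 4) (nat_lit 207) (nat_lit 290) (nat_lit 283)))))) (PT.nd (nat_lit 5382) (PT.nd (nat_lit 312) (PT.nd (nat_lit 156) (PT.nd (nat_lit 78) (PT.lf (nat_lit 14288) (nat_lit 6) (nat_lit 188) (nat_lit 4) (nat_lit 208) (nat_lit 290) (nat_lit 282)) (PT.lf (nat_lit 14744) (nat_lit 6) (nat_lit 194) (nat_lit 4) (nat_lit 209) (nat_lit 290) (nat_lit 281))) (PT.nd (nat_lit 78) (PT.lf (nat_lit 15200) (nat_lit 6) (nat_lit 200) (nat_lit 4) (nat_lit 210) (nat_lit 290) (nat_lit 280)) (PT.lf (nat_lit 15732) (nat_lit 6) (nat_lit 207) (nat_lit 4) (nat_lit 211) (nat_lit 290) (nat_lit 279)))) (PT.nd (nat_lit 156) (PT.nd (nat_lit 78) (PT.lf (nat_lit 16188) (nat_lit 6) (nat_lit 213) (nat_lit 4) (nat_lit 212) (nat_lit 290) (nat_lit 278)) (PT.lf (nat_lit 16720) (nat_lit 6) (nat_lit 220) (nat_lit 4) (nat_lit 213) (nat_lit 290) (nat_lit 277))) (PT.nd (nat_lit 4836) (PT.lf (nat_lit 17252) (nat_lit 6) (nat_lit 227) (nat_lit 4) (nat_lit 214) (nat_lit 290) (nat_lit 276)) (PT.lf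 (nat_lit 17252) (nat_lit 6) (nat_lit 227) (nat_lit 2) (nat_lit 276) (nat_lit 290) (nat_lit 214))))) (PT.nd (nat_lit 312) (PT.nd (nat_lit 156) (PT.nd (nat_lit 78) (PT.lf (nat_lit 16720) (nat_lit 6) (nat_lit 220) (nat_lit 2) (nat_lit 277) (nat_lit 290) (nat_lit 213)) (PT.lf (nat_lit 16188) (nat_lit 6) (nat_lit 213) (nat_lit 2) (nat_lit 278) (nat_lit 290) (nat_lit 212))) (PT.nd (nat_lit 78) (PT.lf (nat_lit 15732) (nat_lit 6) (nat_lit 207) (nat_lit 2) (nat_lit 279) (nat_lit 290) (nat_lit 211)) (PT.lf (nat_lit 15200) (nat_lit 6) (nat_lit 200) (nat_lit 2) (nat_lit 280) (nat_lit 290) (nat_lit 210)))) (PT.nd (nat_lit 156) (PT.nd (nat_lit 78) (PT.lf (nat_lit 14744) (nat_lit 6) (nat_lit 194) (nat_lit 2) (nat_lit 281) (nat_lit 290) (nat_lit 209)) (PT.lf (nat_lit 14288) (nat_lit 6) (nat_lit 188) (nat_lit 2) (nat_lit 282) (nat_lit 290) (nat_lit 208))) (PT.nd (nat_lit 78) (PT.lf (nat_lit 13832) (nat_lit 6) (nat_lit 182) (nat_lit 2) (nat_lit 283) (nat_lit 290) (nat_lit 207)) (PT.nd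 (nat_lit 78) (PT.lf (nat_lit 13376) (nat_lit 6) (nat_lit 176) (nat_lit 2) (nat_lit 284) (nat_lit 290) (nat_lit 206)) (PT.lf (nat_lit 12996) (nat_lit 6) (nat_lit 171) (nat_lit 2) (nat_lit 285) (nat_lit 290) (nat_lit 205))))))))
noncomputable def pc113 : PT := (PT.nd (nat_lit 74100) (PT.nd (nat_lit 624) (PT.nd (nat_lit 312) (PT.nd (nat_lit 156) (PT.nd (nat_lit 78) (PT.lf (nat_lit 12540) (nat_lit 6) (nat_lit 165) (nat_lit 2) (nat_lit 286) (nat_lit 290) (nat_lit 204)) (PT.lf (nat_lit 12160) (nat_lit 6) (nat_lit 160) (nat_lit 2) (nat_lit 287) (nat_lit 290) (nat_lit 203))) (PT.nd (nat_lit 78) (PT.lf (nat_lit 11780) (nat_lit 6) (nat_lit 155) (nat_lit 2) (nat_lit 288) (nat_lit 290) (nat_lit 202)) (PT.lf (nat_lit 11400) (nat_lit 6) (nat_lit 150) (nat_lit 2) (nat_lit 289) (nat_lit 290) (nat_lit 201)))) (PT.nd (nat_lit 156) (PT.nd (nat_lit 78) (PT.lf (nat_lit 11020) (nat_lit 3) (nat_lit 145) (nat_lit 0) (nat_lit 290) (nat_lit 290) (nat_lit 200)) (PT.lf (nat_lit 10640) (nat_lit 6)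 (nat_lit 140) (nat_lit 0) (nat_lit 291) (nat_lit 290) (nat_lit 199))) (PT.nd (nat_lit 78) (PT.lf (nat_lit 10184) (nat_lit 6) (nat_lit 134) (nat_lit 0) (nat_lit 292) (nat_lit 290) (nat_lit 198)) (PT.lf (nat_lit 9804) (nat_lit 6) (nat_lit 129) (nat_lit 0) (nat_lit 293) (nat_lit 290) (nat_lit 197))))) (PT.nd (nat_lit 73164) (PT.nd (nat_lit 156) (PT.nd (nat_lit 78) (PT.lf (nat_lit 9424) (nat_lit 6) (nat_lit 124) (nat_lit 0) (nat_lit 294) (nat_lit 290) (nat_lit 196)) (PT.lf (nat_lit 9044) (nat_lit 6) (nat_lit 119) (nat_lit 0) (nat_lit 295) (nat_lit 290) (nat_lit 195))) (PT.nd (nat_lit 78) (PT.lf (nat_lit 8664) (nat_lit 6) (nat_lit 114) (nat_lit 0) (nat_lit 296) (nat_lit 290) (nat_lit 194)) (PT.lf (nat_lit 8284) (nat_lit 6) (nat_lit 109) (nat_lit 0) (nat_lit 297) (nat_lit 290) (nat_lit 193)))) (PT.nd (nat_lit 156) (PT.nd (nat_lit 78) (PT.lf (nat_lit 7676) (nat_lit 6) (nat_lit 101) (nat_lit 5) (nat_lit 191) (nat_lit 291) (nat_lit 298)) (PT.lf (nat_lit 7980) (nat_lit 6) (nat_lit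 105) (nat_lit 5) (nat_lit 192) (nat_lit 291) (nat_lit 297))) (PT.nd (nat_lit 78) (PT.lf (nat_lit 8360) (nat_lit 6) (nat_lit 110) (nat_lit 5) (nat_lit 193) (nat_lit 291) (nat_lit 296)) (PT.lf (nat_lit 8740) (nat_lit 6) (nat_lit 115) (nat_lit 5) (nat_lit 194) (nat_lit 291) (nat_lit 295)))))) (PT.nd (nat_lit 624) (PT.nd (nat_lit 312) (PT.nd (nat_lit 156) (PT.nd (nat_lit 78) (PT.lf (nat_lit 9120) (nat_lit 6) (nat_lit 120) (nat_lit 5) (nat_lit 195) (nat_lit 291) (nat_lit 294)) (PT.lf (nat_lit 9500) (nat_lit 6) (nat_lit 125) (nat_lit 5) (nat_lit 196) (nat_lit 291) (nat_lit 293))) (PT.nd (nat_lit 78) (PT.lf (nat_lit 9880) (nat_lit 6) (nat_lit 130) (nat_lit 5) (nat_lit 197) (nat_lit 291) (nat_lit 292)) (PT.lf (nat_lit 10260) (nat_lit 3) (nat_lit 135) (nat_lit 4) (nat_lit 198) (nat_lit 291) (nat_lit 291)))) (PT.nd (nat_lit 156) (PT.nd (nat_lit 78) (PT.lf (nat_lit 10640) (nat_lit 6) (nat_lit 140) (nat_lit 4) (nat_lit 199) (nat_lit 291) (nat_lit 290)) (PT.lf (nat_lit 10944) (nat_lit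 6) (nat_lit 144) (nat_lit 4) (nat_lit 200) (nat_lit 291) (nat_lit 289))) (PT.nd (nat_lit 78) (PT.lf (nat_lit 11324) (nat_lit 6) (nat_lit 149) (nat_lit 4) (nat_lit 201) (nat_lit 291) (nat_lit 288)) (PT.lf (nat_lit 11704) (nat_lit 6) (nat_lit 154) (nat_lit 4) (nat_lit 202) (nat_lit 291) (nat_lit 287))))) (PT.nd (nat_lit 312) (PT.nd (nat_lit 156) (PT.nd (nat_lit 78) (PT.lf (nat_lit 12084) (nat_lit 6) (nat_lit 159) (nat_lit 4) (nat_lit 203) (nat_lit 291) (nat_lit 286)) (PT.lf (nat_lit 12464) (nat_lit 6) (nat_lit 164) (nat_lit 4) (nat_lit 204) (nat_lit 291) (nat_lit 285))) (PT.nd (nat_lit 78) (PT.lf (nat_lit 12920) (nat_lit 6) (nat_lit 170) (nat_lit 4) (nat_lit 205) (nat_lit 291) (nat_lit 284)) (PT.lf (nat_lit 13300) (nat_lit 6) (nat_lit 175) (nat_lit 4) (nat_lit 206) (nat_lit 291) (nat_lit 283)))) (PT.nd (nat_lit 156) (PT.nd (nat_lit 78) (PT.lf (nat_lit 13756) (nat_lit 6) (nat_lit 181) (nat_lit 4) (nat_lit 207) (nat_lit 291) (nat_lit 282)) (PT.lf (nat_lit 14212) (nat_lit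 6) (nat_lit 187) (nat_lit 4) (nat_lit 208) (nat_lit 291) (nat_lit 281))) (PT.nd (nat_lit 78) (PT.lf (nat_lit 14668) (nat_lit 6) (nat_lit 193) (nat_lit 4) (nat_lit 209) (nat_lit 291) (nat_lit 280)) (PT.nd (nat_lit 78) (PT.lf (nat_lit 15124) (nat_lit 6) (nat_lit 199) (nat_lit 4) (nat_lit 210) (nat_lit 291) (nat_lit 279)) (PT.lf (nat_lit 15656) (nat_lit 6) (nat_lit 206) (nat_lit 4) (nat_lit 211) (nat_lit 291) (nat_lit 278))))))))
noncomputable def pc114 : PT := (PT.nd (nat_lit 1248) (PT.nd (nat_lit 624) (PT.nd (nat_lit 312) (PT.nd (nat_lit 156) (PT.nd (nat_lit 78) (PT.lf (nat_lit 15656) (nat_lit 6) (nat_lit 206) (nat_lit 2) (nat_lit 278) (nat_lit 291) (nat_lit 211)) (PT.lf (nat_lit 15124) (nat_lit 6) (nat_lit 199) (nat_lit 2) (nat_lit 279) (nat_lit 291) (nat_lit 210))) (PT.nd (nat_lit 78) (PT.lf (nat_lit 14668) (nat_lit 6) (nat_lit 193) (nat_lit 2) (nat_lit 280) (nat_lit 291) (nat_lit 209)) (PT.lf (nat_lit 14212) (nat_lit 6) (nat_lit 187) (nat_lit 2) (nat_lit 281) (nat_lit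 291) (nat_lit 208)))) (PT.nd (nat_lit 156) (PT.nd (nat_lit 78) (PT.lf (nat_lit 13756) (nat_lit 6) (nat_lit 181) (nat_lit 2) (nat_lit 282) (nat_lit 291) (nat_lit 207)) (PT.lf (nat_lit 13300) (nat_lit 6) (nat_lit 175) (nat_lit 2) (nat_lit 283) (nat_lit 291) (nat_lit 206))) (PT.nd (nat_lit 78) (PT.lf (nat_lit 12920) (nat_lit 6) (nat_lit 170) (nat_lit 2) (nat_lit 284) (nat_lit 291) (nat_lit 205)) (PT.lf (nat_lit 12464) (nat_lit 6) (nat_lit 164) (nat_lit 2) (nat_lit 285) (nat_lit 291) (nat_lit 204))))) (PT.nd (nat_lit 312) (PT.nd (nat_lit 156) (PT.nd (nat_lit 78) (PT.lf (nat_lit 12084) (nat_lit 6) (nat_lit 159) (nat_lit 2) (nat_lit 286) (nat_lit 291) (nat_lit 203)) (PT.lf (nat_lit 11704) (nat_lit 6) (nat_lit 154) (nat_lit 2) (nat_lit 287) (nat_lit 291) (nat_lit 202))) (PT.nd (nat_lit 78) (PT.lf (nat_lit 11324) (nat_lit 6) (nat_lit 149) (nat_lit 2) (nat_lit 288) (nat_lit 291) (nat_lit 201)) (PT.lf (nat_lit 10944) (nat_lit 6) (nat_lit 144) (nat_lit 2) (nat_lit 289) (nat_lit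 291) (nat_lit 200)))) (PT.nd (nat_lit 156) (PT.nd (nat_lit 78) (PT.lf (nat_lit 10640) (nat_lit 6) (nat_lit 140) (nat_lit 2) (nat_lit 290) (nat_lit 291) (nat_lit 199)) (PT.lf (nat_lit 10260) (nat_lit 3) (nat_lit 135) (nat_lit 0) (nat_lit 291) (nat_lit 291) (nat_lit 198))) (PT.nd (nat_lit 78) (PT.lf (nat_lit 9880) (nat_lit 6) (nat_lit 130) (nat_lit 0) (nat_lit 292) (nat_lit 291) (nat_lit 197)) (PT.lf (nat_lit 9500) (nat_lit 6) (nat_lit 125) (nat_lit 0) (nat_lit 293) (nat_lit 291) (nat_lit 196)))))) (PT.nd (nat_lit 73242) (PT.nd (nat_lit 312) (PT.nd (nat_lit 156) (PT.nd (nat_lit 78) (PT.lf (nat_lit 9120) (nat_lit 6) (nat_lit 120) (nat_lit 0) (nat_lit 294) (nat_lit 291) (nat_lit 195)) (PT.lf (nat_lit 8740) (nat_lit 6) (nat_lit 115) (nat_lit 0) (nat_lit 295) (nat_lit 291) (nat_lit 194))) (PT.nd (nat_lit 78) (PT.lf (nat_lit 8360) (nat_lit 6) (nat_lit 110) (nat_lit 0) (nat_lit 296) (nat_lit 291) (nat_lit 193)) (PT.lf (nat_lit 7980) (nat_lit 6) (nat_lit 105) (nat_lit 0) (nat_lit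 297) (nat_lit 291) (nat_lit 192)))) (PT.nd (nat_lit 72774) (PT.nd (nat_lit 72696) (PT.lf (nat_lit 7676) (nat_lit 6) (nat_lit 101) (nat_lit 0) (nat_lit 298) (nat_lit 291) (nat_lit 191)) (PT.lf (nat_lit 7068) (nat_lit 6) (nat_lit 93) (nat_lit 5) (nat_lit 189) (nat_lit 292) (nat_lit 299))) (PT.nd (nat_lit 78) (PT.lf (nat_lit 7372) (nat_lit 6) (nat_lit 97) (nat_lit 5) (nat_lit 190) (nat_lit 292) (nat_lit 298)) (PT.lf (nat_lit 7752) (nat_lit 6) (nat_lit 102) (nat_lit 5) (nat_lit 191) (nat_lit 292) (nat_lit 297))))) (PT.nd (nat_lit 312) (PT.nd (nat_lit 156) (PT.nd (nat_lit 78) (PT.lf (nat_lit 8056) (nat_lit 6) (nat_lit 106) (nat_lit 5) (nat_lit 192) (nat_lit 292) (nat_lit 296)) (PT.lf (nat_lit 8436) (nat_lit 6) (nat_lit 111) (nat_lit 5) (nat_lit 193) (nat_lit 292) (nat_lit 295))) (PT.nd (nat_lit 78) (PT.lf (nat_lit 8816) (nat_lit 6) (nat_lit 116) (nat_lit 5) (nat_lit 194) (nat_lit 292) (nat_lit 294)) (PT.lf (nat_lit 9196) (nat_lit 6) (nat_lit 121) (nat_lit 5) (nat_lit 195)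 (nat_lit 292) (nat_lit 293)))) (PT.nd (nat_lit 156) (PT.nd (nat_lit 78) (PT.lf (nat_lit 9576) (nat_lit 3) (nat_lit 126) (nat_lit 4) (nat_lit 196) (nat_lit 292) (nat_lit 292)) (PT.lf (nat_lit 9880) (nat_lit 6) (nat_lit 130) (nat_lit 4) (nat_lit 197) (nat_lit 292) (nat_lit 291))) (PT.nd (nat_lit 78) (PT.lf (nat_lit 10184) (nat_lit 6) (nat_lit 134) (nat_lit 4) (nat_lit 198) (nat_lit 292) (nat_lit 290)) (PT.nd (nat_lit 78) (PT.lf (nat_lit 10564) (nat_lit 6) (nat_lit 139) (nat_lit 4) (nat_lit 199) (nat_lit 292) (nat_lit 289)) (PT.lf (nat_lit 10868) (nat_lit 6) (nat_lit 143) (nat_lit 4) (nat_lit 200) (nat_lit 292) (nat_lit 288))))))))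
noncomputable def pc115 : PT := (PT.nd (nat_lit 6942) (PT.nd (nat_lit 6318) (PT.nd (nat_lit 312) (PT.nd (nat_lit 156) (PT.nd (nat_lit 78) (PT.lf (nat_lit 11248) (nat_lit 6) (nat_lit 148) (nat_lit 4) (nat_lit 201) (nat_lit 292) (nat_lit 287)) (PT.lf (nat_lit 11628) (nat_lit 6) (nat_lit 153) (nat_lit 4) (nat_lit 202) (nat_lit 292) (nat_lit 286))) (PT.nd (nat_lit 78) (PT.lf (nat_lit 12008) (nat_lit 6) (nat_lit 158) (nat_lit 4) (nat_lit 203) (nat_lit 292) (nat_lit 285)) (PT.lf (nat_lit 12388) (nat_lit 6) (nat_lit 163) (nat_lit 4) (nat_lit 204) (nat_lit 292) (nat_lit 284)))) (PT.nd (nat_lit 156) (PT.nd (nat_lit 78) (PT.lf (nat_lit 12844) (nat_lit 6) (nat_lit 169) (nat_lit 4) (nat_lit 205) (nat_lit 292) (nat_lit 283)) (PT.lf (nat_lit 13224) (nat_lit 6) (nat_lit 174) (nat_lit 4) (nat_lit 206) (nat_lit 292) (nat_lit 282))) (PT.nd (nat_lit 5772) (PT.lf (nat_lit 13680) (nat_lit 6) (nat_lit 180) (nat_lit 4) (nat_lit 207) (nat_lit 292) (nat_lit 281)) (PT.lf (nat_lit 13680) (nat_lit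 6) (nat_lit 180) (nat_lit 2) (nat_lit 281) (nat_lit 292) (nat_lit 207))))) (PT.nd (nat_lit 312) (PT.nd (nat_lit 156) (PT.nd (nat_lit 78) (PT.lf (nat_lit 13224) (nat_lit 6) (nat_lit 174) (nat_lit 2) (nat_lit 282) (nat_lit 292) (nat_lit 206)) (PT.lf (nat_lit 12844) (nat_lit 6) (nat_lit 169) (nat_lit 2) (nat_lit 283) (nat_lit 292) (nat_lit 205))) (PT.nd (nat_lit 78) (PT.lf (nat_lit 12388) (nat_lit 6) (nat_lit 163) (nat_lit 2) (nat_lit 284) (nat_lit 292) (nat_lit 204)) (PT.lf (nat_lit 12008) (nat_lit 6) (nat_lit 158) (nat_lit 2) (nat_lit 285) (nat_lit 292) (nat_lit 203)))) (PT.nd (nat_lit 156) (PT.nd (nat_lit 78) (PT.lf (nat_lit 11628) (nat_lit 6) (nat_lit 153) (nat_lit 2) (nat_lit 286) (nat_lit 292) (nat_lit 202)) (PT.lf (nat_lit 11248) (nat_lit 6) (nat_lit 148) (nat_lit 2) (nat_lit 287) (nat_lit 292) (nat_lit 201))) (PT.nd (nat_lit 78) (PT.lf (nat_lit 10868) (nat_lit 6) (nat_lit 143) (nat_lit 2) (nat_lit 288) (nat_lit 292) (nat_lit 200)) (PT.lf (nat_lit 10564) (nat_lit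 6) (nat_lit 139) (nat_lit 2) (nat_lit 289) (nat_lit 292) (nat_lit 199)))))) (PT.nd (nat_lit 624) (PT.nd (nat_lit 312) (PT.nd (nat_lit 156) (PT.nd (nat_lit 78) (PT.lf (nat_lit 10184) (nat_lit 6) (nat_lit 134) (nat_lit 2) (nat_lit 290) (nat_lit 292) (nat_lit 198)) (PT.lf (nat_lit 9880) (nat_lit 6) (nat_lit 130) (nat_lit 2) (nat_lit 291) (nat_lit 292) (nat_lit 197))) (PT.nd (nat_lit 78) (PT.lf (nat_lit 9576) (nat_lit 3) (nat_lit 126) (nat_lit 0) (nat_lit 292) (nat_lit 292) (nat_lit 196)) (PT.lf (nat_lit 9196) (nat_lit 6) (nat_lit 121) (nat_lit 0) (nat_lit 293) (nat_lit 292) (nat_lit 195)))) (PT.nd (nat_lit 156) (PT.nd (nat_lit 78) (PT.lf (nat_lit 8816) (nat_lit 6) (nat_lit 116) (nat_lit 0) (nat_lit 294) (nat_lit 292) (nat_lit 194)) (PT.lf (nat_lit 8436) (nat_lit 6) (nat_lit 111) (nat_lit 0) (nat_lit 295) (nat_lit 292) (nat_lit 193))) (PT.nd (nat_lit 78) (PT.lf (nat_lit 8056) (nat_lit 6) (nat_lit 106) (nat_lit 0) (nat_lit 296) (nat_lit 292) (nat_lit 192)) (PT.lf (nat_lit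 7752) (nat_lit 6) (nat_lit 102) (nat_lit 0) (nat_lit 297) (nat_lit 292) (nat_lit 191))))) (PT.nd (nat_lit 72774) (PT.nd (nat_lit 72618) (PT.nd (nat_lit 78) (PT.lf (nat_lit 7372) (nat_lit 6) (nat_lit 97) (nat_lit 0) (nat_lit 298) (nat_lit 292) (nat_lit 190)) (PT.lf (nat_lit 7068) (nat_lit 6) (nat_lit 93) (nat_lit 0) (nat_lit 299) (nat_lit 292) (nat_lit 189))) (PT.nd (nat_lit 78) (PT.lf (nat_lit 6764) (nat_lit 6) (nat_lit 89) (nat_lit 5) (nat_lit 188) (nat_lit 293) (nat_lit 299)) (PT.lf (nat_lit 7144) (nat_lit 6) (nat_lit 94) (nat_lit 5) (nat_lit 189) (nat_lit 293) (nat_lit 298)))) (PT.nd (nat_lit 156) (PT.nd (nat_lit 78) (PT.lf (nat_lit 7448) (nat_lit 6) (nat_lit 98) (nat_lit 5) (nat_lit 190) (nat_lit 293) (nat_lit 297)) (PT.lf (nat_lit 7828) (nat_lit 6) (nat_lit 103) (nat_lit 5) (nat_lit 191) (nat_lit 293) (nat_lit 296))) (PT.nd (nat_lit 78) (PT.lf (nat_lit 8132) (nat_lit 6) (nat_lit 107) (nat_lit 5) (nat_lit 192) (nat_lit 293) (nat_lit 295)) (PT.nd (nat_lit 78) (PT.lf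 (nat_lit 8512) (nat_lit 6) (nat_lit 112) (nat_lit 5) (nat_lit 193) (nat_lit 293) (nat_lit 294)) (PT.lf (nat_lit 8892) (nat_lit 3) (nat_lit 117) (nat_lit 4) (nat_lit 194) (nat_lit 293) (nat_lit 293))))))))
noncomputable def pc116 : PT := (PT.nd (nat_lit 7176) (PT.nd (nat_lit 624) (PT.nd (nat_lit 312) (PT.nd (nat_lit 156) (PT.nd (nat_lit 78) (PT.lf (nat_lit 9196) (nat_lit 6) (nat_lit 121) (nat_lit 4) (nat_lit 195) (nat_lit 293) (nat_lit 292)) (PT.lf (nat_lit 9500) (nat_lit 6) (nat_lit 125) (nat_lit 4) (nat_lit 196) (nat_lit 293) (nat_lit 291))) (PT.nd (nat_lit 78) (PT.lf (nat_lit 9804) (nat_lit 6) (nat_lit 129) (nat_lit 4) (nat_lit 197) (nat_lit 293) (nat_lit 290)) (PT.lf (nat_lit 10108) (nat_lit 6) (nat_lit 133) (nat_lit 4) (nat_lit 198) (nat_lit 293) (nat_lit 289)))) (PT.nd (nat_lit 156) (PT.nd (nat_lit 78) (PT.lf (nat_lit 10488) (nat_lit 6) (nat_lit 138) (nat_lit 4) (nat_lit 199) (nat_lit 293) (nat_lit 288)) (PT.lf (nat_lit 10792) (nat_lit 6) (nat_lit 142) (nat_lit 4)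 (nat_lit 200) (nat_lit 293) (nat_lit 287))) (PT.nd (nat_lit 78) (PT.lf (nat_lit 11172) (nat_lit 6) (nat_lit 147) (nat_lit 4) (nat_lit 201) (nat_lit 293) (nat_lit 286)) (PT.lf (nat_lit 11552) (nat_lit 6) (nat_lit 152) (nat_lit 4) (nat_lit 202) (nat_lit 293) (nat_lit 285))))) (PT.nd (nat_lit 6240) (PT.nd (nat_lit 156) (PT.nd (nat_lit 78) (PT.lf (nat_lit 11932) (nat_lit 6) (nat_lit 157) (nat_lit 4) (nat_lit 203) (nat_lit 293) (nat_lit 284)) (PT.lf (nat_lit 12312) (nat_lit 6) (nat_lit 162) (nat_lit 4) (nat_lit 204) (nat_lit 293) (nat_lit 283))) (PT.nd (nat_lit 6006) (PT.lf (nat_lit 12768) (nat_lit 6) (nat_lit 168) (nat_lit 4) (nat_lit 205) (nat_lit 293) (nat_lit 282)) (PT.lf (nat_lit 12768) (nat_lit 6) (nat_lit 168) (nat_lit 2) (nat_lit 282) (nat_lit 293) (nat_lit 205)))) (PT.nd (nat_lit 156) (PT.nd (nat_lit 78) (PT.lf (nat_lit 12312) (nat_lit 6) (nat_lit 162) (nat_lit 2) (nat_lit 283) (nat_lit 293) (nat_lit 204)) (PT.lf (nat_lit 11932) (nat_lit 6) (nat_lit 157) (nat_lit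 2) (nat_lit 284) (nat_lit 293) (nat_lit 203))) (PT.nd (nat_lit 78) (PT.lf (nat_lit 11552) (nat_lit 6) (nat_lit 152) (nat_lit 2) (nat_lit 285) (nat_lit 293) (nat_lit 202)) (PT.lf (nat_lit 11172) (nat_lit 6) (nat_lit 147) (nat_lit 2) (nat_lit 286) (nat_lit 293) (nat_lit 201)))))) (PT.nd (nat_lit 624) (PT.nd (nat_lit 312) (PT.nd (nat_lit 156) (PT.nd (nat_lit 78) (PT.lf (nat_lit 10792) (nat_lit 6) (nat_lit 142) (nat_lit 2) (nat_lit 287) (nat_lit 293) (nat_lit 200)) (PT.lf (nat_lit 10488) (nat_lit 6) (nat_lit 138) (nat_lit 2) (nat_lit 288) (nat_lit 293) (nat_lit 199))) (PT.nd (nat_lit 78) (PT.lf (nat_lit 10108) (nat_lit 6) (nat_lit 133) (nat_lit 2) (nat_lit 289) (nat_lit 293) (nat_lit 198)) (PT.lf (nat_lit 9804) (nat_lit 6) (nat_lit 129) (nat_lit 2) (nat_lit 290) (nat_lit 293) (nat_lit 197)))) (PT.nd (nat_lit 156) (PT.nd (nat_lit 78) (PT.lf (nat_lit 9500) (nat_lit 6) (nat_lit 125) (nat_lit 2) (nat_lit 291) (nat_lit 293) (nat_lit 196)) (PT.lf (nat_lit 9196) (nat_lit 6) (nat_lit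 121) (nat_lit 2) (nat_lit 292) (nat_lit 293) (nat_lit 195))) (PT.nd (nat_lit 78) (PT.lf (nat_lit 8892) (nat_lit 3) (nat_lit 117) (nat_lit 0) (nat_lit 293) (nat_lit 293) (nat_lit 194)) (PT.lf (nat_lit 8512) (nat_lit 6) (nat_lit 112) (nat_lit 0) (nat_lit 294) (nat_lit 293) (nat_lit 193))))) (PT.nd (nat_lit 312) (PT.nd (nat_lit 156) (PT.nd (nat_lit 78) (PT.lf (nat_lit 8132) (nat_lit 6) (nat_lit 107) (nat_lit 0) (nat_lit 295) (nat_lit 293) (nat_lit 192)) (PT.lf (nat_lit 7828) (nat_lit 6) (nat_lit 103) (nat_lit 0) (nat_lit 296) (nat_lit 293) (nat_lit 191))) (PT.nd (nat_lit 78) (PT.lf (nat_lit 7448) (nat_lit 6) (nat_lit 98) (nat_lit 0) (nat_lit 297) (nat_lit 293) (nat_lit 190)) (PT.lf (nat_lit 7144) (nat_lit 6) (nat_lit 94) (nat_lit 0) (nat_lit 298) (nat_lit 293) (nat_lit 189)))) (PT.nd (nat_lit 72462) (PT.nd (nat_lit 72384) (PT.lf (nat_lit 6764) (nat_lit 6) (nat_lit 89) (nat_lit 0) (nat_lit 299) (nat_lit 293) (nat_lit 188)) (PT.lf (nat_lit 6232) (nat_lit 6) (nat_lit 82) (nat_lit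 5) (nat_lit 186) (nat_lit 294) (nat_lit 300))) (PT.nd (nat_lit 78) (PT.lf (nat_lit 6536) (nat_lit 6) (nat_lit 86) (nat_lit 5) (nat_lit 187) (nat_lit 294) (nat_lit 299)) (PT.nd (nat_lit 78) (PT.lf (nat_lit 6840) (nat_lit 6) (nat_lit 90) (nat_lit 5) (nat_lit 188) (nat_lit 294) (nat_lit 298)) (PT.lf (nat_lit 7220) (nat_lit 6) (nat_lit 95) (nat_lit 5) (nat_lit 189) (nat_lit 294) (nat_lit 297))))))))
noncomputable def pc117 : PT := (PT.nd (nat_lit 7566) (PT.nd (nat_lit 624) (PT.nd (nat_lit 312) (PT.nd (nat_lit 156) (PT.nd (nat_lit 78) (PT.lf (nat_lit 7524) (nat_lit 6) (nat_lit 99) (nat_lit 5) (nat_lit 190) (nat_lit 294) (nat_lit 296)) (PT.lf (nat_lit 7904) (nat_lit 6) (nat_lit 104) (nat_lit 5) (nat_lit 191) (nat_lit 294) (nat_lit 295))) (PT.nd (nat_lit 78) (PT.lf (nat_lit 8208) (nat_lit 3) (nat_lit 108) (nat_lit 4) (nat_lit 192) (nat_lit 294) (nat_lit 294)) (PT.lf (nat_lit 8512) (nat_lit 6) (nat_lit 112) (nat_lit 4) (nat_lit 193) (nat_lit 294) (nat_lit 293)))) (PT.nd (nat_lit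 156) (PT.nd (nat_lit 78) (PT.lf (nat_lit 8816) (nat_lit 6) (nat_lit 116) (nat_lit 4) (nat_lit 194) (nat_lit 294) (nat_lit 292)) (PT.lf (nat_lit 9120) (nat_lit 6) (nat_lit 120) (nat_lit 4) (nat_lit 195) (nat_lit 294) (nat_lit 291))) (PT.nd (nat_lit 78) (PT.lf (nat_lit 9424) (nat_lit 6) (nat_lit 124) (nat_lit 4) (nat_lit 196) (nat_lit 294) (nat_lit 290)) (PT.lf (nat_lit 9728) (nat_lit 6) (nat_lit 128) (nat_lit 4) (nat_lit 197) (nat_lit 294) (nat_lit 289))))) (PT.nd (nat_lit 312) (PT.nd (nat_lit 156) (PT.nd (nat_lit 78) (PT.lf (nat_lit 10032) (nat_lit 6) (nat_lit 132) (nat_lit 4) (nat_lit 198) (nat_lit 294) (nat_lit 288)) (PT.lf (nat_lit 10412) (nat_lit 6) (nat_lit 137) (nat_lit 4) (nat_lit 199) (nat_lit 294) (nat_lit 287))) (PT.nd (nat_lit 78) (PT.lf (nat_lit 10716) (nat_lit 6) (nat_lit 141) (nat_lit 4) (nat_lit 200) (nat_lit 294) (nat_lit 286)) (PT.lf (nat_lit 11096) (nat_lit 6) (nat_lit 146) (nat_lit 4) (nat_lit 201) (nat_lit 294) (nat_lit 285)))) (PT.nd (nat_lit 6474)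 (PT.nd (nat_lit 6396) (PT.lf (nat_lit 11476) (nat_lit 6) (nat_lit 151) (nat_lit 4) (nat_lit 202) (nat_lit 294) (nat_lit 284)) (PT.lf (nat_lit 11476) (nat_lit 6) (nat_lit 151) (nat_lit 2) (nat_lit 284) (nat_lit 294) (nat_lit 202))) (PT.nd (nat_lit 78) (PT.lf (nat_lit 11096) (nat_lit 6) (nat_lit 146) (nat_lit 2) (nat_lit 285) (nat_lit 294) (nat_lit 201)) (PT.lf (nat_lit 10716) (nat_lit 6) (nat_lit 141) (nat_lit 2) (nat_lit 286) (nat_lit 294) (nat_lit 200)))))) (PT.nd (nat_lit 624) (PT.nd (nat_lit 312) (PT.nd (nat_lit 156) (PT.nd (nat_lit 78) (PT.lf (nat_lit 10412) (nat_lit 6) (nat_lit 137) (nat_lit 2) (nat_lit 287) (nat_lit 294) (nat_lit 199)) (PT.lf (nat_lit 10032) (nat_lit 6) (nat_lit 132) (nat_lit 2) (nat_lit 288) (nat_lit 294) (nat_lit 198))) (PT.nd (nat_lit 78) (PT.lf (nat_lit 9728) (nat_lit 6) (nat_lit 128) (nat_lit 2) (nat_lit 289) (nat_lit 294) (nat_lit 197)) (PT.lf (nat_lit 9424) (nat_lit 6) (nat_lit 124) (nat_lit 2) (nat_lit 290) (nat_lit 294) (nat_lit 196))))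 (PT.nd (nat_lit 156) (PT.nd (nat_lit 78) (PT.lf (nat_lit 9120) (nat_lit 6) (nat_lit 120) (nat_lit 2) (nat_lit 291) (nat_lit 294) (nat_lit 195)) (PT.lf (nat_lit 8816) (nat_lit 6) (nat_lit 116) (nat_lit 2) (nat_lit 292) (nat_lit 294) (nat_lit 194))) (PT.nd (nat_lit 78) (PT.lf (nat_lit 8512) (nat_lit 6) (nat_lit 112) (nat_lit 2) (nat_lit 293) (nat_lit 294) (nat_lit 193)) (PT.lf (nat_lit 8208) (nat_lit 3) (nat_lit 108) (nat_lit 0) (nat_lit 294) (nat_lit 294) (nat_lit 192))))) (PT.nd (nat_lit 312) (PT.nd (nat_lit 156) (PT.nd (nat_lit 78) (PT.lf (nat_lit 7904) (nat_lit 6) (nat_lit 104) (nat_lit 0) (nat_lit 295) (nat_lit 294) (nat_lit 191)) (PT.lf (nat_lit 7524) (nat_lit 6) (nat_lit 99) (nat_lit 0) (nat_lit 296) (nat_lit 294) (nat_lit 190))) (PT.nd (nat_lit 78) (PT.lf (nat_lit 7220) (nat_lit 6) (nat_lit 95) (nat_lit 0) (nat_lit 297) (nat_lit 294) (nat_lit 189)) (PT.lf (nat_lit 6840) (nat_lit 6) (nat_lit 90) (nat_lit 0) (nat_lit 298) (nat_lit 294) (nat_lit 188)))) (PT.nd (nat_lit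 72228) (PT.nd (nat_lit 78) (PT.lf (nat_lit 6536) (nat_lit 6) (nat_lit 86) (nat_lit 0) (nat_lit 299) (nat_lit 294) (nat_lit 187)) (PT.lf (nat_lit 6232) (nat_lit 6) (nat_lit 82) (nat_lit 0) (nat_lit 300) (nat_lit 294) (nat_lit 186))) (PT.nd (nat_lit 78) (PT.lf (nat_lit 5700) (nat_lit 6) (nat_lit 75) (nat_lit 5) (nat_lit 184) (nat_lit 295) (nat_lit 301)) (PT.nd (nat_lit 78) (PT.lf (nat_lit 6004) (nat_lit 6) (nat_lit 79) (nat_lit 5) (nat_lit 185) (nat_lit 295) (nat_lit 300)) (PT.lf (nat_lit 6308) (nat_lit 6) (nat_lit 83) (nat_lit 5) (nat_lit 186) (nat_lit 295) (nat_lit 299))))))))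
noncomputable def pc118 : PT := (PT.nd (nat_lit 7956) (PT.nd (nat_lit 624) (PT.nd (nat_lit 312) (PT.nd (nat_lit 156) (PT.nd (nat_lit 78) (PT.lf (nat_lit 6612) (nat_lit 6) (nat_lit 87) (nat_lit 5) (nat_lit 187) (nat_lit 295) (nat_lit 298)) (PT.lf (nat_lit 6916) (nat_lit 6) (nat_lit 91) (nat_lit 5) (nat_lit 188) (nat_lit 295) (nat_lit 297))) (PT.nd (nat_lit 78) (PT.lf (nat_lit 7296) (nat_lit 6) (nat_lit 96) (nat_lit 5) (nat_lit 189) (nat_lit 295) (nat_lit 296)) (PT.lf (nat_lit 7600) (nat_lit 3) (nat_lit 100) (nat_lit 4) (nat_lit 190) (nat_lit 295) (nat_lit 295)))) (PT.nd (nat_lit 156) (PT.nd (nat_lit 78) (PT.lf (nat_lit 7904) (nat_lit 6) (nat_lit 104) (nat_lit 4) (nat_lit 191) (nat_lit 295) (nat_lit 294)) (PT.lf (nat_lit 8132) (nat_lit 6) (nat_lit 107) (nat_lit 4) (nat_lit 192) (nat_lit 295) (nat_lit 293))) (PT.nd (nat_lit 78) (PT.lf (nat_lit 8436) (nat_lit 6) (nat_lit 111) (nat_lit 4) (nat_lit 193) (nat_lit 295) (nat_lit 292)) (PT.lf (nat_lit 8740) (nat_lit 6) (nat_lit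 115) (nat_lit 4) (nat_lit 194) (nat_lit 295) (nat_lit 291))))) (PT.nd (nat_lit 312) (PT.nd (nat_lit 156) (PT.nd (nat_lit 78) (PT.lf (nat_lit 9044) (nat_lit 6) (nat_lit 119) (nat_lit 4) (nat_lit 195) (nat_lit 295) (nat_lit 290)) (PT.lf (nat_lit 9348) (nat_lit 6) (nat_lit 123) (nat_lit 4) (nat_lit 196) (nat_lit 295) (nat_lit 289))) (PT.nd (nat_lit 78) (PT.lf (nat_lit 9652) (nat_lit 6) (nat_lit 127) (nat_lit 4) (nat_lit 197) (nat_lit 295) (nat_lit 288)) (PT.lf (nat_lit 9956) (nat_lit 6) (nat_lit 131) (nat_lit 4) (nat_lit 198) (nat_lit 295) (nat_lit 287)))) (PT.nd (nat_lit 6864) (PT.nd (nat_lit 6786) (PT.lf (nat_lit 10336) (nat_lit 6) (nat_lit 136) (nat_lit 4) (nat_lit 199) (nat_lit 295) (nat_lit 286)) (PT.lf (nat_lit 10336) (nat_lit 6) (nat_lit 136) (nat_lit 2) (nat_lit 286) (nat_lit 295) (nat_lit 199))) (PT.nd (nat_lit 78) (PT.lf (nat_lit 9956) (nat_lit 6) (nat_lit 131) (nat_lit 2) (nat_lit 287) (nat_lit 295) (nat_lit 198)) (PT.lf (nat_lit 9652) (nat_lit 6) (nat_lit 127)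 (nat_lit 2) (nat_lit 288) (nat_lit 295) (nat_lit 197)))))) (PT.nd (nat_lit 624) (PT.nd (nat_lit 312) (PT.nd (nat_lit 156) (PT.nd (nat_lit 78) (PT.lf (nat_lit 9348) (nat_lit 6) (nat_lit 123) (nat_lit 2) (nat_lit 289) (nat_lit 295) (nat_lit 196)) (PT.lf (nat_lit 9044) (nat_lit 6) (nat_lit 119) (nat_lit 2) (nat_lit 290) (nat_lit 295) (nat_lit 195))) (PT.nd (nat_lit 78) (PT.lf (nat_lit 8740) (nat_lit 6) (nat_lit 115) (nat_lit 2) (nat_lit 291) (nat_lit 295) (nat_lit 194)) (PT.lf (nat_lit 8436) (nat_lit 6) (nat_lit 111) (nat_lit 2) (nat_lit 292) (nat_lit 295) (nat_lit 193)))) (PT.nd (nat_lit 156) (PT.nd (nat_lit 78) (PT.lf (nat_lit 8132) (nat_lit 6) (nat_lit 107) (nat_lit 2) (nat_lit 293) (nat_lit 295) (nat_lit 192)) (PT.lf (nat_lit 7904) (nat_lit 6) (nat_lit 104) (nat_lit 2) (nat_lit 294) (nat_lit 295) (nat_lit 191))) (PT.nd (nat_lit 78) (PT.lf (nat_lit 7600) (nat_lit 3) (nat_lit 100) (nat_lit 0) (nat_lit 295) (nat_lit 295) (nat_lit 190)) (PT.lf (nat_lit 7296) (nat_lit 6)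 (nat_lit 96) (nat_lit 0) (nat_lit 296) (nat_lit 295) (nat_lit 189))))) (PT.nd (nat_lit 312) (PT.nd (nat_lit 156) (PT.nd (nat_lit 78) (PT.lf (nat_lit 6916) (nat_lit 6) (nat_lit 91) (nat_lit 0) (nat_lit 297) (nat_lit 295) (nat_lit 188)) (PT.lf (nat_lit 6612) (nat_lit 6) (nat_lit 87) (nat_lit 0) (nat_lit 298) (nat_lit 295) (nat_lit 187))) (PT.nd (nat_lit 78) (PT.lf (nat_lit 6308) (nat_lit 6) (nat_lit 83) (nat_lit 0) (nat_lit 299) (nat_lit 295) (nat_lit 186)) (PT.lf (nat_lit 6004) (nat_lit 6) (nat_lit 79) (nat_lit 0) (nat_lit 300) (nat_lit 295) (nat_lit 185)))) (PT.nd (nat_lit 72072) (PT.nd (nat_lit 71994) (PT.lf (nat_lit 5700) (nat_lit 6) (nat_lit 75) (nat_lit 0) (nat_lit 301) (nat_lit 295) (nat_lit 184)) (PT.lf (nat_lit 5472) (nat_lit 6) (nat_lit 72) (nat_lit 5) (nat_lit 183) (nat_lit 296) (nat_lit 301))) (PT.nd (nat_lit 78) (PT.lf (nat_lit 5776) (nat_lit 6) (nat_lit 76) (nat_lit 5) (nat_lit 184) (nat_lit 296) (nat_lit 300)) (PT.nd (nat_lit 78) (PT.lf (nat_lit 6080) (nat_lit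 6) (nat_lit 80) (nat_lit 5) (nat_lit 185) (nat_lit 296) (nat_lit 299)) (PT.lf (nat_lit 6384) (nat_lit 6) (nat_lit 84) (nat_lit 5) (nat_lit 186) (nat_lit 296) (nat_lit 298))))))))
noncomputable def pc119 : PT := (PT.nd (nat_lit 8424) (PT.nd (nat_lit 624) (PT.nd (nat_lit 312) (PT.nd (nat_lit 156) (PT.nd (nat_lit 78) (PT.lf (nat_lit 6688) (nat_lit 6) (nat_lit 88) (nat_lit 5) (nat_lit 187) (nat_lit 296) (nat_lit 297)) (PT.lf (nat_lit 6992) (nat_lit 3) (nat_lit 92) (nat_lit 4) (nat_lit 188) (nat_lit 296) (nat_lit 296))) (PT.nd (nat_lit 78) (PT.lf (nat_lit 7296) (nat_lit 6) (nat_lit 96) (nat_lit 4) (nat_lit 189) (nat_lit 296) (nat_lit 295)) (PT.lf (nat_lit 7524) (nat_lit 6) (nat_lit 99) (nat_lit 4) (nat_lit 190) (nat_lit 296) (nat_lit 294)))) (PT.nd (nat_lit 156) (PT.nd (nat_lit 78) (PT.lf (nat_lit 7828) (nat_lit 6) (nat_lit 103) (nat_lit 4) (nat_lit 191) (nat_lit 296) (nat_lit 293)) (PT.lf (nat_lit 8056) (nat_lit 6) (nat_lit 106) (nat_lit 4) (nat_lit 192) (nat_lit 296) (nat_lit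 292))) (PT.nd (nat_lit 78) (PT.lf (nat_lit 8360) (nat_lit 6) (nat_lit 110) (nat_lit 4) (nat_lit 193) (nat_lit 296) (nat_lit 291)) (PT.lf (nat_lit 8664) (nat_lit 6) (nat_lit 114) (nat_lit 4) (nat_lit 194) (nat_lit 296) (nat_lit 290))))) (PT.nd (nat_lit 7410) (PT.nd (nat_lit 7254) (PT.nd (nat_lit 78) (PT.lf (nat_lit 8968) (nat_lit 6) (nat_lit 118) (nat_lit 4) (nat_lit 195) (nat_lit 296) (nat_lit 289)) (PT.lf (nat_lit 9272) (nat_lit 6) (nat_lit 122) (nat_lit 4) (nat_lit 196) (nat_lit 296) (nat_lit 288))) (PT.nd (nat_lit 78) (PT.lf (nat_lit 9272) (nat_lit 6) (nat_lit 122) (nat_lit 2) (nat_lit 288) (nat_lit 296) (nat_lit 196)) (PT.lf (nat_lit 8968) (nat_lit 6) (nat_lit 118) (nat_lit 2) (nat_lit 289) (nat_lit 296) (nat_lit 195)))) (PT.nd (nat_lit 156) (PT.nd (nat_lit 78) (PT.lf (nat_lit 8664) (nat_lit 6) (nat_lit 114) (nat_lit 2) (nat_lit 290) (nat_lit 296) (nat_lit 194)) (PT.lf (nat_lit 8360) (nat_lit 6) (nat_lit 110) (nat_lit 2) (nat_lit 291) (nat_lit 296) (nat_lit 193)))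 (PT.nd (nat_lit 78) (PT.lf (nat_lit 8056) (nat_lit 6) (nat_lit 106) (nat_lit 2) (nat_lit 292) (nat_lit 296) (nat_lit 192)) (PT.nd (nat_lit 78) (PT.lf (nat_lit 7828) (nat_lit 6) (nat_lit 103) (nat_lit 2) (nat_lit 293) (nat_lit 296) (nat_lit 191)) (PT.lf (nat_lit 7524) (nat_lit 6) (nat_lit 99) (nat_lit 2) (nat_lit 294) (nat_lit 296) (nat_lit 190))))))) (PT.nd (nat_lit 72384) (PT.nd (nat_lit 312) (PT.nd (nat_lit 156) (PT.nd (nat_lit 78) (PT.lf (nat_lit 7296) (nat_lit 6) (nat_lit 96) (nat_lit 2) (nat_lit 295) (nat_lit 296) (nat_lit 189)) (PT.lf (nat_lit 6992) (nat_lit 3) (nat_lit 92) (nat_lit 0) (nat_lit 296) (nat_lit 296) (nat_lit 188))) (PT.nd (nat_lit 78) (PT.lf (nat_lit 6688) (nat_lit 6) (nat_lit 88) (nat_lit 0) (nat_lit 297) (nat_lit 296) (nat_lit 187)) (PT.lf (nat_lit 6384) (nat_lit 6) (nat_lit 84) (nat_lit 0) (nat_lit 298) (nat_lit 296) (nat_lit 186)))) (PT.nd (nat_lit 156) (PT.nd (nat_lit 78) (PT.lf (nat_lit 6080) (nat_lit 6) (nat_lit 80) (nat_lit 0) (nat_lit 299)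 (nat_lit 296) (nat_lit 185)) (PT.lf (nat_lit 5776) (nat_lit 6) (nat_lit 76) (nat_lit 0) (nat_lit 300) (nat_lit 296) (nat_lit 184))) (PT.nd (nat_lit 71838) (PT.lf (nat_lit 5472) (nat_lit 6) (nat_lit 72) (nat_lit 0) (nat_lit 301) (nat_lit 296) (nat_lit 183)) (PT.lf (nat_lit 4940) (nat_lit 6) (nat_lit 65) (nat_lit 5) (nat_lit 181) (nat_lit 297) (nat_lit 302))))) (PT.nd (nat_lit 312) (PT.nd (nat_lit 156) (PT.nd (nat_lit 78) (PT.lf (nat_lit 5244) (nat_lit 6) (nat_lit 69) (nat_lit 5) (nat_lit 182) (nat_lit 297) (nat_lit 301)) (PT.lf (nat_lit 5548) (nat_lit 6) (nat_lit 73) (nat_lit 5) (nat_lit 183) (nat_lit 297) (nat_lit 300))) (PT.nd (nat_lit 78) (PT.lf (nat_lit 5852) (nat_lit 6) (nat_lit 77) (nat_lit 5) (nat_lit 184) (nat_lit 297) (nat_lit 299)) (PT.lf (nat_lit 6156) (nat_lit 6) (nat_lit 81) (nat_lit 5) (nat_lit 185) (nat_lit 297) (nat_lit 298)))) (PT.nd (nat_lit 156) (PT.nd (nat_lit 78) (PT.lf (nat_lit 6460) (nat_lit 3) (nat_lit 85) (nat_lit 4) (nat_lit 186) (nat_lit 297)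 (nat_lit 297)) (PT.lf (nat_lit 6688) (nat_lit 6) (nat_lit 88) (nat_lit 4) (nat_lit 187) (nat_lit 297) (nat_lit 296))) (PT.nd (nat_lit 78) (PT.lf (nat_lit 6916) (nat_lit 6) (nat_lit 91) (nat_lit 4) (nat_lit 188) (nat_lit 297) (nat_lit 295)) (PT.nd (nat_lit 78) (PT.lf (nat_lit 7220) (nat_lit 6) (nat_lit 95) (nat_lit 4) (nat_lit 189) (nat_lit 297) (nat_lit 294)) (PT.lf (nat_lit 7448) (nat_lit 6) (nat_lit 98) (nat_lit 4) (nat_lit 190) (nat_lit 297) (nat_lit 293))))))))
noncomputable def pc120 : PT := (PT.nd (nat_lit 8580) (PT.nd (nat_lit 7956) (PT.nd (nat_lit 7644) (PT.nd (nat_lit 156) (PT.nd (nat_lit 78) (PT.lf (nat_lit 7752) (nat_lit 6) (nat_lit 102) (nat_lit 4) (nat_lit 191) (nat_lit 297) (nat_lit 292)) (PT.lf (nat_lit 7980) (nat_lit 6) (nat_lit 105) (nat_lit 4) (nat_lit 192) (nat_lit 297) (nat_lit 291))) (PT.nd (nat_lit 78) (PT.lf (nat_lit 8284) (nat_lit 6) (nat_lit 109) (nat_lit 4) (nat_lit 193) (nat_lit 297) (nat_lit 290)) (PT.lf (nat_lit 8588) (nat_lit 6) (nat_lit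 113) (nat_lit 4) (nat_lit 194) (nat_lit 297) (nat_lit 289)))) (PT.nd (nat_lit 156) (PT.nd (nat_lit 78) (PT.lf (nat_lit 8588) (nat_lit 6) (nat_lit 113) (nat_lit 2) (nat_lit 289) (nat_lit 297) (nat_lit 194)) (PT.lf (nat_lit 8284) (nat_lit 6) (nat_lit 109) (nat_lit 2) (nat_lit 290) (nat_lit 297) (nat_lit 193))) (PT.nd (nat_lit 78) (PT.lf (nat_lit 7980) (nat_lit 6) (nat_lit 105) (nat_lit 2) (nat_lit 291) (nat_lit 297) (nat_lit 192)) (PT.lf (nat_lit 7752) (nat_lit 6) (nat_lit 102) (nat_lit 2) (nat_lit 292) (nat_lit 297) (nat_lit 191))))) (PT.nd (nat_lit 312) (PT.nd (nat_lit 156) (PT.nd (nat_lit 78) (PT.lf (nat_lit 7448) (nat_lit 6) (nat_lit 98) (nat_lit 2) (nat_lit 293) (nat_lit 297) (nat_lit 190)) (PT.lf (nat_lit 7220) (nat_lit 6) (nat_lit 95) (nat_lit 2) (nat_lit 294) (nat_lit 297) (nat_lit 189))) (PT.nd (nat_lit 78) (PT.lf (nat_lit 6916) (nat_lit 6) (nat_lit 91) (nat_lit 2) (nat_lit 295) (nat_lit 297) (nat_lit 188)) (PT.lf (nat_lit 6688) (nat_lit 6) (nat_lit 88) (nat_lit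 2) (nat_lit 296) (nat_lit 297) (nat_lit 187)))) (PT.nd (nat_lit 156) (PT.nd (nat_lit 78) (PT.lf (nat_lit 6460) (nat_lit 3) (nat_lit 85) (nat_lit 0) (nat_lit 297) (nat_lit 297) (nat_lit 186)) (PT.lf (nat_lit 6156) (nat_lit 6) (nat_lit 81) (nat_lit 0) (nat_lit 298) (nat_lit 297) (nat_lit 185))) (PT.nd (nat_lit 78) (PT.lf (nat_lit 5852) (nat_lit 6) (nat_lit 77) (nat_lit 0) (nat_lit 299) (nat_lit 297) (nat_lit 184)) (PT.lf (nat_lit 5548) (nat_lit 6) (nat_lit 73) (nat_lit 0) (nat_lit 300) (nat_lit 297) (nat_lit 183)))))) (PT.nd (nat_lit 72150) (PT.nd (nat_lit 71838) (PT.nd (nat_lit 71682) (PT.nd (nat_lit 78) (PT.lf (nat_lit 5244) (nat_lit 6) (nat_lit 69) (nat_lit 0) (nat_lit 301) (nat_lit 297) (nat_lit 182)) (PT.lf (nat_lit 4940) (nat_lit 6) (nat_lit 65) (nat_lit 0) (nat_lit 302) (nat_lit 297) (nat_lit 181))) (PT.nd (nat_lit 78) (PT.lf (nat_lit 4484) (nat_lit 6) (nat_lit 59) (nat_lit 5) (nat_lit 179) (nat_lit 298) (nat_lit 303)) (PT.lf (nat_lit 4712) (nat_lit 6) (nat_lit 62)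 (nat_lit 5) (nat_lit 180) (nat_lit 298) (nat_lit 302)))) (PT.nd (nat_lit 156) (PT.nd (nat_lit 78) (PT.lf (nat_lit 5016) (nat_lit 6) (nat_lit 66) (nat_lit 5) (nat_lit 181) (nat_lit 298) (nat_lit 301)) (PT.lf (nat_lit 5320) (nat_lit 6) (nat_lit 70) (nat_lit 5) (nat_lit 182) (nat_lit 298) (nat_lit 300))) (PT.nd (nat_lit 78) (PT.lf (nat_lit 5624) (nat_lit 6) (nat_lit 74) (nat_lit 5) (nat_lit 183) (nat_lit 298) (nat_lit 299)) (PT.lf (nat_lit 5928) (nat_lit 3) (nat_lit 78) (nat_lit 4) (nat_lit 184) (nat_lit 298) (nat_lit 298))))) (PT.nd (nat_lit 312) (PT.nd (nat_lit 156) (PT.nd (nat_lit 78) (PT.lf (nat_lit 6156) (nat_lit 6) (nat_lit 81) (nat_lit 4) (nat_lit 185) (nat_lit 298) (nat_lit 297)) (PT.lf (nat_lit 6384) (nat_lit 6) (nat_lit 84) (nat_lit 4) (nat_lit 186) (nat_lit 298) (nat_lit 296))) (PT.nd (nat_lit 78) (PT.lf (nat_lit 6612) (nat_lit 6) (nat_lit 87) (nat_lit 4) (nat_lit 187) (nat_lit 298) (nat_lit 295)) (PT.lf (nat_lit 6840) (nat_lit 6) (nat_lit 90) (nat_lit 4) (nat_lit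 188) (nat_lit 298) (nat_lit 294)))) (PT.nd (nat_lit 156) (PT.nd (nat_lit 78) (PT.lf (nat_lit 7144) (nat_lit 6) (nat_lit 94) (nat_lit 4) (nat_lit 189) (nat_lit 298) (nat_lit 293)) (PT.lf (nat_lit 7372) (nat_lit 6) (nat_lit 97) (nat_lit 4) (nat_lit 190) (nat_lit 298) (nat_lit 292))) (PT.nd (nat_lit 7800) (PT.lf (nat_lit 7676) (nat_lit 6) (nat_lit 101) (nat_lit 4) (nat_lit 191) (nat_lit 298) (nat_lit 291)) (PT.nd (nat_lit 78) (PT.lf (nat_lit 7676) (nat_lit 6) (nat_lit 101) (nat_lit 2) (nat_lit 291) (nat_lit 298) (nat_lit 191)) (PT.lf (nat_lit 7372) (nat_lit 6) (nat_lit 97) (nat_lit 2) (nat_lit 292) (nat_lit 298) (nat_lit 190))))))))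
noncomputable def pc121 : PT := (PT.nd (nat_lit 72540) (PT.nd (nat_lit 624) (PT.nd (nat_lit 312) (PT.nd (nat_lit 156) (PT.nd (nat_lit 78) (PT.lf (nat_lit 7144) (nat_lit 6) (nat_lit 94) (nat_lit 2) (nat_lit 293) (nat_lit 298) (nat_lit 189)) (PT.lf (nat_lit 6840) (nat_lit 6) (nat_lit 90) (nat_lit 2) (nat_lit 294) (nat_lit 298) (nat_lit 188))) (PT.nd (nat_lit 78) (PT.lf (nat_lit 6612) (nat_lit 6) (nat_lit 87) (nat_lit 2) (nat_lit 295) (nat_lit 298) (nat_lit 187)) (PT.lf (nat_lit 6384) (nat_lit 6) (nat_lit 84) (nat_lit 2) (nat_lit 296) (nat_lit 298) (nat_lit 186)))) (PT.nd (nat_lit 156) (PT.nd (nat_lit 78) (PT.lf (nat_lit 6156) (nat_lit 6) (nat_lit 81) (nat_lit 2) (nat_lit 297) (nat_lit 298) (nat_lit 185)) (PT.lf (nat_lit 5928) (nat_lit 3) (nat_lit 78) (nat_lit 0) (nat_lit 298) (nat_lit 298) (nat_lit 184))) (PT.nd (nat_lit 78) (PT.lf (nat_lit 5624) (nat_lit 6) (nat_lit 74) (nat_lit 0) (nat_lit 299) (nat_lit 298) (nat_lit 183)) (PT.lf (nat_lit 5320) (nat_lit 6) (nat_lit 70)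 (nat_lit 0) (nat_lit 300) (nat_lit 298) (nat_lit 182))))) (PT.nd (nat_lit 71604) (PT.nd (nat_lit 156) (PT.nd (nat_lit 78) (PT.lf (nat_lit 5016) (nat_lit 6) (nat_lit 66) (nat_lit 0) (nat_lit 301) (nat_lit 298) (nat_lit 181)) (PT.lf (nat_lit 4712) (nat_lit 6) (nat_lit 62) (nat_lit 0) (nat_lit 302) (nat_lit 298) (nat_lit 180))) (PT.nd (nat_lit 71370) (PT.lf (nat_lit 4484) (nat_lit 6) (nat_lit 59) (nat_lit 0) (nat_lit 303) (nat_lit 298) (nat_lit 179)) (PT.lf (nat_lit 4028) (nat_lit 6) (nat_lit 53) (nat_lit 5) (nat_lit 177) (nat_lit 299) (nat_lit 304)))) (PT.nd (nat_lit 156) (PT.nd (nat_lit 78) (PT.lf (nat_lit 4256) (nat_lit 6) (nat_lit 56) (nat_lit 5) (nat_lit 178) (nat_lit 299) (nat_lit 303)) (PT.lf (nat_lit 4560) (nat_lit 6) (nat_lit 60) (nat_lit 5) (nat_lit 179) (nat_lit 299) (nat_lit 302))) (PT.nd (nat_lit 78) (PT.lf (nat_lit 4788) (nat_lit 6) (nat_lit 63) (nat_lit 5) (nat_lit 180) (nat_lit 299) (nat_lit 301)) (PT.lf (nat_lit 5092) (nat_lit 6) (nat_lit 67) (nat_lit 5)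 (nat_lit 181) (nat_lit 299) (nat_lit 300)))))) (PT.nd (nat_lit 8580) (PT.nd (nat_lit 312) (PT.nd (nat_lit 156) (PT.nd (nat_lit 78) (PT.lf (nat_lit 5396) (nat_lit 3) (nat_lit 71) (nat_lit 4) (nat_lit 182) (nat_lit 299) (nat_lit 299)) (PT.lf (nat_lit 5624) (nat_lit 6) (nat_lit 74) (nat_lit 4) (nat_lit 183) (nat_lit 299) (nat_lit 298))) (PT.nd (nat_lit 78) (PT.lf (nat_lit 5852) (nat_lit 6) (nat_lit 77) (nat_lit 4) (nat_lit 184) (nat_lit 299) (nat_lit 297)) (PT.lf (nat_lit 6080) (nat_lit 6) (nat_lit 80) (nat_lit 4) (nat_lit 185) (nat_lit 299) (nat_lit 296)))) (PT.nd (nat_lit 156) (PT.nd (nat_lit 78) (PT.lf (nat_lit 6308) (nat_lit 6) (nat_lit 83) (nat_lit 4) (nat_lit 186) (nat_lit 299) (nat_lit 295)) (PT.lf (nat_lit 6536) (nat_lit 6) (nat_lit 86) (nat_lit 4) (nat_lit 187) (nat_lit 299) (nat_lit 294))) (PT.nd (nat_lit 78) (PT.lf (nat_lit 6764) (nat_lit 6) (nat_lit 89) (nat_lit 4) (nat_lit 188) (nat_lit 299) (nat_lit 293)) (PT.lf (nat_lit 7068) (nat_lit 6) (nat_lit 93) (nat_lit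 4) (nat_lit 189) (nat_lit 299) (nat_lit 292))))) (PT.nd (nat_lit 312) (PT.nd (nat_lit 156) (PT.nd (nat_lit 78) (PT.lf (nat_lit 7068) (nat_lit 6) (nat_lit 93) (nat_lit 2) (nat_lit 292) (nat_lit 299) (nat_lit 189)) (PT.lf (nat_lit 6764) (nat_lit 6) (nat_lit 89) (nat_lit 2) (nat_lit 293) (nat_lit 299) (nat_lit 188))) (PT.nd (nat_lit 78) (PT.lf (nat_lit 6536) (nat_lit 6) (nat_lit 86) (nat_lit 2) (nat_lit 294) (nat_lit 299) (nat_lit 187)) (PT.lf (nat_lit 6308) (nat_lit 6) (nat_lit 83) (nat_lit 2) (nat_lit 295) (nat_lit 299) (nat_lit 186)))) (PT.nd (nat_lit 156) (PT.nd (nat_lit 78) (PT.lf (nat_lit 6080) (nat_lit 6) (nat_lit 80) (nat_lit 2) (nat_lit 296) (nat_lit 299) (nat_lit 185)) (PT.lf (nat_lit 5852) (nat_lit 6) (nat_lit 77) (nat_lit 2) (nat_lit 297) (nat_lit 299) (nat_lit 184))) (PT.nd (nat_lit 78) (PT.lf (nat_lit 5624) (nat_lit 6) (nat_lit 74) (nat_lit 2) (nat_lit 298) (nat_lit 299) (nat_lit 183)) (PT.nd (nat_lit 78) (PT.lf (nat_lit 5396) (nat_lit 3) (nat_lit 71) (nat_lit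 0) (nat_lit 299) (nat_lit 299) (nat_lit 182)) (PT.lf (nat_lit 5092) (nat_lit 6) (nat_lit 67) (nat_lit 0) (nat_lit 300) (nat_lit 299) (nat_lit 181))))))))
noncomputable def pc122 : PT := (PT.nd (nat_lit 80730) (PT.nd (nat_lit 71760) (PT.nd (nat_lit 71448) (PT.nd (nat_lit 156) (PT.nd (nat_lit 78) (PT.lf (nat_lit 4788) (nat_lit 6) (nat_lit 63) (nat_lit 0) (nat_lit 301) (nat_lit 299) (nat_lit 180)) (PT.lf (nat_lit 4560) (nat_lit 6) (nat_lit 60) (nat_lit 0) (nat_lit 302) (nat_lit 299) (nat_lit 179))) (PT.nd (nat_lit 78) (PT.lf (nat_lit 4256) (nat_lit 6) (nat_lit 56) (nat_lit 0) (nat_lit 303) (nat_lit 299) (nat_lit 178)) (PT.lf (nat_lit 4028) (nat_lit 6) (nat_lit 53) (nat_lit 0) (nat_lit 304) (nat_lit 299) (nat_lit 177)))) (PT.nd (nat_lit 156) (PT.nd (nat_lit 78) (PT.lf (nat_lit 3800) (nat_lit 6) (nat_lit 50) (nat_lit 5) (nat_lit 176) (nat_lit 300) (nat_lit 304)) (PT.lf (nat_lit 4104) (nat_lit 6) (nat_lit 54) (nat_lit 5) (nat_lit 177) (nat_lit 300) (nat_lit 303))) (PT.nd (nat_lit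 78) (PT.lf (nat_lit 4332) (nat_lit 6) (nat_lit 57) (nat_lit 5) (nat_lit 178) (nat_lit 300) (nat_lit 302)) (PT.lf (nat_lit 4636) (nat_lit 6) (nat_lit 61) (nat_lit 5) (nat_lit 179) (nat_lit 300) (nat_lit 301))))) (PT.nd (nat_lit 312) (PT.nd (nat_lit 156) (PT.nd (nat_lit 78) (PT.lf (nat_lit 4864) (nat_lit 3) (nat_lit 64) (nat_lit 4) (nat_lit 180) (nat_lit 300) (nat_lit 300)) (PT.lf (nat_lit 5092) (nat_lit 6) (nat_lit 67) (nat_lit 4) (nat_lit 181) (nat_lit 300) (nat_lit 299))) (PT.nd (nat_lit 78) (PT.lf (nat_lit 5320) (nat_lit 6) (nat_lit 70) (nat_lit 4) (nat_lit 182) (nat_lit 300) (nat_lit 298)) (PT.lf (nat_lit 5548) (nat_lit 6) (nat_lit 73) (nat_lit 4) (nat_lit 183) (nat_lit 300) (nat_lit 297)))) (PT.nd (nat_lit 156) (PT.nd (nat_lit 78) (PT.lf (nat_lit 5776) (nat_lit 6) (nat_lit 76) (nat_lit 4) (nat_lit 184) (nat_lit 300) (nat_lit 296)) (PT.lf (nat_lit 6004) (nat_lit 6) (nat_lit 79) (nat_lit 4) (nat_lit 185) (nat_lit 300) (nat_lit 295))) (PT.nd (nat_lit 8424) (PT.lf (nat_lit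 6232) (nat_lit 6) (nat_lit 82) (nat_lit 4) (nat_lit 186) (nat_lit 300) (nat_lit 294)) (PT.lf (nat_lit 6232) (nat_lit 6) (nat_lit 82) (nat_lit 2) (nat_lit 294) (nat_lit 300) (nat_lit 186)))))) (PT.nd (nat_lit 624) (PT.nd (nat_lit 312) (PT.nd (nat_lit 156) (PT.nd (nat_lit 78) (PT.lf (nat_lit 6004) (nat_lit 6) (nat_lit 79) (nat_lit 2) (nat_lit 295) (nat_lit 300) (nat_lit 185)) (PT.lf (nat_lit 5776) (nat_lit 6) (nat_lit 76) (nat_lit 2) (nat_lit 296) (nat_lit 300) (nat_lit 184))) (PT.nd (nat_lit 78) (PT.lf (nat_lit 5548) (nat_lit 6) (nat_lit 73) (nat_lit 2) (nat_lit 297) (nat_lit 300) (nat_lit 183)) (PT.lf (nat_lit 5320) (nat_lit 6) (nat_lit 70) (nat_lit 2) (nat_lit 298) (nat_lit 300) (nat_lit 182)))) (PT.nd (nat_lit 156) (PT.nd (nat_lit 78) (PT.lf (nat_lit 5092) (nat_lit 6) (nat_lit 67) (nat_lit 2) (nat_lit 299) (nat_lit 300) (nat_lit 181)) (PT.lf (nat_lit 4864) (nat_lit 3) (nat_lit 64) (nat_lit 0) (nat_lit 300) (nat_lit 300) (nat_lit 180))) (PT.nd (nat_lit 78) (PT.lf (nat_lit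 4636) (nat_lit 6) (nat_lit 61) (nat_lit 0) (nat_lit 301) (nat_lit 300) (nat_lit 179)) (PT.lf (nat_lit 4332) (nat_lit 6) (nat_lit 57) (nat_lit 0) (nat_lit 302) (nat_lit 300) (nat_lit 178))))) (PT.nd (nat_lit 71292) (PT.nd (nat_lit 71136) (PT.nd (nat_lit 78) (PT.lf (nat_lit 4104) (nat_lit 6) (nat_lit 54) (nat_lit 0) (nat_lit 303) (nat_lit 300) (nat_lit 177)) (PT.lf (nat_lit 3800) (nat_lit 6) (nat_lit 50) (nat_lit 0) (nat_lit 304) (nat_lit 300) (nat_lit 176))) (PT.nd (nat_lit 78) (PT.lf (nat_lit 3344) (nat_lit 6) (nat_lit 44) (nat_lit 5) (nat_lit 174) (nat_lit 301) (nat_lit 305)) (PT.lf (nat_lit 3648) (nat_lit 6) (nat_lit 48) (nat_lit 5) (nat_lit 175) (nat_lit 301) (nat_lit 304)))) (PT.nd (nat_lit 156) (PT.nd (nat_lit 78) (PT.lf (nat_lit 3876) (nat_lit 6) (nat_lit 51) (nat_lit 5) (nat_lit 176) (nat_lit 301) (nat_lit 303)) (PT.lf (nat_lit 4180) (nat_lit 6) (nat_lit 55) (nat_lit 5) (nat_lit 177) (nat_lit 301) (nat_lit 302))) (PT.nd (nat_lit 78) (PT.lf (nat_lit 4408) (nat_lit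 3) (nat_lit 58) (nat_lit 4) (nat_lit 178) (nat_lit 301) (nat_lit 301)) (PT.nd (nat_lit 78) (PT.lf (nat_lit 4636) (nat_lit 6) (nat_lit 61) (nat_lit 4) (nat_lit 179) (nat_lit 301) (nat_lit 300)) (PT.lf (nat_lit 4788) (nat_lit 6) (nat_lit 63) (nat_lit 4) (nat_lit 180) (nat_lit 301) (nat_lit 299))))))))
noncomputable def pc123 : PT := (PT.nd (nat_lit 80652) (PT.nd (nat_lit 9204) (PT.nd (nat_lit 8892) (PT.nd (nat_lit 156) (PT.nd (nat_lit 78) (PT.lf (nat_lit 5016) (nat_lit 6) (nat_lit 66) (nat_lit 4) (nat_lit 181) (nat_lit 301) (nat_lit 298)) (PT.lf (nat_lit 5244) (nat_lit 6) (nat_lit 69) (nat_lit 4) (nat_lit 182) (nat_lit 301) (nat_lit 297))) (PT.nd (nat_lit 78) (PT.lf (nat_lit 5472) (nat_lit 6) (nat_lit 72) (nat_lit 4) (nat_lit 183) (nat_lit 301) (nat_lit 296)) (PT.lf (nat_lit 5700) (nat_lit 6) (nat_lit 75) (nat_lit 4) (nat_lit 184) (nat_lit 301) (nat_lit 295)))) (PT.nd (nat_lit 156) (PT.nd (nat_lit 78) (PT.lf (nat_lit 5700) (nat_lit 6) (nat_lit 75) (nat_lit 2) (nat_lit 295)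 (nat_lit 301) (nat_lit 184)) (PT.lf (nat_lit 5472) (nat_lit 6) (nat_lit 72) (nat_lit 2) (nat_lit 296) (nat_lit 301) (nat_lit 183))) (PT.nd (nat_lit 78) (PT.lf (nat_lit 5244) (nat_lit 6) (nat_lit 69) (nat_lit 2) (nat_lit 297) (nat_lit 301) (nat_lit 182)) (PT.lf (nat_lit 5016) (nat_lit 6) (nat_lit 66) (nat_lit 2) (nat_lit 298) (nat_lit 301) (nat_lit 181))))) (PT.nd (nat_lit 312) (PT.nd (nat_lit 156) (PT.nd (nat_lit 78) (PT.lf (nat_lit 4788) (nat_lit 6) (nat_lit 63) (nat_lit 2) (nat_lit 299) (nat_lit 301) (nat_lit 180)) (PT.lf (nat_lit 4636) (nat_lit 6) (nat_lit 61) (nat_lit 2) (nat_lit 300) (nat_lit 301) (nat_lit 179))) (PT.nd (nat_lit 78) (PT.lf (nat_lit 4408) (nat_lit 3) (nat_lit 58) (nat_lit 0) (nat_lit 301) (nat_lit 301) (nat_lit 178)) (PT.lf (nat_lit 4180) (nat_lit 6) (nat_lit 55) (nat_lit 0) (nat_lit 302) (nat_lit 301) (nat_lit 177)))) (PT.nd (nat_lit 156) (PT.nd (nat_lit 78) (PT.lf (nat_lit 3876) (nat_lit 6) (nat_lit 51) (nat_lit 0) (nat_lit 303) (nat_lit 301) (nat_lit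 176)) (PT.lf (nat_lit 3648) (nat_lit 6) (nat_lit 48) (nat_lit 0) (nat_lit 304) (nat_lit 301) (nat_lit 175))) (PT.nd (nat_lit 70824) (PT.lf (nat_lit 3344) (nat_lit 6) (nat_lit 44) (nat_lit 0) (nat_lit 305) (nat_lit 301) (nat_lit 174)) (PT.nd (nat_lit 78) (PT.lf (nat_lit 2964) (nat_lit 6) (nat_lit 39) (nat_lit 5) (nat_lit 172) (nat_lit 302) (nat_lit 306)) (PT.lf (nat_lit 3192) (nat_lit 6) (nat_lit 42) (nat_lit 5) (nat_lit 173) (nat_lit 302) (nat_lit 305))))))) (PT.nd (nat_lit 9594) (PT.nd (nat_lit 312) (PT.nd (nat_lit 156) (PT.nd (nat_lit 78) (PT.lf (nat_lit 3420) (nat_lit 6) (nat_lit 45) (nat_lit 5) (nat_lit 174) (nat_lit 302) (nat_lit 304)) (PT.lf (nat_lit 3724) (nat_lit 6) (nat_lit 49) (nat_lit 5) (nat_lit 175) (nat_lit 302) (nat_lit 303))) (PT.nd (nat_lit 78) (PT.lf (nat_lit 3952) (nat_lit 3) (nat_lit 52) (nat_lit 4) (nat_lit 176) (nat_lit 302) (nat_lit 302)) (PT.lf (nat_lit 4180) (nat_lit 6) (nat_lit 55) (nat_lit 4) (nat_lit 177) (nat_lit 302) (nat_lit 301)))) (PT.nd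 (nat_lit 156) (PT.nd (nat_lit 78) (PT.lf (nat_lit 4332) (nat_lit 6) (nat_lit 57) (nat_lit 4) (nat_lit 178) (nat_lit 302) (nat_lit 300)) (PT.lf (nat_lit 4560) (nat_lit 6) (nat_lit 60) (nat_lit 4) (nat_lit 179) (nat_lit 302) (nat_lit 299))) (PT.nd (nat_lit 78) (PT.lf (nat_lit 4712) (nat_lit 6) (nat_lit 62) (nat_lit 4) (nat_lit 180) (nat_lit 302) (nat_lit 298)) (PT.lf (nat_lit 4940) (nat_lit 6) (nat_lit 65) (nat_lit 4) (nat_lit 181) (nat_lit 302) (nat_lit 297))))) (PT.nd (nat_lit 312) (PT.nd (nat_lit 156) (PT.nd (nat_lit 78) (PT.lf (nat_lit 4940) (nat_lit 6) (nat_lit 65) (nat_lit 2) (nat_lit 297) (nat_lit 302) (nat_lit 181)) (PT.lf (nat_lit 4712) (nat_lit 6) (nat_lit 62) (nat_lit 2) (nat_lit 298) (nat_lit 302) (nat_lit 180))) (PT.nd (nat_lit 78) (PT.lf (nat_lit 4560) (nat_lit 6) (nat_lit 60) (nat_lit 2) (nat_lit 299) (nat_lit 302) (nat_lit 179)) (PT.lf (nat_lit 4332) (nat_lit 6) (nat_lit 57) (nat_lit 2) (nat_lit 300) (nat_lit 302) (nat_lit 178)))) (PT.nd (nat_lit 156) (PT.nd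 (nat_lit 78) (PT.lf (nat_lit 4180) (nat_lit 6) (nat_lit 55) (nat_lit 2) (nat_lit 301) (nat_lit 302) (nat_lit 177)) (PT.lf (nat_lit 3952) (nat_lit 3) (nat_lit 52) (nat_lit 0) (nat_lit 302) (nat_lit 302) (nat_lit 176))) (PT.nd (nat_lit 78) (PT.lf (nat_lit 3724) (nat_lit 6) (nat_lit 49) (nat_lit 0) (nat_lit 303) (nat_lit 302) (nat_lit 175)) (PT.nd (nat_lit 78) (PT.lf (nat_lit 3420) (nat_lit 6) (nat_lit 45) (nat_lit 0) (nat_lit 304) (nat_lit 302) (nat_lit 174)) (PT.lf (nat_lit 3192) (nat_lit 6) (nat_lit 42) (nat_lit 0) (nat_lit 305) (nat_lit 302) (nat_lit 173))))))))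
noncomputable def pc124 : PT := (PT.nd (nat_lit 81042) (PT.nd (nat_lit 71214) (PT.nd (nat_lit 70902) (PT.nd (nat_lit 70746) (PT.nd (nat_lit 70668) (PT.lf (nat_lit 2964) (nat_lit 6) (nat_lit 39) (nat_lit 0) (nat_lit 306) (nat_lit 302) (nat_lit 172)) (PT.lf (nat_lit 2812) (nat_lit 6) (nat_lit 37) (nat_lit 5) (nat_lit 171) (nat_lit 303) (nat_lit 306))) (PT.nd (nat_lit 78) (PT.lf (nat_lit 3040) (nat_lit 6) (nat_lit 40) (nat_lit 5) (nat_lit 172) (nat_lit 303) (nat_lit 305)) (PT.lf (nat_lit 3268) (nat_lit 6) (nat_lit 43) (nat_lit 5) (nat_lit 173) (nat_lit 303) (nat_lit 304)))) (PT.nd (nat_lit 156) (PT.nd (nat_lit 78) (PT.lf (nat_lit 3496) (nat_lit 3) (nat_lit 46) (nat_lit 4) (nat_lit 174) (nat_lit 303) (nat_lit 303)) (PT.lf (nat_lit 3724) (nat_lit 6) (nat_lit 49) (nat_lit 4) (nat_lit 175) (nat_lit 303) (nat_lit 302))) (PT.nd (nat_lit 78) (PT.lf (nat_lit 3876) (nat_lit 6) (nat_lit 51) (nat_lit 4) (nat_lit 176) (nat_lit 303) (nat_lit 301)) (PT.lf (nat_lit 4104) (nat_lit 6) (nat_lit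 54) (nat_lit 4) (nat_lit 177) (nat_lit 303) (nat_lit 300))))) (PT.nd (nat_lit 9516) (PT.nd (nat_lit 9360) (PT.nd (nat_lit 78) (PT.lf (nat_lit 4256) (nat_lit 6) (nat_lit 56) (nat_lit 4) (nat_lit 178) (nat_lit 303) (nat_lit 299)) (PT.lf (nat_lit 4484) (nat_lit 6) (nat_lit 59) (nat_lit 4) (nat_lit 179) (nat_lit 303) (nat_lit 298))) (PT.nd (nat_lit 78) (PT.lf (nat_lit 4484) (nat_lit 6) (nat_lit 59) (nat_lit 2) (nat_lit 298) (nat_lit 303) (nat_lit 179)) (PT.lf (nat_lit 4256) (nat_lit 6) (nat_lit 56) (nat_lit 2) (nat_lit 299) (nat_lit 303) (nat_lit 178)))) (PT.nd (nat_lit 156) (PT.nd (nat_lit 78) (PT.lf (nat_lit 4104) (nat_lit 6) (nat_lit 54) (nat_lit 2) (nat_lit 300) (nat_lit 303) (nat_lit 177)) (PT.lf (nat_lit 3876) (nat_lit 6) (nat_lit 51) (nat_lit 2) (nat_lit 301) (nat_lit 303) (nat_lit 176))) (PT.nd (nat_lit 78) (PT.lf (nat_lit 3724) (nat_lit 6) (nat_lit 49) (nat_lit 2) (nat_lit 302) (nat_lit 303) (nat_lit 175)) (PT.lf (nat_lit 3496) (nat_lit 3) (nat_lit 46) (nat_lit 0)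 (nat_lit 303) (nat_lit 303) (nat_lit 174)))))) (PT.nd (nat_lit 71058) (PT.nd (nat_lit 70746) (PT.nd (nat_lit 156) (PT.nd (nat_lit 78) (PT.lf (nat_lit 3268) (nat_lit 6) (nat_lit 43) (nat_lit 0) (nat_lit 304) (nat_lit 303) (nat_lit 173)) (PT.lf (nat_lit 3040) (nat_lit 6) (nat_lit 40) (nat_lit 0) (nat_lit 305) (nat_lit 303) (nat_lit 172))) (PT.nd (nat_lit 70512) (PT.lf (nat_lit 2812) (nat_lit 6) (nat_lit 37) (nat_lit 0) (nat_lit 306) (nat_lit 303) (nat_lit 171)) (PT.lf (nat_lit 2432) (nat_lit 6) (nat_lit 32) (nat_lit 5) (nat_lit 169) (nat_lit 304) (nat_lit 307)))) (PT.nd (nat_lit 156) (PT.nd (nat_lit 78) (PT.lf (nat_lit 2660) (nat_lit 6) (nat_lit 35) (nat_lit 5) (nat_lit 170) (nat_lit 304) (nat_lit 306)) (PT.lf (nat_lit 2888) (nat_lit 6) (nat_lit 38) (nat_lit 5) (nat_lit 171) (nat_lit 304) (nat_lit 305))) (PT.nd (nat_lit 78) (PT.lf (nat_lit 3116) (nat_lit 3) (nat_lit 41) (nat_lit 4) (nat_lit 172) (nat_lit 304) (nat_lit 304)) (PT.lf (nat_lit 3268) (nat_lit 6) (nat_lit 43)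 (nat_lit 4) (nat_lit 173) (nat_lit 304) (nat_lit 303))))) (PT.nd (nat_lit 9750) (PT.nd (nat_lit 156) (PT.nd (nat_lit 78) (PT.lf (nat_lit 3420) (nat_lit 6) (nat_lit 45) (nat_lit 4) (nat_lit 174) (nat_lit 304) (nat_lit 302)) (PT.lf (nat_lit 3648) (nat_lit 6) (nat_lit 48) (nat_lit 4) (nat_lit 175) (nat_lit 304) (nat_lit 301))) (PT.nd (nat_lit 78) (PT.lf (nat_lit 3800) (nat_lit 6) (nat_lit 50) (nat_lit 4) (nat_lit 176) (nat_lit 304) (nat_lit 300)) (PT.lf (nat_lit 4028) (nat_lit 6) (nat_lit 53) (nat_lit 4) (nat_lit 177) (nat_lit 304) (nat_lit 299)))) (PT.nd (nat_lit 156) (PT.nd (nat_lit 78) (PT.lf (nat_lit 4028) (nat_lit 6) (nat_lit 53) (nat_lit 2) (nat_lit 299) (nat_lit 304) (nat_lit 177)) (PT.lf (nat_lit 3800) (nat_lit 6) (nat_lit 50) (nat_lit 2) (nat_lit 300) (nat_lit 304) (nat_lit 176))) (PT.nd (nat_lit 78) (PT.lf (nat_lit 3648) (nat_lit 6) (nat_lit 48) (nat_lit 2) (nat_lit 301) (nat_lit 304) (nat_lit 175)) (PT.nd (nat_lit 78) (PT.lf (nat_lit 3420) (nat_lit 6) (nat_lit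 45) (nat_lit 2) (nat_lit 302) (nat_lit 304) (nat_lit 174)) (PT.lf (nat_lit 3268) (nat_lit 6) (nat_lit 43) (nat_lit 2) (nat_lit 303) (nat_lit 304) (nat_lit 173))))))))
noncomputable def pc125 : PT := (PT.nd (nat_lit 81276) (PT.nd (nat_lit 70824) (PT.nd (nat_lit 70512) (PT.nd (nat_lit 156) (PT.nd (nat_lit 78) (PT.lf (nat_lit 3116) (nat_lit 3) (nat_lit 41) (nat_lit 0) (nat_lit 304) (nat_lit 304) (nat_lit 172)) (PT.lf (nat_lit 2888) (nat_lit 6) (nat_lit 38) (nat_lit 0) (nat_lit 305) (nat_lit 304) (nat_lit 171))) (PT.nd (nat_lit 78) (PT.lf (nat_lit 2660) (nat_lit 6) (nat_lit 35) (nat_lit 0) (nat_lit 306) (nat_lit 304) (nat_lit 170)) (PT.lf (nat_lit 2432) (nat_lit 6) (nat_lit 32) (nat_lit 0) (nat_lit 307) (nat_lit 304) (nat_lit 169)))) (PT.nd (nat_lit 156) (PT.nd (nat_lit 78) (PT.lf (nat_lit 2052) (nat_lit 6) (nat_lit 27) (nat_lit 5) (nat_lit 167) (nat_lit 305) (nat_lit 308)) (PT.lf (nat_lit 2280) (nat_lit 6) (nat_lit 30) (nat_lit 5) (nat_lit 168) (nat_lit 305) (nat_lit 307)))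 (PT.nd (nat_lit 78) (PT.lf (nat_lit 2508) (nat_lit 6) (nat_lit 33) (nat_lit 5) (nat_lit 169) (nat_lit 305) (nat_lit 306)) (PT.lf (nat_lit 2736) (nat_lit 3) (nat_lit 36) (nat_lit 4) (nat_lit 170) (nat_lit 305) (nat_lit 305))))) (PT.nd (nat_lit 10140) (PT.nd (nat_lit 156) (PT.nd (nat_lit 78) (PT.lf (nat_lit 2888) (nat_lit 6) (nat_lit 38) (nat_lit 4) (nat_lit 171) (nat_lit 305) (nat_lit 304)) (PT.lf (nat_lit 3040) (nat_lit 6) (nat_lit 40) (nat_lit 4) (nat_lit 172) (nat_lit 305) (nat_lit 303))) (PT.nd (nat_lit 78) (PT.lf (nat_lit 3192) (nat_lit 6) (nat_lit 42) (nat_lit 4) (nat_lit 173) (nat_lit 305) (nat_lit 302)) (PT.lf (nat_lit 3344) (nat_lit 6) (nat_lit 44) (nat_lit 4) (nat_lit 174) (nat_lit 305) (nat_lit 301)))) (PT.nd (nat_lit 156) (PT.nd (nat_lit 78) (PT.lf (nat_lit 3344) (nat_lit 6) (nat_lit 44) (nat_lit 2) (nat_lit 301) (nat_lit 305) (nat_lit 174)) (PT.lf (nat_lit 3192) (nat_lit 6) (nat_lit 42) (nat_lit 2) (nat_lit 302) (nat_lit 305) (nat_lit 173))) (PT.nd (nat_lit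 78) (PT.lf (nat_lit 3040) (nat_lit 6) (nat_lit 40) (nat_lit 2) (nat_lit 303) (nat_lit 305) (nat_lit 172)) (PT.lf (nat_lit 2888) (nat_lit 6) (nat_lit 38) (nat_lit 2) (nat_lit 304) (nat_lit 305) (nat_lit 171)))))) (PT.nd (nat_lit 70590) (PT.nd (nat_lit 70278) (PT.nd (nat_lit 156) (PT.nd (nat_lit 78) (PT.lf (nat_lit 2736) (nat_lit 3) (nat_lit 36) (nat_lit 0) (nat_lit 305) (nat_lit 305) (nat_lit 170)) (PT.lf (nat_lit 2508) (nat_lit 6) (nat_lit 33) (nat_lit 0) (nat_lit 306) (nat_lit 305) (nat_lit 169))) (PT.nd (nat_lit 78) (PT.lf (nat_lit 2280) (nat_lit 6) (nat_lit 30) (nat_lit 0) (nat_lit 307) (nat_lit 305) (nat_lit 168)) (PT.lf (nat_lit 2052) (nat_lit 6) (nat_lit 27) (nat_lit 0) (nat_lit 308) (nat_lit 305) (nat_lit 167)))) (PT.nd (nat_lit 156) (PT.nd (nat_lit 78) (PT.lf (nat_lit 1748) (nat_lit 6) (nat_lit 23) (nat_lit 5) (nat_lit 165) (nat_lit 306) (nat_lit 309)) (PT.lf (nat_lit 1900) (nat_lit 6) (nat_lit 25) (nat_lit 5) (nat_lit 166) (nat_lit 306) (nat_lit 308))) (PT.nd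 (nat_lit 78) (PT.lf (nat_lit 2128) (nat_lit 6) (nat_lit 28) (nat_lit 5) (nat_lit 167) (nat_lit 306) (nat_lit 307)) (PT.lf (nat_lit 2356) (nat_lit 3) (nat_lit 31) (nat_lit 4) (nat_lit 168) (nat_lit 306) (nat_lit 306))))) (PT.nd (nat_lit 10374) (PT.nd (nat_lit 156) (PT.nd (nat_lit 78) (PT.lf (nat_lit 2508) (nat_lit 6) (nat_lit 33) (nat_lit 4) (nat_lit 169) (nat_lit 306) (nat_lit 305)) (PT.lf (nat_lit 2660) (nat_lit 6) (nat_lit 35) (nat_lit 4) (nat_lit 170) (nat_lit 306) (nat_lit 304))) (PT.nd (nat_lit 78) (PT.lf (nat_lit 2812) (nat_lit 6) (nat_lit 37) (nat_lit 4) (nat_lit 171) (nat_lit 306) (nat_lit 303)) (PT.lf (nat_lit 2964) (nat_lit 6) (nat_lit 39) (nat_lit 4) (nat_lit 172) (nat_lit 306) (nat_lit 302)))) (PT.nd (nat_lit 156) (PT.nd (nat_lit 78) (PT.lf (nat_lit 2964) (nat_lit 6) (nat_lit 39) (nat_lit 2) (nat_lit 302) (nat_lit 306) (nat_lit 172)) (PT.lf (nat_lit 2812) (nat_lit 6) (nat_lit 37) (nat_lit 2) (nat_lit 303) (nat_lit 306) (nat_lit 171))) (PT.nd (nat_lit 78) (PT.lf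 (nat_lit 2660) (nat_lit 6) (nat_lit 35) (nat_lit 2) (nat_lit 304) (nat_lit 306) (nat_lit 170)) (PT.nd (nat_lit 78) (PT.lf (nat_lit 2508) (nat_lit 6) (nat_lit 33) (nat_lit 2) (nat_lit 305) (nat_lit 306) (nat_lit 169)) (PT.lf (nat_lit 2356) (nat_lit 3) (nat_lit 31) (nat_lit 0) (nat_lit 306) (nat_lit 306) (nat_lit 168))))))))
noncomputable def pc126 : PT := (PT.nd (nat_lit 151164) (PT.nd (nat_lit 70434) (PT.nd (nat_lit 70122) (PT.nd (nat_lit 156) (PT.nd (nat_lit 78) (PT.lf (nat_lit 2128) (nat_lit 6) (nat_lit 28) (nat_lit 0) (nat_lit 307) (nat_lit 306) (nat_lit 167)) (PT.lf (nat_lit 1900) (nat_lit 6) (nat_lit 25) (nat_lit 0) (nat_lit 308) (nat_lit 306) (nat_lit 166))) (PT.nd (nat_lit 69888) (PT.lf (nat_lit 1748) (nat_lit 6) (nat_lit 23) (nat_lit 0) (nat_lit 309) (nat_lit 306) (nat_lit 165)) (PT.lf (nat_lit 1596) (nat_lit 6) (nat_lit 21) (nat_lit 5) (nat_lit 164) (nat_lit 307) (nat_lit 309)))) (PT.nd (nat_lit 156) (PT.nd (nat_lit 78) (PT.lf (nat_lit 1824) (nat_lit 6) (nat_lit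 24) (nat_lit 5) (nat_lit 165) (nat_lit 307) (nat_lit 308)) (PT.lf (nat_lit 1976) (nat_lit 3) (nat_lit 26) (nat_lit 4) (nat_lit 166) (nat_lit 307) (nat_lit 307))) (PT.nd (nat_lit 78) (PT.lf (nat_lit 2128) (nat_lit 6) (nat_lit 28) (nat_lit 4) (nat_lit 167) (nat_lit 307) (nat_lit 306)) (PT.lf (nat_lit 2280) (nat_lit 6) (nat_lit 30) (nat_lit 4) (nat_lit 168) (nat_lit 307) (nat_lit 305))))) (PT.nd (nat_lit 10764) (PT.nd (nat_lit 10608) (PT.nd (nat_lit 10530) (PT.lf (nat_lit 2432) (nat_lit 6) (nat_lit 32) (nat_lit 4) (nat_lit 169) (nat_lit 307) (nat_lit 304)) (PT.lf (nat_lit 2432) (nat_lit 6) (nat_lit 32) (nat_lit 2) (nat_lit 304) (nat_lit 307) (nat_lit 169))) (PT.nd (nat_lit 78) (PT.lf (nat_lit 2280) (nat_lit 6) (nat_lit 30) (nat_lit 2) (nat_lit 305) (nat_lit 307) (nat_lit 168)) (PT.lf (nat_lit 2128) (nat_lit 6) (nat_lit 28) (nat_lit 2) (nat_lit 306) (nat_lit 307) (nat_lit 167)))) (PT.nd (nat_lit 156) (PT.nd (nat_lit 78) (PT.lf (nat_lit 1976) (nat_lit 3) (nat_lit 26) (nat_lit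 0) (nat_lit 307) (nat_lit 307) (nat_lit 166)) (PT.lf (nat_lit 1824) (nat_lit 6) (nat_lit 24) (nat_lit 0) (nat_lit 308) (nat_lit 307) (nat_lit 165))) (PT.nd (nat_lit 69732) (PT.lf (nat_lit 1596) (nat_lit 6) (nat_lit 21) (nat_lit 0) (nat_lit 309) (nat_lit 307) (nat_lit 164)) (PT.lf (nat_lit 1292) (nat_lit 6) (nat_lit 17) (nat_lit 5) (nat_lit 162) (nat_lit 308) (nat_lit 310)))))) (PT.nd (nat_lit 11310) (PT.nd (nat_lit 312) (PT.nd (nat_lit 156) (PT.nd (nat_lit 78) (PT.lf (nat_lit 1520) (nat_lit 6) (nat_lit 20) (nat_lit 5) (nat_lit 163) (nat_lit 308) (nat_lit 309)) (PT.lf (nat_lit 1672) (nat_lit 3) (nat_lit 22) (nat_lit 4) (nat_lit 164) (nat_lit 308) (nat_lit 308))) (PT.nd (nat_lit 78) (PT.lf (nat_lit 1824) (nat_lit 6) (nat_lit 24) (nat_lit 4) (nat_lit 165) (nat_lit 308) (nat_lit 307)) (PT.lf (nat_lit 1900) (nat_lit 6) (nat_lit 25) (nat_lit 4) (nat_lit 166) (nat_lit 308) (nat_lit 306)))) (PT.nd (nat_lit 10842) (PT.nd (nat_lit 10764) (PT.lf (nat_lit 2052) (nat_lit 6) (nat_lit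 27) (nat_lit 4) (nat_lit 167) (nat_lit 308) (nat_lit 305)) (PT.lf (nat_lit 2052) (nat_lit 6) (nat_lit 27) (nat_lit 2) (nat_lit 305) (nat_lit 308) (nat_lit 167))) (PT.nd (nat_lit 78) (PT.lf (nat_lit 1900) (nat_lit 6) (nat_lit 25) (nat_lit 2) (nat_lit 306) (nat_lit 308) (nat_lit 166)) (PT.lf (nat_lit 1824) (nat_lit 6) (nat_lit 24) (nat_lit 2) (nat_lit 307) (nat_lit 308) (nat_lit 165))))) (PT.nd (nat_lit 69732) (PT.nd (nat_lit 156) (PT.nd (nat_lit 78) (PT.lf (nat_lit 1672) (nat_lit 3) (nat_lit 22) (nat_lit 0) (nat_lit 308) (nat_lit 308) (nat_lit 164)) (PT.lf (nat_lit 1520) (nat_lit 6) (nat_lit 20) (nat_lit 0) (nat_lit 309) (nat_lit 308) (nat_lit 163))) (PT.nd (nat_lit 69498) (PT.lf (nat_lit 1292) (nat_lit 6) (nat_lit 17) (nat_lit 0) (nat_lit 310) (nat_lit 308) (nat_lit 162)) (PT.lf (nat_lit 988) (nat_lit 6) (nat_lit 13) (nat_lit 5) (nat_lit 160) (nat_lit 309) (nat_lit 311)))) (PT.nd (nat_lit 156) (PT.nd (nat_lit 78) (PT.lf (nat_lit 1216) (nat_lit 6) (nat_lit 16) (nat_lit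 5) (nat_lit 161) (nat_lit 309) (nat_lit 310)) (PT.lf (nat_lit 1368) (nat_lit 3) (nat_lit 18) (nat_lit 4) (nat_lit 162) (nat_lit 309) (nat_lit 309))) (PT.nd (nat_lit 78) (PT.lf (nat_lit 1520) (nat_lit 6) (nat_lit 20) (nat_lit 4) (nat_lit 163) (nat_lit 309) (nat_lit 308)) (PT.nd (nat_lit 78) (PT.lf (nat_lit 1596) (nat_lit 6) (nat_lit 21) (nat_lit 4) (nat_lit 164) (nat_lit 309) (nat_lit 307)) (PT.lf (nat_lit 1748) (nat_lit 6) (nat_lit 23) (nat_lit 4) (nat_lit 165) (nat_lit 309) (nat_lit 306))))))))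
noncomputable def pc127 : PT := (PT.nd (nat_lit 150852) (PT.nd (nat_lit 69810) (PT.nd (nat_lit 312) (PT.nd (nat_lit 156) (PT.nd (nat_lit 78) (PT.lf (nat_lit 1748) (nat_lit 6) (nat_lit 23) (nat_lit 2) (nat_lit 306) (nat_lit 309) (nat_lit 165)) (PT.lf (nat_lit 1596) (nat_lit 6) (nat_lit 21) (nat_lit 2) (nat_lit 307) (nat_lit 309) (nat_lit 164))) (PT.nd (nat_lit 78) (PT.lf (nat_lit 1520) (nat_lit 6) (nat_lit 20) (nat_lit 2) (nat_lit 308) (nat_lit 309) (nat_lit 163)) (PT.lf (nat_lit 1368) (nat_lit 3) (nat_lit 18) (nat_lit 0) (nat_lit 309) (nat_lit 309) (nat_lit 162)))) (PT.nd (nat_lit 69342) (PT.nd (nat_lit 78) (PT.lf (nat_lit 1216) (nat_lit 6) (nat_lit 16) (nat_lit 0) (nat_lit 310) (nat_lit 309) (nat_lit 161)) (PT.lf (nat_lit 988) (nat_lit 6) (nat_lit 13) (nat_lit 0) (nat_lit 311) (nat_lit 309) (nat_lit 160))) (PT.nd (nat_lit 78) (PT.lf (nat_lit 760) (nat_lit 6) (nat_lit 10) (nat_lit 5) (nat_lit 158) (nat_lit 310) (nat_lit 312)) (PT.lf (nat_lit 912) (nat_lit 6) (nat_lit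 12) (nat_lit 5) (nat_lit 159) (nat_lit 310) (nat_lit 311))))) (PT.nd (nat_lit 11622) (PT.nd (nat_lit 156) (PT.nd (nat_lit 78) (PT.lf (nat_lit 1064) (nat_lit 3) (nat_lit 14) (nat_lit 4) (nat_lit 160) (nat_lit 310) (nat_lit 310)) (PT.lf (nat_lit 1216) (nat_lit 6) (nat_lit 16) (nat_lit 4) (nat_lit 161) (nat_lit 310) (nat_lit 309))) (PT.nd (nat_lit 11388) (PT.lf (nat_lit 1292) (nat_lit 6) (nat_lit 17) (nat_lit 4) (nat_lit 162) (nat_lit 310) (nat_lit 308)) (PT.lf (nat_lit 1292) (nat_lit 6) (nat_lit 17) (nat_lit 2) (nat_lit 308) (nat_lit 310) (nat_lit 162)))) (PT.nd (nat_lit 156) (PT.nd (nat_lit 78) (PT.lf (nat_lit 1216) (nat_lit 6) (nat_lit 16) (nat_lit 2) (nat_lit 309) (nat_lit 310) (nat_lit 161)) (PT.lf (nat_lit 1064) (nat_lit 3) (nat_lit 14) (nat_lit 0) (nat_lit 310) (nat_lit 310) (nat_lit 160))) (PT.nd (nat_lit 78) (PT.lf (nat_lit 912) (nat_lit 6) (nat_lit 12) (nat_lit 0) (nat_lit 311) (nat_lit 310) (nat_lit 159)) (PT.nd (nat_lit 69108) (PT.lf (nat_lit 760) (nat_lit 6)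 (nat_lit 10) (nat_lit 0) (nat_lit 312) (nat_lit 310) (nat_lit 158)) (PT.lf (nat_lit 684) (nat_lit 6) (nat_lit 9) (nat_lit 5) (nat_lit 157) (nat_lit 311) (nat_lit 312))))))) (PT.nd (nat_lit 81198) (PT.nd (nat_lit 11856) (PT.nd (nat_lit 156) (PT.nd (nat_lit 78) (PT.lf (nat_lit 836) (nat_lit 3) (nat_lit 11) (nat_lit 4) (nat_lit 158) (nat_lit 311) (nat_lit 311)) (PT.lf (nat_lit 912) (nat_lit 6) (nat_lit 12) (nat_lit 4) (nat_lit 159) (nat_lit 311) (nat_lit 310))) (PT.nd (nat_lit 11622) (PT.lf (nat_lit 988) (nat_lit 6) (nat_lit 13) (nat_lit 4) (nat_lit 160) (nat_lit 311) (nat_lit 309)) (PT.lf (nat_lit 988) (nat_lit 6) (nat_lit 13) (nat_lit 2) (nat_lit 309) (nat_lit 311) (nat_lit 160)))) (PT.nd (nat_lit 156) (PT.nd (nat_lit 78) (PT.lf (nat_lit 912) (nat_lit 6) (nat_lit 12) (nat_lit 2) (nat_lit 310) (nat_lit 311) (nat_lit 159)) (PT.lf (nat_lit 836) (nat_lit 3) (nat_lit 11) (nat_lit 0) (nat_lit 311) (nat_lit 311) (nat_lit 158))) (PT.nd (nat_lit 69108) (PT.lf (nat_lit 684) (nat_lit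 6) (nat_lit 9) (nat_lit 0) (nat_lit 312) (nat_lit 311) (nat_lit 157)) (PT.lf (nat_lit 684) (nat_lit 6) (nat_lit 9) (nat_lit 4) (nat_lit 157) (nat_lit 312) (nat_lit 311))))) (PT.nd (nat_lit 2025894) (PT.nd (nat_lit 11934) (PT.nd (nat_lit 11856) (PT.lf (nat_lit 760) (nat_lit 6) (nat_lit 10) (nat_lit 4) (nat_lit 158) (nat_lit 312) (nat_lit 310)) (PT.lf (nat_lit 760) (nat_lit 6) (nat_lit 10) (nat_lit 2) (nat_lit 310) (nat_lit 312) (nat_lit 158))) (PT.nd (nat_lit 2013882) (PT.lf (nat_lit 684) (nat_lit 6) (nat_lit 9) (nat_lit 2) (nat_lit 311) (nat_lit 312) (nat_lit 157)) (PT.lf (nat_lit 76) (nat_lit 6) (nat_lit 1) (nat_lit 5) (nat_lit 105) (nat_lit 337) (nat_lit 338)))) (PT.nd (nat_lit 18096) (PT.nd (nat_lit 18018) (PT.lf (nat_lit 152) (nat_lit 3) (nat_lit 2) (nat_lit 4) (nat_lit 106) (nat_lit 337) (nat_lit 337)) (PT.lf (nat_lit 152) (nat_lit 3) (nat_lit 2) (nat_lit 0) (nat_lit 337) (nat_lit 337) (nat_lit 106))) (PT.nd (nat_lit 63024) (PT.lf (nat_lit 76) (nat_lit 6) (nat_lit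 1) (nat_lit 0) (nat_lit 338) (nat_lit 337) (nat_lit 105)) (PT.nd (nat_lit 18096) (PT.lf (nat_lit 76) (nat_lit 6) (nat_lit 1) (nat_lit 4) (nat_lit 105) (nat_lit 338) (nat_lit 337)) (PT.lf (nat_lit 76) (nat_lit 6) (nat_lit 1) (nat_lit 2) (nat_lit 337) (nat_lit 338) (nat_lit 105))))))))
noncomputable def xc0 : XT := (XT.nd (nat_lit 324558) (nat_lit 152) (nat_lit 0) (XT.nd (nat_lit 243126) (nat_lit 0) (nat_lit 0) (XT.nd (nat_lit 162084) (nat_lit 0) (nat_lit 0) (XT.nd (nat_lit 81120) (nat_lit 0) (nat_lit 0) (XT.nd (nat_lit 80964) (nat_lit 0) (nat_lit 304) (XT.lf (nat_lit 0) (nat_lit 5854207441) (nat_lit 152) (nat_lit 5115032097) (nat_lit 152) (nat_lit 4783108771) (nat_lit 14) (nat_lit 4) (nat_lit 16) (nat_lit 5) (nat_lit 16) (nat_lit 4) (nat_lit 649) (nat_lit 456) (nat_lit 455)) (XT.nd (nat_lit 78) (nat_lit 152) (nat_lit 0) (XT.lf (nat_lit 0) (nat_lit 3742944524) (nat_lit 152) (nat_lit 128734733) (nat_lit 0) (nat_lit 3742944524) (nat_lit 20) (nat_lit 5) (nat_lit 22) (nat_lit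 4) (nat_lit 20) (nat_lit 4) (nat_lit 646) (nat_lit 457) (nat_lit 457)) (XT.lf (nat_lit 0) (nat_lit 12068584684) (nat_lit 152) (nat_lit 1838942251) (nat_lit 152) (nat_lit 1493609222) (nat_lit 18) (nat_lit 4) (nat_lit 20) (nat_lit 5) (nat_lit 20) (nat_lit 4) (nat_lit 647) (nat_lit 457) (nat_lit 456)))) (XT.nd (nat_lit 78) (nat_lit 152) (nat_lit 0) (XT.lf (nat_lit 0) (nat_lit 4817624534) (nat_lit 152) (nat_lit 6611057339) (nat_lit 0) (nat_lit 4147139414) (nat_lit 16) (nat_lit 5) (nat_lit 18) (nat_lit 4) (nat_lit 16) (nat_lit 4) (nat_lit 648) (nat_lit 457) (nat_lit 455)) (XT.nd (nat_lit 80808) (nat_lit 0) (nat_lit 608) (XT.lf (nat_lit 0) (nat_lit 5690010379) (nat_lit 152) (nat_lit 5529998299) (nat_lit 152) (nat_lit 4534098154) (nat_lit 14) (nat_lit 4) (nat_lit 16) (nat_lit 5) (nat_lit 16) (nat_lit 4) (nat_lit 649) (nat_lit 457) (nat_lit 454)) (XT.lf (nat_lit 0) (nat_lit 2788292093) (nat_lit 152) (nat_lit 2329422638) (nat_lit 152) (nat_lit 2329422638) (nat_lit 22) (nat_lit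 4) (nat_lit 24) (nat_lit 5) (nat_lit 24) (nat_lit 4) (nat_lit 644) (nat_lit 458) (nat_lit 458))))) (XT.nd (nat_lit 234) (nat_lit 304) (nat_lit 0) (XT.nd (nat_lit 78) (nat_lit 152) (nat_lit 0) (XT.lf (nat_lit 0) (nat_lit 1533941579) (nat_lit 152) (nat_lit 12345257915) (nat_lit 0) (nat_lit 1181701890) (nat_lit 20) (nat_lit 5) (nat_lit 22) (nat_lit 4) (nat_lit 20) (nat_lit 4) (nat_lit 645) (nat_lit 458) (nat_lit 457)) (XT.nd (nat_lit 78) (nat_lit 152) (nat_lit 0) (XT.lf (nat_lit 0) (nat_lit 7795064247) (nat_lit 152) (nat_lit 337554479) (nat_lit 0) (nat_lit 7097491529) (nat_lit 20) (nat_lit 5) (nat_lit 22) (nat_lit 4) (nat_lit 20) (nat_lit 4) (nat_lit 646) (nat_lit 458) (nat_lit 456)) (XT.lf (nat_lit 0) (nat_lit 11907877246) (nat_lit 152) (nat_lit 2265561380) (nat_lit 152) (nat_lit 1229426868) (nat_lit 18) (nat_lit 4) (nat_lit 20) (nat_lit 5) (nat_lit 20) (nat_lit 4) (nat_lit 647) (nat_lit 458) (nat_lit 455)))) (XT.nd (nat_lit 78) (nat_lit 152) (nat_lit 0) (XT.lf (nat_lit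 0) (nat_lit 5031562505) (nat_lit 152) (nat_lit 6856561397) (nat_lit 0) (nat_lit 3690329331) (nat_lit 16) (nat_lit 5) (nat_lit 18) (nat_lit 4) (nat_lit 16) (nat_lit 4) (nat_lit 648) (nat_lit 458) (nat_lit 454)) (XT.nd (nat_lit 80652) (nat_lit 0) (nat_lit 912) (XT.lf (nat_lit 0) (nat_lit 5361551864) (nat_lit 152) (nat_lit 6028170108) (nat_lit 152) (nat_lit 4367902594) (nat_lit 14) (nat_lit 4) (nat_lit 16) (nat_lit 5) (nat_lit 16) (nat_lit 4) (nat_lit 649) (nat_lit 458) (nat_lit 453)) (XT.lf (nat_lit 0) (nat_lit 5469888999) (nat_lit 152) (nat_lit 907621009) (nat_lit 152) (nat_lit 907621009) (nat_lit 26) (nat_lit 4) (nat_lit 28) (nat_lit 5) (nat_lit 28) (nat_lit 4) (nat_lit 642) (nat_lit 459) (nat_lit 459)))))) (XT.nd (nat_lit 468) (nat_lit 152) (nat_lit 0) (XT.nd (nat_lit 234) (nat_lit 304) (nat_lit 0) (XT.nd (nat_lit 78) (nat_lit 304) (nat_lit 0) (XT.lf (nat_lit 0) (nat_lit 4329250998) (nat_lit 152) (nat_lit 6439043394) (nat_lit 0) (nat_lit 3962780825) (nat_lit 24) (nat_lit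 5) (nat_lit 26) (nat_lit 4) (nat_lit 24) (nat_lit 4) (nat_lit 643) (nat_lit 459) (nat_lit 458)) (XT.nd (nat_lit 78) (nat_lit 152) (nat_lit 0) (XT.lf (nat_lit 0) (nat_lit 5497167933) (nat_lit 152) (nat_lit 5061860176) (nat_lit 152) (nat_lit 4336105519) (nat_lit 22) (nat_lit 4) (nat_lit 24) (nat_lit 5) (nat_lit 24) (nat_lit 4) (nat_lit 644) (nat_lit 459) (nat_lit 457)) (XT.lf (nat_lit 0) (nat_lit 1806235792) (nat_lit 152) (nat_lit 12507029640) (nat_lit 0) (nat_lit 749378590) (nat_lit 20) (nat_lit 5) (nat_lit 22) (nat_lit 4) (nat_lit 20) (nat_lit 4) (nat_lit 645) (nat_lit 459) (nat_lit 456)))) (XT.nd (nat_lit 78) (nat_lit 304) (nat_lit 0) (XT.lf (nat_lit 0) (nat_lit 8025138371) (nat_lit 152) (nat_lit 577840922) (nat_lit 0) (nat_lit 6629719376) (nat_lit 20) (nat_lit 5) (nat_lit 22) (nat_lit 4) (nat_lit 20) (nat_lit 4) (nat_lit 646) (nat_lit 459) (nat_lit 455)) (XT.nd (nat_lit 78) (nat_lit 152) (nat_lit 0) (XT.lf (nat_lit 0) (nat_lit 11586399349) (nat_lit 152) (nat_lit 2773633909)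 (nat_lit 152) (nat_lit 1046291588) (nat_lit 18) (nat_lit 4) (nat_lit 20) (nat_lit 5) (nat_lit 20) (nat_lit 4) (nat_lit 647) (nat_lit 459) (nat_lit 454)) (XT.lf (nat_lit 0) (nat_lit 5164753180) (nat_lit 152) (nat_lit 7265841799) (nat_lit 0) (nat_lit 3152245977) (nat_lit 16) (nat_lit 5) (nat_lit 18) (nat_lit 4) (nat_lit 16) (nat_lit 4) (nat_lit 648) (nat_lit 459) (nat_lit 453))))) (XT.nd (nat_lit 80652) (nat_lit 0) (nat_lit 456) (XT.nd (nat_lit 80496) (nat_lit 0) (nat_lit 1064) (XT.lf (nat_lit 0) (nat_lit 4868703089) (nat_lit 152) (nat_lit 6609742885) (nat_lit 152) (nat_lit 4284456918) (nat_lit 14) (nat_lit 4) (nat_lit 16) (nat_lit 5) (nat_lit 16) (nat_lit 4) (nat_lit 649) (nat_lit 459) (nat_lit 452)) (XT.nd (nat_lit 78) (nat_lit 0) (nat_lit 0) (XT.lf (nat_lit 0) (nat_lit 405679382) (nat_lit 228) (nat_lit 6316808597) (nat_lit 0) (nat_lit 405679382) (nat_lit 28) (nat_lit 5) (nat_lit 31) (nat_lit 4) (nat_lit 28) (nat_lit 4) (nat_lit 640) (nat_lit 460) (nat_lit 460)) (XT.lf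 (nat_lit 0) (nat_lit 6898689734) (nat_lit 228) (nat_lit 995922075) (nat_lit 0) (nat_lit 6517414166) (nat_lit 28) (nat_lit 5) (nat_lit 31) (nat_lit 4) (nat_lit 28) (nat_lit 4) (nat_lit 641) (nat_lit 460) (nat_lit 459)))) (XT.nd (nat_lit 156) (nat_lit 304) (nat_lit 0) (XT.nd (nat_lit 78) (nat_lit 152) (nat_lit 0) (XT.lf (nat_lit 0) (nat_lit 10862066543) (nat_lit 152) (nat_lit 2232057789) (nat_lit 152) (nat_lit 1476982645) (nat_lit 26) (nat_lit 4) (nat_lit 28) (nat_lit 5) (nat_lit 28) (nat_lit 4) (nat_lit 642) (nat_lit 460) (nat_lit 458)) (XT.lf (nat_lit 0) (nat_lit 4617491648) (nat_lit 152) (nat_lit 6597360278) (nat_lit 0) (nat_lit 3517937416) (nat_lit 24) (nat_lit 5) (nat_lit 26) (nat_lit 4) (nat_lit 24) (nat_lit 4) (nat_lit 643) (nat_lit 460) (nat_lit 457))) (XT.nd (nat_lit 78) (nat_lit 152) (nat_lit 0) (XT.lf (nat_lit 0) (nat_lit 5258888028) (nat_lit 152) (nat_lit 5545308263) (nat_lit 152) (nat_lit 4093514341) (nat_lit 22) (nat_lit 4) (nat_lit 24) (nat_lit 5) (nat_lit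 24) (nat_lit 4) (nat_lit 644) (nat_lit 460) (nat_lit 456)) (XT.lf (nat_lit 0) (nat_lit 1998691310) (nat_lit 152) (nat_lit 12830636529) (nat_lit 0) (nat_lit 236802142) (nat_lit 20) (nat_lit 5) (nat_lit 22) (nat_lit 4) (nat_lit 20) (nat_lit 4) (nat_lit 645) (nat_lit 460) (nat_lit 455))))))) (XT.nd (nat_lit 81120) (nat_lit 0) (nat_lit 0) (XT.nd (nat_lit 80652) (nat_lit 0) (nat_lit 760) (XT.nd (nat_lit 234) (nat_lit 304) (nat_lit 0) (XT.nd (nat_lit 78) (nat_lit 304) (nat_lit 0) (XT.lf (nat_lit 0) (nat_lit 8176201645) (nat_lit 152) (nat_lit 978423025) (nat_lit 0) (nat_lit 6082389151) (nat_lit 20) (nat_lit 5) (nat_lit 22) (nat_lit 4) (nat_lit 20) (nat_lit 4) (nat_lit 646) (nat_lit 460) (nat_lit 454)) (XT.nd (nat_lit 78) (nat_lit 152) (nat_lit 0) (XT.lf (nat_lit 0) (nat_lit 11104024922) (nat_lit 152) (nat_lit 3363359085) (nat_lit 152) (nat_lit 944131565) (nat_lit 18) (nat_lit 4) (nat_lit 20) (nat_lit 5) (nat_lit 20) (nat_lit 4) (nat_lit 647) (nat_lit 460) (nat_lit 453)) (XT.lf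 (nat_lit 0) (nat_lit 5217248790) (nat_lit 152) (nat_lit 7839059046) (nat_lit 0) (nat_lit 2532678340) (nat_lit 16) (nat_lit 5) (nat_lit 18) (nat_lit 4) (nat_lit 16) (nat_lit 4) (nat_lit 648) (nat_lit 460) (nat_lit 452)))) (XT.nd (nat_lit 156) (nat_lit 152) (nat_lit 0) (XT.lf (nat_lit 0) (nat_lit 4211270779) (nat_lit 152) (nat_lit 7274944699) (nat_lit 152) (nat_lit 4283728402) (nat_lit 14) (nat_lit 4) (nat_lit 16) (nat_lit 5) (nat_lit 16) (nat_lit 4) (nat_lit 649) (nat_lit 460) (nat_lit 451)) (XT.nd (nat_lit 80184) (nat_lit 0) (nat_lit 1596) (XT.lf (nat_lit 0) (nat_lit 8126901429) (nat_lit 152) (nat_lit 3404679032) (nat_lit 0) (nat_lit 4610638786) (nat_lit 12) (nat_lit 5) (nat_lit 14) (nat_lit 4) (nat_lit 12) (nat_lit 4) (nat_lit 651) (nat_lit 460) (nat_lit 449)) (XT.lf (nat_lit 0) (nat_lit 1622538019) (nat_lit 228) (nat_lit 3730732556) (nat_lit 0) (nat_lit 1622538019) (nat_lit 33) (nat_lit 5) (nat_lit 36) (nat_lit 4) (nat_lit 33) (nat_lit 4) (nat_lit 638) (nat_lit 461)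 (nat_lit 461))))) (XT.nd (nat_lit 234) (nat_lit 456) (nat_lit 0) (XT.nd (nat_lit 78) (nat_lit 228) (nat_lit 0) (XT.lf (nat_lit 0) (nat_lit 4076493858) (nat_lit 152) (nat_lit 5211468981) (nat_lit 152) (nat_lit 4814789880) (nat_lit 31) (nat_lit 4) (nat_lit 33) (nat_lit 5) (nat_lit 33) (nat_lit 4) (nat_lit 639) (nat_lit 461) (nat_lit 460)) (XT.nd (nat_lit 78) (nat_lit 0) (nat_lit 0) (XT.lf (nat_lit 0) (nat_lit 1157759812) (nat_lit 228) (nat_lit 12711843296) (nat_lit 0) (nat_lit 387583165) (nat_lit 28) (nat_lit 5) (nat_lit 31) (nat_lit 4) (nat_lit 28) (nat_lit 4) (nat_lit 640) (nat_lit 461) (nat_lit 459)) (XT.lf (nat_lit 0) (nat_lit 7203424083) (nat_lit 228) (nat_lit 1150840434) (nat_lit 0) (nat_lit 6059447859) (nat_lit 28) (nat_lit 5) (nat_lit 31) (nat_lit 4) (nat_lit 28) (nat_lit 4) (nat_lit 641) (nat_lit 461) (nat_lit 458)))) (XT.nd (nat_lit 78) (nat_lit 304) (nat_lit 0) (XT.lf (nat_lit 0) (nat_lit 10628901699) (nat_lit 152) (nat_lit 2727593418) (nat_lit 152) (nat_lit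 1217147021) (nat_lit 26) (nat_lit 4) (nat_lit 28) (nat_lit 5) (nat_lit 28) (nat_lit 4) (nat_lit 642) (nat_lit 461) (nat_lit 457)) (XT.nd (nat_lit 78) (nat_lit 152) (nat_lit 0) (XT.lf (nat_lit 0) (nat_lit 4827615812) (nat_lit 152) (nat_lit 6914056131) (nat_lit 0) (nat_lit 2994546322) (nat_lit 24) (nat_lit 5) (nat_lit 26) (nat_lit 4) (nat_lit 24) (nat_lit 4) (nat_lit 643) (nat_lit 461) (nat_lit 456)) (XT.lf (nat_lit 0) (nat_lit 4861651030) (nat_lit 152) (nat_lit 6109379127) (nat_lit 152) (nat_lit 3930976608) (nat_lit 22) (nat_lit 4) (nat_lit 24) (nat_lit 5) (nat_lit 24) (nat_lit 4) (nat_lit 644) (nat_lit 461) (nat_lit 455)))))) (XT.nd (nat_lit 80496) (nat_lit 0) (nat_lit 1064) (XT.nd (nat_lit 234) (nat_lit 456) (nat_lit 0) (XT.nd (nat_lit 78) (nat_lit 152) (nat_lit 0) (XT.lf (nat_lit 0) (nat_lit 1752764661) (nat_lit 76) (nat_lit 360962553) (nat_lit 152) (nat_lit 12957586544) (nat_lit 20) (nat_lit 5) (nat_lit 21) (nat_lit 5) (nat_lit 22) (nat_lit 4) (nat_lit 645) (nat_lit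 461) (nat_lit 454)) (XT.nd (nat_lit 78) (nat_lit 152) (nat_lit 0) (XT.lf (nat_lit 0) (nat_lit 8248313310) (nat_lit 152) (nat_lit 1539457881) (nat_lit 0) (nat_lit 5455286214) (nat_lit 20) (nat_lit 5) (nat_lit 22) (nat_lit 4) (nat_lit 20) (nat_lit 4) (nat_lit 646) (nat_lit 461) (nat_lit 453)) (XT.lf (nat_lit 0) (nat_lit 10460564799) (nat_lit 152) (nat_lit 4034968170) (nat_lit 152) (nat_lit 922906734) (nat_lit 18) (nat_lit 4) (nat_lit 20) (nat_lit 5) (nat_lit 20) (nat_lit 4) (nat_lit 647) (nat_lit 461) (nat_lit 452)))) (XT.nd (nat_lit 78) (nat_lit 304) (nat_lit 0) (XT.lf (nat_lit 0) (nat_lit 5189069921) (nat_lit 152) (nat_lit 8576437931) (nat_lit 0) (nat_lit 1831383451) (nat_lit 16) (nat_lit 5) (nat_lit 18) (nat_lit 4) (nat_lit 16) (nat_lit 4) (nat_lit 648) (nat_lit 461) (nat_lit 451)) (XT.nd (nat_lit 156) (nat_lit 152) (nat_lit 0) (XT.lf (nat_lit 0) (nat_lit 3388997119) (nat_lit 152) (nat_lit 8024036412) (nat_lit 152) (nat_lit 4365716759) (nat_lit 14) (nat_lit 4) (nat_lit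 16) (nat_lit 5) (nat_lit 16) (nat_lit 4) (nat_lit 649) (nat_lit 461) (nat_lit 450)) (XT.lf (nat_lit 0) (nat_lit 7955728531) (nat_lit 152) (nat_lit 4400227251) (nat_lit 0) (nat_lit 3796888042) (nat_lit 12) (nat_lit 5) (nat_lit 14) (nat_lit 4) (nat_lit 12) (nat_lit 4) (nat_lit 651) (nat_lit 461) (nat_lit 448))))) (XT.nd (nat_lit 234) (nat_lit 532) (nat_lit 0) (XT.nd (nat_lit 78) (nat_lit 380) (nat_lit 0) (XT.lf (nat_lit 0) (nat_lit 2745695189) (nat_lit 228) (nat_lit 1336924685) (nat_lit 0) (nat_lit 2745695189) (nat_lit 38) (nat_lit 5) (nat_lit 41) (nat_lit 4) (nat_lit 38) (nat_lit 4) (nat_lit 636) (nat_lit 462) (nat_lit 462)) (XT.nd (nat_lit 78) (nat_lit 228) (nat_lit 0) (XT.lf (nat_lit 0) (nat_lit 8768842644) (nat_lit 152) (nat_lit 2723563668) (nat_lit 152) (nat_lit 2310858731) (nat_lit 36) (nat_lit 4) (nat_lit 38) (nat_lit 5) (nat_lit 38) (nat_lit 4) (nat_lit 637) (nat_lit 462) (nat_lit 461)) (XT.lf (nat_lit 0) (nat_lit 3607872072) (nat_lit 228) (nat_lit 7538002772) (nat_lit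 0) (nat_lit 2806580288) (nat_lit 33) (nat_lit 5) (nat_lit 36) (nat_lit 4) (nat_lit 33) (nat_lit 4) (nat_lit 638) (nat_lit 462) (nat_lit 460)))) (XT.nd (nat_lit 156) (nat_lit 152) (nat_lit 0) (XT.nd (nat_lit 78) (nat_lit 228) (nat_lit 0) (XT.lf (nat_lit 0) (nat_lit 3922904930) (nat_lit 152) (nat_lit 5685860027) (nat_lit 152) (nat_lit 4495667164) (nat_lit 31) (nat_lit 4) (nat_lit 33) (nat_lit 5) (nat_lit 33) (nat_lit 4) (nat_lit 639) (nat_lit 462) (nat_lit 459)) (XT.lf (nat_lit 0) (nat_lit 1312425766) (nat_lit 152) (nat_lit 115244628) (nat_lit 228) (nat_lit 12832055895) (nat_lit 28) (nat_lit 5) (nat_lit 30) (nat_lit 5) (nat_lit 31) (nat_lit 4) (nat_lit 640) (nat_lit 462) (nat_lit 458))) (XT.nd (nat_lit 78) (nat_lit 152) (nat_lit 0) (XT.lf (nat_lit 0) (nat_lit 7431736717) (nat_lit 228) (nat_lit 1460737903) (nat_lit 0) (nat_lit 5524611220) (nat_lit 28) (nat_lit 5) (nat_lit 31) (nat_lit 4) (nat_lit 28) (nat_lit 4) (nat_lit 641) (nat_lit 462) (nat_lit 457)) (XT.lf (nat_lit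 0) (nat_lit 10240192030) (nat_lit 152) (nat_lit 3302043230) (nat_lit 152) (nat_lit 1035633250) (nat_lit 26) (nat_lit 4) (nat_lit 28) (nat_lit 5) (nat_lit 28) (nat_lit 4) (nat_lit 642) (nat_lit 462) (nat_lit 456))))))))
noncomputable def xc1 : XT := (XT.nd (nat_lit 161538) (nat_lit 0) (nat_lit 0) (XT.nd (nat_lit 80808) (nat_lit 0) (nat_lit 0) (XT.nd (nat_lit 468) (nat_lit 304) (nat_lit 0) (XT.nd (nat_lit 234) (nat_lit 304) (nat_lit 0) (XT.nd (nat_lit 78) (nat_lit 304) (nat_lit 0) (XT.lf (nat_lit 0) (nat_lit 4959705891) (nat_lit 152) (nat_lit 7389255149) (nat_lit 0) (nat_lit 2392402293) (nat_lit 24) (nat_lit 5) (nat_lit 26) (nat_lit 4) (nat_lit 24) (nat_lit 4) (nat_lit 643) (nat_lit 462) (nat_lit 455)) (XT.nd (nat_lit 78) (nat_lit 152) (nat_lit 0) (XT.lf (nat_lit 0) (nat_lit 4305301159) (nat_lit 152) (nat_lit 6754293970) (nat_lit 152) (nat_lit 3848428579) (nat_lit 22) (nat_lit 4) (nat_lit 24) (nat_lit 5) (nat_lit 24) (nat_lit 4) (nat_lit 644) (nat_lit 462) (nat_lit 454))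 (XT.lf (nat_lit 0) (nat_lit 1107499603) (nat_lit 76) (nat_lit 1043633228) (nat_lit 152) (nat_lit 12927069668) (nat_lit 20) (nat_lit 5) (nat_lit 21) (nat_lit 5) (nat_lit 22) (nat_lit 4) (nat_lit 645) (nat_lit 462) (nat_lit 453)))) (XT.nd (nat_lit 78) (nat_lit 304) (nat_lit 0) (XT.lf (nat_lit 0) (nat_lit 8241501644) (nat_lit 152) (nat_lit 2261165501) (nat_lit 0) (nat_lit 4748164641) (nat_lit 20) (nat_lit 5) (nat_lit 22) (nat_lit 4) (nat_lit 20) (nat_lit 4) (nat_lit 646) (nat_lit 462) (nat_lit 452)) (XT.nd (nat_lit 78) (nat_lit 152) (nat_lit 0) (XT.lf (nat_lit 0) (nat_lit 9655766643) (nat_lit 152) (nat_lit 4788724541) (nat_lit 152) (nat_lit 982608774) (nat_lit 18) (nat_lit 4) (nat_lit 20) (nat_lit 5) (nat_lit 20) (nat_lit 4) (nat_lit 647) (nat_lit 462) (nat_lit 451)) (XT.lf (nat_lit 0) (nat_lit 5080205524) (nat_lit 152) (nat_lit 9478267621) (nat_lit 0) (nat_lit 1048086294) (nat_lit 16) (nat_lit 5) (nat_lit 18) (nat_lit 4) (nat_lit 16) (nat_lit 4) (nat_lit 648) (nat_lit 462)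 (nat_lit 450))))) (XT.nd (nat_lit 80106) (nat_lit 0) (nat_lit 1824) (XT.nd (nat_lit 156) (nat_lit 152) (nat_lit 0) (XT.lf (nat_lit 0) (nat_lit 2401559648) (nat_lit 152) (nat_lit 8857311787) (nat_lit 152) (nat_lit 4530454142) (nat_lit 14) (nat_lit 4) (nat_lit 16) (nat_lit 5) (nat_lit 16) (nat_lit 4) (nat_lit 649) (nat_lit 462) (nat_lit 449)) (XT.nd (nat_lit 79872) (nat_lit 0) (nat_lit 2204) (XT.lf (nat_lit 0) (nat_lit 7702806303) (nat_lit 152) (nat_lit 5562686336) (nat_lit 0) (nat_lit 2899757050) (nat_lit 12) (nat_lit 5) (nat_lit 14) (nat_lit 4) (nat_lit 12) (nat_lit 4) (nat_lit 651) (nat_lit 462) (nat_lit 447)) (XT.lf (nat_lit 0) (nat_lit 892730106) (nat_lit 152) (nat_lit 2896319734) (nat_lit 152) (nat_lit 2896319734) (nat_lit 41) (nat_lit 4) (nat_lit 43) (nat_lit 5) (nat_lit 43) (nat_lit 4) (nat_lit 634) (nat_lit 463) (nat_lit 463)))) (XT.nd (nat_lit 78) (nat_lit 304) (nat_lit 0) (XT.lf (nat_lit 0) (nat_lit 8774616) (nat_lit 228) (nat_lit 411653490) (nat_lit 76) (nat_lit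 13092850140) (nat_lit 40) (nat_lit 5) (nat_lit 43) (nat_lit 5) (nat_lit 41) (nat_lit 4) (nat_lit 635) (nat_lit 463) (nat_lit 462)) (XT.nd (nat_lit 78) (nat_lit 152) (nat_lit 0) (XT.lf (nat_lit 0) (nat_lit 5871196691) (nat_lit 228) (nat_lit 2748725450) (nat_lit 0) (nat_lit 5037532719) (nat_lit 38) (nat_lit 5) (nat_lit 41) (nat_lit 4) (nat_lit 38) (nat_lit 4) (nat_lit 636) (nat_lit 463) (nat_lit 461)) (XT.lf (nat_lit 0) (nat_lit 8618588027) (nat_lit 152) (nat_lit 3212303236) (nat_lit 152) (nat_lit 1974026581) (nat_lit 36) (nat_lit 4) (nat_lit 38) (nat_lit 5) (nat_lit 38) (nat_lit 4) (nat_lit 637) (nat_lit 463) (nat_lit 460)))))) (XT.nd (nat_lit 468) (nat_lit 912) (nat_lit 0) (XT.nd (nat_lit 234) (nat_lit 304) (nat_lit 0) (XT.nd (nat_lit 78) (nat_lit 380) (nat_lit 0) (XT.lf (nat_lit 0) (nat_lit 3895110663) (nat_lit 228) (nat_lit 7767645767) (nat_lit 0) (nat_lit 2292212863) (nat_lit 33) (nat_lit 5) (nat_lit 36) (nat_lit 4) (nat_lit 33) (nat_lit 4) (nat_lit 638) (nat_lit 463)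 (nat_lit 459)) (XT.nd (nat_lit 78) (nat_lit 228) (nat_lit 0) (XT.lf (nat_lit 0) (nat_lit 3615666843) (nat_lit 152) (nat_lit 6238149053) (nat_lit 152) (nat_lit 4253975686) (nat_lit 31) (nat_lit 4) (nat_lit 33) (nat_lit 5) (nat_lit 33) (nat_lit 4) (nat_lit 639) (nat_lit 463) (nat_lit 458)) (XT.lf (nat_lit 0) (nat_lit 921515521) (nat_lit 152) (nat_lit 701993619) (nat_lit 228) (nat_lit 12640400372) (nat_lit 28) (nat_lit 5) (nat_lit 30) (nat_lit 5) (nat_lit 31) (nat_lit 4) (nat_lit 640) (nat_lit 463) (nat_lit 457)))) (XT.nd (nat_lit 78) (nat_lit 304) (nat_lit 0) (XT.lf (nat_lit 0) (nat_lit 7583717170) (nat_lit 228) (nat_lit 1925736011) (nat_lit 0) (nat_lit 4912694507) (nat_lit 28) (nat_lit 5) (nat_lit 31) (nat_lit 4) (nat_lit 28) (nat_lit 4) (nat_lit 641) (nat_lit 463) (nat_lit 456)) (XT.nd (nat_lit 78) (nat_lit 152) (nat_lit 0) (XT.lf (nat_lit 0) (nat_lit 9695785101) (nat_lit 152) (nat_lit 3955632501) (nat_lit 152) (nat_lit 932370149) (nat_lit 26) (nat_lit 4) (nat_lit 28)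 (nat_lit 5) (nat_lit 28) (nat_lit 4) (nat_lit 642) (nat_lit 463) (nat_lit 455)) (XT.lf (nat_lit 0) (nat_lit 5013813684) (nat_lit 152) (nat_lit 8023143682) (nat_lit 0) (nat_lit 1711269193) (nat_lit 24) (nat_lit 5) (nat_lit 26) (nat_lit 4) (nat_lit 24) (nat_lit 4) (nat_lit 643) (nat_lit 463) (nat_lit 454))))) (XT.nd (nat_lit 234) (nat_lit 608) (nat_lit 0) (XT.nd (nat_lit 78) (nat_lit 152) (nat_lit 0) (XT.lf (nat_lit 0) (nat_lit 3589620238) (nat_lit 152) (nat_lit 7480305702) (nat_lit 152) (nat_lit 3845837883) (nat_lit 22) (nat_lit 4) (nat_lit 24) (nat_lit 5) (nat_lit 24) (nat_lit 4) (nat_lit 644) (nat_lit 463) (nat_lit 453)) (XT.nd (nat_lit 78) (nat_lit 0) (nat_lit 0) (XT.lf (nat_lit 0) (nat_lit 301034301) (nat_lit 76) (nat_lit 1808330622) (nat_lit 152) (nat_lit 12977465142) (nat_lit 20) (nat_lit 5) (nat_lit 21) (nat_lit 5) (nat_lit 22) (nat_lit 4) (nat_lit 645) (nat_lit 463) (nat_lit 452)) (XT.lf (nat_lit 0) (nat_lit 8155763977) (nat_lit 152) (nat_lit 3143828910) (nat_lit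 0) (nat_lit 3960747131) (nat_lit 20) (nat_lit 5) (nat_lit 22) (nat_lit 4) (nat_lit 20) (nat_lit 4) (nat_lit 646) (nat_lit 463) (nat_lit 451)))) (XT.nd (nat_lit 156) (nat_lit 304) (nat_lit 0) (XT.nd (nat_lit 78) (nat_lit 152) (nat_lit 0) (XT.lf (nat_lit 0) (nat_lit 8689314846) (nat_lit 152) (nat_lit 5624923790) (nat_lit 152) (nat_lit 1123261097) (nat_lit 18) (nat_lit 4) (nat_lit 20) (nat_lit 5) (nat_lit 20) (nat_lit 4) (nat_lit 647) (nat_lit 463) (nat_lit 450)) (XT.lf (nat_lit 0) (nat_lit 4890612906) (nat_lit 152) (nat_lit 10544901775) (nat_lit 0) (nat_lit 182479693) (nat_lit 16) (nat_lit 5) (nat_lit 18) (nat_lit 4) (nat_lit 16) (nat_lit 4) (nat_lit 648) (nat_lit 463) (nat_lit 449))) (XT.nd (nat_lit 156) (nat_lit 152) (nat_lit 0) (XT.lf (nat_lit 0) (nat_lit 1248571135) (nat_lit 152) (nat_lit 9775097597) (nat_lit 152) (nat_lit 4778005154) (nat_lit 14) (nat_lit 4) (nat_lit 16) (nat_lit 5) (nat_lit 16) (nat_lit 4) (nat_lit 649) (nat_lit 463) (nat_lit 448)) (XT.lf (nat_lit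 0) (nat_lit 7368035559) (nat_lit 152) (nat_lit 6892512155) (nat_lit 0) (nat_lit 1918893993) (nat_lit 12) (nat_lit 5) (nat_lit 14) (nat_lit 4) (nat_lit 12) (nat_lit 4) (nat_lit 651) (nat_lit 463) (nat_lit 446))))))) (XT.nd (nat_lit 936) (nat_lit 912) (nat_lit 0) (XT.nd (nat_lit 468) (nat_lit 912) (nat_lit 0) (XT.nd (nat_lit 234) (nat_lit 380) (nat_lit 0) (XT.nd (nat_lit 78) (nat_lit 380) (nat_lit 0) (XT.lf (nat_lit 0) (nat_lit 2977353115) (nat_lit 228) (nat_lit 1784696198) (nat_lit 228) (nat_lit 1784696198) (nat_lit 46) (nat_lit 4) (nat_lit 49) (nat_lit 5) (nat_lit 49) (nat_lit 4) (nat_lit 632) (nat_lit 464) (nat_lit 464)) (XT.nd (nat_lit 78) (nat_lit 152) (nat_lit 0) (XT.lf (nat_lit 0) (nat_lit 2168762365) (nat_lit 228) (nat_lit 9331833960) (nat_lit 0) (nat_lit 1730796585) (nat_lit 43) (nat_lit 5) (nat_lit 46) (nat_lit 4) (nat_lit 43) (nat_lit 4) (nat_lit 633) (nat_lit 464) (nat_lit 463)) (XT.lf (nat_lit 0) (nat_lit 1711246304) (nat_lit 152) (nat_lit 6263829193) (nat_lit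 152) (nat_lit 5396485196) (nat_lit 41) (nat_lit 4) (nat_lit 43) (nat_lit 5) (nat_lit 43) (nat_lit 4) (nat_lit 634) (nat_lit 464) (nat_lit 462)))) (XT.nd (nat_lit 78) (nat_lit 304) (nat_lit 0) (XT.lf (nat_lit 0) (nat_lit 359279192) (nat_lit 228) (nat_lit 562559063) (nat_lit 76) (nat_lit 12593020850) (nat_lit 40) (nat_lit 5) (nat_lit 43) (nat_lit 5) (nat_lit 41) (nat_lit 4) (nat_lit 635) (nat_lit 464) (nat_lit 461)) (XT.nd (nat_lit 78) (nat_lit 152) (nat_lit 0) (XT.lf (nat_lit 0) (nat_lit 6177100597) (nat_lit 228) (nat_lit 2973383051) (nat_lit 0) (nat_lit 4509445726) (nat_lit 38) (nat_lit 5) (nat_lit 41) (nat_lit 4) (nat_lit 38) (nat_lit 4) (nat_lit 636) (nat_lit 464) (nat_lit 460)) (XT.lf (nat_lit 0) (nat_lit 8318019871) (nat_lit 152) (nat_lit 3777269097) (nat_lit 152) (nat_lit 1712935126) (nat_lit 36) (nat_lit 4) (nat_lit 38) (nat_lit 5) (nat_lit 38) (nat_lit 4) (nat_lit 637) (nat_lit 464) (nat_lit 459))))) (XT.nd (nat_lit 234) (nat_lit 304) (nat_lit 0) (XT.nd (nat_lit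 78) (nat_lit 380) (nat_lit 0) (XT.lf (nat_lit 0) (nat_lit 4106904453) (nat_lit 228) (nat_lit 8150484152) (nat_lit 0) (nat_lit 1701772050) (nat_lit 33) (nat_lit 5) (nat_lit 36) (nat_lit 4) (nat_lit 33) (nat_lit 4) (nat_lit 638) (nat_lit 464) (nat_lit 458)) (XT.nd (nat_lit 78) (nat_lit 228) (nat_lit 0) (XT.lf (nat_lit 0) (nat_lit 3154659112) (nat_lit 152) (nat_lit 6868552644) (nat_lit 152) (nat_lit 4089620665) (nat_lit 31) (nat_lit 4) (nat_lit 33) (nat_lit 5) (nat_lit 33) (nat_lit 4) (nat_lit 639) (nat_lit 464) (nat_lit 457)) (XT.lf (nat_lit 0) (nat_lit 375059830) (nat_lit 152) (nat_lit 1367743131) (nat_lit 228) (nat_lit 12526985621) (nat_lit 28) (nat_lit 5) (nat_lit 30) (nat_lit 5) (nat_lit 31) (nat_lit 4) (nat_lit 640) (nat_lit 464) (nat_lit 456)))) (XT.nd (nat_lit 78) (nat_lit 304) (nat_lit 0) (XT.lf (nat_lit 0) (nat_lit 7659425043) (nat_lit 228) (nat_lit 2546017110) (nat_lit 0) (nat_lit 4223457753) (nat_lit 28) (nat_lit 5) (nat_lit 31) (nat_lit 4) (nat_lit 28) (nat_lit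 4) (nat_lit 641) (nat_lit 464) (nat_lit 455)) (XT.nd (nat_lit 78) (nat_lit 152) (nat_lit 0) (XT.lf (nat_lit 0) (nat_lit 8995467419) (nat_lit 152) (nat_lit 4688617541) (nat_lit 152) (nat_lit 907317223) (nat_lit 26) (nat_lit 4) (nat_lit 28) (nat_lit 5) (nat_lit 28) (nat_lit 4) (nat_lit 642) (nat_lit 464) (nat_lit 454)) (XT.lf (nat_lit 0) (nat_lit 4989960412) (nat_lit 152) (nat_lit 8815970315) (nat_lit 0) (nat_lit 950879910) (nat_lit 24) (nat_lit 5) (nat_lit 26) (nat_lit 4) (nat_lit 24) (nat_lit 4) (nat_lit 643) (nat_lit 464) (nat_lit 453)))))) (XT.nd (nat_lit 546) (nat_lit 304) (nat_lit 0) (XT.nd (nat_lit 234) (nat_lit 304) (nat_lit 0) (XT.nd (nat_lit 78) (nat_lit 152) (nat_lit 0) (XT.lf (nat_lit 0) (nat_lit 2714327608) (nat_lit 152) (nat_lit 8287699031) (nat_lit 152) (nat_lit 3923203504) (nat_lit 22) (nat_lit 4) (nat_lit 24) (nat_lit 5) (nat_lit 24) (nat_lit 4) (nat_lit 644) (nat_lit 464) (nat_lit 452)) (XT.nd (nat_lit 78) (nat_lit 76) (nat_lit 0) (XT.lf (nat_lit 0) (nat_lit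 1992737374) (nat_lit 228) (nat_lit 658200369) (nat_lit 76) (nat_lit 12446175490) (nat_lit 21) (nat_lit 5) (nat_lit 24) (nat_lit 5) (nat_lit 22) (nat_lit 4) (nat_lit 645) (nat_lit 464) (nat_lit 451)) (XT.lf (nat_lit 0) (nat_lit 7991066686) (nat_lit 152) (nat_lit 4187794249) (nat_lit 0) (nat_lit 3092724892) (nat_lit 20) (nat_lit 5) (nat_lit 22) (nat_lit 4) (nat_lit 20) (nat_lit 4) (nat_lit 646) (nat_lit 464) (nat_lit 450)))) (XT.nd (nat_lit 78) (nat_lit 152) (nat_lit 0) (XT.lf (nat_lit 0) (nat_lit 7560830408) (nat_lit 152) (nat_lit 6543893837) (nat_lit 152) (nat_lit 1344918859) (nat_lit 18) (nat_lit 4) (nat_lit 20) (nat_lit 5) (nat_lit 20) (nat_lit 4) (nat_lit 647) (nat_lit 464) (nat_lit 449)) (XT.nd (nat_lit 78) (nat_lit 0) (nat_lit 0) (XT.lf (nat_lit 0) (nat_lit 3849303153) (nat_lit 76) (nat_lit 775952562) (nat_lit 152) (nat_lit 11005844117) (nat_lit 16) (nat_lit 5) (nat_lit 17) (nat_lit 5) (nat_lit 18) (nat_lit 4) (nat_lit 648) (nat_lit 464) (nat_lit 448)) (XT.lf (nat_lit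 0) (nat_lit 10707790405) (nat_lit 152) (nat_lit 69496993) (nat_lit 0) (nat_lit 5038503520) (nat_lit 16) (nat_lit 5) (nat_lit 18) (nat_lit 4) (nat_lit 16) (nat_lit 4) (nat_lit 649) (nat_lit 464) (nat_lit 447))))) (XT.nd (nat_lit 79716) (nat_lit 0) (nat_lit 2128) (XT.nd (nat_lit 79560) (nat_lit 0) (nat_lit 2812) (XT.lf (nat_lit 0) (nat_lit 6951285016) (nat_lit 152) (nat_lit 8390226207) (nat_lit 0) (nat_lit 853914218) (nat_lit 12) (nat_lit 5) (nat_lit 14) (nat_lit 4) (nat_lit 12) (nat_lit 4) (nat_lit 651) (nat_lit 464) (nat_lit 445)) (XT.nd (nat_lit 78) (nat_lit 228) (nat_lit 0) (XT.lf (nat_lit 0) (nat_lit 4913447444) (nat_lit 228) (nat_lit 749497151) (nat_lit 228) (nat_lit 749497151) (nat_lit 52) (nat_lit 4) (nat_lit 55) (nat_lit 5) (nat_lit 55) (nat_lit 4) (nat_lit 630) (nat_lit 465) (nat_lit 465)) (XT.lf (nat_lit 0) (nat_lit 4179542991) (nat_lit 228) (nat_lit 5054807319) (nat_lit 0) (nat_lit 3723883393) (nat_lit 49) (nat_lit 5) (nat_lit 52) (nat_lit 4) (nat_lit 49) (nat_lit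 4) (nat_lit 631) (nat_lit 465) (nat_lit 464)))) (XT.nd (nat_lit 156) (nat_lit 228) (nat_lit 0) (XT.nd (nat_lit 78) (nat_lit 228) (nat_lit 0) (XT.lf (nat_lit 0) (nat_lit 5882123910) (nat_lit 228) (nat_lit 4057280351) (nat_lit 228) (nat_lit 3154895657) (nat_lit 46) (nat_lit 4) (nat_lit 49) (nat_lit 5) (nat_lit 49) (nat_lit 4) (nat_lit 632) (nat_lit 465) (nat_lit 463)) (XT.lf (nat_lit 0) (nat_lit 2533661060) (nat_lit 228) (nat_lit 9479779932) (nat_lit 0) (nat_lit 1219591968) (nat_lit 43) (nat_lit 5) (nat_lit 46) (nat_lit 4) (nat_lit 43) (nat_lit 4) (nat_lit 633) (nat_lit 465) (nat_lit 462))) (XT.nd (nat_lit 78) (nat_lit 76) (nat_lit 0) (XT.lf (nat_lit 0) (nat_lit 1488575472) (nat_lit 152) (nat_lit 6810239149) (nat_lit 152) (nat_lit 5075211022) (nat_lit 41) (nat_lit 4) (nat_lit 43) (nat_lit 5) (nat_lit 43) (nat_lit 4) (nat_lit 634) (nat_lit 465) (nat_lit 461)) (XT.lf (nat_lit 0) (nat_lit 636678953) (nat_lit 228) (nat_lit 861641578) (nat_lit 76) (nat_lit 12019756666) (nat_lit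 40) (nat_lit 5) (nat_lit 43) (nat_lit 5) (nat_lit 41) (nat_lit 4) (nat_lit 635) (nat_lit 465) (nat_lit 460))))))))
noncomputable def xc2 : XT := (XT.nd (nat_lit 81354) (nat_lit 0) (nat_lit 0) (XT.nd (nat_lit 936) (nat_lit 456) (nat_lit 0) (XT.nd (nat_lit 468) (nat_lit 760) (nat_lit 0) (XT.nd (nat_lit 234) (nat_lit 380) (nat_lit 0) (XT.nd (nat_lit 78) (nat_lit 380) (nat_lit 0) (XT.lf (nat_lit 0) (nat_lit 6409222060) (nat_lit 228) (nat_lit 3347910275) (nat_lit 0) (nat_lit 3906922309) (nat_lit 38) (nat_lit 5) (nat_lit 41) (nat_lit 4) (nat_lit 38) (nat_lit 4) (nat_lit 636) (nat_lit 465) (nat_lit 459)) (XT.nd (nat_lit 78) (nat_lit 228) (nat_lit 0) (XT.lf (nat_lit 0) (nat_lit 7867020305) (nat_lit 152) (nat_lit 4418682807) (nat_lit 152) (nat_lit 1527481977) (nat_lit 36) (nat_lit 4) (nat_lit 38) (nat_lit 5) (nat_lit 38) (nat_lit 4) (nat_lit 637) (nat_lit 465) (nat_lit 458)) (XT.lf (nat_lit 0) (nat_lit 4243336498) (nat_lit 228) (nat_lit 8686668062) (nat_lit 0) (nat_lit 1035026303)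 (nat_lit 33) (nat_lit 5) (nat_lit 36) (nat_lit 4) (nat_lit 33) (nat_lit 4) (nat_lit 638) (nat_lit 465) (nat_lit 457)))) (XT.nd (nat_lit 78) (nat_lit 228) (nat_lit 0) (XT.lf (nat_lit 0) (nat_lit 2539700948) (nat_lit 152) (nat_lit 7577318017) (nat_lit 152) (nat_lit 4002537649) (nat_lit 31) (nat_lit 4) (nat_lit 33) (nat_lit 5) (nat_lit 33) (nat_lit 4) (nat_lit 639) (nat_lit 465) (nat_lit 456)) (XT.nd (nat_lit 78) (nat_lit 152) (nat_lit 0) (XT.lf (nat_lit 0) (nat_lit 1787722748) (nat_lit 228) (nat_lit 322864898) (nat_lit 76) (nat_lit 12166735673) (nat_lit 30) (nat_lit 5) (nat_lit 33) (nat_lit 5) (nat_lit 31) (nat_lit 4) (nat_lit 640) (nat_lit 465) (nat_lit 455)) (XT.lf (nat_lit 0) (nat_lit 7658890024) (nat_lit 228) (nat_lit 3321824448) (nat_lit 0) (nat_lit 3456630671) (nat_lit 28) (nat_lit 5) (nat_lit 31) (nat_lit 4) (nat_lit 28) (nat_lit 4) (nat_lit 641) (nat_lit 465) (nat_lit 454))))) (XT.nd (nat_lit 234) (nat_lit 304) (nat_lit 0) (XT.nd (nat_lit 78) (nat_lit 304) (nat_lit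 0) (XT.lf (nat_lit 0) (nat_lit 8138964349) (nat_lit 152) (nat_lit 5501285793) (nat_lit 152) (nat_lit 960464647) (nat_lit 26) (nat_lit 4) (nat_lit 28) (nat_lit 5) (nat_lit 28) (nat_lit 4) (nat_lit 642) (nat_lit 465) (nat_lit 453)) (XT.nd (nat_lit 78) (nat_lit 152) (nat_lit 0) (XT.lf (nat_lit 0) (nat_lit 4888136718) (nat_lit 152) (nat_lit 9768045961) (nat_lit 0) (nat_lit 110936255) (nat_lit 24) (nat_lit 5) (nat_lit 26) (nat_lit 4) (nat_lit 24) (nat_lit 4) (nat_lit 643) (nat_lit 465) (nat_lit 452)) (XT.lf (nat_lit 0) (nat_lit 1679080018) (nat_lit 152) (nat_lit 9176790583) (nat_lit 152) (nat_lit 4080555781) (nat_lit 22) (nat_lit 4) (nat_lit 24) (nat_lit 5) (nat_lit 24) (nat_lit 4) (nat_lit 644) (nat_lit 465) (nat_lit 451)))) (XT.nd (nat_lit 78) (nat_lit 228) (nat_lit 0) (XT.lf (nat_lit 0) (nat_lit 1799878136) (nat_lit 228) (nat_lit 1773259731) (nat_lit 76) (nat_lit 11535944697) (nat_lit 21) (nat_lit 5) (nat_lit 24) (nat_lit 5) (nat_lit 22) (nat_lit 4) (nat_lit 645) (nat_lit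 465) (nat_lit 450)) (XT.nd (nat_lit 78) (nat_lit 152) (nat_lit 0) (XT.lf (nat_lit 0) (nat_lit 7747345184) (nat_lit 152) (nat_lit 5393470916) (nat_lit 0) (nat_lit 2143757523) (nat_lit 20) (nat_lit 5) (nat_lit 22) (nat_lit 4) (nat_lit 20) (nat_lit 4) (nat_lit 646) (nat_lit 465) (nat_lit 449)) (XT.lf (nat_lit 0) (nat_lit 6269870786) (nat_lit 152) (nat_lit 7545995062) (nat_lit 152) (nat_lit 1647668987) (nat_lit 18) (nat_lit 4) (nat_lit 20) (nat_lit 5) (nat_lit 20) (nat_lit 4) (nat_lit 647) (nat_lit 465) (nat_lit 448)))))) (XT.nd (nat_lit 79872) (nat_lit 0) (nat_lit 1824) (XT.nd (nat_lit 79638) (nat_lit 0) (nat_lit 3040) (XT.nd (nat_lit 78) (nat_lit 304) (nat_lit 0) (XT.lf (nat_lit 0) (nat_lit 2459802689) (nat_lit 76) (nat_lit 1820933942) (nat_lit 152) (nat_lit 11365210188) (nat_lit 16) (nat_lit 5) (nat_lit 17) (nat_lit 5) (nat_lit 18) (nat_lit 4) (nat_lit 648) (nat_lit 465) (nat_lit 447)) (XT.nd (nat_lit 156) (nat_lit 304) (nat_lit 0) (XT.lf (nat_lit 0) (nat_lit 10319842896)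 (nat_lit 152) (nat_lit 1535526386) (nat_lit 0) (nat_lit 3976138319) (nat_lit 16) (nat_lit 5) (nat_lit 18) (nat_lit 4) (nat_lit 16) (nat_lit 4) (nat_lit 649) (nat_lit 465) (nat_lit 446)) (XT.lf (nat_lit 0) (nat_lit 6154807700) (nat_lit 76) (nat_lit 299528278) (nat_lit 152) (nat_lit 9758832289) (nat_lit 12) (nat_lit 5) (nat_lit 13) (nat_lit 5) (nat_lit 14) (nat_lit 4) (nat_lit 651) (nat_lit 465) (nat_lit 444)))) (XT.nd (nat_lit 78) (nat_lit 228) (nat_lit 0) (XT.lf (nat_lit 0) (nat_lit 217404766) (nat_lit 228) (nat_lit 5847370257) (nat_lit 0) (nat_lit 217404766) (nat_lit 55) (nat_lit 5) (nat_lit 58) (nat_lit 4) (nat_lit 55) (nat_lit 4) (nat_lit 628) (nat_lit 466) (nat_lit 466)) (XT.nd (nat_lit 78) (nat_lit 228) (nat_lit 0) (XT.lf (nat_lit 0) (nat_lit 6049367504) (nat_lit 228) (nat_lit 1068899156) (nat_lit 0) (nat_lit 5575299258) (nat_lit 55) (nat_lit 5) (nat_lit 58) (nat_lit 4) (nat_lit 55) (nat_lit 4) (nat_lit 629) (nat_lit 466) (nat_lit 465)) (XT.lf (nat_lit 0) (nat_lit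 9755919293) (nat_lit 228) (nat_lit 2004300935) (nat_lit 228) (nat_lit 1065459899) (nat_lit 52) (nat_lit 4) (nat_lit 55) (nat_lit 5) (nat_lit 55) (nat_lit 4) (nat_lit 630) (nat_lit 466) (nat_lit 464))))) (XT.nd (nat_lit 234) (nat_lit 532) (nat_lit 0) (XT.nd (nat_lit 78) (nat_lit 456) (nat_lit 0) (XT.lf (nat_lit 0) (nat_lit 4563752703) (nat_lit 228) (nat_lit 5199500707) (nat_lit 0) (nat_lit 3196595220) (nat_lit 49) (nat_lit 5) (nat_lit 52) (nat_lit 4) (nat_lit 49) (nat_lit 4) (nat_lit 631) (nat_lit 466) (nat_lit 463)) (XT.nd (nat_lit 78) (nat_lit 228) (nat_lit 0) (XT.lf (nat_lit 0) (nat_lit 5664348486) (nat_lit 228) (nat_lit 4618750847) (nat_lit 228) (nat_lit 2813627583) (nat_lit 46) (nat_lit 4) (nat_lit 49) (nat_lit 5) (nat_lit 49) (nat_lit 4) (nat_lit 632) (nat_lit 466) (nat_lit 462)) (XT.lf (nat_lit 0) (nat_lit 2825635767) (nat_lit 228) (nat_lit 9775729896) (nat_lit 0) (nat_lit 634948042) (nat_lit 43) (nat_lit 5) (nat_lit 46) (nat_lit 4) (nat_lit 43) (nat_lit 4) (nat_lit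 633) (nat_lit 466) (nat_lit 461)))) (XT.nd (nat_lit 156) (nat_lit 304) (nat_lit 0) (XT.nd (nat_lit 78) (nat_lit 76) (nat_lit 0) (XT.lf (nat_lit 0) (nat_lit 1117360397) (nat_lit 152) (nat_lit 7432083617) (nat_lit 152) (nat_lit 4828690956) (nat_lit 41) (nat_lit 4) (nat_lit 43) (nat_lit 5) (nat_lit 43) (nat_lit 4) (nat_lit 634) (nat_lit 466) (nat_lit 460)) (XT.lf (nat_lit 0) (nat_lit 841082683) (nat_lit 228) (nat_lit 1309018323) (nat_lit 76) (nat_lit 11372832780) (nat_lit 40) (nat_lit 5) (nat_lit 43) (nat_lit 5) (nat_lit 41) (nat_lit 4) (nat_lit 635) (nat_lit 466) (nat_lit 459))) (XT.nd (nat_lit 78) (nat_lit 152) (nat_lit 0) (XT.lf (nat_lit 0) (nat_lit 6567652109) (nat_lit 228) (nat_lit 3872453995) (nat_lit 0) (nat_lit 3229726182) (nat_lit 38) (nat_lit 5) (nat_lit 41) (nat_lit 4) (nat_lit 38) (nat_lit 4) (nat_lit 636) (nat_lit 466) (nat_lit 458)) (XT.lf (nat_lit 0) (nat_lit 7265412466) (nat_lit 152) (nat_lit 5136795902) (nat_lit 152) (nat_lit 1417594407) (nat_lit 36) (nat_lit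 4) (nat_lit 38) (nat_lit 5) (nat_lit 38) (nat_lit 4) (nat_lit 637) (nat_lit 466) (nat_lit 457))))))) (XT.nd (nat_lit 1014) (nat_lit 304) (nat_lit 0) (XT.nd (nat_lit 468) (nat_lit 608) (nat_lit 0) (XT.nd (nat_lit 234) (nat_lit 456) (nat_lit 0) (XT.nd (nat_lit 78) (nat_lit 228) (nat_lit 0) (XT.lf (nat_lit 0) (nat_lit 4304460303) (nat_lit 228) (nat_lit 9376407763) (nat_lit 0) (nat_lit 291714155) (nat_lit 33) (nat_lit 5) (nat_lit 36) (nat_lit 4) (nat_lit 33) (nat_lit 4) (nat_lit 638) (nat_lit 466) (nat_lit 456)) (XT.nd (nat_lit 78) (nat_lit 76) (nat_lit 0) (XT.lf (nat_lit 0) (nat_lit 1770551193) (nat_lit 152) (nat_lit 8364723119) (nat_lit 152) (nat_lit 3992692488) (nat_lit 31) (nat_lit 4) (nat_lit 33) (nat_lit 5) (nat_lit 33) (nat_lit 4) (nat_lit 639) (nat_lit 466) (nat_lit 455)) (XT.lf (nat_lit 0) (nat_lit 1759609395) (nat_lit 228) (nat_lit 1169859342) (nat_lit 76) (nat_lit 11357021479) (nat_lit 30) (nat_lit 5) (nat_lit 33) (nat_lit 5) (nat_lit 31) (nat_lit 4) (nat_lit 640)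 (nat_lit 466) (nat_lit 454)))) (XT.nd (nat_lit 78) (nat_lit 304) (nat_lit 0) (XT.lf (nat_lit 0) (nat_lit 7582111904) (nat_lit 228) (nat_lit 4253462263) (nat_lit 0) (nat_lit 2611912542) (nat_lit 28) (nat_lit 5) (nat_lit 31) (nat_lit 4) (nat_lit 28) (nat_lit 4) (nat_lit 641) (nat_lit 466) (nat_lit 453)) (XT.nd (nat_lit 78) (nat_lit 152) (nat_lit 0) (XT.lf (nat_lit 0) (nat_lit 7125940009) (nat_lit 152) (nat_lit 6393955953) (nat_lit 152) (nat_lit 1091833264) (nat_lit 26) (nat_lit 4) (nat_lit 28) (nat_lit 5) (nat_lit 28) (nat_lit 4) (nat_lit 642) (nat_lit 466) (nat_lit 452)) (XT.lf (nat_lit 0) (nat_lit 3893983424) (nat_lit 76) (nat_lit 819640901) (nat_lit 152) (nat_lit 10065424732) (nat_lit 24) (nat_lit 5) (nat_lit 25) (nat_lit 5) (nat_lit 26) (nat_lit 4) (nat_lit 643) (nat_lit 466) (nat_lit 451))))) (XT.nd (nat_lit 234) (nat_lit 304) (nat_lit 0) (XT.nd (nat_lit 78) (nat_lit 152) (nat_lit 0) (XT.lf (nat_lit 0) (nat_lit 483471487) (nat_lit 152) (nat_lit 10147929022) (nat_lit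 152) (nat_lit 4317956420) (nat_lit 22) (nat_lit 4) (nat_lit 24) (nat_lit 5) (nat_lit 24) (nat_lit 4) (nat_lit 644) (nat_lit 466) (nat_lit 450)) (XT.nd (nat_lit 78) (nat_lit 76) (nat_lit 0) (XT.lf (nat_lit 0) (nat_lit 1528757063) (nat_lit 228) (nat_lit 3048529180) (nat_lit 76) (nat_lit 10545495596) (nat_lit 21) (nat_lit 5) (nat_lit 24) (nat_lit 5) (nat_lit 22) (nat_lit 4) (nat_lit 645) (nat_lit 466) (nat_lit 449)) (XT.lf (nat_lit 0) (nat_lit 7424503893) (nat_lit 152) (nat_lit 6761331727) (nat_lit 0) (nat_lit 1113472881) (nat_lit 20) (nat_lit 5) (nat_lit 22) (nat_lit 4) (nat_lit 20) (nat_lit 4) (nat_lit 646) (nat_lit 466) (nat_lit 448)))) (XT.nd (nat_lit 78) (nat_lit 152) (nat_lit 0) (XT.lf (nat_lit 0) (nat_lit 4815929721) (nat_lit 152) (nat_lit 8631620447) (nat_lit 152) (nat_lit 2031630205) (nat_lit 18) (nat_lit 4) (nat_lit 20) (nat_lit 5) (nat_lit 20) (nat_lit 4) (nat_lit 647) (nat_lit 466) (nat_lit 447)) (XT.nd (nat_lit 78) (nat_lit 0) (nat_lit 0) (XT.lf (nat_lit 0)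 (nat_lit 905270838) (nat_lit 76) (nat_lit 2950449183) (nat_lit 152) (nat_lit 11806845144) (nat_lit 16) (nat_lit 5) (nat_lit 17) (nat_lit 5) (nat_lit 18) (nat_lit 4) (nat_lit 648) (nat_lit 466) (nat_lit 446)) (XT.lf (nat_lit 0) (nat_lit 9851567516) (nat_lit 152) (nat_lit 3166467192) (nat_lit 0) (nat_lit 2830957520) (nat_lit 16) (nat_lit 5) (nat_lit 18) (nat_lit 4) (nat_lit 16) (nat_lit 4) (nat_lit 649) (nat_lit 466) (nat_lit 445)))))) (XT.nd (nat_lit 79638) (nat_lit 0) (nat_lit 1824) (XT.nd (nat_lit 79404) (nat_lit 0) (nat_lit 3040) (XT.nd (nat_lit 79248) (nat_lit 0) (nat_lit 3496) (XT.lf (nat_lit 0) (nat_lit 4330791635) (nat_lit 76) (nat_lit 1550433400) (nat_lit 152) (nat_lit 10351367477) (nat_lit 12) (nat_lit 5) (nat_lit 13) (nat_lit 5) (nat_lit 14) (nat_lit 4) (nat_lit 651) (nat_lit 466) (nat_lit 443)) (XT.nd (nat_lit 78) (nat_lit 228) (nat_lit 0) (XT.lf (nat_lit 0) (nat_lit 1125333991) (nat_lit 228) (nat_lit 3904890940) (nat_lit 0) (nat_lit 1125333991) (nat_lit 61)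 (nat_lit 5) (nat_lit 64) (nat_lit 4) (nat_lit 61) (nat_lit 4) (nat_lit 626) (nat_lit 467) (nat_lit 467)) (XT.lf (nat_lit 0) (nat_lit 2686843426) (nat_lit 228) (nat_lit 5121548511) (nat_lit 228) (nat_lit 4628327908) (nat_lit 58) (nat_lit 4) (nat_lit 61) (nat_lit 5) (nat_lit 61) (nat_lit 4) (nat_lit 627) (nat_lit 467) (nat_lit 466)))) (XT.nd (nat_lit 78) (nat_lit 228) (nat_lit 0) (XT.lf (nat_lit 0) (nat_lit 798444311) (nat_lit 152) (nat_lit 80374759) (nat_lit 228) (nat_lit 11686333234) (nat_lit 55) (nat_lit 5) (nat_lit 57) (nat_lit 5) (nat_lit 58) (nat_lit 4) (nat_lit 628) (nat_lit 467) (nat_lit 465)) (XT.nd (nat_lit 78) (nat_lit 228) (nat_lit 0) (XT.lf (nat_lit 0) (nat_lit 6453578808) (nat_lit 228) (nat_lit 1210389527) (nat_lit 0) (nat_lit 5031188162) (nat_lit 55) (nat_lit 5) (nat_lit 58) (nat_lit 4) (nat_lit 55) (nat_lit 4) (nat_lit 629) (nat_lit 467) (nat_lit 464)) (XT.lf (nat_lit 0) (nat_lit 9542964673) (nat_lit 228) (nat_lit 2581577952) (nat_lit 228) (nat_lit 703527709)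 (nat_lit 52) (nat_lit 4) (nat_lit 55) (nat_lit 5) (nat_lit 55) (nat_lit 4) (nat_lit 630) (nat_lit 467) (nat_lit 463))))) (XT.nd (nat_lit 234) (nat_lit 532) (nat_lit 0) (XT.nd (nat_lit 78) (nat_lit 456) (nat_lit 0) (XT.lf (nat_lit 0) (nat_lit 4876663200) (nat_lit 228) (nat_lit 5488944225) (nat_lit 0) (nat_lit 2597471691) (nat_lit 49) (nat_lit 5) (nat_lit 52) (nat_lit 4) (nat_lit 49) (nat_lit 4) (nat_lit 631) (nat_lit 467) (nat_lit 462)) (XT.nd (nat_lit 78) (nat_lit 228) (nat_lit 0) (XT.lf (nat_lit 0) (nat_lit 5301294556) (nat_lit 228) (nat_lit 5254024069) (nat_lit 228) (nat_lit 2545454344) (nat_lit 46) (nat_lit 4) (nat_lit 49) (nat_lit 5) (nat_lit 49) (nat_lit 4) (nat_lit 632) (nat_lit 467) (nat_lit 461)) (XT.lf (nat_lit 0) (nat_lit 3021279731) (nat_lit 152) (nat_lit 23674967) (nat_lit 228) (nat_lit 10196278655) (nat_lit 43) (nat_lit 5) (nat_lit 45) (nat_lit 5) (nat_lit 46) (nat_lit 4) (nat_lit 633) (nat_lit 467) (nat_lit 460)))) (XT.nd (nat_lit 156) (nat_lit 304) (nat_lit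 0) (XT.nd (nat_lit 78) (nat_lit 76) (nat_lit 0) (XT.lf (nat_lit 0) (nat_lit 597455502) (nat_lit 152) (nat_lit 8129606457) (nat_lit 152) (nat_lit 4656828323) (nat_lit 41) (nat_lit 4) (nat_lit 43) (nat_lit 5) (nat_lit 43) (nat_lit 4) (nat_lit 634) (nat_lit 467) (nat_lit 459)) (XT.lf (nat_lit 0) (nat_lit 972570541) (nat_lit 228) (nat_lit 1904864741) (nat_lit 76) (nat_lit 10651995494) (nat_lit 40) (nat_lit 5) (nat_lit 43) (nat_lit 5) (nat_lit 41) (nat_lit 4) (nat_lit 635) (nat_lit 467) (nat_lit 458))) (XT.nd (nat_lit 78) (nat_lit 152) (nat_lit 0) (XT.lf (nat_lit 0) (nat_lit 6652452872) (nat_lit 228) (nat_lit 4547219915) (nat_lit 0) (nat_lit 2477591779) (nat_lit 38) (nat_lit 5) (nat_lit 41) (nat_lit 4) (nat_lit 38) (nat_lit 4) (nat_lit 636) (nat_lit 467) (nat_lit 457)) (XT.lf (nat_lit 0) (nat_lit 6512960431) (nat_lit 152) (nat_lit 5931889992) (nat_lit 152) (nat_lit 1383229324) (nat_lit 36) (nat_lit 4) (nat_lit 38) (nat_lit 5) (nat_lit 38) (nat_lit 4) (nat_lit 637) (nat_lit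 467) (nat_lit 456))))))))
noncomputable def xc3 : XT := (XT.nd (nat_lit 81042) (nat_lit 0) (nat_lit 0) (XT.nd (nat_lit 1014) (nat_lit 304) (nat_lit 0) (XT.nd (nat_lit 468) (nat_lit 608) (nat_lit 0) (XT.nd (nat_lit 234) (nat_lit 456) (nat_lit 0) (XT.nd (nat_lit 78) (nat_lit 228) (nat_lit 0) (XT.lf (nat_lit 0) (nat_lit 3758297727) (nat_lit 152) (nat_lit 535478791) (nat_lit 228) (nat_lit 9687971633) (nat_lit 33) (nat_lit 5) (nat_lit 35) (nat_lit 5) (nat_lit 36) (nat_lit 4) (nat_lit 638) (nat_lit 467) (nat_lit 455)) (XT.nd (nat_lit 78) (nat_lit 76) (nat_lit 0) (XT.lf (nat_lit 0) (nat_lit 846908218) (nat_lit 152) (nat_lit 9231076736) (nat_lit 152) (nat_lit 4060081319) (nat_lit 31) (nat_lit 4) (nat_lit 33) (nat_lit 5) (nat_lit 33) (nat_lit 4) (nat_lit 639) (nat_lit 467) (nat_lit 454)) (XT.lf (nat_lit 0) (nat_lit 1656016738) (nat_lit 228) (nat_lit 2171174633) (nat_lit 76) (nat_lit 10470150197) (nat_lit 30) (nat_lit 5) (nat_lit 33) (nat_lit 5) (nat_lit 31) (nat_lit 4) (nat_lit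 640) (nat_lit 467) (nat_lit 453)))) (XT.nd (nat_lit 78) (nat_lit 304) (nat_lit 0) (XT.lf (nat_lit 0) (nat_lit 7429060575) (nat_lit 228) (nat_lit 5341295903) (nat_lit 0) (nat_lit 1688972105) (nat_lit 28) (nat_lit 5) (nat_lit 31) (nat_lit 4) (nat_lit 28) (nat_lit 4) (nat_lit 641) (nat_lit 467) (nat_lit 452)) (XT.nd (nat_lit 78) (nat_lit 152) (nat_lit 0) (XT.lf (nat_lit 0) (nat_lit 5955997133) (nat_lit 152) (nat_lit 7366978085) (nat_lit 152) (nat_lit 1301474590) (nat_lit 26) (nat_lit 4) (nat_lit 28) (nat_lit 5) (nat_lit 28) (nat_lit 4) (nat_lit 642) (nat_lit 467) (nat_lit 451)) (XT.lf (nat_lit 0) (nat_lit 2629285596) (nat_lit 76) (nat_lit 1833003230) (nat_lit 152) (nat_lit 10330398181) (nat_lit 24) (nat_lit 5) (nat_lit 25) (nat_lit 5) (nat_lit 26) (nat_lit 4) (nat_lit 643) (nat_lit 467) (nat_lit 450))))) (XT.nd (nat_lit 234) (nat_lit 304) (nat_lit 0) (XT.nd (nat_lit 78) (nat_lit 304) (nat_lit 0) (XT.lf (nat_lit 0) (nat_lit 10334196217) (nat_lit 152) (nat_lit 861517731) (nat_lit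 0) (nat_lit 3768199552) (nat_lit 24) (nat_lit 5) (nat_lit 26) (nat_lit 4) (nat_lit 24) (nat_lit 4) (nat_lit 644) (nat_lit 467) (nat_lit 449)) (XT.nd (nat_lit 78) (nat_lit 76) (nat_lit 0) (XT.lf (nat_lit 0) (nat_lit 1179267834) (nat_lit 228) (nat_lit 4484508822) (nat_lit 76) (nat_lit 9474439777) (nat_lit 21) (nat_lit 5) (nat_lit 24) (nat_lit 5) (nat_lit 22) (nat_lit 4) (nat_lit 645) (nat_lit 467) (nat_lit 448)) (XT.lf (nat_lit 0) (nat_lit 7022416209) (nat_lit 152) (nat_lit 8291913096) (nat_lit 0) (nat_lit 1466931) (nat_lit 20) (nat_lit 5) (nat_lit 22) (nat_lit 4) (nat_lit 20) (nat_lit 4) (nat_lit 646) (nat_lit 467) (nat_lit 447)))) (XT.nd (nat_lit 78) (nat_lit 152) (nat_lit 0) (XT.lf (nat_lit 0) (nat_lit 3198437041) (nat_lit 152) (nat_lit 9801195728) (nat_lit 152) (nat_lit 2496953087) (nat_lit 18) (nat_lit 4) (nat_lit 20) (nat_lit 5) (nat_lit 20) (nat_lit 4) (nat_lit 647) (nat_lit 467) (nat_lit 446)) (XT.nd (nat_lit 78) (nat_lit 76) (nat_lit 0) (XT.lf (nat_lit 0) (nat_lit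 3355330099) (nat_lit 228) (nat_lit 804214431) (nat_lit 76) (nat_lit 11521311043) (nat_lit 17) (nat_lit 5) (nat_lit 20) (nat_lit 5) (nat_lit 18) (nat_lit 4) (nat_lit 648) (nat_lit 467) (nat_lit 445)) (XT.lf (nat_lit 0) (nat_lit 9302780629) (nat_lit 152) (nat_lit 4962958997) (nat_lit 0) (nat_lit 1602512033) (nat_lit 16) (nat_lit 5) (nat_lit 18) (nat_lit 4) (nat_lit 16) (nat_lit 4) (nat_lit 649) (nat_lit 467) (nat_lit 444)))))) (XT.nd (nat_lit 79482) (nat_lit 0) (nat_lit 2128) (XT.nd (nat_lit 79248) (nat_lit 0) (nat_lit 3268) (XT.nd (nat_lit 79092) (nat_lit 0) (nat_lit 3952) (XT.lf (nat_lit 0) (nat_lit 2338165954) (nat_lit 76) (nat_lit 2887943627) (nat_lit 152) (nat_lit 11027708572) (nat_lit 12) (nat_lit 5) (nat_lit 13) (nat_lit 5) (nat_lit 14) (nat_lit 4) (nat_lit 651) (nat_lit 467) (nat_lit 442)) (XT.nd (nat_lit 78) (nat_lit 228) (nat_lit 0) (XT.lf (nat_lit 0) (nat_lit 1975129857) (nat_lit 304) (nat_lit 2082565760) (nat_lit 0) (nat_lit 1975129857) (nat_lit 67) (nat_lit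 5) (nat_lit 71) (nat_lit 4) (nat_lit 67) (nat_lit 4) (nat_lit 624) (nat_lit 468) (nat_lit 468)) (XT.lf (nat_lit 0) (nat_lit 6212034366) (nat_lit 228) (nat_lit 3244374254) (nat_lit 228) (nat_lit 2731227539) (nat_lit 64) (nat_lit 4) (nat_lit 67) (nat_lit 5) (nat_lit 67) (nat_lit 4) (nat_lit 625) (nat_lit 468) (nat_lit 467)))) (XT.nd (nat_lit 78) (nat_lit 456) (nat_lit 0) (XT.lf (nat_lit 0) (nat_lit 2714290163) (nat_lit 228) (nat_lit 7879634397) (nat_lit 0) (nat_lit 1717984546) (nat_lit 61) (nat_lit 5) (nat_lit 64) (nat_lit 4) (nat_lit 61) (nat_lit 4) (nat_lit 626) (nat_lit 468) (nat_lit 466)) (XT.nd (nat_lit 78) (nat_lit 228) (nat_lit 0) (XT.lf (nat_lit 0) (nat_lit 2546669646) (nat_lit 228) (nat_lit 5685745317) (nat_lit 228) (nat_lit 4205890089) (nat_lit 58) (nat_lit 4) (nat_lit 61) (nat_lit 5) (nat_lit 61) (nat_lit 4) (nat_lit 627) (nat_lit 468) (nat_lit 465)) (XT.lf (nat_lit 0) (nat_lit 582563716) (nat_lit 152) (nat_lit 673123011) (nat_lit 228) (nat_lit 11311798413) (nat_lit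 55) (nat_lit 5) (nat_lit 57) (nat_lit 5) (nat_lit 58) (nat_lit 4) (nat_lit 628) (nat_lit 468) (nat_lit 464))))) (XT.nd (nat_lit 234) (nat_lit 684) (nat_lit 0) (XT.nd (nat_lit 78) (nat_lit 456) (nat_lit 0) (XT.lf (nat_lit 0) (nat_lit 6788091685) (nat_lit 228) (nat_lit 1493425755) (nat_lit 0) (nat_lit 4416820839) (nat_lit 55) (nat_lit 5) (nat_lit 58) (nat_lit 4) (nat_lit 55) (nat_lit 4) (nat_lit 629) (nat_lit 468) (nat_lit 463)) (XT.nd (nat_lit 78) (nat_lit 228) (nat_lit 0) (XT.lf (nat_lit 0) (nat_lit 9187947516) (nat_lit 228) (nat_lit 3231051740) (nat_lit 228) (nat_lit 413055798) (nat_lit 52) (nat_lit 4) (nat_lit 55) (nat_lit 5) (nat_lit 55) (nat_lit 4) (nat_lit 630) (nat_lit 468) (nat_lit 462)) (XT.lf (nat_lit 0) (nat_lit 5118397191) (nat_lit 228) (nat_lit 5923251380) (nat_lit 0) (nat_lit 1926277856) (nat_lit 49) (nat_lit 5) (nat_lit 52) (nat_lit 4) (nat_lit 49) (nat_lit 4) (nat_lit 631) (nat_lit 468) (nat_lit 461)))) (XT.nd (nat_lit 156) (nat_lit 228) (nat_lit 0) (XT.nd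 (nat_lit 78) (nat_lit 228) (nat_lit 0) (XT.lf (nat_lit 0) (nat_lit 4792819746) (nat_lit 228) (nat_lit 5963349145) (nat_lit 228) (nat_lit 2350270774) (nat_lit 46) (nat_lit 4) (nat_lit 49) (nat_lit 5) (nat_lit 49) (nat_lit 4) (nat_lit 632) (nat_lit 468) (nat_lit 460)) (XT.lf (nat_lit 0) (nat_lit 2430568447) (nat_lit 152) (nat_lit 765645292) (nat_lit 228) (nat_lit 10051489901) (nat_lit 43) (nat_lit 5) (nat_lit 45) (nat_lit 5) (nat_lit 46) (nat_lit 4) (nat_lit 633) (nat_lit 468) (nat_lit 459))) (XT.nd (nat_lit 78) (nat_lit 228) (nat_lit 0) (XT.lf (nat_lit 0) (nat_lit 8832201319) (nat_lit 228) (nat_lit 70407416) (nat_lit 0) (nat_lit 4488675838) (nat_lit 43) (nat_lit 5) (nat_lit 46) (nat_lit 4) (nat_lit 43) (nat_lit 4) (nat_lit 634) (nat_lit 468) (nat_lit 458)) (XT.lf (nat_lit 0) (nat_lit 1031194090) (nat_lit 228) (nat_lit 2649414496) (nat_lit 76) (nat_lit 9856962128) (nat_lit 40) (nat_lit 5) (nat_lit 43) (nat_lit 5) (nat_lit 41) (nat_lit 4) (nat_lit 635) (nat_lit 468) (nat_lit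 457))))))) (XT.nd (nat_lit 936) (nat_lit 456) (nat_lit 0) (XT.nd (nat_lit 468) (nat_lit 760) (nat_lit 0) (XT.nd (nat_lit 234) (nat_lit 380) (nat_lit 0) (XT.nd (nat_lit 78) (nat_lit 380) (nat_lit 0) (XT.lf (nat_lit 0) (nat_lit 6663657604) (nat_lit 228) (nat_lit 5372472649) (nat_lit 0) (nat_lit 1650224146) (nat_lit 38) (nat_lit 5) (nat_lit 41) (nat_lit 4) (nat_lit 38) (nat_lit 4) (nat_lit 636) (nat_lit 468) (nat_lit 456)) (XT.nd (nat_lit 78) (nat_lit 228) (nat_lit 0) (XT.lf (nat_lit 0) (nat_lit 5609369119) (nat_lit 152) (nat_lit 6804276882) (nat_lit 152) (nat_lit 1424373250) (nat_lit 36) (nat_lit 4) (nat_lit 38) (nat_lit 5) (nat_lit 38) (nat_lit 4) (nat_lit 637) (nat_lit 468) (nat_lit 455)) (XT.lf (nat_lit 0) (nat_lit 2765476169) (nat_lit 152) (nat_lit 1444753674) (nat_lit 228) (nat_lit 9782323434) (nat_lit 33) (nat_lit 5) (nat_lit 35) (nat_lit 5) (nat_lit 36) (nat_lit 4) (nat_lit 638) (nat_lit 468) (nat_lit 454)))) (XT.nd (nat_lit 78) (nat_lit 380) (nat_lit 0) (XT.lf (nat_lit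 0) (nat_lit 9946632064) (nat_lit 228) (nat_lit 228552840) (nat_lit 0) (nat_lit 3974644020) (nat_lit 33) (nat_lit 5) (nat_lit 36) (nat_lit 4) (nat_lit 33) (nat_lit 4) (nat_lit 639) (nat_lit 468) (nat_lit 453)) (XT.nd (nat_lit 78) (nat_lit 152) (nat_lit 0) (XT.lf (nat_lit 0) (nat_lit 1476904154) (nat_lit 228) (nat_lit 3327203443) (nat_lit 76) (nat_lit 9505774034) (nat_lit 30) (nat_lit 5) (nat_lit 33) (nat_lit 5) (nat_lit 31) (nat_lit 4) (nat_lit 640) (nat_lit 468) (nat_lit 452)) (XT.lf (nat_lit 0) (nat_lit 7199676015) (nat_lit 228) (nat_lit 6585751969) (nat_lit 0) (nat_lit 687447424) (nat_lit 28) (nat_lit 5) (nat_lit 31) (nat_lit 4) (nat_lit 28) (nat_lit 4) (nat_lit 641) (nat_lit 468) (nat_lit 451))))) (XT.nd (nat_lit 234) (nat_lit 456) (nat_lit 0) (XT.nd (nat_lit 78) (nat_lit 152) (nat_lit 0) (XT.lf (nat_lit 0) (nat_lit 4628676921) (nat_lit 152) (nat_lit 8420733769) (nat_lit 152) (nat_lit 1589470839) (nat_lit 26) (nat_lit 4) (nat_lit 28) (nat_lit 5) (nat_lit 28) (nat_lit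 4) (nat_lit 642) (nat_lit 468) (nat_lit 450)) (XT.nd (nat_lit 78) (nat_lit 0) (nat_lit 0) (XT.lf (nat_lit 0) (nat_lit 1205227972) (nat_lit 76) (nat_lit 2928073842) (nat_lit 152) (nat_lit 10674750913) (nat_lit 24) (nat_lit 5) (nat_lit 25) (nat_lit 5) (nat_lit 26) (nat_lit 4) (nat_lit 643) (nat_lit 468) (nat_lit 449)) (XT.lf (nat_lit 0) (nat_lit 9962657754) (nat_lit 152) (nat_lit 2359411590) (nat_lit 0) (nat_lit 2658062126) (nat_lit 24) (nat_lit 5) (nat_lit 26) (nat_lit 4) (nat_lit 24) (nat_lit 4) (nat_lit 644) (nat_lit 468) (nat_lit 448)))) (XT.nd (nat_lit 78) (nat_lit 228) (nat_lit 0) (XT.lf (nat_lit 0) (nat_lit 751273393) (nat_lit 228) (nat_lit 6081761787) (nat_lit 76) (nat_lit 8322357217) (nat_lit 21) (nat_lit 5) (nat_lit 24) (nat_lit 5) (nat_lit 22) (nat_lit 4) (nat_lit 645) (nat_lit 468) (nat_lit 447)) (XT.nd (nat_lit 78) (nat_lit 152) (nat_lit 0) (XT.lf (nat_lit 0) (nat_lit 5340224425) (nat_lit 76) (nat_lit 1208546712) (nat_lit 152) (nat_lit 8785115227) (nat_lit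 20) (nat_lit 5) (nat_lit 21) (nat_lit 5) (nat_lit 22) (nat_lit 4) (nat_lit 646) (nat_lit 468) (nat_lit 446)) (XT.lf (nat_lit 0) (nat_lit 1416758434) (nat_lit 152) (nat_lit 11055179560) (nat_lit 152) (nat_lit 3043820112) (nat_lit 18) (nat_lit 4) (nat_lit 20) (nat_lit 5) (nat_lit 20) (nat_lit 4) (nat_lit 647) (nat_lit 468) (nat_lit 445)))))) (XT.nd (nat_lit 79404) (nat_lit 0) (nat_lit 2812) (XT.nd (nat_lit 79170) (nat_lit 0) (nat_lit 4180) (XT.nd (nat_lit 78) (nat_lit 380) (nat_lit 0) (XT.lf (nat_lit 0) (nat_lit 2781035122) (nat_lit 228) (nat_lit 2665961237) (nat_lit 76) (nat_lit 10253795564) (nat_lit 17) (nat_lit 5) (nat_lit 20) (nat_lit 5) (nat_lit 18) (nat_lit 4) (nat_lit 648) (nat_lit 468) (nat_lit 444)) (XT.nd (nat_lit 156) (nat_lit 304) (nat_lit 0) (XT.lf (nat_lit 0) (nat_lit 8673267024) (nat_lit 152) (nat_lit 6925706306) (nat_lit 0) (nat_lit 290320114) (nat_lit 16) (nat_lit 5) (nat_lit 18) (nat_lit 4) (nat_lit 16) (nat_lit 4) (nat_lit 649) (nat_lit 468) (nat_lit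 443)) (XT.lf (nat_lit 0) (nat_lit 176149235) (nat_lit 76) (nat_lit 4312583473) (nat_lit 152) (nat_lit 11788120804) (nat_lit 12) (nat_lit 5) (nat_lit 13) (nat_lit 5) (nat_lit 14) (nat_lit 4) (nat_lit 651) (nat_lit 468) (nat_lit 441)))) (XT.nd (nat_lit 78) (nat_lit 532) (nat_lit 0) (XT.lf (nat_lit 0) (nat_lit 2772180737) (nat_lit 304) (nat_lit 369480939) (nat_lit 0) (nat_lit 2772180737) (nat_lit 74) (nat_lit 5) (nat_lit 78) (nat_lit 4) (nat_lit 74) (nat_lit 4) (nat_lit 622) (nat_lit 469) (nat_lit 469)) (XT.nd (nat_lit 78) (nat_lit 304) (nat_lit 0) (XT.lf (nat_lit 0) (nat_lit 9514909333) (nat_lit 228) (nat_lit 1482570877) (nat_lit 228) (nat_lit 948693034) (nat_lit 71) (nat_lit 4) (nat_lit 74) (nat_lit 5) (nat_lit 74) (nat_lit 4) (nat_lit 623) (nat_lit 469) (nat_lit 468)) (XT.lf (nat_lit 0) (nat_lit 4434786334) (nat_lit 304) (nat_lit 4233414392) (nat_lit 0) (nat_lit 3398229969) (nat_lit 67) (nat_lit 5) (nat_lit 71) (nat_lit 4) (nat_lit 67) (nat_lit 4) (nat_lit 624) (nat_lit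 469) (nat_lit 467))))) (XT.nd (nat_lit 234) (nat_lit 684) (nat_lit 0) (XT.nd (nat_lit 78) (nat_lit 456) (nat_lit 0) (XT.lf (nat_lit 0) (nat_lit 6075010408) (nat_lit 228) (nat_lit 3826914561) (nat_lit 228) (nat_lit 2287273182) (nat_lit 64) (nat_lit 4) (nat_lit 67) (nat_lit 5) (nat_lit 67) (nat_lit 4) (nat_lit 625) (nat_lit 469) (nat_lit 466)) (XT.nd (nat_lit 78) (nat_lit 228) (nat_lit 0) (XT.lf (nat_lit 0) (nat_lit 3109032899) (nat_lit 228) (nat_lit 8089219340) (nat_lit 0) (nat_lit 1116030956) (nat_lit 61) (nat_lit 5) (nat_lit 64) (nat_lit 4) (nat_lit 61) (nat_lit 4) (nat_lit 626) (nat_lit 469) (nat_lit 465)) (XT.lf (nat_lit 0) (nat_lit 2266267115) (nat_lit 228) (nat_lit 6321139580) (nat_lit 228) (nat_lit 3854069391) (nat_lit 58) (nat_lit 4) (nat_lit 61) (nat_lit 5) (nat_lit 61) (nat_lit 4) (nat_lit 627) (nat_lit 469) (nat_lit 464)))) (XT.nd (nat_lit 156) (nat_lit 456) (nat_lit 0) (XT.nd (nat_lit 78) (nat_lit 0) (nat_lit 0) (XT.lf (nat_lit 0) (nat_lit 224810419) (nat_lit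 152) (nat_lit 1337889282) (nat_lit 228) (nat_lit 11008716509) (nat_lit 55) (nat_lit 5) (nat_lit 57) (nat_lit 5) (nat_lit 58) (nat_lit 4) (nat_lit 628) (nat_lit 469) (nat_lit 463)) (XT.lf (nat_lit 0) (nat_lit 7053037316) (nat_lit 228) (nat_lit 1918118834) (nat_lit 0) (nat_lit 3731956360) (nat_lit 55) (nat_lit 5) (nat_lit 58) (nat_lit 4) (nat_lit 55) (nat_lit 4) (nat_lit 629) (nat_lit 469) (nat_lit 462))) (XT.nd (nat_lit 78) (nat_lit 228) (nat_lit 0) (XT.lf (nat_lit 0) (nat_lit 8690728600) (nat_lit 228) (nat_lit 3952976993) (nat_lit 228) (nat_lit 193930257) (nat_lit 52) (nat_lit 4) (nat_lit 55) (nat_lit 5) (nat_lit 55) (nat_lit 4) (nat_lit 630) (nat_lit 469) (nat_lit 461)) (XT.lf (nat_lit 0) (nat_lit 5289049475) (nat_lit 228) (nat_lit 6502592489) (nat_lit 0) (nat_lit 1182750502) (nat_lit 49) (nat_lit 5) (nat_lit 52) (nat_lit 4) (nat_lit 49) (nat_lit 4) (nat_lit 631) (nat_lit 469) (nat_lit 460))))))))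
noncomputable def xc4 : XT := (XT.nd (nat_lit 80730) (nat_lit 0) (nat_lit 0) (XT.nd (nat_lit 936) (nat_lit 912) (nat_lit 0) (XT.nd (nat_lit 468) (nat_lit 836) (nat_lit 0) (XT.nd (nat_lit 234) (nat_lit 532) (nat_lit 0) (XT.nd (nat_lit 78) (nat_lit 228) (nat_lit 0) (XT.lf (nat_lit 0) (nat_lit 4138724655) (nat_lit 228) (nat_lit 6747004240) (nat_lit 228) (nat_lit 2228000330) (nat_lit 46) (nat_lit 4) (nat_lit 49) (nat_lit 5) (nat_lit 49) (nat_lit 4) (nat_lit 632) (nat_lit 469) (nat_lit 459)) (XT.nd (nat_lit 78) (nat_lit 0) (nat_lit 0) (XT.lf (nat_lit 0) (nat_lit 1692479139) (nat_lit 152) (nat_lit 1582815777) (nat_lit 228) (nat_lit 9980515732) (nat_lit 43) (nat_lit 5) (nat_lit 45) (nat_lit 5) (nat_lit 46) (nat_lit 4) (nat_lit 633) (nat_lit 469) (nat_lit 458)) (XT.lf (nat_lit 0) (nat_lit 8869287431) (nat_lit 228) (nat_lit 877634369) (nat_lit 0) (nat_lit 3653311261) (nat_lit 43) (nat_lit 5) (nat_lit 46) (nat_lit 4) (nat_lit 43) (nat_lit 4) (nat_lit 634) (nat_lit 469) (nat_lit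 457)))) (XT.nd (nat_lit 78) (nat_lit 304) (nat_lit 0) (XT.lf (nat_lit 0) (nat_lit 1016976321) (nat_lit 228) (nat_lit 3542959568) (nat_lit 76) (nat_lit 8987420905) (nat_lit 40) (nat_lit 5) (nat_lit 43) (nat_lit 5) (nat_lit 41) (nat_lit 4) (nat_lit 635) (nat_lit 469) (nat_lit 456)) (XT.nd (nat_lit 78) (nat_lit 152) (nat_lit 0) (XT.lf (nat_lit 0) (nat_lit 6601270701) (nat_lit 228) (nat_lit 6348535824) (nat_lit 0) (nat_lit 747298824) (nat_lit 38) (nat_lit 5) (nat_lit 41) (nat_lit 4) (nat_lit 38) (nat_lit 4) (nat_lit 636) (nat_lit 469) (nat_lit 455)) (XT.lf (nat_lit 0) (nat_lit 4554284181) (nat_lit 152) (nat_lit 7754298682) (nat_lit 152) (nat_lit 1541042322) (nat_lit 36) (nat_lit 4) (nat_lit 38) (nat_lit 5) (nat_lit 38) (nat_lit 4) (nat_lit 637) (nat_lit 469) (nat_lit 454))))) (XT.nd (nat_lit 234) (nat_lit 380) (nat_lit 0) (XT.nd (nat_lit 78) (nat_lit 228) (nat_lit 0) (XT.lf (nat_lit 0) (nat_lit 1619277996) (nat_lit 152) (nat_lit 2432590343) (nat_lit 228) (nat_lit 9953171875)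 (nat_lit 33) (nat_lit 5) (nat_lit 35) (nat_lit 5) (nat_lit 36) (nat_lit 4) (nat_lit 638) (nat_lit 469) (nat_lit 453)) (XT.nd (nat_lit 78) (nat_lit 228) (nat_lit 0) (XT.lf (nat_lit 0) (nat_lit 9746166762) (nat_lit 228) (nat_lit 1446148415) (nat_lit 0) (nat_lit 2970844136) (nat_lit 33) (nat_lit 5) (nat_lit 36) (nat_lit 4) (nat_lit 33) (nat_lit 4) (nat_lit 639) (nat_lit 469) (nat_lit 452)) (XT.lf (nat_lit 0) (nat_lit 1222201403) (nat_lit 228) (nat_lit 4638399117) (nat_lit 76) (nat_lit 8463514804) (nat_lit 30) (nat_lit 5) (nat_lit 33) (nat_lit 5) (nat_lit 31) (nat_lit 4) (nat_lit 640) (nat_lit 469) (nat_lit 451)))) (XT.nd (nat_lit 78) (nat_lit 228) (nat_lit 0) (XT.lf (nat_lit 0) (nat_lit 6498176411) (nat_lit 152) (nat_lit 398277742) (nat_lit 228) (nat_lit 7591626625) (nat_lit 28) (nat_lit 5) (nat_lit 30) (nat_lit 5) (nat_lit 31) (nat_lit 4) (nat_lit 641) (nat_lit 469) (nat_lit 450)) (XT.nd (nat_lit 78) (nat_lit 76) (nat_lit 0) (XT.lf (nat_lit 0) (nat_lit 3143458854) (nat_lit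 152) (nat_lit 9555636240) (nat_lit 152) (nat_lit 1955934949) (nat_lit 26) (nat_lit 4) (nat_lit 28) (nat_lit 5) (nat_lit 28) (nat_lit 4) (nat_lit 642) (nat_lit 469) (nat_lit 449)) (XT.lf (nat_lit 0) (nat_lit 3728993357) (nat_lit 228) (nat_lit 373780557) (nat_lit 76) (nat_lit 10722329148) (nat_lit 25) (nat_lit 5) (nat_lit 28) (nat_lit 5) (nat_lit 26) (nat_lit 4) (nat_lit 643) (nat_lit 469) (nat_lit 448)))))) (XT.nd (nat_lit 546) (nat_lit 228) (nat_lit 0) (XT.nd (nat_lit 234) (nat_lit 304) (nat_lit 0) (XT.nd (nat_lit 78) (nat_lit 304) (nat_lit 0) (XT.lf (nat_lit 0) (nat_lit 9513500403) (nat_lit 152) (nat_lit 4017138312) (nat_lit 0) (nat_lit 1467441264) (nat_lit 24) (nat_lit 5) (nat_lit 26) (nat_lit 4) (nat_lit 24) (nat_lit 4) (nat_lit 644) (nat_lit 469) (nat_lit 447)) (XT.nd (nat_lit 78) (nat_lit 76) (nat_lit 0) (XT.lf (nat_lit 0) (nat_lit 244605901) (nat_lit 228) (nat_lit 7840914448) (nat_lit 76) (nat_lit 7088796119) (nat_lit 21) (nat_lit 5) (nat_lit 24) (nat_lit 5) (nat_lit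 22) (nat_lit 4) (nat_lit 645) (nat_lit 469) (nat_lit 446)) (XT.lf (nat_lit 0) (nat_lit 3493782822) (nat_lit 76) (nat_lit 2502303591) (nat_lit 152) (nat_lit 9357645495) (nat_lit 20) (nat_lit 5) (nat_lit 21) (nat_lit 5) (nat_lit 22) (nat_lit 4) (nat_lit 646) (nat_lit 469) (nat_lit 445)))) (XT.nd (nat_lit 78) (nat_lit 304) (nat_lit 0) (XT.lf (nat_lit 0) (nat_lit 11867698749) (nat_lit 152) (nat_lit 522856312) (nat_lit 0) (nat_lit 3146080784) (nat_lit 20) (nat_lit 5) (nat_lit 22) (nat_lit 4) (nat_lit 20) (nat_lit 4) (nat_lit 647) (nat_lit 469) (nat_lit 444)) (XT.nd (nat_lit 78) (nat_lit 76) (nat_lit 0) (XT.lf (nat_lit 0) (nat_lit 2126732259) (nat_lit 228) (nat_lit 4692572464) (nat_lit 76) (nat_lit 8903194864) (nat_lit 17) (nat_lit 5) (nat_lit 20) (nat_lit 5) (nat_lit 18) (nat_lit 4) (nat_lit 648) (nat_lit 469) (nat_lit 443)) (XT.lf (nat_lit 0) (nat_lit 6849224280) (nat_lit 76) (nat_lit 1120832742) (nat_lit 152) (nat_lit 7941923272) (nat_lit 16) (nat_lit 5) (nat_lit 17) (nat_lit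 5) (nat_lit 18) (nat_lit 4) (nat_lit 649) (nat_lit 469) (nat_lit 442))))) (XT.nd (nat_lit 78936) (nat_lit 0) (nat_lit 3876) (XT.nd (nat_lit 78780) (nat_lit 0) (nat_lit 4636) (XT.lf (nat_lit 0) (nat_lit 3682804120) (nat_lit 228) (nat_lit 2127828648) (nat_lit 76) (nat_lit 10490794875) (nat_lit 13) (nat_lit 5) (nat_lit 16) (nat_lit 5) (nat_lit 14) (nat_lit 4) (nat_lit 651) (nat_lit 469) (nat_lit 440)) (XT.nd (nat_lit 78) (nat_lit 304) (nat_lit 0) (XT.lf (nat_lit 0) (nat_lit 1261043647) (nat_lit 228) (nat_lit 2268637244) (nat_lit 228) (nat_lit 2268637244) (nat_lit 78) (nat_lit 4) (nat_lit 81) (nat_lit 5) (nat_lit 81) (nat_lit 4) (nat_lit 620) (nat_lit 470) (nat_lit 470)) (XT.lf (nat_lit 0) (nat_lit 727394374) (nat_lit 304) (nat_lit 10801597209) (nat_lit 0) (nat_lit 182838975) (nat_lit 74) (nat_lit 5) (nat_lit 78) (nat_lit 4) (nat_lit 74) (nat_lit 4) (nat_lit 621) (nat_lit 470) (nat_lit 469)))) (XT.nd (nat_lit 156) (nat_lit 532) (nat_lit 0) (XT.nd (nat_lit 78) (nat_lit 228)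 (nat_lit 0) (XT.lf (nat_lit 0) (nat_lit 6050594440) (nat_lit 304) (nat_lit 805697805) (nat_lit 0) (nat_lit 4972161199) (nat_lit 74) (nat_lit 5) (nat_lit 78) (nat_lit 4) (nat_lit 74) (nat_lit 4) (nat_lit 622) (nat_lit 470) (nat_lit 468)) (XT.lf (nat_lit 0) (nat_lit 9380989649) (nat_lit 228) (nat_lit 2084283019) (nat_lit 228) (nat_lit 482440129) (nat_lit 71) (nat_lit 4) (nat_lit 74) (nat_lit 5) (nat_lit 74) (nat_lit 4) (nat_lit 623) (nat_lit 470) (nat_lit 467))) (XT.nd (nat_lit 78) (nat_lit 228) (nat_lit 0) (XT.lf (nat_lit 0) (nat_lit 4851999835) (nat_lit 304) (nat_lit 4438289787) (nat_lit 0) (nat_lit 2778480613) (nat_lit 67) (nat_lit 5) (nat_lit 71) (nat_lit 4) (nat_lit 67) (nat_lit 4) (nat_lit 624) (nat_lit 470) (nat_lit 466)) (XT.lf (nat_lit 0) (nat_lit 5800908756) (nat_lit 228) (nat_lit 4479076909) (nat_lit 228) (nat_lit 1912337085) (nat_lit 64) (nat_lit 4) (nat_lit 67) (nat_lit 5) (nat_lit 67) (nat_lit 4) (nat_lit 625) (nat_lit 470) (nat_lit 465))))))) (XT.nd (nat_lit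 936) (nat_lit 1748) (nat_lit 0) (XT.nd (nat_lit 468) (nat_lit 988) (nat_lit 0) (XT.nd (nat_lit 234) (nat_lit 608) (nat_lit 0) (XT.nd (nat_lit 78) (nat_lit 304) (nat_lit 0) (XT.lf (nat_lit 0) (nat_lit 3435050992) (nat_lit 228) (nat_lit 8438618899) (nat_lit 0) (nat_lit 444571154) (nat_lit 61) (nat_lit 5) (nat_lit 64) (nat_lit 4) (nat_lit 61) (nat_lit 4) (nat_lit 626) (nat_lit 470) (nat_lit 464)) (XT.nd (nat_lit 78) (nat_lit 76) (nat_lit 0) (XT.lf (nat_lit 0) (nat_lit 1845525873) (nat_lit 228) (nat_lit 7027980473) (nat_lit 228) (nat_lit 3572727846) (nat_lit 58) (nat_lit 4) (nat_lit 61) (nat_lit 5) (nat_lit 61) (nat_lit 4) (nat_lit 627) (nat_lit 470) (nat_lit 463)) (XT.lf (nat_lit 0) (nat_lit 1801763587) (nat_lit 304) (nat_lit 271349779) (nat_lit 76) (nat_lit 10503797988) (nat_lit 57) (nat_lit 5) (nat_lit 61) (nat_lit 5) (nat_lit 58) (nat_lit 4) (nat_lit 628) (nat_lit 470) (nat_lit 462)))) (XT.nd (nat_lit 78) (nat_lit 456) (nat_lit 0) (XT.lf (nat_lit 0) (nat_lit 7248519602)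 (nat_lit 228) (nat_lit 2484635311) (nat_lit 0) (nat_lit 2976326150) (nat_lit 55) (nat_lit 5) (nat_lit 58) (nat_lit 4) (nat_lit 55) (nat_lit 4) (nat_lit 629) (nat_lit 470) (nat_lit 461)) (XT.nd (nat_lit 78) (nat_lit 228) (nat_lit 0) (XT.lf (nat_lit 0) (nat_lit 8051112938) (nat_lit 228) (nat_lit 4747636820) (nat_lit 228) (nat_lit 46065152) (nat_lit 52) (nat_lit 4) (nat_lit 55) (nat_lit 5) (nat_lit 55) (nat_lit 4) (nat_lit 630) (nat_lit 470) (nat_lit 460)) (XT.lf (nat_lit 0) (nat_lit 5388686974) (nat_lit 228) (nat_lit 7227194744) (nat_lit 0) (nat_lit 366598049) (nat_lit 49) (nat_lit 5) (nat_lit 52) (nat_lit 4) (nat_lit 49) (nat_lit 4) (nat_lit 631) (nat_lit 470) (nat_lit 459))))) (XT.nd (nat_lit 234) (nat_lit 532) (nat_lit 0) (XT.nd (nat_lit 78) (nat_lit 228) (nat_lit 0) (XT.lf (nat_lit 0) (nat_lit 3338752773) (nat_lit 228) (nat_lit 7605296672) (nat_lit 228) (nat_lit 2178595064) (nat_lit 46) (nat_lit 4) (nat_lit 49) (nat_lit 5) (nat_lit 49) (nat_lit 4) (nat_lit 632) (nat_lit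 470) (nat_lit 458)) (XT.nd (nat_lit 78) (nat_lit 0) (nat_lit 0) (XT.lf (nat_lit 0) (nat_lit 806722361) (nat_lit 152) (nat_lit 2475506880) (nat_lit 228) (nat_lit 9983328313) (nat_lit 43) (nat_lit 5) (nat_lit 45) (nat_lit 5) (nat_lit 46) (nat_lit 4) (nat_lit 633) (nat_lit 470) (nat_lit 457)) (XT.lf (nat_lit 0) (nat_lit 8834455763) (nat_lit 228) (nat_lit 1832377651) (nat_lit 0) (nat_lit 2743983423) (nat_lit 43) (nat_lit 5) (nat_lit 46) (nat_lit 4) (nat_lit 43) (nat_lit 4) (nat_lit 634) (nat_lit 470) (nat_lit 456)))) (XT.nd (nat_lit 78) (nat_lit 304) (nat_lit 0) (XT.lf (nat_lit 0) (nat_lit 929911657) (nat_lit 228) (nat_lit 4585850368) (nat_lit 76) (nat_lit 8043030826) (nat_lit 40) (nat_lit 5) (nat_lit 43) (nat_lit 5) (nat_lit 41) (nat_lit 4) (nat_lit 635) (nat_lit 470) (nat_lit 455)) (XT.nd (nat_lit 78) (nat_lit 152) (nat_lit 0) (XT.lf (nat_lit 0) (nat_lit 6232175677) (nat_lit 152) (nat_lit 234615296) (nat_lit 228) (nat_lit 7242700194) (nat_lit 38) (nat_lit 5) (nat_lit 40)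 (nat_lit 5) (nat_lit 41) (nat_lit 4) (nat_lit 636) (nat_lit 470) (nat_lit 454)) (XT.lf (nat_lit 0) (nat_lit 3347291859) (nat_lit 152) (nat_lit 8782327950) (nat_lit 152) (nat_lit 1733282290) (nat_lit 36) (nat_lit 4) (nat_lit 38) (nat_lit 5) (nat_lit 38) (nat_lit 4) (nat_lit 637) (nat_lit 470) (nat_lit 453)))))) (XT.nd (nat_lit 468) (nat_lit 912) (nat_lit 0) (XT.nd (nat_lit 234) (nat_lit 380) (nat_lit 0) (XT.nd (nat_lit 78) (nat_lit 228) (nat_lit 0) (XT.lf (nat_lit 0) (nat_lit 319253720) (nat_lit 152) (nat_lit 3499376185) (nat_lit 228) (nat_lit 10200583957) (nat_lit 33) (nat_lit 5) (nat_lit 35) (nat_lit 5) (nat_lit 36) (nat_lit 4) (nat_lit 638) (nat_lit 470) (nat_lit 452)) (XT.nd (nat_lit 78) (nat_lit 228) (nat_lit 0) (XT.lf (nat_lit 0) (nat_lit 9471011745) (nat_lit 228) (nat_lit 2817463348) (nat_lit 0) (nat_lit 1889697547) (nat_lit 33) (nat_lit 5) (nat_lit 36) (nat_lit 4) (nat_lit 33) (nat_lit 4) (nat_lit 639) (nat_lit 470) (nat_lit 451)) (XT.lf (nat_lit 0) (nat_lit 891808600)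 (nat_lit 228) (nat_lit 6105275850) (nat_lit 76) (nat_lit 7342963778) (nat_lit 30) (nat_lit 5) (nat_lit 33) (nat_lit 5) (nat_lit 31) (nat_lit 4) (nat_lit 640) (nat_lit 470) (nat_lit 450)))) (XT.nd (nat_lit 78) (nat_lit 228) (nat_lit 0) (XT.lf (nat_lit 0) (nat_lit 4948139592) (nat_lit 152) (nat_lit 1573594642) (nat_lit 228) (nat_lit 7983167259) (nat_lit 28) (nat_lit 5) (nat_lit 30) (nat_lit 5) (nat_lit 31) (nat_lit 4) (nat_lit 641) (nat_lit 470) (nat_lit 449)) (XT.nd (nat_lit 78) (nat_lit 76) (nat_lit 0) (XT.lf (nat_lit 0) (nat_lit 1499760495) (nat_lit 152) (nat_lit 10772130560) (nat_lit 152) (nat_lit 2401010632) (nat_lit 26) (nat_lit 4) (nat_lit 28) (nat_lit 5) (nat_lit 28) (nat_lit 4) (nat_lit 642) (nat_lit 470) (nat_lit 448)) (XT.lf (nat_lit 0) (nat_lit 3255612322) (nat_lit 228) (nat_lit 2095416219) (nat_lit 76) (nat_lit 9492688007) (nat_lit 25) (nat_lit 5) (nat_lit 28) (nat_lit 5) (nat_lit 26) (nat_lit 4) (nat_lit 643) (nat_lit 470) (nat_lit 447))))) (XT.nd (nat_lit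 234) (nat_lit 532) (nat_lit 0) (XT.nd (nat_lit 78) (nat_lit 304) (nat_lit 0) (XT.lf (nat_lit 0) (nat_lit 8986548023) (nat_lit 152) (nat_lit 5835347988) (nat_lit 0) (nat_lit 195870056) (nat_lit 24) (nat_lit 5) (nat_lit 26) (nat_lit 4) (nat_lit 24) (nat_lit 4) (nat_lit 644) (nat_lit 470) (nat_lit 446)) (XT.nd (nat_lit 78) (nat_lit 152) (nat_lit 0) (XT.lf (nat_lit 0) (nat_lit 5430051556) (nat_lit 152) (nat_lit 9419435491) (nat_lit 152) (nat_lit 345464161) (nat_lit 22) (nat_lit 4) (nat_lit 24) (nat_lit 5) (nat_lit 24) (nat_lit 4) (nat_lit 645) (nat_lit 470) (nat_lit 445)) (XT.lf (nat_lit 0) (nat_lit 1483844081) (nat_lit 76) (nat_lit 3880291563) (nat_lit 152) (nat_lit 10011205198) (nat_lit 20) (nat_lit 5) (nat_lit 21) (nat_lit 5) (nat_lit 22) (nat_lit 4) (nat_lit 646) (nat_lit 470) (nat_lit 444)))) (XT.nd (nat_lit 156) (nat_lit 304) (nat_lit 0) (XT.nd (nat_lit 78) (nat_lit 228) (nat_lit 0) (XT.lf (nat_lit 0) (nat_lit 11193510917) (nat_lit 152) (nat_lit 2607365495) (nat_lit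 0) (nat_lit 1758214193) (nat_lit 20) (nat_lit 5) (nat_lit 22) (nat_lit 4) (nat_lit 20) (nat_lit 4) (nat_lit 647) (nat_lit 470) (nat_lit 443)) (XT.lf (nat_lit 0) (nat_lit 1392164920) (nat_lit 228) (nat_lit 6884842862) (nat_lit 76) (nat_lit 7468979295) (nat_lit 17) (nat_lit 5) (nat_lit 20) (nat_lit 5) (nat_lit 18) (nat_lit 4) (nat_lit 648) (nat_lit 470) (nat_lit 442))) (XT.nd (nat_lit 156) (nat_lit 228) (nat_lit 0) (XT.lf (nat_lit 0) (nat_lit 4566283255) (nat_lit 76) (nat_lit 2621779509) (nat_lit 152) (nat_lit 8748354580) (nat_lit 16) (nat_lit 5) (nat_lit 17) (nat_lit 5) (nat_lit 18) (nat_lit 4) (nat_lit 649) (nat_lit 470) (nat_lit 441)) (XT.lf (nat_lit 0) (nat_lit 2796258325) (nat_lit 228) (nat_lit 4598405093) (nat_lit 76) (nat_lit 8933121758) (nat_lit 13) (nat_lit 5) (nat_lit 16) (nat_lit 5) (nat_lit 14) (nat_lit 4) (nat_lit 651) (nat_lit 470) (nat_lit 439))))))))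
noncomputable def xc5 : XT := (XT.nd (nat_lit 1950) (nat_lit 1140) (nat_lit 0) (XT.nd (nat_lit 936) (nat_lit 2052) (nat_lit 0) (XT.nd (nat_lit 468) (nat_lit 1216) (nat_lit 0) (XT.nd (nat_lit 234) (nat_lit 532) (nat_lit 0) (XT.nd (nat_lit 78) (nat_lit 532) (nat_lit 0) (XT.lf (nat_lit 0) (nat_lit 2805618034) (nat_lit 228) (nat_lit 1440321137) (nat_lit 228) (nat_lit 1440321137) (nat_lit 85) (nat_lit 4) (nat_lit 88) (nat_lit 5) (nat_lit 88) (nat_lit 4) (nat_lit 618) (nat_lit 471) (nat_lit 471)) (XT.nd (nat_lit 78) (nat_lit 228) (nat_lit 0) (XT.lf (nat_lit 0) (nat_lit 2321962868) (nat_lit 304) (nat_lit 7406641188) (nat_lit 0) (nat_lit 1755407430) (nat_lit 81) (nat_lit 5) (nat_lit 85) (nat_lit 4) (nat_lit 81) (nat_lit 4) (nat_lit 619) (nat_lit 471) (nat_lit 470)) (XT.lf (nat_lit 0) (nat_lit 2456009770) (nat_lit 228) (nat_lit 5131697451) (nat_lit 228) (nat_lit 4009695506) (nat_lit 78) (nat_lit 4) (nat_lit 81) (nat_lit 5) (nat_lit 81) (nat_lit 4) (nat_lit 620) (nat_lit 471) (nat_lit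 469)))) (XT.nd (nat_lit 78) (nat_lit 228) (nat_lit 0) (XT.lf (nat_lit 0) (nat_lit 774104260) (nat_lit 228) (nat_lit 434144058) (nat_lit 304) (nat_lit 10505078471) (nat_lit 74) (nat_lit 5) (nat_lit 77) (nat_lit 5) (nat_lit 78) (nat_lit 4) (nat_lit 621) (nat_lit 471) (nat_lit 468)) (XT.nd (nat_lit 78) (nat_lit 228) (nat_lit 0) (XT.lf (nat_lit 0) (nat_lit 6491058620) (nat_lit 304) (nat_lit 1005931753) (nat_lit 0) (nat_lit 4333769222) (nat_lit 74) (nat_lit 5) (nat_lit 78) (nat_lit 4) (nat_lit 74) (nat_lit 4) (nat_lit 622) (nat_lit 471) (nat_lit 467)) (XT.lf (nat_lit 0) (nat_lit 9113097762) (nat_lit 228) (nat_lit 2754065428) (nat_lit 228) (nat_lit 83629315) (nat_lit 71) (nat_lit 4) (nat_lit 74) (nat_lit 5) (nat_lit 74) (nat_lit 4) (nat_lit 623) (nat_lit 471) (nat_lit 466))))) (XT.nd (nat_lit 234) (nat_lit 456) (nat_lit 0) (XT.nd (nat_lit 78) (nat_lit 456) (nat_lit 0) (XT.lf (nat_lit 0) (nat_lit 5202063831) (nat_lit 304) (nat_lit 4779838046) (nat_lit 0) (nat_lit 2090768608)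 (nat_lit 67) (nat_lit 5) (nat_lit 71) (nat_lit 4) (nat_lit 67) (nat_lit 4) (nat_lit 624) (nat_lit 471) (nat_lit 465)) (XT.nd (nat_lit 78) (nat_lit 228) (nat_lit 0) (XT.lf (nat_lit 0) (nat_lit 5389621920) (nat_lit 228) (nat_lit 5201117046) (nat_lit 228) (nat_lit 1606272212) (nat_lit 64) (nat_lit 4) (nat_lit 67) (nat_lit 5) (nat_lit 67) (nat_lit 4) (nat_lit 625) (nat_lit 471) (nat_lit 464)) (XT.lf (nat_lit 0) (nat_lit 3393823381) (nat_lit 152) (nat_lit 300600608) (nat_lit 228) (nat_lit 8629321183) (nat_lit 61) (nat_lit 5) (nat_lit 63) (nat_lit 5) (nat_lit 64) (nat_lit 4) (nat_lit 626) (nat_lit 471) (nat_lit 463)))) (XT.nd (nat_lit 78) (nat_lit 228) (nat_lit 0) (XT.lf (nat_lit 0) (nat_lit 1284280922) (nat_lit 228) (nat_lit 7806545191) (nat_lit 228) (nat_lit 3361755123) (nat_lit 58) (nat_lit 4) (nat_lit 61) (nat_lit 5) (nat_lit 61) (nat_lit 4) (nat_lit 627) (nat_lit 471) (nat_lit 462)) (XT.nd (nat_lit 78) (nat_lit 152) (nat_lit 0) (XT.lf (nat_lit 0) (nat_lit 1973569172) (nat_lit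 304) (nat_lit 904905435) (nat_lit 76) (nat_lit 9705486177) (nat_lit 57) (nat_lit 5) (nat_lit 61) (nat_lit 5) (nat_lit 58) (nat_lit 4) (nat_lit 628) (nat_lit 471) (nat_lit 461)) (XT.lf (nat_lit 0) (nat_lit 7374615202) (nat_lit 228) (nat_lit 3193197350) (nat_lit 0) (nat_lit 2149633885) (nat_lit 55) (nat_lit 5) (nat_lit 58) (nat_lit 4) (nat_lit 55) (nat_lit 4) (nat_lit 629) (nat_lit 471) (nat_lit 460)))))) (XT.nd (nat_lit 468) (nat_lit 912) (nat_lit 0) (XT.nd (nat_lit 234) (nat_lit 456) (nat_lit 0) (XT.nd (nat_lit 78) (nat_lit 380) (nat_lit 0) (XT.lf (nat_lit 0) (nat_lit 30196208) (nat_lit 304) (nat_lit 5584944010) (nat_lit 76) (nat_lit 7238450858) (nat_lit 51) (nat_lit 5) (nat_lit 55) (nat_lit 5) (nat_lit 52) (nat_lit 4) (nat_lit 630) (nat_lit 471) (nat_lit 459)) (XT.nd (nat_lit 78) (nat_lit 228) (nat_lit 0) (XT.lf (nat_lit 0) (nat_lit 4891342953) (nat_lit 152) (nat_lit 529443305) (nat_lit 228) (nat_lit 7571336496) (nat_lit 49) (nat_lit 5) (nat_lit 51) (nat_lit 5) (nat_lit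 52) (nat_lit 4) (nat_lit 631) (nat_lit 471) (nat_lit 458)) (XT.lf (nat_lit 0) (nat_lit 2392590387) (nat_lit 228) (nat_lit 8538563024) (nat_lit 228) (nat_lit 2202035601) (nat_lit 46) (nat_lit 4) (nat_lit 49) (nat_lit 5) (nat_lit 49) (nat_lit 4) (nat_lit 632) (nat_lit 471) (nat_lit 457)))) (XT.nd (nat_lit 78) (nat_lit 380) (nat_lit 0) (XT.lf (nat_lit 0) (nat_lit 3218493590) (nat_lit 304) (nat_lit 224071449) (nat_lit 76) (nat_lit 9834353662) (nat_lit 45) (nat_lit 5) (nat_lit 49) (nat_lit 5) (nat_lit 46) (nat_lit 4) (nat_lit 633) (nat_lit 471) (nat_lit 456)) (XT.nd (nat_lit 78) (nat_lit 228) (nat_lit 0) (XT.lf (nat_lit 0) (nat_lit 8727692656) (nat_lit 228) (nat_lit 2935011670) (nat_lit 0) (nat_lit 1760335724) (nat_lit 43) (nat_lit 5) (nat_lit 46) (nat_lit 4) (nat_lit 43) (nat_lit 4) (nat_lit 634) (nat_lit 471) (nat_lit 455)) (XT.lf (nat_lit 0) (nat_lit 769965956) (nat_lit 228) (nat_lit 5778495872) (nat_lit 76) (nat_lit 7023421545) (nat_lit 40) (nat_lit 5) (nat_lit 43) (nat_lit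 5) (nat_lit 41) (nat_lit 4) (nat_lit 635) (nat_lit 471) (nat_lit 454))))) (XT.nd (nat_lit 234) (nat_lit 532) (nat_lit 0) (XT.nd (nat_lit 78) (nat_lit 228) (nat_lit 0) (XT.lf (nat_lit 0) (nat_lit 4960290007) (nat_lit 152) (nat_lit 1303770188) (nat_lit 228) (nat_lit 7459378626) (nat_lit 38) (nat_lit 5) (nat_lit 40) (nat_lit 5) (nat_lit 41) (nat_lit 4) (nat_lit 636) (nat_lit 471) (nat_lit 453)) (XT.nd (nat_lit 78) (nat_lit 76) (nat_lit 0) (XT.lf (nat_lit 0) (nat_lit 1987918823) (nat_lit 152) (nat_lit 9888767836) (nat_lit 152) (nat_lit 2001168544) (nat_lit 36) (nat_lit 4) (nat_lit 38) (nat_lit 5) (nat_lit 38) (nat_lit 4) (nat_lit 637) (nat_lit 471) (nat_lit 452)) (XT.lf (nat_lit 0) (nat_lit 3517792939) (nat_lit 228) (nat_lit 1120219347) (nat_lit 76) (nat_lit 9396920095) (nat_lit 35) (nat_lit 5) (nat_lit 38) (nat_lit 5) (nat_lit 36) (nat_lit 4) (nat_lit 638) (nat_lit 471) (nat_lit 451)))) (XT.nd (nat_lit 156) (nat_lit 152) (nat_lit 0) (XT.nd (nat_lit 78) (nat_lit 228) (nat_lit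 0) (XT.lf (nat_lit 0) (nat_lit 9121059110) (nat_lit 228) (nat_lit 4343035408) (nat_lit 0) (nat_lit 730780275) (nat_lit 33) (nat_lit 5) (nat_lit 36) (nat_lit 4) (nat_lit 33) (nat_lit 4) (nat_lit 639) (nat_lit 471) (nat_lit 450)) (XT.lf (nat_lit 0) (nat_lit 485596181) (nat_lit 228) (nat_lit 7728408887) (nat_lit 76) (nat_lit 6143681523) (nat_lit 30) (nat_lit 5) (nat_lit 33) (nat_lit 5) (nat_lit 31) (nat_lit 4) (nat_lit 640) (nat_lit 471) (nat_lit 449))) (XT.nd (nat_lit 78) (nat_lit 0) (nat_lit 0) (XT.lf (nat_lit 0) (nat_lit 3241018260) (nat_lit 152) (nat_lit 2829828372) (nat_lit 228) (nat_lit 8452587973) (nat_lit 28) (nat_lit 5) (nat_lit 30) (nat_lit 5) (nat_lit 31) (nat_lit 4) (nat_lit 641) (nat_lit 471) (nat_lit 448)) (XT.lf (nat_lit 0) (nat_lit 11769598725) (nat_lit 228) (nat_lit 299088021) (nat_lit 0) (nat_lit 2623777368) (nat_lit 28) (nat_lit 5) (nat_lit 31) (nat_lit 4) (nat_lit 28) (nat_lit 4) (nat_lit 642) (nat_lit 471) (nat_lit 447))))))) (XT.nd (nat_lit 79404) (nat_lit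 0) (nat_lit 2508) (XT.nd (nat_lit 468) (nat_lit 304) (nat_lit 0) (XT.nd (nat_lit 234) (nat_lit 380) (nat_lit 0) (XT.nd (nat_lit 78) (nat_lit 228) (nat_lit 0) (XT.lf (nat_lit 0) (nat_lit 2705147932) (nat_lit 228) (nat_lit 3976160947) (nat_lit 76) (nat_lit 8182748110) (nat_lit 25) (nat_lit 5) (nat_lit 28) (nat_lit 5) (nat_lit 26) (nat_lit 4) (nat_lit 643) (nat_lit 471) (nat_lit 446)) (XT.nd (nat_lit 78) (nat_lit 152) (nat_lit 0) (XT.lf (nat_lit 0) (nat_lit 7216678727) (nat_lit 76) (nat_lit 1172528069) (nat_lit 152) (nat_lit 6649838400) (nat_lit 24) (nat_lit 5) (nat_lit 25) (nat_lit 5) (nat_lit 26) (nat_lit 4) (nat_lit 644) (nat_lit 471) (nat_lit 445)) (XT.lf (nat_lit 0) (nat_lit 3362949298) (nat_lit 152) (nat_lit 10835420202) (nat_lit 152) (nat_lit 1018937491) (nat_lit 22) (nat_lit 4) (nat_lit 24) (nat_lit 5) (nat_lit 24) (nat_lit 4) (nat_lit 645) (nat_lit 471) (nat_lit 444)))) (XT.nd (nat_lit 78) (nat_lit 304) (nat_lit 0) (XT.lf (nat_lit 0) (nat_lit 4657153414) (nat_lit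 228) (nat_lit 681325551) (nat_lit 76) (nat_lit 10060153030) (nat_lit 21) (nat_lit 5) (nat_lit 24) (nat_lit 5) (nat_lit 22) (nat_lit 4) (nat_lit 646) (nat_lit 471) (nat_lit 443)) (XT.nd (nat_lit 78) (nat_lit 228) (nat_lit 0) (XT.lf (nat_lit 0) (nat_lit 10439911575) (nat_lit 152) (nat_lit 4856167613) (nat_lit 0) (nat_lit 287235975) (nat_lit 20) (nat_lit 5) (nat_lit 22) (nat_lit 4) (nat_lit 20) (nat_lit 4) (nat_lit 647) (nat_lit 471) (nat_lit 442)) (XT.lf (nat_lit 0) (nat_lit 577045039) (nat_lit 228) (nat_lit 9243632146) (nat_lit 76) (nat_lit 5950586420) (nat_lit 17) (nat_lit 5) (nat_lit 20) (nat_lit 5) (nat_lit 18) (nat_lit 4) (nat_lit 648) (nat_lit 471) (nat_lit 441))))) (XT.nd (nat_lit 78702) (nat_lit 0) (nat_lit 5168) (XT.nd (nat_lit 156) (nat_lit 228) (nat_lit 0) (XT.lf (nat_lit 0) (nat_lit 2115816995) (nat_lit 76) (nat_lit 4209250589) (nat_lit 152) (nat_lit 9637584795) (nat_lit 16) (nat_lit 5) (nat_lit 17) (nat_lit 5) (nat_lit 18) (nat_lit 4) (nat_lit 649) (nat_lit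 471) (nat_lit 440)) (XT.nd (nat_lit 78468) (nat_lit 0) (nat_lit 6004) (XT.lf (nat_lit 0) (nat_lit 1827603980) (nat_lit 228) (nat_lit 7238859180) (nat_lit 76) (nat_lit 7289496158) (nat_lit 13) (nat_lit 5) (nat_lit 16) (nat_lit 5) (nat_lit 14) (nat_lit 4) (nat_lit 651) (nat_lit 471) (nat_lit 438)) (XT.lf (nat_lit 0) (nat_lit 4268224776) (nat_lit 304) (nat_lit 654690190) (nat_lit 304) (nat_lit 654690190) (nat_lit 92) (nat_lit 4) (nat_lit 96) (nat_lit 5) (nat_lit 96) (nat_lit 4) (nat_lit 616) (nat_lit 472) (nat_lit 472)))) (XT.nd (nat_lit 78) (nat_lit 532) (nat_lit 0) (XT.lf (nat_lit 0) (nat_lit 3830931556) (nat_lit 304) (nat_lit 4190700946) (nat_lit 0) (nat_lit 3241487279) (nat_lit 88) (nat_lit 5) (nat_lit 92) (nat_lit 4) (nat_lit 88) (nat_lit 4) (nat_lit 617) (nat_lit 472) (nat_lit 471)) (XT.nd (nat_lit 78) (nat_lit 304) (nat_lit 0) (XT.lf (nat_lit 0) (nat_lit 5546682393) (nat_lit 228) (nat_lit 3496962475) (nat_lit 228) (nat_lit 2329631652) (nat_lit 85) (nat_lit 4) (nat_lit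 88) (nat_lit 5) (nat_lit 88) (nat_lit 4) (nat_lit 618) (nat_lit 472) (nat_lit 470)) (XT.lf (nat_lit 0) (nat_lit 2823531833) (nat_lit 304) (nat_lit 7538367217) (nat_lit 0) (nat_lit 1123643343) (nat_lit 81) (nat_lit 5) (nat_lit 85) (nat_lit 4) (nat_lit 81) (nat_lit 4) (nat_lit 619) (nat_lit 472) (nat_lit 469)))))) (XT.nd (nat_lit 468) (nat_lit 1368) (nat_lit 0) (XT.nd (nat_lit 234) (nat_lit 760) (nat_lit 0) (XT.nd (nat_lit 78) (nat_lit 304) (nat_lit 0) (XT.lf (nat_lit 0) (nat_lit 2257751285) (nat_lit 228) (nat_lit 5793197500) (nat_lit 228) (nat_lit 3548753610) (nat_lit 78) (nat_lit 4) (nat_lit 81) (nat_lit 5) (nat_lit 81) (nat_lit 4) (nat_lit 620) (nat_lit 472) (nat_lit 468)) (XT.nd (nat_lit 78) (nat_lit 0) (nat_lit 0) (XT.lf (nat_lit 0) (nat_lit 502992576) (nat_lit 228) (nat_lit 1121420447) (nat_lit 304) (nat_lit 10091930341) (nat_lit 74) (nat_lit 5) (nat_lit 77) (nat_lit 5) (nat_lit 78) (nat_lit 4) (nat_lit 621) (nat_lit 472) (nat_lit 467)) (XT.lf (nat_lit 0) (nat_lit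 6865926745) (nat_lit 304) (nat_lit 1339742246) (nat_lit 0) (nat_lit 3628935195) (nat_lit 74) (nat_lit 5) (nat_lit 78) (nat_lit 4) (nat_lit 74) (nat_lit 4) (nat_lit 622) (nat_lit 472) (nat_lit 466)))) (XT.nd (nat_lit 78) (nat_lit 456) (nat_lit 0) (XT.lf (nat_lit 0) (nat_lit 244644603) (nat_lit 304) (nat_lit 3245894464) (nat_lit 76) (nat_lit 8464842320) (nat_lit 70) (nat_lit 5) (nat_lit 74) (nat_lit 5) (nat_lit 71) (nat_lit 4) (nat_lit 623) (nat_lit 472) (nat_lit 465)) (XT.nd (nat_lit 78) (nat_lit 228) (nat_lit 0) (XT.lf (nat_lit 0) (nat_lit 5485115604) (nat_lit 304) (nat_lit 5258193111) (nat_lit 0) (nat_lit 1334824264) (nat_lit 67) (nat_lit 5) (nat_lit 71) (nat_lit 4) (nat_lit 67) (nat_lit 4) (nat_lit 624) (nat_lit 472) (nat_lit 464)) (XT.lf (nat_lit 0) (nat_lit 4840988612) (nat_lit 228) (nat_lit 5993318125) (nat_lit 228) (nat_lit 1368958539) (nat_lit 64) (nat_lit 4) (nat_lit 67) (nat_lit 5) (nat_lit 67) (nat_lit 4) (nat_lit 625) (nat_lit 472) (nat_lit 463))))) (XT.nd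 (nat_lit 234) (nat_lit 836) (nat_lit 0) (XT.nd (nat_lit 78) (nat_lit 304) (nat_lit 0) (XT.lf (nat_lit 0) (nat_lit 2766015117) (nat_lit 152) (nat_lit 1122671760) (nat_lit 228) (nat_lit 8442082196) (nat_lit 61) (nat_lit 5) (nat_lit 63) (nat_lit 5) (nat_lit 64) (nat_lit 4) (nat_lit 626) (nat_lit 472) (nat_lit 462)) (XT.nd (nat_lit 78) (nat_lit 76) (nat_lit 0) (XT.lf (nat_lit 0) (nat_lit 582312166) (nat_lit 228) (nat_lit 8657139051) (nat_lit 228) (nat_lit 3221068489) (nat_lit 58) (nat_lit 4) (nat_lit 61) (nat_lit 5) (nat_lit 61) (nat_lit 4) (nat_lit 627) (nat_lit 472) (nat_lit 461)) (XT.lf (nat_lit 0) (nat_lit 2076724212) (nat_lit 304) (nat_lit 1679053432) (nat_lit 76) (nat_lit 8836818813) (nat_lit 57) (nat_lit 5) (nat_lit 61) (nat_lit 5) (nat_lit 58) (nat_lit 4) (nat_lit 628) (nat_lit 472) (nat_lit 460)))) (XT.nd (nat_lit 156) (nat_lit 380) (nat_lit 0) (XT.nd (nat_lit 78) (nat_lit 304) (nat_lit 0) (XT.lf (nat_lit 0) (nat_lit 7431373566) (nat_lit 228) (nat_lit 4044082817)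 (nat_lit 0) (nat_lit 1251555371) (nat_lit 55) (nat_lit 5) (nat_lit 58) (nat_lit 4) (nat_lit 55) (nat_lit 4) (nat_lit 629) (nat_lit 472) (nat_lit 459)) (XT.lf (nat_lit 0) (nat_lit 35614468) (nat_lit 304) (nat_lit 6520581903) (nat_lit 76) (nat_lit 6307778653) (nat_lit 51) (nat_lit 5) (nat_lit 55) (nat_lit 5) (nat_lit 52) (nat_lit 4) (nat_lit 630) (nat_lit 472) (nat_lit 458))) (XT.nd (nat_lit 78) (nat_lit 228) (nat_lit 0) (XT.lf (nat_lit 0) (nat_lit 3880190680) (nat_lit 152) (nat_lit 1504624415) (nat_lit 228) (nat_lit 7618521006) (nat_lit 49) (nat_lit 5) (nat_lit 51) (nat_lit 5) (nat_lit 52) (nat_lit 4) (nat_lit 631) (nat_lit 472) (nat_lit 457)) (XT.lf (nat_lit 0) (nat_lit 1299866453) (nat_lit 228) (nat_lit 9547169285) (nat_lit 228) (nat_lit 2298331133) (nat_lit 46) (nat_lit 4) (nat_lit 49) (nat_lit 5) (nat_lit 49) (nat_lit 4) (nat_lit 632) (nat_lit 472) (nat_lit 456))))))))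
noncomputable def xc6 : XT := (XT.nd (nat_lit 80262) (nat_lit 0) (nat_lit 836) (XT.nd (nat_lit 936) (nat_lit 836) (nat_lit 0) (XT.nd (nat_lit 468) (nat_lit 836) (nat_lit 0) (XT.nd (nat_lit 234) (nat_lit 380) (nat_lit 0) (XT.nd (nat_lit 78) (nat_lit 380) (nat_lit 0) (XT.lf (nat_lit 0) (nat_lit 3088789652) (nat_lit 304) (nat_lit 1390758620) (nat_lit 76) (nat_lit 8810255735) (nat_lit 45) (nat_lit 5) (nat_lit 49) (nat_lit 5) (nat_lit 46) (nat_lit 4) (nat_lit 633) (nat_lit 472) (nat_lit 455)) (XT.nd (nat_lit 78) (nat_lit 228) (nat_lit 0) (XT.lf (nat_lit 0) (nat_lit 8548956240) (nat_lit 228) (nat_lit 4185968834) (nat_lit 0) (nat_lit 701982421) (nat_lit 43) (nat_lit 5) (nat_lit 46) (nat_lit 4) (nat_lit 43) (nat_lit 4) (nat_lit 634) (nat_lit 472) (nat_lit 454)) (XT.lf (nat_lit 0) (nat_lit 537076494) (nat_lit 228) (nat_lit 7121363784) (nat_lit 76) (nat_lit 5928193213) (nat_lit 40) (nat_lit 5) (nat_lit 43) (nat_lit 5) (nat_lit 41) (nat_lit 4) (nat_lit 635) (nat_lit 472) (nat_lit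 453)))) (XT.nd (nat_lit 78) (nat_lit 228) (nat_lit 0) (XT.lf (nat_lit 0) (nat_lit 3537428502) (nat_lit 152) (nat_lit 2450653920) (nat_lit 228) (nat_lit 7750969685) (nat_lit 38) (nat_lit 5) (nat_lit 40) (nat_lit 5) (nat_lit 41) (nat_lit 4) (nat_lit 636) (nat_lit 472) (nat_lit 452)) (XT.nd (nat_lit 78) (nat_lit 76) (nat_lit 0) (XT.lf (nat_lit 0) (nat_lit 475631983) (nat_lit 152) (nat_lit 11074052237) (nat_lit 152) (nat_lit 2344806138) (nat_lit 36) (nat_lit 4) (nat_lit 38) (nat_lit 5) (nat_lit 38) (nat_lit 4) (nat_lit 637) (nat_lit 472) (nat_lit 451)) (XT.lf (nat_lit 0) (nat_lit 3144945272) (nat_lit 228) (nat_lit 2708379975) (nat_lit 76) (nat_lit 8198962571) (nat_lit 35) (nat_lit 5) (nat_lit 38) (nat_lit 5) (nat_lit 36) (nat_lit 4) (nat_lit 638) (nat_lit 472) (nat_lit 450))))) (XT.nd (nat_lit 234) (nat_lit 304) (nat_lit 0) (XT.nd (nat_lit 78) (nat_lit 380) (nat_lit 0) (XT.lf (nat_lit 0) (nat_lit 8186411507) (nat_lit 152) (nat_lit 513091442) (nat_lit 228) (nat_lit 5513702747)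 (nat_lit 33) (nat_lit 5) (nat_lit 35) (nat_lit 5) (nat_lit 36) (nat_lit 4) (nat_lit 639) (nat_lit 472) (nat_lit 449)) (XT.nd (nat_lit 78) (nat_lit 152) (nat_lit 0) (XT.lf (nat_lit 0) (nat_lit 3404846) (nat_lit 228) (nat_lit 9508434751) (nat_lit 76) (nat_lit 4865197732) (nat_lit 30) (nat_lit 5) (nat_lit 33) (nat_lit 5) (nat_lit 31) (nat_lit 4) (nat_lit 640) (nat_lit 472) (nat_lit 448)) (XT.lf (nat_lit 0) (nat_lit 1376142954) (nat_lit 152) (nat_lit 4167471570) (nat_lit 228) (nat_lit 9000072855) (nat_lit 28) (nat_lit 5) (nat_lit 30) (nat_lit 5) (nat_lit 31) (nat_lit 4) (nat_lit 641) (nat_lit 472) (nat_lit 447)))) (XT.nd (nat_lit 78) (nat_lit 304) (nat_lit 0) (XT.lf (nat_lit 0) (nat_lit 11200827844) (nat_lit 228) (nat_lit 2236002556) (nat_lit 0) (nat_lit 1276718461) (nat_lit 28) (nat_lit 5) (nat_lit 31) (nat_lit 4) (nat_lit 28) (nat_lit 4) (nat_lit 642) (nat_lit 472) (nat_lit 446)) (XT.nd (nat_lit 78) (nat_lit 76) (nat_lit 0) (XT.lf (nat_lit 0) (nat_lit 2077384318) (nat_lit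 228) (nat_lit 6016752289) (nat_lit 76) (nat_lit 6791995756) (nat_lit 25) (nat_lit 5) (nat_lit 28) (nat_lit 5) (nat_lit 26) (nat_lit 4) (nat_lit 643) (nat_lit 472) (nat_lit 445)) (XT.lf (nat_lit 0) (nat_lit 5088856345) (nat_lit 76) (nat_lit 2626598269) (nat_lit 152) (nat_lit 7346586854) (nat_lit 24) (nat_lit 5) (nat_lit 25) (nat_lit 5) (nat_lit 26) (nat_lit 4) (nat_lit 644) (nat_lit 472) (nat_lit 444)))))) (XT.nd (nat_lit 78780) (nat_lit 0) (nat_lit 4940) (XT.nd (nat_lit 234) (nat_lit 532) (nat_lit 0) (XT.nd (nat_lit 78) (nat_lit 152) (nat_lit 0) (XT.lf (nat_lit 0) (nat_lit 1132926052) (nat_lit 152) (nat_lit 12335671206) (nat_lit 152) (nat_lit 1772827512) (nat_lit 22) (nat_lit 4) (nat_lit 24) (nat_lit 5) (nat_lit 24) (nat_lit 4) (nat_lit 645) (nat_lit 472) (nat_lit 443)) (XT.nd (nat_lit 78) (nat_lit 76) (nat_lit 0) (XT.lf (nat_lit 0) (nat_lit 3881084595) (nat_lit 228) (nat_lit 2990006474) (nat_lit 76) (nat_lit 8552398988) (nat_lit 21) (nat_lit 5) (nat_lit 24) (nat_lit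 5) (nat_lit 22) (nat_lit 4) (nat_lit 646) (nat_lit 472) (nat_lit 442)) (XT.lf (nat_lit 0) (nat_lit 8330669343) (nat_lit 76) (nat_lit 1284274210) (nat_lit 152) (nat_lit 5994208697) (nat_lit 20) (nat_lit 5) (nat_lit 21) (nat_lit 5) (nat_lit 22) (nat_lit 4) (nat_lit 647) (nat_lit 472) (nat_lit 441)))) (XT.nd (nat_lit 78) (nat_lit 380) (nat_lit 0) (XT.lf (nat_lit 0) (nat_lit 4026333451) (nat_lit 152) (nat_lit 11448777990) (nat_lit 152) (nat_lit 323185675) (nat_lit 18) (nat_lit 4) (nat_lit 20) (nat_lit 5) (nat_lit 20) (nat_lit 4) (nat_lit 648) (nat_lit 472) (nat_lit 440)) (XT.nd (nat_lit 156) (nat_lit 304) (nat_lit 0) (XT.lf (nat_lit 0) (nat_lit 5383999743) (nat_lit 228) (nat_lit 496536754) (nat_lit 76) (nat_lit 10110093856) (nat_lit 17) (nat_lit 5) (nat_lit 20) (nat_lit 5) (nat_lit 18) (nat_lit 4) (nat_lit 649) (nat_lit 472) (nat_lit 439)) (XT.lf (nat_lit 0) (nat_lit 776461220) (nat_lit 228) (nat_lit 10050226381) (nat_lit 76) (nat_lit 5559273517) (nat_lit 13) (nat_lit 5)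 (nat_lit 16) (nat_lit 5) (nat_lit 14) (nat_lit 4) (nat_lit 651) (nat_lit 472) (nat_lit 437))))) (XT.nd (nat_lit 234) (nat_lit 1064) (nat_lit 0) (XT.nd (nat_lit 78) (nat_lit 304) (nat_lit 0) (XT.lf (nat_lit 0) (nat_lit 93061866) (nat_lit 304) (nat_lit 5286075658) (nat_lit 0) (nat_lit 93061866) (nat_lit 96) (nat_lit 5) (nat_lit 100) (nat_lit 4) (nat_lit 96) (nat_lit 4) (nat_lit 614) (nat_lit 473) (nat_lit 473)) (XT.nd (nat_lit 78) (nat_lit 304) (nat_lit 0) (XT.lf (nat_lit 0) (nat_lit 5262871349) (nat_lit 304) (nat_lit 1136452387) (nat_lit 0) (nat_lit 4649613523) (nat_lit 96) (nat_lit 5) (nat_lit 100) (nat_lit 4) (nat_lit 96) (nat_lit 4) (nat_lit 615) (nat_lit 473) (nat_lit 472)) (XT.lf (nat_lit 0) (nat_lit 8473399067) (nat_lit 304) (nat_lit 1948523986) (nat_lit 304) (nat_lit 734032998) (nat_lit 92) (nat_lit 4) (nat_lit 96) (nat_lit 5) (nat_lit 96) (nat_lit 4) (nat_lit 616) (nat_lit 473) (nat_lit 471)))) (XT.nd (nat_lit 156) (nat_lit 532) (nat_lit 0) (XT.nd (nat_lit 78)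 (nat_lit 228) (nat_lit 0) (XT.lf (nat_lit 0) (nat_lit 4356902292) (nat_lit 304) (nat_lit 4319389172) (nat_lit 0) (nat_lit 2588338306) (nat_lit 88) (nat_lit 5) (nat_lit 92) (nat_lit 4) (nat_lit 88) (nat_lit 4) (nat_lit 617) (nat_lit 473) (nat_lit 470)) (XT.lf (nat_lit 0) (nat_lit 5352996051) (nat_lit 228) (nat_lit 4178833947) (nat_lit 228) (nat_lit 1843714524) (nat_lit 85) (nat_lit 4) (nat_lit 88) (nat_lit 5) (nat_lit 88) (nat_lit 4) (nat_lit 618) (nat_lit 473) (nat_lit 469))) (XT.nd (nat_lit 78) (nat_lit 228) (nat_lit 0) (XT.lf (nat_lit 0) (nat_lit 3260311022) (nat_lit 304) (nat_lit 7801870933) (nat_lit 0) (nat_lit 426422855) (nat_lit 81) (nat_lit 5) (nat_lit 85) (nat_lit 4) (nat_lit 81) (nat_lit 4) (nat_lit 619) (nat_lit 473) (nat_lit 468)) (XT.lf (nat_lit 0) (nat_lit 1927234090) (nat_lit 228) (nat_lit 6522034047) (nat_lit 228) (nat_lit 3154268039) (nat_lit 78) (nat_lit 4) (nat_lit 81) (nat_lit 5) (nat_lit 81) (nat_lit 4) (nat_lit 620) (nat_lit 473) (nat_lit 467)))))))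 (XT.nd (nat_lit 936) (nat_lit 1672) (nat_lit 0) (XT.nd (nat_lit 468) (nat_lit 1140) (nat_lit 0) (XT.nd (nat_lit 234) (nat_lit 684) (nat_lit 0) (XT.nd (nat_lit 78) (nat_lit 304) (nat_lit 0) (XT.lf (nat_lit 0) (nat_lit 98018925) (nat_lit 228) (nat_lit 1876829878) (nat_lit 304) (nat_lit 9746056722) (nat_lit 74) (nat_lit 5) (nat_lit 77) (nat_lit 5) (nat_lit 78) (nat_lit 4) (nat_lit 621) (nat_lit 473) (nat_lit 466)) (XT.nd (nat_lit 78) (nat_lit 304) (nat_lit 0) (XT.lf (nat_lit 0) (nat_lit 7175345821) (nat_lit 304) (nat_lit 1807260191) (nat_lit 0) (nat_lit 2857382711) (nat_lit 74) (nat_lit 5) (nat_lit 78) (nat_lit 4) (nat_lit 74) (nat_lit 4) (nat_lit 622) (nat_lit 473) (nat_lit 465)) (XT.lf (nat_lit 0) (nat_lit 505546782) (nat_lit 304) (nat_lit 3789979212) (nat_lit 76) (nat_lit 7665985313) (nat_lit 70) (nat_lit 5) (nat_lit 74) (nat_lit 5) (nat_lit 71) (nat_lit 4) (nat_lit 623) (nat_lit 473) (nat_lit 464)))) (XT.nd (nat_lit 78) (nat_lit 456) (nat_lit 0) (XT.lf (nat_lit 0) (nat_lit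 5701266154) (nat_lit 304) (nat_lit 5873542572) (nat_lit 0) (nat_lit 510351130) (nat_lit 67) (nat_lit 5) (nat_lit 71) (nat_lit 4) (nat_lit 67) (nat_lit 4) (nat_lit 624) (nat_lit 473) (nat_lit 463)) (XT.nd (nat_lit 78) (nat_lit 228) (nat_lit 0) (XT.lf (nat_lit 0) (nat_lit 4154793680) (nat_lit 228) (nat_lit 6855990815) (nat_lit 228) (nat_lit 1200303002) (nat_lit 64) (nat_lit 4) (nat_lit 67) (nat_lit 5) (nat_lit 67) (nat_lit 4) (nat_lit 625) (nat_lit 473) (nat_lit 462)) (XT.lf (nat_lit 0) (nat_lit 1998934461) (nat_lit 152) (nat_lit 2016056564) (nat_lit 228) (nat_lit 8324382970) (nat_lit 61) (nat_lit 5) (nat_lit 63) (nat_lit 5) (nat_lit 64) (nat_lit 4) (nat_lit 626) (nat_lit 473) (nat_lit 461))))) (XT.nd (nat_lit 234) (nat_lit 684) (nat_lit 0) (XT.nd (nat_lit 78) (nat_lit 456) (nat_lit 0) (XT.lf (nat_lit 0) (nat_lit 9321132294) (nat_lit 228) (nat_lit 257237130) (nat_lit 0) (nat_lit 2891649444) (nat_lit 61) (nat_lit 5) (nat_lit 64) (nat_lit 4) (nat_lit 61) (nat_lit 4) (nat_lit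 627) (nat_lit 473) (nat_lit 460)) (XT.nd (nat_lit 78) (nat_lit 152) (nat_lit 0) (XT.lf (nat_lit 0) (nat_lit 2111269162) (nat_lit 304) (nat_lit 2594097357) (nat_lit 76) (nat_lit 7897455243) (nat_lit 57) (nat_lit 5) (nat_lit 61) (nat_lit 5) (nat_lit 58) (nat_lit 4) (nat_lit 628) (nat_lit 473) (nat_lit 459)) (XT.lf (nat_lit 0) (nat_lit 7418816952) (nat_lit 228) (nat_lit 5037625394) (nat_lit 0) (nat_lit 281738421) (nat_lit 55) (nat_lit 5) (nat_lit 58) (nat_lit 4) (nat_lit 55) (nat_lit 4) (nat_lit 629) (nat_lit 473) (nat_lit 458)))) (XT.nd (nat_lit 78) (nat_lit 456) (nat_lit 0) (XT.lf (nat_lit 0) (nat_lit 5275097352) (nat_lit 228) (nat_lit 7571283415) (nat_lit 228) (nat_lit 29592201) (nat_lit 52) (nat_lit 4) (nat_lit 55) (nat_lit 5) (nat_lit 55) (nat_lit 4) (nat_lit 630) (nat_lit 473) (nat_lit 457)) (XT.nd (nat_lit 78) (nat_lit 228) (nat_lit 0) (XT.lf (nat_lit 0) (nat_lit 2723891741) (nat_lit 152) (nat_lit 2554455810) (nat_lit 228) (nat_lit 7737824895) (nat_lit 49) (nat_lit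 5) (nat_lit 51) (nat_lit 5) (nat_lit 52) (nat_lit 4) (nat_lit 631) (nat_lit 473) (nat_lit 456)) (XT.lf (nat_lit 0) (nat_lit 60152451) (nat_lit 228) (nat_lit 10631510985) (nat_lit 228) (nat_lit 2467519423) (nat_lit 46) (nat_lit 4) (nat_lit 49) (nat_lit 5) (nat_lit 49) (nat_lit 4) (nat_lit 632) (nat_lit 473) (nat_lit 455)))))) (XT.nd (nat_lit 468) (nat_lit 836) (nat_lit 0) (XT.nd (nat_lit 234) (nat_lit 380) (nat_lit 0) (XT.nd (nat_lit 78) (nat_lit 380) (nat_lit 0) (XT.lf (nat_lit 0) (nat_lit 2887828789) (nat_lit 304) (nat_lit 2704376984) (nat_lit 76) (nat_lit 7712117512) (nat_lit 45) (nat_lit 5) (nat_lit 49) (nat_lit 5) (nat_lit 46) (nat_lit 4) (nat_lit 633) (nat_lit 473) (nat_lit 454)) (XT.nd (nat_lit 78) (nat_lit 228) (nat_lit 0) (XT.lf (nat_lit 0) (nat_lit 7863789362) (nat_lit 152) (nat_lit 437225822) (nat_lit 228) (nat_lit 5151352649) (nat_lit 43) (nat_lit 5) (nat_lit 45) (nat_lit 5) (nat_lit 46) (nat_lit 4) (nat_lit 634) (nat_lit 473) (nat_lit 453)) (XT.lf (nat_lit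 0) (nat_lit 231151941) (nat_lit 228) (nat_lit 8614980720) (nat_lit 76) (nat_lit 4756916330) (nat_lit 40) (nat_lit 5) (nat_lit 43) (nat_lit 5) (nat_lit 41) (nat_lit 4) (nat_lit 635) (nat_lit 473) (nat_lit 452)))) (XT.nd (nat_lit 78) (nat_lit 228) (nat_lit 0) (XT.lf (nat_lit 0) (nat_lit 1963033180) (nat_lit 152) (nat_lit 3675716250) (nat_lit 228) (nat_lit 8117587720) (nat_lit 38) (nat_lit 5) (nat_lit 40) (nat_lit 5) (nat_lit 41) (nat_lit 4) (nat_lit 636) (nat_lit 473) (nat_lit 451)) (XT.nd (nat_lit 78) (nat_lit 228) (nat_lit 0) (XT.lf (nat_lit 0) (nat_lit 11156211578) (nat_lit 228) (nat_lit 1174552526) (nat_lit 0) (nat_lit 1581895438) (nat_lit 38) (nat_lit 5) (nat_lit 41) (nat_lit 4) (nat_lit 38) (nat_lit 4) (nat_lit 637) (nat_lit 473) (nat_lit 450)) (XT.lf (nat_lit 0) (nat_lit 2697867882) (nat_lit 228) (nat_lit 4450038043) (nat_lit 76) (nat_lit 6923422511) (nat_lit 35) (nat_lit 5) (nat_lit 38) (nat_lit 5) (nat_lit 36) (nat_lit 4) (nat_lit 638) (nat_lit 473) (nat_lit 449)))))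 (XT.nd (nat_lit 234) (nat_lit 456) (nat_lit 0) (XT.nd (nat_lit 78) (nat_lit 228) (nat_lit 0) (XT.lf (nat_lit 0) (nat_lit 6361739728) (nat_lit 152) (nat_lit 1846431179) (nat_lit 228) (nat_lit 6024961771) (nat_lit 33) (nat_lit 5) (nat_lit 35) (nat_lit 5) (nat_lit 36) (nat_lit 4) (nat_lit 639) (nat_lit 473) (nat_lit 448)) (XT.nd (nat_lit 78) (nat_lit 76) (nat_lit 0) (XT.lf (nat_lit 0) (nat_lit 2948332505) (nat_lit 152) (nat_lit 10887372954) (nat_lit 152) (nat_lit 562329552) (nat_lit 31) (nat_lit 4) (nat_lit 33) (nat_lit 5) (nat_lit 33) (nat_lit 4) (nat_lit 640) (nat_lit 473) (nat_lit 447)) (XT.lf (nat_lit 0) (nat_lit 4944033323) (nat_lit 228) (nat_lit 638729272) (nat_lit 76) (nat_lit 8982821122) (nat_lit 30) (nat_lit 5) (nat_lit 33) (nat_lit 5) (nat_lit 31) (nat_lit 4) (nat_lit 641) (nat_lit 473) (nat_lit 446)))) (XT.nd (nat_lit 156) (nat_lit 76) (nat_lit 0) (XT.nd (nat_lit 78) (nat_lit 228) (nat_lit 0) (XT.lf (nat_lit 0) (nat_lit 10403935552) (nat_lit 152) (nat_lit 152673632)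 (nat_lit 228) (nat_lit 4179729937) (nat_lit 28) (nat_lit 5) (nat_lit 30) (nat_lit 5) (nat_lit 31) (nat_lit 4) (nat_lit 642) (nat_lit 473) (nat_lit 445)) (XT.lf (nat_lit 0) (nat_lit 1372075298) (nat_lit 228) (nat_lit 8217990476) (nat_lit 76) (nat_lit 5319885551) (nat_lit 25) (nat_lit 5) (nat_lit 28) (nat_lit 5) (nat_lit 26) (nat_lit 4) (nat_lit 643) (nat_lit 473) (nat_lit 444))) (XT.nd (nat_lit 78) (nat_lit 0) (nat_lit 0) (XT.lf (nat_lit 0) (nat_lit 2799430887) (nat_lit 76) (nat_lit 4164307755) (nat_lit 152) (nat_lit 8123051033) (nat_lit 24) (nat_lit 5) (nat_lit 25) (nat_lit 5) (nat_lit 26) (nat_lit 4) (nat_lit 644) (nat_lit 473) (nat_lit 443)) (XT.lf (nat_lit 0) (nat_lit 12668070688) (nat_lit 152) (nat_lit 1244355864) (nat_lit 0) (nat_lit 1354723721) (nat_lit 24) (nat_lit 5) (nat_lit 26) (nat_lit 4) (nat_lit 24) (nat_lit 4) (nat_lit 645) (nat_lit 473) (nat_lit 442))))))))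
noncomputable def xc7 : XT := (XT.nd (nat_lit 80106) (nat_lit 0) (nat_lit 228) (XT.nd (nat_lit 79092) (nat_lit 0) (nat_lit 2660) (XT.nd (nat_lit 78624) (nat_lit 0) (nat_lit 5396) (XT.nd (nat_lit 234) (nat_lit 304) (nat_lit 0) (XT.nd (nat_lit 78) (nat_lit 228) (nat_lit 0) (XT.lf (nat_lit 0) (nat_lit 3025990748) (nat_lit 228) (nat_lit 5462564934) (nat_lit 76) (nat_lit 6961561776) (nat_lit 21) (nat_lit 5) (nat_lit 24) (nat_lit 5) (nat_lit 22) (nat_lit 4) (nat_lit 646) (nat_lit 473) (nat_lit 441)) (XT.nd (nat_lit 78) (nat_lit 152) (nat_lit 0) (XT.lf (nat_lit 0) (nat_lit 5767365967) (nat_lit 76) (nat_lit 2945020042) (nat_lit 152) (nat_lit 6924343937) (nat_lit 20) (nat_lit 5) (nat_lit 21) (nat_lit 5) (nat_lit 22) (nat_lit 4) (nat_lit 647) (nat_lit 473) (nat_lit 440)) (XT.lf (nat_lit 0) (nat_lit 1353993100) (nat_lit 152) (nat_lit 13159672481) (nat_lit 152) (nat_lit 1313387999) (nat_lit 18) (nat_lit 4) (nat_lit 20) (nat_lit 5) (nat_lit 20) (nat_lit 4) (nat_lit 648) (nat_lit 473)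 (nat_lit 439)))) (XT.nd (nat_lit 156) (nat_lit 228) (nat_lit 0) (XT.lf (nat_lit 0) (nat_lit 4376060103) (nat_lit 228) (nat_lit 3248431230) (nat_lit 76) (nat_lit 8395639508) (nat_lit 17) (nat_lit 5) (nat_lit 20) (nat_lit 5) (nat_lit 18) (nat_lit 4) (nat_lit 649) (nat_lit 473) (nat_lit 438)) (XT.nd (nat_lit 78156) (nat_lit 0) (nat_lit 6840) (XT.lf (nat_lit 0) (nat_lit 3381793583) (nat_lit 152) (nat_lit 12673627463) (nat_lit 152) (nat_lit 362334246) (nat_lit 14) (nat_lit 4) (nat_lit 16) (nat_lit 5) (nat_lit 16) (nat_lit 4) (nat_lit 651) (nat_lit 473) (nat_lit 436)) (XT.lf (nat_lit 0) (nat_lit 810339869) (nat_lit 304) (nat_lit 3748988792) (nat_lit 0) (nat_lit 810339869) (nat_lit 104) (nat_lit 5) (nat_lit 108) (nat_lit 4) (nat_lit 104) (nat_lit 4) (nat_lit 612) (nat_lit 474) (nat_lit 474))))) (XT.nd (nat_lit 234) (nat_lit 836) (nat_lit 0) (XT.nd (nat_lit 78) (nat_lit 304) (nat_lit 0) (XT.lf (nat_lit 0) (nat_lit 1795801279) (nat_lit 304) (nat_lit 4841629750) (nat_lit 304) (nat_lit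 4203596308) (nat_lit 100) (nat_lit 4) (nat_lit 104) (nat_lit 5) (nat_lit 104) (nat_lit 4) (nat_lit 613) (nat_lit 474) (nat_lit 473)) (XT.nd (nat_lit 78) (nat_lit 0) (nat_lit 0) (XT.lf (nat_lit 0) (nat_lit 306413852) (nat_lit 228) (nat_lit 470799155) (nat_lit 304) (nat_lit 10167876941) (nat_lit 96) (nat_lit 5) (nat_lit 99) (nat_lit 5) (nat_lit 100) (nat_lit 4) (nat_lit 614) (nat_lit 474) (nat_lit 472)) (XT.lf (nat_lit 0) (nat_lit 5814148541) (nat_lit 304) (nat_lit 1262143994) (nat_lit 0) (nat_lit 3974134571) (nat_lit 96) (nat_lit 5) (nat_lit 100) (nat_lit 4) (nat_lit 96) (nat_lit 4) (nat_lit 615) (nat_lit 474) (nat_lit 471)))) (XT.nd (nat_lit 78) (nat_lit 532) (nat_lit 0) (XT.lf (nat_lit 0) (nat_lit 8284222882) (nat_lit 304) (nat_lit 2651714458) (nat_lit 304) (nat_lit 222256211) (nat_lit 92) (nat_lit 4) (nat_lit 96) (nat_lit 5) (nat_lit 96) (nat_lit 4) (nat_lit 616) (nat_lit 474) (nat_lit 470)) (XT.nd (nat_lit 78) (nat_lit 228) (nat_lit 0) (XT.lf (nat_lit 0) (nat_lit 4819605750)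 (nat_lit 304) (nat_lit 4576816089) (nat_lit 0) (nat_lit 1871228501) (nat_lit 88) (nat_lit 5) (nat_lit 92) (nat_lit 4) (nat_lit 88) (nat_lit 4) (nat_lit 617) (nat_lit 474) (nat_lit 469)) (XT.lf (nat_lit 0) (nat_lit 5030101088) (nat_lit 228) (nat_lit 4926524090) (nat_lit 228) (nat_lit 1422700335) (nat_lit 85) (nat_lit 4) (nat_lit 88) (nat_lit 5) (nat_lit 88) (nat_lit 4) (nat_lit 618) (nat_lit 474) (nat_lit 468)))))) (XT.nd (nat_lit 468) (nat_lit 1368) (nat_lit 0) (XT.nd (nat_lit 234) (nat_lit 760) (nat_lit 0) (XT.nd (nat_lit 78) (nat_lit 304) (nat_lit 0) (XT.lf (nat_lit 0) (nat_lit 3293685989) (nat_lit 228) (nat_lit 340999725) (nat_lit 304) (nat_lit 7858469941) (nat_lit 81) (nat_lit 5) (nat_lit 84) (nat_lit 5) (nat_lit 85) (nat_lit 4) (nat_lit 619) (nat_lit 474) (nat_lit 467)) (XT.nd (nat_lit 78) (nat_lit 76) (nat_lit 0) (XT.lf (nat_lit 0) (nat_lit 1464328571) (nat_lit 228) (nat_lit 7318492912) (nat_lit 228) (nat_lit 2826084091) (nat_lit 78) (nat_lit 4) (nat_lit 81) (nat_lit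 5) (nat_lit 81) (nat_lit 4) (nat_lit 620) (nat_lit 474) (nat_lit 466)) (XT.lf (nat_lit 0) (nat_lit 2262556190) (nat_lit 304) (nat_lit 435192030) (nat_lit 76) (nat_lit 9029209577) (nat_lit 77) (nat_lit 5) (nat_lit 81) (nat_lit 5) (nat_lit 78) (nat_lit 4) (nat_lit 621) (nat_lit 474) (nat_lit 465)))) (XT.nd (nat_lit 78) (nat_lit 532) (nat_lit 0) (XT.lf (nat_lit 0) (nat_lit 7419437191) (nat_lit 304) (nat_lit 2408668928) (nat_lit 0) (nat_lit 2018809200) (nat_lit 74) (nat_lit 5) (nat_lit 78) (nat_lit 4) (nat_lit 74) (nat_lit 4) (nat_lit 622) (nat_lit 474) (nat_lit 464)) (XT.nd (nat_lit 78) (nat_lit 228) (nat_lit 0) (XT.lf (nat_lit 0) (nat_lit 700276349) (nat_lit 304) (nat_lit 4469619375) (nat_lit 76) (nat_lit 6799299803) (nat_lit 70) (nat_lit 5) (nat_lit 74) (nat_lit 5) (nat_lit 71) (nat_lit 4) (nat_lit 623) (nat_lit 474) (nat_lit 463)) (XT.lf (nat_lit 0) (nat_lit 5465056172) (nat_lit 228) (nat_lit 388063638) (nat_lit 304) (nat_lit 6240583670) (nat_lit 67) (nat_lit 5) (nat_lit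 70) (nat_lit 5) (nat_lit 71) (nat_lit 4) (nat_lit 624) (nat_lit 474) (nat_lit 462))))) (XT.nd (nat_lit 234) (nat_lit 912) (nat_lit 0) (XT.nd (nat_lit 78) (nat_lit 228) (nat_lit 0) (XT.lf (nat_lit 0) (nat_lit 3330768028) (nat_lit 228) (nat_lit 7789473417) (nat_lit 228) (nat_lit 1100239460) (nat_lit 64) (nat_lit 4) (nat_lit 67) (nat_lit 5) (nat_lit 67) (nat_lit 4) (nat_lit 625) (nat_lit 474) (nat_lit 461)) (XT.nd (nat_lit 78) (nat_lit 0) (nat_lit 0) (XT.lf (nat_lit 0) (nat_lit 1092280597) (nat_lit 152) (nat_lit 2981105368) (nat_lit 228) (nat_lit 8276177350) (nat_lit 61) (nat_lit 5) (nat_lit 63) (nat_lit 5) (nat_lit 64) (nat_lit 4) (nat_lit 626) (nat_lit 474) (nat_lit 460)) (XT.lf (nat_lit 0) (nat_lit 9338906725) (nat_lit 228) (nat_lit 1228625395) (nat_lit 0) (nat_lit 1913490222) (nat_lit 61) (nat_lit 5) (nat_lit 64) (nat_lit 4) (nat_lit 61) (nat_lit 4) (nat_lit 627) (nat_lit 474) (nat_lit 459)))) (XT.nd (nat_lit 156) (nat_lit 456) (nat_lit 0) (XT.nd (nat_lit 78) (nat_lit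 152) (nat_lit 0) (XT.lf (nat_lit 0) (nat_lit 2077217567) (nat_lit 304) (nat_lit 3650396051) (nat_lit 76) (nat_lit 6887027089) (nat_lit 57) (nat_lit 5) (nat_lit 61) (nat_lit 5) (nat_lit 58) (nat_lit 4) (nat_lit 628) (nat_lit 474) (nat_lit 458)) (XT.lf (nat_lit 0) (nat_lit 6571641826) (nat_lit 152) (nat_lit 770299906) (nat_lit 228) (nat_lit 5408916095) (nat_lit 55) (nat_lit 5) (nat_lit 57) (nat_lit 5) (nat_lit 58) (nat_lit 4) (nat_lit 629) (nat_lit 474) (nat_lit 457))) (XT.nd (nat_lit 78) (nat_lit 228) (nat_lit 0) (XT.lf (nat_lit 0) (nat_lit 4062826381) (nat_lit 228) (nat_lit 8660284982) (nat_lit 228) (nat_lit 166468161) (nat_lit 52) (nat_lit 4) (nat_lit 55) (nat_lit 5) (nat_lit 55) (nat_lit 4) (nat_lit 630) (nat_lit 474) (nat_lit 456)) (XT.lf (nat_lit 0) (nat_lit 1421992685) (nat_lit 152) (nat_lit 3679349188) (nat_lit 228) (nat_lit 7929294948) (nat_lit 49) (nat_lit 5) (nat_lit 51) (nat_lit 5) (nat_lit 52) (nat_lit 4) (nat_lit 631) (nat_lit 474) (nat_lit 455))))))) (XT.nd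 (nat_lit 936) (nat_lit 608) (nat_lit 0) (XT.nd (nat_lit 468) (nat_lit 988) (nat_lit 0) (XT.nd (nat_lit 234) (nat_lit 380) (nat_lit 0) (XT.nd (nat_lit 78) (nat_lit 456) (nat_lit 0) (XT.lf (nat_lit 0) (nat_lit 10473591585) (nat_lit 228) (nat_lit 1309633441) (nat_lit 0) (nat_lit 1391245048) (nat_lit 49) (nat_lit 5) (nat_lit 52) (nat_lit 4) (nat_lit 49) (nat_lit 4) (nat_lit 632) (nat_lit 474) (nat_lit 454)) (XT.nd (nat_lit 78) (nat_lit 152) (nat_lit 0) (XT.lf (nat_lit 0) (nat_lit 2615532191) (nat_lit 304) (nat_lit 4165441684) (nat_lit 76) (nat_lit 6539508349) (nat_lit 45) (nat_lit 5) (nat_lit 49) (nat_lit 5) (nat_lit 46) (nat_lit 4) (nat_lit 633) (nat_lit 474) (nat_lit 453)) (XT.lf (nat_lit 0) (nat_lit 6323715419) (nat_lit 152) (nat_lit 1662332408) (nat_lit 228) (nat_lit 5483333791) (nat_lit 43) (nat_lit 5) (nat_lit 45) (nat_lit 5) (nat_lit 46) (nat_lit 4) (nat_lit 634) (nat_lit 474) (nat_lit 452)))) (XT.nd (nat_lit 78) (nat_lit 228) (nat_lit 0) (XT.lf (nat_lit 0) (nat_lit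 3360211225) (nat_lit 152) (nat_lit 10111012066) (nat_lit 152) (nat_lit 149893553) (nat_lit 41) (nat_lit 4) (nat_lit 43) (nat_lit 5) (nat_lit 43) (nat_lit 4) (nat_lit 635) (nat_lit 474) (nat_lit 451)) (XT.nd (nat_lit 78) (nat_lit 0) (nat_lit 0) (XT.lf (nat_lit 0) (nat_lit 236486629) (nat_lit 152) (nat_lit 4979437595) (nat_lit 228) (nat_lit 8559376503) (nat_lit 38) (nat_lit 5) (nat_lit 40) (nat_lit 5) (nat_lit 41) (nat_lit 4) (nat_lit 636) (nat_lit 474) (nat_lit 450)) (XT.lf (nat_lit 0) (nat_lit 10692473107) (nat_lit 228) (nat_lit 2970637308) (nat_lit 0) (nat_lit 269332291) (nat_lit 38) (nat_lit 5) (nat_lit 41) (nat_lit 4) (nat_lit 38) (nat_lit 4) (nat_lit 637) (nat_lit 474) (nat_lit 449))))) (XT.nd (nat_lit 234) (nat_lit 456) (nat_lit 0) (XT.nd (nat_lit 78) (nat_lit 304) (nat_lit 0) (XT.lf (nat_lit 0) (nat_lit 2176385446) (nat_lit 228) (nat_lit 6345876553) (nat_lit 76) (nat_lit 5569799704) (nat_lit 35) (nat_lit 5) (nat_lit 38) (nat_lit 5) (nat_lit 36) (nat_lit 4) (nat_lit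 638) (nat_lit 474) (nat_lit 448)) (XT.nd (nat_lit 78) (nat_lit 152) (nat_lit 0) (XT.lf (nat_lit 0) (nat_lit 4382012412) (nat_lit 152) (nat_lit 3260050127) (nat_lit 228) (nat_lit 6612697170) (nat_lit 33) (nat_lit 5) (nat_lit 35) (nat_lit 5) (nat_lit 36) (nat_lit 4) (nat_lit 639) (nat_lit 474) (nat_lit 447)) (XT.lf (nat_lit 0) (nat_lit 870904487) (nat_lit 152) (nat_lit 12344334618) (nat_lit 152) (nat_lit 1205511318) (nat_lit 31) (nat_lit 4) (nat_lit 33) (nat_lit 5) (nat_lit 33) (nat_lit 4) (nat_lit 640) (nat_lit 474) (nat_lit 446)))) (XT.nd (nat_lit 78) (nat_lit 380) (nat_lit 0) (XT.lf (nat_lit 0) (nat_lit 4277633057) (nat_lit 228) (nat_lit 2792742939) (nat_lit 76) (nat_lit 7518640904) (nat_lit 30) (nat_lit 5) (nat_lit 33) (nat_lit 5) (nat_lit 31) (nat_lit 4) (nat_lit 641) (nat_lit 474) (nat_lit 445)) (XT.nd (nat_lit 78) (nat_lit 228) (nat_lit 0) (XT.lf (nat_lit 0) (nat_lit 8163631860) (nat_lit 152) (nat_lit 1680998241) (nat_lit 228) (nat_lit 4916054929) (nat_lit 28) (nat_lit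 5) (nat_lit 30) (nat_lit 5) (nat_lit 31) (nat_lit 4) (nat_lit 642) (nat_lit 474) (nat_lit 444)) (XT.lf (nat_lit 0) (nat_lit 588944280) (nat_lit 228) (nat_lit 10580738738) (nat_lit 76) (nat_lit 3765840198) (nat_lit 25) (nat_lit 5) (nat_lit 28) (nat_lit 5) (nat_lit 26) (nat_lit 4) (nat_lit 643) (nat_lit 474) (nat_lit 443)))))) (XT.nd (nat_lit 78546) (nat_lit 0) (nat_lit 5624) (XT.nd (nat_lit 234) (nat_lit 304) (nat_lit 0) (XT.nd (nat_lit 78) (nat_lit 228) (nat_lit 0) (XT.lf (nat_lit 0) (nat_lit 347504537) (nat_lit 76) (nat_lit 5786259551) (nat_lit 152) (nat_lit 8979535433) (nat_lit 24) (nat_lit 5) (nat_lit 25) (nat_lit 5) (nat_lit 26) (nat_lit 4) (nat_lit 644) (nat_lit 474) (nat_lit 442)) (XT.nd (nat_lit 78) (nat_lit 228) (nat_lit 0) (XT.lf (nat_lit 0) (nat_lit 11523313471) (nat_lit 76) (nat_lit 275184576) (nat_lit 152) (nat_lit 3495955096) (nat_lit 24) (nat_lit 5) (nat_lit 25) (nat_lit 5) (nat_lit 26) (nat_lit 4) (nat_lit 645) (nat_lit 474) (nat_lit 441)) (XT.lf (nat_lit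 0) (nat_lit 2091536541) (nat_lit 228) (nat_lit 8099970561) (nat_lit 76) (nat_lit 5287017536) (nat_lit 21) (nat_lit 5) (nat_lit 24) (nat_lit 5) (nat_lit 22) (nat_lit 4) (nat_lit 646) (nat_lit 474) (nat_lit 440)))) (XT.nd (nat_lit 78) (nat_lit 228) (nat_lit 0) (XT.lf (nat_lit 0) (nat_lit 3038159708) (nat_lit 76) (nat_lit 4691835579) (nat_lit 152) (nat_lit 7936101571) (nat_lit 20) (nat_lit 5) (nat_lit 21) (nat_lit 5) (nat_lit 22) (nat_lit 4) (nat_lit 647) (nat_lit 474) (nat_lit 439)) (XT.nd (nat_lit 78) (nat_lit 228) (nat_lit 0) (XT.lf (nat_lit 0) (nat_lit 13480990347) (nat_lit 152) (nat_lit 1467068721) (nat_lit 0) (nat_lit 909368097) (nat_lit 20) (nat_lit 5) (nat_lit 22) (nat_lit 4) (nat_lit 20) (nat_lit 4) (nat_lit 648) (nat_lit 474) (nat_lit 438)) (XT.lf (nat_lit 0) (nat_lit 3287116107) (nat_lit 228) (nat_lit 6168694926) (nat_lit 76) (nat_lit 6595629123) (nat_lit 17) (nat_lit 5) (nat_lit 20) (nat_lit 5) (nat_lit 18) (nat_lit 4) (nat_lit 649) (nat_lit 474) (nat_lit 437)))))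 (XT.nd (nat_lit 234) (nat_lit 988) (nat_lit 0) (XT.nd (nat_lit 78) (nat_lit 608) (nat_lit 0) (XT.lf (nat_lit 0) (nat_lit 1496482157) (nat_lit 380) (nat_lit 2277298823) (nat_lit 0) (nat_lit 1496482157) (nat_lit 112) (nat_lit 5) (nat_lit 117) (nat_lit 4) (nat_lit 112) (nat_lit 4) (nat_lit 610) (nat_lit 475) (nat_lit 475)) (XT.nd (nat_lit 78) (nat_lit 304) (nat_lit 0) (XT.lf (nat_lit 0) (nat_lit 4610937180) (nat_lit 304) (nat_lit 3346087067) (nat_lit 304) (nat_lit 2682277074) (nat_lit 108) (nat_lit 4) (nat_lit 112) (nat_lit 5) (nat_lit 112) (nat_lit 4) (nat_lit 611) (nat_lit 475) (nat_lit 474)) (XT.lf (nat_lit 0) (nat_lit 2234477322) (nat_lit 304) (nat_lit 7559952493) (nat_lit 0) (nat_lit 945649769) (nat_lit 104) (nat_lit 5) (nat_lit 108) (nat_lit 4) (nat_lit 104) (nat_lit 4) (nat_lit 612) (nat_lit 475) (nat_lit 473)))) (XT.nd (nat_lit 156) (nat_lit 380) (nat_lit 0) (XT.nd (nat_lit 78) (nat_lit 304) (nat_lit 0) (XT.lf (nat_lit 0) (nat_lit 1671435576) (nat_lit 304) (nat_lit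 5542714464) (nat_lit 304) (nat_lit 3628363929) (nat_lit 100) (nat_lit 4) (nat_lit 104) (nat_lit 5) (nat_lit 104) (nat_lit 4) (nat_lit 613) (nat_lit 475) (nat_lit 472)) (XT.lf (nat_lit 0) (nat_lit 113452607) (nat_lit 228) (nat_lit 1194003317) (nat_lit 304) (nat_lit 9639797308) (nat_lit 96) (nat_lit 5) (nat_lit 99) (nat_lit 5) (nat_lit 100) (nat_lit 4) (nat_lit 614) (nat_lit 475) (nat_lit 471))) (XT.nd (nat_lit 78) (nat_lit 380) (nat_lit 0) (XT.lf (nat_lit 0) (nat_lit 6303661288) (nat_lit 304) (nat_lit 1513576499) (nat_lit 0) (nat_lit 3236169599) (nat_lit 96) (nat_lit 5) (nat_lit 100) (nat_lit 4) (nat_lit 96) (nat_lit 4) (nat_lit 615) (nat_lit 475) (nat_lit 470)) (XT.lf (nat_lit 0) (nat_lit 223184670) (nat_lit 380) (nat_lit 3194545200) (nat_lit 76) (nat_lit 7744164456) (nat_lit 91) (nat_lit 5) (nat_lit 96) (nat_lit 5) (nat_lit 92) (nat_lit 4) (nat_lit 616) (nat_lit 475) (nat_lit 469))))))))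
noncomputable def xc8 : XT := (XT.nd (nat_lit 1950) (nat_lit 988) (nat_lit 0) (XT.nd (nat_lit 936) (nat_lit 2052) (nat_lit 0) (XT.nd (nat_lit 468) (nat_lit 1292) (nat_lit 0) (XT.nd (nat_lit 234) (nat_lit 532) (nat_lit 0) (XT.nd (nat_lit 78) (nat_lit 532) (nat_lit 0) (XT.lf (nat_lit 0) (nat_lit 5219223382) (nat_lit 304) (nat_lit 4963082649) (nat_lit 0) (nat_lit 1089876644) (nat_lit 88) (nat_lit 5) (nat_lit 92) (nat_lit 4) (nat_lit 88) (nat_lit 4) (nat_lit 617) (nat_lit 475) (nat_lit 468)) (XT.nd (nat_lit 78) (nat_lit 304) (nat_lit 0) (XT.lf (nat_lit 0) (nat_lit 4577870879) (nat_lit 228) (nat_lit 5740326117) (nat_lit 228) (nat_lit 1066423981) (nat_lit 85) (nat_lit 4) (nat_lit 88) (nat_lit 5) (nat_lit 88) (nat_lit 4) (nat_lit 618) (nat_lit 475) (nat_lit 467)) (XT.lf (nat_lit 0) (nat_lit 2766831927) (nat_lit 228) (nat_lit 1180995748) (nat_lit 304) (nat_lit 7551348540) (nat_lit 81) (nat_lit 5) (nat_lit 84) (nat_lit 5) (nat_lit 85) (nat_lit 4) (nat_lit 619) (nat_lit 475) (nat_lit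 466)))) (XT.nd (nat_lit 78) (nat_lit 304) (nat_lit 0) (XT.lf (nat_lit 0) (nat_lit 868853196) (nat_lit 228) (nat_lit 8182886430) (nat_lit 228) (nat_lit 2564073069) (nat_lit 78) (nat_lit 4) (nat_lit 81) (nat_lit 5) (nat_lit 81) (nat_lit 4) (nat_lit 620) (nat_lit 475) (nat_lit 465)) (XT.nd (nat_lit 78) (nat_lit 228) (nat_lit 0) (XT.lf (nat_lit 0) (nat_lit 2486291709) (nat_lit 304) (nat_lit 1099589122) (nat_lit 76) (nat_lit 8148648851) (nat_lit 77) (nat_lit 5) (nat_lit 81) (nat_lit 5) (nat_lit 78) (nat_lit 4) (nat_lit 621) (nat_lit 475) (nat_lit 464)) (XT.lf (nat_lit 0) (nat_lit 7598296575) (nat_lit 304) (nat_lit 3144204303) (nat_lit 0) (nat_lit 1112885812) (nat_lit 74) (nat_lit 5) (nat_lit 78) (nat_lit 4) (nat_lit 74) (nat_lit 4) (nat_lit 622) (nat_lit 475) (nat_lit 463))))) (XT.nd (nat_lit 234) (nat_lit 532) (nat_lit 0) (XT.nd (nat_lit 78) (nat_lit 456) (nat_lit 0) (XT.lf (nat_lit 0) (nat_lit 828909667) (nat_lit 304) (nat_lit 5285081479) (nat_lit 76) (nat_lit 5864445913)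 (nat_lit 70) (nat_lit 5) (nat_lit 74) (nat_lit 5) (nat_lit 71) (nat_lit 4) (nat_lit 623) (nat_lit 475) (nat_lit 462)) (XT.nd (nat_lit 78) (nat_lit 228) (nat_lit 0) (XT.lf (nat_lit 0) (nat_lit 4578645620) (nat_lit 228) (nat_lit 1363382804) (nat_lit 304) (nat_lit 6161712934) (nat_lit 67) (nat_lit 5) (nat_lit 70) (nat_lit 5) (nat_lit 71) (nat_lit 4) (nat_lit 624) (nat_lit 475) (nat_lit 461)) (XT.lf (nat_lit 0) (nat_lit 2368588510) (nat_lit 228) (nat_lit 8794132004) (nat_lit 228) (nat_lit 1068728675) (nat_lit 64) (nat_lit 4) (nat_lit 67) (nat_lit 5) (nat_lit 67) (nat_lit 4) (nat_lit 625) (nat_lit 475) (nat_lit 460)))) (XT.nd (nat_lit 78) (nat_lit 304) (nat_lit 0) (XT.lf (nat_lit 0) (nat_lit 45697974) (nat_lit 152) (nat_lit 4018196621) (nat_lit 228) (nat_lit 8297446432) (nat_lit 61) (nat_lit 5) (nat_lit 63) (nat_lit 5) (nat_lit 64) (nat_lit 4) (nat_lit 626) (nat_lit 475) (nat_lit 459)) (XT.nd (nat_lit 78) (nat_lit 304) (nat_lit 0) (XT.lf (nat_lit 0) (nat_lit 9289000722) (nat_lit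 228) (nat_lit 2339870696) (nat_lit 0) (nat_lit 864738638) (nat_lit 61) (nat_lit 5) (nat_lit 64) (nat_lit 4) (nat_lit 61) (nat_lit 4) (nat_lit 627) (nat_lit 475) (nat_lit 458)) (XT.lf (nat_lit 0) (nat_lit 1974556075) (nat_lit 304) (nat_lit 4848363748) (nat_lit 76) (nat_lit 5805138105) (nat_lit 57) (nat_lit 5) (nat_lit 61) (nat_lit 5) (nat_lit 58) (nat_lit 4) (nat_lit 628) (nat_lit 475) (nat_lit 457)))))) (XT.nd (nat_lit 468) (nat_lit 988) (nat_lit 0) (XT.nd (nat_lit 234) (nat_lit 608) (nat_lit 0) (XT.nd (nat_lit 78) (nat_lit 304) (nat_lit 0) (XT.lf (nat_lit 0) (nat_lit 5298471599) (nat_lit 152) (nat_lit 1899573600) (nat_lit 228) (nat_lit 5567056161) (nat_lit 55) (nat_lit 5) (nat_lit 57) (nat_lit 5) (nat_lit 58) (nat_lit 4) (nat_lit 629) (nat_lit 475) (nat_lit 456)) (XT.nd (nat_lit 78) (nat_lit 76) (nat_lit 0) (XT.lf (nat_lit 0) (nat_lit 2706343799) (nat_lit 228) (nat_lit 9823867126) (nat_lit 228) (nat_lit 374593788) (nat_lit 52) (nat_lit 4) (nat_lit 55) (nat_lit 5) (nat_lit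 55) (nat_lit 4) (nat_lit 630) (nat_lit 475) (nat_lit 455)) (XT.lf (nat_lit 0) (nat_lit 4853897568) (nat_lit 304) (nat_lit 25675816) (nat_lit 76) (nat_lit 8167158135) (nat_lit 51) (nat_lit 5) (nat_lit 55) (nat_lit 5) (nat_lit 52) (nat_lit 4) (nat_lit 631) (nat_lit 475) (nat_lit 454)))) (XT.nd (nat_lit 78) (nat_lit 456) (nat_lit 0) (XT.lf (nat_lit 0) (nat_lit 10185466875) (nat_lit 228) (nat_lit 2824709338) (nat_lit 0) (nat_lit 181203657) (nat_lit 49) (nat_lit 5) (nat_lit 52) (nat_lit 4) (nat_lit 49) (nat_lit 4) (nat_lit 632) (nat_lit 475) (nat_lit 453)) (XT.nd (nat_lit 78) (nat_lit 152) (nat_lit 0) (XT.lf (nat_lit 0) (nat_lit 2271793075) (nat_lit 304) (nat_lit 5774525688) (nat_lit 76) (nat_lit 5291968399) (nat_lit 45) (nat_lit 5) (nat_lit 49) (nat_lit 5) (nat_lit 46) (nat_lit 4) (nat_lit 633) (nat_lit 475) (nat_lit 452)) (XT.lf (nat_lit 0) (nat_lit 4634823553) (nat_lit 152) (nat_lit 2964488794) (nat_lit 228) (nat_lit 5888735540) (nat_lit 43) (nat_lit 5) (nat_lit 45) (nat_lit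 5) (nat_lit 46) (nat_lit 4) (nat_lit 634) (nat_lit 475) (nat_lit 451))))) (XT.nd (nat_lit 234) (nat_lit 608) (nat_lit 0) (XT.nd (nat_lit 78) (nat_lit 228) (nat_lit 0) (XT.lf (nat_lit 0) (nat_lit 1580010199) (nat_lit 152) (nat_lit 11452524527) (nat_lit 152) (nat_lit 608288822) (nat_lit 41) (nat_lit 4) (nat_lit 43) (nat_lit 5) (nat_lit 43) (nat_lit 4) (nat_lit 635) (nat_lit 475) (nat_lit 450)) (XT.nd (nat_lit 78) (nat_lit 152) (nat_lit 0) (XT.lf (nat_lit 0) (nat_lit 4730107712) (nat_lit 228) (nat_lit 1621341451) (nat_lit 76) (nat_lit 7444287779) (nat_lit 40) (nat_lit 5) (nat_lit 43) (nat_lit 5) (nat_lit 41) (nat_lit 4) (nat_lit 636) (nat_lit 475) (nat_lit 449)) (XT.lf (nat_lit 0) (nat_lit 9026823143) (nat_lit 152) (nat_lit 1135749728) (nat_lit 228) (nat_lit 3791189020) (nat_lit 38) (nat_lit 5) (nat_lit 40) (nat_lit 5) (nat_lit 41) (nat_lit 4) (nat_lit 637) (nat_lit 475) (nat_lit 448)))) (XT.nd (nat_lit 156) (nat_lit 228) (nat_lit 0) (XT.nd (nat_lit 78) (nat_lit 152) (nat_lit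 0) (XT.lf (nat_lit 0) (nat_lit 1580293460) (nat_lit 228) (nat_lit 8396638972) (nat_lit 76) (nat_lit 4137563318) (nat_lit 35) (nat_lit 5) (nat_lit 38) (nat_lit 5) (nat_lit 36) (nat_lit 4) (nat_lit 638) (nat_lit 475) (nat_lit 447)) (XT.lf (nat_lit 0) (nat_lit 2246453196) (nat_lit 152) (nat_lit 4754502647) (nat_lit 228) (nat_lit 7277139427) (nat_lit 33) (nat_lit 5) (nat_lit 35) (nat_lit 5) (nat_lit 36) (nat_lit 4) (nat_lit 639) (nat_lit 475) (nat_lit 446))) (XT.nd (nat_lit 78) (nat_lit 228) (nat_lit 0) (XT.lf (nat_lit 0) (nat_lit 12527704556) (nat_lit 228) (nat_lit 1346577990) (nat_lit 0) (nat_lit 570733191) (nat_lit 33) (nat_lit 5) (nat_lit 36) (nat_lit 4) (nat_lit 33) (nat_lit 4) (nat_lit 640) (nat_lit 475) (nat_lit 445)) (XT.lf (nat_lit 0) (nat_lit 3535217562) (nat_lit 228) (nat_lit 5104791119) (nat_lit 76) (nat_lit 5974166134) (nat_lit 30) (nat_lit 5) (nat_lit 33) (nat_lit 5) (nat_lit 31) (nat_lit 4) (nat_lit 641) (nat_lit 475) (nat_lit 444))))))) (XT.nd (nat_lit 78858)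 (nat_lit 0) (nat_lit 3800) (XT.nd (nat_lit 468) (nat_lit 228) (nat_lit 0) (XT.nd (nat_lit 234) (nat_lit 380) (nat_lit 0) (XT.nd (nat_lit 78) (nat_lit 228) (nat_lit 0) (XT.lf (nat_lit 0) (nat_lit 5764324131) (nat_lit 152) (nat_lit 3291887793) (nat_lit 228) (nat_lit 5730552202) (nat_lit 28) (nat_lit 5) (nat_lit 30) (nat_lit 5) (nat_lit 31) (nat_lit 4) (nat_lit 642) (nat_lit 475) (nat_lit 443)) (XT.nd (nat_lit 78) (nat_lit 76) (nat_lit 0) (XT.lf (nat_lit 0) (nat_lit 1855107038) (nat_lit 152) (nat_lit 12831780416) (nat_lit 152) (nat_lit 275934779) (nat_lit 26) (nat_lit 4) (nat_lit 28) (nat_lit 5) (nat_lit 28) (nat_lit 4) (nat_lit 643) (nat_lit 475) (nat_lit 442)) (XT.lf (nat_lit 0) (nat_lit 5239930081) (nat_lit 228) (nat_lit 2238140534) (nat_lit 76) (nat_lit 7663216294) (nat_lit 25) (nat_lit 5) (nat_lit 28) (nat_lit 5) (nat_lit 26) (nat_lit 4) (nat_lit 644) (nat_lit 475) (nat_lit 441)))) (XT.nd (nat_lit 78) (nat_lit 304) (nat_lit 0) (XT.lf (nat_lit 0) (nat_lit 8852389889)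 (nat_lit 76) (nat_lit 2007465787) (nat_lit 152) (nat_lit 4463482065) (nat_lit 24) (nat_lit 5) (nat_lit 25) (nat_lit 5) (nat_lit 26) (nat_lit 4) (nat_lit 645) (nat_lit 475) (nat_lit 440)) (XT.nd (nat_lit 78) (nat_lit 76) (nat_lit 0) (XT.lf (nat_lit 0) (nat_lit 1077355522) (nat_lit 228) (nat_lit 10903257633) (nat_lit 76) (nat_lit 3528109586) (nat_lit 21) (nat_lit 5) (nat_lit 24) (nat_lit 5) (nat_lit 22) (nat_lit 4) (nat_lit 646) (nat_lit 475) (nat_lit 439)) (XT.lf (nat_lit 0) (nat_lit 141980291) (nat_lit 76) (nat_lit 6525405847) (nat_lit 152) (nat_lit 9029878368) (nat_lit 20) (nat_lit 5) (nat_lit 21) (nat_lit 5) (nat_lit 22) (nat_lit 4) (nat_lit 647) (nat_lit 475) (nat_lit 438))))) (XT.nd (nat_lit 78156) (nat_lit 0) (nat_lit 6916) (XT.nd (nat_lit 78) (nat_lit 228) (nat_lit 0) (XT.lf (nat_lit 0) (nat_lit 11445734174) (nat_lit 76) (nat_lit 937266836) (nat_lit 152) (nat_lit 3506302369) (nat_lit 20) (nat_lit 5) (nat_lit 21) (nat_lit 5) (nat_lit 22) (nat_lit 4) (nat_lit 648)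 (nat_lit 475) (nat_lit 437)) (XT.nd (nat_lit 78000) (nat_lit 0) (nat_lit 7904) (XT.lf (nat_lit 0) (nat_lit 2116740717) (nat_lit 228) (nat_lit 9258473044) (nat_lit 76) (nat_lit 4709356814) (nat_lit 17) (nat_lit 5) (nat_lit 20) (nat_lit 5) (nat_lit 18) (nat_lit 4) (nat_lit 649) (nat_lit 475) (nat_lit 436)) (XT.lf (nat_lit 0) (nat_lit 2154922039) (nat_lit 380) (nat_lit 864052646) (nat_lit 0) (nat_lit 2154922039) (nat_lit 121) (nat_lit 5) (nat_lit 126) (nat_lit 4) (nat_lit 121) (nat_lit 4) (nat_lit 608) (nat_lit 476) (nat_lit 476)))) (XT.nd (nat_lit 78) (nat_lit 684) (nat_lit 0) (XT.lf (nat_lit 0) (nat_lit 7308104713) (nat_lit 304) (nat_lit 1913126802) (nat_lit 304) (nat_lit 1222498886) (nat_lit 117) (nat_lit 4) (nat_lit 121) (nat_lit 5) (nat_lit 121) (nat_lit 4) (nat_lit 609) (nat_lit 476) (nat_lit 475)) (XT.nd (nat_lit 78) (nat_lit 304) (nat_lit 0) (XT.lf (nat_lit 0) (nat_lit 3633528470) (nat_lit 380) (nat_lit 4615098656) (nat_lit 0) (nat_lit 2292632285) (nat_lit 112) (nat_lit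 5) (nat_lit 117) (nat_lit 4) (nat_lit 112) (nat_lit 4) (nat_lit 610) (nat_lit 476) (nat_lit 474)) (XT.lf (nat_lit 0) (nat_lit 4489529167) (nat_lit 304) (nat_lit 4071465056) (nat_lit 304) (nat_lit 2079774760) (nat_lit 108) (nat_lit 4) (nat_lit 112) (nat_lit 5) (nat_lit 112) (nat_lit 4) (nat_lit 611) (nat_lit 476) (nat_lit 473)))))) (XT.nd (nat_lit 468) (nat_lit 1596) (nat_lit 0) (XT.nd (nat_lit 234) (nat_lit 836) (nat_lit 0) (XT.nd (nat_lit 78) (nat_lit 380) (nat_lit 0) (XT.lf (nat_lit 0) (nat_lit 2787283222) (nat_lit 304) (nat_lit 7745901524) (nat_lit 0) (nat_lit 209122694) (nat_lit 104) (nat_lit 5) (nat_lit 108) (nat_lit 4) (nat_lit 104) (nat_lit 4) (nat_lit 612) (nat_lit 476) (nat_lit 472)) (XT.nd (nat_lit 78) (nat_lit 76) (nat_lit 0) (XT.lf (nat_lit 0) (nat_lit 1422655401) (nat_lit 304) (nat_lit 6307125385) (nat_lit 304) (nat_lit 3115707032) (nat_lit 100) (nat_lit 4) (nat_lit 104) (nat_lit 5) (nat_lit 104) (nat_lit 4) (nat_lit 613) (nat_lit 476) (nat_lit 471)) (XT.lf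 (nat_lit 0) (nat_lit 1777169924) (nat_lit 380) (nat_lit 202768267) (nat_lit 76) (nat_lit 8970949099) (nat_lit 99) (nat_lit 5) (nat_lit 104) (nat_lit 5) (nat_lit 100) (nat_lit 4) (nat_lit 614) (nat_lit 476) (nat_lit 470)))) (XT.nd (nat_lit 78) (nat_lit 608) (nat_lit 0) (XT.lf (nat_lit 0) (nat_lit 6731601555) (nat_lit 304) (nat_lit 1890848502) (nat_lit 0) (nat_lit 2435429209) (nat_lit 96) (nat_lit 5) (nat_lit 100) (nat_lit 4) (nat_lit 96) (nat_lit 4) (nat_lit 615) (nat_lit 476) (nat_lit 469)) (XT.nd (nat_lit 78) (nat_lit 228) (nat_lit 0) (XT.lf (nat_lit 0) (nat_lit 603345370) (nat_lit 380) (nat_lit 3643970134) (nat_lit 76) (nat_lit 6919753046) (nat_lit 91) (nat_lit 5) (nat_lit 96) (nat_lit 5) (nat_lit 92) (nat_lit 4) (nat_lit 616) (nat_lit 476) (nat_lit 468)) (XT.lf (nat_lit 0) (nat_lit 5555911902) (nat_lit 304) (nat_lit 5478340330) (nat_lit 0) (nat_lit 243976323) (nat_lit 88) (nat_lit 5) (nat_lit 92) (nat_lit 4) (nat_lit 88) (nat_lit 4) (nat_lit 617) (nat_lit 476) (nat_lit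 467))))) (XT.nd (nat_lit 234) (nat_lit 836) (nat_lit 0) (XT.nd (nat_lit 78) (nat_lit 532) (nat_lit 0) (XT.lf (nat_lit 0) (nat_lit 3996128077) (nat_lit 228) (nat_lit 6620559167) (nat_lit 228) (nat_lit 774745746) (nat_lit 85) (nat_lit 4) (nat_lit 88) (nat_lit 5) (nat_lit 88) (nat_lit 4) (nat_lit 618) (nat_lit 476) (nat_lit 466)) (XT.nd (nat_lit 78) (nat_lit 228) (nat_lit 0) (XT.lf (nat_lit 0) (nat_lit 2108826603) (nat_lit 228) (nat_lit 2088227690) (nat_lit 304) (nat_lit 7309670668) (nat_lit 81) (nat_lit 5) (nat_lit 84) (nat_lit 5) (nat_lit 85) (nat_lit 4) (nat_lit 619) (nat_lit 476) (nat_lit 465)) (XT.lf (nat_lit 0) (nat_lit 140574446) (nat_lit 228) (nat_lit 9115553580) (nat_lit 228) (nat_lit 2368132222) (nat_lit 78) (nat_lit 4) (nat_lit 81) (nat_lit 5) (nat_lit 81) (nat_lit 4) (nat_lit 620) (nat_lit 476) (nat_lit 464)))) (XT.nd (nat_lit 156) (nat_lit 532) (nat_lit 0) (XT.nd (nat_lit 78) (nat_lit 228) (nat_lit 0) (XT.lf (nat_lit 0) (nat_lit 2645506696) (nat_lit 304) (nat_lit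 1896718433) (nat_lit 76) (nat_lit 7201411746) (nat_lit 77) (nat_lit 5) (nat_lit 81) (nat_lit 5) (nat_lit 78) (nat_lit 4) (nat_lit 621) (nat_lit 476) (nat_lit 463)) (XT.lf (nat_lit 0) (nat_lit 7711994115) (nat_lit 304) (nat_lit 4014154762) (nat_lit 0) (nat_lit 139257280) (nat_lit 74) (nat_lit 5) (nat_lit 78) (nat_lit 4) (nat_lit 74) (nat_lit 4) (nat_lit 622) (nat_lit 476) (nat_lit 462))) (XT.nd (nat_lit 78) (nat_lit 228) (nat_lit 0) (XT.lf (nat_lit 0) (nat_lit 891497182) (nat_lit 304) (nat_lit 6236685315) (nat_lit 76) (nat_lit 4861057033) (nat_lit 70) (nat_lit 5) (nat_lit 74) (nat_lit 5) (nat_lit 71) (nat_lit 4) (nat_lit 623) (nat_lit 476) (nat_lit 461)) (XT.lf (nat_lit 0) (nat_lit 3555462739) (nat_lit 228) (nat_lit 2409206548) (nat_lit 304) (nat_lit 6150675290) (nat_lit 67) (nat_lit 5) (nat_lit 70) (nat_lit 5) (nat_lit 71) (nat_lit 4) (nat_lit 624) (nat_lit 476) (nat_lit 460))))))))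
noncomputable def xc9 : XT := (XT.nd (nat_lit 79716) (nat_lit 0) (nat_lit 2888) (XT.nd (nat_lit 936) (nat_lit 1748) (nat_lit 0) (XT.nd (nat_lit 468) (nat_lit 912) (nat_lit 0) (XT.nd (nat_lit 234) (nat_lit 684) (nat_lit 0) (XT.nd (nat_lit 78) (nat_lit 228) (nat_lit 0) (XT.lf (nat_lit 0) (nat_lit 1267877800) (nat_lit 228) (nat_lit 9870360559) (nat_lit 228) (nat_lit 1105758287) (nat_lit 64) (nat_lit 4) (nat_lit 67) (nat_lit 5) (nat_lit 67) (nat_lit 4) (nat_lit 625) (nat_lit 476) (nat_lit 459)) (XT.nd (nat_lit 78) (nat_lit 152) (nat_lit 0) (XT.lf (nat_lit 0) (nat_lit 3993922779) (nat_lit 304) (nat_lit 1126256474) (nat_lit 76) (nat_lit 7254384306) (nat_lit 63) (nat_lit 5) (nat_lit 67) (nat_lit 5) (nat_lit 64) (nat_lit 4) (nat_lit 626) (nat_lit 476) (nat_lit 458)) (XT.lf (nat_lit 0) (nat_lit 8914666839) (nat_lit 152) (nat_lit 258405617) (nat_lit 228) (nat_lit 3334680937) (nat_lit 61) (nat_lit 5) (nat_lit 63) (nat_lit 5) (nat_lit 64) (nat_lit 4) (nat_lit 627) (nat_lit 476) (nat_lit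 457)))) (XT.nd (nat_lit 78) (nat_lit 380) (nat_lit 0) (XT.lf (nat_lit 0) (nat_lit 1803244425) (nat_lit 304) (nat_lit 6188470240) (nat_lit 76) (nat_lit 4651364020) (nat_lit 57) (nat_lit 5) (nat_lit 61) (nat_lit 5) (nat_lit 58) (nat_lit 4) (nat_lit 628) (nat_lit 476) (nat_lit 456)) (XT.nd (nat_lit 78) (nat_lit 228) (nat_lit 0) (XT.lf (nat_lit 0) (nat_lit 3882436022) (nat_lit 152) (nat_lit 3102781355) (nat_lit 228) (nat_lit 5795736642) (nat_lit 55) (nat_lit 5) (nat_lit 57) (nat_lit 5) (nat_lit 58) (nat_lit 4) (nat_lit 629) (nat_lit 476) (nat_lit 455)) (XT.lf (nat_lit 0) (nat_lit 1205117653) (nat_lit 228) (nat_lit 11062486153) (nat_lit 228) (nat_lit 654050701) (nat_lit 52) (nat_lit 4) (nat_lit 55) (nat_lit 5) (nat_lit 55) (nat_lit 4) (nat_lit 630) (nat_lit 476) (nat_lit 454))))) (XT.nd (nat_lit 234) (nat_lit 380) (nat_lit 0) (XT.nd (nat_lit 78) (nat_lit 456) (nat_lit 0) (XT.lf (nat_lit 0) (nat_lit 4545933465) (nat_lit 304) (nat_lit 1599449427) (nat_lit 76) (nat_lit 6918879645)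 (nat_lit 51) (nat_lit 5) (nat_lit 55) (nat_lit 5) (nat_lit 52) (nat_lit 4) (nat_lit 631) (nat_lit 476) (nat_lit 453)) (XT.nd (nat_lit 78) (nat_lit 304) (nat_lit 0) (XT.lf (nat_lit 0) (nat_lit 8716064550) (nat_lit 152) (nat_lit 1117979880) (nat_lit 228) (nat_lit 3375737082) (nat_lit 49) (nat_lit 5) (nat_lit 51) (nat_lit 5) (nat_lit 52) (nat_lit 4) (nat_lit 632) (nat_lit 476) (nat_lit 452)) (XT.lf (nat_lit 0) (nat_lit 1856476642) (nat_lit 304) (nat_lit 7532260009) (nat_lit 76) (nat_lit 3969008433) (nat_lit 45) (nat_lit 5) (nat_lit 49) (nat_lit 5) (nat_lit 46) (nat_lit 4) (nat_lit 633) (nat_lit 476) (nat_lit 451)))) (XT.nd (nat_lit 78) (nat_lit 228) (nat_lit 0) (XT.lf (nat_lit 0) (nat_lit 2796451455) (nat_lit 152) (nat_lit 4344205629) (nat_lit 228) (nat_lit 6367716876) (nat_lit 43) (nat_lit 5) (nat_lit 45) (nat_lit 5) (nat_lit 46) (nat_lit 4) (nat_lit 634) (nat_lit 476) (nat_lit 450)) (XT.nd (nat_lit 78) (nat_lit 228) (nat_lit 0) (XT.lf (nat_lit 0) (nat_lit 12523348859)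 (nat_lit 228) (nat_lit 347069403) (nat_lit 0) (nat_lit 791743320) (nat_lit 43) (nat_lit 5) (nat_lit 46) (nat_lit 4) (nat_lit 43) (nat_lit 4) (nat_lit 635) (nat_lit 476) (nat_lit 449)) (XT.lf (nat_lit 0) (nat_lit 4172970949) (nat_lit 228) (nat_lit 3627619247) (nat_lit 76) (nat_lit 6017226381) (nat_lit 40) (nat_lit 5) (nat_lit 43) (nat_lit 5) (nat_lit 41) (nat_lit 4) (nat_lit 636) (nat_lit 476) (nat_lit 448)))))) (XT.nd (nat_lit 468) (nat_lit 836) (nat_lit 0) (XT.nd (nat_lit 234) (nat_lit 532) (nat_lit 0) (XT.nd (nat_lit 78) (nat_lit 228) (nat_lit 0) (XT.lf (nat_lit 0) (nat_lit 6937593990) (nat_lit 152) (nat_lit 2623618333) (nat_lit 228) (nat_lit 4415514948) (nat_lit 38) (nat_lit 5) (nat_lit 40) (nat_lit 5) (nat_lit 41) (nat_lit 4) (nat_lit 637) (nat_lit 476) (nat_lit 447)) (XT.nd (nat_lit 78) (nat_lit 0) (nat_lit 0) (XT.lf (nat_lit 0) (nat_lit 909358162) (nat_lit 228) (nat_lit 10603129519) (nat_lit 76) (nat_lit 2626151690) (nat_lit 35) (nat_lit 5) (nat_lit 38) (nat_lit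 5) (nat_lit 36) (nat_lit 4) (nat_lit 638) (nat_lit 476) (nat_lit 446)) (XT.lf (nat_lit 0) (nat_lit 6284896608) (nat_lit 228) (nat_lit 45175042) (nat_lit 76) (nat_lit 7973070918) (nat_lit 35) (nat_lit 5) (nat_lit 38) (nat_lit 5) (nat_lit 36) (nat_lit 4) (nat_lit 639) (nat_lit 476) (nat_lit 445)))) (XT.nd (nat_lit 78) (nat_lit 380) (nat_lit 0) (XT.lf (nat_lit 0) (nat_lit 10754730306) (nat_lit 152) (nat_lit 1022564204) (nat_lit 228) (nat_lit 2693456714) (nat_lit 33) (nat_lit 5) (nat_lit 35) (nat_lit 5) (nat_lit 36) (nat_lit 4) (nat_lit 640) (nat_lit 476) (nat_lit 444)) (XT.nd (nat_lit 78) (nat_lit 152) (nat_lit 0) (XT.lf (nat_lit 0) (nat_lit 2716495694) (nat_lit 228) (nat_lit 7575780497) (nat_lit 76) (nat_lit 4348791136) (nat_lit 30) (nat_lit 5) (nat_lit 33) (nat_lit 5) (nat_lit 31) (nat_lit 4) (nat_lit 641) (nat_lit 476) (nat_lit 443)) (XT.lf (nat_lit 0) (nat_lit 3205071463) (nat_lit 152) (nat_lit 4985974009) (nat_lit 228) (nat_lit 6623541165) (nat_lit 28) (nat_lit 5) (nat_lit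 30) (nat_lit 5) (nat_lit 31) (nat_lit 4) (nat_lit 642) (nat_lit 476) (nat_lit 442))))) (XT.nd (nat_lit 234) (nat_lit 532) (nat_lit 0) (XT.nd (nat_lit 78) (nat_lit 304) (nat_lit 0) (XT.lf (nat_lit 0) (nat_lit 13768920488) (nat_lit 228) (nat_lit 800069810) (nat_lit 0) (nat_lit 422711539) (nat_lit 28) (nat_lit 5) (nat_lit 31) (nat_lit 4) (nat_lit 28) (nat_lit 4) (nat_lit 643) (nat_lit 476) (nat_lit 441)) (XT.nd (nat_lit 78) (nat_lit 76) (nat_lit 0) (XT.lf (nat_lit 0) (nat_lit 4270479911) (nat_lit 228) (nat_lit 4981558804) (nat_lit 76) (nat_lit 5918952224) (nat_lit 25) (nat_lit 5) (nat_lit 28) (nat_lit 5) (nat_lit 26) (nat_lit 4) (nat_lit 644) (nat_lit 476) (nat_lit 440)) (XT.lf (nat_lit 0) (nat_lit 6018067150) (nat_lit 76) (nat_lit 3824795673) (nat_lit 152) (nat_lit 5511130824) (nat_lit 24) (nat_lit 5) (nat_lit 25) (nat_lit 5) (nat_lit 26) (nat_lit 4) (nat_lit 645) (nat_lit 476) (nat_lit 439)))) (XT.nd (nat_lit 156) (nat_lit 304) (nat_lit 0) (XT.nd (nat_lit 78) (nat_lit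 76) (nat_lit 0) (XT.lf (nat_lit 0) (nat_lit 1667084386) (nat_lit 152) (nat_lit 13856461708) (nat_lit 152) (nat_lit 17175283) (nat_lit 22) (nat_lit 4) (nat_lit 24) (nat_lit 5) (nat_lit 24) (nat_lit 4) (nat_lit 646) (nat_lit 476) (nat_lit 438)) (XT.lf (nat_lit 0) (nat_lit 5543115414) (nat_lit 228) (nat_lit 2883981446) (nat_lit 76) (nat_lit 7302768780) (nat_lit 21) (nat_lit 5) (nat_lit 24) (nat_lit 5) (nat_lit 22) (nat_lit 4) (nat_lit 647) (nat_lit 476) (nat_lit 437))) (XT.nd (nat_lit 78) (nat_lit 228) (nat_lit 0) (XT.lf (nat_lit 0) (nat_lit 8327968202) (nat_lit 76) (nat_lit 2882967440) (nat_lit 152) (nat_lit 4711925706) (nat_lit 20) (nat_lit 5) (nat_lit 21) (nat_lit 5) (nat_lit 22) (nat_lit 4) (nat_lit 648) (nat_lit 476) (nat_lit 436)) (XT.lf (nat_lit 0) (nat_lit 864474964) (nat_lit 228) (nat_lit 12518977262) (nat_lit 76) (nat_lit 2736082868) (nat_lit 17) (nat_lit 5) (nat_lit 20) (nat_lit 5) (nat_lit 18) (nat_lit 4) (nat_lit 649) (nat_lit 476) (nat_lit 435))))))) (XT.nd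 (nat_lit 936) (nat_lit 2508) (nat_lit 0) (XT.nd (nat_lit 468) (nat_lit 1520) (nat_lit 0) (XT.nd (nat_lit 234) (nat_lit 988) (nat_lit 0) (XT.nd (nat_lit 78) (nat_lit 380) (nat_lit 0) (XT.lf (nat_lit 0) (nat_lit 503863535) (nat_lit 304) (nat_lit 2288279935) (nat_lit 304) (nat_lit 2288279935) (nat_lit 126) (nat_lit 4) (nat_lit 130) (nat_lit 5) (nat_lit 130) (nat_lit 4) (nat_lit 606) (nat_lit 477) (nat_lit 477)) (XT.nd (nat_lit 78) (nat_lit 304) (nat_lit 0) (XT.lf (nat_lit 0) (nat_lit 180112141) (nat_lit 380) (nat_lit 354702759) (nat_lit 76) (nat_lit 9719310001) (nat_lit 125) (nat_lit 5) (nat_lit 130) (nat_lit 5) (nat_lit 126) (nat_lit 4) (nat_lit 607) (nat_lit 477) (nat_lit 476)) (XT.lf (nat_lit 0) (nat_lit 4978217567) (nat_lit 380) (nat_lit 1787150851) (nat_lit 0) (nat_lit 3583149175) (nat_lit 121) (nat_lit 5) (nat_lit 126) (nat_lit 4) (nat_lit 121) (nat_lit 4) (nat_lit 608) (nat_lit 477) (nat_lit 475)))) (XT.nd (nat_lit 78) (nat_lit 684) (nat_lit 0) (XT.lf (nat_lit 0)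 (nat_lit 7189617367) (nat_lit 304) (nat_lit 2663858547) (nat_lit 304) (nat_lit 591703962) (nat_lit 117) (nat_lit 4) (nat_lit 121) (nat_lit 5) (nat_lit 121) (nat_lit 4) (nat_lit 609) (nat_lit 477) (nat_lit 474)) (XT.nd (nat_lit 78) (nat_lit 304) (nat_lit 0) (XT.lf (nat_lit 0) (nat_lit 4214575955) (nat_lit 380) (nat_lit 4796625411) (nat_lit 0) (nat_lit 1532257742) (nat_lit 112) (nat_lit 5) (nat_lit 117) (nat_lit 4) (nat_lit 112) (nat_lit 4) (nat_lit 610) (nat_lit 477) (nat_lit 473)) (XT.lf (nat_lit 0) (nat_lit 4246665529) (nat_lit 304) (nat_lit 4858695505) (nat_lit 304) (nat_lit 1538343850) (nat_lit 108) (nat_lit 4) (nat_lit 112) (nat_lit 5) (nat_lit 112) (nat_lit 4) (nat_lit 611) (nat_lit 477) (nat_lit 472))))) (XT.nd (nat_lit 234) (nat_lit 836) (nat_lit 0) (XT.nd (nat_lit 78) (nat_lit 380) (nat_lit 0) (XT.lf (nat_lit 0) (nat_lit 2686170130) (nat_lit 228) (nat_lit 597020348) (nat_lit 304) (nat_lit 7462753501) (nat_lit 104) (nat_lit 5) (nat_lit 107) (nat_lit 5) (nat_lit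 108) (nat_lit 4) (nat_lit 612) (nat_lit 477) (nat_lit 471)) (XT.nd (nat_lit 78) (nat_lit 76) (nat_lit 0) (XT.lf (nat_lit 0) (nat_lit 1049363192) (nat_lit 304) (nat_lit 7135162283) (nat_lit 304) (nat_lit 2665424575) (nat_lit 100) (nat_lit 4) (nat_lit 104) (nat_lit 5) (nat_lit 104) (nat_lit 4) (nat_lit 613) (nat_lit 477) (nat_lit 470)) (XT.lf (nat_lit 0) (nat_lit 2186759885) (nat_lit 380) (nat_lit 641927016) (nat_lit 76) (nat_lit 8127302236) (nat_lit 99) (nat_lit 5) (nat_lit 104) (nat_lit 5) (nat_lit 100) (nat_lit 4) (nat_lit 614) (nat_lit 477) (nat_lit 469)))) (XT.nd (nat_lit 78) (nat_lit 608) (nat_lit 0) (XT.lf (nat_lit 0) (nat_lit 7098137161) (nat_lit 304) (nat_lit 2394107955) (nat_lit 0) (nat_lit 1571599385) (nat_lit 96) (nat_lit 5) (nat_lit 100) (nat_lit 4) (nat_lit 96) (nat_lit 4) (nat_lit 615) (nat_lit 477) (nat_lit 468)) (XT.nd (nat_lit 78) (nat_lit 228) (nat_lit 0) (XT.lf (nat_lit 0) (nat_lit 921289901) (nat_lit 380) (nat_lit 4220978681) (nat_lit 76) (nat_lit 6031478530)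 (nat_lit 91) (nat_lit 5) (nat_lit 96) (nat_lit 5) (nat_lit 92) (nat_lit 4) (nat_lit 616) (nat_lit 477) (nat_lit 467)) (XT.lf (nat_lit 0) (nat_lit 5158524548) (nat_lit 228) (nat_lit 675665664) (nat_lit 304) (nat_lit 5451512397) (nat_lit 88) (nat_lit 5) (nat_lit 91) (nat_lit 5) (nat_lit 92) (nat_lit 4) (nat_lit 617) (nat_lit 477) (nat_lit 466)))))) (XT.nd (nat_lit 468) (nat_lit 1140) (nat_lit 0) (XT.nd (nat_lit 234) (nat_lit 836) (nat_lit 0) (XT.nd (nat_lit 78) (nat_lit 304) (nat_lit 0) (XT.lf (nat_lit 0) (nat_lit 3284644548) (nat_lit 228) (nat_lit 7567568427) (nat_lit 228) (nat_lit 547551246) (nat_lit 85) (nat_lit 4) (nat_lit 88) (nat_lit 5) (nat_lit 88) (nat_lit 4) (nat_lit 618) (nat_lit 477) (nat_lit 465)) (XT.nd (nat_lit 78) (nat_lit 0) (nat_lit 0) (XT.lf (nat_lit 0) (nat_lit 1319411976) (nat_lit 228) (nat_lit 3063051326) (nat_lit 304) (nat_lit 7133341548) (nat_lit 81) (nat_lit 5) (nat_lit 84) (nat_lit 5) (nat_lit 85) (nat_lit 4) (nat_lit 619) (nat_lit 477) (nat_lit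 464)) (XT.lf (nat_lit 0) (nat_lit 9400746702) (nat_lit 304) (nat_lit 711339945) (nat_lit 0) (nat_lit 1522071299) (nat_lit 81) (nat_lit 5) (nat_lit 85) (nat_lit 4) (nat_lit 81) (nat_lit 4) (nat_lit 620) (nat_lit 477) (nat_lit 463)))) (XT.nd (nat_lit 78) (nat_lit 532) (nat_lit 0) (XT.lf (nat_lit 0) (nat_lit 2740263589) (nat_lit 304) (nat_lit 2826892562) (nat_lit 76) (nat_lit 6187126798) (nat_lit 77) (nat_lit 5) (nat_lit 81) (nat_lit 5) (nat_lit 78) (nat_lit 4) (nat_lit 621) (nat_lit 477) (nat_lit 462)) (XT.nd (nat_lit 78) (nat_lit 304) (nat_lit 0) (XT.lf (nat_lit 0) (nat_lit 6852060220) (nat_lit 228) (nat_lit 914451402) (nat_lit 304) (nat_lit 4110347284) (nat_lit 74) (nat_lit 5) (nat_lit 77) (nat_lit 5) (nat_lit 78) (nat_lit 4) (nat_lit 622) (nat_lit 477) (nat_lit 461)) (XT.lf (nat_lit 0) (nat_lit 888063438) (nat_lit 304) (nat_lit 7324804059) (nat_lit 76) (nat_lit 3788739679) (nat_lit 70) (nat_lit 5) (nat_lit 74) (nat_lit 5) (nat_lit 71) (nat_lit 4) (nat_lit 623) (nat_lit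 477) (nat_lit 460))))) (XT.nd (nat_lit 234) (nat_lit 608) (nat_lit 0) (XT.nd (nat_lit 78) (nat_lit 304) (nat_lit 0) (XT.lf (nat_lit 0) (nat_lit 2395106282) (nat_lit 228) (nat_lit 3525944995) (nat_lit 304) (nat_lit 6207466408) (nat_lit 67) (nat_lit 5) (nat_lit 70) (nat_lit 5) (nat_lit 71) (nat_lit 4) (nat_lit 624) (nat_lit 477) (nat_lit 459)) (XT.nd (nat_lit 78) (nat_lit 76) (nat_lit 0) (XT.lf (nat_lit 0) (nat_lit 28204246) (nat_lit 228) (nat_lit 11018581133) (nat_lit 228) (nat_lit 1211342819) (nat_lit 64) (nat_lit 4) (nat_lit 67) (nat_lit 5) (nat_lit 67) (nat_lit 4) (nat_lit 625) (nat_lit 477) (nat_lit 458)) (XT.lf (nat_lit 0) (nat_lit 3857241484) (nat_lit 304) (nat_lit 2436569551) (nat_lit 76) (nat_lit 6095549094) (nat_lit 63) (nat_lit 5) (nat_lit 67) (nat_lit 5) (nat_lit 64) (nat_lit 4) (nat_lit 626) (nat_lit 477) (nat_lit 457)))) (XT.nd (nat_lit 156) (nat_lit 152) (nat_lit 0) (XT.nd (nat_lit 78) (nat_lit 304) (nat_lit 0) (XT.lf (nat_lit 0) (nat_lit 7530123168) (nat_lit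 152) (nat_lit 1465433987) (nat_lit 228) (nat_lit 3527811131) (nat_lit 61) (nat_lit 5) (nat_lit 63) (nat_lit 5) (nat_lit 64) (nat_lit 4) (nat_lit 627) (nat_lit 477) (nat_lit 456)) (XT.lf (nat_lit 0) (nat_lit 1563215438) (nat_lit 304) (nat_lit 7671241058) (nat_lit 76) (nat_lit 3425252374) (nat_lit 57) (nat_lit 5) (nat_lit 61) (nat_lit 5) (nat_lit 58) (nat_lit 4) (nat_lit 628) (nat_lit 477) (nat_lit 455))) (XT.nd (nat_lit 78) (nat_lit 0) (nat_lit 0) (XT.lf (nat_lit 0) (nat_lit 2322979789) (nat_lit 152) (nat_lit 4380395018) (nat_lit 228) (nat_lit 6095047217) (nat_lit 55) (nat_lit 5) (nat_lit 57) (nat_lit 5) (nat_lit 58) (nat_lit 4) (nat_lit 629) (nat_lit 477) (nat_lit 454)) (XT.lf (nat_lit 0) (nat_lit 11938053150) (nat_lit 228) (nat_lit 435651197) (nat_lit 0) (nat_lit 566373845) (nat_lit 55) (nat_lit 5) (nat_lit 58) (nat_lit 4) (nat_lit 55) (nat_lit 4) (nat_lit 630) (nat_lit 477) (nat_lit 453))))))))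
noncomputable def xc10 : XT := (XT.nd (nat_lit 79560) (nat_lit 0) (nat_lit 2052) (XT.nd (nat_lit 936) (nat_lit 760) (nat_lit 0) (XT.nd (nat_lit 468) (nat_lit 912) (nat_lit 0) (XT.nd (nat_lit 234) (nat_lit 380) (nat_lit 0) (XT.nd (nat_lit 78) (nat_lit 456) (nat_lit 0) (XT.lf (nat_lit 0) (nat_lit 4168096275) (nat_lit 304) (nat_lit 3318595001) (nat_lit 76) (nat_lit 5596730123) (nat_lit 51) (nat_lit 5) (nat_lit 55) (nat_lit 5) (nat_lit 52) (nat_lit 4) (nat_lit 631) (nat_lit 477) (nat_lit 452)) (XT.nd (nat_lit 78) (nat_lit 304) (nat_lit 0) (XT.lf (nat_lit 0) (nat_lit 6918058985) (nat_lit 152) (nat_lit 2495551384) (nat_lit 228) (nat_lit 3816183373) (nat_lit 49) (nat_lit 5) (nat_lit 51) (nat_lit 5) (nat_lit 52) (nat_lit 4) (nat_lit 632) (nat_lit 477) (nat_lit 451)) (XT.lf (nat_lit 0) (nat_lit 1369420023) (nat_lit 304) (nat_lit 9439333954) (nat_lit 76) (nat_lit 2570109641) (nat_lit 45) (nat_lit 5) (nat_lit 49) (nat_lit 5) (nat_lit 46) (nat_lit 4) (nat_lit 633) (nat_lit 477) (nat_lit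 450)))) (XT.nd (nat_lit 78) (nat_lit 228) (nat_lit 0) (XT.lf (nat_lit 0) (nat_lit 807878193) (nat_lit 152) (nat_lit 5802023979) (nat_lit 228) (nat_lit 6920465637) (nat_lit 43) (nat_lit 5) (nat_lit 45) (nat_lit 5) (nat_lit 46) (nat_lit 4) (nat_lit 634) (nat_lit 477) (nat_lit 449)) (XT.nd (nat_lit 78) (nat_lit 228) (nat_lit 0) (XT.lf (nat_lit 0) (nat_lit 11276777709) (nat_lit 152) (nat_lit 680066464) (nat_lit 228) (nat_lit 1728027574) (nat_lit 43) (nat_lit 5) (nat_lit 45) (nat_lit 5) (nat_lit 46) (nat_lit 4) (nat_lit 635) (nat_lit 477) (nat_lit 448)) (XT.lf (nat_lit 0) (nat_lit 3542760022) (nat_lit 228) (nat_lit 5786235096) (nat_lit 76) (nat_lit 4512583880) (nat_lit 40) (nat_lit 5) (nat_lit 43) (nat_lit 5) (nat_lit 41) (nat_lit 4) (nat_lit 636) (nat_lit 477) (nat_lit 447))))) (XT.nd (nat_lit 234) (nat_lit 532) (nat_lit 0) (XT.nd (nat_lit 78) (nat_lit 228) (nat_lit 0) (XT.lf (nat_lit 0) (nat_lit 4695105996) (nat_lit 152) (nat_lit 4191277717) (nat_lit 228) (nat_lit 5114999578)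 (nat_lit 38) (nat_lit 5) (nat_lit 40) (nat_lit 5) (nat_lit 41) (nat_lit 4) (nat_lit 637) (nat_lit 477) (nat_lit 446)) (XT.nd (nat_lit 78) (nat_lit 0) (nat_lit 0) (XT.lf (nat_lit 0) (nat_lit 163316441) (nat_lit 228) (nat_lit 12966213486) (nat_lit 76) (nat_lit 1034972111) (nat_lit 35) (nat_lit 5) (nat_lit 38) (nat_lit 5) (nat_lit 36) (nat_lit 4) (nat_lit 638) (nat_lit 477) (nat_lit 445)) (XT.lf (nat_lit 0) (nat_lit 5508915206) (nat_lit 228) (nat_lit 2462842395) (nat_lit 76) (nat_lit 6357847600) (nat_lit 35) (nat_lit 5) (nat_lit 38) (nat_lit 5) (nat_lit 36) (nat_lit 4) (nat_lit 639) (nat_lit 477) (nat_lit 444)))) (XT.nd (nat_lit 78) (nat_lit 380) (nat_lit 0) (XT.lf (nat_lit 0) (nat_lit 8250709142) (nat_lit 152) (nat_lit 2704993573) (nat_lit 228) (nat_lit 3542424502) (nat_lit 33) (nat_lit 5) (nat_lit 35) (nat_lit 5) (nat_lit 36) (nat_lit 4) (nat_lit 640) (nat_lit 477) (nat_lit 443)) (XT.nd (nat_lit 78) (nat_lit 152) (nat_lit 0) (XT.lf (nat_lit 0) (nat_lit 1821146385) (nat_lit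 228) (nat_lit 10206680091) (nat_lit 76) (nat_lit 2641878508) (nat_lit 30) (nat_lit 5) (nat_lit 33) (nat_lit 5) (nat_lit 31) (nat_lit 4) (nat_lit 641) (nat_lit 477) (nat_lit 442)) (XT.lf (nat_lit 0) (nat_lit 484870224) (nat_lit 152) (nat_lit 6763921236) (nat_lit 228) (nat_lit 7595372011) (nat_lit 28) (nat_lit 5) (nat_lit 30) (nat_lit 5) (nat_lit 31) (nat_lit 4) (nat_lit 642) (nat_lit 477) (nat_lit 441)))))) (XT.nd (nat_lit 468) (nat_lit 152) (nat_lit 0) (XT.nd (nat_lit 234) (nat_lit 304) (nat_lit 0) (XT.nd (nat_lit 78) (nat_lit 304) (nat_lit 0) (XT.lf (nat_lit 0) (nat_lit 11420994491) (nat_lit 152) (nat_lit 1373875153) (nat_lit 228) (nat_lit 2227046028) (nat_lit 28) (nat_lit 5) (nat_lit 30) (nat_lit 5) (nat_lit 31) (nat_lit 4) (nat_lit 643) (nat_lit 477) (nat_lit 440)) (XT.nd (nat_lit 78) (nat_lit 76) (nat_lit 0) (XT.lf (nat_lit 0) (nat_lit 3222777172) (nat_lit 228) (nat_lit 7888383708) (nat_lit 76) (nat_lit 4091307507) (nat_lit 25) (nat_lit 5) (nat_lit 28) (nat_lit 5)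 (nat_lit 26) (nat_lit 4) (nat_lit 644) (nat_lit 477) (nat_lit 439)) (XT.lf (nat_lit 0) (nat_lit 3019233757) (nat_lit 76) (nat_lit 5727886912) (nat_lit 152) (nat_lit 6639312215) (nat_lit 24) (nat_lit 5) (nat_lit 25) (nat_lit 5) (nat_lit 26) (nat_lit 4) (nat_lit 645) (nat_lit 477) (nat_lit 438)))) (XT.nd (nat_lit 78) (nat_lit 304) (nat_lit 0) (XT.lf (nat_lit 0) (nat_lit 14146222688) (nat_lit 76) (nat_lit 231399393) (nat_lit 152) (nat_lit 1196543152) (nat_lit 24) (nat_lit 5) (nat_lit 25) (nat_lit 5) (nat_lit 26) (nat_lit 4) (nat_lit 646) (nat_lit 477) (nat_lit 437)) (XT.nd (nat_lit 78) (nat_lit 76) (nat_lit 0) (XT.lf (nat_lit 0) (nat_lit 4339782326) (nat_lit 228) (nat_lit 6075171144) (nat_lit 76) (nat_lit 5349298769) (nat_lit 21) (nat_lit 5) (nat_lit 24) (nat_lit 5) (nat_lit 22) (nat_lit 4) (nat_lit 647) (nat_lit 477) (nat_lit 436)) (XT.lf (nat_lit 0) (nat_lit 5041940214) (nat_lit 76) (nat_lit 4916411710) (nat_lit 152) (nat_lit 5999881962) (nat_lit 20) (nat_lit 5) (nat_lit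 21) (nat_lit 5) (nat_lit 22) (nat_lit 4) (nat_lit 648) (nat_lit 477) (nat_lit 435))))) (XT.nd (nat_lit 77844) (nat_lit 0) (nat_lit 7524) (XT.nd (nat_lit 77688) (nat_lit 0) (nat_lit 8512) (XT.lf (nat_lit 0) (nat_lit 201706111) (nat_lit 152) (nat_lit 15478158867) (nat_lit 152) (nat_lit 476420578) (nat_lit 18) (nat_lit 4) (nat_lit 20) (nat_lit 5) (nat_lit 20) (nat_lit 4) (nat_lit 649) (nat_lit 477) (nat_lit 434)) (XT.nd (nat_lit 78) (nat_lit 380) (nat_lit 0) (XT.lf (nat_lit 0) (nat_lit 1836810356) (nat_lit 380) (nat_lit 1576457908) (nat_lit 380) (nat_lit 1576457908) (nat_lit 135) (nat_lit 4) (nat_lit 140) (nat_lit 5) (nat_lit 140) (nat_lit 4) (nat_lit 604) (nat_lit 478) (nat_lit 478)) (XT.lf (nat_lit 0) (nat_lit 1539463386) (nat_lit 380) (nat_lit 7723763359) (nat_lit 0) (nat_lit 806563516) (nat_lit 130) (nat_lit 5) (nat_lit 135) (nat_lit 4) (nat_lit 130) (nat_lit 4) (nat_lit 605) (nat_lit 478) (nat_lit 477)))) (XT.nd (nat_lit 156) (nat_lit 608) (nat_lit 0) (XT.nd (nat_lit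 78) (nat_lit 76) (nat_lit 0) (XT.lf (nat_lit 0) (nat_lit 949353721) (nat_lit 304) (nat_lit 5331822686) (nat_lit 304) (nat_lit 3880393531) (nat_lit 126) (nat_lit 4) (nat_lit 130) (nat_lit 5) (nat_lit 130) (nat_lit 4) (nat_lit 606) (nat_lit 478) (nat_lit 476)) (XT.lf (nat_lit 0) (nat_lit 831607188) (nat_lit 380) (nat_lit 476023108) (nat_lit 76) (nat_lit 8947840955) (nat_lit 125) (nat_lit 5) (nat_lit 130) (nat_lit 5) (nat_lit 126) (nat_lit 4) (nat_lit 607) (nat_lit 478) (nat_lit 475))) (XT.nd (nat_lit 78) (nat_lit 304) (nat_lit 0) (XT.lf (nat_lit 0) (nat_lit 5588531747) (nat_lit 380) (nat_lit 1964310684) (nat_lit 0) (nat_lit 2797847878) (nat_lit 121) (nat_lit 5) (nat_lit 126) (nat_lit 4) (nat_lit 121) (nat_lit 4) (nat_lit 608) (nat_lit 478) (nat_lit 474)) (XT.lf (nat_lit 0) (nat_lit 6952596211) (nat_lit 304) (nat_lit 3474988523) (nat_lit 304) (nat_lit 20494661) (nat_lit 117) (nat_lit 4) (nat_lit 121) (nat_lit 5) (nat_lit 121) (nat_lit 4) (nat_lit 609) (nat_lit 478) (nat_lit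 473))))))) (XT.nd (nat_lit 936) (nat_lit 2432) (nat_lit 0) (XT.nd (nat_lit 468) (nat_lit 1444) (nat_lit 0) (XT.nd (nat_lit 234) (nat_lit 608) (nat_lit 0) (XT.nd (nat_lit 78) (nat_lit 608) (nat_lit 0) (XT.lf (nat_lit 0) (nat_lit 4736334629) (nat_lit 380) (nat_lit 5099249100) (nat_lit 0) (nat_lit 711542499) (nat_lit 112) (nat_lit 5) (nat_lit 117) (nat_lit 4) (nat_lit 112) (nat_lit 4) (nat_lit 610) (nat_lit 478) (nat_lit 472)) (XT.nd (nat_lit 78) (nat_lit 304) (nat_lit 0) (XT.lf (nat_lit 0) (nat_lit 3882251026) (nat_lit 304) (nat_lit 5708087131) (nat_lit 304) (nat_lit 1057772019) (nat_lit 108) (nat_lit 4) (nat_lit 112) (nat_lit 5) (nat_lit 112) (nat_lit 4) (nat_lit 611) (nat_lit 478) (nat_lit 471)) (XT.lf (nat_lit 0) (nat_lit 2251433357) (nat_lit 228) (nat_lit 1468866788) (nat_lit 304) (nat_lit 7030732350) (nat_lit 104) (nat_lit 5) (nat_lit 107) (nat_lit 5) (nat_lit 108) (nat_lit 4) (nat_lit 612) (nat_lit 478) (nat_lit 470)))) (XT.nd (nat_lit 78) (nat_lit 304) (nat_lit 0)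 (XT.lf (nat_lit 0) (nat_lit 551412560) (nat_lit 304) (nat_lit 8027149878) (nat_lit 304) (nat_lit 2277339976) (nat_lit 100) (nat_lit 4) (nat_lit 104) (nat_lit 5) (nat_lit 104) (nat_lit 4) (nat_lit 613) (nat_lit 478) (nat_lit 469)) (XT.nd (nat_lit 78) (nat_lit 228) (nat_lit 0) (XT.lf (nat_lit 0) (nat_lit 2535649821) (nat_lit 380) (nat_lit 1205683808) (nat_lit 76) (nat_lit 7221241876) (nat_lit 99) (nat_lit 5) (nat_lit 104) (nat_lit 5) (nat_lit 100) (nat_lit 4) (nat_lit 614) (nat_lit 478) (nat_lit 468)) (XT.lf (nat_lit 0) (nat_lit 7403411847) (nat_lit 304) (nat_lit 3023552212) (nat_lit 0) (nat_lit 644341371) (nat_lit 96) (nat_lit 5) (nat_lit 100) (nat_lit 4) (nat_lit 96) (nat_lit 4) (nat_lit 615) (nat_lit 478) (nat_lit 467))))) (XT.nd (nat_lit 234) (nat_lit 608) (nat_lit 0) (XT.nd (nat_lit 78) (nat_lit 456) (nat_lit 0) (XT.lf (nat_lit 0) (nat_lit 1177142948) (nat_lit 380) (nat_lit 4925797119) (nat_lit 76) (nat_lit 5078992567) (nat_lit 91) (nat_lit 5) (nat_lit 96) (nat_lit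 5) (nat_lit 92) (nat_lit 4) (nat_lit 616) (nat_lit 478) (nat_lit 466)) (XT.nd (nat_lit 78) (nat_lit 228) (nat_lit 0) (XT.lf (nat_lit 0) (nat_lit 4387158855) (nat_lit 228) (nat_lit 1664654299) (nat_lit 304) (nat_lit 5242841704) (nat_lit 88) (nat_lit 5) (nat_lit 91) (nat_lit 5) (nat_lit 92) (nat_lit 4) (nat_lit 617) (nat_lit 478) (nat_lit 465)) (XT.lf (nat_lit 0) (nat_lit 2443141280) (nat_lit 228) (nat_lit 8581725275) (nat_lit 228) (nat_lit 384751386) (nat_lit 85) (nat_lit 4) (nat_lit 88) (nat_lit 5) (nat_lit 88) (nat_lit 4) (nat_lit 618) (nat_lit 478) (nat_lit 464)))) (XT.nd (nat_lit 78) (nat_lit 304) (nat_lit 0) (XT.lf (nat_lit 0) (nat_lit 398278472) (nat_lit 228) (nat_lit 4105848941) (nat_lit 304) (nat_lit 7022292032) (nat_lit 81) (nat_lit 5) (nat_lit 84) (nat_lit 5) (nat_lit 85) (nat_lit 4) (nat_lit 619) (nat_lit 478) (nat_lit 463)) (XT.nd (nat_lit 78) (nat_lit 304) (nat_lit 0) (XT.lf (nat_lit 0) (nat_lit 9482749661) (nat_lit 304) (nat_lit 1693087528) (nat_lit 0) (nat_lit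 469730538) (nat_lit 81) (nat_lit 5) (nat_lit 85) (nat_lit 4) (nat_lit 81) (nat_lit 4) (nat_lit 620) (nat_lit 478) (nat_lit 462)) (XT.lf (nat_lit 0) (nat_lit 2770599546) (nat_lit 304) (nat_lit 3890476284) (nat_lit 76) (nat_lit 5105396248) (nat_lit 77) (nat_lit 5) (nat_lit 81) (nat_lit 5) (nat_lit 78) (nat_lit 4) (nat_lit 621) (nat_lit 478) (nat_lit 461)))))) (XT.nd (nat_lit 468) (nat_lit 1216) (nat_lit 0) (XT.nd (nat_lit 234) (nat_lit 456) (nat_lit 0) (XT.nd (nat_lit 78) (nat_lit 532) (nat_lit 0) (XT.lf (nat_lit 0) (nat_lit 5717881235) (nat_lit 228) (nat_lit 2039416484) (nat_lit 304) (nat_lit 4132543165) (nat_lit 74) (nat_lit 5) (nat_lit 77) (nat_lit 5) (nat_lit 78) (nat_lit 4) (nat_lit 622) (nat_lit 478) (nat_lit 460)) (XT.nd (nat_lit 78) (nat_lit 228) (nat_lit 0) (XT.lf (nat_lit 0) (nat_lit 818607087) (nat_lit 304) (nat_lit 8549864424) (nat_lit 76) (nat_lit 2647073333) (nat_lit 70) (nat_lit 5) (nat_lit 74) (nat_lit 5) (nat_lit 71) (nat_lit 4) (nat_lit 623) (nat_lit 478)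 (nat_lit 459)) (XT.lf (nat_lit 0) (nat_lit 1097121208) (nat_lit 228) (nat_lit 4714036084) (nat_lit 304) (nat_lit 6332108560) (nat_lit 67) (nat_lit 5) (nat_lit 70) (nat_lit 5) (nat_lit 71) (nat_lit 4) (nat_lit 624) (nat_lit 478) (nat_lit 458)))) (XT.nd (nat_lit 78) (nat_lit 456) (nat_lit 0) (XT.lf (nat_lit 0) (nat_lit 10897096769) (nat_lit 304) (nat_lit 1333200759) (nat_lit 0) (nat_lit 43376437) (nat_lit 67) (nat_lit 5) (nat_lit 71) (nat_lit 4) (nat_lit 67) (nat_lit 4) (nat_lit 625) (nat_lit 478) (nat_lit 457)) (XT.nd (nat_lit 78) (nat_lit 152) (nat_lit 0) (XT.lf (nat_lit 0) (nat_lit 3653500409) (nat_lit 304) (nat_lit 3886354440) (nat_lit 76) (nat_lit 4865887621) (nat_lit 63) (nat_lit 5) (nat_lit 67) (nat_lit 5) (nat_lit 64) (nat_lit 4) (nat_lit 626) (nat_lit 478) (nat_lit 456)) (XT.lf (nat_lit 0) (nat_lit 6005368240) (nat_lit 152) (nat_lit 2745327893) (nat_lit 228) (nat_lit 3789878504) (nat_lit 61) (nat_lit 5) (nat_lit 63) (nat_lit 5) (nat_lit 64) (nat_lit 4) (nat_lit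 627) (nat_lit 478) (nat_lit 455))))) (XT.nd (nat_lit 234) (nat_lit 760) (nat_lit 0) (XT.nd (nat_lit 78) (nat_lit 152) (nat_lit 0) (XT.lf (nat_lit 0) (nat_lit 1254374983) (nat_lit 304) (nat_lit 9297257682) (nat_lit 76) (nat_lit 2126322339) (nat_lit 57) (nat_lit 5) (nat_lit 61) (nat_lit 5) (nat_lit 58) (nat_lit 4) (nat_lit 628) (nat_lit 478) (nat_lit 454)) (XT.nd (nat_lit 78) (nat_lit 0) (nat_lit 0) (XT.lf (nat_lit 0) (nat_lit 619491347) (nat_lit 152) (nat_lit 5732915615) (nat_lit 228) (nat_lit 6465105262) (nat_lit 55) (nat_lit 5) (nat_lit 57) (nat_lit 5) (nat_lit 58) (nat_lit 4) (nat_lit 629) (nat_lit 478) (nat_lit 453)) (XT.lf (nat_lit 0) (nat_lit 10749971658) (nat_lit 152) (nat_lit 802573862) (nat_lit 228) (nat_lit 1407315156) (nat_lit 55) (nat_lit 5) (nat_lit 57) (nat_lit 5) (nat_lit 58) (nat_lit 4) (nat_lit 630) (nat_lit 478) (nat_lit 452)))) (XT.nd (nat_lit 156) (nat_lit 304) (nat_lit 0) (XT.nd (nat_lit 78) (nat_lit 152) (nat_lit 0) (XT.lf (nat_lit 0) (nat_lit 3720237826)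 (nat_lit 304) (nat_lit 5183786712) (nat_lit 76) (nat_lit 4200191077) (nat_lit 51) (nat_lit 5) (nat_lit 55) (nat_lit 5) (nat_lit 52) (nat_lit 4) (nat_lit 631) (nat_lit 478) (nat_lit 451)) (XT.lf (nat_lit 0) (nat_lit 4973164708) (nat_lit 152) (nat_lit 3949642975) (nat_lit 228) (nat_lit 4328640563) (nat_lit 49) (nat_lit 5) (nat_lit 51) (nat_lit 5) (nat_lit 52) (nat_lit 4) (nat_lit 632) (nat_lit 478) (nat_lit 450))) (XT.nd (nat_lit 78) (nat_lit 0) (nat_lit 0) (XT.lf (nat_lit 0) (nat_lit 810432215) (nat_lit 304) (nat_lit 11496495396) (nat_lit 76) (nat_lit 1094723435) (nat_lit 45) (nat_lit 5) (nat_lit 49) (nat_lit 5) (nat_lit 46) (nat_lit 4) (nat_lit 633) (nat_lit 478) (nat_lit 449)) (XT.lf (nat_lit 0) (nat_lit 6015485596) (nat_lit 304) (nat_lit 1314210893) (nat_lit 76) (nat_lit 6224168644) (nat_lit 45) (nat_lit 5) (nat_lit 49) (nat_lit 5) (nat_lit 46) (nat_lit 4) (nat_lit 634) (nat_lit 478) (nat_lit 448))))))))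
noncomputable def xc11 : XT := (XT.nd (nat_lit 79404) (nat_lit 0) (nat_lit 1520) (XT.nd (nat_lit 936) (nat_lit 304) (nat_lit 0) (XT.nd (nat_lit 468) (nat_lit 684) (nat_lit 0) (XT.nd (nat_lit 234) (nat_lit 380) (nat_lit 0) (XT.nd (nat_lit 78) (nat_lit 380) (nat_lit 0) (XT.lf (nat_lit 0) (nat_lit 9083248722) (nat_lit 152) (nat_lit 2240590657) (nat_lit 228) (nat_lit 2385302754) (nat_lit 43) (nat_lit 5) (nat_lit 45) (nat_lit 5) (nat_lit 46) (nat_lit 4) (nat_lit 635) (nat_lit 478) (nat_lit 447)) (XT.nd (nat_lit 78) (nat_lit 152) (nat_lit 0) (XT.lf (nat_lit 0) (nat_lit 2839227790) (nat_lit 228) (nat_lit 8098035514) (nat_lit 76) (nat_lit 2929770221) (nat_lit 40) (nat_lit 5) (nat_lit 43) (nat_lit 5) (nat_lit 41) (nat_lit 4) (nat_lit 636) (nat_lit 478) (nat_lit 446)) (XT.lf (nat_lit 0) (nat_lit 2298479754) (nat_lit 152) (nat_lit 5839342647) (nat_lit 228) (nat_lit 5889917219) (nat_lit 38) (nat_lit 5) (nat_lit 40) (nat_lit 5) (nat_lit 41) (nat_lit 4) (nat_lit 637) (nat_lit 478)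 (nat_lit 445)))) (XT.nd (nat_lit 78) (nat_lit 380) (nat_lit 0) (XT.lf (nat_lit 0) (nat_lit 12905550756) (nat_lit 152) (nat_lit 632125202) (nat_lit 228) (nat_lit 654080557) (nat_lit 38) (nat_lit 5) (nat_lit 40) (nat_lit 5) (nat_lit 41) (nat_lit 4) (nat_lit 638) (nat_lit 478) (nat_lit 444)) (XT.nd (nat_lit 78) (nat_lit 152) (nat_lit 0) (XT.lf (nat_lit 0) (nat_lit 4658121869) (nat_lit 228) (nat_lit 5036959604) (nat_lit 76) (nat_lit 4662703785) (nat_lit 35) (nat_lit 5) (nat_lit 38) (nat_lit 5) (nat_lit 36) (nat_lit 4) (nat_lit 639) (nat_lit 478) (nat_lit 443)) (XT.lf (nat_lit 0) (nat_lit 5589222207) (nat_lit 152) (nat_lit 4469629946) (nat_lit 228) (nat_lit 4468377392) (nat_lit 33) (nat_lit 5) (nat_lit 35) (nat_lit 5) (nat_lit 36) (nat_lit 4) (nat_lit 640) (nat_lit 478) (nat_lit 442))))) (XT.nd (nat_lit 234) (nat_lit 304) (nat_lit 0) (XT.nd (nat_lit 78) (nat_lit 152) (nat_lit 0) (XT.lf (nat_lit 0) (nat_lit 848818519) (nat_lit 228) (nat_lit 12998521623) (nat_lit 76) (nat_lit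 852758872) (nat_lit 30) (nat_lit 5) (nat_lit 33) (nat_lit 5) (nat_lit 31) (nat_lit 4) (nat_lit 641) (nat_lit 478) (nat_lit 441)) (XT.nd (nat_lit 78) (nat_lit 152) (nat_lit 0) (XT.lf (nat_lit 0) (nat_lit 6244645543) (nat_lit 228) (nat_lit 2365904700) (nat_lit 76) (nat_lit 6264644684) (nat_lit 30) (nat_lit 5) (nat_lit 33) (nat_lit 5) (nat_lit 31) (nat_lit 4) (nat_lit 642) (nat_lit 478) (nat_lit 440)) (XT.lf (nat_lit 0) (nat_lit 8486549588) (nat_lit 152) (nat_lit 3260162076) (nat_lit 228) (nat_lit 3307116746) (nat_lit 28) (nat_lit 5) (nat_lit 30) (nat_lit 5) (nat_lit 31) (nat_lit 4) (nat_lit 643) (nat_lit 478) (nat_lit 439)))) (XT.nd (nat_lit 78) (nat_lit 76) (nat_lit 0) (XT.lf (nat_lit 0) (nat_lit 2096410998) (nat_lit 228) (nat_lit 10959755176) (nat_lit 76) (nat_lit 2179565418) (nat_lit 25) (nat_lit 5) (nat_lit 28) (nat_lit 5) (nat_lit 26) (nat_lit 4) (nat_lit 644) (nat_lit 478) (nat_lit 438)) (XT.nd (nat_lit 78) (nat_lit 76) (nat_lit 0) (XT.lf (nat_lit 0) (nat_lit 7573142805)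 (nat_lit 228) (nat_lit 143380849) (nat_lit 76) (nat_lit 7704125652) (nat_lit 25) (nat_lit 5) (nat_lit 28) (nat_lit 5) (nat_lit 26) (nat_lit 4) (nat_lit 645) (nat_lit 478) (nat_lit 437)) (XT.lf (nat_lit 0) (nat_lit 10930397054) (nat_lit 76) (nat_lit 2244511127) (nat_lit 152) (nat_lit 2434049157) (nat_lit 24) (nat_lit 5) (nat_lit 25) (nat_lit 5) (nat_lit 26) (nat_lit 4) (nat_lit 646) (nat_lit 478) (nat_lit 436)))))) (XT.nd (nat_lit 77922) (nat_lit 0) (nat_lit 6688) (XT.nd (nat_lit 77688) (nat_lit 0) (nat_lit 8740) (XT.nd (nat_lit 78) (nat_lit 76) (nat_lit 0) (XT.lf (nat_lit 0) (nat_lit 3055993152) (nat_lit 228) (nat_lit 9434702348) (nat_lit 76) (nat_lit 3309760730) (nat_lit 21) (nat_lit 5) (nat_lit 24) (nat_lit 5) (nat_lit 22) (nat_lit 4) (nat_lit 647) (nat_lit 478) (nat_lit 435)) (XT.nd (nat_lit 78) (nat_lit 0) (nat_lit 0) (XT.lf (nat_lit 0) (nat_lit 1586361571) (nat_lit 76) (nat_lit 7038397076) (nat_lit 152) (nat_lit 7370676218) (nat_lit 20) (nat_lit 5) (nat_lit 21) (nat_lit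 5) (nat_lit 22) (nat_lit 4) (nat_lit 648) (nat_lit 478) (nat_lit 434)) (XT.lf (nat_lit 0) (nat_lit 12853942433) (nat_lit 76) (nat_lit 1459408167) (nat_lit 152) (nat_lit 1880795247) (nat_lit 20) (nat_lit 5) (nat_lit 21) (nat_lit 5) (nat_lit 22) (nat_lit 4) (nat_lit 649) (nat_lit 478) (nat_lit 433)))) (XT.nd (nat_lit 78) (nat_lit 760) (nat_lit 0) (XT.lf (nat_lit 0) (nat_lit 3129100761) (nat_lit 380) (nat_lit 886373886) (nat_lit 380) (nat_lit 886373886) (nat_lit 145) (nat_lit 4) (nat_lit 150) (nat_lit 5) (nat_lit 150) (nat_lit 4) (nat_lit 602) (nat_lit 479) (nat_lit 479)) (XT.nd (nat_lit 78) (nat_lit 380) (nat_lit 0) (XT.lf (nat_lit 0) (nat_lit 2861849523) (nat_lit 380) (nat_lit 4929863192) (nat_lit 0) (nat_lit 2099340498) (nat_lit 140) (nat_lit 5) (nat_lit 145) (nat_lit 4) (nat_lit 140) (nat_lit 4) (nat_lit 603) (nat_lit 479) (nat_lit 478)) (XT.lf (nat_lit 0) (nat_lit 3616687153) (nat_lit 380) (nat_lit 3936773410) (nat_lit 380) (nat_lit 2426706517) (nat_lit 135) (nat_lit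 4) (nat_lit 140) (nat_lit 5) (nat_lit 140) (nat_lit 4) (nat_lit 604) (nat_lit 479) (nat_lit 477))))) (XT.nd (nat_lit 234) (nat_lit 1292) (nat_lit 0) (XT.nd (nat_lit 78) (nat_lit 380) (nat_lit 0) (XT.lf (nat_lit 0) (nat_lit 2215045813) (nat_lit 380) (nat_lit 7840131061) (nat_lit 0) (nat_lit 16058790) (nat_lit 130) (nat_lit 5) (nat_lit 135) (nat_lit 4) (nat_lit 130) (nat_lit 4) (nat_lit 605) (nat_lit 479) (nat_lit 476)) (XT.nd (nat_lit 78) (nat_lit 76) (nat_lit 0) (XT.lf (nat_lit 0) (nat_lit 774210780) (nat_lit 304) (nat_lit 6146478158) (nat_lit 304) (nat_lit 3243050661) (nat_lit 126) (nat_lit 4) (nat_lit 130) (nat_lit 5) (nat_lit 130) (nat_lit 4) (nat_lit 606) (nat_lit 479) (nat_lit 475)) (XT.lf (nat_lit 0) (nat_lit 1425747128) (nat_lit 380) (nat_lit 714046213) (nat_lit 76) (nat_lit 8118464440) (nat_lit 125) (nat_lit 5) (nat_lit 130) (nat_lit 5) (nat_lit 126) (nat_lit 4) (nat_lit 607) (nat_lit 479) (nat_lit 474)))) (XT.nd (nat_lit 156) (nat_lit 608) (nat_lit 0) (XT.nd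 (nat_lit 78) (nat_lit 380) (nat_lit 0) (XT.lf (nat_lit 0) (nat_lit 6141025959) (nat_lit 380) (nat_lit 2259654265) (nat_lit 0) (nat_lit 1953632227) (nat_lit 121) (nat_lit 5) (nat_lit 126) (nat_lit 4) (nat_lit 121) (nat_lit 4) (nat_lit 608) (nat_lit 479) (nat_lit 473)) (XT.lf (nat_lit 0) (nat_lit 484908836) (nat_lit 380) (nat_lit 3858671992) (nat_lit 76) (nat_lit 6108785465) (nat_lit 116) (nat_lit 5) (nat_lit 121) (nat_lit 5) (nat_lit 117) (nat_lit 4) (nat_lit 609) (nat_lit 479) (nat_lit 472))) (XT.nd (nat_lit 78) (nat_lit 304) (nat_lit 0) (XT.lf (nat_lit 0) (nat_lit 5028034127) (nat_lit 304) (nat_lit 172092313) (nat_lit 380) (nat_lit 5352113420) (nat_lit 112) (nat_lit 5) (nat_lit 116) (nat_lit 5) (nat_lit 117) (nat_lit 4) (nat_lit 610) (nat_lit 479) (nat_lit 471)) (XT.lf (nat_lit 0) (nat_lit 3396142750) (nat_lit 304) (nat_lit 6619973028) (nat_lit 304) (nat_lit 637870806) (nat_lit 108) (nat_lit 4) (nat_lit 112) (nat_lit 5) (nat_lit 112) (nat_lit 4) (nat_lit 611) (nat_lit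 479) (nat_lit 470))))))) (XT.nd (nat_lit 936) (nat_lit 2280) (nat_lit 0) (XT.nd (nat_lit 468) (nat_lit 1368) (nat_lit 0) (XT.nd (nat_lit 234) (nat_lit 836) (nat_lit 0) (XT.nd (nat_lit 78) (nat_lit 380) (nat_lit 0) (XT.lf (nat_lit 0) (nat_lit 1693428437) (nat_lit 228) (nat_lit 2403979395) (nat_lit 304) (nat_lit 6660194669) (nat_lit 104) (nat_lit 5) (nat_lit 107) (nat_lit 5) (nat_lit 108) (nat_lit 4) (nat_lit 612) (nat_lit 479) (nat_lit 469)) (XT.nd (nat_lit 78) (nat_lit 380) (nat_lit 0) (XT.lf (nat_lit 0) (nat_lit 8912509723) (nat_lit 304) (nat_lit 70455452) (nat_lit 0) (nat_lit 1880372799) (nat_lit 104) (nat_lit 5) (nat_lit 108) (nat_lit 4) (nat_lit 104) (nat_lit 4) (nat_lit 613) (nat_lit 479) (nat_lit 468)) (XT.lf (nat_lit 0) (nat_lit 2823976552) (nat_lit 380) (nat_lit 1894259724) (nat_lit 76) (nat_lit 6252412701) (nat_lit 99) (nat_lit 5) (nat_lit 104) (nat_lit 5) (nat_lit 100) (nat_lit 4) (nat_lit 614) (nat_lit 479) (nat_lit 467)))) (XT.nd (nat_lit 78) (nat_lit 608)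 (nat_lit 0) (XT.lf (nat_lit 0) (nat_lit 7298510266) (nat_lit 228) (nat_lit 351316037) (nat_lit 304) (nat_lit 3430393056) (nat_lit 96) (nat_lit 5) (nat_lit 99) (nat_lit 5) (nat_lit 100) (nat_lit 4) (nat_lit 615) (nat_lit 479) (nat_lit 466)) (XT.nd (nat_lit 78) (nat_lit 228) (nat_lit 0) (XT.lf (nat_lit 0) (nat_lit 1371004844) (nat_lit 380) (nat_lit 5758701848) (nat_lit 76) (nat_lit 4061921631) (nat_lit 91) (nat_lit 5) (nat_lit 96) (nat_lit 5) (nat_lit 92) (nat_lit 4) (nat_lit 616) (nat_lit 479) (nat_lit 465)) (XT.lf (nat_lit 0) (nat_lit 3487125861) (nat_lit 228) (nat_lit 2720135101) (nat_lit 304) (nat_lit 5097859951) (nat_lit 88) (nat_lit 5) (nat_lit 91) (nat_lit 5) (nat_lit 92) (nat_lit 4) (nat_lit 617) (nat_lit 479) (nat_lit 464))))) (XT.nd (nat_lit 234) (nat_lit 836) (nat_lit 0) (XT.nd (nat_lit 78) (nat_lit 304) (nat_lit 0) (XT.lf (nat_lit 0) (nat_lit 1471288271) (nat_lit 228) (nat_lit 9663427419) (nat_lit 228) (nat_lit 286282322) (nat_lit 85) (nat_lit 4) (nat_lit 88)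 (nat_lit 5) (nat_lit 88) (nat_lit 4) (nat_lit 618) (nat_lit 479) (nat_lit 463)) (XT.nd (nat_lit 78) (nat_lit 228) (nat_lit 0) (XT.lf (nat_lit 0) (nat_lit 4566346610) (nat_lit 304) (nat_lit 646345546) (nat_lit 76) (nat_lit 6325795706) (nat_lit 84) (nat_lit 5) (nat_lit 88) (nat_lit 5) (nat_lit 85) (nat_lit 4) (nat_lit 619) (nat_lit 479) (nat_lit 462)) (XT.lf (nat_lit 0) (nat_lit 8847255926) (nat_lit 228) (nat_lit 658274388) (nat_lit 304) (nat_lit 2152896526) (nat_lit 81) (nat_lit 5) (nat_lit 84) (nat_lit 5) (nat_lit 85) (nat_lit 4) (nat_lit 620) (nat_lit 479) (nat_lit 461)))) (XT.nd (nat_lit 78) (nat_lit 532) (nat_lit 0) (XT.lf (nat_lit 0) (nat_lit 2736526465) (nat_lit 304) (nat_lit 5087886691) (nat_lit 76) (nat_lit 3955795888) (nat_lit 77) (nat_lit 5) (nat_lit 81) (nat_lit 5) (nat_lit 78) (nat_lit 4) (nat_lit 621) (nat_lit 479) (nat_lit 460)) (XT.nd (nat_lit 78) (nat_lit 304) (nat_lit 0) (XT.lf (nat_lit 0) (nat_lit 4449204153) (nat_lit 228) (nat_lit 3234228471) (nat_lit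 304) (nat_lit 4220942879) (nat_lit 74) (nat_lit 5) (nat_lit 77) (nat_lit 5) (nat_lit 78) (nat_lit 4) (nat_lit 622) (nat_lit 479) (nat_lit 459)) (XT.lf (nat_lit 0) (nat_lit 683100893) (nat_lit 304) (nat_lit 9912346828) (nat_lit 76) (nat_lit 1435610283) (nat_lit 70) (nat_lit 5) (nat_lit 74) (nat_lit 5) (nat_lit 71) (nat_lit 4) (nat_lit 623) (nat_lit 479) (nat_lit 458)))))) (XT.nd (nat_lit 468) (nat_lit 1292) (nat_lit 0) (XT.nd (nat_lit 234) (nat_lit 456) (nat_lit 0) (XT.nd (nat_lit 78) (nat_lit 532) (nat_lit 0) (XT.lf (nat_lit 0) (nat_lit 5637145255) (nat_lit 304) (nat_lit 334555432) (nat_lit 76) (nat_lit 6187850150) (nat_lit 70) (nat_lit 5) (nat_lit 74) (nat_lit 5) (nat_lit 71) (nat_lit 4) (nat_lit 624) (nat_lit 479) (nat_lit 457)) (XT.nd (nat_lit 78) (nat_lit 304) (nat_lit 0) (XT.lf (nat_lit 0) (nat_lit 9450196845) (nat_lit 228) (nat_lit 1239280743) (nat_lit 304) (nat_lit 1601155182) (nat_lit 67) (nat_lit 5) (nat_lit 70) (nat_lit 5) (nat_lit 71) (nat_lit 4) (nat_lit 625)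 (nat_lit 479) (nat_lit 456)) (XT.lf (nat_lit 0) (nat_lit 3382619656) (nat_lit 304) (nat_lit 5476179685) (nat_lit 76) (nat_lit 3564917669) (nat_lit 63) (nat_lit 5) (nat_lit 67) (nat_lit 5) (nat_lit 64) (nat_lit 4) (nat_lit 626) (nat_lit 479) (nat_lit 455)))) (XT.nd (nat_lit 78) (nat_lit 304) (nat_lit 0) (XT.lf (nat_lit 0) (nat_lit 4339804114) (nat_lit 152) (nat_lit 4098589256) (nat_lit 228) (nat_lit 4120985828) (nat_lit 61) (nat_lit 5) (nat_lit 63) (nat_lit 5) (nat_lit 64) (nat_lit 4) (nat_lit 627) (nat_lit 479) (nat_lit 454)) (XT.nd (nat_lit 78) (nat_lit 0) (nat_lit 0) (XT.lf (nat_lit 0) (nat_lit 876601947) (nat_lit 304) (nat_lit 11067157765) (nat_lit 76) (nat_lit 754064530) (nat_lit 57) (nat_lit 5) (nat_lit 61) (nat_lit 5) (nat_lit 58) (nat_lit 4) (nat_lit 628) (nat_lit 479) (nat_lit 453)) (XT.lf (nat_lit 0) (nat_lit 5940153724) (nat_lit 304) (nat_lit 1212582751) (nat_lit 76) (nat_lit 5685336079) (nat_lit 57) (nat_lit 5) (nat_lit 61) (nat_lit 5) (nat_lit 58) (nat_lit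 4) (nat_lit 629) (nat_lit 479) (nat_lit 452))))) (XT.nd (nat_lit 234) (nat_lit 684) (nat_lit 0) (XT.nd (nat_lit 78) (nat_lit 456) (nat_lit 0) (XT.lf (nat_lit 0) (nat_lit 8848089285) (nat_lit 152) (nat_lit 2254016028) (nat_lit 228) (nat_lit 1879080891) (nat_lit 55) (nat_lit 5) (nat_lit 57) (nat_lit 5) (nat_lit 58) (nat_lit 4) (nat_lit 630) (nat_lit 479) (nat_lit 451)) (XT.nd (nat_lit 78) (nat_lit 152) (nat_lit 0) (XT.lf (nat_lit 0) (nat_lit 3202182489) (nat_lit 304) (nat_lit 7195756010) (nat_lit 76) (nat_lit 2728714847) (nat_lit 51) (nat_lit 5) (nat_lit 55) (nat_lit 5) (nat_lit 52) (nat_lit 4) (nat_lit 631) (nat_lit 479) (nat_lit 450)) (XT.lf (nat_lit 0) (nat_lit 2880619017) (nat_lit 152) (nat_lit 5480824886) (nat_lit 228) (nat_lit 4913309617) (nat_lit 49) (nat_lit 5) (nat_lit 51) (nat_lit 5) (nat_lit 52) (nat_lit 4) (nat_lit 632) (nat_lit 479) (nat_lit 449)))) (XT.nd (nat_lit 156) (nat_lit 380) (nat_lit 0) (XT.nd (nat_lit 78) (nat_lit 228) (nat_lit 0) (XT.lf (nat_lit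 0) (nat_lit 184133107) (nat_lit 228) (nat_lit 277814351) (nat_lit 76) (nat_lit 12964072067) (nat_lit 48) (nat_lit 5) (nat_lit 51) (nat_lit 5) (nat_lit 49) (nat_lit 5) (nat_lit 633) (nat_lit 479) (nat_lit 448)) (XT.lf (nat_lit 0) (nat_lit 5354755734) (nat_lit 304) (nat_lit 3575533402) (nat_lit 76) (nat_lit 4648634385) (nat_lit 45) (nat_lit 5) (nat_lit 49) (nat_lit 5) (nat_lit 46) (nat_lit 4) (nat_lit 634) (nat_lit 479) (nat_lit 447))) (XT.nd (nat_lit 78) (nat_lit 228) (nat_lit 0) (XT.lf (nat_lit 0) (nat_lit 6738958027) (nat_lit 152) (nat_lit 3879919375) (nat_lit 228) (nat_lit 3116209032) (nat_lit 43) (nat_lit 5) (nat_lit 45) (nat_lit 5) (nat_lit 46) (nat_lit 4) (nat_lit 635) (nat_lit 479) (nat_lit 446)) (XT.lf (nat_lit 0) (nat_lit 2062098357) (nat_lit 228) (nat_lit 10563927092) (nat_lit 76) (nat_lit 1268164690) (nat_lit 40) (nat_lit 5) (nat_lit 43) (nat_lit 5) (nat_lit 41) (nat_lit 4) (nat_lit 636) (nat_lit 479) (nat_lit 445))))))))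
noncomputable def xc12 : XT := (XT.nd (nat_lit 79248) (nat_lit 0) (nat_lit 1520) (XT.nd (nat_lit 936) (nat_lit 76) (nat_lit 0) (XT.nd (nat_lit 468) (nat_lit 684) (nat_lit 0) (XT.nd (nat_lit 234) (nat_lit 380) (nat_lit 0) (XT.nd (nat_lit 78) (nat_lit 380) (nat_lit 0) (XT.lf (nat_lit 0) (nat_lit 7316878938) (nat_lit 228) (nat_lit 249903502) (nat_lit 76) (nat_lit 6488991273) (nat_lit 40) (nat_lit 5) (nat_lit 43) (nat_lit 5) (nat_lit 41) (nat_lit 4) (nat_lit 637) (nat_lit 479) (nat_lit 444)) (XT.nd (nat_lit 78) (nat_lit 228) (nat_lit 0) (XT.lf (nat_lit 0) (nat_lit 10301844094) (nat_lit 152) (nat_lit 2384582374) (nat_lit 228) (nat_lit 1533971433) (nat_lit 38) (nat_lit 5) (nat_lit 40) (nat_lit 5) (nat_lit 41) (nat_lit 4) (nat_lit 638) (nat_lit 479) (nat_lit 443)) (XT.lf (nat_lit 0) (nat_lit 3732182951) (nat_lit 228) (nat_lit 7768536127) (nat_lit 76) (nat_lit 2886974710) (nat_lit 35) (nat_lit 5) (nat_lit 38) (nat_lit 5) (nat_lit 36) (nat_lit 4) (nat_lit 639) (nat_lit 479) (nat_lit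 442)))) (XT.nd (nat_lit 78) (nat_lit 228) (nat_lit 0) (XT.lf (nat_lit 0) (nat_lit 2769225780) (nat_lit 152) (nat_lit 6317165339) (nat_lit 228) (nat_lit 5471678505) (nat_lit 33) (nat_lit 5) (nat_lit 35) (nat_lit 5) (nat_lit 36) (nat_lit 4) (nat_lit 640) (nat_lit 479) (nat_lit 441)) (XT.nd (nat_lit 78) (nat_lit 228) (nat_lit 0) (XT.lf (nat_lit 0) (nat_lit 13519832033) (nat_lit 152) (nat_lit 1023439774) (nat_lit 228) (nat_lit 188671593) (nat_lit 33) (nat_lit 5) (nat_lit 35) (nat_lit 5) (nat_lit 36) (nat_lit 4) (nat_lit 641) (nat_lit 479) (nat_lit 440)) (XT.lf (nat_lit 0) (nat_lit 5166850017) (nat_lit 228) (nat_lit 5371326377) (nat_lit 76) (nat_lit 4369744055) (nat_lit 30) (nat_lit 5) (nat_lit 33) (nat_lit 5) (nat_lit 31) (nat_lit 4) (nat_lit 642) (nat_lit 479) (nat_lit 439))))) (XT.nd (nat_lit 234) (nat_lit 304) (nat_lit 0) (XT.nd (nat_lit 78) (nat_lit 228) (nat_lit 0) (XT.lf (nat_lit 0) (nat_lit 5389983175) (nat_lit 152) (nat_lit 5231271336) (nat_lit 228) (nat_lit 4466253675)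 (nat_lit 28) (nat_lit 5) (nat_lit 30) (nat_lit 5) (nat_lit 31) (nat_lit 4) (nat_lit 643) (nat_lit 479) (nat_lit 438)) (XT.nd (nat_lit 78) (nat_lit 0) (nat_lit 0) (XT.lf (nat_lit 0) (nat_lit 890939679) (nat_lit 228) (nat_lit 14196877669) (nat_lit 76) (nat_lit 182976254) (nat_lit 25) (nat_lit 5) (nat_lit 28) (nat_lit 5) (nat_lit 26) (nat_lit 4) (nat_lit 644) (nat_lit 479) (nat_lit 437)) (XT.lf (nat_lit 0) (nat_lit 6340211855) (nat_lit 228) (nat_lit 3431136031) (nat_lit 76) (nat_lit 5684913584) (nat_lit 25) (nat_lit 5) (nat_lit 28) (nat_lit 5) (nat_lit 26) (nat_lit 4) (nat_lit 645) (nat_lit 479) (nat_lit 436)))) (XT.nd (nat_lit 78) (nat_lit 228) (nat_lit 0) (XT.lf (nat_lit 0) (nat_lit 7548649755) (nat_lit 76) (nat_lit 4344449724) (nat_lit 152) (nat_lit 3752448523) (nat_lit 24) (nat_lit 5) (nat_lit 25) (nat_lit 5) (nat_lit 26) (nat_lit 4) (nat_lit 646) (nat_lit 479) (nat_lit 435)) (XT.nd (nat_lit 78) (nat_lit 0) (nat_lit 0) (XT.lf (nat_lit 0) (nat_lit 1691244443) (nat_lit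 228) (nat_lit 12963892520) (nat_lit 76) (nat_lit 1183354844) (nat_lit 21) (nat_lit 5) (nat_lit 24) (nat_lit 5) (nat_lit 22) (nat_lit 4) (nat_lit 647) (nat_lit 479) (nat_lit 434)) (XT.lf (nat_lit 0) (nat_lit 7222878665) (nat_lit 228) (nat_lit 2013366275) (nat_lit 76) (nat_lit 6797969017) (nat_lit 21) (nat_lit 5) (nat_lit 24) (nat_lit 5) (nat_lit 22) (nat_lit 4) (nat_lit 648) (nat_lit 479) (nat_lit 433)))))) (XT.nd (nat_lit 77766) (nat_lit 0) (nat_lit 6688) (XT.nd (nat_lit 77532) (nat_lit 0) (nat_lit 8740) (XT.nd (nat_lit 77376) (nat_lit 0) (nat_lit 9880) (XT.lf (nat_lit 0) (nat_lit 9178052935) (nat_lit 76) (nat_lit 3693545628) (nat_lit 152) (nat_lit 3362124689) (nat_lit 20) (nat_lit 5) (nat_lit 21) (nat_lit 5) (nat_lit 22) (nat_lit 4) (nat_lit 649) (nat_lit 479) (nat_lit 432)) (XT.nd (nat_lit 78) (nat_lit 456) (nat_lit 0) (XT.lf (nat_lit 0) (nat_lit 4386182501) (nat_lit 380) (nat_lit 215271458) (nat_lit 380) (nat_lit 215271458) (nat_lit 156) (nat_lit 4) (nat_lit 161) (nat_lit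 5) (nat_lit 161) (nat_lit 4) (nat_lit 600) (nat_lit 480) (nat_lit 480)) (XT.lf (nat_lit 0) (nat_lit 4147071503) (nat_lit 456) (nat_lit 2217065653) (nat_lit 0) (nat_lit 3353757114) (nat_lit 150) (nat_lit 5) (nat_lit 156) (nat_lit 4) (nat_lit 150) (nat_lit 4) (nat_lit 601) (nat_lit 480) (nat_lit 479)))) (XT.nd (nat_lit 78) (nat_lit 760) (nat_lit 0) (XT.lf (nat_lit 0) (nat_lit 6202691451) (nat_lit 380) (nat_lit 2586392978) (nat_lit 380) (nat_lit 1015319383) (nat_lit 145) (nat_lit 4) (nat_lit 150) (nat_lit 5) (nat_lit 150) (nat_lit 4) (nat_lit 602) (nat_lit 480) (nat_lit 478)) (XT.nd (nat_lit 78) (nat_lit 380) (nat_lit 0) (XT.lf (nat_lit 0) (nat_lit 3568473742) (nat_lit 380) (nat_lit 5043360660) (nat_lit 0) (nat_lit 1280647644) (nat_lit 140) (nat_lit 5) (nat_lit 145) (nat_lit 4) (nat_lit 140) (nat_lit 4) (nat_lit 603) (nat_lit 480) (nat_lit 477)) (XT.lf (nat_lit 0) (nat_lit 3445864149) (nat_lit 380) (nat_lit 4778586693) (nat_lit 380) (nat_lit 1757860725) (nat_lit 135) (nat_lit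 4) (nat_lit 140) (nat_lit 5) (nat_lit 140) (nat_lit 4) (nat_lit 604) (nat_lit 480) (nat_lit 476))))) (XT.nd (nat_lit 234) (nat_lit 1292) (nat_lit 0) (XT.nd (nat_lit 78) (nat_lit 380) (nat_lit 0) (XT.lf (nat_lit 0) (nat_lit 1995629360) (nat_lit 304) (nat_lit 843422427) (nat_lit 380) (nat_lit 7234965727) (nat_lit 130) (nat_lit 5) (nat_lit 134) (nat_lit 5) (nat_lit 135) (nat_lit 4) (nat_lit 605) (nat_lit 480) (nat_lit 475)) (XT.nd (nat_lit 78) (nat_lit 76) (nat_lit 0) (XT.lf (nat_lit 0) (nat_lit 482229565) (nat_lit 304) (nat_lit 7020845761) (nat_lit 304) (nat_lit 2664281322) (nat_lit 126) (nat_lit 4) (nat_lit 130) (nat_lit 5) (nat_lit 130) (nat_lit 4) (nat_lit 606) (nat_lit 480) (nat_lit 474)) (XT.lf (nat_lit 0) (nat_lit 1962764956) (nat_lit 380) (nat_lit 1068865418) (nat_lit 76) (nat_lit 7230855213) (nat_lit 125) (nat_lit 5) (nat_lit 130) (nat_lit 5) (nat_lit 126) (nat_lit 4) (nat_lit 607) (nat_lit 480) (nat_lit 473)))) (XT.nd (nat_lit 156) (nat_lit 608) (nat_lit 0) (XT.nd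 (nat_lit 78) (nat_lit 380) (nat_lit 0) (XT.lf (nat_lit 0) (nat_lit 6635916867) (nat_lit 380) (nat_lit 2673297414) (nat_lit 0) (nat_lit 1050171157) (nat_lit 121) (nat_lit 5) (nat_lit 126) (nat_lit 4) (nat_lit 121) (nat_lit 4) (nat_lit 608) (nat_lit 480) (nat_lit 472)) (XT.lf (nat_lit 0) (nat_lit 931658555) (nat_lit 380) (nat_lit 4341828870) (nat_lit 76) (nat_lit 5184623674) (nat_lit 116) (nat_lit 5) (nat_lit 121) (nat_lit 5) (nat_lit 117) (nat_lit 4) (nat_lit 609) (nat_lit 480) (nat_lit 471))) (XT.nd (nat_lit 78) (nat_lit 304) (nat_lit 0) (XT.lf (nat_lit 0) (nat_lit 4483095960) (nat_lit 304) (nat_lit 1127002106) (nat_lit 380) (nat_lit 4948624653) (nat_lit 112) (nat_lit 5) (nat_lit 116) (nat_lit 5) (nat_lit 117) (nat_lit 4) (nat_lit 610) (nat_lit 480) (nat_lit 470)) (XT.lf (nat_lit 0) (nat_lit 2788150071) (nat_lit 304) (nat_lit 7594710799) (nat_lit 304) (nat_lit 278475544) (nat_lit 108) (nat_lit 4) (nat_lit 112) (nat_lit 5) (nat_lit 112) (nat_lit 4) (nat_lit 611) (nat_lit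 480) (nat_lit 469))))))) (XT.nd (nat_lit 936) (nat_lit 2280) (nat_lit 0) (XT.nd (nat_lit 468) (nat_lit 1368) (nat_lit 0) (XT.nd (nat_lit 234) (nat_lit 836) (nat_lit 0) (XT.nd (nat_lit 78) (nat_lit 380) (nat_lit 0) (XT.lf (nat_lit 0) (nat_lit 1011936543) (nat_lit 228) (nat_lit 3402724879) (nat_lit 304) (nat_lit 6350995149) (nat_lit 104) (nat_lit 5) (nat_lit 107) (nat_lit 5) (nat_lit 108) (nat_lit 4) (nat_lit 612) (nat_lit 480) (nat_lit 468)) (XT.nd (nat_lit 78) (nat_lit 380) (nat_lit 0) (XT.lf (nat_lit 0) (nat_lit 9190426937) (nat_lit 304) (nat_lit 808548844) (nat_lit 0) (nat_lit 873205292) (nat_lit 104) (nat_lit 5) (nat_lit 108) (nat_lit 4) (nat_lit 104) (nat_lit 4) (nat_lit 613) (nat_lit 480) (nat_lit 467)) (XT.lf (nat_lit 0) (nat_lit 3051853146) (nat_lit 380) (nat_lit 2707924795) (nat_lit 76) (nat_lit 5220434777) (nat_lit 99) (nat_lit 5) (nat_lit 104) (nat_lit 5) (nat_lit 100) (nat_lit 4) (nat_lit 614) (nat_lit 480) (nat_lit 466)))) (XT.nd (nat_lit 78) (nat_lit 608)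 (nat_lit 0) (XT.lf (nat_lit 0) (nat_lit 6419286825) (nat_lit 228) (nat_lit 1420569796) (nat_lit 304) (nat_lit 3250685573) (nat_lit 96) (nat_lit 5) (nat_lit 99) (nat_lit 5) (nat_lit 100) (nat_lit 4) (nat_lit 615) (nat_lit 480) (nat_lit 465)) (XT.nd (nat_lit 78) (nat_lit 228) (nat_lit 0) (XT.lf (nat_lit 0) (nat_lit 1502951614) (nat_lit 380) (nat_lit 6720019497) (nat_lit 76) (nat_lit 2979866872) (nat_lit 91) (nat_lit 5) (nat_lit 96) (nat_lit 5) (nat_lit 92) (nat_lit 4) (nat_lit 616) (nat_lit 480) (nat_lit 464)) (XT.lf (nat_lit 0) (nat_lit 2458072610) (nat_lit 228) (nat_lit 3842521985) (nat_lit 304) (nat_lit 5016510284) (nat_lit 88) (nat_lit 5) (nat_lit 91) (nat_lit 5) (nat_lit 92) (nat_lit 4) (nat_lit 617) (nat_lit 480) (nat_lit 463))))) (XT.nd (nat_lit 234) (nat_lit 836) (nat_lit 0) (XT.nd (nat_lit 78) (nat_lit 304) (nat_lit 0) (XT.lf (nat_lit 0) (nat_lit 368704403) (nat_lit 228) (nat_lit 10813099056) (nat_lit 228) (nat_lit 252105440) (nat_lit 85) (nat_lit 4) (nat_lit 88)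 (nat_lit 5) (nat_lit 88) (nat_lit 4) (nat_lit 618) (nat_lit 480) (nat_lit 462)) (XT.nd (nat_lit 78) (nat_lit 228) (nat_lit 0) (XT.lf (nat_lit 0) (nat_lit 4568337472) (nat_lit 304) (nat_lit 1816501531) (nat_lit 76) (nat_lit 5167191987) (nat_lit 84) (nat_lit 5) (nat_lit 88) (nat_lit 5) (nat_lit 85) (nat_lit 4) (nat_lit 619) (nat_lit 480) (nat_lit 461)) (XT.lf (nat_lit 0) (nat_lit 7607468006) (nat_lit 228) (nat_lit 1860888170) (nat_lit 304) (nat_lit 2204398980) (nat_lit 81) (nat_lit 5) (nat_lit 84) (nat_lit 5) (nat_lit 85) (nat_lit 4) (nat_lit 620) (nat_lit 480) (nat_lit 460)))) (XT.nd (nat_lit 78) (nat_lit 532) (nat_lit 0) (XT.lf (nat_lit 0) (nat_lit 2638030984) (nat_lit 304) (nat_lit 6419593354) (nat_lit 76) (nat_lit 2737874894) (nat_lit 77) (nat_lit 5) (nat_lit 81) (nat_lit 5) (nat_lit 78) (nat_lit 4) (nat_lit 621) (nat_lit 480) (nat_lit 459)) (XT.nd (nat_lit 78) (nat_lit 304) (nat_lit 0) (XT.lf (nat_lit 0) (nat_lit 3045531455) (nat_lit 228) (nat_lit 4499355917) (nat_lit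 304) (nat_lit 4375581093) (nat_lit 74) (nat_lit 5) (nat_lit 77) (nat_lit 5) (nat_lit 78) (nat_lit 4) (nat_lit 622) (nat_lit 480) (nat_lit 458)) (XT.lf (nat_lit 0) (nat_lit 481491715) (nat_lit 304) (nat_lit 11412785576) (nat_lit 76) (nat_lit 153875446) (nat_lit 70) (nat_lit 5) (nat_lit 74) (nat_lit 5) (nat_lit 71) (nat_lit 4) (nat_lit 623) (nat_lit 480) (nat_lit 457)))))) (XT.nd (nat_lit 468) (nat_lit 1292) (nat_lit 0) (XT.nd (nat_lit 234) (nat_lit 456) (nat_lit 0) (XT.nd (nat_lit 78) (nat_lit 532) (nat_lit 0) (XT.lf (nat_lit 0) (nat_lit 5404768819) (nat_lit 304) (nat_lit 1888724862) (nat_lit 76) (nat_lit 4883768910) (nat_lit 70) (nat_lit 5) (nat_lit 74) (nat_lit 5) (nat_lit 71) (nat_lit 4) (nat_lit 624) (nat_lit 480) (nat_lit 456)) (XT.nd (nat_lit 78) (nat_lit 304) (nat_lit 0) (XT.lf (nat_lit 0) (nat_lit 7821996131) (nat_lit 228) (nat_lit 2594369682) (nat_lit 304) (nat_lit 1892795060) (nat_lit 67) (nat_lit 5) (nat_lit 70) (nat_lit 5) (nat_lit 71) (nat_lit 4) (nat_lit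 625) (nat_lit 480) (nat_lit 455)) (XT.lf (nat_lit 0) (nat_lit 3044492998) (nat_lit 304) (nat_lit 7206668747) (nat_lit 76) (nat_lit 2192129053) (nat_lit 63) (nat_lit 5) (nat_lit 67) (nat_lit 5) (nat_lit 64) (nat_lit 4) (nat_lit 626) (nat_lit 480) (nat_lit 454)))) (XT.nd (nat_lit 78) (nat_lit 304) (nat_lit 0) (XT.lf (nat_lit 0) (nat_lit 2532777625) (nat_lit 152) (nat_lit 5525748765) (nat_lit 228) (nat_lit 4521262950) (nat_lit 61) (nat_lit 5) (nat_lit 63) (nat_lit 5) (nat_lit 64) (nat_lit 4) (nat_lit 627) (nat_lit 480) (nat_lit 453)) (XT.nd (nat_lit 78) (nat_lit 228) (nat_lit 0) (XT.lf (nat_lit 0) (nat_lit 436034454) (nat_lit 228) (nat_lit 263453926) (nat_lit 76) (nat_lit 12019710272) (nat_lit 60) (nat_lit 5) (nat_lit 63) (nat_lit 5) (nat_lit 61) (nat_lit 5) (nat_lit 628) (nat_lit 480) (nat_lit 452)) (XT.lf (nat_lit 0) (nat_lit 5463439125) (nat_lit 304) (nat_lit 3180049857) (nat_lit 76) (nat_lit 4216682383) (nat_lit 57) (nat_lit 5) (nat_lit 61) (nat_lit 5) (nat_lit 58) (nat_lit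 4) (nat_lit 629) (nat_lit 480) (nat_lit 451))))) (XT.nd (nat_lit 234) (nat_lit 684) (nat_lit 0) (XT.nd (nat_lit 78) (nat_lit 456) (nat_lit 0) (XT.lf (nat_lit 0) (nat_lit 6801834706) (nat_lit 152) (nat_lit 3780995035) (nat_lit 228) (nat_lit 2421307923) (nat_lit 55) (nat_lit 5) (nat_lit 57) (nat_lit 5) (nat_lit 58) (nat_lit 4) (nat_lit 630) (nat_lit 480) (nat_lit 450)) (XT.nd (nat_lit 78) (nat_lit 152) (nat_lit 0) (XT.lf (nat_lit 0) (nat_lit 2613727102) (nat_lit 304) (nat_lit 9355291901) (nat_lit 76) (nat_lit 1181724382) (nat_lit 51) (nat_lit 5) (nat_lit 55) (nat_lit 5) (nat_lit 52) (nat_lit 4) (nat_lit 631) (nat_lit 480) (nat_lit 449)) (XT.lf (nat_lit 0) (nat_lit 639601304) (nat_lit 152) (nat_lit 7089697580) (nat_lit 228) (nat_lit 5570419817) (nat_lit 49) (nat_lit 5) (nat_lit 51) (nat_lit 5) (nat_lit 52) (nat_lit 4) (nat_lit 632) (nat_lit 480) (nat_lit 448)))) (XT.nd (nat_lit 156) (nat_lit 380) (nat_lit 0) (XT.nd (nat_lit 78) (nat_lit 304) (nat_lit 0) (XT.lf (nat_lit 0)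 (nat_lit 10856675320) (nat_lit 152) (nat_lit 2094899476) (nat_lit 228) (nat_lit 500013541) (nat_lit 49) (nat_lit 5) (nat_lit 51) (nat_lit 5) (nat_lit 52) (nat_lit 4) (nat_lit 633) (nat_lit 480) (nat_lit 447)) (XT.lf (nat_lit 0) (nat_lit 4622208196) (nat_lit 304) (nat_lit 5987571594) (nat_lit 76) (nat_lit 2995877915) (nat_lit 45) (nat_lit 5) (nat_lit 49) (nat_lit 5) (nat_lit 46) (nat_lit 4) (nat_lit 634) (nat_lit 480) (nat_lit 446))) (XT.nd (nat_lit 78) (nat_lit 228) (nat_lit 0) (XT.lf (nat_lit 0) (nat_lit 4242986293) (nat_lit 152) (nat_lit 5598695493) (nat_lit 228) (nat_lit 3921033038) (nat_lit 43) (nat_lit 5) (nat_lit 45) (nat_lit 5) (nat_lit 46) (nat_lit 4) (nat_lit 635) (nat_lit 480) (nat_lit 445)) (XT.lf (nat_lit 0) (nat_lit 735009346) (nat_lit 152) (nat_lit 479168703) (nat_lit 228) (nat_lit 12708819221) (nat_lit 40) (nat_lit 5) (nat_lit 42) (nat_lit 5) (nat_lit 43) (nat_lit 5) (nat_lit 636) (nat_lit 480) (nat_lit 444))))))))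
noncomputable def xc13 : XT := (XT.nd (nat_lit 79170) (nat_lit 0) (nat_lit 1672) (XT.nd (nat_lit 78156) (nat_lit 0) (nat_lit 6916) (XT.nd (nat_lit 468) (nat_lit 684) (nat_lit 0) (XT.nd (nat_lit 234) (nat_lit 380) (nat_lit 0) (XT.nd (nat_lit 78) (nat_lit 380) (nat_lit 0) (XT.lf (nat_lit 0) (nat_lit 6437523258) (nat_lit 228) (nat_lit 2922173552) (nat_lit 76) (nat_lit 4725513913) (nat_lit 40) (nat_lit 5) (nat_lit 43) (nat_lit 5) (nat_lit 41) (nat_lit 4) (nat_lit 637) (nat_lit 480) (nat_lit 443)) (XT.nd (nat_lit 78) (nat_lit 228) (nat_lit 0) (XT.lf (nat_lit 0) (nat_lit 7543078316) (nat_lit 152) (nat_lit 4218311823) (nat_lit 228) (nat_lit 2489359537) (nat_lit 38) (nat_lit 5) (nat_lit 40) (nat_lit 5) (nat_lit 41) (nat_lit 4) (nat_lit 638) (nat_lit 480) (nat_lit 442)) (XT.lf (nat_lit 0) (nat_lit 2730735340) (nat_lit 228) (nat_lit 10658643171) (nat_lit 76) (nat_lit 1029964010) (nat_lit 35) (nat_lit 5) (nat_lit 38) (nat_lit 5) (nat_lit 36) (nat_lit 4) (nat_lit 639) (nat_lit 480)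 (nat_lit 441)))) (XT.nd (nat_lit 78) (nat_lit 380) (nat_lit 0) (XT.lf (nat_lit 0) (nat_lit 8039304220) (nat_lit 228) (nat_lit 207626769) (nat_lit 76) (nat_lit 6343701238) (nat_lit 35) (nat_lit 5) (nat_lit 38) (nat_lit 5) (nat_lit 36) (nat_lit 4) (nat_lit 640) (nat_lit 480) (nat_lit 440)) (XT.nd (nat_lit 78) (nat_lit 228) (nat_lit 0) (XT.lf (nat_lit 0) (nat_lit 10490125376) (nat_lit 152) (nat_lit 2977251026) (nat_lit 228) (nat_lit 1297706832) (nat_lit 33) (nat_lit 5) (nat_lit 35) (nat_lit 5) (nat_lit 36) (nat_lit 4) (nat_lit 641) (nat_lit 480) (nat_lit 439)) (XT.lf (nat_lit 0) (nat_lit 4011834119) (nat_lit 228) (nat_lit 8538932563) (nat_lit 76) (nat_lit 2391649153) (nat_lit 30) (nat_lit 5) (nat_lit 33) (nat_lit 5) (nat_lit 31) (nat_lit 4) (nat_lit 642) (nat_lit 480) (nat_lit 438))))) (XT.nd (nat_lit 234) (nat_lit 304) (nat_lit 0) (XT.nd (nat_lit 78) (nat_lit 228) (nat_lit 0) (XT.lf (nat_lit 0) (nat_lit 2130080912) (nat_lit 152) (nat_lit 7287975918) (nat_lit 228) (nat_lit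 5704911380) (nat_lit 28) (nat_lit 5) (nat_lit 30) (nat_lit 5) (nat_lit 31) (nat_lit 4) (nat_lit 643) (nat_lit 480) (nat_lit 437)) (XT.nd (nat_lit 78) (nat_lit 228) (nat_lit 0) (XT.lf (nat_lit 0) (nat_lit 13028805937) (nat_lit 152) (nat_lit 1906750371) (nat_lit 228) (nat_lit 371514262) (nat_lit 28) (nat_lit 5) (nat_lit 30) (nat_lit 5) (nat_lit 31) (nat_lit 4) (nat_lit 644) (nat_lit 480) (nat_lit 436)) (XT.lf (nat_lit 0) (nat_lit 5028241450) (nat_lit 228) (nat_lit 6884918900) (nat_lit 76) (nat_lit 3580515051) (nat_lit 25) (nat_lit 5) (nat_lit 28) (nat_lit 5) (nat_lit 26) (nat_lit 4) (nat_lit 645) (nat_lit 480) (nat_lit 435)))) (XT.nd (nat_lit 78) (nat_lit 228) (nat_lit 0) (XT.lf (nat_lit 0) (nat_lit 3999654615) (nat_lit 76) (nat_lit 6532038688) (nat_lit 152) (nat_lit 5152258270) (nat_lit 24) (nat_lit 5) (nat_lit 25) (nat_lit 5) (nat_lit 26) (nat_lit 4) (nat_lit 646) (nat_lit 480) (nat_lit 434)) (XT.nd (nat_lit 78) (nat_lit 152) (nat_lit 0) (XT.lf (nat_lit 0) (nat_lit 256928803)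 (nat_lit 152) (nat_lit 782272670) (nat_lit 76) (nat_lit 14838933858) (nat_lit 23) (nat_lit 5) (nat_lit 25) (nat_lit 5) (nat_lit 24) (nat_lit 5) (nat_lit 647) (nat_lit 480) (nat_lit 433)) (XT.lf (nat_lit 0) (nat_lit 5750329773) (nat_lit 228) (nat_lit 5762356528) (nat_lit 76) (nat_lit 4561936718) (nat_lit 21) (nat_lit 5) (nat_lit 24) (nat_lit 5) (nat_lit 22) (nat_lit 4) (nat_lit 648) (nat_lit 480) (nat_lit 432)))))) (XT.nd (nat_lit 468) (nat_lit 2128) (nat_lit 0) (XT.nd (nat_lit 234) (nat_lit 1140) (nat_lit 0) (XT.nd (nat_lit 78) (nat_lit 456) (nat_lit 0) (XT.lf (nat_lit 0) (nat_lit 442354714) (nat_lit 456) (nat_lit 3849356614) (nat_lit 0) (nat_lit 442354714) (nat_lit 161) (nat_lit 5) (nat_lit 167) (nat_lit 4) (nat_lit 161) (nat_lit 4) (nat_lit 598) (nat_lit 481) (nat_lit 481)) (XT.nd (nat_lit 78) (nat_lit 76) (nat_lit 0) (XT.lf (nat_lit 0) (nat_lit 430942354) (nat_lit 380) (nat_lit 4972276730) (nat_lit 380) (nat_lit 4146912439) (nat_lit 156) (nat_lit 4) (nat_lit 161) (nat_lit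 5) (nat_lit 161) (nat_lit 4) (nat_lit 599) (nat_lit 481) (nat_lit 480)) (XT.lf (nat_lit 0) (nat_lit 354616282) (nat_lit 456) (nat_lit 918220076) (nat_lit 76) (nat_lit 8361266968) (nat_lit 155) (nat_lit 5) (nat_lit 161) (nat_lit 5) (nat_lit 156) (nat_lit 4) (nat_lit 600) (nat_lit 481) (nat_lit 479)))) (XT.nd (nat_lit 78) (nat_lit 760) (nat_lit 0) (XT.lf (nat_lit 0) (nat_lit 4885918107) (nat_lit 456) (nat_lit 2327725390) (nat_lit 0) (nat_lit 2505663834) (nat_lit 150) (nat_lit 5) (nat_lit 156) (nat_lit 4) (nat_lit 150) (nat_lit 4) (nat_lit 601) (nat_lit 481) (nat_lit 478)) (XT.nd (nat_lit 78) (nat_lit 380) (nat_lit 0) (XT.lf (nat_lit 0) (nat_lit 6036139464) (nat_lit 380) (nat_lit 3456574076) (nat_lit 380) (nat_lit 313810779) (nat_lit 145) (nat_lit 4) (nat_lit 150) (nat_lit 5) (nat_lit 150) (nat_lit 4) (nat_lit 602) (nat_lit 481) (nat_lit 477)) (XT.lf (nat_lit 0) (nat_lit 4219490262) (nat_lit 380) (nat_lit 5270400104) (nat_lit 0) (nat_lit 405449904) (nat_lit 140) (nat_lit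 5) (nat_lit 145) (nat_lit 4) (nat_lit 140) (nat_lit 4) (nat_lit 603) (nat_lit 481) (nat_lit 476))))) (XT.nd (nat_lit 234) (nat_lit 1064) (nat_lit 0) (XT.nd (nat_lit 78) (nat_lit 684) (nat_lit 0) (XT.lf (nat_lit 0) (nat_lit 3161084711) (nat_lit 380) (nat_lit 5678685789) (nat_lit 380) (nat_lit 1146116147) (nat_lit 135) (nat_lit 4) (nat_lit 140) (nat_lit 5) (nat_lit 140) (nat_lit 4) (nat_lit 604) (nat_lit 481) (nat_lit 475)) (XT.nd (nat_lit 78) (nat_lit 304) (nat_lit 0) (XT.lf (nat_lit 0) (nat_lit 1644597964) (nat_lit 304) (nat_lit 1762138709) (nat_lit 380) (nat_lit 6671500020) (nat_lit 130) (nat_lit 5) (nat_lit 134) (nat_lit 5) (nat_lit 135) (nat_lit 4) (nat_lit 605) (nat_lit 481) (nat_lit 474)) (XT.lf (nat_lit 0) (nat_lit 73295572) (nat_lit 304) (nat_lit 7955268383) (nat_lit 304) (nat_lit 2143858546) (nat_lit 126) (nat_lit 4) (nat_lit 130) (nat_lit 5) (nat_lit 130) (nat_lit 4) (nat_lit 606) (nat_lit 481) (nat_lit 473)))) (XT.nd (nat_lit 156) (nat_lit 684) (nat_lit 0) (XT.nd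 (nat_lit 78) (nat_lit 304) (nat_lit 0) (XT.lf (nat_lit 0) (nat_lit 2442871268) (nat_lit 380) (nat_lit 1540619867) (nat_lit 76) (nat_lit 6284665190) (nat_lit 125) (nat_lit 5) (nat_lit 130) (nat_lit 5) (nat_lit 126) (nat_lit 4) (nat_lit 607) (nat_lit 481) (nat_lit 472)) (XT.lf (nat_lit 0) (nat_lit 7073398545) (nat_lit 380) (nat_lit 3205402346) (nat_lit 0) (nat_lit 87110368) (nat_lit 121) (nat_lit 5) (nat_lit 126) (nat_lit 4) (nat_lit 121) (nat_lit 4) (nat_lit 608) (nat_lit 481) (nat_lit 471))) (XT.nd (nat_lit 78) (nat_lit 304) (nat_lit 0) (XT.lf (nat_lit 0) (nat_lit 1320198481) (nat_lit 380) (nat_lit 4945010227) (nat_lit 76) (nat_lit 4200110019) (nat_lit 116) (nat_lit 5) (nat_lit 121) (nat_lit 5) (nat_lit 117) (nat_lit 4) (nat_lit 609) (nat_lit 481) (nat_lit 470)) (XT.lf (nat_lit 0) (nat_lit 3817623750) (nat_lit 304) (nat_lit 2144105326) (nat_lit 380) (nat_lit 4604941891) (nat_lit 112) (nat_lit 5) (nat_lit 116) (nat_lit 5) (nat_lit 117) (nat_lit 4) (nat_lit 610) (nat_lit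 481) (nat_lit 469))))))) (XT.nd (nat_lit 936) (nat_lit 2356) (nat_lit 0) (XT.nd (nat_lit 468) (nat_lit 1292) (nat_lit 0) (XT.nd (nat_lit 234) (nat_lit 988) (nat_lit 0) (XT.nd (nat_lit 78) (nat_lit 228) (nat_lit 0) (XT.lf (nat_lit 0) (nat_lit 20285126) (nat_lit 380) (nat_lit 8612261443) (nat_lit 76) (nat_lit 2037613309) (nat_lit 107) (nat_lit 5) (nat_lit 112) (nat_lit 5) (nat_lit 108) (nat_lit 4) (nat_lit 611) (nat_lit 481) (nat_lit 468)) (XT.nd (nat_lit 78) (nat_lit 0) (nat_lit 0) (XT.lf (nat_lit 0) (nat_lit 206690425) (nat_lit 228) (nat_lit 4465494906) (nat_lit 304) (nat_lit 6103012535) (nat_lit 104) (nat_lit 5) (nat_lit 107) (nat_lit 5) (nat_lit 108) (nat_lit 4) (nat_lit 612) (nat_lit 481) (nat_lit 467)) (XT.lf (nat_lit 0) (nat_lit 9210797717) (nat_lit 228) (nat_lit 199339460) (nat_lit 304) (nat_lit 1472343720) (nat_lit 104) (nat_lit 5) (nat_lit 107) (nat_lit 5) (nat_lit 108) (nat_lit 4) (nat_lit 613) (nat_lit 481) (nat_lit 466)))) (XT.nd (nat_lit 78) (nat_lit 608)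 (nat_lit 0) (XT.lf (nat_lit 0) (nat_lit 3219368968) (nat_lit 380) (nat_lit 3646998105) (nat_lit 76) (nat_lit 4124903408) (nat_lit 99) (nat_lit 5) (nat_lit 104) (nat_lit 5) (nat_lit 100) (nat_lit 4) (nat_lit 614) (nat_lit 481) (nat_lit 465)) (XT.nd (nat_lit 78) (nat_lit 380) (nat_lit 0) (XT.lf (nat_lit 0) (nat_lit 5414061970) (nat_lit 228) (nat_lit 2555276264) (nat_lit 304) (nat_lit 3133024532) (nat_lit 96) (nat_lit 5) (nat_lit 99) (nat_lit 5) (nat_lit 100) (nat_lit 4) (nat_lit 615) (nat_lit 481) (nat_lit 464)) (XT.lf (nat_lit 0) (nat_lit 1573035002) (nat_lit 380) (nat_lit 7810127053) (nat_lit 76) (nat_lit 1832403954) (nat_lit 91) (nat_lit 5) (nat_lit 96) (nat_lit 5) (nat_lit 92) (nat_lit 4) (nat_lit 616) (nat_lit 481) (nat_lit 463))))) (XT.nd (nat_lit 234) (nat_lit 760) (nat_lit 0) (XT.nd (nat_lit 78) (nat_lit 304) (nat_lit 0) (XT.lf (nat_lit 0) (nat_lit 1299595553) (nat_lit 228) (nat_lit 5032255102) (nat_lit 304) (nat_lit 4998760799) (nat_lit 88) (nat_lit 5) (nat_lit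 91) (nat_lit 5) (nat_lit 92) (nat_lit 4) (nat_lit 617) (nat_lit 481) (nat_lit 462)) (XT.nd (nat_lit 78) (nat_lit 304) (nat_lit 0) (XT.lf (nat_lit 0) (nat_lit 10590672370) (nat_lit 228) (nat_lit 584889879) (nat_lit 304) (nat_lit 272605133) (nat_lit 88) (nat_lit 5) (nat_lit 91) (nat_lit 5) (nat_lit 92) (nat_lit 4) (nat_lit 618) (nat_lit 481) (nat_lit 461)) (XT.lf (nat_lit 0) (nat_lit 4507514893) (nat_lit 304) (nat_lit 3117871860) (nat_lit 76) (nat_lit 3941719105) (nat_lit 84) (nat_lit 5) (nat_lit 88) (nat_lit 5) (nat_lit 85) (nat_lit 4) (nat_lit 619) (nat_lit 481) (nat_lit 460)))) (XT.nd (nat_lit 78) (nat_lit 532) (nat_lit 0) (XT.lf (nat_lit 0) (nat_lit 6235782387) (nat_lit 228) (nat_lit 3132339950) (nat_lit 304) (nat_lit 2320497763) (nat_lit 81) (nat_lit 5) (nat_lit 84) (nat_lit 5) (nat_lit 85) (nat_lit 4) (nat_lit 620) (nat_lit 481) (nat_lit 459)) (XT.nd (nat_lit 78) (nat_lit 228) (nat_lit 0) (XT.lf (nat_lit 0) (nat_lit 2475074476) (nat_lit 304) (nat_lit 7886118513) (nat_lit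 76) (nat_lit 1451155649) (nat_lit 77) (nat_lit 5) (nat_lit 81) (nat_lit 5) (nat_lit 78) (nat_lit 4) (nat_lit 621) (nat_lit 481) (nat_lit 458)) (XT.lf (nat_lit 0) (nat_lit 1506312680) (nat_lit 228) (nat_lit 5835294951) (nat_lit 304) (nat_lit 4596518449) (nat_lit 74) (nat_lit 5) (nat_lit 77) (nat_lit 5) (nat_lit 78) (nat_lit 4) (nat_lit 622) (nat_lit 481) (nat_lit 457)))))) (XT.nd (nat_lit 468) (nat_lit 1368) (nat_lit 0) (XT.nd (nat_lit 234) (nat_lit 456) (nat_lit 0) (XT.nd (nat_lit 78) (nat_lit 456) (nat_lit 0) (XT.lf (nat_lit 0) (nat_lit 228033304) (nat_lit 304) (nat_lit 979953722) (nat_lit 76) (nat_lit 10858562065) (nat_lit 73) (nat_lit 5) (nat_lit 77) (nat_lit 5) (nat_lit 74) (nat_lit 5) (nat_lit 623) (nat_lit 481) (nat_lit 456)) (XT.nd (nat_lit 78) (nat_lit 228) (nat_lit 0) (XT.lf (nat_lit 0) (nat_lit 5106813616) (nat_lit 304) (nat_lit 3580385500) (nat_lit 76) (nat_lit 3509351407) (nat_lit 70) (nat_lit 5) (nat_lit 74) (nat_lit 5) (nat_lit 71) (nat_lit 4) (nat_lit 624)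 (nat_lit 481) (nat_lit 455)) (XT.lf (nat_lit 0) (nat_lit 6055523635) (nat_lit 228) (nat_lit 4021845337) (nat_lit 304) (nat_lit 2251902279) (nat_lit 67) (nat_lit 5) (nat_lit 70) (nat_lit 5) (nat_lit 71) (nat_lit 4) (nat_lit 625) (nat_lit 481) (nat_lit 454)))) (XT.nd (nat_lit 78) (nat_lit 152) (nat_lit 0) (XT.lf (nat_lit 0) (nat_lit 2638987835) (nat_lit 304) (nat_lit 9078500248) (nat_lit 76) (nat_lit 746983425) (nat_lit 63) (nat_lit 5) (nat_lit 67) (nat_lit 5) (nat_lit 64) (nat_lit 4) (nat_lit 626) (nat_lit 481) (nat_lit 453)) (XT.nd (nat_lit 78) (nat_lit 0) (nat_lit 0) (XT.lf (nat_lit 0) (nat_lit 583580136) (nat_lit 152) (nat_lit 7027366091) (nat_lit 228) (nat_lit 4990866840) (nat_lit 61) (nat_lit 5) (nat_lit 63) (nat_lit 5) (nat_lit 64) (nat_lit 4) (nat_lit 627) (nat_lit 481) (nat_lit 452)) (XT.lf (nat_lit 0) (nat_lit 10458012149) (nat_lit 152) (nat_lit 2226316053) (nat_lit 228) (nat_lit 57536574) (nat_lit 61) (nat_lit 5) (nat_lit 63) (nat_lit 5) (nat_lit 64) (nat_lit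 4) (nat_lit 628) (nat_lit 481) (nat_lit 451))))) (XT.nd (nat_lit 234) (nat_lit 608) (nat_lit 0) (XT.nd (nat_lit 78) (nat_lit 456) (nat_lit 0) (XT.lf (nat_lit 0) (nat_lit 4918054067) (nat_lit 304) (nat_lit 5291806266) (nat_lit 76) (nat_lit 2674037430) (nat_lit 57) (nat_lit 5) (nat_lit 61) (nat_lit 5) (nat_lit 58) (nat_lit 4) (nat_lit 629) (nat_lit 481) (nat_lit 450)) (XT.nd (nat_lit 78) (nat_lit 304) (nat_lit 0) (XT.lf (nat_lit 0) (nat_lit 4610405469) (nat_lit 152) (nat_lit 5384109700) (nat_lit 228) (nat_lit 3034208887) (nat_lit 55) (nat_lit 5) (nat_lit 57) (nat_lit 5) (nat_lit 58) (nat_lit 4) (nat_lit 630) (nat_lit 481) (nat_lit 449)) (XT.lf (nat_lit 0) (nat_lit 1510291982) (nat_lit 228) (nat_lit 447252780) (nat_lit 304) (nat_lit 11218892344) (nat_lit 51) (nat_lit 5) (nat_lit 54) (nat_lit 5) (nat_lit 55) (nat_lit 5) (nat_lit 631) (nat_lit 481) (nat_lit 448)))) (XT.nd (nat_lit 156) (nat_lit 456) (nat_lit 0) (XT.nd (nat_lit 78) (nat_lit 152) (nat_lit 0) (XT.lf (nat_lit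 0) (nat_lit 7037491870) (nat_lit 304) (nat_lit 1727805633) (nat_lit 76) (nat_lit 4560828733) (nat_lit 51) (nat_lit 5) (nat_lit 55) (nat_lit 5) (nat_lit 52) (nat_lit 4) (nat_lit 632) (nat_lit 481) (nat_lit 447)) (XT.lf (nat_lit 0) (nat_lit 8415573646) (nat_lit 152) (nat_lit 3804489662) (nat_lit 228) (nat_lit 1258727949) (nat_lit 49) (nat_lit 5) (nat_lit 51) (nat_lit 5) (nat_lit 52) (nat_lit 4) (nat_lit 633) (nat_lit 481) (nat_lit 446))) (XT.nd (nat_lit 78) (nat_lit 152) (nat_lit 0) (XT.lf (nat_lit 0) (nat_lit 3817555708) (nat_lit 304) (nat_lit 8551271366) (nat_lit 76) (nat_lit 1265251094) (nat_lit 45) (nat_lit 5) (nat_lit 49) (nat_lit 5) (nat_lit 46) (nat_lit 4) (nat_lit 634) (nat_lit 481) (nat_lit 445)) (XT.lf (nat_lit 0) (nat_lit 1594354708) (nat_lit 152) (nat_lit 7397593040) (nat_lit 228) (nat_lit 4800090390) (nat_lit 43) (nat_lit 5) (nat_lit 45) (nat_lit 5) (nat_lit 46) (nat_lit 4) (nat_lit 635) (nat_lit 481) (nat_lit 444))))))))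
noncomputable def xc14 : XT := (XT.nd (nat_lit 79014) (nat_lit 0) (nat_lit 2280) (XT.nd (nat_lit 936) (nat_lit 228) (nat_lit 0) (XT.nd (nat_lit 468) (nat_lit 684) (nat_lit 0) (XT.nd (nat_lit 234) (nat_lit 380) (nat_lit 0) (XT.nd (nat_lit 78) (nat_lit 304) (nat_lit 0) (XT.lf (nat_lit 0) (nat_lit 314031286) (nat_lit 228) (nat_lit 1997113450) (nat_lit 76) (nat_lit 11641943538) (nat_lit 42) (nat_lit 5) (nat_lit 45) (nat_lit 5) (nat_lit 43) (nat_lit 5) (nat_lit 636) (nat_lit 481) (nat_lit 443)) (XT.nd (nat_lit 78) (nat_lit 152) (nat_lit 0) (XT.lf (nat_lit 0) (nat_lit 5484487262) (nat_lit 228) (nat_lit 5749523320) (nat_lit 76) (nat_lit 2882350081) (nat_lit 40) (nat_lit 5) (nat_lit 43) (nat_lit 5) (nat_lit 41) (nat_lit 4) (nat_lit 637) (nat_lit 481) (nat_lit 442)) (XT.lf (nat_lit 0) (nat_lit 4628171553) (nat_lit 152) (nat_lit 6134032658) (nat_lit 228) (nat_lit 3520619531) (nat_lit 38) (nat_lit 5) (nat_lit 40) (nat_lit 5) (nat_lit 41) (nat_lit 4) (nat_lit 638) (nat_lit 481) (nat_lit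 441)))) (XT.nd (nat_lit 78) (nat_lit 152) (nat_lit 0) (XT.lf (nat_lit 0) (nat_lit 738229509) (nat_lit 152) (nat_lit 921137435) (nat_lit 228) (nat_lit 12793257310) (nat_lit 35) (nat_lit 5) (nat_lit 37) (nat_lit 5) (nat_lit 38) (nat_lit 5) (nat_lit 639) (nat_lit 481) (nat_lit 440)) (XT.nd (nat_lit 78) (nat_lit 152) (nat_lit 0) (XT.lf (nat_lit 0) (nat_lit 6934837899) (nat_lit 228) (nat_lit 3306835563) (nat_lit 76) (nat_lit 4382903520) (nat_lit 35) (nat_lit 5) (nat_lit 38) (nat_lit 5) (nat_lit 36) (nat_lit 4) (nat_lit 640) (nat_lit 481) (nat_lit 439)) (XT.lf (nat_lit 0) (nat_lit 7300617122) (nat_lit 152) (nat_lit 5014998976) (nat_lit 228) (nat_lit 2484358813) (nat_lit 33) (nat_lit 5) (nat_lit 35) (nat_lit 5) (nat_lit 36) (nat_lit 4) (nat_lit 641) (nat_lit 481) (nat_lit 438))))) (XT.nd (nat_lit 234) (nat_lit 304) (nat_lit 0) (XT.nd (nat_lit 78) (nat_lit 152) (nat_lit 0) (XT.lf (nat_lit 0) (nat_lit 2779144903) (nat_lit 228) (nat_lit 11869965456) (nat_lit 76) (nat_lit 329584253)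 (nat_lit 30) (nat_lit 5) (nat_lit 33) (nat_lit 5) (nat_lit 31) (nat_lit 4) (nat_lit 642) (nat_lit 481) (nat_lit 437)) (XT.nd (nat_lit 78) (nat_lit 152) (nat_lit 0) (XT.lf (nat_lit 0) (nat_lit 8145051110) (nat_lit 228) (nat_lit 1277458839) (nat_lit 76) (nat_lit 5737544350) (nat_lit 30) (nat_lit 5) (nat_lit 33) (nat_lit 5) (nat_lit 31) (nat_lit 4) (nat_lit 643) (nat_lit 481) (nat_lit 436)) (XT.lf (nat_lit 0) (nat_lit 9556038508) (nat_lit 152) (nat_lit 4071827208) (nat_lit 228) (nat_lit 1716985601) (nat_lit 28) (nat_lit 5) (nat_lit 30) (nat_lit 5) (nat_lit 31) (nat_lit 4) (nat_lit 644) (nat_lit 481) (nat_lit 435)))) (XT.nd (nat_lit 78) (nat_lit 76) (nat_lit 0) (XT.lf (nat_lit 0) (nat_lit 3636717091) (nat_lit 228) (nat_lit 10506083880) (nat_lit 76) (nat_lit 1390104801) (nat_lit 25) (nat_lit 5) (nat_lit 28) (nat_lit 5) (nat_lit 26) (nat_lit 4) (nat_lit 645) (nat_lit 481) (nat_lit 434)) (XT.nd (nat_lit 78) (nat_lit 0) (nat_lit 0) (XT.lf (nat_lit 0) (nat_lit 282019872) (nat_lit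 76) (nat_lit 8808135899) (nat_lit 152) (nat_lit 6634027343) (nat_lit 24) (nat_lit 5) (nat_lit 25) (nat_lit 5) (nat_lit 26) (nat_lit 4) (nat_lit 646) (nat_lit 481) (nat_lit 433)) (XT.lf (nat_lit 0) (nat_lit 11332553628) (nat_lit 76) (nat_lit 3338745034) (nat_lit 152) (nat_lit 1247616430) (nat_lit 24) (nat_lit 5) (nat_lit 25) (nat_lit 5) (nat_lit 26) (nat_lit 4) (nat_lit 647) (nat_lit 481) (nat_lit 432)))))) (XT.nd (nat_lit 77532) (nat_lit 0) (nat_lit 7904) (XT.nd (nat_lit 77298) (nat_lit 0) (nat_lit 10184) (XT.nd (nat_lit 77142) (nat_lit 0) (nat_lit 11096) (XT.lf (nat_lit 0) (nat_lit 4196234790) (nat_lit 228) (nat_lit 9682884795) (nat_lit 76) (nat_lit 2237764305) (nat_lit 21) (nat_lit 5) (nat_lit 24) (nat_lit 5) (nat_lit 22) (nat_lit 4) (nat_lit 648) (nat_lit 481) (nat_lit 431)) (XT.nd (nat_lit 78) (nat_lit 456) (nat_lit 0) (XT.lf (nat_lit 0) (nat_lit 1087375713) (nat_lit 456) (nat_lit 2479188231) (nat_lit 0) (nat_lit 1087375713) (nat_lit 173) (nat_lit 5) (nat_lit 179)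 (nat_lit 4) (nat_lit 173) (nat_lit 4) (nat_lit 596) (nat_lit 482) (nat_lit 482)) (XT.lf (nat_lit 0) (nat_lit 3047216828) (nat_lit 456) (nat_lit 3599456418) (nat_lit 456) (nat_lit 2740747409) (nat_lit 167) (nat_lit 4) (nat_lit 173) (nat_lit 5) (nat_lit 173) (nat_lit 4) (nat_lit 597) (nat_lit 482) (nat_lit 481)))) (XT.nd (nat_lit 78) (nat_lit 456) (nat_lit 0) (XT.lf (nat_lit 0) (nat_lit 1691450156) (nat_lit 456) (nat_lit 7753173609) (nat_lit 0) (nat_lit 24214289) (nat_lit 161) (nat_lit 5) (nat_lit 167) (nat_lit 4) (nat_lit 161) (nat_lit 4) (nat_lit 598) (nat_lit 482) (nat_lit 480)) (XT.nd (nat_lit 78) (nat_lit 76) (nat_lit 0) (XT.lf (nat_lit 0) (nat_lit 321656134) (nat_lit 380) (nat_lit 5853152110) (nat_lit 380) (nat_lit 3376735565) (nat_lit 156) (nat_lit 4) (nat_lit 161) (nat_lit 5) (nat_lit 161) (nat_lit 4) (nat_lit 599) (nat_lit 482) (nat_lit 479)) (XT.lf (nat_lit 0) (nat_lit 1080352013) (nat_lit 456) (nat_lit 1087419867) (nat_lit 76) (nat_lit 7468333684) (nat_lit 155)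 (nat_lit 5) (nat_lit 161) (nat_lit 5) (nat_lit 156) (nat_lit 4) (nat_lit 600) (nat_lit 482) (nat_lit 478))))) (XT.nd (nat_lit 234) (nat_lit 1140) (nat_lit 0) (XT.nd (nat_lit 78) (nat_lit 760) (nat_lit 0) (XT.lf (nat_lit 0) (nat_lit 5570586668) (nat_lit 456) (nat_lit 2549088260) (nat_lit 0) (nat_lit 1602459080) (nat_lit 150) (nat_lit 5) (nat_lit 156) (nat_lit 4) (nat_lit 150) (nat_lit 4) (nat_lit 601) (nat_lit 482) (nat_lit 477)) (XT.nd (nat_lit 78) (nat_lit 304) (nat_lit 0) (XT.lf (nat_lit 0) (nat_lit 327698203) (nat_lit 456) (nat_lit 4053735084) (nat_lit 76) (nat_lit 5428583017) (nat_lit 144) (nat_lit 5) (nat_lit 150) (nat_lit 5) (nat_lit 145) (nat_lit 4) (nat_lit 602) (nat_lit 482) (nat_lit 476)) (XT.lf (nat_lit 0) (nat_lit 4285024712) (nat_lit 304) (nat_lit 533594118) (nat_lit 380) (nat_lit 5080940888) (nat_lit 140) (nat_lit 5) (nat_lit 144) (nat_lit 5) (nat_lit 145) (nat_lit 4) (nat_lit 603) (nat_lit 482) (nat_lit 475)))) (XT.nd (nat_lit 156) (nat_lit 380) (nat_lit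 0) (XT.nd (nat_lit 78) (nat_lit 380) (nat_lit 0) (XT.lf (nat_lit 0) (nat_lit 2762237160) (nat_lit 380) (nat_lit 6637423677) (nat_lit 380) (nat_lit 591232883) (nat_lit 135) (nat_lit 4) (nat_lit 140) (nat_lit 5) (nat_lit 140) (nat_lit 4) (nat_lit 604) (nat_lit 482) (nat_lit 474)) (XT.lf (nat_lit 0) (nat_lit 1177980518) (nat_lit 304) (nat_lit 2740236922) (nat_lit 380) (nat_lit 6165679526) (nat_lit 130) (nat_lit 5) (nat_lit 134) (nat_lit 5) (nat_lit 135) (nat_lit 4) (nat_lit 605) (nat_lit 482) (nat_lit 473))) (XT.nd (nat_lit 78) (nat_lit 380) (nat_lit 0) (XT.lf (nat_lit 0) (nat_lit 8500300464) (nat_lit 380) (nat_lit 446813646) (nat_lit 0) (nat_lit 1231766244) (nat_lit 130) (nat_lit 5) (nat_lit 135) (nat_lit 4) (nat_lit 130) (nat_lit 4) (nat_lit 606) (nat_lit 482) (nat_lit 472)) (XT.lf (nat_lit 0) (nat_lit 2866254340) (nat_lit 380) (nat_lit 2129494561) (nat_lit 76) (nat_lit 5279523317) (nat_lit 125) (nat_lit 5) (nat_lit 130) (nat_lit 5) (nat_lit 126) (nat_lit 4) (nat_lit 607)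 (nat_lit 482) (nat_lit 471))))))) (XT.nd (nat_lit 936) (nat_lit 2508) (nat_lit 0) (XT.nd (nat_lit 468) (nat_lit 1520) (nat_lit 0) (XT.nd (nat_lit 234) (nat_lit 608) (nat_lit 0) (XT.nd (nat_lit 78) (nat_lit 684) (nat_lit 0) (XT.lf (nat_lit 0) (nat_lit 6511434177) (nat_lit 304) (nat_lit 948365797) (nat_lit 380) (nat_lit 2913969351) (nat_lit 121) (nat_lit 5) (nat_lit 125) (nat_lit 5) (nat_lit 126) (nat_lit 4) (nat_lit 608) (nat_lit 482) (nat_lit 470)) (XT.nd (nat_lit 78) (nat_lit 304) (nat_lit 0) (XT.lf (nat_lit 0) (nat_lit 1650680983) (nat_lit 380) (nat_lit 5668452604) (nat_lit 76) (nat_lit 3154858417) (nat_lit 116) (nat_lit 5) (nat_lit 121) (nat_lit 5) (nat_lit 117) (nat_lit 4) (nat_lit 609) (nat_lit 482) (nat_lit 469)) (XT.lf (nat_lit 0) (nat_lit 3031356526) (nat_lit 304) (nat_lit 3223800839) (nat_lit 380) (nat_lit 4320930356) (nat_lit 112) (nat_lit 5) (nat_lit 116) (nat_lit 5) (nat_lit 117) (nat_lit 4) (nat_lit 610) (nat_lit 482) (nat_lit 468)))) (XT.nd (nat_lit 78)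 (nat_lit 228) (nat_lit 0) (XT.lf (nat_lit 0) (nat_lit 255935955) (nat_lit 380) (nat_lit 9476642340) (nat_lit 76) (nat_lit 947856476) (nat_lit 107) (nat_lit 5) (nat_lit 112) (nat_lit 5) (nat_lit 108) (nat_lit 4) (nat_lit 611) (nat_lit 482) (nat_lit 467)) (XT.nd (nat_lit 78) (nat_lit 228) (nat_lit 0) (XT.lf (nat_lit 0) (nat_lit 4874772313) (nat_lit 380) (nat_lit 713148334) (nat_lit 76) (nat_lit 5198215645) (nat_lit 107) (nat_lit 5) (nat_lit 112) (nat_lit 5) (nat_lit 108) (nat_lit 4) (nat_lit 612) (nat_lit 482) (nat_lit 466)) (XT.lf (nat_lit 0) (nat_lit 8229081530) (nat_lit 228) (nat_lit 1347510768) (nat_lit 304) (nat_lit 1317551872) (nat_lit 104) (nat_lit 5) (nat_lit 107) (nat_lit 5) (nat_lit 108) (nat_lit 4) (nat_lit 613) (nat_lit 482) (nat_lit 465))))) (XT.nd (nat_lit 234) (nat_lit 532) (nat_lit 0) (XT.nd (nat_lit 78) (nat_lit 608) (nat_lit 0) (XT.lf (nat_lit 0) (nat_lit 3326589709) (nat_lit 380) (nat_lit 4711847918) (nat_lit 76) (nat_lit 2965388973) (nat_lit 99) (nat_lit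 5) (nat_lit 104) (nat_lit 5) (nat_lit 100) (nat_lit 4) (nat_lit 614) (nat_lit 482) (nat_lit 464)) (XT.nd (nat_lit 78) (nat_lit 380) (nat_lit 0) (XT.lf (nat_lit 0) (nat_lit 4282441497) (nat_lit 228) (nat_lit 3755880422) (nat_lit 304) (nat_lit 3077363790) (nat_lit 96) (nat_lit 5) (nat_lit 99) (nat_lit 5) (nat_lit 100) (nat_lit 4) (nat_lit 615) (nat_lit 482) (nat_lit 463)) (XT.lf (nat_lit 0) (nat_lit 1581282491) (nat_lit 380) (nat_lit 9029452009) (nat_lit 76) (nat_lit 619082892) (nat_lit 91) (nat_lit 5) (nat_lit 96) (nat_lit 5) (nat_lit 92) (nat_lit 4) (nat_lit 616) (nat_lit 482) (nat_lit 462)))) (XT.nd (nat_lit 78) (nat_lit 304) (nat_lit 0) (XT.lf (nat_lit 0) (nat_lit 11240385) (nat_lit 228) (nat_lit 6289801015) (nat_lit 304) (nat_lit 5044604536) (nat_lit 88) (nat_lit 5) (nat_lit 91) (nat_lit 5) (nat_lit 92) (nat_lit 4) (nat_lit 617) (nat_lit 482) (nat_lit 461)) (XT.nd (nat_lit 78) (nat_lit 304) (nat_lit 0) (XT.lf (nat_lit 0) (nat_lit 9250526982) (nat_lit 228) (nat_lit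 1863799670) (nat_lit 304) (nat_lit 349485666) (nat_lit 88) (nat_lit 5) (nat_lit 91) (nat_lit 5) (nat_lit 92) (nat_lit 4) (nat_lit 618) (nat_lit 482) (nat_lit 460)) (XT.lf (nat_lit 0) (nat_lit 4383855021) (nat_lit 304) (nat_lit 4550966876) (nat_lit 76) (nat_lit 2648896483) (nat_lit 84) (nat_lit 5) (nat_lit 88) (nat_lit 5) (nat_lit 85) (nat_lit 4) (nat_lit 619) (nat_lit 482) (nat_lit 459)))))) (XT.nd (nat_lit 468) (nat_lit 1216) (nat_lit 0) (XT.nd (nat_lit 234) (nat_lit 760) (nat_lit 0) (XT.nd (nat_lit 78) (nat_lit 304) (nat_lit 0) (XT.lf (nat_lit 0) (nat_lit 4731661153) (nat_lit 228) (nat_lit 4473128337) (nat_lit 304) (nat_lit 2501238405) (nat_lit 81) (nat_lit 5) (nat_lit 84) (nat_lit 5) (nat_lit 85) (nat_lit 4) (nat_lit 620) (nat_lit 482) (nat_lit 458)) (XT.nd (nat_lit 78) (nat_lit 0) (nat_lit 0) (XT.lf (nat_lit 0) (nat_lit 2247593037) (nat_lit 304) (nat_lit 9488037275) (nat_lit 76) (nat_lit 95133559) (nat_lit 77) (nat_lit 5) (nat_lit 81) (nat_lit 5) (nat_lit 78) (nat_lit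 4) (nat_lit 621) (nat_lit 482) (nat_lit 457)) (XT.lf (nat_lit 0) (nat_lit 7074611305) (nat_lit 304) (nat_lit 166838589) (nat_lit 76) (nat_lit 4715883426) (nat_lit 77) (nat_lit 5) (nat_lit 81) (nat_lit 5) (nat_lit 78) (nat_lit 4) (nat_lit 622) (nat_lit 482) (nat_lit 456)))) (XT.nd (nat_lit 78) (nat_lit 532) (nat_lit 0) (XT.lf (nat_lit 0) (nat_lit 9361618845) (nat_lit 228) (nat_lit 2638446158) (nat_lit 304) (nat_lit 86334639) (nat_lit 74) (nat_lit 5) (nat_lit 77) (nat_lit 5) (nat_lit 78) (nat_lit 4) (nat_lit 623) (nat_lit 482) (nat_lit 455)) (XT.nd (nat_lit 78) (nat_lit 228) (nat_lit 0) (XT.lf (nat_lit 0) (nat_lit 4743162802) (nat_lit 304) (nat_lit 5410200744) (nat_lit 76) (nat_lit 2064058653) (nat_lit 70) (nat_lit 5) (nat_lit 74) (nat_lit 5) (nat_lit 71) (nat_lit 4) (nat_lit 624) (nat_lit 482) (nat_lit 454)) (XT.lf (nat_lit 0) (nat_lit 4150086620) (nat_lit 228) (nat_lit 5522267501) (nat_lit 304) (nat_lit 2678617665) (nat_lit 67) (nat_lit 5) (nat_lit 70) (nat_lit 5) (nat_lit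 71) (nat_lit 4) (nat_lit 625) (nat_lit 482) (nat_lit 453))))) (XT.nd (nat_lit 234) (nat_lit 760) (nat_lit 0) (XT.nd (nat_lit 78) (nat_lit 152) (nat_lit 0) (XT.lf (nat_lit 0) (nat_lit 1389684814) (nat_lit 228) (nat_lit 781333265) (nat_lit 304) (nat_lit 10316147910) (nat_lit 63) (nat_lit 5) (nat_lit 66) (nat_lit 5) (nat_lit 67) (nat_lit 5) (nat_lit 626) (nat_lit 482) (nat_lit 452)) (XT.nd (nat_lit 78) (nat_lit 152) (nat_lit 0) (XT.lf (nat_lit 0) (nat_lit 7105271886) (nat_lit 304) (nat_lit 1488767802) (nat_lit 76) (nat_lit 4031223440) (nat_lit 63) (nat_lit 5) (nat_lit 67) (nat_lit 5) (nat_lit 64) (nat_lit 4) (nat_lit 627) (nat_lit 482) (nat_lit 451)) (XT.lf (nat_lit 0) (nat_lit 8315427201) (nat_lit 152) (nat_lit 3824827446) (nat_lit 228) (nat_lit 625829633) (nat_lit 61) (nat_lit 5) (nat_lit 63) (nat_lit 5) (nat_lit 64) (nat_lit 4) (nat_lit 628) (nat_lit 482) (nat_lit 450)))) (XT.nd (nat_lit 156) (nat_lit 304) (nat_lit 0) (XT.nd (nat_lit 78) (nat_lit 152) (nat_lit 0) (XT.lf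 (nat_lit 0) (nat_lit 4303784676) (nat_lit 304) (nat_lit 7548680119) (nat_lit 76) (nat_lit 1056796261) (nat_lit 57) (nat_lit 5) (nat_lit 61) (nat_lit 5) (nat_lit 58) (nat_lit 4) (nat_lit 629) (nat_lit 482) (nat_lit 449)) (XT.lf (nat_lit 0) (nat_lit 2272942189) (nat_lit 152) (nat_lit 7063988693) (nat_lit 228) (nat_lit 3718024139) (nat_lit 55) (nat_lit 5) (nat_lit 57) (nat_lit 5) (nat_lit 58) (nat_lit 4) (nat_lit 630) (nat_lit 482) (nat_lit 448))) (XT.nd (nat_lit 78) (nat_lit 228) (nat_lit 0) (XT.lf (nat_lit 0) (nat_lit 1244797034) (nat_lit 228) (nat_lit 918749588) (nat_lit 76) (nat_lit 11039969584) (nat_lit 54) (nat_lit 5) (nat_lit 57) (nat_lit 5) (nat_lit 55) (nat_lit 5) (nat_lit 631) (nat_lit 482) (nat_lit 447)) (XT.lf (nat_lit 0) (nat_lit 6279508450) (nat_lit 304) (nat_lit 4235141278) (nat_lit 76) (nat_lit 2839461617) (nat_lit 51) (nat_lit 5) (nat_lit 55) (nat_lit 5) (nat_lit 52) (nat_lit 4) (nat_lit 632) (nat_lit 482) (nat_lit 446))))))))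
noncomputable def xc15 : XT := (XT.nd (nat_lit 78858) (nat_lit 0) (nat_lit 3192) (XT.nd (nat_lit 936) (nat_lit 532) (nat_lit 0) (XT.nd (nat_lit 468) (nat_lit 760) (nat_lit 0) (XT.nd (nat_lit 234) (nat_lit 532) (nat_lit 0) (XT.nd (nat_lit 78) (nat_lit 304) (nat_lit 0) (XT.lf (nat_lit 0) (nat_lit 5825178488) (nat_lit 152) (nat_lit 5592624073) (nat_lit 228) (nat_lit 2089860621) (nat_lit 49) (nat_lit 5) (nat_lit 51) (nat_lit 5) (nat_lit 52) (nat_lit 4) (nat_lit 633) (nat_lit 482) (nat_lit 445)) (XT.nd (nat_lit 78) (nat_lit 0) (nat_lit 0) (XT.lf (nat_lit 0) (nat_lit 2392907943) (nat_lit 228) (nat_lit 551153229) (nat_lit 304) (nat_lit 10720063314) (nat_lit 45) (nat_lit 5) (nat_lit 48) (nat_lit 5) (nat_lit 49) (nat_lit 5) (nat_lit 634) (nat_lit 482) (nat_lit 444)) (XT.lf (nat_lit 0) (nat_lit 8077185038) (nat_lit 304) (nat_lit 1192132591) (nat_lit 76) (nat_lit 4553593387) (nat_lit 45) (nat_lit 5) (nat_lit 49) (nat_lit 5) (nat_lit 46) (nat_lit 4) (nat_lit 635) (nat_lit 482) (nat_lit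 443)))) (XT.nd (nat_lit 78) (nat_lit 380) (nat_lit 0) (XT.lf (nat_lit 0) (nat_lit 9106865450) (nat_lit 152) (nat_lit 4214743577) (nat_lit 228) (nat_lit 663093868) (nat_lit 43) (nat_lit 5) (nat_lit 45) (nat_lit 5) (nat_lit 46) (nat_lit 4) (nat_lit 636) (nat_lit 482) (nat_lit 442)) (XT.nd (nat_lit 78) (nat_lit 152) (nat_lit 0) (XT.lf (nat_lit 0) (nat_lit 4457397210) (nat_lit 228) (nat_lit 8733061571) (nat_lit 76) (nat_lit 958776966) (nat_lit 40) (nat_lit 5) (nat_lit 43) (nat_lit 5) (nat_lit 41) (nat_lit 4) (nat_lit 637) (nat_lit 482) (nat_lit 441)) (XT.lf (nat_lit 0) (nat_lit 1555980703) (nat_lit 152) (nat_lit 8132496143) (nat_lit 228) (nat_lit 4628155830) (nat_lit 38) (nat_lit 5) (nat_lit 40) (nat_lit 5) (nat_lit 41) (nat_lit 4) (nat_lit 638) (nat_lit 482) (nat_lit 440))))) (XT.nd (nat_lit 234) (nat_lit 380) (nat_lit 0) (XT.nd (nat_lit 78) (nat_lit 304) (nat_lit 0) (XT.lf (nat_lit 0) (nat_lit 534907491) (nat_lit 228) (nat_lit 2418658833) (nat_lit 76) (nat_lit 11533640719)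 (nat_lit 37) (nat_lit 5) (nat_lit 40) (nat_lit 5) (nat_lit 38) (nat_lit 5) (nat_lit 639) (nat_lit 482) (nat_lit 439)) (XT.nd (nat_lit 78) (nat_lit 152) (nat_lit 0) (XT.lf (nat_lit 0) (nat_lit 5754579381) (nat_lit 228) (nat_lit 6565934872) (nat_lit 76) (nat_lit 2339762541) (nat_lit 35) (nat_lit 5) (nat_lit 38) (nat_lit 5) (nat_lit 36) (nat_lit 4) (nat_lit 640) (nat_lit 482) (nat_lit 438)) (XT.lf (nat_lit 0) (nat_lit 3950056486) (nat_lit 152) (nat_lit 7137482740) (nat_lit 228) (nat_lit 3749092887) (nat_lit 33) (nat_lit 5) (nat_lit 35) (nat_lit 5) (nat_lit 36) (nat_lit 4) (nat_lit 641) (nat_lit 482) (nat_lit 437)))) (XT.nd (nat_lit 78) (nat_lit 304) (nat_lit 0) (XT.lf (nat_lit 0) (nat_lit 1482599472) (nat_lit 228) (nat_lit 356418489) (nat_lit 76) (nat_lit 13177467036) (nat_lit 32) (nat_lit 5) (nat_lit 35) (nat_lit 5) (nat_lit 33) (nat_lit 5) (nat_lit 642) (nat_lit 482) (nat_lit 436)) (XT.nd (nat_lit 78) (nat_lit 152) (nat_lit 0) (XT.lf (nat_lit 0) (nat_lit 6808237907) (nat_lit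 228) (nat_lit 4820842829) (nat_lit 76) (nat_lit 3569570265) (nat_lit 30) (nat_lit 5) (nat_lit 33) (nat_lit 5) (nat_lit 31) (nat_lit 4) (nat_lit 643) (nat_lit 482) (nat_lit 435)) (XT.lf (nat_lit 0) (nat_lit 5918259985) (nat_lit 152) (nat_lit 6323715559) (nat_lit 228) (nat_lit 3142454959) (nat_lit 28) (nat_lit 5) (nat_lit 30) (nat_lit 5) (nat_lit 31) (nat_lit 4) (nat_lit 644) (nat_lit 482) (nat_lit 434)))))) (XT.nd (nat_lit 77376) (nat_lit 0) (nat_lit 9348) (XT.nd (nat_lit 234) (nat_lit 228) (nat_lit 0) (XT.nd (nat_lit 78) (nat_lit 76) (nat_lit 0) (XT.lf (nat_lit 0) (nat_lit 1271963511) (nat_lit 152) (nat_lit 898966256) (nat_lit 228) (nat_lit 13402921464) (nat_lit 25) (nat_lit 5) (nat_lit 27) (nat_lit 5) (nat_lit 28) (nat_lit 5) (nat_lit 645) (nat_lit 482) (nat_lit 433)) (XT.nd (nat_lit 78) (nat_lit 76) (nat_lit 0) (XT.lf (nat_lit 0) (nat_lit 7591332249) (nat_lit 228) (nat_lit 3558422802) (nat_lit 76) (nat_lit 4616035136) (nat_lit 25) (nat_lit 5) (nat_lit 28) (nat_lit 5)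 (nat_lit 26) (nat_lit 4) (nat_lit 646) (nat_lit 482) (nat_lit 432)) (XT.lf (nat_lit 0) (nat_lit 7398352349) (nat_lit 76) (nat_lit 5725539373) (nat_lit 152) (nat_lit 2837602983) (nat_lit 24) (nat_lit 5) (nat_lit 25) (nat_lit 5) (nat_lit 26) (nat_lit 4) (nat_lit 647) (nat_lit 482) (nat_lit 431)))) (XT.nd (nat_lit 76986) (nat_lit 0) (nat_lit 12008) (XT.lf (nat_lit 0) (nat_lit 2383347180) (nat_lit 152) (nat_lit 177791427) (nat_lit 228) (nat_lit 13599851451) (nat_lit 21) (nat_lit 5) (nat_lit 23) (nat_lit 5) (nat_lit 24) (nat_lit 5) (nat_lit 648) (nat_lit 482) (nat_lit 430)) (XT.nd (nat_lit 78) (nat_lit 456) (nat_lit 0) (XT.lf (nat_lit 0) (nat_lit 1720695232) (nat_lit 532) (nat_lit 1135016195) (nat_lit 0) (nat_lit 1720695232) (nat_lit 185) (nat_lit 5) (nat_lit 192) (nat_lit 4) (nat_lit 185) (nat_lit 4) (nat_lit 594) (nat_lit 483) (nat_lit 483)) (XT.lf (nat_lit 0) (nat_lit 5611907163) (nat_lit 456) (nat_lit 2255719138) (nat_lit 456) (nat_lit 1362318286) (nat_lit 179) (nat_lit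 4) (nat_lit 185) (nat_lit 5) (nat_lit 185) (nat_lit 4) (nat_lit 595) (nat_lit 483) (nat_lit 482))))) (XT.nd (nat_lit 234) (nat_lit 1292) (nat_lit 0) (XT.nd (nat_lit 78) (nat_lit 912) (nat_lit 0) (XT.lf (nat_lit 0) (nat_lit 3015867999) (nat_lit 456) (nat_lit 5011434331) (nat_lit 0) (nat_lit 1281275803) (nat_lit 173) (nat_lit 5) (nat_lit 179) (nat_lit 4) (nat_lit 173) (nat_lit 4) (nat_lit 596) (nat_lit 483) (nat_lit 481)) (XT.nd (nat_lit 78) (nat_lit 456) (nat_lit 0) (XT.lf (nat_lit 0) (nat_lit 2940745044) (nat_lit 456) (nat_lit 4512268573) (nat_lit 456) (nat_lit 1935804800) (nat_lit 167) (nat_lit 4) (nat_lit 173) (nat_lit 5) (nat_lit 173) (nat_lit 4) (nat_lit 597) (nat_lit 483) (nat_lit 480)) (XT.lf (nat_lit 0) (nat_lit 1548405258) (nat_lit 380) (nat_lit 902205297) (nat_lit 456) (nat_lit 7020228528) (nat_lit 161) (nat_lit 5) (nat_lit 166) (nat_lit 5) (nat_lit 167) (nat_lit 4) (nat_lit 598) (nat_lit 483) (nat_lit 479)))) (XT.nd (nat_lit 156) (nat_lit 836) (nat_lit 0) (XT.nd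 (nat_lit 78) (nat_lit 76) (nat_lit 0) (XT.lf (nat_lit 0) (nat_lit 103040836) (nat_lit 380) (nat_lit 6789884021) (nat_lit 380) (nat_lit 2661444078) (nat_lit 156) (nat_lit 4) (nat_lit 161) (nat_lit 5) (nat_lit 161) (nat_lit 4) (nat_lit 599) (nat_lit 483) (nat_lit 478)) (XT.lf (nat_lit 0) (nat_lit 1752595524) (nat_lit 456) (nat_lit 1365956188) (nat_lit 76) (nat_lit 6520962528) (nat_lit 155) (nat_lit 5) (nat_lit 161) (nat_lit 5) (nat_lit 156) (nat_lit 4) (nat_lit 600) (nat_lit 483) (nat_lit 477))) (XT.nd (nat_lit 78) (nat_lit 456) (nat_lit 0) (XT.lf (nat_lit 0) (nat_lit 6201345684) (nat_lit 456) (nat_lit 2881241073) (nat_lit 0) (nat_lit 643788652) (nat_lit 150) (nat_lit 5) (nat_lit 156) (nat_lit 4) (nat_lit 150) (nat_lit 4) (nat_lit 601) (nat_lit 483) (nat_lit 476)) (XT.lf (nat_lit 0) (nat_lit 910426565) (nat_lit 456) (nat_lit 4451395239) (nat_lit 76) (nat_lit 4453068911) (nat_lit 144) (nat_lit 5) (nat_lit 150) (nat_lit 5) (nat_lit 145) (nat_lit 4) (nat_lit 602) (nat_lit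 483) (nat_lit 475))))))) (XT.nd (nat_lit 936) (nat_lit 2736) (nat_lit 0) (XT.nd (nat_lit 468) (nat_lit 1672) (nat_lit 0) (XT.nd (nat_lit 234) (nat_lit 684) (nat_lit 0) (XT.nd (nat_lit 78) (nat_lit 760) (nat_lit 0) (XT.lf (nat_lit 0) (nat_lit 3829672130) (nat_lit 304) (nat_lit 1536000303) (nat_lit 380) (nat_lit 4539478052) (nat_lit 140) (nat_lit 5) (nat_lit 144) (nat_lit 5) (nat_lit 145) (nat_lit 4) (nat_lit 603) (nat_lit 483) (nat_lit 474)) (XT.nd (nat_lit 78) (nat_lit 380) (nat_lit 0) (XT.lf (nat_lit 0) (nat_lit 2249165085) (nat_lit 380) (nat_lit 7655176334) (nat_lit 380) (nat_lit 92993332) (nat_lit 135) (nat_lit 4) (nat_lit 140) (nat_lit 5) (nat_lit 140) (nat_lit 4) (nat_lit 604) (nat_lit 483) (nat_lit 473)) (XT.lf (nat_lit 0) (nat_lit 595594034) (nat_lit 304) (nat_lit 3778100633) (nat_lit 380) (nat_lit 5717305884) (nat_lit 130) (nat_lit 5) (nat_lit 134) (nat_lit 5) (nat_lit 135) (nat_lit 4) (nat_lit 605) (nat_lit 483) (nat_lit 472)))) (XT.nd (nat_lit 78) (nat_lit 684)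 (nat_lit 0) (XT.lf (nat_lit 0) (nat_lit 8916766729) (nat_lit 380) (nat_lit 1081742350) (nat_lit 0) (nat_lit 188257722) (nat_lit 130) (nat_lit 5) (nat_lit 135) (nat_lit 4) (nat_lit 130) (nat_lit 4) (nat_lit 606) (nat_lit 483) (nat_lit 471)) (XT.nd (nat_lit 78) (nat_lit 304) (nat_lit 0) (XT.lf (nat_lit 0) (nat_lit 3233080205) (nat_lit 380) (nat_lit 2835720433) (nat_lit 76) (nat_lit 4215035420) (nat_lit 125) (nat_lit 5) (nat_lit 130) (nat_lit 5) (nat_lit 126) (nat_lit 4) (nat_lit 607) (nat_lit 483) (nat_lit 470)) (XT.lf (nat_lit 0) (nat_lit 5743902579) (nat_lit 304) (nat_lit 2046180593) (nat_lit 380) (nat_lit 2592983336) (nat_lit 121) (nat_lit 5) (nat_lit 125) (nat_lit 5) (nat_lit 126) (nat_lit 4) (nat_lit 608) (nat_lit 483) (nat_lit 469))))) (XT.nd (nat_lit 234) (nat_lit 608) (nat_lit 0) (XT.nd (nat_lit 78) (nat_lit 684) (nat_lit 0) (XT.lf (nat_lit 0) (nat_lit 1923235661) (nat_lit 380) (nat_lit 6512439705) (nat_lit 76) (nat_lit 2048458964) (nat_lit 116) (nat_lit 5) (nat_lit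 121) (nat_lit 5) (nat_lit 117) (nat_lit 4) (nat_lit 609) (nat_lit 483) (nat_lit 468)) (XT.nd (nat_lit 78) (nat_lit 380) (nat_lit 0) (XT.lf (nat_lit 0) (nat_lit 2123985950) (nat_lit 304) (nat_lit 4366512054) (nat_lit 380) (nat_lit 4096478672) (nat_lit 112) (nat_lit 5) (nat_lit 116) (nat_lit 5) (nat_lit 117) (nat_lit 4) (nat_lit 610) (nat_lit 483) (nat_lit 467)) (XT.lf (nat_lit 0) (nat_lit 225966469) (nat_lit 304) (nat_lit 207603037) (nat_lit 380) (nat_lit 10258604817) (nat_lit 107) (nat_lit 5) (nat_lit 111) (nat_lit 5) (nat_lit 112) (nat_lit 5) (nat_lit 611) (nat_lit 483) (nat_lit 466)))) (XT.nd (nat_lit 78) (nat_lit 608) (nat_lit 0) (XT.lf (nat_lit 0) (nat_lit 5019958090) (nat_lit 380) (nat_lit 1753078776) (nat_lit 76) (nat_lit 4025490144) (nat_lit 107) (nat_lit 5) (nat_lit 112) (nat_lit 5) (nat_lit 108) (nat_lit 4) (nat_lit 612) (nat_lit 483) (nat_lit 465)) (XT.nd (nat_lit 78) (nat_lit 380) (nat_lit 0) (XT.lf (nat_lit 0) (nat_lit 7123958351) (nat_lit 228) (nat_lit 2560154455)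 (nat_lit 304) (nat_lit 1223177558) (nat_lit 104) (nat_lit 5) (nat_lit 107) (nat_lit 5) (nat_lit 108) (nat_lit 4) (nat_lit 613) (nat_lit 483) (nat_lit 464)) (XT.lf (nat_lit 0) (nat_lit 3373557417) (nat_lit 380) (nat_lit 5902891822) (nat_lit 76) (nat_lit 1741436760) (nat_lit 99) (nat_lit 5) (nat_lit 104) (nat_lit 5) (nat_lit 100) (nat_lit 4) (nat_lit 614) (nat_lit 483) (nat_lit 463)))))) (XT.nd (nat_lit 468) (nat_lit 1368) (nat_lit 0) (XT.nd (nat_lit 234) (nat_lit 760) (nat_lit 0) (XT.nd (nat_lit 78) (nat_lit 380) (nat_lit 0) (XT.lf (nat_lit 0) (nat_lit 3023981631) (nat_lit 228) (nat_lit 5022853097) (nat_lit 304) (nat_lit 3083681522) (nat_lit 96) (nat_lit 5) (nat_lit 99) (nat_lit 5) (nat_lit 100) (nat_lit 4) (nat_lit 615) (nat_lit 483) (nat_lit 462)) (XT.nd (nat_lit 78) (nat_lit 0) (nat_lit 0) (XT.lf (nat_lit 0) (nat_lit 862692404) (nat_lit 304) (nat_lit 669350781) (nat_lit 380) (nat_lit 9713467620) (nat_lit 91) (nat_lit 5) (nat_lit 95) (nat_lit 5) (nat_lit 96) (nat_lit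 5) (nat_lit 616) (nat_lit 483) (nat_lit 461)) (XT.lf (nat_lit 0) (nat_lit 6217293160) (nat_lit 380) (nat_lit 1389038539) (nat_lit 76) (nat_lit 3755699755) (nat_lit 91) (nat_lit 5) (nat_lit 96) (nat_lit 5) (nat_lit 92) (nat_lit 4) (nat_lit 617) (nat_lit 483) (nat_lit 460)))) (XT.nd (nat_lit 78) (nat_lit 532) (nat_lit 0) (XT.lf (nat_lit 0) (nat_lit 7781013739) (nat_lit 228) (nat_lit 3210596511) (nat_lit 304) (nat_lit 489368834) (nat_lit 88) (nat_lit 5) (nat_lit 91) (nat_lit 5) (nat_lit 92) (nat_lit 4) (nat_lit 618) (nat_lit 483) (nat_lit 459)) (XT.nd (nat_lit 78) (nat_lit 228) (nat_lit 0) (XT.lf (nat_lit 0) (nat_lit 4197309362) (nat_lit 304) (nat_lit 6116348576) (nat_lit 76) (nat_lit 1288217130) (nat_lit 84) (nat_lit 5) (nat_lit 88) (nat_lit 5) (nat_lit 85) (nat_lit 4) (nat_lit 619) (nat_lit 483) (nat_lit 458)) (XT.lf (nat_lit 0) (nat_lit 3094514453) (nat_lit 228) (nat_lit 5883779129) (nat_lit 304) (nat_lit 2746691784) (nat_lit 81) (nat_lit 5) (nat_lit 84) (nat_lit 5) (nat_lit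 85) (nat_lit 4) (nat_lit 620) (nat_lit 483) (nat_lit 457))))) (XT.nd (nat_lit 234) (nat_lit 836) (nat_lit 0) (XT.nd (nat_lit 78) (nat_lit 228) (nat_lit 0) (XT.lf (nat_lit 0) (nat_lit 615844456) (nat_lit 228) (nat_lit 1348407759) (nat_lit 304) (nat_lit 9886324840) (nat_lit 77) (nat_lit 5) (nat_lit 80) (nat_lit 5) (nat_lit 81) (nat_lit 5) (nat_lit 621) (nat_lit 483) (nat_lit 456)) (XT.nd (nat_lit 78) (nat_lit 228) (nat_lit 0) (XT.lf (nat_lit 0) (nat_lit 6753363858) (nat_lit 304) (nat_lit 1955246751) (nat_lit 76) (nat_lit 3269295704) (nat_lit 77) (nat_lit 5) (nat_lit 81) (nat_lit 5) (nat_lit 78) (nat_lit 4) (nat_lit 622) (nat_lit 483) (nat_lit 455)) (XT.lf (nat_lit 0) (nat_lit 7499308109) (nat_lit 228) (nat_lit 4138837827) (nat_lit 304) (nat_lit 469641776) (nat_lit 74) (nat_lit 5) (nat_lit 77) (nat_lit 5) (nat_lit 78) (nat_lit 4) (nat_lit 623) (nat_lit 483) (nat_lit 454)))) (XT.nd (nat_lit 156) (nat_lit 304) (nat_lit 0) (XT.nd (nat_lit 78) (nat_lit 228) (nat_lit 0) (XT.lf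 (nat_lit 0) (nat_lit 4313673768) (nat_lit 304) (nat_lit 7378888168) (nat_lit 76) (nat_lit 547323866) (nat_lit 70) (nat_lit 5) (nat_lit 74) (nat_lit 5) (nat_lit 71) (nat_lit 4) (nat_lit 624) (nat_lit 483) (nat_lit 453)) (XT.lf (nat_lit 0) (nat_lit 2104937858) (nat_lit 228) (nat_lit 7096224577) (nat_lit 304) (nat_lit 3173108557) (nat_lit 67) (nat_lit 5) (nat_lit 70) (nat_lit 5) (nat_lit 71) (nat_lit 4) (nat_lit 625) (nat_lit 483) (nat_lit 452))) (XT.nd (nat_lit 78) (nat_lit 228) (nat_lit 0) (XT.lf (nat_lit 0) (nat_lit 1645614580) (nat_lit 304) (nat_lit 743469408) (nat_lit 76) (nat_lit 10122194864) (nat_lit 66) (nat_lit 5) (nat_lit 70) (nat_lit 5) (nat_lit 67) (nat_lit 5) (nat_lit 626) (nat_lit 483) (nat_lit 451)) (XT.lf (nat_lit 0) (nat_lit 6536229044) (nat_lit 304) (nat_lit 3695332434) (nat_lit 76) (nat_lit 2418688760) (nat_lit 63) (nat_lit 5) (nat_lit 67) (nat_lit 5) (nat_lit 64) (nat_lit 4) (nat_lit 627) (nat_lit 483) (nat_lit 450))))))))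
noncomputable def xc16 : XT := (XT.nd (nat_lit 78702) (nat_lit 0) (nat_lit 4408) (XT.nd (nat_lit 936) (nat_lit 1140) (nat_lit 0) (XT.nd (nat_lit 468) (nat_lit 836) (nat_lit 0) (XT.nd (nat_lit 234) (nat_lit 608) (nat_lit 0) (XT.nd (nat_lit 78) (nat_lit 304) (nat_lit 0) (XT.lf (nat_lit 0) (nat_lit 6030075675) (nat_lit 152) (nat_lit 5498575444) (nat_lit 228) (nat_lit 1263272914) (nat_lit 61) (nat_lit 5) (nat_lit 63) (nat_lit 5) (nat_lit 64) (nat_lit 4) (nat_lit 628) (nat_lit 483) (nat_lit 449)) (XT.nd (nat_lit 78) (nat_lit 0) (nat_lit 0) (XT.lf (nat_lit 0) (nat_lit 2980449009) (nat_lit 228) (nat_lit 644123126) (nat_lit 304) (nat_lit 9311615412) (nat_lit 57) (nat_lit 5) (nat_lit 60) (nat_lit 5) (nat_lit 61) (nat_lit 5) (nat_lit 629) (nat_lit 483) (nat_lit 448)) (XT.lf (nat_lit 0) (nat_lit 8611192023) (nat_lit 304) (nat_lit 208698294) (nat_lit 76) (nat_lit 4262923070) (nat_lit 57) (nat_lit 5) (nat_lit 61) (nat_lit 5) (nat_lit 58) (nat_lit 4) (nat_lit 630) (nat_lit 483) (nat_lit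 447)))) (XT.nd (nat_lit 78) (nat_lit 380) (nat_lit 0) (XT.lf (nat_lit 0) (nat_lit 472157126) (nat_lit 228) (nat_lit 3475146812) (nat_lit 76) (nat_lit 9284748310) (nat_lit 54) (nat_lit 5) (nat_lit 57) (nat_lit 5) (nat_lit 55) (nat_lit 5) (nat_lit 631) (nat_lit 483) (nat_lit 446)) (XT.nd (nat_lit 78) (nat_lit 152) (nat_lit 0) (XT.lf (nat_lit 0) (nat_lit 5450898660) (nat_lit 304) (nat_lit 6891777385) (nat_lit 76) (nat_lit 1041092010) (nat_lit 51) (nat_lit 5) (nat_lit 55) (nat_lit 5) (nat_lit 52) (nat_lit 4) (nat_lit 632) (nat_lit 483) (nat_lit 445)) (XT.lf (nat_lit 0) (nat_lit 3084474005) (nat_lit 152) (nat_lit 7460003939) (nat_lit 228) (nat_lit 2993737491) (nat_lit 49) (nat_lit 5) (nat_lit 51) (nat_lit 5) (nat_lit 52) (nat_lit 4) (nat_lit 633) (nat_lit 483) (nat_lit 444))))) (XT.nd (nat_lit 234) (nat_lit 380) (nat_lit 0) (XT.nd (nat_lit 78) (nat_lit 380) (nat_lit 0) (XT.lf (nat_lit 0) (nat_lit 2009621520) (nat_lit 228) (nat_lit 452029014) (nat_lit 76) (nat_lit 11233993119)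 (nat_lit 48) (nat_lit 5) (nat_lit 51) (nat_lit 5) (nat_lit 49) (nat_lit 5) (nat_lit 634) (nat_lit 483) (nat_lit 443)) (XT.nd (nat_lit 78) (nat_lit 152) (nat_lit 0) (XT.lf (nat_lit 0) (nat_lit 7100545527) (nat_lit 304) (nat_lit 4110476929) (nat_lit 76) (nat_lit 2644252897) (nat_lit 45) (nat_lit 5) (nat_lit 49) (nat_lit 5) (nat_lit 46) (nat_lit 4) (nat_lit 635) (nat_lit 483) (nat_lit 442)) (XT.lf (nat_lit 0) (nat_lit 6101809838) (nat_lit 152) (nat_lit 6197372322) (nat_lit 228) (nat_lit 1718801970) (nat_lit 43) (nat_lit 5) (nat_lit 45) (nat_lit 5) (nat_lit 46) (nat_lit 4) (nat_lit 636) (nat_lit 483) (nat_lit 441)))) (XT.nd (nat_lit 78) (nat_lit 152) (nat_lit 0) (XT.lf (nat_lit 0) (nat_lit 2302871607) (nat_lit 152) (nat_lit 1059860028) (nat_lit 228) (nat_lit 10820979604) (nat_lit 40) (nat_lit 5) (nat_lit 42) (nat_lit 5) (nat_lit 43) (nat_lit 5) (nat_lit 637) (nat_lit 483) (nat_lit 440)) (XT.nd (nat_lit 78) (nat_lit 152) (nat_lit 0) (XT.lf (nat_lit 0) (nat_lit 8550660234)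 (nat_lit 228) (nat_lit 1652735033) (nat_lit 76) (nat_lit 4148577008) (nat_lit 40) (nat_lit 5) (nat_lit 43) (nat_lit 5) (nat_lit 41) (nat_lit 4) (nat_lit 638) (nat_lit 483) (nat_lit 439)) (XT.lf (nat_lit 0) (nat_lit 8794357903) (nat_lit 152) (nat_lit 5060285796) (nat_lit 228) (nat_lit 668711053) (nat_lit 38) (nat_lit 5) (nat_lit 40) (nat_lit 5) (nat_lit 41) (nat_lit 4) (nat_lit 639) (nat_lit 483) (nat_lit 438)))))) (XT.nd (nat_lit 468) (nat_lit 304) (nat_lit 0) (XT.nd (nat_lit 234) (nat_lit 380) (nat_lit 0) (XT.nd (nat_lit 78) (nat_lit 228) (nat_lit 0) (XT.lf (nat_lit 0) (nat_lit 4498065821) (nat_lit 228) (nat_lit 9986202774) (nat_lit 76) (nat_lit 213477069) (nat_lit 35) (nat_lit 5) (nat_lit 38) (nat_lit 5) (nat_lit 36) (nat_lit 4) (nat_lit 640) (nat_lit 483) (nat_lit 437)) (XT.nd (nat_lit 78) (nat_lit 76) (nat_lit 0) (XT.lf (nat_lit 0) (nat_lit 437129521) (nat_lit 152) (nat_lit 9345534663) (nat_lit 228) (nat_lit 5092405029) (nat_lit 33) (nat_lit 5) (nat_lit 35) (nat_lit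 5) (nat_lit 36) (nat_lit 4) (nat_lit 641) (nat_lit 483) (nat_lit 436)) (XT.lf (nat_lit 0) (nat_lit 131383577) (nat_lit 228) (nat_lit 3945680917) (nat_lit 76) (nat_lit 10978543430) (nat_lit 32) (nat_lit 5) (nat_lit 35) (nat_lit 5) (nat_lit 33) (nat_lit 5) (nat_lit 642) (nat_lit 483) (nat_lit 435)))) (XT.nd (nat_lit 78) (nat_lit 228) (nat_lit 0) (XT.lf (nat_lit 0) (nat_lit 5393263083) (nat_lit 228) (nat_lit 8529397014) (nat_lit 76) (nat_lit 1316389954) (nat_lit 30) (nat_lit 5) (nat_lit 33) (nat_lit 5) (nat_lit 31) (nat_lit 4) (nat_lit 643) (nat_lit 483) (nat_lit 434)) (XT.nd (nat_lit 78) (nat_lit 76) (nat_lit 0) (XT.lf (nat_lit 0) (nat_lit 2114043788) (nat_lit 152) (nat_lit 8663298518) (nat_lit 228) (nat_lit 4648481341) (nat_lit 28) (nat_lit 5) (nat_lit 30) (nat_lit 5) (nat_lit 31) (nat_lit 4) (nat_lit 644) (nat_lit 483) (nat_lit 433)) (XT.lf (nat_lit 0) (nat_lit 651467125) (nat_lit 228) (nat_lit 2626349848) (nat_lit 76) (nat_lit 12338287615) (nat_lit 27) (nat_lit 5) (nat_lit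 30) (nat_lit 5) (nat_lit 28) (nat_lit 5) (nat_lit 645) (nat_lit 483) (nat_lit 432))))) (XT.nd (nat_lit 76986) (nat_lit 0) (nat_lit 11856) (XT.nd (nat_lit 78) (nat_lit 152) (nat_lit 0) (XT.lf (nat_lit 0) (nat_lit 6014160451) (nat_lit 228) (nat_lit 7564537982) (nat_lit 76) (nat_lit 2230500166) (nat_lit 25) (nat_lit 5) (nat_lit 28) (nat_lit 5) (nat_lit 26) (nat_lit 4) (nat_lit 646) (nat_lit 483) (nat_lit 431)) (XT.nd (nat_lit 78) (nat_lit 76) (nat_lit 0) (XT.lf (nat_lit 0) (nat_lit 3293440128) (nat_lit 76) (nat_lit 8202244617) (nat_lit 152) (nat_lit 4510239930) (nat_lit 24) (nat_lit 5) (nat_lit 25) (nat_lit 5) (nat_lit 26) (nat_lit 4) (nat_lit 647) (nat_lit 483) (nat_lit 430)) (XT.lf (nat_lit 0) (nat_lit 870608010) (nat_lit 152) (nat_lit 1831382261) (nat_lit 76) (nat_lit 13504444387) (nat_lit 23) (nat_lit 5) (nat_lit 25) (nat_lit 5) (nat_lit 24) (nat_lit 5) (nat_lit 648) (nat_lit 483) (nat_lit 429)))) (XT.nd (nat_lit 156) (nat_lit 988) (nat_lit 0) (XT.nd (nat_lit 78) (nat_lit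 0) (nat_lit 0) (XT.lf (nat_lit 0) (nat_lit 190114824) (nat_lit 456) (nat_lit 2155639602) (nat_lit 456) (nat_lit 2155639602) (nat_lit 192) (nat_lit 4) (nat_lit 198) (nat_lit 5) (nat_lit 198) (nat_lit 4) (nat_lit 592) (nat_lit 484) (nat_lit 484)) (XT.lf (nat_lit 0) (nat_lit 8134110336) (nat_lit 456) (nat_lit 936493506) (nat_lit 456) (nat_lit 6999259) (nat_lit 192) (nat_lit 4) (nat_lit 198) (nat_lit 5) (nat_lit 198) (nat_lit 4) (nat_lit 593) (nat_lit 484) (nat_lit 483))) (XT.nd (nat_lit 78) (nat_lit 456) (nat_lit 0) (XT.lf (nat_lit 0) (nat_lit 4318236697) (nat_lit 532) (nat_lit 2321701726) (nat_lit 0) (nat_lit 2513566976) (nat_lit 185) (nat_lit 5) (nat_lit 192) (nat_lit 4) (nat_lit 185) (nat_lit 4) (nat_lit 594) (nat_lit 484) (nat_lit 482)) (XT.lf (nat_lit 0) (nat_lit 5508221763) (nat_lit 456) (nat_lit 3201829894) (nat_lit 456) (nat_lit 521276985) (nat_lit 179) (nat_lit 4) (nat_lit 185) (nat_lit 5) (nat_lit 185) (nat_lit 4) (nat_lit 595) (nat_lit 484) (nat_lit 481)))))))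 (XT.nd (nat_lit 936) (nat_lit 3344) (nat_lit 0) (XT.nd (nat_lit 468) (nat_lit 1900) (nat_lit 0) (XT.nd (nat_lit 234) (nat_lit 836) (nat_lit 0) (XT.nd (nat_lit 78) (nat_lit 912) (nat_lit 0) (XT.lf (nat_lit 0) (nat_lit 3804955374) (nat_lit 456) (nat_lit 5170628744) (nat_lit 0) (nat_lit 335090748) (nat_lit 173) (nat_lit 5) (nat_lit 179) (nat_lit 4) (nat_lit 173) (nat_lit 4) (nat_lit 596) (nat_lit 484) (nat_lit 480)) (XT.nd (nat_lit 78) (nat_lit 456) (nat_lit 0) (XT.lf (nat_lit 0) (nat_lit 2727759724) (nat_lit 456) (nat_lit 5479541841) (nat_lit 456) (nat_lit 1184312925) (nat_lit 167) (nat_lit 4) (nat_lit 173) (nat_lit 5) (nat_lit 173) (nat_lit 4) (nat_lit 597) (nat_lit 484) (nat_lit 479)) (XT.lf (nat_lit 0) (nat_lit 1273025034) (nat_lit 380) (nat_lit 1884120821) (nat_lit 456) (nat_lit 6317096951) (nat_lit 161) (nat_lit 5) (nat_lit 166) (nat_lit 5) (nat_lit 167) (nat_lit 4) (nat_lit 598) (nat_lit 484) (nat_lit 478)))) (XT.nd (nat_lit 78) (nat_lit 836) (nat_lit 0) (XT.lf (nat_lit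 0) (nat_lit 7559311317) (nat_lit 456) (nat_lit 222038496) (nat_lit 0) (nat_lit 1777228980) (nat_lit 161) (nat_lit 5) (nat_lit 167) (nat_lit 4) (nat_lit 161) (nat_lit 4) (nat_lit 599) (nat_lit 484) (nat_lit 477)) (XT.nd (nat_lit 78) (nat_lit 380) (nat_lit 0) (XT.lf (nat_lit 0) (nat_lit 2371610441) (nat_lit 456) (nat_lit 1753938269) (nat_lit 76) (nat_lit 5518781980) (nat_lit 155) (nat_lit 5) (nat_lit 161) (nat_lit 5) (nat_lit 156) (nat_lit 4) (nat_lit 600) (nat_lit 484) (nat_lit 476)) (XT.lf (nat_lit 0) (nat_lit 6405231366) (nat_lit 380) (nat_lit 375650116) (nat_lit 456) (nat_lit 2951102937) (nat_lit 150) (nat_lit 5) (nat_lit 155) (nat_lit 5) (nat_lit 156) (nat_lit 4) (nat_lit 601) (nat_lit 484) (nat_lit 475))))) (XT.nd (nat_lit 234) (nat_lit 684) (nat_lit 0) (XT.nd (nat_lit 78) (nat_lit 760) (nat_lit 0) (XT.lf (nat_lit 0) (nat_lit 1438718513) (nat_lit 456) (nat_lit 4961483798) (nat_lit 76) (nat_lit 3420987902) (nat_lit 144) (nat_lit 5) (nat_lit 150) (nat_lit 5) (nat_lit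 145) (nat_lit 4) (nat_lit 602) (nat_lit 484) (nat_lit 474)) (XT.nd (nat_lit 78) (nat_lit 456) (nat_lit 0) (XT.lf (nat_lit 0) (nat_lit 3261424632) (nat_lit 304) (nat_lit 2596773537) (nat_lit 380) (nat_lit 4053969943) (nat_lit 140) (nat_lit 5) (nat_lit 144) (nat_lit 5) (nat_lit 145) (nat_lit 4) (nat_lit 603) (nat_lit 484) (nat_lit 473)) (XT.lf (nat_lit 0) (nat_lit 344223345) (nat_lit 456) (nat_lit 8385809612) (nat_lit 76) (nat_lit 1275134017) (nat_lit 134) (nat_lit 5) (nat_lit 140) (nat_lit 5) (nat_lit 135) (nat_lit 4) (nat_lit 604) (nat_lit 484) (nat_lit 472)))) (XT.nd (nat_lit 78) (nat_lit 684) (nat_lit 0) (XT.lf (nat_lit 0) (nat_lit 4774014355) (nat_lit 456) (nat_lit 101441765) (nat_lit 76) (nat_lit 5224080769) (nat_lit 134) (nat_lit 5) (nat_lit 140) (nat_lit 5) (nat_lit 135) (nat_lit 4) (nat_lit 605) (nat_lit 484) (nat_lit 471)) (XT.nd (nat_lit 78) (nat_lit 380) (nat_lit 0) (XT.lf (nat_lit 0) (nat_lit 8357258496) (nat_lit 304) (nat_lit 926406538) (nat_lit 380) (nat_lit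 912309124) (nat_lit 130) (nat_lit 5) (nat_lit 134) (nat_lit 5) (nat_lit 135) (nat_lit 4) (nat_lit 606) (nat_lit 484) (nat_lit 470)) (XT.lf (nat_lit 0) (nat_lit 3543492717) (nat_lit 380) (nat_lit 3659574432) (nat_lit 76) (nat_lit 3090784053) (nat_lit 125) (nat_lit 5) (nat_lit 130) (nat_lit 5) (nat_lit 126) (nat_lit 4) (nat_lit 607) (nat_lit 484) (nat_lit 469)))))) (XT.nd (nat_lit 468) (nat_lit 1748) (nat_lit 0) (XT.nd (nat_lit 234) (nat_lit 608) (nat_lit 0) (XT.nd (nat_lit 78) (nat_lit 684) (nat_lit 0) (XT.lf (nat_lit 0) (nat_lit 4858197684) (nat_lit 304) (nat_lit 3205606886) (nat_lit 380) (nat_lit 2330013348) (nat_lit 121) (nat_lit 5) (nat_lit 125) (nat_lit 5) (nat_lit 126) (nat_lit 4) (nat_lit 608) (nat_lit 484) (nat_lit 468)) (XT.nd (nat_lit 78) (nat_lit 304) (nat_lit 0) (XT.lf (nat_lit 0) (nat_lit 2137969401) (nat_lit 380) (nat_lit 7477302505) (nat_lit 76) (nat_lit 880477779) (nat_lit 116) (nat_lit 5) (nat_lit 121) (nat_lit 5) (nat_lit 117) (nat_lit 4) (nat_lit 609)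 (nat_lit 484) (nat_lit 467)) (XT.lf (nat_lit 0) (nat_lit 1095156189) (nat_lit 304) (nat_lit 5572687093) (nat_lit 380) (nat_lit 3931498818) (nat_lit 112) (nat_lit 5) (nat_lit 116) (nat_lit 5) (nat_lit 117) (nat_lit 4) (nat_lit 610) (nat_lit 484) (nat_lit 466)))) (XT.nd (nat_lit 78) (nat_lit 532) (nat_lit 0) (XT.lf (nat_lit 0) (nat_lit 564282695) (nat_lit 380) (nat_lit 869814420) (nat_lit 76) (nat_lit 9271065481) (nat_lit 111) (nat_lit 5) (nat_lit 116) (nat_lit 5) (nat_lit 112) (nat_lit 5) (nat_lit 611) (nat_lit 484) (nat_lit 465)) (XT.nd (nat_lit 78) (nat_lit 228) (nat_lit 0) (XT.lf (nat_lit 0) (nat_lit 5106457627) (nat_lit 380) (nat_lit 2916219500) (nat_lit 76) (nat_lit 2789724596) (nat_lit 107) (nat_lit 5) (nat_lit 112) (nat_lit 5) (nat_lit 108) (nat_lit 4) (nat_lit 612) (nat_lit 484) (nat_lit 464)) (XT.lf (nat_lit 0) (nat_lit 5894994797) (nat_lit 228) (nat_lit 3837746068) (nat_lit 304) (nat_lit 1189183767) (nat_lit 104) (nat_lit 5) (nat_lit 107) (nat_lit 5) (nat_lit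 108) (nat_lit 4) (nat_lit 613) (nat_lit 484) (nat_lit 463))))) (XT.nd (nat_lit 234) (nat_lit 1064) (nat_lit 0) (XT.nd (nat_lit 78) (nat_lit 304) (nat_lit 0) (XT.lf (nat_lit 0) (nat_lit 3360290511) (nat_lit 380) (nat_lit 7220596893) (nat_lit 76) (nat_lit 452566789) (nat_lit 99) (nat_lit 5) (nat_lit 104) (nat_lit 5) (nat_lit 100) (nat_lit 4) (nat_lit 614) (nat_lit 484) (nat_lit 462)) (XT.nd (nat_lit 78) (nat_lit 76) (nat_lit 0) (XT.lf (nat_lit 0) (nat_lit 1638188860) (nat_lit 228) (nat_lit 6356691139) (nat_lit 304) (nat_lit 3151980203) (nat_lit 96) (nat_lit 5) (nat_lit 99) (nat_lit 5) (nat_lit 100) (nat_lit 4) (nat_lit 615) (nat_lit 484) (nat_lit 461)) (XT.lf (nat_lit 0) (nat_lit 1429412136) (nat_lit 304) (nat_lit 600295301) (nat_lit 76) (nat_lit 9232862678) (nat_lit 95) (nat_lit 5) (nat_lit 99) (nat_lit 5) (nat_lit 96) (nat_lit 5) (nat_lit 616) (nat_lit 484) (nat_lit 460)))) (XT.nd (nat_lit 156) (nat_lit 532) (nat_lit 0) (XT.nd (nat_lit 78) (nat_lit 228) (nat_lit 0) (XT.lf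 (nat_lit 0) (nat_lit 6072354222) (nat_lit 380) (nat_lit 2918392463) (nat_lit 76) (nat_lit 2389192122) (nat_lit 91) (nat_lit 5) (nat_lit 96) (nat_lit 5) (nat_lit 92) (nat_lit 4) (nat_lit 617) (nat_lit 484) (nat_lit 459)) (XT.lf (nat_lit 0) (nat_lit 6181556363) (nat_lit 228) (nat_lit 4625808560) (nat_lit 304) (nat_lit 692309494) (nat_lit 88) (nat_lit 5) (nat_lit 91) (nat_lit 5) (nat_lit 92) (nat_lit 4) (nat_lit 618) (nat_lit 484) (nat_lit 458))) (XT.nd (nat_lit 78) (nat_lit 228) (nat_lit 0) (XT.lf (nat_lit 0) (nat_lit 3806007013) (nat_lit 228) (nat_lit 142724408) (nat_lit 304) (nat_lit 7672833087) (nat_lit 84) (nat_lit 5) (nat_lit 87) (nat_lit 5) (nat_lit 88) (nat_lit 5) (nat_lit 619) (nat_lit 484) (nat_lit 457)) (XT.lf (nat_lit 0) (nat_lit 1323700268) (nat_lit 228) (nat_lit 7364845524) (nat_lit 304) (nat_lit 3056954157) (nat_lit 81) (nat_lit 5) (nat_lit 84) (nat_lit 5) (nat_lit 85) (nat_lit 4) (nat_lit 620) (nat_lit 484) (nat_lit 456))))))))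
noncomputable def xc17 : XT := (XT.nd (nat_lit 1950) (nat_lit 304) (nat_lit 0) (XT.nd (nat_lit 936) (nat_lit 1748) (nat_lit 0) (XT.nd (nat_lit 468) (nat_lit 1140) (nat_lit 0) (XT.nd (nat_lit 234) (nat_lit 608) (nat_lit 0) (XT.nd (nat_lit 78) (nat_lit 456) (nat_lit 0) (XT.lf (nat_lit 0) (nat_lit 1625369815) (nat_lit 304) (nat_lit 1230912741) (nat_lit 76) (nat_lit 9015504830) (nat_lit 80) (nat_lit 5) (nat_lit 84) (nat_lit 5) (nat_lit 81) (nat_lit 5) (nat_lit 621) (nat_lit 484) (nat_lit 455)) (XT.nd (nat_lit 78) (nat_lit 228) (nat_lit 0) (XT.lf (nat_lit 0) (nat_lit 6367959330) (nat_lit 304) (nat_lit 3879368704) (nat_lit 76) (nat_lit 1752720695) (nat_lit 77) (nat_lit 5) (nat_lit 81) (nat_lit 5) (nat_lit 78) (nat_lit 4) (nat_lit 622) (nat_lit 484) (nat_lit 454)) (XT.lf (nat_lit 0) (nat_lit 5500463067) (nat_lit 228) (nat_lit 5711280646) (nat_lit 304) (nat_lit 919007978) (nat_lit 74) (nat_lit 5) (nat_lit 77) (nat_lit 5) (nat_lit 78) (nat_lit 4) (nat_lit 623) (nat_lit 484) (nat_lit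 453)))) (XT.nd (nat_lit 78) (nat_lit 304) (nat_lit 0) (XT.lf (nat_lit 0) (nat_lit 2769741674) (nat_lit 228) (nat_lit 1055288043) (nat_lit 304) (nat_lit 8438783393) (nat_lit 70) (nat_lit 5) (nat_lit 73) (nat_lit 5) (nat_lit 74) (nat_lit 5) (nat_lit 624) (nat_lit 484) (nat_lit 452)) (XT.nd (nat_lit 78) (nat_lit 304) (nat_lit 0) (XT.lf (nat_lit 0) (nat_lit 8664133247) (nat_lit 304) (nat_lit 79665952) (nat_lit 76) (nat_lit 3655368320) (nat_lit 70) (nat_lit 5) (nat_lit 74) (nat_lit 5) (nat_lit 71) (nat_lit 4) (nat_lit 625) (nat_lit 484) (nat_lit 451)) (XT.lf (nat_lit 0) (nat_lit 1062712219) (nat_lit 304) (nat_lit 2999103605) (nat_lit 76) (nat_lit 8475000911) (nat_lit 66) (nat_lit 5) (nat_lit 70) (nat_lit 5) (nat_lit 67) (nat_lit 5) (nat_lit 626) (nat_lit 484) (nat_lit 450))))) (XT.nd (nat_lit 234) (nat_lit 456) (nat_lit 0) (XT.nd (nat_lit 78) (nat_lit 456) (nat_lit 0) (XT.lf (nat_lit 0) (nat_lit 5899805556) (nat_lit 304) (nat_lit 6044632837) (nat_lit 76) (nat_lit 732421580)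 (nat_lit 63) (nat_lit 5) (nat_lit 67) (nat_lit 5) (nat_lit 64) (nat_lit 4) (nat_lit 627) (nat_lit 484) (nat_lit 449)) (XT.nd (nat_lit 78) (nat_lit 304) (nat_lit 0) (XT.lf (nat_lit 0) (nat_lit 3601061353) (nat_lit 152) (nat_lit 7248216420) (nat_lit 228) (nat_lit 1970116395) (nat_lit 61) (nat_lit 5) (nat_lit 63) (nat_lit 5) (nat_lit 64) (nat_lit 4) (nat_lit 628) (nat_lit 484) (nat_lit 448)) (XT.lf (nat_lit 0) (nat_lit 447428768) (nat_lit 228) (nat_lit 2435989515) (nat_lit 304) (nat_lit 10081204149) (nat_lit 57) (nat_lit 5) (nat_lit 60) (nat_lit 5) (nat_lit 61) (nat_lit 5) (nat_lit 629) (nat_lit 484) (nat_lit 447)))) (XT.nd (nat_lit 78) (nat_lit 456) (nat_lit 0) (XT.lf (nat_lit 0) (nat_lit 7831358306) (nat_lit 304) (nat_lit 2806513644) (nat_lit 76) (nat_lit 2474151240) (nat_lit 57) (nat_lit 5) (nat_lit 61) (nat_lit 5) (nat_lit 58) (nat_lit 4) (nat_lit 630) (nat_lit 484) (nat_lit 446)) (XT.nd (nat_lit 78) (nat_lit 304) (nat_lit 0) (XT.lf (nat_lit 0) (nat_lit 7080056452) (nat_lit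 152) (nat_lit 5806740034) (nat_lit 228) (nat_lit 375407308) (nat_lit 55) (nat_lit 5) (nat_lit 57) (nat_lit 5) (nat_lit 58) (nat_lit 4) (nat_lit 631) (nat_lit 484) (nat_lit 445)) (XT.lf (nat_lit 0) (nat_lit 3710749033) (nat_lit 228) (nat_lit 846081846) (nat_lit 304) (nat_lit 8858167252) (nat_lit 51) (nat_lit 5) (nat_lit 54) (nat_lit 5) (nat_lit 55) (nat_lit 5) (nat_lit 632) (nat_lit 484) (nat_lit 444)))))) (XT.nd (nat_lit 468) (nat_lit 912) (nat_lit 0) (XT.nd (nat_lit 234) (nat_lit 380) (nat_lit 0) (XT.nd (nat_lit 78) (nat_lit 304) (nat_lit 0) (XT.lf (nat_lit 0) (nat_lit 192385409) (nat_lit 152) (nat_lit 9407361567) (nat_lit 228) (nat_lit 3970713019) (nat_lit 49) (nat_lit 5) (nat_lit 51) (nat_lit 5) (nat_lit 52) (nat_lit 4) (nat_lit 633) (nat_lit 484) (nat_lit 443)) (XT.nd (nat_lit 78) (nat_lit 228) (nat_lit 0) (XT.lf (nat_lit 0) (nat_lit 1019105333) (nat_lit 228) (nat_lit 3417239949) (nat_lit 76) (nat_lit 9292198045) (nat_lit 48) (nat_lit 5) (nat_lit 51) (nat_lit 5) (nat_lit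 49) (nat_lit 5) (nat_lit 634) (nat_lit 484) (nat_lit 442)) (XT.lf (nat_lit 0) (nat_lit 6051294612) (nat_lit 304) (nat_lit 7182733002) (nat_lit 76) (nat_lit 655323260) (nat_lit 45) (nat_lit 5) (nat_lit 49) (nat_lit 5) (nat_lit 46) (nat_lit 4) (nat_lit 635) (nat_lit 484) (nat_lit 441)))) (XT.nd (nat_lit 78) (nat_lit 228) (nat_lit 0) (XT.lf (nat_lit 0) (nat_lit 2941736849) (nat_lit 152) (nat_lit 8261915789) (nat_lit 228) (nat_lit 2849333711) (nat_lit 43) (nat_lit 5) (nat_lit 45) (nat_lit 5) (nat_lit 46) (nat_lit 4) (nat_lit 636) (nat_lit 484) (nat_lit 440)) (XT.nd (nat_lit 78) (nat_lit 152) (nat_lit 0) (XT.lf (nat_lit 0) (nat_lit 2206349632) (nat_lit 228) (nat_lit 961475888) (nat_lit 76) (nat_lit 11051849374) (nat_lit 42) (nat_lit 5) (nat_lit 45) (nat_lit 5) (nat_lit 43) (nat_lit 5) (nat_lit 637) (nat_lit 484) (nat_lit 439)) (XT.lf (nat_lit 0) (nat_lit 7348570347) (nat_lit 228) (nat_lit 4998704378) (nat_lit 76) (nat_lit 2041576425) (nat_lit 40) (nat_lit 5) (nat_lit 43) (nat_lit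 5) (nat_lit 41) (nat_lit 4) (nat_lit 638) (nat_lit 484) (nat_lit 438))))) (XT.nd (nat_lit 234) (nat_lit 532) (nat_lit 0) (XT.nd (nat_lit 78) (nat_lit 228) (nat_lit 0) (XT.lf (nat_lit 0) (nat_lit 5357745817) (nat_lit 152) (nat_lit 7247344071) (nat_lit 228) (nat_lit 1956094060) (nat_lit 38) (nat_lit 5) (nat_lit 40) (nat_lit 5) (nat_lit 41) (nat_lit 4) (nat_lit 639) (nat_lit 484) (nat_lit 437)) (XT.nd (nat_lit 78) (nat_lit 0) (nat_lit 0) (XT.lf (nat_lit 0) (nat_lit 1154618244) (nat_lit 152) (nat_lit 2023322977) (nat_lit 228) (nat_lit 11558794328) (nat_lit 35) (nat_lit 5) (nat_lit 37) (nat_lit 5) (nat_lit 38) (nat_lit 5) (nat_lit 640) (nat_lit 484) (nat_lit 436)) (XT.lf (nat_lit 0) (nat_lit 8421512510) (nat_lit 228) (nat_lit 3197054223) (nat_lit 76) (nat_lit 3296313889) (nat_lit 35) (nat_lit 5) (nat_lit 38) (nat_lit 5) (nat_lit 36) (nat_lit 4) (nat_lit 641) (nat_lit 484) (nat_lit 435)))) (XT.nd (nat_lit 156) (nat_lit 152) (nat_lit 0) (XT.nd (nat_lit 78) (nat_lit 228) (nat_lit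 0) (XT.lf (nat_lit 0) (nat_lit 7388765292) (nat_lit 152) (nat_lit 6392949036) (nat_lit 228) (nat_lit 1314641030) (nat_lit 33) (nat_lit 5) (nat_lit 35) (nat_lit 5) (nat_lit 36) (nat_lit 4) (nat_lit 642) (nat_lit 484) (nat_lit 434)) (XT.lf (nat_lit 0) (nat_lit 2869827498) (nat_lit 152) (nat_lit 1036473720) (nat_lit 228) (nat_lit 11374831483) (nat_lit 30) (nat_lit 5) (nat_lit 32) (nat_lit 5) (nat_lit 33) (nat_lit 5) (nat_lit 643) (nat_lit 484) (nat_lit 433))) (XT.nd (nat_lit 78) (nat_lit 152) (nat_lit 0) (XT.lf (nat_lit 0) (nat_lit 9245455664) (nat_lit 228) (nat_lit 1833732592) (nat_lit 76) (nat_lit 4389617444) (nat_lit 30) (nat_lit 5) (nat_lit 33) (nat_lit 5) (nat_lit 31) (nat_lit 4) (nat_lit 644) (nat_lit 484) (nat_lit 432)) (XT.lf (nat_lit 0) (nat_lit 8977404313) (nat_lit 152) (nat_lit 5730680949) (nat_lit 228) (nat_lit 951814852) (nat_lit 28) (nat_lit 5) (nat_lit 30) (nat_lit 5) (nat_lit 31) (nat_lit 4) (nat_lit 645) (nat_lit 484) (nat_lit 431))))))) (XT.nd (nat_lit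 77532) (nat_lit 0) (nat_lit 6612) (XT.nd (nat_lit 77064) (nat_lit 0) (nat_lit 10412) (XT.nd (nat_lit 76830) (nat_lit 0) (nat_lit 12768) (XT.nd (nat_lit 78) (nat_lit 76) (nat_lit 0) (XT.lf (nat_lit 0) (nat_lit 4111233727) (nat_lit 152) (nat_lit 246557906) (nat_lit 228) (nat_lit 11496638343) (nat_lit 25) (nat_lit 5) (nat_lit 27) (nat_lit 5) (nat_lit 28) (nat_lit 5) (nat_lit 646) (nat_lit 484) (nat_lit 430)) (XT.nd (nat_lit 78) (nat_lit 76) (nat_lit 0) (XT.lf (nat_lit 0) (nat_lit 9792426653) (nat_lit 228) (nat_lit 970890186) (nat_lit 76) (nat_lit 5288777838) (nat_lit 25) (nat_lit 5) (nat_lit 28) (nat_lit 5) (nat_lit 26) (nat_lit 4) (nat_lit 647) (nat_lit 484) (nat_lit 429)) (XT.lf (nat_lit 0) (nat_lit 10059872890) (nat_lit 76) (nat_lit 5295487891) (nat_lit 152) (nat_lit 897961419) (nat_lit 24) (nat_lit 5) (nat_lit 25) (nat_lit 5) (nat_lit 26) (nat_lit 4) (nat_lit 648) (nat_lit 484) (nat_lit 428)))) (XT.nd (nat_lit 78) (nat_lit 988) (nat_lit 0) (XT.lf (nat_lit 0) (nat_lit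 1512801133) (nat_lit 532) (nat_lit 1457966960) (nat_lit 532) (nat_lit 1457966960) (nat_lit 205) (nat_lit 4) (nat_lit 212) (nat_lit 5) (nat_lit 212) (nat_lit 4) (nat_lit 590) (nat_lit 485) (nat_lit 485)) (XT.nd (nat_lit 78) (nat_lit 456) (nat_lit 0) (XT.lf (nat_lit 0) (nat_lit 1325720629) (nat_lit 532) (nat_lit 7226503163) (nat_lit 0) (nat_lit 377636497) (nat_lit 198) (nat_lit 5) (nat_lit 205) (nat_lit 4) (nat_lit 198) (nat_lit 4) (nat_lit 591) (nat_lit 485) (nat_lit 484)) (XT.lf (nat_lit 0) (nat_lit 329267305) (nat_lit 456) (nat_lit 5275895752) (nat_lit 456) (nat_lit 3398317374) (nat_lit 192) (nat_lit 4) (nat_lit 198) (nat_lit 5) (nat_lit 198) (nat_lit 4) (nat_lit 592) (nat_lit 485) (nat_lit 483))))) (XT.nd (nat_lit 234) (nat_lit 1292) (nat_lit 0) (XT.nd (nat_lit 78) (nat_lit 988) (nat_lit 0) (XT.lf (nat_lit 0) (nat_lit 860098684) (nat_lit 532) (nat_lit 1051447904) (nat_lit 76) (nat_lit 7167314512) (nat_lit 191) (nat_lit 5) (nat_lit 198) (nat_lit 5) (nat_lit 192) (nat_lit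 4) (nat_lit 593) (nat_lit 485) (nat_lit 482)) (XT.nd (nat_lit 78) (nat_lit 532) (nat_lit 0) (XT.lf (nat_lit 0) (nat_lit 5144449536) (nat_lit 532) (nat_lit 2476729996) (nat_lit 0) (nat_lit 1534402380) (nat_lit 185) (nat_lit 5) (nat_lit 192) (nat_lit 4) (nat_lit 185) (nat_lit 4) (nat_lit 594) (nat_lit 485) (nat_lit 481)) (XT.lf (nat_lit 0) (nat_lit 264223198) (nat_lit 532) (nat_lit 3935025304) (nat_lit 76) (nat_lit 5034814028) (nat_lit 178) (nat_lit 5) (nat_lit 185) (nat_lit 5) (nat_lit 179) (nat_lit 4) (nat_lit 595) (nat_lit 485) (nat_lit 480)))) (XT.nd (nat_lit 78) (nat_lit 912) (nat_lit 0) (XT.lf (nat_lit 0) (nat_lit 3873691241) (nat_lit 380) (nat_lit 673001323) (nat_lit 456) (nat_lit 4767390377) (nat_lit 173) (nat_lit 5) (nat_lit 178) (nat_lit 5) (nat_lit 179) (nat_lit 4) (nat_lit 596) (nat_lit 485) (nat_lit 479)) (XT.nd (nat_lit 78) (nat_lit 456) (nat_lit 0) (XT.lf (nat_lit 0) (nat_lit 2408177343) (nat_lit 456) (nat_lit 6501655544) (nat_lit 456) (nat_lit 485977082)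 (nat_lit 167) (nat_lit 4) (nat_lit 173) (nat_lit 5) (nat_lit 173) (nat_lit 4) (nat_lit 597) (nat_lit 485) (nat_lit 478)) (XT.lf (nat_lit 0) (nat_lit 889578272) (nat_lit 380) (nat_lit 2921595551) (nat_lit 456) (nat_lit 5667879921) (nat_lit 161) (nat_lit 5) (nat_lit 166) (nat_lit 5) (nat_lit 167) (nat_lit 4) (nat_lit 598) (nat_lit 485) (nat_lit 477)))))) (XT.nd (nat_lit 468) (nat_lit 1748) (nat_lit 0) (XT.nd (nat_lit 234) (nat_lit 1216) (nat_lit 0) (XT.nd (nat_lit 78) (nat_lit 836) (nat_lit 0) (XT.lf (nat_lit 0) (nat_lit 8174147837) (nat_lit 456) (nat_lit 653873197) (nat_lit 0) (nat_lit 736155623) (nat_lit 161) (nat_lit 5) (nat_lit 167) (nat_lit 4) (nat_lit 161) (nat_lit 4) (nat_lit 599) (nat_lit 485) (nat_lit 476)) (XT.nd (nat_lit 78) (nat_lit 380) (nat_lit 0) (XT.lf (nat_lit 0) (nat_lit 2937639514) (nat_lit 456) (nat_lit 2251518260) (nat_lit 76) (nat_lit 4461399030) (nat_lit 155) (nat_lit 5) (nat_lit 161) (nat_lit 5) (nat_lit 156) (nat_lit 4) (nat_lit 600) (nat_lit 485)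 (nat_lit 475)) (XT.lf (nat_lit 0) (nat_lit 5850955491) (nat_lit 380) (nat_lit 1460631361) (nat_lit 456) (nat_lit 2427333073) (nat_lit 150) (nat_lit 5) (nat_lit 155) (nat_lit 5) (nat_lit 156) (nat_lit 4) (nat_lit 601) (nat_lit 485) (nat_lit 474)))) (XT.nd (nat_lit 78) (nat_lit 760) (nat_lit 0) (XT.lf (nat_lit 0) (nat_lit 1912781218) (nat_lit 456) (nat_lit 5584200796) (nat_lit 76) (nat_lit 2331935253) (nat_lit 144) (nat_lit 5) (nat_lit 150) (nat_lit 5) (nat_lit 145) (nat_lit 4) (nat_lit 602) (nat_lit 485) (nat_lit 473)) (XT.nd (nat_lit 78) (nat_lit 456) (nat_lit 0) (XT.lf (nat_lit 0) (nat_lit 2580059376) (nat_lit 304) (nat_lit 3716329807) (nat_lit 380) (nat_lit 3624226166) (nat_lit 140) (nat_lit 5) (nat_lit 144) (nat_lit 5) (nat_lit 145) (nat_lit 4) (nat_lit 603) (nat_lit 485) (nat_lit 472)) (XT.lf (nat_lit 0) (nat_lit 724683384) (nat_lit 456) (nat_lit 9139799335) (nat_lit 76) (nat_lit 149951284) (nat_lit 134) (nat_lit 5) (nat_lit 140) (nat_lit 5) (nat_lit 135) (nat_lit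 4) (nat_lit 604) (nat_lit 485) (nat_lit 471))))) (XT.nd (nat_lit 234) (nat_lit 1064) (nat_lit 0) (XT.nd (nat_lit 78) (nat_lit 684) (nat_lit 0) (XT.lf (nat_lit 0) (nat_lit 5123287752) (nat_lit 456) (nat_lit 905412622) (nat_lit 76) (nat_lit 4080729866) (nat_lit 134) (nat_lit 5) (nat_lit 140) (nat_lit 5) (nat_lit 135) (nat_lit 4) (nat_lit 605) (nat_lit 485) (nat_lit 470)) (XT.nd (nat_lit 78) (nat_lit 380) (nat_lit 0) (XT.lf (nat_lit 0) (nat_lit 7492950977) (nat_lit 304) (nat_lit 2103800657) (nat_lit 380) (nat_lit 609842152) (nat_lit 130) (nat_lit 5) (nat_lit 134) (nat_lit 5) (nat_lit 135) (nat_lit 4) (nat_lit 606) (nat_lit 485) (nat_lit 469)) (XT.lf (nat_lit 0) (nat_lit 3797613605) (nat_lit 380) (nat_lit 4601379640) (nat_lit 76) (nat_lit 1906328334) (nat_lit 125) (nat_lit 5) (nat_lit 130) (nat_lit 5) (nat_lit 126) (nat_lit 4) (nat_lit 607) (nat_lit 485) (nat_lit 468)))) (XT.nd (nat_lit 156) (nat_lit 380) (nat_lit 0) (XT.nd (nat_lit 78) (nat_lit 380) (nat_lit 0) (XT.lf (nat_lit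 0) (nat_lit 3853972155) (nat_lit 304) (nat_lit 4427099350) (nat_lit 380) (nat_lit 2124956262) (nat_lit 121) (nat_lit 5) (nat_lit 125) (nat_lit 5) (nat_lit 126) (nat_lit 4) (nat_lit 608) (nat_lit 485) (nat_lit 467)) (XT.lf (nat_lit 0) (nat_lit 1943077623) (nat_lit 304) (nat_lit 354188414) (nat_lit 380) (nat_lit 8211530593) (nat_lit 116) (nat_lit 5) (nat_lit 120) (nat_lit 5) (nat_lit 121) (nat_lit 5) (nat_lit 609) (nat_lit 485) (nat_lit 466))) (XT.nd (nat_lit 78) (nat_lit 380) (nat_lit 0) (XT.lf (nat_lit 0) (nat_lit 6787623326) (nat_lit 380) (nat_lit 54807850) (nat_lit 76) (nat_lit 3770750457) (nat_lit 116) (nat_lit 5) (nat_lit 121) (nat_lit 5) (nat_lit 117) (nat_lit 4) (nat_lit 610) (nat_lit 485) (nat_lit 465)) (XT.lf (nat_lit 0) (nat_lit 638435712) (nat_lit 380) (nat_lit 2084598779) (nat_lit 76) (nat_lit 7996564009) (nat_lit 111) (nat_lit 5) (nat_lit 116) (nat_lit 5) (nat_lit 112) (nat_lit 5) (nat_lit 611) (nat_lit 485) (nat_lit 464))))))))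
noncomputable def xc18 : XT := (XT.nd (nat_lit 1950) (nat_lit 1596) (nat_lit 0) (XT.nd (nat_lit 936) (nat_lit 2204) (nat_lit 0) (XT.nd (nat_lit 468) (nat_lit 1292) (nat_lit 0) (XT.nd (nat_lit 234) (nat_lit 608) (nat_lit 0) (XT.nd (nat_lit 78) (nat_lit 608) (nat_lit 0) (XT.lf (nat_lit 0) (nat_lit 5134304846) (nat_lit 380) (nat_lit 4203026638) (nat_lit 76) (nat_lit 1490434385) (nat_lit 107) (nat_lit 5) (nat_lit 112) (nat_lit 5) (nat_lit 108) (nat_lit 4) (nat_lit 612) (nat_lit 485) (nat_lit 463)) (XT.nd (nat_lit 78) (nat_lit 380) (nat_lit 0) (XT.lf (nat_lit 0) (nat_lit 4541708921) (nat_lit 228) (nat_lit 5180786622) (nat_lit 304) (nat_lit 1215557169) (nat_lit 104) (nat_lit 5) (nat_lit 107) (nat_lit 5) (nat_lit 108) (nat_lit 4) (nat_lit 613) (nat_lit 485) (nat_lit 462)) (XT.lf (nat_lit 0) (nat_lit 2379006349) (nat_lit 304) (nat_lit 913709848) (nat_lit 380) (nat_lit 7757702440) (nat_lit 99) (nat_lit 5) (nat_lit 103) (nat_lit 5) (nat_lit 104) (nat_lit 5) (nat_lit 614) (nat_lit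 485) (nat_lit 461)))) (XT.nd (nat_lit 78) (nat_lit 380) (nat_lit 0) (XT.lf (nat_lit 0) (nat_lit 124519736) (nat_lit 228) (nat_lit 7757917624) (nat_lit 304) (nat_lit 3282286617) (nat_lit 96) (nat_lit 5) (nat_lit 99) (nat_lit 5) (nat_lit 100) (nat_lit 4) (nat_lit 615) (nat_lit 485) (nat_lit 460)) (XT.nd (nat_lit 78) (nat_lit 304) (nat_lit 0) (XT.lf (nat_lit 0) (nat_lit 1271768687) (nat_lit 304) (nat_lit 2179982220) (nat_lit 76) (nat_lit 7829282711) (nat_lit 95) (nat_lit 5) (nat_lit 99) (nat_lit 5) (nat_lit 96) (nat_lit 5) (nat_lit 616) (nat_lit 485) (nat_lit 459)) (XT.lf (nat_lit 0) (nat_lit 5866094770) (nat_lit 380) (nat_lit 4577568553) (nat_lit 76) (nat_lit 955713159) (nat_lit 91) (nat_lit 5) (nat_lit 96) (nat_lit 5) (nat_lit 92) (nat_lit 4) (nat_lit 617) (nat_lit 485) (nat_lit 458))))) (XT.nd (nat_lit 234) (nat_lit 760) (nat_lit 0) (XT.nd (nat_lit 78) (nat_lit 304) (nat_lit 0) (XT.lf (nat_lit 0) (nat_lit 4451527615) (nat_lit 228) (nat_lit 6109990801) (nat_lit 304) (nat_lit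 958387230) (nat_lit 88) (nat_lit 5) (nat_lit 91) (nat_lit 5) (nat_lit 92) (nat_lit 4) (nat_lit 618) (nat_lit 485) (nat_lit 457)) (XT.nd (nat_lit 78) (nat_lit 0) (nat_lit 0) (XT.lf (nat_lit 0) (nat_lit 1985372687) (nat_lit 228) (nat_lit 1660652743) (nat_lit 304) (nat_lit 7996608961) (nat_lit 84) (nat_lit 5) (nat_lit 87) (nat_lit 5) (nat_lit 88) (nat_lit 5) (nat_lit 619) (nat_lit 485) (nat_lit 456)) (XT.lf (nat_lit 0) (nat_lit 8339207819) (nat_lit 304) (nat_lit 573849678) (nat_lit 76) (nat_lit 2854446683) (nat_lit 84) (nat_lit 5) (nat_lit 88) (nat_lit 5) (nat_lit 85) (nat_lit 4) (nat_lit 620) (nat_lit 485) (nat_lit 455)))) (XT.nd (nat_lit 78) (nat_lit 456) (nat_lit 0) (XT.lf (nat_lit 0) (nat_lit 1226969360) (nat_lit 304) (nat_lit 3204130573) (nat_lit 76) (nat_lit 7463380117) (nat_lit 80) (nat_lit 5) (nat_lit 84) (nat_lit 5) (nat_lit 81) (nat_lit 5) (nat_lit 621) (nat_lit 485) (nat_lit 454)) (XT.nd (nat_lit 78) (nat_lit 228) (nat_lit 0) (XT.lf (nat_lit 0) (nat_lit 5918246582)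 (nat_lit 304) (nat_lit 5939959006) (nat_lit 76) (nat_lit 165563662) (nat_lit 77) (nat_lit 5) (nat_lit 81) (nat_lit 5) (nat_lit 78) (nat_lit 4) (nat_lit 622) (nat_lit 485) (nat_lit 453)) (XT.lf (nat_lit 0) (nat_lit 3364299859) (nat_lit 228) (nat_lit 7356391260) (nat_lit 304) (nat_lit 1434609469) (nat_lit 74) (nat_lit 5) (nat_lit 77) (nat_lit 5) (nat_lit 78) (nat_lit 4) (nat_lit 623) (nat_lit 485) (nat_lit 452)))))) (XT.nd (nat_lit 468) (nat_lit 1140) (nat_lit 0) (XT.nd (nat_lit 234) (nat_lit 456) (nat_lit 0) (XT.nd (nat_lit 78) (nat_lit 304) (nat_lit 0) (XT.lf (nat_lit 0) (nat_lit 535464459) (nat_lit 228) (nat_lit 2738799089) (nat_lit 304) (nat_lit 9015005467) (nat_lit 70) (nat_lit 5) (nat_lit 73) (nat_lit 5) (nat_lit 74) (nat_lit 5) (nat_lit 624) (nat_lit 485) (nat_lit 451)) (XT.nd (nat_lit 78) (nat_lit 304) (nat_lit 0) (XT.lf (nat_lit 0) (nat_lit 8075116163) (nat_lit 304) (nat_lit 2376179909) (nat_lit 76) (nat_lit 1974093859) (nat_lit 70) (nat_lit 5) (nat_lit 74) (nat_lit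 5) (nat_lit 71) (nat_lit 4) (nat_lit 625) (nat_lit 485) (nat_lit 450)) (XT.lf (nat_lit 0) (nat_lit 413059652) (nat_lit 304) (nat_lit 5396328304) (nat_lit 76) (nat_lit 6754582153) (nat_lit 66) (nat_lit 5) (nat_lit 70) (nat_lit 5) (nat_lit 67) (nat_lit 5) (nat_lit 626) (nat_lit 485) (nat_lit 449)))) (XT.nd (nat_lit 78) (nat_lit 228) (nat_lit 0) (XT.lf (nat_lit 0) (nat_lit 4160612440) (nat_lit 228) (nat_lit 1041904138) (nat_lit 304) (nat_lit 7502450899) (nat_lit 63) (nat_lit 5) (nat_lit 66) (nat_lit 5) (nat_lit 67) (nat_lit 5) (nat_lit 627) (nat_lit 485) (nat_lit 448)) (XT.nd (nat_lit 78) (nat_lit 76) (nat_lit 0) (XT.lf (nat_lit 0) (nat_lit 1027431681) (nat_lit 152) (nat_lit 9074436509) (nat_lit 228) (nat_lit 2746637269) (nat_lit 61) (nat_lit 5) (nat_lit 63) (nat_lit 5) (nat_lit 64) (nat_lit 4) (nat_lit 628) (nat_lit 485) (nat_lit 447)) (XT.lf (nat_lit 0) (nat_lit 2087573965) (nat_lit 228) (nat_lit 2203103383) (nat_lit 76) (nat_lit 8703748683) (nat_lit 60) (nat_lit 5) (nat_lit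 63) (nat_lit 5) (nat_lit 61) (nat_lit 5) (nat_lit 629) (nat_lit 485) (nat_lit 446))))) (XT.nd (nat_lit 234) (nat_lit 456) (nat_lit 0) (XT.nd (nat_lit 78) (nat_lit 456) (nat_lit 0) (XT.lf (nat_lit 0) (nat_lit 6982366468) (nat_lit 304) (nat_lit 5551332658) (nat_lit 76) (nat_lit 609191910) (nat_lit 57) (nat_lit 5) (nat_lit 61) (nat_lit 5) (nat_lit 58) (nat_lit 4) (nat_lit 630) (nat_lit 485) (nat_lit 445)) (XT.nd (nat_lit 78) (nat_lit 304) (nat_lit 0) (XT.lf (nat_lit 0) (nat_lit 4252016652) (nat_lit 152) (nat_lit 7741430831) (nat_lit 228) (nat_lit 1300512570) (nat_lit 55) (nat_lit 5) (nat_lit 57) (nat_lit 5) (nat_lit 58) (nat_lit 4) (nat_lit 631) (nat_lit 485) (nat_lit 444)) (XT.lf (nat_lit 0) (nat_lit 772247190) (nat_lit 228) (nat_lit 2826577190) (nat_lit 304) (nat_lit 9848952042) (nat_lit 51) (nat_lit 5) (nat_lit 54) (nat_lit 5) (nat_lit 55) (nat_lit 5) (nat_lit 632) (nat_lit 485) (nat_lit 443)))) (XT.nd (nat_lit 156) (nat_lit 304) (nat_lit 0) (XT.nd (nat_lit 78) (nat_lit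 152) (nat_lit 0) (XT.lf (nat_lit 0) (nat_lit 8601757688) (nat_lit 304) (nat_lit 2814814052) (nat_lit 76) (nat_lit 2187467399) (nat_lit 51) (nat_lit 5) (nat_lit 55) (nat_lit 5) (nat_lit 52) (nat_lit 4) (nat_lit 633) (nat_lit 485) (nat_lit 442)) (XT.lf (nat_lit 0) (nat_lit 7227584713) (nat_lit 152) (nat_lit 6491567619) (nat_lit 228) (nat_lit 43989096) (nat_lit 49) (nat_lit 5) (nat_lit 51) (nat_lit 5) (nat_lit 52) (nat_lit 4) (nat_lit 634) (nat_lit 485) (nat_lit 441))) (XT.nd (nat_lit 78) (nat_lit 0) (nat_lit 0) (XT.lf (nat_lit 0) (nat_lit 3505556804) (nat_lit 228) (nat_lit 1432766487) (nat_lit 304) (nat_lit 8986641599) (nat_lit 45) (nat_lit 5) (nat_lit 48) (nat_lit 5) (nat_lit 49) (nat_lit 5) (nat_lit 635) (nat_lit 485) (nat_lit 440)) (XT.lf (nat_lit 0) (nat_lit 10037022950) (nat_lit 304) (nat_lit 369679907) (nat_lit 76) (nat_lit 3682971783) (nat_lit 45) (nat_lit 5) (nat_lit 49) (nat_lit 5) (nat_lit 46) (nat_lit 4) (nat_lit 636) (nat_lit 485) (nat_lit 439))))))) (XT.nd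 (nat_lit 77376) (nat_lit 0) (nat_lit 9956) (XT.nd (nat_lit 468) (nat_lit 684) (nat_lit 0) (XT.nd (nat_lit 234) (nat_lit 380) (nat_lit 0) (XT.nd (nat_lit 78) (nat_lit 304) (nat_lit 0) (XT.lf (nat_lit 0) (nat_lit 991143977) (nat_lit 228) (nat_lit 4352213461) (nat_lit 76) (nat_lit 8913716452) (nat_lit 42) (nat_lit 5) (nat_lit 45) (nat_lit 5) (nat_lit 43) (nat_lit 5) (nat_lit 637) (nat_lit 485) (nat_lit 438)) (XT.nd (nat_lit 78) (nat_lit 152) (nat_lit 0) (XT.lf (nat_lit 0) (nat_lit 5922847598) (nat_lit 152) (nat_lit 149758051) (nat_lit 228) (nat_lit 8354860720) (nat_lit 40) (nat_lit 5) (nat_lit 42) (nat_lit 5) (nat_lit 43) (nat_lit 5) (nat_lit 638) (nat_lit 485) (nat_lit 437)) (XT.lf (nat_lit 0) (nat_lit 1760953770) (nat_lit 152) (nat_lit 9519188333) (nat_lit 228) (nat_lit 3320637746) (nat_lit 38) (nat_lit 5) (nat_lit 40) (nat_lit 5) (nat_lit 41) (nat_lit 4) (nat_lit 639) (nat_lit 485) (nat_lit 436)))) (XT.nd (nat_lit 78) (nat_lit 304) (nat_lit 0) (XT.lf (nat_lit 0) (nat_lit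 1799171554) (nat_lit 228) (nat_lit 2532764928) (nat_lit 76) (nat_lit 10445215585) (nat_lit 37) (nat_lit 5) (nat_lit 40) (nat_lit 5) (nat_lit 38) (nat_lit 5) (nat_lit 640) (nat_lit 485) (nat_lit 435)) (XT.nd (nat_lit 78) (nat_lit 152) (nat_lit 0) (XT.lf (nat_lit 0) (nat_lit 6986419549) (nat_lit 228) (nat_lit 6988524273) (nat_lit 76) (nat_lit 981480746) (nat_lit 35) (nat_lit 5) (nat_lit 38) (nat_lit 5) (nat_lit 36) (nat_lit 4) (nat_lit 641) (nat_lit 485) (nat_lit 434)) (XT.lf (nat_lit 0) (nat_lit 3502425801) (nat_lit 152) (nat_lit 8794883494) (nat_lit 228) (nat_lit 2841577195) (nat_lit 33) (nat_lit 5) (nat_lit 35) (nat_lit 5) (nat_lit 36) (nat_lit 4) (nat_lit 642) (nat_lit 485) (nat_lit 433))))) (XT.nd (nat_lit 234) (nat_lit 304) (nat_lit 0) (XT.nd (nat_lit 78) (nat_lit 304) (nat_lit 0) (XT.lf (nat_lit 0) (nat_lit 2356708762) (nat_lit 228) (nat_lit 1130698646) (nat_lit 76) (nat_lit 11837309256) (nat_lit 32) (nat_lit 5) (nat_lit 35) (nat_lit 5) (nat_lit 33) (nat_lit 5) (nat_lit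 643) (nat_lit 485) (nat_lit 432)) (XT.nd (nat_lit 78) (nat_lit 152) (nat_lit 0) (XT.lf (nat_lit 0) (nat_lit 7648472316) (nat_lit 228) (nat_lit 5921047281) (nat_lit 76) (nat_lit 1943818774) (nat_lit 30) (nat_lit 5) (nat_lit 33) (nat_lit 5) (nat_lit 31) (nat_lit 4) (nat_lit 644) (nat_lit 485) (nat_lit 431)) (XT.lf (nat_lit 0) (nat_lit 4792069017) (nat_lit 152) (nat_lit 8268339577) (nat_lit 228) (nat_lit 2645038929) (nat_lit 28) (nat_lit 5) (nat_lit 30) (nat_lit 5) (nat_lit 31) (nat_lit 4) (nat_lit 645) (nat_lit 485) (nat_lit 430)))) (XT.nd (nat_lit 78) (nat_lit 228) (nat_lit 0) (XT.lf (nat_lit 0) (nat_lit 2636589885) (nat_lit 228) (nat_lit 205733481) (nat_lit 76) (nat_lit 13058878420) (nat_lit 27) (nat_lit 5) (nat_lit 30) (nat_lit 5) (nat_lit 28) (nat_lit 5) (nat_lit 646) (nat_lit 485) (nat_lit 429)) (XT.nd (nat_lit 78) (nat_lit 76) (nat_lit 0) (XT.lf (nat_lit 0) (nat_lit 8029572469) (nat_lit 228) (nat_lit 5363742482) (nat_lit 76) (nat_lit 2706385404) (nat_lit 25) (nat_lit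 5) (nat_lit 28) (nat_lit 5) (nat_lit 26) (nat_lit 4) (nat_lit 647) (nat_lit 485) (nat_lit 428)) (XT.lf (nat_lit 0) (nat_lit 5565711691) (nat_lit 76) (nat_lit 7974638842) (nat_lit 152) (nat_lit 2761621275) (nat_lit 24) (nat_lit 5) (nat_lit 25) (nat_lit 5) (nat_lit 26) (nat_lit 4) (nat_lit 648) (nat_lit 485) (nat_lit 427)))))) (XT.nd (nat_lit 468) (nat_lit 2736) (nat_lit 0) (XT.nd (nat_lit 234) (nat_lit 1064) (nat_lit 0) (XT.nd (nat_lit 78) (nat_lit 1064) (nat_lit 0) (XT.lf (nat_lit 0) (nat_lit 2822043781) (nat_lit 532) (nat_lit 768247130) (nat_lit 532) (nat_lit 768247130) (nat_lit 219) (nat_lit 4) (nat_lit 226) (nat_lit 5) (nat_lit 226) (nat_lit 4) (nat_lit 588) (nat_lit 486) (nat_lit 486)) (XT.nd (nat_lit 78) (nat_lit 532) (nat_lit 0) (XT.lf (nat_lit 0) (nat_lit 2656013615) (nat_lit 532) (nat_lit 4461195802) (nat_lit 0) (nat_lit 1669626885) (nat_lit 212) (nat_lit 5) (nat_lit 219) (nat_lit 4) (nat_lit 212) (nat_lit 4) (nat_lit 589) (nat_lit 486) (nat_lit 485)) (XT.lf (nat_lit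 0) (nat_lit 2976021077) (nat_lit 532) (nat_lit 3917783930) (nat_lit 532) (nat_lit 1964351386) (nat_lit 205) (nat_lit 4) (nat_lit 212) (nat_lit 5) (nat_lit 212) (nat_lit 4) (nat_lit 590) (nat_lit 486) (nat_lit 484)))) (XT.nd (nat_lit 78) (nat_lit 532) (nat_lit 0) (XT.lf (nat_lit 0) (nat_lit 1598983071) (nat_lit 456) (nat_lit 628987100) (nat_lit 532) (nat_lit 6703193669) (nat_lit 198) (nat_lit 5) (nat_lit 204) (nat_lit 5) (nat_lit 205) (nat_lit 4) (nat_lit 591) (nat_lit 486) (nat_lit 483)) (XT.nd (nat_lit 78) (nat_lit 76) (nat_lit 0) (XT.lf (nat_lit 0) (nat_lit 176360291) (nat_lit 456) (nat_lit 6292545296) (nat_lit 456) (nat_lit 2536652234) (nat_lit 192) (nat_lit 4) (nat_lit 198) (nat_lit 5) (nat_lit 198) (nat_lit 4) (nat_lit 592) (nat_lit 486) (nat_lit 482)) (XT.lf (nat_lit 0) (nat_lit 1677147220) (nat_lit 532) (nat_lit 1261456528) (nat_lit 76) (nat_lit 6142892725) (nat_lit 191) (nat_lit 5) (nat_lit 198) (nat_lit 5) (nat_lit 192) (nat_lit 4) (nat_lit 593) (nat_lit 486)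 (nat_lit 481))))) (XT.nd (nat_lit 234) (nat_lit 1368) (nat_lit 0) (XT.nd (nat_lit 78) (nat_lit 912) (nat_lit 0) (XT.lf (nat_lit 0) (nat_lit 5920352987) (nat_lit 532) (nat_lit 2735177995) (nat_lit 0) (nat_lit 503512691) (nat_lit 185) (nat_lit 5) (nat_lit 192) (nat_lit 4) (nat_lit 185) (nat_lit 4) (nat_lit 594) (nat_lit 486) (nat_lit 480)) (XT.nd (nat_lit 78) (nat_lit 380) (nat_lit 0) (XT.lf (nat_lit 0) (nat_lit 991844746) (nat_lit 532) (nat_lit 4255185484) (nat_lit 76) (nat_lit 3991090896) (nat_lit 178) (nat_lit 5) (nat_lit 185) (nat_lit 5) (nat_lit 179) (nat_lit 4) (nat_lit 595) (nat_lit 486) (nat_lit 479)) (XT.lf (nat_lit 0) (nat_lit 3499825954) (nat_lit 380) (nat_lit 1739729549) (nat_lit 456) (nat_lit 4079284494) (nat_lit 173) (nat_lit 5) (nat_lit 178) (nat_lit 5) (nat_lit 179) (nat_lit 4) (nat_lit 596) (nat_lit 486) (nat_lit 478)))) (XT.nd (nat_lit 156) (nat_lit 456) (nat_lit 0) (XT.nd (nat_lit 78) (nat_lit 380) (nat_lit 0) (XT.lf (nat_lit 0) (nat_lit 157385021) (nat_lit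 532) (nat_lit 7420569354) (nat_lit 76) (nat_lit 1823431417) (nat_lit 166) (nat_lit 5) (nat_lit 173) (nat_lit 5) (nat_lit 167) (nat_lit 4) (nat_lit 597) (nat_lit 486) (nat_lit 477)) (XT.lf (nat_lit 0) (nat_lit 397914601) (nat_lit 380) (nat_lit 4015036342) (nat_lit 456) (nat_lit 5072322842) (nat_lit 161) (nat_lit 5) (nat_lit 166) (nat_lit 5) (nat_lit 167) (nat_lit 4) (nat_lit 598) (nat_lit 486) (nat_lit 476))) (XT.nd (nat_lit 78) (nat_lit 456) (nat_lit 0) (XT.lf (nat_lit 0) (nat_lit 8374779561) (nat_lit 380) (nat_lit 364594146) (nat_lit 456) (nat_lit 831757050) (nat_lit 161) (nat_lit 5) (nat_lit 166) (nat_lit 5) (nat_lit 167) (nat_lit 4) (nat_lit 599) (nat_lit 486) (nat_lit 475)) (XT.lf (nat_lit 0) (nat_lit 3450904717) (nat_lit 456) (nat_lit 2858891291) (nat_lit 76) (nat_lit 3348399017) (nat_lit 155) (nat_lit 5) (nat_lit 161) (nat_lit 5) (nat_lit 156) (nat_lit 4) (nat_lit 600) (nat_lit 486) (nat_lit 474))))))))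
noncomputable def xc19 : XT := (XT.nd (nat_lit 1950) (nat_lit 3496) (nat_lit 0) (XT.nd (nat_lit 936) (nat_lit 2812) (nat_lit 0) (XT.nd (nat_lit 468) (nat_lit 1748) (nat_lit 0) (XT.nd (nat_lit 234) (nat_lit 760) (nat_lit 0) (XT.nd (nat_lit 78) (nat_lit 760) (nat_lit 0) (XT.lf (nat_lit 0) (nat_lit 5186409511) (nat_lit 380) (nat_lit 2603024951) (nat_lit 456) (nat_lit 1957834895) (nat_lit 150) (nat_lit 5) (nat_lit 155) (nat_lit 5) (nat_lit 156) (nat_lit 4) (nat_lit 601) (nat_lit 486) (nat_lit 473)) (XT.nd (nat_lit 78) (nat_lit 304) (nat_lit 0) (XT.lf (nat_lit 0) (nat_lit 2332800589) (nat_lit 456) (nat_lit 6319790435) (nat_lit 76) (nat_lit 1185483884) (nat_lit 144) (nat_lit 5) (nat_lit 150) (nat_lit 5) (nat_lit 145) (nat_lit 4) (nat_lit 602) (nat_lit 486) (nat_lit 472)) (XT.lf (nat_lit 0) (nat_lit 1785309159) (nat_lit 304) (nat_lit 4895108156) (nat_lit 380) (nat_lit 3250078195) (nat_lit 140) (nat_lit 5) (nat_lit 144) (nat_lit 5) (nat_lit 145) (nat_lit 4) (nat_lit 603) (nat_lit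 486) (nat_lit 471)))) (XT.nd (nat_lit 78) (nat_lit 304) (nat_lit 0) (XT.lf (nat_lit 0) (nat_lit 8379200) (nat_lit 380) (nat_lit 1048181898) (nat_lit 456) (nat_lit 8968454338) (nat_lit 134) (nat_lit 5) (nat_lit 139) (nat_lit 5) (nat_lit 140) (nat_lit 5) (nat_lit 604) (nat_lit 486) (nat_lit 470)) (XT.nd (nat_lit 78) (nat_lit 304) (nat_lit 0) (XT.lf (nat_lit 0) (nat_lit 5417784836) (nat_lit 456) (nat_lit 1824445144) (nat_lit 76) (nat_lit 2878531847) (nat_lit 134) (nat_lit 5) (nat_lit 140) (nat_lit 5) (nat_lit 135) (nat_lit 4) (nat_lit 605) (nat_lit 486) (nat_lit 469)) (XT.lf (nat_lit 0) (nat_lit 6513026261) (nat_lit 304) (nat_lit 3341884509) (nat_lit 380) (nat_lit 363743852) (nat_lit 130) (nat_lit 5) (nat_lit 134) (nat_lit 5) (nat_lit 135) (nat_lit 4) (nat_lit 606) (nat_lit 486) (nat_lit 468))))) (XT.nd (nat_lit 234) (nat_lit 684) (nat_lit 0) (XT.nd (nat_lit 78) (nat_lit 684) (nat_lit 0) (XT.lf (nat_lit 0) (nat_lit 3995542526) (nat_lit 380) (nat_lit 5661505392) (nat_lit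 76) (nat_lit 661203770) (nat_lit 125) (nat_lit 5) (nat_lit 130) (nat_lit 5) (nat_lit 126) (nat_lit 4) (nat_lit 607) (nat_lit 486) (nat_lit 467)) (XT.nd (nat_lit 78) (nat_lit 380) (nat_lit 0) (XT.lf (nat_lit 0) (nat_lit 2730832179) (nat_lit 304) (nat_lit 5711137004) (nat_lit 380) (nat_lit 1977731663) (nat_lit 121) (nat_lit 5) (nat_lit 125) (nat_lit 5) (nat_lit 126) (nat_lit 4) (nat_lit 608) (nat_lit 486) (nat_lit 466)) (XT.lf (nat_lit 0) (nat_lit 741182752) (nat_lit 304) (nat_lit 1663908706) (nat_lit 380) (nat_lit 8118110755) (nat_lit 116) (nat_lit 5) (nat_lit 120) (nat_lit 5) (nat_lit 121) (nat_lit 5) (nat_lit 609) (nat_lit 486) (nat_lit 465)))) (XT.nd (nat_lit 78) (nat_lit 684) (nat_lit 0) (XT.lf (nat_lit 0) (nat_lit 6857429011) (nat_lit 380) (nat_lit 1311118450) (nat_lit 76) (nat_lit 2459802361) (nat_lit 116) (nat_lit 5) (nat_lit 121) (nat_lit 5) (nat_lit 117) (nat_lit 4) (nat_lit 610) (nat_lit 486) (nat_lit 464)) (XT.nd (nat_lit 78) (nat_lit 304) (nat_lit 0) (XT.lf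 (nat_lit 0) (nat_lit 654590513) (nat_lit 380) (nat_lit 3421826585) (nat_lit 76) (nat_lit 6659099944) (nat_lit 111) (nat_lit 5) (nat_lit 116) (nat_lit 5) (nat_lit 112) (nat_lit 5) (nat_lit 611) (nat_lit 486) (nat_lit 463)) (XT.lf (nat_lit 0) (nat_lit 5103510666) (nat_lit 380) (nat_lit 5614004822) (nat_lit 76) (nat_lit 127109988) (nat_lit 107) (nat_lit 5) (nat_lit 112) (nat_lit 5) (nat_lit 108) (nat_lit 4) (nat_lit 612) (nat_lit 486) (nat_lit 462)))))) (XT.nd (nat_lit 468) (nat_lit 1368) (nat_lit 0) (XT.nd (nat_lit 234) (nat_lit 836) (nat_lit 0) (XT.nd (nat_lit 78) (nat_lit 380) (nat_lit 0) (XT.lf (nat_lit 0) (nat_lit 3063570024) (nat_lit 228) (nat_lit 6589802801) (nat_lit 304) (nat_lit 1302308107) (nat_lit 104) (nat_lit 5) (nat_lit 107) (nat_lit 5) (nat_lit 108) (nat_lit 4) (nat_lit 613) (nat_lit 486) (nat_lit 461)) (XT.nd (nat_lit 78) (nat_lit 0) (nat_lit 0) (XT.lf (nat_lit 0) (nat_lit 815452913) (nat_lit 304) (nat_lit 2352831651) (nat_lit 380) (nat_lit 7900551889) (nat_lit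 99) (nat_lit 5) (nat_lit 103) (nat_lit 5) (nat_lit 104) (nat_lit 5) (nat_lit 614) (nat_lit 486) (nat_lit 460)) (XT.lf (nat_lit 0) (nat_lit 7719316105) (nat_lit 380) (nat_lit 1497715486) (nat_lit 76) (nat_lit 1966885920) (nat_lit 99) (nat_lit 5) (nat_lit 104) (nat_lit 5) (nat_lit 100) (nat_lit 4) (nat_lit 615) (nat_lit 486) (nat_lit 459)))) (XT.nd (nat_lit 78) (nat_lit 532) (nat_lit 0) (XT.lf (nat_lit 0) (nat_lit 1053449847) (nat_lit 304) (nat_lit 3888302203) (nat_lit 76) (nat_lit 6359268530) (nat_lit 95) (nat_lit 5) (nat_lit 99) (nat_lit 5) (nat_lit 96) (nat_lit 5) (nat_lit 616) (nat_lit 486) (nat_lit 458)) (XT.nd (nat_lit 78) (nat_lit 228) (nat_lit 0) (XT.lf (nat_lit 0) (nat_lit 5049475389) (nat_lit 304) (nat_lit 552546022) (nat_lit 380) (nat_lit 5818258938) (nat_lit 91) (nat_lit 5) (nat_lit 95) (nat_lit 5) (nat_lit 96) (nat_lit 5) (nat_lit 617) (nat_lit 486) (nat_lit 457)) (XT.lf (nat_lit 0) (nat_lit 2590249053) (nat_lit 228) (nat_lit 7663725265) (nat_lit 304) (nat_lit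 1287706387) (nat_lit 88) (nat_lit 5) (nat_lit 91) (nat_lit 5) (nat_lit 92) (nat_lit 4) (nat_lit 618) (nat_lit 486) (nat_lit 456))))) (XT.nd (nat_lit 234) (nat_lit 760) (nat_lit 0) (XT.nd (nat_lit 78) (nat_lit 304) (nat_lit 0) (XT.lf (nat_lit 0) (nat_lit 31554153) (nat_lit 228) (nat_lit 3249043413) (nat_lit 304) (nat_lit 8384664913) (nat_lit 84) (nat_lit 5) (nat_lit 87) (nat_lit 5) (nat_lit 88) (nat_lit 5) (nat_lit 619) (nat_lit 486) (nat_lit 455)) (XT.nd (nat_lit 78) (nat_lit 304) (nat_lit 0) (XT.lf (nat_lit 0) (nat_lit 7935837418) (nat_lit 304) (nat_lit 2587376127) (nat_lit 76) (nat_lit 1267679248) (nat_lit 84) (nat_lit 5) (nat_lit 88) (nat_lit 5) (nat_lit 85) (nat_lit 4) (nat_lit 620) (nat_lit 486) (nat_lit 454)) (XT.lf (nat_lit 0) (nat_lit 764896144) (nat_lit 304) (nat_lit 5312659761) (nat_lit 76) (nat_lit 5841188011) (nat_lit 80) (nat_lit 5) (nat_lit 84) (nat_lit 5) (nat_lit 81) (nat_lit 5) (nat_lit 621) (nat_lit 486) (nat_lit 453)))) (XT.nd (nat_lit 156) (nat_lit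 304) (nat_lit 0) (XT.nd (nat_lit 78) (nat_lit 228) (nat_lit 0) (XT.lf (nat_lit 0) (nat_lit 3901233987) (nat_lit 228) (nat_lit 1512636306) (nat_lit 304) (nat_lit 6635010463) (nat_lit 77) (nat_lit 5) (nat_lit 80) (nat_lit 5) (nat_lit 81) (nat_lit 5) (nat_lit 622) (nat_lit 486) (nat_lit 452)) (XT.lf (nat_lit 0) (nat_lit 1089980774) (nat_lit 228) (nat_lit 9074814810) (nat_lit 304) (nat_lit 2016648444) (nat_lit 74) (nat_lit 5) (nat_lit 77) (nat_lit 5) (nat_lit 78) (nat_lit 4) (nat_lit 623) (nat_lit 486) (nat_lit 451))) (XT.nd (nat_lit 78) (nat_lit 228) (nat_lit 0) (XT.lf (nat_lit 0) (nat_lit 2669498710) (nat_lit 304) (nat_lit 1814918059) (nat_lit 76) (nat_lit 7831679942) (nat_lit 73) (nat_lit 5) (nat_lit 77) (nat_lit 5) (nat_lit 74) (nat_lit 5) (nat_lit 624) (nat_lit 486) (nat_lit 450)) (XT.lf (nat_lit 0) (nat_lit 7420213542) (nat_lit 304) (nat_lit 4813111245) (nat_lit 76) (nat_lit 219897055) (nat_lit 70) (nat_lit 5) (nat_lit 74) (nat_lit 5) (nat_lit 71) (nat_lit 4) (nat_lit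 625) (nat_lit 486) (nat_lit 449))))))) (XT.nd (nat_lit 936) (nat_lit 1444) (nat_lit 0) (XT.nd (nat_lit 468) (nat_lit 912) (nat_lit 0) (XT.nd (nat_lit 234) (nat_lit 608) (nat_lit 0) (XT.nd (nat_lit 78) (nat_lit 304) (nat_lit 0) (XT.lf (nat_lit 0) (nat_lit 4654628726) (nat_lit 228) (nat_lit 7630448406) (nat_lit 304) (nat_lit 307632541) (nat_lit 67) (nat_lit 5) (nat_lit 70) (nat_lit 5) (nat_lit 71) (nat_lit 4) (nat_lit 626) (nat_lit 486) (nat_lit 448)) (XT.nd (nat_lit 78) (nat_lit 0) (nat_lit 0) (XT.lf (nat_lit 0) (nat_lit 1540588397) (nat_lit 228) (nat_lit 2902045420) (nat_lit 304) (nat_lit 8291979052) (nat_lit 63) (nat_lit 5) (nat_lit 66) (nat_lit 5) (nat_lit 67) (nat_lit 5) (nat_lit 627) (nat_lit 486) (nat_lit 447)) (XT.lf (nat_lit 0) (nat_lit 9297113702) (nat_lit 304) (nat_lit 1669634048) (nat_lit 76) (nat_lit 1912301884) (nat_lit 63) (nat_lit 5) (nat_lit 67) (nat_lit 5) (nat_lit 64) (nat_lit 4) (nat_lit 628) (nat_lit 486) (nat_lit 446)))) (XT.nd (nat_lit 78) (nat_lit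 380) (nat_lit 0) (XT.lf (nat_lit 0) (nat_lit 1226092186) (nat_lit 228) (nat_lit 4993669368) (nat_lit 76) (nat_lit 6806061177) (nat_lit 60) (nat_lit 5) (nat_lit 63) (nat_lit 5) (nat_lit 61) (nat_lit 5) (nat_lit 629) (nat_lit 486) (nat_lit 445)) (XT.nd (nat_lit 78) (nat_lit 152) (nat_lit 0) (XT.lf (nat_lit 0) (nat_lit 4722254268) (nat_lit 228) (nat_lit 1350396975) (nat_lit 304) (nat_lit 7102602432) (nat_lit 57) (nat_lit 5) (nat_lit 60) (nat_lit 5) (nat_lit 61) (nat_lit 5) (nat_lit 630) (nat_lit 486) (nat_lit 444)) (XT.lf (nat_lit 0) (nat_lit 1274845423) (nat_lit 152) (nat_lit 9755303455) (nat_lit 228) (nat_lit 2297246726) (nat_lit 55) (nat_lit 5) (nat_lit 57) (nat_lit 5) (nat_lit 58) (nat_lit 4) (nat_lit 631) (nat_lit 486) (nat_lit 443))))) (XT.nd (nat_lit 234) (nat_lit 456) (nat_lit 0) (XT.nd (nat_lit 78) (nat_lit 380) (nat_lit 0) (XT.lf (nat_lit 0) (nat_lit 2584702106) (nat_lit 228) (nat_lit 2287284134) (nat_lit 76) (nat_lit 8609965569) (nat_lit 54) (nat_lit 5) (nat_lit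 57) (nat_lit 5) (nat_lit 55) (nat_lit 5) (nat_lit 632) (nat_lit 486) (nat_lit 442)) (XT.nd (nat_lit 78) (nat_lit 152) (nat_lit 0) (XT.lf (nat_lit 0) (nat_lit 7533840031) (nat_lit 304) (nat_lit 5971186608) (nat_lit 76) (nat_lit 134264968) (nat_lit 51) (nat_lit 5) (nat_lit 55) (nat_lit 5) (nat_lit 52) (nat_lit 4) (nat_lit 633) (nat_lit 486) (nat_lit 441)) (XT.lf (nat_lit 0) (nat_lit 3984216077) (nat_lit 152) (nat_lit 8621090249) (nat_lit 228) (nat_lit 1194007287) (nat_lit 49) (nat_lit 5) (nat_lit 51) (nat_lit 5) (nat_lit 52) (nat_lit 4) (nat_lit 634) (nat_lit 486) (nat_lit 440)))) (XT.nd (nat_lit 78) (nat_lit 152) (nat_lit 0) (XT.lf (nat_lit 0) (nat_lit 144909815) (nat_lit 228) (nat_lit 3611824592) (nat_lit 304) (nat_lit 10205486176) (nat_lit 45) (nat_lit 5) (nat_lit 48) (nat_lit 5) (nat_lit 49) (nat_lit 5) (nat_lit 635) (nat_lit 486) (nat_lit 439)) (XT.nd (nat_lit 78) (nat_lit 152) (nat_lit 0) (XT.lf (nat_lit 0) (nat_lit 8816525203) (nat_lit 304) (nat_lit 3798006007) (nat_lit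 76) (nat_lit 1513178383) (nat_lit 45) (nat_lit 5) (nat_lit 49) (nat_lit 5) (nat_lit 46) (nat_lit 4) (nat_lit 636) (nat_lit 486) (nat_lit 438)) (XT.lf (nat_lit 0) (nat_lit 6393346700) (nat_lit 152) (nat_lit 7600557895) (nat_lit 228) (nat_lit 302278080) (nat_lit 43) (nat_lit 5) (nat_lit 45) (nat_lit 5) (nat_lit 46) (nat_lit 4) (nat_lit 637) (nat_lit 486) (nat_lit 437)))))) (XT.nd (nat_lit 468) (nat_lit 608) (nat_lit 0) (XT.nd (nat_lit 234) (nat_lit 380) (nat_lit 0) (XT.nd (nat_lit 78) (nat_lit 228) (nat_lit 0) (XT.lf (nat_lit 0) (nat_lit 2282713600) (nat_lit 152) (nat_lit 2452558431) (nat_lit 228) (nat_lit 9732300916) (nat_lit 40) (nat_lit 5) (nat_lit 42) (nat_lit 5) (nat_lit 43) (nat_lit 5) (nat_lit 638) (nat_lit 486) (nat_lit 436)) (XT.nd (nat_lit 78) (nat_lit 228) (nat_lit 0) (XT.lf (nat_lit 0) (nat_lit 9892249388) (nat_lit 228) (nat_lit 1971232105) (nat_lit 76) (nat_lit 2778417118) (nat_lit 40) (nat_lit 5) (nat_lit 43) (nat_lit 5) (nat_lit 41) (nat_lit 4) (nat_lit 639)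 (nat_lit 486) (nat_lit 435)) (XT.lf (nat_lit 0) (nat_lit 351704490) (nat_lit 228) (nat_lit 6366996622) (nat_lit 76) (nat_lit 8100500188) (nat_lit 37) (nat_lit 5) (nat_lit 40) (nat_lit 5) (nat_lit 38) (nat_lit 5) (nat_lit 640) (nat_lit 486) (nat_lit 434)))) (XT.nd (nat_lit 78) (nat_lit 228) (nat_lit 0) (XT.lf (nat_lit 0) (nat_lit 4045753300) (nat_lit 152) (nat_lit 1437564708) (nat_lit 228) (nat_lit 9516269427) (nat_lit 35) (nat_lit 5) (nat_lit 37) (nat_lit 5) (nat_lit 38) (nat_lit 5) (nat_lit 641) (nat_lit 486) (nat_lit 433)) (XT.nd (nat_lit 78) (nat_lit 228) (nat_lit 0) (XT.lf (nat_lit 0) (nat_lit 10738526826) (nat_lit 228) (nat_lit 542524008) (nat_lit 76) (nat_lit 3902113066) (nat_lit 35) (nat_lit 5) (nat_lit 38) (nat_lit 5) (nat_lit 36) (nat_lit 4) (nat_lit 642) (nat_lit 486) (nat_lit 432)) (XT.lf (nat_lit 0) (nat_lit 747502476) (nat_lit 228) (nat_lit 5259845050) (nat_lit 76) (nat_lit 9362399017) (nat_lit 32) (nat_lit 5) (nat_lit 35) (nat_lit 5) (nat_lit 33) (nat_lit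 5) (nat_lit 643) (nat_lit 486) (nat_lit 431))))) (XT.nd (nat_lit 234) (nat_lit 228) (nat_lit 0) (XT.nd (nat_lit 78) (nat_lit 228) (nat_lit 0) (XT.lf (nat_lit 0) (nat_lit 5378528197) (nat_lit 152) (nat_lit 597390678) (nat_lit 228) (nat_lit 9583717189) (nat_lit 30) (nat_lit 5) (nat_lit 32) (nat_lit 5) (nat_lit 33) (nat_lit 5) (nat_lit 644) (nat_lit 486) (nat_lit 430)) (XT.nd (nat_lit 78) (nat_lit 76) (nat_lit 0) (XT.lf (nat_lit 0) (nat_lit 436479232) (nat_lit 152) (nat_lit 10896159703) (nat_lit 228) (nat_lit 4420211460) (nat_lit 28) (nat_lit 5) (nat_lit 30) (nat_lit 5) (nat_lit 31) (nat_lit 4) (nat_lit 645) (nat_lit 486) (nat_lit 429)) (XT.lf (nat_lit 0) (nat_lit 861667930) (nat_lit 228) (nat_lit 4639512765) (nat_lit 76) (nat_lit 10448115920) (nat_lit 27) (nat_lit 5) (nat_lit 30) (nat_lit 5) (nat_lit 28) (nat_lit 5) (nat_lit 646) (nat_lit 486) (nat_lit 428)))) (XT.nd (nat_lit 76440) (nat_lit 0) (nat_lit 15352) (XT.nd (nat_lit 78) (nat_lit 76) (nat_lit 0) (XT.lf (nat_lit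 0) (nat_lit 6185047682) (nat_lit 228) (nat_lit 9930033509) (nat_lit 76) (nat_lit 34106856) (nat_lit 25) (nat_lit 5) (nat_lit 28) (nat_lit 5) (nat_lit 26) (nat_lit 4) (nat_lit 647) (nat_lit 486) (nat_lit 427)) (XT.lf (nat_lit 0) (nat_lit 896648621) (nat_lit 76) (nat_lit 10746336008) (nat_lit 152) (nat_lit 4709532481) (nat_lit 24) (nat_lit 5) (nat_lit 25) (nat_lit 5) (nat_lit 26) (nat_lit 4) (nat_lit 648) (nat_lit 486) (nat_lit 426))) (XT.nd (nat_lit 78) (nat_lit 608) (nat_lit 0) (XT.lf (nat_lit 0) (nat_lit 4121740653) (nat_lit 532) (nat_lit 84512492) (nat_lit 532) (nat_lit 84512492) (nat_lit 234) (nat_lit 4) (nat_lit 241) (nat_lit 5) (nat_lit 241) (nat_lit 4) (nat_lit 586) (nat_lit 487) (nat_lit 487)) (XT.lf (nat_lit 0) (nat_lit 3975648567) (nat_lit 608) (nat_lit 1723639367) (nat_lit 0) (nat_lit 2949411812) (nat_lit 226) (nat_lit 5) (nat_lit 234) (nat_lit 4) (nat_lit 226) (nat_lit 4) (nat_lit 587) (nat_lit 487) (nat_lit 486))))))))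
noncomputable def xc20 : XT := (XT.nd (nat_lit 1950) (nat_lit 4864) (nat_lit 0) (XT.nd (nat_lit 936) (nat_lit 4104) (nat_lit 0) (XT.nd (nat_lit 468) (nat_lit 2280) (nat_lit 0) (XT.nd (nat_lit 234) (nat_lit 1064) (nat_lit 0) (XT.nd (nat_lit 78) (nat_lit 1064) (nat_lit 0) (XT.lf (nat_lit 0) (nat_lit 5595875876) (nat_lit 532) (nat_lit 2577116023) (nat_lit 532) (nat_lit 544764804) (nat_lit 219) (nat_lit 4) (nat_lit 226) (nat_lit 5) (nat_lit 226) (nat_lit 4) (nat_lit 588) (nat_lit 487) (nat_lit 485)) (XT.nd (nat_lit 78) (nat_lit 532) (nat_lit 0) (XT.lf (nat_lit 0) (nat_lit 3593860169) (nat_lit 532) (nat_lit 4560036266) (nat_lit 0) (nat_lit 634313159) (nat_lit 212) (nat_lit 5) (nat_lit 219) (nat_lit 4) (nat_lit 212) (nat_lit 4) (nat_lit 589) (nat_lit 487) (nat_lit 484)) (XT.lf (nat_lit 0) (nat_lit 2827258068) (nat_lit 532) (nat_lit 4970294296) (nat_lit 532) (nat_lit 1062663155) (nat_lit 205) (nat_lit 4) (nat_lit 212) (nat_lit 5) (nat_lit 212) (nat_lit 4) (nat_lit 590) (nat_lit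 487) (nat_lit 483)))) (XT.nd (nat_lit 78) (nat_lit 532) (nat_lit 0) (XT.lf (nat_lit 0) (nat_lit 1391486900) (nat_lit 456) (nat_lit 1691984529) (nat_lit 532) (nat_lit 5850325373) (nat_lit 198) (nat_lit 5) (nat_lit 204) (nat_lit 5) (nat_lit 205) (nat_lit 4) (nat_lit 591) (nat_lit 487) (nat_lit 482)) (XT.nd (nat_lit 78) (nat_lit 532) (nat_lit 0) (XT.lf (nat_lit 0) (nat_lit 7283585174) (nat_lit 532) (nat_lit 77521140) (nat_lit 0) (nat_lit 1647904530) (nat_lit 198) (nat_lit 5) (nat_lit 205) (nat_lit 4) (nat_lit 198) (nat_lit 4) (nat_lit 592) (nat_lit 487) (nat_lit 481)) (XT.lf (nat_lit 0) (nat_lit 2444558555) (nat_lit 532) (nat_lit 1573555550) (nat_lit 76) (nat_lit 5067397054) (nat_lit 191) (nat_lit 5) (nat_lit 198) (nat_lit 5) (nat_lit 192) (nat_lit 4) (nat_lit 593) (nat_lit 487) (nat_lit 480))))) (XT.nd (nat_lit 234) (nat_lit 912) (nat_lit 0) (XT.nd (nat_lit 78) (nat_lit 912) (nat_lit 0) (XT.lf (nat_lit 0) (nat_lit 6062856171) (nat_lit 456) (nat_lit 587207695) (nat_lit 532)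 (nat_lit 2513751922) (nat_lit 185) (nat_lit 5) (nat_lit 191) (nat_lit 5) (nat_lit 192) (nat_lit 4) (nat_lit 594) (nat_lit 487) (nat_lit 479)) (XT.nd (nat_lit 78) (nat_lit 380) (nat_lit 0) (XT.lf (nat_lit 0) (nat_lit 1668709643) (nat_lit 532) (nat_lit 4680328496) (nat_lit 76) (nat_lit 2894535575) (nat_lit 178) (nat_lit 5) (nat_lit 185) (nat_lit 5) (nat_lit 179) (nat_lit 4) (nat_lit 595) (nat_lit 487) (nat_lit 478)) (XT.lf (nat_lit 0) (nat_lit 3020552282) (nat_lit 380) (nat_lit 2861059072) (nat_lit 456) (nat_lit 3443380634) (nat_lit 173) (nat_lit 5) (nat_lit 178) (nat_lit 5) (nat_lit 179) (nat_lit 4) (nat_lit 596) (nat_lit 487) (nat_lit 477)))) (XT.nd (nat_lit 78) (nat_lit 380) (nat_lit 0) (XT.lf (nat_lit 0) (nat_lit 742434632) (nat_lit 532) (nat_lit 7964612477) (nat_lit 76) (nat_lit 701261481) (nat_lit 166) (nat_lit 5) (nat_lit 173) (nat_lit 5) (nat_lit 167) (nat_lit 4) (nat_lit 597) (nat_lit 487) (nat_lit 476)) (XT.nd (nat_lit 78) (nat_lit 380) (nat_lit 0) (XT.lf (nat_lit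 0) (nat_lit 4964025752) (nat_lit 532) (nat_lit 199507439) (nat_lit 76) (nat_lit 4329345922) (nat_lit 166) (nat_lit 5) (nat_lit 173) (nat_lit 5) (nat_lit 167) (nat_lit 4) (nat_lit 598) (nat_lit 487) (nat_lit 475)) (XT.lf (nat_lit 0) (nat_lit 7726862818) (nat_lit 380) (nat_lit 1531186759) (nat_lit 456) (nat_lit 321337466) (nat_lit 161) (nat_lit 5) (nat_lit 166) (nat_lit 5) (nat_lit 167) (nat_lit 4) (nat_lit 599) (nat_lit 487) (nat_lit 474)))))) (XT.nd (nat_lit 468) (nat_lit 2052) (nat_lit 0) (XT.nd (nat_lit 234) (nat_lit 760) (nat_lit 0) (XT.nd (nat_lit 78) (nat_lit 836) (nat_lit 0) (XT.lf (nat_lit 0) (nat_lit 3911607328) (nat_lit 456) (nat_lit 3576295547) (nat_lit 76) (nat_lit 2179345470) (nat_lit 155) (nat_lit 5) (nat_lit 161) (nat_lit 5) (nat_lit 156) (nat_lit 4) (nat_lit 600) (nat_lit 487) (nat_lit 473)) (XT.nd (nat_lit 78) (nat_lit 456) (nat_lit 0) (XT.lf (nat_lit 0) (nat_lit 4411332819) (nat_lit 380) (nat_lit 3803278886) (nat_lit 456) (nat_lit 1542424285) (nat_lit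 150) (nat_lit 5) (nat_lit 155) (nat_lit 5) (nat_lit 156) (nat_lit 4) (nat_lit 601) (nat_lit 487) (nat_lit 472)) (XT.lf (nat_lit 0) (nat_lit 2679999282) (nat_lit 380) (nat_lit 19065845) (nat_lit 456) (nat_lit 7149599125) (nat_lit 144) (nat_lit 5) (nat_lit 149) (nat_lit 5) (nat_lit 150) (nat_lit 5) (nat_lit 602) (nat_lit 487) (nat_lit 471)))) (XT.nd (nat_lit 78) (nat_lit 456) (nat_lit 0) (XT.lf (nat_lit 0) (nat_lit 876862316) (nat_lit 304) (nat_lit 6133570850) (nat_lit 380) (nat_lit 2931379304) (nat_lit 140) (nat_lit 5) (nat_lit 144) (nat_lit 5) (nat_lit 145) (nat_lit 4) (nat_lit 603) (nat_lit 487) (nat_lit 470)) (XT.nd (nat_lit 78) (nat_lit 380) (nat_lit 0) (XT.lf (nat_lit 0) (nat_lit 1340882774) (nat_lit 380) (nat_lit 961434126) (nat_lit 76) (nat_lit 7734580601) (nat_lit 139) (nat_lit 5) (nat_lit 144) (nat_lit 5) (nat_lit 140) (nat_lit 5) (nat_lit 604) (nat_lit 487) (nat_lit 469)) (XT.lf (nat_lit 0) (nat_lit 5657621095) (nat_lit 456) (nat_lit 2858899734) (nat_lit 76)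 (nat_lit 1617015261) (nat_lit 134) (nat_lit 5) (nat_lit 140) (nat_lit 5) (nat_lit 135) (nat_lit 4) (nat_lit 605) (nat_lit 487) (nat_lit 468))))) (XT.nd (nat_lit 234) (nat_lit 1064) (nat_lit 0) (XT.nd (nat_lit 78) (nat_lit 684) (nat_lit 0) (XT.lf (nat_lit 0) (nat_lit 5417100063) (nat_lit 304) (nat_lit 4641143618) (nat_lit 380) (nat_lit 173917713) (nat_lit 130) (nat_lit 5) (nat_lit 134) (nat_lit 5) (nat_lit 135) (nat_lit 4) (nat_lit 606) (nat_lit 487) (nat_lit 467)) (XT.nd (nat_lit 78) (nat_lit 304) (nat_lit 0) (XT.lf (nat_lit 0) (nat_lit 3487950361) (nat_lit 304) (nat_lit 653650669) (nat_lit 380) (nat_lit 6190960686) (nat_lit 125) (nat_lit 5) (nat_lit 129) (nat_lit 5) (nat_lit 130) (nat_lit 5) (nat_lit 607) (nat_lit 487) (nat_lit 466)) (XT.lf (nat_lit 0) (nat_lit 1488337309) (nat_lit 304) (nat_lit 7058223391) (nat_lit 380) (nat_lit 1888281816) (nat_lit 121) (nat_lit 5) (nat_lit 125) (nat_lit 5) (nat_lit 126) (nat_lit 4) (nat_lit 608) (nat_lit 487) (nat_lit 465)))) (XT.nd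 (nat_lit 156) (nat_lit 684) (nat_lit 0) (XT.nd (nat_lit 78) (nat_lit 304) (nat_lit 0) (XT.lf (nat_lit 0) (nat_lit 2459472764) (nat_lit 380) (nat_lit 574169877) (nat_lit 76) (nat_lit 7505369745) (nat_lit 120) (nat_lit 5) (nat_lit 125) (nat_lit 5) (nat_lit 121) (nat_lit 5) (nat_lit 609) (nat_lit 487) (nat_lit 464)) (XT.lf (nat_lit 0) (nat_lit 6870177232) (nat_lit 380) (nat_lit 2688631452) (nat_lit 76) (nat_lit 1086186142) (nat_lit 116) (nat_lit 5) (nat_lit 121) (nat_lit 5) (nat_lit 117) (nat_lit 4) (nat_lit 610) (nat_lit 487) (nat_lit 463))) (XT.nd (nat_lit 78) (nat_lit 304) (nat_lit 0) (XT.lf (nat_lit 0) (nat_lit 612753434) (nat_lit 380) (nat_lit 4882022241) (nat_lit 76) (nat_lit 5258148788) (nat_lit 111) (nat_lit 5) (nat_lit 116) (nat_lit 5) (nat_lit 112) (nat_lit 5) (nat_lit 611) (nat_lit 487) (nat_lit 462)) (XT.lf (nat_lit 0) (nat_lit 3704550838) (nat_lit 304) (nat_lit 1318069958) (nat_lit 380) (nat_lit 5840195200) (nat_lit 107) (nat_lit 5) (nat_lit 111) (nat_lit 5)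 (nat_lit 112) (nat_lit 5) (nat_lit 612) (nat_lit 487) (nat_lit 461))))))) (XT.nd (nat_lit 936) (nat_lit 2280) (nat_lit 0) (XT.nd (nat_lit 468) (nat_lit 1140) (nat_lit 0) (XT.nd (nat_lit 234) (nat_lit 836) (nat_lit 0) (XT.nd (nat_lit 78) (nat_lit 380) (nat_lit 0) (XT.lf (nat_lit 0) (nat_lit 1459998443) (nat_lit 228) (nat_lit 8065347159) (nat_lit 304) (nat_lit 1449470600) (nat_lit 104) (nat_lit 5) (nat_lit 107) (nat_lit 5) (nat_lit 108) (nat_lit 4) (nat_lit 613) (nat_lit 487) (nat_lit 460)) (XT.nd (nat_lit 78) (nat_lit 304) (nat_lit 0) (XT.lf (nat_lit 0) (nat_lit 2989652944) (nat_lit 304) (nat_lit 863898449) (nat_lit 76) (nat_lit 7235109350) (nat_lit 103) (nat_lit 5) (nat_lit 107) (nat_lit 5) (nat_lit 104) (nat_lit 5) (nat_lit 614) (nat_lit 487) (nat_lit 459)) (XT.lf (nat_lit 0) (nat_lit 7497241768) (nat_lit 380) (nat_lit 3245738184) (nat_lit 76) (nat_lit 461632591) (nat_lit 99) (nat_lit 5) (nat_lit 104) (nat_lit 5) (nat_lit 100) (nat_lit 4) (nat_lit 615) (nat_lit 487)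 (nat_lit 458)))) (XT.nd (nat_lit 78) (nat_lit 532) (nat_lit 0) (XT.lf (nat_lit 0) (nat_lit 774370000) (nat_lit 304) (nat_lit 5725925180) (nat_lit 76) (nat_lit 4822243658) (nat_lit 95) (nat_lit 5) (nat_lit 99) (nat_lit 5) (nat_lit 96) (nat_lit 5) (nat_lit 616) (nat_lit 487) (nat_lit 457)) (XT.nd (nat_lit 78) (nat_lit 228) (nat_lit 0) (XT.lf (nat_lit 0) (nat_lit 3140643896) (nat_lit 304) (nat_lit 2142533548) (nat_lit 380) (nat_lit 6159418223) (nat_lit 91) (nat_lit 5) (nat_lit 95) (nat_lit 5) (nat_lit 96) (nat_lit 5) (nat_lit 617) (nat_lit 487) (nat_lit 456)) (XT.lf (nat_lit 0) (nat_lit 596990763) (nat_lit 228) (nat_lit 9287621262) (nat_lit 304) (nat_lit 1680396110) (nat_lit 88) (nat_lit 5) (nat_lit 91) (nat_lit 5) (nat_lit 92) (nat_lit 4) (nat_lit 618) (nat_lit 487) (nat_lit 455))))) (XT.nd (nat_lit 234) (nat_lit 532) (nat_lit 0) (XT.nd (nat_lit 78) (nat_lit 532) (nat_lit 0) (XT.lf (nat_lit 0) (nat_lit 2865654836) (nat_lit 304) (nat_lit 2029247162) (nat_lit 76) (nat_lit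 6794288642) (nat_lit 87) (nat_lit 5) (nat_lit 91) (nat_lit 5) (nat_lit 88) (nat_lit 5) (nat_lit 619) (nat_lit 487) (nat_lit 454)) (XT.nd (nat_lit 78) (nat_lit 304) (nat_lit 0) (XT.lf (nat_lit 0) (nat_lit 7078208101) (nat_lit 228) (nat_lit 394032284) (nat_lit 304) (nat_lit 4343555300) (nat_lit 84) (nat_lit 5) (nat_lit 87) (nat_lit 5) (nat_lit 88) (nat_lit 5) (nat_lit 620) (nat_lit 487) (nat_lit 453)) (XT.lf (nat_lit 0) (nat_lit 238968963) (nat_lit 304) (nat_lit 7557327179) (nat_lit 76) (nat_lit 4148292358) (nat_lit 80) (nat_lit 5) (nat_lit 84) (nat_lit 5) (nat_lit 81) (nat_lit 5) (nat_lit 621) (nat_lit 487) (nat_lit 452)))) (XT.nd (nat_lit 78) (nat_lit 304) (nat_lit 0) (XT.lf (nat_lit 0) (nat_lit 1580523528) (nat_lit 228) (nat_lit 3265846216) (nat_lit 304) (nat_lit 7229188612) (nat_lit 77) (nat_lit 5) (nat_lit 80) (nat_lit 5) (nat_lit 81) (nat_lit 5) (nat_lit 622) (nat_lit 487) (nat_lit 451)) (XT.nd (nat_lit 78) (nat_lit 304) (nat_lit 0) (XT.lf (nat_lit 0) (nat_lit 9552431410)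 (nat_lit 304) (nat_lit 1306029631) (nat_lit 76) (nat_lit 1350559377) (nat_lit 77) (nat_lit 5) (nat_lit 81) (nat_lit 5) (nat_lit 78) (nat_lit 4) (nat_lit 623) (nat_lit 487) (nat_lit 450)) (XT.lf (nat_lit 0) (nat_lit 2002946174) (nat_lit 304) (nat_lit 4297582369) (nat_lit 76) (nat_lit 6043929214) (nat_lit 73) (nat_lit 5) (nat_lit 77) (nat_lit 5) (nat_lit 74) (nat_lit 5) (nat_lit 624) (nat_lit 487) (nat_lit 449)))))) (XT.nd (nat_lit 468) (nat_lit 1064) (nat_lit 0) (XT.nd (nat_lit 234) (nat_lit 684) (nat_lit 0) (XT.nd (nat_lit 78) (nat_lit 304) (nat_lit 0) (XT.lf (nat_lit 0) (nat_lit 5080468626) (nat_lit 228) (nat_lit 1629278288) (nat_lit 304) (nat_lit 5772715685) (nat_lit 70) (nat_lit 5) (nat_lit 73) (nat_lit 5) (nat_lit 74) (nat_lit 5) (nat_lit 625) (nat_lit 487) (nat_lit 448)) (XT.nd (nat_lit 78) (nat_lit 76) (nat_lit 0) (XT.lf (nat_lit 0) (nat_lit 1996503127) (nat_lit 228) (nat_lit 9524526043) (nat_lit 304) (nat_lit 1101994291) (nat_lit 67) (nat_lit 5) (nat_lit 70) (nat_lit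 5) (nat_lit 71) (nat_lit 4) (nat_lit 626) (nat_lit 487) (nat_lit 447)) (XT.lf (nat_lit 0) (nat_lit 3622987460) (nat_lit 304) (nat_lit 1207905095) (nat_lit 76) (nat_lit 7934852655) (nat_lit 66) (nat_lit 5) (nat_lit 70) (nat_lit 5) (nat_lit 67) (nat_lit 5) (nat_lit 627) (nat_lit 487) (nat_lit 446)))) (XT.nd (nat_lit 78) (nat_lit 456) (nat_lit 0) (XT.lf (nat_lit 0) (nat_lit 8412991782) (nat_lit 228) (nat_lit 18461239) (nat_lit 304) (nat_lit 4479650562) (nat_lit 63) (nat_lit 5) (nat_lit 66) (nat_lit 5) (nat_lit 67) (nat_lit 5) (nat_lit 628) (nat_lit 487) (nat_lit 445)) (XT.nd (nat_lit 78) (nat_lit 228) (nat_lit 0) (XT.lf (nat_lit 0) (nat_lit 295730106) (nat_lit 228) (nat_lit 7931231633) (nat_lit 76) (nat_lit 4831921206) (nat_lit 60) (nat_lit 5) (nat_lit 63) (nat_lit 5) (nat_lit 61) (nat_lit 5) (nat_lit 629) (nat_lit 487) (nat_lit 444)) (XT.lf (nat_lit 0) (nat_lit 1700809257) (nat_lit 228) (nat_lit 3396794409) (nat_lit 304) (nat_lit 8111605177) (nat_lit 57) (nat_lit 5) (nat_lit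 60) (nat_lit 5) (nat_lit 61) (nat_lit 5) (nat_lit 630) (nat_lit 487) (nat_lit 443))))) (XT.nd (nat_lit 234) (nat_lit 608) (nat_lit 0) (XT.nd (nat_lit 78) (nat_lit 456) (nat_lit 0) (XT.lf (nat_lit 0) (nat_lit 10008551379) (nat_lit 304) (nat_lit 1828327243) (nat_lit 76) (nat_lit 1525404370) (nat_lit 57) (nat_lit 5) (nat_lit 61) (nat_lit 5) (nat_lit 58) (nat_lit 4) (nat_lit 631) (nat_lit 487) (nat_lit 442)) (XT.nd (nat_lit 78) (nat_lit 228) (nat_lit 0) (XT.lf (nat_lit 0) (nat_lit 1505017506) (nat_lit 228) (nat_lit 5487323446) (nat_lit 76) (nat_lit 6525377721) (nat_lit 54) (nat_lit 5) (nat_lit 57) (nat_lit 5) (nat_lit 55) (nat_lit 5) (nat_lit 632) (nat_lit 487) (nat_lit 441)) (XT.lf (nat_lit 0) (nat_lit 4382351575) (nat_lit 228) (nat_lit 2025122987) (nat_lit 304) (nat_lit 7268518676) (nat_lit 51) (nat_lit 5) (nat_lit 54) (nat_lit 5) (nat_lit 55) (nat_lit 5) (nat_lit 633) (nat_lit 487) (nat_lit 440)))) (XT.nd (nat_lit 156) (nat_lit 380) (nat_lit 0) (XT.nd (nat_lit 78) (nat_lit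 76) (nat_lit 0) (XT.lf (nat_lit 0) (nat_lit 586764296) (nat_lit 152) (nat_lit 10832587014) (nat_lit 228) (nat_lit 2417856853) (nat_lit 49) (nat_lit 5) (nat_lit 51) (nat_lit 5) (nat_lit 52) (nat_lit 4) (nat_lit 634) (nat_lit 487) (nat_lit 439)) (XT.lf (nat_lit 0) (nat_lit 2523648097) (nat_lit 228) (nat_lit 3328015852) (nat_lit 76) (nat_lit 8149116944) (nat_lit 48) (nat_lit 5) (nat_lit 51) (nat_lit 5) (nat_lit 49) (nat_lit 5) (nat_lit 635) (nat_lit 487) (nat_lit 438))) (XT.nd (nat_lit 78) (nat_lit 152) (nat_lit 0) (XT.lf (nat_lit 0) (nat_lit 6779366707) (nat_lit 228) (nat_lit 748071335) (nat_lit 304) (nat_lit 6639952941) (nat_lit 45) (nat_lit 5) (nat_lit 48) (nat_lit 5) (nat_lit 49) (nat_lit 5) (nat_lit 636) (nat_lit 487) (nat_lit 437)) (XT.lf (nat_lit 0) (nat_lit 2717130621) (nat_lit 152) (nat_lit 9935161931) (nat_lit 228) (nat_lit 1684623053) (nat_lit 43) (nat_lit 5) (nat_lit 45) (nat_lit 5) (nat_lit 46) (nat_lit 4) (nat_lit 637) (nat_lit 487) (nat_lit 436))))))))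
noncomputable def xc21 : XT := (XT.nd (nat_lit 78078) (nat_lit 0) (nat_lit 4180) (XT.nd (nat_lit 77064) (nat_lit 0) (nat_lit 10716) (XT.nd (nat_lit 468) (nat_lit 608) (nat_lit 0) (XT.nd (nat_lit 234) (nat_lit 380) (nat_lit 0) (XT.nd (nat_lit 78) (nat_lit 304) (nat_lit 0) (XT.lf (nat_lit 0) (nat_lit 3332469375) (nat_lit 228) (nat_lit 1498074058) (nat_lit 76) (nat_lit 9678714695) (nat_lit 42) (nat_lit 5) (nat_lit 45) (nat_lit 5) (nat_lit 43) (nat_lit 5) (nat_lit 638) (nat_lit 487) (nat_lit 435)) (XT.nd (nat_lit 78) (nat_lit 152) (nat_lit 0) (XT.lf (nat_lit 0) (nat_lit 8440385756) (nat_lit 228) (nat_lit 5841248479) (nat_lit 76) (nat_lit 402931758) (nat_lit 40) (nat_lit 5) (nat_lit 43) (nat_lit 5) (nat_lit 41) (nat_lit 4) (nat_lit 639) (nat_lit 487) (nat_lit 434)) (XT.lf (nat_lit 0) (nat_lit 4490457932) (nat_lit 152) (nat_lit 9184331076) (nat_lit 228) (nat_lit 1188106381) (nat_lit 38) (nat_lit 5) (nat_lit 40) (nat_lit 5) (nat_lit 41) (nat_lit 4) (nat_lit 640) (nat_lit 487)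 (nat_lit 433)))) (XT.nd (nat_lit 78) (nat_lit 304) (nat_lit 0) (XT.lf (nat_lit 0) (nat_lit 3909616334) (nat_lit 228) (nat_lit 47167196) (nat_lit 76) (nat_lit 11087642660) (nat_lit 37) (nat_lit 5) (nat_lit 40) (nat_lit 5) (nat_lit 38) (nat_lit 5) (nat_lit 641) (nat_lit 487) (nat_lit 432)) (XT.nd (nat_lit 78) (nat_lit 152) (nat_lit 0) (XT.lf (nat_lit 0) (nat_lit 9125012000) (nat_lit 228) (nat_lit 4706752531) (nat_lit 76) (nat_lit 1397035294) (nat_lit 35) (nat_lit 5) (nat_lit 38) (nat_lit 5) (nat_lit 36) (nat_lit 4) (nat_lit 642) (nat_lit 487) (nat_lit 431)) (XT.lf (nat_lit 0) (nat_lit 5853431564) (nat_lit 152) (nat_lit 8609975970) (nat_lit 228) (nat_lit 953081358) (nat_lit 33) (nat_lit 5) (nat_lit 35) (nat_lit 5) (nat_lit 36) (nat_lit 4) (nat_lit 643) (nat_lit 487) (nat_lit 430))))) (XT.nd (nat_lit 234) (nat_lit 228) (nat_lit 0) (XT.nd (nat_lit 78) (nat_lit 152) (nat_lit 0) (XT.lf (nat_lit 0) (nat_lit 982451360) (nat_lit 152) (nat_lit 3254178876) (nat_lit 228) (nat_lit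 11370896884) (nat_lit 30) (nat_lit 5) (nat_lit 32) (nat_lit 5) (nat_lit 33) (nat_lit 5) (nat_lit 644) (nat_lit 487) (nat_lit 429)) (XT.nd (nat_lit 78) (nat_lit 152) (nat_lit 0) (XT.lf (nat_lit 0) (nat_lit 9550660691) (nat_lit 228) (nat_lit 4037417956) (nat_lit 76) (nat_lit 2213517435) (nat_lit 30) (nat_lit 5) (nat_lit 33) (nat_lit 5) (nat_lit 31) (nat_lit 4) (nat_lit 645) (nat_lit 487) (nat_lit 428)) (XT.lf (nat_lit 0) (nat_lit 6746832051) (nat_lit 152) (nat_lit 8244726596) (nat_lit 228) (nat_lit 1007577697) (nat_lit 28) (nat_lit 5) (nat_lit 30) (nat_lit 5) (nat_lit 31) (nat_lit 4) (nat_lit 646) (nat_lit 487) (nat_lit 427)))) (XT.nd (nat_lit 78) (nat_lit 0) (nat_lit 0) (XT.lf (nat_lit 0) (nat_lit 1510709453) (nat_lit 152) (nat_lit 2765374137) (nat_lit 228) (nat_lit 11924134473) (nat_lit 25) (nat_lit 5) (nat_lit 27) (nat_lit 5) (nat_lit 28) (nat_lit 5) (nat_lit 647) (nat_lit 487) (nat_lit 426)) (XT.nd (nat_lit 76206) (nat_lit 0) (nat_lit 16416) (XT.lf (nat_lit 0) (nat_lit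 9688159492) (nat_lit 228) (nat_lit 3897353545) (nat_lit 76) (nat_lit 2818952084) (nat_lit 25) (nat_lit 5) (nat_lit 28) (nat_lit 5) (nat_lit 26) (nat_lit 4) (nat_lit 648) (nat_lit 487) (nat_lit 425)) (XT.lf (nat_lit 0) (nat_lit 599060018) (nat_lit 608) (nat_lit 3026951779) (nat_lit 0) (nat_lit 599060018) (nat_lit 241) (nat_lit 5) (nat_lit 249) (nat_lit 4) (nat_lit 241) (nat_lit 4) (nat_lit 584) (nat_lit 488) (nat_lit 488)))))) (XT.nd (nat_lit 468) (nat_lit 2964) (nat_lit 0) (XT.nd (nat_lit 234) (nat_lit 1596) (nat_lit 0) (XT.nd (nat_lit 78) (nat_lit 608) (nat_lit 0) (XT.lf (nat_lit 0) (nat_lit 1007043300) (nat_lit 532) (nat_lit 4287950816) (nat_lit 532) (nat_lit 3220254097) (nat_lit 234) (nat_lit 4) (nat_lit 241) (nat_lit 5) (nat_lit 241) (nat_lit 4) (nat_lit 585) (nat_lit 488) (nat_lit 487)) (XT.nd (nat_lit 78) (nat_lit 532) (nat_lit 0) (XT.lf (nat_lit 0) (nat_lit 853102650) (nat_lit 608) (nat_lit 391190854) (nat_lit 76) (nat_lit 7337800900) (nat_lit 233) (nat_lit 5)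 (nat_lit 241) (nat_lit 5) (nat_lit 234) (nat_lit 4) (nat_lit 586) (nat_lit 488) (nat_lit 486)) (XT.lf (nat_lit 0) (nat_lit 4954712470) (nat_lit 608) (nat_lit 1819749719) (nat_lit 0) (nat_lit 1875599761) (nat_lit 226) (nat_lit 5) (nat_lit 234) (nat_lit 4) (nat_lit 226) (nat_lit 4) (nat_lit 587) (nat_lit 488) (nat_lit 485)))) (XT.nd (nat_lit 78) (nat_lit 988) (nat_lit 0) (XT.lf (nat_lit 0) (nat_lit 393235367) (nat_lit 608) (nat_lit 3271163996) (nat_lit 76) (nat_lit 5055347723) (nat_lit 218) (nat_lit 5) (nat_lit 226) (nat_lit 5) (nat_lit 219) (nat_lit 4) (nat_lit 588) (nat_lit 488) (nat_lit 484)) (XT.nd (nat_lit 78) (nat_lit 532) (nat_lit 0) (XT.lf (nat_lit 0) (nat_lit 4030178786) (nat_lit 456) (nat_lit 456318262) (nat_lit 532) (nat_lit 4304400411) (nat_lit 212) (nat_lit 5) (nat_lit 218) (nat_lit 5) (nat_lit 219) (nat_lit 4) (nat_lit 589) (nat_lit 488) (nat_lit 483)) (XT.lf (nat_lit 0) (nat_lit 2579254899) (nat_lit 532) (nat_lit 6073877767) (nat_lit 532) (nat_lit 210515625)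 (nat_lit 205) (nat_lit 4) (nat_lit 212) (nat_lit 5) (nat_lit 212) (nat_lit 4) (nat_lit 590) (nat_lit 488) (nat_lit 482))))) (XT.nd (nat_lit 234) (nat_lit 1900) (nat_lit 0) (XT.nd (nat_lit 78) (nat_lit 532) (nat_lit 0) (XT.lf (nat_lit 0) (nat_lit 1083321381) (nat_lit 456) (nat_lit 2806754060) (nat_lit 532) (nat_lit 5047734456) (nat_lit 198) (nat_lit 5) (nat_lit 204) (nat_lit 5) (nat_lit 205) (nat_lit 4) (nat_lit 591) (nat_lit 488) (nat_lit 481)) (XT.nd (nat_lit 78) (nat_lit 532) (nat_lit 0) (XT.lf (nat_lit 0) (nat_lit 8050819071) (nat_lit 532) (nat_lit 429855055) (nat_lit 0) (nat_lit 533140773) (nat_lit 198) (nat_lit 5) (nat_lit 205) (nat_lit 4) (nat_lit 198) (nat_lit 4) (nat_lit 592) (nat_lit 488) (nat_lit 480)) (XT.lf (nat_lit 0) (nat_lit 3162633634) (nat_lit 532) (nat_lit 1987867363) (nat_lit 76) (nat_lit 3940405739) (nat_lit 191) (nat_lit 5) (nat_lit 198) (nat_lit 5) (nat_lit 192) (nat_lit 4) (nat_lit 593) (nat_lit 488) (nat_lit 479)))) (XT.nd (nat_lit 156) (nat_lit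 912) (nat_lit 0) (XT.nd (nat_lit 78) (nat_lit 532) (nat_lit 0) (XT.lf (nat_lit 0) (nat_lit 5595840639) (nat_lit 456) (nat_lit 1737871994) (nat_lit 532) (nat_lit 1836190609) (nat_lit 185) (nat_lit 5) (nat_lit 191) (nat_lit 5) (nat_lit 192) (nat_lit 4) (nat_lit 594) (nat_lit 488) (nat_lit 478)) (XT.lf (nat_lit 0) (nat_lit 2295083326) (nat_lit 532) (nat_lit 5210621065) (nat_lit 76) (nat_lit 1744718041) (nat_lit 178) (nat_lit 5) (nat_lit 185) (nat_lit 5) (nat_lit 179) (nat_lit 4) (nat_lit 595) (nat_lit 488) (nat_lit 477))) (XT.nd (nat_lit 78) (nat_lit 532) (nat_lit 0) (XT.lf (nat_lit 0) (nat_lit 2435682275) (nat_lit 380) (nat_lit 4037429630) (nat_lit 456) (nat_lit 2859429422) (nat_lit 173) (nat_lit 5) (nat_lit 178) (nat_lit 5) (nat_lit 179) (nat_lit 4) (nat_lit 596) (nat_lit 488) (nat_lit 476)) (XT.lf (nat_lit 0) (nat_lit 796630246) (nat_lit 456) (nat_lit 482275867) (nat_lit 532) (nat_lit 8137675447) (nat_lit 166) (nat_lit 5) (nat_lit 172) (nat_lit 5) (nat_lit 173) (nat_lit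 5) (nat_lit 597) (nat_lit 488) (nat_lit 475))))))) (XT.nd (nat_lit 936) (nat_lit 3040) (nat_lit 0) (XT.nd (nat_lit 468) (nat_lit 1824) (nat_lit 0) (XT.nd (nat_lit 234) (nat_lit 836) (nat_lit 0) (XT.nd (nat_lit 78) (nat_lit 836) (nat_lit 0) (XT.lf (nat_lit 0) (nat_lit 5466590218) (nat_lit 532) (nat_lit 898930901) (nat_lit 76) (nat_lit 3136312081) (nat_lit 166) (nat_lit 5) (nat_lit 173) (nat_lit 5) (nat_lit 167) (nat_lit 4) (nat_lit 598) (nat_lit 488) (nat_lit 474)) (XT.nd (nat_lit 78) (nat_lit 380) (nat_lit 0) (XT.lf (nat_lit 0) (nat_lit 134700011) (nat_lit 456) (nat_lit 2618692660) (nat_lit 76) (nat_lit 6835635218) (nat_lit 160) (nat_lit 5) (nat_lit 166) (nat_lit 5) (nat_lit 161) (nat_lit 5) (nat_lit 599) (nat_lit 488) (nat_lit 473)) (XT.lf (nat_lit 0) (nat_lit 4319928016) (nat_lit 456) (nat_lit 4404012363) (nat_lit 76) (nat_lit 953779937) (nat_lit 155) (nat_lit 5) (nat_lit 161) (nat_lit 5) (nat_lit 156) (nat_lit 4) (nat_lit 600) (nat_lit 488) (nat_lit 472)))) (XT.nd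 (nat_lit 78) (nat_lit 456) (nat_lit 0) (XT.lf (nat_lit 0) (nat_lit 3525421464) (nat_lit 380) (nat_lit 5061863851) (nat_lit 456) (nat_lit 1180938338) (nat_lit 150) (nat_lit 5) (nat_lit 155) (nat_lit 5) (nat_lit 156) (nat_lit 4) (nat_lit 601) (nat_lit 488) (nat_lit 471)) (XT.nd (nat_lit 78) (nat_lit 0) (nat_lit 0) (XT.lf (nat_lit 0) (nat_lit 1721311888) (nat_lit 380) (nat_lit 1298465664) (nat_lit 456) (nat_lit 6840750717) (nat_lit 144) (nat_lit 5) (nat_lit 149) (nat_lit 5) (nat_lit 150) (nat_lit 5) (nat_lit 602) (nat_lit 488) (nat_lit 470)) (XT.lf (nat_lit 0) (nat_lit 7287511729) (nat_lit 456) (nat_lit 143727345) (nat_lit 76) (nat_lit 2523312682) (nat_lit 144) (nat_lit 5) (nat_lit 150) (nat_lit 5) (nat_lit 145) (nat_lit 4) (nat_lit 603) (nat_lit 488) (nat_lit 469))))) (XT.nd (nat_lit 234) (nat_lit 760) (nat_lit 0) (XT.nd (nat_lit 78) (nat_lit 684) (nat_lit 0) (XT.lf (nat_lit 0) (nat_lit 1571251378) (nat_lit 380) (nat_lit 2045333838) (nat_lit 76) (nat_lit 6433629812) (nat_lit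 139) (nat_lit 5) (nat_lit 144) (nat_lit 5) (nat_lit 140) (nat_lit 5) (nat_lit 604) (nat_lit 488) (nat_lit 468)) (XT.nd (nat_lit 78) (nat_lit 304) (nat_lit 0) (XT.lf (nat_lit 0) (nat_lit 5842890584) (nat_lit 456) (nat_lit 4009182061) (nat_lit 76) (nat_lit 295685396) (nat_lit 134) (nat_lit 5) (nat_lit 140) (nat_lit 5) (nat_lit 135) (nat_lit 4) (nat_lit 605) (nat_lit 488) (nat_lit 467)) (XT.lf (nat_lit 0) (nat_lit 4204742607) (nat_lit 304) (nat_lit 6002087497) (nat_lit 380) (nat_lit 40289295) (nat_lit 130) (nat_lit 5) (nat_lit 134) (nat_lit 5) (nat_lit 135) (nat_lit 4) (nat_lit 606) (nat_lit 488) (nat_lit 466)))) (XT.nd (nat_lit 78) (nat_lit 380) (nat_lit 0) (XT.lf (nat_lit 0) (nat_lit 2196575436) (nat_lit 304) (nat_lit 2039781110) (nat_lit 380) (nat_lit 6111890533) (nat_lit 125) (nat_lit 5) (nat_lit 129) (nat_lit 5) (nat_lit 130) (nat_lit 5) (nat_lit 607) (nat_lit 488) (nat_lit 465)) (XT.nd (nat_lit 78) (nat_lit 76) (nat_lit 0) (XT.lf (nat_lit 0) (nat_lit 126000292) (nat_lit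 304) (nat_lit 8468886781) (nat_lit 380) (nat_lit 1856571643) (nat_lit 121) (nat_lit 5) (nat_lit 125) (nat_lit 5) (nat_lit 126) (nat_lit 4) (nat_lit 608) (nat_lit 488) (nat_lit 464)) (XT.lf (nat_lit 0) (nat_lit 2462254171) (nat_lit 380) (nat_lit 1999813857) (nat_lit 76) (nat_lit 6094128866) (nat_lit 120) (nat_lit 5) (nat_lit 125) (nat_lit 5) (nat_lit 121) (nat_lit 5) (nat_lit 609) (nat_lit 488) (nat_lit 463)))))) (XT.nd (nat_lit 468) (nat_lit 1444) (nat_lit 0) (XT.nd (nat_lit 234) (nat_lit 608) (nat_lit 0) (XT.nd (nat_lit 78) (nat_lit 684) (nat_lit 0) (XT.lf (nat_lit 0) (nat_lit 6472883159) (nat_lit 304) (nat_lit 355296650) (nat_lit 380) (nat_lit 3834897227) (nat_lit 116) (nat_lit 5) (nat_lit 120) (nat_lit 5) (nat_lit 121) (nat_lit 5) (nat_lit 610) (nat_lit 488) (nat_lit 462)) (XT.nd (nat_lit 78) (nat_lit 304) (nat_lit 0) (XT.lf (nat_lit 0) (nat_lit 512908068) (nat_lit 380) (nat_lit 6465758373) (nat_lit 76) (nat_lit 3793161151) (nat_lit 111) (nat_lit 5) (nat_lit 116) (nat_lit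 5) (nat_lit 112) (nat_lit 5) (nat_lit 611) (nat_lit 488) (nat_lit 461)) (XT.lf (nat_lit 0) (nat_lit 2053373663) (nat_lit 304) (nat_lit 2830933440) (nat_lit 380) (nat_lit 5998183390) (nat_lit 107) (nat_lit 5) (nat_lit 111) (nat_lit 5) (nat_lit 112) (nat_lit 5) (nat_lit 612) (nat_lit 488) (nat_lit 460)))) (XT.nd (nat_lit 78) (nat_lit 608) (nat_lit 0) (XT.lf (nat_lit 0) (nat_lit 9340114316) (nat_lit 380) (nat_lit 266098365) (nat_lit 76) (nat_lit 1389218334) (nat_lit 107) (nat_lit 5) (nat_lit 112) (nat_lit 5) (nat_lit 108) (nat_lit 4) (nat_lit 613) (nat_lit 488) (nat_lit 459)) (XT.nd (nat_lit 78) (nat_lit 304) (nat_lit 0) (XT.lf (nat_lit 0) (nat_lit 2757190657) (nat_lit 304) (nat_lit 2658818776) (nat_lit 76) (nat_lit 5693881058) (nat_lit 103) (nat_lit 5) (nat_lit 107) (nat_lit 5) (nat_lit 104) (nat_lit 5) (nat_lit 614) (nat_lit 488) (nat_lit 458)) (XT.lf (nat_lit 0) (nat_lit 6097515353) (nat_lit 304) (nat_lit 1125108393) (nat_lit 380) (nat_lit 4004063510) (nat_lit 99) (nat_lit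 5) (nat_lit 103) (nat_lit 5) (nat_lit 104) (nat_lit 5) (nat_lit 615) (nat_lit 488) (nat_lit 457))))) (XT.nd (nat_lit 234) (nat_lit 836) (nat_lit 0) (XT.nd (nat_lit 78) (nat_lit 304) (nat_lit 0) (XT.lf (nat_lit 0) (nat_lit 434419703) (nat_lit 304) (nat_lit 7693571788) (nat_lit 76) (nat_lit 3217605341) (nat_lit 95) (nat_lit 5) (nat_lit 99) (nat_lit 5) (nat_lit 96) (nat_lit 5) (nat_lit 616) (nat_lit 488) (nat_lit 456)) (XT.nd (nat_lit 78) (nat_lit 0) (nat_lit 0) (XT.lf (nat_lit 0) (nat_lit 1100978230) (nat_lit 304) (nat_lit 3802172016) (nat_lit 380) (nat_lit 6563306696) (nat_lit 91) (nat_lit 5) (nat_lit 95) (nat_lit 5) (nat_lit 96) (nat_lit 5) (nat_lit 617) (nat_lit 488) (nat_lit 455)) (XT.lf (nat_lit 0) (nat_lit 9463214159) (nat_lit 380) (nat_lit 1508975434) (nat_lit 76) (nat_lit 617508940) (nat_lit 91) (nat_lit 5) (nat_lit 96) (nat_lit 5) (nat_lit 92) (nat_lit 4) (nat_lit 618) (nat_lit 488) (nat_lit 454)))) (XT.nd (nat_lit 156) (nat_lit 304) (nat_lit 0) (XT.nd (nat_lit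 78) (nat_lit 228) (nat_lit 0) (XT.lf (nat_lit 0) (nat_lit 2388758851) (nat_lit 304) (nat_lit 4222636262) (nat_lit 76) (nat_lit 5103278660) (nat_lit 87) (nat_lit 5) (nat_lit 91) (nat_lit 5) (nat_lit 88) (nat_lit 5) (nat_lit 619) (nat_lit 488) (nat_lit 453)) (XT.lf (nat_lit 0) (nat_lit 4810526468) (nat_lit 228) (nat_lit 2143952449) (nat_lit 304) (nat_lit 4887618820) (nat_lit 84) (nat_lit 5) (nat_lit 87) (nat_lit 5) (nat_lit 88) (nat_lit 5) (nat_lit 620) (nat_lit 488) (nat_lit 452))) (XT.nd (nat_lit 78) (nat_lit 76) (nat_lit 0) (XT.lf (nat_lit 0) (nat_lit 2030655330) (nat_lit 228) (nat_lit 9585639140) (nat_lit 304) (nat_lit 355683279) (nat_lit 81) (nat_lit 5) (nat_lit 84) (nat_lit 5) (nat_lit 85) (nat_lit 4) (nat_lit 621) (nat_lit 488) (nat_lit 451)) (XT.lf (nat_lit 0) (nat_lit 4220134490) (nat_lit 304) (nat_lit 866603492) (nat_lit 76) (nat_lit 7016982286) (nat_lit 80) (nat_lit 5) (nat_lit 84) (nat_lit 5) (nat_lit 81) (nat_lit 5) (nat_lit 622) (nat_lit 488) (nat_lit 450))))))))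
noncomputable def xc22 : XT := (XT.nd (nat_lit 1950) (nat_lit 152) (nat_lit 0) (XT.nd (nat_lit 936) (nat_lit 1824) (nat_lit 0) (XT.nd (nat_lit 468) (nat_lit 912) (nat_lit 0) (XT.nd (nat_lit 234) (nat_lit 532) (nat_lit 0) (XT.nd (nat_lit 78) (nat_lit 532) (nat_lit 0) (XT.lf (nat_lit 0) (nat_lit 8408991925) (nat_lit 228) (nat_lit 476852716) (nat_lit 304) (nat_lit 3352146207) (nat_lit 77) (nat_lit 5) (nat_lit 80) (nat_lit 5) (nat_lit 81) (nat_lit 5) (nat_lit 623) (nat_lit 488) (nat_lit 449)) (XT.nd (nat_lit 78) (nat_lit 228) (nat_lit 0) (XT.lf (nat_lit 0) (nat_lit 1270867957) (nat_lit 304) (nat_lit 6920524777) (nat_lit 76) (nat_lit 4183040071) (nat_lit 73) (nat_lit 5) (nat_lit 77) (nat_lit 5) (nat_lit 74) (nat_lit 5) (nat_lit 624) (nat_lit 488) (nat_lit 448)) (XT.lf (nat_lit 0) (nat_lit 2378100082) (nat_lit 228) (nat_lit 3556690764) (nat_lit 304) (nat_lit 6578505760) (nat_lit 70) (nat_lit 5) (nat_lit 73) (nat_lit 5) (nat_lit 74) (nat_lit 5) (nat_lit 625) (nat_lit 488) (nat_lit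 447)))) (XT.nd (nat_lit 78) (nat_lit 532) (nat_lit 0) (XT.lf (nat_lit 0) (nat_lit 10695356572) (nat_lit 304) (nat_lit 794447754) (nat_lit 76) (nat_lit 1165068847) (nat_lit 70) (nat_lit 5) (nat_lit 74) (nat_lit 5) (nat_lit 71) (nat_lit 4) (nat_lit 626) (nat_lit 488) (nat_lit 446)) (XT.nd (nat_lit 78) (nat_lit 228) (nat_lit 0) (XT.lf (nat_lit 0) (nat_lit 2746254109) (nat_lit 304) (nat_lit 4079889853) (nat_lit 76) (nat_lit 5972172786) (nat_lit 66) (nat_lit 5) (nat_lit 70) (nat_lit 5) (nat_lit 67) (nat_lit 5) (nat_lit 627) (nat_lit 488) (nat_lit 445)) (XT.lf (nat_lit 0) (nat_lit 5459006092) (nat_lit 228) (nat_lit 2051832034) (nat_lit 304) (nat_lit 5433715922) (nat_lit 63) (nat_lit 5) (nat_lit 66) (nat_lit 5) (nat_lit 67) (nat_lit 5) (nat_lit 628) (nat_lit 488) (nat_lit 444))))) (XT.nd (nat_lit 234) (nat_lit 456) (nat_lit 0) (XT.nd (nat_lit 78) (nat_lit 304) (nat_lit 0) (XT.lf (nat_lit 0) (nat_lit 2071954086) (nat_lit 152) (nat_lit 10308341654) (nat_lit 228) (nat_lit 713231280)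 (nat_lit 61) (nat_lit 5) (nat_lit 63) (nat_lit 5) (nat_lit 64) (nat_lit 4) (nat_lit 629) (nat_lit 488) (nat_lit 443)) (XT.nd (nat_lit 78) (nat_lit 228) (nat_lit 0) (XT.lf (nat_lit 0) (nat_lit 4062376919) (nat_lit 228) (nat_lit 1450595879) (nat_lit 76) (nat_lit 7731686348) (nat_lit 60) (nat_lit 5) (nat_lit 63) (nat_lit 5) (nat_lit 61) (nat_lit 5) (nat_lit 630) (nat_lit 488) (nat_lit 442)) (XT.lf (nat_lit 0) (nat_lit 8330406484) (nat_lit 228) (nat_lit 598964506) (nat_lit 304) (nat_lit 4469242575) (nat_lit 57) (nat_lit 5) (nat_lit 60) (nat_lit 5) (nat_lit 61) (nat_lit 5) (nat_lit 631) (nat_lit 488) (nat_lit 441)))) (XT.nd (nat_lit 78) (nat_lit 228) (nat_lit 0) (XT.lf (nat_lit 0) (nat_lit 354333233) (nat_lit 228) (nat_lit 8839253820) (nat_lit 76) (nat_lit 4361604263) (nat_lit 54) (nat_lit 5) (nat_lit 57) (nat_lit 5) (nat_lit 55) (nat_lit 5) (nat_lit 632) (nat_lit 488) (nat_lit 440)) (XT.nd (nat_lit 78) (nat_lit 0) (nat_lit 0) (XT.lf (nat_lit 0) (nat_lit 942652022) (nat_lit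 228) (nat_lit 4267826628) (nat_lit 304) (nat_lit 8503914593) (nat_lit 51) (nat_lit 5) (nat_lit 54) (nat_lit 5) (nat_lit 55) (nat_lit 5) (nat_lit 633) (nat_lit 488) (nat_lit 439)) (XT.lf (nat_lit 0) (nat_lit 10180080109) (nat_lit 304) (nat_lit 2927201991) (nat_lit 76) (nat_lit 769172679) (nat_lit 51) (nat_lit 5) (nat_lit 55) (nat_lit 5) (nat_lit 52) (nat_lit 4) (nat_lit 634) (nat_lit 488) (nat_lit 438)))))) (XT.nd (nat_lit 468) (nat_lit 836) (nat_lit 0) (XT.nd (nat_lit 234) (nat_lit 532) (nat_lit 0) (XT.nd (nat_lit 78) (nat_lit 228) (nat_lit 0) (XT.lf (nat_lit 0) (nat_lit 1218643317) (nat_lit 228) (nat_lit 6954855838) (nat_lit 76) (nat_lit 5867560536) (nat_lit 48) (nat_lit 5) (nat_lit 51) (nat_lit 5) (nat_lit 49) (nat_lit 5) (nat_lit 635) (nat_lit 488) (nat_lit 437)) (XT.nd (nat_lit 78) (nat_lit 0) (nat_lit 0) (XT.lf (nat_lit 0) (nat_lit 3061839833) (nat_lit 228) (nat_lit 3113055298) (nat_lit 304) (nat_lit 8033726454) (nat_lit 45) (nat_lit 5) (nat_lit 48) (nat_lit 5) (nat_lit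 49) (nat_lit 5) (nat_lit 636) (nat_lit 488) (nat_lit 436)) (XT.lf (nat_lit 0) (nat_lit 11243420366) (nat_lit 304) (nat_lit 1103908007) (nat_lit 76) (nat_lit 2031945441) (nat_lit 45) (nat_lit 5) (nat_lit 49) (nat_lit 5) (nat_lit 46) (nat_lit 4) (nat_lit 637) (nat_lit 488) (nat_lit 435)))) (XT.nd (nat_lit 78) (nat_lit 304) (nat_lit 0) (XT.lf (nat_lit 0) (nat_lit 1869660990) (nat_lit 228) (nat_lit 5408850911) (nat_lit 76) (nat_lit 7273906087) (nat_lit 42) (nat_lit 5) (nat_lit 45) (nat_lit 5) (nat_lit 43) (nat_lit 5) (nat_lit 638) (nat_lit 488) (nat_lit 434)) (XT.nd (nat_lit 78) (nat_lit 152) (nat_lit 0) (XT.lf (nat_lit 0) (nat_lit 4841514071) (nat_lit 152) (nat_lit 2084568901) (nat_lit 228) (nat_lit 7802673732) (nat_lit 40) (nat_lit 5) (nat_lit 42) (nat_lit 5) (nat_lit 43) (nat_lit 5) (nat_lit 639) (nat_lit 488) (nat_lit 433)) (XT.lf (nat_lit 0) (nat_lit 362585371) (nat_lit 152) (nat_lit 11734785383) (nat_lit 228) (nat_lit 2810978600) (nat_lit 38) (nat_lit 5) (nat_lit 40)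 (nat_lit 5) (nat_lit 41) (nat_lit 4) (nat_lit 640) (nat_lit 488) (nat_lit 432))))) (XT.nd (nat_lit 234) (nat_lit 456) (nat_lit 0) (XT.nd (nat_lit 78) (nat_lit 304) (nat_lit 0) (XT.lf (nat_lit 0) (nat_lit 2285278064) (nat_lit 228) (nat_lit 4251263679) (nat_lit 76) (nat_lit 8554005059) (nat_lit 37) (nat_lit 5) (nat_lit 40) (nat_lit 5) (nat_lit 38) (nat_lit 5) (nat_lit 641) (nat_lit 488) (nat_lit 431)) (XT.nd (nat_lit 78) (nat_lit 152) (nat_lit 0) (XT.lf (nat_lit 0) (nat_lit 6230420459) (nat_lit 152) (nat_lit 1210833067) (nat_lit 228) (nat_lit 7834856207) (nat_lit 35) (nat_lit 5) (nat_lit 37) (nat_lit 5) (nat_lit 38) (nat_lit 5) (nat_lit 642) (nat_lit 488) (nat_lit 430)) (XT.lf (nat_lit 0) (nat_lit 1423703412) (nat_lit 152) (nat_lit 11297077760) (nat_lit 228) (nat_lit 2744195856) (nat_lit 33) (nat_lit 5) (nat_lit 35) (nat_lit 5) (nat_lit 36) (nat_lit 4) (nat_lit 643) (nat_lit 488) (nat_lit 429)))) (XT.nd (nat_lit 156) (nat_lit 228) (nat_lit 0) (XT.nd (nat_lit 78) (nat_lit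 152) (nat_lit 0) (XT.lf (nat_lit 0) (nat_lit 2440409771) (nat_lit 228) (nat_lit 3537606397) (nat_lit 76) (nat_lit 9678804444) (nat_lit 32) (nat_lit 5) (nat_lit 35) (nat_lit 5) (nat_lit 33) (nat_lit 5) (nat_lit 644) (nat_lit 488) (nat_lit 428)) (XT.lf (nat_lit 0) (nat_lit 7171642772) (nat_lit 152) (nat_lit 522916955) (nat_lit 228) (nat_lit 8157528278) (nat_lit 30) (nat_lit 5) (nat_lit 32) (nat_lit 5) (nat_lit 33) (nat_lit 5) (nat_lit 645) (nat_lit 488) (nat_lit 427))) (XT.nd (nat_lit 78) (nat_lit 76) (nat_lit 0) (XT.lf (nat_lit 0) (nat_lit 2005167416) (nat_lit 152) (nat_lit 11074380871) (nat_lit 228) (nat_lit 2971198974) (nat_lit 28) (nat_lit 5) (nat_lit 30) (nat_lit 5) (nat_lit 31) (nat_lit 4) (nat_lit 646) (nat_lit 488) (nat_lit 426)) (XT.lf (nat_lit 0) (nat_lit 2306704283) (nat_lit 228) (nat_lit 3329501946) (nat_lit 76) (nat_lit 10616508733) (nat_lit 27) (nat_lit 5) (nat_lit 30) (nat_lit 5) (nat_lit 28) (nat_lit 5) (nat_lit 647) (nat_lit 488) (nat_lit 425))))))) (XT.nd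 (nat_lit 76908) (nat_lit 0) (nat_lit 8284) (XT.nd (nat_lit 76440) (nat_lit 0) (nat_lit 13148) (XT.nd (nat_lit 76206) (nat_lit 0) (nat_lit 15808) (XT.nd (nat_lit 76050) (nat_lit 0) (nat_lit 17024) (XT.lf (nat_lit 0) (nat_lit 7601960061) (nat_lit 152) (nat_lit 54835391) (nat_lit 228) (nat_lit 8801407022) (nat_lit 25) (nat_lit 5) (nat_lit 27) (nat_lit 5) (nat_lit 28) (nat_lit 5) (nat_lit 648) (nat_lit 488) (nat_lit 424)) (XT.nd (nat_lit 78) (nat_lit 608) (nat_lit 0) (XT.lf (nat_lit 0) (nat_lit 1280878770) (nat_lit 608) (nat_lit 1599937687) (nat_lit 0) (nat_lit 1280878770) (nat_lit 257) (nat_lit 5) (nat_lit 265) (nat_lit 4) (nat_lit 257) (nat_lit 4) (nat_lit 582) (nat_lit 489) (nat_lit 489)) (XT.lf (nat_lit 0) (nat_lit 3747727552) (nat_lit 608) (nat_lit 2874713389) (nat_lit 608) (nat_lit 1763881723) (nat_lit 249) (nat_lit 4) (nat_lit 257) (nat_lit 5) (nat_lit 257) (nat_lit 4) (nat_lit 583) (nat_lit 489) (nat_lit 488)))) (XT.nd (nat_lit 78) (nat_lit 608) (nat_lit 0) (XT.lf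 (nat_lit 0) (nat_lit 2253253428) (nat_lit 608) (nat_lit 6101066831) (nat_lit 0) (nat_lit 96506055) (nat_lit 241) (nat_lit 5) (nat_lit 249) (nat_lit 4) (nat_lit 241) (nat_lit 4) (nat_lit 584) (nat_lit 489) (nat_lit 487)) (XT.nd (nat_lit 78) (nat_lit 76) (nat_lit 0) (XT.lf (nat_lit 0) (nat_lit 912400265) (nat_lit 532) (nat_lit 5403860538) (nat_lit 532) (nat_lit 2200351676) (nat_lit 234) (nat_lit 4) (nat_lit 241) (nat_lit 5) (nat_lit 241) (nat_lit 4) (nat_lit 585) (nat_lit 489) (nat_lit 486)) (XT.lf (nat_lit 0) (nat_lit 1826508434) (nat_lit 608) (nat_lit 540198578) (nat_lit 76) (nat_lit 6217285714) (nat_lit 233) (nat_lit 5) (nat_lit 241) (nat_lit 5) (nat_lit 234) (nat_lit 4) (nat_lit 586) (nat_lit 489) (nat_lit 485))))) (XT.nd (nat_lit 234) (nat_lit 1064) (nat_lit 0) (XT.nd (nat_lit 78) (nat_lit 1064) (nat_lit 0) (XT.lf (nat_lit 0) (nat_lit 5886987469) (nat_lit 608) (nat_lit 2012008115) (nat_lit 0) (nat_lit 753791311) (nat_lit 226) (nat_lit 5) (nat_lit 234) (nat_lit 4) (nat_lit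 226) (nat_lit 4) (nat_lit 587) (nat_lit 489) (nat_lit 484)) (XT.nd (nat_lit 78) (nat_lit 456) (nat_lit 0) (XT.lf (nat_lit 0) (nat_lit 1276588629) (nat_lit 608) (nat_lit 3521532939) (nat_lit 76) (nat_lit 3924913718) (nat_lit 218) (nat_lit 5) (nat_lit 226) (nat_lit 5) (nat_lit 219) (nat_lit 4) (nat_lit 588) (nat_lit 489) (nat_lit 483)) (XT.lf (nat_lit 0) (nat_lit 3730011909) (nat_lit 456) (nat_lit 1605798988) (nat_lit 532) (nat_lit 3459059326) (nat_lit 212) (nat_lit 5) (nat_lit 218) (nat_lit 5) (nat_lit 219) (nat_lit 4) (nat_lit 589) (nat_lit 489) (nat_lit 482)))) (XT.nd (nat_lit 78) (nat_lit 456) (nat_lit 0) (XT.lf (nat_lit 0) (nat_lit 584655613) (nat_lit 608) (nat_lit 6640388160) (nat_lit 76) (nat_lit 1643335355) (nat_lit 204) (nat_lit 5) (nat_lit 212) (nat_lit 5) (nat_lit 205) (nat_lit 4) (nat_lit 590) (nat_lit 489) (nat_lit 481)) (XT.nd (nat_lit 78) (nat_lit 0) (nat_lit 0) (XT.lf (nat_lit 0) (nat_lit 674365665) (nat_lit 456) (nat_lit 3973732858) (nat_lit 532) (nat_lit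 4295106176) (nat_lit 198) (nat_lit 5) (nat_lit 204) (nat_lit 5) (nat_lit 205) (nat_lit 4) (nat_lit 591) (nat_lit 489) (nat_lit 480)) (XT.lf (nat_lit 0) (nat_lit 8132655320) (nat_lit 456) (nat_lit 641271343) (nat_lit 532) (nat_lit 245984835) (nat_lit 198) (nat_lit 5) (nat_lit 204) (nat_lit 5) (nat_lit 205) (nat_lit 4) (nat_lit 592) (nat_lit 489) (nat_lit 479)))))) (XT.nd (nat_lit 468) (nat_lit 2432) (nat_lit 0) (XT.nd (nat_lit 234) (nat_lit 912) (nat_lit 0) (XT.nd (nat_lit 78) (nat_lit 988) (nat_lit 0) (XT.lf (nat_lit 0) (nat_lit 3831654057) (nat_lit 532) (nat_lit 2504554440) (nat_lit 76) (nat_lit 2761476820) (nat_lit 191) (nat_lit 5) (nat_lit 198) (nat_lit 5) (nat_lit 192) (nat_lit 4) (nat_lit 593) (nat_lit 489) (nat_lit 478)) (XT.nd (nat_lit 78) (nat_lit 532) (nat_lit 0) (XT.lf (nat_lit 0) (nat_lit 5026014774) (nat_lit 456) (nat_lit 2942240028) (nat_lit 532) (nat_lit 1209119873) (nat_lit 185) (nat_lit 5) (nat_lit 191) (nat_lit 5) (nat_lit 192) (nat_lit 4) (nat_lit 594)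 (nat_lit 489) (nat_lit 477)) (XT.lf (nat_lit 0) (nat_lit 2871211432) (nat_lit 532) (nat_lit 5846271146) (nat_lit 76) (nat_lit 541187388) (nat_lit 178) (nat_lit 5) (nat_lit 185) (nat_lit 5) (nat_lit 179) (nat_lit 4) (nat_lit 595) (nat_lit 489) (nat_lit 476)))) (XT.nd (nat_lit 78) (nat_lit 532) (nat_lit 0) (XT.lf (nat_lit 0) (nat_lit 1744986572) (nat_lit 380) (nat_lit 5269302544) (nat_lit 456) (nat_lit 2327201858) (nat_lit 173) (nat_lit 5) (nat_lit 178) (nat_lit 5) (nat_lit 179) (nat_lit 4) (nat_lit 596) (nat_lit 489) (nat_lit 475)) (XT.nd (nat_lit 78) (nat_lit 0) (nat_lit 0) (XT.lf (nat_lit 0) (nat_lit 37481920) (nat_lit 456) (nat_lit 1731374161) (nat_lit 532) (nat_lit 7657314938) (nat_lit 166) (nat_lit 5) (nat_lit 172) (nat_lit 5) (nat_lit 173) (nat_lit 5) (nat_lit 597) (nat_lit 489) (nat_lit 474)) (XT.lf (nat_lit 0) (nat_lit 5918257897) (nat_lit 532) (nat_lit 1705848789) (nat_lit 76) (nat_lit 1888084537) (nat_lit 166) (nat_lit 5) (nat_lit 173) (nat_lit 5) (nat_lit 167)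 (nat_lit 4) (nat_lit 598) (nat_lit 489) (nat_lit 473))))) (XT.nd (nat_lit 234) (nat_lit 1216) (nat_lit 0) (XT.nd (nat_lit 78) (nat_lit 760) (nat_lit 0) (XT.lf (nat_lit 0) (nat_lit 534798017) (nat_lit 456) (nat_lit 3496016465) (nat_lit 76) (nat_lit 5569225404) (nat_lit 160) (nat_lit 5) (nat_lit 166) (nat_lit 5) (nat_lit 161) (nat_lit 5) (nat_lit 599) (nat_lit 489) (nat_lit 472)) (XT.nd (nat_lit 78) (nat_lit 380) (nat_lit 0) (XT.lf (nat_lit 0) (nat_lit 4345042438) (nat_lit 380) (nat_lit 333147483) (nat_lit 456) (nat_lit 5011381865) (nat_lit 155) (nat_lit 5) (nat_lit 160) (nat_lit 5) (nat_lit 161) (nat_lit 5) (nat_lit 600) (nat_lit 489) (nat_lit 471)) (XT.lf (nat_lit 0) (nat_lit 2528328028) (nat_lit 380) (nat_lit 6379273411) (nat_lit 456) (nat_lit 873235294) (nat_lit 150) (nat_lit 5) (nat_lit 155) (nat_lit 5) (nat_lit 156) (nat_lit 4) (nat_lit 601) (nat_lit 489) (nat_lit 470)))) (XT.nd (nat_lit 156) (nat_lit 760) (nat_lit 0) (XT.nd (nat_lit 78) (nat_lit 0) (nat_lit 0) (XT.lf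 (nat_lit 0) (nat_lit 649801557) (nat_lit 380) (nat_lit 2637462842) (nat_lit 456) (nat_lit 6586563198) (nat_lit 144) (nat_lit 5) (nat_lit 149) (nat_lit 5) (nat_lit 150) (nat_lit 5) (nat_lit 602) (nat_lit 489) (nat_lit 469)) (XT.lf (nat_lit 0) (nat_lit 7517251996) (nat_lit 456) (nat_lit 1265769579) (nat_lit 76) (nat_lit 1185586981) (nat_lit 144) (nat_lit 5) (nat_lit 150) (nat_lit 5) (nat_lit 145) (nat_lit 4) (nat_lit 603) (nat_lit 489) (nat_lit 468))) (XT.nd (nat_lit 78) (nat_lit 380) (nat_lit 0) (XT.lf (nat_lit 0) (nat_lit 1747702847) (nat_lit 380) (nat_lit 3243854889) (nat_lit 76) (nat_lit 5073416591) (nat_lit 139) (nat_lit 5) (nat_lit 144) (nat_lit 5) (nat_lit 140) (nat_lit 5) (nat_lit 604) (nat_lit 489) (nat_lit 467)) (XT.lf (nat_lit 0) (nat_lit 4880402570) (nat_lit 380) (nat_lit 1100407965) (nat_lit 456) (nat_lit 4182479829) (nat_lit 134) (nat_lit 5) (nat_lit 139) (nat_lit 5) (nat_lit 140) (nat_lit 5) (nat_lit 605) (nat_lit 489) (nat_lit 466))))))))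
noncomputable def xc23 : XT := (XT.nd (nat_lit 1950) (nat_lit 2660) (nat_lit 0) (XT.nd (nat_lit 936) (nat_lit 2660) (nat_lit 0) (XT.nd (nat_lit 468) (nat_lit 1216) (nat_lit 0) (XT.nd (nat_lit 234) (nat_lit 1064) (nat_lit 0) (XT.nd (nat_lit 78) (nat_lit 304) (nat_lit 0) (XT.lf (nat_lit 0) (nat_lit 36706002) (nat_lit 380) (nat_lit 7388297531) (nat_lit 76) (nat_lit 2838526141) (nat_lit 129) (nat_lit 5) (nat_lit 134) (nat_lit 5) (nat_lit 130) (nat_lit 5) (nat_lit 606) (nat_lit 489) (nat_lit 465)) (XT.nd (nat_lit 78) (nat_lit 0) (nat_lit 0) (XT.lf (nat_lit 0) (nat_lit 786552122) (nat_lit 304) (nat_lit 3488944081) (nat_lit 380) (nat_lit 6089904719) (nat_lit 125) (nat_lit 5) (nat_lit 129) (nat_lit 5) (nat_lit 130) (nat_lit 5) (nat_lit 607) (nat_lit 489) (nat_lit 464)) (XT.lf (nat_lit 0) (nat_lit 8595775934) (nat_lit 380) (nat_lit 1338919585) (nat_lit 76) (nat_lit 534684269) (nat_lit 125) (nat_lit 5) (nat_lit 130) (nat_lit 5) (nat_lit 126) (nat_lit 4) (nat_lit 608) (nat_lit 489)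 (nat_lit 463)))) (XT.nd (nat_lit 78) (nat_lit 684) (nat_lit 0) (XT.lf (nat_lit 0) (nat_lit 2408624518) (nat_lit 380) (nat_lit 3546029008) (nat_lit 76) (nat_lit 4620205194) (nat_lit 120) (nat_lit 5) (nat_lit 125) (nat_lit 5) (nat_lit 121) (nat_lit 5) (nat_lit 609) (nat_lit 489) (nat_lit 462)) (XT.nd (nat_lit 78) (nat_lit 380) (nat_lit 0) (XT.lf (nat_lit 0) (nat_lit 4860846037) (nat_lit 304) (nat_lit 1875832013) (nat_lit 380) (nat_lit 3945820337) (nat_lit 116) (nat_lit 5) (nat_lit 120) (nat_lit 5) (nat_lit 121) (nat_lit 5) (nat_lit 610) (nat_lit 489) (nat_lit 461)) (XT.lf (nat_lit 0) (nat_lit 355015260) (nat_lit 380) (nat_lit 8173656053) (nat_lit 76) (nat_lit 2263562526) (nat_lit 111) (nat_lit 5) (nat_lit 116) (nat_lit 5) (nat_lit 112) (nat_lit 5) (nat_lit 611) (nat_lit 489) (nat_lit 460))))) (XT.nd (nat_lit 234) (nat_lit 608) (nat_lit 0) (XT.nd (nat_lit 78) (nat_lit 304) (nat_lit 0) (XT.lf (nat_lit 0) (nat_lit 277294585) (nat_lit 304) (nat_lit 4410384512) (nat_lit 380)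 (nat_lit 6215994311) (nat_lit 107) (nat_lit 5) (nat_lit 111) (nat_lit 5) (nat_lit 112) (nat_lit 5) (nat_lit 612) (nat_lit 489) (nat_lit 459)) (XT.nd (nat_lit 78) (nat_lit 304) (nat_lit 0) (XT.lf (nat_lit 0) (nat_lit 8917983472) (nat_lit 304) (nat_lit 189403410) (nat_lit 380) (nat_lit 1909950961) (nat_lit 107) (nat_lit 5) (nat_lit 111) (nat_lit 5) (nat_lit 112) (nat_lit 5) (nat_lit 613) (nat_lit 489) (nat_lit 458)) (XT.lf (nat_lit 0) (nat_lit 2465512080) (nat_lit 304) (nat_lit 4580706767) (nat_lit 76) (nat_lit 4086421065) (nat_lit 103) (nat_lit 5) (nat_lit 107) (nat_lit 5) (nat_lit 104) (nat_lit 5) (nat_lit 614) (nat_lit 489) (nat_lit 457)))) (XT.nd (nat_lit 78) (nat_lit 304) (nat_lit 0) (XT.lf (nat_lit 0) (nat_lit 4105299294) (nat_lit 304) (nat_lit 2786227374) (nat_lit 380) (nat_lit 4358700194) (nat_lit 99) (nat_lit 5) (nat_lit 103) (nat_lit 5) (nat_lit 104) (nat_lit 5) (nat_lit 615) (nat_lit 489) (nat_lit 456)) (XT.nd (nat_lit 78) (nat_lit 0) (nat_lit 0) (XT.lf (nat_lit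 0) (nat_lit 33465643) (nat_lit 304) (nat_lit 9792013651) (nat_lit 76) (nat_lit 1544724308) (nat_lit 95) (nat_lit 5) (nat_lit 99) (nat_lit 5) (nat_lit 96) (nat_lit 5) (nat_lit 616) (nat_lit 489) (nat_lit 455)) (XT.lf (nat_lit 0) (nat_lit 4468740025) (nat_lit 304) (nat_lit 1056284020) (nat_lit 76) (nat_lit 5966710501) (nat_lit 95) (nat_lit 5) (nat_lit 99) (nat_lit 5) (nat_lit 96) (nat_lit 5) (nat_lit 617) (nat_lit 489) (nat_lit 454)))))) (XT.nd (nat_lit 468) (nat_lit 1292) (nat_lit 0) (XT.nd (nat_lit 234) (nat_lit 532) (nat_lit 0) (XT.nd (nat_lit 78) (nat_lit 532) (nat_lit 0) (XT.lf (nat_lit 0) (nat_lit 7869478319) (nat_lit 304) (nat_lit 1122235527) (nat_lit 380) (nat_lit 2624005768) (nat_lit 91) (nat_lit 5) (nat_lit 95) (nat_lit 5) (nat_lit 96) (nat_lit 5) (nat_lit 618) (nat_lit 489) (nat_lit 453)) (XT.nd (nat_lit 78) (nat_lit 228) (nat_lit 0) (XT.lf (nat_lit 0) (nat_lit 1849517723) (nat_lit 304) (nat_lit 6549887135) (nat_lit 76) (nat_lit 3342321106) (nat_lit 87) (nat_lit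 5) (nat_lit 91) (nat_lit 5) (nat_lit 88) (nat_lit 5) (nat_lit 619) (nat_lit 489) (nat_lit 452)) (XT.lf (nat_lit 0) (nat_lit 2408089275) (nat_lit 228) (nat_lit 3965920700) (nat_lit 304) (nat_lit 5495966090) (nat_lit 84) (nat_lit 5) (nat_lit 87) (nat_lit 5) (nat_lit 88) (nat_lit 5) (nat_lit 620) (nat_lit 489) (nat_lit 451)))) (XT.nd (nat_lit 78) (nat_lit 532) (nat_lit 0) (XT.lf (nat_lit 0) (nat_lit 10985286215) (nat_lit 304) (nat_lit 458246715) (nat_lit 76) (nat_lit 557335482) (nat_lit 84) (nat_lit 5) (nat_lit 88) (nat_lit 5) (nat_lit 85) (nat_lit 4) (nat_lit 621) (nat_lit 489) (nat_lit 450)) (XT.nd (nat_lit 78) (nat_lit 228) (nat_lit 0) (XT.lf (nat_lit 0) (nat_lit 3540378993) (nat_lit 304) (nat_lit 3430077438) (nat_lit 76) (nat_lit 5162811903) (nat_lit 80) (nat_lit 5) (nat_lit 84) (nat_lit 5) (nat_lit 81) (nat_lit 5) (nat_lit 622) (nat_lit 489) (nat_lit 449)) (XT.lf (nat_lit 0) (nat_lit 5767903601) (nat_lit 228) (nat_lit 2396060861) (nat_lit 304) (nat_lit 4104418405) (nat_lit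 77) (nat_lit 5) (nat_lit 80) (nat_lit 5) (nat_lit 81) (nat_lit 5) (nat_lit 623) (nat_lit 489) (nat_lit 448))))) (XT.nd (nat_lit 234) (nat_lit 760) (nat_lit 0) (XT.nd (nat_lit 78) (nat_lit 228) (nat_lit 0) (XT.lf (nat_lit 0) (nat_lit 472976969) (nat_lit 304) (nat_lit 9684773887) (nat_lit 76) (nat_lit 2248282755) (nat_lit 73) (nat_lit 5) (nat_lit 77) (nat_lit 5) (nat_lit 74) (nat_lit 5) (nat_lit 624) (nat_lit 489) (nat_lit 447)) (XT.nd (nat_lit 78) (nat_lit 228) (nat_lit 0) (XT.lf (nat_lit 0) (nat_lit 5096624087) (nat_lit 304) (nat_lit 460459891) (nat_lit 76) (nat_lit 6988620325) (nat_lit 73) (nat_lit 5) (nat_lit 77) (nat_lit 5) (nat_lit 74) (nat_lit 5) (nat_lit 625) (nat_lit 489) (nat_lit 446)) (XT.lf (nat_lit 0) (nat_lit 8980726444) (nat_lit 228) (nat_lit 841142371) (nat_lit 304) (nat_lit 2866119824) (nat_lit 70) (nat_lit 5) (nat_lit 73) (nat_lit 5) (nat_lit 74) (nat_lit 5) (nat_lit 626) (nat_lit 489) (nat_lit 445)))) (XT.nd (nat_lit 156) (nat_lit 228) (nat_lit 0) (XT.nd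 (nat_lit 78) (nat_lit 228) (nat_lit 0) (XT.lf (nat_lit 0) (nat_lit 1802087426) (nat_lit 304) (nat_lit 7096697239) (nat_lit 76) (nat_lit 3933755643) (nat_lit 66) (nat_lit 5) (nat_lit 70) (nat_lit 5) (nat_lit 67) (nat_lit 5) (nat_lit 627) (nat_lit 489) (nat_lit 444)) (XT.lf (nat_lit 0) (nat_lit 2359132644) (nat_lit 228) (nat_lit 4163194413) (nat_lit 304) (nat_lit 6457338708) (nat_lit 63) (nat_lit 5) (nat_lit 66) (nat_lit 5) (nat_lit 67) (nat_lit 5) (nat_lit 628) (nat_lit 489) (nat_lit 443))) (XT.nd (nat_lit 78) (nat_lit 228) (nat_lit 0) (XT.lf (nat_lit 0) (nat_lit 11340489557) (nat_lit 304) (nat_lit 1118992374) (nat_lit 76) (nat_lit 670183954) (nat_lit 63) (nat_lit 5) (nat_lit 67) (nat_lit 5) (nat_lit 64) (nat_lit 4) (nat_lit 629) (nat_lit 489) (nat_lit 442)) (XT.lf (nat_lit 0) (nat_lit 2969037697) (nat_lit 228) (nat_lit 4728202197) (nat_lit 76) (nat_lit 5584329136) (nat_lit 60) (nat_lit 5) (nat_lit 63) (nat_lit 5) (nat_lit 61) (nat_lit 5) (nat_lit 630) (nat_lit 489) (nat_lit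 441))))))) (XT.nd (nat_lit 936) (nat_lit 760) (nat_lit 0) (XT.nd (nat_lit 468) (nat_lit 988) (nat_lit 0) (XT.nd (nat_lit 234) (nat_lit 456) (nat_lit 0) (XT.nd (nat_lit 78) (nat_lit 228) (nat_lit 0) (XT.lf (nat_lit 0) (nat_lit 4966984916) (nat_lit 228) (nat_lit 2823586896) (nat_lit 304) (nat_lit 5645862009) (nat_lit 57) (nat_lit 5) (nat_lit 60) (nat_lit 5) (nat_lit 61) (nat_lit 5) (nat_lit 631) (nat_lit 489) (nat_lit 440)) (XT.nd (nat_lit 78) (nat_lit 76) (nat_lit 0) (XT.lf (nat_lit 0) (nat_lit 1244171288) (nat_lit 152) (nat_lit 11470764374) (nat_lit 228) (nat_lit 879334590) (nat_lit 55) (nat_lit 5) (nat_lit 57) (nat_lit 5) (nat_lit 58) (nat_lit 4) (nat_lit 632) (nat_lit 489) (nat_lit 439)) (XT.lf (nat_lit 0) (nat_lit 3958714479) (nat_lit 228) (nat_lit 2616667439) (nat_lit 76) (nat_lit 7178798130) (nat_lit 54) (nat_lit 5) (nat_lit 57) (nat_lit 5) (nat_lit 55) (nat_lit 5) (nat_lit 633) (nat_lit 489) (nat_lit 438)))) (XT.nd (nat_lit 78) (nat_lit 228) (nat_lit 0) (XT.lf (nat_lit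 0) (nat_lit 7318775392) (nat_lit 228) (nat_lit 1563947840) (nat_lit 304) (nat_lit 5034431291) (nat_lit 51) (nat_lit 5) (nat_lit 54) (nat_lit 5) (nat_lit 55) (nat_lit 5) (nat_lit 634) (nat_lit 489) (nat_lit 437)) (XT.nd (nat_lit 78) (nat_lit 76) (nat_lit 0) (XT.lf (nat_lit 0) (nat_lit 3343086750) (nat_lit 152) (nat_lit 10578128512) (nat_lit 228) (nat_lit 161855310) (nat_lit 49) (nat_lit 5) (nat_lit 51) (nat_lit 5) (nat_lit 52) (nat_lit 4) (nat_lit 635) (nat_lit 489) (nat_lit 436)) (XT.lf (nat_lit 0) (nat_lit 4753697142) (nat_lit 228) (nat_lit 803502540) (nat_lit 76) (nat_lit 8694311266) (nat_lit 48) (nat_lit 5) (nat_lit 51) (nat_lit 5) (nat_lit 49) (nat_lit 5) (nat_lit 636) (nat_lit 489) (nat_lit 435))))) (XT.nd (nat_lit 234) (nat_lit 380) (nat_lit 0) (XT.nd (nat_lit 78) (nat_lit 380) (nat_lit 0) (XT.lf (nat_lit 0) (nat_lit 9372142501) (nat_lit 228) (nat_lit 408667690) (nat_lit 304) (nat_lit 4642182231) (nat_lit 45) (nat_lit 5) (nat_lit 48) (nat_lit 5) (nat_lit 49) (nat_lit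 5) (nat_lit 637) (nat_lit 489) (nat_lit 434)) (XT.nd (nat_lit 78) (nat_lit 152) (nat_lit 0) (XT.lf (nat_lit 0) (nat_lit 331452337) (nat_lit 228) (nat_lit 9481088796) (nat_lit 76) (nat_lit 4784824741) (nat_lit 42) (nat_lit 5) (nat_lit 45) (nat_lit 5) (nat_lit 43) (nat_lit 5) (nat_lit 638) (nat_lit 489) (nat_lit 433)) (XT.lf (nat_lit 0) (nat_lit 674218769) (nat_lit 152) (nat_lit 4664203004) (nat_lit 228) (nat_lit 9436272811) (nat_lit 40) (nat_lit 5) (nat_lit 42) (nat_lit 5) (nat_lit 43) (nat_lit 5) (nat_lit 639) (nat_lit 489) (nat_lit 432)))) (XT.nd (nat_lit 78) (nat_lit 380) (nat_lit 0) (XT.lf (nat_lit 0) (nat_lit 10468273205) (nat_lit 228) (nat_lit 3879120191) (nat_lit 76) (nat_lit 607723489) (nat_lit 40) (nat_lit 5) (nat_lit 43) (nat_lit 5) (nat_lit 41) (nat_lit 4) (nat_lit 640) (nat_lit 489) (nat_lit 431)) (XT.nd (nat_lit 78) (nat_lit 152) (nat_lit 0) (XT.lf (nat_lit 0) (nat_lit 583398490) (nat_lit 228) (nat_lit 8621245596) (nat_lit 76) (nat_lit 5933848629) (nat_lit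 37) (nat_lit 5) (nat_lit 40) (nat_lit 5) (nat_lit 38) (nat_lit 5) (nat_lit 641) (nat_lit 489) (nat_lit 430)) (XT.lf (nat_lit 0) (nat_lit 1762133424) (nat_lit 152) (nat_lit 3926362555) (nat_lit 228) (nat_lit 9636578098) (nat_lit 35) (nat_lit 5) (nat_lit 37) (nat_lit 5) (nat_lit 38) (nat_lit 5) (nat_lit 642) (nat_lit 489) (nat_lit 429)))))) (XT.nd (nat_lit 76284) (nat_lit 0) (nat_lit 15808) (XT.nd (nat_lit 234) (nat_lit 380) (nat_lit 0) (XT.nd (nat_lit 78) (nat_lit 380) (nat_lit 0) (XT.lf (nat_lit 0) (nat_lit 10919339545) (nat_lit 228) (nat_lit 3134350113) (nat_lit 76) (nat_lit 1461226250) (nat_lit 35) (nat_lit 5) (nat_lit 38) (nat_lit 5) (nat_lit 36) (nat_lit 4) (nat_lit 643) (nat_lit 489) (nat_lit 428)) (XT.nd (nat_lit 78) (nat_lit 152) (nat_lit 0) (XT.lf (nat_lit 0) (nat_lit 570770784) (nat_lit 228) (nat_lit 8215297880) (nat_lit 76) (nat_lit 6921782850) (nat_lit 32) (nat_lit 5) (nat_lit 35) (nat_lit 5) (nat_lit 33) (nat_lit 5) (nat_lit 644) (nat_lit 489) (nat_lit 427))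 (XT.lf (nat_lit 0) (nat_lit 2392259254) (nat_lit 152) (nat_lit 3380275282) (nat_lit 228) (nat_lit 10131632902) (nat_lit 30) (nat_lit 5) (nat_lit 32) (nat_lit 5) (nat_lit 33) (nat_lit 5) (nat_lit 645) (nat_lit 489) (nat_lit 426)))) (XT.nd (nat_lit 78) (nat_lit 380) (nat_lit 0) (XT.lf (nat_lit 0) (nat_lit 11104650156) (nat_lit 228) (nat_lit 2873105229) (nat_lit 76) (nat_lit 2126129557) (nat_lit 30) (nat_lit 5) (nat_lit 33) (nat_lit 5) (nat_lit 31) (nat_lit 4) (nat_lit 646) (nat_lit 489) (nat_lit 425)) (XT.nd (nat_lit 78) (nat_lit 152) (nat_lit 0) (XT.lf (nat_lit 0) (nat_lit 264962133) (nat_lit 228) (nat_lit 8325269792) (nat_lit 76) (nat_lit 7716690913) (nat_lit 27) (nat_lit 5) (nat_lit 30) (nat_lit 5) (nat_lit 28) (nat_lit 5) (nat_lit 647) (nat_lit 489) (nat_lit 424)) (XT.lf (nat_lit 0) (nat_lit 2500968307) (nat_lit 152) (nat_lit 3060105969) (nat_lit 228) (nat_lit 10952416399) (nat_lit 25) (nat_lit 5) (nat_lit 27) (nat_lit 5) (nat_lit 28) (nat_lit 5) (nat_lit 648) (nat_lit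 489) (nat_lit 423))))) (XT.nd (nat_lit 234) (nat_lit 1824) (nat_lit 0) (XT.nd (nat_lit 78) (nat_lit 1216) (nat_lit 0) (XT.lf (nat_lit 0) (nat_lit 1962132231) (nat_lit 684) (nat_lit 176387689) (nat_lit 0) (nat_lit 1962132231) (nat_lit 273) (nat_lit 5) (nat_lit 282) (nat_lit 4) (nat_lit 273) (nat_lit 4) (nat_lit 580) (nat_lit 490) (nat_lit 490)) (XT.nd (nat_lit 78) (nat_lit 608) (nat_lit 0) (XT.lf (nat_lit 0) (nat_lit 6482657555) (nat_lit 608) (nat_lit 1467571337) (nat_lit 608) (nat_lit 311862071) (nat_lit 265) (nat_lit 4) (nat_lit 273) (nat_lit 5) (nat_lit 273) (nat_lit 4) (nat_lit 581) (nat_lit 490) (nat_lit 489)) (XT.lf (nat_lit 0) (nat_lit 3661133711) (nat_lit 608) (nat_lit 3245680956) (nat_lit 0) (nat_lit 1417253744) (nat_lit 257) (nat_lit 5) (nat_lit 265) (nat_lit 4) (nat_lit 257) (nat_lit 4) (nat_lit 582) (nat_lit 490) (nat_lit 488)))) (XT.nd (nat_lit 156) (nat_lit 608) (nat_lit 0) (XT.nd (nat_lit 78) (nat_lit 608) (nat_lit 0) (XT.lf (nat_lit 0) (nat_lit 3655809010)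 (nat_lit 608) (nat_lit 4032399412) (nat_lit 608) (nat_lit 699468792) (nat_lit 249) (nat_lit 4) (nat_lit 257) (nat_lit 5) (nat_lit 257) (nat_lit 4) (nat_lit 583) (nat_lit 490) (nat_lit 487)) (XT.lf (nat_lit 0) (nat_lit 2203239871) (nat_lit 532) (nat_lit 1066001322) (nat_lit 608) (nat_lit 5183495008) (nat_lit 241) (nat_lit 5) (nat_lit 248) (nat_lit 5) (nat_lit 249) (nat_lit 4) (nat_lit 584) (nat_lit 490) (nat_lit 486))) (XT.nd (nat_lit 78) (nat_lit 76) (nat_lit 0) (XT.lf (nat_lit 0) (nat_lit 723077081) (nat_lit 532) (nat_lit 6568420874) (nat_lit 532) (nat_lit 1227843591) (nat_lit 234) (nat_lit 4) (nat_lit 241) (nat_lit 5) (nat_lit 241) (nat_lit 4) (nat_lit 585) (nat_lit 490) (nat_lit 485)) (XT.lf (nat_lit 0) (nat_lit 2753790887) (nat_lit 608) (nat_lit 784034154) (nat_lit 76) (nat_lit 5049423894) (nat_lit 233) (nat_lit 5) (nat_lit 241) (nat_lit 5) (nat_lit 234) (nat_lit 4) (nat_lit 586) (nat_lit 490) (nat_lit 484))))))))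
noncomputable def xc24 : XT := (XT.nd (nat_lit 1950) (nat_lit 4788) (nat_lit 0) (XT.nd (nat_lit 936) (nat_lit 4180) (nat_lit 0) (XT.nd (nat_lit 468) (nat_lit 2356) (nat_lit 0) (XT.nd (nat_lit 234) (nat_lit 1140) (nat_lit 0) (XT.nd (nat_lit 78) (nat_lit 1064) (nat_lit 0) (XT.lf (nat_lit 0) (nat_lit 6353591076) (nat_lit 532) (nat_lit 421987911) (nat_lit 608) (nat_lit 1881241863) (nat_lit 226) (nat_lit 5) (nat_lit 233) (nat_lit 5) (nat_lit 234) (nat_lit 4) (nat_lit 587) (nat_lit 490) (nat_lit 483)) (XT.nd (nat_lit 78) (nat_lit 456) (nat_lit 0) (XT.lf (nat_lit 0) (nat_lit 2112786084) (nat_lit 608) (nat_lit 3869548867) (nat_lit 76) (nat_lit 2745358383) (nat_lit 218) (nat_lit 5) (nat_lit 226) (nat_lit 5) (nat_lit 219) (nat_lit 4) (nat_lit 588) (nat_lit 490) (nat_lit 482)) (XT.lf (nat_lit 0) (nat_lit 3331811561) (nat_lit 456) (nat_lit 2806150104) (nat_lit 532) (nat_lit 2662251239) (nat_lit 212) (nat_lit 5) (nat_lit 218) (nat_lit 5) (nat_lit 219) (nat_lit 4) (nat_lit 589) (nat_lit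 490) (nat_lit 481)))) (XT.nd (nat_lit 78) (nat_lit 532) (nat_lit 0) (XT.lf (nat_lit 0) (nat_lit 1328815478) (nat_lit 608) (nat_lit 7098282805) (nat_lit 76) (nat_lit 447367574) (nat_lit 204) (nat_lit 5) (nat_lit 212) (nat_lit 5) (nat_lit 205) (nat_lit 4) (nat_lit 590) (nat_lit 490) (nat_lit 480)) (XT.nd (nat_lit 78) (nat_lit 76) (nat_lit 0) (XT.lf (nat_lit 0) (nat_lit 164459378) (nat_lit 456) (nat_lit 5193378561) (nat_lit 532) (nat_lit 3592145385) (nat_lit 198) (nat_lit 5) (nat_lit 204) (nat_lit 5) (nat_lit 205) (nat_lit 4) (nat_lit 591) (nat_lit 490) (nat_lit 479)) (XT.lf (nat_lit 0) (nat_lit 419983197) (nat_lit 532) (nat_lit 1452349344) (nat_lit 76) (nat_lit 7154921582) (nat_lit 197) (nat_lit 5) (nat_lit 204) (nat_lit 5) (nat_lit 198) (nat_lit 5) (nat_lit 592) (nat_lit 490) (nat_lit 478))))) (XT.nd (nat_lit 234) (nat_lit 912) (nat_lit 0) (XT.nd (nat_lit 78) (nat_lit 988) (nat_lit 0) (XT.lf (nat_lit 0) (nat_lit 4451882183) (nat_lit 532) (nat_lit 3123819406) (nat_lit 76)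 (nat_lit 1530147973) (nat_lit 191) (nat_lit 5) (nat_lit 198) (nat_lit 5) (nat_lit 192) (nat_lit 4) (nat_lit 593) (nat_lit 490) (nat_lit 477)) (XT.nd (nat_lit 78) (nat_lit 532) (nat_lit 0) (XT.lf (nat_lit 0) (nat_lit 4353155114) (nat_lit 456) (nat_lit 4200784097) (nat_lit 532) (nat_lit 632293804) (nat_lit 185) (nat_lit 5) (nat_lit 191) (nat_lit 5) (nat_lit 192) (nat_lit 4) (nat_lit 594) (nat_lit 490) (nat_lit 476)) (XT.lf (nat_lit 0) (nat_lit 2675983251) (nat_lit 456) (nat_lit 726050643) (nat_lit 532) (nat_lit 5866191375) (nat_lit 178) (nat_lit 5) (nat_lit 184) (nat_lit 5) (nat_lit 185) (nat_lit 5) (nat_lit 595) (nat_lit 490) (nat_lit 475)))) (XT.nd (nat_lit 78) (nat_lit 532) (nat_lit 0) (XT.lf (nat_lit 0) (nat_lit 948194312) (nat_lit 380) (nat_lit 6557160903) (nat_lit 456) (nat_lit 1846489225) (nat_lit 173) (nat_lit 5) (nat_lit 178) (nat_lit 5) (nat_lit 179) (nat_lit 4) (nat_lit 596) (nat_lit 490) (nat_lit 474)) (XT.nd (nat_lit 78) (nat_lit 456) (nat_lit 0) (XT.lf (nat_lit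 0) (nat_lit 2213247743) (nat_lit 456) (nat_lit 818463780) (nat_lit 76) (nat_lit 6405353784) (nat_lit 172) (nat_lit 5) (nat_lit 178) (nat_lit 5) (nat_lit 173) (nat_lit 5) (nat_lit 597) (nat_lit 490) (nat_lit 473)) (XT.lf (nat_lit 0) (nat_lit 6319205916) (nat_lit 532) (nat_lit 2620577541) (nat_lit 76) (nat_lit 584173788) (nat_lit 166) (nat_lit 5) (nat_lit 173) (nat_lit 5) (nat_lit 167) (nat_lit 4) (nat_lit 598) (nat_lit 490) (nat_lit 472)))))) (XT.nd (nat_lit 468) (nat_lit 2128) (nat_lit 0) (XT.nd (nat_lit 234) (nat_lit 836) (nat_lit 0) (XT.nd (nat_lit 78) (nat_lit 760) (nat_lit 0) (XT.lf (nat_lit 0) (nat_lit 883327851) (nat_lit 456) (nat_lit 4482753354) (nat_lit 76) (nat_lit 4246387876) (nat_lit 160) (nat_lit 5) (nat_lit 166) (nat_lit 5) (nat_lit 161) (nat_lit 5) (nat_lit 599) (nat_lit 490) (nat_lit 471)) (XT.nd (nat_lit 78) (nat_lit 380) (nat_lit 0) (XT.lf (nat_lit 0) (nat_lit 3300013017) (nat_lit 380) (nat_lit 1691009787) (nat_lit 456) (nat_lit 4711694812) (nat_lit 155)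 (nat_lit 5) (nat_lit 160) (nat_lit 5) (nat_lit 161) (nat_lit 5) (nat_lit 600) (nat_lit 490) (nat_lit 470)) (XT.lf (nat_lit 0) (nat_lit 1419661496) (nat_lit 380) (nat_lit 7756024197) (nat_lit 456) (nat_lit 619194486) (nat_lit 150) (nat_lit 5) (nat_lit 155) (nat_lit 5) (nat_lit 156) (nat_lit 4) (nat_lit 601) (nat_lit 490) (nat_lit 469)))) (XT.nd (nat_lit 78) (nat_lit 760) (nat_lit 0) (XT.lf (nat_lit 0) (nat_lit 3505103826) (nat_lit 456) (nat_lit 527935921) (nat_lit 76) (nat_lit 5855458239) (nat_lit 149) (nat_lit 5) (nat_lit 155) (nat_lit 5) (nat_lit 150) (nat_lit 5) (nat_lit 602) (nat_lit 490) (nat_lit 468)) (XT.nd (nat_lit 78) (nat_lit 380) (nat_lit 0) (XT.lf (nat_lit 0) (nat_lit 7481480691) (nat_lit 380) (nat_lit 213959367) (nat_lit 456) (nat_lit 2288634405) (nat_lit 144) (nat_lit 5) (nat_lit 149) (nat_lit 5) (nat_lit 150) (nat_lit 5) (nat_lit 603) (nat_lit 490) (nat_lit 467)) (XT.lf (nat_lit 0) (nat_lit 1870306377) (nat_lit 380) (nat_lit 4557467288) (nat_lit 76) (nat_lit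 3653407521) (nat_lit 139) (nat_lit 5) (nat_lit 144) (nat_lit 5) (nat_lit 140) (nat_lit 5) (nat_lit 604) (nat_lit 490) (nat_lit 466))))) (XT.nd (nat_lit 234) (nat_lit 1368) (nat_lit 0) (XT.nd (nat_lit 78) (nat_lit 380) (nat_lit 0) (XT.lf (nat_lit 0) (nat_lit 3504520357) (nat_lit 380) (nat_lit 2562113080) (nat_lit 456) (nat_lit 4113601747) (nat_lit 134) (nat_lit 5) (nat_lit 139) (nat_lit 5) (nat_lit 140) (nat_lit 5) (nat_lit 605) (nat_lit 490) (nat_lit 465)) (XT.nd (nat_lit 78) (nat_lit 0) (nat_lit 0) (XT.lf (nat_lit 0) (nat_lit 57793924) (nat_lit 380) (nat_lit 8853007028) (nat_lit 76) (nat_lit 1370604590) (nat_lit 129) (nat_lit 5) (nat_lit 134) (nat_lit 5) (nat_lit 130) (nat_lit 5) (nat_lit 606) (nat_lit 490) (nat_lit 464)) (XT.lf (nat_lit 0) (nat_lit 4263857277) (nat_lit 380) (nat_lit 732932244) (nat_lit 76) (nat_lit 5387144017) (nat_lit 129) (nat_lit 5) (nat_lit 134) (nat_lit 5) (nat_lit 130) (nat_lit 5) (nat_lit 607) (nat_lit 490) (nat_lit 463)))) (XT.nd (nat_lit 156)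 (nat_lit 684) (nat_lit 0) (XT.nd (nat_lit 78) (nat_lit 380) (nat_lit 0) (XT.lf (nat_lit 0) (nat_lit 7560656960) (nat_lit 304) (nat_lit 987775243) (nat_lit 380) (nat_lit 1940196464) (nat_lit 125) (nat_lit 5) (nat_lit 129) (nat_lit 5) (nat_lit 130) (nat_lit 5) (nat_lit 608) (nat_lit 490) (nat_lit 462)) (XT.lf (nat_lit 0) (nat_lit 2298562775) (nat_lit 380) (nat_lit 5213421688) (nat_lit 76) (nat_lit 3083020718) (nat_lit 120) (nat_lit 5) (nat_lit 125) (nat_lit 5) (nat_lit 121) (nat_lit 5) (nat_lit 609) (nat_lit 490) (nat_lit 461))) (XT.nd (nat_lit 78) (nat_lit 380) (nat_lit 0) (XT.lf (nat_lit 0) (nat_lit 3126908717) (nat_lit 304) (nat_lit 3461581393) (nat_lit 380) (nat_lit 4114919304) (nat_lit 116) (nat_lit 5) (nat_lit 120) (nat_lit 5) (nat_lit 121) (nat_lit 5) (nat_lit 610) (nat_lit 490) (nat_lit 460)) (XT.lf (nat_lit 0) (nat_lit 139013092) (nat_lit 380) (nat_lit 10006385045) (nat_lit 76) (nat_lit 668753071) (nat_lit 111) (nat_lit 5) (nat_lit 116) (nat_lit 5) (nat_lit 112)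 (nat_lit 5) (nat_lit 611) (nat_lit 490) (nat_lit 459))))))) (XT.nd (nat_lit 936) (nat_lit 2204) (nat_lit 0) (XT.nd (nat_lit 468) (nat_lit 1368) (nat_lit 0) (XT.nd (nat_lit 234) (nat_lit 608) (nat_lit 0) (XT.nd (nat_lit 78) (nat_lit 608) (nat_lit 0) (XT.lf (nat_lit 0) (nat_lit 4443206240) (nat_lit 380) (nat_lit 1603078823) (nat_lit 76) (nat_lit 4879877053) (nat_lit 111) (nat_lit 5) (nat_lit 116) (nat_lit 5) (nat_lit 112) (nat_lit 5) (nat_lit 612) (nat_lit 490) (nat_lit 458)) (XT.nd (nat_lit 78) (nat_lit 304) (nat_lit 0) (XT.lf (nat_lit 0) (nat_lit 6972587865) (nat_lit 304) (nat_lit 1853348379) (nat_lit 380) (nat_lit 2214631750) (nat_lit 107) (nat_lit 5) (nat_lit 111) (nat_lit 5) (nat_lit 112) (nat_lit 5) (nat_lit 613) (nat_lit 490) (nat_lit 457)) (XT.lf (nat_lit 0) (nat_lit 2114502830) (nat_lit 304) (nat_lit 6630316105) (nat_lit 76) (nat_lit 2412098994) (nat_lit 103) (nat_lit 5) (nat_lit 107) (nat_lit 5) (nat_lit 104) (nat_lit 5) (nat_lit 614) (nat_lit 490) (nat_lit 456))))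 (XT.nd (nat_lit 78) (nat_lit 304) (nat_lit 0) (XT.lf (nat_lit 0) (nat_lit 1984542719) (nat_lit 304) (nat_lit 4516240915) (nat_lit 380) (nat_lit 4774517699) (nat_lit 99) (nat_lit 5) (nat_lit 103) (nat_lit 5) (nat_lit 104) (nat_lit 5) (nat_lit 615) (nat_lit 490) (nat_lit 455)) (XT.nd (nat_lit 78) (nat_lit 304) (nat_lit 0) (XT.lf (nat_lit 0) (nat_lit 10774617346) (nat_lit 304) (nat_lit 192681291) (nat_lit 380) (nat_lit 428907117) (nat_lit 99) (nat_lit 5) (nat_lit 103) (nat_lit 5) (nat_lit 104) (nat_lit 5) (nat_lit 616) (nat_lit 490) (nat_lit 454)) (XT.lf (nat_lit 0) (nat_lit 3980832924) (nat_lit 304) (nat_lit 3329854705) (nat_lit 76) (nat_lit 4207729631) (nat_lit 95) (nat_lit 5) (nat_lit 99) (nat_lit 5) (nat_lit 96) (nat_lit 5) (nat_lit 617) (nat_lit 490) (nat_lit 453))))) (XT.nd (nat_lit 234) (nat_lit 760) (nat_lit 0) (XT.nd (nat_lit 78) (nat_lit 304) (nat_lit 0) (XT.lf (nat_lit 0) (nat_lit 5522468684) (nat_lit 304) (nat_lit 2940813404) (nat_lit 380) (nat_lit 3179932376)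 (nat_lit 91) (nat_lit 5) (nat_lit 95) (nat_lit 5) (nat_lit 96) (nat_lit 5) (nat_lit 618) (nat_lit 490) (nat_lit 452)) (XT.nd (nat_lit 78) (nat_lit 0) (nat_lit 0) (XT.lf (nat_lit 0) (nat_lit 1247719985) (nat_lit 304) (nat_lit 9011912430) (nat_lit 76) (nat_lit 1510725412) (nat_lit 87) (nat_lit 5) (nat_lit 91) (nat_lit 5) (nat_lit 88) (nat_lit 5) (nat_lit 619) (nat_lit 490) (nat_lit 451)) (XT.lf (nat_lit 0) (nat_lit 5731450269) (nat_lit 304) (nat_lit 128340036) (nat_lit 76) (nat_lit 6039634411) (nat_lit 87) (nat_lit 5) (nat_lit 91) (nat_lit 5) (nat_lit 88) (nat_lit 5) (nat_lit 620) (nat_lit 490) (nat_lit 450)))) (XT.nd (nat_lit 78) (nat_lit 532) (nat_lit 0) (XT.lf (nat_lit 0) (nat_lit 8965687056) (nat_lit 228) (nat_lit 1347617863) (nat_lit 304) (nat_lit 1717602093) (nat_lit 84) (nat_lit 5) (nat_lit 87) (nat_lit 5) (nat_lit 88) (nat_lit 5) (nat_lit 621) (nat_lit 490) (nat_lit 449)) (XT.nd (nat_lit 78) (nat_lit 228) (nat_lit 0) (XT.lf (nat_lit 0) (nat_lit 2796574877) (nat_lit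 304) (nat_lit 6131632443) (nat_lit 76) (nat_lit 3236212059) (nat_lit 80) (nat_lit 5) (nat_lit 84) (nat_lit 5) (nat_lit 81) (nat_lit 5) (nat_lit 622) (nat_lit 490) (nat_lit 448)) (XT.lf (nat_lit 0) (nat_lit 2987753059) (nat_lit 228) (nat_lit 4389869466) (nat_lit 304) (nat_lit 4922763575) (nat_lit 77) (nat_lit 5) (nat_lit 80) (nat_lit 5) (nat_lit 81) (nat_lit 5) (nat_lit 623) (nat_lit 490) (nat_lit 447)))))) (XT.nd (nat_lit 468) (nat_lit 1140) (nat_lit 0) (XT.nd (nat_lit 234) (nat_lit 532) (nat_lit 0) (XT.nd (nat_lit 78) (nat_lit 532) (nat_lit 0) (XT.lf (nat_lit 0) (nat_lit 12043989555) (nat_lit 304) (nat_lit 152735459) (nat_lit 76) (nat_lit 242476005) (nat_lit 77) (nat_lit 5) (nat_lit 81) (nat_lit 5) (nat_lit 78) (nat_lit 4) (nat_lit 624) (nat_lit 490) (nat_lit 446)) (XT.nd (nat_lit 78) (nat_lit 228) (nat_lit 0) (XT.lf (nat_lit 0) (nat_lit 4208258833) (nat_lit 304) (nat_lit 3409375854) (nat_lit 76) (nat_lit 4961796893) (nat_lit 73) (nat_lit 5) (nat_lit 77) (nat_lit 5)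 (nat_lit 74) (nat_lit 5) (nat_lit 625) (nat_lit 490) (nat_lit 445)) (XT.lf (nat_lit 0) (nat_lit 5950622941) (nat_lit 228) (nat_lit 2939336003) (nat_lit 304) (nat_lit 3832629184) (nat_lit 70) (nat_lit 5) (nat_lit 73) (nat_lit 5) (nat_lit 74) (nat_lit 5) (nat_lit 626) (nat_lit 490) (nat_lit 444)))) (XT.nd (nat_lit 78) (nat_lit 228) (nat_lit 0) (XT.lf (nat_lit 0) (nat_lit 790117148) (nat_lit 304) (nat_lit 10259510315) (nat_lit 76) (nat_lit 1818801847) (nat_lit 66) (nat_lit 5) (nat_lit 70) (nat_lit 5) (nat_lit 67) (nat_lit 5) (nat_lit 627) (nat_lit 490) (nat_lit 443)) (XT.nd (nat_lit 78) (nat_lit 228) (nat_lit 0) (XT.lf (nat_lit 0) (nat_lit 5471296637) (nat_lit 304) (nat_lit 876199962) (nat_lit 76) (nat_lit 6668840616) (nat_lit 66) (nat_lit 5) (nat_lit 70) (nat_lit 5) (nat_lit 67) (nat_lit 5) (nat_lit 628) (nat_lit 490) (nat_lit 442)) (XT.lf (nat_lit 0) (nat_lit 8726888419) (nat_lit 228) (nat_lit 1528851417) (nat_lit 304) (nat_lit 2911273106) (nat_lit 63) (nat_lit 5) (nat_lit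 66) (nat_lit 5) (nat_lit 67) (nat_lit 5) (nat_lit 629) (nat_lit 490) (nat_lit 441))))) (XT.nd (nat_lit 234) (nat_lit 684) (nat_lit 0) (XT.nd (nat_lit 78) (nat_lit 228) (nat_lit 0) (XT.lf (nat_lit 0) (nat_lit 1806114459) (nat_lit 228) (nat_lit 8155601451) (nat_lit 76) (nat_lit 3358457918) (nat_lit 60) (nat_lit 5) (nat_lit 63) (nat_lit 5) (nat_lit 61) (nat_lit 5) (nat_lit 630) (nat_lit 490) (nat_lit 440)) (XT.nd (nat_lit 78) (nat_lit 0) (nat_lit 0) (XT.lf (nat_lit 0) (nat_lit 1452608324) (nat_lit 228) (nat_lit 5129063379) (nat_lit 304) (nat_lit 6894287604) (nat_lit 57) (nat_lit 5) (nat_lit 60) (nat_lit 5) (nat_lit 61) (nat_lit 5) (nat_lit 631) (nat_lit 490) (nat_lit 439)) (XT.lf (nat_lit 0) (nat_lit 11281487940) (nat_lit 228) (nat_lit 179583523) (nat_lit 304) (nat_lit 2173624684) (nat_lit 57) (nat_lit 5) (nat_lit 60) (nat_lit 5) (nat_lit 61) (nat_lit 5) (nat_lit 632) (nat_lit 490) (nat_lit 438)))) (XT.nd (nat_lit 156) (nat_lit 228) (nat_lit 0) (XT.nd (nat_lit 78) (nat_lit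 228) (nat_lit 0) (XT.lf (nat_lit 0) (nat_lit 2641601394) (nat_lit 228) (nat_lit 6317383950) (nat_lit 76) (nat_lit 4836585707) (nat_lit 54) (nat_lit 5) (nat_lit 57) (nat_lit 5) (nat_lit 55) (nat_lit 5) (nat_lit 633) (nat_lit 490) (nat_lit 437)) (XT.lf (nat_lit 0) (nat_lit 3528147565) (nat_lit 228) (nat_lit 3990255525) (nat_lit 304) (nat_lit 6441087640) (nat_lit 51) (nat_lit 5) (nat_lit 54) (nat_lit 5) (nat_lit 55) (nat_lit 5) (nat_lit 634) (nat_lit 490) (nat_lit 436))) (XT.nd (nat_lit 78) (nat_lit 228) (nat_lit 0) (XT.lf (nat_lit 0) (nat_lit 12496910636) (nat_lit 304) (nat_lit 558236898) (nat_lit 76) (nat_lit 1071459977) (nat_lit 51) (nat_lit 5) (nat_lit 55) (nat_lit 5) (nat_lit 52) (nat_lit 4) (nat_lit 635) (nat_lit 490) (nat_lit 435)) (XT.lf (nat_lit 0) (nat_lit 3278916876) (nat_lit 228) (nat_lit 4786603360) (nat_lit 76) (nat_lit 6230243050) (nat_lit 48) (nat_lit 5) (nat_lit 51) (nat_lit 5) (nat_lit 49) (nat_lit 5) (nat_lit 636) (nat_lit 490) (nat_lit 434))))))))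
noncomputable def xc25 : XT := (XT.nd (nat_lit 77610) (nat_lit 0) (nat_lit 5776) (XT.nd (nat_lit 76596) (nat_lit 0) (nat_lit 13452) (XT.nd (nat_lit 468) (nat_lit 760) (nat_lit 0) (XT.nd (nat_lit 234) (nat_lit 380) (nat_lit 0) (XT.nd (nat_lit 78) (nat_lit 228) (nat_lit 0) (XT.lf (nat_lit 0) (nat_lit 5296070888) (nat_lit 228) (nat_lit 2961442739) (nat_lit 304) (nat_lit 6210702441) (nat_lit 45) (nat_lit 5) (nat_lit 48) (nat_lit 5) (nat_lit 49) (nat_lit 5) (nat_lit 637) (nat_lit 490) (nat_lit 433)) (XT.nd (nat_lit 78) (nat_lit 76) (nat_lit 0) (XT.lf (nat_lit 0) (nat_lit 919126747) (nat_lit 152) (nat_lit 12425016871) (nat_lit 228) (nat_lit 1299807006) (nat_lit 43) (nat_lit 5) (nat_lit 45) (nat_lit 5) (nat_lit 46) (nat_lit 4) (nat_lit 638) (nat_lit 490) (nat_lit 432)) (XT.lf (nat_lit 0) (nat_lit 3697875588) (nat_lit 228) (nat_lit 3609529984) (nat_lit 76) (nat_lit 7514570153) (nat_lit 42) (nat_lit 5) (nat_lit 45) (nat_lit 5) (nat_lit 43) (nat_lit 5) (nat_lit 639) (nat_lit 490)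 (nat_lit 431)))) (XT.nd (nat_lit 78) (nat_lit 228) (nat_lit 0) (XT.lf (nat_lit 0) (nat_lit 6709007544) (nat_lit 152) (nat_lit 2069192853) (nat_lit 228) (nat_lit 6225189069) (nat_lit 40) (nat_lit 5) (nat_lit 42) (nat_lit 5) (nat_lit 43) (nat_lit 5) (nat_lit 640) (nat_lit 490) (nat_lit 430)) (XT.nd (nat_lit 78) (nat_lit 76) (nat_lit 0) (XT.lf (nat_lit 0) (nat_lit 2021425647) (nat_lit 152) (nat_lit 11954106456) (nat_lit 228) (nat_lit 1212593168) (nat_lit 38) (nat_lit 5) (nat_lit 40) (nat_lit 5) (nat_lit 41) (nat_lit 4) (nat_lit 641) (nat_lit 490) (nat_lit 429)) (XT.lf (nat_lit 0) (nat_lit 3875528632) (nat_lit 228) (nat_lit 2837482586) (nat_lit 76) (nat_lit 8662511310) (nat_lit 37) (nat_lit 5) (nat_lit 40) (nat_lit 5) (nat_lit 38) (nat_lit 5) (nat_lit 642) (nat_lit 490) (nat_lit 428))))) (XT.nd (nat_lit 234) (nat_lit 380) (nat_lit 0) (XT.nd (nat_lit 78) (nat_lit 228) (nat_lit 0) (XT.lf (nat_lit 0) (nat_lit 7714378568) (nat_lit 152) (nat_lit 1342443819) (nat_lit 228) (nat_lit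 6509533806) (nat_lit 35) (nat_lit 5) (nat_lit 37) (nat_lit 5) (nat_lit 38) (nat_lit 5) (nat_lit 643) (nat_lit 490) (nat_lit 427)) (XT.nd (nat_lit 78) (nat_lit 76) (nat_lit 0) (XT.lf (nat_lit 0) (nat_lit 2686168422) (nat_lit 152) (nat_lit 11676687374) (nat_lit 228) (nat_lit 1397730122) (nat_lit 33) (nat_lit 5) (nat_lit 35) (nat_lit 5) (nat_lit 36) (nat_lit 4) (nat_lit 644) (nat_lit 490) (nat_lit 426)) (XT.lf (nat_lit 0) (nat_lit 3785896431) (nat_lit 228) (nat_lit 2527404947) (nat_lit 76) (nat_lit 9644512125) (nat_lit 32) (nat_lit 5) (nat_lit 35) (nat_lit 5) (nat_lit 33) (nat_lit 5) (nat_lit 645) (nat_lit 490) (nat_lit 425)))) (XT.nd (nat_lit 78) (nat_lit 228) (nat_lit 0) (XT.lf (nat_lit 0) (nat_lit 8253802021) (nat_lit 152) (nat_lit 812821969) (nat_lit 228) (nat_lit 7091935552) (nat_lit 30) (nat_lit 5) (nat_lit 32) (nat_lit 5) (nat_lit 33) (nat_lit 5) (nat_lit 646) (nat_lit 490) (nat_lit 424)) (XT.nd (nat_lit 78) (nat_lit 76) (nat_lit 0) (XT.lf (nat_lit 0) (nat_lit 2852212770)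 (nat_lit 152) (nat_lit 11626134448) (nat_lit 228) (nat_lit 1884467196) (nat_lit 28) (nat_lit 5) (nat_lit 30) (nat_lit 5) (nat_lit 31) (nat_lit 4) (nat_lit 647) (nat_lit 490) (nat_lit 423)) (XT.lf (nat_lit 0) (nat_lit 3399671142) (nat_lit 228) (nat_lit 2742501027) (nat_lit 76) (nat_lit 10428189293) (nat_lit 27) (nat_lit 5) (nat_lit 30) (nat_lit 5) (nat_lit 28) (nat_lit 5) (nat_lit 648) (nat_lit 490) (nat_lit 422)))))) (XT.nd (nat_lit 468) (nat_lit 3344) (nat_lit 0) (XT.nd (nat_lit 234) (nat_lit 1900) (nat_lit 0) (XT.nd (nat_lit 78) (nat_lit 684) (nat_lit 0) (XT.lf (nat_lit 0) (nat_lit 1263670637) (nat_lit 684) (nat_lit 1389041496) (nat_lit 684) (nat_lit 1389041496) (nat_lit 282) (nat_lit 4) (nat_lit 291) (nat_lit 5) (nat_lit 291) (nat_lit 4) (nat_lit 578) (nat_lit 491) (nat_lit 491)) (XT.nd (nat_lit 78) (nat_lit 0) (nat_lit 0) (XT.lf (nat_lit 0) (nat_lit 1083029621) (nat_lit 608) (nat_lit 48371141) (nat_lit 684) (nat_lit 7010811331) (nat_lit 273) (nat_lit 5) (nat_lit 281)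 (nat_lit 5) (nat_lit 282) (nat_lit 4) (nat_lit 579) (nat_lit 491) (nat_lit 490)) (XT.lf (nat_lit 0) (nat_lit 5069639144) (nat_lit 684) (nat_lit 397232399) (nat_lit 0) (nat_lit 2735106427) (nat_lit 273) (nat_lit 5) (nat_lit 282) (nat_lit 4) (nat_lit 273) (nat_lit 4) (nat_lit 580) (nat_lit 491) (nat_lit 489)))) (XT.nd (nat_lit 78) (nat_lit 1216) (nat_lit 0) (XT.lf (nat_lit 0) (nat_lit 788318424) (nat_lit 684) (nat_lit 1875177800) (nat_lit 76) (nat_lit 5599836727) (nat_lit 264) (nat_lit 5) (nat_lit 273) (nat_lit 5) (nat_lit 265) (nat_lit 4) (nat_lit 581) (nat_lit 491) (nat_lit 488)) (XT.nd (nat_lit 78) (nat_lit 684) (nat_lit 0) (XT.lf (nat_lit 0) (nat_lit 4715813381) (nat_lit 608) (nat_lit 3383115662) (nat_lit 0) (nat_lit 227173494) (nat_lit 257) (nat_lit 5) (nat_lit 265) (nat_lit 4) (nat_lit 257) (nat_lit 4) (nat_lit 582) (nat_lit 491) (nat_lit 487)) (XT.lf (nat_lit 0) (nat_lit 314759827) (nat_lit 684) (nat_lit 4920521753) (nat_lit 76) (nat_lit 3155063849) (nat_lit 248)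 (nat_lit 5) (nat_lit 257) (nat_lit 5) (nat_lit 249) (nat_lit 4) (nat_lit 583) (nat_lit 491) (nat_lit 486))))) (XT.nd (nat_lit 234) (nat_lit 2204) (nat_lit 0) (XT.nd (nat_lit 78) (nat_lit 608) (nat_lit 0) (XT.lf (nat_lit 0) (nat_lit 1962720721) (nat_lit 532) (nat_lit 2277783642) (nat_lit 608) (nat_lit 4215489227) (nat_lit 241) (nat_lit 5) (nat_lit 248) (nat_lit 5) (nat_lit 249) (nat_lit 4) (nat_lit 584) (nat_lit 491) (nat_lit 485)) (XT.nd (nat_lit 78) (nat_lit 76) (nat_lit 0) (XT.lf (nat_lit 0) (nat_lit 438999502) (nat_lit 532) (nat_lit 7782088515) (nat_lit 532) (nat_lit 302348467) (nat_lit 234) (nat_lit 4) (nat_lit 241) (nat_lit 5) (nat_lit 241) (nat_lit 4) (nat_lit 585) (nat_lit 491) (nat_lit 484)) (XT.lf (nat_lit 0) (nat_lit 3635313650) (nat_lit 608) (nat_lit 1122793204) (nat_lit 76) (nat_lit 3833757455) (nat_lit 233) (nat_lit 5) (nat_lit 241) (nat_lit 5) (nat_lit 234) (nat_lit 4) (nat_lit 586) (nat_lit 491) (nat_lit 483)))) (XT.nd (nat_lit 156) (nat_lit 1064) (nat_lit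 0) (XT.nd (nat_lit 78) (nat_lit 608) (nat_lit 0) (XT.lf (nat_lit 0) (nat_lit 5966045765) (nat_lit 532) (nat_lit 1657329659) (nat_lit 608) (nat_lit 1038739176) (nat_lit 226) (nat_lit 5) (nat_lit 233) (nat_lit 5) (nat_lit 234) (nat_lit 4) (nat_lit 587) (nat_lit 491) (nat_lit 482)) (XT.lf (nat_lit 0) (nat_lit 2902155650) (nat_lit 608) (nat_lit 4315348255) (nat_lit 76) (nat_lit 1516219147) (nat_lit 218) (nat_lit 5) (nat_lit 226) (nat_lit 5) (nat_lit 219) (nat_lit 4) (nat_lit 588) (nat_lit 491) (nat_lit 481))) (XT.nd (nat_lit 78) (nat_lit 608) (nat_lit 0) (XT.lf (nat_lit 0) (nat_lit 2835421584) (nat_lit 456) (nat_lit 4057842338) (nat_lit 532) (nat_lit 1913663676) (nat_lit 212) (nat_lit 5) (nat_lit 218) (nat_lit 5) (nat_lit 219) (nat_lit 4) (nat_lit 589) (nat_lit 491) (nat_lit 480)) (XT.lf (nat_lit 0) (nat_lit 1219679905) (nat_lit 532) (nat_lit 810599792) (nat_lit 608) (nat_lit 6851553243) (nat_lit 204) (nat_lit 5) (nat_lit 211) (nat_lit 5) (nat_lit 212) (nat_lit 5) (nat_lit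 590) (nat_lit 491) (nat_lit 479))))))) (XT.nd (nat_lit 936) (nat_lit 3496) (nat_lit 0) (XT.nd (nat_lit 468) (nat_lit 1824) (nat_lit 0) (XT.nd (nat_lit 234) (nat_lit 1368) (nat_lit 0) (XT.nd (nat_lit 78) (nat_lit 988) (nat_lit 0) (XT.lf (nat_lit 0) (nat_lit 6022471625) (nat_lit 608) (nat_lit 440740237) (nat_lit 76) (nat_lit 2494878575) (nat_lit 204) (nat_lit 5) (nat_lit 212) (nat_lit 5) (nat_lit 205) (nat_lit 4) (nat_lit 591) (nat_lit 491) (nat_lit 478)) (XT.nd (nat_lit 78) (nat_lit 456) (nat_lit 0) (XT.lf (nat_lit 0) (nat_lit 1034588892) (nat_lit 532) (nat_lit 2120364933) (nat_lit 76) (nat_lit 5880991655) (nat_lit 197) (nat_lit 5) (nat_lit 204) (nat_lit 5) (nat_lit 198) (nat_lit 5) (nat_lit 592) (nat_lit 491) (nat_lit 477)) (XT.lf (nat_lit 0) (nat_lit 5023561240) (nat_lit 532) (nat_lit 3845905108) (nat_lit 76) (nat_lit 245936324) (nat_lit 191) (nat_lit 5) (nat_lit 198) (nat_lit 5) (nat_lit 192) (nat_lit 4) (nat_lit 593) (nat_lit 491) (nat_lit 476)))) (XT.nd (nat_lit 78)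 (nat_lit 912) (nat_lit 0) (XT.lf (nat_lit 0) (nat_lit 3576997794) (nat_lit 456) (nat_lit 5513997748) (nat_lit 532) (nat_lit 105486196) (nat_lit 185) (nat_lit 5) (nat_lit 191) (nat_lit 5) (nat_lit 192) (nat_lit 4) (nat_lit 594) (nat_lit 491) (nat_lit 475)) (XT.nd (nat_lit 78) (nat_lit 380) (nat_lit 0) (XT.lf (nat_lit 0) (nat_lit 1831077467) (nat_lit 456) (nat_lit 2055885731) (nat_lit 532) (nat_lit 5392144805) (nat_lit 178) (nat_lit 5) (nat_lit 184) (nat_lit 5) (nat_lit 185) (nat_lit 5) (nat_lit 595) (nat_lit 491) (nat_lit 474)) (XT.lf (nat_lit 0) (nat_lit 44993028) (nat_lit 380) (nat_lit 7901509748) (nat_lit 456) (nat_lit 1417103009) (nat_lit 173) (nat_lit 5) (nat_lit 178) (nat_lit 5) (nat_lit 179) (nat_lit 4) (nat_lit 596) (nat_lit 491) (nat_lit 473))))) (XT.nd (nat_lit 234) (nat_lit 836) (nat_lit 0) (XT.nd (nat_lit 78) (nat_lit 912) (nat_lit 0) (XT.lf (nat_lit 0) (nat_lit 2607813285) (nat_lit 456) (nat_lit 1780515532) (nat_lit 76) (nat_lit 5061028723) (nat_lit 172) (nat_lit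 5) (nat_lit 178) (nat_lit 5) (nat_lit 173) (nat_lit 5) (nat_lit 597) (nat_lit 491) (nat_lit 472)) (XT.nd (nat_lit 78) (nat_lit 456) (nat_lit 0) (XT.lf (nat_lit 0) (nat_lit 5888453098) (nat_lit 456) (nat_lit 786243222) (nat_lit 532) (nat_lit 2862337465) (nat_lit 166) (nat_lit 5) (nat_lit 172) (nat_lit 5) (nat_lit 173) (nat_lit 5) (nat_lit 598) (nat_lit 491) (nat_lit 471)) (XT.lf (nat_lit 0) (nat_lit 1180426190) (nat_lit 456) (nat_lit 5579290283) (nat_lit 76) (nat_lit 2866603874) (nat_lit 160) (nat_lit 5) (nat_lit 166) (nat_lit 5) (nat_lit 161) (nat_lit 5) (nat_lit 599) (nat_lit 491) (nat_lit 470)))) (XT.nd (nat_lit 78) (nat_lit 456) (nat_lit 0) (XT.lf (nat_lit 0) (nat_lit 2144610240) (nat_lit 380) (nat_lit 3107664236) (nat_lit 456) (nat_lit 4465013981) (nat_lit 155) (nat_lit 5) (nat_lit 160) (nat_lit 5) (nat_lit 161) (nat_lit 5) (nat_lit 600) (nat_lit 491) (nat_lit 469)) (XT.nd (nat_lit 78) (nat_lit 76) (nat_lit 0) (XT.lf (nat_lit 0) (nat_lit 198987096) (nat_lit 380) (nat_lit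 9192656110) (nat_lit 456) (nat_lit 418716290) (nat_lit 150) (nat_lit 5) (nat_lit 155) (nat_lit 5) (nat_lit 156) (nat_lit 4) (nat_lit 601) (nat_lit 491) (nat_lit 468)) (XT.lf (nat_lit 0) (nat_lit 3674863844) (nat_lit 456) (nat_lit 1809367584) (nat_lit 76) (nat_lit 4420284109) (nat_lit 149) (nat_lit 5) (nat_lit 155) (nat_lit 5) (nat_lit 150) (nat_lit 5) (nat_lit 602) (nat_lit 491) (nat_lit 467)))))) (XT.nd (nat_lit 468) (nat_lit 1672) (nat_lit 0) (XT.nd (nat_lit 234) (nat_lit 684) (nat_lit 0) (XT.nd (nat_lit 78) (nat_lit 760) (nat_lit 0) (XT.lf (nat_lit 0) (nat_lit 6139332484) (nat_lit 380) (nat_lit 1689615367) (nat_lit 456) (nat_lit 2171871648) (nat_lit 144) (nat_lit 5) (nat_lit 149) (nat_lit 5) (nat_lit 150) (nat_lit 5) (nat_lit 603) (nat_lit 491) (nat_lit 466)) (XT.nd (nat_lit 78) (nat_lit 380) (nat_lit 0) (XT.lf (nat_lit 0) (nat_lit 1939110049) (nat_lit 380) (nat_lit 5986686177) (nat_lit 76) (nat_lit 2173045737) (nat_lit 139) (nat_lit 5) (nat_lit 144) (nat_lit 5) (nat_lit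 140) (nat_lit 5) (nat_lit 604) (nat_lit 491) (nat_lit 465)) (XT.lf (nat_lit 0) (nat_lit 2012373982) (nat_lit 380) (nat_lit 4086073662) (nat_lit 456) (nat_lit 4100190406) (nat_lit 134) (nat_lit 5) (nat_lit 139) (nat_lit 5) (nat_lit 140) (nat_lit 5) (nat_lit 605) (nat_lit 491) (nat_lit 464)))) (XT.nd (nat_lit 78) (nat_lit 608) (nat_lit 0) (XT.lf (nat_lit 0) (nat_lit 25451281) (nat_lit 456) (nat_lit 135331168) (nat_lit 76) (nat_lit 10139937991) (nat_lit 133) (nat_lit 5) (nat_lit 139) (nat_lit 5) (nat_lit 134) (nat_lit 5) (nat_lit 606) (nat_lit 491) (nat_lit 463)) (XT.nd (nat_lit 78) (nat_lit 304) (nat_lit 0) (XT.lf (nat_lit 0) (nat_lit 4202496033) (nat_lit 380) (nat_lit 2360330661) (nat_lit 76) (nat_lit 3841004282) (nat_lit 129) (nat_lit 5) (nat_lit 134) (nat_lit 5) (nat_lit 130) (nat_lit 5) (nat_lit 607) (nat_lit 491) (nat_lit 462)) (XT.lf (nat_lit 0) (nat_lit 5868330683) (nat_lit 304) (nat_lit 2581205060) (nat_lit 380) (nat_lit 2059743192) (nat_lit 125) (nat_lit 5) (nat_lit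 129) (nat_lit 5) (nat_lit 130) (nat_lit 5) (nat_lit 608) (nat_lit 491) (nat_lit 461))))) (XT.nd (nat_lit 234) (nat_lit 988) (nat_lit 0) (XT.nd (nat_lit 78) (nat_lit 304) (nat_lit 0) (XT.lf (nat_lit 0) (nat_lit 2132025779) (nat_lit 380) (nat_lit 7002645777) (nat_lit 76) (nat_lit 1481972622) (nat_lit 120) (nat_lit 5) (nat_lit 125) (nat_lit 5) (nat_lit 121) (nat_lit 5) (nat_lit 609) (nat_lit 491) (nat_lit 460)) (XT.nd (nat_lit 78) (nat_lit 0) (nat_lit 0) (XT.lf (nat_lit 0) (nat_lit 1270391224) (nat_lit 304) (nat_lit 5113166653) (nat_lit 380) (nat_lit 4342260443) (nat_lit 116) (nat_lit 5) (nat_lit 120) (nat_lit 5) (nat_lit 121) (nat_lit 5) (nat_lit 610) (nat_lit 491) (nat_lit 459)) (XT.lf (nat_lit 0) (nat_lit 9717633803) (nat_lit 304) (nat_lit 996752237) (nat_lit 380) (nat_lit 122908562) (nat_lit 116) (nat_lit 5) (nat_lit 120) (nat_lit 5) (nat_lit 121) (nat_lit 5) (nat_lit 611) (nat_lit 491) (nat_lit 458)))) (XT.nd (nat_lit 156) (nat_lit 304) (nat_lit 0) (XT.nd (nat_lit 78)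 (nat_lit 304) (nat_lit 0) (XT.lf (nat_lit 0) (nat_lit 4142862642) (nat_lit 380) (nat_lit 3604502598) (nat_lit 76) (nat_lit 3202758796) (nat_lit 111) (nat_lit 5) (nat_lit 116) (nat_lit 5) (nat_lit 112) (nat_lit 5) (nat_lit 612) (nat_lit 491) (nat_lit 457)) (XT.lf (nat_lit 0) (nat_lit 4901705316) (nat_lit 304) (nat_lit 3584807120) (nat_lit 380) (nat_lit 2578800934) (nat_lit 107) (nat_lit 5) (nat_lit 111) (nat_lit 5) (nat_lit 112) (nat_lit 5) (nat_lit 613) (nat_lit 491) (nat_lit 456))) (XT.nd (nat_lit 78) (nat_lit 0) (nat_lit 0) (XT.lf (nat_lit 0) (nat_lit 1704025257) (nat_lit 304) (nat_lit 8808450559) (nat_lit 76) (nat_lit 670258246) (nat_lit 103) (nat_lit 5) (nat_lit 107) (nat_lit 5) (nat_lit 104) (nat_lit 5) (nat_lit 614) (nat_lit 491) (nat_lit 455)) (XT.lf (nat_lit 0) (nat_lit 6051965774) (nat_lit 304) (nat_lit 262102832) (nat_lit 76) (nat_lit 4987817408) (nat_lit 103) (nat_lit 5) (nat_lit 107) (nat_lit 5) (nat_lit 104) (nat_lit 5) (nat_lit 615) (nat_lit 491) (nat_lit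 454))))))))
noncomputable def xc26 : XT := (XT.nd (nat_lit 1950) (nat_lit 988) (nat_lit 0) (XT.nd (nat_lit 936) (nat_lit 2280) (nat_lit 0) (XT.nd (nat_lit 468) (nat_lit 1064) (nat_lit 0) (XT.nd (nat_lit 234) (nat_lit 532) (nat_lit 0) (XT.nd (nat_lit 78) (nat_lit 608) (nat_lit 0) (XT.lf (nat_lit 0) (nat_lit 8482284618) (nat_lit 304) (nat_lit 2009241587) (nat_lit 380) (nat_lit 931805032) (nat_lit 99) (nat_lit 5) (nat_lit 103) (nat_lit 5) (nat_lit 104) (nat_lit 5) (nat_lit 616) (nat_lit 491) (nat_lit 453)) (XT.nd (nat_lit 78) (nat_lit 304) (nat_lit 0) (XT.lf (nat_lit 0) (nat_lit 3432089327) (nat_lit 304) (nat_lit 5735064947) (nat_lit 76) (nat_lit 2379504239) (nat_lit 95) (nat_lit 5) (nat_lit 99) (nat_lit 5) (nat_lit 96) (nat_lit 5) (nat_lit 617) (nat_lit 491) (nat_lit 452)) (XT.lf (nat_lit 0) (nat_lit 3042917607) (nat_lit 304) (nat_lit 4830731490) (nat_lit 380) (nat_lit 3798626020) (nat_lit 91) (nat_lit 5) (nat_lit 95) (nat_lit 5) (nat_lit 96) (nat_lit 5) (nat_lit 618) (nat_lit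 491) (nat_lit 451)))) (XT.nd (nat_lit 78) (nat_lit 228) (nat_lit 0) (XT.lf (nat_lit 0) (nat_lit 188270894) (nat_lit 228) (nat_lit 397439183) (nat_lit 304) (nat_lit 11214818902) (nat_lit 87) (nat_lit 5) (nat_lit 90) (nat_lit 5) (nat_lit 91) (nat_lit 5) (nat_lit 619) (nat_lit 491) (nat_lit 450)) (XT.nd (nat_lit 78) (nat_lit 228) (nat_lit 0) (XT.lf (nat_lit 0) (nat_lit 5042225553) (nat_lit 304) (nat_lit 2768087108) (nat_lit 76) (nat_lit 4119829020) (nat_lit 87) (nat_lit 5) (nat_lit 91) (nat_lit 5) (nat_lit 88) (nat_lit 5) (nat_lit 620) (nat_lit 491) (nat_lit 449)) (XT.lf (nat_lit 0) (nat_lit 6249153475) (nat_lit 228) (nat_lit 3333137848) (nat_lit 304) (nat_lit 2480169921) (nat_lit 84) (nat_lit 5) (nat_lit 87) (nat_lit 5) (nat_lit 88) (nat_lit 5) (nat_lit 621) (nat_lit 491) (nat_lit 448))))) (XT.nd (nat_lit 234) (nat_lit 532) (nat_lit 0) (XT.nd (nat_lit 78) (nat_lit 228) (nat_lit 0) (XT.lf (nat_lit 0) (nat_lit 1988430454) (nat_lit 304) (nat_lit 8972327940) (nat_lit 76) (nat_lit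 1236427226) (nat_lit 80) (nat_lit 5) (nat_lit 84) (nat_lit 5) (nat_lit 81) (nat_lit 5) (nat_lit 622) (nat_lit 491) (nat_lit 447)) (XT.nd (nat_lit 78) (nat_lit 0) (nat_lit 0) (XT.lf (nat_lit 0) (nat_lit 67450045) (nat_lit 228) (nat_lit 6459060415) (nat_lit 304) (nat_lit 5807502635) (nat_lit 77) (nat_lit 5) (nat_lit 80) (nat_lit 5) (nat_lit 81) (nat_lit 5) (nat_lit 623) (nat_lit 491) (nat_lit 446)) (XT.lf (nat_lit 0) (nat_lit 9326754227) (nat_lit 228) (nat_lit 1840725225) (nat_lit 304) (nat_lit 1305857898) (nat_lit 77) (nat_lit 5) (nat_lit 80) (nat_lit 5) (nat_lit 81) (nat_lit 5) (nat_lit 624) (nat_lit 491) (nat_lit 445)))) (XT.nd (nat_lit 78) (nat_lit 228) (nat_lit 0) (XT.lf (nat_lit 0) (nat_lit 3253906502) (nat_lit 304) (nat_lit 6500993453) (nat_lit 76) (nat_lit 2859900510) (nat_lit 73) (nat_lit 5) (nat_lit 77) (nat_lit 5) (nat_lit 74) (nat_lit 5) (nat_lit 625) (nat_lit 491) (nat_lit 444)) (XT.nd (nat_lit 78) (nat_lit 0) (nat_lit 0) (XT.lf (nat_lit 0) (nat_lit 2776744863)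 (nat_lit 228) (nat_lit 5114851718) (nat_lit 304) (nat_lit 4867241930) (nat_lit 70) (nat_lit 5) (nat_lit 73) (nat_lit 5) (nat_lit 74) (nat_lit 5) (nat_lit 626) (nat_lit 491) (nat_lit 443)) (XT.lf (nat_lit 0) (nat_lit 12246618951) (nat_lit 228) (nat_lit 372169838) (nat_lit 304) (nat_lit 287036128) (nat_lit 70) (nat_lit 5) (nat_lit 73) (nat_lit 5) (nat_lit 74) (nat_lit 5) (nat_lit 627) (nat_lit 491) (nat_lit 442)))))) (XT.nd (nat_lit 468) (nat_lit 1064) (nat_lit 0) (XT.nd (nat_lit 234) (nat_lit 456) (nat_lit 0) (XT.nd (nat_lit 78) (nat_lit 456) (nat_lit 0) (XT.lf (nat_lit 0) (nat_lit 4367848376) (nat_lit 304) (nat_lit 4227022853) (nat_lit 76) (nat_lit 4459501276) (nat_lit 66) (nat_lit 5) (nat_lit 70) (nat_lit 5) (nat_lit 67) (nat_lit 5) (nat_lit 628) (nat_lit 491) (nat_lit 441)) (XT.nd (nat_lit 78) (nat_lit 228) (nat_lit 0) (XT.lf (nat_lit 0) (nat_lit 5291039232) (nat_lit 228) (nat_lit 3816123416) (nat_lit 304) (nat_lit 4098789359) (nat_lit 63) (nat_lit 5) (nat_lit 66) (nat_lit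 5) (nat_lit 67) (nat_lit 5) (nat_lit 629) (nat_lit 491) (nat_lit 440)) (XT.lf (nat_lit 0) (nat_lit 573151157) (nat_lit 228) (nat_lit 11734137718) (nat_lit 76) (nat_lit 1053199802) (nat_lit 60) (nat_lit 5) (nat_lit 63) (nat_lit 5) (nat_lit 61) (nat_lit 5) (nat_lit 630) (nat_lit 491) (nat_lit 439)))) (XT.nd (nat_lit 78) (nat_lit 456) (nat_lit 0) (XT.lf (nat_lit 0) (nat_lit 5316572000) (nat_lit 228) (nat_lit 2185063140) (nat_lit 76) (nat_lit 6015282873) (nat_lit 60) (nat_lit 5) (nat_lit 63) (nat_lit 5) (nat_lit 61) (nat_lit 5) (nat_lit 631) (nat_lit 491) (nat_lit 438)) (XT.nd (nat_lit 78) (nat_lit 228) (nat_lit 0) (XT.lf (nat_lit 0) (nat_lit 7574957868) (nat_lit 228) (nat_lit 2584120028) (nat_lit 304) (nat_lit 3517315939) (nat_lit 57) (nat_lit 5) (nat_lit 60) (nat_lit 5) (nat_lit 61) (nat_lit 5) (nat_lit 632) (nat_lit 491) (nat_lit 437)) (XT.lf (nat_lit 0) (nat_lit 1252502559) (nat_lit 228) (nat_lit 10173311822) (nat_lit 76) (nat_lit 2412890511) (nat_lit 54) (nat_lit 5)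 (nat_lit 57) (nat_lit 5) (nat_lit 55) (nat_lit 5) (nat_lit 633) (nat_lit 491) (nat_lit 436))))) (XT.nd (nat_lit 234) (nat_lit 608) (nat_lit 0) (XT.nd (nat_lit 78) (nat_lit 456) (nat_lit 0) (XT.lf (nat_lit 0) (nat_lit 6084244449) (nat_lit 228) (nat_lit 413460978) (nat_lit 76) (nat_lit 7505821381) (nat_lit 54) (nat_lit 5) (nat_lit 57) (nat_lit 5) (nat_lit 55) (nat_lit 5) (nat_lit 634) (nat_lit 491) (nat_lit 435)) (XT.nd (nat_lit 78) (nat_lit 228) (nat_lit 0) (XT.lf (nat_lit 0) (nat_lit 9589308334) (nat_lit 228) (nat_lit 1441701896) (nat_lit 304) (nat_lit 3140269215) (nat_lit 51) (nat_lit 5) (nat_lit 54) (nat_lit 5) (nat_lit 55) (nat_lit 5) (nat_lit 635) (nat_lit 491) (nat_lit 434)) (XT.lf (nat_lit 0) (nat_lit 1730096495) (nat_lit 228) (nat_lit 8929181206) (nat_lit 76) (nat_lit 3682515845) (nat_lit 48) (nat_lit 5) (nat_lit 51) (nat_lit 5) (nat_lit 49) (nat_lit 5) (nat_lit 636) (nat_lit 491) (nat_lit 433)))) (XT.nd (nat_lit 156) (nat_lit 380) (nat_lit 0) (XT.nd (nat_lit 78)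 (nat_lit 0) (nat_lit 0) (XT.lf (nat_lit 0) (nat_lit 1059187931) (nat_lit 228) (nat_lit 5600377309) (nat_lit 304) (nat_lit 7855664610) (nat_lit 45) (nat_lit 5) (nat_lit 48) (nat_lit 5) (nat_lit 49) (nat_lit 5) (nat_lit 637) (nat_lit 491) (nat_lit 432)) (XT.lf (nat_lit 0) (nat_lit 11290626647) (nat_lit 228) (nat_lit 413596718) (nat_lit 304) (nat_lit 2987581422) (nat_lit 45) (nat_lit 5) (nat_lit 48) (nat_lit 5) (nat_lit 49) (nat_lit 5) (nat_lit 638) (nat_lit 491) (nat_lit 431))) (XT.nd (nat_lit 78) (nat_lit 152) (nat_lit 0) (XT.lf (nat_lit 0) (nat_lit 1985500886) (nat_lit 228) (nat_lit 8048378453) (nat_lit 76) (nat_lit 4837105335) (nat_lit 42) (nat_lit 5) (nat_lit 45) (nat_lit 5) (nat_lit 43) (nat_lit 5) (nat_lit 639) (nat_lit 491) (nat_lit 430)) (XT.lf (nat_lit 0) (nat_lit 2172590893) (nat_lit 152) (nat_lit 4842677407) (nat_lit 228) (nat_lit 8038142151) (nat_lit 40) (nat_lit 5) (nat_lit 42) (nat_lit 5) (nat_lit 43) (nat_lit 5) (nat_lit 640) (nat_lit 491) (nat_lit 429)))))))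 (XT.nd (nat_lit 76440) (nat_lit 0) (nat_lit 12920) (XT.nd (nat_lit 468) (nat_lit 228) (nat_lit 0) (XT.nd (nat_lit 234) (nat_lit 380) (nat_lit 0) (XT.nd (nat_lit 78) (nat_lit 380) (nat_lit 0) (XT.lf (nat_lit 0) (nat_lit 12160422904) (nat_lit 228) (nat_lit 2611647786) (nat_lit 76) (nat_lit 467119981) (nat_lit 40) (nat_lit 5) (nat_lit 43) (nat_lit 5) (nat_lit 41) (nat_lit 4) (nat_lit 641) (nat_lit 491) (nat_lit 428)) (XT.nd (nat_lit 78) (nat_lit 152) (nat_lit 0) (XT.lf (nat_lit 0) (nat_lit 1995515796) (nat_lit 228) (nat_lit 7582603275) (nat_lit 76) (nat_lit 5849478292) (nat_lit 37) (nat_lit 5) (nat_lit 40) (nat_lit 5) (nat_lit 38) (nat_lit 5) (nat_lit 642) (nat_lit 491) (nat_lit 427)) (XT.lf (nat_lit 0) (nat_lit 2868287758) (nat_lit 152) (nat_lit 4256452100) (nat_lit 228) (nat_lit 8494733387) (nat_lit 35) (nat_lit 5) (nat_lit 37) (nat_lit 5) (nat_lit 38) (nat_lit 5) (nat_lit 643) (nat_lit 491) (nat_lit 426)))) (XT.nd (nat_lit 78) (nat_lit 380) (nat_lit 0) (XT.lf (nat_lit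 0) (nat_lit 12373861687) (nat_lit 228) (nat_lit 2266817061) (nat_lit 76) (nat_lit 1174163257) (nat_lit 35) (nat_lit 5) (nat_lit 38) (nat_lit 5) (nat_lit 36) (nat_lit 4) (nat_lit 644) (nat_lit 491) (nat_lit 425)) (XT.nd (nat_lit 78) (nat_lit 152) (nat_lit 0) (XT.lf (nat_lit 0) (nat_lit 1733905770) (nat_lit 228) (nat_lit 7589199462) (nat_lit 76) (nat_lit 6689941217) (nat_lit 32) (nat_lit 5) (nat_lit 35) (nat_lit 5) (nat_lit 33) (nat_lit 5) (nat_lit 645) (nat_lit 491) (nat_lit 424)) (XT.lf (nat_lit 0) (nat_lit 3087490826) (nat_lit 152) (nat_lit 3873475829) (nat_lit 228) (nat_lit 9253899925) (nat_lit 30) (nat_lit 5) (nat_lit 32) (nat_lit 5) (nat_lit 33) (nat_lit 5) (nat_lit 646) (nat_lit 491) (nat_lit 423))))) (XT.nd (nat_lit 75738) (nat_lit 0) (nat_lit 18696) (XT.nd (nat_lit 78) (nat_lit 228) (nat_lit 0) (XT.lf (nat_lit 0) (nat_lit 12314226095) (nat_lit 228) (nat_lit 2424751293) (nat_lit 76) (nat_lit 1681314084) (nat_lit 30) (nat_lit 5) (nat_lit 33) (nat_lit 5) (nat_lit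 31) (nat_lit 4) (nat_lit 647) (nat_lit 491) (nat_lit 422)) (XT.nd (nat_lit 75582) (nat_lit 0) (nat_lit 20748) (XT.lf (nat_lit 0) (nat_lit 1171101679) (nat_lit 228) (nat_lit 8131790467) (nat_lit 76) (nat_lit 7325957730) (nat_lit 27) (nat_lit 5) (nat_lit 30) (nat_lit 5) (nat_lit 28) (nat_lit 5) (nat_lit 648) (nat_lit 491) (nat_lit 421)) (XT.lf (nat_lit 0) (nat_lit 2709339794) (nat_lit 684) (nat_lit 637889283) (nat_lit 684) (nat_lit 637889283) (nat_lit 300) (nat_lit 4) (nat_lit 309) (nat_lit 5) (nat_lit 309) (nat_lit 4) (nat_lit 576) (nat_lit 492) (nat_lit 492)))) (XT.nd (nat_lit 78) (nat_lit 1368) (nat_lit 0) (XT.lf (nat_lit 0) (nat_lit 2593793770) (nat_lit 684) (nat_lit 4065333814) (nat_lit 0) (nat_lit 1367345851) (nat_lit 291) (nat_lit 5) (nat_lit 300) (nat_lit 4) (nat_lit 291) (nat_lit 4) (nat_lit 577) (nat_lit 492) (nat_lit 491)) (XT.nd (nat_lit 78) (nat_lit 684) (nat_lit 0) (XT.lf (nat_lit 0) (nat_lit 2483651569) (nat_lit 684) (nat_lit 4014689518) (nat_lit 684) (nat_lit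 1585841679) (nat_lit 282) (nat_lit 4) (nat_lit 291) (nat_lit 5) (nat_lit 291) (nat_lit 4) (nat_lit 578) (nat_lit 492) (nat_lit 490)) (XT.lf (nat_lit 0) (nat_lit 986378424) (nat_lit 608) (nat_lit 1287903612) (nat_lit 684) (nat_lit 5869129910) (nat_lit 273) (nat_lit 5) (nat_lit 281) (nat_lit 5) (nat_lit 282) (nat_lit 4) (nat_lit 579) (nat_lit 492) (nat_lit 489)))))) (XT.nd (nat_lit 468) (nat_lit 2736) (nat_lit 0) (XT.nd (nat_lit 234) (nat_lit 1824) (nat_lit 0) (XT.nd (nat_lit 78) (nat_lit 1216) (nat_lit 0) (XT.lf (nat_lit 0) (nat_lit 6171679640) (nat_lit 684) (nat_lit 530620897) (nat_lit 0) (nat_lit 1501698703) (nat_lit 273) (nat_lit 5) (nat_lit 282) (nat_lit 4) (nat_lit 273) (nat_lit 4) (nat_lit 580) (nat_lit 492) (nat_lit 488)) (XT.nd (nat_lit 78) (nat_lit 532) (nat_lit 0) (XT.lf (nat_lit 0) (nat_lit 1840377070) (nat_lit 684) (nat_lit 2063250921) (nat_lit 76) (nat_lit 4362258483) (nat_lit 264) (nat_lit 5) (nat_lit 273) (nat_lit 5) (nat_lit 265) (nat_lit 4) (nat_lit 581)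 (nat_lit 492) (nat_lit 487)) (XT.lf (nat_lit 0) (nat_lit 4710489661) (nat_lit 532) (nat_lit 1022358318) (nat_lit 608) (nat_lit 2596512899) (nat_lit 257) (nat_lit 5) (nat_lit 264) (nat_lit 5) (nat_lit 265) (nat_lit 4) (nat_lit 582) (nat_lit 492) (nat_lit 486)))) (XT.nd (nat_lit 78) (nat_lit 1140) (nat_lit 0) (XT.lf (nat_lit 0) (nat_lit 1274810924) (nat_lit 684) (nat_lit 5206803479) (nat_lit 76) (nat_lit 1912670479) (nat_lit 248) (nat_lit 5) (nat_lit 257) (nat_lit 5) (nat_lit 249) (nat_lit 4) (nat_lit 583) (nat_lit 492) (nat_lit 485)) (XT.nd (nat_lit 78) (nat_lit 608) (nat_lit 0) (XT.lf (nat_lit 0) (nat_lit 1628755319) (nat_lit 532) (nat_lit 3538033601) (nat_lit 608) (nat_lit 3293823540) (nat_lit 241) (nat_lit 5) (nat_lit 248) (nat_lit 5) (nat_lit 249) (nat_lit 4) (nat_lit 584) (nat_lit 492) (nat_lit 484)) (XT.lf (nat_lit 0) (nat_lit 52797798) (nat_lit 532) (nat_lit 519510989) (nat_lit 608) (nat_lit 7956447792) (nat_lit 233) (nat_lit 5) (nat_lit 240) (nat_lit 5) (nat_lit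 241) (nat_lit 5) (nat_lit 585) (nat_lit 492) (nat_lit 483))))) (XT.nd (nat_lit 234) (nat_lit 1596) (nat_lit 0) (XT.nd (nat_lit 78) (nat_lit 1140) (nat_lit 0) (XT.lf (nat_lit 0) (nat_lit 4471422417) (nat_lit 608) (nat_lit 1556608575) (nat_lit 76) (nat_lit 2569809664) (nat_lit 233) (nat_lit 5) (nat_lit 241) (nat_lit 5) (nat_lit 234) (nat_lit 4) (nat_lit 586) (nat_lit 492) (nat_lit 482)) (XT.nd (nat_lit 78) (nat_lit 608) (nat_lit 0) (XT.lf (nat_lit 0) (nat_lit 5483049205) (nat_lit 532) (nat_lit 2942700891) (nat_lit 608) (nat_lit 243019307) (nat_lit 226) (nat_lit 5) (nat_lit 233) (nat_lit 5) (nat_lit 234) (nat_lit 4) (nat_lit 587) (nat_lit 492) (nat_lit 481)) (XT.lf (nat_lit 0) (nat_lit 3645006886) (nat_lit 608) (nat_lit 4859105928) (nat_lit 76) (nat_lit 237013996) (nat_lit 218) (nat_lit 5) (nat_lit 226) (nat_lit 5) (nat_lit 219) (nat_lit 4) (nat_lit 588) (nat_lit 492) (nat_lit 480)))) (XT.nd (nat_lit 156) (nat_lit 532) (nat_lit 0) (XT.nd (nat_lit 78) (nat_lit 608) (nat_lit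 0) (XT.lf (nat_lit 0) (nat_lit 2240647315) (nat_lit 456) (nat_lit 5361366549) (nat_lit 532) (nat_lit 1213003073) (nat_lit 212) (nat_lit 5) (nat_lit 218) (nat_lit 5) (nat_lit 219) (nat_lit 4) (nat_lit 589) (nat_lit 492) (nat_lit 479)) (XT.lf (nat_lit 0) (nat_lit 560283541) (nat_lit 532) (nat_lit 2127059175) (nat_lit 608) (nat_lit 6203180165) (nat_lit 204) (nat_lit 5) (nat_lit 211) (nat_lit 5) (nat_lit 212) (nat_lit 5) (nat_lit 590) (nat_lit 492) (nat_lit 478))) (XT.nd (nat_lit 78) (nat_lit 532) (nat_lit 0) (XT.lf (nat_lit 0) (nat_lit 6641085550) (nat_lit 608) (nat_lit 1143843353) (nat_lit 76) (nat_lit 1182623809) (nat_lit 204) (nat_lit 5) (nat_lit 212) (nat_lit 5) (nat_lit 205) (nat_lit 4) (nat_lit 591) (nat_lit 492) (nat_lit 477)) (XT.lf (nat_lit 0) (nat_lit 1601299405) (nat_lit 532) (nat_lit 2889967814) (nat_lit 76) (nat_lit 4554753696) (nat_lit 197) (nat_lit 5) (nat_lit 204) (nat_lit 5) (nat_lit 198) (nat_lit 5) (nat_lit 592) (nat_lit 492) (nat_lit 476))))))))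
noncomputable def xc27 : XT := (XT.nd (nat_lit 1950) (nat_lit 4408) (nat_lit 0) (XT.nd (nat_lit 936) (nat_lit 3344) (nat_lit 0) (XT.nd (nat_lit 468) (nat_lit 2052) (nat_lit 0) (XT.nd (nat_lit 234) (nat_lit 912) (nat_lit 0) (XT.nd (nat_lit 78) (nat_lit 988) (nat_lit 0) (XT.lf (nat_lit 0) (nat_lit 4447928052) (nat_lit 456) (nat_lit 1106169348) (nat_lit 532) (nat_lit 3572107354) (nat_lit 191) (nat_lit 5) (nat_lit 197) (nat_lit 5) (nat_lit 198) (nat_lit 5) (nat_lit 593) (nat_lit 492) (nat_lit 475)) (XT.nd (nat_lit 78) (nat_lit 456) (nat_lit 0) (XT.lf (nat_lit 0) (nat_lit 366637127) (nat_lit 532) (nat_lit 6513298511) (nat_lit 76) (nat_lit 2328140983) (nat_lit 184) (nat_lit 5) (nat_lit 191) (nat_lit 5) (nat_lit 185) (nat_lit 5) (nat_lit 594) (nat_lit 492) (nat_lit 474)) (XT.lf (nat_lit 0) (nat_lit 880981783) (nat_lit 456) (nat_lit 3441647285) (nat_lit 532) (nat_lit 4968764575) (nat_lit 178) (nat_lit 5) (nat_lit 184) (nat_lit 5) (nat_lit 185) (nat_lit 5) (nat_lit 595) (nat_lit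 492) (nat_lit 473)))) (XT.nd (nat_lit 78) (nat_lit 912) (nat_lit 0) (XT.lf (nat_lit 0) (nat_lit 8344170033) (nat_lit 532) (nat_lit 952315702) (nat_lit 76) (nat_lit 80168581) (nat_lit 178) (nat_lit 5) (nat_lit 185) (nat_lit 5) (nat_lit 179) (nat_lit 4) (nat_lit 596) (nat_lit 492) (nat_lit 472)) (XT.nd (nat_lit 78) (nat_lit 456) (nat_lit 0) (XT.lf (nat_lit 0) (nat_lit 2952464080) (nat_lit 456) (nat_lit 2849542192) (nat_lit 76) (nat_lit 3661051130) (nat_lit 172) (nat_lit 5) (nat_lit 178) (nat_lit 5) (nat_lit 173) (nat_lit 5) (nat_lit 597) (nat_lit 492) (nat_lit 471)) (XT.lf (nat_lit 0) (nat_lit 4762072767) (nat_lit 456) (nat_lit 2221905395) (nat_lit 532) (nat_lit 2567465614) (nat_lit 166) (nat_lit 5) (nat_lit 172) (nat_lit 5) (nat_lit 173) (nat_lit 5) (nat_lit 598) (nat_lit 492) (nat_lit 470))))) (XT.nd (nat_lit 234) (nat_lit 1216) (nat_lit 0) (XT.nd (nat_lit 78) (nat_lit 380) (nat_lit 0) (XT.lf (nat_lit 0) (nat_lit 1426209544) (nat_lit 456) (nat_lit 6786057267) (nat_lit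 76) (nat_lit 1429332306) (nat_lit 160) (nat_lit 5) (nat_lit 166) (nat_lit 5) (nat_lit 161) (nat_lit 5) (nat_lit 599) (nat_lit 492) (nat_lit 469)) (XT.nd (nat_lit 78) (nat_lit 0) (nat_lit 0) (XT.lf (nat_lit 0) (nat_lit 878381009) (nat_lit 380) (nat_lit 4583666380) (nat_lit 456) (nat_lit 4271242637) (nat_lit 155) (nat_lit 5) (nat_lit 160) (nat_lit 5) (nat_lit 161) (nat_lit 5) (nat_lit 600) (nat_lit 492) (nat_lit 468)) (XT.lf (nat_lit 0) (nat_lit 8702096413) (nat_lit 380) (nat_lit 866451641) (nat_lit 456) (nat_lit 258472910) (nat_lit 155) (nat_lit 5) (nat_lit 160) (nat_lit 5) (nat_lit 161) (nat_lit 5) (nat_lit 601) (nat_lit 492) (nat_lit 467)))) (XT.nd (nat_lit 78) (nat_lit 760) (nat_lit 0) (XT.lf (nat_lit 0) (nat_lit 3792392085) (nat_lit 456) (nat_lit 3203518218) (nat_lit 76) (nat_lit 2926060608) (nat_lit 149) (nat_lit 5) (nat_lit 155) (nat_lit 5) (nat_lit 150) (nat_lit 5) (nat_lit 602) (nat_lit 492) (nat_lit 466)) (XT.nd (nat_lit 78) (nat_lit 380) (nat_lit 0) (XT.lf (nat_lit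 0) (nat_lit 4683823938) (nat_lit 380) (nat_lit 3226203881) (nat_lit 456) (nat_lit 2108978413) (nat_lit 144) (nat_lit 5) (nat_lit 149) (nat_lit 5) (nat_lit 150) (nat_lit 5) (nat_lit 603) (nat_lit 492) (nat_lit 465)) (XT.lf (nat_lit 0) (nat_lit 1954140845) (nat_lit 380) (nat_lit 7532072033) (nat_lit 76) (nat_lit 631750703) (nat_lit 139) (nat_lit 5) (nat_lit 144) (nat_lit 5) (nat_lit 140) (nat_lit 5) (nat_lit 604) (nat_lit 492) (nat_lit 464)))))) (XT.nd (nat_lit 468) (nat_lit 1900) (nat_lit 0) (XT.nd (nat_lit 234) (nat_lit 684) (nat_lit 0) (XT.nd (nat_lit 78) (nat_lit 380) (nat_lit 0) (XT.lf (nat_lit 0) (nat_lit 403378292) (nat_lit 380) (nat_lit 5672887343) (nat_lit 456) (nat_lit 4142240545) (nat_lit 134) (nat_lit 5) (nat_lit 139) (nat_lit 5) (nat_lit 140) (nat_lit 5) (nat_lit 605) (nat_lit 492) (nat_lit 463)) (XT.nd (nat_lit 78) (nat_lit 380) (nat_lit 0) (XT.lf (nat_lit 0) (nat_lit 8514336462) (nat_lit 380) (nat_lit 1763479350) (nat_lit 456) (nat_lit 43308627) (nat_lit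 134) (nat_lit 5) (nat_lit 139) (nat_lit 5) (nat_lit 140) (nat_lit 5) (nat_lit 606) (nat_lit 492) (nat_lit 462)) (XT.lf (nat_lit 0) (nat_lit 4086281591) (nat_lit 380) (nat_lit 4106597094) (nat_lit 76) (nat_lit 2232324490) (nat_lit 129) (nat_lit 5) (nat_lit 134) (nat_lit 5) (nat_lit 130) (nat_lit 5) (nat_lit 607) (nat_lit 492) (nat_lit 461)))) (XT.nd (nat_lit 78) (nat_lit 380) (nat_lit 0) (XT.lf (nat_lit 0) (nat_lit 4056405726) (nat_lit 304) (nat_lit 4239124384) (nat_lit 380) (nat_lit 2235878932) (nat_lit 125) (nat_lit 5) (nat_lit 129) (nat_lit 5) (nat_lit 130) (nat_lit 5) (nat_lit 608) (nat_lit 492) (nat_lit 460)) (XT.nd (nat_lit 78) (nat_lit 0) (nat_lit 0) (XT.lf (nat_lit 0) (nat_lit 1724149436) (nat_lit 304) (nat_lit 186006464) (nat_lit 380) (nat_lit 8729604144) (nat_lit 120) (nat_lit 5) (nat_lit 124) (nat_lit 5) (nat_lit 125) (nat_lit 5) (nat_lit 609) (nat_lit 492) (nat_lit 459)) (XT.lf (nat_lit 0) (nat_lit 6126407103) (nat_lit 380) (nat_lit 700130126) (nat_lit 76)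 (nat_lit 3923104537) (nat_lit 120) (nat_lit 5) (nat_lit 125) (nat_lit 5) (nat_lit 121) (nat_lit 5) (nat_lit 610) (nat_lit 492) (nat_lit 458))))) (XT.nd (nat_lit 234) (nat_lit 912) (nat_lit 0) (XT.nd (nat_lit 78) (nat_lit 684) (nat_lit 0) (XT.lf (nat_lit 0) (nat_lit 7695982295) (nat_lit 304) (nat_lit 2731056668) (nat_lit 380) (nat_lit 434684938) (nat_lit 116) (nat_lit 5) (nat_lit 120) (nat_lit 5) (nat_lit 121) (nat_lit 5) (nat_lit 611) (nat_lit 492) (nat_lit 457)) (XT.nd (nat_lit 78) (nat_lit 304) (nat_lit 0) (XT.lf (nat_lit 0) (nat_lit 3784730143) (nat_lit 380) (nat_lit 5731398379) (nat_lit 76) (nat_lit 1459476051) (nat_lit 111) (nat_lit 5) (nat_lit 116) (nat_lit 5) (nat_lit 112) (nat_lit 5) (nat_lit 612) (nat_lit 492) (nat_lit 456)) (XT.lf (nat_lit 0) (nat_lit 2704523712) (nat_lit 304) (nat_lit 5384458636) (nat_lit 380) (nat_lit 3002601324) (nat_lit 107) (nat_lit 5) (nat_lit 111) (nat_lit 5) (nat_lit 112) (nat_lit 5) (nat_lit 613) (nat_lit 492) (nat_lit 455)))) (XT.nd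 (nat_lit 156) (nat_lit 608) (nat_lit 0) (XT.nd (nat_lit 78) (nat_lit 0) (nat_lit 0) (XT.lf (nat_lit 0) (nat_lit 86485585) (nat_lit 228) (nat_lit 1154931383) (nat_lit 304) (nat_lit 9968531495) (nat_lit 103) (nat_lit 5) (nat_lit 106) (nat_lit 5) (nat_lit 107) (nat_lit 5) (nat_lit 614) (nat_lit 492) (nat_lit 454)) (XT.lf (nat_lit 0) (nat_lit 5556902710) (nat_lit 304) (nat_lit 2611267026) (nat_lit 76) (nat_lit 3161581485) (nat_lit 103) (nat_lit 5) (nat_lit 107) (nat_lit 5) (nat_lit 104) (nat_lit 5) (nat_lit 615) (nat_lit 492) (nat_lit 453))) (XT.nd (nat_lit 78) (nat_lit 304) (nat_lit 0) (XT.lf (nat_lit 0) (nat_lit 6060524831) (nat_lit 304) (nat_lit 3895747781) (nat_lit 380) (nat_lit 1495729317) (nat_lit 99) (nat_lit 5) (nat_lit 103) (nat_lit 5) (nat_lit 104) (nat_lit 5) (nat_lit 616) (nat_lit 492) (nat_lit 452)) (XT.lf (nat_lit 0) (nat_lit 2822294041) (nat_lit 304) (nat_lit 8272857968) (nat_lit 76) (nat_lit 481317375) (nat_lit 95) (nat_lit 5) (nat_lit 99) (nat_lit 5) (nat_lit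 96) (nat_lit 5) (nat_lit 617) (nat_lit 492) (nat_lit 451))))))) (XT.nd (nat_lit 936) (nat_lit 1976) (nat_lit 0) (XT.nd (nat_lit 468) (nat_lit 1292) (nat_lit 0) (XT.nd (nat_lit 234) (nat_lit 532) (nat_lit 0) (XT.nd (nat_lit 78) (nat_lit 304) (nat_lit 0) (XT.lf (nat_lit 0) (nat_lit 429852716) (nat_lit 304) (nat_lit 6792730929) (nat_lit 380) (nat_lit 4480329324) (nat_lit 91) (nat_lit 5) (nat_lit 95) (nat_lit 5) (nat_lit 96) (nat_lit 5) (nat_lit 618) (nat_lit 492) (nat_lit 450)) (XT.nd (nat_lit 78) (nat_lit 304) (nat_lit 0) (XT.lf (nat_lit 0) (nat_lit 9336481134) (nat_lit 304) (nat_lit 2381246667) (nat_lit 380) (nat_lit 114023779) (nat_lit 91) (nat_lit 5) (nat_lit 95) (nat_lit 5) (nat_lit 96) (nat_lit 5) (nat_lit 619) (nat_lit 492) (nat_lit 449)) (XT.lf (nat_lit 0) (nat_lit 4290430632) (nat_lit 304) (nat_lit 5543769660) (nat_lit 76) (nat_lit 2128251416) (nat_lit 87) (nat_lit 5) (nat_lit 91) (nat_lit 5) (nat_lit 88) (nat_lit 5) (nat_lit 620) (nat_lit 492) (nat_lit 448))))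 (XT.nd (nat_lit 78) (nat_lit 304) (nat_lit 0) (XT.lf (nat_lit 0) (nat_lit 3395695661) (nat_lit 228) (nat_lit 5392596413) (nat_lit 304) (nat_lit 3307324741) (nat_lit 84) (nat_lit 5) (nat_lit 87) (nat_lit 5) (nat_lit 88) (nat_lit 5) (nat_lit 621) (nat_lit 492) (nat_lit 447)) (XT.nd (nat_lit 78) (nat_lit 0) (nat_lit 0) (XT.lf (nat_lit 0) (nat_lit 272683073) (nat_lit 228) (nat_lit 848454460) (nat_lit 304) (nat_lit 11110332196) (nat_lit 80) (nat_lit 5) (nat_lit 83) (nat_lit 5) (nat_lit 84) (nat_lit 5) (nat_lit 622) (nat_lit 492) (nat_lit 446)) (XT.lf (nat_lit 0) (nat_lit 5629734509) (nat_lit 304) (nat_lit 2954881834) (nat_lit 76) (nat_lit 3784271897) (nat_lit 80) (nat_lit 5) (nat_lit 84) (nat_lit 5) (nat_lit 81) (nat_lit 5) (nat_lit 623) (nat_lit 492) (nat_lit 445))))) (XT.nd (nat_lit 234) (nat_lit 760) (nat_lit 0) (XT.nd (nat_lit 78) (nat_lit 304) (nat_lit 0) (XT.lf (nat_lit 0) (nat_lit 6224922679) (nat_lit 228) (nat_lit 4003004731) (nat_lit 304) (nat_lit 2281141954) (nat_lit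 77) (nat_lit 5) (nat_lit 80) (nat_lit 5) (nat_lit 81) (nat_lit 5) (nat_lit 624) (nat_lit 492) (nat_lit 444)) (XT.nd (nat_lit 78) (nat_lit 0) (nat_lit 0) (XT.lf (nat_lit 0) (nat_lit 2233192841) (nat_lit 304) (nat_lit 9736525089) (nat_lit 76) (nat_lit 682106904) (nat_lit 73) (nat_lit 5) (nat_lit 77) (nat_lit 5) (nat_lit 74) (nat_lit 5) (nat_lit 625) (nat_lit 492) (nat_lit 443)) (XT.lf (nat_lit 0) (nat_lit 6829910224) (nat_lit 304) (nat_lit 535042022) (nat_lit 76) (nat_lit 5431731357) (nat_lit 73) (nat_lit 5) (nat_lit 77) (nat_lit 5) (nat_lit 74) (nat_lit 5) (nat_lit 626) (nat_lit 492) (nat_lit 442)))) (XT.nd (nat_lit 78) (nat_lit 532) (nat_lit 0) (XT.lf (nat_lit 0) (nat_lit 8888145986) (nat_lit 228) (nat_lit 2642685140) (nat_lit 304) (nat_lit 1413365553) (nat_lit 70) (nat_lit 5) (nat_lit 73) (nat_lit 5) (nat_lit 74) (nat_lit 5) (nat_lit 627) (nat_lit 492) (nat_lit 441)) (XT.nd (nat_lit 78) (nat_lit 228) (nat_lit 0) (XT.lf (nat_lit 0) (nat_lit 3196232496) (nat_lit 304) (nat_lit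 7725590524) (nat_lit 76) (nat_lit 2172269872) (nat_lit 66) (nat_lit 5) (nat_lit 70) (nat_lit 5) (nat_lit 67) (nat_lit 5) (nat_lit 628) (nat_lit 492) (nat_lit 440)) (XT.lf (nat_lit 0) (nat_lit 1706275847) (nat_lit 228) (nat_lit 6183622617) (nat_lit 304) (nat_lit 5356688070) (nat_lit 63) (nat_lit 5) (nat_lit 66) (nat_lit 5) (nat_lit 67) (nat_lit 5) (nat_lit 629) (nat_lit 492) (nat_lit 439)))))) (XT.nd (nat_lit 468) (nat_lit 1064) (nat_lit 0) (XT.nd (nat_lit 234) (nat_lit 456) (nat_lit 0) (XT.nd (nat_lit 78) (nat_lit 456) (nat_lit 0) (XT.lf (nat_lit 0) (nat_lit 11352877237) (nat_lit 228) (nat_lit 1331584221) (nat_lit 304) (nat_lit 717530440) (nat_lit 63) (nat_lit 5) (nat_lit 66) (nat_lit 5) (nat_lit 67) (nat_lit 5) (nat_lit 630) (nat_lit 492) (nat_lit 438)) (XT.nd (nat_lit 78) (nat_lit 228) (nat_lit 0) (XT.lf (nat_lit 0) (nat_lit 3990825211) (nat_lit 228) (nat_lit 5955437786) (nat_lit 76) (nat_lit 3613142030) (nat_lit 60) (nat_lit 5) (nat_lit 63) (nat_lit 5) (nat_lit 61)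 (nat_lit 5) (nat_lit 631) (nat_lit 492) (nat_lit 437)) (XT.lf (nat_lit 0) (nat_lit 3715437449) (nat_lit 228) (nat_lit 5071011654) (nat_lit 304) (nat_lit 4933370472) (nat_lit 57) (nat_lit 5) (nat_lit 60) (nat_lit 5) (nat_lit 61) (nat_lit 5) (nat_lit 632) (nat_lit 492) (nat_lit 436)))) (XT.nd (nat_lit 78) (nat_lit 456) (nat_lit 0) (XT.lf (nat_lit 0) (nat_lit 13583144239) (nat_lit 228) (nat_lit 91084418) (nat_lit 304) (nat_lit 209291038) (nat_lit 57) (nat_lit 5) (nat_lit 60) (nat_lit 5) (nat_lit 61) (nat_lit 5) (nat_lit 633) (nat_lit 492) (nat_lit 435)) (XT.nd (nat_lit 78) (nat_lit 228) (nat_lit 0) (XT.lf (nat_lit 0) (nat_lit 4600896754) (nat_lit 228) (nat_lit 4464748009) (nat_lit 76) (nat_lit 4983211027) (nat_lit 54) (nat_lit 5) (nat_lit 57) (nat_lit 5) (nat_lit 55) (nat_lit 5) (nat_lit 634) (nat_lit 492) (nat_lit 434)) (XT.lf (nat_lit 0) (nat_lit 5445800345) (nat_lit 228) (nat_lit 4053667275) (nat_lit 304) (nat_lit 4718105708) (nat_lit 51) (nat_lit 5) (nat_lit 54) (nat_lit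 5) (nat_lit 55) (nat_lit 5) (nat_lit 635) (nat_lit 492) (nat_lit 433))))) (XT.nd (nat_lit 234) (nat_lit 608) (nat_lit 0) (XT.nd (nat_lit 78) (nat_lit 228) (nat_lit 0) (XT.lf (nat_lit 0) (nat_lit 106628617) (nat_lit 228) (nat_lit 13232860619) (nat_lit 76) (nat_lit 1050130540) (nat_lit 48) (nat_lit 5) (nat_lit 51) (nat_lit 5) (nat_lit 49) (nat_lit 5) (nat_lit 636) (nat_lit 492) (nat_lit 432)) (XT.nd (nat_lit 78) (nat_lit 228) (nat_lit 0) (XT.lf (nat_lit 0) (nat_lit 5008024970) (nat_lit 228) (nat_lit 3296360988) (nat_lit 76) (nat_lit 6259232515) (nat_lit 48) (nat_lit 5) (nat_lit 51) (nat_lit 5) (nat_lit 49) (nat_lit 5) (nat_lit 637) (nat_lit 492) (nat_lit 431)) (XT.lf (nat_lit 0) (nat_lit 6853542613) (nat_lit 228) (nat_lit 3156429095) (nat_lit 304) (nat_lit 4731076855) (nat_lit 45) (nat_lit 5) (nat_lit 48) (nat_lit 5) (nat_lit 49) (nat_lit 5) (nat_lit 638) (nat_lit 492) (nat_lit 430)))) (XT.nd (nat_lit 156) (nat_lit 380) (nat_lit 0) (XT.nd (nat_lit 78) (nat_lit 0) (nat_lit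 0) (XT.lf (nat_lit 0) (nat_lit 196248673) (nat_lit 228) (nat_lit 12652909860) (nat_lit 76) (nat_lit 2072669665) (nat_lit 42) (nat_lit 5) (nat_lit 45) (nat_lit 5) (nat_lit 43) (nat_lit 5) (nat_lit 639) (nat_lit 492) (nat_lit 429)) (XT.lf (nat_lit 0) (nat_lit 5191220022) (nat_lit 228) (nat_lit 2497760180) (nat_lit 76) (nat_lit 7415970567) (nat_lit 42) (nat_lit 5) (nat_lit 45) (nat_lit 5) (nat_lit 43) (nat_lit 5) (nat_lit 640) (nat_lit 492) (nat_lit 428))) (XT.nd (nat_lit 78) (nat_lit 228) (nat_lit 0) (XT.lf (nat_lit 0) (nat_lit 7890052330) (nat_lit 152) (nat_lit 2406291279) (nat_lit 228) (nat_lit 4995188854) (nat_lit 40) (nat_lit 5) (nat_lit 42) (nat_lit 5) (nat_lit 43) (nat_lit 5) (nat_lit 641) (nat_lit 492) (nat_lit 427)) (XT.lf (nat_lit 0) (nat_lit 36279275) (nat_lit 228) (nat_lit 12498200170) (nat_lit 76) (nat_lit 2947068378) (nat_lit 37) (nat_lit 5) (nat_lit 40) (nat_lit 5) (nat_lit 38) (nat_lit 5) (nat_lit 642) (nat_lit 492) (nat_lit 426))))))))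
noncomputable def xc28 : XT := (XT.nd (nat_lit 77298) (nat_lit 0) (nat_lit 5092) (XT.nd (nat_lit 76284) (nat_lit 0) (nat_lit 12844) (XT.nd (nat_lit 75816) (nat_lit 0) (nat_lit 18620) (XT.nd (nat_lit 234) (nat_lit 380) (nat_lit 0) (XT.nd (nat_lit 78) (nat_lit 304) (nat_lit 0) (XT.lf (nat_lit 0) (nat_lit 5126678884) (nat_lit 228) (nat_lit 2121606432) (nat_lit 76) (nat_lit 8425915683) (nat_lit 37) (nat_lit 5) (nat_lit 40) (nat_lit 5) (nat_lit 38) (nat_lit 5) (nat_lit 643) (nat_lit 492) (nat_lit 425)) (XT.nd (nat_lit 78) (nat_lit 152) (nat_lit 0) (XT.lf (nat_lit 0) (nat_lit 8501377100) (nat_lit 152) (nat_lit 1832698823) (nat_lit 228) (nat_lit 5536329122) (nat_lit 35) (nat_lit 5) (nat_lit 37) (nat_lit 5) (nat_lit 38) (nat_lit 5) (nat_lit 644) (nat_lit 492) (nat_lit 424)) (XT.lf (nat_lit 0) (nat_lit 3241031665) (nat_lit 152) (nat_lit 12424027238) (nat_lit 228) (nat_lit 405087073) (nat_lit 33) (nat_lit 5) (nat_lit 35) (nat_lit 5) (nat_lit 36) (nat_lit 4) (nat_lit 645) (nat_lit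 492) (nat_lit 423)))) (XT.nd (nat_lit 78) (nat_lit 304) (nat_lit 0) (XT.lf (nat_lit 0) (nat_lit 4787511589) (nat_lit 228) (nat_lit 2226325730) (nat_lit 76) (nat_lit 9258977636) (nat_lit 32) (nat_lit 5) (nat_lit 35) (nat_lit 5) (nat_lit 33) (nat_lit 5) (nat_lit 646) (nat_lit 492) (nat_lit 422)) (XT.nd (nat_lit 78) (nat_lit 152) (nat_lit 0) (XT.lf (nat_lit 0) (nat_lit 8627617721) (nat_lit 152) (nat_lit 1467870569) (nat_lit 228) (nat_lit 6383657940) (nat_lit 30) (nat_lit 5) (nat_lit 32) (nat_lit 5) (nat_lit 33) (nat_lit 5) (nat_lit 647) (nat_lit 492) (nat_lit 421)) (XT.lf (nat_lit 0) (nat_lit 2979827787) (nat_lit 152) (nat_lit 12552406386) (nat_lit 228) (nat_lit 1156919210) (nat_lit 28) (nat_lit 5) (nat_lit 30) (nat_lit 5) (nat_lit 31) (nat_lit 4) (nat_lit 648) (nat_lit 492) (nat_lit 420))))) (XT.nd (nat_lit 234) (nat_lit 2052) (nat_lit 0) (XT.nd (nat_lit 78) (nat_lit 684) (nat_lit 0) (XT.lf (nat_lit 0) (nat_lit 116144209) (nat_lit 760) (nat_lit 3698401424) (nat_lit 0) (nat_lit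 116144209) (nat_lit 309) (nat_lit 5) (nat_lit 319) (nat_lit 4) (nat_lit 309) (nat_lit 4) (nat_lit 574) (nat_lit 493) (nat_lit 493)) (XT.nd (nat_lit 78) (nat_lit 684) (nat_lit 0) (XT.lf (nat_lit 0) (nat_lit 4062344990) (nat_lit 760) (nat_lit 1066587553) (nat_lit 0) (nat_lit 2786348575) (nat_lit 309) (nat_lit 5) (nat_lit 319) (nat_lit 4) (nat_lit 309) (nat_lit 4) (nat_lit 575) (nat_lit 493) (nat_lit 492)) (XT.lf (nat_lit 0) (nat_lit 5376340562) (nat_lit 684) (nat_lit 2560770699) (nat_lit 684) (nat_lit 33797407) (nat_lit 300) (nat_lit 4) (nat_lit 309) (nat_lit 5) (nat_lit 309) (nat_lit 4) (nat_lit 576) (nat_lit 493) (nat_lit 491)))) (XT.nd (nat_lit 78) (nat_lit 1368) (nat_lit 0) (XT.lf (nat_lit 0) (nat_lit 3777610824) (nat_lit 684) (nat_lit 4152429563) (nat_lit 0) (nat_lit 97786108) (nat_lit 291) (nat_lit 5) (nat_lit 300) (nat_lit 4) (nat_lit 291) (nat_lit 4) (nat_lit 577) (nat_lit 493) (nat_lit 490)) (XT.nd (nat_lit 78) (nat_lit 684) (nat_lit 0) (XT.lf (nat_lit 0) (nat_lit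 2352565319) (nat_lit 684) (nat_lit 5296146197) (nat_lit 684) (nat_lit 437498029) (nat_lit 282) (nat_lit 4) (nat_lit 291) (nat_lit 5) (nat_lit 291) (nat_lit 4) (nat_lit 578) (nat_lit 493) (nat_lit 489)) (XT.lf (nat_lit 0) (nat_lit 800948655) (nat_lit 608) (nat_lit 2572965249) (nat_lit 684) (nat_lit 4772053327) (nat_lit 273) (nat_lit 5) (nat_lit 281) (nat_lit 5) (nat_lit 282) (nat_lit 4) (nat_lit 579) (nat_lit 493) (nat_lit 488)))))) (XT.nd (nat_lit 468) (nat_lit 3268) (nat_lit 0) (XT.nd (nat_lit 234) (nat_lit 1292) (nat_lit 0) (XT.nd (nat_lit 78) (nat_lit 1216) (nat_lit 0) (XT.lf (nat_lit 0) (nat_lit 7230818123) (nat_lit 684) (nat_lit 752993181) (nat_lit 0) (nat_lit 223557600) (nat_lit 273) (nat_lit 5) (nat_lit 282) (nat_lit 4) (nat_lit 273) (nat_lit 4) (nat_lit 580) (nat_lit 493) (nat_lit 487)) (XT.nd (nat_lit 78) (nat_lit 532) (nat_lit 0) (XT.lf (nat_lit 0) (nat_lit 2848816566) (nat_lit 684) (nat_lit 2341701712) (nat_lit 76) (nat_lit 3079274756) (nat_lit 264) (nat_lit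 5) (nat_lit 273) (nat_lit 5) (nat_lit 265) (nat_lit 4) (nat_lit 581) (nat_lit 493) (nat_lit 486)) (XT.lf (nat_lit 0) (nat_lit 4385741196) (nat_lit 532) (nat_lit 2322055383) (nat_lit 608) (nat_lit 1626144927) (nat_lit 257) (nat_lit 5) (nat_lit 264) (nat_lit 5) (nat_lit 265) (nat_lit 4) (nat_lit 582) (nat_lit 493) (nat_lit 485)))) (XT.nd (nat_lit 78) (nat_lit 608) (nat_lit 0) (XT.lf (nat_lit 0) (nat_lit 2190234647) (nat_lit 684) (nat_lit 5586284232) (nat_lit 76) (nat_lit 623069065) (nat_lit 248) (nat_lit 5) (nat_lit 257) (nat_lit 5) (nat_lit 249) (nat_lit 4) (nat_lit 583) (nat_lit 493) (nat_lit 484)) (XT.nd (nat_lit 78) (nat_lit 76) (nat_lit 0) (XT.lf (nat_lit 0) (nat_lit 1201212699) (nat_lit 532) (nat_lit 4847245412) (nat_lit 608) (nat_lit 2418136508) (nat_lit 241) (nat_lit 5) (nat_lit 248) (nat_lit 5) (nat_lit 249) (nat_lit 4) (nat_lit 584) (nat_lit 493) (nat_lit 483)) (XT.lf (nat_lit 0) (nat_lit 1405316357) (nat_lit 608) (nat_lit 429694092) (nat_lit 76) (nat_lit 6700242321)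 (nat_lit 240) (nat_lit 5) (nat_lit 248) (nat_lit 5) (nat_lit 241) (nat_lit 5) (nat_lit 585) (nat_lit 493) (nat_lit 482))))) (XT.nd (nat_lit 234) (nat_lit 1596) (nat_lit 0) (XT.nd (nat_lit 78) (nat_lit 1140) (nat_lit 0) (XT.lf (nat_lit 0) (nat_lit 5262445074) (nat_lit 608) (nat_lit 2085650390) (nat_lit 76) (nat_lit 1257084856) (nat_lit 233) (nat_lit 5) (nat_lit 241) (nat_lit 5) (nat_lit 234) (nat_lit 4) (nat_lit 586) (nat_lit 493) (nat_lit 481)) (XT.nd (nat_lit 78) (nat_lit 532) (nat_lit 0) (XT.lf (nat_lit 0) (nat_lit 499590494) (nat_lit 608) (nat_lit 3775662664) (nat_lit 76) (nat_lit 4401468976) (nat_lit 225) (nat_lit 5) (nat_lit 233) (nat_lit 5) (nat_lit 226) (nat_lit 5) (nat_lit 587) (nat_lit 493) (nat_lit 480)) (XT.lf (nat_lit 0) (nat_lit 3241539399) (nat_lit 532) (nat_lit 1107280908) (nat_lit 608) (nat_lit 4400943417) (nat_lit 218) (nat_lit 5) (nat_lit 225) (nat_lit 5) (nat_lit 226) (nat_lit 5) (nat_lit 588) (nat_lit 493) (nat_lit 479)))) (XT.nd (nat_lit 156) (nat_lit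 1064) (nat_lit 0) (XT.nd (nat_lit 78) (nat_lit 76) (nat_lit 0) (XT.lf (nat_lit 0) (nat_lit 1547255510) (nat_lit 456) (nat_lit 6717233923) (nat_lit 532) (nat_lit 559994662) (nat_lit 212) (nat_lit 5) (nat_lit 218) (nat_lit 5) (nat_lit 219) (nat_lit 4) (nat_lit 589) (nat_lit 493) (nat_lit 478)) (XT.lf (nat_lit 0) (nat_lit 3298612745) (nat_lit 532) (nat_lit 196649188) (nat_lit 76) (nat_lit 5405310145) (nat_lit 211) (nat_lit 5) (nat_lit 218) (nat_lit 5) (nat_lit 212) (nat_lit 5) (nat_lit 590) (nat_lit 493) (nat_lit 477))) (XT.nd (nat_lit 78) (nat_lit 532) (nat_lit 0) (XT.lf (nat_lit 0) (nat_lit 7029893020) (nat_lit 532) (nat_lit 184157176) (nat_lit 608) (nat_lit 1764321105) (nat_lit 204) (nat_lit 5) (nat_lit 211) (nat_lit 5) (nat_lit 212) (nat_lit 5) (nat_lit 591) (nat_lit 493) (nat_lit 476)) (XT.lf (nat_lit 0) (nat_lit 2120336976) (nat_lit 532) (nat_lit 3761459794) (nat_lit 76) (nat_lit 3175687614) (nat_lit 197) (nat_lit 5) (nat_lit 204) (nat_lit 5) (nat_lit 198) (nat_lit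 5) (nat_lit 592) (nat_lit 493) (nat_lit 475))))))) (XT.nd (nat_lit 936) (nat_lit 3344) (nat_lit 0) (XT.nd (nat_lit 468) (nat_lit 2052) (nat_lit 0) (XT.nd (nat_lit 234) (nat_lit 1368) (nat_lit 0) (XT.nd (nat_lit 78) (nat_lit 532) (nat_lit 0) (XT.lf (nat_lit 0) (nat_lit 3522315798) (nat_lit 456) (nat_lit 2516170796) (nat_lit 532) (nat_lit 3099877692) (nat_lit 191) (nat_lit 5) (nat_lit 197) (nat_lit 5) (nat_lit 198) (nat_lit 5) (nat_lit 593) (nat_lit 493) (nat_lit 474)) (XT.nd (nat_lit 78) (nat_lit 0) (nat_lit 0) (XT.lf (nat_lit 0) (nat_lit 788403007) (nat_lit 532) (nat_lit 7512821773) (nat_lit 76) (nat_lit 919838436) (nat_lit 184) (nat_lit 5) (nat_lit 191) (nat_lit 5) (nat_lit 185) (nat_lit 5) (nat_lit 594) (nat_lit 493) (nat_lit 473)) (XT.lf (nat_lit 0) (nat_lit 4710336469) (nat_lit 532) (nat_lit 172385472) (nat_lit 76) (nat_lit 4422342385) (nat_lit 184) (nat_lit 5) (nat_lit 191) (nat_lit 5) (nat_lit 185) (nat_lit 5) (nat_lit 595) (nat_lit 493) (nat_lit 472)))) (XT.nd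 (nat_lit 78) (nat_lit 912) (nat_lit 0) (XT.lf (nat_lit 0) (nat_lit 7327206882) (nat_lit 456) (nat_lit 1374953342) (nat_lit 532) (nat_lit 688761981) (nat_lit 178) (nat_lit 5) (nat_lit 184) (nat_lit 5) (nat_lit 185) (nat_lit 5) (nat_lit 596) (nat_lit 493) (nat_lit 471)) (XT.nd (nat_lit 78) (nat_lit 456) (nat_lit 0) (XT.lf (nat_lit 0) (nat_lit 3247335287) (nat_lit 456) (nat_lit 4025962986) (nat_lit 76) (nat_lit 2204871996) (nat_lit 172) (nat_lit 5) (nat_lit 178) (nat_lit 5) (nat_lit 173) (nat_lit 5) (nat_lit 597) (nat_lit 493) (nat_lit 470)) (XT.lf (nat_lit 0) (nat_lit 3527717107) (nat_lit 456) (nat_lit 3715612374) (nat_lit 532) (nat_lit 2323940255) (nat_lit 166) (nat_lit 5) (nat_lit 172) (nat_lit 5) (nat_lit 173) (nat_lit 5) (nat_lit 598) (nat_lit 493) (nat_lit 469))))) (XT.nd (nat_lit 234) (nat_lit 1216) (nat_lit 0) (XT.nd (nat_lit 78) (nat_lit 380) (nat_lit 0) (XT.lf (nat_lit 0) (nat_lit 1554341003) (nat_lit 380) (nat_lit 66867442) (nat_lit 456) (nat_lit 8037094251) (nat_lit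 160) (nat_lit 5) (nat_lit 165) (nat_lit 5) (nat_lit 166) (nat_lit 5) (nat_lit 599) (nat_lit 493) (nat_lit 468)) (XT.nd (nat_lit 78) (nat_lit 380) (nat_lit 0) (XT.lf (nat_lit 0) (nat_lit 5623664758) (nat_lit 456) (nat_lit 492624515) (nat_lit 76) (nat_lit 3634374504) (nat_lit 160) (nat_lit 5) (nat_lit 166) (nat_lit 5) (nat_lit 161) (nat_lit 5) (nat_lit 600) (nat_lit 493) (nat_lit 467)) (XT.lf (nat_lit 0) (nat_lit 7282805461) (nat_lit 380) (nat_lit 2417137865) (nat_lit 456) (nat_lit 145058322) (nat_lit 155) (nat_lit 5) (nat_lit 160) (nat_lit 5) (nat_lit 161) (nat_lit 5) (nat_lit 601) (nat_lit 493) (nat_lit 466)))) (XT.nd (nat_lit 78) (nat_lit 760) (nat_lit 0) (XT.lf (nat_lit 0) (nat_lit 3857734636) (nat_lit 456) (nat_lit 4710934549) (nat_lit 76) (nat_lit 1372201767) (nat_lit 149) (nat_lit 5) (nat_lit 155) (nat_lit 5) (nat_lit 150) (nat_lit 5) (nat_lit 602) (nat_lit 493) (nat_lit 465)) (XT.nd (nat_lit 78) (nat_lit 380) (nat_lit 0) (XT.lf (nat_lit 0) (nat_lit 3114384264) (nat_lit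 380) (nat_lit 4824327493) (nat_lit 456) (nat_lit 2099930036) (nat_lit 144) (nat_lit 5) (nat_lit 149) (nat_lit 5) (nat_lit 150) (nat_lit 5) (nat_lit 603) (nat_lit 493) (nat_lit 464)) (XT.lf (nat_lit 0) (nat_lit 937806179) (nat_lit 304) (nat_lit 983987177) (nat_lit 380) (nat_lit 8216632411) (nat_lit 139) (nat_lit 5) (nat_lit 143) (nat_lit 5) (nat_lit 144) (nat_lit 5) (nat_lit 604) (nat_lit 493) (nat_lit 463)))))) (XT.nd (nat_lit 468) (nat_lit 1900) (nat_lit 0) (XT.nd (nat_lit 234) (nat_lit 684) (nat_lit 0) (XT.nd (nat_lit 78) (nat_lit 760) (nat_lit 0) (XT.lf (nat_lit 0) (nat_lit 6008669137) (nat_lit 380) (nat_lit 1305745029) (nat_lit 76) (nat_lit 2925261390) (nat_lit 139) (nat_lit 5) (nat_lit 144) (nat_lit 5) (nat_lit 140) (nat_lit 5) (nat_lit 605) (nat_lit 493) (nat_lit 462)) (XT.nd (nat_lit 78) (nat_lit 380) (nat_lit 0) (XT.lf (nat_lit 0) (nat_lit 6746460563) (nat_lit 380) (nat_lit 3429172752) (nat_lit 456) (nat_lit 167354389) (nat_lit 134) (nat_lit 5) (nat_lit 139) (nat_lit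 5) (nat_lit 140) (nat_lit 5) (nat_lit 606) (nat_lit 493) (nat_lit 461)) (XT.lf (nat_lit 0) (nat_lit 3915168376) (nat_lit 380) (nat_lit 5972416356) (nat_lit 76) (nat_lit 560473787) (nat_lit 129) (nat_lit 5) (nat_lit 134) (nat_lit 5) (nat_lit 130) (nat_lit 5) (nat_lit 607) (nat_lit 493) (nat_lit 460)))) (XT.nd (nat_lit 78) (nat_lit 380) (nat_lit 0) (XT.lf (nat_lit 0) (nat_lit 2124171531) (nat_lit 304) (nat_lit 5962183379) (nat_lit 380) (nat_lit 2468672758) (nat_lit 125) (nat_lit 5) (nat_lit 129) (nat_lit 5) (nat_lit 130) (nat_lit 5) (nat_lit 608) (nat_lit 493) (nat_lit 459)) (XT.nd (nat_lit 78) (nat_lit 304) (nat_lit 0) (XT.lf (nat_lit 0) (nat_lit 1643770250) (nat_lit 380) (nat_lit 293947766) (nat_lit 76) (nat_lit 8726425745) (nat_lit 124) (nat_lit 5) (nat_lit 129) (nat_lit 5) (nat_lit 125) (nat_lit 5) (nat_lit 609) (nat_lit 493) (nat_lit 458)) (XT.lf (nat_lit 0) (nat_lit 5821382882) (nat_lit 380) (nat_lit 2776447298) (nat_lit 76) (nat_lit 2176970001) (nat_lit 120) (nat_lit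 5) (nat_lit 125) (nat_lit 5) (nat_lit 121) (nat_lit 5) (nat_lit 610) (nat_lit 493) (nat_lit 457))))) (XT.nd (nat_lit 234) (nat_lit 912) (nat_lit 0) (XT.nd (nat_lit 78) (nat_lit 684) (nat_lit 0) (XT.lf (nat_lit 0) (nat_lit 5551066279) (nat_lit 304) (nat_lit 4532200066) (nat_lit 380) (nat_lit 804392825) (nat_lit 116) (nat_lit 5) (nat_lit 120) (nat_lit 5) (nat_lit 121) (nat_lit 5) (nat_lit 611) (nat_lit 493) (nat_lit 456)) (XT.nd (nat_lit 78) (nat_lit 304) (nat_lit 0) (XT.lf (nat_lit 0) (nat_lit 3015660397) (nat_lit 304) (nat_lit 355314839) (nat_lit 380) (nat_lit 7631592344) (nat_lit 111) (nat_lit 5) (nat_lit 115) (nat_lit 5) (nat_lit 116) (nat_lit 5) (nat_lit 612) (nat_lit 493) (nat_lit 455)) (XT.lf (nat_lit 0) (nat_lit 380181415) (nat_lit 304) (nat_lit 7253008672) (nat_lit 380) (nat_lit 3486199117) (nat_lit 107) (nat_lit 5) (nat_lit 111) (nat_lit 5) (nat_lit 112) (nat_lit 5) (nat_lit 613) (nat_lit 493) (nat_lit 454)))) (XT.nd (nat_lit 156) (nat_lit 608) (nat_lit 0) (XT.nd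 (nat_lit 78) (nat_lit 228) (nat_lit 0) (XT.lf (nat_lit 0) (nat_lit 739018342) (nat_lit 380) (nat_lit 2304373858) (nat_lit 76) (nat_lit 8194929168) (nat_lit 106) (nat_lit 5) (nat_lit 111) (nat_lit 5) (nat_lit 107) (nat_lit 5) (nat_lit 614) (nat_lit 493) (nat_lit 453)) (XT.lf (nat_lit 0) (nat_lit 5002515331) (nat_lit 304) (nat_lit 5089898736) (nat_lit 76) (nat_lit 1266751509) (nat_lit 103) (nat_lit 5) (nat_lit 107) (nat_lit 5) (nat_lit 104) (nat_lit 5) (nat_lit 615) (nat_lit 493) (nat_lit 452))) (XT.nd (nat_lit 78) (nat_lit 304) (nat_lit 0) (XT.lf (nat_lit 0) (nat_lit 3508388274) (nat_lit 304) (nat_lit 5852939681) (nat_lit 380) (nat_lit 2120901119) (nat_lit 99) (nat_lit 5) (nat_lit 103) (nat_lit 5) (nat_lit 104) (nat_lit 5) (nat_lit 616) (nat_lit 493) (nat_lit 451)) (XT.lf (nat_lit 0) (nat_lit 653650167) (nat_lit 228) (nat_lit 1507344442) (nat_lit 304) (nat_lit 9446671216) (nat_lit 95) (nat_lit 5) (nat_lit 98) (nat_lit 5) (nat_lit 99) (nat_lit 5) (nat_lit 617) (nat_lit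 493) (nat_lit 450))))))))
noncomputable def xc29 : XT := (XT.nd (nat_lit 1950) (nat_lit 760) (nat_lit 0) (XT.nd (nat_lit 936) (nat_lit 1976) (nat_lit 0) (XT.nd (nat_lit 468) (nat_lit 1064) (nat_lit 0) (XT.nd (nat_lit 234) (nat_lit 532) (nat_lit 0) (XT.nd (nat_lit 78) (nat_lit 608) (nat_lit 0) (XT.lf (nat_lit 0) (nat_lit 6524878787) (nat_lit 304) (nat_lit 2287353002) (nat_lit 76) (nat_lit 2922607279) (nat_lit 95) (nat_lit 5) (nat_lit 99) (nat_lit 5) (nat_lit 96) (nat_lit 5) (nat_lit 618) (nat_lit 493) (nat_lit 449)) (XT.nd (nat_lit 78) (nat_lit 304) (nat_lit 0) (XT.lf (nat_lit 0) (nat_lit 6548945039) (nat_lit 304) (nat_lit 4432409614) (nat_lit 380) (nat_lit 883097910) (nat_lit 91) (nat_lit 5) (nat_lit 95) (nat_lit 5) (nat_lit 96) (nat_lit 5) (nat_lit 619) (nat_lit 493) (nat_lit 448)) (XT.lf (nat_lit 0) (nat_lit 3475770683) (nat_lit 304) (nat_lit 8456476194) (nat_lit 76) (nat_lit 64120586) (nat_lit 87) (nat_lit 5) (nat_lit 91) (nat_lit 5) (nat_lit 88) (nat_lit 5) (nat_lit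 620) (nat_lit 493) (nat_lit 447)))) (XT.nd (nat_lit 78) (nat_lit 304) (nat_lit 0) (XT.lf (nat_lit 0) (nat_lit 404194613) (nat_lit 228) (nat_lit 7526801187) (nat_lit 304) (nat_lit 4199390928) (nat_lit 84) (nat_lit 5) (nat_lit 87) (nat_lit 5) (nat_lit 88) (nat_lit 5) (nat_lit 621) (nat_lit 493) (nat_lit 446)) (XT.nd (nat_lit 78) (nat_lit 228) (nat_lit 0) (XT.lf (nat_lit 0) (nat_lit 215833212) (nat_lit 304) (nat_lit 2790981720) (nat_lit 76) (nat_lit 9260040678) (nat_lit 83) (nat_lit 5) (nat_lit 87) (nat_lit 5) (nat_lit 84) (nat_lit 5) (nat_lit 622) (nat_lit 493) (nat_lit 445)) (XT.lf (nat_lit 0) (nat_lit 4668858484) (nat_lit 304) (nat_lit 6116958521) (nat_lit 76) (nat_lit 1619569898) (nat_lit 80) (nat_lit 5) (nat_lit 84) (nat_lit 5) (nat_lit 81) (nat_lit 5) (nat_lit 623) (nat_lit 493) (nat_lit 444))))) (XT.nd (nat_lit 234) (nat_lit 532) (nat_lit 0) (XT.nd (nat_lit 78) (nat_lit 304) (nat_lit 0) (XT.lf (nat_lit 0) (nat_lit 2981381654) (nat_lit 228) (nat_lit 6241988086) (nat_lit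 304) (nat_lit 3323073240) (nat_lit 77) (nat_lit 5) (nat_lit 80) (nat_lit 5) (nat_lit 81) (nat_lit 5) (nat_lit 624) (nat_lit 493) (nat_lit 443)) (XT.nd (nat_lit 78) (nat_lit 228) (nat_lit 0) (XT.lf (nat_lit 0) (nat_lit 1158901616) (nat_lit 304) (nat_lit 431537376) (nat_lit 76) (nat_lit 11099816527) (nat_lit 76) (nat_lit 5) (nat_lit 80) (nat_lit 5) (nat_lit 77) (nat_lit 5) (nat_lit 625) (nat_lit 493) (nat_lit 442)) (XT.lf (nat_lit 0) (nat_lit 5719940610) (nat_lit 304) (nat_lit 3954813140) (nat_lit 76) (nat_lit 3161075352) (nat_lit 73) (nat_lit 5) (nat_lit 77) (nat_lit 5) (nat_lit 74) (nat_lit 5) (nat_lit 626) (nat_lit 493) (nat_lit 441)))) (XT.nd (nat_lit 78) (nat_lit 304) (nat_lit 0) (XT.lf (nat_lit 0) (nat_lit 5384128252) (nat_lit 228) (nat_lit 4991929579) (nat_lit 304) (nat_lit 2608181642) (nat_lit 70) (nat_lit 5) (nat_lit 73) (nat_lit 5) (nat_lit 74) (nat_lit 5) (nat_lit 627) (nat_lit 493) (nat_lit 440)) (XT.nd (nat_lit 78) (nat_lit 0) (nat_lit 0) (XT.lf (nat_lit 0)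 (nat_lit 1760938821) (nat_lit 228) (nat_lit 196325393) (nat_lit 304) (nat_lit 11178224244) (nat_lit 66) (nat_lit 5) (nat_lit 69) (nat_lit 5) (nat_lit 70) (nat_lit 5) (nat_lit 628) (nat_lit 493) (nat_lit 439)) (XT.lf (nat_lit 0) (nat_lit 6616642289) (nat_lit 304) (nat_lit 2002199351) (nat_lit 76) (nat_lit 4669827368) (nat_lit 66) (nat_lit 5) (nat_lit 70) (nat_lit 5) (nat_lit 67) (nat_lit 5) (nat_lit 629) (nat_lit 493) (nat_lit 438)))))) (XT.nd (nat_lit 468) (nat_lit 836) (nat_lit 0) (XT.nd (nat_lit 234) (nat_lit 684) (nat_lit 0) (XT.nd (nat_lit 78) (nat_lit 228) (nat_lit 0) (XT.lf (nat_lit 0) (nat_lit 7579633932) (nat_lit 228) (nat_lit 3796646380) (nat_lit 304) (nat_lit 2068493688) (nat_lit 63) (nat_lit 5) (nat_lit 66) (nat_lit 5) (nat_lit 67) (nat_lit 5) (nat_lit 630) (nat_lit 493) (nat_lit 437)) (XT.nd (nat_lit 78) (nat_lit 0) (nat_lit 0) (XT.lf (nat_lit 0) (nat_lit 2594480141) (nat_lit 228) (nat_lit 9879045411) (nat_lit 76) (nat_lit 1130100087) (nat_lit 60) (nat_lit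 5) (nat_lit 63) (nat_lit 5) (nat_lit 61) (nat_lit 5) (nat_lit 631) (nat_lit 493) (nat_lit 436)) (XT.lf (nat_lit 0) (nat_lit 7344585420) (nat_lit 228) (nat_lit 294670834) (nat_lit 76) (nat_lit 6125695367) (nat_lit 60) (nat_lit 5) (nat_lit 63) (nat_lit 5) (nat_lit 61) (nat_lit 5) (nat_lit 632) (nat_lit 493) (nat_lit 435)))) (XT.nd (nat_lit 78) (nat_lit 456) (nat_lit 0) (XT.lf (nat_lit 0) (nat_lit 9531596407) (nat_lit 228) (nat_lit 2677610307) (nat_lit 304) (nat_lit 1719909234) (nat_lit 57) (nat_lit 5) (nat_lit 60) (nat_lit 5) (nat_lit 61) (nat_lit 5) (nat_lit 633) (nat_lit 493) (nat_lit 434)) (XT.nd (nat_lit 78) (nat_lit 228) (nat_lit 0) (XT.lf (nat_lit 0) (nat_lit 3044871227) (nat_lit 228) (nat_lit 8673574555) (nat_lit 76) (nat_lit 2377507809) (nat_lit 54) (nat_lit 5) (nat_lit 57) (nat_lit 5) (nat_lit 55) (nat_lit 5) (nat_lit 634) (nat_lit 493) (nat_lit 433)) (XT.lf (nat_lit 0) (nat_lit 1143411800) (nat_lit 228) (nat_lit 6751221318) (nat_lit 304) (nat_lit 6371015172) (nat_lit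 51) (nat_lit 5) (nat_lit 54) (nat_lit 5) (nat_lit 55) (nat_lit 5) (nat_lit 635) (nat_lit 493) (nat_lit 432))))) (XT.nd (nat_lit 234) (nat_lit 380) (nat_lit 0) (XT.nd (nat_lit 78) (nat_lit 456) (nat_lit 0) (XT.lf (nat_lit 0) (nat_lit 11199790473) (nat_lit 228) (nat_lit 1657979477) (nat_lit 304) (nat_lit 1580641283) (nat_lit 51) (nat_lit 5) (nat_lit 54) (nat_lit 5) (nat_lit 55) (nat_lit 5) (nat_lit 636) (nat_lit 493) (nat_lit 431)) (XT.nd (nat_lit 78) (nat_lit 228) (nat_lit 0) (XT.lf (nat_lit 0) (nat_lit 3288493097) (nat_lit 228) (nat_lit 7800063084) (nat_lit 76) (nat_lit 3525119772) (nat_lit 48) (nat_lit 5) (nat_lit 51) (nat_lit 5) (nat_lit 49) (nat_lit 5) (nat_lit 637) (nat_lit 493) (nat_lit 430)) (XT.lf (nat_lit 0) (nat_lit 2253000244) (nat_lit 228) (nat_lit 5987197421) (nat_lit 304) (nat_lit 6551914129) (nat_lit 45) (nat_lit 5) (nat_lit 48) (nat_lit 5) (nat_lit 49) (nat_lit 5) (nat_lit 638) (nat_lit 493) (nat_lit 429)))) (XT.nd (nat_lit 156) (nat_lit 152) (nat_lit 0)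 (XT.nd (nat_lit 78) (nat_lit 228) (nat_lit 0) (XT.lf (nat_lit 0) (nat_lit 12539605124) (nat_lit 228) (nat_lit 762852793) (nat_lit 304) (nat_lit 1671429797) (nat_lit 45) (nat_lit 5) (nat_lit 48) (nat_lit 5) (nat_lit 49) (nat_lit 5) (nat_lit 639) (nat_lit 493) (nat_lit 428)) (XT.lf (nat_lit 0) (nat_lit 3304104154) (nat_lit 228) (nat_lit 7306374095) (nat_lit 76) (nat_lit 4547577102) (nat_lit 42) (nat_lit 5) (nat_lit 45) (nat_lit 5) (nat_lit 43) (nat_lit 5) (nat_lit 640) (nat_lit 493) (nat_lit 427))) (XT.nd (nat_lit 78) (nat_lit 0) (nat_lit 0) (XT.lf (nat_lit 0) (nat_lit 2981181347) (nat_lit 152) (nat_lit 5376288007) (nat_lit 228) (nat_lit 6988203698) (nat_lit 40) (nat_lit 5) (nat_lit 42) (nat_lit 5) (nat_lit 43) (nat_lit 5) (nat_lit 641) (nat_lit 493) (nat_lit 426)) (XT.lf (nat_lit 0) (nat_lit 13501534287) (nat_lit 152) (nat_lit 19546211) (nat_lit 228) (nat_lit 2015780694) (nat_lit 40) (nat_lit 5) (nat_lit 42) (nat_lit 5) (nat_lit 43) (nat_lit 5) (nat_lit 642) (nat_lit 493)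 (nat_lit 425))))))) (XT.nd (nat_lit 76128) (nat_lit 0) (nat_lit 13756) (XT.nd (nat_lit 75660) (nat_lit 0) (nat_lit 19836) (XT.nd (nat_lit 234) (nat_lit 380) (nat_lit 0) (XT.nd (nat_lit 78) (nat_lit 152) (nat_lit 0) (XT.lf (nat_lit 0) (nat_lit 3067644833) (nat_lit 228) (nat_lit 7245567205) (nat_lit 76) (nat_lit 5417233104) (nat_lit 37) (nat_lit 5) (nat_lit 40) (nat_lit 5) (nat_lit 38) (nat_lit 5) (nat_lit 643) (nat_lit 493) (nat_lit 424)) (XT.nd (nat_lit 78) (nat_lit 0) (nat_lit 0) (XT.lf (nat_lit 0) (nat_lit 3273598178) (nat_lit 152) (nat_lit 4948084313) (nat_lit 228) (nat_lit 7706034658) (nat_lit 35) (nat_lit 5) (nat_lit 37) (nat_lit 5) (nat_lit 38) (nat_lit 5) (nat_lit 644) (nat_lit 493) (nat_lit 423)) (XT.lf (nat_lit 0) (nat_lit 13492029242) (nat_lit 228) (nat_lit 2101645588) (nat_lit 76) (nat_lit 534996734) (nat_lit 35) (nat_lit 5) (nat_lit 38) (nat_lit 5) (nat_lit 36) (nat_lit 4) (nat_lit 645) (nat_lit 493) (nat_lit 422)))) (XT.nd (nat_lit 78) (nat_lit 152) (nat_lit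 0) (XT.lf (nat_lit 0) (nat_lit 2551963273) (nat_lit 228) (nat_lit 7676486724) (nat_lit 76) (nat_lit 6103846255) (nat_lit 32) (nat_lit 5) (nat_lit 35) (nat_lit 5) (nat_lit 33) (nat_lit 5) (nat_lit 646) (nat_lit 493) (nat_lit 421)) (XT.nd (nat_lit 78) (nat_lit 0) (nat_lit 0) (XT.lf (nat_lit 0) (nat_lit 3069927244) (nat_lit 152) (nat_lit 4734965643) (nat_lit 228) (nat_lit 8734836299) (nat_lit 30) (nat_lit 5) (nat_lit 32) (nat_lit 5) (nat_lit 33) (nat_lit 5) (nat_lit 647) (nat_lit 493) (nat_lit 420)) (XT.lf (nat_lit 0) (nat_lit 13182163862) (nat_lit 228) (nat_lit 2691001681) (nat_lit 76) (nat_lit 877760995) (nat_lit 30) (nat_lit 5) (nat_lit 33) (nat_lit 5) (nat_lit 31) (nat_lit 4) (nat_lit 648) (nat_lit 493) (nat_lit 419))))) (XT.nd (nat_lit 234) (nat_lit 1368) (nat_lit 0) (XT.nd (nat_lit 78) (nat_lit 1520) (nat_lit 0) (XT.lf (nat_lit 0) (nat_lit 878127227) (nat_lit 760) (nat_lit 2121921332) (nat_lit 0) (nat_lit 878127227) (nat_lit 329) (nat_lit 5) (nat_lit 339) (nat_lit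 4) (nat_lit 329) (nat_lit 4) (nat_lit 572) (nat_lit 494) (nat_lit 494)) (XT.nd (nat_lit 78) (nat_lit 760) (nat_lit 0) (XT.lf (nat_lit 0) (nat_lit 1969599013) (nat_lit 760) (nat_lit 3583148752) (nat_lit 760) (nat_lit 2255602082) (nat_lit 319) (nat_lit 4) (nat_lit 329) (nat_lit 5) (nat_lit 329) (nat_lit 4) (nat_lit 573) (nat_lit 494) (nat_lit 493)) (XT.lf (nat_lit 0) (nat_lit 415407025) (nat_lit 684) (nat_lit 1091756359) (nat_lit 760) (nat_lit 6354754312) (nat_lit 309) (nat_lit 5) (nat_lit 318) (nat_lit 5) (nat_lit 319) (nat_lit 4) (nat_lit 574) (nat_lit 494) (nat_lit 492)))) (XT.nd (nat_lit 78) (nat_lit 1368) (nat_lit 0) (XT.lf (nat_lit 0) (nat_lit 5297063133) (nat_lit 760) (nat_lit 1150990712) (nat_lit 0) (nat_lit 1468573499) (nat_lit 309) (nat_lit 5) (nat_lit 319) (nat_lit 4) (nat_lit 309) (nat_lit 4) (nat_lit 575) (nat_lit 494) (nat_lit 491)) (XT.nd (nat_lit 78) (nat_lit 608) (nat_lit 0) (XT.lf (nat_lit 0) (nat_lit 1150371993) (nat_lit 760) (nat_lit 2731186126) (nat_lit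 76) (nat_lit 4091215286) (nat_lit 299) (nat_lit 5) (nat_lit 309) (nat_lit 5) (nat_lit 300) (nat_lit 4) (nat_lit 576) (nat_lit 494) (nat_lit 490)) (XT.lf (nat_lit 0) (nat_lit 3695722070) (nat_lit 608) (nat_lit 1231535129) (nat_lit 684) (nat_lit 3103116028) (nat_lit 291) (nat_lit 5) (nat_lit 299) (nat_lit 5) (nat_lit 300) (nat_lit 4) (nat_lit 577) (nat_lit 494) (nat_lit 489)))))) (XT.nd (nat_lit 468) (nat_lit 2812) (nat_lit 0) (XT.nd (nat_lit 234) (nat_lit 1824) (nat_lit 0) (XT.nd (nat_lit 78) (nat_lit 684) (nat_lit 0) (XT.lf (nat_lit 0) (nat_lit 658645237) (nat_lit 760) (nat_lit 5959890467) (nat_lit 76) (nat_lit 1470966025) (nat_lit 281) (nat_lit 5) (nat_lit 291) (nat_lit 5) (nat_lit 282) (nat_lit 4) (nat_lit 578) (nat_lit 494) (nat_lit 488)) (XT.nd (nat_lit 78) (nat_lit 76) (nat_lit 0) (XT.lf (nat_lit 0) (nat_lit 526667594) (nat_lit 608) (nat_lit 3904060000) (nat_lit 684) (nat_lit 3719151357) (nat_lit 273) (nat_lit 5) (nat_lit 281) (nat_lit 5) (nat_lit 282) (nat_lit 4)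 (nat_lit 579) (nat_lit 494) (nat_lit 487)) (XT.lf (nat_lit 0) (nat_lit 42201183) (nat_lit 684) (nat_lit 1071949739) (nat_lit 76) (nat_lit 7097787096) (nat_lit 272) (nat_lit 5) (nat_lit 281) (nat_lit 5) (nat_lit 273) (nat_lit 5) (nat_lit 580) (nat_lit 494) (nat_lit 486)))) (XT.nd (nat_lit 78) (nat_lit 1216) (nat_lit 0) (XT.lf (nat_lit 0) (nat_lit 3814032377) (nat_lit 684) (nat_lit 2710639369) (nat_lit 76) (nat_lit 1750382414) (nat_lit 264) (nat_lit 5) (nat_lit 273) (nat_lit 5) (nat_lit 265) (nat_lit 4) (nat_lit 581) (nat_lit 494) (nat_lit 485)) (XT.nd (nat_lit 78) (nat_lit 684) (nat_lit 0) (XT.lf (nat_lit 0) (nat_lit 3970138581) (nat_lit 532) (nat_lit 3669408370) (nat_lit 608) (nat_lit 700329158) (nat_lit 257) (nat_lit 5) (nat_lit 264) (nat_lit 5) (nat_lit 265) (nat_lit 4) (nat_lit 582) (nat_lit 494) (nat_lit 484)) (XT.lf (nat_lit 0) (nat_lit 2342350900) (nat_lit 608) (nat_lit 723738074) (nat_lit 684) (nat_lit 5340073742) (nat_lit 248) (nat_lit 5) (nat_lit 256) (nat_lit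 5) (nat_lit 257) (nat_lit 5) (nat_lit 583) (nat_lit 494) (nat_lit 483))))) (XT.nd (nat_lit 234) (nat_lit 1672) (nat_lit 0) (XT.nd (nat_lit 78) (nat_lit 608) (nat_lit 0) (XT.lf (nat_lit 0) (nat_lit 679925195) (nat_lit 532) (nat_lit 6205932492) (nat_lit 608) (nat_lit 1588084725) (nat_lit 241) (nat_lit 5) (nat_lit 248) (nat_lit 5) (nat_lit 249) (nat_lit 4) (nat_lit 584) (nat_lit 494) (nat_lit 482)) (XT.nd (nat_lit 78) (nat_lit 532) (nat_lit 0) (XT.lf (nat_lit 0) (nat_lit 2194234929) (nat_lit 608) (nat_lit 1005472673) (nat_lit 76) (nat_lit 5343393891) (nat_lit 240) (nat_lit 5) (nat_lit 248) (nat_lit 5) (nat_lit 241) (nat_lit 5) (nat_lit 585) (nat_lit 494) (nat_lit 481)) (XT.lf (nat_lit 0) (nat_lit 5903055916) (nat_lit 532) (nat_lit 106326251) (nat_lit 608) (nat_lit 2604490206) (nat_lit 233) (nat_lit 5) (nat_lit 240) (nat_lit 5) (nat_lit 241) (nat_lit 5) (nat_lit 586) (nat_lit 494) (nat_lit 480)))) (XT.nd (nat_lit 156) (nat_lit 532) (nat_lit 0) (XT.nd (nat_lit 78) (nat_lit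 532) (nat_lit 0) (XT.lf (nat_lit 0) (nat_lit 1193441725) (nat_lit 608) (nat_lit 4464117544) (nat_lit 76) (nat_lit 3028456843) (nat_lit 225) (nat_lit 5) (nat_lit 233) (nat_lit 5) (nat_lit 226) (nat_lit 5) (nat_lit 587) (nat_lit 494) (nat_lit 479)) (XT.lf (nat_lit 0) (nat_lit 2502081716) (nat_lit 532) (nat_lit 2506493596) (nat_lit 608) (nat_lit 3751167802) (nat_lit 218) (nat_lit 5) (nat_lit 225) (nat_lit 5) (nat_lit 226) (nat_lit 5) (nat_lit 588) (nat_lit 494) (nat_lit 478))) (XT.nd (nat_lit 78) (nat_lit 0) (nat_lit 0) (XT.lf (nat_lit 0) (nat_lit 45019354) (nat_lit 532) (nat_lit 8080654715) (nat_lit 76) (nat_lit 709652792) (nat_lit 211) (nat_lit 5) (nat_lit 218) (nat_lit 5) (nat_lit 212) (nat_lit 5) (nat_lit 589) (nat_lit 494) (nat_lit 477)) (XT.lf (nat_lit 0) (nat_lit 3867325147) (nat_lit 532) (nat_lit 1045363903) (nat_lit 76) (nat_lit 3999235506) (nat_lit 211) (nat_lit 5) (nat_lit 218) (nat_lit 5) (nat_lit 212) (nat_lit 5) (nat_lit 590) (nat_lit 494) (nat_lit 476))))))))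
noncomputable def xc30 : XT := (XT.nd (nat_lit 1950) (nat_lit 4636) (nat_lit 0) (XT.nd (nat_lit 936) (nat_lit 3496) (nat_lit 0) (XT.nd (nat_lit 468) (nat_lit 2204) (nat_lit 0) (XT.nd (nat_lit 234) (nat_lit 988) (nat_lit 0) (XT.nd (nat_lit 78) (nat_lit 988) (nat_lit 0) (XT.lf (nat_lit 0) (nat_lit 6128520635) (nat_lit 532) (nat_lit 1620000260) (nat_lit 608) (nat_lit 1241890940) (nat_lit 204) (nat_lit 5) (nat_lit 211) (nat_lit 5) (nat_lit 212) (nat_lit 5) (nat_lit 591) (nat_lit 494) (nat_lit 475)) (XT.nd (nat_lit 78) (nat_lit 456) (nat_lit 0) (XT.lf (nat_lit 0) (nat_lit 2591905150) (nat_lit 532) (nat_lit 4735182633) (nat_lit 76) (nat_lit 1743252596) (nat_lit 197) (nat_lit 5) (nat_lit 204) (nat_lit 5) (nat_lit 198) (nat_lit 5) (nat_lit 592) (nat_lit 494) (nat_lit 474)) (XT.lf (nat_lit 0) (nat_lit 2493948181) (nat_lit 456) (nat_lit 3981352597) (nat_lit 532) (nat_lit 2676617618) (nat_lit 191) (nat_lit 5) (nat_lit 197) (nat_lit 5) (nat_lit 198) (nat_lit 5) (nat_lit 593) (nat_lit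 494) (nat_lit 473)))) (XT.nd (nat_lit 78) (nat_lit 456) (nat_lit 0) (XT.lf (nat_lit 0) (nat_lit 614051251) (nat_lit 456) (nat_lit 550885776) (nat_lit 532) (nat_lit 8070451755) (nat_lit 184) (nat_lit 5) (nat_lit 190) (nat_lit 5) (nat_lit 191) (nat_lit 5) (nat_lit 594) (nat_lit 494) (nat_lit 472)) (XT.nd (nat_lit 78) (nat_lit 456) (nat_lit 0) (XT.lf (nat_lit 0) (nat_lit 5055510871) (nat_lit 532) (nat_lit 1318785063) (nat_lit 76) (nat_lit 2945724011) (nat_lit 184) (nat_lit 5) (nat_lit 191) (nat_lit 5) (nat_lit 185) (nat_lit 5) (nat_lit 595) (nat_lit 494) (nat_lit 471)) (XT.lf (nat_lit 0) (nat_lit 6124384462) (nat_lit 456) (nat_lit 2887902502) (nat_lit 532) (nat_lit 394294617) (nat_lit 178) (nat_lit 5) (nat_lit 184) (nat_lit 5) (nat_lit 185) (nat_lit 5) (nat_lit 596) (nat_lit 494) (nat_lit 470))))) (XT.nd (nat_lit 234) (nat_lit 836) (nat_lit 0) (XT.nd (nat_lit 78) (nat_lit 912) (nat_lit 0) (XT.lf (nat_lit 0) (nat_lit 3492542541) (nat_lit 456) (nat_lit 5310239255) (nat_lit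 76) (nat_lit 691920269) (nat_lit 172) (nat_lit 5) (nat_lit 178) (nat_lit 5) (nat_lit 173) (nat_lit 5) (nat_lit 597) (nat_lit 494) (nat_lit 469)) (XT.nd (nat_lit 78) (nat_lit 456) (nat_lit 0) (XT.lf (nat_lit 0) (nat_lit 2184902058) (nat_lit 456) (nat_lit 5267949925) (nat_lit 532) (nat_lit 2131665887) (nat_lit 166) (nat_lit 5) (nat_lit 172) (nat_lit 5) (nat_lit 173) (nat_lit 5) (nat_lit 598) (nat_lit 494) (nat_lit 468)) (XT.lf (nat_lit 0) (nat_lit 133375192) (nat_lit 380) (nat_lit 1641479131) (nat_lit 456) (nat_lit 7901396215) (nat_lit 160) (nat_lit 5) (nat_lit 165) (nat_lit 5) (nat_lit 166) (nat_lit 5) (nat_lit 599) (nat_lit 494) (nat_lit 467)))) (XT.nd (nat_lit 78) (nat_lit 836) (nat_lit 0) (XT.lf (nat_lit 0) (nat_lit 5740377062) (nat_lit 456) (nat_lit 1962506041) (nat_lit 76) (nat_lit 2066469679) (nat_lit 160) (nat_lit 5) (nat_lit 166) (nat_lit 5) (nat_lit 161) (nat_lit 5) (nat_lit 600) (nat_lit 494) (nat_lit 466)) (XT.nd (nat_lit 78) (nat_lit 456) (nat_lit 0) (XT.lf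 (nat_lit 0) (nat_lit 5752469683) (nat_lit 380) (nat_lit 4028063570) (nat_lit 456) (nat_lit 83882289) (nat_lit 155) (nat_lit 5) (nat_lit 160) (nat_lit 5) (nat_lit 161) (nat_lit 5) (nat_lit 601) (nat_lit 494) (nat_lit 465)) (XT.lf (nat_lit 0) (nat_lit 3627392064) (nat_lit 380) (nat_lit 245116517) (nat_lit 456) (nat_lit 6088682662) (nat_lit 149) (nat_lit 5) (nat_lit 154) (nat_lit 5) (nat_lit 155) (nat_lit 5) (nat_lit 602) (nat_lit 494) (nat_lit 464)))))) (XT.nd (nat_lit 468) (nat_lit 1672) (nat_lit 0) (XT.nd (nat_lit 234) (nat_lit 1064) (nat_lit 0) (XT.nd (nat_lit 78) (nat_lit 380) (nat_lit 0) (XT.lf (nat_lit 0) (nat_lit 1430397998) (nat_lit 380) (nat_lit 6484612916) (nat_lit 456) (nat_lit 2144722967) (nat_lit 144) (nat_lit 5) (nat_lit 149) (nat_lit 5) (nat_lit 150) (nat_lit 5) (nat_lit 603) (nat_lit 494) (nat_lit 463)) (XT.nd (nat_lit 78) (nat_lit 304) (nat_lit 0) (XT.lf (nat_lit 0) (nat_lit 1845623588) (nat_lit 456) (nat_lit 819986956) (nat_lit 76) (nat_lit 7494554625)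 (nat_lit 143) (nat_lit 5) (nat_lit 149) (nat_lit 5) (nat_lit 144) (nat_lit 5) (nat_lit 604) (nat_lit 494) (nat_lit 462)) (XT.lf (nat_lit 0) (nat_lit 5890424002) (nat_lit 380) (nat_lit 3126185660) (nat_lit 76) (nat_lit 1245648972) (nat_lit 139) (nat_lit 5) (nat_lit 144) (nat_lit 5) (nat_lit 140) (nat_lit 5) (nat_lit 605) (nat_lit 494) (nat_lit 461)))) (XT.nd (nat_lit 78) (nat_lit 684) (nat_lit 0) (XT.lf (nat_lit 0) (nat_lit 4861239084) (nat_lit 380) (nat_lit 5158686659) (nat_lit 456) (nat_lit 346396414) (nat_lit 134) (nat_lit 5) (nat_lit 139) (nat_lit 5) (nat_lit 140) (nat_lit 5) (nat_lit 606) (nat_lit 494) (nat_lit 460)) (XT.nd (nat_lit 78) (nat_lit 304) (nat_lit 0) (XT.lf (nat_lit 0) (nat_lit 2505999596) (nat_lit 304) (nat_lit 1190821291) (nat_lit 380) (nat_lit 6775430449) (nat_lit 129) (nat_lit 5) (nat_lit 133) (nat_lit 5) (nat_lit 134) (nat_lit 5) (nat_lit 607) (nat_lit 494) (nat_lit 459)) (XT.lf (nat_lit 0) (nat_lit 70870359) (nat_lit 304) (nat_lit 7751057753) (nat_lit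 380) (nat_lit 2758215961) (nat_lit 125) (nat_lit 5) (nat_lit 129) (nat_lit 5) (nat_lit 130) (nat_lit 5) (nat_lit 608) (nat_lit 494) (nat_lit 458))))) (XT.nd (nat_lit 234) (nat_lit 988) (nat_lit 0) (XT.nd (nat_lit 78) (nat_lit 608) (nat_lit 0) (XT.lf (nat_lit 0) (nat_lit 1333072854) (nat_lit 380) (nat_lit 2410822011) (nat_lit 76) (nat_lit 6945903857) (nat_lit 124) (nat_lit 5) (nat_lit 129) (nat_lit 5) (nat_lit 125) (nat_lit 5) (nat_lit 609) (nat_lit 494) (nat_lit 457)) (XT.nd (nat_lit 78) (nat_lit 304) (nat_lit 0) (XT.lf (nat_lit 0) (nat_lit 5460117374) (nat_lit 380) (nat_lit 4976035940) (nat_lit 76) (nat_lit 365315077) (nat_lit 120) (nat_lit 5) (nat_lit 125) (nat_lit 5) (nat_lit 121) (nat_lit 5) (nat_lit 610) (nat_lit 494) (nat_lit 456)) (XT.lf (nat_lit 0) (nat_lit 3282044612) (nat_lit 304) (nat_lit 6400888762) (nat_lit 380) (nat_lit 1232177207) (nat_lit 116) (nat_lit 5) (nat_lit 120) (nat_lit 5) (nat_lit 121) (nat_lit 5) (nat_lit 611) (nat_lit 494) (nat_lit 455)))) (XT.nd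 (nat_lit 156) (nat_lit 608) (nat_lit 0) (XT.nd (nat_lit 78) (nat_lit 0) (nat_lit 0) (XT.lf (nat_lit 0) (nat_lit 651216907) (nat_lit 304) (nat_lit 2257957192) (nat_lit 380) (nat_lit 8121694764) (nat_lit 111) (nat_lit 5) (nat_lit 115) (nat_lit 5) (nat_lit 116) (nat_lit 5) (nat_lit 612) (nat_lit 494) (nat_lit 454)) (XT.lf (nat_lit 0) (nat_lit 7132411224) (nat_lit 380) (nat_lit 2045055371) (nat_lit 76) (nat_lit 1971005191) (nat_lit 111) (nat_lit 5) (nat_lit 116) (nat_lit 5) (nat_lit 112) (nat_lit 5) (nat_lit 613) (nat_lit 494) (nat_lit 453))) (XT.nd (nat_lit 78) (nat_lit 228) (nat_lit 0) (XT.lf (nat_lit 0) (nat_lit 178462925) (nat_lit 380) (nat_lit 4822529510) (nat_lit 76) (nat_lit 6267234858) (nat_lit 106) (nat_lit 5) (nat_lit 111) (nat_lit 5) (nat_lit 107) (nat_lit 5) (nat_lit 614) (nat_lit 494) (nat_lit 452)) (XT.lf (nat_lit 0) (nat_lit 3686490616) (nat_lit 228) (nat_lit 706683876) (nat_lit 304) (nat_lit 6996874360) (nat_lit 103) (nat_lit 5) (nat_lit 106) (nat_lit 5) (nat_lit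 107) (nat_lit 5) (nat_lit 615) (nat_lit 494) (nat_lit 451))))))) (XT.nd (nat_lit 936) (nat_lit 2128) (nat_lit 0) (XT.nd (nat_lit 468) (nat_lit 1292) (nat_lit 0) (XT.nd (nat_lit 234) (nat_lit 608) (nat_lit 0) (XT.nd (nat_lit 78) (nat_lit 304) (nat_lit 0) (XT.lf (nat_lit 0) (nat_lit 824874109) (nat_lit 304) (nat_lit 7881584813) (nat_lit 380) (nat_lit 2807565603) (nat_lit 99) (nat_lit 5) (nat_lit 103) (nat_lit 5) (nat_lit 104) (nat_lit 5) (nat_lit 616) (nat_lit 494) (nat_lit 450)) (XT.nd (nat_lit 78) (nat_lit 228) (nat_lit 0) (XT.lf (nat_lit 0) (nat_lit 1455627186) (nat_lit 380) (nat_lit 2105077231) (nat_lit 76) (nat_lit 8079401747) (nat_lit 98) (nat_lit 5) (nat_lit 103) (nat_lit 5) (nat_lit 99) (nat_lit 5) (nat_lit 617) (nat_lit 494) (nat_lit 449)) (XT.lf (nat_lit 0) (nat_lit 5768878035) (nat_lit 304) (nat_lit 5132758534) (nat_lit 76) (nat_lit 866657023) (nat_lit 95) (nat_lit 5) (nat_lit 99) (nat_lit 5) (nat_lit 96) (nat_lit 5) (nat_lit 618) (nat_lit 494) (nat_lit 448))))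 (XT.nd (nat_lit 78) (nat_lit 304) (nat_lit 0) (XT.lf (nat_lit 0) (nat_lit 3626575901) (nat_lit 304) (nat_lit 6556901447) (nat_lit 380) (nat_lit 1715268757) (nat_lit 91) (nat_lit 5) (nat_lit 95) (nat_lit 5) (nat_lit 96) (nat_lit 5) (nat_lit 619) (nat_lit 494) (nat_lit 447)) (XT.nd (nat_lit 78) (nat_lit 0) (nat_lit 0) (XT.lf (nat_lit 0) (nat_lit 510639878) (nat_lit 228) (nat_lit 2100926965) (nat_lit 304) (nat_lit 9420062594) (nat_lit 87) (nat_lit 5) (nat_lit 90) (nat_lit 5) (nat_lit 91) (nat_lit 5) (nat_lit 620) (nat_lit 494) (nat_lit 446)) (XT.lf (nat_lit 0) (nat_lit 7027768701) (nat_lit 304) (nat_lit 2690763971) (nat_lit 76) (nat_lit 2447897898) (nat_lit 87) (nat_lit 5) (nat_lit 91) (nat_lit 5) (nat_lit 88) (nat_lit 5) (nat_lit 621) (nat_lit 494) (nat_lit 445))))) (XT.nd (nat_lit 234) (nat_lit 760) (nat_lit 0) (XT.nd (nat_lit 78) (nat_lit 304) (nat_lit 0) (XT.lf (nat_lit 0) (nat_lit 6308075240) (nat_lit 228) (nat_lit 5234018531) (nat_lit 304) (nat_lit 761640748) (nat_lit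 84) (nat_lit 5) (nat_lit 87) (nat_lit 5) (nat_lit 88) (nat_lit 5) (nat_lit 622) (nat_lit 494) (nat_lit 444)) (XT.nd (nat_lit 78) (nat_lit 0) (nat_lit 0) (XT.lf (nat_lit 0) (nat_lit 3018464010) (nat_lit 228) (nat_lit 628685473) (nat_lit 304) (nat_lit 8796301033) (nat_lit 80) (nat_lit 5) (nat_lit 83) (nat_lit 5) (nat_lit 84) (nat_lit 5) (nat_lit 623) (nat_lit 494) (nat_lit 443)) (XT.lf (nat_lit 0) (nat_lit 8156042943) (nat_lit 304) (nat_lit 399827329) (nat_lit 76) (nat_lit 4029549975) (nat_lit 80) (nat_lit 5) (nat_lit 84) (nat_lit 5) (nat_lit 81) (nat_lit 5) (nat_lit 624) (nat_lit 494) (nat_lit 442)))) (XT.nd (nat_lit 78) (nat_lit 456) (nat_lit 0) (XT.lf (nat_lit 0) (nat_lit 42322074) (nat_lit 304) (nat_lit 3888095306) (nat_lit 76) (nat_lit 8799456004) (nat_lit 76) (nat_lit 5) (nat_lit 80) (nat_lit 5) (nat_lit 77) (nat_lit 5) (nat_lit 625) (nat_lit 494) (nat_lit 441)) (XT.nd (nat_lit 78) (nat_lit 228) (nat_lit 0) (XT.lf (nat_lit 0) (nat_lit 4543223990) (nat_lit 304) (nat_lit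 7520327083) (nat_lit 76) (nat_lit 813099856) (nat_lit 73) (nat_lit 5) (nat_lit 77) (nat_lit 5) (nat_lit 74) (nat_lit 5) (nat_lit 626) (nat_lit 494) (nat_lit 440)) (XT.lf (nat_lit 0) (nat_lit 1733191623) (nat_lit 228) (nat_lit 7420824428) (nat_lit 304) (nat_lit 3871952949) (nat_lit 70) (nat_lit 5) (nat_lit 73) (nat_lit 5) (nat_lit 74) (nat_lit 5) (nat_lit 627) (nat_lit 494) (nat_lit 439)))))) (XT.nd (nat_lit 468) (nat_lit 1140) (nat_lit 0) (XT.nd (nat_lit 234) (nat_lit 456) (nat_lit 0) (XT.nd (nat_lit 78) (nat_lit 456) (nat_lit 0) (XT.lf (nat_lit 0) (nat_lit 677052124) (nat_lit 304) (nat_lit 1984198108) (nat_lit 76) (nat_lit 10516793316) (nat_lit 69) (nat_lit 5) (nat_lit 73) (nat_lit 5) (nat_lit 70) (nat_lit 5) (nat_lit 628) (nat_lit 494) (nat_lit 438)) (XT.nd (nat_lit 78) (nat_lit 228) (nat_lit 0) (XT.lf (nat_lit 0) (nat_lit 5285781039) (nat_lit 304) (nat_lit 5838090478) (nat_lit 76) (nat_lit 2208366692) (nat_lit 66) (nat_lit 5) (nat_lit 70) (nat_lit 5) (nat_lit 67) (nat_lit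 5) (nat_lit 629) (nat_lit 494) (nat_lit 437)) (XT.lf (nat_lit 0) (nat_lit 3655354134) (nat_lit 228) (nat_lit 6343502717) (nat_lit 304) (nat_lit 3490418699) (nat_lit 63) (nat_lit 5) (nat_lit 66) (nat_lit 5) (nat_lit 67) (nat_lit 5) (nat_lit 630) (nat_lit 494) (nat_lit 436)))) (XT.nd (nat_lit 78) (nat_lit 380) (nat_lit 0) (XT.lf (nat_lit 0) (nat_lit 1138489920) (nat_lit 304) (nat_lit 313292379) (nat_lit 76) (nat_lit 12197584876) (nat_lit 62) (nat_lit 5) (nat_lit 66) (nat_lit 5) (nat_lit 63) (nat_lit 5) (nat_lit 631) (nat_lit 494) (nat_lit 435)) (XT.nd (nat_lit 78) (nat_lit 228) (nat_lit 0) (XT.lf (nat_lit 0) (nat_lit 5856118474) (nat_lit 228) (nat_lit 4410081508) (nat_lit 76) (nat_lit 3545143751) (nat_lit 60) (nat_lit 5) (nat_lit 63) (nat_lit 5) (nat_lit 61) (nat_lit 5) (nat_lit 632) (nat_lit 494) (nat_lit 434)) (XT.lf (nat_lit 0) (nat_lit 5324706319) (nat_lit 228) (nat_lit 5348154815) (nat_lit 304) (nat_lit 3303605522) (nat_lit 57) (nat_lit 5) (nat_lit 60) (nat_lit 5)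 (nat_lit 61) (nat_lit 5) (nat_lit 633) (nat_lit 494) (nat_lit 433))))) (XT.nd (nat_lit 234) (nat_lit 684) (nat_lit 0) (XT.nd (nat_lit 78) (nat_lit 228) (nat_lit 0) (XT.lf (nat_lit 0) (nat_lit 1101151780) (nat_lit 152) (nat_lit 316460552) (nat_lit 228) (nat_lit 12727185257) (nat_lit 54) (nat_lit 5) (nat_lit 56) (nat_lit 5) (nat_lit 57) (nat_lit 5) (nat_lit 634) (nat_lit 494) (nat_lit 432)) (XT.nd (nat_lit 78) (nat_lit 228) (nat_lit 0) (XT.lf (nat_lit 0) (nat_lit 6237430064) (nat_lit 228) (nat_lit 3276008088) (nat_lit 76) (nat_lit 4801653982) (nat_lit 54) (nat_lit 5) (nat_lit 57) (nat_lit 5) (nat_lit 55) (nat_lit 5) (nat_lit 635) (nat_lit 494) (nat_lit 431)) (XT.lf (nat_lit 0) (nat_lit 6700666429) (nat_lit 228) (nat_lit 4458048545) (nat_lit 304) (nat_lit 3329978084) (nat_lit 51) (nat_lit 5) (nat_lit 54) (nat_lit 5) (nat_lit 55) (nat_lit 5) (nat_lit 636) (nat_lit 494) (nat_lit 430)))) (XT.nd (nat_lit 156) (nat_lit 456) (nat_lit 0) (XT.nd (nat_lit 78) (nat_lit 0) (nat_lit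 0) (XT.lf (nat_lit 0) (nat_lit 1493418344) (nat_lit 228) (nat_lit 12467575953) (nat_lit 76) (nat_lit 704565162) (nat_lit 48) (nat_lit 5) (nat_lit 51) (nat_lit 5) (nat_lit 49) (nat_lit 5) (nat_lit 637) (nat_lit 494) (nat_lit 429)) (XT.lf (nat_lit 0) (nat_lit 6410522001) (nat_lit 228) (nat_lit 2479848709) (nat_lit 76) (nat_lit 5954317497) (nat_lit 48) (nat_lit 5) (nat_lit 51) (nat_lit 5) (nat_lit 49) (nat_lit 5) (nat_lit 638) (nat_lit 494) (nat_lit 428))) (XT.nd (nat_lit 78) (nat_lit 228) (nat_lit 0) (XT.lf (nat_lit 0) (nat_lit 7738248150) (nat_lit 228) (nat_lit 3698407170) (nat_lit 304) (nat_lit 3590532220) (nat_lit 45) (nat_lit 5) (nat_lit 48) (nat_lit 5) (nat_lit 49) (nat_lit 5) (nat_lit 639) (nat_lit 494) (nat_lit 427)) (XT.lf (nat_lit 0) (nat_lit 1339074752) (nat_lit 228) (nat_lit 12283630501) (nat_lit 76) (nat_lit 1590321890) (nat_lit 42) (nat_lit 5) (nat_lit 45) (nat_lit 5) (nat_lit 43) (nat_lit 5) (nat_lit 640) (nat_lit 494) (nat_lit 426))))))))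
noncomputable def xc31 : XT := (XT.nd (nat_lit 76986) (nat_lit 0) (nat_lit 6460) (XT.nd (nat_lit 75972) (nat_lit 0) (nat_lit 15428) (XT.nd (nat_lit 468) (nat_lit 152) (nat_lit 0) (XT.nd (nat_lit 234) (nat_lit 380) (nat_lit 0) (XT.nd (nat_lit 78) (nat_lit 380) (nat_lit 0) (XT.lf (nat_lit 0) (nat_lit 6353587341) (nat_lit 228) (nat_lit 2070346673) (nat_lit 76) (nat_lit 6977488703) (nat_lit 42) (nat_lit 5) (nat_lit 45) (nat_lit 5) (nat_lit 43) (nat_lit 5) (nat_lit 641) (nat_lit 494) (nat_lit 425)) (XT.nd (nat_lit 78) (nat_lit 228) (nat_lit 0) (XT.lf (nat_lit 0) (nat_lit 8387550964) (nat_lit 152) (nat_lit 3096685441) (nat_lit 228) (nat_lit 4109034499) (nat_lit 40) (nat_lit 5) (nat_lit 42) (nat_lit 5) (nat_lit 43) (nat_lit 5) (nat_lit 642) (nat_lit 494) (nat_lit 424)) (XT.lf (nat_lit 0) (nat_lit 928207413) (nat_lit 228) (nat_lit 12543222066) (nat_lit 76) (nat_lit 2317170705) (nat_lit 37) (nat_lit 5) (nat_lit 40) (nat_lit 5) (nat_lit 38) (nat_lit 5) (nat_lit 643) (nat_lit 494)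 (nat_lit 423)))) (XT.nd (nat_lit 78) (nat_lit 380) (nat_lit 0) (XT.lf (nat_lit 0) (nat_lit 6041954258) (nat_lit 228) (nat_lit 2101554127) (nat_lit 76) (nat_lit 7843170383) (nat_lit 37) (nat_lit 5) (nat_lit 40) (nat_lit 5) (nat_lit 38) (nat_lit 5) (nat_lit 644) (nat_lit 494) (nat_lit 422)) (XT.nd (nat_lit 78) (nat_lit 228) (nat_lit 0) (XT.lf (nat_lit 0) (nat_lit 8593199009) (nat_lit 152) (nat_lit 2682870156) (nat_lit 228) (nat_lit 4912289398) (nat_lit 35) (nat_lit 5) (nat_lit 37) (nat_lit 5) (nat_lit 38) (nat_lit 5) (nat_lit 645) (nat_lit 494) (nat_lit 421)) (XT.lf (nat_lit 0) (nat_lit 233398984) (nat_lit 228) (nat_lit 13305622472) (nat_lit 76) (nat_lit 2854713266) (nat_lit 32) (nat_lit 5) (nat_lit 35) (nat_lit 5) (nat_lit 33) (nat_lit 5) (nat_lit 646) (nat_lit 494) (nat_lit 420))))) (XT.nd (nat_lit 75270) (nat_lit 0) (nat_lit 21964) (XT.nd (nat_lit 78) (nat_lit 152) (nat_lit 0) (XT.lf (nat_lit 0) (nat_lit 5447805541) (nat_lit 228) (nat_lit 2633431321) (nat_lit 76) (nat_lit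 8520701956) (nat_lit 32) (nat_lit 5) (nat_lit 35) (nat_lit 5) (nat_lit 33) (nat_lit 5) (nat_lit 647) (nat_lit 494) (nat_lit 419)) (XT.nd (nat_lit 75114) (nat_lit 0) (nat_lit 24244) (XT.lf (nat_lit 0) (nat_lit 8293722866) (nat_lit 152) (nat_lit 2489808135) (nat_lit 228) (nat_lit 6030436766) (nat_lit 30) (nat_lit 5) (nat_lit 32) (nat_lit 5) (nat_lit 33) (nat_lit 5) (nat_lit 648) (nat_lit 494) (nat_lit 418)) (XT.lf (nat_lit 0) (nat_lit 1645391667) (nat_lit 836) (nat_lit 537113314) (nat_lit 0) (nat_lit 1645391667) (nat_lit 349) (nat_lit 5) (nat_lit 360) (nat_lit 4) (nat_lit 349) (nat_lit 4) (nat_lit 570) (nat_lit 495) (nat_lit 495)))) (XT.nd (nat_lit 78) (nat_lit 1520) (nat_lit 0) (XT.lf (nat_lit 0) (nat_lit 5038041585) (nat_lit 760) (nat_lit 2024450333) (nat_lit 760) (nat_lit 643270778) (nat_lit 339) (nat_lit 4) (nat_lit 349) (nat_lit 5) (nat_lit 349) (nat_lit 4) (nat_lit 571) (nat_lit 495) (nat_lit 494)) (XT.nd (nat_lit 78) (nat_lit 760) (nat_lit 0) (XT.lf (nat_lit 0) (nat_lit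 3076781808) (nat_lit 760) (nat_lit 4285109026) (nat_lit 0) (nat_lit 395137535) (nat_lit 329) (nat_lit 5) (nat_lit 339) (nat_lit 4) (nat_lit 329) (nat_lit 4) (nat_lit 572) (nat_lit 495) (nat_lit 493)) (XT.lf (nat_lit 0) (nat_lit 1886789372) (nat_lit 760) (nat_lit 4953036083) (nat_lit 760) (nat_lit 969875467) (nat_lit 319) (nat_lit 4) (nat_lit 329) (nat_lit 5) (nat_lit 329) (nat_lit 4) (nat_lit 573) (nat_lit 495) (nat_lit 492)))))) (XT.nd (nat_lit 468) (nat_lit 3040) (nat_lit 0) (XT.nd (nat_lit 234) (nat_lit 1976) (nat_lit 0) (XT.nd (nat_lit 78) (nat_lit 760) (nat_lit 0) (XT.lf (nat_lit 0) (nat_lit 280497824) (nat_lit 684) (nat_lit 2461905568) (nat_lit 760) (nat_lit 5121375984) (nat_lit 309) (nat_lit 5) (nat_lit 318) (nat_lit 5) (nat_lit 319) (nat_lit 4) (nat_lit 574) (nat_lit 495) (nat_lit 491)) (XT.nd (nat_lit 78) (nat_lit 760) (nat_lit 0) (XT.lf (nat_lit 0) (nat_lit 6490987209) (nat_lit 760) (nat_lit 1319830128) (nat_lit 0) (nat_lit 108502986) (nat_lit 309) (nat_lit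 5) (nat_lit 319) (nat_lit 4) (nat_lit 309) (nat_lit 4) (nat_lit 575) (nat_lit 495) (nat_lit 490)) (XT.lf (nat_lit 0) (nat_lit 2292596129) (nat_lit 760) (nat_lit 2953839962) (nat_lit 76) (nat_lit 2729548071) (nat_lit 299) (nat_lit 5) (nat_lit 309) (nat_lit 5) (nat_lit 300) (nat_lit 4) (nat_lit 576) (nat_lit 495) (nat_lit 489)))) (XT.nd (nat_lit 78) (nat_lit 1368) (nat_lit 0) (XT.lf (nat_lit 0) (nat_lit 3429251335) (nat_lit 608) (nat_lit 2606866947) (nat_lit 684) (nat_lit 1998137656) (nat_lit 291) (nat_lit 5) (nat_lit 299) (nat_lit 5) (nat_lit 300) (nat_lit 4) (nat_lit 577) (nat_lit 495) (nat_lit 488)) (XT.nd (nat_lit 78) (nat_lit 608) (nat_lit 0) (XT.lf (nat_lit 0) (nat_lit 1706600735) (nat_lit 760) (nat_lit 6277585005) (nat_lit 76) (nat_lit 109910344) (nat_lit 281) (nat_lit 5) (nat_lit 291) (nat_lit 5) (nat_lit 282) (nat_lit 4) (nat_lit 578) (nat_lit 495) (nat_lit 487)) (XT.lf (nat_lit 0) (nat_lit 163427682) (nat_lit 608) (nat_lit 5281709862) (nat_lit 684) (nat_lit 2710011095)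 (nat_lit 273) (nat_lit 5) (nat_lit 281) (nat_lit 5) (nat_lit 282) (nat_lit 4) (nat_lit 579) (nat_lit 495) (nat_lit 486))))) (XT.nd (nat_lit 234) (nat_lit 1748) (nat_lit 0) (XT.nd (nat_lit 78) (nat_lit 1216) (nat_lit 0) (XT.lf (nat_lit 0) (nat_lit 1007059200) (nat_lit 684) (nat_lit 1487941318) (nat_lit 76) (nat_lit 5722701342) (nat_lit 272) (nat_lit 5) (nat_lit 281) (nat_lit 5) (nat_lit 273) (nat_lit 5) (nat_lit 580) (nat_lit 495) (nat_lit 485)) (XT.nd (nat_lit 78) (nat_lit 608) (nat_lit 0) (XT.lf (nat_lit 0) (nat_lit 4736403020) (nat_lit 684) (nat_lit 3170208574) (nat_lit 76) (nat_lit 375060323) (nat_lit 264) (nat_lit 5) (nat_lit 273) (nat_lit 5) (nat_lit 265) (nat_lit 4) (nat_lit 581) (nat_lit 495) (nat_lit 484)) (XT.lf (nat_lit 0) (nat_lit 178919723) (nat_lit 608) (nat_lit 4884825283) (nat_lit 76) (nat_lit 3283398466) (nat_lit 256) (nat_lit 5) (nat_lit 264) (nat_lit 5) (nat_lit 257) (nat_lit 5) (nat_lit 582) (nat_lit 495) (nat_lit 483)))) (XT.nd (nat_lit 156) (nat_lit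 608) (nat_lit 0) (XT.nd (nat_lit 78) (nat_lit 532) (nat_lit 0) (XT.lf (nat_lit 0) (nat_lit 1774728300) (nat_lit 608) (nat_lit 2127704743) (nat_lit 684) (nat_lit 4511584422) (nat_lit 248) (nat_lit 5) (nat_lit 256) (nat_lit 5) (nat_lit 257) (nat_lit 5) (nat_lit 583) (nat_lit 495) (nat_lit 482)) (XT.lf (nat_lit 0) (nat_lit 64688383) (nat_lit 532) (nat_lit 7614627660) (nat_lit 608) (nat_lit 803342681) (nat_lit 241) (nat_lit 5) (nat_lit 248) (nat_lit 5) (nat_lit 249) (nat_lit 4) (nat_lit 584) (nat_lit 495) (nat_lit 481))) (XT.nd (nat_lit 78) (nat_lit 532) (nat_lit 0) (XT.lf (nat_lit 0) (nat_lit 2939031085) (nat_lit 608) (nat_lit 1675456194) (nat_lit 76) (nat_lit 3937825403) (nat_lit 240) (nat_lit 5) (nat_lit 248) (nat_lit 5) (nat_lit 241) (nat_lit 5) (nat_lit 585) (nat_lit 495) (nat_lit 480)) (XT.lf (nat_lit 0) (nat_lit 5183502649) (nat_lit 532) (nat_lit 1536931450) (nat_lit 608) (nat_lit 1903327975) (nat_lit 233) (nat_lit 5) (nat_lit 240) (nat_lit 5) (nat_lit 241) (nat_lit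 5) (nat_lit 586) (nat_lit 495) (nat_lit 479))))))) (XT.nd (nat_lit 1014) (nat_lit 3800) (nat_lit 0) (XT.nd (nat_lit 468) (nat_lit 2432) (nat_lit 0) (XT.nd (nat_lit 234) (nat_lit 1520) (nat_lit 0) (XT.nd (nat_lit 78) (nat_lit 608) (nat_lit 0) (XT.lf (nat_lit 0) (nat_lit 1841993725) (nat_lit 608) (nat_lit 5249776978) (nat_lit 76) (nat_lit 1604915835) (nat_lit 225) (nat_lit 5) (nat_lit 233) (nat_lit 5) (nat_lit 226) (nat_lit 5) (nat_lit 587) (nat_lit 495) (nat_lit 478)) (XT.nd (nat_lit 78) (nat_lit 76) (nat_lit 0) (XT.lf (nat_lit 0) (nat_lit 1664948341) (nat_lit 532) (nat_lit 3958022985) (nat_lit 608) (nat_lit 3148128753) (nat_lit 218) (nat_lit 5) (nat_lit 225) (nat_lit 5) (nat_lit 226) (nat_lit 5) (nat_lit 588) (nat_lit 495) (nat_lit 477)) (XT.lf (nat_lit 0) (nat_lit 601939608) (nat_lit 608) (nat_lit 143543371) (nat_lit 76) (nat_lit 8101890023) (nat_lit 217) (nat_lit 5) (nat_lit 225) (nat_lit 5) (nat_lit 218) (nat_lit 5) (nat_lit 589) (nat_lit 495) (nat_lit 476)))) (XT.nd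 (nat_lit 78) (nat_lit 1064) (nat_lit 0) (XT.lf (nat_lit 0) (nat_lit 4390065216) (nat_lit 532) (nat_lit 1993541651) (nat_lit 76) (nat_lit 2541050655) (nat_lit 211) (nat_lit 5) (nat_lit 218) (nat_lit 5) (nat_lit 212) (nat_lit 5) (nat_lit 590) (nat_lit 495) (nat_lit 475)) (XT.nd (nat_lit 78) (nat_lit 532) (nat_lit 0) (XT.lf (nat_lit 0) (nat_lit 5127174752) (nat_lit 532) (nat_lit 3109752068) (nat_lit 608) (nat_lit 766907822) (nat_lit 204) (nat_lit 5) (nat_lit 211) (nat_lit 5) (nat_lit 212) (nat_lit 5) (nat_lit 591) (nat_lit 495) (nat_lit 474)) (XT.lf (nat_lit 0) (nat_lit 3016188854) (nat_lit 532) (nat_lit 5811518183) (nat_lit 76) (nat_lit 256886905) (nat_lit 197) (nat_lit 5) (nat_lit 204) (nat_lit 5) (nat_lit 198) (nat_lit 5) (nat_lit 592) (nat_lit 495) (nat_lit 473))))) (XT.nd (nat_lit 234) (nat_lit 1444) (nat_lit 0) (XT.nd (nat_lit 78) (nat_lit 532) (nat_lit 0) (XT.lf (nat_lit 0) (nat_lit 1362421919) (nat_lit 456) (nat_lit 5502289332) (nat_lit 532) (nat_lit 2302161150)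 (nat_lit 191) (nat_lit 5) (nat_lit 197) (nat_lit 5) (nat_lit 198) (nat_lit 5) (nat_lit 593) (nat_lit 495) (nat_lit 472)) (XT.nd (nat_lit 78) (nat_lit 456) (nat_lit 0) (XT.lf (nat_lit 0) (nat_lit 1503065145) (nat_lit 532) (nat_lit 583366101) (nat_lit 76) (nat_lit 7164494123) (nat_lit 190) (nat_lit 5) (nat_lit 197) (nat_lit 5) (nat_lit 191) (nat_lit 5) (nat_lit 594) (nat_lit 495) (nat_lit 471)) (XT.lf (nat_lit 0) (nat_lit 5352567717) (nat_lit 532) (nat_lit 2570220791) (nat_lit 76) (nat_lit 1413592254) (nat_lit 184) (nat_lit 5) (nat_lit 191) (nat_lit 5) (nat_lit 185) (nat_lit 5) (nat_lit 595) (nat_lit 495) (nat_lit 470)))) (XT.nd (nat_lit 156) (nat_lit 532) (nat_lit 0) (XT.nd (nat_lit 78) (nat_lit 456) (nat_lit 0) (XT.lf (nat_lit 0) (nat_lit 4815937634) (nat_lit 456) (nat_lit 4458206813) (nat_lit 532) (nat_lit 149504688) (nat_lit 178) (nat_lit 5) (nat_lit 184) (nat_lit 5) (nat_lit 185) (nat_lit 5) (nat_lit 596) (nat_lit 495) (nat_lit 469)) (XT.lf (nat_lit 0) (nat_lit 2803890130)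 (nat_lit 380) (nat_lit 890070802) (nat_lit 456) (nat_lit 5818582766) (nat_lit 172) (nat_lit 5) (nat_lit 177) (nat_lit 5) (nat_lit 178) (nat_lit 5) (nat_lit 597) (nat_lit 495) (nat_lit 468))) (XT.nd (nat_lit 78) (nat_lit 76) (nat_lit 0) (XT.lf (nat_lit 0) (nat_lit 733101026) (nat_lit 456) (nat_lit 6879526808) (nat_lit 532) (nat_lit 1990567110) (nat_lit 166) (nat_lit 5) (nat_lit 172) (nat_lit 5) (nat_lit 173) (nat_lit 5) (nat_lit 598) (nat_lit 495) (nat_lit 467)) (XT.lf (nat_lit 0) (nat_lit 1886882758) (nat_lit 532) (nat_lit 1379982017) (nat_lit 76) (nat_lit 6428591401) (nat_lit 165) (nat_lit 5) (nat_lit 172) (nat_lit 5) (nat_lit 166) (nat_lit 5) (nat_lit 599) (nat_lit 495) (nat_lit 466)))))) (XT.nd (nat_lit 468) (nat_lit 1824) (nat_lit 0) (XT.nd (nat_lit 234) (nat_lit 760) (nat_lit 0) (XT.nd (nat_lit 78) (nat_lit 836) (nat_lit 0) (XT.lf (nat_lit 0) (nat_lit 5806527039) (nat_lit 456) (nat_lit 3543360116) (nat_lit 76) (nat_lit 439591275) (nat_lit 160) (nat_lit 5) (nat_lit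 166) (nat_lit 5) (nat_lit 161) (nat_lit 5) (nat_lit 600) (nat_lit 495) (nat_lit 465)) (XT.nd (nat_lit 78) (nat_lit 456) (nat_lit 0) (XT.lf (nat_lit 0) (nat_lit 4110488948) (nat_lit 380) (nat_lit 5699860490) (nat_lit 456) (nat_lit 74920822) (nat_lit 155) (nat_lit 5) (nat_lit 160) (nat_lit 5) (nat_lit 161) (nat_lit 5) (nat_lit 601) (nat_lit 495) (nat_lit 464)) (XT.lf (nat_lit 0) (nat_lit 1902198434) (nat_lit 380) (nat_lit 1942357353) (nat_lit 456) (nat_lit 6138227246) (nat_lit 149) (nat_lit 5) (nat_lit 154) (nat_lit 5) (nat_lit 155) (nat_lit 5) (nat_lit 602) (nat_lit 495) (nat_lit 463)))) (XT.nd (nat_lit 78) (nat_lit 760) (nat_lit 0) (XT.lf (nat_lit 0) (nat_lit 7841310458) (nat_lit 456) (nat_lit 363958433) (nat_lit 76) (nat_lit 1876973988) (nat_lit 149) (nat_lit 5) (nat_lit 155) (nat_lit 5) (nat_lit 150) (nat_lit 5) (nat_lit 603) (nat_lit 495) (nat_lit 462)) (XT.nd (nat_lit 78) (nat_lit 304) (nat_lit 0) (XT.lf (nat_lit 0) (nat_lit 1722897535) (nat_lit 456) (nat_lit 2681004529)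 (nat_lit 76) (nat_lit 5779342333) (nat_lit 143) (nat_lit 5) (nat_lit 149) (nat_lit 5) (nat_lit 144) (nat_lit 5) (nat_lit 604) (nat_lit 495) (nat_lit 461)) (XT.lf (nat_lit 0) (nat_lit 5219037020) (nat_lit 304) (nat_lit 503094260) (nat_lit 380) (nat_lit 4564120041) (nat_lit 139) (nat_lit 5) (nat_lit 143) (nat_lit 5) (nat_lit 144) (nat_lit 5) (nat_lit 605) (nat_lit 495) (nat_lit 460))))) (XT.nd (nat_lit 234) (nat_lit 1064) (nat_lit 0) (XT.nd (nat_lit 78) (nat_lit 380) (nat_lit 0) (XT.lf (nat_lit 0) (nat_lit 2857932720) (nat_lit 380) (nat_lit 6952699311) (nat_lit 456) (nat_lit 580504915) (nat_lit 134) (nat_lit 5) (nat_lit 139) (nat_lit 5) (nat_lit 140) (nat_lit 5) (nat_lit 606) (nat_lit 495) (nat_lit 459)) (XT.nd (nat_lit 78) (nat_lit 0) (nat_lit 0) (XT.lf (nat_lit 0) (nat_lit 412601345) (nat_lit 304) (nat_lit 3014929235) (nat_lit 380) (nat_lit 7070332991) (nat_lit 129) (nat_lit 5) (nat_lit 133) (nat_lit 5) (nat_lit 134) (nat_lit 5) (nat_lit 607) (nat_lit 495) (nat_lit 458))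 (XT.lf (nat_lit 0) (nat_lit 7515808554) (nat_lit 380) (nat_lit 2076704692) (nat_lit 76) (nat_lit 1013981612) (nat_lit 129) (nat_lit 5) (nat_lit 134) (nat_lit 5) (nat_lit 130) (nat_lit 5) (nat_lit 608) (nat_lit 495) (nat_lit 457)))) (XT.nd (nat_lit 156) (nat_lit 380) (nat_lit 0) (XT.nd (nat_lit 78) (nat_lit 304) (nat_lit 0) (XT.lf (nat_lit 0) (nat_lit 966747550) (nat_lit 380) (nat_lit 4649915973) (nat_lit 76) (nat_lit 5100295351) (nat_lit 124) (nat_lit 5) (nat_lit 129) (nat_lit 5) (nat_lit 125) (nat_lit 5) (nat_lit 609) (nat_lit 495) (nat_lit 456)) (XT.lf (nat_lit 0) (nat_lit 3519748075) (nat_lit 304) (nat_lit 1532671955) (nat_lit 380) (nat_lit 5777037806) (nat_lit 120) (nat_lit 5) (nat_lit 124) (nat_lit 5) (nat_lit 125) (nat_lit 5) (nat_lit 610) (nat_lit 495) (nat_lit 455))) (XT.nd (nat_lit 78) (nat_lit 76) (nat_lit 0) (XT.lf (nat_lit 0) (nat_lit 888027481) (nat_lit 304) (nat_lit 8337855574) (nat_lit 380) (nat_lit 1718205842) (nat_lit 116) (nat_lit 5) (nat_lit 120) (nat_lit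 5) (nat_lit 121) (nat_lit 5) (nat_lit 611) (nat_lit 495) (nat_lit 454)) (XT.lf (nat_lit 0) (nat_lit 2401491990) (nat_lit 380) (nat_lit 1816122346) (nat_lit 76) (nat_lit 6842858257) (nat_lit 115) (nat_lit 5) (nat_lit 120) (nat_lit 5) (nat_lit 116) (nat_lit 5) (nat_lit 612) (nat_lit 495) (nat_lit 453))))))))
noncomputable def xc32 : XT := (XT.nd (nat_lit 1950) (nat_lit 1596) (nat_lit 0) (XT.nd (nat_lit 936) (nat_lit 2204) (nat_lit 0) (XT.nd (nat_lit 468) (nat_lit 1140) (nat_lit 0) (XT.nd (nat_lit 234) (nat_lit 608) (nat_lit 0) (XT.nd (nat_lit 78) (nat_lit 608) (nat_lit 0) (XT.lf (nat_lit 0) (nat_lit 6576295949) (nat_lit 380) (nat_lit 4592647639) (nat_lit 76) (nat_lit 10102300) (nat_lit 111) (nat_lit 5) (nat_lit 116) (nat_lit 5) (nat_lit 112) (nat_lit 5) (nat_lit 613) (nat_lit 495) (nat_lit 452)) (XT.nd (nat_lit 78) (nat_lit 304) (nat_lit 0) (XT.lf (nat_lit 0) (nat_lit 3826626492) (nat_lit 304) (nat_lit 7026112980) (nat_lit 380) (nat_lit 446891694) (nat_lit 107) (nat_lit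 5) (nat_lit 111) (nat_lit 5) (nat_lit 112) (nat_lit 5) (nat_lit 614) (nat_lit 495) (nat_lit 451)) (XT.lf (nat_lit 0) (nat_lit 964853503) (nat_lit 228) (nat_lit 2767992798) (nat_lit 304) (nat_lit 7689482759) (nat_lit 103) (nat_lit 5) (nat_lit 106) (nat_lit 5) (nat_lit 107) (nat_lit 5) (nat_lit 615) (nat_lit 495) (nat_lit 450)))) (XT.nd (nat_lit 78) (nat_lit 608) (nat_lit 0) (XT.lf (nat_lit 0) (nat_lit 8004336050) (nat_lit 304) (nat_lit 1964956779) (nat_lit 76) (nat_lit 1577849376) (nat_lit 103) (nat_lit 5) (nat_lit 107) (nat_lit 5) (nat_lit 104) (nat_lit 5) (nat_lit 616) (nat_lit 495) (nat_lit 449)) (XT.nd (nat_lit 78) (nat_lit 228) (nat_lit 0) (XT.lf (nat_lit 0) (nat_lit 694011843) (nat_lit 380) (nat_lit 4988070978) (nat_lit 76) (nat_lit 5991958366) (nat_lit 98) (nat_lit 5) (nat_lit 103) (nat_lit 5) (nat_lit 99) (nat_lit 5) (nat_lit 617) (nat_lit 495) (nat_lit 448)) (XT.lf (nat_lit 0) (nat_lit 3681764400) (nat_lit 228) (nat_lit 1278027431) (nat_lit 304) (nat_lit 6843387690)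 (nat_lit 95) (nat_lit 5) (nat_lit 98) (nat_lit 5) (nat_lit 99) (nat_lit 5) (nat_lit 618) (nat_lit 495) (nat_lit 447))))) (XT.nd (nat_lit 234) (nat_lit 532) (nat_lit 0) (XT.nd (nat_lit 78) (nat_lit 304) (nat_lit 0) (XT.lf (nat_lit 0) (nat_lit 568227692) (nat_lit 304) (nat_lit 8755555302) (nat_lit 380) (nat_lit 2610862661) (nat_lit 91) (nat_lit 5) (nat_lit 95) (nat_lit 5) (nat_lit 96) (nat_lit 5) (nat_lit 619) (nat_lit 495) (nat_lit 446)) (XT.nd (nat_lit 78) (nat_lit 228) (nat_lit 0) (XT.lf (nat_lit 0) (nat_lit 1701997015) (nat_lit 380) (nat_lit 2622418831) (nat_lit 76) (nat_lit 7743745275) (nat_lit 90) (nat_lit 5) (nat_lit 95) (nat_lit 5) (nat_lit 91) (nat_lit 5) (nat_lit 620) (nat_lit 495) (nat_lit 445)) (XT.lf (nat_lit 0) (nat_lit 6064083389) (nat_lit 304) (nat_lit 5919023626) (nat_lit 76) (nat_lit 220938924) (nat_lit 87) (nat_lit 5) (nat_lit 91) (nat_lit 5) (nat_lit 88) (nat_lit 5) (nat_lit 621) (nat_lit 495) (nat_lit 444)))) (XT.nd (nat_lit 78) (nat_lit 304) (nat_lit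 0) (XT.lf (nat_lit 0) (nat_lit 2999139613) (nat_lit 228) (nat_lit 7535910426) (nat_lit 304) (nat_lit 1807168365) (nat_lit 84) (nat_lit 5) (nat_lit 87) (nat_lit 5) (nat_lit 88) (nat_lit 5) (nat_lit 622) (nat_lit 495) (nat_lit 443)) (XT.nd (nat_lit 78) (nat_lit 228) (nat_lit 0) (XT.lf (nat_lit 0) (nat_lit 2573905211) (nat_lit 304) (nat_lit 399079793) (nat_lit 76) (nat_lit 9509915037) (nat_lit 83) (nat_lit 5) (nat_lit 87) (nat_lit 5) (nat_lit 84) (nat_lit 5) (nat_lit 623) (nat_lit 495) (nat_lit 442)) (XT.lf (nat_lit 0) (nat_lit 7043191042) (nat_lit 304) (nat_lit 3884351814) (nat_lit 76) (nat_lit 1698120339) (nat_lit 80) (nat_lit 5) (nat_lit 84) (nat_lit 5) (nat_lit 81) (nat_lit 5) (nat_lit 624) (nat_lit 495) (nat_lit 441)))))) (XT.nd (nat_lit 468) (nat_lit 1140) (nat_lit 0) (XT.nd (nat_lit 234) (nat_lit 532) (nat_lit 0) (XT.nd (nat_lit 78) (nat_lit 304) (nat_lit 0) (XT.lf (nat_lit 0) (nat_lit 5274063020) (nat_lit 228) (nat_lit 6341365112) (nat_lit 304) (nat_lit 1155584682)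 (nat_lit 77) (nat_lit 5) (nat_lit 80) (nat_lit 5) (nat_lit 81) (nat_lit 5) (nat_lit 625) (nat_lit 495) (nat_lit 440)) (XT.nd (nat_lit 78) (nat_lit 0) (nat_lit 0) (XT.lf (nat_lit 0) (nat_lit 1675358143) (nat_lit 228) (nat_lit 1634553367) (nat_lit 304) (nat_lit 9609041331) (nat_lit 73) (nat_lit 5) (nat_lit 76) (nat_lit 5) (nat_lit 77) (nat_lit 5) (nat_lit 626) (nat_lit 495) (nat_lit 439)) (XT.lf (nat_lit 0) (nat_lit 7877641019) (nat_lit 304) (nat_lit 2038998422) (nat_lit 76) (nat_lit 3152493897) (nat_lit 73) (nat_lit 5) (nat_lit 77) (nat_lit 5) (nat_lit 74) (nat_lit 5) (nat_lit 627) (nat_lit 495) (nat_lit 438)))) (XT.nd (nat_lit 78) (nat_lit 304) (nat_lit 0) (XT.lf (nat_lit 0) (nat_lit 7362539769) (nat_lit 228) (nat_lit 5190834483) (nat_lit 304) (nat_lit 668612532) (nat_lit 70) (nat_lit 5) (nat_lit 73) (nat_lit 5) (nat_lit 74) (nat_lit 5) (nat_lit 628) (nat_lit 495) (nat_lit 437)) (XT.nd (nat_lit 78) (nat_lit 0) (nat_lit 0) (XT.lf (nat_lit 0) (nat_lit 3550015166) (nat_lit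 228) (nat_lit 337893194) (nat_lit 304) (nat_lit 9489580552) (nat_lit 66) (nat_lit 5) (nat_lit 69) (nat_lit 5) (nat_lit 70) (nat_lit 5) (nat_lit 629) (nat_lit 495) (nat_lit 436)) (XT.lf (nat_lit 0) (nat_lit 8554387575) (nat_lit 304) (nat_lit 415973027) (nat_lit 76) (nat_lit 4565098668) (nat_lit 66) (nat_lit 5) (nat_lit 70) (nat_lit 5) (nat_lit 67) (nat_lit 5) (nat_lit 630) (nat_lit 495) (nat_lit 435))))) (XT.nd (nat_lit 234) (nat_lit 456) (nat_lit 0) (XT.nd (nat_lit 78) (nat_lit 456) (nat_lit 0) (XT.lf (nat_lit 0) (nat_lit 9230900483) (nat_lit 228) (nat_lit 4104532437) (nat_lit 304) (nat_lit 360733530) (nat_lit 63) (nat_lit 5) (nat_lit 66) (nat_lit 5) (nat_lit 67) (nat_lit 5) (nat_lit 631) (nat_lit 495) (nat_lit 434)) (XT.nd (nat_lit 78) (nat_lit 228) (nat_lit 0) (XT.lf (nat_lit 0) (nat_lit 4296341467) (nat_lit 228) (nat_lit 8681137090) (nat_lit 76) (nat_lit 882018009) (nat_lit 60) (nat_lit 5) (nat_lit 63) (nat_lit 5) (nat_lit 61) (nat_lit 5) (nat_lit 632) (nat_lit 495)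 (nat_lit 433)) (XT.lf (nat_lit 0) (nat_lit 960824213) (nat_lit 228) (nat_lit 8103765213) (nat_lit 304) (nat_lit 4961000958) (nat_lit 57) (nat_lit 5) (nat_lit 60) (nat_lit 5) (nat_lit 61) (nat_lit 5) (nat_lit 633) (nat_lit 495) (nat_lit 432)))) (XT.nd (nat_lit 156) (nat_lit 228) (nat_lit 0) (XT.nd (nat_lit 78) (nat_lit 228) (nat_lit 0) (XT.lf (nat_lit 0) (nat_lit 10841874140) (nat_lit 228) (nat_lit 3104191816) (nat_lit 304) (nat_lit 248584833) (nat_lit 57) (nat_lit 5) (nat_lit 60) (nat_lit 5) (nat_lit 61) (nat_lit 5) (nat_lit 634) (nat_lit 495) (nat_lit 431)) (XT.lf (nat_lit 0) (nat_lit 4514125101) (nat_lit 228) (nat_lit 7840621041) (nat_lit 76) (nat_lit 2011439776) (nat_lit 54) (nat_lit 5) (nat_lit 57) (nat_lit 5) (nat_lit 55) (nat_lit 5) (nat_lit 635) (nat_lit 495) (nat_lit 430))) (XT.nd (nat_lit 78) (nat_lit 0) (nat_lit 0) (XT.lf (nat_lit 0) (nat_lit 2039933611) (nat_lit 228) (nat_lit 7345544839) (nat_lit 304) (nat_lit 5155307949) (nat_lit 51) (nat_lit 5) (nat_lit 54)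 (nat_lit 5) (nat_lit 55) (nat_lit 5) (nat_lit 636) (nat_lit 495) (nat_lit 429)) (XT.lf (nat_lit 0) (nat_lit 12154159182) (nat_lit 228) (nat_lit 2213302174) (nat_lit 304) (nat_lit 351155317) (nat_lit 51) (nat_lit 5) (nat_lit 54) (nat_lit 5) (nat_lit 55) (nat_lit 5) (nat_lit 637) (nat_lit 495) (nat_lit 428))))))) (XT.nd (nat_lit 75816) (nat_lit 0) (nat_lit 17784) (XT.nd (nat_lit 468) (nat_lit 760) (nat_lit 0) (XT.nd (nat_lit 234) (nat_lit 380) (nat_lit 0) (XT.nd (nat_lit 78) (nat_lit 228) (nat_lit 0) (XT.lf (nat_lit 0) (nat_lit 4519619105) (nat_lit 228) (nat_lit 7348088614) (nat_lit 76) (nat_lit 3031102867) (nat_lit 48) (nat_lit 5) (nat_lit 51) (nat_lit 5) (nat_lit 49) (nat_lit 5) (nat_lit 638) (nat_lit 495) (nat_lit 427)) (XT.nd (nat_lit 78) (nat_lit 0) (nat_lit 0) (XT.lf (nat_lit 0) (nat_lit 2770456864) (nat_lit 228) (nat_lit 6723843998) (nat_lit 304) (nat_lit 5588038941) (nat_lit 45) (nat_lit 5) (nat_lit 48) (nat_lit 5) (nat_lit 49) (nat_lit 5) (nat_lit 639) (nat_lit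 495) (nat_lit 426)) (XT.lf (nat_lit 0) (nat_lit 13121951888) (nat_lit 228) (nat_lit 1457367432) (nat_lit 304) (nat_lit 690005117) (nat_lit 45) (nat_lit 5) (nat_lit 48) (nat_lit 5) (nat_lit 49) (nat_lit 5) (nat_lit 640) (nat_lit 495) (nat_lit 425)))) (XT.nd (nat_lit 78) (nat_lit 152) (nat_lit 0) (XT.lf (nat_lit 0) (nat_lit 4290759290) (nat_lit 228) (nat_lit 7252680656) (nat_lit 76) (nat_lit 3915226424) (nat_lit 42) (nat_lit 5) (nat_lit 45) (nat_lit 5) (nat_lit 43) (nat_lit 5) (nat_lit 641) (nat_lit 495) (nat_lit 424)) (XT.nd (nat_lit 78) (nat_lit 0) (nat_lit 0) (XT.lf (nat_lit 0) (nat_lit 3102090132) (nat_lit 152) (nat_lit 6266261784) (nat_lit 228) (nat_lit 6283224560) (nat_lit 40) (nat_lit 5) (nat_lit 42) (nat_lit 5) (nat_lit 43) (nat_lit 5) (nat_lit 642) (nat_lit 495) (nat_lit 423)) (XT.lf (nat_lit 0) (nat_lit 13694427310) (nat_lit 152) (nat_lit 864185926) (nat_lit 228) (nat_lit 1289510775) (nat_lit 40) (nat_lit 5) (nat_lit 42) (nat_lit 5) (nat_lit 43) (nat_lit 5) (nat_lit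 643) (nat_lit 495) (nat_lit 422))))) (XT.nd (nat_lit 234) (nat_lit 380) (nat_lit 0) (XT.nd (nat_lit 78) (nat_lit 152) (nat_lit 0) (XT.lf (nat_lit 0) (nat_lit 3802611295) (nat_lit 228) (nat_lit 7608866486) (nat_lit 76) (nat_lit 4635663743) (nat_lit 37) (nat_lit 5) (nat_lit 40) (nat_lit 5) (nat_lit 38) (nat_lit 5) (nat_lit 644) (nat_lit 495) (nat_lit 421)) (XT.nd (nat_lit 78) (nat_lit 0) (nat_lit 0) (XT.lf (nat_lit 0) (nat_lit 2979034403) (nat_lit 152) (nat_lit 6002943684) (nat_lit 228) (nat_lit 7267938925) (nat_lit 35) (nat_lit 5) (nat_lit 37) (nat_lit 5) (nat_lit 38) (nat_lit 5) (nat_lit 645) (nat_lit 495) (nat_lit 420)) (XT.lf (nat_lit 0) (nat_lit 13815167628) (nat_lit 152) (nat_lit 464155546) (nat_lit 228) (nat_lit 2177138461) (nat_lit 35) (nat_lit 5) (nat_lit 37) (nat_lit 5) (nat_lit 38) (nat_lit 5) (nat_lit 646) (nat_lit 495) (nat_lit 419)))) (XT.nd (nat_lit 78) (nat_lit 152) (nat_lit 0) (XT.lf (nat_lit 0) (nat_lit 3027089515) (nat_lit 228) (nat_lit 8477043610) (nat_lit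 76) (nat_lit 5161590644) (nat_lit 32) (nat_lit 5) (nat_lit 35) (nat_lit 5) (nat_lit 33) (nat_lit 5) (nat_lit 647) (nat_lit 495) (nat_lit 418)) (XT.nd (nat_lit 74958) (nat_lit 0) (nat_lit 25080) (XT.lf (nat_lit 0) (nat_lit 2339376803) (nat_lit 152) (nat_lit 5966909468) (nat_lit 228) (nat_lit 8572597696) (nat_lit 30) (nat_lit 5) (nat_lit 32) (nat_lit 5) (nat_lit 33) (nat_lit 5) (nat_lit 648) (nat_lit 495) (nat_lit 417)) (XT.lf (nat_lit 0) (nat_lit 1073158175) (nat_lit 836) (nat_lit 1353271772) (nat_lit 836) (nat_lit 1353271772) (nat_lit 360) (nat_lit 4) (nat_lit 371) (nat_lit 5) (nat_lit 371) (nat_lit 4) (nat_lit 568) (nat_lit 496) (nat_lit 496)))))) (XT.nd (nat_lit 468) (nat_lit 3420) (nat_lit 0) (XT.nd (nat_lit 234) (nat_lit 2204) (nat_lit 0) (XT.nd (nat_lit 78) (nat_lit 836) (nat_lit 0) (XT.lf (nat_lit 0) (nat_lit 523615214) (nat_lit 760) (nat_lit 446976084) (nat_lit 836) (nat_lit 6636848333) (nat_lit 349) (nat_lit 5) (nat_lit 359) (nat_lit 5) (nat_lit 360) (nat_lit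 4) (nat_lit 569) (nat_lit 496) (nat_lit 495)) (XT.nd (nat_lit 78) (nat_lit 836) (nat_lit 0) (XT.lf (nat_lit 0) (nat_lit 4666152364) (nat_lit 836) (nat_lit 1114145561) (nat_lit 0) (nat_lit 1876169663) (nat_lit 349) (nat_lit 5) (nat_lit 360) (nat_lit 4) (nat_lit 349) (nat_lit 4) (nat_lit 570) (nat_lit 496) (nat_lit 494)) (XT.lf (nat_lit 0) (nat_lit 688306610) (nat_lit 836) (nat_lit 2753700952) (nat_lit 76) (nat_lit 4265010331) (nat_lit 338) (nat_lit 5) (nat_lit 349) (nat_lit 5) (nat_lit 339) (nat_lit 4) (nat_lit 571) (nat_lit 496) (nat_lit 493)))) (XT.nd (nat_lit 78) (nat_lit 1520) (nat_lit 0) (XT.lf (nat_lit 0) (nat_lit 3343376541) (nat_lit 684) (nat_lit 1020486585) (nat_lit 760) (nat_lit 3395063383) (nat_lit 329) (nat_lit 5) (nat_lit 338) (nat_lit 5) (nat_lit 339) (nat_lit 4) (nat_lit 572) (nat_lit 496) (nat_lit 492)) (XT.nd (nat_lit 78) (nat_lit 684) (nat_lit 0) (XT.lf (nat_lit 0) (nat_lit 270934719) (nat_lit 836) (nat_lit 6093048452) (nat_lit 76) (nat_lit 1448384781)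 (nat_lit 318) (nat_lit 5) (nat_lit 329) (nat_lit 5) (nat_lit 319) (nat_lit 4) (nat_lit 573) (nat_lit 496) (nat_lit 491)) (XT.lf (nat_lit 0) (nat_lit 61355108) (nat_lit 684) (nat_lit 3875609530) (nat_lit 760) (nat_lit 3930031384) (nat_lit 309) (nat_lit 5) (nat_lit 318) (nat_lit 5) (nat_lit 319) (nat_lit 4) (nat_lit 574) (nat_lit 496) (nat_lit 490))))) (XT.nd (nat_lit 234) (nat_lit 2052) (nat_lit 0) (XT.nd (nat_lit 78) (nat_lit 1368) (nat_lit 0) (XT.lf (nat_lit 0) (nat_lit 6341503018) (nat_lit 684) (nat_lit 1311598169) (nat_lit 760) (nat_lit 270089610) (nat_lit 309) (nat_lit 5) (nat_lit 318) (nat_lit 5) (nat_lit 319) (nat_lit 4) (nat_lit 575) (nat_lit 496) (nat_lit 489)) (XT.nd (nat_lit 78) (nat_lit 608) (nat_lit 0) (XT.lf (nat_lit 0) (nat_lit 3393766191) (nat_lit 760) (nat_lit 3262397492) (nat_lit 76) (nat_lit 1324382902) (nat_lit 299) (nat_lit 5) (nat_lit 309) (nat_lit 5) (nat_lit 300) (nat_lit 4) (nat_lit 576) (nat_lit 496) (nat_lit 488)) (XT.lf (nat_lit 0) (nat_lit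 3076536426) (nat_lit 608) (nat_lit 4027449162) (nat_lit 684) (nat_lit 935503428) (nat_lit 291) (nat_lit 5) (nat_lit 299) (nat_lit 5) (nat_lit 300) (nat_lit 4) (nat_lit 577) (nat_lit 496) (nat_lit 487)))) (XT.nd (nat_lit 156) (nat_lit 1292) (nat_lit 0) (XT.nd (nat_lit 78) (nat_lit 0) (nat_lit 0) (XT.lf (nat_lit 0) (nat_lit 1407339273) (nat_lit 684) (nat_lit 1313707478) (nat_lit 760) (nat_lit 5378833880) (nat_lit 281) (nat_lit 5) (nat_lit 290) (nat_lit 5) (nat_lit 291) (nat_lit 5) (nat_lit 578) (nat_lit 496) (nat_lit 486)) (XT.lf (nat_lit 0) (nat_lit 6419417378) (nat_lit 760) (nat_lit 285124375) (nat_lit 76) (nat_lit 1457199092) (nat_lit 281) (nat_lit 5) (nat_lit 291) (nat_lit 5) (nat_lit 282) (nat_lit 4) (nat_lit 579) (nat_lit 496) (nat_lit 485))) (XT.nd (nat_lit 78) (nat_lit 608) (nat_lit 0) (XT.lf (nat_lit 0) (nat_lit 1929728770) (nat_lit 684) (nat_lit 1993310122) (nat_lit 76) (nat_lit 4301780218) (nat_lit 272) (nat_lit 5) (nat_lit 281) (nat_lit 5) (nat_lit 273) (nat_lit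 5) (nat_lit 580) (nat_lit 496) (nat_lit 484)) (XT.lf (nat_lit 0) (nat_lit 4562031881) (nat_lit 608) (nat_lit 1061148004) (nat_lit 684) (nat_lit 2666331222) (nat_lit 264) (nat_lit 5) (nat_lit 272) (nat_lit 5) (nat_lit 273) (nat_lit 5) (nat_lit 581) (nat_lit 496) (nat_lit 483))))))))
noncomputable def xc33 : XT := (XT.nd (nat_lit 1950) (nat_lit 5396) (nat_lit 0) (XT.nd (nat_lit 936) (nat_lit 4332) (nat_lit 0) (XT.nd (nat_lit 468) (nat_lit 2584) (nat_lit 0) (XT.nd (nat_lit 234) (nat_lit 1748) (nat_lit 0) (XT.nd (nat_lit 78) (nat_lit 608) (nat_lit 0) (XT.lf (nat_lit 0) (nat_lit 1005715275) (nat_lit 608) (nat_lit 5496750345) (nat_lit 76) (nat_lit 1853219130) (nat_lit 256) (nat_lit 5) (nat_lit 264) (nat_lit 5) (nat_lit 257) (nat_lit 5) (nat_lit 582) (nat_lit 496) (nat_lit 482)) (XT.nd (nat_lit 78) (nat_lit 0) (nat_lit 0) (XT.lf (nat_lit 0) (nat_lit 1114394437) (nat_lit 608) (nat_lit 3581101255) (nat_lit 684) (nat_lit 3727741558) (nat_lit 248) (nat_lit 5) (nat_lit 256) (nat_lit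 5) (nat_lit 257) (nat_lit 5) (nat_lit 583) (nat_lit 496) (nat_lit 481)) (XT.lf (nat_lit 0) (nat_lit 7852508472) (nat_lit 608) (nat_lit 584617665) (nat_lit 684) (nat_lit 55461199) (nat_lit 248) (nat_lit 5) (nat_lit 256) (nat_lit 5) (nat_lit 257) (nat_lit 5) (nat_lit 584) (nat_lit 496) (nat_lit 480)))) (XT.nd (nat_lit 78) (nat_lit 1140) (nat_lit 0) (XT.lf (nat_lit 0) (nat_lit 3639996902) (nat_lit 608) (nat_lit 2439907392) (nat_lit 76) (nat_lit 2482985654) (nat_lit 240) (nat_lit 5) (nat_lit 248) (nat_lit 5) (nat_lit 241) (nat_lit 5) (nat_lit 585) (nat_lit 496) (nat_lit 479)) (XT.nd (nat_lit 78) (nat_lit 608) (nat_lit 0) (XT.lf (nat_lit 0) (nat_lit 4369023651) (nat_lit 532) (nat_lit 3018585767) (nat_lit 608) (nat_lit 1247409289) (nat_lit 233) (nat_lit 5) (nat_lit 240) (nat_lit 5) (nat_lit 241) (nat_lit 5) (nat_lit 586) (nat_lit 496) (nat_lit 478)) (XT.lf (nat_lit 0) (nat_lit 2445500829) (nat_lit 608) (nat_lit 6132949069) (nat_lit 76) (nat_lit 130287701) (nat_lit 225) (nat_lit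 5) (nat_lit 233) (nat_lit 5) (nat_lit 226) (nat_lit 5) (nat_lit 587) (nat_lit 496) (nat_lit 477))))) (XT.nd (nat_lit 234) (nat_lit 1520) (nat_lit 0) (XT.nd (nat_lit 78) (nat_lit 532) (nat_lit 0) (XT.lf (nat_lit 0) (nat_lit 729810986) (nat_lit 532) (nat_lit 5462438303) (nat_lit 608) (nat_lit 2591589785) (nat_lit 218) (nat_lit 5) (nat_lit 225) (nat_lit 5) (nat_lit 226) (nat_lit 5) (nat_lit 588) (nat_lit 496) (nat_lit 476)) (XT.nd (nat_lit 78) (nat_lit 456) (nat_lit 0) (XT.lf (nat_lit 0) (nat_lit 1123130144) (nat_lit 608) (nat_lit 1134848705) (nat_lit 76) (nat_lit 6602625087) (nat_lit 217) (nat_lit 5) (nat_lit 225) (nat_lit 5) (nat_lit 218) (nat_lit 5) (nat_lit 589) (nat_lit 496) (nat_lit 475)) (XT.lf (nat_lit 0) (nat_lit 4867037948) (nat_lit 532) (nat_lit 3041554267) (nat_lit 76) (nat_lit 1030183756) (nat_lit 211) (nat_lit 5) (nat_lit 218) (nat_lit 5) (nat_lit 212) (nat_lit 5) (nat_lit 590) (nat_lit 496) (nat_lit 474)))) (XT.nd (nat_lit 78) (nat_lit 988) (nat_lit 0) (XT.lf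 (nat_lit 0) (nat_lit 4025462687) (nat_lit 532) (nat_lit 4653996818) (nat_lit 608) (nat_lit 339185484) (nat_lit 204) (nat_lit 5) (nat_lit 211) (nat_lit 5) (nat_lit 212) (nat_lit 5) (nat_lit 591) (nat_lit 496) (nat_lit 473)) (XT.nd (nat_lit 78) (nat_lit 456) (nat_lit 0) (XT.lf (nat_lit 0) (nat_lit 2100745863) (nat_lit 456) (nat_lit 1301055930) (nat_lit 532) (nat_lit 5698279926) (nat_lit 197) (nat_lit 5) (nat_lit 203) (nat_lit 5) (nat_lit 204) (nat_lit 5) (nat_lit 592) (nat_lit 496) (nat_lit 472)) (XT.lf (nat_lit 0) (nat_lit 127293276) (nat_lit 456) (nat_lit 7079577447) (nat_lit 532) (nat_lit 1976361442) (nat_lit 191) (nat_lit 5) (nat_lit 197) (nat_lit 5) (nat_lit 198) (nat_lit 5) (nat_lit 593) (nat_lit 496) (nat_lit 471)))))) (XT.nd (nat_lit 468) (nat_lit 2356) (nat_lit 0) (XT.nd (nat_lit 234) (nat_lit 912) (nat_lit 0) (XT.nd (nat_lit 78) (nat_lit 988) (nat_lit 0) (XT.lf (nat_lit 0) (nat_lit 1797699326) (nat_lit 532) (nat_lit 1876629104) (nat_lit 76) (nat_lit 5593455054)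 (nat_lit 190) (nat_lit 5) (nat_lit 197) (nat_lit 5) (nat_lit 191) (nat_lit 5) (nat_lit 594) (nat_lit 496) (nat_lit 470)) (XT.nd (nat_lit 78) (nat_lit 532) (nat_lit 0) (XT.lf (nat_lit 0) (nat_lit 5425797761) (nat_lit 456) (nat_lit 176974778) (nat_lit 532) (nat_lit 3751357674) (nat_lit 184) (nat_lit 5) (nat_lit 190) (nat_lit 5) (nat_lit 191) (nat_lit 5) (nat_lit 595) (nat_lit 496) (nat_lit 469)) (XT.lf (nat_lit 0) (nat_lit 45104388) (nat_lit 532) (nat_lit 6041075018) (nat_lit 76) (nat_lit 3355946218) (nat_lit 177) (nat_lit 5) (nat_lit 184) (nat_lit 5) (nat_lit 178) (nat_lit 5) (nat_lit 596) (nat_lit 496) (nat_lit 468)))) (XT.nd (nat_lit 78) (nat_lit 532) (nat_lit 0) (XT.lf (nat_lit 0) (nat_lit 1310812422) (nat_lit 380) (nat_lit 2540009395) (nat_lit 456) (nat_lit 5680897296) (nat_lit 172) (nat_lit 5) (nat_lit 177) (nat_lit 5) (nat_lit 178) (nat_lit 5) (nat_lit 597) (nat_lit 496) (nat_lit 467)) (XT.nd (nat_lit 78) (nat_lit 532) (nat_lit 0) (XT.lf (nat_lit 0) (nat_lit 7728097274)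 (nat_lit 456) (nat_lit 817392606) (nat_lit 76) (nat_lit 1077710848) (nat_lit 172) (nat_lit 5) (nat_lit 178) (nat_lit 5) (nat_lit 173) (nat_lit 5) (nat_lit 598) (nat_lit 496) (nat_lit 466)) (XT.lf (nat_lit 0) (nat_lit 1949844090) (nat_lit 532) (nat_lit 3001461155) (nat_lit 76) (nat_lit 4764771767) (nat_lit 165) (nat_lit 5) (nat_lit 172) (nat_lit 5) (nat_lit 166) (nat_lit 5) (nat_lit 599) (nat_lit 496) (nat_lit 465))))) (XT.nd (nat_lit 234) (nat_lit 1140) (nat_lit 0) (XT.nd (nat_lit 78) (nat_lit 836) (nat_lit 0) (XT.lf (nat_lit 0) (nat_lit 4566874584) (nat_lit 380) (nat_lit 1263469325) (nat_lit 456) (nat_lit 3980540639) (nat_lit 160) (nat_lit 5) (nat_lit 165) (nat_lit 5) (nat_lit 166) (nat_lit 5) (nat_lit 600) (nat_lit 496) (nat_lit 464)) (XT.nd (nat_lit 78) (nat_lit 456) (nat_lit 0) (XT.lf (nat_lit 0) (nat_lit 2356219341) (nat_lit 380) (nat_lit 7433184234) (nat_lit 456) (nat_lit 118170404) (nat_lit 155) (nat_lit 5) (nat_lit 160) (nat_lit 5) (nat_lit 161) (nat_lit 5) (nat_lit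 601) (nat_lit 496) (nat_lit 463)) (XT.lf (nat_lit 0) (nat_lit 62887163) (nat_lit 380) (nat_lit 3701950483) (nat_lit 456) (nat_lit 6240997693) (nat_lit 149) (nat_lit 5) (nat_lit 154) (nat_lit 5) (nat_lit 155) (nat_lit 5) (nat_lit 602) (nat_lit 496) (nat_lit 462)))) (XT.nd (nat_lit 156) (nat_lit 684) (nat_lit 0) (XT.nd (nat_lit 78) (nat_lit 456) (nat_lit 0) (XT.lf (nat_lit 0) (nat_lit 7725225760) (nat_lit 456) (nat_lit 2253947269) (nat_lit 76) (nat_lit 126851700) (nat_lit 149) (nat_lit 5) (nat_lit 155) (nat_lit 5) (nat_lit 150) (nat_lit 5) (nat_lit 603) (nat_lit 496) (nat_lit 461)) (XT.lf (nat_lit 0) (nat_lit 1547478209) (nat_lit 456) (nat_lit 4658275845) (nat_lit 76) (nat_lit 4002040222) (nat_lit 143) (nat_lit 5) (nat_lit 149) (nat_lit 5) (nat_lit 144) (nat_lit 5) (nat_lit 604) (nat_lit 496) (nat_lit 460))) (XT.nd (nat_lit 78) (nat_lit 380) (nat_lit 0) (XT.lf (nat_lit 0) (nat_lit 3176620771) (nat_lit 304) (nat_lit 2332447454) (nat_lit 380) (nat_lit 4802487935) (nat_lit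 139) (nat_lit 5) (nat_lit 143) (nat_lit 5) (nat_lit 144) (nat_lit 5) (nat_lit 605) (nat_lit 496) (nat_lit 459)) (XT.lf (nat_lit 0) (nat_lit 735755863) (nat_lit 380) (nat_lit 8811914244) (nat_lit 456) (nat_lit 869771699) (nat_lit 134) (nat_lit 5) (nat_lit 139) (nat_lit 5) (nat_lit 140) (nat_lit 5) (nat_lit 606) (nat_lit 496) (nat_lit 458))))))) (XT.nd (nat_lit 936) (nat_lit 2432) (nat_lit 0) (XT.nd (nat_lit 468) (nat_lit 1520) (nat_lit 0) (XT.nd (nat_lit 234) (nat_lit 684) (nat_lit 0) (XT.nd (nat_lit 78) (nat_lit 684) (nat_lit 0) (XT.lf (nat_lit 0) (nat_lit 3115201788) (nat_lit 456) (nat_lit 1777983982) (nat_lit 76) (nat_lit 5631559302) (nat_lit 133) (nat_lit 5) (nat_lit 139) (nat_lit 5) (nat_lit 134) (nat_lit 5) (nat_lit 607) (nat_lit 496) (nat_lit 457)) (XT.nd (nat_lit 78) (nat_lit 380) (nat_lit 0) (XT.lf (nat_lit 0) (nat_lit 6284064087) (nat_lit 304) (nat_lit 877095847) (nat_lit 380) (nat_lit 3473064747) (nat_lit 129) (nat_lit 5) (nat_lit 133) (nat_lit 5) (nat_lit 134)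 (nat_lit 5) (nat_lit 608) (nat_lit 496) (nat_lit 456)) (XT.lf (nat_lit 0) (nat_lit 544650680) (nat_lit 380) (nat_lit 7012107729) (nat_lit 76) (nat_lit 3188876459) (nat_lit 124) (nat_lit 5) (nat_lit 129) (nat_lit 5) (nat_lit 125) (nat_lit 5) (nat_lit 609) (nat_lit 496) (nat_lit 455)))) (XT.nd (nat_lit 78) (nat_lit 380) (nat_lit 0) (XT.lf (nat_lit 0) (nat_lit 1087648846) (nat_lit 304) (nat_lit 3503371059) (nat_lit 380) (nat_lit 6267901804) (nat_lit 120) (nat_lit 5) (nat_lit 124) (nat_lit 5) (nat_lit 125) (nat_lit 5) (nat_lit 610) (nat_lit 496) (nat_lit 454)) (XT.nd (nat_lit 78) (nat_lit 380) (nat_lit 0) (XT.lf (nat_lit 0) (nat_lit 8722531687) (nat_lit 380) (nat_lit 1610520966) (nat_lit 76) (nat_lit 641340921) (nat_lit 120) (nat_lit 5) (nat_lit 125) (nat_lit 5) (nat_lit 121) (nat_lit 5) (nat_lit 611) (nat_lit 496) (nat_lit 453)) (XT.lf (nat_lit 0) (nat_lit 1840836204) (nat_lit 380) (nat_lit 4401250045) (nat_lit 76) (nat_lit 4849442002) (nat_lit 115) (nat_lit 5) (nat_lit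 120) (nat_lit 5) (nat_lit 116) (nat_lit 5) (nat_lit 612) (nat_lit 496) (nat_lit 452))))) (XT.nd (nat_lit 234) (nat_lit 836) (nat_lit 0) (XT.nd (nat_lit 78) (nat_lit 380) (nat_lit 0) (XT.lf (nat_lit 0) (nat_lit 3929039932) (nat_lit 304) (nat_lit 2046404471) (nat_lit 380) (nat_lit 5235462734) (nat_lit 111) (nat_lit 5) (nat_lit 115) (nat_lit 5) (nat_lit 116) (nat_lit 5) (nat_lit 613) (nat_lit 496) (nat_lit 451)) (XT.nd (nat_lit 78) (nat_lit 76) (nat_lit 0) (XT.lf (nat_lit 0) (nat_lit 1077072541) (nat_lit 304) (nat_lit 9120913990) (nat_lit 380) (nat_lit 1134585554) (nat_lit 107) (nat_lit 5) (nat_lit 111) (nat_lit 5) (nat_lit 112) (nat_lit 5) (nat_lit 614) (nat_lit 496) (nat_lit 450)) (XT.lf (nat_lit 0) (nat_lit 3025197433) (nat_lit 380) (nat_lit 1863447007) (nat_lit 76) (nat_lit 6567295903) (nat_lit 106) (nat_lit 5) (nat_lit 111) (nat_lit 5) (nat_lit 107) (nat_lit 5) (nat_lit 615) (nat_lit 496) (nat_lit 449)))) (XT.nd (nat_lit 78) (nat_lit 608) (nat_lit 0) (XT.lf (nat_lit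 0) (nat_lit 6702339982) (nat_lit 228) (nat_lit 549199989) (nat_lit 304) (nat_lit 4330118010) (nat_lit 103) (nat_lit 5) (nat_lit 106) (nat_lit 5) (nat_lit 107) (nat_lit 5) (nat_lit 616) (nat_lit 496) (nat_lit 448)) (XT.nd (nat_lit 78) (nat_lit 304) (nat_lit 0) (XT.lf (nat_lit 0) (nat_lit 3703673091) (nat_lit 304) (nat_lit 7875778786) (nat_lit 380) (nat_lit 130100311) (nat_lit 99) (nat_lit 5) (nat_lit 103) (nat_lit 5) (nat_lit 104) (nat_lit 5) (nat_lit 617) (nat_lit 496) (nat_lit 447)) (XT.lf (nat_lit 0) (nat_lit 587178528) (nat_lit 228) (nat_lit 3508003987) (nat_lit 304) (nat_lit 7744370428) (nat_lit 95) (nat_lit 5) (nat_lit 98) (nat_lit 5) (nat_lit 99) (nat_lit 5) (nat_lit 618) (nat_lit 496) (nat_lit 446)))))) (XT.nd (nat_lit 468) (nat_lit 1292) (nat_lit 0) (XT.nd (nat_lit 234) (nat_lit 532) (nat_lit 0) (XT.nd (nat_lit 78) (nat_lit 608) (nat_lit 0) (XT.lf (nat_lit 0) (nat_lit 8418992624) (nat_lit 304) (nat_lit 2592841441) (nat_lit 76) (nat_lit 959990065) (nat_lit 95)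 (nat_lit 5) (nat_lit 99) (nat_lit 5) (nat_lit 96) (nat_lit 5) (nat_lit 619) (nat_lit 496) (nat_lit 445)) (XT.nd (nat_lit 78) (nat_lit 228) (nat_lit 0) (XT.lf (nat_lit 0) (nat_lit 733244080) (nat_lit 380) (nat_lit 5886421155) (nat_lit 76) (nat_lit 5486580817) (nat_lit 90) (nat_lit 5) (nat_lit 95) (nat_lit 5) (nat_lit 91) (nat_lit 5) (nat_lit 620) (nat_lit 496) (nat_lit 444)) (XT.lf (nat_lit 0) (nat_lit 2942185463) (nat_lit 228) (nat_lit 2108441587) (nat_lit 304) (nat_lit 7192399236) (nat_lit 87) (nat_lit 5) (nat_lit 90) (nat_lit 5) (nat_lit 91) (nat_lit 5) (nat_lit 621) (nat_lit 496) (nat_lit 443)))) (XT.nd (nat_lit 78) (nat_lit 532) (nat_lit 0) (XT.lf (nat_lit 0) (nat_lit 9466986195) (nat_lit 304) (nat_lit 444870169) (nat_lit 76) (nat_lit 2470435858) (nat_lit 87) (nat_lit 5) (nat_lit 91) (nat_lit 5) (nat_lit 88) (nat_lit 5) (nat_lit 622) (nat_lit 496) (nat_lit 442)) (XT.nd (nat_lit 78) (nat_lit 228) (nat_lit 0) (XT.lf (nat_lit 0) (nat_lit 1455951806) (nat_lit 304) (nat_lit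 3918512863) (nat_lit 76) (nat_lit 7149141339) (nat_lit 83) (nat_lit 5) (nat_lit 87) (nat_lit 5) (nat_lit 84) (nat_lit 5) (nat_lit 623) (nat_lit 496) (nat_lit 441)) (XT.lf (nat_lit 0) (nat_lit 5150149932) (nat_lit 228) (nat_lit 719542332) (nat_lit 304) (nat_lit 6797789050) (nat_lit 80) (nat_lit 5) (nat_lit 83) (nat_lit 5) (nat_lit 84) (nat_lit 5) (nat_lit 624) (nat_lit 496) (nat_lit 440))))) (XT.nd (nat_lit 234) (nat_lit 760) (nat_lit 0) (XT.nd (nat_lit 78) (nat_lit 304) (nat_lit 0) (XT.lf (nat_lit 0) (nat_lit 1561098582) (nat_lit 228) (nat_lit 8831152375) (nat_lit 304) (nat_lit 2421574766) (nat_lit 77) (nat_lit 5) (nat_lit 80) (nat_lit 5) (nat_lit 81) (nat_lit 5) (nat_lit 625) (nat_lit 496) (nat_lit 439)) (XT.nd (nat_lit 78) (nat_lit 228) (nat_lit 0) (XT.lf (nat_lit 0) (nat_lit 2028787397) (nat_lit 304) (nat_lit 2130174409) (nat_lit 76) (nat_lit 8803604263) (nat_lit 76) (nat_lit 5) (nat_lit 80) (nat_lit 5) (nat_lit 77) (nat_lit 5) (nat_lit 626) (nat_lit 496) (nat_lit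 438)) (XT.lf (nat_lit 0) (nat_lit 6545238363) (nat_lit 304) (nat_lit 5936332713) (nat_lit 76) (nat_lit 632202211) (nat_lit 73) (nat_lit 5) (nat_lit 77) (nat_lit 5) (nat_lit 74) (nat_lit 5) (nat_lit 627) (nat_lit 496) (nat_lit 437)))) (XT.nd (nat_lit 156) (nat_lit 456) (nat_lit 0) (XT.nd (nat_lit 78) (nat_lit 76) (nat_lit 0) (XT.lf (nat_lit 0) (nat_lit 3377567069) (nat_lit 228) (nat_lit 7797157625) (nat_lit 304) (nat_lit 2092828106) (nat_lit 70) (nat_lit 5) (nat_lit 73) (nat_lit 5) (nat_lit 74) (nat_lit 5) (nat_lit 628) (nat_lit 496) (nat_lit 436)) (XT.lf (nat_lit 0) (nat_lit 2438985198) (nat_lit 304) (nat_lit 553249087) (nat_lit 76) (nat_lit 10431874394) (nat_lit 69) (nat_lit 5) (nat_lit 73) (nat_lit 5) (nat_lit 70) (nat_lit 5) (nat_lit 629) (nat_lit 496) (nat_lit 435))) (XT.nd (nat_lit 78) (nat_lit 228) (nat_lit 0) (XT.lf (nat_lit 0) (nat_lit 7064302271) (nat_lit 304) (nat_lit 4591511733) (nat_lit 76) (nat_lit 1927089339) (nat_lit 66) (nat_lit 5) (nat_lit 70) (nat_lit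 5) (nat_lit 67) (nat_lit 5) (nat_lit 630) (nat_lit 496) (nat_lit 434)) (XT.lf (nat_lit 0) (nat_lit 4964617188) (nat_lit 228) (nat_lit 6833163732) (nat_lit 304) (nat_lit 1946781979) (nat_lit 63) (nat_lit 5) (nat_lit 66) (nat_lit 5) (nat_lit 67) (nat_lit 5) (nat_lit 631) (nat_lit 496) (nat_lit 433))))))))
noncomputable def xc34 : XT := (XT.nd (nat_lit 76752) (nat_lit 0) (nat_lit 10108) (XT.nd (nat_lit 936) (nat_lit 608) (nat_lit 0) (XT.nd (nat_lit 468) (nat_lit 836) (nat_lit 0) (XT.nd (nat_lit 234) (nat_lit 456) (nat_lit 0) (XT.nd (nat_lit 78) (nat_lit 228) (nat_lit 0) (XT.lf (nat_lit 0) (nat_lit 787403206) (nat_lit 152) (nat_lit 1889507452) (nat_lit 228) (nat_lit 11232272986) (nat_lit 60) (nat_lit 5) (nat_lit 62) (nat_lit 5) (nat_lit 63) (nat_lit 5) (nat_lit 632) (nat_lit 496) (nat_lit 432)) (XT.nd (nat_lit 78) (nat_lit 228) (nat_lit 0) (XT.lf (nat_lit 0) (nat_lit 7406886213) (nat_lit 228) (nat_lit 3515048096) (nat_lit 76) (nat_lit 3154109582) (nat_lit 60) (nat_lit 5)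 (nat_lit 63) (nat_lit 5) (nat_lit 61) (nat_lit 5) (nat_lit 633) (nat_lit 496) (nat_lit 431)) (XT.lf (nat_lit 0) (nat_lit 6284622751) (nat_lit 228) (nat_lit 5961011012) (nat_lit 304) (nat_lit 2000326076) (nat_lit 57) (nat_lit 5) (nat_lit 60) (nat_lit 5) (nat_lit 61) (nat_lit 5) (nat_lit 634) (nat_lit 496) (nat_lit 430)))) (XT.nd (nat_lit 78) (nat_lit 228) (nat_lit 0) (XT.lf (nat_lit 0) (nat_lit 1846082183) (nat_lit 152) (nat_lit 876225489) (nat_lit 228) (nat_lit 11696676703) (nat_lit 54) (nat_lit 5) (nat_lit 56) (nat_lit 5) (nat_lit 57) (nat_lit 5) (nat_lit 635) (nat_lit 496) (nat_lit 429)) (XT.nd (nat_lit 78) (nat_lit 228) (nat_lit 0) (XT.lf (nat_lit 0) (nat_lit 7555442096) (nat_lit 228) (nat_lit 2747719966) (nat_lit 76) (nat_lit 4291188078) (nat_lit 54) (nat_lit 5) (nat_lit 57) (nat_lit 5) (nat_lit 55) (nat_lit 5) (nat_lit 636) (nat_lit 496) (nat_lit 428)) (XT.lf (nat_lit 0) (nat_lit 7295908190) (nat_lit 228) (nat_lit 5204311283) (nat_lit 304) (nat_lit 2272705942) (nat_lit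 51) (nat_lit 5) (nat_lit 54) (nat_lit 5) (nat_lit 55) (nat_lit 5) (nat_lit 637) (nat_lit 496) (nat_lit 427))))) (XT.nd (nat_lit 234) (nat_lit 380) (nat_lit 0) (XT.nd (nat_lit 78) (nat_lit 228) (nat_lit 0) (XT.lf (nat_lit 0) (nat_lit 2552119473) (nat_lit 228) (nat_lit 12383177085) (nat_lit 76) (nat_lit 19496153) (nat_lit 48) (nat_lit 5) (nat_lit 51) (nat_lit 5) (nat_lit 49) (nat_lit 5) (nat_lit 638) (nat_lit 496) (nat_lit 426)) (XT.nd (nat_lit 78) (nat_lit 228) (nat_lit 0) (XT.lf (nat_lit 0) (nat_lit 7489992642) (nat_lit 228) (nat_lit 2334690083) (nat_lit 76) (nat_lit 5314376214) (nat_lit 48) (nat_lit 5) (nat_lit 51) (nat_lit 5) (nat_lit 49) (nat_lit 5) (nat_lit 639) (nat_lit 496) (nat_lit 425)) (XT.lf (nat_lit 0) (nat_lit 7952276565) (nat_lit 228) (nat_lit 4588705309) (nat_lit 304) (nat_lit 2785743105) (nat_lit 45) (nat_lit 5) (nat_lit 48) (nat_lit 5) (nat_lit 49) (nat_lit 5) (nat_lit 640) (nat_lit 496) (nat_lit 424)))) (XT.nd (nat_lit 78) (nat_lit 152) (nat_lit 0) (XT.lf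 (nat_lit 0) (nat_lit 2148820443) (nat_lit 228) (nat_lit 12606951619) (nat_lit 76) (nat_lit 762041514) (nat_lit 42) (nat_lit 5) (nat_lit 45) (nat_lit 5) (nat_lit 43) (nat_lit 5) (nat_lit 641) (nat_lit 496) (nat_lit 423)) (XT.nd (nat_lit 78) (nat_lit 152) (nat_lit 0) (XT.lf (nat_lit 0) (nat_lit 7187899968) (nat_lit 228) (nat_lit 2326009495) (nat_lit 76) (nat_lit 6197585255) (nat_lit 42) (nat_lit 5) (nat_lit 45) (nat_lit 5) (nat_lit 43) (nat_lit 5) (nat_lit 642) (nat_lit 496) (nat_lit 422)) (XT.lf (nat_lit 0) (nat_lit 8202490098) (nat_lit 152) (nat_lit 4142142683) (nat_lit 228) (nat_lit 3564080802) (nat_lit 40) (nat_lit 5) (nat_lit 42) (nat_lit 5) (nat_lit 43) (nat_lit 5) (nat_lit 643) (nat_lit 496) (nat_lit 421)))))) (XT.nd (nat_lit 75270) (nat_lit 0) (nat_lit 21736) (XT.nd (nat_lit 234) (nat_lit 228) (nat_lit 0) (XT.nd (nat_lit 78) (nat_lit 152) (nat_lit 0) (XT.lf (nat_lit 0) (nat_lit 1481521058) (nat_lit 228) (nat_lit 13293432458) (nat_lit 76) (nat_lit 1334600702) (nat_lit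 37) (nat_lit 5) (nat_lit 40) (nat_lit 5) (nat_lit 38) (nat_lit 5) (nat_lit 644) (nat_lit 496) (nat_lit 420)) (XT.nd (nat_lit 78) (nat_lit 152) (nat_lit 0) (XT.lf (nat_lit 0) (nat_lit 6623607518) (nat_lit 228) (nat_lit 2777172207) (nat_lit 76) (nat_lit 6912296303) (nat_lit 37) (nat_lit 5) (nat_lit 40) (nat_lit 5) (nat_lit 38) (nat_lit 5) (nat_lit 645) (nat_lit 496) (nat_lit 419)) (XT.lf (nat_lit 0) (nat_lit 7989698071) (nat_lit 152) (nat_lit 3895186858) (nat_lit 228) (nat_lit 4635457777) (nat_lit 35) (nat_lit 5) (nat_lit 37) (nat_lit 5) (nat_lit 38) (nat_lit 5) (nat_lit 646) (nat_lit 496) (nat_lit 418)))) (XT.nd (nat_lit 74880) (nat_lit 0) (nat_lit 25764) (XT.lf (nat_lit 0) (nat_lit 521863505) (nat_lit 228) (nat_lit 14503463883) (nat_lit 76) (nat_lit 1706180305) (nat_lit 32) (nat_lit 5) (nat_lit 35) (nat_lit 5) (nat_lit 33) (nat_lit 5) (nat_lit 647) (nat_lit 496) (nat_lit 417)) (XT.nd (nat_lit 78) (nat_lit 836) (nat_lit 0) (XT.lf (nat_lit 0) (nat_lit 2705154039) (nat_lit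 836) (nat_lit 514247580) (nat_lit 836) (nat_lit 514247580) (nat_lit 382) (nat_lit 4) (nat_lit 393) (nat_lit 5) (nat_lit 393) (nat_lit 4) (nat_lit 566) (nat_lit 497) (nat_lit 497)) (XT.lf (nat_lit 0) (nat_lit 2615157944) (nat_lit 836) (nat_lit 3748368818) (nat_lit 0) (nat_lit 1149439150) (nat_lit 371) (nat_lit 5) (nat_lit 382) (nat_lit 4) (nat_lit 371) (nat_lit 4) (nat_lit 567) (nat_lit 497) (nat_lit 496))))) (XT.nd (nat_lit 234) (nat_lit 2356) (nat_lit 0) (XT.nd (nat_lit 78) (nat_lit 836) (nat_lit 0) (XT.lf (nat_lit 0) (nat_lit 2107227513) (nat_lit 836) (nat_lit 4177775638) (nat_lit 836) (nat_lit 1275077635) (nat_lit 360) (nat_lit 4) (nat_lit 371) (nat_lit 5) (nat_lit 371) (nat_lit 4) (nat_lit 568) (nat_lit 497) (nat_lit 495)) (XT.nd (nat_lit 78) (nat_lit 0) (nat_lit 0) (XT.lf (nat_lit 0) (nat_lit 434619386) (nat_lit 760) (nat_lit 1914945234) (nat_lit 836) (nat_lit 5259046458) (nat_lit 349) (nat_lit 5) (nat_lit 359) (nat_lit 5) (nat_lit 360) (nat_lit 4) (nat_lit 569)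 (nat_lit 497) (nat_lit 494)) (XT.lf (nat_lit 0) (nat_lit 6002816112) (nat_lit 836) (nat_lit 1233918017) (nat_lit 0) (nat_lit 421756598) (nat_lit 349) (nat_lit 5) (nat_lit 360) (nat_lit 4) (nat_lit 349) (nat_lit 4) (nat_lit 570) (nat_lit 497) (nat_lit 493)))) (XT.nd (nat_lit 156) (nat_lit 836) (nat_lit 0) (XT.nd (nat_lit 78) (nat_lit 684) (nat_lit 0) (XT.lf (nat_lit 0) (nat_lit 1972041904) (nat_lit 836) (nat_lit 2925081535) (nat_lit 76) (nat_lit 2812417594) (nat_lit 338) (nat_lit 5) (nat_lit 349) (nat_lit 5) (nat_lit 339) (nat_lit 4) (nat_lit 571) (nat_lit 497) (nat_lit 492)) (XT.lf (nat_lit 0) (nat_lit 3130659703) (nat_lit 684) (nat_lit 2483588925) (nat_lit 760) (nat_lit 2147873200) (nat_lit 329) (nat_lit 5) (nat_lit 338) (nat_lit 5) (nat_lit 339) (nat_lit 4) (nat_lit 572) (nat_lit 497) (nat_lit 491))) (XT.nd (nat_lit 78) (nat_lit 0) (nat_lit 0) (XT.lf (nat_lit 0) (nat_lit 1458732435) (nat_lit 836) (nat_lit 6353477088) (nat_lit 76) (nat_lit 4057483) (nat_lit 318) (nat_lit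 5) (nat_lit 329) (nat_lit 5) (nat_lit 319) (nat_lit 4) (nat_lit 573) (nat_lit 497) (nat_lit 490)) (XT.lf (nat_lit 0) (nat_lit 5092887497) (nat_lit 836) (nat_lit 238931782) (nat_lit 76) (nat_lit 2539718178) (nat_lit 318) (nat_lit 5) (nat_lit 329) (nat_lit 5) (nat_lit 319) (nat_lit 4) (nat_lit 574) (nat_lit 497) (nat_lit 489))))))) (XT.nd (nat_lit 936) (nat_lit 5168) (nat_lit 0) (XT.nd (nat_lit 468) (nat_lit 2964) (nat_lit 0) (XT.nd (nat_lit 234) (nat_lit 1368) (nat_lit 0) (XT.nd (nat_lit 78) (nat_lit 1368) (nat_lit 0) (XT.lf (nat_lit 0) (nat_lit 836829216) (nat_lit 760) (nat_lit 1934651930) (nat_lit 76) (nat_lit 5156799427) (nat_lit 308) (nat_lit 5) (nat_lit 318) (nat_lit 5) (nat_lit 309) (nat_lit 5) (nat_lit 575) (nat_lit 497) (nat_lit 488)) (XT.nd (nat_lit 78) (nat_lit 684) (nat_lit 0) (XT.lf (nat_lit 0) (nat_lit 4328645061) (nat_lit 684) (nat_lit 126490206) (nat_lit 760) (nat_lit 3531310771) (nat_lit 299) (nat_lit 5) (nat_lit 308) (nat_lit 5) (nat_lit 309) (nat_lit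 5) (nat_lit 576) (nat_lit 497) (nat_lit 487)) (XT.lf (nat_lit 0) (nat_lit 84085917) (nat_lit 684) (nat_lit 5409188690) (nat_lit 76) (nat_lit 2552788846) (nat_lit 290) (nat_lit 5) (nat_lit 299) (nat_lit 5) (nat_lit 291) (nat_lit 5) (nat_lit 577) (nat_lit 497) (nat_lit 486)))) (XT.nd (nat_lit 78) (nat_lit 684) (nat_lit 0) (XT.lf (nat_lit 0) (nat_lit 909593383) (nat_lit 684) (nat_lit 2785279884) (nat_lit 760) (nat_lit 4412134528) (nat_lit 281) (nat_lit 5) (nat_lit 290) (nat_lit 5) (nat_lit 291) (nat_lit 5) (nat_lit 578) (nat_lit 497) (nat_lit 485)) (XT.nd (nat_lit 78) (nat_lit 684) (nat_lit 0) (XT.lf (nat_lit 0) (nat_lit 7349997269) (nat_lit 684) (nat_lit 3740366) (nat_lit 760) (nat_lit 815924750) (nat_lit 281) (nat_lit 5) (nat_lit 290) (nat_lit 5) (nat_lit 291) (nat_lit 5) (nat_lit 579) (nat_lit 497) (nat_lit 484)) (XT.lf (nat_lit 0) (nat_lit 2810571725) (nat_lit 684) (nat_lit 2588254334) (nat_lit 76) (nat_lit 2834466499) (nat_lit 272) (nat_lit 5) (nat_lit 281) (nat_lit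 5) (nat_lit 273) (nat_lit 5) (nat_lit 580) (nat_lit 497) (nat_lit 483))))) (XT.nd (nat_lit 234) (nat_lit 1140) (nat_lit 0) (XT.nd (nat_lit 78) (nat_lit 1216) (nat_lit 0) (XT.lf (nat_lit 0) (nat_lit 3920099384) (nat_lit 608) (nat_lit 2550499146) (nat_lit 684) (nat_lit 1828058517) (nat_lit 264) (nat_lit 5) (nat_lit 272) (nat_lit 5) (nat_lit 273) (nat_lit 5) (nat_lit 581) (nat_lit 497) (nat_lit 482)) (XT.nd (nat_lit 78) (nat_lit 608) (nat_lit 0) (XT.lf (nat_lit 0) (nat_lit 1789566672) (nat_lit 608) (nat_lit 6201205684) (nat_lit 76) (nat_lit 374821876) (nat_lit 256) (nat_lit 5) (nat_lit 264) (nat_lit 5) (nat_lit 257) (nat_lit 5) (nat_lit 582) (nat_lit 497) (nat_lit 481)) (XT.lf (nat_lit 0) (nat_lit 361090356) (nat_lit 608) (nat_lit 5084497570) (nat_lit 684) (nat_lit 2988237763) (nat_lit 248) (nat_lit 5) (nat_lit 256) (nat_lit 5) (nat_lit 257) (nat_lit 5) (nat_lit 583) (nat_lit 497) (nat_lit 480)))) (XT.nd (nat_lit 78) (nat_lit 1064) (nat_lit 0) (XT.lf (nat_lit 0) (nat_lit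 646324988) (nat_lit 684) (nat_lit 1447510942) (nat_lit 76) (nat_lit 6409829574) (nat_lit 247) (nat_lit 5) (nat_lit 256) (nat_lit 5) (nat_lit 248) (nat_lit 5) (nat_lit 584) (nat_lit 497) (nat_lit 479)) (XT.nd (nat_lit 78) (nat_lit 532) (nat_lit 0) (XT.lf (nat_lit 0) (nat_lit 4297407267) (nat_lit 608) (nat_lit 3299126052) (nat_lit 76) (nat_lit 978304119) (nat_lit 240) (nat_lit 5) (nat_lit 248) (nat_lit 5) (nat_lit 241) (nat_lit 5) (nat_lit 585) (nat_lit 497) (nat_lit 478)) (XT.lf (nat_lit 0) (nat_lit 3459299519) (nat_lit 532) (nat_lit 4551870242) (nat_lit 608) (nat_lit 636476924) (nat_lit 233) (nat_lit 5) (nat_lit 240) (nat_lit 5) (nat_lit 241) (nat_lit 5) (nat_lit 586) (nat_lit 497) (nat_lit 477)))))) (XT.nd (nat_lit 468) (nat_lit 2432) (nat_lit 0) (XT.nd (nat_lit 234) (nat_lit 1520) (nat_lit 0) (XT.nd (nat_lit 78) (nat_lit 608) (nat_lit 0) (XT.lf (nat_lit 0) (nat_lit 1598825927) (nat_lit 532) (nat_lit 1414558026) (nat_lit 608) (nat_lit 5708606380) (nat_lit 225) (nat_lit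 5) (nat_lit 232) (nat_lit 5) (nat_lit 233) (nat_lit 5) (nat_lit 587) (nat_lit 497) (nat_lit 476)) (XT.nd (nat_lit 78) (nat_lit 608) (nat_lit 0) (XT.lf (nat_lit 0) (nat_lit 6718604250) (nat_lit 608) (nat_lit 299714029) (nat_lit 76) (nat_lit 1779607379) (nat_lit 225) (nat_lit 5) (nat_lit 233) (nat_lit 5) (nat_lit 226) (nat_lit 5) (nat_lit 588) (nat_lit 497) (nat_lit 475)) (XT.lf (nat_lit 0) (nat_lit 1599195832) (nat_lit 608) (nat_lit 2224830575) (nat_lit 76) (nat_lit 5051190436) (nat_lit 217) (nat_lit 5) (nat_lit 225) (nat_lit 5) (nat_lit 218) (nat_lit 5) (nat_lit 589) (nat_lit 497) (nat_lit 474)))) (XT.nd (nat_lit 78) (nat_lit 1064) (nat_lit 0) (XT.lf (nat_lit 0) (nat_lit 4760889566) (nat_lit 456) (nat_lit 541053704) (nat_lit 532) (nat_lit 3652271911) (nat_lit 211) (nat_lit 5) (nat_lit 217) (nat_lit 5) (nat_lit 218) (nat_lit 5) (nat_lit 590) (nat_lit 497) (nat_lit 473)) (XT.nd (nat_lit 78) (nat_lit 456) (nat_lit 0) (XT.lf (nat_lit 0) (nat_lit 40900266) (nat_lit 608) (nat_lit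 6212165367) (nat_lit 76) (nat_lit 2781777667) (nat_lit 203) (nat_lit 5) (nat_lit 211) (nat_lit 5) (nat_lit 204) (nat_lit 5) (nat_lit 591) (nat_lit 497) (nat_lit 472)) (XT.lf (nat_lit 0) (nat_lit 824234247) (nat_lit 456) (nat_lit 2918262973) (nat_lit 532) (nat_lit 5374440520) (nat_lit 197) (nat_lit 5) (nat_lit 203) (nat_lit 5) (nat_lit 204) (nat_lit 5) (nat_lit 592) (nat_lit 497) (nat_lit 471))))) (XT.nd (nat_lit 234) (nat_lit 1444) (nat_lit 0) (XT.nd (nat_lit 78) (nat_lit 988) (nat_lit 0) (XT.lf (nat_lit 0) (nat_lit 7509781977) (nat_lit 532) (nat_lit 1196027535) (nat_lit 76) (nat_lit 495037219) (nat_lit 197) (nat_lit 5) (nat_lit 204) (nat_lit 5) (nat_lit 198) (nat_lit 5) (nat_lit 593) (nat_lit 497) (nat_lit 470)) (XT.nd (nat_lit 78) (nat_lit 456) (nat_lit 0) (XT.lf (nat_lit 0) (nat_lit 2044968284) (nat_lit 532) (nat_lit 3274298309) (nat_lit 76) (nat_lit 3966782878) (nat_lit 190) (nat_lit 5) (nat_lit 197) (nat_lit 5) (nat_lit 191) (nat_lit 5) (nat_lit 594) (nat_lit 497)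 (nat_lit 469)) (XT.lf (nat_lit 0) (nat_lit 3970928412) (nat_lit 456) (nat_lit 1843818775) (nat_lit 532) (nat_lit 3558357596) (nat_lit 184) (nat_lit 5) (nat_lit 190) (nat_lit 5) (nat_lit 191) (nat_lit 5) (nat_lit 595) (nat_lit 497) (nat_lit 468)))) (XT.nd (nat_lit 156) (nat_lit 912) (nat_lit 0) (XT.nd (nat_lit 78) (nat_lit 0) (nat_lit 0) (XT.lf (nat_lit 0) (nat_lit 188897062) (nat_lit 532) (nat_lit 7583202183) (nat_lit 76) (nat_lit 1689912003) (nat_lit 177) (nat_lit 5) (nat_lit 184) (nat_lit 5) (nat_lit 178) (nat_lit 5) (nat_lit 596) (nat_lit 497) (nat_lit 467)) (XT.lf (nat_lit 0) (nat_lit 3960522102) (nat_lit 532) (nat_lit 286899934) (nat_lit 76) (nat_lit 5304867088) (nat_lit 177) (nat_lit 5) (nat_lit 184) (nat_lit 5) (nat_lit 178) (nat_lit 5) (nat_lit 597) (nat_lit 497) (nat_lit 466))) (XT.nd (nat_lit 78) (nat_lit 532) (nat_lit 0) (XT.lf (nat_lit 0) (nat_lit 7173373962) (nat_lit 380) (nat_lit 630118134) (nat_lit 456) (nat_lit 1840967243) (nat_lit 172) (nat_lit 5) (nat_lit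 177) (nat_lit 5) (nat_lit 178) (nat_lit 5) (nat_lit 598) (nat_lit 497) (nat_lit 465)) (XT.lf (nat_lit 0) (nat_lit 1962897048) (nat_lit 532) (nat_lit 4733447337) (nat_lit 76) (nat_lit 3041794067) (nat_lit 165) (nat_lit 5) (nat_lit 172) (nat_lit 5) (nat_lit 166) (nat_lit 5) (nat_lit 599) (nat_lit 497) (nat_lit 464))))))))
noncomputable def xc35 : XT := (XT.nd (nat_lit 1950) (nat_lit 3420) (nat_lit 0) (XT.nd (nat_lit 936) (nat_lit 3040) (nat_lit 0) (XT.nd (nat_lit 468) (nat_lit 1444) (nat_lit 0) (XT.nd (nat_lit 234) (nat_lit 1140) (nat_lit 0) (XT.nd (nat_lit 78) (nat_lit 456) (nat_lit 0) (XT.lf (nat_lit 0) (nat_lit 2773473301) (nat_lit 380) (nat_lit 3033445798) (nat_lit 456) (nat_lit 4026758791) (nat_lit 160) (nat_lit 5) (nat_lit 165) (nat_lit 5) (nat_lit 166) (nat_lit 5) (nat_lit 600) (nat_lit 497) (nat_lit 463)) (XT.nd (nat_lit 78) (nat_lit 76) (nat_lit 0) (XT.lf (nat_lit 0) (nat_lit 488972915) (nat_lit 380) (nat_lit 9228714535) (nat_lit 456) (nat_lit 213647998) (nat_lit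 155) (nat_lit 5) (nat_lit 160) (nat_lit 5) (nat_lit 161) (nat_lit 5) (nat_lit 601) (nat_lit 497) (nat_lit 462)) (XT.lf (nat_lit 0) (nat_lit 3645602234) (nat_lit 456) (nat_lit 1866458791) (nat_lit 76) (nat_lit 4518050594) (nat_lit 154) (nat_lit 5) (nat_lit 160) (nat_lit 5) (nat_lit 155) (nat_lit 5) (nat_lit 602) (nat_lit 497) (nat_lit 461)))) (XT.nd (nat_lit 78) (nat_lit 760) (nat_lit 0) (XT.lf (nat_lit 0) (nat_lit 5860896180) (nat_lit 380) (nat_lit 1707614990) (nat_lit 456) (nat_lit 2562541589) (nat_lit 149) (nat_lit 5) (nat_lit 154) (nat_lit 5) (nat_lit 155) (nat_lit 5) (nat_lit 603) (nat_lit 497) (nat_lit 460)) (XT.nd (nat_lit 78) (nat_lit 304) (nat_lit 0) (XT.lf (nat_lit 0) (nat_lit 1319296820) (nat_lit 456) (nat_lit 6752576306) (nat_lit 76) (nat_lit 2161951312) (nat_lit 143) (nat_lit 5) (nat_lit 149) (nat_lit 5) (nat_lit 144) (nat_lit 5) (nat_lit 604) (nat_lit 497) (nat_lit 459)) (XT.lf (nat_lit 0) (nat_lit 1016382240) (nat_lit 304) (nat_lit 4226573983) (nat_lit 380)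 (nat_lit 5095390753) (nat_lit 139) (nat_lit 5) (nat_lit 143) (nat_lit 5) (nat_lit 144) (nat_lit 5) (nat_lit 605) (nat_lit 497) (nat_lit 458))))) (XT.nd (nat_lit 234) (nat_lit 684) (nat_lit 0) (XT.nd (nat_lit 78) (nat_lit 760) (nat_lit 0) (XT.lf (nat_lit 0) (nat_lit 8956788243) (nat_lit 304) (nat_lit 285782849) (nat_lit 380) (nat_lit 1202443273) (nat_lit 139) (nat_lit 5) (nat_lit 143) (nat_lit 5) (nat_lit 144) (nat_lit 5) (nat_lit 606) (nat_lit 497) (nat_lit 457)) (XT.nd (nat_lit 78) (nat_lit 304) (nat_lit 0) (XT.lf (nat_lit 0) (nat_lit 2751479112) (nat_lit 456) (nat_lit 4083245933) (nat_lit 76) (nat_lit 3718345994) (nat_lit 133) (nat_lit 5) (nat_lit 139) (nat_lit 5) (nat_lit 134) (nat_lit 5) (nat_lit 607) (nat_lit 497) (nat_lit 456)) (XT.lf (nat_lit 0) (nat_lit 3910601095) (nat_lit 304) (nat_lit 2848187974) (nat_lit 380) (nat_lit 3904536430) (nat_lit 129) (nat_lit 5) (nat_lit 133) (nat_lit 5) (nat_lit 134) (nat_lit 5) (nat_lit 608) (nat_lit 497) (nat_lit 455)))) (XT.nd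 (nat_lit 78) (nat_lit 304) (nat_lit 0) (XT.lf (nat_lit 0) (nat_lit 66616716) (nat_lit 380) (nat_lit 9498323629) (nat_lit 76) (nat_lit 1210897605) (nat_lit 124) (nat_lit 5) (nat_lit 129) (nat_lit 5) (nat_lit 125) (nat_lit 5) (nat_lit 609) (nat_lit 497) (nat_lit 454)) (XT.nd (nat_lit 78) (nat_lit 304) (nat_lit 0) (XT.lf (nat_lit 0) (nat_lit 4082872778) (nat_lit 380) (nat_lit 1450096522) (nat_lit 76) (nat_lit 5356759532) (nat_lit 124) (nat_lit 5) (nat_lit 129) (nat_lit 5) (nat_lit 125) (nat_lit 5) (nat_lit 610) (nat_lit 497) (nat_lit 453)) (XT.lf (nat_lit 0) (nat_lit 6774140359) (nat_lit 304) (nat_lit 1403644952) (nat_lit 380) (nat_lit 2828149115) (nat_lit 120) (nat_lit 5) (nat_lit 124) (nat_lit 5) (nat_lit 125) (nat_lit 5) (nat_lit 611) (nat_lit 497) (nat_lit 452)))))) (XT.nd (nat_lit 468) (nat_lit 1444) (nat_lit 0) (XT.nd (nat_lit 234) (nat_lit 912) (nat_lit 0) (XT.nd (nat_lit 78) (nat_lit 304) (nat_lit 0) (XT.lf (nat_lit 0) (nat_lit 1222758744) (nat_lit 380) (nat_lit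 7113720792) (nat_lit 76) (nat_lit 2787653042) (nat_lit 115) (nat_lit 5) (nat_lit 120) (nat_lit 5) (nat_lit 116) (nat_lit 5) (nat_lit 612) (nat_lit 497) (nat_lit 451)) (XT.nd (nat_lit 78) (nat_lit 0) (nat_lit 0) (XT.lf (nat_lit 0) (nat_lit 1143322441) (nat_lit 304) (nat_lit 4173530793) (nat_lit 380) (nat_lit 5927470148) (nat_lit 111) (nat_lit 5) (nat_lit 115) (nat_lit 5) (nat_lit 116) (nat_lit 5) (nat_lit 613) (nat_lit 497) (nat_lit 450)) (XT.lf (nat_lit 0) (nat_lit 9496275057) (nat_lit 380) (nat_lit 1779200110) (nat_lit 76) (nat_lit 91377181) (nat_lit 111) (nat_lit 5) (nat_lit 116) (nat_lit 5) (nat_lit 112) (nat_lit 5) (nat_lit 614) (nat_lit 497) (nat_lit 449)))) (XT.nd (nat_lit 78) (nat_lit 532) (nat_lit 0) (XT.lf (nat_lit 0) (nat_lit 2264811099) (nat_lit 380) (nat_lit 4809901398) (nat_lit 76) (nat_lit 4416286173) (nat_lit 106) (nat_lit 5) (nat_lit 111) (nat_lit 5) (nat_lit 107) (nat_lit 5) (nat_lit 615) (nat_lit 497) (nat_lit 448)) (XT.nd (nat_lit 78) (nat_lit 304)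 (nat_lit 0) (XT.lf (nat_lit 0) (nat_lit 3680092585) (nat_lit 228) (nat_lit 2769610698) (nat_lit 304) (nat_lit 5167843550) (nat_lit 103) (nat_lit 5) (nat_lit 106) (nat_lit 5) (nat_lit 107) (nat_lit 5) (nat_lit 616) (nat_lit 497) (nat_lit 447)) (XT.lf (nat_lit 0) (nat_lit 582762693) (nat_lit 304) (nat_lit 10138447227) (nat_lit 380) (nat_lit 1025360713) (nat_lit 99) (nat_lit 5) (nat_lit 103) (nat_lit 5) (nat_lit 104) (nat_lit 5) (nat_lit 617) (nat_lit 497) (nat_lit 446))))) (XT.nd (nat_lit 234) (nat_lit 836) (nat_lit 0) (XT.nd (nat_lit 78) (nat_lit 532) (nat_lit 0) (XT.lf (nat_lit 0) (nat_lit 3186173472) (nat_lit 380) (nat_lit 2608948838) (nat_lit 76) (nat_lit 6082076563) (nat_lit 98) (nat_lit 5) (nat_lit 103) (nat_lit 5) (nat_lit 99) (nat_lit 5) (nat_lit 618) (nat_lit 497) (nat_lit 445)) (XT.nd (nat_lit 78) (nat_lit 304) (nat_lit 0) (XT.lf (nat_lit 0) (nat_lit 6118554491) (nat_lit 228) (nat_lit 1346462294) (nat_lit 304) (nat_lit 4545354014) (nat_lit 95) (nat_lit 5) (nat_lit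 98) (nat_lit 5) (nat_lit 99) (nat_lit 5) (nat_lit 619) (nat_lit 497) (nat_lit 444)) (XT.lf (nat_lit 0) (nat_lit 2854618910) (nat_lit 304) (nat_lit 8988954613) (nat_lit 380) (nat_lit 302352685) (nat_lit 91) (nat_lit 5) (nat_lit 95) (nat_lit 5) (nat_lit 96) (nat_lit 5) (nat_lit 620) (nat_lit 497) (nat_lit 443)))) (XT.nd (nat_lit 156) (nat_lit 532) (nat_lit 0) (XT.nd (nat_lit 78) (nat_lit 228) (nat_lit 0) (XT.lf (nat_lit 0) (nat_lit 3978779035) (nat_lit 380) (nat_lit 535065872) (nat_lit 76) (nat_lit 7769706451) (nat_lit 90) (nat_lit 5) (nat_lit 95) (nat_lit 5) (nat_lit 91) (nat_lit 5) (nat_lit 621) (nat_lit 497) (nat_lit 442)) (XT.lf (nat_lit 0) (nat_lit 8354952027) (nat_lit 304) (nat_lit 3990018048) (nat_lit 76) (nat_lit 78652239) (nat_lit 87) (nat_lit 5) (nat_lit 91) (nat_lit 5) (nat_lit 88) (nat_lit 5) (nat_lit 622) (nat_lit 497) (nat_lit 441))) (XT.nd (nat_lit 78) (nat_lit 228) (nat_lit 0) (XT.lf (nat_lit 0) (nat_lit 273252985) (nat_lit 304) (nat_lit 7580803067) (nat_lit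 76) (nat_lit 4711920284) (nat_lit 83) (nat_lit 5) (nat_lit 87) (nat_lit 5) (nat_lit 84) (nat_lit 5) (nat_lit 623) (nat_lit 497) (nat_lit 440)) (XT.lf (nat_lit 0) (nat_lit 1403550360) (nat_lit 228) (nat_lit 3238545771) (nat_lit 304) (nat_lit 8068654678) (nat_lit 80) (nat_lit 5) (nat_lit 83) (nat_lit 5) (nat_lit 84) (nat_lit 5) (nat_lit 624) (nat_lit 497) (nat_lit 439))))))) (XT.nd (nat_lit 936) (nat_lit 1444) (nat_lit 0) (XT.nd (nat_lit 468) (nat_lit 912) (nat_lit 0) (XT.nd (nat_lit 234) (nat_lit 532) (nat_lit 0) (XT.nd (nat_lit 78) (nat_lit 532) (nat_lit 0) (XT.lf (nat_lit 0) (nat_lit 9117674269) (nat_lit 304) (nat_lit 2268144844) (nat_lit 76) (nat_lit 1472216913) (nat_lit 80) (nat_lit 5) (nat_lit 84) (nat_lit 5) (nat_lit 81) (nat_lit 5) (nat_lit 625) (nat_lit 497) (nat_lit 438)) (XT.nd (nat_lit 78) (nat_lit 228) (nat_lit 0) (XT.lf (nat_lit 0) (nat_lit 691824549) (nat_lit 304) (nat_lit 6060704075) (nat_lit 76) (nat_lit 6255129587) (nat_lit 76) (nat_lit 5) (nat_lit 80)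 (nat_lit 5) (nat_lit 77) (nat_lit 5) (nat_lit 626) (nat_lit 497) (nat_lit 437)) (XT.lf (nat_lit 0) (nat_lit 3163854554) (nat_lit 228) (nat_lit 1994125173) (nat_lit 304) (nat_lit 8001892746) (nat_lit 73) (nat_lit 5) (nat_lit 76) (nat_lit 5) (nat_lit 77) (nat_lit 5) (nat_lit 627) (nat_lit 497) (nat_lit 436)))) (XT.nd (nat_lit 78) (nat_lit 532) (nat_lit 0) (XT.lf (nat_lit 0) (nat_lit 9732615140) (nat_lit 304) (nat_lit 748149504) (nat_lit 76) (nat_lit 2833985466) (nat_lit 73) (nat_lit 5) (nat_lit 77) (nat_lit 5) (nat_lit 74) (nat_lit 5) (nat_lit 628) (nat_lit 497) (nat_lit 435)) (XT.nd (nat_lit 78) (nat_lit 228) (nat_lit 0) (XT.lf (nat_lit 0) (nat_lit 944317623) (nat_lit 304) (nat_lit 4761220783) (nat_lit 76) (nat_lit 7766459903) (nat_lit 69) (nat_lit 5) (nat_lit 73) (nat_lit 5) (nat_lit 70) (nat_lit 5) (nat_lit 629) (nat_lit 497) (nat_lit 434)) (XT.lf (nat_lit 0) (nat_lit 4705939361) (nat_lit 228) (nat_lit 803561501) (nat_lit 304) (nat_lit 8122495828) (nat_lit 66) (nat_lit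 5) (nat_lit 69) (nat_lit 5) (nat_lit 70) (nat_lit 5) (nat_lit 630) (nat_lit 497) (nat_lit 433))))) (XT.nd (nat_lit 234) (nat_lit 456) (nat_lit 0) (XT.nd (nat_lit 78) (nat_lit 228) (nat_lit 0) (XT.lf (nat_lit 0) (nat_lit 543191725) (nat_lit 228) (nat_lit 9646386103) (nat_lit 304) (nat_lit 3605147474) (nat_lit 63) (nat_lit 5) (nat_lit 66) (nat_lit 5) (nat_lit 67) (nat_lit 5) (nat_lit 631) (nat_lit 497) (nat_lit 432)) (XT.nd (nat_lit 78) (nat_lit 152) (nat_lit 0) (XT.lf (nat_lit 0) (nat_lit 1015737982) (nat_lit 304) (nat_lit 3717888701) (nat_lit 76) (nat_lit 9226426828) (nat_lit 62) (nat_lit 5) (nat_lit 66) (nat_lit 5) (nat_lit 63) (nat_lit 5) (nat_lit 632) (nat_lit 497) (nat_lit 431)) (XT.lf (nat_lit 0) (nat_lit 5683247260) (nat_lit 228) (nat_lit 8136691247) (nat_lit 76) (nat_lit 308225540) (nat_lit 60) (nat_lit 5) (nat_lit 63) (nat_lit 5) (nat_lit 61) (nat_lit 5) (nat_lit 633) (nat_lit 497) (nat_lit 430)))) (XT.nd (nat_lit 78) (nat_lit 228) (nat_lit 0) (XT.lf (nat_lit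 0) (nat_lit 1567574179) (nat_lit 228) (nat_lit 8904795806) (nat_lit 304) (nat_lit 3826703450) (nat_lit 57) (nat_lit 5) (nat_lit 60) (nat_lit 5) (nat_lit 61) (nat_lit 5) (nat_lit 634) (nat_lit 497) (nat_lit 429)) (XT.nd (nat_lit 78) (nat_lit 152) (nat_lit 0) (XT.lf (nat_lit 0) (nat_lit 888929449) (nat_lit 304) (nat_lit 2970006432) (nat_lit 76) (nat_lit 10614019239) (nat_lit 56) (nat_lit 5) (nat_lit 60) (nat_lit 5) (nat_lit 57) (nat_lit 5) (nat_lit 635) (nat_lit 497) (nat_lit 428)) (XT.lf (nat_lit 0) (nat_lit 5664122079) (nat_lit 228) (nat_lit 7671779481) (nat_lit 76) (nat_lit 1313579052) (nat_lit 54) (nat_lit 5) (nat_lit 57) (nat_lit 5) (nat_lit 55) (nat_lit 5) (nat_lit 636) (nat_lit 497) (nat_lit 427)))))) (XT.nd (nat_lit 468) (nat_lit 532) (nat_lit 0) (XT.nd (nat_lit 234) (nat_lit 456) (nat_lit 0) (XT.nd (nat_lit 78) (nat_lit 228) (nat_lit 0) (XT.lf (nat_lit 0) (nat_lit 2272997121) (nat_lit 228) (nat_lit 8284753849) (nat_lit 304) (nat_lit 4271328758) (nat_lit 51) (nat_lit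 5) (nat_lit 54) (nat_lit 5) (nat_lit 55) (nat_lit 5) (nat_lit 637) (nat_lit 497) (nat_lit 426)) (XT.nd (nat_lit 78) (nat_lit 152) (nat_lit 0) (XT.lf (nat_lit 0) (nat_lit 544374960) (nat_lit 304) (nat_lit 2561076489) (nat_lit 76) (nat_lit 11906462620) (nat_lit 50) (nat_lit 5) (nat_lit 54) (nat_lit 5) (nat_lit 51) (nat_lit 5) (nat_lit 638) (nat_lit 497) (nat_lit 425)) (XT.lf (nat_lit 0) (nat_lit 5426672799) (nat_lit 228) (nat_lit 7571663860) (nat_lit 76) (nat_lit 2198955967) (nat_lit 48) (nat_lit 5) (nat_lit 51) (nat_lit 5) (nat_lit 49) (nat_lit 5) (nat_lit 639) (nat_lit 497) (nat_lit 424)))) (XT.nd (nat_lit 78) (nat_lit 228) (nat_lit 0) (XT.lf (nat_lit 0) (nat_lit 2612861485) (nat_lit 228) (nat_lit 7812043416) (nat_lit 304) (nat_lit 4961109713) (nat_lit 45) (nat_lit 5) (nat_lit 48) (nat_lit 5) (nat_lit 49) (nat_lit 5) (nat_lit 640) (nat_lit 497) (nat_lit 423)) (XT.nd (nat_lit 78) (nat_lit 228) (nat_lit 0) (XT.lf (nat_lit 0) (nat_lit 13038667890) (nat_lit 228) (nat_lit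 2498995784) (nat_lit 304) (nat_lit 40557723) (nat_lit 45) (nat_lit 5) (nat_lit 48) (nat_lit 5) (nat_lit 49) (nat_lit 5) (nat_lit 641) (nat_lit 497) (nat_lit 422)) (XT.lf (nat_lit 0) (nat_lit 4947998316) (nat_lit 228) (nat_lit 7886811461) (nat_lit 76) (nat_lit 2938119896) (nat_lit 42) (nat_lit 5) (nat_lit 45) (nat_lit 5) (nat_lit 43) (nat_lit 5) (nat_lit 642) (nat_lit 497) (nat_lit 421))))) (XT.nd (nat_lit 234) (nat_lit 152) (nat_lit 0) (XT.nd (nat_lit 78) (nat_lit 228) (nat_lit 0) (XT.lf (nat_lit 0) (nat_lit 2535507470) (nat_lit 152) (nat_lit 7514770991) (nat_lit 228) (nat_lit 5920959874) (nat_lit 40) (nat_lit 5) (nat_lit 42) (nat_lit 5) (nat_lit 43) (nat_lit 5) (nat_lit 643) (nat_lit 497) (nat_lit 420)) (XT.nd (nat_lit 78) (nat_lit 228) (nat_lit 0) (XT.lf (nat_lit 0) (nat_lit 13209252476) (nat_lit 152) (nat_lit 2062889864) (nat_lit 228) (nat_lit 901021540) (nat_lit 40) (nat_lit 5) (nat_lit 42) (nat_lit 5) (nat_lit 43) (nat_lit 5) (nat_lit 644) (nat_lit 497) (nat_lit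 419)) (XT.lf (nat_lit 0) (nat_lit 4202273045) (nat_lit 228) (nat_lit 8673152471) (nat_lit 76) (nat_lit 3502390055) (nat_lit 37) (nat_lit 5) (nat_lit 40) (nat_lit 5) (nat_lit 38) (nat_lit 5) (nat_lit 645) (nat_lit 497) (nat_lit 418)))) (XT.nd (nat_lit 74802) (nat_lit 0) (nat_lit 27208) (XT.nd (nat_lit 78) (nat_lit 0) (nat_lit 0) (XT.lf (nat_lit 0) (nat_lit 1983641969) (nat_lit 152) (nat_lit 7423671293) (nat_lit 228) (nat_lit 7178894417) (nat_lit 35) (nat_lit 5) (nat_lit 37) (nat_lit 5) (nat_lit 38) (nat_lit 5) (nat_lit 646) (nat_lit 497) (nat_lit 417)) (XT.lf (nat_lit 0) (nat_lit 12908318426) (nat_lit 152) (nat_lit 1831783694) (nat_lit 228) (nat_lit 2058193916) (nat_lit 35) (nat_lit 5) (nat_lit 37) (nat_lit 5) (nat_lit 38) (nat_lit 5) (nat_lit 647) (nat_lit 497) (nat_lit 416))) (XT.nd (nat_lit 78) (nat_lit 0) (nat_lit 0) (XT.lf (nat_lit 0) (nat_lit 334669132) (nat_lit 912) (nat_lit 3020290827) (nat_lit 0) (nat_lit 334669132) (nat_lit 393) (nat_lit 5) (nat_lit 405) (nat_lit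 4) (nat_lit 393) (nat_lit 4) (nat_lit 564) (nat_lit 498) (nat_lit 498)) (XT.lf (nat_lit 0) (nat_lit 4279818310) (nat_lit 912) (nat_lit 388148763) (nat_lit 0) (nat_lit 2754884478) (nat_lit 393) (nat_lit 5) (nat_lit 405) (nat_lit 4) (nat_lit 393) (nat_lit 4) (nat_lit 565) (nat_lit 498) (nat_lit 497))))))))
noncomputable def xc36 : XT := (XT.nd (nat_lit 1950) (nat_lit 7980) (nat_lit 0) (XT.nd (nat_lit 936) (nat_lit 6004) (nat_lit 0) (XT.nd (nat_lit 468) (nat_lit 3648) (nat_lit 0) (XT.nd (nat_lit 234) (nat_lit 1596) (nat_lit 0) (XT.nd (nat_lit 78) (nat_lit 1672) (nat_lit 0) (XT.lf (nat_lit 0) (nat_lit 456221579) (nat_lit 912) (nat_lit 2098399411) (nat_lit 76) (nat_lit 4913293020) (nat_lit 381) (nat_lit 5) (nat_lit 393) (nat_lit 5) (nat_lit 382) (nat_lit 4) (nat_lit 566) (nat_lit 498) (nat_lit 496)) (XT.nd (nat_lit 78) (nat_lit 912) (nat_lit 0) (XT.lf (nat_lit 0) (nat_lit 3685649967) (nat_lit 760) (nat_lit 359565756) (nat_lit 836) (nat_lit 3469061484) (nat_lit 371) (nat_lit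 5) (nat_lit 381) (nat_lit 5) (nat_lit 382) (nat_lit 4) (nat_lit 567) (nat_lit 498) (nat_lit 495)) (XT.lf (nat_lit 0) (nat_lit 115646568) (nat_lit 912) (nat_lit 5572928250) (nat_lit 76) (nat_lit 1873523055) (nat_lit 359) (nat_lit 5) (nat_lit 371) (nat_lit 5) (nat_lit 360) (nat_lit 4) (nat_lit 568) (nat_lit 498) (nat_lit 494)))) (XT.nd (nat_lit 78) (nat_lit 836) (nat_lit 0) (XT.lf (nat_lit 0) (nat_lit 266046641) (nat_lit 760) (nat_lit 3423933811) (nat_lit 836) (nat_lit 3921159350) (nat_lit 349) (nat_lit 5) (nat_lit 359) (nat_lit 5) (nat_lit 360) (nat_lit 4) (nat_lit 569) (nat_lit 498) (nat_lit 493)) (XT.nd (nat_lit 78) (nat_lit 836) (nat_lit 0) (XT.lf (nat_lit 0) (nat_lit 6221071970) (nat_lit 760) (nat_lit 1087286171) (nat_lit 836) (nat_lit 353364175) (nat_lit 349) (nat_lit 5) (nat_lit 359) (nat_lit 5) (nat_lit 360) (nat_lit 4) (nat_lit 570) (nat_lit 498) (nat_lit 492)) (XT.lf (nat_lit 0) (nat_lit 3216875143) (nat_lit 836) (nat_lit 3177753530) (nat_lit 76) (nat_lit 1318787967)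 (nat_lit 338) (nat_lit 5) (nat_lit 349) (nat_lit 5) (nat_lit 339) (nat_lit 4) (nat_lit 571) (nat_lit 498) (nat_lit 491))))) (XT.nd (nat_lit 234) (nat_lit 2128) (nat_lit 0) (XT.nd (nat_lit 78) (nat_lit 836) (nat_lit 0) (XT.lf (nat_lit 0) (nat_lit 2836336990) (nat_lit 684) (nat_lit 3989492081) (nat_lit 760) (nat_lit 940838498) (nat_lit 329) (nat_lit 5) (nat_lit 338) (nat_lit 5) (nat_lit 339) (nat_lit 4) (nat_lit 572) (nat_lit 498) (nat_lit 490)) (XT.nd (nat_lit 78) (nat_lit 0) (nat_lit 0) (XT.lf (nat_lit 0) (nat_lit 1113570121) (nat_lit 760) (nat_lit 1502891221) (nat_lit 836) (nat_lit 5204869059) (nat_lit 318) (nat_lit 5) (nat_lit 328) (nat_lit 5) (nat_lit 329) (nat_lit 5) (nat_lit 573) (nat_lit 498) (nat_lit 489)) (XT.lf (nat_lit 0) (nat_lit 6209999323) (nat_lit 836) (nat_lit 621745023) (nat_lit 76) (nat_lit 1045673633) (nat_lit 318) (nat_lit 5) (nat_lit 329) (nat_lit 5) (nat_lit 319) (nat_lit 4) (nat_lit 574) (nat_lit 498) (nat_lit 488)))) (XT.nd (nat_lit 78) (nat_lit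 1368) (nat_lit 0) (XT.lf (nat_lit 0) (nat_lit 1900243524) (nat_lit 760) (nat_lit 2374130236) (nat_lit 76) (nat_lit 3660312499) (nat_lit 308) (nat_lit 5) (nat_lit 318) (nat_lit 5) (nat_lit 309) (nat_lit 5) (nat_lit 575) (nat_lit 498) (nat_lit 487)) (XT.nd (nat_lit 78) (nat_lit 684) (nat_lit 0) (XT.lf (nat_lit 0) (nat_lit 3845130656) (nat_lit 684) (nat_lit 1640173926) (nat_lit 760) (nat_lit 2508216554) (nat_lit 299) (nat_lit 5) (nat_lit 308) (nat_lit 5) (nat_lit 309) (nat_lit 5) (nat_lit 576) (nat_lit 498) (nat_lit 486)) (XT.lf (nat_lit 0) (nat_lit 1050423456) (nat_lit 684) (nat_lit 5949138767) (nat_lit 76) (nat_lit 1054314584) (nat_lit 290) (nat_lit 5) (nat_lit 299) (nat_lit 5) (nat_lit 291) (nat_lit 5) (nat_lit 577) (nat_lit 498) (nat_lit 485)))))) (XT.nd (nat_lit 468) (nat_lit 3420) (nat_lit 0) (XT.nd (nat_lit 234) (nat_lit 1216) (nat_lit 0) (XT.nd (nat_lit 78) (nat_lit 684) (nat_lit 0) (XT.lf (nat_lit 0) (nat_lit 323815770) (nat_lit 684) (nat_lit 4303923311) (nat_lit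 760) (nat_lit 3487755753) (nat_lit 281) (nat_lit 5) (nat_lit 290) (nat_lit 5) (nat_lit 291) (nat_lit 5) (nat_lit 578) (nat_lit 498) (nat_lit 484)) (XT.nd (nat_lit 78) (nat_lit 608) (nat_lit 0) (XT.lf (nat_lit 0) (nat_lit 77500494) (nat_lit 760) (nat_lit 1452924467) (nat_lit 76) (nat_lit 6648305090) (nat_lit 280) (nat_lit 5) (nat_lit 290) (nat_lit 5) (nat_lit 281) (nat_lit 5) (nat_lit 579) (nat_lit 498) (nat_lit 483)) (XT.lf (nat_lit 0) (nat_lit 3649933491) (nat_lit 684) (nat_lit 3273007266) (nat_lit 76) (nat_lit 1320184770) (nat_lit 272) (nat_lit 5) (nat_lit 281) (nat_lit 5) (nat_lit 273) (nat_lit 5) (nat_lit 580) (nat_lit 498) (nat_lit 482)))) (XT.nd (nat_lit 78) (nat_lit 608) (nat_lit 0) (XT.lf (nat_lit 0) (nat_lit 3187930965) (nat_lit 608) (nat_lit 4088592806) (nat_lit 684) (nat_lit 1032638903) (nat_lit 264) (nat_lit 5) (nat_lit 272) (nat_lit 5) (nat_lit 273) (nat_lit 5) (nat_lit 581) (nat_lit 498) (nat_lit 481)) (XT.nd (nat_lit 78) (nat_lit 0) (nat_lit 0) (XT.lf (nat_lit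 0) (nat_lit 1370675217) (nat_lit 532) (nat_lit 1167687491) (nat_lit 608) (nat_lit 5838361467) (nat_lit 256) (nat_lit 5) (nat_lit 263) (nat_lit 5) (nat_lit 264) (nat_lit 5) (nat_lit 582) (nat_lit 498) (nat_lit 480)) (XT.lf (nat_lit 0) (nat_lit 6156155954) (nat_lit 608) (nat_lit 479112205) (nat_lit 76) (nat_lit 1810455734) (nat_lit 256) (nat_lit 5) (nat_lit 264) (nat_lit 5) (nat_lit 257) (nat_lit 5) (nat_lit 583) (nat_lit 498) (nat_lit 479))))) (XT.nd (nat_lit 234) (nat_lit 1672) (nat_lit 0) (XT.nd (nat_lit 78) (nat_lit 1064) (nat_lit 0) (XT.lf (nat_lit 0) (nat_lit 1304476089) (nat_lit 684) (nat_lit 2348888917) (nat_lit 76) (nat_lit 4862738645) (nat_lit 247) (nat_lit 5) (nat_lit 256) (nat_lit 5) (nat_lit 248) (nat_lit 5) (nat_lit 584) (nat_lit 498) (nat_lit 478)) (XT.nd (nat_lit 78) (nat_lit 532) (nat_lit 0) (XT.lf (nat_lit 0) (nat_lit 4330840024) (nat_lit 532) (nat_lit 584474764) (nat_lit 608) (nat_lit 3672769157) (nat_lit 240) (nat_lit 5) (nat_lit 247) (nat_lit 5) (nat_lit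 248) (nat_lit 5) (nat_lit 585) (nat_lit 498) (nat_lit 477)) (XT.lf (nat_lit 0) (nat_lit 2453973498) (nat_lit 532) (nat_lit 6137386164) (nat_lit 608) (nat_lit 70291301) (nat_lit 233) (nat_lit 5) (nat_lit 240) (nat_lit 5) (nat_lit 241) (nat_lit 5) (nat_lit 586) (nat_lit 498) (nat_lit 476)))) (XT.nd (nat_lit 156) (nat_lit 1064) (nat_lit 0) (XT.nd (nat_lit 78) (nat_lit 0) (nat_lit 0) (XT.lf (nat_lit 0) (nat_lit 523785218) (nat_lit 532) (nat_lit 3014093728) (nat_lit 608) (nat_lit 5198730730) (nat_lit 225) (nat_lit 5) (nat_lit 232) (nat_lit 5) (nat_lit 233) (nat_lit 5) (nat_lit 587) (nat_lit 498) (nat_lit 475)) (XT.lf (nat_lit 0) (nat_lit 7205649782) (nat_lit 608) (nat_lit 1417147975) (nat_lit 76) (nat_lit 190499454) (nat_lit 225) (nat_lit 5) (nat_lit 233) (nat_lit 5) (nat_lit 226) (nat_lit 5) (nat_lit 588) (nat_lit 498) (nat_lit 474))) (XT.nd (nat_lit 78) (nat_lit 456) (nat_lit 0) (XT.lf (nat_lit 0) (nat_lit 2030323363) (nat_lit 608) (nat_lit 3413916426) (nat_lit 76) (nat_lit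 3446977663) (nat_lit 217) (nat_lit 5) (nat_lit 225) (nat_lit 5) (nat_lit 218) (nat_lit 5) (nat_lit 589) (nat_lit 498) (nat_lit 473)) (XT.lf (nat_lit 0) (nat_lit 3517983686) (nat_lit 456) (nat_lit 2180585842) (nat_lit 532) (nat_lit 3272339323) (nat_lit 211) (nat_lit 5) (nat_lit 217) (nat_lit 5) (nat_lit 218) (nat_lit 5) (nat_lit 590) (nat_lit 498) (nat_lit 472))))))) (XT.nd (nat_lit 936) (nat_lit 3648) (nat_lit 0) (XT.nd (nat_lit 468) (nat_lit 1748) (nat_lit 0) (XT.nd (nat_lit 234) (nat_lit 1520) (nat_lit 0) (XT.nd (nat_lit 78) (nat_lit 456) (nat_lit 0) (XT.lf (nat_lit 0) (nat_lit 370209436) (nat_lit 608) (nat_lit 7535715358) (nat_lit 76) (nat_lit 1146478569) (nat_lit 203) (nat_lit 5) (nat_lit 211) (nat_lit 5) (nat_lit 204) (nat_lit 5) (nat_lit 591) (nat_lit 498) (nat_lit 471)) (XT.nd (nat_lit 78) (nat_lit 456) (nat_lit 0) (XT.lf (nat_lit 0) (nat_lit 4040323655) (nat_lit 608) (nat_lit 547953817) (nat_lit 76) (nat_lit 4546852847) (nat_lit 203) (nat_lit 5) (nat_lit 211)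 (nat_lit 5) (nat_lit 204) (nat_lit 5) (nat_lit 592) (nat_lit 498) (nat_lit 470)) (XT.lf (nat_lit 0) (nat_lit 6591091849) (nat_lit 456) (nat_lit 1183791906) (nat_lit 532) (nat_lit 1444812850) (nat_lit 197) (nat_lit 5) (nat_lit 203) (nat_lit 5) (nat_lit 204) (nat_lit 5) (nat_lit 593) (nat_lit 498) (nat_lit 469)))) (XT.nd (nat_lit 78) (nat_lit 988) (nat_lit 0) (XT.lf (nat_lit 0) (nat_lit 2244968988) (nat_lit 532) (nat_lit 4776921824) (nat_lit 76) (nat_lit 2283839686) (nat_lit 190) (nat_lit 5) (nat_lit 197) (nat_lit 5) (nat_lit 191) (nat_lit 5) (nat_lit 594) (nat_lit 498) (nat_lit 468)) (XT.nd (nat_lit 78) (nat_lit 532) (nat_lit 0) (XT.lf (nat_lit 0) (nat_lit 2410467336) (nat_lit 456) (nat_lit 3568807502) (nat_lit 532) (nat_lit 3414223074) (nat_lit 184) (nat_lit 5) (nat_lit 190) (nat_lit 5) (nat_lit 191) (nat_lit 5) (nat_lit 595) (nat_lit 498) (nat_lit 467)) (XT.lf (nat_lit 0) (nat_lit 249376083) (nat_lit 456) (nat_lit 34739976) (nat_lit 532) (nat_lit 9199212646) (nat_lit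 177) (nat_lit 5) (nat_lit 183) (nat_lit 5) (nat_lit 184) (nat_lit 5) (nat_lit 596) (nat_lit 498) (nat_lit 466))))) (XT.nd (nat_lit 234) (nat_lit 836) (nat_lit 0) (XT.nd (nat_lit 78) (nat_lit 912) (nat_lit 0) (XT.lf (nat_lit 0) (nat_lit 4030435422) (nat_lit 532) (nat_lit 1975065653) (nat_lit 76) (nat_lit 3568614110) (nat_lit 177) (nat_lit 5) (nat_lit 184) (nat_lit 5) (nat_lit 178) (nat_lit 5) (nat_lit 597) (nat_lit 498) (nat_lit 465)) (XT.nd (nat_lit 78) (nat_lit 532) (nat_lit 0) (XT.lf (nat_lit 0) (nat_lit 5425380211) (nat_lit 380) (nat_lit 2412087714) (nat_lit 456) (nat_lit 1829538667) (nat_lit 172) (nat_lit 5) (nat_lit 177) (nat_lit 5) (nat_lit 178) (nat_lit 5) (nat_lit 598) (nat_lit 498) (nat_lit 464)) (XT.lf (nat_lit 0) (nat_lit 1926046752) (nat_lit 532) (nat_lit 6576619771) (nat_lit 76) (nat_lit 1258982624) (nat_lit 165) (nat_lit 5) (nat_lit 172) (nat_lit 5) (nat_lit 166) (nat_lit 5) (nat_lit 599) (nat_lit 498) (nat_lit 463)))) (XT.nd (nat_lit 78) (nat_lit 456) (nat_lit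 0) (XT.lf (nat_lit 0) (nat_lit 868161058) (nat_lit 380) (nat_lit 4865190313) (nat_lit 456) (nat_lit 4124573864) (nat_lit 160) (nat_lit 5) (nat_lit 165) (nat_lit 5) (nat_lit 166) (nat_lit 5) (nat_lit 600) (nat_lit 498) (nat_lit 462)) (XT.nd (nat_lit 78) (nat_lit 456) (nat_lit 0) (XT.lf (nat_lit 0) (nat_lit 8476433421) (nat_lit 380) (nat_lit 1135800830) (nat_lit 456) (nat_lit 343988506) (nat_lit 160) (nat_lit 5) (nat_lit 165) (nat_lit 5) (nat_lit 166) (nat_lit 5) (nat_lit 601) (nat_lit 498) (nat_lit 461)) (XT.lf (nat_lit 0) (nat_lit 3475677530) (nat_lit 456) (nat_lit 3909069059) (nat_lit 76) (nat_lit 2671097306) (nat_lit 154) (nat_lit 5) (nat_lit 160) (nat_lit 5) (nat_lit 155) (nat_lit 5) (nat_lit 602) (nat_lit 498) (nat_lit 460)))))) (XT.nd (nat_lit 468) (nat_lit 1748) (nat_lit 0) (XT.nd (nat_lit 234) (nat_lit 1064) (nat_lit 0) (XT.nd (nat_lit 78) (nat_lit 456) (nat_lit 0) (XT.lf (nat_lit 0) (nat_lit 3754001176) (nat_lit 380) (nat_lit 3607259525) (nat_lit 456) (nat_lit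 2796272975) (nat_lit 149) (nat_lit 5) (nat_lit 154) (nat_lit 5) (nat_lit 155) (nat_lit 5) (nat_lit 603) (nat_lit 498) (nat_lit 459)) (XT.nd (nat_lit 78) (nat_lit 0) (nat_lit 0) (XT.lf (nat_lit 0) (nat_lit 1038263883) (nat_lit 456) (nat_lit 8964727206) (nat_lit 76) (nat_lit 258353999) (nat_lit 143) (nat_lit 5) (nat_lit 149) (nat_lit 5) (nat_lit 144) (nat_lit 5) (nat_lit 604) (nat_lit 498) (nat_lit 458)) (XT.lf (nat_lit 0) (nat_lit 4931888072) (nat_lit 456) (nat_lit 1245967472) (nat_lit 76) (nat_lit 4188614788) (nat_lit 143) (nat_lit 5) (nat_lit 149) (nat_lit 5) (nat_lit 144) (nat_lit 5) (nat_lit 605) (nat_lit 498) (nat_lit 457)))) (XT.nd (nat_lit 78) (nat_lit 760) (nat_lit 0) (XT.lf (nat_lit 0) (nat_lit 6641254058) (nat_lit 304) (nat_lit 2258837272) (nat_lit 380) (nat_lit 1573676587) (nat_lit 139) (nat_lit 5) (nat_lit 143) (nat_lit 5) (nat_lit 144) (nat_lit 5) (nat_lit 606) (nat_lit 498) (nat_lit 456)) (XT.nd (nat_lit 78) (nat_lit 304) (nat_lit 0) (XT.lf (nat_lit 0) (nat_lit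 2333541034) (nat_lit 456) (nat_lit 6509499870) (nat_lit 76) (nat_lit 1739865252) (nat_lit 133) (nat_lit 5) (nat_lit 139) (nat_lit 5) (nat_lit 134) (nat_lit 5) (nat_lit 607) (nat_lit 498) (nat_lit 455)) (XT.lf (nat_lit 0) (nat_lit 1415274772) (nat_lit 304) (nat_lit 4886592461) (nat_lit 380) (nat_lit 4392074909) (nat_lit 129) (nat_lit 5) (nat_lit 133) (nat_lit 5) (nat_lit 134) (nat_lit 5) (nat_lit 608) (nat_lit 498) (nat_lit 454))))) (XT.nd (nat_lit 234) (nat_lit 1064) (nat_lit 0) (XT.nd (nat_lit 78) (nat_lit 684) (nat_lit 0) (XT.lf (nat_lit 0) (nat_lit 9513847526) (nat_lit 304) (nat_lit 833802881) (nat_lit 380) (nat_lit 459590295) (nat_lit 129) (nat_lit 5) (nat_lit 133) (nat_lit 5) (nat_lit 134) (nat_lit 5) (nat_lit 609) (nat_lit 498) (nat_lit 453)) (XT.nd (nat_lit 78) (nat_lit 304) (nat_lit 0) (XT.lf (nat_lit 0) (nat_lit 3526114819) (nat_lit 380) (nat_lit 4097845630) (nat_lit 76) (nat_lit 3297964129) (nat_lit 124) (nat_lit 5) (nat_lit 129) (nat_lit 5) (nat_lit 125) (nat_lit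 5) (nat_lit 610) (nat_lit 498) (nat_lit 452)) (XT.lf (nat_lit 0) (nat_lit 4054910338) (nat_lit 304) (nat_lit 3526305659) (nat_lit 380) (nat_lit 3457712112) (nat_lit 120) (nat_lit 5) (nat_lit 124) (nat_lit 5) (nat_lit 125) (nat_lit 5) (nat_lit 611) (nat_lit 498) (nat_lit 451)))) (XT.nd (nat_lit 156) (nat_lit 684) (nat_lit 0) (XT.nd (nat_lit 78) (nat_lit 0) (nat_lit 0) (XT.lf (nat_lit 0) (nat_lit 547017228) (nat_lit 380) (nat_lit 9954598301) (nat_lit 76) (nat_lit 656682833) (nat_lit 115) (nat_lit 5) (nat_lit 120) (nat_lit 5) (nat_lit 116) (nat_lit 5) (nat_lit 612) (nat_lit 498) (nat_lit 450)) (XT.lf (nat_lit 0) (nat_lit 4611701271) (nat_lit 380) (nat_lit 1748541670) (nat_lit 76) (nat_lit 4918836044) (nat_lit 115) (nat_lit 5) (nat_lit 120) (nat_lit 5) (nat_lit 116) (nat_lit 5) (nat_lit 613) (nat_lit 498) (nat_lit 449))) (XT.nd (nat_lit 78) (nat_lit 380) (nat_lit 0) (XT.lf (nat_lit 0) (nat_lit 6637409181) (nat_lit 304) (nat_lit 2119820921) (nat_lit 380) (nat_lit 2645057289)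 (nat_lit 111) (nat_lit 5) (nat_lit 115) (nat_lit 5) (nat_lit 116) (nat_lit 5) (nat_lit 614) (nat_lit 498) (nat_lit 448)) (XT.lf (nat_lit 0) (nat_lit 1445124640) (nat_lit 380) (nat_lit 7888319367) (nat_lit 76) (nat_lit 2194199070) (nat_lit 106) (nat_lit 5) (nat_lit 111) (nat_lit 5) (nat_lit 107) (nat_lit 5) (nat_lit 615) (nat_lit 498) (nat_lit 447))))))))
noncomputable def xc37 : XT := (XT.nd (nat_lit 1950) (nat_lit 988) (nat_lit 0) (XT.nd (nat_lit 936) (nat_lit 2128) (nat_lit 0) (XT.nd (nat_lit 468) (nat_lit 1064) (nat_lit 0) (XT.nd (nat_lit 234) (nat_lit 608) (nat_lit 0) (XT.nd (nat_lit 78) (nat_lit 380) (nat_lit 0) (XT.lf (nat_lit 0) (nat_lit 524846239) (nat_lit 228) (nat_lit 5063284712) (nat_lit 304) (nat_lit 6066899495) (nat_lit 103) (nat_lit 5) (nat_lit 106) (nat_lit 5) (nat_lit 107) (nat_lit 5) (nat_lit 616) (nat_lit 498) (nat_lit 446)) (XT.nd (nat_lit 78) (nat_lit 380) (nat_lit 0) (XT.lf (nat_lit 0) (nat_lit 9142072030) (nat_lit 228) (nat_lit 682018064) (nat_lit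 304) (nat_lit 1960676560) (nat_lit 103) (nat_lit 5) (nat_lit 106) (nat_lit 5) (nat_lit 107) (nat_lit 5) (nat_lit 617) (nat_lit 498) (nat_lit 445)) (XT.lf (nat_lit 0) (nat_lit 2219942322) (nat_lit 380) (nat_lit 5933052210) (nat_lit 76) (nat_lit 3763386862) (nat_lit 98) (nat_lit 5) (nat_lit 103) (nat_lit 5) (nat_lit 99) (nat_lit 5) (nat_lit 618) (nat_lit 498) (nat_lit 444)))) (XT.nd (nat_lit 78) (nat_lit 380) (nat_lit 0) (XT.lf (nat_lit 0) (nat_lit 2714911502) (nat_lit 228) (nat_lit 3740939411) (nat_lit 304) (nat_lit 5594562476) (nat_lit 95) (nat_lit 5) (nat_lit 98) (nat_lit 5) (nat_lit 99) (nat_lit 5) (nat_lit 619) (nat_lit 498) (nat_lit 443)) (XT.nd (nat_lit 78) (nat_lit 380) (nat_lit 0) (XT.lf (nat_lit 0) (nat_lit 10779583454) (nat_lit 304) (nat_lit 645952980) (nat_lit 76) (nat_lit 761530197) (nat_lit 95) (nat_lit 5) (nat_lit 99) (nat_lit 5) (nat_lit 96) (nat_lit 5) (nat_lit 620) (nat_lit 498) (nat_lit 442)) (XT.lf (nat_lit 0) (nat_lit 2863164657) (nat_lit 380) (nat_lit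 4113284339) (nat_lit 76) (nat_lit 5348887141) (nat_lit 90) (nat_lit 5) (nat_lit 95) (nat_lit 5) (nat_lit 91) (nat_lit 5) (nat_lit 621) (nat_lit 498) (nat_lit 441))))) (XT.nd (nat_lit 234) (nat_lit 532) (nat_lit 0) (XT.nd (nat_lit 78) (nat_lit 304) (nat_lit 0) (XT.lf (nat_lit 0) (nat_lit 4773551314) (nat_lit 228) (nat_lit 2421207813) (nat_lit 304) (nat_lit 5271540807) (nat_lit 87) (nat_lit 5) (nat_lit 90) (nat_lit 5) (nat_lit 91) (nat_lit 5) (nat_lit 622) (nat_lit 498) (nat_lit 440)) (XT.nd (nat_lit 78) (nat_lit 76) (nat_lit 0) (XT.lf (nat_lit 0) (nat_lit 1216100597) (nat_lit 228) (nat_lit 10406191093) (nat_lit 304) (nat_lit 987607707) (nat_lit 84) (nat_lit 5) (nat_lit 87) (nat_lit 5) (nat_lit 88) (nat_lit 5) (nat_lit 623) (nat_lit 498) (nat_lit 439)) (XT.lf (nat_lit 0) (nat_lit 3364906779) (nat_lit 304) (nat_lit 2455923377) (nat_lit 76) (nat_lit 6934558781) (nat_lit 83) (nat_lit 5) (nat_lit 87) (nat_lit 5) (nat_lit 84) (nat_lit 5) (nat_lit 624) (nat_lit 498) (nat_lit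 438)))) (XT.nd (nat_lit 78) (nat_lit 304) (nat_lit 0) (XT.lf (nat_lit 0) (nat_lit 6673403330) (nat_lit 228) (nat_lit 1121243078) (nat_lit 304) (nat_lit 5108945690) (nat_lit 80) (nat_lit 5) (nat_lit 83) (nat_lit 5) (nat_lit 84) (nat_lit 5) (nat_lit 625) (nat_lit 498) (nat_lit 437)) (XT.nd (nat_lit 78) (nat_lit 76) (nat_lit 0) (XT.lf (nat_lit 0) (nat_lit 2909939203) (nat_lit 228) (nat_lit 9422585556) (nat_lit 304) (nat_lit 721846009) (nat_lit 77) (nat_lit 5) (nat_lit 80) (nat_lit 5) (nat_lit 81) (nat_lit 5) (nat_lit 626) (nat_lit 498) (nat_lit 436)) (XT.lf (nat_lit 0) (nat_lit 3713577452) (nat_lit 304) (nat_lit 990606460) (nat_lit 76) (nat_lit 8503299933) (nat_lit 76) (nat_lit 5) (nat_lit 80) (nat_lit 5) (nat_lit 77) (nat_lit 5) (nat_lit 627) (nat_lit 498) (nat_lit 435)))))) (XT.nd (nat_lit 468) (nat_lit 912) (nat_lit 0) (XT.nd (nat_lit 234) (nat_lit 456) (nat_lit 0) (XT.nd (nat_lit 78) (nat_lit 532) (nat_lit 0) (XT.lf (nat_lit 0) (nat_lit 8244474381) (nat_lit 304) (nat_lit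 4979879343) (nat_lit 76) (nat_lit 138883612) (nat_lit 73) (nat_lit 5) (nat_lit 77) (nat_lit 5) (nat_lit 74) (nat_lit 5) (nat_lit 628) (nat_lit 498) (nat_lit 434)) (XT.nd (nat_lit 78) (nat_lit 304) (nat_lit 0) (XT.lf (nat_lit 0) (nat_lit 4395369655) (nat_lit 228) (nat_lit 8498220919) (nat_lit 304) (nat_lit 627965443) (nat_lit 70) (nat_lit 5) (nat_lit 73) (nat_lit 5) (nat_lit 74) (nat_lit 5) (nat_lit 629) (nat_lit 498) (nat_lit 433)) (XT.lf (nat_lit 0) (nat_lit 253282717) (nat_lit 228) (nat_lit 3644096993) (nat_lit 304) (nat_lit 9785218733) (nat_lit 66) (nat_lit 5) (nat_lit 69) (nat_lit 5) (nat_lit 70) (nat_lit 5) (nat_lit 630) (nat_lit 498) (nat_lit 432)))) (XT.nd (nat_lit 78) (nat_lit 456) (nat_lit 0) (XT.lf (nat_lit 0) (nat_lit 8536391586) (nat_lit 304) (nat_lit 3982188606) (nat_lit 76) (nat_lit 1327569166) (nat_lit 66) (nat_lit 5) (nat_lit 70) (nat_lit 5) (nat_lit 67) (nat_lit 5) (nat_lit 631) (nat_lit 498) (nat_lit 431)) (XT.nd (nat_lit 78) (nat_lit 228) (nat_lit 0)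 (XT.lf (nat_lit 0) (nat_lit 5637458908) (nat_lit 228) (nat_lit 7653643054) (nat_lit 304) (nat_lit 721412948) (nat_lit 63) (nat_lit 5) (nat_lit 66) (nat_lit 5) (nat_lit 67) (nat_lit 5) (nat_lit 632) (nat_lit 498) (nat_lit 430)) (XT.lf (nat_lit 0) (nat_lit 1245974100) (nat_lit 152) (nat_lit 2658041994) (nat_lit 228) (nat_lit 10277734808) (nat_lit 60) (nat_lit 5) (nat_lit 62) (nat_lit 5) (nat_lit 63) (nat_lit 5) (nat_lit 633) (nat_lit 498) (nat_lit 429))))) (XT.nd (nat_lit 234) (nat_lit 456) (nat_lit 0) (XT.nd (nat_lit 78) (nat_lit 456) (nat_lit 0) (XT.lf (nat_lit 0) (nat_lit 8647077222) (nat_lit 228) (nat_lit 3267695443) (nat_lit 76) (nat_lit 2438809781) (nat_lit 60) (nat_lit 5) (nat_lit 63) (nat_lit 5) (nat_lit 61) (nat_lit 5) (nat_lit 634) (nat_lit 498) (nat_lit 428)) (XT.nd (nat_lit 78) (nat_lit 228) (nat_lit 0) (XT.lf (nat_lit 0) (nat_lit 6597551807) (nat_lit 228) (nat_lit 6910999402) (nat_lit 304) (nat_lit 1019830213) (nat_lit 57) (nat_lit 5) (nat_lit 60) (nat_lit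 5) (nat_lit 61) (nat_lit 5) (nat_lit 635) (nat_lit 498) (nat_lit 427)) (XT.lf (nat_lit 0) (nat_lit 1933777466) (nat_lit 152) (nat_lit 1775280938) (nat_lit 228) (nat_lit 10997175395) (nat_lit 54) (nat_lit 5) (nat_lit 56) (nat_lit 5) (nat_lit 57) (nat_lit 5) (nat_lit 636) (nat_lit 498) (nat_lit 426)))) (XT.nd (nat_lit 156) (nat_lit 228) (nat_lit 0) (XT.nd (nat_lit 78) (nat_lit 228) (nat_lit 0) (XT.lf (nat_lit 0) (nat_lit 8558230234) (nat_lit 228) (nat_lit 2878292794) (nat_lit 76) (nat_lit 3450199883) (nat_lit 54) (nat_lit 5) (nat_lit 57) (nat_lit 5) (nat_lit 55) (nat_lit 5) (nat_lit 637) (nat_lit 498) (nat_lit 425)) (XT.lf (nat_lit 0) (nat_lit 7232833799) (nat_lit 228) (nat_lit 6294279302) (nat_lit 304) (nat_lit 1543255844) (nat_lit 51) (nat_lit 5) (nat_lit 54) (nat_lit 5) (nat_lit 55) (nat_lit 5) (nat_lit 638) (nat_lit 498) (nat_lit 424))) (XT.nd (nat_lit 78) (nat_lit 0) (nat_lit 0) (XT.lf (nat_lit 0) (nat_lit 2271812908) (nat_lit 152) (nat_lit 1020356468) (nat_lit 228)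 (nat_lit 11965121581) (nat_lit 48) (nat_lit 5) (nat_lit 50) (nat_lit 5) (nat_lit 51) (nat_lit 5) (nat_lit 639) (nat_lit 498) (nat_lit 423)) (XT.lf (nat_lit 0) (nat_lit 8249076821) (nat_lit 228) (nat_lit 2860374369) (nat_lit 76) (nat_lit 4337389039) (nat_lit 48) (nat_lit 5) (nat_lit 51) (nat_lit 5) (nat_lit 49) (nat_lit 5) (nat_lit 640) (nat_lit 498) (nat_lit 422))))))) (XT.nd (nat_lit 75426) (nat_lit 0) (nat_lit 18620) (XT.nd (nat_lit 468) (nat_lit 152) (nat_lit 0) (XT.nd (nat_lit 234) (nat_lit 380) (nat_lit 0) (XT.nd (nat_lit 78) (nat_lit 228) (nat_lit 0) (XT.lf (nat_lit 0) (nat_lit 7495849885) (nat_lit 228) (nat_lit 5829574843) (nat_lit 304) (nat_lit 2314351276) (nat_lit 45) (nat_lit 5) (nat_lit 48) (nat_lit 5) (nat_lit 49) (nat_lit 5) (nat_lit 641) (nat_lit 498) (nat_lit 421)) (XT.nd (nat_lit 78) (nat_lit 0) (nat_lit 0) (XT.lf (nat_lit 0) (nat_lit 2210345790) (nat_lit 152) (nat_lit 420008924) (nat_lit 228) (nat_lit 13205898993) (nat_lit 42) (nat_lit 5) (nat_lit 44)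 (nat_lit 5) (nat_lit 45) (nat_lit 5) (nat_lit 642) (nat_lit 498) (nat_lit 420)) (XT.lf (nat_lit 0) (nat_lit 7696133083) (nat_lit 228) (nat_lit 3265348161) (nat_lit 76) (nat_lit 5073811890) (nat_lit 42) (nat_lit 5) (nat_lit 45) (nat_lit 5) (nat_lit 43) (nat_lit 5) (nat_lit 643) (nat_lit 498) (nat_lit 419)))) (XT.nd (nat_lit 78) (nat_lit 228) (nat_lit 0) (XT.lf (nat_lit 0) (nat_lit 7333975047) (nat_lit 152) (nat_lit 5545364771) (nat_lit 228) (nat_lit 3358652720) (nat_lit 40) (nat_lit 5) (nat_lit 42) (nat_lit 5) (nat_lit 43) (nat_lit 5) (nat_lit 644) (nat_lit 498) (nat_lit 418)) (XT.nd (nat_lit 78) (nat_lit 0) (nat_lit 0) (XT.lf (nat_lit 0) (nat_lit 1694235776) (nat_lit 152) (nat_lit 3470012) (nat_lit 228) (nat_lit 14746841626) (nat_lit 37) (nat_lit 5) (nat_lit 39) (nat_lit 5) (nat_lit 40) (nat_lit 5) (nat_lit 645) (nat_lit 498) (nat_lit 417)) (XT.lf (nat_lit 0) (nat_lit 6872940541) (nat_lit 228) (nat_lit 4150201991) (nat_lit 76) (nat_lit 5630393775) (nat_lit 37) (nat_lit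 5) (nat_lit 40) (nat_lit 5) (nat_lit 38) (nat_lit 5) (nat_lit 646) (nat_lit 498) (nat_lit 416))))) (XT.nd (nat_lit 74724) (nat_lit 0) (nat_lit 26296) (XT.nd (nat_lit 74568) (nat_lit 0) (nat_lit 28120) (XT.lf (nat_lit 0) (nat_lit 6688830881) (nat_lit 152) (nat_lit 5472824228) (nat_lit 228) (nat_lit 4704851700) (nat_lit 35) (nat_lit 5) (nat_lit 37) (nat_lit 5) (nat_lit 38) (nat_lit 5) (nat_lit 647) (nat_lit 498) (nat_lit 415)) (XT.nd (nat_lit 78) (nat_lit 912) (nat_lit 0) (XT.lf (nat_lit 0) (nat_lit 1196228726) (nat_lit 988) (nat_lit 1255080206) (nat_lit 0) (nat_lit 1196228726) (nat_lit 417) (nat_lit 5) (nat_lit 430) (nat_lit 4) (nat_lit 417) (nat_lit 4) (nat_lit 562) (nat_lit 499) (nat_lit 499)) (XT.lf (nat_lit 0) (nat_lit 3045639806) (nat_lit 912) (nat_lit 2938825132) (nat_lit 912) (nat_lit 1352283972) (nat_lit 405) (nat_lit 4) (nat_lit 417) (nat_lit 5) (nat_lit 417) (nat_lit 4) (nat_lit 563) (nat_lit 499) (nat_lit 498)))) (XT.nd (nat_lit 78) (nat_lit 912) (nat_lit 0)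 (XT.lf (nat_lit 0) (nat_lit 1295409841) (nat_lit 836) (nat_lit 901314668) (nat_lit 912) (nat_lit 5183100791) (nat_lit 393) (nat_lit 5) (nat_lit 404) (nat_lit 5) (nat_lit 405) (nat_lit 4) (nat_lit 564) (nat_lit 499) (nat_lit 497)) (XT.nd (nat_lit 78) (nat_lit 912) (nat_lit 0) (XT.lf (nat_lit 0) (nat_lit 5768119098) (nat_lit 912) (nat_lit 463367764) (nat_lit 0) (nat_lit 1192719587) (nat_lit 393) (nat_lit 5) (nat_lit 405) (nat_lit 4) (nat_lit 393) (nat_lit 4) (nat_lit 565) (nat_lit 499) (nat_lit 496)) (XT.lf (nat_lit 0) (nat_lit 1890122463) (nat_lit 912) (nat_lit 2223070928) (nat_lit 76) (nat_lit 3356559136) (nat_lit 381) (nat_lit 5) (nat_lit 393) (nat_lit 5) (nat_lit 382) (nat_lit 4) (nat_lit 566) (nat_lit 499) (nat_lit 495)))))) (XT.nd (nat_lit 468) (nat_lit 3648) (nat_lit 0) (XT.nd (nat_lit 234) (nat_lit 1596) (nat_lit 0) (XT.nd (nat_lit 78) (nat_lit 1672) (nat_lit 0) (XT.lf (nat_lit 0) (nat_lit 3522130789) (nat_lit 760) (nat_lit 1923526786) (nat_lit 836) (nat_lit 2071133052)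 (nat_lit 371) (nat_lit 5) (nat_lit 381) (nat_lit 5) (nat_lit 382) (nat_lit 4) (nat_lit 567) (nat_lit 499) (nat_lit 494)) (XT.nd (nat_lit 78) (nat_lit 760) (nat_lit 0) (XT.lf (nat_lit 0) (nat_lit 1451496077) (nat_lit 912) (nat_lit 5780625629) (nat_lit 76) (nat_lit 333188457) (nat_lit 359) (nat_lit 5) (nat_lit 371) (nat_lit 5) (nat_lit 360) (nat_lit 4) (nat_lit 568) (nat_lit 499) (nat_lit 493)) (XT.lf (nat_lit 0) (nat_lit 17830871) (nat_lit 760) (nat_lit 4974533574) (nat_lit 836) (nat_lit 2622662348) (nat_lit 349) (nat_lit 5) (nat_lit 359) (nat_lit 5) (nat_lit 360) (nat_lit 4) (nat_lit 569) (nat_lit 499) (nat_lit 492)))) (XT.nd (nat_lit 78) (nat_lit 1520) (nat_lit 0) (XT.lf (nat_lit 0) (nat_lit 901053921) (nat_lit 836) (nat_lit 1736333620) (nat_lit 76) (nat_lit 5028737886) (nat_lit 348) (nat_lit 5) (nat_lit 359) (nat_lit 5) (nat_lit 349) (nat_lit 5) (nat_lit 570) (nat_lit 499) (nat_lit 491)) (XT.nd (nat_lit 78) (nat_lit 760) (nat_lit 0) (XT.lf (nat_lit 0) (nat_lit 4205377621)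 (nat_lit 760) (nat_lit 219340981) (nat_lit 836) (nat_lit 3293899147) (nat_lit 338) (nat_lit 5) (nat_lit 348) (nat_lit 5) (nat_lit 349) (nat_lit 5) (nat_lit 571) (nat_lit 499) (nat_lit 490)) (XT.lf (nat_lit 0) (nat_lit 223543294) (nat_lit 760) (nat_lit 5313743215) (nat_lit 76) (nat_lit 2235249596) (nat_lit 328) (nat_lit 5) (nat_lit 338) (nat_lit 5) (nat_lit 329) (nat_lit 5) (nat_lit 572) (nat_lit 499) (nat_lit 489))))) (XT.nd (nat_lit 234) (nat_lit 2128) (nat_lit 0) (XT.nd (nat_lit 78) (nat_lit 760) (nat_lit 0) (XT.lf (nat_lit 0) (nat_lit 681160889) (nat_lit 760) (nat_lit 3053965806) (nat_lit 836) (nat_lit 4092622400) (nat_lit 318) (nat_lit 5) (nat_lit 328) (nat_lit 5) (nat_lit 329) (nat_lit 5) (nat_lit 573) (nat_lit 499) (nat_lit 488)) (XT.nd (nat_lit 78) (nat_lit 760) (nat_lit 0) (XT.lf (nat_lit 0) (nat_lit 6793308669) (nat_lit 760) (nat_lit 498266248) (nat_lit 836) (nat_lit 593008246) (nat_lit 318) (nat_lit 5) (nat_lit 328) (nat_lit 5) (nat_lit 329) (nat_lit 5) (nat_lit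 574) (nat_lit 499) (nat_lit 487)) (XT.lf (nat_lit 0) (nat_lit 2924112611) (nat_lit 760) (nat_lit 2898541443) (nat_lit 76) (nat_lit 2119791388) (nat_lit 308) (nat_lit 5) (nat_lit 318) (nat_lit 5) (nat_lit 309) (nat_lit 5) (nat_lit 575) (nat_lit 499) (nat_lit 486)))) (XT.nd (nat_lit 156) (nat_lit 760) (nat_lit 0) (XT.nd (nat_lit 78) (nat_lit 684) (nat_lit 0) (XT.lf (nat_lit 0) (nat_lit 3276303572) (nat_lit 684) (nat_lit 3199661506) (nat_lit 760) (nat_lit 1525983835) (nat_lit 299) (nat_lit 5) (nat_lit 308) (nat_lit 5) (nat_lit 309) (nat_lit 5) (nat_lit 576) (nat_lit 499) (nat_lit 485)) (XT.lf (nat_lit 0) (nat_lit 1482824506) (nat_lit 608) (nat_lit 496556911) (nat_lit 684) (nat_lit 6083607724) (nat_lit 290) (nat_lit 5) (nat_lit 298) (nat_lit 5) (nat_lit 299) (nat_lit 5) (nat_lit 577) (nat_lit 499) (nat_lit 484))) (XT.nd (nat_lit 78) (nat_lit 760) (nat_lit 0) (XT.lf (nat_lit 0) (nat_lit 5522283906) (nat_lit 684) (nat_lit 345630040) (nat_lit 76) (nat_lit 2257385653) (nat_lit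 290) (nat_lit 5) (nat_lit 299) (nat_lit 5) (nat_lit 291) (nat_lit 5) (nat_lit 578) (nat_lit 499) (nat_lit 483)) (XT.lf (nat_lit 0) (nat_lit 919395993) (nat_lit 760) (nat_lit 2180082769) (nat_lit 76) (nat_lit 5089569992) (nat_lit 280) (nat_lit 5) (nat_lit 290) (nat_lit 5) (nat_lit 281) (nat_lit 5) (nat_lit 579) (nat_lit 499) (nat_lit 482))))))))
noncomputable def xc38 : XT := (XT.nd (nat_lit 1950) (nat_lit 5700) (nat_lit 0) (XT.nd (nat_lit 936) (nat_lit 4180) (nat_lit 0) (XT.nd (nat_lit 468) (nat_lit 2812) (nat_lit 0) (XT.nd (nat_lit 234) (nat_lit 1216) (nat_lit 0) (XT.nd (nat_lit 78) (nat_lit 1216) (nat_lit 0) (XT.lf (nat_lit 0) (nat_lit 4204862768) (nat_lit 608) (nat_lit 244870325) (nat_lit 684) (nat_lit 3804556984) (nat_lit 272) (nat_lit 5) (nat_lit 280) (nat_lit 5) (nat_lit 281) (nat_lit 5) (nat_lit 580) (nat_lit 499) (nat_lit 481)) (XT.nd (nat_lit 78) (nat_lit 608) (nat_lit 0) (XT.lf (nat_lit 0) (nat_lit 2365239500) (nat_lit 608) (nat_lit 5676032158) (nat_lit 684)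 (nat_lit 279760449) (nat_lit 264) (nat_lit 5) (nat_lit 272) (nat_lit 5) (nat_lit 273) (nat_lit 5) (nat_lit 581) (nat_lit 499) (nat_lit 480)) (XT.lf (nat_lit 0) (nat_lit 482372486) (nat_lit 532) (nat_lit 2765231081) (nat_lit 608) (nat_lit 5141571248) (nat_lit 256) (nat_lit 5) (nat_lit 263) (nat_lit 5) (nat_lit 264) (nat_lit 5) (nat_lit 582) (nat_lit 499) (nat_lit 479)))) (XT.nd (nat_lit 78) (nat_lit 1216) (nat_lit 0) (XT.lf (nat_lit 0) (nat_lit 6827277275) (nat_lit 608) (nat_lit 1406949072) (nat_lit 76) (nat_lit 224714204) (nat_lit 256) (nat_lit 5) (nat_lit 264) (nat_lit 5) (nat_lit 257) (nat_lit 5) (nat_lit 583) (nat_lit 499) (nat_lit 478)) (XT.nd (nat_lit 78) (nat_lit 532) (nat_lit 0) (XT.lf (nat_lit 0) (nat_lit 1919977585) (nat_lit 684) (nat_lit 3344206183) (nat_lit 76) (nat_lit 3265730090) (nat_lit 247) (nat_lit 5) (nat_lit 256) (nat_lit 5) (nat_lit 248) (nat_lit 5) (nat_lit 584) (nat_lit 499) (nat_lit 477)) (XT.lf (nat_lit 0) (nat_lit 3284962689) (nat_lit 532) (nat_lit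 2211974818) (nat_lit 608) (nat_lit 3105637639) (nat_lit 240) (nat_lit 5) (nat_lit 247) (nat_lit 5) (nat_lit 248) (nat_lit 5) (nat_lit 585) (nat_lit 499) (nat_lit 476))))) (XT.nd (nat_lit 234) (nat_lit 1672) (nat_lit 0) (XT.nd (nat_lit 78) (nat_lit 532) (nat_lit 0) (XT.lf (nat_lit 0) (nat_lit 445449822) (nat_lit 608) (nat_lit 7327316278) (nat_lit 76) (nat_lit 904212319) (nat_lit 232) (nat_lit 5) (nat_lit 240) (nat_lit 5) (nat_lit 233) (nat_lit 5) (nat_lit 586) (nat_lit 499) (nat_lit 475)) (XT.nd (nat_lit 78) (nat_lit 532) (nat_lit 0) (XT.lf (nat_lit 0) (nat_lit 4022547301) (nat_lit 608) (nat_lit 640370693) (nat_lit 76) (nat_lit 4089616250) (nat_lit 232) (nat_lit 5) (nat_lit 240) (nat_lit 5) (nat_lit 233) (nat_lit 5) (nat_lit 587) (nat_lit 499) (nat_lit 474)) (XT.lf (nat_lit 0) (nat_lit 6187814983) (nat_lit 532) (nat_lit 1470571408) (nat_lit 608) (nat_lit 1171477181) (nat_lit 225) (nat_lit 5) (nat_lit 232) (nat_lit 5) (nat_lit 233) (nat_lit 5) (nat_lit 588) (nat_lit 499)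 (nat_lit 473)))) (XT.nd (nat_lit 78) (nat_lit 1064) (nat_lit 0) (XT.lf (nat_lit 0) (nat_lit 2416681807) (nat_lit 608) (nat_lit 4702572565) (nat_lit 76) (nat_lit 1789357665) (nat_lit 217) (nat_lit 5) (nat_lit 225) (nat_lit 5) (nat_lit 218) (nat_lit 5) (nat_lit 589) (nat_lit 499) (nat_lit 472)) (XT.nd (nat_lit 78) (nat_lit 608) (nat_lit 0) (XT.lf (nat_lit 0) (nat_lit 2174929726) (nat_lit 456) (nat_lit 3875365010) (nat_lit 532) (nat_lit 2938704342) (nat_lit 211) (nat_lit 5) (nat_lit 217) (nat_lit 5) (nat_lit 218) (nat_lit 5) (nat_lit 590) (nat_lit 499) (nat_lit 471)) (XT.lf (nat_lit 0) (nat_lit 105575863) (nat_lit 532) (nat_lit 551323337) (nat_lit 608) (nat_lit 8414405317) (nat_lit 203) (nat_lit 5) (nat_lit 210) (nat_lit 5) (nat_lit 211) (nat_lit 5) (nat_lit 591) (nat_lit 499) (nat_lit 470)))))) (XT.nd (nat_lit 468) (nat_lit 2204) (nat_lit 0) (XT.nd (nat_lit 234) (nat_lit 988) (nat_lit 0) (XT.nd (nat_lit 78) (nat_lit 988) (nat_lit 0) (XT.lf (nat_lit 0) (nat_lit 4297814981)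 (nat_lit 608) (nat_lit 2011473923) (nat_lit 76) (nat_lit 2845329343) (nat_lit 203) (nat_lit 5) (nat_lit 211) (nat_lit 5) (nat_lit 204) (nat_lit 5) (nat_lit 592) (nat_lit 499) (nat_lit 469)) (XT.nd (nat_lit 78) (nat_lit 532) (nat_lit 0) (XT.lf (nat_lit 0) (nat_lit 5071279955) (nat_lit 456) (nat_lit 2926110949) (nat_lit 532) (nat_lit 1242496063) (nat_lit 197) (nat_lit 5) (nat_lit 203) (nat_lit 5) (nat_lit 204) (nat_lit 5) (nat_lit 593) (nat_lit 499) (nat_lit 468)) (XT.lf (nat_lit 0) (nat_lit 2397779869) (nat_lit 532) (nat_lit 6385088912) (nat_lit 76) (nat_lit 543965498) (nat_lit 190) (nat_lit 5) (nat_lit 197) (nat_lit 5) (nat_lit 191) (nat_lit 5) (nat_lit 594) (nat_lit 499) (nat_lit 467)))) (XT.nd (nat_lit 78) (nat_lit 532) (nat_lit 0) (XT.lf (nat_lit 0) (nat_lit 743802589) (nat_lit 456) (nat_lit 5352617428) (nat_lit 532) (nat_lit 3318897584) (nat_lit 184) (nat_lit 5) (nat_lit 190) (nat_lit 5) (nat_lit 191) (nat_lit 5) (nat_lit 595) (nat_lit 499) (nat_lit 466)) (XT.nd (nat_lit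 78) (nat_lit 456) (nat_lit 0) (XT.lf (nat_lit 0) (nat_lit 351813062) (nat_lit 532) (nat_lit 1479727412) (nat_lit 76) (nat_lit 7674125596) (nat_lit 183) (nat_lit 5) (nat_lit 190) (nat_lit 5) (nat_lit 184) (nat_lit 5) (nat_lit 596) (nat_lit 499) (nat_lit 465)) (XT.lf (nat_lit 0) (nat_lit 4052078528) (nat_lit 532) (nat_lit 3771538301) (nat_lit 76) (nat_lit 1773759239) (nat_lit 177) (nat_lit 5) (nat_lit 184) (nat_lit 5) (nat_lit 178) (nat_lit 5) (nat_lit 597) (nat_lit 499) (nat_lit 464))))) (XT.nd (nat_lit 234) (nat_lit 1292) (nat_lit 0) (XT.nd (nat_lit 78) (nat_lit 532) (nat_lit 0) (XT.lf (nat_lit 0) (nat_lit 3568373389) (nat_lit 380) (nat_lit 4254574492) (nat_lit 456) (nat_lit 1868045252) (nat_lit 172) (nat_lit 5) (nat_lit 177) (nat_lit 5) (nat_lit 178) (nat_lit 5) (nat_lit 598) (nat_lit 499) (nat_lit 463)) (XT.nd (nat_lit 78) (nat_lit 0) (nat_lit 0) (XT.lf (nat_lit 0) (nat_lit 1250995671) (nat_lit 456) (nat_lit 592127564) (nat_lit 532) (nat_lit 7943418192) (nat_lit 165)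 (nat_lit 5) (nat_lit 171) (nat_lit 5) (nat_lit 172) (nat_lit 5) (nat_lit 599) (nat_lit 499) (nat_lit 462)) (XT.lf (nat_lit 0) (nat_lit 5617077202) (nat_lit 532) (nat_lit 1134729368) (nat_lit 76) (nat_lit 3131680214) (nat_lit 165) (nat_lit 5) (nat_lit 172) (nat_lit 5) (nat_lit 166) (nat_lit 5) (nat_lit 600) (nat_lit 499) (nat_lit 461)))) (XT.nd (nat_lit 156) (nat_lit 456) (nat_lit 0) (XT.nd (nat_lit 78) (nat_lit 456) (nat_lit 0) (XT.lf (nat_lit 0) (nat_lit 6422279823) (nat_lit 380) (nat_lit 3042578547) (nat_lit 456) (nat_lit 517550183) (nat_lit 160) (nat_lit 5) (nat_lit 165) (nat_lit 5) (nat_lit 166) (nat_lit 5) (nat_lit 601) (nat_lit 499) (nat_lit 460)) (XT.lf (nat_lit 0) (nat_lit 3254588592) (nat_lit 456) (nat_lit 6066569440) (nat_lit 76) (nat_lit 761892391) (nat_lit 154) (nat_lit 5) (nat_lit 160) (nat_lit 5) (nat_lit 155) (nat_lit 5) (nat_lit 602) (nat_lit 499) (nat_lit 459))) (XT.nd (nat_lit 78) (nat_lit 76) (nat_lit 0) (XT.lf (nat_lit 0) (nat_lit 1531417456) (nat_lit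 380) (nat_lit 5571141070) (nat_lit 456) (nat_lit 3082936028) (nat_lit 149) (nat_lit 5) (nat_lit 154) (nat_lit 5) (nat_lit 155) (nat_lit 5) (nat_lit 603) (nat_lit 499) (nat_lit 458)) (XT.lf (nat_lit 0) (nat_lit 722116984) (nat_lit 456) (nat_lit 1003366455) (nat_lit 76) (nat_lit 8564526623) (nat_lit 148) (nat_lit 5) (nat_lit 154) (nat_lit 5) (nat_lit 149) (nat_lit 5) (nat_lit 604) (nat_lit 499) (nat_lit 457))))))) (XT.nd (nat_lit 936) (nat_lit 2508) (nat_lit 0) (XT.nd (nat_lit 468) (nat_lit 1368) (nat_lit 0) (XT.nd (nat_lit 234) (nat_lit 684) (nat_lit 0) (XT.nd (nat_lit 78) (nat_lit 760) (nat_lit 0) (XT.lf (nat_lit 0) (nat_lit 4574916725) (nat_lit 456) (nat_lit 3612982181) (nat_lit 76) (nat_lit 2208054853) (nat_lit 143) (nat_lit 5) (nat_lit 149) (nat_lit 5) (nat_lit 144) (nat_lit 5) (nat_lit 605) (nat_lit 499) (nat_lit 456)) (XT.nd (nat_lit 78) (nat_lit 456) (nat_lit 0) (XT.lf (nat_lit 0) (nat_lit 4206874910) (nat_lit 304) (nat_lit 4297913338) (nat_lit 380) (nat_lit 1999231657)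 (nat_lit 139) (nat_lit 5) (nat_lit 143) (nat_lit 5) (nat_lit 144) (nat_lit 5) (nat_lit 606) (nat_lit 499) (nat_lit 455)) (XT.lf (nat_lit 0) (nat_lit 1554520437) (nat_lit 380) (nat_lit 308707554) (nat_lit 456) (nat_lit 8750994046) (nat_lit 133) (nat_lit 5) (nat_lit 138) (nat_lit 5) (nat_lit 139) (nat_lit 5) (nat_lit 607) (nat_lit 499) (nat_lit 454)))) (XT.nd (nat_lit 78) (nat_lit 684) (nat_lit 0) (XT.lf (nat_lit 0) (nat_lit 5798025224) (nat_lit 456) (nat_lit 1187117278) (nat_lit 76) (nat_lit 3740787914) (nat_lit 133) (nat_lit 5) (nat_lit 139) (nat_lit 5) (nat_lit 134) (nat_lit 5) (nat_lit 608) (nat_lit 499) (nat_lit 453)) (XT.nd (nat_lit 78) (nat_lit 380) (nat_lit 0) (XT.lf (nat_lit 0) (nat_lit 6860280668) (nat_lit 304) (nat_lit 2953590142) (nat_lit 380) (nat_lit 1025958697) (nat_lit 129) (nat_lit 5) (nat_lit 133) (nat_lit 5) (nat_lit 134) (nat_lit 5) (nat_lit 609) (nat_lit 499) (nat_lit 452)) (XT.lf (nat_lit 0) (nat_lit 2913465955) (nat_lit 380) (nat_lit 6870901519) (nat_lit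 76) (nat_lit 1171295333) (nat_lit 124) (nat_lit 5) (nat_lit 129) (nat_lit 5) (nat_lit 125) (nat_lit 5) (nat_lit 610) (nat_lit 499) (nat_lit 451))))) (XT.nd (nat_lit 234) (nat_lit 684) (nat_lit 0) (XT.nd (nat_lit 78) (nat_lit 380) (nat_lit 0) (XT.lf (nat_lit 0) (nat_lit 1209419916) (nat_lit 304) (nat_lit 5718950533) (nat_lit 380) (nat_lit 4145101499) (nat_lit 120) (nat_lit 5) (nat_lit 124) (nat_lit 5) (nat_lit 125) (nat_lit 5) (nat_lit 611) (nat_lit 499) (nat_lit 450)) (XT.nd (nat_lit 78) (nat_lit 380) (nat_lit 0) (XT.lf (nat_lit 0) (nat_lit 9474018188) (nat_lit 304) (nat_lit 1552186869) (nat_lit 380) (nat_lit 167382893) (nat_lit 120) (nat_lit 5) (nat_lit 124) (nat_lit 5) (nat_lit 125) (nat_lit 5) (nat_lit 612) (nat_lit 499) (nat_lit 449)) (XT.lf (nat_lit 0) (nat_lit 3856474584) (nat_lit 380) (nat_lit 4754226015) (nat_lit 76) (nat_lit 2704551726) (nat_lit 115) (nat_lit 5) (nat_lit 120) (nat_lit 5) (nat_lit 116) (nat_lit 5) (nat_lit 613) (nat_lit 499) (nat_lit 448)))) (XT.nd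 (nat_lit 78) (nat_lit 380) (nat_lit 0) (XT.lf (nat_lit 0) (nat_lit 3556727014) (nat_lit 304) (nat_lit 4404141120) (nat_lit 380) (nat_lit 3478416849) (nat_lit 111) (nat_lit 5) (nat_lit 115) (nat_lit 5) (nat_lit 116) (nat_lit 5) (nat_lit 614) (nat_lit 499) (nat_lit 447)) (XT.nd (nat_lit 78) (nat_lit 0) (nat_lit 0) (XT.lf (nat_lit 0) (nat_lit 465309841) (nat_lit 304) (nat_lit 101163591) (nat_lit 380) (nat_lit 10999401367) (nat_lit 106) (nat_lit 5) (nat_lit 110) (nat_lit 5) (nat_lit 111) (nat_lit 5) (nat_lit 615) (nat_lit 499) (nat_lit 446)) (XT.lf (nat_lit 0) (nat_lit 4684434957) (nat_lit 380) (nat_lit 2728377702) (nat_lit 76) (nat_lit 4280951863) (nat_lit 106) (nat_lit 5) (nat_lit 111) (nat_lit 5) (nat_lit 107) (nat_lit 5) (nat_lit 616) (nat_lit 499) (nat_lit 445)))))) (XT.nd (nat_lit 468) (nat_lit 1064) (nat_lit 0) (XT.nd (nat_lit 234) (nat_lit 836) (nat_lit 0) (XT.nd (nat_lit 78) (nat_lit 380) (nat_lit 0) (XT.lf (nat_lit 0) (nat_lit 5818066295) (nat_lit 228) (nat_lit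 3063584869) (nat_lit 304) (nat_lit 2942625857) (nat_lit 103) (nat_lit 5) (nat_lit 106) (nat_lit 5) (nat_lit 107) (nat_lit 5) (nat_lit 617) (nat_lit 499) (nat_lit 444)) (XT.nd (nat_lit 78) (nat_lit 0) (nat_lit 0) (XT.lf (nat_lit 0) (nat_lit 1192297800) (nat_lit 380) (nat_lit 9394136108) (nat_lit 76) (nat_lit 1370758210) (nat_lit 98) (nat_lit 5) (nat_lit 103) (nat_lit 5) (nat_lit 99) (nat_lit 5) (nat_lit 618) (nat_lit 499) (nat_lit 443)) (XT.lf (nat_lit 0) (nat_lit 5390151920) (nat_lit 380) (nat_lit 815994856) (nat_lit 76) (nat_lit 5885839774) (nat_lit 98) (nat_lit 5) (nat_lit 103) (nat_lit 5) (nat_lit 99) (nat_lit 5) (nat_lit 619) (nat_lit 499) (nat_lit 442)))) (XT.nd (nat_lit 78) (nat_lit 608) (nat_lit 0) (XT.lf (nat_lit 0) (nat_lit 7970482614) (nat_lit 228) (nat_lit 1712775774) (nat_lit 304) (nat_lit 2545995246) (nat_lit 95) (nat_lit 5) (nat_lit 98) (nat_lit 5) (nat_lit 99) (nat_lit 5) (nat_lit 620) (nat_lit 499) (nat_lit 441)) (XT.nd (nat_lit 78) (nat_lit 228) (nat_lit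 0) (XT.lf (nat_lit 0) (nat_lit 1684243801) (nat_lit 380) (nat_lit 7832460453) (nat_lit 76) (nat_lit 2852074809) (nat_lit 90) (nat_lit 5) (nat_lit 95) (nat_lit 5) (nat_lit 91) (nat_lit 5) (nat_lit 621) (nat_lit 499) (nat_lit 440)) (XT.lf (nat_lit 0) (nat_lit 970822207) (nat_lit 228) (nat_lit 5000429995) (nat_lit 304) (nat_lit 6539383624) (nat_lit 87) (nat_lit 5) (nat_lit 90) (nat_lit 5) (nat_lit 91) (nat_lit 5) (nat_lit 622) (nat_lit 499) (nat_lit 439))))) (XT.nd (nat_lit 234) (nat_lit 532) (nat_lit 0) (XT.nd (nat_lit 78) (nat_lit 532) (nat_lit 0) (XT.lf (nat_lit 0) (nat_lit 9988756541) (nat_lit 228) (nat_lit 367963018) (nat_lit 304) (nat_lit 2298358255) (nat_lit 87) (nat_lit 5) (nat_lit 90) (nat_lit 5) (nat_lit 91) (nat_lit 5) (nat_lit 623) (nat_lit 499) (nat_lit 438)) (XT.nd (nat_lit 78) (nat_lit 228) (nat_lit 0) (XT.lf (nat_lit 0) (nat_lit 2031527074) (nat_lit 304) (nat_lit 6442099279) (nat_lit 76) (nat_lit 4327908778) (nat_lit 83) (nat_lit 5) (nat_lit 87) (nat_lit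 5) (nat_lit 84) (nat_lit 5) (nat_lit 624) (nat_lit 499) (nat_lit 437)) (XT.lf (nat_lit 0) (nat_lit 2600669391) (nat_lit 228) (nat_lit 3814769058) (nat_lit 304) (nat_lit 6535217557) (nat_lit 80) (nat_lit 5) (nat_lit 83) (nat_lit 5) (nat_lit 84) (nat_lit 5) (nat_lit 625) (nat_lit 499) (nat_lit 436)))) (XT.nd (nat_lit 156) (nat_lit 228) (nat_lit 0) (XT.nd (nat_lit 78) (nat_lit 304) (nat_lit 0) (XT.lf (nat_lit 0) (nat_lit 10897627366) (nat_lit 304) (nat_lit 1263756731) (nat_lit 76) (nat_lit 941165495) (nat_lit 80) (nat_lit 5) (nat_lit 84) (nat_lit 5) (nat_lit 81) (nat_lit 5) (nat_lit 626) (nat_lit 499) (nat_lit 435)) (XT.lf (nat_lit 0) (nat_lit 2222311212) (nat_lit 304) (nat_lit 5253018488) (nat_lit 76) (nat_lit 5781079454) (nat_lit 76) (nat_lit 5) (nat_lit 80) (nat_lit 5) (nat_lit 77) (nat_lit 5) (nat_lit 627) (nat_lit 499) (nat_lit 434))) (XT.nd (nat_lit 78) (nat_lit 0) (nat_lit 0) (XT.lf (nat_lit 0) (nat_lit 4032191057) (nat_lit 228) (nat_lit 2672952953) (nat_lit 304)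 (nat_lit 6707980979) (nat_lit 73) (nat_lit 5) (nat_lit 76) (nat_lit 5) (nat_lit 77) (nat_lit 5) (nat_lit 628) (nat_lit 499) (nat_lit 433)) (XT.lf (nat_lit 0) (nat_lit 11289545708) (nat_lit 304) (nat_lit 78657238) (nat_lit 76) (nat_lit 2204536056) (nat_lit 73) (nat_lit 5) (nat_lit 77) (nat_lit 5) (nat_lit 74) (nat_lit 5) (nat_lit 629) (nat_lit 499) (nat_lit 432))))))))
noncomputable def xc39 : XT := (XT.nd (nat_lit 76284) (nat_lit 0) (nat_lit 13300) (XT.nd (nat_lit 936) (nat_lit 760) (nat_lit 0) (XT.nd (nat_lit 468) (nat_lit 912) (nat_lit 0) (XT.nd (nat_lit 234) (nat_lit 456) (nat_lit 0) (XT.nd (nat_lit 78) (nat_lit 456) (nat_lit 0) (XT.lf (nat_lit 0) (nat_lit 2242906487) (nat_lit 304) (nat_lit 4298270919) (nat_lit 76) (nat_lit 7193239040) (nat_lit 69) (nat_lit 5) (nat_lit 73) (nat_lit 5) (nat_lit 70) (nat_lit 5) (nat_lit 630) (nat_lit 499) (nat_lit 431)) (XT.nd (nat_lit 78) (nat_lit 228) (nat_lit 0) (XT.lf (nat_lit 0) (nat_lit 5231692774) (nat_lit 228) (nat_lit 1594582272)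 (nat_lit 304) (nat_lit 7072806163) (nat_lit 66) (nat_lit 5) (nat_lit 69) (nat_lit 5) (nat_lit 70) (nat_lit 5) (nat_lit 631) (nat_lit 499) (nat_lit 430)) (XT.lf (nat_lit 0) (nat_lit 867916778) (nat_lit 228) (nat_lit 10653394348) (nat_lit 304) (nat_lit 2545330083) (nat_lit 63) (nat_lit 5) (nat_lit 66) (nat_lit 5) (nat_lit 67) (nat_lit 5) (nat_lit 632) (nat_lit 499) (nat_lit 429)))) (XT.nd (nat_lit 78) (nat_lit 380) (nat_lit 0) (XT.lf (nat_lit 0) (nat_lit 2077607190) (nat_lit 304) (nat_lit 3614368375) (nat_lit 76) (nat_lit 8544667658) (nat_lit 62) (nat_lit 5) (nat_lit 66) (nat_lit 5) (nat_lit 63) (nat_lit 5) (nat_lit 633) (nat_lit 499) (nat_lit 428)) (XT.nd (nat_lit 78) (nat_lit 228) (nat_lit 0) (XT.lf (nat_lit 0) (nat_lit 6161913896) (nat_lit 152) (nat_lit 600759549) (nat_lit 228) (nat_lit 7646962127) (nat_lit 60) (nat_lit 5) (nat_lit 62) (nat_lit 5) (nat_lit 63) (nat_lit 5) (nat_lit 634) (nat_lit 499) (nat_lit 427)) (XT.lf (nat_lit 0) (nat_lit 1523270042) (nat_lit 228)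 (nat_lit 10046128439) (nat_lit 304) (nat_lit 3016131937) (nat_lit 57) (nat_lit 5) (nat_lit 60) (nat_lit 5) (nat_lit 61) (nat_lit 5) (nat_lit 635) (nat_lit 499) (nat_lit 426))))) (XT.nd (nat_lit 234) (nat_lit 456) (nat_lit 0) (XT.nd (nat_lit 78) (nat_lit 380) (nat_lit 0) (XT.lf (nat_lit 0) (nat_lit 1708509082) (nat_lit 304) (nat_lit 3241690219) (nat_lit 76) (nat_lit 9814052164) (nat_lit 56) (nat_lit 5) (nat_lit 60) (nat_lit 5) (nat_lit 57) (nat_lit 5) (nat_lit 636) (nat_lit 499) (nat_lit 425)) (XT.nd (nat_lit 78) (nat_lit 228) (nat_lit 0) (XT.lf (nat_lit 0) (nat_lit 6497782464) (nat_lit 228) (nat_lit 8166224833) (nat_lit 76) (nat_lit 281932086) (nat_lit 54) (nat_lit 5) (nat_lit 57) (nat_lit 5) (nat_lit 55) (nat_lit 5) (nat_lit 637) (nat_lit 499) (nat_lit 424)) (XT.lf (nat_lit 0) (nat_lit 1843141740) (nat_lit 228) (nat_lit 9571062859) (nat_lit 304) (nat_lit 3716430855) (nat_lit 51) (nat_lit 5) (nat_lit 54) (nat_lit 5) (nat_lit 55) (nat_lit 5) (nat_lit 638) (nat_lit 499)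 (nat_lit 423)))) (XT.nd (nat_lit 78) (nat_lit 380) (nat_lit 0) (XT.lf (nat_lit 0) (nat_lit 1115305096) (nat_lit 304) (nat_lit 3224932579) (nat_lit 76) (nat_lit 10978246592) (nat_lit 50) (nat_lit 5) (nat_lit 54) (nat_lit 5) (nat_lit 51) (nat_lit 5) (nat_lit 639) (nat_lit 499) (nat_lit 422)) (XT.nd (nat_lit 78) (nat_lit 228) (nat_lit 0) (XT.lf (nat_lit 0) (nat_lit 6011912855) (nat_lit 228) (nat_lit 8471055021) (nat_lit 76) (nat_lit 1026272430) (nat_lit 48) (nat_lit 5) (nat_lit 51) (nat_lit 5) (nat_lit 49) (nat_lit 5) (nat_lit 640) (nat_lit 499) (nat_lit 421)) (XT.lf (nat_lit 0) (nat_lit 1779655966) (nat_lit 228) (nat_lit 9254444762) (nat_lit 304) (nat_lit 4669159312) (nat_lit 45) (nat_lit 5) (nat_lit 48) (nat_lit 5) (nat_lit 49) (nat_lit 5) (nat_lit 641) (nat_lit 499) (nat_lit 420)))))) (XT.nd (nat_lit 74802) (nat_lit 0) (nat_lit 26296) (XT.nd (nat_lit 234) (nat_lit 380) (nat_lit 0) (XT.nd (nat_lit 78) (nat_lit 304) (nat_lit 0) (XT.lf (nat_lit 0) (nat_lit 275057190) (nat_lit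 304) (nat_lit 3613602623) (nat_lit 76) (nat_lit 12012011905) (nat_lit 44) (nat_lit 5) (nat_lit 48) (nat_lit 5) (nat_lit 45) (nat_lit 5) (nat_lit 642) (nat_lit 499) (nat_lit 419)) (XT.nd (nat_lit 78) (nat_lit 152) (nat_lit 0) (XT.lf (nat_lit 0) (nat_lit 5277410491) (nat_lit 228) (nat_lit 9210154826) (nat_lit 76) (nat_lit 1613415045) (nat_lit 42) (nat_lit 5) (nat_lit 45) (nat_lit 5) (nat_lit 43) (nat_lit 5) (nat_lit 643) (nat_lit 499) (nat_lit 418)) (XT.lf (nat_lit 0) (nat_lit 1279746365) (nat_lit 152) (nat_lit 9124922457) (nat_lit 228) (nat_lit 5900130613) (nat_lit 40) (nat_lit 5) (nat_lit 42) (nat_lit 5) (nat_lit 43) (nat_lit 5) (nat_lit 644) (nat_lit 499) (nat_lit 417)))) (XT.nd (nat_lit 78) (nat_lit 380) (nat_lit 0) (XT.lf (nat_lit 0) (nat_lit 12044050767) (nat_lit 152) (nat_lit 3618881026) (nat_lit 228) (nat_lit 849195296) (nat_lit 40) (nat_lit 5) (nat_lit 42) (nat_lit 5) (nat_lit 43) (nat_lit 5) (nat_lit 645) (nat_lit 499) (nat_lit 416)) (XT.nd (nat_lit 78) (nat_lit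 152) (nat_lit 0) (XT.lf (nat_lit 0) (nat_lit 4267540880) (nat_lit 228) (nat_lit 10440967902) (nat_lit 76) (nat_lit 2014110849) (nat_lit 37) (nat_lit 5) (nat_lit 40) (nat_lit 5) (nat_lit 38) (nat_lit 5) (nat_lit 646) (nat_lit 499) (nat_lit 415)) (XT.lf (nat_lit 0) (nat_lit 284572253) (nat_lit 152) (nat_lit 9213855079) (nat_lit 228) (nat_lit 7438320012) (nat_lit 35) (nat_lit 5) (nat_lit 37) (nat_lit 5) (nat_lit 38) (nat_lit 5) (nat_lit 647) (nat_lit 499) (nat_lit 414))))) (XT.nd (nat_lit 234) (nat_lit 2736) (nat_lit 0) (XT.nd (nat_lit 78) (nat_lit 988) (nat_lit 0) (XT.lf (nat_lit 0) (nat_lit 536407511) (nat_lit 988) (nat_lit 1535582920) (nat_lit 988) (nat_lit 1535582920) (nat_lit 430) (nat_lit 4) (nat_lit 443) (nat_lit 5) (nat_lit 443) (nat_lit 4) (nat_lit 560) (nat_lit 500) (nat_lit 500)) (XT.nd (nat_lit 78) (nat_lit 912) (nat_lit 0) (XT.lf (nat_lit 0) (nat_lit 454103263) (nat_lit 1064) (nat_lit 733348831) (nat_lit 76) (nat_lit 6067480523) (nat_lit 429) (nat_lit 5) (nat_lit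 443) (nat_lit 5) (nat_lit 430) (nat_lit 4) (nat_lit 561) (nat_lit 500) (nat_lit 499)) (XT.lf (nat_lit 0) (nat_lit 3976896172) (nat_lit 988) (nat_lit 2546779224) (nat_lit 0) (nat_lit 772083029) (nat_lit 417) (nat_lit 5) (nat_lit 430) (nat_lit 4) (nat_lit 417) (nat_lit 4) (nat_lit 562) (nat_lit 500) (nat_lit 498)))) (XT.nd (nat_lit 156) (nat_lit 912) (nat_lit 0) (XT.nd (nat_lit 78) (nat_lit 836) (nat_lit 0) (XT.lf (nat_lit 0) (nat_lit 194559816) (nat_lit 988) (nat_lit 4367234821) (nat_lit 76) (nat_lit 2776291036) (nat_lit 404) (nat_lit 5) (nat_lit 417) (nat_lit 5) (nat_lit 405) (nat_lit 4) (nat_lit 563) (nat_lit 500) (nat_lit 497)) (XT.lf (nat_lit 0) (nat_lit 1172787096) (nat_lit 836) (nat_lit 2519275567) (nat_lit 912) (nat_lit 3689605278) (nat_lit 393) (nat_lit 5) (nat_lit 404) (nat_lit 5) (nat_lit 405) (nat_lit 4) (nat_lit 564) (nat_lit 500) (nat_lit 496))) (XT.nd (nat_lit 78) (nat_lit 912) (nat_lit 0) (XT.lf (nat_lit 0) (nat_lit 6810348390) (nat_lit 836) (nat_lit 412701631)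 (nat_lit 912) (nat_lit 203813165) (nat_lit 393) (nat_lit 5) (nat_lit 404) (nat_lit 5) (nat_lit 405) (nat_lit 4) (nat_lit 565) (nat_lit 500) (nat_lit 495)) (XT.lf (nat_lit 0) (nat_lit 3287258703) (nat_lit 912) (nat_lit 2424376091) (nat_lit 76) (nat_lit 1761313430) (nat_lit 381) (nat_lit 5) (nat_lit 393) (nat_lit 5) (nat_lit 382) (nat_lit 4) (nat_lit 566) (nat_lit 500) (nat_lit 494))))))) (XT.nd (nat_lit 936) (nat_lit 6080) (nat_lit 0) (XT.nd (nat_lit 468) (nat_lit 2888) (nat_lit 0) (XT.nd (nat_lit 234) (nat_lit 2356) (nat_lit 0) (XT.nd (nat_lit 78) (nat_lit 912) (nat_lit 0) (XT.lf (nat_lit 0) (nat_lit 3281688777) (nat_lit 760) (nat_lit 3527781815) (nat_lit 836) (nat_lit 711187806) (nat_lit 371) (nat_lit 5) (nat_lit 381) (nat_lit 5) (nat_lit 382) (nat_lit 4) (nat_lit 567) (nat_lit 500) (nat_lit 493)) (XT.nd (nat_lit 78) (nat_lit 0) (nat_lit 0) (XT.lf (nat_lit 0) (nat_lit 1493764351) (nat_lit 836) (nat_lit 1264161049) (nat_lit 912) (nat_lit 4811794932) (nat_lit 359) (nat_lit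 5) (nat_lit 370) (nat_lit 5) (nat_lit 371) (nat_lit 5) (nat_lit 568) (nat_lit 500) (nat_lit 492)) (XT.lf (nat_lit 0) (nat_lit 6259240878) (nat_lit 912) (nat_lit 306057914) (nat_lit 76) (nat_lit 1054934513) (nat_lit 359) (nat_lit 5) (nat_lit 371) (nat_lit 5) (nat_lit 360) (nat_lit 4) (nat_lit 569) (nat_lit 500) (nat_lit 491)))) (XT.nd (nat_lit 78) (nat_lit 1520) (nat_lit 0) (XT.lf (nat_lit 0) (nat_lit 2113087864) (nat_lit 836) (nat_lit 2114424685) (nat_lit 76) (nat_lit 3444322417) (nat_lit 348) (nat_lit 5) (nat_lit 359) (nat_lit 5) (nat_lit 349) (nat_lit 5) (nat_lit 570) (nat_lit 500) (nat_lit 490)) (XT.nd (nat_lit 78) (nat_lit 760) (nat_lit 0) (XT.lf (nat_lit 0) (nat_lit 3785793552) (nat_lit 760) (nat_lit 1817781759) (nat_lit 836) (nat_lit 2121420502) (nat_lit 338) (nat_lit 5) (nat_lit 348) (nat_lit 5) (nat_lit 349) (nat_lit 5) (nat_lit 571) (nat_lit 500) (nat_lit 489)) (XT.lf (nat_lit 0) (nat_lit 1336875906) (nat_lit 760) (nat_lit 5786233009) (nat_lit 76) (nat_lit 656533166)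 (nat_lit 328) (nat_lit 5) (nat_lit 338) (nat_lit 5) (nat_lit 329) (nat_lit 5) (nat_lit 572) (nat_lit 500) (nat_lit 488))))) (XT.nd (nat_lit 234) (nat_lit 1368) (nat_lit 0) (XT.nd (nat_lit 78) (nat_lit 760) (nat_lit 0) (XT.lf (nat_lit 0) (nat_lit 165419878) (nat_lit 760) (nat_lit 4649720616) (nat_lit 836) (nat_lit 3020385647) (nat_lit 318) (nat_lit 5) (nat_lit 328) (nat_lit 5) (nat_lit 329) (nat_lit 5) (nat_lit 573) (nat_lit 500) (nat_lit 487)) (XT.nd (nat_lit 78) (nat_lit 684) (nat_lit 0) (XT.lf (nat_lit 0) (nat_lit 443124683) (nat_lit 836) (nat_lit 1654551940) (nat_lit 76) (nat_lit 5795222240) (nat_lit 317) (nat_lit 5) (nat_lit 328) (nat_lit 5) (nat_lit 318) (nat_lit 5) (nat_lit 574) (nat_lit 500) (nat_lit 486)) (XT.lf (nat_lit 0) (nat_lit 3908837995) (nat_lit 760) (nat_lit 3508091202) (nat_lit 76) (nat_lit 534631967) (nat_lit 308) (nat_lit 5) (nat_lit 318) (nat_lit 5) (nat_lit 309) (nat_lit 5) (nat_lit 575) (nat_lit 500) (nat_lit 485)))) (XT.nd (nat_lit 78) (nat_lit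 684) (nat_lit 0) (XT.lf (nat_lit 0) (nat_lit 2621940739) (nat_lit 684) (nat_lit 4805564511) (nat_lit 760) (nat_lit 584227426) (nat_lit 299) (nat_lit 5) (nat_lit 308) (nat_lit 5) (nat_lit 309) (nat_lit 5) (nat_lit 576) (nat_lit 500) (nat_lit 484)) (XT.nd (nat_lit 78) (nat_lit 0) (nat_lit 0) (XT.lf (nat_lit 0) (nat_lit 766793037) (nat_lit 608) (nat_lit 2108547956) (nat_lit 684) (nat_lit 5197982697) (nat_lit 290) (nat_lit 5) (nat_lit 298) (nat_lit 5) (nat_lit 299) (nat_lit 5) (nat_lit 577) (nat_lit 500) (nat_lit 483)) (XT.lf (nat_lit 0) (nat_lit 6379260962) (nat_lit 684) (nat_lit 1098193685) (nat_lit 76) (nat_lit 658963238) (nat_lit 290) (nat_lit 5) (nat_lit 299) (nat_lit 5) (nat_lit 291) (nat_lit 5) (nat_lit 578) (nat_lit 500) (nat_lit 482)))))) (XT.nd (nat_lit 468) (nat_lit 2812) (nat_lit 0) (XT.nd (nat_lit 234) (nat_lit 1216) (nat_lit 0) (XT.nd (nat_lit 78) (nat_lit 1292) (nat_lit 0) (XT.lf (nat_lit 0) (nat_lit 1720792903) (nat_lit 760) (nat_lit 2996127658) (nat_lit 76)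 (nat_lit 3483807935) (nat_lit 280) (nat_lit 5) (nat_lit 290) (nat_lit 5) (nat_lit 281) (nat_lit 5) (nat_lit 579) (nat_lit 500) (nat_lit 481)) (XT.nd (nat_lit 78) (nat_lit 684) (nat_lit 0) (XT.lf (nat_lit 0) (nat_lit 3341411527) (nat_lit 608) (nat_lit 1876284527) (nat_lit 684) (nat_lit 3048946292) (nat_lit 272) (nat_lit 5) (nat_lit 280) (nat_lit 5) (nat_lit 281) (nat_lit 5) (nat_lit 580) (nat_lit 500) (nat_lit 480)) (XT.lf (nat_lit 0) (nat_lit 425221125) (nat_lit 684) (nat_lit 6885365144) (nat_lit 76) (nat_lit 1023627782) (nat_lit 263) (nat_lit 5) (nat_lit 272) (nat_lit 5) (nat_lit 264) (nat_lit 5) (nat_lit 581) (nat_lit 500) (nat_lit 479)))) (XT.nd (nat_lit 78) (nat_lit 1216) (nat_lit 0) (XT.lf (nat_lit 0) (nat_lit 3918337084) (nat_lit 684) (nat_lit 491816761) (nat_lit 76) (nat_lit 3992781794) (nat_lit 263) (nat_lit 5) (nat_lit 272) (nat_lit 5) (nat_lit 264) (nat_lit 5) (nat_lit 582) (nat_lit 500) (nat_lit 478)) (XT.nd (nat_lit 78) (nat_lit 684) (nat_lit 0) (XT.lf (nat_lit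 0) (nat_lit 6036540239) (nat_lit 532) (nat_lit 1429612389) (nat_lit 608) (nat_lit 1007189469) (nat_lit 256) (nat_lit 5) (nat_lit 263) (nat_lit 5) (nat_lit 264) (nat_lit 5) (nat_lit 583) (nat_lit 500) (nat_lit 477)) (XT.lf (nat_lit 0) (nat_lit 2493070850) (nat_lit 684) (nat_lit 4433853058) (nat_lit 76) (nat_lit 1618177632) (nat_lit 247) (nat_lit 5) (nat_lit 256) (nat_lit 5) (nat_lit 248) (nat_lit 5) (nat_lit 584) (nat_lit 500) (nat_lit 476))))) (XT.nd (nat_lit 234) (nat_lit 1672) (nat_lit 0) (XT.nd (nat_lit 78) (nat_lit 608) (nat_lit 0) (XT.lf (nat_lit 0) (nat_lit 2144234170) (nat_lit 532) (nat_lit 3891833130) (nat_lit 608) (nat_lit 2582378150) (nat_lit 240) (nat_lit 5) (nat_lit 247) (nat_lit 5) (nat_lit 248) (nat_lit 5) (nat_lit 585) (nat_lit 500) (nat_lit 475)) (XT.nd (nat_lit 78) (nat_lit 0) (nat_lit 0) (XT.lf (nat_lit 0) (nat_lit 143598560) (nat_lit 532) (nat_lit 777982815) (nat_lit 608) (nat_lit 7772007928) (nat_lit 232) (nat_lit 5) (nat_lit 239) (nat_lit 5) (nat_lit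 240) (nat_lit 5) (nat_lit 586) (nat_lit 500) (nat_lit 474)) (XT.lf (nat_lit 0) (nat_lit 4467402061) (nat_lit 608) (nat_lit 1894455921) (nat_lit 76) (nat_lit 2407915840) (nat_lit 232) (nat_lit 5) (nat_lit 240) (nat_lit 5) (nat_lit 233) (nat_lit 5) (nat_lit 587) (nat_lit 500) (nat_lit 473)))) (XT.nd (nat_lit 156) (nat_lit 532) (nat_lit 0) (XT.nd (nat_lit 78) (nat_lit 608) (nat_lit 0) (XT.lf (nat_lit 0) (nat_lit 4880841559) (nat_lit 532) (nat_lit 3188202469) (nat_lit 608) (nat_lit 778746161) (nat_lit 225) (nat_lit 5) (nat_lit 232) (nat_lit 5) (nat_lit 233) (nat_lit 5) (nat_lit 588) (nat_lit 500) (nat_lit 472)) (XT.lf (nat_lit 0) (nat_lit 2758422677) (nat_lit 608) (nat_lit 6091304348) (nat_lit 76) (nat_lit 77680396) (nat_lit 217) (nat_lit 5) (nat_lit 225) (nat_lit 5) (nat_lit 218) (nat_lit 5) (nat_lit 589) (nat_lit 500) (nat_lit 471))) (XT.nd (nat_lit 78) (nat_lit 76) (nat_lit 0) (XT.lf (nat_lit 0) (nat_lit 731200999) (nat_lit 456) (nat_lit 5626055827) (nat_lit 532) (nat_lit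 2651236130) (nat_lit 211) (nat_lit 5) (nat_lit 217) (nat_lit 5) (nat_lit 218) (nat_lit 5) (nat_lit 590) (nat_lit 500) (nat_lit 470)) (XT.lf (nat_lit 0) (nat_lit 914602840) (nat_lit 532) (nat_lit 1397061900) (nat_lit 76) (nat_lit 6779619018) (nat_lit 210) (nat_lit 5) (nat_lit 217) (nat_lit 5) (nat_lit 211) (nat_lit 5) (nat_lit 591) (nat_lit 500) (nat_lit 469))))))))
noncomputable def xc40 : XT := (XT.nd (nat_lit 1950) (nat_lit 4408) (nat_lit 0) (XT.nd (nat_lit 936) (nat_lit 3648) (nat_lit 0) (XT.nd (nat_lit 468) (nat_lit 1748) (nat_lit 0) (XT.nd (nat_lit 234) (nat_lit 988) (nat_lit 0) (XT.nd (nat_lit 78) (nat_lit 988) (nat_lit 0) (XT.lf (nat_lit 0) (nat_lit 4509720700) (nat_lit 608) (nat_lit 3577709979) (nat_lit 76) (nat_lit 1088085516) (nat_lit 203) (nat_lit 5) (nat_lit 211) (nat_lit 5) (nat_lit 204) (nat_lit 5) (nat_lit 592) (nat_lit 500) (nat_lit 468)) (XT.nd (nat_lit 78) (nat_lit 532) (nat_lit 0) (XT.lf (nat_lit 0) (nat_lit 3448109468) (nat_lit 456) (nat_lit 4726024385)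 (nat_lit 532) (nat_lit 1087357014) (nat_lit 197) (nat_lit 5) (nat_lit 203) (nat_lit 5) (nat_lit 204) (nat_lit 5) (nat_lit 593) (nat_lit 500) (nat_lit 467)) (XT.lf (nat_lit 0) (nat_lit 1241527075) (nat_lit 456) (nat_lit 1270180634) (nat_lit 532) (nat_lit 6837496448) (nat_lit 190) (nat_lit 5) (nat_lit 196) (nat_lit 5) (nat_lit 197) (nat_lit 5) (nat_lit 594) (nat_lit 500) (nat_lit 466)))) (XT.nd (nat_lit 78) (nat_lit 988) (nat_lit 0) (XT.lf (nat_lit 0) (nat_lit 6172914279) (nat_lit 532) (nat_lit 1016214469) (nat_lit 76) (nat_lit 2249309940) (nat_lit 190) (nat_lit 5) (nat_lit 197) (nat_lit 5) (nat_lit 191) (nat_lit 5) (nat_lit 595) (nat_lit 500) (nat_lit 465)) (XT.nd (nat_lit 78) (nat_lit 456) (nat_lit 0) (XT.lf (nat_lit 0) (nat_lit 373482653) (nat_lit 532) (nat_lit 3312815830) (nat_lit 76) (nat_lit 5843104257) (nat_lit 183) (nat_lit 5) (nat_lit 190) (nat_lit 5) (nat_lit 184) (nat_lit 5) (nat_lit 596) (nat_lit 500) (nat_lit 464)) (XT.lf (nat_lit 0) (nat_lit 3944518985) (nat_lit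 456) (nat_lit 81469881) (nat_lit 532) (nat_lit 5596081452) (nat_lit 177) (nat_lit 5) (nat_lit 183) (nat_lit 5) (nat_lit 184) (nat_lit 5) (nat_lit 597) (nat_lit 500) (nat_lit 463))))) (XT.nd (nat_lit 234) (nat_lit 836) (nat_lit 0) (XT.nd (nat_lit 78) (nat_lit 532) (nat_lit 0) (XT.lf (nat_lit 0) (nat_lit 1601625258) (nat_lit 380) (nat_lit 6158301011) (nat_lit 456) (nat_lit 1956502099) (nat_lit 172) (nat_lit 5) (nat_lit 177) (nat_lit 5) (nat_lit 178) (nat_lit 5) (nat_lit 598) (nat_lit 500) (nat_lit 462)) (XT.nd (nat_lit 78) (nat_lit 456) (nat_lit 0) (XT.lf (nat_lit 0) (nat_lit 1724148057) (nat_lit 456) (nat_lit 792572157) (nat_lit 76) (nat_lit 7295903760) (nat_lit 171) (nat_lit 5) (nat_lit 177) (nat_lit 5) (nat_lit 172) (nat_lit 5) (nat_lit 599) (nat_lit 500) (nat_lit 461)) (XT.lf (nat_lit 0) (nat_lit 5456956007) (nat_lit 532) (nat_lit 3238195299) (nat_lit 76) (nat_lit 1215243157) (nat_lit 165) (nat_lit 5) (nat_lit 172) (nat_lit 5) (nat_lit 166) (nat_lit 5) (nat_lit 600)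 (nat_lit 500) (nat_lit 460)))) (XT.nd (nat_lit 78) (nat_lit 456) (nat_lit 0) (XT.lf (nat_lit 0) (nat_lit 4255386197) (nat_lit 380) (nat_lit 5012339458) (nat_lit 456) (nat_lit 742332975) (nat_lit 160) (nat_lit 5) (nat_lit 165) (nat_lit 5) (nat_lit 166) (nat_lit 5) (nat_lit 601) (nat_lit 500) (nat_lit 459)) (XT.nd (nat_lit 78) (nat_lit 0) (nat_lit 0) (XT.lf (nat_lit 0) (nat_lit 1763814028) (nat_lit 380) (nat_lit 1226397276) (nat_lit 456) (nat_lit 7121371320) (nat_lit 154) (nat_lit 5) (nat_lit 159) (nat_lit 5) (nat_lit 160) (nat_lit 5) (nat_lit 602) (nat_lit 500) (nat_lit 458)) (XT.lf (nat_lit 0) (nat_lit 6797547489) (nat_lit 456) (nat_lit 797133102) (nat_lit 76) (nat_lit 2620160881) (nat_lit 154) (nat_lit 5) (nat_lit 160) (nat_lit 5) (nat_lit 155) (nat_lit 5) (nat_lit 603) (nat_lit 500) (nat_lit 457)))))) (XT.nd (nat_lit 468) (nat_lit 1748) (nat_lit 0) (XT.nd (nat_lit 234) (nat_lit 760) (nat_lit 0) (XT.nd (nat_lit 78) (nat_lit 684) (nat_lit 0) (XT.lf (nat_lit 0) (nat_lit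 364204356) (nat_lit 456) (nat_lit 3405057207) (nat_lit 76) (nat_lit 6550699595) (nat_lit 148) (nat_lit 5) (nat_lit 154) (nat_lit 5) (nat_lit 149) (nat_lit 5) (nat_lit 604) (nat_lit 500) (nat_lit 456)) (XT.nd (nat_lit 78) (nat_lit 304) (nat_lit 0) (XT.lf (nat_lit 0) (nat_lit 4165303166) (nat_lit 456) (nat_lit 6098920163) (nat_lit 76) (nat_lit 162717471) (nat_lit 143) (nat_lit 5) (nat_lit 149) (nat_lit 5) (nat_lit 144) (nat_lit 5) (nat_lit 605) (nat_lit 500) (nat_lit 455)) (XT.lf (nat_lit 0) (nat_lit 1652696142) (nat_lit 304) (nat_lit 6403810682) (nat_lit 380) (nat_lit 2479275365) (nat_lit 139) (nat_lit 5) (nat_lit 143) (nat_lit 5) (nat_lit 144) (nat_lit 5) (nat_lit 606) (nat_lit 500) (nat_lit 454)))) (XT.nd (nat_lit 78) (nat_lit 684) (nat_lit 0) (XT.lf (nat_lit 0) (nat_lit 1357364967) (nat_lit 380) (nat_lit 1083499851) (nat_lit 76) (nat_lit 8205825957) (nat_lit 138) (nat_lit 5) (nat_lit 143) (nat_lit 5) (nat_lit 139) (nat_lit 5) (nat_lit 607) (nat_lit 500) (nat_lit 453))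 (XT.nd (nat_lit 78) (nat_lit 304) (nat_lit 0) (XT.lf (nat_lit 0) (nat_lit 5249245551) (nat_lit 456) (nat_lit 3893191811) (nat_lit 76) (nat_lit 1616821904) (nat_lit 133) (nat_lit 5) (nat_lit 139) (nat_lit 5) (nat_lit 134) (nat_lit 5) (nat_lit 608) (nat_lit 500) (nat_lit 452)) (XT.lf (nat_lit 0) (nat_lit 4083539277) (nat_lit 304) (nat_lit 5142055007) (nat_lit 380) (nat_lit 1648355754) (nat_lit 129) (nat_lit 5) (nat_lit 133) (nat_lit 5) (nat_lit 134) (nat_lit 5) (nat_lit 609) (nat_lit 500) (nat_lit 451))))) (XT.nd (nat_lit 234) (nat_lit 1064) (nat_lit 0) (XT.nd (nat_lit 78) (nat_lit 304) (nat_lit 0) (XT.lf (nat_lit 0) (nat_lit 1213732965) (nat_lit 304) (nat_lit 1037690338) (nat_lit 380) (nat_lit 8739398698) (nat_lit 124) (nat_lit 5) (nat_lit 128) (nat_lit 5) (nat_lit 129) (nat_lit 5) (nat_lit 610) (nat_lit 500) (nat_lit 450)) (XT.nd (nat_lit 78) (nat_lit 304) (nat_lit 0) (XT.lf (nat_lit 0) (nat_lit 6230442115) (nat_lit 380) (nat_lit 1740318863) (nat_lit 76) (nat_lit 3138589521)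 (nat_lit 124) (nat_lit 5) (nat_lit 129) (nat_lit 5) (nat_lit 125) (nat_lit 5) (nat_lit 611) (nat_lit 500) (nat_lit 449)) (XT.lf (nat_lit 0) (nat_lit 6466951101) (nat_lit 304) (nat_lit 3828775717) (nat_lit 380) (nat_lit 934392292) (nat_lit 120) (nat_lit 5) (nat_lit 124) (nat_lit 5) (nat_lit 125) (nat_lit 5) (nat_lit 612) (nat_lit 500) (nat_lit 448)))) (XT.nd (nat_lit 156) (nat_lit 380) (nat_lit 0) (XT.nd (nat_lit 78) (nat_lit 304) (nat_lit 0) (XT.lf (nat_lit 0) (nat_lit 3043453798) (nat_lit 380) (nat_lit 7889904170) (nat_lit 76) (nat_lit 419648081) (nat_lit 115) (nat_lit 5) (nat_lit 120) (nat_lit 5) (nat_lit 116) (nat_lit 5) (nat_lit 613) (nat_lit 500) (nat_lit 447)) (XT.lf (nat_lit 0) (nat_lit 345010818) (nat_lit 304) (nat_lit 6761264872) (nat_lit 380) (nat_lit 4371595970) (nat_lit 111) (nat_lit 5) (nat_lit 115) (nat_lit 5) (nat_lit 116) (nat_lit 5) (nat_lit 614) (nat_lit 500) (nat_lit 446))) (XT.nd (nat_lit 78) (nat_lit 380) (nat_lit 0) (XT.lf (nat_lit 0) (nat_lit 8783514632)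 (nat_lit 304) (nat_lit 2478311036) (nat_lit 380) (nat_lit 343182487) (nat_lit 111) (nat_lit 5) (nat_lit 115) (nat_lit 5) (nat_lit 116) (nat_lit 5) (nat_lit 615) (nat_lit 500) (nat_lit 445)) (XT.lf (nat_lit 0) (nat_lit 3724591595) (nat_lit 380) (nat_lit 6108467033) (nat_lit 76) (nat_lit 1900979011) (nat_lit 106) (nat_lit 5) (nat_lit 111) (nat_lit 5) (nat_lit 107) (nat_lit 5) (nat_lit 616) (nat_lit 500) (nat_lit 444))))))) (XT.nd (nat_lit 936) (nat_lit 2128) (nat_lit 0) (XT.nd (nat_lit 468) (nat_lit 1064) (nat_lit 0) (XT.nd (nat_lit 234) (nat_lit 608) (nat_lit 0) (XT.nd (nat_lit 78) (nat_lit 380) (nat_lit 0) (XT.lf (nat_lit 0) (nat_lit 2359211189) (nat_lit 228) (nat_lit 5519973806) (nat_lit 304) (nat_lit 3986219000) (nat_lit 103) (nat_lit 5) (nat_lit 106) (nat_lit 5) (nat_lit 107) (nat_lit 5) (nat_lit 617) (nat_lit 500) (nat_lit 443)) (XT.nd (nat_lit 78) (nat_lit 304) (nat_lit 0) (XT.lf (nat_lit 0) (nat_lit 116553266) (nat_lit 304) (nat_lit 988138681) (nat_lit 76) (nat_lit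 10894680774) (nat_lit 102) (nat_lit 5) (nat_lit 106) (nat_lit 5) (nat_lit 103) (nat_lit 5) (nat_lit 618) (nat_lit 500) (nat_lit 442)) (XT.lf (nat_lit 0) (nat_lit 4280664100) (nat_lit 380) (nat_lit 4448961577) (nat_lit 76) (nat_lit 3405217663) (nat_lit 98) (nat_lit 5) (nat_lit 103) (nat_lit 5) (nat_lit 99) (nat_lit 5) (nat_lit 619) (nat_lit 500) (nat_lit 441)))) (XT.nd (nat_lit 78) (nat_lit 380) (nat_lit 0) (XT.lf (nat_lit 0) (nat_lit 4255911359) (nat_lit 228) (nat_lit 4274107507) (nat_lit 304) (nat_lit 3742967888) (nat_lit 95) (nat_lit 5) (nat_lit 98) (nat_lit 5) (nat_lit 99) (nat_lit 5) (nat_lit 620) (nat_lit 500) (nat_lit 440)) (XT.nd (nat_lit 78) (nat_lit 0) (nat_lit 0) (XT.lf (nat_lit 0) (nat_lit 441554144) (nat_lit 380) (nat_lit 11694052714) (nat_lit 76) (nat_lit 278290311) (nat_lit 90) (nat_lit 5) (nat_lit 95) (nat_lit 5) (nat_lit 91) (nat_lit 5) (nat_lit 621) (nat_lit 500) (nat_lit 439)) (XT.lf (nat_lit 0) (nat_lit 4702753216) (nat_lit 380) (nat_lit 2936521696)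 (nat_lit 76) (nat_lit 4916996427) (nat_lit 90) (nat_lit 5) (nat_lit 95) (nat_lit 5) (nat_lit 91) (nat_lit 5) (nat_lit 622) (nat_lit 500) (nat_lit 438))))) (XT.nd (nat_lit 234) (nat_lit 532) (nat_lit 0) (XT.nd (nat_lit 78) (nat_lit 304) (nat_lit 0) (XT.lf (nat_lit 0) (nat_lit 6009585907) (nat_lit 228) (nat_lit 3039978838) (nat_lit 304) (nat_lit 3651922896) (nat_lit 87) (nat_lit 5) (nat_lit 90) (nat_lit 5) (nat_lit 91) (nat_lit 5) (nat_lit 623) (nat_lit 500) (nat_lit 437)) (XT.nd (nat_lit 78) (nat_lit 0) (nat_lit 0) (XT.lf (nat_lit 0) (nat_lit 632321340) (nat_lit 304) (nat_lit 10574948365) (nat_lit 76) (nat_lit 1642120034) (nat_lit 83) (nat_lit 5) (nat_lit 87) (nat_lit 5) (nat_lit 84) (nat_lit 5) (nat_lit 624) (nat_lit 500) (nat_lit 436)) (XT.lf (nat_lit 0) (nat_lit 4980342188) (nat_lit 304) (nat_lit 1598781470) (nat_lit 76) (nat_lit 6420105896) (nat_lit 83) (nat_lit 5) (nat_lit 87) (nat_lit 5) (nat_lit 84) (nat_lit 5) (nat_lit 625) (nat_lit 500) (nat_lit 435)))) (XT.nd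 (nat_lit 78) (nat_lit 304) (nat_lit 0) (XT.lf (nat_lit 0) (nat_lit 7592130995) (nat_lit 228) (nat_lit 1834847743) (nat_lit 304) (nat_lit 3724856554) (nat_lit 80) (nat_lit 5) (nat_lit 83) (nat_lit 5) (nat_lit 84) (nat_lit 5) (nat_lit 626) (nat_lit 500) (nat_lit 434)) (XT.nd (nat_lit 78) (nat_lit 0) (nat_lit 0) (XT.lf (nat_lit 0) (nat_lit 663054355) (nat_lit 304) (nat_lit 9666547583) (nat_lit 76) (nat_lit 2977476482) (nat_lit 76) (nat_lit 5) (nat_lit 80) (nat_lit 5) (nat_lit 77) (nat_lit 5) (nat_lit 627) (nat_lit 500) (nat_lit 433)) (XT.lf (nat_lit 0) (nat_lit 5101184251) (nat_lit 304) (nat_lit 466189900) (nat_lit 76) (nat_lit 7897315205) (nat_lit 76) (nat_lit 5) (nat_lit 80) (nat_lit 5) (nat_lit 77) (nat_lit 5) (nat_lit 628) (nat_lit 500) (nat_lit 432)))))) (XT.nd (nat_lit 468) (nat_lit 912) (nat_lit 0) (XT.nd (nat_lit 234) (nat_lit 456) (nat_lit 0) (XT.nd (nat_lit 78) (nat_lit 532) (nat_lit 0) (XT.lf (nat_lit 0) (nat_lit 8972540356) (nat_lit 228) (nat_lit 677108785) (nat_lit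 304) (nat_lit 3975373986) (nat_lit 73) (nat_lit 5) (nat_lit 76) (nat_lit 5) (nat_lit 77) (nat_lit 5) (nat_lit 629) (nat_lit 500) (nat_lit 431)) (XT.nd (nat_lit 78) (nat_lit 228) (nat_lit 0) (XT.lf (nat_lit 0) (nat_lit 519812385) (nat_lit 304) (nat_lit 9002258864) (nat_lit 76) (nat_lit 4265912172) (nat_lit 69) (nat_lit 5) (nat_lit 73) (nat_lit 5) (nat_lit 70) (nat_lit 5) (nat_lit 630) (nat_lit 500) (nat_lit 430)) (XT.lf (nat_lit 0) (nat_lit 433327315) (nat_lit 228) (nat_lit 4620640449) (nat_lit 304) (nat_lit 8899665647) (nat_lit 66) (nat_lit 5) (nat_lit 69) (nat_lit 5) (nat_lit 70) (nat_lit 5) (nat_lit 631) (nat_lit 500) (nat_lit 429)))) (XT.nd (nat_lit 78) (nat_lit 456) (nat_lit 0) (XT.lf (nat_lit 0) (nat_lit 9705727281) (nat_lit 304) (nat_lit 4008248338) (nat_lit 76) (nat_lit 408084267) (nat_lit 66) (nat_lit 5) (nat_lit 70) (nat_lit 5) (nat_lit 67) (nat_lit 5) (nat_lit 632) (nat_lit 500) (nat_lit 428)) (XT.nd (nat_lit 78) (nat_lit 152) (nat_lit 0) (XT.lf (nat_lit 0)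 (nat_lit 186634707) (nat_lit 304) (nat_lit 8618968726) (nat_lit 76) (nat_lit 5487592499) (nat_lit 62) (nat_lit 5) (nat_lit 66) (nat_lit 5) (nat_lit 63) (nat_lit 5) (nat_lit 633) (nat_lit 500) (nat_lit 427)) (XT.lf (nat_lit 0) (nat_lit 1059468497) (nat_lit 152) (nat_lit 3761492434) (nat_lit 228) (nat_lit 9646243041) (nat_lit 60) (nat_lit 5) (nat_lit 62) (nat_lit 5) (nat_lit 63) (nat_lit 5) (nat_lit 634) (nat_lit 500) (nat_lit 426))))) (XT.nd (nat_lit 234) (nat_lit 456) (nat_lit 0) (XT.nd (nat_lit 78) (nat_lit 456) (nat_lit 0) (XT.lf (nat_lit 0) (nat_lit 9579722527) (nat_lit 228) (nat_lit 3667186360) (nat_lit 76) (nat_lit 1397150069) (nat_lit 60) (nat_lit 5) (nat_lit 63) (nat_lit 5) (nat_lit 61) (nat_lit 5) (nat_lit 635) (nat_lit 500) (nat_lit 425)) (XT.nd (nat_lit 78) (nat_lit 228) (nat_lit 0) (XT.lf (nat_lit 0) (nat_lit 6264052500) (nat_lit 228) (nat_lit 8200428367) (nat_lit 304) (nat_lit 359355471) (nat_lit 57) (nat_lit 5) (nat_lit 60) (nat_lit 5) (nat_lit 61) (nat_lit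 5) (nat_lit 636) (nat_lit 500) (nat_lit 424)) (XT.lf (nat_lit 0) (nat_lit 1364390333) (nat_lit 152) (nat_lit 3016033595) (nat_lit 228) (nat_lit 10626231953) (nat_lit 54) (nat_lit 5) (nat_lit 56) (nat_lit 5) (nat_lit 57) (nat_lit 5) (nat_lit 637) (nat_lit 500) (nat_lit 423)))) (XT.nd (nat_lit 156) (nat_lit 228) (nat_lit 0) (XT.nd (nat_lit 78) (nat_lit 228) (nat_lit 0) (XT.lf (nat_lit 0) (nat_lit 9248172292) (nat_lit 228) (nat_lit 3667953981) (nat_lit 76) (nat_lit 2276199960) (nat_lit 54) (nat_lit 5) (nat_lit 57) (nat_lit 5) (nat_lit 55) (nat_lit 5) (nat_lit 638) (nat_lit 500) (nat_lit 422)) (XT.lf (nat_lit 0) (nat_lit 6510931532) (nat_lit 228) (nat_lit 7730677323) (nat_lit 304) (nat_lit 1139536066) (nat_lit 51) (nat_lit 5) (nat_lit 54) (nat_lit 5) (nat_lit 55) (nat_lit 5) (nat_lit 639) (nat_lit 500) (nat_lit 421))) (XT.nd (nat_lit 78) (nat_lit 0) (nat_lit 0) (XT.lf (nat_lit 0) (nat_lit 1301974495) (nat_lit 152) (nat_lit 2409239137) (nat_lit 228) (nat_lit 11862052126) (nat_lit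 48) (nat_lit 5) (nat_lit 50) (nat_lit 5) (nat_lit 51) (nat_lit 5) (nat_lit 640) (nat_lit 500) (nat_lit 420)) (XT.lf (nat_lit 0) (nat_lit 8689491959) (nat_lit 228) (nat_lit 4058223851) (nat_lit 76) (nat_lit 3020448616) (nat_lit 48) (nat_lit 5) (nat_lit 51) (nat_lit 5) (nat_lit 49) (nat_lit 5) (nat_lit 641) (nat_lit 500) (nat_lit 419))))))))
noncomputable def xc41 : XT := (XT.nd (nat_lit 76128) (nat_lit 0) (nat_lit 9348) (XT.nd (nat_lit 75114) (nat_lit 0) (nat_lit 19836) (XT.nd (nat_lit 74646) (nat_lit 0) (nat_lit 27892) (XT.nd (nat_lit 234) (nat_lit 380) (nat_lit 0) (XT.nd (nat_lit 78) (nat_lit 228) (nat_lit 0) (XT.lf (nat_lit 0) (nat_lit 6367354960) (nat_lit 228) (nat_lit 7424179983) (nat_lit 304) (nat_lit 2174943618) (nat_lit 45) (nat_lit 5) (nat_lit 48) (nat_lit 5) (nat_lit 49) (nat_lit 5) (nat_lit 642) (nat_lit 500) (nat_lit 418)) (XT.nd (nat_lit 78) (nat_lit 0) (nat_lit 0) (XT.lf (nat_lit 0) (nat_lit 821122081) (nat_lit 152) (nat_lit 1968357771) (nat_lit 228) (nat_lit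 13378919568) (nat_lit 42) (nat_lit 5) (nat_lit 44) (nat_lit 5) (nat_lit 45) (nat_lit 5) (nat_lit 643) (nat_lit 500) (nat_lit 417)) (XT.lf (nat_lit 0) (nat_lit 7879335284) (nat_lit 228) (nat_lit 4890811465) (nat_lit 76) (nat_lit 3602820491) (nat_lit 42) (nat_lit 5) (nat_lit 45) (nat_lit 5) (nat_lit 43) (nat_lit 5) (nat_lit 644) (nat_lit 500) (nat_lit 416)))) (XT.nd (nat_lit 78) (nat_lit 228) (nat_lit 0) (XT.lf (nat_lit 0) (nat_lit 5779259155) (nat_lit 152) (nat_lit 7309978709) (nat_lit 228) (nat_lit 3492024912) (nat_lit 40) (nat_lit 5) (nat_lit 42) (nat_lit 5) (nat_lit 43) (nat_lit 5) (nat_lit 645) (nat_lit 500) (nat_lit 415)) (XT.nd (nat_lit 78) (nat_lit 152) (nat_lit 0) (XT.lf (nat_lit 0) (nat_lit 1589276921) (nat_lit 228) (nat_lit 133040176) (nat_lit 76) (nat_lit 15071183959) (nat_lit 39) (nat_lit 5) (nat_lit 42) (nat_lit 5) (nat_lit 40) (nat_lit 5) (nat_lit 646) (nat_lit 500) (nat_lit 414)) (XT.lf (nat_lit 0) (nat_lit 6790323412) (nat_lit 228) (nat_lit 6224251899)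 (nat_lit 76) (nat_lit 3993650892) (nat_lit 37) (nat_lit 5) (nat_lit 40) (nat_lit 5) (nat_lit 38) (nat_lit 5) (nat_lit 647) (nat_lit 500) (nat_lit 413))))) (XT.nd (nat_lit 234) (nat_lit 1976) (nat_lit 0) (XT.nd (nat_lit 78) (nat_lit 2736) (nat_lit 0) (XT.lf (nat_lit 0) (nat_lit 2367057368) (nat_lit 1748) (nat_lit 601290684) (nat_lit 1748) (nat_lit 601290684) (nat_lit 466) (nat_lit 4) (nat_lit 489) (nat_lit 5) (nat_lit 489) (nat_lit 4) (nat_lit 558) (nat_lit 501) (nat_lit 501)) (XT.nd (nat_lit 78) (nat_lit 988) (nat_lit 0) (XT.lf (nat_lit 0) (nat_lit 2287316299) (nat_lit 1748) (nat_lit 4285896934) (nat_lit 0) (nat_lit 603666128) (nat_lit 443) (nat_lit 5) (nat_lit 466) (nat_lit 4) (nat_lit 443) (nat_lit 4) (nat_lit 559) (nat_lit 501) (nat_lit 500)) (XT.lf (nat_lit 0) (nat_lit 1037088972) (nat_lit 988) (nat_lit 4756516273) (nat_lit 988) (nat_lit 1422228679) (nat_lit 430) (nat_lit 4) (nat_lit 443) (nat_lit 5) (nat_lit 443) (nat_lit 4) (nat_lit 560) (nat_lit 501) (nat_lit 499))))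 (XT.nd (nat_lit 78) (nat_lit 1900) (nat_lit 0) (XT.lf (nat_lit 0) (nat_lit 2047828296) (nat_lit 1064) (nat_lit 815946417) (nat_lit 76) (nat_lit 4392309165) (nat_lit 429) (nat_lit 5) (nat_lit 443) (nat_lit 5) (nat_lit 430) (nat_lit 4) (nat_lit 561) (nat_lit 501) (nat_lit 498)) (XT.nd (nat_lit 78) (nat_lit 988) (nat_lit 0) (XT.lf (nat_lit 0) (nat_lit 4635220106) (nat_lit 912) (nat_lit 896621894) (nat_lit 988) (nat_lit 1765849587) (nat_lit 417) (nat_lit 5) (nat_lit 429) (nat_lit 5) (nat_lit 430) (nat_lit 4) (nat_lit 562) (nat_lit 501) (nat_lit 497)) (XT.lf (nat_lit 0) (nat_lit 1687642764) (nat_lit 988) (nat_lit 4526778523) (nat_lit 76) (nat_lit 1126193191) (nat_lit 404) (nat_lit 5) (nat_lit 417) (nat_lit 5) (nat_lit 405) (nat_lit 4) (nat_lit 563) (nat_lit 501) (nat_lit 496)))))) (XT.nd (nat_lit 468) (nat_lit 4636) (nat_lit 0) (XT.nd (nat_lit 234) (nat_lit 1672) (nat_lit 0) (XT.nd (nat_lit 78) (nat_lit 912) (nat_lit 0) (XT.lf (nat_lit 0) (nat_lit 975251816) (nat_lit 836)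 (nat_lit 4176283773) (nat_lit 912) (nat_lit 2233339307) (nat_lit 393) (nat_lit 5) (nat_lit 404) (nat_lit 5) (nat_lit 405) (nat_lit 4) (nat_lit 564) (nat_lit 501) (nat_lit 495)) (XT.nd (nat_lit 78) (nat_lit 836) (nat_lit 0) (XT.lf (nat_lit 0) (nat_lit 1203887546) (nat_lit 912) (nat_lit 860989587) (nat_lit 76) (nat_lit 5365678878) (nat_lit 392) (nat_lit 5) (nat_lit 404) (nat_lit 5) (nat_lit 393) (nat_lit 5) (nat_lit 565) (nat_lit 501) (nat_lit 494)) (XT.lf (nat_lit 0) (nat_lit 4648178197) (nat_lit 912) (nat_lit 2702393843) (nat_lit 76) (nat_lit 126930316) (nat_lit 381) (nat_lit 5) (nat_lit 393) (nat_lit 5) (nat_lit 382) (nat_lit 4) (nat_lit 566) (nat_lit 501) (nat_lit 493)))) (XT.nd (nat_lit 78) (nat_lit 836) (nat_lit 0) (XT.lf (nat_lit 0) (nat_lit 603290155) (nat_lit 836) (nat_lit 4565621412) (nat_lit 76) (nat_lit 2356891090) (nat_lit 370) (nat_lit 5) (nat_lit 381) (nat_lit 5) (nat_lit 371) (nat_lit 5) (nat_lit 567) (nat_lit 501) (nat_lit 492)) (XT.nd (nat_lit 78) (nat_lit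 0) (nat_lit 0) (XT.lf (nat_lit 0) (nat_lit 1122158825) (nat_lit 836) (nat_lit 2907539173) (nat_lit 912) (nat_lit 3545747088) (nat_lit 359) (nat_lit 5) (nat_lit 370) (nat_lit 5) (nat_lit 371) (nat_lit 5) (nat_lit 568) (nat_lit 501) (nat_lit 491)) (XT.lf (nat_lit 0) (nat_lit 6914419780) (nat_lit 836) (nat_lit 579066471) (nat_lit 912) (nat_lit 133227535) (nat_lit 359) (nat_lit 5) (nat_lit 370) (nat_lit 5) (nat_lit 371) (nat_lit 5) (nat_lit 569) (nat_lit 501) (nat_lit 490))))) (XT.nd (nat_lit 234) (nat_lit 2280) (nat_lit 0) (XT.nd (nat_lit 78) (nat_lit 1520) (nat_lit 0) (XT.lf (nat_lit 0) (nat_lit 3287847395) (nat_lit 836) (nat_lit 2572777538) (nat_lit 76) (nat_lit 1818274125) (nat_lit 348) (nat_lit 5) (nat_lit 359) (nat_lit 5) (nat_lit 349) (nat_lit 5) (nat_lit 570) (nat_lit 501) (nat_lit 489)) (XT.nd (nat_lit 78) (nat_lit 760) (nat_lit 0) (XT.lf (nat_lit 0) (nat_lit 3285596125) (nat_lit 760) (nat_lit 3459635207) (nat_lit 836) (nat_lit 987495527) (nat_lit 338) (nat_lit 5)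 (nat_lit 348) (nat_lit 5) (nat_lit 349) (nat_lit 5) (nat_lit 571) (nat_lit 501) (nat_lit 488)) (XT.lf (nat_lit 0) (nat_lit 1439753387) (nat_lit 684) (nat_lit 978535114) (nat_lit 760) (nat_lit 5369694889) (nat_lit 328) (nat_lit 5) (nat_lit 337) (nat_lit 5) (nat_lit 338) (nat_lit 5) (nat_lit 572) (nat_lit 501) (nat_lit 487)))) (XT.nd (nat_lit 156) (nat_lit 1444) (nat_lit 0) (XT.nd (nat_lit 78) (nat_lit 836) (nat_lit 0) (XT.lf (nat_lit 0) (nat_lit 5859743148) (nat_lit 760) (nat_lit 428165075) (nat_lit 76) (nat_lit 1556700027) (nat_lit 328) (nat_lit 5) (nat_lit 338) (nat_lit 5) (nat_lit 329) (nat_lit 5) (nat_lit 573) (nat_lit 501) (nat_lit 486)) (XT.lf (nat_lit 0) (nat_lit 1432994684) (nat_lit 836) (nat_lit 2305599393) (nat_lit 76) (nat_lit 4163898243) (nat_lit 317) (nat_lit 5) (nat_lit 328) (nat_lit 5) (nat_lit 318) (nat_lit 5) (nat_lit 574) (nat_lit 501) (nat_lit 485))) (XT.nd (nat_lit 78) (nat_lit 760) (nat_lit 0) (XT.lf (nat_lit 0) (nat_lit 3751665138) (nat_lit 684) (nat_lit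 1110349832) (nat_lit 760) (nat_lit 3099877846) (nat_lit 308) (nat_lit 5) (nat_lit 317) (nat_lit 5) (nat_lit 318) (nat_lit 5) (nat_lit 575) (nat_lit 501) (nat_lit 484)) (XT.lf (nat_lit 0) (nat_lit 313258943) (nat_lit 760) (nat_lit 6143151629) (nat_lit 76) (nat_lit 1566424468) (nat_lit 298) (nat_lit 5) (nat_lit 308) (nat_lit 5) (nat_lit 299) (nat_lit 5) (nat_lit 576) (nat_lit 501) (nat_lit 483))))))) (XT.nd (nat_lit 936) (nat_lit 4940) (nat_lit 0) (XT.nd (nat_lit 468) (nat_lit 2888) (nat_lit 0) (XT.nd (nat_lit 234) (nat_lit 1292) (nat_lit 0) (XT.nd (nat_lit 78) (nat_lit 1368) (nat_lit 0) (XT.lf (nat_lit 0) (nat_lit 3731954649) (nat_lit 760) (nat_lit 36082637) (nat_lit 76) (nat_lit 4316981201) (nat_lit 298) (nat_lit 5) (nat_lit 308) (nat_lit 5) (nat_lit 299) (nat_lit 5) (nat_lit 577) (nat_lit 501) (nat_lit 482)) (XT.nd (nat_lit 78) (nat_lit 760) (nat_lit 0) (XT.lf (nat_lit 0) (nat_lit 6203859480) (nat_lit 608) (nat_lit 999534051) (nat_lit 684) (nat_lit 945372777) (nat_lit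 290) (nat_lit 5) (nat_lit 298) (nat_lit 5) (nat_lit 299) (nat_lit 5) (nat_lit 578) (nat_lit 501) (nat_lit 481)) (XT.lf (nat_lit 0) (nat_lit 2482005494) (nat_lit 760) (nat_lit 3901379152) (nat_lit 76) (nat_lit 1830389207) (nat_lit 280) (nat_lit 5) (nat_lit 290) (nat_lit 5) (nat_lit 281) (nat_lit 5) (nat_lit 579) (nat_lit 501) (nat_lit 480)))) (XT.nd (nat_lit 78) (nat_lit 684) (nat_lit 0) (XT.lf (nat_lit 0) (nat_lit 2388285065) (nat_lit 608) (nat_lit 3557153047) (nat_lit 684) (nat_lit 2334922778) (nat_lit 272) (nat_lit 5) (nat_lit 280) (nat_lit 5) (nat_lit 281) (nat_lit 5) (nat_lit 580) (nat_lit 501) (nat_lit 479)) (XT.nd (nat_lit 78) (nat_lit 0) (nat_lit 0) (XT.lf (nat_lit 0) (nat_lit 435348384) (nat_lit 608) (nat_lit 654014678) (nat_lit 684) (nat_lit 7259290784) (nat_lit 263) (nat_lit 5) (nat_lit 271) (nat_lit 5) (nat_lit 272) (nat_lit 5) (nat_lit 581) (nat_lit 501) (nat_lit 478)) (XT.lf (nat_lit 0) (nat_lit 4551323834) (nat_lit 684) (nat_lit 1551269525) (nat_lit 76)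 (nat_lit 2315408734) (nat_lit 263) (nat_lit 5) (nat_lit 272) (nat_lit 5) (nat_lit 264) (nat_lit 5) (nat_lit 582) (nat_lit 501) (nat_lit 477))))) (XT.nd (nat_lit 234) (nat_lit 1140) (nat_lit 0) (XT.nd (nat_lit 78) (nat_lit 1216) (nat_lit 0) (XT.lf (nat_lit 0) (nat_lit 4927484416) (nat_lit 532) (nat_lit 3138072971) (nat_lit 608) (nat_lit 423526290) (nat_lit 256) (nat_lit 5) (nat_lit 263) (nat_lit 5) (nat_lit 264) (nat_lit 5) (nat_lit 583) (nat_lit 501) (nat_lit 476)) (XT.nd (nat_lit 78) (nat_lit 532) (nat_lit 0) (XT.lf (nat_lit 0) (nat_lit 2942875166) (nat_lit 608) (nat_lit 81635491) (nat_lit 684) (nat_lit 5537151396) (nat_lit 247) (nat_lit 5) (nat_lit 255) (nat_lit 5) (nat_lit 256) (nat_lit 5) (nat_lit 584) (nat_lit 501) (nat_lit 475)) (XT.lf (nat_lit 0) (nat_lit 908207121) (nat_lit 532) (nat_lit 5624708468) (nat_lit 608) (nat_lit 2102785489) (nat_lit 240) (nat_lit 5) (nat_lit 247) (nat_lit 5) (nat_lit 248) (nat_lit 5) (nat_lit 585) (nat_lit 501) (nat_lit 474)))) (XT.nd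 (nat_lit 78) (nat_lit 1064) (nat_lit 0) (XT.lf (nat_lit 0) (nat_lit 1368023747) (nat_lit 608) (nat_lit 1150208556) (nat_lit 76) (nat_lit 6193090717) (nat_lit 239) (nat_lit 5) (nat_lit 247) (nat_lit 5) (nat_lit 240) (nat_lit 5) (nat_lit 586) (nat_lit 501) (nat_lit 473)) (XT.nd (nat_lit 78) (nat_lit 532) (nat_lit 0) (XT.lf (nat_lit 0) (nat_lit 4869216919) (nat_lit 608) (nat_lit 3245831802) (nat_lit 76) (nat_lit 673354465) (nat_lit 232) (nat_lit 5) (nat_lit 240) (nat_lit 5) (nat_lit 233) (nat_lit 5) (nat_lit 587) (nat_lit 501) (nat_lit 472)) (XT.lf (nat_lit 0) (nat_lit 3475994777) (nat_lit 532) (nat_lit 4960535671) (nat_lit 608) (nat_lit 430578710) (nat_lit 225) (nat_lit 5) (nat_lit 232) (nat_lit 5) (nat_lit 233) (nat_lit 5) (nat_lit 588) (nat_lit 501) (nat_lit 471)))))) (XT.nd (nat_lit 468) (nat_lit 2736) (nat_lit 0) (XT.nd (nat_lit 234) (nat_lit 1064) (nat_lit 0) (XT.nd (nat_lit 78) (nat_lit 532) (nat_lit 0) (XT.lf (nat_lit 0) (nat_lit 1355622363) (nat_lit 532) (nat_lit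 1711167661) (nat_lit 608) (nat_lit 5880598750) (nat_lit 217) (nat_lit 5) (nat_lit 224) (nat_lit 5) (nat_lit 225) (nat_lit 5) (nat_lit 589) (nat_lit 501) (nat_lit 470)) (XT.nd (nat_lit 78) (nat_lit 532) (nat_lit 0) (XT.lf (nat_lit 0) (nat_lit 6624859700) (nat_lit 608) (nat_lit 803095942) (nat_lit 76) (nat_lit 1601336816) (nat_lit 217) (nat_lit 5) (nat_lit 225) (nat_lit 5) (nat_lit 218) (nat_lit 5) (nat_lit 590) (nat_lit 501) (nat_lit 469)) (XT.lf (nat_lit 0) (nat_lit 1128038172) (nat_lit 532) (nat_lit 2999959137) (nat_lit 76) (nat_lit 4984659278) (nat_lit 210) (nat_lit 5) (nat_lit 217) (nat_lit 5) (nat_lit 211) (nat_lit 5) (nat_lit 591) (nat_lit 501) (nat_lit 468)))) (XT.nd (nat_lit 78) (nat_lit 532) (nat_lit 0) (XT.lf (nat_lit 0) (nat_lit 3945687224) (nat_lit 532) (nat_lit 735210160) (nat_lit 608) (nat_lit 4516839508) (nat_lit 203) (nat_lit 5) (nat_lit 210) (nat_lit 5) (nat_lit 211) (nat_lit 5) (nat_lit 592) (nat_lit 501) (nat_lit 467)) (XT.nd (nat_lit 78) (nat_lit 76)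 (nat_lit 0) (XT.lf (nat_lit 0) (nat_lit 1720943852) (nat_lit 456) (nat_lit 6584238064) (nat_lit 532) (nat_lit 979334863) (nat_lit 197) (nat_lit 5) (nat_lit 203) (nat_lit 5) (nat_lit 204) (nat_lit 5) (nat_lit 593) (nat_lit 501) (nat_lit 466)) (XT.lf (nat_lit 0) (nat_lit 2586198226) (nat_lit 532) (nat_lit 560688255) (nat_lit 76) (nat_lit 6225974397) (nat_lit 196) (nat_lit 5) (nat_lit 203) (nat_lit 5) (nat_lit 197) (nat_lit 5) (nat_lit 594) (nat_lit 501) (nat_lit 465))))) (XT.nd (nat_lit 234) (nat_lit 1292) (nat_lit 0) (XT.nd (nat_lit 78) (nat_lit 988) (nat_lit 0) (XT.lf (nat_lit 0) (nat_lit 6207626946) (nat_lit 532) (nat_lit 2872618615) (nat_lit 76) (nat_lit 382647898) (nat_lit 190) (nat_lit 5) (nat_lit 197) (nat_lit 5) (nat_lit 191) (nat_lit 5) (nat_lit 595) (nat_lit 501) (nat_lit 464)) (XT.nd (nat_lit 78) (nat_lit 456) (nat_lit 0) (XT.lf (nat_lit 0) (nat_lit 347514215) (nat_lit 532) (nat_lit 5253878643) (nat_lit 76) (nat_lit 3953187551) (nat_lit 183) (nat_lit 5) (nat_lit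 190) (nat_lit 5) (nat_lit 184) (nat_lit 5) (nat_lit 596) (nat_lit 501) (nat_lit 463)) (XT.lf (nat_lit 0) (nat_lit 1942589448) (nat_lit 456) (nat_lit 2021102015) (nat_lit 532) (nat_lit 5684285450) (nat_lit 177) (nat_lit 5) (nat_lit 183) (nat_lit 5) (nat_lit 184) (nat_lit 5) (nat_lit 597) (nat_lit 501) (nat_lit 462)))) (XT.nd (nat_lit 156) (nat_lit 836) (nat_lit 0) (XT.nd (nat_lit 78) (nat_lit 456) (nat_lit 0) (XT.lf (nat_lit 0) (nat_lit 7651466517) (nat_lit 532) (nat_lit 469397411) (nat_lit 76) (nat_lit 1622396582) (nat_lit 177) (nat_lit 5) (nat_lit 184) (nat_lit 5) (nat_lit 178) (nat_lit 5) (nat_lit 598) (nat_lit 501) (nat_lit 461)) (XT.lf (nat_lit 0) (nat_lit 1564427668) (nat_lit 456) (nat_lit 2930682576) (nat_lit 76) (nat_lit 5344889708) (nat_lit 171) (nat_lit 5) (nat_lit 177) (nat_lit 5) (nat_lit 172) (nat_lit 5) (nat_lit 599) (nat_lit 501) (nat_lit 460))) (XT.nd (nat_lit 78) (nat_lit 380) (nat_lit 0) (XT.lf (nat_lit 0) (nat_lit 4479203954) (nat_lit 456) (nat_lit 773103866)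 (nat_lit 532) (nat_lit 4686363345) (nat_lit 165) (nat_lit 5) (nat_lit 171) (nat_lit 5) (nat_lit 172) (nat_lit 5) (nat_lit 600) (nat_lit 501) (nat_lit 459)) (XT.lf (nat_lit 0) (nat_lit 1974902782) (nat_lit 380) (nat_lit 7045856017) (nat_lit 456) (nat_lit 1018425032) (nat_lit 160) (nat_lit 5) (nat_lit 165) (nat_lit 5) (nat_lit 166) (nat_lit 5) (nat_lit 601) (nat_lit 501) (nat_lit 458))))))))
noncomputable def xc42 : XT := (XT.nd (nat_lit 1950) (nat_lit 3268) (nat_lit 0) (XT.nd (nat_lit 936) (nat_lit 2660) (nat_lit 0) (XT.nd (nat_lit 468) (nat_lit 1748) (nat_lit 0) (XT.nd (nat_lit 234) (nat_lit 836) (nat_lit 0) (XT.nd (nat_lit 78) (nat_lit 760) (nat_lit 0) (XT.lf (nat_lit 0) (nat_lit 2683865738) (nat_lit 456) (nat_lit 601531032) (nat_lit 76) (nat_lit 6856026440) (nat_lit 159) (nat_lit 5) (nat_lit 165) (nat_lit 5) (nat_lit 160) (nat_lit 5) (nat_lit 602) (nat_lit 501) (nat_lit 457)) (XT.nd (nat_lit 78) (nat_lit 380) (nat_lit 0) (XT.lf (nat_lit 0) (nat_lit 6451567347) (nat_lit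 456) (nat_lit 3221535733) (nat_lit 76) (nat_lit 572373673) (nat_lit 154) (nat_lit 5) (nat_lit 160) (nat_lit 5) (nat_lit 155) (nat_lit 5) (nat_lit 603) (nat_lit 501) (nat_lit 456)) (XT.lf (nat_lit 0) (nat_lit 4426415112) (nat_lit 380) (nat_lit 5878639856) (nat_lit 456) (nat_lit 46351725) (nat_lit 149) (nat_lit 5) (nat_lit 154) (nat_lit 5) (nat_lit 155) (nat_lit 5) (nat_lit 604) (nat_lit 501) (nat_lit 455)))) (XT.nd (nat_lit 78) (nat_lit 380) (nat_lit 0) (XT.lf (nat_lit 0) (nat_lit 1741613867) (nat_lit 380) (nat_lit 1974089997) (nat_lit 456) (nat_lit 6743483399) (nat_lit 143) (nat_lit 5) (nat_lit 148) (nat_lit 5) (nat_lit 149) (nat_lit 5) (nat_lit 605) (nat_lit 501) (nat_lit 454)) (XT.nd (nat_lit 78) (nat_lit 380) (nat_lit 0) (XT.lf (nat_lit 0) (nat_lit 7561708607) (nat_lit 456) (nat_lit 1008876448) (nat_lit 76) (nat_lit 1998349426) (nat_lit 143) (nat_lit 5) (nat_lit 149) (nat_lit 5) (nat_lit 144) (nat_lit 5) (nat_lit 606) (nat_lit 501) (nat_lit 453)) (XT.lf (nat_lit 0)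 (nat_lit 808066934) (nat_lit 380) (nat_lit 3822418826) (nat_lit 76) (nat_lit 6049993075) (nat_lit 138) (nat_lit 5) (nat_lit 143) (nat_lit 5) (nat_lit 139) (nat_lit 5) (nat_lit 607) (nat_lit 501) (nat_lit 452))))) (XT.nd (nat_lit 234) (nat_lit 988) (nat_lit 0) (XT.nd (nat_lit 78) (nat_lit 380) (nat_lit 0) (XT.lf (nat_lit 0) (nat_lit 4067698256) (nat_lit 380) (nat_lit 582205914) (nat_lit 456) (nat_lit 6144145766) (nat_lit 133) (nat_lit 5) (nat_lit 138) (nat_lit 5) (nat_lit 139) (nat_lit 5) (nat_lit 608) (nat_lit 501) (nat_lit 451)) (XT.nd (nat_lit 78) (nat_lit 76) (nat_lit 0) (XT.lf (nat_lit 0) (nat_lit 1182534435) (nat_lit 304) (nat_lit 7400055697) (nat_lit 380) (nat_lit 2327025541) (nat_lit 129) (nat_lit 5) (nat_lit 133) (nat_lit 5) (nat_lit 134) (nat_lit 5) (nat_lit 609) (nat_lit 501) (nat_lit 450)) (XT.lf (nat_lit 0) (nat_lit 1552782954) (nat_lit 380) (nat_lit 1768086999) (nat_lit 76) (nat_lit 7706284884) (nat_lit 128) (nat_lit 5) (nat_lit 133) (nat_lit 5) (nat_lit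 129) (nat_lit 5) (nat_lit 610) (nat_lit 501) (nat_lit 449)))) (XT.nd (nat_lit 78) (nat_lit 684) (nat_lit 0) (XT.lf (nat_lit 0) (nat_lit 5484390277) (nat_lit 380) (nat_lit 4801052142) (nat_lit 76) (nat_lit 861190757) (nat_lit 124) (nat_lit 5) (nat_lit 129) (nat_lit 5) (nat_lit 125) (nat_lit 5) (nat_lit 611) (nat_lit 501) (nat_lit 448)) (XT.nd (nat_lit 78) (nat_lit 380) (nat_lit 0) (XT.lf (nat_lit 0) (nat_lit 3332012501) (nat_lit 304) (nat_lit 6176839373) (nat_lit 380) (nat_lit 1759367954) (nat_lit 120) (nat_lit 5) (nat_lit 124) (nat_lit 5) (nat_lit 125) (nat_lit 5) (nat_lit 612) (nat_lit 501) (nat_lit 447)) (XT.lf (nat_lit 0) (nat_lit 222552399) (nat_lit 304) (nat_lit 1962509597) (nat_lit 380) (nat_lit 9207038132) (nat_lit 115) (nat_lit 5) (nat_lit 119) (nat_lit 5) (nat_lit 120) (nat_lit 5) (nat_lit 613) (nat_lit 501) (nat_lit 446)))))) (XT.nd (nat_lit 468) (nat_lit 1368) (nat_lit 0) (XT.nd (nat_lit 234) (nat_lit 608) (nat_lit 0) (XT.nd (nat_lit 78) (nat_lit 684) (nat_lit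 0) (XT.lf (nat_lit 0) (nat_lit 6212589125) (nat_lit 380) (nat_lit 2959666494) (nat_lit 76) (nat_lit 2345417502) (nat_lit 115) (nat_lit 5) (nat_lit 120) (nat_lit 5) (nat_lit 116) (nat_lit 5) (nat_lit 614) (nat_lit 501) (nat_lit 445)) (XT.nd (nat_lit 78) (nat_lit 380) (nat_lit 0) (XT.lf (nat_lit 0) (nat_lit 5406472875) (nat_lit 304) (nat_lit 4922065751) (nat_lit 380) (nat_lit 1317064459) (nat_lit 111) (nat_lit 5) (nat_lit 115) (nat_lit 5) (nat_lit 116) (nat_lit 5) (nat_lit 615) (nat_lit 501) (nat_lit 444)) (XT.lf (nat_lit 0) (nat_lit 2148595353) (nat_lit 304) (nat_lit 559856410) (nat_lit 380) (nat_lit 9067409280) (nat_lit 106) (nat_lit 5) (nat_lit 110) (nat_lit 5) (nat_lit 111) (nat_lit 5) (nat_lit 616) (nat_lit 501) (nat_lit 443)))) (XT.nd (nat_lit 78) (nat_lit 608) (nat_lit 0) (XT.lf (nat_lit 0) (nat_lit 6824322422) (nat_lit 380) (nat_lit 1219641308) (nat_lit 76) (nat_lit 3864039499) (nat_lit 106) (nat_lit 5) (nat_lit 111) (nat_lit 5) (nat_lit 107) (nat_lit 5) (nat_lit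 617) (nat_lit 501) (nat_lit 442)) (XT.nd (nat_lit 78) (nat_lit 380) (nat_lit 0) (XT.lf (nat_lit 0) (nat_lit 7384423406) (nat_lit 228) (nat_lit 3650586532) (nat_lit 304) (nat_lit 1007531055) (nat_lit 103) (nat_lit 5) (nat_lit 106) (nat_lit 5) (nat_lit 107) (nat_lit 5) (nat_lit 618) (nat_lit 501) (nat_lit 441)) (XT.lf (nat_lit 0) (nat_lit 3109325356) (nat_lit 380) (nat_lit 8221019905) (nat_lit 76) (nat_lit 849007846) (nat_lit 98) (nat_lit 5) (nat_lit 103) (nat_lit 5) (nat_lit 99) (nat_lit 5) (nat_lit 619) (nat_lit 501) (nat_lit 440))))) (XT.nd (nat_lit 234) (nat_lit 760) (nat_lit 0) (XT.nd (nat_lit 78) (nat_lit 380) (nat_lit 0) (XT.lf (nat_lit 0) (nat_lit 401053462) (nat_lit 228) (nat_lit 6913349109) (nat_lit 304) (nat_lit 5003980771) (nat_lit 95) (nat_lit 5) (nat_lit 98) (nat_lit 5) (nat_lit 99) (nat_lit 5) (nat_lit 620) (nat_lit 501) (nat_lit 439)) (XT.nd (nat_lit 78) (nat_lit 380) (nat_lit 0) (XT.lf (nat_lit 0) (nat_lit 9242305191) (nat_lit 228) (nat_lit 2377902349)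 (nat_lit 304) (nat_lit 839656633) (nat_lit 95) (nat_lit 5) (nat_lit 98) (nat_lit 5) (nat_lit 99) (nat_lit 5) (nat_lit 621) (nat_lit 501) (nat_lit 438)) (XT.lf (nat_lit 0) (nat_lit 3376683794) (nat_lit 380) (nat_lit 6974416155) (nat_lit 76) (nat_lit 2252366041) (nat_lit 90) (nat_lit 5) (nat_lit 95) (nat_lit 5) (nat_lit 91) (nat_lit 5) (nat_lit 622) (nat_lit 501) (nat_lit 437)))) (XT.nd (nat_lit 156) (nat_lit 532) (nat_lit 0) (XT.nd (nat_lit 78) (nat_lit 0) (nat_lit 0) (XT.lf (nat_lit 0) (nat_lit 1885871227) (nat_lit 228) (nat_lit 5792101544) (nat_lit 304) (nat_lit 5071621146) (nat_lit 87) (nat_lit 5) (nat_lit 90) (nat_lit 5) (nat_lit 91) (nat_lit 5) (nat_lit 623) (nat_lit 501) (nat_lit 436)) (XT.lf (nat_lit 0) (nat_lit 10954217510) (nat_lit 228) (nat_lit 1120328822) (nat_lit 304) (nat_lit 823915218) (nat_lit 87) (nat_lit 5) (nat_lit 90) (nat_lit 5) (nat_lit 91) (nat_lit 5) (nat_lit 624) (nat_lit 501) (nat_lit 435))) (XT.nd (nat_lit 78) (nat_lit 228) (nat_lit 0) (XT.lf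 (nat_lit 0) (nat_lit 3496129113) (nat_lit 304) (nat_lit 5911780868) (nat_lit 76) (nat_lit 3641275123) (nat_lit 83) (nat_lit 5) (nat_lit 87) (nat_lit 5) (nat_lit 84) (nat_lit 5) (nat_lit 625) (nat_lit 501) (nat_lit 434)) (XT.lf (nat_lit 0) (nat_lit 3190167286) (nat_lit 228) (nat_lit 4705750649) (nat_lit 304) (nat_lit 5306810947) (nat_lit 80) (nat_lit 5) (nat_lit 83) (nat_lit 5) (nat_lit 84) (nat_lit 5) (nat_lit 626) (nat_lit 501) (nat_lit 433))))))) (XT.nd (nat_lit 936) (nat_lit 1292) (nat_lit 0) (XT.nd (nat_lit 468) (nat_lit 912) (nat_lit 0) (XT.nd (nat_lit 234) (nat_lit 532) (nat_lit 0) (XT.nd (nat_lit 78) (nat_lit 532) (nat_lit 0) (XT.lf (nat_lit 0) (nat_lit 12387471044) (nat_lit 304) (nat_lit 868347491) (nat_lit 76) (nat_lit 103451777) (nat_lit 80) (nat_lit 5) (nat_lit 84) (nat_lit 5) (nat_lit 81) (nat_lit 5) (nat_lit 627) (nat_lit 501) (nat_lit 432)) (XT.nd (nat_lit 78) (nat_lit 228) (nat_lit 0) (XT.lf (nat_lit 0) (nat_lit 3455165260) (nat_lit 304) (nat_lit 5063908969)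 (nat_lit 76) (nat_lit 4998412445) (nat_lit 76) (nat_lit 5) (nat_lit 80) (nat_lit 5) (nat_lit 77) (nat_lit 5) (nat_lit 628) (nat_lit 501) (nat_lit 431)) (XT.lf (nat_lit 0) (nat_lit 4282584109) (nat_lit 228) (nat_lit 3672791770) (nat_lit 304) (nat_lit 5723410653) (nat_lit 73) (nat_lit 5) (nat_lit 76) (nat_lit 5) (nat_lit 77) (nat_lit 5) (nat_lit 629) (nat_lit 501) (nat_lit 430)))) (XT.nd (nat_lit 78) (nat_lit 532) (nat_lit 0) (XT.lf (nat_lit 0) (nat_lit 12552217635) (nat_lit 304) (nat_lit 28664175) (nat_lit 76) (nat_lit 1262300021) (nat_lit 73) (nat_lit 5) (nat_lit 77) (nat_lit 5) (nat_lit 74) (nat_lit 5) (nat_lit 630) (nat_lit 501) (nat_lit 429)) (XT.nd (nat_lit 78) (nat_lit 228) (nat_lit 0) (XT.lf (nat_lit 0) (nat_lit 3239414220) (nat_lit 304) (nat_lit 4464774152) (nat_lit 76) (nat_lit 6305226193) (nat_lit 69) (nat_lit 5) (nat_lit 73) (nat_lit 5) (nat_lit 70) (nat_lit 5) (nat_lit 631) (nat_lit 501) (nat_lit 428)) (XT.lf (nat_lit 0) (nat_lit 5128487370) (nat_lit 228) (nat_lit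 2713071482) (nat_lit 304) (nat_lit 6337275411) (nat_lit 66) (nat_lit 5) (nat_lit 69) (nat_lit 5) (nat_lit 70) (nat_lit 5) (nat_lit 632) (nat_lit 501) (nat_lit 427))))) (XT.nd (nat_lit 234) (nat_lit 456) (nat_lit 0) (XT.nd (nat_lit 78) (nat_lit 228) (nat_lit 0) (XT.lf (nat_lit 0) (nat_lit 553532765) (nat_lit 228) (nat_lit 11996468591) (nat_lit 304) (nat_lit 1801357731) (nat_lit 63) (nat_lit 5) (nat_lit 66) (nat_lit 5) (nat_lit 67) (nat_lit 5) (nat_lit 633) (nat_lit 501) (nat_lit 426)) (XT.nd (nat_lit 78) (nat_lit 152) (nat_lit 0) (XT.lf (nat_lit 0) (nat_lit 2832448603) (nat_lit 304) (nat_lit 4151907785) (nat_lit 76) (nat_lit 7541728423) (nat_lit 62) (nat_lit 5) (nat_lit 66) (nat_lit 5) (nat_lit 63) (nat_lit 5) (nat_lit 634) (nat_lit 501) (nat_lit 425)) (XT.lf (nat_lit 0) (nat_lit 5689575549) (nat_lit 152) (nat_lit 1848004439) (nat_lit 228) (nat_lit 7166433267) (nat_lit 60) (nat_lit 5) (nat_lit 62) (nat_lit 5) (nat_lit 63) (nat_lit 5) (nat_lit 635) (nat_lit 501) (nat_lit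 424)))) (XT.nd (nat_lit 78) (nat_lit 228) (nat_lit 0) (XT.lf (nat_lit 0) (nat_lit 827718135) (nat_lit 228) (nat_lit 11530455206) (nat_lit 304) (nat_lit 2526901433) (nat_lit 57) (nat_lit 5) (nat_lit 60) (nat_lit 5) (nat_lit 61) (nat_lit 5) (nat_lit 636) (nat_lit 501) (nat_lit 423)) (XT.nd (nat_lit 78) (nat_lit 152) (nat_lit 0) (XT.lf (nat_lit 0) (nat_lit 2215604041) (nat_lit 304) (nat_lit 4166815233) (nat_lit 76) (nat_lit 8686271345) (nat_lit 56) (nat_lit 5) (nat_lit 60) (nat_lit 5) (nat_lit 57) (nat_lit 5) (nat_lit 637) (nat_lit 501) (nat_lit 422)) (XT.lf (nat_lit 0) (nat_lit 5923450844) (nat_lit 152) (nat_lit 1100808122) (nat_lit 228) (nat_lit 8231284663) (nat_lit 54) (nat_lit 5) (nat_lit 56) (nat_lit 5) (nat_lit 57) (nat_lit 5) (nat_lit 638) (nat_lit 501) (nat_lit 421)))))) (XT.nd (nat_lit 468) (nat_lit 380) (nat_lit 0) (XT.nd (nat_lit 234) (nat_lit 456) (nat_lit 0) (XT.nd (nat_lit 78) (nat_lit 228) (nat_lit 0) (XT.lf (nat_lit 0) (nat_lit 749091326) (nat_lit 228) (nat_lit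 11207587534) (nat_lit 304) (nat_lit 3488904566) (nat_lit 51) (nat_lit 5) (nat_lit 54) (nat_lit 5) (nat_lit 55) (nat_lit 5) (nat_lit 639) (nat_lit 501) (nat_lit 420)) (XT.nd (nat_lit 78) (nat_lit 152) (nat_lit 0) (XT.lf (nat_lit 0) (nat_lit 1367769447) (nat_lit 304) (nat_lit 4555433711) (nat_lit 76) (nat_lit 9715304683) (nat_lit 50) (nat_lit 5) (nat_lit 54) (nat_lit 5) (nat_lit 51) (nat_lit 5) (nat_lit 640) (nat_lit 501) (nat_lit 419)) (XT.lf (nat_lit 0) (nat_lit 5783147142) (nat_lit 152) (nat_lit 496757726) (nat_lit 228) (nat_lit 9554825230) (nat_lit 48) (nat_lit 5) (nat_lit 50) (nat_lit 5) (nat_lit 51) (nat_lit 5) (nat_lit 641) (nat_lit 501) (nat_lit 418)))) (XT.nd (nat_lit 78) (nat_lit 228) (nat_lit 0) (XT.lf (nat_lit 0) (nat_lit 268450275) (nat_lit 228) (nat_lit 11054610666) (nat_lit 304) (nat_lit 4711161745) (nat_lit 45) (nat_lit 5) (nat_lit 48) (nat_lit 5) (nat_lit 49) (nat_lit 5) (nat_lit 642) (nat_lit 501) (nat_lit 417)) (XT.nd (nat_lit 78) (nat_lit 152) (nat_lit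 0) (XT.lf (nat_lit 0) (nat_lit 265153026) (nat_lit 304) (nat_lit 5368636205) (nat_lit 76) (nat_lit 10603111771) (nat_lit 44) (nat_lit 5) (nat_lit 48) (nat_lit 5) (nat_lit 45) (nat_lit 5) (nat_lit 643) (nat_lit 501) (nat_lit 416)) (XT.lf (nat_lit 0) (nat_lit 5216610356) (nat_lit 152) (nat_lit 63463684) (nat_lit 228) (nat_lit 11162894144) (nat_lit 42) (nat_lit 5) (nat_lit 44) (nat_lit 5) (nat_lit 45) (nat_lit 5) (nat_lit 644) (nat_lit 501) (nat_lit 415))))) (XT.nd (nat_lit 74256) (nat_lit 0) (nat_lit 30856) (XT.nd (nat_lit 78) (nat_lit 380) (nat_lit 0) (XT.lf (nat_lit 0) (nat_lit 10436361228) (nat_lit 228) (nat_lit 659959434) (nat_lit 76) (nat_lit 5556016026) (nat_lit 42) (nat_lit 5) (nat_lit 45) (nat_lit 5) (nat_lit 43) (nat_lit 5) (nat_lit 645) (nat_lit 501) (nat_lit 414)) (XT.nd (nat_lit 78) (nat_lit 228) (nat_lit 0) (XT.lf (nat_lit 0) (nat_lit 10195034517) (nat_lit 152) (nat_lit 5536299200) (nat_lit 228) (nat_lit 1133848962) (nat_lit 40) (nat_lit 5) (nat_lit 42) (nat_lit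 5) (nat_lit 43) (nat_lit 5) (nat_lit 646) (nat_lit 501) (nat_lit 413)) (XT.lf (nat_lit 0) (nat_lit 3998396640) (nat_lit 228) (nat_lit 12916721165) (nat_lit 76) (nat_lit 166611309) (nat_lit 37) (nat_lit 5) (nat_lit 40) (nat_lit 5) (nat_lit 38) (nat_lit 5) (nat_lit 647) (nat_lit 501) (nat_lit 412)))) (XT.nd (nat_lit 156) (nat_lit 3496) (nat_lit 0) (XT.nd (nat_lit 78) (nat_lit 0) (nat_lit 0) (XT.lf (nat_lit 0) (nat_lit 346913252) (nat_lit 1748) (nat_lit 2839894868) (nat_lit 0) (nat_lit 346913252) (nat_lit 489) (nat_lit 5) (nat_lit 512) (nat_lit 4) (nat_lit 489) (nat_lit 4) (nat_lit 556) (nat_lit 502) (nat_lit 502)) (XT.lf (nat_lit 0) (nat_lit 4158310771) (nat_lit 1748) (nat_lit 538012245) (nat_lit 0) (nat_lit 2406641133) (nat_lit 489) (nat_lit 5) (nat_lit 512) (nat_lit 4) (nat_lit 489) (nat_lit 4) (nat_lit 557) (nat_lit 502) (nat_lit 501))) (XT.nd (nat_lit 78) (nat_lit 1672) (nat_lit 0) (XT.lf (nat_lit 0) (nat_lit 507651416) (nat_lit 1824) (nat_lit 2443536951) (nat_lit 76)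 (nat_lit 4188709355) (nat_lit 465) (nat_lit 5) (nat_lit 489) (nat_lit 5) (nat_lit 466) (nat_lit 4) (nat_lit 558) (nat_lit 502) (nat_lit 500)) (XT.lf (nat_lit 0) (nat_lit 2813657281) (nat_lit 1672) (nat_lit 1130055720) (nat_lit 1748) (nat_lit 3234398429) (nat_lit 443) (nat_lit 5) (nat_lit 465) (nat_lit 5) (nat_lit 466) (nat_lit 4) (nat_lit 559) (nat_lit 502) (nat_lit 499))))))))
noncomputable def xc43 : XT := (XT.nd (nat_lit 1950) (nat_lit 8664) (nat_lit 0) (XT.nd (nat_lit 936) (nat_lit 6840) (nat_lit 0) (XT.nd (nat_lit 468) (nat_lit 4180) (nat_lit 0) (XT.nd (nat_lit 234) (nat_lit 1900) (nat_lit 0) (XT.nd (nat_lit 78) (nat_lit 912) (nat_lit 0) (XT.lf (nat_lit 0) (nat_lit 188437617) (nat_lit 1064) (nat_lit 6289238763) (nat_lit 76) (nat_lit 740194676) (nat_lit 429) (nat_lit 5) (nat_lit 443) (nat_lit 5) (nat_lit 430) (nat_lit 4) (nat_lit 560) (nat_lit 502) (nat_lit 498)) (XT.nd (nat_lit 78) (nat_lit 912) (nat_lit 0) (XT.lf (nat_lit 0) (nat_lit 3606914336) (nat_lit 1064) (nat_lit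 970456950) (nat_lit 76) (nat_lit 2681229909) (nat_lit 429) (nat_lit 5) (nat_lit 443) (nat_lit 5) (nat_lit 430) (nat_lit 4) (nat_lit 561) (nat_lit 502) (nat_lit 497)) (XT.lf (nat_lit 0) (nat_lit 4444102373) (nat_lit 912) (nat_lit 2613302969) (nat_lit 988) (nat_lit 243480208) (nat_lit 417) (nat_lit 5) (nat_lit 429) (nat_lit 5) (nat_lit 430) (nat_lit 4) (nat_lit 562) (nat_lit 502) (nat_lit 496)))) (XT.nd (nat_lit 78) (nat_lit 912) (nat_lit 0) (XT.lf (nat_lit 0) (nat_lit 2579719110) (nat_lit 912) (nat_lit 569262761) (nat_lit 988) (nat_lit 4195456121) (nat_lit 404) (nat_lit 5) (nat_lit 416) (nat_lit 5) (nat_lit 417) (nat_lit 5) (nat_lit 563) (nat_lit 502) (nat_lit 495)) (XT.nd (nat_lit 78) (nat_lit 76) (nat_lit 0) (XT.lf (nat_lit 0) (nat_lit 702726538) (nat_lit 836) (nat_lit 5872989094) (nat_lit 912) (nat_lit 813731794) (nat_lit 393) (nat_lit 5) (nat_lit 404) (nat_lit 5) (nat_lit 405) (nat_lit 4) (nat_lit 564) (nat_lit 502) (nat_lit 494)) (XT.lf (nat_lit 0) (nat_lit 2573367715)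 (nat_lit 912) (nat_lit 1182207174) (nat_lit 76) (nat_lit 3680005099) (nat_lit 392) (nat_lit 5) (nat_lit 404) (nat_lit 5) (nat_lit 393) (nat_lit 5) (nat_lit 565) (nat_lit 502) (nat_lit 493))))) (XT.nd (nat_lit 234) (nat_lit 1672) (nat_lit 0) (XT.nd (nat_lit 78) (nat_lit 1672) (nat_lit 0) (XT.lf (nat_lit 0) (nat_lit 4415800762) (nat_lit 836) (nat_lit 1567793028) (nat_lit 912) (nat_lit 1499619334) (nat_lit 381) (nat_lit 5) (nat_lit 392) (nat_lit 5) (nat_lit 393) (nat_lit 5) (nat_lit 566) (nat_lit 502) (nat_lit 492)) (XT.nd (nat_lit 78) (nat_lit 836) (nat_lit 0) (XT.lf (nat_lit 0) (nat_lit 1871993872) (nat_lit 836) (nat_lit 4975150460) (nat_lit 76) (nat_lit 685072948) (nat_lit 370) (nat_lit 5) (nat_lit 381) (nat_lit 5) (nat_lit 371) (nat_lit 5) (nat_lit 567) (nat_lit 502) (nat_lit 491)) (XT.lf (nat_lit 0) (nat_lit 671958100) (nat_lit 836) (nat_lit 4593162478) (nat_lit 912) (nat_lit 2317409934) (nat_lit 359) (nat_lit 5) (nat_lit 370) (nat_lit 5) (nat_lit 371) (nat_lit 5) (nat_lit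 568) (nat_lit 502) (nat_lit 490)))) (XT.nd (nat_lit 78) (nat_lit 1596) (nat_lit 0) (XT.lf (nat_lit 0) (nat_lit 1050556330) (nat_lit 912) (nat_lit 1211635018) (nat_lit 76) (nat_lit 5372074456) (nat_lit 358) (nat_lit 5) (nat_lit 370) (nat_lit 5) (nat_lit 359) (nat_lit 5) (nat_lit 569) (nat_lit 502) (nat_lit 489)) (XT.nd (nat_lit 78) (nat_lit 836) (nat_lit 0) (XT.lf (nat_lit 0) (nat_lit 4425793204) (nat_lit 836) (nat_lit 3111571927) (nat_lit 76) (nat_lit 149955344) (nat_lit 348) (nat_lit 5) (nat_lit 359) (nat_lit 5) (nat_lit 349) (nat_lit 5) (nat_lit 570) (nat_lit 502) (nat_lit 488)) (XT.lf (nat_lit 0) (nat_lit 106899809) (nat_lit 836) (nat_lit 5037928024) (nat_lit 76) (nat_lit 2596972018) (nat_lit 337) (nat_lit 5) (nat_lit 348) (nat_lit 5) (nat_lit 338) (nat_lit 5) (nat_lit 571) (nat_lit 502) (nat_lit 487)))))) (XT.nd (nat_lit 468) (nat_lit 3876) (nat_lit 0) (XT.nd (nat_lit 234) (nat_lit 1444) (nat_lit 0) (XT.nd (nat_lit 78) (nat_lit 836) (nat_lit 0) (XT.lf (nat_lit 0)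 (nat_lit 799389639) (nat_lit 684) (nat_lit 2667069523) (nat_lit 760) (nat_lit 4331139062) (nat_lit 328) (nat_lit 5) (nat_lit 337) (nat_lit 5) (nat_lit 338) (nat_lit 5) (nat_lit 572) (nat_lit 502) (nat_lit 486)) (XT.nd (nat_lit 78) (nat_lit 836) (nat_lit 0) (XT.lf (nat_lit 0) (nat_lit 6751997869) (nat_lit 684) (nat_lit 116905383) (nat_lit 760) (nat_lit 986104555) (nat_lit 328) (nat_lit 5) (nat_lit 337) (nat_lit 5) (nat_lit 338) (nat_lit 5) (nat_lit 573) (nat_lit 502) (nat_lit 485)) (XT.lf (nat_lit 0) (nat_lit 2384767349) (nat_lit 836) (nat_lit 3040821963) (nat_lit 76) (nat_lit 2487854987) (nat_lit 317) (nat_lit 5) (nat_lit 328) (nat_lit 5) (nat_lit 318) (nat_lit 5) (nat_lit 574) (nat_lit 502) (nat_lit 484)))) (XT.nd (nat_lit 78) (nat_lit 760) (nat_lit 0) (XT.lf (nat_lit 0) (nat_lit 2971678754) (nat_lit 684) (nat_lit 2808945909) (nat_lit 760) (nat_lit 2192887643) (nat_lit 308) (nat_lit 5) (nat_lit 317) (nat_lit 5) (nat_lit 318) (nat_lit 5) (nat_lit 575) (nat_lit 502) (nat_lit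 483)) (XT.nd (nat_lit 78) (nat_lit 0) (nat_lit 0) (XT.lf (nat_lit 0) (nat_lit 1046958496) (nat_lit 684) (nat_lit 117656440) (nat_lit 760) (nat_lit 6870600681) (nat_lit 298) (nat_lit 5) (nat_lit 307) (nat_lit 5) (nat_lit 308) (nat_lit 5) (nat_lit 576) (nat_lit 502) (nat_lit 482)) (XT.lf (nat_lit 0) (nat_lit 4554868369) (nat_lit 760) (nat_lit 915391051) (nat_lit 76) (nat_lit 2627712495) (nat_lit 298) (nat_lit 5) (nat_lit 308) (nat_lit 5) (nat_lit 299) (nat_lit 5) (nat_lit 577) (nat_lit 502) (nat_lit 481))))) (XT.nd (nat_lit 234) (nat_lit 1900) (nat_lit 0) (XT.nd (nat_lit 78) (nat_lit 1368) (nat_lit 0) (XT.lf (nat_lit 0) (nat_lit 5278128740) (nat_lit 608) (nat_lit 2715032396) (nat_lit 684) (nat_lit 169225450) (nat_lit 290) (nat_lit 5) (nat_lit 298) (nat_lit 5) (nat_lit 299) (nat_lit 5) (nat_lit 578) (nat_lit 502) (nat_lit 480)) (XT.nd (nat_lit 78) (nat_lit 608) (nat_lit 0) (XT.lf (nat_lit 0) (nat_lit 3203332284) (nat_lit 760) (nat_lit 4896192252) (nat_lit 76) (nat_lit 128665408)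 (nat_lit 280) (nat_lit 5) (nat_lit 290) (nat_lit 5) (nat_lit 281) (nat_lit 5) (nat_lit 579) (nat_lit 502) (nat_lit 479)) (XT.lf (nat_lit 0) (nat_lit 1345109607) (nat_lit 608) (nat_lit 5288135047) (nat_lit 684) (nat_lit 1662206432) (nat_lit 272) (nat_lit 5) (nat_lit 280) (nat_lit 5) (nat_lit 281) (nat_lit 5) (nat_lit 580) (nat_lit 502) (nat_lit 478)))) (XT.nd (nat_lit 156) (nat_lit 1216) (nat_lit 0) (XT.nd (nat_lit 78) (nat_lit 608) (nat_lit 0) (XT.lf (nat_lit 0) (nat_lit 1723804825) (nat_lit 684) (nat_lit 667804814) (nat_lit 76) (nat_lit 5972639641) (nat_lit 271) (nat_lit 5) (nat_lit 280) (nat_lit 5) (nat_lit 272) (nat_lit 5) (nat_lit 581) (nat_lit 502) (nat_lit 477)) (XT.lf (nat_lit 0) (nat_lit 5143680165) (nat_lit 684) (nat_lit 2702727680) (nat_lit 76) (nat_lit 588034878) (nat_lit 263) (nat_lit 5) (nat_lit 272) (nat_lit 5) (nat_lit 264) (nat_lit 5) (nat_lit 582) (nat_lit 502) (nat_lit 476))) (XT.nd (nat_lit 78) (nat_lit 608) (nat_lit 0) (XT.lf (nat_lit 0) (nat_lit 116498984)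 (nat_lit 608) (nat_lit 4781070439) (nat_lit 76) (nat_lit 3608616285) (nat_lit 255) (nat_lit 5) (nat_lit 263) (nat_lit 5) (nat_lit 256) (nat_lit 5) (nat_lit 583) (nat_lit 502) (nat_lit 475)) (XT.lf (nat_lit 0) (nat_lit 1669463579) (nat_lit 608) (nat_lit 1855498661) (nat_lit 684) (nat_lit 5054430514) (nat_lit 247) (nat_lit 5) (nat_lit 255) (nat_lit 5) (nat_lit 256) (nat_lit 5) (nat_lit 584) (nat_lit 502) (nat_lit 474))))))) (XT.nd (nat_lit 936) (nat_lit 3800) (nat_lit 0) (XT.nd (nat_lit 468) (nat_lit 2584) (nat_lit 0) (XT.nd (nat_lit 234) (nat_lit 1140) (nat_lit 0) (XT.nd (nat_lit 78) (nat_lit 1140) (nat_lit 0) (XT.lf (nat_lit 0) (nat_lit 6990427533) (nat_lit 684) (nat_lit 418047540) (nat_lit 76) (nat_lit 1245818722) (nat_lit 247) (nat_lit 5) (nat_lit 256) (nat_lit 5) (nat_lit 248) (nat_lit 5) (nat_lit 585) (nat_lit 502) (nat_lit 473)) (XT.nd (nat_lit 78) (nat_lit 532) (nat_lit 0) (XT.lf (nat_lit 0) (nat_lit 1772998327) (nat_lit 608) (nat_lit 2538328784) (nat_lit 76) (nat_lit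 4419098489) (nat_lit 239) (nat_lit 5) (nat_lit 247) (nat_lit 5) (nat_lit 240) (nat_lit 5) (nat_lit 586) (nat_lit 502) (nat_lit 472)) (XT.lf (nat_lit 0) (nat_lit 4105920810) (nat_lit 532) (nat_lit 1129562507) (nat_lit 608) (nat_lit 3572799648) (nat_lit 232) (nat_lit 5) (nat_lit 239) (nat_lit 5) (nat_lit 240) (nat_lit 5) (nat_lit 587) (nat_lit 502) (nat_lit 471)))) (XT.nd (nat_lit 78) (nat_lit 608) (nat_lit 0) (XT.lf (nat_lit 0) (nat_lit 1972723718) (nat_lit 532) (nat_lit 6788266047) (nat_lit 608) (nat_lit 126838290) (nat_lit 225) (nat_lit 5) (nat_lit 232) (nat_lit 5) (nat_lit 233) (nat_lit 5) (nat_lit 588) (nat_lit 502) (nat_lit 470)) (XT.nd (nat_lit 78) (nat_lit 532) (nat_lit 0) (XT.lf (nat_lit 0) (nat_lit 3333130409) (nat_lit 608) (nat_lit 222581746) (nat_lit 76) (nat_lit 5413027264) (nat_lit 224) (nat_lit 5) (nat_lit 232) (nat_lit 5) (nat_lit 225) (nat_lit 5) (nat_lit 589) (nat_lit 502) (nat_lit 469)) (XT.lf (nat_lit 0) (nat_lit 6621544117) (nat_lit 532) (nat_lit 233302036)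 (nat_lit 608) (nat_lit 2196526832) (nat_lit 217) (nat_lit 5) (nat_lit 224) (nat_lit 5) (nat_lit 225) (nat_lit 5) (nat_lit 590) (nat_lit 502) (nat_lit 468))))) (XT.nd (nat_lit 234) (nat_lit 1520) (nat_lit 0) (XT.nd (nat_lit 78) (nat_lit 532) (nat_lit 0) (XT.lf (nat_lit 0) (nat_lit 1296603427) (nat_lit 532) (nat_lit 4705129079) (nat_lit 76) (nat_lit 3133712585) (nat_lit 210) (nat_lit 5) (nat_lit 217) (nat_lit 5) (nat_lit 211) (nat_lit 5) (nat_lit 591) (nat_lit 502) (nat_lit 467)) (XT.nd (nat_lit 78) (nat_lit 0) (nat_lit 0) (XT.lf (nat_lit 0) (nat_lit 2183325370) (nat_lit 532) (nat_lit 2630845699) (nat_lit 608) (nat_lit 4407062802) (nat_lit 203) (nat_lit 5) (nat_lit 210) (nat_lit 5) (nat_lit 211) (nat_lit 5) (nat_lit 592) (nat_lit 502) (nat_lit 466)) (XT.lf (nat_lit 0) (nat_lit 8391306483) (nat_lit 608) (nat_lit 109439814) (nat_lit 76) (nat_lit 808213035) (nat_lit 203) (nat_lit 5) (nat_lit 211) (nat_lit 5) (nat_lit 204) (nat_lit 5) (nat_lit 593) (nat_lit 502) (nat_lit 465))))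 (XT.nd (nat_lit 78) (nat_lit 988) (nat_lit 0) (XT.lf (nat_lit 0) (nat_lit 2622764064) (nat_lit 532) (nat_lit 2451731536) (nat_lit 76) (nat_lit 4323288457) (nat_lit 196) (nat_lit 5) (nat_lit 203) (nat_lit 5) (nat_lit 197) (nat_lit 5) (nat_lit 594) (nat_lit 502) (nat_lit 464)) (XT.nd (nat_lit 78) (nat_lit 532) (nat_lit 0) (XT.lf (nat_lit 0) (nat_lit 4642541816) (nat_lit 456) (nat_lit 1563350863) (nat_lit 532) (nat_lit 3282692400) (nat_lit 190) (nat_lit 5) (nat_lit 196) (nat_lit 5) (nat_lit 197) (nat_lit 5) (nat_lit 595) (nat_lit 502) (nat_lit 463)) (XT.lf (nat_lit 0) (nat_lit 273897564) (nat_lit 532) (nat_lit 7303677050) (nat_lit 76) (nat_lit 2003634333) (nat_lit 183) (nat_lit 5) (nat_lit 190) (nat_lit 5) (nat_lit 184) (nat_lit 5) (nat_lit 596) (nat_lit 502) (nat_lit 462)))))) (XT.nd (nat_lit 468) (nat_lit 1976) (nat_lit 0) (XT.nd (nat_lit 234) (nat_lit 912) (nat_lit 0) (XT.nd (nat_lit 78) (nat_lit 912) (nat_lit 0) (XT.lf (nat_lit 0) (nat_lit 3854588596) (nat_lit 532) (nat_lit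 166618778) (nat_lit 76) (nat_lit 5654110103) (nat_lit 183) (nat_lit 5) (nat_lit 190) (nat_lit 5) (nat_lit 184) (nat_lit 5) (nat_lit 597) (nat_lit 502) (nat_lit 461)) (XT.nd (nat_lit 78) (nat_lit 456) (nat_lit 0) (XT.lf (nat_lit 0) (nat_lit 7139618560) (nat_lit 456) (nat_lit 368331253) (nat_lit 532) (nat_lit 2263341792) (nat_lit 177) (nat_lit 5) (nat_lit 183) (nat_lit 5) (nat_lit 184) (nat_lit 5) (nat_lit 598) (nat_lit 502) (nat_lit 460)) (XT.lf (nat_lit 0) (nat_lit 1355777141) (nat_lit 456) (nat_lit 5180581094) (nat_lit 76) (nat_lit 3332484310) (nat_lit 171) (nat_lit 5) (nat_lit 177) (nat_lit 5) (nat_lit 172) (nat_lit 5) (nat_lit 599) (nat_lit 502) (nat_lit 459)))) (XT.nd (nat_lit 78) (nat_lit 456) (nat_lit 0) (XT.lf (nat_lit 0) (nat_lit 2165459048) (nat_lit 456) (nat_lit 2840978377) (nat_lit 532) (nat_lit 4961822855) (nat_lit 165) (nat_lit 5) (nat_lit 171) (nat_lit 5) (nat_lit 172) (nat_lit 5) (nat_lit 600) (nat_lit 502) (nat_lit 458)) (XT.nd (nat_lit 78) (nat_lit 456)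 (nat_lit 0) (XT.lf (nat_lit 0) (nat_lit 8726588293) (nat_lit 532) (nat_lit 414555503) (nat_lit 76) (nat_lit 928597236) (nat_lit 165) (nat_lit 5) (nat_lit 172) (nat_lit 5) (nat_lit 166) (nat_lit 5) (nat_lit 601) (nat_lit 502) (nat_lit 457)) (XT.lf (nat_lit 0) (nat_lit 2338668496) (nat_lit 456) (nat_lit 3058705725) (nat_lit 76) (nat_lit 4775144929) (nat_lit 159) (nat_lit 5) (nat_lit 165) (nat_lit 5) (nat_lit 160) (nat_lit 5) (nat_lit 602) (nat_lit 502) (nat_lit 456))))) (XT.nd (nat_lit 234) (nat_lit 1140) (nat_lit 0) (XT.nd (nat_lit 78) (nat_lit 456) (nat_lit 0) (XT.lf (nat_lit 0) (nat_lit 4504452709) (nat_lit 380) (nat_lit 1560216695) (nat_lit 456) (nat_lit 4212739266) (nat_lit 154) (nat_lit 5) (nat_lit 159) (nat_lit 5) (nat_lit 160) (nat_lit 5) (nat_lit 603) (nat_lit 502) (nat_lit 455)) (XT.nd (nat_lit 78) (nat_lit 76) (nat_lit 0) (XT.lf (nat_lit 0) (nat_lit 1817714027) (nat_lit 380) (nat_lit 8051958340) (nat_lit 456) (nat_lit 514637860) (nat_lit 149) (nat_lit 5) (nat_lit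 154) (nat_lit 5) (nat_lit 155) (nat_lit 5) (nat_lit 604) (nat_lit 502) (nat_lit 454)) (XT.lf (nat_lit 0) (nat_lit 3220897886) (nat_lit 456) (nat_lit 953056369) (nat_lit 76) (nat_lit 6318852432) (nat_lit 148) (nat_lit 5) (nat_lit 154) (nat_lit 5) (nat_lit 149) (nat_lit 5) (nat_lit 605) (nat_lit 502) (nat_lit 453)))) (XT.nd (nat_lit 156) (nat_lit 380) (nat_lit 0) (XT.nd (nat_lit 78) (nat_lit 380) (nat_lit 0) (XT.lf (nat_lit 0) (nat_lit 6833086538) (nat_lit 380) (nat_lit 193249307) (nat_lit 456) (nat_lit 3577031210) (nat_lit 143) (nat_lit 5) (nat_lit 148) (nat_lit 5) (nat_lit 149) (nat_lit 5) (nat_lit 606) (nat_lit 502) (nat_lit 452)) (XT.lf (nat_lit 0) (nat_lit 205025503) (nat_lit 380) (nat_lit 6683698387) (nat_lit 76) (nat_lit 3827077436) (nat_lit 138) (nat_lit 5) (nat_lit 143) (nat_lit 5) (nat_lit 139) (nat_lit 5) (nat_lit 607) (nat_lit 502) (nat_lit 451))) (XT.nd (nat_lit 78) (nat_lit 0) (nat_lit 0) (XT.lf (nat_lit 0) (nat_lit 1135157365) (nat_lit 380) (nat_lit 2871913365)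 (nat_lit 456) (nat_lit 6823099247) (nat_lit 133) (nat_lit 5) (nat_lit 138) (nat_lit 5) (nat_lit 139) (nat_lit 5) (nat_lit 608) (nat_lit 502) (nat_lit 450)) (XT.lf (nat_lit 0) (nat_lit 7896577834) (nat_lit 456) (nat_lit 1819688799) (nat_lit 76) (nat_lit 1230334335) (nat_lit 133) (nat_lit 5) (nat_lit 139) (nat_lit 5) (nat_lit 134) (nat_lit 5) (nat_lit 609) (nat_lit 502) (nat_lit 449))))))))
noncomputable def xc44 : XT := (XT.nd (nat_lit 1950) (nat_lit 1748) (nat_lit 0) (XT.nd (nat_lit 936) (nat_lit 2508) (nat_lit 0) (XT.nd (nat_lit 468) (nat_lit 1216) (nat_lit 0) (XT.nd (nat_lit 234) (nat_lit 684) (nat_lit 0) (XT.nd (nat_lit 78) (nat_lit 608) (nat_lit 0) (XT.lf (nat_lit 0) (nat_lit 806637195) (nat_lit 380) (nat_lit 4859922182) (nat_lit 76) (nat_lit 5398328858) (nat_lit 128) (nat_lit 5) (nat_lit 133) (nat_lit 5) (nat_lit 129) (nat_lit 5) (nat_lit 610) (nat_lit 502) (nat_lit 448)) (XT.nd (nat_lit 78) (nat_lit 304) (nat_lit 0) (XT.lf (nat_lit 0) (nat_lit 3185675016) (nat_lit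 304) (nat_lit 1506174075) (nat_lit 380) (nat_lit 6493446970) (nat_lit 124) (nat_lit 5) (nat_lit 128) (nat_lit 5) (nat_lit 129) (nat_lit 5) (nat_lit 611) (nat_lit 502) (nat_lit 447)) (XT.lf (nat_lit 0) (nat_lit 67972998) (nat_lit 304) (nat_lit 8597298648) (nat_lit 380) (nat_lit 2642633397) (nat_lit 120) (nat_lit 5) (nat_lit 124) (nat_lit 5) (nat_lit 125) (nat_lit 5) (nat_lit 612) (nat_lit 502) (nat_lit 446)))) (XT.nd (nat_lit 78) (nat_lit 608) (nat_lit 0) (XT.lf (nat_lit 0) (nat_lit 1291919190) (nat_lit 380) (nat_lit 3110851672) (nat_lit 76) (nat_lit 7029559895) (nat_lit 119) (nat_lit 5) (nat_lit 124) (nat_lit 5) (nat_lit 120) (nat_lit 5) (nat_lit 613) (nat_lit 502) (nat_lit 445)) (XT.nd (nat_lit 78) (nat_lit 304) (nat_lit 0) (XT.lf (nat_lit 0) (nat_lit 5166718461) (nat_lit 304) (nat_lit 96997649) (nat_lit 380) (nat_lit 6295303703) (nat_lit 115) (nat_lit 5) (nat_lit 119) (nat_lit 5) (nat_lit 120) (nat_lit 5) (nat_lit 614) (nat_lit 502) (nat_lit 444)) (XT.lf (nat_lit 0)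 (nat_lit 1896473901) (nat_lit 304) (nat_lit 7440248656) (nat_lit 380) (nat_lit 2351087511) (nat_lit 111) (nat_lit 5) (nat_lit 115) (nat_lit 5) (nat_lit 116) (nat_lit 5) (nat_lit 615) (nat_lit 502) (nat_lit 443))))) (XT.nd (nat_lit 234) (nat_lit 608) (nat_lit 0) (XT.nd (nat_lit 78) (nat_lit 532) (nat_lit 0) (XT.lf (nat_lit 0) (nat_lit 1654563139) (nat_lit 380) (nat_lit 1457085826) (nat_lit 76) (nat_lit 8707223247) (nat_lit 110) (nat_lit 5) (nat_lit 115) (nat_lit 5) (nat_lit 111) (nat_lit 5) (nat_lit 616) (nat_lit 502) (nat_lit 442)) (XT.nd (nat_lit 78) (nat_lit 228) (nat_lit 0) (XT.lf (nat_lit 0) (nat_lit 5724833724) (nat_lit 380) (nat_lit 4903363085) (nat_lit 76) (nat_lit 1323730938) (nat_lit 106) (nat_lit 5) (nat_lit 111) (nat_lit 5) (nat_lit 107) (nat_lit 5) (nat_lit 617) (nat_lit 502) (nat_lit 441)) (XT.lf (nat_lit 0) (nat_lit 3619852907) (nat_lit 228) (nat_lit 6272223727) (nat_lit 304) (nat_lit 2195259091) (nat_lit 103) (nat_lit 5) (nat_lit 106) (nat_lit 5) (nat_lit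 107) (nat_lit 5) (nat_lit 618) (nat_lit 502) (nat_lit 440)))) (XT.nd (nat_lit 78) (nat_lit 228) (nat_lit 0) (XT.lf (nat_lit 0) (nat_lit 79914043) (nat_lit 304) (nat_lit 1807497768) (nat_lit 380) (nat_lit 10337886783) (nat_lit 98) (nat_lit 5) (nat_lit 102) (nat_lit 5) (nat_lit 103) (nat_lit 5) (nat_lit 619) (nat_lit 502) (nat_lit 439)) (XT.nd (nat_lit 78) (nat_lit 228) (nat_lit 0) (XT.lf (nat_lit 0) (nat_lit 6059277827) (nat_lit 380) (nat_lit 3548445809) (nat_lit 76) (nat_lit 2757270663) (nat_lit 98) (nat_lit 5) (nat_lit 103) (nat_lit 5) (nat_lit 99) (nat_lit 5) (nat_lit 620) (nat_lit 502) (nat_lit 438)) (XT.lf (nat_lit 0) (nat_lit 5214246693) (nat_lit 228) (nat_lit 5108785397) (nat_lit 304) (nat_lit 2184285276) (nat_lit 95) (nat_lit 5) (nat_lit 98) (nat_lit 5) (nat_lit 99) (nat_lit 5) (nat_lit 621) (nat_lit 502) (nat_lit 437)))))) (XT.nd (nat_lit 468) (nat_lit 1368) (nat_lit 0) (XT.nd (nat_lit 234) (nat_lit 532) (nat_lit 0) (XT.nd (nat_lit 78) (nat_lit 228) (nat_lit 0)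 (XT.lf (nat_lit 0) (nat_lit 1491892094) (nat_lit 304) (nat_lit 497559078) (nat_lit 380) (nat_lit 10662848570) (nat_lit 90) (nat_lit 5) (nat_lit 94) (nat_lit 5) (nat_lit 95) (nat_lit 5) (nat_lit 622) (nat_lit 502) (nat_lit 436)) (XT.nd (nat_lit 78) (nat_lit 228) (nat_lit 0) (XT.lf (nat_lit 0) (nat_lit 6256884298) (nat_lit 380) (nat_lit 2352737990) (nat_lit 76) (nat_lit 4189483647) (nat_lit 90) (nat_lit 5) (nat_lit 95) (nat_lit 5) (nat_lit 91) (nat_lit 5) (nat_lit 623) (nat_lit 502) (nat_lit 435)) (XT.lf (nat_lit 0) (nat_lit 6653431676) (nat_lit 228) (nat_lit 3966326327) (nat_lit 304) (nat_lit 2328890690) (nat_lit 87) (nat_lit 5) (nat_lit 90) (nat_lit 5) (nat_lit 91) (nat_lit 5) (nat_lit 624) (nat_lit 502) (nat_lit 434)))) (XT.nd (nat_lit 78) (nat_lit 228) (nat_lit 0) (XT.lf (nat_lit 0) (nat_lit 1945331910) (nat_lit 304) (nat_lit 10374128420) (nat_lit 76) (nat_lit 781419622) (nat_lit 83) (nat_lit 5) (nat_lit 87) (nat_lit 5) (nat_lit 84) (nat_lit 5) (nat_lit 625) (nat_lit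 502) (nat_lit 433)) (XT.nd (nat_lit 78) (nat_lit 228) (nat_lit 0) (XT.lf (nat_lit 0) (nat_lit 6306498972) (nat_lit 304) (nat_lit 1344639260) (nat_lit 76) (nat_lit 5604058996) (nat_lit 83) (nat_lit 5) (nat_lit 87) (nat_lit 5) (nat_lit 84) (nat_lit 5) (nat_lit 626) (nat_lit 502) (nat_lit 432)) (XT.lf (nat_lit 0) (nat_lit 7908523007) (nat_lit 228) (nat_lit 2862246744) (nat_lit 304) (nat_lit 2641515596) (nat_lit 80) (nat_lit 5) (nat_lit 83) (nat_lit 5) (nat_lit 84) (nat_lit 5) (nat_lit 627) (nat_lit 502) (nat_lit 431))))) (XT.nd (nat_lit 234) (nat_lit 836) (nat_lit 0) (XT.nd (nat_lit 78) (nat_lit 228) (nat_lit 0) (XT.lf (nat_lit 0) (nat_lit 1740261883) (nat_lit 304) (nat_lit 9815652087) (nat_lit 76) (nat_lit 2016147273) (nat_lit 76) (nat_lit 5) (nat_lit 80) (nat_lit 5) (nat_lit 77) (nat_lit 5) (nat_lit 628) (nat_lit 502) (nat_lit 430)) (XT.nd (nat_lit 78) (nat_lit 228) (nat_lit 0) (XT.lf (nat_lit 0) (nat_lit 6195212259) (nat_lit 304) (nat_lit 555450925) (nat_lit 76) (nat_lit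 6983604102) (nat_lit 76) (nat_lit 5) (nat_lit 80) (nat_lit 5) (nat_lit 77) (nat_lit 5) (nat_lit 629) (nat_lit 502) (nat_lit 429)) (XT.lf (nat_lit 0) (nat_lit 8947644802) (nat_lit 228) (nat_lit 1815143404) (nat_lit 304) (nat_lit 3136460659) (nat_lit 73) (nat_lit 5) (nat_lit 76) (nat_lit 5) (nat_lit 77) (nat_lit 5) (nat_lit 630) (nat_lit 502) (nat_lit 428)))) (XT.nd (nat_lit 156) (nat_lit 532) (nat_lit 0) (XT.nd (nat_lit 78) (nat_lit 0) (nat_lit 0) (XT.lf (nat_lit 0) (nat_lit 1356376653) (nat_lit 304) (nat_lit 9516095317) (nat_lit 76) (nat_lit 3194485099) (nat_lit 69) (nat_lit 5) (nat_lit 73) (nat_lit 5) (nat_lit 70) (nat_lit 5) (nat_lit 631) (nat_lit 502) (nat_lit 427)) (XT.lf (nat_lit 0) (nat_lit 5908206336) (nat_lit 304) (nat_lit 19727180) (nat_lit 76) (nat_lit 8309450458) (nat_lit 69) (nat_lit 5) (nat_lit 73) (nat_lit 5) (nat_lit 70) (nat_lit 5) (nat_lit 632) (nat_lit 502) (nat_lit 426))) (XT.nd (nat_lit 78) (nat_lit 304) (nat_lit 0) (XT.lf (nat_lit 0) (nat_lit 9735568371)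 (nat_lit 228) (nat_lit 845012866) (nat_lit 304) (nat_lit 3830049803) (nat_lit 66) (nat_lit 5) (nat_lit 69) (nat_lit 5) (nat_lit 70) (nat_lit 5) (nat_lit 633) (nat_lit 502) (nat_lit 425)) (XT.lf (nat_lit 0) (nat_lit 776988435) (nat_lit 304) (nat_lit 9513382431) (nat_lit 76) (nat_lit 4296317681) (nat_lit 62) (nat_lit 5) (nat_lit 66) (nat_lit 5) (nat_lit 63) (nat_lit 5) (nat_lit 634) (nat_lit 502) (nat_lit 424))))))) (XT.nd (nat_lit 936) (nat_lit 76) (nat_lit 0) (XT.nd (nat_lit 468) (nat_lit 836) (nat_lit 0) (XT.nd (nat_lit 234) (nat_lit 456) (nat_lit 0) (XT.nd (nat_lit 78) (nat_lit 228) (nat_lit 0) (XT.lf (nat_lit 0) (nat_lit 227320602) (nat_lit 152) (nat_lit 5202738858) (nat_lit 228) (nat_lit 9335599576) (nat_lit 60) (nat_lit 5) (nat_lit 62) (nat_lit 5) (nat_lit 63) (nat_lit 5) (nat_lit 635) (nat_lit 502) (nat_lit 423)) (XT.nd (nat_lit 78) (nat_lit 228) (nat_lit 0) (XT.lf (nat_lit 0) (nat_lit 10206958118) (nat_lit 228) (nat_lit 4714456108) (nat_lit 76) (nat_lit 26181044)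 (nat_lit 60) (nat_lit 5) (nat_lit 63) (nat_lit 5) (nat_lit 61) (nat_lit 5) (nat_lit 636) (nat_lit 502) (nat_lit 422)) (XT.lf (nat_lit 0) (nat_lit 5282909464) (nat_lit 228) (nat_lit 9832486085) (nat_lit 304) (nat_lit 17056291) (nat_lit 57) (nat_lit 5) (nat_lit 60) (nat_lit 5) (nat_lit 61) (nat_lit 5) (nat_lit 637) (nat_lit 502) (nat_lit 421)))) (XT.nd (nat_lit 78) (nat_lit 228) (nat_lit 0) (XT.lf (nat_lit 0) (nat_lit 136280600) (nat_lit 152) (nat_lit 4601778469) (nat_lit 228) (nat_lit 10582324035) (nat_lit 54) (nat_lit 5) (nat_lit 56) (nat_lit 5) (nat_lit 57) (nat_lit 5) (nat_lit 638) (nat_lit 502) (nat_lit 420)) (XT.nd (nat_lit 78) (nat_lit 228) (nat_lit 0) (XT.lf (nat_lit 0) (nat_lit 9626747678) (nat_lit 228) (nat_lit 5118719109) (nat_lit 76) (nat_lit 765831497) (nat_lit 54) (nat_lit 5) (nat_lit 57) (nat_lit 5) (nat_lit 55) (nat_lit 5) (nat_lit 639) (nat_lit 502) (nat_lit 419)) (XT.lf (nat_lit 0) (nat_lit 5127899054) (nat_lit 228) (nat_lit 9517122364) (nat_lit 304) (nat_lit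 1060375627) (nat_lit 51) (nat_lit 5) (nat_lit 54) (nat_lit 5) (nat_lit 55) (nat_lit 5) (nat_lit 640) (nat_lit 502) (nat_lit 418))))) (XT.nd (nat_lit 234) (nat_lit 380) (nat_lit 0) (XT.nd (nat_lit 78) (nat_lit 380) (nat_lit 0) (XT.lf (nat_lit 0) (nat_lit 3812322173) (nat_lit 304) (nat_lit 336048969) (nat_lit 76) (nat_lit 11754453462) (nat_lit 50) (nat_lit 5) (nat_lit 54) (nat_lit 5) (nat_lit 51) (nat_lit 5) (nat_lit 641) (nat_lit 502) (nat_lit 417)) (XT.nd (nat_lit 78) (nat_lit 228) (nat_lit 0) (XT.lf (nat_lit 0) (nat_lit 8812052577) (nat_lit 228) (nat_lit 5931366172) (nat_lit 76) (nat_lit 1359767657) (nat_lit 48) (nat_lit 5) (nat_lit 51) (nat_lit 5) (nat_lit 49) (nat_lit 5) (nat_lit 642) (nat_lit 502) (nat_lit 416)) (XT.lf (nat_lit 0) (nat_lit 4563370314) (nat_lit 228) (nat_lit 9376590100) (nat_lit 304) (nat_lit 2367032763) (nat_lit 45) (nat_lit 5) (nat_lit 48) (nat_lit 5) (nat_lit 49) (nat_lit 5) (nat_lit 643) (nat_lit 502) (nat_lit 415)))) (XT.nd (nat_lit 78) (nat_lit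 304) (nat_lit 0) (XT.lf (nat_lit 0) (nat_lit 2629645095) (nat_lit 304) (nat_lit 1239113247) (nat_lit 76) (nat_lit 12645595788) (nat_lit 44) (nat_lit 5) (nat_lit 48) (nat_lit 5) (nat_lit 45) (nat_lit 5) (nat_lit 644) (nat_lit 502) (nat_lit 414)) (XT.nd (nat_lit 78) (nat_lit 152) (nat_lit 0) (XT.lf (nat_lit 0) (nat_lit 7737646641) (nat_lit 228) (nat_lit 7206672284) (nat_lit 76) (nat_lit 1780370070) (nat_lit 42) (nat_lit 5) (nat_lit 45) (nat_lit 5) (nat_lit 43) (nat_lit 5) (nat_lit 645) (nat_lit 502) (nat_lit 413)) (XT.lf (nat_lit 0) (nat_lit 3533768177) (nat_lit 152) (nat_lit 9440529930) (nat_lit 228) (nat_lit 3964403935) (nat_lit 40) (nat_lit 5) (nat_lit 42) (nat_lit 5) (nat_lit 43) (nat_lit 5) (nat_lit 646) (nat_lit 502) (nat_lit 412)))))) (XT.nd (nat_lit 74334) (nat_lit 0) (nat_lit 26828) (XT.nd (nat_lit 74100) (nat_lit 0) (nat_lit 32376) (XT.nd (nat_lit 73944) (nat_lit 0) (nat_lit 35948) (XT.lf (nat_lit 0) (nat_lit 1161768378) (nat_lit 228) (nat_lit 2632132891) (nat_lit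 76) (nat_lit 13362579305) (nat_lit 39) (nat_lit 5) (nat_lit 42) (nat_lit 5) (nat_lit 40) (nat_lit 5) (nat_lit 647) (nat_lit 502) (nat_lit 411)) (XT.nd (nat_lit 78) (nat_lit 1596) (nat_lit 0) (XT.lf (nat_lit 0) (nat_lit 1312298474) (nat_lit 1596) (nat_lit 875088606) (nat_lit 0) (nat_lit 1312298474) (nat_lit 533) (nat_lit 5) (nat_lit 554) (nat_lit 4) (nat_lit 533) (nat_lit 4) (nat_lit 554) (nat_lit 503) (nat_lit 503)) (XT.lf (nat_lit 0) (nat_lit 3302500418) (nat_lit 1596) (nat_lit 2776477398) (nat_lit 1596) (nat_lit 954040306) (nat_lit 512) (nat_lit 4) (nat_lit 533) (nat_lit 5) (nat_lit 533) (nat_lit 4) (nat_lit 555) (nat_lit 503) (nat_lit 502)))) (XT.nd (nat_lit 78) (nat_lit 1824) (nat_lit 0) (XT.lf (nat_lit 0) (nat_lit 1346444515) (nat_lit 1672) (nat_lit 1106815206) (nat_lit 1748) (nat_lit 4614735532) (nat_lit 489) (nat_lit 5) (nat_lit 511) (nat_lit 5) (nat_lit 512) (nat_lit 4) (nat_lit 556) (nat_lit 503) (nat_lit 501)) (XT.nd (nat_lit 78) (nat_lit 1824) (nat_lit 0) (XT.lf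 (nat_lit 0) (nat_lit 5876777425) (nat_lit 1748) (nat_lit 606483955) (nat_lit 0) (nat_lit 621081583) (nat_lit 489) (nat_lit 5) (nat_lit 512) (nat_lit 4) (nat_lit 489) (nat_lit 4) (nat_lit 557) (nat_lit 503) (nat_lit 500)) (XT.lf (nat_lit 0) (nat_lit 2168201708) (nat_lit 1824) (nat_lit 2559578563) (nat_lit 76) (nat_lit 2413960352) (nat_lit 465) (nat_lit 5) (nat_lit 489) (nat_lit 5) (nat_lit 466) (nat_lit 4) (nat_lit 558) (nat_lit 503) (nat_lit 499))))) (XT.nd (nat_lit 234) (nat_lit 2812) (nat_lit 0) (XT.nd (nat_lit 78) (nat_lit 1064) (nat_lit 0) (XT.lf (nat_lit 0) (nat_lit 2662171420) (nat_lit 1672) (nat_lit 2908202270) (nat_lit 1748) (nat_lit 1610265004) (nat_lit 443) (nat_lit 5) (nat_lit 465) (nat_lit 5) (nat_lit 466) (nat_lit 4) (nat_lit 559) (nat_lit 503) (nat_lit 498)) (XT.nd (nat_lit 78) (nat_lit 0) (nat_lit 0) (XT.lf (nat_lit 0) (nat_lit 732728630) (nat_lit 988) (nat_lit 1019669647) (nat_lit 1064) (nat_lit 5468572900) (nat_lit 429) (nat_lit 5) (nat_lit 442) (nat_lit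 5) (nat_lit 443) (nat_lit 5) (nat_lit 560) (nat_lit 503) (nat_lit 497)) (XT.lf (nat_lit 0) (nat_lit 5131972790) (nat_lit 1064) (nat_lit 1196941019) (nat_lit 76) (nat_lit 933571743) (nat_lit 429) (nat_lit 5) (nat_lit 443) (nat_lit 5) (nat_lit 430) (nat_lit 4) (nat_lit 561) (nat_lit 503) (nat_lit 496)))) (XT.nd (nat_lit 156) (nat_lit 912) (nat_lit 0) (XT.nd (nat_lit 78) (nat_lit 912) (nat_lit 0) (XT.lf (nat_lit 0) (nat_lit 1227350958) (nat_lit 988) (nat_lit 3132785695) (nat_lit 76) (nat_lit 2945145010) (nat_lit 416) (nat_lit 5) (nat_lit 429) (nat_lit 5) (nat_lit 417) (nat_lit 5) (nat_lit 562) (nat_lit 503) (nat_lit 495)) (XT.lf (nat_lit 0) (nat_lit 2264363868) (nat_lit 912) (nat_lit 2318751673) (nat_lit 988) (nat_lit 2766362865) (nat_lit 404) (nat_lit 5) (nat_lit 416) (nat_lit 5) (nat_lit 417) (nat_lit 5) (nat_lit 563) (nat_lit 503) (nat_lit 494))) (XT.nd (nat_lit 78) (nat_lit 0) (nat_lit 0) (XT.lf (nat_lit 0) (nat_lit 349915329) (nat_lit 836) (nat_lit 213773912) (nat_lit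 912) (nat_lit 6831596335) (nat_lit 392) (nat_lit 5) (nat_lit 403) (nat_lit 5) (nat_lit 404) (nat_lit 5) (nat_lit 564) (nat_lit 503) (nat_lit 493)) (XT.lf (nat_lit 0) (nat_lit 3907837438) (nat_lit 912) (nat_lit 1578970235) (nat_lit 76) (nat_lit 1955155880) (nat_lit 392) (nat_lit 5) (nat_lit 404) (nat_lit 5) (nat_lit 393) (nat_lit 5) (nat_lit 565) (nat_lit 503) (nat_lit 492))))))))
noncomputable def xc45 : XT := (XT.nd (nat_lit 1950) (nat_lit 7752) (nat_lit 0) (XT.nd (nat_lit 936) (nat_lit 6156) (nat_lit 0) (XT.nd (nat_lit 468) (nat_lit 2964) (nat_lit 0) (XT.nd (nat_lit 234) (nat_lit 1672) (nat_lit 0) (XT.nd (nat_lit 78) (nat_lit 1672) (nat_lit 0) (XT.lf (nat_lit 0) (nat_lit 3979771672) (nat_lit 836) (nat_lit 3305175446) (nat_lit 912) (nat_lit 205317290) (nat_lit 381) (nat_lit 5) (nat_lit 392) (nat_lit 5) (nat_lit 393) (nat_lit 5) (nat_lit 566) (nat_lit 503) (nat_lit 491)) (XT.nd (nat_lit 78) (nat_lit 836) (nat_lit 0) (XT.lf (nat_lit 0) (nat_lit 2069999848) (nat_lit 760)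 (nat_lit 1041510559) (nat_lit 836) (nat_lit 4428351479) (nat_lit 370) (nat_lit 5) (nat_lit 380) (nat_lit 5) (nat_lit 381) (nat_lit 5) (nat_lit 567) (nat_lit 503) (nat_lit 490)) (XT.lf (nat_lit 0) (nat_lit 142985626) (nat_lit 836) (nat_lit 6321691993) (nat_lit 912) (nat_lit 1126301770) (nat_lit 359) (nat_lit 5) (nat_lit 370) (nat_lit 5) (nat_lit 371) (nat_lit 5) (nat_lit 568) (nat_lit 503) (nat_lit 489)))) (XT.nd (nat_lit 78) (nat_lit 1596) (nat_lit 0) (XT.lf (nat_lit 0) (nat_lit 2196444144) (nat_lit 912) (nat_lit 1791049324) (nat_lit 76) (nat_lit 3655663401) (nat_lit 358) (nat_lit 5) (nat_lit 370) (nat_lit 5) (nat_lit 359) (nat_lit 5) (nat_lit 569) (nat_lit 503) (nat_lit 488)) (XT.nd (nat_lit 78) (nat_lit 836) (nat_lit 0) (XT.lf (nat_lit 0) (nat_lit 3955606309) (nat_lit 760) (nat_lit 1582036866) (nat_lit 836) (nat_lit 2159253908) (nat_lit 348) (nat_lit 5) (nat_lit 358) (nat_lit 5) (nat_lit 359) (nat_lit 5) (nat_lit 570) (nat_lit 503) (nat_lit 487)) (XT.lf (nat_lit 0)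 (nat_lit 1151158873) (nat_lit 836) (nat_lit 5717289089) (nat_lit 76) (nat_lit 883661122) (nat_lit 337) (nat_lit 5) (nat_lit 348) (nat_lit 5) (nat_lit 338) (nat_lit 5) (nat_lit 571) (nat_lit 503) (nat_lit 486))))) (XT.nd (nat_lit 234) (nat_lit 1444) (nat_lit 0) (XT.nd (nat_lit 78) (nat_lit 836) (nat_lit 0) (XT.lf (nat_lit 0) (nat_lit 76472388) (nat_lit 684) (nat_lit 4401007249) (nat_lit 760) (nat_lit 3331097103) (nat_lit 328) (nat_lit 5) (nat_lit 337) (nat_lit 5) (nat_lit 338) (nat_lit 5) (nat_lit 572) (nat_lit 503) (nat_lit 485)) (XT.nd (nat_lit 78) (nat_lit 836) (nat_lit 0) (XT.lf (nat_lit 0) (nat_lit 5995229799) (nat_lit 684) (nat_lit 1856488920) (nat_lit 760) (nat_lit 14836126) (nat_lit 328) (nat_lit 5) (nat_lit 337) (nat_lit 5) (nat_lit 338) (nat_lit 5) (nat_lit 573) (nat_lit 503) (nat_lit 484)) (XT.lf (nat_lit 0) (nat_lit 3298815924) (nat_lit 836) (nat_lit 3860507973) (nat_lit 76) (nat_lit 766435199) (nat_lit 317) (nat_lit 5) (nat_lit 328) (nat_lit 5) (nat_lit 318)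 (nat_lit 5) (nat_lit 574) (nat_lit 503) (nat_lit 483)))) (XT.nd (nat_lit 78) (nat_lit 760) (nat_lit 0) (XT.lf (nat_lit 0) (nat_lit 2106792594) (nat_lit 684) (nat_lit 4554717400) (nat_lit 760) (nat_lit 1324984540) (nat_lit 308) (nat_lit 5) (nat_lit 317) (nat_lit 5) (nat_lit 318) (nat_lit 5) (nat_lit 575) (nat_lit 503) (nat_lit 482)) (XT.nd (nat_lit 78) (nat_lit 0) (nat_lit 0) (XT.lf (nat_lit 0) (nat_lit 117259390) (nat_lit 684) (nat_lit 1870429334) (nat_lit 760) (nat_lit 6061069359) (nat_lit 298) (nat_lit 5) (nat_lit 307) (nat_lit 5) (nat_lit 308) (nat_lit 5) (nat_lit 576) (nat_lit 503) (nat_lit 481)) (XT.lf (nat_lit 0) (nat_lit 5339426335) (nat_lit 760) (nat_lit 1881533660) (nat_lit 76) (nat_lit 891328630) (nat_lit 298) (nat_lit 5) (nat_lit 308) (nat_lit 5) (nat_lit 299) (nat_lit 5) (nat_lit 577) (nat_lit 503) (nat_lit 480)))))) (XT.nd (nat_lit 468) (nat_lit 2888) (nat_lit 0) (XT.nd (nat_lit 234) (nat_lit 1292) (nat_lit 0) (XT.nd (nat_lit 78) (nat_lit 1292) (nat_lit 0)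 (XT.lf (nat_lit 0) (nat_lit 559728936) (nat_lit 684) (nat_lit 3915962254) (nat_lit 76) (nat_lit 3701605925) (nat_lit 289) (nat_lit 5) (nat_lit 298) (nat_lit 5) (nat_lit 290) (nat_lit 5) (nat_lit 578) (nat_lit 503) (nat_lit 479)) (XT.nd (nat_lit 78) (nat_lit 608) (nat_lit 0) (XT.lf (nat_lit 0) (nat_lit 2252140661) (nat_lit 684) (nat_lit 1643586738) (nat_lit 760) (nat_lit 4348041598) (nat_lit 280) (nat_lit 5) (nat_lit 289) (nat_lit 5) (nat_lit 290) (nat_lit 5) (nat_lit 579) (nat_lit 503) (nat_lit 478)) (XT.lf (nat_lit 0) (nat_lit 211476065) (nat_lit 608) (nat_lit 7069909345) (nat_lit 684) (nat_lit 1030533444) (nat_lit 272) (nat_lit 5) (nat_lit 280) (nat_lit 5) (nat_lit 281) (nat_lit 5) (nat_lit 580) (nat_lit 503) (nat_lit 477)))) (XT.nd (nat_lit 78) (nat_lit 1216) (nat_lit 0) (XT.lf (nat_lit 0) (nat_lit 2321090155) (nat_lit 684) (nat_lit 1856134964) (nat_lit 76) (nat_lit 4203935455) (nat_lit 271) (nat_lit 5) (nat_lit 280) (nat_lit 5) (nat_lit 272) (nat_lit 5) (nat_lit 581)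 (nat_lit 503) (nat_lit 476)) (XT.nd (nat_lit 78) (nat_lit 608) (nat_lit 0) (XT.lf (nat_lit 0) (nat_lit 4497635559) (nat_lit 608) (nat_lit 1205831875) (nat_lit 684) (nat_lit 2748639962) (nat_lit 263) (nat_lit 5) (nat_lit 271) (nat_lit 5) (nat_lit 272) (nat_lit 5) (nat_lit 582) (nat_lit 503) (nat_lit 475)) (XT.lf (nat_lit 0) (nat_lit 609641552) (nat_lit 608) (nat_lit 6097404789) (nat_lit 76) (nat_lit 1817574328) (nat_lit 255) (nat_lit 5) (nat_lit 263) (nat_lit 5) (nat_lit 256) (nat_lit 5) (nat_lit 583) (nat_lit 503) (nat_lit 474))))) (XT.nd (nat_lit 234) (nat_lit 1672) (nat_lit 0) (XT.nd (nat_lit 78) (nat_lit 608) (nat_lit 0) (XT.lf (nat_lit 0) (nat_lit 301373168) (nat_lit 608) (nat_lit 3682602781) (nat_lit 684) (nat_lit 4614537566) (nat_lit 247) (nat_lit 5) (nat_lit 255) (nat_lit 5) (nat_lit 256) (nat_lit 5) (nat_lit 584) (nat_lit 503) (nat_lit 473)) (XT.nd (nat_lit 78) (nat_lit 608) (nat_lit 0) (XT.lf (nat_lit 0) (nat_lit 6842925091) (nat_lit 608) (nat_lit 573350597)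 (nat_lit 684) (nat_lit 1257805338) (nat_lit 247) (nat_lit 5) (nat_lit 255) (nat_lit 5) (nat_lit 256) (nat_lit 5) (nat_lit 585) (nat_lit 503) (nat_lit 472)) (XT.lf (nat_lit 0) (nat_lit 2135731592) (nat_lit 608) (nat_lit 4023189805) (nat_lit 76) (nat_lit 2592001783) (nat_lit 239) (nat_lit 5) (nat_lit 247) (nat_lit 5) (nat_lit 240) (nat_lit 5) (nat_lit 586) (nat_lit 503) (nat_lit 471)))) (XT.nd (nat_lit 156) (nat_lit 532) (nat_lit 0) (XT.nd (nat_lit 78) (nat_lit 608) (nat_lit 0) (XT.lf (nat_lit 0) (nat_lit 2567403707) (nat_lit 532) (nat_lit 2996391261) (nat_lit 608) (nat_lit 3265676986) (nat_lit 232) (nat_lit 5) (nat_lit 239) (nat_lit 5) (nat_lit 240) (nat_lit 5) (nat_lit 587) (nat_lit 503) (nat_lit 470)) (XT.lf (nat_lit 0) (nat_lit 130855213) (nat_lit 608) (nat_lit 8540377034) (nat_lit 76) (nat_lit 238705541) (nat_lit 224) (nat_lit 5) (nat_lit 232) (nat_lit 5) (nat_lit 225) (nat_lit 5) (nat_lit 588) (nat_lit 503) (nat_lit 469))) (XT.nd (nat_lit 78) (nat_lit 532) (nat_lit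 0) (XT.lf (nat_lit 0) (nat_lit 3565028224) (nat_lit 608) (nat_lit 1882465055) (nat_lit 76) (nat_lit 3543824850) (nat_lit 224) (nat_lit 5) (nat_lit 232) (nat_lit 5) (nat_lit 225) (nat_lit 5) (nat_lit 589) (nat_lit 503) (nat_lit 468)) (XT.lf (nat_lit 0) (nat_lit 4906037020) (nat_lit 532) (nat_lit 2145909737) (nat_lit 608) (nat_lit 2022703633) (nat_lit 217) (nat_lit 5) (nat_lit 224) (nat_lit 5) (nat_lit 225) (nat_lit 5) (nat_lit 590) (nat_lit 503) (nat_lit 467))))))) (XT.nd (nat_lit 936) (nat_lit 3344) (nat_lit 0) (XT.nd (nat_lit 468) (nat_lit 1824) (nat_lit 0) (XT.nd (nat_lit 234) (nat_lit 1520) (nat_lit 0) (XT.nd (nat_lit 78) (nat_lit 532) (nat_lit 0) (XT.lf (nat_lit 0) (nat_lit 1420364709) (nat_lit 532) (nat_lit 6513240422) (nat_lit 76) (nat_lit 1226053080) (nat_lit 210) (nat_lit 5) (nat_lit 217) (nat_lit 5) (nat_lit 211) (nat_lit 5) (nat_lit 591) (nat_lit 503) (nat_lit 466)) (XT.nd (nat_lit 78) (nat_lit 0) (nat_lit 0) (XT.lf (nat_lit 0) (nat_lit 317331160) (nat_lit 532)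 (nat_lit 4585104402) (nat_lit 608) (nat_lit 4343723955) (nat_lit 203) (nat_lit 5) (nat_lit 210) (nat_lit 5) (nat_lit 211) (nat_lit 5) (nat_lit 592) (nat_lit 503) (nat_lit 465)) (XT.lf (nat_lit 0) (nat_lit 7305758627) (nat_lit 532) (nat_lit 1145356608) (nat_lit 608) (nat_lit 883341398) (nat_lit 203) (nat_lit 5) (nat_lit 210) (nat_lit 5) (nat_lit 211) (nat_lit 5) (nat_lit 593) (nat_lit 503) (nat_lit 464)))) (XT.nd (nat_lit 78) (nat_lit 988) (nat_lit 0) (XT.lf (nat_lit 0) (nat_lit 2613358745) (nat_lit 532) (nat_lit 4448627202) (nat_lit 76) (nat_lit 2362158733) (nat_lit 196) (nat_lit 5) (nat_lit 203) (nat_lit 5) (nat_lit 197) (nat_lit 5) (nat_lit 594) (nat_lit 503) (nat_lit 463)) (XT.nd (nat_lit 78) (nat_lit 532) (nat_lit 0) (XT.lf (nat_lit 0) (nat_lit 2585651059) (nat_lit 456) (nat_lit 3574814899) (nat_lit 532) (nat_lit 3355202566) (nat_lit 190) (nat_lit 5) (nat_lit 196) (nat_lit 5) (nat_lit 197) (nat_lit 5) (nat_lit 595) (nat_lit 503) (nat_lit 462)) (XT.lf (nat_lit 0) (nat_lit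 146241495) (nat_lit 456) (nat_lit 6403914) (nat_lit 532) (nat_lit 9456652558) (nat_lit 183) (nat_lit 5) (nat_lit 189) (nat_lit 5) (nat_lit 190) (nat_lit 5) (nat_lit 596) (nat_lit 503) (nat_lit 461))))) (XT.nd (nat_lit 234) (nat_lit 912) (nat_lit 0) (XT.nd (nat_lit 78) (nat_lit 912) (nat_lit 0) (XT.lf (nat_lit 0) (nat_lit 3710869728) (nat_lit 532) (nat_lit 2359223691) (nat_lit 76) (nat_lit 3633764668) (nat_lit 183) (nat_lit 5) (nat_lit 190) (nat_lit 5) (nat_lit 184) (nat_lit 5) (nat_lit 597) (nat_lit 503) (nat_lit 460)) (XT.nd (nat_lit 78) (nat_lit 456) (nat_lit 0) (XT.lf (nat_lit 0) (nat_lit 4884826875) (nat_lit 456) (nat_lit 2442779040) (nat_lit 532) (nat_lit 2472961012) (nat_lit 177) (nat_lit 5) (nat_lit 183) (nat_lit 5) (nat_lit 184) (nat_lit 5) (nat_lit 598) (nat_lit 503) (nat_lit 459)) (XT.lf (nat_lit 0) (nat_lit 1098114651) (nat_lit 456) (nat_lit 7543150022) (nat_lit 76) (nat_lit 1257898389) (nat_lit 171) (nat_lit 5) (nat_lit 177) (nat_lit 5) (nat_lit 172) (nat_lit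 5) (nat_lit 599) (nat_lit 503) (nat_lit 458)))) (XT.nd (nat_lit 78) (nat_lit 912) (nat_lit 0) (XT.lf (nat_lit 0) (nat_lit 4712953083) (nat_lit 456) (nat_lit 258354586) (nat_lit 76) (nat_lit 5027991649) (nat_lit 171) (nat_lit 5) (nat_lit 177) (nat_lit 5) (nat_lit 172) (nat_lit 5) (nat_lit 600) (nat_lit 503) (nat_lit 457)) (XT.nd (nat_lit 78) (nat_lit 456) (nat_lit 0) (XT.lf (nat_lit 0) (nat_lit 7201541633) (nat_lit 456) (nat_lit 1202206034) (nat_lit 532) (nat_lit 1697621571) (nat_lit 165) (nat_lit 5) (nat_lit 171) (nat_lit 5) (nat_lit 172) (nat_lit 5) (nat_lit 601) (nat_lit 503) (nat_lit 456)) (XT.lf (nat_lit 0) (nat_lit 1943032355) (nat_lit 456) (nat_lit 5631806385) (nat_lit 76) (nat_lit 2630272933) (nat_lit 159) (nat_lit 5) (nat_lit 165) (nat_lit 5) (nat_lit 160) (nat_lit 5) (nat_lit 602) (nat_lit 503) (nat_lit 455)))))) (XT.nd (nat_lit 468) (nat_lit 1748) (nat_lit 0) (XT.nd (nat_lit 234) (nat_lit 760) (nat_lit 0) (XT.nd (nat_lit 78) (nat_lit 456) (nat_lit 0) (XT.lf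 (nat_lit 0) (nat_lit 1864313770) (nat_lit 380) (nat_lit 3766448591) (nat_lit 456) (nat_lit 4680006176) (nat_lit 154) (nat_lit 5) (nat_lit 159) (nat_lit 5) (nat_lit 160) (nat_lit 5) (nat_lit 603) (nat_lit 503) (nat_lit 454)) (XT.nd (nat_lit 78) (nat_lit 456) (nat_lit 0) (XT.lf (nat_lit 0) (nat_lit 9388641867) (nat_lit 456) (nat_lit 897846412) (nat_lit 76) (nat_lit 132126172) (nat_lit 154) (nat_lit 5) (nat_lit 160) (nat_lit 5) (nat_lit 155) (nat_lit 5) (nat_lit 604) (nat_lit 503) (nat_lit 453)) (XT.lf (nat_lit 0) (nat_lit 2685440781) (nat_lit 456) (nat_lit 3744198281) (nat_lit 76) (nat_lit 4098078201) (nat_lit 148) (nat_lit 5) (nat_lit 154) (nat_lit 5) (nat_lit 149) (nat_lit 5) (nat_lit 605) (nat_lit 503) (nat_lit 452)))) (XT.nd (nat_lit 78) (nat_lit 380) (nat_lit 0) (XT.lf (nat_lit 0) (nat_lit 3972454155) (nat_lit 380) (nat_lit 2479326869) (nat_lit 456) (nat_lit 4187280341) (nat_lit 143) (nat_lit 5) (nat_lit 148) (nat_lit 5) (nat_lit 149) (nat_lit 5) (nat_lit 606) (nat_lit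 503) (nat_lit 451)) (XT.nd (nat_lit 78) (nat_lit 76) (nat_lit 0) (XT.lf (nat_lit 0) (nat_lit 1081178367) (nat_lit 304) (nat_lit 9213431665) (nat_lit 380) (nat_lit 458002598) (nat_lit 139) (nat_lit 5) (nat_lit 143) (nat_lit 5) (nat_lit 144) (nat_lit 5) (nat_lit 607) (nat_lit 503) (nat_lit 450)) (XT.lf (nat_lit 0) (nat_lit 3322334115) (nat_lit 380) (nat_lit 1896650026) (nat_lit 76) (nat_lit 5648612595) (nat_lit 138) (nat_lit 5) (nat_lit 143) (nat_lit 5) (nat_lit 139) (nat_lit 5) (nat_lit 608) (nat_lit 503) (nat_lit 449))))) (XT.nd (nat_lit 234) (nat_lit 988) (nat_lit 0) (XT.nd (nat_lit 78) (nat_lit 380) (nat_lit 0) (XT.lf (nat_lit 0) (nat_lit 6046209668) (nat_lit 380) (nat_lit 1124905687) (nat_lit 456) (nat_lit 3813728531) (nat_lit 133) (nat_lit 5) (nat_lit 138) (nat_lit 5) (nat_lit 139) (nat_lit 5) (nat_lit 609) (nat_lit 503) (nat_lit 448)) (XT.nd (nat_lit 78) (nat_lit 0) (nat_lit 0) (XT.lf (nat_lit 0) (nat_lit 4813061) (nat_lit 380) (nat_lit 8078903395) (nat_lit 76) (nat_lit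 3020478145) (nat_lit 128) (nat_lit 5) (nat_lit 133) (nat_lit 5) (nat_lit 129) (nat_lit 5) (nat_lit 610) (nat_lit 503) (nat_lit 447)) (XT.lf (nat_lit 0) (nat_lit 3849561079) (nat_lit 380) (nat_lit 106784298) (nat_lit 76) (nat_lit 7269067875) (nat_lit 128) (nat_lit 5) (nat_lit 133) (nat_lit 5) (nat_lit 129) (nat_lit 5) (nat_lit 611) (nat_lit 503) (nat_lit 446)))) (XT.nd (nat_lit 156) (nat_lit 304) (nat_lit 0) (XT.nd (nat_lit 78) (nat_lit 380) (nat_lit 0) (XT.lf (nat_lit 0) (nat_lit 7786252820) (nat_lit 380) (nat_lit 3282820465) (nat_lit 76) (nat_lit 279685082) (nat_lit 124) (nat_lit 5) (nat_lit 129) (nat_lit 5) (nat_lit 125) (nat_lit 5) (nat_lit 612) (nat_lit 503) (nat_lit 445)) (XT.lf (nat_lit 0) (nat_lit 342746687) (nat_lit 380) (nat_lit 6572300039) (nat_lit 76) (nat_lit 4559085556) (nat_lit 119) (nat_lit 5) (nat_lit 124) (nat_lit 5) (nat_lit 120) (nat_lit 5) (nat_lit 613) (nat_lit 503) (nat_lit 444))) (XT.nd (nat_lit 78) (nat_lit 0) (nat_lit 0) (XT.lf (nat_lit 0) (nat_lit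 1627620738) (nat_lit 304) (nat_lit 2644705378) (nat_lit 380) (nat_lit 7329341003) (nat_lit 115) (nat_lit 5) (nat_lit 119) (nat_lit 5) (nat_lit 120) (nat_lit 5) (nat_lit 614) (nat_lit 503) (nat_lit 443)) (XT.lf (nat_lit 0) (nat_lit 8297336774) (nat_lit 380) (nat_lit 1724935275) (nat_lit 76) (nat_lit 1709146642) (nat_lit 115) (nat_lit 5) (nat_lit 120) (nat_lit 5) (nat_lit 116) (nat_lit 5) (nat_lit 615) (nat_lit 503) (nat_lit 442))))))))
noncomputable def xc46 : XT := (XT.nd (nat_lit 1950) (nat_lit 1064) (nat_lit 0) (XT.nd (nat_lit 936) (nat_lit 1976) (nat_lit 0) (XT.nd (nat_lit 468) (nat_lit 1140) (nat_lit 0) (XT.nd (nat_lit 234) (nat_lit 836) (nat_lit 0) (XT.nd (nat_lit 78) (nat_lit 304) (nat_lit 0) (XT.lf (nat_lit 0) (nat_lit 555254019) (nat_lit 380) (nat_lit 5169529336) (nat_lit 76) (nat_lit 6138449826) (nat_lit 110) (nat_lit 5) (nat_lit 115) (nat_lit 5) (nat_lit 111) (nat_lit 5) (nat_lit 616) (nat_lit 503) (nat_lit 441)) (XT.nd (nat_lit 78) (nat_lit 0) (nat_lit 0) (XT.lf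 (nat_lit 0) (nat_lit 3264492191) (nat_lit 304) (nat_lit 1308976720) (nat_lit 380) (nat_lit 7423862241) (nat_lit 106) (nat_lit 5) (nat_lit 110) (nat_lit 5) (nat_lit 111) (nat_lit 5) (nat_lit 617) (nat_lit 503) (nat_lit 440)) (XT.lf (nat_lit 0) (nat_lit 8690080672) (nat_lit 380) (nat_lit 279457778) (nat_lit 76) (nat_lit 3164214600) (nat_lit 106) (nat_lit 5) (nat_lit 111) (nat_lit 5) (nat_lit 107) (nat_lit 5) (nat_lit 618) (nat_lit 503) (nat_lit 439)))) (XT.nd (nat_lit 78) (nat_lit 532) (nat_lit 0) (XT.lf (nat_lit 0) (nat_lit 634414929) (nat_lit 304) (nat_lit 3893398742) (nat_lit 76) (nat_lit 7744484738) (nat_lit 102) (nat_lit 5) (nat_lit 106) (nat_lit 5) (nat_lit 103) (nat_lit 5) (nat_lit 619) (nat_lit 503) (nat_lit 438)) (XT.nd (nat_lit 78) (nat_lit 228) (nat_lit 0) (XT.lf (nat_lit 0) (nat_lit 4744332967) (nat_lit 380) (nat_lit 7634170595) (nat_lit 76) (nat_lit 34730733) (nat_lit 98) (nat_lit 5) (nat_lit 103) (nat_lit 5) (nat_lit 99) (nat_lit 5) (nat_lit 620) (nat_lit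 503) (nat_lit 437)) (XT.lf (nat_lit 0) (nat_lit 1043438256) (nat_lit 228) (nat_lit 7919430313) (nat_lit 304) (nat_lit 3593594362) (nat_lit 95) (nat_lit 5) (nat_lit 98) (nat_lit 5) (nat_lit 99) (nat_lit 5) (nat_lit 621) (nat_lit 503) (nat_lit 436))))) (XT.nd (nat_lit 234) (nat_lit 532) (nat_lit 0) (XT.nd (nat_lit 78) (nat_lit 532) (nat_lit 0) (XT.lf (nat_lit 0) (nat_lit 570839544) (nat_lit 304) (nat_lit 2768902716) (nat_lit 76) (nat_lit 9362442918) (nat_lit 94) (nat_lit 5) (nat_lit 98) (nat_lit 5) (nat_lit 95) (nat_lit 5) (nat_lit 622) (nat_lit 503) (nat_lit 435)) (XT.nd (nat_lit 78) (nat_lit 228) (nat_lit 0) (XT.lf (nat_lit 0) (nat_lit 4783461600) (nat_lit 380) (nat_lit 6712510425) (nat_lit 76) (nat_lit 1354116695) (nat_lit 90) (nat_lit 5) (nat_lit 95) (nat_lit 5) (nat_lit 91) (nat_lit 5) (nat_lit 623) (nat_lit 503) (nat_lit 434)) (XT.lf (nat_lit 0) (nat_lit 2205416271) (nat_lit 228) (nat_lit 6894372285) (nat_lit 304) (nat_lit 3900774963) (nat_lit 87) (nat_lit 5) (nat_lit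 90) (nat_lit 5) (nat_lit 91) (nat_lit 5) (nat_lit 624) (nat_lit 503) (nat_lit 433)))) (XT.nd (nat_lit 78) (nat_lit 456) (nat_lit 0) (XT.lf (nat_lit 0) (nat_lit 353553523) (nat_lit 304) (nat_lit 1823504916) (nat_lit 76) (nat_lit 10976751711) (nat_lit 86) (nat_lit 5) (nat_lit 90) (nat_lit 5) (nat_lit 87) (nat_lit 5) (nat_lit 625) (nat_lit 503) (nat_lit 432)) (XT.nd (nat_lit 78) (nat_lit 228) (nat_lit 0) (XT.lf (nat_lit 0) (nat_lit 4670951565) (nat_lit 304) (nat_lit 5988103905) (nat_lit 76) (nat_lit 2649948378) (nat_lit 83) (nat_lit 5) (nat_lit 87) (nat_lit 5) (nat_lit 84) (nat_lit 5) (nat_lit 626) (nat_lit 503) (nat_lit 431)) (XT.lf (nat_lit 0) (nat_lit 3173527656) (nat_lit 228) (nat_lit 5913738309) (nat_lit 304) (nat_lit 4379786149) (nat_lit 80) (nat_lit 5) (nat_lit 83) (nat_lit 5) (nat_lit 84) (nat_lit 5) (nat_lit 627) (nat_lit 503) (nat_lit 430)))))) (XT.nd (nat_lit 468) (nat_lit 912) (nat_lit 0) (XT.nd (nat_lit 234) (nat_lit 532) (nat_lit 0) (XT.nd (nat_lit 78) (nat_lit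 532) (nat_lit 0) (XT.lf (nat_lit 0) (nat_lit 12540503900) (nat_lit 228) (nat_lit 1057112866) (nat_lit 304) (nat_lit 30532403) (nat_lit 80) (nat_lit 5) (nat_lit 83) (nat_lit 5) (nat_lit 84) (nat_lit 5) (nat_lit 628) (nat_lit 503) (nat_lit 429)) (XT.nd (nat_lit 78) (nat_lit 228) (nat_lit 0) (XT.lf (nat_lit 0) (nat_lit 4393639369) (nat_lit 304) (nat_lit 5492615890) (nat_lit 76) (nat_lit 3904728462) (nat_lit 76) (nat_lit 5) (nat_lit 80) (nat_lit 5) (nat_lit 77) (nat_lit 5) (nat_lit 629) (nat_lit 503) (nat_lit 428)) (XT.lf (nat_lit 0) (nat_lit 3915527449) (nat_lit 228) (nat_lit 4996238951) (nat_lit 304) (nat_lit 5045188822) (nat_lit 73) (nat_lit 5) (nat_lit 76) (nat_lit 5) (nat_lit 77) (nat_lit 5) (nat_lit 630) (nat_lit 503) (nat_lit 427)))) (XT.nd (nat_lit 78) (nat_lit 532) (nat_lit 0) (XT.lf (nat_lit 0) (nat_lit 13523542203) (nat_lit 304) (nat_lit 598030553) (nat_lit 76) (nat_lit 4609540) (nat_lit 73) (nat_lit 5) (nat_lit 77) (nat_lit 5) (nat_lit 74) (nat_lit 5) (nat_lit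 631) (nat_lit 503) (nat_lit 426)) (XT.nd (nat_lit 78) (nat_lit 228) (nat_lit 0) (XT.lf (nat_lit 0) (nat_lit 3936449120) (nat_lit 304) (nat_lit 5260983444) (nat_lit 76) (nat_lit 5099668665) (nat_lit 69) (nat_lit 5) (nat_lit 73) (nat_lit 5) (nat_lit 70) (nat_lit 5) (nat_lit 632) (nat_lit 503) (nat_lit 425)) (XT.lf (nat_lit 0) (nat_lit 4395798372) (nat_lit 228) (nat_lit 4161999719) (nat_lit 304) (nat_lit 5913571595) (nat_lit 66) (nat_lit 5) (nat_lit 69) (nat_lit 5) (nat_lit 70) (nat_lit 5) (nat_lit 633) (nat_lit 503) (nat_lit 424))))) (XT.nd (nat_lit 234) (nat_lit 456) (nat_lit 0) (XT.nd (nat_lit 78) (nat_lit 456) (nat_lit 0) (XT.lf (nat_lit 0) (nat_lit 13280514653) (nat_lit 304) (nat_lit 395599313) (nat_lit 76) (nat_lit 972832460) (nat_lit 66) (nat_lit 5) (nat_lit 70) (nat_lit 5) (nat_lit 67) (nat_lit 5) (nat_lit 634) (nat_lit 503) (nat_lit 423)) (XT.nd (nat_lit 78) (nat_lit 152) (nat_lit 0) (XT.lf (nat_lit 0) (nat_lit 3282220330) (nat_lit 304) (nat_lit 5331801851) (nat_lit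 76) (nat_lit 6214480575) (nat_lit 62) (nat_lit 5) (nat_lit 66) (nat_lit 5) (nat_lit 63) (nat_lit 5) (nat_lit 635) (nat_lit 503) (nat_lit 422)) (XT.lf (nat_lit 0) (nat_lit 4574953083) (nat_lit 152) (nat_lit 3432780394) (nat_lit 228) (nat_lit 7003734027) (nat_lit 60) (nat_lit 5) (nat_lit 62) (nat_lit 5) (nat_lit 63) (nat_lit 5) (nat_lit 636) (nat_lit 503) (nat_lit 421)))) (XT.nd (nat_lit 156) (nat_lit 152) (nat_lit 0) (XT.nd (nat_lit 78) (nat_lit 304) (nat_lit 0) (XT.lf (nat_lit 0) (nat_lit 12843685678) (nat_lit 228) (nat_lit 514212442) (nat_lit 76) (nat_lit 1839876449) (nat_lit 60) (nat_lit 5) (nat_lit 63) (nat_lit 5) (nat_lit 61) (nat_lit 5) (nat_lit 637) (nat_lit 503) (nat_lit 420)) (XT.lf (nat_lit 0) (nat_lit 2411515187) (nat_lit 304) (nat_lit 5747748901) (nat_lit 76) (nat_lit 7227149212) (nat_lit 56) (nat_lit 5) (nat_lit 60) (nat_lit 5) (nat_lit 57) (nat_lit 5) (nat_lit 638) (nat_lit 503) (nat_lit 419))) (XT.nd (nat_lit 78) (nat_lit 0) (nat_lit 0) (XT.lf (nat_lit 0)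 (nat_lit 4409396846) (nat_lit 152) (nat_lit 2832212783) (nat_lit 228) (nat_lit 8336891480) (nat_lit 54) (nat_lit 5) (nat_lit 56) (nat_lit 5) (nat_lit 57) (nat_lit 5) (nat_lit 639) (nat_lit 503) (nat_lit 418)) (XT.lf (nat_lit 0) (nat_lit 12192690602) (nat_lit 228) (nat_lit 998942961) (nat_lit 76) (nat_lit 2582310892) (nat_lit 54) (nat_lit 5) (nat_lit 57) (nat_lit 5) (nat_lit 55) (nat_lit 5) (nat_lit 640) (nat_lit 503) (nat_lit 417))))))) (XT.nd (nat_lit 74646) (nat_lit 0) (nat_lit 24168) (XT.nd (nat_lit 468) (nat_lit 152) (nat_lit 0) (XT.nd (nat_lit 234) (nat_lit 456) (nat_lit 0) (XT.nd (nat_lit 78) (nat_lit 152) (nat_lit 0) (XT.lf (nat_lit 0) (nat_lit 1302403328) (nat_lit 304) (nat_lit 6556051659) (nat_lit 76) (nat_lit 8113687119) (nat_lit 50) (nat_lit 5) (nat_lit 54) (nat_lit 5) (nat_lit 51) (nat_lit 5) (nat_lit 641) (nat_lit 503) (nat_lit 416)) (XT.nd (nat_lit 78) (nat_lit 0) (nat_lit 0) (XT.lf (nat_lit 0) (nat_lit 3850846296) (nat_lit 152) (nat_lit 2386059188) (nat_lit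 228) (nat_lit 9936903678) (nat_lit 48) (nat_lit 5) (nat_lit 50) (nat_lit 5) (nat_lit 51) (nat_lit 5) (nat_lit 642) (nat_lit 503) (nat_lit 415)) (XT.lf (nat_lit 0) (nat_lit 11304556025) (nat_lit 228) (nat_lit 1899706436) (nat_lit 76) (nat_lit 3174559291) (nat_lit 48) (nat_lit 5) (nat_lit 51) (nat_lit 5) (nat_lit 49) (nat_lit 5) (nat_lit 643) (nat_lit 503) (nat_lit 414)))) (XT.nd (nat_lit 78) (nat_lit 228) (nat_lit 0) (XT.lf (nat_lit 0) (nat_lit 8777620260) (nat_lit 228) (nat_lit 7738753986) (nat_lit 304) (nat_lit 70705389) (nat_lit 45) (nat_lit 5) (nat_lit 48) (nat_lit 5) (nat_lit 49) (nat_lit 5) (nat_lit 644) (nat_lit 503) (nat_lit 413)) (XT.nd (nat_lit 78) (nat_lit 0) (nat_lit 0) (XT.lf (nat_lit 0) (nat_lit 2845799520) (nat_lit 152) (nat_lit 2122494120) (nat_lit 228) (nat_lit 11830529274) (nat_lit 42) (nat_lit 5) (nat_lit 44) (nat_lit 5) (nat_lit 45) (nat_lit 5) (nat_lit 645) (nat_lit 503) (nat_lit 412)) (XT.lf (nat_lit 0) (nat_lit 10153444759) (nat_lit 228) (nat_lit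 3271804949) (nat_lit 76) (nat_lit 3588616883) (nat_lit 42) (nat_lit 5) (nat_lit 45) (nat_lit 5) (nat_lit 43) (nat_lit 5) (nat_lit 646) (nat_lit 503) (nat_lit 411))))) (XT.nd (nat_lit 73944) (nat_lit 0) (nat_lit 34124) (XT.nd (nat_lit 73788) (nat_lit 0) (nat_lit 37468) (XT.lf (nat_lit 0) (nat_lit 7656608790) (nat_lit 152) (nat_lit 7820195590) (nat_lit 228) (nat_lit 1755717886) (nat_lit 40) (nat_lit 5) (nat_lit 42) (nat_lit 5) (nat_lit 43) (nat_lit 5) (nat_lit 647) (nat_lit 503) (nat_lit 410)) (XT.nd (nat_lit 78) (nat_lit 1596) (nat_lit 0) (XT.lf (nat_lit 0) (nat_lit 1131743955) (nat_lit 1444) (nat_lit 1167981736) (nat_lit 1444) (nat_lit 1167981736) (nat_lit 554) (nat_lit 4) (nat_lit 573) (nat_lit 5) (nat_lit 573) (nat_lit 4) (nat_lit 552) (nat_lit 504) (nat_lit 504)) (XT.lf (nat_lit 0) (nat_lit 234870881) (nat_lit 1520) (nat_lit 820047153) (nat_lit 1596) (nat_lit 5912318803) (nat_lit 533) (nat_lit 5) (nat_lit 553) (nat_lit 5) (nat_lit 554) (nat_lit 4) (nat_lit 553) (nat_lit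 504) (nat_lit 503)))) (XT.nd (nat_lit 78) (nat_lit 3344) (nat_lit 0) (XT.lf (nat_lit 0) (nat_lit 4449013488) (nat_lit 1596) (nat_lit 1783363846) (nat_lit 0) (nat_lit 767690563) (nat_lit 533) (nat_lit 5) (nat_lit 554) (nat_lit 4) (nat_lit 533) (nat_lit 4) (nat_lit 554) (nat_lit 504) (nat_lit 502)) (XT.nd (nat_lit 78) (nat_lit 1672) (nat_lit 0) (XT.lf (nat_lit 0) (nat_lit 823813810) (nat_lit 1672) (nat_lit 3803922057) (nat_lit 76) (nat_lit 2406562416) (nat_lit 511) (nat_lit 5) (nat_lit 533) (nat_lit 5) (nat_lit 512) (nat_lit 4) (nat_lit 555) (nat_lit 504) (nat_lit 501)) (XT.lf (nat_lit 0) (nat_lit 1232577569) (nat_lit 1672) (nat_lit 2951716074) (nat_lit 1748) (nat_lit 2885551015) (nat_lit 489) (nat_lit 5) (nat_lit 511) (nat_lit 5) (nat_lit 512) (nat_lit 4) (nat_lit 556) (nat_lit 504) (nat_lit 500)))))) (XT.nd (nat_lit 468) (nat_lit 4408) (nat_lit 0) (XT.nd (nat_lit 234) (nat_lit 2052) (nat_lit 0) (XT.nd (nat_lit 78) (nat_lit 3420) (nat_lit 0) (XT.lf (nat_lit 0) (nat_lit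 457579260) (nat_lit 1748) (nat_lit 754353224) (nat_lit 76) (nat_lit 5894950669) (nat_lit 488) (nat_lit 5) (nat_lit 511) (nat_lit 5) (nat_lit 489) (nat_lit 5) (nat_lit 557) (nat_lit 504) (nat_lit 499)) (XT.nd (nat_lit 78) (nat_lit 1672) (nat_lit 0) (XT.lf (nat_lit 0) (nat_lit 3795492772) (nat_lit 1824) (nat_lit 2745525125) (nat_lit 76) (nat_lit 603945163) (nat_lit 465) (nat_lit 5) (nat_lit 489) (nat_lit 5) (nat_lit 466) (nat_lit 4) (nat_lit 558) (nat_lit 504) (nat_lit 498)) (XT.lf (nat_lit 0) (nat_lit 2440516356) (nat_lit 1672) (nat_lit 4723448428) (nat_lit 1748) (nat_lit 20576791) (nat_lit 443) (nat_lit 5) (nat_lit 465) (nat_lit 5) (nat_lit 466) (nat_lit 4) (nat_lit 559) (nat_lit 504) (nat_lit 497)))) (XT.nd (nat_lit 78) (nat_lit 988) (nat_lit 0) (XT.lf (nat_lit 0) (nat_lit 460258006) (nat_lit 988) (nat_lit 2827153443) (nat_lit 1064) (nat_lit 3937938895) (nat_lit 429) (nat_lit 5) (nat_lit 442) (nat_lit 5) (nat_lit 443) (nat_lit 5) (nat_lit 560) (nat_lit 504) (nat_lit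 496)) (XT.nd (nat_lit 78) (nat_lit 988) (nat_lit 0) (XT.lf (nat_lit 0) (nat_lit 5766538021) (nat_lit 988) (nat_lit 862664690) (nat_lit 1064) (nat_lit 638423745) (nat_lit 429) (nat_lit 5) (nat_lit 442) (nat_lit 5) (nat_lit 443) (nat_lit 5) (nat_lit 561) (nat_lit 504) (nat_lit 495)) (XT.lf (nat_lit 0) (nat_lit 2660799033) (nat_lit 988) (nat_lit 3483865330) (nat_lit 76) (nat_lit 1166351725) (nat_lit 416) (nat_lit 5) (nat_lit 429) (nat_lit 5) (nat_lit 417) (nat_lit 5) (nat_lit 562) (nat_lit 504) (nat_lit 494))))) (XT.nd (nat_lit 234) (nat_lit 2584) (nat_lit 0) (XT.nd (nat_lit 78) (nat_lit 912) (nat_lit 0) (XT.lf (nat_lit 0) (nat_lit 1875203912) (nat_lit 912) (nat_lit 4107993103) (nat_lit 988) (nat_lit 1372688868) (nat_lit 404) (nat_lit 5) (nat_lit 416) (nat_lit 5) (nat_lit 417) (nat_lit 5) (nat_lit 563) (nat_lit 504) (nat_lit 493)) (XT.nd (nat_lit 78) (nat_lit 836) (nat_lit 0) (XT.lf (nat_lit 0) (nat_lit 1906157986) (nat_lit 988) (nat_lit 92462320) (nat_lit 76) (nat_lit 5403555813)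 (nat_lit 403) (nat_lit 5) (nat_lit 416) (nat_lit 5) (nat_lit 404) (nat_lit 5) (nat_lit 564) (nat_lit 504) (nat_lit 492)) (XT.lf (nat_lit 0) (nat_lit 5207820037) (nat_lit 912) (nat_lit 2051434364) (nat_lit 76) (nat_lit 190454809) (nat_lit 392) (nat_lit 5) (nat_lit 404) (nat_lit 5) (nat_lit 393) (nat_lit 5) (nat_lit 565) (nat_lit 504) (nat_lit 491)))) (XT.nd (nat_lit 156) (nat_lit 912) (nat_lit 0) (XT.nd (nat_lit 78) (nat_lit 760) (nat_lit 0) (XT.lf (nat_lit 0) (nat_lit 1039424368) (nat_lit 912) (nat_lit 4037811973) (nat_lit 76) (nat_lit 2421302569) (nat_lit 380) (nat_lit 5) (nat_lit 392) (nat_lit 5) (nat_lit 381) (nat_lit 5) (nat_lit 566) (nat_lit 504) (nat_lit 490)) (XT.lf (nat_lit 0) (nat_lit 1500811900) (nat_lit 760) (nat_lit 2819531028) (nat_lit 836) (nat_lit 3228436205) (nat_lit 370) (nat_lit 5) (nat_lit 380) (nat_lit 5) (nat_lit 381) (nat_lit 5) (nat_lit 567) (nat_lit 504) (nat_lit 489))) (XT.nd (nat_lit 78) (nat_lit 836) (nat_lit 0) (XT.lf (nat_lit 0) (nat_lit 33960534)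 (nat_lit 836) (nat_lit 462314976) (nat_lit 76) (nat_lit 7104390200) (nat_lit 369) (nat_lit 5) (nat_lit 380) (nat_lit 5) (nat_lit 370) (nat_lit 5) (nat_lit 568) (nat_lit 504) (nat_lit 488)) (XT.lf (nat_lit 0) (nat_lit 3306632575) (nat_lit 912) (nat_lit 2449899146) (nat_lit 76) (nat_lit 1896876046) (nat_lit 358) (nat_lit 5) (nat_lit 370) (nat_lit 5) (nat_lit 359) (nat_lit 5) (nat_lit 569) (nat_lit 504) (nat_lit 487))))))))
noncomputable def xc47 : XT := (XT.nd (nat_lit 1950) (nat_lit 7448) (nat_lit 0) (XT.nd (nat_lit 936) (nat_lit 5700) (nat_lit 0) (XT.nd (nat_lit 468) (nat_lit 2812) (nat_lit 0) (XT.nd (nat_lit 234) (nat_lit 2204) (nat_lit 0) (XT.nd (nat_lit 78) (nat_lit 836) (nat_lit 0) (XT.lf (nat_lit 0) (nat_lit 3254633955) (nat_lit 760) (nat_lit 3360197077) (nat_lit 836) (nat_lit 1092981655) (nat_lit 348) (nat_lit 5) (nat_lit 358) (nat_lit 5) (nat_lit 359) (nat_lit 5) (nat_lit 570) (nat_lit 504) (nat_lit 486)) (XT.nd (nat_lit 78) (nat_lit 0) (nat_lit 0) (XT.lf (nat_lit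 0) (nat_lit 1278853467) (nat_lit 760) (nat_lit 885538393) (nat_lit 836) (nat_lit 5599279978) (nat_lit 337) (nat_lit 5) (nat_lit 347) (nat_lit 5) (nat_lit 348) (nat_lit 5) (nat_lit 571) (nat_lit 504) (nat_lit 485)) (XT.lf (nat_lit 0) (nat_lit 5456481386) (nat_lit 836) (nat_lit 719717199) (nat_lit 76) (nat_lit 1644629956) (nat_lit 337) (nat_lit 5) (nat_lit 348) (nat_lit 5) (nat_lit 338) (nat_lit 5) (nat_lit 572) (nat_lit 504) (nat_lit 484)))) (XT.nd (nat_lit 78) (nat_lit 1444) (nat_lit 0) (XT.lf (nat_lit 0) (nat_lit 906823587) (nat_lit 760) (nat_lit 2729136196) (nat_lit 76) (nat_lit 4243379619) (nat_lit 327) (nat_lit 5) (nat_lit 337) (nat_lit 5) (nat_lit 328) (nat_lit 5) (nat_lit 573) (nat_lit 504) (nat_lit 483)) (XT.nd (nat_lit 78) (nat_lit 684) (nat_lit 0) (XT.lf (nat_lit 0) (nat_lit 3167745190) (nat_lit 760) (nat_lit 1014339431) (nat_lit 836) (nat_lit 3757225201) (nat_lit 317) (nat_lit 5) (nat_lit 327) (nat_lit 5) (nat_lit 328) (nat_lit 5) (nat_lit 574) (nat_lit 504)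 (nat_lit 482)) (XT.lf (nat_lit 0) (nat_lit 1156667488) (nat_lit 684) (nat_lit 6348348924) (nat_lit 760) (nat_lit 495828181) (nat_lit 308) (nat_lit 5) (nat_lit 317) (nat_lit 5) (nat_lit 318) (nat_lit 5) (nat_lit 575) (nat_lit 504) (nat_lit 481))))) (XT.nd (nat_lit 234) (nat_lit 1368) (nat_lit 0) (XT.nd (nat_lit 78) (nat_lit 1368) (nat_lit 0) (XT.lf (nat_lit 0) (nat_lit 2778336294) (nat_lit 760) (nat_lit 887472912) (nat_lit 76) (nat_lit 4397747879) (nat_lit 307) (nat_lit 5) (nat_lit 317) (nat_lit 5) (nat_lit 308) (nat_lit 5) (nat_lit 576) (nat_lit 504) (nat_lit 480)) (XT.nd (nat_lit 78) (nat_lit 684) (nat_lit 0) (XT.lf (nat_lit 0) (nat_lit 5187093385) (nat_lit 684) (nat_lit 904716854) (nat_lit 760) (nat_lit 2036046511) (nat_lit 298) (nat_lit 5) (nat_lit 307) (nat_lit 5) (nat_lit 308) (nat_lit 5) (nat_lit 577) (nat_lit 504) (nat_lit 479)) (XT.lf (nat_lit 0) (nat_lit 1247515843) (nat_lit 684) (nat_lit 5037583257) (nat_lit 76) (nat_lit 1908461471) (nat_lit 289) (nat_lit 5)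 (nat_lit 298) (nat_lit 5) (nat_lit 290) (nat_lit 5) (nat_lit 578) (nat_lit 504) (nat_lit 478)))) (XT.nd (nat_lit 78) (nat_lit 684) (nat_lit 0) (XT.lf (nat_lit 0) (nat_lit 1082092432) (nat_lit 684) (nat_lit 3467867683) (nat_lit 760) (nat_lit 3710747050) (nat_lit 280) (nat_lit 5) (nat_lit 289) (nat_lit 5) (nat_lit 290) (nat_lit 5) (nat_lit 579) (nat_lit 504) (nat_lit 477)) (XT.nd (nat_lit 78) (nat_lit 684) (nat_lit 0) (XT.lf (nat_lit 0) (nat_lit 7326061740) (nat_lit 684) (nat_lit 574359392) (nat_lit 760) (nat_lit 429143386) (nat_lit 280) (nat_lit 5) (nat_lit 289) (nat_lit 5) (nat_lit 290) (nat_lit 5) (nat_lit 580) (nat_lit 504) (nat_lit 476)) (XT.lf (nat_lit 0) (nat_lit 2878626710) (nat_lit 684) (nat_lit 3135817748) (nat_lit 76) (nat_lit 2385006429) (nat_lit 271) (nat_lit 5) (nat_lit 280) (nat_lit 5) (nat_lit 272) (nat_lit 5) (nat_lit 581) (nat_lit 504) (nat_lit 475)))))) (XT.nd (nat_lit 468) (nat_lit 2736) (nat_lit 0) (XT.nd (nat_lit 234) (nat_lit 1748) (nat_lit 0) (XT.nd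 (nat_lit 78) (nat_lit 608) (nat_lit 0) (XT.lf (nat_lit 0) (nat_lit 3167708154) (nat_lit 608) (nat_lit 3059571528) (nat_lit 684) (nat_lit 2243795866) (nat_lit 263) (nat_lit 5) (nat_lit 271) (nat_lit 5) (nat_lit 272) (nat_lit 5) (nat_lit 582) (nat_lit 504) (nat_lit 474)) (XT.nd (nat_lit 78) (nat_lit 0) (nat_lit 0) (XT.lf (nat_lit 0) (nat_lit 1035910510) (nat_lit 532) (nat_lit 25907123) (nat_lit 608) (nat_lit 7482629793) (nat_lit 255) (nat_lit 5) (nat_lit 262) (nat_lit 5) (nat_lit 263) (nat_lit 5) (nat_lit 583) (nat_lit 504) (nat_lit 473)) (XT.lf (nat_lit 0) (nat_lit 4409275827) (nat_lit 608) (nat_lit 1146693617) (nat_lit 76) (nat_lit 3062911510) (nat_lit 255) (nat_lit 5) (nat_lit 263) (nat_lit 5) (nat_lit 256) (nat_lit 5) (nat_lit 584) (nat_lit 504) (nat_lit 472)))) (XT.nd (nat_lit 78) (nat_lit 1140) (nat_lit 0) (XT.lf (nat_lit 0) (nat_lit 5346687141) (nat_lit 608) (nat_lit 2462864603) (nat_lit 684) (nat_lit 885540292) (nat_lit 247) (nat_lit 5) (nat_lit 255) (nat_lit 5)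 (nat_lit 256) (nat_lit 5) (nat_lit 585) (nat_lit 504) (nat_lit 471)) (XT.nd (nat_lit 78) (nat_lit 532) (nat_lit 0) (XT.lf (nat_lit 0) (nat_lit 2456365790) (nat_lit 608) (nat_lit 5605373918) (nat_lit 76) (nat_lit 711084091) (nat_lit 239) (nat_lit 5) (nat_lit 247) (nat_lit 5) (nat_lit 240) (nat_lit 5) (nat_lit 586) (nat_lit 504) (nat_lit 470)) (XT.lf (nat_lit 0) (nat_lit 930935297) (nat_lit 532) (nat_lit 4918915359) (nat_lit 608) (nat_lit 3002216405) (nat_lit 232) (nat_lit 5) (nat_lit 239) (nat_lit 5) (nat_lit 240) (nat_lit 5) (nat_lit 587) (nat_lit 504) (nat_lit 469))))) (XT.nd (nat_lit 234) (nat_lit 1596) (nat_lit 0) (XT.nd (nat_lit 78) (nat_lit 1064) (nat_lit 0) (XT.lf (nat_lit 0) (nat_lit 363024956) (nat_lit 608) (nat_lit 1327404960) (nat_lit 76) (nat_lit 7242628281) (nat_lit 231) (nat_lit 5) (nat_lit 239) (nat_lit 5) (nat_lit 232) (nat_lit 5) (nat_lit 588) (nat_lit 504) (nat_lit 468)) (XT.nd (nat_lit 78) (nat_lit 532) (nat_lit 0) (XT.lf (nat_lit 0) (nat_lit 3753772811)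 (nat_lit 608) (nat_lit 3642457730) (nat_lit 76) (nat_lit 1619079250) (nat_lit 224) (nat_lit 5) (nat_lit 232) (nat_lit 5) (nat_lit 225) (nat_lit 5) (nat_lit 589) (nat_lit 504) (nat_lit 467)) (XT.lf (nat_lit 0) (nat_lit 3089748290) (nat_lit 532) (nat_lit 4115955403) (nat_lit 608) (nat_lit 1893640808) (nat_lit 217) (nat_lit 5) (nat_lit 224) (nat_lit 5) (nat_lit 225) (nat_lit 5) (nat_lit 590) (nat_lit 504) (nat_lit 466)))) (XT.nd (nat_lit 156) (nat_lit 1064) (nat_lit 0) (XT.nd (nat_lit 78) (nat_lit 0) (nat_lit 0) (XT.lf (nat_lit 0) (nat_lit 755343681) (nat_lit 456) (nat_lit 748889156) (nat_lit 532) (nat_lit 7680975357) (nat_lit 210) (nat_lit 5) (nat_lit 216) (nat_lit 5) (nat_lit 217) (nat_lit 5) (nat_lit 591) (nat_lit 504) (nat_lit 465)) (XT.lf (nat_lit 0) (nat_lit 4956458026) (nat_lit 532) (nat_lit 1631347420) (nat_lit 76) (nat_lit 2684503508) (nat_lit 210) (nat_lit 5) (nat_lit 217) (nat_lit 5) (nat_lit 211) (nat_lit 5) (nat_lit 592) (nat_lit 504) (nat_lit 464))) (XT.nd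 (nat_lit 78) (nat_lit 532) (nat_lit 0) (XT.lf (nat_lit 0) (nat_lit 5302860870) (nat_lit 532) (nat_lit 3168859427) (nat_lit 608) (nat_lit 889556610) (nat_lit 203) (nat_lit 5) (nat_lit 210) (nat_lit 5) (nat_lit 211) (nat_lit 5) (nat_lit 593) (nat_lit 504) (nat_lit 463)) (XT.lf (nat_lit 0) (nat_lit 2557978579) (nat_lit 532) (nat_lit 6552158351) (nat_lit 76) (nat_lit 341816155) (nat_lit 196) (nat_lit 5) (nat_lit 203) (nat_lit 5) (nat_lit 197) (nat_lit 5) (nat_lit 594) (nat_lit 504) (nat_lit 462))))))) (XT.nd (nat_lit 1014) (nat_lit 3420) (nat_lit 0) (XT.nd (nat_lit 468) (nat_lit 2128) (nat_lit 0) (XT.nd (nat_lit 234) (nat_lit 912) (nat_lit 0) (XT.nd (nat_lit 78) (nat_lit 532) (nat_lit 0) (XT.lf (nat_lit 0) (nat_lit 421363718) (nat_lit 456) (nat_lit 5647447829) (nat_lit 532) (nat_lit 3475393215) (nat_lit 190) (nat_lit 5) (nat_lit 196) (nat_lit 5) (nat_lit 197) (nat_lit 5) (nat_lit 595) (nat_lit 504) (nat_lit 461)) (XT.nd (nat_lit 78) (nat_lit 456) (nat_lit 0) (XT.lf (nat_lit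 0) (nat_lit 10938332) (nat_lit 532) (nat_lit 2080174443) (nat_lit 76) (nat_lit 7547201147) (nat_lit 189) (nat_lit 5) (nat_lit 196) (nat_lit 5) (nat_lit 190) (nat_lit 5) (nat_lit 596) (nat_lit 504) (nat_lit 460)) (XT.lf (nat_lit 0) (nat_lit 3519865920) (nat_lit 532) (nat_lit 4661562545) (nat_lit 76) (nat_lit 1552433722) (nat_lit 183) (nat_lit 5) (nat_lit 190) (nat_lit 5) (nat_lit 184) (nat_lit 5) (nat_lit 597) (nat_lit 504) (nat_lit 459)))) (XT.nd (nat_lit 78) (nat_lit 456) (nat_lit 0) (XT.lf (nat_lit 0) (nat_lit 2519490947) (nat_lit 456) (nat_lit 4580199491) (nat_lit 532) (nat_lit 2731620992) (nat_lit 177) (nat_lit 5) (nat_lit 183) (nat_lit 5) (nat_lit 184) (nat_lit 5) (nat_lit 598) (nat_lit 504) (nat_lit 458)) (XT.nd (nat_lit 78) (nat_lit 380) (nat_lit 0) (XT.lf (nat_lit 0) (nat_lit 797738438) (nat_lit 532) (nat_lit 93009543) (nat_lit 76) (nat_lit 9040097426) (nat_lit 176) (nat_lit 5) (nat_lit 183) (nat_lit 5) (nat_lit 177) (nat_lit 5) (nat_lit 599) (nat_lit 504) (nat_lit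 457)) (XT.lf (nat_lit 0) (nat_lit 4384842041) (nat_lit 456) (nat_lit 2766720739) (nat_lit 76) (nat_lit 2879975623) (nat_lit 171) (nat_lit 5) (nat_lit 177) (nat_lit 5) (nat_lit 172) (nat_lit 5) (nat_lit 600) (nat_lit 504) (nat_lit 456))))) (XT.nd (nat_lit 234) (nat_lit 1216) (nat_lit 0) (XT.nd (nat_lit 78) (nat_lit 456) (nat_lit 0) (XT.lf (nat_lit 0) (nat_lit 4627852143) (nat_lit 456) (nat_lit 3410157182) (nat_lit 532) (nat_lit 2096353548) (nat_lit 165) (nat_lit 5) (nat_lit 171) (nat_lit 5) (nat_lit 172) (nat_lit 5) (nat_lit 601) (nat_lit 504) (nat_lit 455)) (XT.nd (nat_lit 78) (nat_lit 0) (nat_lit 0) (XT.lf (nat_lit 0) (nat_lit 1496802165) (nat_lit 456) (nat_lit 8321842071) (nat_lit 76) (nat_lit 420569326) (nat_lit 159) (nat_lit 5) (nat_lit 165) (nat_lit 5) (nat_lit 160) (nat_lit 5) (nat_lit 602) (nat_lit 504) (nat_lit 454)) (XT.lf (nat_lit 0) (nat_lit 5151712741) (nat_lit 456) (nat_lit 881949571) (nat_lit 76) (nat_lit 4311866389) (nat_lit 159) (nat_lit 5) (nat_lit 165)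 (nat_lit 5) (nat_lit 160) (nat_lit 5) (nat_lit 603) (nat_lit 504) (nat_lit 453)))) (XT.nd (nat_lit 156) (nat_lit 380) (nat_lit 0) (XT.nd (nat_lit 78) (nat_lit 456) (nat_lit 0) (XT.lf (nat_lit 0) (nat_lit 6732102901) (nat_lit 380) (nat_lit 2150303946) (nat_lit 456) (nat_lit 1571513328) (nat_lit 154) (nat_lit 5) (nat_lit 159) (nat_lit 5) (nat_lit 160) (nat_lit 5) (nat_lit 604) (nat_lit 504) (nat_lit 452)) (XT.lf (nat_lit 0) (nat_lit 2097814854) (nat_lit 456) (nat_lit 6655748013) (nat_lit 76) (nat_lit 1810595971) (nat_lit 148) (nat_lit 5) (nat_lit 154) (nat_lit 5) (nat_lit 149) (nat_lit 5) (nat_lit 605) (nat_lit 504) (nat_lit 451))) (XT.nd (nat_lit 78) (nat_lit 0) (nat_lit 0) (XT.lf (nat_lit 0) (nat_lit 990449044) (nat_lit 380) (nat_lit 4834222747) (nat_lit 456) (nat_lit 4851622559) (nat_lit 143) (nat_lit 5) (nat_lit 148) (nat_lit 5) (nat_lit 149) (nat_lit 5) (nat_lit 606) (nat_lit 504) (nat_lit 450)) (XT.lf (nat_lit 0) (nat_lit 8816888419) (nat_lit 380) (nat_lit 813582868)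 (nat_lit 456) (nat_lit 1160116628) (nat_lit 143) (nat_lit 5) (nat_lit 148) (nat_lit 5) (nat_lit 149) (nat_lit 5) (nat_lit 607) (nat_lit 504) (nat_lit 449)))))) (XT.nd (nat_lit 468) (nat_lit 1672) (nat_lit 0) (XT.nd (nat_lit 234) (nat_lit 988) (nat_lit 0) (XT.nd (nat_lit 78) (nat_lit 380) (nat_lit 0) (XT.lf (nat_lit 0) (nat_lit 2591129077) (nat_lit 380) (nat_lit 5037592242) (nat_lit 76) (nat_lit 3277709504) (nat_lit 138) (nat_lit 5) (nat_lit 143) (nat_lit 5) (nat_lit 139) (nat_lit 5) (nat_lit 608) (nat_lit 504) (nat_lit 448)) (XT.nd (nat_lit 78) (nat_lit 0) (nat_lit 0) (XT.lf (nat_lit 0) (nat_lit 2832206554) (nat_lit 380) (nat_lit 3567281243) (nat_lit 456) (nat_lit 4625000238) (nat_lit 133) (nat_lit 5) (nat_lit 138) (nat_lit 5) (nat_lit 139) (nat_lit 5) (nat_lit 609) (nat_lit 504) (nat_lit 447)) (XT.lf (nat_lit 0) (nat_lit 10282500174) (nat_lit 456) (nat_lit 283164630) (nat_lit 76) (nat_lit 579275047) (nat_lit 133) (nat_lit 5) (nat_lit 139) (nat_lit 5) (nat_lit 134) (nat_lit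 5) (nat_lit 610) (nat_lit 504) (nat_lit 446)))) (XT.nd (nat_lit 78) (nat_lit 608) (nat_lit 0) (XT.lf (nat_lit 0) (nat_lit 2972351616) (nat_lit 380) (nat_lit 3485249768) (nat_lit 76) (nat_lit 4809095982) (nat_lit 128) (nat_lit 5) (nat_lit 133) (nat_lit 5) (nat_lit 129) (nat_lit 5) (nat_lit 611) (nat_lit 504) (nat_lit 445)) (XT.nd (nat_lit 78) (nat_lit 304) (nat_lit 0) (XT.lf (nat_lit 0) (nat_lit 4613579801) (nat_lit 304) (nat_lit 2252184070) (nat_lit 380) (nat_lit 4525145689) (nat_lit 124) (nat_lit 5) (nat_lit 128) (nat_lit 5) (nat_lit 129) (nat_lit 5) (nat_lit 612) (nat_lit 504) (nat_lit 444)) (XT.lf (nat_lit 0) (nat_lit 1347023429) (nat_lit 304) (nat_lit 9497338633) (nat_lit 380) (nat_lit 673100529) (nat_lit 120) (nat_lit 5) (nat_lit 124) (nat_lit 5) (nat_lit 125) (nat_lit 5) (nat_lit 613) (nat_lit 504) (nat_lit 443))))) (XT.nd (nat_lit 234) (nat_lit 988) (nat_lit 0) (XT.nd (nat_lit 78) (nat_lit 608) (nat_lit 0) (XT.lf (nat_lit 0) (nat_lit 3235877061) (nat_lit 380) (nat_lit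 2018115740) (nat_lit 76) (nat_lit 6391682027) (nat_lit 119) (nat_lit 5) (nat_lit 124) (nat_lit 5) (nat_lit 120) (nat_lit 5) (nat_lit 614) (nat_lit 504) (nat_lit 442)) (XT.nd (nat_lit 78) (nat_lit 304) (nat_lit 0) (XT.lf (nat_lit 0) (nat_lit 6314976938) (nat_lit 304) (nat_lit 902699579) (nat_lit 380) (nat_lit 4558615485) (nat_lit 115) (nat_lit 5) (nat_lit 119) (nat_lit 5) (nat_lit 120) (nat_lit 5) (nat_lit 615) (nat_lit 504) (nat_lit 441)) (XT.lf (nat_lit 0) (nat_lit 2886817903) (nat_lit 304) (nat_lit 8410461251) (nat_lit 380) (nat_lit 611881741) (nat_lit 111) (nat_lit 5) (nat_lit 115) (nat_lit 5) (nat_lit 116) (nat_lit 5) (nat_lit 616) (nat_lit 504) (nat_lit 440)))) (XT.nd (nat_lit 156) (nat_lit 608) (nat_lit 0) (XT.nd (nat_lit 78) (nat_lit 304) (nat_lit 0) (XT.lf (nat_lit 0) (nat_lit 3374809356) (nat_lit 380) (nat_lit 657326460) (nat_lit 76) (nat_lit 8011994776) (nat_lit 110) (nat_lit 5) (nat_lit 115) (nat_lit 5) (nat_lit 111) (nat_lit 5) (nat_lit 617) (nat_lit 504)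 (nat_lit 439)) (XT.lf (nat_lit 0) (nat_lit 7451122779) (nat_lit 380) (nat_lit 4269442150) (nat_lit 76) (nat_lit 460794796) (nat_lit 106) (nat_lit 5) (nat_lit 111) (nat_lit 5) (nat_lit 107) (nat_lit 5) (nat_lit 618) (nat_lit 504) (nat_lit 438))) (XT.nd (nat_lit 78) (nat_lit 380) (nat_lit 0) (XT.lf (nat_lit 0) (nat_lit 4310093334) (nat_lit 228) (nat_lit 7321825100) (nat_lit 304) (nat_lit 688958402) (nat_lit 103) (nat_lit 5) (nat_lit 106) (nat_lit 5) (nat_lit 107) (nat_lit 5) (nat_lit 619) (nat_lit 504) (nat_lit 437)) (XT.lf (nat_lit 0) (nat_lit 581628255) (nat_lit 304) (nat_lit 2803019224) (nat_lit 380) (nat_lit 9078162863) (nat_lit 98) (nat_lit 5) (nat_lit 102) (nat_lit 5) (nat_lit 103) (nat_lit 5) (nat_lit 620) (nat_lit 504) (nat_lit 436))))))))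
noncomputable def xc48 : XT := (XT.nd (nat_lit 1950) (nat_lit 304) (nat_lit 0) (XT.nd (nat_lit 936) (nat_lit 1900) (nat_lit 0) (XT.nd (nat_lit 468) (nat_lit 1064) (nat_lit 0) (XT.nd (nat_lit 234) (nat_lit 532) (nat_lit 0) (XT.nd (nat_lit 78) (nat_lit 608) (nat_lit 0) (XT.lf (nat_lit 0) (nat_lit 7560425991) (nat_lit 380) (nat_lit 3228846064) (nat_lit 76) (nat_lit 1817623239) (nat_lit 98) (nat_lit 5) (nat_lit 103) (nat_lit 5) (nat_lit 99) (nat_lit 5) (nat_lit 621) (nat_lit 504) (nat_lit 435)) (XT.nd (nat_lit 78) (nat_lit 380) (nat_lit 0) (XT.lf (nat_lit 0) (nat_lit 5592328070) (nat_lit 228) (nat_lit 6247046164) (nat_lit 304) (nat_lit 914096950) (nat_lit 95) (nat_lit 5) (nat_lit 98) (nat_lit 5) (nat_lit 99) (nat_lit 5) (nat_lit 622) (nat_lit 504) (nat_lit 434)) (XT.lf (nat_lit 0) (nat_lit 1672436216) (nat_lit 304) (nat_lit 1582722405) (nat_lit 380) (nat_lit 9647443012) (nat_lit 90) (nat_lit 5) (nat_lit 94) (nat_lit 5) (nat_lit 95) (nat_lit 5) (nat_lit 623) (nat_lit 504)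 (nat_lit 433)))) (XT.nd (nat_lit 78) (nat_lit 532) (nat_lit 0) (XT.lf (nat_lit 0) (nat_lit 7529569604) (nat_lit 380) (nat_lit 2360207114) (nat_lit 76) (nat_lit 3164139117) (nat_lit 90) (nat_lit 5) (nat_lit 95) (nat_lit 5) (nat_lit 91) (nat_lit 5) (nat_lit 624) (nat_lit 504) (nat_lit 432)) (XT.nd (nat_lit 78) (nat_lit 304) (nat_lit 0) (XT.lf (nat_lit 0) (nat_lit 6706561317) (nat_lit 228) (nat_lit 5202630433) (nat_lit 304) (nat_lit 1298672259) (nat_lit 87) (nat_lit 5) (nat_lit 90) (nat_lit 5) (nat_lit 91) (nat_lit 5) (nat_lit 625) (nat_lit 504) (nat_lit 431)) (XT.lf (nat_lit 0) (nat_lit 2578098382) (nat_lit 228) (nat_lit 392370790) (nat_lit 304) (nat_lit 10394063972) (nat_lit 83) (nat_lit 5) (nat_lit 86) (nat_lit 5) (nat_lit 87) (nat_lit 5) (nat_lit 626) (nat_lit 504) (nat_lit 430))))) (XT.nd (nat_lit 234) (nat_lit 532) (nat_lit 0) (XT.nd (nat_lit 78) (nat_lit 532) (nat_lit 0) (XT.lf (nat_lit 0) (nat_lit 7346755271) (nat_lit 304) (nat_lit 1692730378) (nat_lit 76) (nat_lit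 4483897330) (nat_lit 83) (nat_lit 5) (nat_lit 87) (nat_lit 5) (nat_lit 84) (nat_lit 5) (nat_lit 627) (nat_lit 504) (nat_lit 429)) (XT.nd (nat_lit 78) (nat_lit 304) (nat_lit 0) (XT.lf (nat_lit 0) (nat_lit 7623086870) (nat_lit 228) (nat_lit 4206151494) (nat_lit 304) (nat_lit 1855800005) (nat_lit 80) (nat_lit 5) (nat_lit 83) (nat_lit 5) (nat_lit 84) (nat_lit 5) (nat_lit 628) (nat_lit 504) (nat_lit 428)) (XT.lf (nat_lit 0) (nat_lit 2522145334) (nat_lit 304) (nat_lit 10587013788) (nat_lit 76) (nat_lit 740355062) (nat_lit 76) (nat_lit 5) (nat_lit 80) (nat_lit 5) (nat_lit 77) (nat_lit 5) (nat_lit 629) (nat_lit 504) (nat_lit 427)))) (XT.nd (nat_lit 78) (nat_lit 532) (nat_lit 0) (XT.lf (nat_lit 0) (nat_lit 6998402053) (nat_lit 304) (nat_lit 1258610809) (nat_lit 76) (nat_lit 5759311154) (nat_lit 76) (nat_lit 5) (nat_lit 80) (nat_lit 5) (nat_lit 77) (nat_lit 5) (nat_lit 630) (nat_lit 504) (nat_lit 426)) (XT.nd (nat_lit 78) (nat_lit 304) (nat_lit 0) (XT.lf (nat_lit 0) (nat_lit 8309117388)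 (nat_lit 228) (nat_lit 3276441110) (nat_lit 304) (nat_lit 2600485887) (nat_lit 73) (nat_lit 5) (nat_lit 76) (nat_lit 5) (nat_lit 77) (nat_lit 5) (nat_lit 631) (nat_lit 504) (nat_lit 425)) (XT.lf (nat_lit 0) (nat_lit 1892216424) (nat_lit 304) (nat_lit 10664597850) (nat_lit 76) (nat_lit 1801861122) (nat_lit 69) (nat_lit 5) (nat_lit 73) (nat_lit 5) (nat_lit 70) (nat_lit 5) (nat_lit 632) (nat_lit 504) (nat_lit 424)))))) (XT.nd (nat_lit 468) (nat_lit 912) (nat_lit 0) (XT.nd (nat_lit 234) (nat_lit 456) (nat_lit 0) (XT.nd (nat_lit 78) (nat_lit 532) (nat_lit 0) (XT.lf (nat_lit 0) (nat_lit 6468989073) (nat_lit 304) (nat_lit 1093390946) (nat_lit 76) (nat_lit 6971456216) (nat_lit 69) (nat_lit 5) (nat_lit 73) (nat_lit 5) (nat_lit 70) (nat_lit 5) (nat_lit 633) (nat_lit 504) (nat_lit 423)) (XT.nd (nat_lit 78) (nat_lit 304) (nat_lit 0) (XT.lf (nat_lit 0) (nat_lit 8728415901) (nat_lit 228) (nat_lit 2433794600) (nat_lit 304) (nat_lit 3549793215) (nat_lit 66) (nat_lit 5) (nat_lit 69) (nat_lit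 5) (nat_lit 70) (nat_lit 5) (nat_lit 634) (nat_lit 504) (nat_lit 422)) (XT.lf (nat_lit 0) (nat_lit 1060708136) (nat_lit 304) (nat_lit 11055646444) (nat_lit 76) (nat_lit 2776864720) (nat_lit 62) (nat_lit 5) (nat_lit 66) (nat_lit 5) (nat_lit 63) (nat_lit 5) (nat_lit 635) (nat_lit 504) (nat_lit 421)))) (XT.nd (nat_lit 78) (nat_lit 456) (nat_lit 0) (XT.lf (nat_lit 0) (nat_lit 5740879083) (nat_lit 304) (nat_lit 1236353854) (nat_lit 76) (nat_lit 8099858748) (nat_lit 62) (nat_lit 5) (nat_lit 66) (nat_lit 5) (nat_lit 63) (nat_lit 5) (nat_lit 636) (nat_lit 504) (nat_lit 420)) (XT.nd (nat_lit 78) (nat_lit 304) (nat_lit 0) (XT.lf (nat_lit 0) (nat_lit 8840890889) (nat_lit 152) (nat_lit 1700192980) (nat_lit 228) (nat_lit 4723030602) (nat_lit 60) (nat_lit 5) (nat_lit 62) (nat_lit 5) (nat_lit 63) (nat_lit 5) (nat_lit 637) (nat_lit 504) (nat_lit 419)) (XT.lf (nat_lit 0) (nat_lit 7910798) (nat_lit 304) (nat_lit 11803269513) (nat_lit 76) (nat_lit 3643195887) (nat_lit 56) (nat_lit 5) (nat_lit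 60) (nat_lit 5) (nat_lit 57) (nat_lit 5) (nat_lit 638) (nat_lit 504) (nat_lit 418))))) (XT.nd (nat_lit 234) (nat_lit 532) (nat_lit 0) (XT.nd (nat_lit 78) (nat_lit 380) (nat_lit 0) (XT.lf (nat_lit 0) (nat_lit 4794121149) (nat_lit 304) (nat_lit 1730955161) (nat_lit 76) (nat_lit 9122266109) (nat_lit 56) (nat_lit 5) (nat_lit 60) (nat_lit 5) (nat_lit 57) (nat_lit 5) (nat_lit 639) (nat_lit 504) (nat_lit 417)) (XT.nd (nat_lit 78) (nat_lit 228) (nat_lit 0) (XT.lf (nat_lit 0) (nat_lit 8602150945) (nat_lit 152) (nat_lit 1099544029) (nat_lit 228) (nat_lit 6141961647) (nat_lit 54) (nat_lit 5) (nat_lit 56) (nat_lit 5) (nat_lit 57) (nat_lit 5) (nat_lit 640) (nat_lit 504) (nat_lit 416)) (XT.lf (nat_lit 0) (nat_lit 3079667855) (nat_lit 228) (nat_lit 11658117451) (nat_lit 304) (nat_lit 1305505919) (nat_lit 51) (nat_lit 5) (nat_lit 54) (nat_lit 5) (nat_lit 55) (nat_lit 5) (nat_lit 641) (nat_lit 504) (nat_lit 415)))) (XT.nd (nat_lit 156) (nat_lit 304) (nat_lit 0) (XT.nd (nat_lit 78) (nat_lit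 152) (nat_lit 0) (XT.lf (nat_lit 0) (nat_lit 3606230433) (nat_lit 304) (nat_lit 2625298474) (nat_lit 76) (nat_lit 10014397327) (nat_lit 50) (nat_lit 5) (nat_lit 54) (nat_lit 5) (nat_lit 51) (nat_lit 5) (nat_lit 642) (nat_lit 504) (nat_lit 414)) (XT.lf (nat_lit 0) (nat_lit 7963014584) (nat_lit 152) (nat_lit 657944592) (nat_lit 228) (nat_lit 7831038745) (nat_lit 48) (nat_lit 5) (nat_lit 50) (nat_lit 5) (nat_lit 51) (nat_lit 5) (nat_lit 643) (nat_lit 504) (nat_lit 413))) (XT.nd (nat_lit 78) (nat_lit 76) (nat_lit 0) (XT.lf (nat_lit 0) (nat_lit 2078688158) (nat_lit 228) (nat_lit 11691774313) (nat_lit 304) (nat_lit 2891040279) (nat_lit 45) (nat_lit 5) (nat_lit 48) (nat_lit 5) (nat_lit 49) (nat_lit 5) (nat_lit 644) (nat_lit 504) (nat_lit 412)) (XT.lf (nat_lit 0) (nat_lit 2151942857) (nat_lit 304) (nat_lit 3972658885) (nat_lit 76) (nat_lit 10749671241) (nat_lit 44) (nat_lit 5) (nat_lit 48) (nat_lit 5) (nat_lit 45) (nat_lit 5) (nat_lit 645) (nat_lit 504) (nat_lit 411))))))) (XT.nd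 (nat_lit 74490) (nat_lit 0) (nat_lit 22572) (XT.nd (nat_lit 74022) (nat_lit 0) (nat_lit 30552) (XT.nd (nat_lit 73788) (nat_lit 0) (nat_lit 37468) (XT.nd (nat_lit 78) (nat_lit 152) (nat_lit 0) (XT.lf (nat_lit 0) (nat_lit 6868970353) (nat_lit 152) (nat_lit 403966692) (nat_lit 228) (nat_lit 9817663364) (nat_lit 42) (nat_lit 5) (nat_lit 44) (nat_lit 5) (nat_lit 45) (nat_lit 5) (nat_lit 646) (nat_lit 504) (nat_lit 410)) (XT.nd (nat_lit 73632) (nat_lit 0) (nat_lit 41952) (XT.lf (nat_lit 0) (nat_lit 591119802) (nat_lit 152) (nat_lit 11942477838) (nat_lit 228) (nat_lit 4776913023) (nat_lit 40) (nat_lit 5) (nat_lit 42) (nat_lit 5) (nat_lit 43) (nat_lit 5) (nat_lit 647) (nat_lit 504) (nat_lit 409)) (XT.lf (nat_lit 0) (nat_lit 3180781556) (nat_lit 1292) (nat_lit 128521773) (nat_lit 1292) (nat_lit 128521773) (nat_lit 592) (nat_lit 4) (nat_lit 609) (nat_lit 5) (nat_lit 609) (nat_lit 4) (nat_lit 550) (nat_lit 505) (nat_lit 505)))) (XT.nd (nat_lit 78) (nat_lit 3040) (nat_lit 0) (XT.lf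 (nat_lit 0) (nat_lit 3113871174) (nat_lit 1444) (nat_lit 2611340329) (nat_lit 0) (nat_lit 1179886353) (nat_lit 573) (nat_lit 5) (nat_lit 592) (nat_lit 4) (nat_lit 573) (nat_lit 4) (nat_lit 551) (nat_lit 505) (nat_lit 504)) (XT.nd (nat_lit 78) (nat_lit 1596) (nat_lit 0) (XT.lf (nat_lit 0) (nat_lit 2231268379) (nat_lit 1444) (nat_lit 4267448467) (nat_lit 1444) (nat_lit 437400097) (nat_lit 554) (nat_lit 4) (nat_lit 573) (nat_lit 5) (nat_lit 573) (nat_lit 4) (nat_lit 552) (nat_lit 505) (nat_lit 503)) (XT.lf (nat_lit 0) (nat_lit 156544638) (nat_lit 1520) (nat_lit 2737256768) (nat_lit 1596) (nat_lit 4074593985) (nat_lit 533) (nat_lit 5) (nat_lit 553) (nat_lit 5) (nat_lit 554) (nat_lit 4) (nat_lit 553) (nat_lit 505) (nat_lit 502))))) (XT.nd (nat_lit 234) (nat_lit 3572) (nat_lit 0) (XT.nd (nat_lit 78) (nat_lit 3344) (nat_lit 0) (XT.lf (nat_lit 0) (nat_lit 5111689648) (nat_lit 1520) (nat_lit 1137350422) (nat_lit 1596) (nat_lit 752970772) (nat_lit 533) (nat_lit 5) (nat_lit 553)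 (nat_lit 5) (nat_lit 554) (nat_lit 4) (nat_lit 554) (nat_lit 505) (nat_lit 501)) (XT.nd (nat_lit 78) (nat_lit 1672) (nat_lit 0) (XT.lf (nat_lit 0) (nat_lit 2556654014) (nat_lit 1672) (nat_lit 3951318033) (nat_lit 76) (nat_lit 528875893) (nat_lit 511) (nat_lit 5) (nat_lit 533) (nat_lit 5) (nat_lit 512) (nat_lit 4) (nat_lit 555) (nat_lit 505) (nat_lit 500)) (XT.lf (nat_lit 0) (nat_lit 1050663459) (nat_lit 1672) (nat_lit 4832379003) (nat_lit 1748) (nat_lit 1190040518) (nat_lit 489) (nat_lit 5) (nat_lit 511) (nat_lit 5) (nat_lit 512) (nat_lit 4) (nat_lit 556) (nat_lit 505) (nat_lit 499)))) (XT.nd (nat_lit 78) (nat_lit 3496) (nat_lit 0) (XT.lf (nat_lit 0) (nat_lit 2098158939) (nat_lit 1748) (nat_lit 982875993) (nat_lit 76) (nat_lit 4029526825) (nat_lit 488) (nat_lit 5) (nat_lit 511) (nat_lit 5) (nat_lit 489) (nat_lit 5) (nat_lit 557) (nat_lit 505) (nat_lit 498)) (XT.nd (nat_lit 78) (nat_lit 1748) (nat_lit 0) (XT.lf (nat_lit 0) (nat_lit 4139781960) (nat_lit 1748) (nat_lit 1258552159)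 (nat_lit 1824) (nat_lit 1751068755) (nat_lit 465) (nat_lit 5) (nat_lit 488) (nat_lit 5) (nat_lit 489) (nat_lit 5) (nat_lit 558) (nat_lit 505) (nat_lit 497)) (XT.lf (nat_lit 0) (nat_lit 1515154018) (nat_lit 1748) (nat_lit 5051184556) (nat_lit 76) (nat_lit 623283667) (nat_lit 442) (nat_lit 5) (nat_lit 465) (nat_lit 5) (nat_lit 443) (nat_lit 5) (nat_lit 559) (nat_lit 505) (nat_lit 496)))))) (XT.nd (nat_lit 468) (nat_lit 4180) (nat_lit 0) (XT.nd (nat_lit 234) (nat_lit 1824) (nat_lit 0) (XT.nd (nat_lit 78) (nat_lit 988) (nat_lit 0) (XT.lf (nat_lit 0) (nat_lit 116080664) (nat_lit 988) (nat_lit 4673128732) (nat_lit 1064) (nat_lit 2441898272) (nat_lit 429) (nat_lit 5) (nat_lit 442) (nat_lit 5) (nat_lit 443) (nat_lit 5) (nat_lit 560) (nat_lit 505) (nat_lit 495)) (XT.nd (nat_lit 78) (nat_lit 912) (nat_lit 0) (XT.lf (nat_lit 0) (nat_lit 815136853) (nat_lit 1064) (nat_lit 1889169710) (nat_lit 76) (nat_lit 4569596332) (nat_lit 428) (nat_lit 5) (nat_lit 442) (nat_lit 5) (nat_lit 429)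 (nat_lit 5) (nat_lit 561) (nat_lit 505) (nat_lit 494)) (XT.lf (nat_lit 0) (nat_lit 3405174706) (nat_lit 912) (nat_lit 659728125) (nat_lit 988) (nat_lit 3253134191) (nat_lit 416) (nat_lit 5) (nat_lit 428) (nat_lit 5) (nat_lit 429) (nat_lit 5) (nat_lit 562) (nat_lit 505) (nat_lit 493)))) (XT.nd (nat_lit 78) (nat_lit 912) (nat_lit 0) (XT.lf (nat_lit 0) (nat_lit 1412086629) (nat_lit 912) (nat_lit 5937688716) (nat_lit 988) (nat_lit 13887592) (nat_lit 404) (nat_lit 5) (nat_lit 416) (nat_lit 5) (nat_lit 417) (nat_lit 5) (nat_lit 563) (nat_lit 505) (nat_lit 492)) (XT.nd (nat_lit 78) (nat_lit 836) (nat_lit 0) (XT.lf (nat_lit 0) (nat_lit 3217084335) (nat_lit 988) (nat_lit 604700815) (nat_lit 76) (nat_lit 3588598049) (nat_lit 403) (nat_lit 5) (nat_lit 416) (nat_lit 5) (nat_lit 404) (nat_lit 5) (nat_lit 564) (nat_lit 505) (nat_lit 491)) (XT.lf (nat_lit 0) (nat_lit 4848199064) (nat_lit 836) (nat_lit 1636249863) (nat_lit 912) (nat_lit 974158596) (nat_lit 392) (nat_lit 5) (nat_lit 403)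 (nat_lit 5) (nat_lit 404) (nat_lit 5) (nat_lit 565) (nat_lit 505) (nat_lit 490))))) (XT.nd (nat_lit 234) (nat_lit 2432) (nat_lit 0) (XT.nd (nat_lit 78) (nat_lit 836) (nat_lit 0) (XT.lf (nat_lit 0) (nat_lit 2246682177) (nat_lit 912) (nat_lit 4643840030) (nat_lit 76) (nat_lit 617632401) (nat_lit 380) (nat_lit 5) (nat_lit 392) (nat_lit 5) (nat_lit 381) (nat_lit 5) (nat_lit 566) (nat_lit 505) (nat_lit 489)) (XT.nd (nat_lit 78) (nat_lit 76) (nat_lit 0) (XT.lf (nat_lit 0) (nat_lit 853876966) (nat_lit 760) (nat_lit 4640581462) (nat_lit 836) (nat_lit 2064604231) (nat_lit 370) (nat_lit 5) (nat_lit 380) (nat_lit 5) (nat_lit 381) (nat_lit 5) (nat_lit 567) (nat_lit 505) (nat_lit 488)) (XT.lf (nat_lit 0) (nat_lit 1153750917) (nat_lit 836) (nat_lit 1159685939) (nat_lit 76) (nat_lit 5297941595) (nat_lit 369) (nat_lit 5) (nat_lit 380) (nat_lit 5) (nat_lit 370) (nat_lit 5) (nat_lit 568) (nat_lit 505) (nat_lit 487)))) (XT.nd (nat_lit 156) (nat_lit 836) (nat_lit 0) (XT.nd (nat_lit 78) (nat_lit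 760) (nat_lit 0) (XT.lf (nat_lit 0) (nat_lit 4381556993) (nat_lit 912) (nat_lit 3188442856) (nat_lit 76) (nat_lit 95022672) (nat_lit 358) (nat_lit 5) (nat_lit 370) (nat_lit 5) (nat_lit 359) (nat_lit 5) (nat_lit 569) (nat_lit 505) (nat_lit 486)) (XT.lf (nat_lit 0) (nat_lit 2473562873) (nat_lit 760) (nat_lit 5183229779) (nat_lit 836) (nat_lit 63298645) (nat_lit 348) (nat_lit 5) (nat_lit 358) (nat_lit 5) (nat_lit 359) (nat_lit 5) (nat_lit 570) (nat_lit 505) (nat_lit 485))) (XT.nd (nat_lit 78) (nat_lit 0) (nat_lit 0) (XT.lf (nat_lit 0) (nat_lit 435311016) (nat_lit 760) (nat_lit 2712042718) (nat_lit 836) (nat_lit 4629131762) (nat_lit 337) (nat_lit 5) (nat_lit 347) (nat_lit 5) (nat_lit 348) (nat_lit 5) (nat_lit 571) (nat_lit 505) (nat_lit 484)) (XT.lf (nat_lit 0) (nat_lit 6236374509) (nat_lit 760) (nat_lit 164843651) (nat_lit 836) (nat_lit 1433192877) (nat_lit 337) (nat_lit 5) (nat_lit 347) (nat_lit 5) (nat_lit 348) (nat_lit 5) (nat_lit 572) (nat_lit 505) (nat_lit 483))))))))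
noncomputable def xc49 : XT := (XT.nd (nat_lit 1950) (nat_lit 6688) (nat_lit 0) (XT.nd (nat_lit 936) (nat_lit 5472) (nat_lit 0) (XT.nd (nat_lit 468) (nat_lit 2584) (nat_lit 0) (XT.nd (nat_lit 234) (nat_lit 1368) (nat_lit 0) (XT.nd (nat_lit 78) (nat_lit 1520) (nat_lit 0) (XT.lf (nat_lit 0) (nat_lit 1791585148) (nat_lit 760) (nat_lit 3670666355) (nat_lit 76) (nat_lit 2431237258) (nat_lit 327) (nat_lit 5) (nat_lit 337) (nat_lit 5) (nat_lit 328) (nat_lit 5) (nat_lit 573) (nat_lit 505) (nat_lit 482)) (XT.nd (nat_lit 78) (nat_lit 760) (nat_lit 0) (XT.lf (nat_lit 0) (nat_lit 2181015825) (nat_lit 760) (nat_lit 2852665519) (nat_lit 836) (nat_lit 2920445220) (nat_lit 317) (nat_lit 5) (nat_lit 327) (nat_lit 5) (nat_lit 328) (nat_lit 5) (nat_lit 574) (nat_lit 505) (nat_lit 481)) (XT.lf (nat_lit 0) (nat_lit 117823194) (nat_lit 684) (nat_lit 174347624) (nat_lit 760) (nat_lit 7724336357) (nat_lit 307) (nat_lit 5) (nat_lit 316) (nat_lit 5) (nat_lit 317) (nat_lit 5) (nat_lit 575) (nat_lit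 505) (nat_lit 480)))) (XT.nd (nat_lit 78) (nat_lit 1368) (nat_lit 0) (XT.lf (nat_lit 0) (nat_lit 3532354429) (nat_lit 760) (nat_lit 1976749237) (nat_lit 76) (nat_lit 2570605026) (nat_lit 307) (nat_lit 5) (nat_lit 317) (nat_lit 5) (nat_lit 308) (nat_lit 5) (nat_lit 576) (nat_lit 505) (nat_lit 479)) (XT.nd (nat_lit 78) (nat_lit 684) (nat_lit 0) (XT.lf (nat_lit 0) (nat_lit 4050873982) (nat_lit 684) (nat_lit 2761747883) (nat_lit 760) (nat_lit 1332054397) (nat_lit 298) (nat_lit 5) (nat_lit 307) (nat_lit 5) (nat_lit 308) (nat_lit 5) (nat_lit 577) (nat_lit 505) (nat_lit 478)) (XT.lf (nat_lit 0) (nat_lit 1896624414) (nat_lit 684) (nat_lit 6248461983) (nat_lit 76) (nat_lit 66118909) (nat_lit 289) (nat_lit 5) (nat_lit 298) (nat_lit 5) (nat_lit 290) (nat_lit 5) (nat_lit 578) (nat_lit 505) (nat_lit 477))))) (XT.nd (nat_lit 234) (nat_lit 1216) (nat_lit 0) (XT.nd (nat_lit 78) (nat_lit 1368) (nat_lit 0) (XT.lf (nat_lit 0) (nat_lit 5166594532) (nat_lit 684) (nat_lit 175411299) (nat_lit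 76) (nat_lit 2936999109) (nat_lit 289) (nat_lit 5) (nat_lit 298) (nat_lit 5) (nat_lit 290) (nat_lit 5) (nat_lit 579) (nat_lit 505) (nat_lit 476)) (XT.nd (nat_lit 78) (nat_lit 608) (nat_lit 0) (XT.lf (nat_lit 0) (nat_lit 140483839) (nat_lit 760) (nat_lit 2315309182) (nat_lit 76) (nat_lit 5892580529) (nat_lit 279) (nat_lit 5) (nat_lit 289) (nat_lit 5) (nat_lit 280) (nat_lit 5) (nat_lit 580) (nat_lit 505) (nat_lit 475)) (XT.lf (nat_lit 0) (nat_lit 3396633133) (nat_lit 684) (nat_lit 4507355003) (nat_lit 76) (nat_lit 515139260) (nat_lit 271) (nat_lit 5) (nat_lit 280) (nat_lit 5) (nat_lit 272) (nat_lit 5) (nat_lit 581) (nat_lit 505) (nat_lit 474)))) (XT.nd (nat_lit 78) (nat_lit 608) (nat_lit 0) (XT.lf (nat_lit 0) (nat_lit 1745357313) (nat_lit 608) (nat_lit 4966096363) (nat_lit 684) (nat_lit 1779978316) (nat_lit 263) (nat_lit 5) (nat_lit 271) (nat_lit 5) (nat_lit 272) (nat_lit 5) (nat_lit 582) (nat_lit 505) (nat_lit 473)) (XT.nd (nat_lit 78) (nat_lit 532) (nat_lit 0) (XT.lf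 (nat_lit 0) (nat_lit 1488339354) (nat_lit 684) (nat_lit 455670541) (nat_lit 76) (nat_lit 6621361160) (nat_lit 262) (nat_lit 5) (nat_lit 271) (nat_lit 5) (nat_lit 263) (nat_lit 5) (nat_lit 583) (nat_lit 505) (nat_lit 472)) (XT.lf (nat_lit 0) (nat_lit 4796060301) (nat_lit 608) (nat_lit 2685340724) (nat_lit 76) (nat_lit 1159201399) (nat_lit 255) (nat_lit 5) (nat_lit 263) (nat_lit 5) (nat_lit 256) (nat_lit 5) (nat_lit 584) (nat_lit 505) (nat_lit 471)))))) (XT.nd (nat_lit 468) (nat_lit 2584) (nat_lit 0) (XT.nd (nat_lit 234) (nat_lit 1672) (nat_lit 0) (XT.nd (nat_lit 78) (nat_lit 608) (nat_lit 0) (XT.lf (nat_lit 0) (nat_lit 3755305746) (nat_lit 608) (nat_lit 4406908009) (nat_lit 684) (nat_lit 555285237) (nat_lit 247) (nat_lit 5) (nat_lit 255) (nat_lit 5) (nat_lit 256) (nat_lit 5) (nat_lit 585) (nat_lit 505) (nat_lit 470)) (XT.nd (nat_lit 78) (nat_lit 0) (nat_lit 0) (XT.lf (nat_lit 0) (nat_lit 1502418143) (nat_lit 532) (nat_lit 1240663728) (nat_lit 608) (nat_lit 6052893069)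 (nat_lit 239) (nat_lit 5) (nat_lit 246) (nat_lit 5) (nat_lit 247) (nat_lit 5) (nat_lit 586) (nat_lit 505) (nat_lit 469)) (XT.lf (nat_lit 0) (nat_lit 6098983481) (nat_lit 608) (nat_lit 793579910) (nat_lit 76) (nat_lit 1983409336) (nat_lit 239) (nat_lit 5) (nat_lit 247) (nat_lit 5) (nat_lit 240) (nat_lit 5) (nat_lit 587) (nat_lit 505) (nat_lit 468)))) (XT.nd (nat_lit 78) (nat_lit 1064) (nat_lit 0) (XT.lf (nat_lit 0) (nat_lit 556655233) (nat_lit 608) (nat_lit 3120184276) (nat_lit 76) (nat_lit 5280670718) (nat_lit 231) (nat_lit 5) (nat_lit 239) (nat_lit 5) (nat_lit 232) (nat_lit 5) (nat_lit 588) (nat_lit 505) (nat_lit 467)) (XT.nd (nat_lit 78) (nat_lit 532) (nat_lit 0) (XT.lf (nat_lit 0) (nat_lit 3535044880) (nat_lit 532) (nat_lit 366774653) (nat_lit 608) (nat_lit 5138856655) (nat_lit 224) (nat_lit 5) (nat_lit 231) (nat_lit 5) (nat_lit 232) (nat_lit 5) (nat_lit 589) (nat_lit 505) (nat_lit 466)) (XT.lf (nat_lit 0) (nat_lit 1171965657) (nat_lit 532) (nat_lit 6144211602) (nat_lit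 608) (nat_lit 1809287744) (nat_lit 217) (nat_lit 5) (nat_lit 224) (nat_lit 5) (nat_lit 225) (nat_lit 5) (nat_lit 590) (nat_lit 505) (nat_lit 465))))) (XT.nd (nat_lit 234) (nat_lit 1520) (nat_lit 0) (XT.nd (nat_lit 78) (nat_lit 988) (nat_lit 0) (XT.lf (nat_lit 0) (nat_lit 1559924080) (nat_lit 608) (nat_lit 1230946033) (nat_lit 76) (nat_lit 6421001280) (nat_lit 216) (nat_lit 5) (nat_lit 224) (nat_lit 5) (nat_lit 217) (nat_lit 5) (nat_lit 591) (nat_lit 505) (nat_lit 464)) (XT.nd (nat_lit 78) (nat_lit 532) (nat_lit 0) (XT.lf (nat_lit 0) (nat_lit 4968265828) (nat_lit 532) (nat_lit 3679622067) (nat_lit 76) (nat_lit 651964417) (nat_lit 210) (nat_lit 5) (nat_lit 217) (nat_lit 5) (nat_lit 211) (nat_lit 5) (nat_lit 592) (nat_lit 505) (nat_lit 463)) (XT.lf (nat_lit 0) (nat_lit 3195464333) (nat_lit 532) (nat_lit 5252348226) (nat_lit 608) (nat_lit 941724460) (nat_lit 203) (nat_lit 5) (nat_lit 210) (nat_lit 5) (nat_lit 211) (nat_lit 5) (nat_lit 593) (nat_lit 505) (nat_lit 462)))) (XT.nd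 (nat_lit 156) (nat_lit 988) (nat_lit 0) (XT.nd (nat_lit 78) (nat_lit 0) (nat_lit 0) (XT.lf (nat_lit 0) (nat_lit 706403820) (nat_lit 456) (nat_lit 1761635737) (nat_lit 532) (nat_lit 7012951867) (nat_lit 196) (nat_lit 5) (nat_lit 202) (nat_lit 5) (nat_lit 203) (nat_lit 5) (nat_lit 594) (nat_lit 505) (nat_lit 461)) (XT.lf (nat_lit 0) (nat_lit 5942912518) (nat_lit 532) (nat_lit 1826890534) (nat_lit 76) (nat_lit 1804161550) (nat_lit 196) (nat_lit 5) (nat_lit 203) (nat_lit 5) (nat_lit 197) (nat_lit 5) (nat_lit 595) (nat_lit 505) (nat_lit 460))) (XT.nd (nat_lit 78) (nat_lit 532) (nat_lit 0) (XT.lf (nat_lit 0) (nat_lit 5254152562) (nat_lit 456) (nat_lit 4235764413) (nat_lit 532) (nat_lit 178832143) (nat_lit 190) (nat_lit 5) (nat_lit 196) (nat_lit 5) (nat_lit 197) (nat_lit 5) (nat_lit 596) (nat_lit 505) (nat_lit 459)) (XT.lf (nat_lit 0) (nat_lit 2686839427) (nat_lit 456) (nat_lit 598549020) (nat_lit 532) (nat_lit 6479875375) (nat_lit 183) (nat_lit 5) (nat_lit 189) (nat_lit 5)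 (nat_lit 190) (nat_lit 5) (nat_lit 597) (nat_lit 505) (nat_lit 458))))))) (XT.nd (nat_lit 936) (nat_lit 3268) (nat_lit 0) (XT.nd (nat_lit 468) (nat_lit 1596) (nat_lit 0) (XT.nd (nat_lit 234) (nat_lit 912) (nat_lit 0) (XT.nd (nat_lit 78) (nat_lit 456) (nat_lit 0) (XT.lf (nat_lit 0) (nat_lit 42683193) (nat_lit 456) (nat_lit 6781430810) (nat_lit 532) (nat_lit 3039423166) (nat_lit 177) (nat_lit 5) (nat_lit 183) (nat_lit 5) (nat_lit 184) (nat_lit 5) (nat_lit 598) (nat_lit 505) (nat_lit 457)) (XT.nd (nat_lit 78) (nat_lit 380) (nat_lit 0) (XT.lf (nat_lit 0) (nat_lit 472912995) (nat_lit 532) (nat_lit 2631468564) (nat_lit 76) (nat_lit 6859152802) (nat_lit 176) (nat_lit 5) (nat_lit 183) (nat_lit 5) (nat_lit 177) (nat_lit 5) (nat_lit 599) (nat_lit 505) (nat_lit 456)) (XT.lf (nat_lit 0) (nat_lit 4007916033) (nat_lit 456) (nat_lit 5389023467) (nat_lit 76) (nat_lit 668331872) (nat_lit 171) (nat_lit 5) (nat_lit 177) (nat_lit 5) (nat_lit 172) (nat_lit 5) (nat_lit 600) (nat_lit 505) (nat_lit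 455)))) (XT.nd (nat_lit 78) (nat_lit 456) (nat_lit 0) (XT.lf (nat_lit 0) (nat_lit 1939339146) (nat_lit 456) (nat_lit 5683781501) (nat_lit 532) (nat_lit 2545736411) (nat_lit 165) (nat_lit 5) (nat_lit 171) (nat_lit 5) (nat_lit 172) (nat_lit 5) (nat_lit 601) (nat_lit 505) (nat_lit 454)) (XT.nd (nat_lit 78) (nat_lit 380) (nat_lit 0) (XT.lf (nat_lit 0) (nat_lit 1017638011) (nat_lit 532) (nat_lit 856099299) (nat_lit 76) (nat_lit 8400744178) (nat_lit 164) (nat_lit 5) (nat_lit 171) (nat_lit 5) (nat_lit 165) (nat_lit 5) (nat_lit 602) (nat_lit 505) (nat_lit 453)) (XT.lf (nat_lit 0) (nat_lit 4634404619) (nat_lit 456) (nat_lit 3721128970) (nat_lit 76) (nat_lit 2026027769) (nat_lit 159) (nat_lit 5) (nat_lit 165) (nat_lit 5) (nat_lit 160) (nat_lit 5) (nat_lit 603) (nat_lit 505) (nat_lit 452))))) (XT.nd (nat_lit 234) (nat_lit 760) (nat_lit 0) (XT.nd (nat_lit 78) (nat_lit 456) (nat_lit 0) (XT.lf (nat_lit 0) (nat_lit 3824243491) (nat_lit 380) (nat_lit 4502064805) (nat_lit 456) (nat_lit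 2164422158) (nat_lit 154) (nat_lit 5) (nat_lit 159) (nat_lit 5) (nat_lit 160) (nat_lit 5) (nat_lit 604) (nat_lit 505) (nat_lit 451)) (XT.nd (nat_lit 78) (nat_lit 0) (nat_lit 0) (XT.lf (nat_lit 0) (nat_lit 909644531) (nat_lit 380) (nat_lit 551727313) (nat_lit 456) (nat_lit 9140702215) (nat_lit 148) (nat_lit 5) (nat_lit 153) (nat_lit 5) (nat_lit 154) (nat_lit 5) (nat_lit 605) (nat_lit 505) (nat_lit 450)) (XT.lf (nat_lit 0) (nat_lit 5158488350) (nat_lit 456) (nat_lit 2086371430) (nat_lit 76) (nat_lit 3469946307) (nat_lit 148) (nat_lit 5) (nat_lit 154) (nat_lit 5) (nat_lit 149) (nat_lit 5) (nat_lit 606) (nat_lit 505) (nat_lit 449)))) (XT.nd (nat_lit 78) (nat_lit 380) (nat_lit 0) (XT.lf (nat_lit 0) (nat_lit 5681812123) (nat_lit 380) (nat_lit 3249210596) (nat_lit 456) (nat_lit 1898743912) (nat_lit 143) (nat_lit 5) (nat_lit 148) (nat_lit 5) (nat_lit 149) (nat_lit 5) (nat_lit 607) (nat_lit 505) (nat_lit 448)) (XT.nd (nat_lit 78) (nat_lit 0) (nat_lit 0) (XT.lf (nat_lit 0) (nat_lit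 1805798675) (nat_lit 380) (nat_lit 8303788815) (nat_lit 76) (nat_lit 837247381) (nat_lit 138) (nat_lit 5) (nat_lit 143) (nat_lit 5) (nat_lit 139) (nat_lit 5) (nat_lit 608) (nat_lit 505) (nat_lit 447)) (XT.lf (nat_lit 0) (nat_lit 5576597184) (nat_lit 380) (nat_lit 501437534) (nat_lit 76) (nat_lit 4987610147) (nat_lit 138) (nat_lit 5) (nat_lit 143) (nat_lit 5) (nat_lit 139) (nat_lit 5) (nat_lit 609) (nat_lit 505) (nat_lit 446)))))) (XT.nd (nat_lit 468) (nat_lit 1520) (nat_lit 0) (XT.nd (nat_lit 234) (nat_lit 684) (nat_lit 0) (XT.nd (nat_lit 78) (nat_lit 684) (nat_lit 0) (XT.lf (nat_lit 0) (nat_lit 7495251274) (nat_lit 380) (nat_lit 1938257152) (nat_lit 456) (nat_lit 1753111827) (nat_lit 133) (nat_lit 5) (nat_lit 138) (nat_lit 5) (nat_lit 139) (nat_lit 5) (nat_lit 610) (nat_lit 505) (nat_lit 445)) (XT.nd (nat_lit 78) (nat_lit 304) (nat_lit 0) (XT.lf (nat_lit 0) (nat_lit 2039193184) (nat_lit 380) (nat_lit 6992826984) (nat_lit 76) (nat_lit 2277558097) (nat_lit 128) (nat_lit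 5) (nat_lit 133) (nat_lit 5) (nat_lit 129) (nat_lit 5) (nat_lit 611) (nat_lit 505) (nat_lit 444)) (XT.lf (nat_lit 0) (nat_lit 1029122616) (nat_lit 304) (nat_lit 4861570672) (nat_lit 380) (nat_lit 5543936874) (nat_lit 124) (nat_lit 5) (nat_lit 128) (nat_lit 5) (nat_lit 129) (nat_lit 5) (nat_lit 612) (nat_lit 505) (nat_lit 443)))) (XT.nd (nat_lit 78) (nat_lit 684) (nat_lit 0) (XT.lf (nat_lit 0) (nat_lit 9246362042) (nat_lit 304) (nat_lit 582484263) (nat_lit 380) (nat_lit 1733147221) (nat_lit 124) (nat_lit 5) (nat_lit 128) (nat_lit 5) (nat_lit 129) (nat_lit 5) (nat_lit 613) (nat_lit 505) (nat_lit 442)) (XT.nd (nat_lit 78) (nat_lit 304) (nat_lit 0) (XT.lf (nat_lit 0) (nat_lit 2152123655) (nat_lit 380) (nat_lit 5775635131) (nat_lit 76) (nat_lit 3763338191) (nat_lit 119) (nat_lit 5) (nat_lit 124) (nat_lit 5) (nat_lit 120) (nat_lit 5) (nat_lit 614) (nat_lit 505) (nat_lit 441)) (XT.lf (nat_lit 0) (nat_lit 2477698976) (nat_lit 304) (nat_lit 3613180338) (nat_lit 380) (nat_lit 5731697059)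 (nat_lit 115) (nat_lit 5) (nat_lit 119) (nat_lit 5) (nat_lit 120) (nat_lit 5) (nat_lit 615) (nat_lit 505) (nat_lit 440))))) (XT.nd (nat_lit 234) (nat_lit 836) (nat_lit 0) (XT.nd (nat_lit 78) (nat_lit 684) (nat_lit 0) (XT.lf (nat_lit 0) (nat_lit 10116103383) (nat_lit 380) (nat_lit 1046533076) (nat_lit 76) (nat_lit 793897702) (nat_lit 115) (nat_lit 5) (nat_lit 120) (nat_lit 5) (nat_lit 116) (nat_lit 5) (nat_lit 616) (nat_lit 505) (nat_lit 439)) (XT.nd (nat_lit 78) (nat_lit 304) (nat_lit 0) (XT.lf (nat_lit 0) (nat_lit 2137448665) (nat_lit 380) (nat_lit 4673646026) (nat_lit 76) (nat_lit 5281068453) (nat_lit 110) (nat_lit 5) (nat_lit 115) (nat_lit 5) (nat_lit 111) (nat_lit 5) (nat_lit 617) (nat_lit 505) (nat_lit 438)) (XT.lf (nat_lit 0) (nat_lit 3815938067) (nat_lit 304) (nat_lit 2350537786) (nat_lit 380) (nat_lit 6063863394) (nat_lit 106) (nat_lit 5) (nat_lit 110) (nat_lit 5) (nat_lit 111) (nat_lit 5) (nat_lit 618) (nat_lit 505) (nat_lit 437)))) (XT.nd (nat_lit 156) (nat_lit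 532) (nat_lit 0) (XT.nd (nat_lit 78) (nat_lit 76) (nat_lit 0) (XT.lf (nat_lit 0) (nat_lit 96048920) (nat_lit 228) (nat_lit 10191045579) (nat_lit 304) (nat_lit 2083966621) (nat_lit 103) (nat_lit 5) (nat_lit 106) (nat_lit 5) (nat_lit 107) (nat_lit 5) (nat_lit 619) (nat_lit 505) (nat_lit 436)) (XT.lf (nat_lit 0) (nat_lit 1986643601) (nat_lit 304) (nat_lit 3710292600) (nat_lit 76) (nat_lit 6816666573) (nat_lit 102) (nat_lit 5) (nat_lit 106) (nat_lit 5) (nat_lit 103) (nat_lit 5) (nat_lit 620) (nat_lit 505) (nat_lit 435))) (XT.nd (nat_lit 78) (nat_lit 228) (nat_lit 0) (XT.lf (nat_lit 0) (nat_lit 5020088018) (nat_lit 304) (nat_lit 1088606704) (nat_lit 380) (nat_lit 6550068702) (nat_lit 98) (nat_lit 5) (nat_lit 102) (nat_lit 5) (nat_lit 103) (nat_lit 5) (nat_lit 621) (nat_lit 505) (nat_lit 434)) (XT.lf (nat_lit 0) (nat_lit 1102045478) (nat_lit 228) (nat_lit 9232282848) (nat_lit 304) (nat_lit 2472078410) (nat_lit 95) (nat_lit 5) (nat_lit 98) (nat_lit 5) (nat_lit 99) (nat_lit 5)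 (nat_lit 622) (nat_lit 505) (nat_lit 433))))))))
noncomputable def xc50 : XT := (XT.nd (nat_lit 75348) (nat_lit 0) (nat_lit 22420) (XT.nd (nat_lit 936) (nat_lit 1824) (nat_lit 0) (XT.nd (nat_lit 468) (nat_lit 1064) (nat_lit 0) (XT.nd (nat_lit 234) (nat_lit 532) (nat_lit 0) (XT.nd (nat_lit 78) (nat_lit 532) (nat_lit 0) (XT.lf (nat_lit 0) (nat_lit 1689696212) (nat_lit 304) (nat_lit 2911270507) (nat_lit 76) (nat_lit 8355332142) (nat_lit 94) (nat_lit 5) (nat_lit 98) (nat_lit 5) (nat_lit 95) (nat_lit 5) (nat_lit 623) (nat_lit 505) (nat_lit 432)) (XT.nd (nat_lit 78) (nat_lit 228) (nat_lit 0) (XT.lf (nat_lit 0) (nat_lit 5908249572) (nat_lit 380) (nat_lit 7045705238) (nat_lit 76) (nat_lit 154776467) (nat_lit 90) (nat_lit 5) (nat_lit 95) (nat_lit 5) (nat_lit 91) (nat_lit 5) (nat_lit 624) (nat_lit 505) (nat_lit 431)) (XT.lf (nat_lit 0) (nat_lit 1930239358) (nat_lit 228) (nat_lit 8309973035) (nat_lit 304) (nat_lit 3023421286) (nat_lit 87) (nat_lit 5) (nat_lit 90) (nat_lit 5) (nat_lit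 91) (nat_lit 5) (nat_lit 625) (nat_lit 505) (nat_lit 430)))) (XT.nd (nat_lit 78) (nat_lit 456) (nat_lit 0) (XT.lf (nat_lit 0) (nat_lit 1234987903) (nat_lit 304) (nat_lit 2304825157) (nat_lit 76) (nat_lit 9881381774) (nat_lit 86) (nat_lit 5) (nat_lit 90) (nat_lit 5) (nat_lit 87) (nat_lit 5) (nat_lit 626) (nat_lit 505) (nat_lit 429)) (XT.nd (nat_lit 78) (nat_lit 228) (nat_lit 0) (XT.lf (nat_lit 0) (nat_lit 5559029755) (nat_lit 304) (nat_lit 6671000657) (nat_lit 76) (nat_lit 1351060123) (nat_lit 83) (nat_lit 5) (nat_lit 87) (nat_lit 5) (nat_lit 84) (nat_lit 5) (nat_lit 627) (nat_lit 505) (nat_lit 428)) (XT.lf (nat_lit 0) (nat_lit 2550556529) (nat_lit 228) (nat_lit 7441801283) (nat_lit 304) (nat_lit 3751372177) (nat_lit 80) (nat_lit 5) (nat_lit 83) (nat_lit 5) (nat_lit 84) (nat_lit 5) (nat_lit 628) (nat_lit 505) (nat_lit 427))))) (XT.nd (nat_lit 234) (nat_lit 532) (nat_lit 0) (XT.nd (nat_lit 78) (nat_lit 456) (nat_lit 0) (XT.lf (nat_lit 0) (nat_lit 609159544) (nat_lit 304)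 (nat_lit 1922066047) (nat_lit 76) (nat_lit 11378072773) (nat_lit 79) (nat_lit 5) (nat_lit 83) (nat_lit 5) (nat_lit 80) (nat_lit 5) (nat_lit 629) (nat_lit 505) (nat_lit 426)) (XT.nd (nat_lit 78) (nat_lit 228) (nat_lit 0) (XT.lf (nat_lit 0) (nat_lit 5040127355) (nat_lit 304) (nat_lit 6540070339) (nat_lit 76) (nat_lit 2496817186) (nat_lit 76) (nat_lit 5) (nat_lit 80) (nat_lit 5) (nat_lit 77) (nat_lit 5) (nat_lit 630) (nat_lit 505) (nat_lit 425)) (XT.lf (nat_lit 0) (nat_lit 2929822242) (nat_lit 228) (nat_lit 6646726196) (nat_lit 304) (nat_lit 4671202409) (nat_lit 73) (nat_lit 5) (nat_lit 76) (nat_lit 5) (nat_lit 77) (nat_lit 5) (nat_lit 631) (nat_lit 505) (nat_lit 424)))) (XT.nd (nat_lit 78) (nat_lit 532) (nat_lit 0) (XT.lf (nat_lit 0) (nat_lit 12623011568) (nat_lit 228) (nat_lit 1592909360) (nat_lit 304) (nat_lit 205737905) (nat_lit 73) (nat_lit 5) (nat_lit 76) (nat_lit 5) (nat_lit 77) (nat_lit 5) (nat_lit 632) (nat_lit 505) (nat_lit 423)) (XT.nd (nat_lit 78) (nat_lit 228)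 (nat_lit 0) (XT.lf (nat_lit 0) (nat_lit 4335757782) (nat_lit 304) (nat_lit 6688858270) (nat_lit 76) (nat_lit 3572990676) (nat_lit 69) (nat_lit 5) (nat_lit 73) (nat_lit 5) (nat_lit 70) (nat_lit 5) (nat_lit 633) (nat_lit 505) (nat_lit 422)) (XT.lf (nat_lit 0) (nat_lit 3031392151) (nat_lit 228) (nat_lit 5945185011) (nat_lit 304) (nat_lit 5800245911) (nat_lit 66) (nat_lit 5) (nat_lit 69) (nat_lit 5) (nat_lit 70) (nat_lit 5) (nat_lit 634) (nat_lit 505) (nat_lit 421)))))) (XT.nd (nat_lit 468) (nat_lit 912) (nat_lit 0) (XT.nd (nat_lit 234) (nat_lit 456) (nat_lit 0) (XT.nd (nat_lit 78) (nat_lit 456) (nat_lit 0) (XT.lf (nat_lit 0) (nat_lit 12982858845) (nat_lit 228) (nat_lit 741366000) (nat_lit 304) (nat_lit 1235120287) (nat_lit 66) (nat_lit 5) (nat_lit 69) (nat_lit 5) (nat_lit 70) (nat_lit 5) (nat_lit 635) (nat_lit 505) (nat_lit 420)) (XT.nd (nat_lit 78) (nat_lit 152) (nat_lit 0) (XT.lf (nat_lit 0) (nat_lit 3428014796) (nat_lit 304) (nat_lit 7157069144) (nat_lit 76) (nat_lit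 4558959428) (nat_lit 62) (nat_lit 5) (nat_lit 66) (nat_lit 5) (nat_lit 63) (nat_lit 5) (nat_lit 636) (nat_lit 505) (nat_lit 419)) (XT.lf (nat_lit 0) (nat_lit 2814746970) (nat_lit 152) (nat_lit 5359315581) (nat_lit 228) (nat_lit 7158087503) (nat_lit 60) (nat_lit 5) (nat_lit 62) (nat_lit 5) (nat_lit 63) (nat_lit 5) (nat_lit 637) (nat_lit 505) (nat_lit 418)))) (XT.nd (nat_lit 78) (nat_lit 456) (nat_lit 0) (XT.lf (nat_lit 0) (nat_lit 13030048907) (nat_lit 152) (nat_lit 2898279) (nat_lit 228) (nat_lit 2490714873) (nat_lit 60) (nat_lit 5) (nat_lit 62) (nat_lit 5) (nat_lit 63) (nat_lit 5) (nat_lit 638) (nat_lit 505) (nat_lit 417)) (XT.nd (nat_lit 78) (nat_lit 152) (nat_lit 0) (XT.lf (nat_lit 0) (nat_lit 2296672600) (nat_lit 304) (nat_lit 7988600865) (nat_lit 76) (nat_lit 5432308738) (nat_lit 56) (nat_lit 5) (nat_lit 60) (nat_lit 5) (nat_lit 57) (nat_lit 5) (nat_lit 639) (nat_lit 505) (nat_lit 416)) (XT.lf (nat_lit 0) (nat_lit 2235046655) (nat_lit 152) (nat_lit 4913197328) (nat_lit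 228) (nat_lit 8766773174) (nat_lit 54) (nat_lit 5) (nat_lit 56) (nat_lit 5) (nat_lit 57) (nat_lit 5) (nat_lit 640) (nat_lit 505) (nat_lit 415))))) (XT.nd (nat_lit 234) (nat_lit 456) (nat_lit 0) (XT.nd (nat_lit 78) (nat_lit 456) (nat_lit 0) (XT.lf (nat_lit 0) (nat_lit 12124962465) (nat_lit 228) (nat_lit 3400427298) (nat_lit 76) (nat_lit 590450122) (nat_lit 54) (nat_lit 5) (nat_lit 57) (nat_lit 5) (nat_lit 55) (nat_lit 5) (nat_lit 641) (nat_lit 505) (nat_lit 414)) (XT.nd (nat_lit 78) (nat_lit 152) (nat_lit 0) (XT.lf (nat_lit 0) (nat_lit 918965049) (nat_lit 304) (nat_lit 9232020477) (nat_lit 76) (nat_lit 6168580992) (nat_lit 50) (nat_lit 5) (nat_lit 54) (nat_lit 5) (nat_lit 51) (nat_lit 5) (nat_lit 642) (nat_lit 505) (nat_lit 413)) (XT.lf (nat_lit 0) (nat_lit 1242639691) (nat_lit 152) (nat_lit 4633113493) (nat_lit 228) (nat_lit 10651044482) (nat_lit 48) (nat_lit 5) (nat_lit 50) (nat_lit 5) (nat_lit 51) (nat_lit 5) (nat_lit 643) (nat_lit 505) (nat_lit 412)))) (XT.nd (nat_lit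 156) (nat_lit 228) (nat_lit 0) (XT.nd (nat_lit 78) (nat_lit 228) (nat_lit 0) (XT.lf (nat_lit 0) (nat_lit 10971686900) (nat_lit 228) (nat_lit 4743497564) (nat_lit 76) (nat_lit 1022190058) (nat_lit 48) (nat_lit 5) (nat_lit 51) (nat_lit 5) (nat_lit 49) (nat_lit 5) (nat_lit 644) (nat_lit 505) (nat_lit 411)) (XT.lf (nat_lit 0) (nat_lit 6005440454) (nat_lit 228) (nat_lit 10205524844) (nat_lit 304) (nat_lit 740370356) (nat_lit 45) (nat_lit 5) (nat_lit 48) (nat_lit 5) (nat_lit 49) (nat_lit 5) (nat_lit 645) (nat_lit 505) (nat_lit 410))) (XT.nd (nat_lit 78) (nat_lit 152) (nat_lit 0) (XT.lf (nat_lit 0) (nat_lit 4331771886) (nat_lit 304) (nat_lit 214625104) (nat_lit 76) (nat_lit 12622534068) (nat_lit 44) (nat_lit 5) (nat_lit 48) (nat_lit 5) (nat_lit 45) (nat_lit 5) (nat_lit 646) (nat_lit 505) (nat_lit 409)) (XT.lf (nat_lit 0) (nat_lit 9546353887) (nat_lit 228) (nat_lit 6579653844) (nat_lit 76) (nat_lit 1263755740) (nat_lit 42) (nat_lit 5) (nat_lit 45) (nat_lit 5) (nat_lit 43) (nat_lit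 5) (nat_lit 647) (nat_lit 505) (nat_lit 408))))))) (XT.nd (nat_lit 936) (nat_lit 7980) (nat_lit 0) (XT.nd (nat_lit 468) (nat_lit 6916) (nat_lit 0) (XT.nd (nat_lit 234) (nat_lit 4408) (nat_lit 0) (XT.nd (nat_lit 78) (nat_lit 1368) (nat_lit 0) (XT.lf (nat_lit 0) (nat_lit 932775325) (nat_lit 1292) (nat_lit 1544129439) (nat_lit 0) (nat_lit 932775325) (nat_lit 609) (nat_lit 5) (nat_lit 626) (nat_lit 4) (nat_lit 609) (nat_lit 4) (nat_lit 548) (nat_lit 506) (nat_lit 506)) (XT.nd (nat_lit 78) (nat_lit 76) (nat_lit 0) (XT.lf (nat_lit 0) (nat_lit 1584703876) (nat_lit 1292) (nat_lit 3637245184) (nat_lit 1292) (nat_lit 1625127376) (nat_lit 592) (nat_lit 4) (nat_lit 609) (nat_lit 5) (nat_lit 609) (nat_lit 4) (nat_lit 549) (nat_lit 506) (nat_lit 505)) (XT.lf (nat_lit 0) (nat_lit 1697038686) (nat_lit 1368) (nat_lit 556764178) (nat_lit 76) (nat_lit 4622327643) (nat_lit 591) (nat_lit 5) (nat_lit 609) (nat_lit 5) (nat_lit 592) (nat_lit 4) (nat_lit 550) (nat_lit 506) (nat_lit 504)))) (XT.nd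 (nat_lit 78) (nat_lit 3040) (nat_lit 0) (XT.lf (nat_lit 0) (nat_lit 4225663696) (nat_lit 1368) (nat_lit 796331769) (nat_lit 1444) (nat_lit 1884408749) (nat_lit 573) (nat_lit 5) (nat_lit 591) (nat_lit 5) (nat_lit 592) (nat_lit 4) (nat_lit 551) (nat_lit 506) (nat_lit 503)) (XT.nd (nat_lit 78) (nat_lit 1520) (nat_lit 0) (XT.lf (nat_lit 0) (nat_lit 1410244782) (nat_lit 1520) (nat_lit 4812904260) (nat_lit 76) (nat_lit 714888878) (nat_lit 553) (nat_lit 5) (nat_lit 573) (nat_lit 5) (nat_lit 554) (nat_lit 4) (nat_lit 552) (nat_lit 506) (nat_lit 502)) (XT.lf (nat_lit 0) (nat_lit 12335538) (nat_lit 1520) (nat_lit 4688838397) (nat_lit 1596) (nat_lit 2269783606) (nat_lit 533) (nat_lit 5) (nat_lit 553) (nat_lit 5) (nat_lit 554) (nat_lit 4) (nat_lit 553) (nat_lit 506) (nat_lit 501))))) (XT.nd (nat_lit 234) (nat_lit 3496) (nat_lit 0) (XT.nd (nat_lit 78) (nat_lit 3344) (nat_lit 0) (XT.lf (nat_lit 0) (nat_lit 1004674701) (nat_lit 1596) (nat_lit 2075587586) (nat_lit 76) (nat_lit 3924848491)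 (nat_lit 532) (nat_lit 5) (nat_lit 553) (nat_lit 5) (nat_lit 533) (nat_lit 5) (nat_lit 554) (nat_lit 506) (nat_lit 500)) (XT.nd (nat_lit 78) (nat_lit 1748) (nat_lit 0) (XT.lf (nat_lit 0) (nat_lit 2864939131) (nat_lit 1596) (nat_lit 1401834769) (nat_lit 1672) (nat_lit 2773836043) (nat_lit 511) (nat_lit 5) (nat_lit 532) (nat_lit 5) (nat_lit 533) (nat_lit 5) (nat_lit 555) (nat_lit 506) (nat_lit 499)) (XT.lf (nat_lit 0) (nat_lit 466264456) (nat_lit 1748) (nat_lit 6280148171) (nat_lit 76) (nat_lit 331237508) (nat_lit 488) (nat_lit 5) (nat_lit 511) (nat_lit 5) (nat_lit 489) (nat_lit 5) (nat_lit 556) (nat_lit 506) (nat_lit 498)))) (XT.nd (nat_lit 78) (nat_lit 3496) (nat_lit 0) (XT.lf (nat_lit 0) (nat_lit 3706803482) (nat_lit 1748) (nat_lit 1280058584) (nat_lit 76) (nat_lit 2128759815) (nat_lit 488) (nat_lit 5) (nat_lit 511) (nat_lit 5) (nat_lit 489) (nat_lit 5) (nat_lit 557) (nat_lit 506) (nat_lit 497)) (XT.nd (nat_lit 78) (nat_lit 1748) (nat_lit 0) (XT.lf (nat_lit 0) (nat_lit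 3807131291) (nat_lit 1748) (nat_lit 3166263232) (nat_lit 1824) (nat_lit 181746474) (nat_lit 465) (nat_lit 5) (nat_lit 488) (nat_lit 5) (nat_lit 489) (nat_lit 5) (nat_lit 558) (nat_lit 506) (nat_lit 496)) (XT.lf (nat_lit 0) (nat_lit 1757672072) (nat_lit 1672) (nat_lit 1268402111) (nat_lit 1748) (nat_lit 4169844873) (nat_lit 442) (nat_lit 5) (nat_lit 464) (nat_lit 5) (nat_lit 465) (nat_lit 5) (nat_lit 559) (nat_lit 506) (nat_lit 495)))))) (XT.nd (nat_lit 468) (nat_lit 4104) (nat_lit 0) (XT.nd (nat_lit 234) (nat_lit 1900) (nat_lit 0) (XT.nd (nat_lit 78) (nat_lit 1976) (nat_lit 0) (XT.lf (nat_lit 0) (nat_lit 6260328457) (nat_lit 1748) (nat_lit 296004620) (nat_lit 76) (nat_lit 681873382) (nat_lit 442) (nat_lit 5) (nat_lit 465) (nat_lit 5) (nat_lit 443) (nat_lit 5) (nat_lit 560) (nat_lit 506) (nat_lit 494)) (XT.nd (nat_lit 78) (nat_lit 912) (nat_lit 0) (XT.lf (nat_lit 0) (nat_lit 2227376112) (nat_lit 1064) (nat_lit 2353758572) (nat_lit 76) (nat_lit 2700334218) (nat_lit 428)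 (nat_lit 5) (nat_lit 442) (nat_lit 5) (nat_lit 429) (nat_lit 5) (nat_lit 561) (nat_lit 506) (nat_lit 493)) (XT.lf (nat_lit 0) (nat_lit 2902682233) (nat_lit 912) (nat_lit 2541177905) (nat_lit 988) (nat_lit 1882414139) (nat_lit 416) (nat_lit 5) (nat_lit 428) (nat_lit 5) (nat_lit 429) (nat_lit 5) (nat_lit 562) (nat_lit 506) (nat_lit 492)))) (XT.nd (nat_lit 78) (nat_lit 912) (nat_lit 0) (XT.lf (nat_lit 0) (nat_lit 863284140) (nat_lit 912) (nat_lit 432912028) (nat_lit 988) (nat_lit 6076390049) (nat_lit 403) (nat_lit 5) (nat_lit 415) (nat_lit 5) (nat_lit 416) (nat_lit 5) (nat_lit 563) (nat_lit 506) (nat_lit 491)) (XT.nd (nat_lit 78) (nat_lit 912) (nat_lit 0) (XT.lf (nat_lit 0) (nat_lit 4494710494) (nat_lit 988) (nat_lit 1191590234) (nat_lit 76) (nat_lit 1733654741) (nat_lit 403) (nat_lit 5) (nat_lit 416) (nat_lit 5) (nat_lit 404) (nat_lit 5) (nat_lit 564) (nat_lit 506) (nat_lit 490)) (XT.lf (nat_lit 0) (nat_lit 256863714) (nat_lit 912) (nat_lit 3248698221) (nat_lit 76) (nat_lit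 3963248318) (nat_lit 391) (nat_lit 5) (nat_lit 403) (nat_lit 5) (nat_lit 392) (nat_lit 5) (nat_lit 565) (nat_lit 506) (nat_lit 489))))) (XT.nd (nat_lit 234) (nat_lit 2432) (nat_lit 0) (XT.nd (nat_lit 78) (nat_lit 836) (nat_lit 0) (XT.lf (nat_lit 0) (nat_lit 2183420157) (nat_lit 836) (nat_lit 1244280884) (nat_lit 912) (nat_lit 4091279323) (nat_lit 380) (nat_lit 5) (nat_lit 391) (nat_lit 5) (nat_lit 392) (nat_lit 5) (nat_lit 566) (nat_lit 506) (nat_lit 488)) (XT.nd (nat_lit 78) (nat_lit 76) (nat_lit 0) (XT.lf (nat_lit 0) (nat_lit 128941344) (nat_lit 760) (nat_lit 6505375999) (nat_lit 836) (nat_lit 936399154) (nat_lit 370) (nat_lit 5) (nat_lit 380) (nat_lit 5) (nat_lit 381) (nat_lit 5) (nat_lit 567) (nat_lit 506) (nat_lit 487)) (XT.lf (nat_lit 0) (nat_lit 2238945926) (nat_lit 836) (nat_lit 1935557448) (nat_lit 76) (nat_lit 3448951377) (nat_lit 369) (nat_lit 5) (nat_lit 380) (nat_lit 5) (nat_lit 370) (nat_lit 5) (nat_lit 568) (nat_lit 506) (nat_lit 486)))) (XT.nd (nat_lit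 156) (nat_lit 760) (nat_lit 0) (XT.nd (nat_lit 78) (nat_lit 836) (nat_lit 0) (XT.lf (nat_lit 0) (nat_lit 3659288136) (nat_lit 836) (nat_lit 1773867927) (nat_lit 912) (nat_lit 2244619277) (nat_lit 358) (nat_lit 5) (nat_lit 369) (nat_lit 5) (nat_lit 370) (nat_lit 5) (nat_lit 569) (nat_lit 506) (nat_lit 485)) (XT.lf (nat_lit 0) (nat_lit 917999192) (nat_lit 836) (nat_lit 6127690436) (nat_lit 76) (nat_lit 687927311) (nat_lit 347) (nat_lit 5) (nat_lit 358) (nat_lit 5) (nat_lit 348) (nat_lit 5) (nat_lit 570) (nat_lit 506) (nat_lit 484))) (XT.nd (nat_lit 78) (nat_lit 760) (nat_lit 0) (XT.lf (nat_lit 0) (nat_lit 4097799170) (nat_lit 836) (nat_lit 483779156) (nat_lit 76) (nat_lit 3209029373) (nat_lit 347) (nat_lit 5) (nat_lit 358) (nat_lit 5) (nat_lit 348) (nat_lit 5) (nat_lit 571) (nat_lit 506) (nat_lit 483)) (XT.lf (nat_lit 0) (nat_lit 5279256425) (nat_lit 760) (nat_lit 2042356603) (nat_lit 836) (nat_lit 527525474) (nat_lit 337) (nat_lit 5) (nat_lit 347) (nat_lit 5) (nat_lit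 348) (nat_lit 5) (nat_lit 572) (nat_lit 506) (nat_lit 482))))))))
noncomputable def xc51 : XT := (XT.nd (nat_lit 1950) (nat_lit 6460) (nat_lit 0) (XT.nd (nat_lit 936) (nat_lit 5472) (nat_lit 0) (XT.nd (nat_lit 468) (nat_lit 2584) (nat_lit 0) (XT.nd (nat_lit 234) (nat_lit 2052) (nat_lit 0) (XT.nd (nat_lit 78) (nat_lit 836) (nat_lit 0) (XT.lf (nat_lit 0) (nat_lit 2639990100) (nat_lit 760) (nat_lit 4696188425) (nat_lit 76) (nat_lit 572831873) (nat_lit 327) (nat_lit 5) (nat_lit 337) (nat_lit 5) (nat_lit 328) (nat_lit 5) (nat_lit 573) (nat_lit 506) (nat_lit 481)) (XT.nd (nat_lit 78) (nat_lit 76) (nat_lit 0) (XT.lf (nat_lit 0) (nat_lit 1109819258) (nat_lit 760) (nat_lit 4739078456) (nat_lit 836) (nat_lit 2121418264) (nat_lit 317) (nat_lit 5) (nat_lit 327) (nat_lit 5) (nat_lit 328) (nat_lit 5) (nat_lit 574) (nat_lit 506) (nat_lit 480)) (XT.lf (nat_lit 0) (nat_lit 1053854592) (nat_lit 836) (nat_lit 1008064060) (nat_lit 76) (nat_lit 5971215307) (nat_lit 316) (nat_lit 5) (nat_lit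 327) (nat_lit 5) (nat_lit 317) (nat_lit 5) (nat_lit 575) (nat_lit 506) (nat_lit 479)))) (XT.nd (nat_lit 78) (nat_lit 1368) (nat_lit 0) (XT.lf (nat_lit 0) (nat_lit 4249277499) (nat_lit 760) (nat_lit 3152534629) (nat_lit 76) (nat_lit 695422336) (nat_lit 307) (nat_lit 5) (nat_lit 317) (nat_lit 5) (nat_lit 308) (nat_lit 5) (nat_lit 576) (nat_lit 506) (nat_lit 478)) (XT.nd (nat_lit 78) (nat_lit 684) (nat_lit 0) (XT.lf (nat_lit 0) (nat_lit 2827632462) (nat_lit 684) (nat_lit 4668647415) (nat_lit 760) (nat_lit 666591158) (nat_lit 298) (nat_lit 5) (nat_lit 307) (nat_lit 5) (nat_lit 308) (nat_lit 5) (nat_lit 577) (nat_lit 506) (nat_lit 477)) (XT.lf (nat_lit 0) (nat_lit 668910566) (nat_lit 608) (nat_lit 1850412742) (nat_lit 684) (nat_lit 5710674650) (nat_lit 289) (nat_lit 5) (nat_lit 297) (nat_lit 5) (nat_lit 298) (nat_lit 5) (nat_lit 578) (nat_lit 506) (nat_lit 476))))) (XT.nd (nat_lit 234) (nat_lit 1216) (nat_lit 0) (XT.nd (nat_lit 78) (nat_lit 1368) (nat_lit 0) (XT.lf (nat_lit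 0) (nat_lit 5752329816) (nat_lit 684) (nat_lit 1507819828) (nat_lit 76) (nat_lit 1038390707) (nat_lit 289) (nat_lit 5) (nat_lit 298) (nat_lit 5) (nat_lit 290) (nat_lit 5) (nat_lit 579) (nat_lit 506) (nat_lit 475)) (XT.nd (nat_lit 78) (nat_lit 608) (nat_lit 0) (XT.lf (nat_lit 0) (nat_lit 665601894) (nat_lit 760) (nat_lit 3720674929) (nat_lit 76) (nat_lit 3982235087) (nat_lit 279) (nat_lit 5) (nat_lit 289) (nat_lit 5) (nat_lit 280) (nat_lit 5) (nat_lit 580) (nat_lit 506) (nat_lit 474)) (XT.lf (nat_lit 0) (nat_lit 2459475549) (nat_lit 608) (nat_lit 1425089641) (nat_lit 684) (nat_lit 4555447572) (nat_lit 271) (nat_lit 5) (nat_lit 279) (nat_lit 5) (nat_lit 280) (nat_lit 5) (nat_lit 581) (nat_lit 506) (nat_lit 473)))) (XT.nd (nat_lit 78) (nat_lit 608) (nat_lit 0) (XT.lf (nat_lit 0) (nat_lit 230025249) (nat_lit 608) (nat_lit 6926154036) (nat_lit 684) (nat_lit 1357005422) (nat_lit 263) (nat_lit 5) (nat_lit 271) (nat_lit 5) (nat_lit 272) (nat_lit 5) (nat_lit 582) (nat_lit 506)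 (nat_lit 472)) (XT.nd (nat_lit 78) (nat_lit 532) (nat_lit 0) (XT.lf (nat_lit 0) (nat_lit 1881758057) (nat_lit 684) (nat_lit 2027144878) (nat_lit 76) (nat_lit 4678649144) (nat_lit 262) (nat_lit 5) (nat_lit 271) (nat_lit 5) (nat_lit 263) (nat_lit 5) (nat_lit 583) (nat_lit 506) (nat_lit 471)) (XT.lf (nat_lit 0) (nat_lit 4339246992) (nat_lit 532) (nat_lit 808526840) (nat_lit 608) (nat_lit 3515846757) (nat_lit 255) (nat_lit 5) (nat_lit 262) (nat_lit 5) (nat_lit 263) (nat_lit 5) (nat_lit 584) (nat_lit 506) (nat_lit 470)))))) (XT.nd (nat_lit 468) (nat_lit 3116) (nat_lit 0) (XT.nd (nat_lit 234) (nat_lit 1140) (nat_lit 0) (XT.nd (nat_lit 78) (nat_lit 608) (nat_lit 0) (XT.lf (nat_lit 0) (nat_lit 2068156833) (nat_lit 608) (nat_lit 6406243183) (nat_lit 684) (nat_lit 266910662) (nat_lit 247) (nat_lit 5) (nat_lit 255) (nat_lit 5) (nat_lit 256) (nat_lit 5) (nat_lit 585) (nat_lit 506) (nat_lit 469)) (XT.nd (nat_lit 78) (nat_lit 532) (nat_lit 0) (XT.lf (nat_lit 0) (nat_lit 2994696174)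 (nat_lit 684) (nat_lit 261463502) (nat_lit 76) (nat_lit 5564251927) (nat_lit 246) (nat_lit 5) (nat_lit 255) (nat_lit 5) (nat_lit 247) (nat_lit 5) (nat_lit 586) (nat_lit 506) (nat_lit 468)) (XT.lf (nat_lit 0) (nat_lit 6297208148) (nat_lit 532) (nat_lit 15650437) (nat_lit 608) (nat_lit 2588308395) (nat_lit 239) (nat_lit 5) (nat_lit 246) (nat_lit 5) (nat_lit 247) (nat_lit 5) (nat_lit 587) (nat_lit 506) (nat_lit 467)))) (XT.nd (nat_lit 78) (nat_lit 532) (nat_lit 0) (XT.lf (nat_lit 0) (nat_lit 707841711) (nat_lit 608) (nat_lit 5012746267) (nat_lit 76) (nat_lit 3262795092) (nat_lit 231) (nat_lit 5) (nat_lit 239) (nat_lit 5) (nat_lit 232) (nat_lit 5) (nat_lit 588) (nat_lit 506) (nat_lit 466)) (XT.nd (nat_lit 78) (nat_lit 0) (nat_lit 0) (XT.lf (nat_lit 0) (nat_lit 1585892867) (nat_lit 532) (nat_lit 2431978629) (nat_lit 608) (nat_lit 5049382867) (nat_lit 224) (nat_lit 5) (nat_lit 231) (nat_lit 5) (nat_lit 232) (nat_lit 5) (nat_lit 589) (nat_lit 506) (nat_lit 465)) (XT.lf (nat_lit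 0) (nat_lit 7388916966) (nat_lit 608) (nat_lit 836940451) (nat_lit 76) (nat_lit 927054600) (nat_lit 224) (nat_lit 5) (nat_lit 232) (nat_lit 5) (nat_lit 225) (nat_lit 5) (nat_lit 590) (nat_lit 506) (nat_lit 464))))) (XT.nd (nat_lit 234) (nat_lit 1520) (nat_lit 0) (XT.nd (nat_lit 78) (nat_lit 988) (nat_lit 0) (XT.lf (nat_lit 0) (nat_lit 1576872919) (nat_lit 608) (nat_lit 3310095692) (nat_lit 76) (nat_lit 4352901400) (nat_lit 216) (nat_lit 5) (nat_lit 224) (nat_lit 5) (nat_lit 217) (nat_lit 5) (nat_lit 591) (nat_lit 506) (nat_lit 463)) (XT.nd (nat_lit 78) (nat_lit 532) (nat_lit 0) (XT.lf (nat_lit 0) (nat_lit 3486724459) (nat_lit 456) (nat_lit 1458548684) (nat_lit 532) (nat_lit 4383379060) (nat_lit 210) (nat_lit 5) (nat_lit 216) (nat_lit 5) (nat_lit 217) (nat_lit 5) (nat_lit 592) (nat_lit 506) (nat_lit 462)) (XT.lf (nat_lit 0) (nat_lit 982742585) (nat_lit 532) (nat_lit 7396640057) (nat_lit 608) (nat_lit 1039865405) (nat_lit 203) (nat_lit 5) (nat_lit 210) (nat_lit 5) (nat_lit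 211) (nat_lit 5) (nat_lit 593) (nat_lit 506) (nat_lit 461)))) (XT.nd (nat_lit 156) (nat_lit 988) (nat_lit 0) (XT.nd (nat_lit 78) (nat_lit 456) (nat_lit 0) (XT.lf (nat_lit 0) (nat_lit 2345078982) (nat_lit 608) (nat_lit 1575607296) (nat_lit 76) (nat_lit 5590553354) (nat_lit 202) (nat_lit 5) (nat_lit 210) (nat_lit 5) (nat_lit 203) (nat_lit 5) (nat_lit 594) (nat_lit 506) (nat_lit 460)) (XT.lf (nat_lit 0) (nat_lit 5425483534) (nat_lit 456) (nat_lit 350935098) (nat_lit 532) (nat_lit 3828667100) (nat_lit 196) (nat_lit 5) (nat_lit 202) (nat_lit 5) (nat_lit 203) (nat_lit 5) (nat_lit 595) (nat_lit 506) (nat_lit 459))) (XT.nd (nat_lit 78) (nat_lit 532) (nat_lit 0) (XT.lf (nat_lit 0) (nat_lit 2841573917) (nat_lit 456) (nat_lit 6442966078) (nat_lit 532) (nat_lit 416110126) (nat_lit 190) (nat_lit 5) (nat_lit 196) (nat_lit 5) (nat_lit 197) (nat_lit 5) (nat_lit 596) (nat_lit 506) (nat_lit 458)) (XT.lf (nat_lit 0) (nat_lit 180445719) (nat_lit 456) (nat_lit 2833637435) (nat_lit 532) (nat_lit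 6783857393) (nat_lit 183) (nat_lit 5) (nat_lit 189) (nat_lit 5) (nat_lit 190) (nat_lit 5) (nat_lit 597) (nat_lit 506) (nat_lit 457))))))) (XT.nd (nat_lit 936) (nat_lit 3040) (nat_lit 0) (XT.nd (nat_lit 468) (nat_lit 1596) (nat_lit 0) (XT.nd (nat_lit 234) (nat_lit 912) (nat_lit 0) (XT.nd (nat_lit 78) (nat_lit 912) (nat_lit 0) (XT.lf (nat_lit 0) (nat_lit 6517302548) (nat_lit 532) (nat_lit 2513168990) (nat_lit 76) (nat_lit 866454564) (nat_lit 183) (nat_lit 5) (nat_lit 190) (nat_lit 5) (nat_lit 184) (nat_lit 5) (nat_lit 598) (nat_lit 506) (nat_lit 456)) (XT.nd (nat_lit 78) (nat_lit 380) (nat_lit 0) (XT.lf (nat_lit 0) (nat_lit 99883687) (nat_lit 532) (nat_lit 5282928579) (nat_lit 76) (nat_lit 4614903021) (nat_lit 176) (nat_lit 5) (nat_lit 183) (nat_lit 5) (nat_lit 177) (nat_lit 5) (nat_lit 599) (nat_lit 506) (nat_lit 455)) (XT.lf (nat_lit 0) (nat_lit 1963431096) (nat_lit 380) (nat_lit 1629173824) (nat_lit 456) (nat_lit 6507694977) (nat_lit 171) (nat_lit 5) (nat_lit 176) (nat_lit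 5) (nat_lit 177) (nat_lit 5) (nat_lit 600) (nat_lit 506) (nat_lit 454)))) (XT.nd (nat_lit 78) (nat_lit 912) (nat_lit 0) (XT.lf (nat_lit 0) (nat_lit 7164535422) (nat_lit 456) (nat_lit 853706369) (nat_lit 76) (nat_lit 2186511201) (nat_lit 171) (nat_lit 5) (nat_lit 177) (nat_lit 5) (nat_lit 172) (nat_lit 5) (nat_lit 601) (nat_lit 506) (nat_lit 453)) (XT.nd (nat_lit 78) (nat_lit 380) (nat_lit 0) (XT.lf (nat_lit 0) (nat_lit 503948226) (nat_lit 532) (nat_lit 3723662316) (nat_lit 76) (nat_lit 6083346817) (nat_lit 164) (nat_lit 5) (nat_lit 171) (nat_lit 5) (nat_lit 165) (nat_lit 5) (nat_lit 602) (nat_lit 506) (nat_lit 452)) (XT.lf (nat_lit 0) (nat_lit 3738145134) (nat_lit 380) (nat_lit 330531664) (nat_lit 456) (nat_lit 6350403005) (nat_lit 159) (nat_lit 5) (nat_lit 164) (nat_lit 5) (nat_lit 165) (nat_lit 5) (nat_lit 603) (nat_lit 506) (nat_lit 451))))) (XT.nd (nat_lit 234) (nat_lit 760) (nat_lit 0) (XT.nd (nat_lit 78) (nat_lit 456) (nat_lit 0) (XT.lf (nat_lit 0) (nat_lit 796936110)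 (nat_lit 380) (nat_lit 6922322776) (nat_lit 456) (nat_lit 2809818224) (nat_lit 154) (nat_lit 5) (nat_lit 159) (nat_lit 5) (nat_lit 160) (nat_lit 5) (nat_lit 604) (nat_lit 506) (nat_lit 450)) (XT.nd (nat_lit 78) (nat_lit 380) (nat_lit 0) (XT.lf (nat_lit 0) (nat_lit 799073851) (nat_lit 456) (nat_lit 2193756676) (nat_lit 76) (nat_lit 7648183031) (nat_lit 153) (nat_lit 5) (nat_lit 159) (nat_lit 5) (nat_lit 154) (nat_lit 5) (nat_lit 605) (nat_lit 506) (nat_lit 449)) (XT.lf (nat_lit 0) (nat_lit 4446472122) (nat_lit 456) (nat_lit 5272338469) (nat_lit 76) (nat_lit 1035931036) (nat_lit 148) (nat_lit 5) (nat_lit 154) (nat_lit 5) (nat_lit 149) (nat_lit 5) (nat_lit 606) (nat_lit 506) (nat_lit 448)))) (XT.nd (nat_lit 78) (nat_lit 380) (nat_lit 0) (XT.lf (nat_lit 0) (nat_lit 2423574826) (nat_lit 380) (nat_lit 5755315476) (nat_lit 456) (nat_lit 2691615837) (nat_lit 143) (nat_lit 5) (nat_lit 148) (nat_lit 5) (nat_lit 149) (nat_lit 5) (nat_lit 607) (nat_lit 506) (nat_lit 447)) (XT.nd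 (nat_lit 78) (nat_lit 304) (nat_lit 0) (XT.lf (nat_lit 0) (nat_lit 981714078) (nat_lit 456) (nat_lit 709498634) (nat_lit 76) (nat_lit 9297298429) (nat_lit 142) (nat_lit 5) (nat_lit 148) (nat_lit 5) (nat_lit 143) (nat_lit 5) (nat_lit 608) (nat_lit 506) (nat_lit 446)) (XT.lf (nat_lit 0) (nat_lit 4718037713) (nat_lit 380) (nat_lit 3923877775) (nat_lit 76) (nat_lit 2466096693) (nat_lit 138) (nat_lit 5) (nat_lit 143) (nat_lit 5) (nat_lit 139) (nat_lit 5) (nat_lit 609) (nat_lit 506) (nat_lit 445)))))) (XT.nd (nat_lit 468) (nat_lit 1596) (nat_lit 0) (XT.nd (nat_lit 234) (nat_lit 684) (nat_lit 0) (XT.nd (nat_lit 78) (nat_lit 380) (nat_lit 0) (XT.lf (nat_lit 0) (nat_lit 3997815605) (nat_lit 380) (nat_lit 4535998488) (nat_lit 456) (nat_lit 2695997691) (nat_lit 133) (nat_lit 5) (nat_lit 138) (nat_lit 5) (nat_lit 139) (nat_lit 5) (nat_lit 610) (nat_lit 506) (nat_lit 444)) (XT.nd (nat_lit 78) (nat_lit 0) (nat_lit 0) (XT.lf (nat_lit 0) (nat_lit 720990054) (nat_lit 304) (nat_lit 330878064)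 (nat_lit 380) (nat_lit 10302161682) (nat_lit 128) (nat_lit 5) (nat_lit 132) (nat_lit 5) (nat_lit 133) (nat_lit 5) (nat_lit 611) (nat_lit 506) (nat_lit 443)) (XT.lf (nat_lit 0) (nat_lit 4876264198) (nat_lit 380) (nat_lit 2651722493) (nat_lit 76) (nat_lit 3951638515) (nat_lit 128) (nat_lit 5) (nat_lit 133) (nat_lit 5) (nat_lit 129) (nat_lit 5) (nat_lit 612) (nat_lit 506) (nat_lit 442)))) (XT.nd (nat_lit 78) (nat_lit 380) (nat_lit 0) (XT.lf (nat_lit 0) (nat_lit 5501186092) (nat_lit 304) (nat_lit 3277681019) (nat_lit 380) (nat_lit 2828833864) (nat_lit 124) (nat_lit 5) (nat_lit 128) (nat_lit 5) (nat_lit 129) (nat_lit 5) (nat_lit 613) (nat_lit 506) (nat_lit 441)) (XT.nd (nat_lit 78) (nat_lit 0) (nat_lit 0) (XT.lf (nat_lit 0) (nat_lit 1010073304) (nat_lit 380) (nat_lit 9667757509) (nat_lit 76) (nat_lit 1060331916) (nat_lit 119) (nat_lit 5) (nat_lit 124) (nat_lit 5) (nat_lit 120) (nat_lit 5) (nat_lit 614) (nat_lit 506) (nat_lit 440)) (XT.lf (nat_lit 0) (nat_lit 4914967940) (nat_lit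 380) (nat_lit 1475773751) (nat_lit 76) (nat_lit 5479578977) (nat_lit 119) (nat_lit 5) (nat_lit 124) (nat_lit 5) (nat_lit 120) (nat_lit 5) (nat_lit 615) (nat_lit 506) (nat_lit 439))))) (XT.nd (nat_lit 234) (nat_lit 912) (nat_lit 0) (XT.nd (nat_lit 78) (nat_lit 380) (nat_lit 0) (XT.lf (nat_lit 0) (nat_lit 6913578525) (nat_lit 304) (nat_lit 1994069675) (nat_lit 380) (nat_lit 3097282427) (nat_lit 115) (nat_lit 5) (nat_lit 119) (nat_lit 5) (nat_lit 120) (nat_lit 5) (nat_lit 616) (nat_lit 506) (nat_lit 438)) (XT.nd (nat_lit 78) (nat_lit 0) (nat_lit 0) (XT.lf (nat_lit 0) (nat_lit 839706351) (nat_lit 380) (nat_lit 8828855935) (nat_lit 76) (nat_lit 2473309265) (nat_lit 110) (nat_lit 5) (nat_lit 115) (nat_lit 5) (nat_lit 111) (nat_lit 5) (nat_lit 617) (nat_lit 506) (nat_lit 437)) (XT.lf (nat_lit 0) (nat_lit 4826663041) (nat_lit 380) (nat_lit 417742139) (nat_lit 76) (nat_lit 7036485106) (nat_lit 110) (nat_lit 5) (nat_lit 115) (nat_lit 5) (nat_lit 111) (nat_lit 5) (nat_lit 618) (nat_lit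 506) (nat_lit 436)))) (XT.nd (nat_lit 156) (nat_lit 304) (nat_lit 0) (XT.nd (nat_lit 78) (nat_lit 304) (nat_lit 0) (XT.lf (nat_lit 0) (nat_lit 8213019315) (nat_lit 304) (nat_lit 699413235) (nat_lit 380) (nat_lit 3509877788) (nat_lit 106) (nat_lit 5) (nat_lit 110) (nat_lit 5) (nat_lit 111) (nat_lit 5) (nat_lit 619) (nat_lit 506) (nat_lit 435)) (XT.lf (nat_lit 0) (nat_lit 529844669) (nat_lit 304) (nat_lit 8137942778) (nat_lit 76) (nat_lit 3898242631) (nat_lit 102) (nat_lit 5) (nat_lit 106) (nat_lit 5) (nat_lit 103) (nat_lit 5) (nat_lit 620) (nat_lit 506) (nat_lit 434))) (XT.nd (nat_lit 78) (nat_lit 0) (nat_lit 0) (XT.lf (nat_lit 0) (nat_lit 505234220) (nat_lit 304) (nat_lit 4100513152) (nat_lit 380) (nat_lit 8106367453) (nat_lit 98) (nat_lit 5) (nat_lit 102) (nat_lit 5) (nat_lit 103) (nat_lit 5) (nat_lit 621) (nat_lit 506) (nat_lit 433)) (XT.lf (nat_lit 0) (nat_lit 8787912836) (nat_lit 380) (nat_lit 3489126913) (nat_lit 76) (nat_lit 583588857) (nat_lit 98) (nat_lit 5) (nat_lit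 103) (nat_lit 5) (nat_lit 99) (nat_lit 5) (nat_lit 622) (nat_lit 506) (nat_lit 432))))))))
noncomputable def xc52 : XT := (XT.nd (nat_lit 75192) (nat_lit 0) (nat_lit 23180) (XT.nd (nat_lit 936) (nat_lit 2052) (nat_lit 0) (XT.nd (nat_lit 468) (nat_lit 1064) (nat_lit 0) (XT.nd (nat_lit 234) (nat_lit 532) (nat_lit 0) (XT.nd (nat_lit 78) (nat_lit 304) (nat_lit 0) (XT.lf (nat_lit 0) (nat_lit 70223528) (nat_lit 304) (nat_lit 7621055683) (nat_lit 76) (nat_lit 5320246988) (nat_lit 94) (nat_lit 5) (nat_lit 98) (nat_lit 5) (nat_lit 95) (nat_lit 5) (nat_lit 623) (nat_lit 506) (nat_lit 431)) (XT.nd (nat_lit 78) (nat_lit 0) (nat_lit 0) (XT.lf (nat_lit 0) (nat_lit 1263766271) (nat_lit 304) (nat_lit 2976432327) (nat_lit 380) (nat_lit 8924732627) (nat_lit 90) (nat_lit 5) (nat_lit 94) (nat_lit 5) (nat_lit 95) (nat_lit 5) (nat_lit 624) (nat_lit 506) (nat_lit 430)) (XT.lf (nat_lit 0) (nat_lit 8523982215) (nat_lit 380) (nat_lit 2958839755) (nat_lit 76) (nat_lit 1837976262) (nat_lit 90) (nat_lit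 5) (nat_lit 95) (nat_lit 5) (nat_lit 91) (nat_lit 5) (nat_lit 625) (nat_lit 506) (nat_lit 429)))) (XT.nd (nat_lit 78) (nat_lit 304) (nat_lit 0) (XT.lf (nat_lit 0) (nat_lit 6168809393) (nat_lit 228) (nat_lit 6752071945) (nat_lit 304) (nat_lit 558354469) (nat_lit 87) (nat_lit 5) (nat_lit 90) (nat_lit 5) (nat_lit 91) (nat_lit 5) (nat_lit 626) (nat_lit 506) (nat_lit 428)) (XT.nd (nat_lit 78) (nat_lit 0) (nat_lit 0) (XT.lf (nat_lit 0) (nat_lit 1823223919) (nat_lit 228) (nat_lit 1891842883) (nat_lit 304) (nat_lit 9925297044) (nat_lit 83) (nat_lit 5) (nat_lit 86) (nat_lit 5) (nat_lit 87) (nat_lit 5) (nat_lit 627) (nat_lit 506) (nat_lit 427)) (XT.lf (nat_lit 0) (nat_lit 8103649106) (nat_lit 304) (nat_lit 2643939780) (nat_lit 76) (nat_lit 3056310272) (nat_lit 83) (nat_lit 5) (nat_lit 87) (nat_lit 5) (nat_lit 84) (nat_lit 5) (nat_lit 628) (nat_lit 506) (nat_lit 426))))) (XT.nd (nat_lit 234) (nat_lit 532) (nat_lit 0) (XT.nd (nat_lit 78) (nat_lit 304) (nat_lit 0) (XT.lf (nat_lit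 0) (nat_lit 6734676965) (nat_lit 228) (nat_lit 5870087160) (nat_lit 304) (nat_lit 1365447698) (nat_lit 80) (nat_lit 5) (nat_lit 83) (nat_lit 5) (nat_lit 84) (nat_lit 5) (nat_lit 629) (nat_lit 506) (nat_lit 425)) (XT.nd (nat_lit 78) (nat_lit 0) (nat_lit 0) (XT.lf (nat_lit 0) (nat_lit 2151557696) (nat_lit 228) (nat_lit 864809374) (nat_lit 304) (nat_lit 11123080691) (nat_lit 76) (nat_lit 5) (nat_lit 79) (nat_lit 5) (nat_lit 80) (nat_lit 5) (nat_lit 630) (nat_lit 506) (nat_lit 424)) (XT.lf (nat_lit 0) (nat_lit 7512651465) (nat_lit 304) (nat_lit 2577557901) (nat_lit 76) (nat_lit 4220777965) (nat_lit 76) (nat_lit 5) (nat_lit 80) (nat_lit 5) (nat_lit 77) (nat_lit 5) (nat_lit 631) (nat_lit 506) (nat_lit 423)))) (XT.nd (nat_lit 78) (nat_lit 304) (nat_lit 0) (XT.lf (nat_lit 0) (nat_lit 7054802836) (nat_lit 228) (nat_lit 5064895453) (nat_lit 304) (nat_lit 2365844398) (nat_lit 73) (nat_lit 5) (nat_lit 76) (nat_lit 5) (nat_lit 77) (nat_lit 5) (nat_lit 632) (nat_lit 506) (nat_lit 422))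 (XT.nd (nat_lit 78) (nat_lit 0) (nat_lit 0) (XT.lf (nat_lit 0) (nat_lit 2128727220) (nat_lit 304) (nat_lit 12450449588) (nat_lit 76) (nat_lit 84100178) (nat_lit 69) (nat_lit 5) (nat_lit 73) (nat_lit 5) (nat_lit 70) (nat_lit 5) (nat_lit 633) (nat_lit 506) (nat_lit 421)) (XT.lf (nat_lit 0) (nat_lit 6734753820) (nat_lit 304) (nat_lit 2796269099) (nat_lit 76) (nat_lit 5312167072) (nat_lit 69) (nat_lit 5) (nat_lit 73) (nat_lit 5) (nat_lit 70) (nat_lit 5) (nat_lit 634) (nat_lit 506) (nat_lit 420)))))) (XT.nd (nat_lit 468) (nat_lit 1064) (nat_lit 0) (XT.nd (nat_lit 234) (nat_lit 456) (nat_lit 0) (XT.nd (nat_lit 78) (nat_lit 304) (nat_lit 0) (XT.lf (nat_lit 0) (nat_lit 7091897078) (nat_lit 228) (nat_lit 4357123523) (nat_lit 304) (nat_lit 3577359856) (nat_lit 66) (nat_lit 5) (nat_lit 69) (nat_lit 5) (nat_lit 70) (nat_lit 5) (nat_lit 635) (nat_lit 506) (nat_lit 419)) (XT.nd (nat_lit 78) (nat_lit 0) (nat_lit 0) (XT.lf (nat_lit 0) (nat_lit 1038529982) (nat_lit 304) (nat_lit 13249515968)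 (nat_lit 76) (nat_lit 924896933) (nat_lit 62) (nat_lit 5) (nat_lit 66) (nat_lit 5) (nat_lit 63) (nat_lit 5) (nat_lit 636) (nat_lit 506) (nat_lit 418)) (XT.lf (nat_lit 0) (nat_lit 5751565957) (nat_lit 304) (nat_lit 3340492890) (nat_lit 76) (nat_lit 6309651702) (nat_lit 62) (nat_lit 5) (nat_lit 66) (nat_lit 5) (nat_lit 63) (nat_lit 5) (nat_lit 637) (nat_lit 506) (nat_lit 417)))) (XT.nd (nat_lit 78) (nat_lit 304) (nat_lit 0) (XT.lf (nat_lit 0) (nat_lit 6804708772) (nat_lit 152) (nat_lit 3769150363) (nat_lit 228) (nat_lit 5020095978) (nat_lit 60) (nat_lit 5) (nat_lit 62) (nat_lit 5) (nat_lit 63) (nat_lit 5) (nat_lit 638) (nat_lit 506) (nat_lit 416)) (XT.nd (nat_lit 78) (nat_lit 76) (nat_lit 0) (XT.lf (nat_lit 0) (nat_lit 1364115051) (nat_lit 228) (nat_lit 14141598884) (nat_lit 304) (nat_lit 284069762) (nat_lit 57) (nat_lit 5) (nat_lit 60) (nat_lit 5) (nat_lit 61) (nat_lit 5) (nat_lit 639) (nat_lit 506) (nat_lit 415)) (XT.lf (nat_lit 0) (nat_lit 4542340371) (nat_lit 304) (nat_lit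 4254933784) (nat_lit 76) (nat_lit 7190559808) (nat_lit 56) (nat_lit 5) (nat_lit 60) (nat_lit 5) (nat_lit 57) (nat_lit 5) (nat_lit 640) (nat_lit 506) (nat_lit 414))))) (XT.nd (nat_lit 234) (nat_lit 608) (nat_lit 0) (XT.nd (nat_lit 78) (nat_lit 304) (nat_lit 0) (XT.lf (nat_lit 0) (nat_lit 6147571955) (nat_lit 152) (nat_lit 3325351662) (nat_lit 228) (nat_lit 6716656453) (nat_lit 54) (nat_lit 5) (nat_lit 56) (nat_lit 5) (nat_lit 57) (nat_lit 5) (nat_lit 641) (nat_lit 506) (nat_lit 413)) (XT.nd (nat_lit 78) (nat_lit 76) (nat_lit 0) (XT.lf (nat_lit 0) (nat_lit 360422986) (nat_lit 228) (nat_lit 14159047555) (nat_lit 304) (nat_lit 1875544852) (nat_lit 51) (nat_lit 5) (nat_lit 54) (nat_lit 5) (nat_lit 55) (nat_lit 5) (nat_lit 642) (nat_lit 506) (nat_lit 412)) (XT.lf (nat_lit 0) (nat_lit 3083746411) (nat_lit 304) (nat_lit 5589066090) (nat_lit 76) (nat_lit 7930120121) (nat_lit 50) (nat_lit 5) (nat_lit 54) (nat_lit 5) (nat_lit 51) (nat_lit 5) (nat_lit 643) (nat_lit 506) (nat_lit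 411)))) (XT.nd (nat_lit 156) (nat_lit 456) (nat_lit 0) (XT.nd (nat_lit 78) (nat_lit 0) (nat_lit 0) (XT.lf (nat_lit 0) (nat_lit 5069905737) (nat_lit 152) (nat_lit 3052366046) (nat_lit 228) (nat_lit 8692386486) (nat_lit 48) (nat_lit 5) (nat_lit 50) (nat_lit 5) (nat_lit 51) (nat_lit 5) (nat_lit 644) (nat_lit 506) (nat_lit 410)) (XT.lf (nat_lit 0) (nat_lit 13289030854) (nat_lit 228) (nat_lit 1079324656) (nat_lit 76) (nat_lit 2661714887) (nat_lit 48) (nat_lit 5) (nat_lit 51) (nat_lit 5) (nat_lit 49) (nat_lit 5) (nat_lit 645) (nat_lit 506) (nat_lit 409))) (XT.nd (nat_lit 78) (nat_lit 152) (nat_lit 0) (XT.lf (nat_lit 0) (nat_lit 1349618853) (nat_lit 304) (nat_lit 7397667874) (nat_lit 76) (nat_lit 8501186071) (nat_lit 44) (nat_lit 5) (nat_lit 48) (nat_lit 5) (nat_lit 45) (nat_lit 5) (nat_lit 646) (nat_lit 506) (nat_lit 408)) (XT.lf (nat_lit 0) (nat_lit 3515663616) (nat_lit 152) (nat_lit 2979385733) (nat_lit 228) (nat_lit 10975639466) (nat_lit 42) (nat_lit 5) (nat_lit 44) (nat_lit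 5) (nat_lit 45) (nat_lit 5) (nat_lit 647) (nat_lit 506) (nat_lit 407))))))) (XT.nd (nat_lit 936) (nat_lit 10716) (nat_lit 0) (XT.nd (nat_lit 468) (nat_lit 6460) (nat_lit 0) (XT.nd (nat_lit 234) (nat_lit 2736) (nat_lit 0) (XT.nd (nat_lit 78) (nat_lit 1292) (nat_lit 0) (XT.lf (nat_lit 0) (nat_lit 649354777) (nat_lit 1140) (nat_lit 1367129031) (nat_lit 1140) (nat_lit 1367129031) (nat_lit 626) (nat_lit 4) (nat_lit 641) (nat_lit 5) (nat_lit 641) (nat_lit 4) (nat_lit 546) (nat_lit 507) (nat_lit 507)) (XT.nd (nat_lit 78) (nat_lit 1216) (nat_lit 0) (XT.lf (nat_lit 0) (nat_lit 583349786) (nat_lit 1216) (nat_lit 915040797) (nat_lit 76) (nat_lit 5294692467) (nat_lit 625) (nat_lit 5) (nat_lit 641) (nat_lit 5) (nat_lit 626) (nat_lit 4) (nat_lit 547) (nat_lit 507) (nat_lit 506)) (XT.lf (nat_lit 0) (nat_lit 3699581870) (nat_lit 1216) (nat_lit 184254466) (nat_lit 1292) (nat_lit 2936213505) (nat_lit 609) (nat_lit 5) (nat_lit 625) (nat_lit 5) (nat_lit 626) (nat_lit 4) (nat_lit 548) (nat_lit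 507) (nat_lit 505)))) (XT.nd (nat_lit 78) (nat_lit 1368) (nat_lit 0) (XT.lf (nat_lit 0) (nat_lit 350894284) (nat_lit 1368) (nat_lit 5328336032) (nat_lit 76) (nat_lit 1169221211) (nat_lit 591) (nat_lit 5) (nat_lit 609) (nat_lit 5) (nat_lit 592) (nat_lit 4) (nat_lit 549) (nat_lit 507) (nat_lit 504)) (XT.nd (nat_lit 78) (nat_lit 1368) (nat_lit 0) (XT.lf (nat_lit 0) (nat_lit 3617415667) (nat_lit 1368) (nat_lit 663947660) (nat_lit 76) (nat_lit 2596625561) (nat_lit 591) (nat_lit 5) (nat_lit 609) (nat_lit 5) (nat_lit 592) (nat_lit 4) (nat_lit 550) (nat_lit 507) (nat_lit 503)) (XT.lf (nat_lit 0) (nat_lit 4086588965) (nat_lit 1368) (nat_lit 2821222828) (nat_lit 1444) (nat_lit 1149564) (nat_lit 573) (nat_lit 5) (nat_lit 591) (nat_lit 5) (nat_lit 592) (nat_lit 4) (nat_lit 551) (nat_lit 507) (nat_lit 502))))) (XT.nd (nat_lit 234) (nat_lit 3344) (nat_lit 0) (XT.nd (nat_lit 78) (nat_lit 1596) (nat_lit 0) (XT.lf (nat_lit 0) (nat_lit 1943303220) (nat_lit 1444) (nat_lit 1286167754) (nat_lit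 1520) (nat_lit 3711673471) (nat_lit 553) (nat_lit 5) (nat_lit 572) (nat_lit 5) (nat_lit 573) (nat_lit 5) (nat_lit 552) (nat_lit 507) (nat_lit 501)) (XT.nd (nat_lit 78) (nat_lit 1596) (nat_lit 0) (XT.lf (nat_lit 0) (nat_lit 6479028728) (nat_lit 1520) (nat_lit 195218618) (nat_lit 76) (nat_lit 300651262) (nat_lit 553) (nat_lit 5) (nat_lit 573) (nat_lit 5) (nat_lit 554) (nat_lit 4) (nat_lit 553) (nat_lit 507) (nat_lit 500)) (XT.lf (nat_lit 0) (nat_lit 2721314863) (nat_lit 1596) (nat_lit 2332256768) (nat_lit 76) (nat_lit 1955936870) (nat_lit 532) (nat_lit 5) (nat_lit 553) (nat_lit 5) (nat_lit 533) (nat_lit 5) (nat_lit 554) (nat_lit 507) (nat_lit 499)))) (XT.nd (nat_lit 78) (nat_lit 1748) (nat_lit 0) (XT.lf (nat_lit 0) (nat_lit 2574018193) (nat_lit 1596) (nat_lit 3375432970) (nat_lit 1672) (nat_lit 1096242464) (nat_lit 511) (nat_lit 5) (nat_lit 532) (nat_lit 5) (nat_lit 533) (nat_lit 5) (nat_lit 555) (nat_lit 507) (nat_lit 498)) (XT.nd (nat_lit 78) (nat_lit 0) (nat_lit 0) (XT.lf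 (nat_lit 0) (nat_lit 457676194) (nat_lit 1672) (nat_lit 1627922410) (nat_lit 1748) (nat_lit 4997648966) (nat_lit 488) (nat_lit 5) (nat_lit 510) (nat_lit 5) (nat_lit 511) (nat_lit 5) (nat_lit 556) (nat_lit 507) (nat_lit 497)) (XT.lf (nat_lit 0) (nat_lit 5284143729) (nat_lit 1748) (nat_lit 1646017542) (nat_lit 76) (nat_lit 191904240) (nat_lit 488) (nat_lit 5) (nat_lit 511) (nat_lit 5) (nat_lit 489) (nat_lit 5) (nat_lit 557) (nat_lit 507) (nat_lit 496)))))) (XT.nd (nat_lit 468) (nat_lit 4256) (nat_lit 0) (XT.nd (nat_lit 234) (nat_lit 2888) (nat_lit 0) (XT.nd (nat_lit 78) (nat_lit 1748) (nat_lit 0) (XT.lf (nat_lit 0) (nat_lit 1337287338) (nat_lit 1824) (nat_lit 3765648824) (nat_lit 76) (nat_lit 2059147028) (nat_lit 464) (nat_lit 5) (nat_lit 488) (nat_lit 5) (nat_lit 465) (nat_lit 5) (nat_lit 558) (nat_lit 507) (nat_lit 495)) (XT.nd (nat_lit 78) (nat_lit 76) (nat_lit 0) (XT.lf (nat_lit 0) (nat_lit 1302171478) (nat_lit 1672) (nat_lit 3206987350) (nat_lit 1748) (nat_lit 2694356084)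 (nat_lit 442) (nat_lit 5) (nat_lit 464) (nat_lit 5) (nat_lit 465) (nat_lit 5) (nat_lit 559) (nat_lit 507) (nat_lit 494)) (XT.lf (nat_lit 0) (nat_lit 456156993) (nat_lit 1748) (nat_lit 788731511) (nat_lit 76) (nat_lit 6001553465) (nat_lit 441) (nat_lit 5) (nat_lit 464) (nat_lit 5) (nat_lit 442) (nat_lit 5) (nat_lit 560) (nat_lit 507) (nat_lit 493)))) (XT.nd (nat_lit 78) (nat_lit 1900) (nat_lit 0) (XT.lf (nat_lit 0) (nat_lit 3607220891) (nat_lit 1064) (nat_lit 2890892143) (nat_lit 76) (nat_lit 792297310) (nat_lit 428) (nat_lit 5) (nat_lit 442) (nat_lit 5) (nat_lit 429) (nat_lit 5) (nat_lit 561) (nat_lit 507) (nat_lit 492)) (XT.nd (nat_lit 78) (nat_lit 988) (nat_lit 0) (XT.lf (nat_lit 0) (nat_lit 2327303116) (nat_lit 912) (nat_lit 4463235236) (nat_lit 988) (nat_lit 545346197) (nat_lit 416) (nat_lit 5) (nat_lit 428) (nat_lit 5) (nat_lit 429) (nat_lit 5) (nat_lit 562) (nat_lit 507) (nat_lit 491)) (XT.lf (nat_lit 0) (nat_lit 230422149) (nat_lit 912) (nat_lit 2351947643) (nat_lit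 988) (nat_lit 4800325528) (nat_lit 403) (nat_lit 5) (nat_lit 415) (nat_lit 5) (nat_lit 416) (nat_lit 5) (nat_lit 563) (nat_lit 507) (nat_lit 490))))) (XT.nd (nat_lit 234) (nat_lit 2508) (nat_lit 0) (XT.nd (nat_lit 78) (nat_lit 1748) (nat_lit 0) (XT.lf (nat_lit 0) (nat_lit 5576448842) (nat_lit 912) (nat_lit 164154452) (nat_lit 988) (nat_lit 1690272077) (nat_lit 403) (nat_lit 5) (nat_lit 415) (nat_lit 5) (nat_lit 416) (nat_lit 5) (nat_lit 564) (nat_lit 507) (nat_lit 489)) (XT.nd (nat_lit 78) (nat_lit 836) (nat_lit 0) (XT.lf (nat_lit 0) (nat_lit 1441468195) (nat_lit 912) (nat_lit 3969713967) (nat_lit 76) (nat_lit 2069076037) (nat_lit 391) (nat_lit 5) (nat_lit 403) (nat_lit 5) (nat_lit 392) (nat_lit 5) (nat_lit 565) (nat_lit 507) (nat_lit 488)) (XT.lf (nat_lit 0) (nat_lit 1421589329) (nat_lit 836) (nat_lit 3157616862) (nat_lit 912) (nat_lit 2951888990) (nat_lit 380) (nat_lit 5) (nat_lit 391) (nat_lit 5) (nat_lit 392) (nat_lit 5) (nat_lit 566) (nat_lit 507) (nat_lit 487))))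 (XT.nd (nat_lit 156) (nat_lit 1672) (nat_lit 0) (XT.nd (nat_lit 78) (nat_lit 760) (nat_lit 0) (XT.lf (nat_lit 0) (nat_lit 164447864) (nat_lit 912) (nat_lit 671955502) (nat_lit 76) (nat_lit 6747123904) (nat_lit 379) (nat_lit 5) (nat_lit 391) (nat_lit 5) (nat_lit 380) (nat_lit 5) (nat_lit 567) (nat_lit 507) (nat_lit 486)) (XT.lf (nat_lit 0) (nat_lit 3289971129) (nat_lit 836) (nat_lit 2790233765) (nat_lit 76) (nat_lit 1556694451) (nat_lit 369) (nat_lit 5) (nat_lit 380) (nat_lit 5) (nat_lit 370) (nat_lit 5) (nat_lit 568) (nat_lit 507) (nat_lit 485))) (XT.nd (nat_lit 78) (nat_lit 836) (nat_lit 0) (XT.lf (nat_lit 0) (nat_lit 2762129356) (nat_lit 836) (nat_lit 3689109067) (nat_lit 912) (nat_lit 1240644879) (nat_lit 358) (nat_lit 5) (nat_lit 369) (nat_lit 5) (nat_lit 370) (nat_lit 5) (nat_lit 569) (nat_lit 507) (nat_lit 484)) (XT.lf (nat_lit 0) (nat_lit 649273747) (nat_lit 760) (nat_lit 1221799473) (nat_lit 836) (nat_lit 5877280309) (nat_lit 347) (nat_lit 5) (nat_lit 357) (nat_lit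 5) (nat_lit 358) (nat_lit 5) (nat_lit 570) (nat_lit 507) (nat_lit 483))))))))
noncomputable def xc53 : XT := (XT.nd (nat_lit 1950) (nat_lit 6840) (nat_lit 0) (XT.nd (nat_lit 936) (nat_lit 5700) (nat_lit 0) (XT.nd (nat_lit 468) (nat_lit 2736) (nat_lit 0) (XT.nd (nat_lit 234) (nat_lit 1520) (nat_lit 0) (XT.nd (nat_lit 78) (nat_lit 1520) (nat_lit 0) (XT.lf (nat_lit 0) (nat_lit 5016277816) (nat_lit 836) (nat_lit 1478420087) (nat_lit 76) (nat_lit 1311342544) (nat_lit 347) (nat_lit 5) (nat_lit 358) (nat_lit 5) (nat_lit 348) (nat_lit 5) (nat_lit 571) (nat_lit 507) (nat_lit 482)) (XT.nd (nat_lit 78) (nat_lit 684) (nat_lit 0) (XT.lf (nat_lit 0) (nat_lit 337488832) (nat_lit 836) (nat_lit 3627035351) (nat_lit 76) (nat_lit 3900664523) (nat_lit 336) (nat_lit 5) (nat_lit 347) (nat_lit 5) (nat_lit 337) (nat_lit 5) (nat_lit 572) (nat_lit 507) (nat_lit 481)) (XT.lf (nat_lit 0) (nat_lit 2110863614) (nat_lit 684) (nat_lit 1350274414) (nat_lit 760) (nat_lit 4464597034) (nat_lit 327) (nat_lit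 5) (nat_lit 336) (nat_lit 5) (nat_lit 337) (nat_lit 5) (nat_lit 573) (nat_lit 507) (nat_lit 480)))) (XT.nd (nat_lit 78) (nat_lit 1520) (nat_lit 0) (XT.lf (nat_lit 0) (nat_lit 6628353805) (nat_lit 760) (nat_lit 45657819) (nat_lit 76) (nat_lit 1313866781) (nat_lit 327) (nat_lit 5) (nat_lit 337) (nat_lit 5) (nat_lit 328) (nat_lit 5) (nat_lit 574) (nat_lit 507) (nat_lit 479)) (XT.nd (nat_lit 78) (nat_lit 684) (nat_lit 0) (XT.lf (nat_lit 0) (nat_lit 1779866441) (nat_lit 836) (nat_lit 2217806353) (nat_lit 76) (nat_lit 4053446221) (nat_lit 316) (nat_lit 5) (nat_lit 327) (nat_lit 5) (nat_lit 317) (nat_lit 5) (nat_lit 575) (nat_lit 507) (nat_lit 478)) (XT.lf (nat_lit 0) (nat_lit 3692606974) (nat_lit 684) (nat_lit 1244862144) (nat_lit 760) (nat_lit 3178510507) (nat_lit 307) (nat_lit 5) (nat_lit 316) (nat_lit 5) (nat_lit 317) (nat_lit 5) (nat_lit 576) (nat_lit 507) (nat_lit 477))))) (XT.nd (nat_lit 234) (nat_lit 1368) (nat_lit 0) (XT.nd (nat_lit 78) (nat_lit 684) (nat_lit 0) (XT.lf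 (nat_lit 0) (nat_lit 1516889124) (nat_lit 684) (nat_lit 6626163256) (nat_lit 760) (nat_lit 39395828) (nat_lit 298) (nat_lit 5) (nat_lit 307) (nat_lit 5) (nat_lit 308) (nat_lit 5) (nat_lit 577) (nat_lit 507) (nat_lit 476)) (XT.nd (nat_lit 78) (nat_lit 608) (nat_lit 0) (XT.lf (nat_lit 0) (nat_lit 3109245553) (nat_lit 760) (nat_lit 705181327) (nat_lit 76) (nat_lit 4435651239) (nat_lit 297) (nat_lit 5) (nat_lit 307) (nat_lit 5) (nat_lit 298) (nat_lit 5) (nat_lit 578) (nat_lit 507) (nat_lit 475)) (XT.lf (nat_lit 0) (nat_lit 5383502419) (nat_lit 608) (nat_lit 922859402) (nat_lit 684) (nat_lit 2012979915) (nat_lit 289) (nat_lit 5) (nat_lit 297) (nat_lit 5) (nat_lit 298) (nat_lit 5) (nat_lit 579) (nat_lit 507) (nat_lit 474)))) (XT.nd (nat_lit 78) (nat_lit 608) (nat_lit 0) (XT.lf (nat_lit 0) (nat_lit 1152044997) (nat_lit 760) (nat_lit 5217364863) (nat_lit 76) (nat_lit 2020633362) (nat_lit 279) (nat_lit 5) (nat_lit 289) (nat_lit 5) (nat_lit 280) (nat_lit 5) (nat_lit 580) (nat_lit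 507) (nat_lit 473)) (XT.nd (nat_lit 78) (nat_lit 0) (nat_lit 0) (XT.lf (nat_lit 0) (nat_lit 911805804) (nat_lit 608) (nat_lit 3425286143) (nat_lit 684) (nat_lit 4125133675) (nat_lit 271) (nat_lit 5) (nat_lit 279) (nat_lit 5) (nat_lit 280) (nat_lit 5) (nat_lit 581) (nat_lit 507) (nat_lit 472)) (XT.lf (nat_lit 0) (nat_lit 7172713061) (nat_lit 608) (nat_lit 400470593) (nat_lit 684) (nat_lit 962927520) (nat_lit 271) (nat_lit 5) (nat_lit 279) (nat_lit 5) (nat_lit 280) (nat_lit 5) (nat_lit 582) (nat_lit 507) (nat_lit 471)))))) (XT.nd (nat_lit 468) (nat_lit 2660) (nat_lit 0) (XT.nd (nat_lit 234) (nat_lit 1216) (nat_lit 0) (XT.nd (nat_lit 78) (nat_lit 1140) (nat_lit 0) (XT.lf (nat_lit 0) (nat_lit 2235502208) (nat_lit 684) (nat_lit 3692714917) (nat_lit 76) (nat_lit 2682916591) (nat_lit 262) (nat_lit 5) (nat_lit 271) (nat_lit 5) (nat_lit 263) (nat_lit 5) (nat_lit 583) (nat_lit 507) (nat_lit 470)) (XT.nd (nat_lit 78) (nat_lit 608) (nat_lit 0) (XT.lf (nat_lit 0) (nat_lit 2620723622)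 (nat_lit 532) (nat_lit 2846561956) (nat_lit 608) (nat_lit 3220604271) (nat_lit 255) (nat_lit 5) (nat_lit 262) (nat_lit 5) (nat_lit 263) (nat_lit 5) (nat_lit 584) (nat_lit 507) (nat_lit 469)) (XT.lf (nat_lit 0) (nat_lit 284578777) (nat_lit 608) (nat_lit 8461654178) (nat_lit 684) (nat_lit 20303479) (nat_lit 247) (nat_lit 5) (nat_lit 255) (nat_lit 5) (nat_lit 256) (nat_lit 5) (nat_lit 585) (nat_lit 507) (nat_lit 468)))) (XT.nd (nat_lit 78) (nat_lit 1140) (nat_lit 0) (XT.lf (nat_lit 0) (nat_lit 3215300931) (nat_lit 684) (nat_lit 2102598102) (nat_lit 76) (nat_lit 3528164470) (nat_lit 246) (nat_lit 5) (nat_lit 255) (nat_lit 5) (nat_lit 247) (nat_lit 5) (nat_lit 586) (nat_lit 507) (nat_lit 467)) (XT.nd (nat_lit 78) (nat_lit 608) (nat_lit 0) (XT.lf (nat_lit 0) (nat_lit 4401078356) (nat_lit 532) (nat_lit 2097752357) (nat_lit 608) (nat_lit 2428683568) (nat_lit 239) (nat_lit 5) (nat_lit 246) (nat_lit 5) (nat_lit 247) (nat_lit 5) (nat_lit 587) (nat_lit 507) (nat_lit 466)) (XT.lf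 (nat_lit 0) (nat_lit 816643680) (nat_lit 608) (nat_lit 7005833113) (nat_lit 76) (nat_lit 1188210080) (nat_lit 231) (nat_lit 5) (nat_lit 239) (nat_lit 5) (nat_lit 232) (nat_lit 5) (nat_lit 588) (nat_lit 507) (nat_lit 465))))) (XT.nd (nat_lit 234) (nat_lit 1520) (nat_lit 0) (XT.nd (nat_lit 78) (nat_lit 1140) (nat_lit 0) (XT.lf (nat_lit 0) (nat_lit 4094338243) (nat_lit 608) (nat_lit 458411428) (nat_lit 76) (nat_lit 4542457793) (nat_lit 231) (nat_lit 5) (nat_lit 239) (nat_lit 5) (nat_lit 232) (nat_lit 5) (nat_lit 589) (nat_lit 507) (nat_lit 464)) (XT.nd (nat_lit 78) (nat_lit 608) (nat_lit 0) (XT.lf (nat_lit 0) (nat_lit 6241578188) (nat_lit 532) (nat_lit 1192887992) (nat_lit 608) (nat_lit 1747019825) (nat_lit 224) (nat_lit 5) (nat_lit 231) (nat_lit 5) (nat_lit 232) (nat_lit 5) (nat_lit 590) (nat_lit 507) (nat_lit 463)) (XT.lf (nat_lit 0) (nat_lit 1550181810) (nat_lit 608) (nat_lit 5492827116) (nat_lit 76) (nat_lit 2226304186) (nat_lit 216) (nat_lit 5) (nat_lit 224) (nat_lit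 5) (nat_lit 217) (nat_lit 5) (nat_lit 591) (nat_lit 507) (nat_lit 462)))) (XT.nd (nat_lit 156) (nat_lit 1064) (nat_lit 0) (XT.nd (nat_lit 78) (nat_lit 0) (nat_lit 0) (XT.lf (nat_lit 0) (nat_lit 1244495146) (nat_lit 456) (nat_lit 3638183999) (nat_lit 532) (nat_lit 4476136610) (nat_lit 210) (nat_lit 5) (nat_lit 216) (nat_lit 5) (nat_lit 217) (nat_lit 5) (nat_lit 592) (nat_lit 507) (nat_lit 461)) (XT.lf (nat_lit 0) (nat_lit 8130637352) (nat_lit 456) (nat_lit 145385618) (nat_lit 532) (nat_lit 1174206290) (nat_lit 210) (nat_lit 5) (nat_lit 216) (nat_lit 5) (nat_lit 217) (nat_lit 5) (nat_lit 593) (nat_lit 507) (nat_lit 460))) (XT.nd (nat_lit 78) (nat_lit 456) (nat_lit 0) (XT.lf (nat_lit 0) (nat_lit 2181718686) (nat_lit 608) (nat_lit 3955103695) (nat_lit 76) (nat_lit 3406033791) (nat_lit 202) (nat_lit 5) (nat_lit 210) (nat_lit 5) (nat_lit 203) (nat_lit 5) (nat_lit 594) (nat_lit 507) (nat_lit 459)) (XT.lf (nat_lit 0) (nat_lit 2984220470) (nat_lit 456) (nat_lit 2592302902) (nat_lit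 532) (nat_lit 4060911809) (nat_lit 196) (nat_lit 5) (nat_lit 202) (nat_lit 5) (nat_lit 203) (nat_lit 5) (nat_lit 595) (nat_lit 507) (nat_lit 458))))))) (XT.nd (nat_lit 936) (nat_lit 3192) (nat_lit 0) (XT.nd (nat_lit 468) (nat_lit 1748) (nat_lit 0) (XT.nd (nat_lit 234) (nat_lit 912) (nat_lit 0) (XT.nd (nat_lit 78) (nat_lit 532) (nat_lit 0) (XT.lf (nat_lit 0) (nat_lit 319530839) (nat_lit 456) (nat_lit 8713656742) (nat_lit 532) (nat_lit 700843301) (nat_lit 190) (nat_lit 5) (nat_lit 196) (nat_lit 5) (nat_lit 197) (nat_lit 5) (nat_lit 596) (nat_lit 507) (nat_lit 457)) (XT.nd (nat_lit 78) (nat_lit 456) (nat_lit 0) (XT.lf (nat_lit 0) (nat_lit 2711455789) (nat_lit 532) (nat_lit 2405479178) (nat_lit 76) (nat_lit 4714857968) (nat_lit 189) (nat_lit 5) (nat_lit 196) (nat_lit 5) (nat_lit 190) (nat_lit 5) (nat_lit 597) (nat_lit 507) (nat_lit 456)) (XT.lf (nat_lit 0) (nat_lit 4741893127) (nat_lit 456) (nat_lit 1431006958) (nat_lit 532) (nat_lit 3758715951) (nat_lit 183) (nat_lit 5)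 (nat_lit 189) (nat_lit 5) (nat_lit 190) (nat_lit 5) (nat_lit 598) (nat_lit 507) (nat_lit 455)))) (XT.nd (nat_lit 78) (nat_lit 456) (nat_lit 0) (XT.lf (nat_lit 0) (nat_lit 1982814809) (nat_lit 456) (nat_lit 7724776196) (nat_lit 532) (nat_lit 325768281) (nat_lit 177) (nat_lit 5) (nat_lit 183) (nat_lit 5) (nat_lit 184) (nat_lit 5) (nat_lit 599) (nat_lit 507) (nat_lit 454)) (XT.nd (nat_lit 78) (nat_lit 380) (nat_lit 0) (XT.lf (nat_lit 0) (nat_lit 3138632114) (nat_lit 532) (nat_lit 857431973) (nat_lit 76) (nat_lit 6140575904) (nat_lit 176) (nat_lit 5) (nat_lit 183) (nat_lit 5) (nat_lit 177) (nat_lit 5) (nat_lit 600) (nat_lit 507) (nat_lit 453)) (XT.lf (nat_lit 0) (nat_lit 6504044664) (nat_lit 380) (nat_lit 166844692) (nat_lit 456) (nat_lit 3570999082) (nat_lit 171) (nat_lit 5) (nat_lit 176) (nat_lit 5) (nat_lit 177) (nat_lit 5) (nat_lit 601) (nat_lit 507) (nat_lit 452))))) (XT.nd (nat_lit 234) (nat_lit 836) (nat_lit 0) (XT.nd (nat_lit 78) (nat_lit 456) (nat_lit 0) (XT.lf (nat_lit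 0) (nat_lit 3639755987) (nat_lit 456) (nat_lit 6648700188) (nat_lit 532) (nat_lit 60496128) (nat_lit 165) (nat_lit 5) (nat_lit 171) (nat_lit 5) (nat_lit 172) (nat_lit 5) (nat_lit 602) (nat_lit 507) (nat_lit 451)) (XT.nd (nat_lit 78) (nat_lit 0) (nat_lit 0) (XT.lf (nat_lit 0) (nat_lit 683713794) (nat_lit 380) (nat_lit 2782218705) (nat_lit 456) (nat_lit 6991933748) (nat_lit 159) (nat_lit 5) (nat_lit 164) (nat_lit 5) (nat_lit 165) (nat_lit 5) (nat_lit 603) (nat_lit 507) (nat_lit 450)) (XT.lf (nat_lit 0) (nat_lit 7076284850) (nat_lit 456) (nat_lit 2320172549) (nat_lit 76) (nat_lit 1172212493) (nat_lit 159) (nat_lit 5) (nat_lit 165) (nat_lit 5) (nat_lit 160) (nat_lit 5) (nat_lit 604) (nat_lit 507) (nat_lit 449)))) (XT.nd (nat_lit 78) (nat_lit 380) (nat_lit 0) (XT.lf (nat_lit 0) (nat_lit 91014817) (nat_lit 456) (nat_lit 5406483493) (nat_lit 76) (nat_lit 5183887226) (nat_lit 153) (nat_lit 5) (nat_lit 159) (nat_lit 5) (nat_lit 154) (nat_lit 5) (nat_lit 605) (nat_lit 507) (nat_lit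 448)) (XT.nd (nat_lit 78) (nat_lit 0) (nat_lit 0) (XT.lf (nat_lit 0) (nat_lit 2204707103) (nat_lit 380) (nat_lit 1486859811) (nat_lit 456) (nat_lit 7104485257) (nat_lit 148) (nat_lit 5) (nat_lit 153) (nat_lit 5) (nat_lit 154) (nat_lit 5) (nat_lit 606) (nat_lit 507) (nat_lit 447)) (XT.lf (nat_lit 0) (nat_lit 7380006202) (nat_lit 456) (nat_lit 946522429) (nat_lit 76) (nat_lit 2586169239) (nat_lit 148) (nat_lit 5) (nat_lit 154) (nat_lit 5) (nat_lit 149) (nat_lit 5) (nat_lit 607) (nat_lit 507) (nat_lit 446)))))) (XT.nd (nat_lit 468) (nat_lit 1368) (nat_lit 0) (XT.nd (nat_lit 234) (nat_lit 684) (nat_lit 0) (XT.nd (nat_lit 78) (nat_lit 684) (nat_lit 0) (XT.lf (nat_lit 0) (nat_lit 126865219) (nat_lit 456) (nat_lit 4158004962) (nat_lit 76) (nat_lit 6746439534) (nat_lit 142) (nat_lit 5) (nat_lit 148) (nat_lit 5) (nat_lit 143) (nat_lit 5) (nat_lit 608) (nat_lit 507) (nat_lit 445)) (XT.nd (nat_lit 78) (nat_lit 380) (nat_lit 0) (XT.lf (nat_lit 0) (nat_lit 3677522872) (nat_lit 304)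 (nat_lit 128394882) (nat_lit 380) (nat_lit 7346039941) (nat_lit 138) (nat_lit 5) (nat_lit 142) (nat_lit 5) (nat_lit 143) (nat_lit 5) (nat_lit 609) (nat_lit 507) (nat_lit 444)) (XT.lf (nat_lit 0) (nat_lit 371983912) (nat_lit 380) (nat_lit 7207269422) (nat_lit 456) (nat_lit 3695354269) (nat_lit 133) (nat_lit 5) (nat_lit 138) (nat_lit 5) (nat_lit 139) (nat_lit 5) (nat_lit 610) (nat_lit 507) (nat_lit 443)))) (XT.nd (nat_lit 78) (nat_lit 608) (nat_lit 0) (XT.lf (nat_lit 0) (nat_lit 42921364) (nat_lit 456) (nat_lit 2981212709) (nat_lit 76) (nat_lit 8375276684) (nat_lit 132) (nat_lit 5) (nat_lit 138) (nat_lit 5) (nat_lit 133) (nat_lit 5) (nat_lit 611) (nat_lit 507) (nat_lit 442)) (XT.nd (nat_lit 78) (nat_lit 304) (nat_lit 0) (XT.lf (nat_lit 0) (nat_lit 3812172225) (nat_lit 380) (nat_lit 6450410245) (nat_lit 76) (nat_lit 1263528000) (nat_lit 128) (nat_lit 5) (nat_lit 133) (nat_lit 5) (nat_lit 129) (nat_lit 5) (nat_lit 612) (nat_lit 507) (nat_lit 441)) (XT.lf (nat_lit 0) (nat_lit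 1623495343) (nat_lit 304) (nat_lit 6048538859) (nat_lit 380) (nat_lit 3983008231) (nat_lit 124) (nat_lit 5) (nat_lit 128) (nat_lit 5) (nat_lit 129) (nat_lit 5) (nat_lit 613) (nat_lit 507) (nat_lit 440))))) (XT.nd (nat_lit 234) (nat_lit 684) (nat_lit 0) (XT.nd (nat_lit 78) (nat_lit 684) (nat_lit 0) (XT.lf (nat_lit 0) (nat_lit 9889834405) (nat_lit 304) (nat_lit 1727393553) (nat_lit 380) (nat_lit 169165109) (nat_lit 124) (nat_lit 5) (nat_lit 128) (nat_lit 5) (nat_lit 129) (nat_lit 5) (nat_lit 614) (nat_lit 507) (nat_lit 439)) (XT.nd (nat_lit 78) (nat_lit 304) (nat_lit 0) (XT.lf (nat_lit 0) (nat_lit 3696747134) (nat_lit 380) (nat_lit 5532314539) (nat_lit 76) (nat_lit 2690336615) (nat_lit 119) (nat_lit 5) (nat_lit 124) (nat_lit 5) (nat_lit 120) (nat_lit 5) (nat_lit 615) (nat_lit 507) (nat_lit 438)) (XT.lf (nat_lit 0) (nat_lit 2775025457) (nat_lit 304) (nat_lit 4870447739) (nat_lit 380) (nat_lit 4409415406) (nat_lit 115) (nat_lit 5) (nat_lit 119) (nat_lit 5) (nat_lit 120) (nat_lit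 5) (nat_lit 616) (nat_lit 507) (nat_lit 437)))) (XT.nd (nat_lit 156) (nat_lit 304) (nat_lit 0) (XT.nd (nat_lit 78) (nat_lit 380) (nat_lit 0) (XT.lf (nat_lit 0) (nat_lit 11267849297) (nat_lit 304) (nat_lit 408254923) (nat_lit 380) (nat_lit 516928408) (nat_lit 115) (nat_lit 5) (nat_lit 119) (nat_lit 5) (nat_lit 120) (nat_lit 5) (nat_lit 617) (nat_lit 507) (nat_lit 436)) (XT.lf (nat_lit 0) (nat_lit 3451074402) (nat_lit 380) (nat_lit 4741338144) (nat_lit 76) (nat_lit 4140221807) (nat_lit 110) (nat_lit 5) (nat_lit 115) (nat_lit 5) (nat_lit 111) (nat_lit 5) (nat_lit 618) (nat_lit 507) (nat_lit 435))) (XT.nd (nat_lit 78) (nat_lit 0) (nat_lit 0) (XT.lf (nat_lit 0) (nat_lit 3804282066) (nat_lit 304) (nat_lit 3687314083) (nat_lit 380) (nat_lit 4983364386) (nat_lit 106) (nat_lit 5) (nat_lit 110) (nat_lit 5) (nat_lit 111) (nat_lit 5) (nat_lit 619) (nat_lit 507) (nat_lit 434)) (XT.lf (nat_lit 0) (nat_lit 11617433986) (nat_lit 380) (nat_lit 95868459) (nat_lit 76) (nat_lit 906743005)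 (nat_lit 106) (nat_lit 5) (nat_lit 111) (nat_lit 5) (nat_lit 107) (nat_lit 5) (nat_lit 620) (nat_lit 507) (nat_lit 433))))))))
noncomputable def xc54 : XT := (XT.nd (nat_lit 1950) (nat_lit 304) (nat_lit 0) (XT.nd (nat_lit 936) (nat_lit 1900) (nat_lit 0) (XT.nd (nat_lit 468) (nat_lit 1064) (nat_lit 0) (XT.nd (nat_lit 234) (nat_lit 608) (nat_lit 0) (XT.nd (nat_lit 78) (nat_lit 532) (nat_lit 0) (XT.lf (nat_lit 0) (nat_lit 3066020566) (nat_lit 304) (nat_lit 4101577678) (nat_lit 76) (nat_lit 5599071653) (nat_lit 102) (nat_lit 5) (nat_lit 106) (nat_lit 5) (nat_lit 103) (nat_lit 5) (nat_lit 621) (nat_lit 507) (nat_lit 432)) (XT.nd (nat_lit 78) (nat_lit 228) (nat_lit 0) (XT.lf (nat_lit 0) (nat_lit 4686837044) (nat_lit 304) (nat_lit 2514167254) (nat_lit 380) (nat_lit 5715124098) (nat_lit 98) (nat_lit 5) (nat_lit 102) (nat_lit 5) (nat_lit 103) (nat_lit 5) (nat_lit 622) (nat_lit 507) (nat_lit 431)) (XT.lf (nat_lit 0) (nat_lit 576986050) (nat_lit 228) (nat_lit 10855111663) (nat_lit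 304) (nat_lit 1636212299) (nat_lit 95) (nat_lit 5) (nat_lit 98) (nat_lit 5) (nat_lit 99) (nat_lit 5) (nat_lit 623) (nat_lit 507) (nat_lit 430)))) (XT.nd (nat_lit 78) (nat_lit 532) (nat_lit 0) (XT.lf (nat_lit 0) (nat_lit 2530944914) (nat_lit 304) (nat_lit 3639469280) (nat_lit 76) (nat_lit 7051999874) (nat_lit 94) (nat_lit 5) (nat_lit 98) (nat_lit 5) (nat_lit 95) (nat_lit 5) (nat_lit 624) (nat_lit 507) (nat_lit 429)) (XT.nd (nat_lit 78) (nat_lit 228) (nat_lit 0) (XT.lf (nat_lit 0) (nat_lit 5395851695) (nat_lit 304) (nat_lit 1366910025) (nat_lit 380) (nat_lit 6616559693) (nat_lit 90) (nat_lit 5) (nat_lit 94) (nat_lit 5) (nat_lit 95) (nat_lit 5) (nat_lit 625) (nat_lit 507) (nat_lit 428)) (XT.lf (nat_lit 0) (nat_lit 1059488585) (nat_lit 228) (nat_lit 10042436231) (nat_lit 304) (nat_lit 2436989874) (nat_lit 87) (nat_lit 5) (nat_lit 90) (nat_lit 5) (nat_lit 91) (nat_lit 5) (nat_lit 626) (nat_lit 507) (nat_lit 427))))) (XT.nd (nat_lit 234) (nat_lit 532) (nat_lit 0) (XT.nd (nat_lit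 78) (nat_lit 456) (nat_lit 0) (XT.lf (nat_lit 0) (nat_lit 1833576801) (nat_lit 304) (nat_lit 3384080691) (nat_lit 76) (nat_lit 8483179993) (nat_lit 86) (nat_lit 5) (nat_lit 90) (nat_lit 5) (nat_lit 87) (nat_lit 5) (nat_lit 627) (nat_lit 507) (nat_lit 426)) (XT.nd (nat_lit 78) (nat_lit 228) (nat_lit 0) (XT.lf (nat_lit 0) (nat_lit 5901776145) (nat_lit 228) (nat_lit 262491774) (nat_lit 304) (nat_lit 7701263627) (nat_lit 83) (nat_lit 5) (nat_lit 86) (nat_lit 5) (nat_lit 87) (nat_lit 5) (nat_lit 628) (nat_lit 507) (nat_lit 425)) (XT.lf (nat_lit 0) (nat_lit 1319410071) (nat_lit 228) (nat_lit 9293823865) (nat_lit 304) (nat_lit 3419654163) (nat_lit 80) (nat_lit 5) (nat_lit 83) (nat_lit 5) (nat_lit 84) (nat_lit 5) (nat_lit 629) (nat_lit 507) (nat_lit 424)))) (XT.nd (nat_lit 78) (nat_lit 456) (nat_lit 0) (XT.lf (nat_lit 0) (nat_lit 959877243) (nat_lit 304) (nat_lit 3367431289) (nat_lit 76) (nat_lit 9875667614) (nat_lit 79) (nat_lit 5) (nat_lit 83) (nat_lit 5) (nat_lit 80) (nat_lit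 5) (nat_lit 630) (nat_lit 507) (nat_lit 423)) (XT.nd (nat_lit 78) (nat_lit 228) (nat_lit 0) (XT.lf (nat_lit 0) (nat_lit 5396184416) (nat_lit 304) (nat_lit 8208867863) (nat_lit 76) (nat_lit 770663838) (nat_lit 76) (nat_lit 5) (nat_lit 80) (nat_lit 5) (nat_lit 77) (nat_lit 5) (nat_lit 631) (nat_lit 507) (nat_lit 422)) (XT.lf (nat_lit 0) (nat_lit 1322602591) (nat_lit 228) (nat_lit 8628513841) (nat_lit 304) (nat_lit 4600198173) (nat_lit 73) (nat_lit 5) (nat_lit 76) (nat_lit 5) (nat_lit 77) (nat_lit 5) (nat_lit 632) (nat_lit 507) (nat_lit 421)))))) (XT.nd (nat_lit 468) (nat_lit 912) (nat_lit 0) (XT.nd (nat_lit 234) (nat_lit 456) (nat_lit 0) (XT.nd (nat_lit 78) (nat_lit 532) (nat_lit 0) (XT.lf (nat_lit 0) (nat_lit 11104380389) (nat_lit 228) (nat_lit 3518014520) (nat_lit 304) (nat_lit 107526858) (nat_lit 73) (nat_lit 5) (nat_lit 76) (nat_lit 5) (nat_lit 77) (nat_lit 5) (nat_lit 633) (nat_lit 507) (nat_lit 420)) (XT.nd (nat_lit 78) (nat_lit 228) (nat_lit 0) (XT.lf (nat_lit 0)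 (nat_lit 4438243806) (nat_lit 304) (nat_lit 8752040603) (nat_lit 76) (nat_lit 1720798438) (nat_lit 69) (nat_lit 5) (nat_lit 73) (nat_lit 5) (nat_lit 70) (nat_lit 5) (nat_lit 634) (nat_lit 507) (nat_lit 419)) (XT.lf (nat_lit 0) (nat_lit 1031349476) (nat_lit 228) (nat_lit 8067287822) (nat_lit 304) (nat_lit 5996714256) (nat_lit 66) (nat_lit 5) (nat_lit 69) (nat_lit 5) (nat_lit 70) (nat_lit 5) (nat_lit 635) (nat_lit 507) (nat_lit 418)))) (XT.nd (nat_lit 78) (nat_lit 456) (nat_lit 0) (XT.lf (nat_lit 0) (nat_lit 11078292002) (nat_lit 228) (nat_lit 2803584344) (nat_lit 304) (nat_lit 1400838068) (nat_lit 66) (nat_lit 5) (nat_lit 69) (nat_lit 5) (nat_lit 70) (nat_lit 5) (nat_lit 636) (nat_lit 507) (nat_lit 417)) (XT.nd (nat_lit 78) (nat_lit 152) (nat_lit 0) (XT.lf (nat_lit 0) (nat_lit 3270075940) (nat_lit 304) (nat_lit 9632430173) (nat_lit 76) (nat_lit 2570368485) (nat_lit 62) (nat_lit 5) (nat_lit 66) (nat_lit 5) (nat_lit 63) (nat_lit 5) (nat_lit 637) (nat_lit 507) (nat_lit 416))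 (XT.lf (nat_lit 0) (nat_lit 403952131) (nat_lit 152) (nat_lit 7632694693) (nat_lit 228) (nat_lit 7629587499) (nat_lit 60) (nat_lit 5) (nat_lit 62) (nat_lit 5) (nat_lit 63) (nat_lit 5) (nat_lit 638) (nat_lit 507) (nat_lit 415))))) (XT.nd (nat_lit 234) (nat_lit 608) (nat_lit 0) (XT.nd (nat_lit 78) (nat_lit 304) (nat_lit 0) (XT.lf (nat_lit 0) (nat_lit 10721720732) (nat_lit 152) (nat_lit 2213092069) (nat_lit 228) (nat_lit 2927924584) (nat_lit 60) (nat_lit 5) (nat_lit 62) (nat_lit 5) (nat_lit 63) (nat_lit 5) (nat_lit 639) (nat_lit 507) (nat_lit 414)) (XT.nd (nat_lit 78) (nat_lit 0) (nat_lit 0) (XT.lf (nat_lit 0) (nat_lit 1870651254) (nat_lit 304) (nat_lit 10895203607) (nat_lit 76) (nat_lit 3296526955) (nat_lit 56) (nat_lit 5) (nat_lit 60) (nat_lit 5) (nat_lit 57) (nat_lit 5) (nat_lit 640) (nat_lit 507) (nat_lit 413)) (XT.lf (nat_lit 0) (nat_lit 6747503134) (nat_lit 304) (nat_lit 597780346) (nat_lit 76) (nat_lit 8919919732) (nat_lit 56) (nat_lit 5) (nat_lit 60) (nat_lit 5)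 (nat_lit 57) (nat_lit 5) (nat_lit 641) (nat_lit 507) (nat_lit 412)))) (XT.nd (nat_lit 156) (nat_lit 152) (nat_lit 0) (XT.nd (nat_lit 78) (nat_lit 304) (nat_lit 0) (XT.lf (nat_lit 0) (nat_lit 9988155428) (nat_lit 152) (nat_lit 1771222774) (nat_lit 228) (nat_lit 4711954418) (nat_lit 54) (nat_lit 5) (nat_lit 56) (nat_lit 5) (nat_lit 57) (nat_lit 5) (nat_lit 642) (nat_lit 507) (nat_lit 411)) (XT.lf (nat_lit 0) (nat_lit 216350065) (nat_lit 304) (nat_lit 12590319511) (nat_lit 76) (nat_lit 3874312946) (nat_lit 50) (nat_lit 5) (nat_lit 54) (nat_lit 5) (nat_lit 51) (nat_lit 5) (nat_lit 643) (nat_lit 507) (nat_lit 410))) (XT.nd (nat_lit 78) (nat_lit 152) (nat_lit 0) (XT.lf (nat_lit 0) (nat_lit 5208475992) (nat_lit 304) (nat_lit 2021882787) (nat_lit 76) (nat_lit 9663277991) (nat_lit 50) (nat_lit 5) (nat_lit 54) (nat_lit 5) (nat_lit 51) (nat_lit 5) (nat_lit 644) (nat_lit 507) (nat_lit 409)) (XT.lf (nat_lit 0) (nat_lit 8826064763) (nat_lit 152) (nat_lit 1504984188) (nat_lit 228) (nat_lit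 6778884268) (nat_lit 48) (nat_lit 5) (nat_lit 50) (nat_lit 5) (nat_lit 51) (nat_lit 5) (nat_lit 645) (nat_lit 507) (nat_lit 408))))))) (XT.nd (nat_lit 74022) (nat_lit 0) (nat_lit 25536) (XT.nd (nat_lit 73554) (nat_lit 0) (nat_lit 38608) (XT.nd (nat_lit 73320) (nat_lit 0) (nat_lit 44156) (XT.nd (nat_lit 78) (nat_lit 76) (nat_lit 0) (XT.lf (nat_lit 0) (nat_lit 2545548825) (nat_lit 228) (nat_lit 13042235843) (nat_lit 304) (nat_lit 1742137888) (nat_lit 45) (nat_lit 5) (nat_lit 48) (nat_lit 5) (nat_lit 49) (nat_lit 5) (nat_lit 646) (nat_lit 507) (nat_lit 407)) (XT.nd (nat_lit 73164) (nat_lit 0) (nat_lit 46512) (XT.lf (nat_lit 0) (nat_lit 3390156333) (nat_lit 304) (nat_lit 3929471563) (nat_lit 76) (nat_lit 10233457158) (nat_lit 44) (nat_lit 5) (nat_lit 48) (nat_lit 5) (nat_lit 45) (nat_lit 5) (nat_lit 647) (nat_lit 507) (nat_lit 406)) (XT.lf (nat_lit 0) (nat_lit 2899384471) (nat_lit 988) (nat_lit 230099857) (nat_lit 988) (nat_lit 230099857) (nat_lit 656) (nat_lit 4) (nat_lit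 669) (nat_lit 5) (nat_lit 669) (nat_lit 4) (nat_lit 544) (nat_lit 508) (nat_lit 508)))) (XT.nd (nat_lit 78) (nat_lit 1216) (nat_lit 0) (XT.lf (nat_lit 0) (nat_lit 2833354778) (nat_lit 1140) (nat_lit 3211368969) (nat_lit 0) (nat_lit 698079264) (nat_lit 641) (nat_lit 5) (nat_lit 656) (nat_lit 4) (nat_lit 641) (nat_lit 4) (nat_lit 545) (nat_lit 508) (nat_lit 507)) (XT.nd (nat_lit 78) (nat_lit 76) (nat_lit 0) (XT.lf (nat_lit 0) (nat_lit 1268727494) (nat_lit 1140) (nat_lit 4863950435) (nat_lit 1140) (nat_lit 635267555) (nat_lit 626) (nat_lit 4) (nat_lit 641) (nat_lit 5) (nat_lit 641) (nat_lit 4) (nat_lit 546) (nat_lit 508) (nat_lit 506)) (XT.lf (nat_lit 0) (nat_lit 2619704674) (nat_lit 1216) (nat_lit 989239601) (nat_lit 76) (nat_lit 3185296330) (nat_lit 625) (nat_lit 5) (nat_lit 641) (nat_lit 5) (nat_lit 626) (nat_lit 4) (nat_lit 547) (nat_lit 508) (nat_lit 505))))) (XT.nd (nat_lit 234) (nat_lit 2964) (nat_lit 0) (XT.nd (nat_lit 78) (nat_lit 1368) (nat_lit 0) (XT.lf (nat_lit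 0) (nat_lit 3594724608) (nat_lit 1216) (nat_lit 2290367203) (nat_lit 1292) (nat_lit 936825584) (nat_lit 609) (nat_lit 5) (nat_lit 625) (nat_lit 5) (nat_lit 626) (nat_lit 4) (nat_lit 548) (nat_lit 508) (nat_lit 504)) (XT.nd (nat_lit 78) (nat_lit 0) (nat_lit 0) (XT.lf (nat_lit 0) (nat_lit 1376719531) (nat_lit 1292) (nat_lit 904501052) (nat_lit 1368) (nat_lit 4569703357) (nat_lit 591) (nat_lit 5) (nat_lit 608) (nat_lit 5) (nat_lit 609) (nat_lit 5) (nat_lit 549) (nat_lit 508) (nat_lit 503)) (XT.lf (nat_lit 0) (nat_lit 5508211657) (nat_lit 1368) (nat_lit 834010676) (nat_lit 76) (nat_lit 539037122) (nat_lit 591) (nat_lit 5) (nat_lit 609) (nat_lit 5) (nat_lit 592) (nat_lit 4) (nat_lit 550) (nat_lit 508) (nat_lit 502)))) (XT.nd (nat_lit 78) (nat_lit 1520) (nat_lit 0) (XT.lf (nat_lit 0) (nat_lit 1827090672) (nat_lit 1444) (nat_lit 3040549417) (nat_lit 76) (nat_lit 2045045039) (nat_lit 572) (nat_lit 5) (nat_lit 591) (nat_lit 5) (nat_lit 573) (nat_lit 5) (nat_lit 551) (nat_lit 508)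 (nat_lit 501)) (XT.nd (nat_lit 78) (nat_lit 76) (nat_lit 0) (XT.lf (nat_lit 0) (nat_lit 1692097831) (nat_lit 1444) (nat_lit 3331203798) (nat_lit 1520) (nat_lit 1922261441) (nat_lit 553) (nat_lit 5) (nat_lit 572) (nat_lit 5) (nat_lit 573) (nat_lit 5) (nat_lit 552) (nat_lit 508) (nat_lit 500)) (XT.lf (nat_lit 0) (nat_lit 1242052345) (nat_lit 1520) (nat_lit 487220020) (nat_lit 76) (nat_lit 5250574230) (nat_lit 552) (nat_lit 5) (nat_lit 572) (nat_lit 5) (nat_lit 553) (nat_lit 5) (nat_lit 553) (nat_lit 508) (nat_lit 499)))))) (XT.nd (nat_lit 468) (nat_lit 4712) (nat_lit 0) (XT.nd (nat_lit 234) (nat_lit 3496) (nat_lit 0) (XT.nd (nat_lit 78) (nat_lit 3344) (nat_lit 0) (XT.lf (nat_lit 0) (nat_lit 4359442571) (nat_lit 1520) (nat_lit 48369729) (nat_lit 1596) (nat_lit 2607484929) (nat_lit 532) (nat_lit 5) (nat_lit 552) (nat_lit 5) (nat_lit 553) (nat_lit 5) (nat_lit 554) (nat_lit 508) (nat_lit 498)) (XT.nd (nat_lit 78) (nat_lit 1672) (nat_lit 0) (XT.lf (nat_lit 0) (nat_lit 542486296)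 (nat_lit 1672) (nat_lit 4839537520) (nat_lit 76) (nat_lit 1670075378) (nat_lit 510) (nat_lit 5) (nat_lit 532) (nat_lit 5) (nat_lit 511) (nat_lit 5) (nat_lit 555) (nat_lit 508) (nat_lit 497)) (XT.lf (nat_lit 0) (nat_lit 47249194) (nat_lit 1672) (nat_lit 3628803158) (nat_lit 1748) (nat_lit 3414142704) (nat_lit 488) (nat_lit 5) (nat_lit 510) (nat_lit 5) (nat_lit 511) (nat_lit 5) (nat_lit 556) (nat_lit 508) (nat_lit 496)))) (XT.nd (nat_lit 78) (nat_lit 3496) (nat_lit 0) (XT.lf (nat_lit 0) (nat_lit 5037041983) (nat_lit 1672) (nat_lit 1805478626) (nat_lit 1748) (nat_lit 287140116) (nat_lit 488) (nat_lit 5) (nat_lit 510) (nat_lit 5) (nat_lit 511) (nat_lit 5) (nat_lit 557) (nat_lit 508) (nat_lit 495)) (XT.nd (nat_lit 78) (nat_lit 1672) (nat_lit 0) (XT.lf (nat_lit 0) (nat_lit 2822442116) (nat_lit 1824) (nat_lit 4254873464) (nat_lit 76) (nat_lit 93073164) (nat_lit 464) (nat_lit 5) (nat_lit 488) (nat_lit 5) (nat_lit 465) (nat_lit 5) (nat_lit 558) (nat_lit 508) (nat_lit 494)) (XT.lf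 (nat_lit 0) (nat_lit 775939836) (nat_lit 1672) (nat_lit 5184949165) (nat_lit 1748) (nat_lit 1251605793) (nat_lit 442) (nat_lit 5) (nat_lit 464) (nat_lit 5) (nat_lit 465) (nat_lit 5) (nat_lit 559) (nat_lit 508) (nat_lit 493))))) (XT.nd (nat_lit 234) (nat_lit 2660) (nat_lit 0) (XT.nd (nat_lit 78) (nat_lit 1976) (nat_lit 0) (XT.lf (nat_lit 0) (nat_lit 1850169845) (nat_lit 1748) (nat_lit 1363619486) (nat_lit 76) (nat_lit 4042047094) (nat_lit 441) (nat_lit 5) (nat_lit 464) (nat_lit 5) (nat_lit 442) (nat_lit 5) (nat_lit 560) (nat_lit 508) (nat_lit 492)) (XT.nd (nat_lit 78) (nat_lit 988) (nat_lit 0) (XT.lf (nat_lit 0) (nat_lit 3792197244) (nat_lit 988) (nat_lit 1170615473) (nat_lit 1064) (nat_lit 2337766002) (nat_lit 428) (nat_lit 5) (nat_lit 441) (nat_lit 5) (nat_lit 442) (nat_lit 5) (nat_lit 561) (nat_lit 508) (nat_lit 491)) (XT.lf (nat_lit 0) (nat_lit 748644879) (nat_lit 988) (nat_lit 5672985186) (nat_lit 76) (nat_lit 925143035) (nat_lit 415) (nat_lit 5) (nat_lit 428) (nat_lit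 5) (nat_lit 416) (nat_lit 5) (nat_lit 562) (nat_lit 508) (nat_lit 490)))) (XT.nd (nat_lit 156) (nat_lit 1748) (nat_lit 0) (XT.nd (nat_lit 78) (nat_lit 912) (nat_lit 0) (XT.lf (nat_lit 0) (nat_lit 3839036550) (nat_lit 988) (nat_lit 470830039) (nat_lit 76) (nat_lit 3084255090) (nat_lit 415) (nat_lit 5) (nat_lit 428) (nat_lit 5) (nat_lit 416) (nat_lit 5) (nat_lit 563) (nat_lit 508) (nat_lit 489)) (XT.lf (nat_lit 0) (nat_lit 4838853159) (nat_lit 912) (nat_lit 2127010306) (nat_lit 988) (nat_lit 477071477) (nat_lit 403) (nat_lit 5) (nat_lit 415) (nat_lit 5) (nat_lit 416) (nat_lit 5) (nat_lit 564) (nat_lit 508) (nat_lit 488))) (XT.nd (nat_lit 78) (nat_lit 836) (nat_lit 0) (XT.lf (nat_lit 0) (nat_lit 2592895664) (nat_lit 912) (nat_lit 4767413567) (nat_lit 76) (nat_lit 132773120) (nat_lit 391) (nat_lit 5) (nat_lit 403) (nat_lit 5) (nat_lit 392) (nat_lit 5) (nat_lit 565) (nat_lit 508) (nat_lit 487)) (XT.lf (nat_lit 0) (nat_lit 582667974) (nat_lit 836) (nat_lit 5114917850) (nat_lit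 912) (nat_lit 1846999252) (nat_lit 380) (nat_lit 5) (nat_lit 391) (nat_lit 5) (nat_lit 392) (nat_lit 5) (nat_lit 566) (nat_lit 508) (nat_lit 486))))))))
noncomputable def xc55 : XT := (XT.nd (nat_lit 1950) (nat_lit 7372) (nat_lit 0) (XT.nd (nat_lit 936) (nat_lit 6156) (nat_lit 0) (XT.nd (nat_lit 468) (nat_lit 2964) (nat_lit 0) (XT.nd (nat_lit 234) (nat_lit 1672) (nat_lit 0) (XT.nd (nat_lit 78) (nat_lit 1596) (nat_lit 0) (XT.lf (nat_lit 0) (nat_lit 1227406931) (nat_lit 912) (nat_lit 1561930032) (nat_lit 76) (nat_lit 4808090127) (nat_lit 379) (nat_lit 5) (nat_lit 391) (nat_lit 5) (nat_lit 380) (nat_lit 5) (nat_lit 567) (nat_lit 508) (nat_lit 485)) (XT.nd (nat_lit 78) (nat_lit 836) (nat_lit 0) (XT.lf (nat_lit 0) (nat_lit 3925120326) (nat_lit 760) (nat_lit 384615545) (nat_lit 836) (nat_lit 3341931692) (nat_lit 369) (nat_lit 5) (nat_lit 379) (nat_lit 5) (nat_lit 380) (nat_lit 5) (nat_lit 568) (nat_lit 508) (nat_lit 484)) (XT.lf (nat_lit 0) (nat_lit 1785389151) (nat_lit 836)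 (nat_lit 5650189019) (nat_lit 912) (nat_lit 271786272) (nat_lit 358) (nat_lit 5) (nat_lit 369) (nat_lit 5) (nat_lit 370) (nat_lit 5) (nat_lit 569) (nat_lit 508) (nat_lit 483)))) (XT.nd (nat_lit 78) (nat_lit 1596) (nat_lit 0) (XT.lf (nat_lit 0) (nat_lit 2796572273) (nat_lit 912) (nat_lit 388024671) (nat_lit 76) (nat_lit 4579729223) (nat_lit 357) (nat_lit 5) (nat_lit 369) (nat_lit 5) (nat_lit 358) (nat_lit 5) (nat_lit 570) (nat_lit 508) (nat_lit 482)) (XT.nd (nat_lit 78) (nat_lit 836) (nat_lit 0) (XT.lf (nat_lit 0) (nat_lit 5263892990) (nat_lit 760) (nat_lit 640589675) (nat_lit 836) (nat_lit 1918280471) (nat_lit 347) (nat_lit 5) (nat_lit 357) (nat_lit 5) (nat_lit 358) (nat_lit 5) (nat_lit 571) (nat_lit 508) (nat_lit 481)) (XT.lf (nat_lit 0) (nat_lit 1160227362) (nat_lit 836) (nat_lit 4770882157) (nat_lit 76) (nat_lit 1951438996) (nat_lit 336) (nat_lit 5) (nat_lit 347) (nat_lit 5) (nat_lit 337) (nat_lit 5) (nat_lit 572) (nat_lit 508) (nat_lit 480))))) (XT.nd (nat_lit 234)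 (nat_lit 1444) (nat_lit 0) (XT.nd (nat_lit 78) (nat_lit 836) (nat_lit 0) (XT.lf (nat_lit 0) (nat_lit 921296551) (nat_lit 684) (nat_lit 3329366788) (nat_lit 760) (nat_lit 3693099724) (nat_lit 327) (nat_lit 5) (nat_lit 336) (nat_lit 5) (nat_lit 337) (nat_lit 5) (nat_lit 573) (nat_lit 508) (nat_lit 479)) (XT.nd (nat_lit 78) (nat_lit 836) (nat_lit 0) (XT.lf (nat_lit 0) (nat_lit 6731549541) (nat_lit 684) (nat_lit 652501488) (nat_lit 760) (nat_lit 622535788) (nat_lit 327) (nat_lit 5) (nat_lit 336) (nat_lit 5) (nat_lit 337) (nat_lit 5) (nat_lit 574) (nat_lit 508) (nat_lit 478)) (XT.lf (nat_lit 0) (nat_lit 2469726089) (nat_lit 836) (nat_lit 3513423366) (nat_lit 76) (nat_lit 2087335241) (nat_lit 316) (nat_lit 5) (nat_lit 327) (nat_lit 5) (nat_lit 317) (nat_lit 5) (nat_lit 575) (nat_lit 508) (nat_lit 477)))) (XT.nd (nat_lit 78) (nat_lit 760) (nat_lit 0) (XT.lf (nat_lit 0) (nat_lit 2349438188) (nat_lit 684) (nat_lit 3244576341) (nat_lit 760) (nat_lit 2542000691) (nat_lit 307) (nat_lit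 5) (nat_lit 316) (nat_lit 5) (nat_lit 317) (nat_lit 5) (nat_lit 576) (nat_lit 508) (nat_lit 476)) (XT.nd (nat_lit 78) (nat_lit 0) (nat_lit 0) (XT.lf (nat_lit 0) (nat_lit 111616410) (nat_lit 684) (nat_lit 433767013) (nat_lit 760) (nat_lit 7657904314) (nat_lit 297) (nat_lit 5) (nat_lit 306) (nat_lit 5) (nat_lit 307) (nat_lit 5) (nat_lit 577) (nat_lit 508) (nat_lit 475)) (XT.lf (nat_lit 0) (nat_lit 3666471922) (nat_lit 760) (nat_lit 2159052986) (nat_lit 76) (nat_lit 2445931769) (nat_lit 297) (nat_lit 5) (nat_lit 307) (nat_lit 5) (nat_lit 298) (nat_lit 5) (nat_lit 578) (nat_lit 508) (nat_lit 474)))))) (XT.nd (nat_lit 468) (nat_lit 2964) (nat_lit 0) (XT.nd (nat_lit 234) (nat_lit 1824) (nat_lit 0) (XT.nd (nat_lit 78) (nat_lit 760) (nat_lit 0) (XT.lf (nat_lit 0) (nat_lit 3880189110) (nat_lit 608) (nat_lit 2949893576) (nat_lit 684) (nat_lit 1511311069) (nat_lit 289) (nat_lit 5) (nat_lit 297) (nat_lit 5) (nat_lit 298) (nat_lit 5) (nat_lit 579) (nat_lit 508) (nat_lit 473)) (XT.nd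 (nat_lit 78) (nat_lit 0) (nat_lit 0) (XT.lf (nat_lit 0) (nat_lit 1600003911) (nat_lit 760) (nat_lit 6805965920) (nat_lit 76) (nat_lit 7006097) (nat_lit 279) (nat_lit 5) (nat_lit 289) (nat_lit 5) (nat_lit 280) (nat_lit 5) (nat_lit 580) (nat_lit 508) (nat_lit 472)) (XT.lf (nat_lit 0) (nat_lit 4755730964) (nat_lit 760) (nat_lit 718833988) (nat_lit 76) (nat_lit 3011182933) (nat_lit 279) (nat_lit 5) (nat_lit 289) (nat_lit 5) (nat_lit 280) (nat_lit 5) (nat_lit 581) (nat_lit 508) (nat_lit 471)))) (XT.nd (nat_lit 78) (nat_lit 1216) (nat_lit 0) (XT.lf (nat_lit 0) (nat_lit 5502638000) (nat_lit 608) (nat_lit 2461320454) (nat_lit 684) (nat_lit 596235364) (nat_lit 271) (nat_lit 5) (nat_lit 279) (nat_lit 5) (nat_lit 280) (nat_lit 5) (nat_lit 582) (nat_lit 508) (nat_lit 470)) (XT.nd (nat_lit 78) (nat_lit 532) (nat_lit 0) (XT.lf (nat_lit 0) (nat_lit 2549710528) (nat_lit 684) (nat_lit 5453033823) (nat_lit 76) (nat_lit 633380861) (nat_lit 262) (nat_lit 5) (nat_lit 271) (nat_lit 5) (nat_lit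 263) (nat_lit 5) (nat_lit 583) (nat_lit 508) (nat_lit 469)) (XT.lf (nat_lit 0) (nat_lit 806796513) (nat_lit 532) (nat_lit 4940298000) (nat_lit 608) (nat_lit 2966477737) (nat_lit 255) (nat_lit 5) (nat_lit 262) (nat_lit 5) (nat_lit 263) (nat_lit 5) (nat_lit 584) (nat_lit 508) (nat_lit 468))))) (XT.nd (nat_lit 234) (nat_lit 1748) (nat_lit 0) (XT.nd (nat_lit 78) (nat_lit 1140) (nat_lit 0) (XT.lf (nat_lit 0) (nat_lit 204367765) (nat_lit 608) (nat_lit 1588186240) (nat_lit 76) (nat_lit 7000165044) (nat_lit 254) (nat_lit 5) (nat_lit 262) (nat_lit 5) (nat_lit 255) (nat_lit 5) (nat_lit 585) (nat_lit 508) (nat_lit 467)) (XT.nd (nat_lit 78) (nat_lit 532) (nat_lit 0) (XT.lf (nat_lit 0) (nat_lit 3395227956) (nat_lit 684) (nat_lit 4041412154) (nat_lit 76) (nat_lit 1436495680) (nat_lit 246) (nat_lit 5) (nat_lit 255) (nat_lit 5) (nat_lit 247) (nat_lit 5) (nat_lit 586) (nat_lit 508) (nat_lit 466)) (XT.lf (nat_lit 0) (nat_lit 2406569582) (nat_lit 532) (nat_lit 4237354468) (nat_lit 608)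 (nat_lit 2311361889) (nat_lit 239) (nat_lit 5) (nat_lit 246) (nat_lit 5) (nat_lit 247) (nat_lit 5) (nat_lit 587) (nat_lit 508) (nat_lit 465)))) (XT.nd (nat_lit 156) (nat_lit 1140) (nat_lit 0) (XT.nd (nat_lit 78) (nat_lit 532) (nat_lit 0) (XT.lf (nat_lit 0) (nat_lit 889749502) (nat_lit 608) (nat_lit 66247727) (nat_lit 76) (nat_lit 8083302202) (nat_lit 238) (nat_lit 5) (nat_lit 246) (nat_lit 5) (nat_lit 239) (nat_lit 5) (nat_lit 588) (nat_lit 508) (nat_lit 464)) (XT.lf (nat_lit 0) (nat_lit 4139191944) (nat_lit 608) (nat_lit 2582626477) (nat_lit 76) (nat_lit 2402569182) (nat_lit 231) (nat_lit 5) (nat_lit 239) (nat_lit 5) (nat_lit 232) (nat_lit 5) (nat_lit 589) (nat_lit 508) (nat_lit 463))) (XT.nd (nat_lit 78) (nat_lit 608) (nat_lit 0) (XT.lf (nat_lit 0) (nat_lit 4059507890) (nat_lit 532) (nat_lit 3384461772) (nat_lit 608) (nat_lit 1767405978) (nat_lit 224) (nat_lit 5) (nat_lit 231) (nat_lit 5) (nat_lit 232) (nat_lit 5) (nat_lit 590) (nat_lit 508) (nat_lit 462)) (XT.lf (nat_lit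 0) (nat_lit 1479840285) (nat_lit 608) (nat_lit 7779996277) (nat_lit 76) (nat_lit 40375680) (nat_lit 216) (nat_lit 5) (nat_lit 224) (nat_lit 5) (nat_lit 217) (nat_lit 5) (nat_lit 591) (nat_lit 508) (nat_lit 461))))))) (XT.nd (nat_lit 936) (nat_lit 3420) (nat_lit 0) (XT.nd (nat_lit 468) (nat_lit 1900) (nat_lit 0) (XT.nd (nat_lit 234) (nat_lit 988) (nat_lit 0) (XT.nd (nat_lit 78) (nat_lit 1064) (nat_lit 0) (XT.lf (nat_lit 0) (nat_lit 4783331211) (nat_lit 608) (nat_lit 1088496427) (nat_lit 76) (nat_lit 3518469722) (nat_lit 216) (nat_lit 5) (nat_lit 224) (nat_lit 5) (nat_lit 217) (nat_lit 5) (nat_lit 592) (nat_lit 508) (nat_lit 460)) (XT.nd (nat_lit 78) (nat_lit 608) (nat_lit 0) (XT.lf (nat_lit 0) (nat_lit 5753873680) (nat_lit 456) (nat_lit 2394933915) (nat_lit 532) (nat_lit 1333462919) (nat_lit 210) (nat_lit 5) (nat_lit 216) (nat_lit 5) (nat_lit 217) (nat_lit 5) (nat_lit 593) (nat_lit 508) (nat_lit 459)) (XT.lf (nat_lit 0) (nat_lit 1973308162) (nat_lit 608) (nat_lit 6442283125)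 (nat_lit 76) (nat_lit 1160353882) (nat_lit 202) (nat_lit 5) (nat_lit 210) (nat_lit 5) (nat_lit 203) (nat_lit 5) (nat_lit 594) (nat_lit 508) (nat_lit 458)))) (XT.nd (nat_lit 78) (nat_lit 532) (nat_lit 0) (XT.lf (nat_lit 0) (nat_lit 434434390) (nat_lit 456) (nat_lit 4896844473) (nat_lit 532) (nat_lit 4339984163) (nat_lit 196) (nat_lit 5) (nat_lit 202) (nat_lit 5) (nat_lit 203) (nat_lit 5) (nat_lit 595) (nat_lit 508) (nat_lit 457)) (XT.nd (nat_lit 78) (nat_lit 532) (nat_lit 0) (XT.lf (nat_lit 0) (nat_lit 7477485891) (nat_lit 456) (nat_lit 1281613666) (nat_lit 532) (nat_lit 1009338166) (nat_lit 196) (nat_lit 5) (nat_lit 202) (nat_lit 5) (nat_lit 203) (nat_lit 5) (nat_lit 596) (nat_lit 508) (nat_lit 456)) (XT.lf (nat_lit 0) (nat_lit 2363458109) (nat_lit 532) (nat_lit 5100087077) (nat_lit 76) (nat_lit 2403567669) (nat_lit 189) (nat_lit 5) (nat_lit 196) (nat_lit 5) (nat_lit 190) (nat_lit 5) (nat_lit 597) (nat_lit 508) (nat_lit 455))))) (XT.nd (nat_lit 234) (nat_lit 912) (nat_lit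 0) (XT.nd (nat_lit 78) (nat_lit 532) (nat_lit 0) (XT.lf (nat_lit 0) (nat_lit 1982273444) (nat_lit 456) (nat_lit 3805049102) (nat_lit 532) (nat_lit 4180367007) (nat_lit 183) (nat_lit 5) (nat_lit 189) (nat_lit 5) (nat_lit 190) (nat_lit 5) (nat_lit 598) (nat_lit 508) (nat_lit 454)) (XT.nd (nat_lit 78) (nat_lit 532) (nat_lit 0) (XT.lf (nat_lit 0) (nat_lit 9217583059) (nat_lit 456) (nat_lit 56990394) (nat_lit 532) (nat_lit 795810118) (nat_lit 183) (nat_lit 5) (nat_lit 189) (nat_lit 5) (nat_lit 190) (nat_lit 5) (nat_lit 599) (nat_lit 508) (nat_lit 453)) (XT.lf (nat_lit 0) (nat_lit 2649280932) (nat_lit 532) (nat_lit 3767088965) (nat_lit 76) (nat_lit 3757866781) (nat_lit 176) (nat_lit 5) (nat_lit 183) (nat_lit 5) (nat_lit 177) (nat_lit 5) (nat_lit 600) (nat_lit 508) (nat_lit 452)))) (XT.nd (nat_lit 78) (nat_lit 532) (nat_lit 0) (XT.lf (nat_lit 0) (nat_lit 3526879951) (nat_lit 380) (nat_lit 2616253669) (nat_lit 456) (nat_lit 4137121447) (nat_lit 171) (nat_lit 5) (nat_lit 176)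 (nat_lit 5) (nat_lit 177) (nat_lit 5) (nat_lit 601) (nat_lit 508) (nat_lit 451)) (XT.nd (nat_lit 78) (nat_lit 76) (nat_lit 0) (XT.lf (nat_lit 0) (nat_lit 571291410) (nat_lit 456) (nat_lit 9134637981) (nat_lit 532) (nat_lit 682486776) (nat_lit 165) (nat_lit 5) (nat_lit 171) (nat_lit 5) (nat_lit 172) (nat_lit 5) (nat_lit 602) (nat_lit 508) (nat_lit 450)) (XT.lf (nat_lit 0) (nat_lit 2828775966) (nat_lit 532) (nat_lit 2457800853) (nat_lit 76) (nat_lit 5211302272) (nat_lit 164) (nat_lit 5) (nat_lit 171) (nat_lit 5) (nat_lit 165) (nat_lit 5) (nat_lit 603) (nat_lit 508) (nat_lit 449)))))) (XT.nd (nat_lit 468) (nat_lit 1444) (nat_lit 0) (XT.nd (nat_lit 234) (nat_lit 1140) (nat_lit 0) (XT.nd (nat_lit 78) (nat_lit 456) (nat_lit 0) (XT.lf (nat_lit 0) (nat_lit 5053716962) (nat_lit 380) (nat_lit 1342830845) (nat_lit 456) (nat_lit 4212988248) (nat_lit 159) (nat_lit 5) (nat_lit 164) (nat_lit 5) (nat_lit 165) (nat_lit 5) (nat_lit 604) (nat_lit 508) (nat_lit 448)) (XT.nd (nat_lit 78)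 (nat_lit 76) (nat_lit 0) (XT.lf (nat_lit 0) (nat_lit 1977108713) (nat_lit 380) (nat_lit 8068247750) (nat_lit 456) (nat_lit 677879454) (nat_lit 154) (nat_lit 5) (nat_lit 159) (nat_lit 5) (nat_lit 160) (nat_lit 5) (nat_lit 605) (nat_lit 508) (nat_lit 447)) (XT.lf (nat_lit 0) (nat_lit 2898910766) (nat_lit 456) (nat_lit 1187727100) (nat_lit 76) (nat_lit 6752007370) (nat_lit 153) (nat_lit 5) (nat_lit 159) (nat_lit 5) (nat_lit 154) (nat_lit 5) (nat_lit 606) (nat_lit 508) (nat_lit 446)))) (XT.nd (nat_lit 78) (nat_lit 760) (nat_lit 0) (XT.lf (nat_lit 0) (nat_lit 6544379576) (nat_lit 456) (nat_lit 4408949913) (nat_lit 76) (nat_lit 2822436) (nat_lit 148) (nat_lit 5) (nat_lit 154) (nat_lit 5) (nat_lit 149) (nat_lit 5) (nat_lit 607) (nat_lit 508) (nat_lit 445)) (XT.nd (nat_lit 78) (nat_lit 380) (nat_lit 0) (XT.lf (nat_lit 0) (nat_lit 3337510648) (nat_lit 380) (nat_lit 6945910184) (nat_lit 456) (nat_lit 792177782) (nat_lit 143) (nat_lit 5) (nat_lit 148) (nat_lit 5) (nat_lit 149) (nat_lit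 5) (nat_lit 608) (nat_lit 508) (nat_lit 444)) (XT.lf (nat_lit 0) (nat_lit 26814165) (nat_lit 304) (nat_lit 2828931549) (nat_lit 380) (nat_lit 8341435606) (nat_lit 138) (nat_lit 5) (nat_lit 142) (nat_lit 5) (nat_lit 143) (nat_lit 5) (nat_lit 609) (nat_lit 508) (nat_lit 443))))) (XT.nd (nat_lit 234) (nat_lit 684) (nat_lit 0) (XT.nd (nat_lit 78) (nat_lit 760) (nat_lit 0) (XT.lf (nat_lit 0) (nat_lit 6591420814) (nat_lit 380) (nat_lit 3339288314) (nat_lit 76) (nat_lit 1389876768) (nat_lit 138) (nat_lit 5) (nat_lit 143) (nat_lit 5) (nat_lit 139) (nat_lit 5) (nat_lit 610) (nat_lit 508) (nat_lit 442)) (XT.nd (nat_lit 78) (nat_lit 380) (nat_lit 0) (XT.lf (nat_lit 0) (nat_lit 4635025705) (nat_lit 380) (nat_lit 5780536026) (nat_lit 456) (nat_lit 1030624675) (nat_lit 133) (nat_lit 5) (nat_lit 138) (nat_lit 5) (nat_lit 139) (nat_lit 5) (nat_lit 611) (nat_lit 508) (nat_lit 441)) (XT.lf (nat_lit 0) (nat_lit 1182251236) (nat_lit 304) (nat_lit 1518928991) (nat_lit 380) (nat_lit 8872860354)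 (nat_lit 128) (nat_lit 5) (nat_lit 132) (nat_lit 5) (nat_lit 133) (nat_lit 5) (nat_lit 612) (nat_lit 508) (nat_lit 440)))) (XT.nd (nat_lit 156) (nat_lit 380) (nat_lit 0) (XT.nd (nat_lit 78) (nat_lit 304) (nat_lit 0) (XT.lf (nat_lit 0) (nat_lit 6523419505) (nat_lit 380) (nat_lit 2356908790) (nat_lit 76) (nat_lit 2823398050) (nat_lit 128) (nat_lit 5) (nat_lit 133) (nat_lit 5) (nat_lit 129) (nat_lit 5) (nat_lit 613) (nat_lit 508) (nat_lit 439)) (XT.lf (nat_lit 0) (nat_lit 5850695241) (nat_lit 304) (nat_lit 4585351708) (nat_lit 380) (nat_lit 1399682678) (nat_lit 124) (nat_lit 5) (nat_lit 128) (nat_lit 5) (nat_lit 129) (nat_lit 5) (nat_lit 614) (nat_lit 508) (nat_lit 438))) (XT.nd (nat_lit 78) (nat_lit 0) (nat_lit 0) (XT.lf (nat_lit 0) (nat_lit 2242962789) (nat_lit 304) (nat_lit 177844192) (nat_lit 380) (nat_lit 9549320144) (nat_lit 119) (nat_lit 5) (nat_lit 123) (nat_lit 5) (nat_lit 124) (nat_lit 5) (nat_lit 615) (nat_lit 508) (nat_lit 437)) (XT.lf (nat_lit 0) (nat_lit 6333612069)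 (nat_lit 380) (nat_lit 1482255216) (nat_lit 76) (nat_lit 4290469819) (nat_lit 119) (nat_lit 5) (nat_lit 124) (nat_lit 5) (nat_lit 120) (nat_lit 5) (nat_lit 616) (nat_lit 508) (nat_lit 436))))))))
noncomputable def xc56 : XT := (XT.nd (nat_lit 1950) (nat_lit 912) (nat_lit 0) (XT.nd (nat_lit 936) (nat_lit 2052) (nat_lit 0) (XT.nd (nat_lit 468) (nat_lit 1444) (nat_lit 0) (XT.nd (nat_lit 234) (nat_lit 608) (nat_lit 0) (XT.nd (nat_lit 78) (nat_lit 380) (nat_lit 0) (XT.lf (nat_lit 0) (nat_lit 6963858517) (nat_lit 304) (nat_lit 3374036943) (nat_lit 380) (nat_lit 1907113844) (nat_lit 115) (nat_lit 5) (nat_lit 119) (nat_lit 5) (nat_lit 120) (nat_lit 5) (nat_lit 617) (nat_lit 508) (nat_lit 435)) (XT.nd (nat_lit 78) (nat_lit 0) (nat_lit 0) (XT.lf (nat_lit 0) (nat_lit 2014394891) (nat_lit 380) (nat_lit 9206592190) (nat_lit 76) (nat_lit 1165100174) (nat_lit 110) (nat_lit 5) (nat_lit 115) (nat_lit 5) (nat_lit 111) (nat_lit 5) (nat_lit 618) (nat_lit 508) (nat_lit 434)) (XT.lf (nat_lit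 0) (nat_lit 6013919346) (nat_lit 380) (nat_lit 737650000) (nat_lit 76) (nat_lit 5777665186) (nat_lit 110) (nat_lit 5) (nat_lit 115) (nat_lit 5) (nat_lit 111) (nat_lit 5) (nat_lit 619) (nat_lit 508) (nat_lit 433)))) (XT.nd (nat_lit 78) (nat_lit 304) (nat_lit 0) (XT.lf (nat_lit 0) (nat_lit 7951918700) (nat_lit 304) (nat_lit 2160869538) (nat_lit 380) (nat_lit 2562071717) (nat_lit 106) (nat_lit 5) (nat_lit 110) (nat_lit 5) (nat_lit 111) (nat_lit 5) (nat_lit 620) (nat_lit 508) (nat_lit 432)) (XT.nd (nat_lit 78) (nat_lit 0) (nat_lit 0) (XT.lf (nat_lit 0) (nat_lit 1466158981) (nat_lit 304) (nat_lit 8848112315) (nat_lit 76) (nat_lit 2508633769) (nat_lit 102) (nat_lit 5) (nat_lit 106) (nat_lit 5) (nat_lit 103) (nat_lit 5) (nat_lit 621) (nat_lit 508) (nat_lit 431)) (XT.lf (nat_lit 0) (nat_lit 5554848670) (nat_lit 304) (nat_lit 147542377) (nat_lit 76) (nat_lit 7270899462) (nat_lit 102) (nat_lit 5) (nat_lit 106) (nat_lit 5) (nat_lit 103) (nat_lit 5) (nat_lit 622) (nat_lit 508) (nat_lit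 430))))) (XT.nd (nat_lit 234) (nat_lit 532) (nat_lit 0) (XT.nd (nat_lit 78) (nat_lit 608) (nat_lit 0) (XT.lf (nat_lit 0) (nat_lit 8790087568) (nat_lit 304) (nat_lit 960878741) (nat_lit 380) (nat_lit 3375206372) (nat_lit 98) (nat_lit 5) (nat_lit 102) (nat_lit 5) (nat_lit 103) (nat_lit 5) (nat_lit 623) (nat_lit 508) (nat_lit 429)) (XT.nd (nat_lit 78) (nat_lit 304) (nat_lit 0) (XT.lf (nat_lit 0) (nat_lit 764046872) (nat_lit 304) (nat_lit 8677366054) (nat_lit 76) (nat_lit 3840104851) (nat_lit 94) (nat_lit 5) (nat_lit 98) (nat_lit 5) (nat_lit 95) (nat_lit 5) (nat_lit 624) (nat_lit 508) (nat_lit 428)) (XT.lf (nat_lit 0) (nat_lit 264691780) (nat_lit 304) (nat_lit 4682409229) (nat_lit 380) (nat_lit 8492300349) (nat_lit 90) (nat_lit 5) (nat_lit 94) (nat_lit 5) (nat_lit 95) (nat_lit 5) (nat_lit 625) (nat_lit 508) (nat_lit 427)))) (XT.nd (nat_lit 78) (nat_lit 532) (nat_lit 0) (XT.lf (nat_lit 0) (nat_lit 9242478350) (nat_lit 380) (nat_lit 4150155599) (nat_lit 76) (nat_lit 207237364)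 (nat_lit 90) (nat_lit 5) (nat_lit 95) (nat_lit 5) (nat_lit 91) (nat_lit 5) (nat_lit 626) (nat_lit 508) (nat_lit 426)) (XT.nd (nat_lit 78) (nat_lit 304) (nat_lit 0) (XT.lf (nat_lit 0) (nat_lit 5038399414) (nat_lit 228) (nat_lit 8618626499) (nat_lit 304) (nat_lit 105861406) (nat_lit 87) (nat_lit 5) (nat_lit 90) (nat_lit 5) (nat_lit 91) (nat_lit 5) (nat_lit 627) (nat_lit 508) (nat_lit 425)) (XT.lf (nat_lit 0) (nat_lit 465196714) (nat_lit 228) (nat_lit 3710675778) (nat_lit 304) (nat_lit 9752730455) (nat_lit 83) (nat_lit 5) (nat_lit 86) (nat_lit 5) (nat_lit 87) (nat_lit 5) (nat_lit 628) (nat_lit 508) (nat_lit 424)))))) (XT.nd (nat_lit 468) (nat_lit 988) (nat_lit 0) (XT.nd (nat_lit 234) (nat_lit 532) (nat_lit 0) (XT.nd (nat_lit 78) (nat_lit 532) (nat_lit 0) (XT.lf (nat_lit 0) (nat_lit 8578898610) (nat_lit 304) (nat_lit 4200778088) (nat_lit 76) (nat_lit 1317202488) (nat_lit 83) (nat_lit 5) (nat_lit 87) (nat_lit 5) (nat_lit 84) (nat_lit 5) (nat_lit 629) (nat_lit 508) (nat_lit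 423)) (XT.nd (nat_lit 78) (nat_lit 304) (nat_lit 0) (XT.lf (nat_lit 0) (nat_lit 5240519482) (nat_lit 228) (nat_lit 7858387510) (nat_lit 304) (nat_lit 1169037285) (nat_lit 80) (nat_lit 5) (nat_lit 83) (nat_lit 5) (nat_lit 84) (nat_lit 5) (nat_lit 630) (nat_lit 508) (nat_lit 422)) (XT.lf (nat_lit 0) (nat_lit 419015789) (nat_lit 228) (nat_lit 2806500828) (nat_lit 304) (nat_lit 11216461980) (nat_lit 76) (nat_lit 5) (nat_lit 79) (nat_lit 5) (nat_lit 80) (nat_lit 5) (nat_lit 631) (nat_lit 508) (nat_lit 421)))) (XT.nd (nat_lit 78) (nat_lit 532) (nat_lit 0) (XT.lf (nat_lit 0) (nat_lit 7739034304) (nat_lit 304) (nat_lit 4515824161) (nat_lit 76) (nat_lit 2363547729) (nat_lit 76) (nat_lit 5) (nat_lit 80) (nat_lit 5) (nat_lit 77) (nat_lit 5) (nat_lit 632) (nat_lit 508) (nat_lit 420)) (XT.nd (nat_lit 78) (nat_lit 304) (nat_lit 0) (XT.lf (nat_lit 0) (nat_lit 5180899247) (nat_lit 228) (nat_lit 7185222508) (nat_lit 304) (nat_lit 2431776226) (nat_lit 73) (nat_lit 5) (nat_lit 76) (nat_lit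 5) (nat_lit 77) (nat_lit 5) (nat_lit 633) (nat_lit 508) (nat_lit 419)) (XT.lf (nat_lit 0) (nat_lit 89730185) (nat_lit 228) (nat_lit 1989652678) (nat_lit 304) (nat_lit 12901280675) (nat_lit 69) (nat_lit 5) (nat_lit 72) (nat_lit 5) (nat_lit 73) (nat_lit 5) (nat_lit 634) (nat_lit 508) (nat_lit 418))))) (XT.nd (nat_lit 234) (nat_lit 684) (nat_lit 0) (XT.nd (nat_lit 78) (nat_lit 304) (nat_lit 0) (XT.lf (nat_lit 0) (nat_lit 6705922601) (nat_lit 304) (nat_lit 5132946489) (nat_lit 76) (nat_lit 3326740990) (nat_lit 69) (nat_lit 5) (nat_lit 73) (nat_lit 5) (nat_lit 70) (nat_lit 5) (nat_lit 635) (nat_lit 508) (nat_lit 417)) (XT.nd (nat_lit 78) (nat_lit 76) (nat_lit 0) (XT.lf (nat_lit 0) (nat_lit 4821149978) (nat_lit 228) (nat_lit 6620122157) (nat_lit 304) (nat_lit 3912659339) (nat_lit 66) (nat_lit 5) (nat_lit 69) (nat_lit 5) (nat_lit 70) (nat_lit 5) (nat_lit 636) (nat_lit 508) (nat_lit 416)) (XT.lf (nat_lit 0) (nat_lit 722319649) (nat_lit 304) (nat_lit 555517255) (nat_lit 76) (nat_lit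 14267959197) (nat_lit 65) (nat_lit 5) (nat_lit 69) (nat_lit 5) (nat_lit 66) (nat_lit 5) (nat_lit 637) (nat_lit 508) (nat_lit 415)))) (XT.nd (nat_lit 156) (nat_lit 304) (nat_lit 0) (XT.nd (nat_lit 78) (nat_lit 152) (nat_lit 0) (XT.lf (nat_lit 0) (nat_lit 5460405716) (nat_lit 304) (nat_lit 6093748409) (nat_lit 76) (nat_lit 4185572099) (nat_lit 62) (nat_lit 5) (nat_lit 66) (nat_lit 5) (nat_lit 63) (nat_lit 5) (nat_lit 638) (nat_lit 508) (nat_lit 414)) (XT.lf (nat_lit 0) (nat_lit 4118813315) (nat_lit 152) (nat_lit 6185896330) (nat_lit 228) (nat_lit 5632597569) (nat_lit 60) (nat_lit 5) (nat_lit 62) (nat_lit 5) (nat_lit 63) (nat_lit 5) (nat_lit 639) (nat_lit 508) (nat_lit 413))) (XT.nd (nat_lit 78) (nat_lit 304) (nat_lit 0) (XT.lf (nat_lit 0) (nat_lit 14570255285) (nat_lit 152) (nat_lit 689263463) (nat_lit 228) (nat_lit 879050056) (nat_lit 60) (nat_lit 5) (nat_lit 62) (nat_lit 5) (nat_lit 63) (nat_lit 5) (nat_lit 640) (nat_lit 508) (nat_lit 412)) (XT.lf (nat_lit 0) (nat_lit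 3980923059) (nat_lit 304) (nat_lit 7444233058) (nat_lit 76) (nat_lit 4916917030) (nat_lit 56) (nat_lit 5) (nat_lit 60) (nat_lit 5) (nat_lit 57) (nat_lit 5) (nat_lit 641) (nat_lit 508) (nat_lit 411))))))) (XT.nd (nat_lit 73866) (nat_lit 0) (nat_lit 30172) (XT.nd (nat_lit 73398) (nat_lit 0) (nat_lit 44156) (XT.nd (nat_lit 234) (nat_lit 456) (nat_lit 0) (XT.nd (nat_lit 78) (nat_lit 304) (nat_lit 0) (XT.lf (nat_lit 0) (nat_lit 3026898264) (nat_lit 152) (nat_lit 5907422053) (nat_lit 228) (nat_lit 7615052431) (nat_lit 54) (nat_lit 5) (nat_lit 56) (nat_lit 5) (nat_lit 57) (nat_lit 5) (nat_lit 642) (nat_lit 508) (nat_lit 410)) (XT.nd (nat_lit 78) (nat_lit 304) (nat_lit 0) (XT.lf (nat_lit 0) (nat_lit 13761190387) (nat_lit 152) (nat_lit 248942576) (nat_lit 228) (nat_lit 2750219685) (nat_lit 54) (nat_lit 5) (nat_lit 56) (nat_lit 5) (nat_lit 57) (nat_lit 5) (nat_lit 643) (nat_lit 508) (nat_lit 409)) (XT.lf (nat_lit 0) (nat_lit 2243279667) (nat_lit 304) (nat_lit 9235297837) (nat_lit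 76) (nat_lit 5495481036) (nat_lit 50) (nat_lit 5) (nat_lit 54) (nat_lit 5) (nat_lit 51) (nat_lit 5) (nat_lit 644) (nat_lit 508) (nat_lit 408)))) (XT.nd (nat_lit 78) (nat_lit 304) (nat_lit 0) (XT.lf (nat_lit 0) (nat_lit 1493371336) (nat_lit 152) (nat_lit 5811913859) (nat_lit 228) (nat_lit 9886281731) (nat_lit 48) (nat_lit 5) (nat_lit 50) (nat_lit 5) (nat_lit 51) (nat_lit 5) (nat_lit 645) (nat_lit 508) (nat_lit 407)) (XT.nd (nat_lit 78) (nat_lit 304) (nat_lit 0) (XT.lf (nat_lit 0) (nat_lit 12504610800) (nat_lit 228) (nat_lit 4897349000) (nat_lit 76) (nat_lit 10745241) (nat_lit 48) (nat_lit 5) (nat_lit 51) (nat_lit 5) (nat_lit 49) (nat_lit 5) (nat_lit 646) (nat_lit 508) (nat_lit 406)) (XT.lf (nat_lit 0) (nat_lit 220388601) (nat_lit 304) (nat_lit 11523279096) (nat_lit 76) (nat_lit 5893518175) (nat_lit 44) (nat_lit 5) (nat_lit 48) (nat_lit 5) (nat_lit 45) (nat_lit 5) (nat_lit 647) (nat_lit 508) (nat_lit 405))))) (XT.nd (nat_lit 234) (nat_lit 2280) (nat_lit 0) (XT.nd (nat_lit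 78) (nat_lit 1064) (nat_lit 0) (XT.lf (nat_lit 0) (nat_lit 931525057) (nat_lit 988) (nat_lit 1474280908) (nat_lit 0) (nat_lit 931525057) (nat_lit 669) (nat_lit 5) (nat_lit 682) (nat_lit 4) (nat_lit 669) (nat_lit 4) (nat_lit 542) (nat_lit 509) (nat_lit 509)) (XT.nd (nat_lit 78) (nat_lit 76) (nat_lit 0) (XT.lf (nat_lit 0) (nat_lit 1376421840) (nat_lit 988) (nat_lit 3770822368) (nat_lit 988) (nat_lit 1549281723) (nat_lit 656) (nat_lit 4) (nat_lit 669) (nat_lit 5) (nat_lit 669) (nat_lit 4) (nat_lit 543) (nat_lit 509) (nat_lit 508)) (XT.lf (nat_lit 0) (nat_lit 1702309998) (nat_lit 1064) (nat_lit 960855471) (nat_lit 76) (nat_lit 4056501470) (nat_lit 655) (nat_lit 5) (nat_lit 669) (nat_lit 5) (nat_lit 656) (nat_lit 4) (nat_lit 544) (nat_lit 509) (nat_lit 507)))) (XT.nd (nat_lit 78) (nat_lit 1216) (nat_lit 0) (XT.lf (nat_lit 0) (nat_lit 3463267885) (nat_lit 1064) (nat_lit 1486269277) (nat_lit 1140) (nat_lit 1794518994) (nat_lit 641) (nat_lit 5) (nat_lit 655) (nat_lit 5) (nat_lit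 656) (nat_lit 4) (nat_lit 545) (nat_lit 509) (nat_lit 506)) (XT.nd (nat_lit 78) (nat_lit 0) (nat_lit 0) (XT.lf (nat_lit 0) (nat_lit 1167624686) (nat_lit 1140) (nat_lit 249031286) (nat_lit 1216) (nat_lit 5353230683) (nat_lit 625) (nat_lit 5) (nat_lit 640) (nat_lit 5) (nat_lit 641) (nat_lit 5) (nat_lit 546) (nat_lit 509) (nat_lit 505)) (XT.lf (nat_lit 0) (nat_lit 4627261068) (nat_lit 1216) (nat_lit 1124074518) (nat_lit 76) (nat_lit 1045492420) (nat_lit 625) (nat_lit 5) (nat_lit 641) (nat_lit 5) (nat_lit 626) (nat_lit 4) (nat_lit 547) (nat_lit 509) (nat_lit 504)))))) (XT.nd (nat_lit 468) (nat_lit 8436) (nat_lit 0) (XT.nd (nat_lit 234) (nat_lit 2888) (nat_lit 0) (XT.nd (nat_lit 78) (nat_lit 1368) (nat_lit 0) (XT.lf (nat_lit 0) (nat_lit 1019076489) (nat_lit 1292) (nat_lit 3402906270) (nat_lit 76) (nat_lit 2403092195) (nat_lit 608) (nat_lit 5) (nat_lit 625) (nat_lit 5) (nat_lit 609) (nat_lit 5) (nat_lit 548) (nat_lit 509) (nat_lit 503)) (XT.nd (nat_lit 78) (nat_lit 76) (nat_lit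 0) (XT.lf (nat_lit 0) (nat_lit 1163149687) (nat_lit 1292) (nat_lit 3026804520) (nat_lit 1368) (nat_lit 2664710827) (nat_lit 591) (nat_lit 5) (nat_lit 608) (nat_lit 5) (nat_lit 609) (nat_lit 5) (nat_lit 549) (nat_lit 509) (nat_lit 502)) (XT.lf (nat_lit 0) (nat_lit 488147101) (nat_lit 1368) (nat_lit 1080436968) (nat_lit 76) (nat_lit 5317091082) (nat_lit 590) (nat_lit 5) (nat_lit 608) (nat_lit 5) (nat_lit 591) (nat_lit 5) (nat_lit 550) (nat_lit 509) (nat_lit 501)))) (XT.nd (nat_lit 78) (nat_lit 1520) (nat_lit 0) (XT.lf (nat_lit 0) (nat_lit 3594468354) (nat_lit 1368) (nat_lit 31433776) (nat_lit 1444) (nat_lit 3291915027) (nat_lit 572) (nat_lit 5) (nat_lit 590) (nat_lit 5) (nat_lit 591) (nat_lit 5) (nat_lit 551) (nat_lit 509) (nat_lit 500)) (XT.nd (nat_lit 78) (nat_lit 76) (nat_lit 0) (XT.lf (nat_lit 0) (nat_lit 1376216263) (nat_lit 1444) (nat_lit 5411520734) (nat_lit 1520) (nat_lit 163652598) (nat_lit 553) (nat_lit 5) (nat_lit 572) (nat_lit 5) (nat_lit 573) (nat_lit 5) (nat_lit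 552) (nat_lit 509) (nat_lit 499)) (XT.lf (nat_lit 0) (nat_lit 2945700935) (nat_lit 1520) (nat_lit 849728443) (nat_lit 76) (nat_lit 3190659999) (nat_lit 552) (nat_lit 5) (nat_lit 572) (nat_lit 5) (nat_lit 553) (nat_lit 5) (nat_lit 553) (nat_lit 509) (nat_lit 498))))) (XT.nd (nat_lit 234) (nat_lit 5244) (nat_lit 0) (XT.nd (nat_lit 78) (nat_lit 1672) (nat_lit 0) (XT.lf (nat_lit 0) (nat_lit 3962927630) (nat_lit 1520) (nat_lit 2114688447) (nat_lit 1596) (nat_lit 944607401) (nat_lit 532) (nat_lit 5) (nat_lit 552) (nat_lit 5) (nat_lit 553) (nat_lit 5) (nat_lit 554) (nat_lit 509) (nat_lit 497)) (XT.nd (nat_lit 78) (nat_lit 0) (nat_lit 0) (XT.lf (nat_lit 0) (nat_lit 1774604553) (nat_lit 1596) (nat_lit 363993077) (nat_lit 1672) (nat_lit 4921117344) (nat_lit 510) (nat_lit 5) (nat_lit 531) (nat_lit 5) (nat_lit 532) (nat_lit 5) (nat_lit 555) (nat_lit 509) (nat_lit 496)) (XT.lf (nat_lit 0) (nat_lit 5238873206) (nat_lit 1672) (nat_lit 426055160) (nat_lit 76) (nat_lit 1433554472) (nat_lit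 510) (nat_lit 5) (nat_lit 532) (nat_lit 5) (nat_lit 511) (nat_lit 5) (nat_lit 556) (nat_lit 509) (nat_lit 495)))) (XT.nd (nat_lit 156) (nat_lit 1748) (nat_lit 0) (XT.nd (nat_lit 78) (nat_lit 1748) (nat_lit 0) (XT.lf (nat_lit 0) (nat_lit 1217533115) (nat_lit 1748) (nat_lit 2617830492) (nat_lit 76) (nat_lit 3303091034) (nat_lit 487) (nat_lit 5) (nat_lit 510) (nat_lit 5) (nat_lit 488) (nat_lit 5) (nat_lit 557) (nat_lit 509) (nat_lit 494)) (XT.lf (nat_lit 0) (nat_lit 2352563263) (nat_lit 1748) (nat_lit 1936694956) (nat_lit 1824) (nat_lit 2890574814) (nat_lit 464) (nat_lit 5) (nat_lit 487) (nat_lit 5) (nat_lit 488) (nat_lit 5) (nat_lit 558) (nat_lit 509) (nat_lit 493))) (XT.nd (nat_lit 78) (nat_lit 0) (nat_lit 0) (XT.lf (nat_lit 0) (nat_lit 156886840) (nat_lit 1748) (nat_lit 7045123596) (nat_lit 76) (nat_lit 20831147) (nat_lit 441) (nat_lit 5) (nat_lit 464) (nat_lit 5) (nat_lit 442) (nat_lit 5) (nat_lit 559) (nat_lit 509) (nat_lit 492)) (XT.lf (nat_lit 0) (nat_lit 3213016551)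 (nat_lit 1748) (nat_lit 2010029240) (nat_lit 76) (nat_lit 2043565015) (nat_lit 441) (nat_lit 5) (nat_lit 464) (nat_lit 5) (nat_lit 442) (nat_lit 5) (nat_lit 560) (nat_lit 509) (nat_lit 491))))))))
noncomputable def xc57 : XT := (XT.nd (nat_lit 1950) (nat_lit 8816) (nat_lit 0) (XT.nd (nat_lit 936) (nat_lit 6232) (nat_lit 0) (XT.nd (nat_lit 468) (nat_lit 4180) (nat_lit 0) (XT.nd (nat_lit 234) (nat_lit 1824) (nat_lit 0) (XT.nd (nat_lit 78) (nat_lit 988) (nat_lit 0) (XT.lf (nat_lit 0) (nat_lit 3107677677) (nat_lit 988) (nat_lit 3184879654) (nat_lit 1064) (nat_lit 1019463202) (nat_lit 428) (nat_lit 5) (nat_lit 441) (nat_lit 5) (nat_lit 442) (nat_lit 5) (nat_lit 561) (nat_lit 509) (nat_lit 490)) (XT.nd (nat_lit 78) (nat_lit 0) (nat_lit 0) (XT.lf (nat_lit 0) (nat_lit 936398849) (nat_lit 912) (nat_lit 1073868410) (nat_lit 988) (nat_lit 5348569464) (nat_lit 415) (nat_lit 5) (nat_lit 427) (nat_lit 5) (nat_lit 428) (nat_lit 5) (nat_lit 562) (nat_lit 509) (nat_lit 489)) (XT.lf (nat_lit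 0) (nat_lit 5065572985) (nat_lit 988) (nat_lit 1243002283) (nat_lit 76) (nat_lit 1098316832) (nat_lit 415) (nat_lit 5) (nat_lit 428) (nat_lit 5) (nat_lit 416) (nat_lit 5) (nat_lit 563) (nat_lit 509) (nat_lit 488)))) (XT.nd (nat_lit 78) (nat_lit 836) (nat_lit 0) (XT.lf (nat_lit 0) (nat_lit 693976273) (nat_lit 988) (nat_lit 3434009987) (nat_lit 76) (nat_lit 3328289452) (nat_lit 402) (nat_lit 5) (nat_lit 415) (nat_lit 5) (nat_lit 403) (nat_lit 5) (nat_lit 564) (nat_lit 509) (nat_lit 487)) (XT.nd (nat_lit 78) (nat_lit 0) (nat_lit 0) (XT.lf (nat_lit 0) (nat_lit 1852787445) (nat_lit 836) (nat_lit 1870957712) (nat_lit 912) (nat_lit 3783299629) (nat_lit 391) (nat_lit 5) (nat_lit 402) (nat_lit 5) (nat_lit 403) (nat_lit 5) (nat_lit 565) (nat_lit 509) (nat_lit 486)) (XT.lf (nat_lit 0) (nat_lit 6785444948) (nat_lit 912) (nat_lit 329296714) (nat_lit 76) (nat_lit 444670350) (nat_lit 391) (nat_lit 5) (nat_lit 403) (nat_lit 5) (nat_lit 392) (nat_lit 5) (nat_lit 566) (nat_lit 509) (nat_lit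 485))))) (XT.nd (nat_lit 234) (nat_lit 1596) (nat_lit 0) (XT.nd (nat_lit 78) (nat_lit 1672) (nat_lit 0) (XT.lf (nat_lit 0) (nat_lit 2257283528) (nat_lit 912) (nat_lit 2529887383) (nat_lit 76) (nat_lit 2825529940) (nat_lit 379) (nat_lit 5) (nat_lit 391) (nat_lit 5) (nat_lit 380) (nat_lit 5) (nat_lit 567) (nat_lit 509) (nat_lit 484)) (XT.nd (nat_lit 78) (nat_lit 912) (nat_lit 0) (XT.lf (nat_lit 0) (nat_lit 2914701614) (nat_lit 760) (nat_lit 2391976224) (nat_lit 836) (nat_lit 2360926600) (nat_lit 369) (nat_lit 5) (nat_lit 379) (nat_lit 5) (nat_lit 380) (nat_lit 5) (nat_lit 568) (nat_lit 509) (nat_lit 483)) (XT.lf (nat_lit 0) (nat_lit 653649828) (nat_lit 912) (nat_lit 6999840672) (nat_lit 76) (nat_lit 70648324) (nat_lit 357) (nat_lit 5) (nat_lit 369) (nat_lit 5) (nat_lit 358) (nat_lit 5) (nat_lit 569) (nat_lit 509) (nat_lit 482)))) (XT.nd (nat_lit 78) (nat_lit 1596) (nat_lit 0) (XT.lf (nat_lit 0) (nat_lit 3692524940) (nat_lit 912) (nat_lit 1497332374) (nat_lit 76) (nat_lit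 2591730487) (nat_lit 357) (nat_lit 5) (nat_lit 369) (nat_lit 5) (nat_lit 358) (nat_lit 5) (nat_lit 570) (nat_lit 509) (nat_lit 481)) (XT.nd (nat_lit 78) (nat_lit 836) (nat_lit 0) (XT.lf (nat_lit 0) (nat_lit 4110360713) (nat_lit 760) (nat_lit 2657174430) (nat_lit 836) (nat_lit 1073151718) (nat_lit 347) (nat_lit 5) (nat_lit 357) (nat_lit 5) (nat_lit 358) (nat_lit 5) (nat_lit 571) (nat_lit 509) (nat_lit 480)) (XT.lf (nat_lit 0) (nat_lit 1902544683) (nat_lit 760) (nat_lit 45683269) (nat_lit 836) (nat_lit 5953059355) (nat_lit 336) (nat_lit 5) (nat_lit 346) (nat_lit 5) (nat_lit 347) (nat_lit 5) (nat_lit 572) (nat_lit 509) (nat_lit 479)))))) (XT.nd (nat_lit 468) (nat_lit 3268) (nat_lit 0) (XT.nd (nat_lit 234) (nat_lit 1444) (nat_lit 0) (XT.nd (nat_lit 78) (nat_lit 1520) (nat_lit 0) (XT.lf (nat_lit 0) (nat_lit 5007395695) (nat_lit 836) (nat_lit 347878585) (nat_lit 76) (nat_lit 2607856789) (nat_lit 336) (nat_lit 5) (nat_lit 347) (nat_lit 5) (nat_lit 337) (nat_lit 5) (nat_lit 573)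 (nat_lit 509) (nat_lit 478)) (XT.nd (nat_lit 78) (nat_lit 760) (nat_lit 0) (XT.lf (nat_lit 0) (nat_lit 86161075) (nat_lit 760) (nat_lit 2598647789) (nat_lit 76) (nat_lit 5341677979) (nat_lit 326) (nat_lit 5) (nat_lit 336) (nat_lit 5) (nat_lit 327) (nat_lit 5) (nat_lit 574) (nat_lit 509) (nat_lit 477)) (XT.lf (nat_lit 0) (nat_lit 3123704069) (nat_lit 836) (nat_lit 4895423184) (nat_lit 76) (nat_lit 72111343) (nat_lit 316) (nat_lit 5) (nat_lit 327) (nat_lit 5) (nat_lit 317) (nat_lit 5) (nat_lit 575) (nat_lit 509) (nat_lit 476)))) (XT.nd (nat_lit 78) (nat_lit 760) (nat_lit 0) (XT.lf (nat_lit 0) (nat_lit 919333393) (nat_lit 684) (nat_lit 5295262657) (nat_lit 760) (nat_lit 1942844556) (nat_lit 307) (nat_lit 5) (nat_lit 316) (nat_lit 5) (nat_lit 317) (nat_lit 5) (nat_lit 576) (nat_lit 509) (nat_lit 475)) (XT.nd (nat_lit 78) (nat_lit 684) (nat_lit 0) (XT.lf (nat_lit 0) (nat_lit 1111967790) (nat_lit 760) (nat_lit 1374745790) (nat_lit 76) (nat_lit 5738419434) (nat_lit 306) (nat_lit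 5) (nat_lit 316) (nat_lit 5) (nat_lit 307) (nat_lit 5) (nat_lit 577) (nat_lit 509) (nat_lit 474)) (XT.lf (nat_lit 0) (nat_lit 4186877924) (nat_lit 760) (nat_lit 3702047439) (nat_lit 76) (nat_lit 405303510) (nat_lit 297) (nat_lit 5) (nat_lit 307) (nat_lit 5) (nat_lit 298) (nat_lit 5) (nat_lit 578) (nat_lit 509) (nat_lit 473))))) (XT.nd (nat_lit 234) (nat_lit 1900) (nat_lit 0) (XT.nd (nat_lit 78) (nat_lit 760) (nat_lit 0) (XT.lf (nat_lit 0) (nat_lit 2287159209) (nat_lit 608) (nat_lit 5029707063) (nat_lit 684) (nat_lit 1047975414) (nat_lit 289) (nat_lit 5) (nat_lit 297) (nat_lit 5) (nat_lit 298) (nat_lit 5) (nat_lit 579) (nat_lit 509) (nat_lit 472)) (XT.nd (nat_lit 78) (nat_lit 684) (nat_lit 0) (XT.lf (nat_lit 0) (nat_lit 2023616175) (nat_lit 684) (nat_lit 62767808) (nat_lit 76) (nat_lit 6350655802) (nat_lit 288) (nat_lit 5) (nat_lit 297) (nat_lit 5) (nat_lit 289) (nat_lit 5) (nat_lit 580) (nat_lit 509) (nat_lit 471)) (XT.lf (nat_lit 0) (nat_lit 5142440329) (nat_lit 760)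 (nat_lit 2429459579) (nat_lit 76) (nat_lit 938652988) (nat_lit 279) (nat_lit 5) (nat_lit 289) (nat_lit 5) (nat_lit 280) (nat_lit 5) (nat_lit 581) (nat_lit 509) (nat_lit 470)))) (XT.nd (nat_lit 156) (nat_lit 608) (nat_lit 0) (XT.nd (nat_lit 78) (nat_lit 684) (nat_lit 0) (XT.lf (nat_lit 0) (nat_lit 3739982680) (nat_lit 608) (nat_lit 4576749606) (nat_lit 684) (nat_lit 268948289) (nat_lit 271) (nat_lit 5) (nat_lit 279) (nat_lit 5) (nat_lit 280) (nat_lit 5) (nat_lit 582) (nat_lit 509) (nat_lit 469)) (XT.lf (nat_lit 0) (nat_lit 1343874864) (nat_lit 608) (nat_lit 1490307437) (nat_lit 684) (nat_lit 5828160545) (nat_lit 262) (nat_lit 5) (nat_lit 270) (nat_lit 5) (nat_lit 271) (nat_lit 5) (nat_lit 583) (nat_lit 509) (nat_lit 468))) (XT.nd (nat_lit 78) (nat_lit 608) (nat_lit 0) (XT.lf (nat_lit 0) (nat_lit 5994473370) (nat_lit 684) (nat_lit 1088776413) (nat_lit 76) (nat_lit 1657284820) (nat_lit 262) (nat_lit 5) (nat_lit 271) (nat_lit 5) (nat_lit 263) (nat_lit 5) (nat_lit 584) (nat_lit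 509) (nat_lit 467)) (XT.lf (nat_lit 0) (nat_lit 392602736) (nat_lit 608) (nat_lit 3556055110) (nat_lit 76) (nat_lit 4871583498) (nat_lit 254) (nat_lit 5) (nat_lit 262) (nat_lit 5) (nat_lit 255) (nat_lit 5) (nat_lit 585) (nat_lit 509) (nat_lit 466))))))) (XT.nd (nat_lit 936) (nat_lit 3876) (nat_lit 0) (XT.nd (nat_lit 468) (nat_lit 2584) (nat_lit 0) (XT.nd (nat_lit 234) (nat_lit 1140) (nat_lit 0) (XT.nd (nat_lit 78) (nat_lit 608) (nat_lit 0) (XT.lf (nat_lit 0) (nat_lit 2818198066) (nat_lit 608) (nat_lit 721031157) (nat_lit 684) (nat_lit 5362316232) (nat_lit 246) (nat_lit 5) (nat_lit 254) (nat_lit 5) (nat_lit 255) (nat_lit 5) (nat_lit 586) (nat_lit 509) (nat_lit 465)) (XT.nd (nat_lit 78) (nat_lit 76) (nat_lit 0) (XT.lf (nat_lit 0) (nat_lit 312899665) (nat_lit 532) (nat_lit 6435295829) (nat_lit 608) (nat_lit 2236297349) (nat_lit 239) (nat_lit 5) (nat_lit 246) (nat_lit 5) (nat_lit 247) (nat_lit 5) (nat_lit 587) (nat_lit 509) (nat_lit 464)) (XT.lf (nat_lit 0) (nat_lit 942465458)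 (nat_lit 608) (nat_lit 2218665103) (nat_lit 76) (nat_lit 5907795849) (nat_lit 238) (nat_lit 5) (nat_lit 246) (nat_lit 5) (nat_lit 239) (nat_lit 5) (nat_lit 588) (nat_lit 509) (nat_lit 463)))) (XT.nd (nat_lit 78) (nat_lit 608) (nat_lit 0) (XT.lf (nat_lit 0) (nat_lit 4142153521) (nat_lit 608) (nat_lit 4808384576) (nat_lit 76) (nat_lit 204474063) (nat_lit 231) (nat_lit 5) (nat_lit 239) (nat_lit 5) (nat_lit 232) (nat_lit 5) (nat_lit 589) (nat_lit 509) (nat_lit 462)) (XT.nd (nat_lit 78) (nat_lit 76) (nat_lit 0) (XT.lf (nat_lit 0) (nat_lit 1775125982) (nat_lit 532) (nat_lit 5636206112) (nat_lit 608) (nat_lit 1831382528) (nat_lit 224) (nat_lit 5) (nat_lit 231) (nat_lit 5) (nat_lit 232) (nat_lit 5) (nat_lit 590) (nat_lit 509) (nat_lit 461)) (XT.lf (nat_lit 0) (nat_lit 1385881640) (nat_lit 608) (nat_lit 843512434) (nat_lit 76) (nat_lit 7102784227) (nat_lit 223) (nat_lit 5) (nat_lit 231) (nat_lit 5) (nat_lit 224) (nat_lit 5) (nat_lit 591) (nat_lit 509) (nat_lit 460))))) (XT.nd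 (nat_lit 234) (nat_lit 988) (nat_lit 0) (XT.nd (nat_lit 78) (nat_lit 1064) (nat_lit 0) (XT.lf (nat_lit 0) (nat_lit 4648795684) (nat_lit 608) (nat_lit 3509922447) (nat_lit 76) (nat_lit 1264359127) (nat_lit 216) (nat_lit 5) (nat_lit 224) (nat_lit 5) (nat_lit 217) (nat_lit 5) (nat_lit 592) (nat_lit 509) (nat_lit 459)) (XT.nd (nat_lit 78) (nat_lit 608) (nat_lit 0) (XT.lf (nat_lit 0) (nat_lit 3271536269) (nat_lit 456) (nat_lit 4706505091) (nat_lit 532) (nat_lit 1537735922) (nat_lit 210) (nat_lit 5) (nat_lit 216) (nat_lit 5) (nat_lit 217) (nat_lit 5) (nat_lit 593) (nat_lit 509) (nat_lit 458)) (XT.lf (nat_lit 0) (nat_lit 564699213) (nat_lit 532) (nat_lit 1162614935) (nat_lit 608) (nat_lit 7883054483) (nat_lit 202) (nat_lit 5) (nat_lit 209) (nat_lit 5) (nat_lit 210) (nat_lit 5) (nat_lit 594) (nat_lit 509) (nat_lit 457)))) (XT.nd (nat_lit 78) (nat_lit 988) (nat_lit 0) (XT.lf (nat_lit 0) (nat_lit 5055034294) (nat_lit 608) (nat_lit 2195694989) (nat_lit 76) (nat_lit 2455564343) (nat_lit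 202) (nat_lit 5) (nat_lit 210) (nat_lit 5) (nat_lit 203) (nat_lit 5) (nat_lit 595) (nat_lit 509) (nat_lit 456)) (XT.nd (nat_lit 78) (nat_lit 532) (nat_lit 0) (XT.lf (nat_lit 0) (nat_lit 4789771129) (nat_lit 456) (nat_lit 3658962447) (nat_lit 532) (nat_lit 1355419259) (nat_lit 196) (nat_lit 5) (nat_lit 202) (nat_lit 5) (nat_lit 203) (nat_lit 5) (nat_lit 596) (nat_lit 509) (nat_lit 455)) (XT.lf (nat_lit 0) (nat_lit 1968782071) (nat_lit 532) (nat_lit 7906801262) (nat_lit 76) (nat_lit 28354253) (nat_lit 189) (nat_lit 5) (nat_lit 196) (nat_lit 5) (nat_lit 190) (nat_lit 5) (nat_lit 597) (nat_lit 509) (nat_lit 454)))))) (XT.nd (nat_lit 468) (nat_lit 1976) (nat_lit 0) (XT.nd (nat_lit 234) (nat_lit 912) (nat_lit 0) (XT.nd (nat_lit 78) (nat_lit 988) (nat_lit 0) (XT.lf (nat_lit 0) (nat_lit 5360499240) (nat_lit 532) (nat_lit 878692412) (nat_lit 76) (nat_lit 3765967542) (nat_lit 189) (nat_lit 5) (nat_lit 196) (nat_lit 5) (nat_lit 190) (nat_lit 5) (nat_lit 598) (nat_lit 509) (nat_lit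 453)) (XT.nd (nat_lit 78) (nat_lit 532) (nat_lit 0) (XT.lf (nat_lit 0) (nat_lit 6316871922) (nat_lit 456) (nat_lit 2506016062) (nat_lit 532) (nat_lit 1285464394) (nat_lit 183) (nat_lit 5) (nat_lit 189) (nat_lit 5) (nat_lit 190) (nat_lit 5) (nat_lit 599) (nat_lit 509) (nat_lit 452)) (XT.lf (nat_lit 0) (nat_lit 2111611577) (nat_lit 532) (nat_lit 6792431672) (nat_lit 76) (nat_lit 1309316412) (nat_lit 176) (nat_lit 5) (nat_lit 183) (nat_lit 5) (nat_lit 177) (nat_lit 5) (nat_lit 600) (nat_lit 509) (nat_lit 451)))) (XT.nd (nat_lit 78) (nat_lit 532) (nat_lit 0) (XT.lf (nat_lit 0) (nat_lit 433057608) (nat_lit 380) (nat_lit 5133618699) (nat_lit 456) (nat_lit 4753479315) (nat_lit 171) (nat_lit 5) (nat_lit 176) (nat_lit 5) (nat_lit 177) (nat_lit 5) (nat_lit 601) (nat_lit 509) (nat_lit 450)) (XT.nd (nat_lit 78) (nat_lit 532) (nat_lit 0) (XT.lf (nat_lit 0) (nat_lit 7839135428) (nat_lit 380) (nat_lit 1259889204) (nat_lit 456) (nat_lit 1329902817) (nat_lit 171) (nat_lit 5) (nat_lit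 176) (nat_lit 5) (nat_lit 177) (nat_lit 5) (nat_lit 602) (nat_lit 509) (nat_lit 449)) (XT.lf (nat_lit 0) (nat_lit 2146005924) (nat_lit 532) (nat_lit 5709752617) (nat_lit 76) (nat_lit 2683594510) (nat_lit 164) (nat_lit 5) (nat_lit 171) (nat_lit 5) (nat_lit 165) (nat_lit 5) (nat_lit 603) (nat_lit 509) (nat_lit 448))))) (XT.nd (nat_lit 234) (nat_lit 1140) (nat_lit 0) (XT.nd (nat_lit 78) (nat_lit 456) (nat_lit 0) (XT.lf (nat_lit 0) (nat_lit 1730637671) (nat_lit 380) (nat_lit 3943413479) (nat_lit 456) (nat_lit 4977755075) (nat_lit 159) (nat_lit 5) (nat_lit 164) (nat_lit 5) (nat_lit 165) (nat_lit 5) (nat_lit 604) (nat_lit 509) (nat_lit 447)) (XT.nd (nat_lit 78) (nat_lit 456) (nat_lit 0) (XT.lf (nat_lit 0) (nat_lit 9275104683) (nat_lit 456) (nat_lit 1424949833) (nat_lit 76) (nat_lit 66408316) (nat_lit 159) (nat_lit 5) (nat_lit 165) (nat_lit 5) (nat_lit 160) (nat_lit 5) (nat_lit 605) (nat_lit 509) (nat_lit 446)) (XT.lf (nat_lit 0) (nat_lit 2068685838) (nat_lit 456) (nat_lit 4674515321)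 (nat_lit 76) (nat_lit 4139326506) (nat_lit 153) (nat_lit 5) (nat_lit 159) (nat_lit 5) (nat_lit 154) (nat_lit 5) (nat_lit 606) (nat_lit 509) (nat_lit 445)))) (XT.nd (nat_lit 156) (nat_lit 760) (nat_lit 0) (XT.nd (nat_lit 78) (nat_lit 0) (nat_lit 0) (XT.lf (nat_lit 0) (nat_lit 2986555372) (nat_lit 380) (nat_lit 2686836623) (nat_lit 456) (nat_lit 5327459161) (nat_lit 148) (nat_lit 5) (nat_lit 153) (nat_lit 5) (nat_lit 154) (nat_lit 5) (nat_lit 607) (nat_lit 509) (nat_lit 444)) (XT.lf (nat_lit 0) (nat_lit 9355801650) (nat_lit 456) (nat_lit 321450996) (nat_lit 76) (nat_lit 1444179349) (nat_lit 148) (nat_lit 5) (nat_lit 154) (nat_lit 5) (nat_lit 149) (nat_lit 5) (nat_lit 608) (nat_lit 509) (nat_lit 443))) (XT.nd (nat_lit 78) (nat_lit 304) (nat_lit 0) (XT.lf (nat_lit 0) (nat_lit 1875290807) (nat_lit 456) (nat_lit 3703654932) (nat_lit 76) (nat_lit 5664592215) (nat_lit 142) (nat_lit 5) (nat_lit 148) (nat_lit 5) (nat_lit 143) (nat_lit 5) (nat_lit 609) (nat_lit 509) (nat_lit 442))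 (XT.lf (nat_lit 0) (nat_lit 4183773054) (nat_lit 304) (nat_lit 1376382455) (nat_lit 380) (nat_lit 5807804659) (nat_lit 138) (nat_lit 5) (nat_lit 142) (nat_lit 5) (nat_lit 143) (nat_lit 5) (nat_lit 610) (nat_lit 509) (nat_lit 441))))))))
noncomputable def xc58 : XT := (XT.nd (nat_lit 1950) (nat_lit 1596) (nat_lit 0) (XT.nd (nat_lit 936) (nat_lit 2508) (nat_lit 0) (XT.nd (nat_lit 468) (nat_lit 1292) (nat_lit 0) (XT.nd (nat_lit 234) (nat_lit 684) (nat_lit 0) (XT.nd (nat_lit 78) (nat_lit 380) (nat_lit 0) (XT.lf (nat_lit 0) (nat_lit 720819922) (nat_lit 380) (nat_lit 8612102621) (nat_lit 456) (nat_lit 2161667014) (nat_lit 133) (nat_lit 5) (nat_lit 138) (nat_lit 5) (nat_lit 139) (nat_lit 5) (nat_lit 611) (nat_lit 509) (nat_lit 440)) (XT.nd (nat_lit 78) (nat_lit 304) (nat_lit 0) (XT.lf (nat_lit 0) (nat_lit 1560319089) (nat_lit 456) (nat_lit 2815477448) (nat_lit 76) (nat_lit 7247288464) (nat_lit 132) (nat_lit 5) (nat_lit 138) (nat_lit 5) (nat_lit 133) (nat_lit 5) (nat_lit 612)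 (nat_lit 509) (nat_lit 439)) (XT.lf (nat_lit 0) (nat_lit 5303838707) (nat_lit 304) (nat_lit 24804130) (nat_lit 380) (nat_lit 6425207561) (nat_lit 128) (nat_lit 5) (nat_lit 132) (nat_lit 5) (nat_lit 133) (nat_lit 5) (nat_lit 613) (nat_lit 509) (nat_lit 438)))) (XT.nd (nat_lit 78) (nat_lit 380) (nat_lit 0) (XT.lf (nat_lit 0) (nat_lit 1676484898) (nat_lit 304) (nat_lit 7520971274) (nat_lit 380) (nat_lit 2689275087) (nat_lit 124) (nat_lit 5) (nat_lit 128) (nat_lit 5) (nat_lit 129) (nat_lit 5) (nat_lit 614) (nat_lit 509) (nat_lit 437)) (XT.nd (nat_lit 78) (nat_lit 304) (nat_lit 0) (XT.lf (nat_lit 0) (nat_lit 1117057300) (nat_lit 380) (nat_lit 2029862253) (nat_lit 76) (nat_lit 8874999316) (nat_lit 123) (nat_lit 5) (nat_lit 128) (nat_lit 5) (nat_lit 124) (nat_lit 5) (nat_lit 615) (nat_lit 509) (nat_lit 436)) (XT.lf (nat_lit 0) (nat_lit 4980721809) (nat_lit 380) (nat_lit 5841406697) (nat_lit 76) (nat_lit 1336984375) (nat_lit 119) (nat_lit 5) (nat_lit 124) (nat_lit 5) (nat_lit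 120) (nat_lit 5) (nat_lit 616) (nat_lit 509) (nat_lit 435))))) (XT.nd (nat_lit 234) (nat_lit 608) (nat_lit 0) (XT.nd (nat_lit 78) (nat_lit 380) (nat_lit 0) (XT.lf (nat_lit 0) (nat_lit 2520294134) (nat_lit 304) (nat_lit 6419761895) (nat_lit 380) (nat_lit 3358629233) (nat_lit 115) (nat_lit 5) (nat_lit 119) (nat_lit 5) (nat_lit 120) (nat_lit 5) (nat_lit 617) (nat_lit 509) (nat_lit 434)) (XT.nd (nat_lit 78) (nat_lit 304) (nat_lit 0) (XT.lf (nat_lit 0) (nat_lit 537498792) (nat_lit 380) (nat_lit 1368482202) (nat_lit 76) (nat_lit 10534860205) (nat_lit 114) (nat_lit 5) (nat_lit 119) (nat_lit 5) (nat_lit 115) (nat_lit 5) (nat_lit 618) (nat_lit 509) (nat_lit 433)) (XT.lf (nat_lit 0) (nat_lit 4499607746) (nat_lit 380) (nat_lit 5372572165) (nat_lit 76) (nat_lit 2712558004) (nat_lit 110) (nat_lit 5) (nat_lit 115) (nat_lit 5) (nat_lit 111) (nat_lit 5) (nat_lit 619) (nat_lit 509) (nat_lit 432)))) (XT.nd (nat_lit 78) (nat_lit 304) (nat_lit 0) (XT.lf (nat_lit 0) (nat_lit 3229314618) (nat_lit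 304) (nat_lit 5322835218) (nat_lit 380) (nat_lit 4179141141) (nat_lit 106) (nat_lit 5) (nat_lit 110) (nat_lit 5) (nat_lit 111) (nat_lit 5) (nat_lit 620) (nat_lit 509) (nat_lit 431)) (XT.nd (nat_lit 78) (nat_lit 304) (nat_lit 0) (XT.lf (nat_lit 0) (nat_lit 12024404780) (nat_lit 304) (nat_lit 666033462) (nat_lit 380) (nat_lit 190245142) (nat_lit 106) (nat_lit 5) (nat_lit 110) (nat_lit 5) (nat_lit 111) (nat_lit 5) (nat_lit 621) (nat_lit 509) (nat_lit 430)) (XT.lf (nat_lit 0) (nat_lit 3875391663) (nat_lit 304) (nat_lit 5068146272) (nat_lit 76) (nat_lit 4088067597) (nat_lit 102) (nat_lit 5) (nat_lit 106) (nat_lit 5) (nat_lit 103) (nat_lit 5) (nat_lit 622) (nat_lit 509) (nat_lit 429)))))) (XT.nd (nat_lit 468) (nat_lit 1292) (nat_lit 0) (XT.nd (nat_lit 234) (nat_lit 608) (nat_lit 0) (XT.nd (nat_lit 78) (nat_lit 304) (nat_lit 0) (XT.lf (nat_lit 0) (nat_lit 3778402665) (nat_lit 304) (nat_lit 4245319484) (nat_lit 380) (nat_lit 5161722322) (nat_lit 98) (nat_lit 5) (nat_lit 102)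 (nat_lit 5) (nat_lit 103) (nat_lit 5) (nat_lit 623) (nat_lit 509) (nat_lit 428)) (XT.nd (nat_lit 78) (nat_lit 304) (nat_lit 0) (XT.lf (nat_lit 0) (nat_lit 12262145632) (nat_lit 380) (nat_lit 526227489) (nat_lit 76) (nat_lit 553846562) (nat_lit 98) (nat_lit 5) (nat_lit 103) (nat_lit 5) (nat_lit 99) (nat_lit 5) (nat_lit 624) (nat_lit 509) (nat_lit 427)) (XT.lf (nat_lit 0) (nat_lit 3096797067) (nat_lit 304) (nat_lit 4955345761) (nat_lit 76) (nat_lit 5448508619) (nat_lit 94) (nat_lit 5) (nat_lit 98) (nat_lit 5) (nat_lit 95) (nat_lit 5) (nat_lit 625) (nat_lit 509) (nat_lit 426)))) (XT.nd (nat_lit 78) (nat_lit 304) (nat_lit 0) (XT.lf (nat_lit 0) (nat_lit 4139924495) (nat_lit 304) (nat_lit 3203273427) (nat_lit 380) (nat_lit 6318903951) (nat_lit 90) (nat_lit 5) (nat_lit 94) (nat_lit 5) (nat_lit 95) (nat_lit 5) (nat_lit 626) (nat_lit 509) (nat_lit 425)) (XT.nd (nat_lit 78) (nat_lit 304) (nat_lit 0) (XT.lf (nat_lit 0) (nat_lit 11689451888) (nat_lit 380) (nat_lit 403928482) (nat_lit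 76) (nat_lit 1733104308) (nat_lit 90) (nat_lit 5) (nat_lit 95) (nat_lit 5) (nat_lit 91) (nat_lit 5) (nat_lit 627) (nat_lit 509) (nat_lit 424)) (XT.lf (nat_lit 0) (nat_lit 2150892220) (nat_lit 304) (nat_lit 5064102202) (nat_lit 76) (nat_lit 6777879488) (nat_lit 86) (nat_lit 5) (nat_lit 90) (nat_lit 5) (nat_lit 87) (nat_lit 5) (nat_lit 628) (nat_lit 509) (nat_lit 423))))) (XT.nd (nat_lit 234) (nat_lit 760) (nat_lit 0) (XT.nd (nat_lit 78) (nat_lit 304) (nat_lit 0) (XT.lf (nat_lit 0) (nat_lit 4283450210) (nat_lit 228) (nat_lit 2213860836) (nat_lit 304) (nat_lit 7664972121) (nat_lit 83) (nat_lit 5) (nat_lit 86) (nat_lit 5) (nat_lit 87) (nat_lit 5) (nat_lit 629) (nat_lit 509) (nat_lit 422)) (XT.nd (nat_lit 78) (nat_lit 304) (nat_lit 0) (XT.lf (nat_lit 0) (nat_lit 10954517037) (nat_lit 304) (nat_lit 516517923) (nat_lit 76) (nat_lit 2863570201) (nat_lit 83) (nat_lit 5) (nat_lit 87) (nat_lit 5) (nat_lit 84) (nat_lit 5) (nat_lit 630) (nat_lit 509) (nat_lit 421)) (XT.lf (nat_lit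 0) (nat_lit 1022947511) (nat_lit 304) (nat_lit 5427387953) (nat_lit 76) (nat_lit 8059002282) (nat_lit 79) (nat_lit 5) (nat_lit 83) (nat_lit 5) (nat_lit 80) (nat_lit 5) (nat_lit 631) (nat_lit 509) (nat_lit 420)))) (XT.nd (nat_lit 156) (nat_lit 532) (nat_lit 0) (XT.nd (nat_lit 78) (nat_lit 0) (nat_lit 0) (XT.lf (nat_lit 0) (nat_lit 4175418136) (nat_lit 228) (nat_lit 1295538327) (nat_lit 304) (nat_lit 9216119861) (nat_lit 76) (nat_lit 5) (nat_lit 79) (nat_lit 5) (nat_lit 80) (nat_lit 5) (nat_lit 632) (nat_lit 509) (nat_lit 419)) (XT.lf (nat_lit 0) (nat_lit 10041956283) (nat_lit 304) (nat_lit 898700180) (nat_lit 76) (nat_lit 3927034191) (nat_lit 76) (nat_lit 5) (nat_lit 80) (nat_lit 5) (nat_lit 77) (nat_lit 5) (nat_lit 633) (nat_lit 509) (nat_lit 418))) (XT.nd (nat_lit 78) (nat_lit 304) (nat_lit 0) (XT.lf (nat_lit 0) (nat_lit 8967566640) (nat_lit 228) (nat_lit 5775811225) (nat_lit 304) (nat_lit 307760934) (nat_lit 73) (nat_lit 5) (nat_lit 76) (nat_lit 5) (nat_lit 77) (nat_lit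 5) (nat_lit 634) (nat_lit 509) (nat_lit 417)) (XT.lf (nat_lit 0) (nat_lit 3778766232) (nat_lit 228) (nat_lit 468258140) (nat_lit 304) (nat_lit 10990617491) (nat_lit 69) (nat_lit 5) (nat_lit 72) (nat_lit 5) (nat_lit 73) (nat_lit 5) (nat_lit 635) (nat_lit 509) (nat_lit 416))))))) (XT.nd (nat_lit 73710) (nat_lit 0) (nat_lit 38304) (XT.nd (nat_lit 468) (nat_lit 608) (nat_lit 0) (XT.nd (nat_lit 234) (nat_lit 456) (nat_lit 0) (XT.nd (nat_lit 78) (nat_lit 532) (nat_lit 0) (XT.lf (nat_lit 0) (nat_lit 8934345089) (nat_lit 304) (nat_lit 1588801376) (nat_lit 76) (nat_lit 4903778100) (nat_lit 69) (nat_lit 5) (nat_lit 73) (nat_lit 5) (nat_lit 70) (nat_lit 5) (nat_lit 636) (nat_lit 509) (nat_lit 415)) (XT.nd (nat_lit 78) (nat_lit 304) (nat_lit 0) (XT.lf (nat_lit 0) (nat_lit 8540384888) (nat_lit 228) (nat_lit 5206473638) (nat_lit 304) (nat_lit 1872506911) (nat_lit 66) (nat_lit 5) (nat_lit 69) (nat_lit 5) (nat_lit 70) (nat_lit 5) (nat_lit 637) (nat_lit 509) (nat_lit 414)) (XT.lf (nat_lit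 0) (nat_lit 2807814042) (nat_lit 304) (nat_lit 12764290154) (nat_lit 76) (nat_lit 243081671) (nat_lit 62) (nat_lit 5) (nat_lit 66) (nat_lit 5) (nat_lit 63) (nat_lit 5) (nat_lit 638) (nat_lit 509) (nat_lit 413)))) (XT.nd (nat_lit 78) (nat_lit 456) (nat_lit 0) (XT.lf (nat_lit 0) (nat_lit 7612028533) (nat_lit 304) (nat_lit 2629185116) (nat_lit 76) (nat_lit 5772355671) (nat_lit 62) (nat_lit 5) (nat_lit 66) (nat_lit 5) (nat_lit 63) (nat_lit 5) (nat_lit 639) (nat_lit 509) (nat_lit 412)) (XT.nd (nat_lit 78) (nat_lit 304) (nat_lit 0) (XT.lf (nat_lit 0) (nat_lit 7764032854) (nat_lit 152) (nat_lit 4772270681) (nat_lit 228) (nat_lit 3679138717) (nat_lit 60) (nat_lit 5) (nat_lit 62) (nat_lit 5) (nat_lit 63) (nat_lit 5) (nat_lit 640) (nat_lit 509) (nat_lit 411)) (XT.lf (nat_lit 0) (nat_lit 1132184345) (nat_lit 304) (nat_lit 14475097576) (nat_lit 76) (nat_lit 813736385) (nat_lit 56) (nat_lit 5) (nat_lit 60) (nat_lit 5) (nat_lit 57) (nat_lit 5) (nat_lit 641) (nat_lit 509) (nat_lit 410)))))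 (XT.nd (nat_lit 234) (nat_lit 228) (nat_lit 0) (XT.nd (nat_lit 78) (nat_lit 380) (nat_lit 0) (XT.lf (nat_lit 0) (nat_lit 6052908666) (nat_lit 304) (nat_lit 4066709972) (nat_lit 76) (nat_lit 6509353349) (nat_lit 56) (nat_lit 5) (nat_lit 60) (nat_lit 5) (nat_lit 57) (nat_lit 5) (nat_lit 642) (nat_lit 509) (nat_lit 409)) (XT.nd (nat_lit 78) (nat_lit 228) (nat_lit 0) (XT.lf (nat_lit 0) (nat_lit 6590643926) (nat_lit 152) (nat_lit 4498409069) (nat_lit 228) (nat_lit 5751692870) (nat_lit 54) (nat_lit 5) (nat_lit 56) (nat_lit 5) (nat_lit 57) (nat_lit 5) (nat_lit 643) (nat_lit 509) (nat_lit 408)) (XT.lf (nat_lit 0) (nat_lit 411534477) (nat_lit 228) (nat_lit 15826845668) (nat_lit 304) (nat_lit 818127086) (nat_lit 51) (nat_lit 5) (nat_lit 54) (nat_lit 5) (nat_lit 55) (nat_lit 5) (nat_lit 644) (nat_lit 509) (nat_lit 407)))) (XT.nd (nat_lit 78) (nat_lit 152) (nat_lit 0) (XT.lf (nat_lit 0) (nat_lit 4232207737) (nat_lit 304) (nat_lit 5953233259) (nat_lit 76) (nat_lit 7089129441) (nat_lit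 50) (nat_lit 5) (nat_lit 54) (nat_lit 5) (nat_lit 51) (nat_lit 5) (nat_lit 645) (nat_lit 509) (nat_lit 406)) (XT.nd (nat_lit 78) (nat_lit 0) (nat_lit 0) (XT.lf (nat_lit 0) (nat_lit 4967201596) (nat_lit 152) (nat_lit 4412493398) (nat_lit 228) (nat_lit 8117050890) (nat_lit 48) (nat_lit 5) (nat_lit 50) (nat_lit 5) (nat_lit 51) (nat_lit 5) (nat_lit 646) (nat_lit 509) (nat_lit 405)) (XT.lf (nat_lit 0) (nat_lit 14654844935) (nat_lit 228) (nat_lit 1590615046) (nat_lit 76) (nat_lit 1477411716) (nat_lit 48) (nat_lit 5) (nat_lit 51) (nat_lit 5) (nat_lit 49) (nat_lit 5) (nat_lit 647) (nat_lit 509) (nat_lit 404)))))) (XT.nd (nat_lit 468) (nat_lit 6688) (nat_lit 0) (XT.nd (nat_lit 234) (nat_lit 2204) (nat_lit 0) (XT.nd (nat_lit 78) (nat_lit 988) (nat_lit 0) (XT.lf (nat_lit 0) (nat_lit 924637740) (nat_lit 836) (nat_lit 1196235821) (nat_lit 836) (nat_lit 1196235821) (nat_lit 682) (nat_lit 4) (nat_lit 693) (nat_lit 5) (nat_lit 693) (nat_lit 4) (nat_lit 540) (nat_lit 510) (nat_lit 510))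 (XT.nd (nat_lit 78) (nat_lit 912) (nat_lit 0) (XT.lf (nat_lit 0) (nat_lit 859399244) (nat_lit 912) (nat_lit 575304413) (nat_lit 76) (nat_lit 5219537559) (nat_lit 681) (nat_lit 5) (nat_lit 693) (nat_lit 5) (nat_lit 682) (nat_lit 4) (nat_lit 541) (nat_lit 510) (nat_lit 509)) (XT.lf (nat_lit 0) (nat_lit 3695461762) (nat_lit 912) (nat_lit 399946211) (nat_lit 988) (nat_lit 2579935367) (nat_lit 669) (nat_lit 5) (nat_lit 681) (nat_lit 5) (nat_lit 682) (nat_lit 4) (nat_lit 542) (nat_lit 510) (nat_lit 508)))) (XT.nd (nat_lit 78) (nat_lit 1140) (nat_lit 0) (XT.lf (nat_lit 0) (nat_lit 634710351) (nat_lit 1064) (nat_lit 5383378217) (nat_lit 76) (nat_lit 679813411) (nat_lit 655) (nat_lit 5) (nat_lit 669) (nat_lit 5) (nat_lit 656) (nat_lit 4) (nat_lit 543) (nat_lit 510) (nat_lit 507)) (XT.nd (nat_lit 78) (nat_lit 1140) (nat_lit 0) (XT.lf (nat_lit 0) (nat_lit 3830756858) (nat_lit 1064) (nat_lit 1062639786) (nat_lit 76) (nat_lit 1828158188) (nat_lit 655) (nat_lit 5) (nat_lit 669) (nat_lit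 5) (nat_lit 656) (nat_lit 4) (nat_lit 544) (nat_lit 510) (nat_lit 506)) (XT.lf (nat_lit 0) (nat_lit 292054082) (nat_lit 1140) (nat_lit 3416714696) (nat_lit 76) (nat_lit 3037852947) (nat_lit 640) (nat_lit 5) (nat_lit 655) (nat_lit 5) (nat_lit 641) (nat_lit 5) (nat_lit 545) (nat_lit 510) (nat_lit 505))))) (XT.nd (nat_lit 234) (nat_lit 4256) (nat_lit 0) (XT.nd (nat_lit 78) (nat_lit 1292) (nat_lit 0) (XT.lf (nat_lit 0) (nat_lit 989538105) (nat_lit 1140) (nat_lit 2454727622) (nat_lit 1216) (nat_lit 3328670042) (nat_lit 625) (nat_lit 5) (nat_lit 640) (nat_lit 5) (nat_lit 641) (nat_lit 5) (nat_lit 546) (nat_lit 510) (nat_lit 504)) (XT.nd (nat_lit 78) (nat_lit 1292) (nat_lit 0) (XT.lf (nat_lit 0) (nat_lit 5473694752) (nat_lit 1140) (nat_lit 1140516481) (nat_lit 1216) (nat_lit 186486932) (nat_lit 625) (nat_lit 5) (nat_lit 640) (nat_lit 5) (nat_lit 641) (nat_lit 5) (nat_lit 547) (nat_lit 510) (nat_lit 503)) (XT.lf (nat_lit 0) (nat_lit 2933903977) (nat_lit 1292) (nat_lit 3646863346)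 (nat_lit 76) (nat_lit 248772710) (nat_lit 608) (nat_lit 5) (nat_lit 625) (nat_lit 5) (nat_lit 609) (nat_lit 5) (nat_lit 548) (nat_lit 510) (nat_lit 502)))) (XT.nd (nat_lit 156) (nat_lit 2888) (nat_lit 0) (XT.nd (nat_lit 78) (nat_lit 76) (nat_lit 0) (XT.lf (nat_lit 0) (nat_lit 887168299) (nat_lit 1292) (nat_lit 5182983133) (nat_lit 1368) (nat_lit 789678688) (nat_lit 591) (nat_lit 5) (nat_lit 608) (nat_lit 5) (nat_lit 609) (nat_lit 5) (nat_lit 549) (nat_lit 510) (nat_lit 501)) (XT.lf (nat_lit 0) (nat_lit 2305988546) (nat_lit 1368) (nat_lit 1402415628) (nat_lit 76) (nat_lit 3182851684) (nat_lit 590) (nat_lit 5) (nat_lit 608) (nat_lit 5) (nat_lit 591) (nat_lit 5) (nat_lit 550) (nat_lit 510) (nat_lit 500))) (XT.nd (nat_lit 78) (nat_lit 1520) (nat_lit 0) (XT.lf (nat_lit 0) (nat_lit 3239741074) (nat_lit 1368) (nat_lit 2169739268) (nat_lit 1444) (nat_lit 1514609760) (nat_lit 572) (nat_lit 5) (nat_lit 590) (nat_lit 5) (nat_lit 591) (nat_lit 5) (nat_lit 551) (nat_lit 510) (nat_lit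 499)) (XT.lf (nat_lit 0) (nat_lit 981419265) (nat_lit 1444) (nat_lit 566578854) (nat_lit 1520) (nat_lit 5410351410) (nat_lit 552) (nat_lit 5) (nat_lit 571) (nat_lit 5) (nat_lit 572) (nat_lit 5) (nat_lit 552) (nat_lit 510) (nat_lit 498))))))))
noncomputable def xc59 : XT := (XT.nd (nat_lit 1950) (nat_lit 10260) (nat_lit 0) (XT.nd (nat_lit 936) (nat_lit 7296) (nat_lit 0) (XT.nd (nat_lit 468) (nat_lit 4712) (nat_lit 0) (XT.nd (nat_lit 234) (nat_lit 3496) (nat_lit 0) (XT.nd (nat_lit 78) (nat_lit 3192) (nat_lit 0) (XT.lf (nat_lit 0) (nat_lit 4620256339) (nat_lit 1520) (nat_lit 1277675464) (nat_lit 76) (nat_lit 1095801808) (nat_lit 552) (nat_lit 5) (nat_lit 572) (nat_lit 5) (nat_lit 553) (nat_lit 5) (nat_lit 553) (nat_lit 510) (nat_lit 497)) (XT.nd (nat_lit 78) (nat_lit 1596) (nat_lit 0) (XT.lf (nat_lit 0) (nat_lit 678942892) (nat_lit 1596) (nat_lit 3534337276) (nat_lit 76) (nat_lit 2817177822) (nat_lit 531) (nat_lit 5) (nat_lit 552) (nat_lit 5) (nat_lit 532) (nat_lit 5) (nat_lit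 554) (nat_lit 510) (nat_lit 496)) (XT.lf (nat_lit 0) (nat_lit 1258190935) (nat_lit 1596) (nat_lit 2457770644) (nat_lit 1672) (nat_lit 3352547393) (nat_lit 510) (nat_lit 5) (nat_lit 531) (nat_lit 5) (nat_lit 532) (nat_lit 5) (nat_lit 555) (nat_lit 510) (nat_lit 495)))) (XT.nd (nat_lit 78) (nat_lit 3496) (nat_lit 0) (XT.lf (nat_lit 0) (nat_lit 6137354928) (nat_lit 1596) (nat_lit 639419546) (nat_lit 1672) (nat_lit 331297687) (nat_lit 510) (nat_lit 5) (nat_lit 531) (nat_lit 5) (nat_lit 532) (nat_lit 5) (nat_lit 556) (nat_lit 510) (nat_lit 494)) (XT.nd (nat_lit 78) (nat_lit 1748) (nat_lit 0) (XT.lf (nat_lit 0) (nat_lit 2688222608) (nat_lit 1748) (nat_lit 3214248501) (nat_lit 76) (nat_lit 1246131802) (nat_lit 487) (nat_lit 5) (nat_lit 510) (nat_lit 5) (nat_lit 488) (nat_lit 5) (nat_lit 557) (nat_lit 510) (nat_lit 493)) (XT.lf (nat_lit 0) (nat_lit 1719301554) (nat_lit 1748) (nat_lit 4007299507) (nat_lit 1824) (nat_lit 1464052896) (nat_lit 464) (nat_lit 5) (nat_lit 487) (nat_lit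 5) (nat_lit 488) (nat_lit 5) (nat_lit 558) (nat_lit 510) (nat_lit 492))))) (XT.nd (nat_lit 234) (nat_lit 1900) (nat_lit 0) (XT.nd (nat_lit 78) (nat_lit 2736) (nat_lit 0) (XT.lf (nat_lit 0) (nat_lit 1534365351) (nat_lit 1824) (nat_lit 506561484) (nat_lit 76) (nat_lit 5193162618) (nat_lit 463) (nat_lit 5) (nat_lit 487) (nat_lit 5) (nat_lit 464) (nat_lit 5) (nat_lit 559) (nat_lit 510) (nat_lit 491)) (XT.nd (nat_lit 78) (nat_lit 1064) (nat_lit 0) (XT.lf (nat_lit 0) (nat_lit 4545231562) (nat_lit 1748) (nat_lit 2728214266) (nat_lit 76) (nat_lit 5323509) (nat_lit 441) (nat_lit 5) (nat_lit 464) (nat_lit 5) (nat_lit 442) (nat_lit 5) (nat_lit 560) (nat_lit 510) (nat_lit 490)) (XT.lf (nat_lit 0) (nat_lit 263418502) (nat_lit 1064) (nat_lit 4975569746) (nat_lit 76) (nat_lit 2085821612) (nat_lit 427) (nat_lit 5) (nat_lit 441) (nat_lit 5) (nat_lit 428) (nat_lit 5) (nat_lit 561) (nat_lit 510) (nat_lit 489)))) (XT.nd (nat_lit 78) (nat_lit 988) (nat_lit 0) (XT.lf (nat_lit 0) (nat_lit 119084514)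 (nat_lit 912) (nat_lit 3127469570) (nat_lit 988) (nat_lit 4125609155) (nat_lit 415) (nat_lit 5) (nat_lit 427) (nat_lit 5) (nat_lit 428) (nat_lit 5) (nat_lit 562) (nat_lit 510) (nat_lit 488)) (XT.nd (nat_lit 78) (nat_lit 988) (nat_lit 0) (XT.lf (nat_lit 0) (nat_lit 5325385716) (nat_lit 912) (nat_lit 941692413) (nat_lit 988) (nat_lit 1153841101) (nat_lit 415) (nat_lit 5) (nat_lit 427) (nat_lit 5) (nat_lit 428) (nat_lit 5) (nat_lit 563) (nat_lit 510) (nat_lit 487)) (XT.lf (nat_lit 0) (nat_lit 1826725544) (nat_lit 988) (nat_lit 4342855843) (nat_lit 76) (nat_lit 1301355140) (nat_lit 402) (nat_lit 5) (nat_lit 415) (nat_lit 5) (nat_lit 403) (nat_lit 5) (nat_lit 564) (nat_lit 510) (nat_lit 486)))))) (XT.nd (nat_lit 468) (nat_lit 3876) (nat_lit 0) (XT.nd (nat_lit 234) (nat_lit 1672) (nat_lit 0) (XT.nd (nat_lit 78) (nat_lit 912) (nat_lit 0) (XT.lf (nat_lit 0) (nat_lit 902769216) (nat_lit 836) (nat_lit 3920699454) (nat_lit 912) (nat_lit 2698902140) (nat_lit 391) (nat_lit 5) (nat_lit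 402) (nat_lit 5) (nat_lit 403) (nat_lit 5) (nat_lit 565) (nat_lit 510) (nat_lit 485)) (XT.nd (nat_lit 78) (nat_lit 836) (nat_lit 0) (XT.lf (nat_lit 0) (nat_lit 276717905) (nat_lit 912) (nat_lit 1322594756) (nat_lit 76) (nat_lit 5975982398) (nat_lit 390) (nat_lit 5) (nat_lit 402) (nat_lit 5) (nat_lit 391) (nat_lit 5) (nat_lit 566) (nat_lit 510) (nat_lit 484)) (XT.lf (nat_lit 0) (nat_lit 3254481529) (nat_lit 912) (nat_lit 3576207146) (nat_lit 76) (nat_lit 798665868) (nat_lit 379) (nat_lit 5) (nat_lit 391) (nat_lit 5) (nat_lit 380) (nat_lit 5) (nat_lit 567) (nat_lit 510) (nat_lit 483)))) (XT.nd (nat_lit 78) (nat_lit 912) (nat_lit 0) (XT.lf (nat_lit 0) (nat_lit 1825459442) (nat_lit 760) (nat_lit 4445487137) (nat_lit 836) (nat_lit 1413974473) (nat_lit 369) (nat_lit 5) (nat_lit 379) (nat_lit 5) (nat_lit 380) (nat_lit 5) (nat_lit 568) (nat_lit 510) (nat_lit 482)) (XT.nd (nat_lit 78) (nat_lit 836) (nat_lit 0) (XT.lf (nat_lit 0) (nat_lit 1557303834) (nat_lit 836) (nat_lit 426234522)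 (nat_lit 76) (nat_lit 5758415859) (nat_lit 368) (nat_lit 5) (nat_lit 379) (nat_lit 5) (nat_lit 369) (nat_lit 5) (nat_lit 569) (nat_lit 510) (nat_lit 481)) (XT.lf (nat_lit 0) (nat_lit 4555067061) (nat_lit 912) (nat_lit 2687599728) (nat_lit 76) (nat_lit 557562726) (nat_lit 357) (nat_lit 5) (nat_lit 369) (nat_lit 5) (nat_lit 358) (nat_lit 5) (nat_lit 570) (nat_lit 510) (nat_lit 480))))) (XT.nd (nat_lit 234) (nat_lit 2280) (nat_lit 0) (XT.nd (nat_lit 78) (nat_lit 836) (nat_lit 0) (XT.lf (nat_lit 0) (nat_lit 2875370963) (nat_lit 760) (nat_lit 4721775484) (nat_lit 836) (nat_lit 262844749) (nat_lit 347) (nat_lit 5) (nat_lit 357) (nat_lit 5) (nat_lit 358) (nat_lit 5) (nat_lit 571) (nat_lit 510) (nat_lit 479)) (XT.nd (nat_lit 78) (nat_lit 0) (nat_lit 0) (XT.lf (nat_lit 0) (nat_lit 597198992) (nat_lit 760) (nat_lit 2117458644) (nat_lit 836) (nat_lit 5206497635) (nat_lit 336) (nat_lit 5) (nat_lit 346) (nat_lit 5) (nat_lit 347) (nat_lit 5) (nat_lit 572) (nat_lit 510) (nat_lit 478))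 (XT.lf (nat_lit 0) (nat_lit 5735874077) (nat_lit 836) (nat_lit 1688590218) (nat_lit 76) (nat_lit 559297538) (nat_lit 336) (nat_lit 5) (nat_lit 347) (nat_lit 5) (nat_lit 337) (nat_lit 5) (nat_lit 573) (nat_lit 510) (nat_lit 477)))) (XT.nd (nat_lit 156) (nat_lit 760) (nat_lit 0) (XT.nd (nat_lit 78) (nat_lit 760) (nat_lit 0) (XT.lf (nat_lit 0) (nat_lit 751476009) (nat_lit 760) (nat_lit 4011607709) (nat_lit 76) (nat_lit 3284610584) (nat_lit 326) (nat_lit 5) (nat_lit 336) (nat_lit 5) (nat_lit 327) (nat_lit 5) (nat_lit 574) (nat_lit 510) (nat_lit 476)) (XT.lf (nat_lit 0) (nat_lit 1735666904) (nat_lit 760) (nat_lit 2019501885) (nat_lit 836) (nat_lit 4357957827) (nat_lit 316) (nat_lit 5) (nat_lit 326) (nat_lit 5) (nat_lit 327) (nat_lit 5) (nat_lit 575) (nat_lit 510) (nat_lit 475))) (XT.nd (nat_lit 78) (nat_lit 760) (nat_lit 0) (XT.lf (nat_lit 0) (nat_lit 6803341404) (nat_lit 836) (nat_lit 590421839) (nat_lit 76) (nat_lit 786423258) (nat_lit 316) (nat_lit 5) (nat_lit 327) (nat_lit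 5) (nat_lit 317) (nat_lit 5) (nat_lit 576) (nat_lit 510) (nat_lit 474)) (XT.lf (nat_lit 0) (nat_lit 1643115319) (nat_lit 760) (nat_lit 2947720150) (nat_lit 76) (nat_lit 3657521869) (nat_lit 306) (nat_lit 5) (nat_lit 316) (nat_lit 5) (nat_lit 307) (nat_lit 5) (nat_lit 577) (nat_lit 510) (nat_lit 473))))))) (XT.nd (nat_lit 936) (nat_lit 4560) (nat_lit 0) (XT.nd (nat_lit 468) (nat_lit 2964) (nat_lit 0) (XT.nd (nat_lit 234) (nat_lit 1368) (nat_lit 0) (XT.nd (nat_lit 78) (nat_lit 684) (nat_lit 0) (XT.lf (nat_lit 0) (nat_lit 2972312974) (nat_lit 684) (nat_lit 1709453572) (nat_lit 760) (nat_lit 3636415115) (nat_lit 297) (nat_lit 5) (nat_lit 306) (nat_lit 5) (nat_lit 307) (nat_lit 5) (nat_lit 578) (nat_lit 510) (nat_lit 472)) (XT.nd (nat_lit 78) (nat_lit 76) (nat_lit 0) (XT.lf (nat_lit 0) (nat_lit 603787999) (nat_lit 608) (nat_lit 7163115477) (nat_lit 684) (nat_lit 622791248) (nat_lit 289) (nat_lit 5) (nat_lit 297) (nat_lit 5) (nat_lit 298) (nat_lit 5) (nat_lit 579) (nat_lit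 510) (nat_lit 471)) (XT.lf (nat_lit 0) (nat_lit 2420511731) (nat_lit 684) (nat_lit 1802440747) (nat_lit 76) (nat_lit 4239342474) (nat_lit 288) (nat_lit 5) (nat_lit 297) (nat_lit 5) (nat_lit 289) (nat_lit 5) (nat_lit 580) (nat_lit 510) (nat_lit 470)))) (XT.nd (nat_lit 78) (nat_lit 684) (nat_lit 0) (XT.lf (nat_lit 0) (nat_lit 4296100520) (nat_lit 684) (nat_lit 1203162858) (nat_lit 760) (nat_lit 3037349172) (nat_lit 279) (nat_lit 5) (nat_lit 288) (nat_lit 5) (nat_lit 289) (nat_lit 5) (nat_lit 581) (nat_lit 510) (nat_lit 469)) (XT.nd (nat_lit 78) (nat_lit 0) (nat_lit 0) (XT.lf (nat_lit 0) (nat_lit 18812049) (nat_lit 684) (nat_lit 6728649341) (nat_lit 76) (nat_lit 1865117577) (nat_lit 270) (nat_lit 5) (nat_lit 279) (nat_lit 5) (nat_lit 271) (nat_lit 5) (nat_lit 582) (nat_lit 510) (nat_lit 468)) (XT.lf (nat_lit 0) (nat_lit 3087742083) (nat_lit 684) (nat_lit 586901268) (nat_lit 76) (nat_lit 5015179288) (nat_lit 270) (nat_lit 5) (nat_lit 279) (nat_lit 5) (nat_lit 271) (nat_lit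 5) (nat_lit 583) (nat_lit 510) (nat_lit 467))))) (XT.nd (nat_lit 234) (nat_lit 1140) (nat_lit 0) (XT.nd (nat_lit 78) (nat_lit 1216) (nat_lit 0) (XT.lf (nat_lit 0) (nat_lit 5696037559) (nat_lit 608) (nat_lit 515530114) (nat_lit 684) (nat_lit 2557178838) (nat_lit 262) (nat_lit 5) (nat_lit 270) (nat_lit 5) (nat_lit 271) (nat_lit 5) (nat_lit 584) (nat_lit 510) (nat_lit 466)) (XT.nd (nat_lit 78) (nat_lit 608) (nat_lit 0) (XT.lf (nat_lit 0) (nat_lit 540874772) (nat_lit 608) (nat_lit 5621380935) (nat_lit 76) (nat_lit 2686938376) (nat_lit 254) (nat_lit 5) (nat_lit 262) (nat_lit 5) (nat_lit 255) (nat_lit 5) (nat_lit 585) (nat_lit 510) (nat_lit 465)) (XT.lf (nat_lit 0) (nat_lit 696852205) (nat_lit 608) (nat_lit 2955652984) (nat_lit 684) (nat_lit 5278695569) (nat_lit 246) (nat_lit 5) (nat_lit 254) (nat_lit 5) (nat_lit 255) (nat_lit 5) (nat_lit 586) (nat_lit 510) (nat_lit 464)))) (XT.nd (nat_lit 78) (nat_lit 1140) (nat_lit 0) (XT.lf (nat_lit 0) (nat_lit 6823897028) (nat_lit 684)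 (nat_lit 1856086034) (nat_lit 76) (nat_lit 334919163) (nat_lit 246) (nat_lit 5) (nat_lit 255) (nat_lit 5) (nat_lit 247) (nat_lit 5) (nat_lit 587) (nat_lit 510) (nat_lit 463)) (XT.nd (nat_lit 78) (nat_lit 532) (nat_lit 0) (XT.lf (nat_lit 0) (nat_lit 953926440) (nat_lit 608) (nat_lit 4471667529) (nat_lit 76) (nat_lit 3674403176) (nat_lit 238) (nat_lit 5) (nat_lit 246) (nat_lit 5) (nat_lit 239) (nat_lit 5) (nat_lit 588) (nat_lit 510) (nat_lit 462)) (XT.lf (nat_lit 0) (nat_lit 2036759946) (nat_lit 532) (nat_lit 2079968725) (nat_lit 608) (nat_lit 5070094382) (nat_lit 231) (nat_lit 5) (nat_lit 238) (nat_lit 5) (nat_lit 239) (nat_lit 5) (nat_lit 589) (nat_lit 510) (nat_lit 461)))))) (XT.nd (nat_lit 468) (nat_lit 2356) (nat_lit 0) (XT.nd (nat_lit 234) (nat_lit 1064) (nat_lit 0) (XT.nd (nat_lit 78) (nat_lit 1140) (nat_lit 0) (XT.lf (nat_lit 0) (nat_lit 7340517196) (nat_lit 608) (nat_lit 604430804) (nat_lit 76) (nat_lit 1330487710) (nat_lit 231) (nat_lit 5) (nat_lit 239) (nat_lit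 5) (nat_lit 232) (nat_lit 5) (nat_lit 590) (nat_lit 510) (nat_lit 460)) (XT.nd (nat_lit 78) (nat_lit 532) (nat_lit 0) (XT.lf (nat_lit 0) (nat_lit 1259422732) (nat_lit 608) (nat_lit 3291392448) (nat_lit 76) (nat_lit 4814585571) (nat_lit 223) (nat_lit 5) (nat_lit 231) (nat_lit 5) (nat_lit 224) (nat_lit 5) (nat_lit 591) (nat_lit 510) (nat_lit 459)) (XT.lf (nat_lit 0) (nat_lit 3413225127) (nat_lit 532) (nat_lit 1064626854) (nat_lit 608) (nat_lit 4979339678) (nat_lit 216) (nat_lit 5) (nat_lit 223) (nat_lit 5) (nat_lit 224) (nat_lit 5) (nat_lit 592) (nat_lit 510) (nat_lit 458)))) (XT.nd (nat_lit 78) (nat_lit 608) (nat_lit 0) (XT.lf (nat_lit 0) (nat_lit 682651653) (nat_lit 456) (nat_lit 7081005644) (nat_lit 532) (nat_lit 1787105404) (nat_lit 210) (nat_lit 5) (nat_lit 216) (nat_lit 5) (nat_lit 217) (nat_lit 5) (nat_lit 593) (nat_lit 510) (nat_lit 457)) (XT.nd (nat_lit 78) (nat_lit 532) (nat_lit 0) (XT.lf (nat_lit 0) (nat_lit 1457905442) (nat_lit 532) (nat_lit 2092837276) (nat_lit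 76) (nat_lit 6095112035) (nat_lit 209) (nat_lit 5) (nat_lit 216) (nat_lit 5) (nat_lit 210) (nat_lit 5) (nat_lit 594) (nat_lit 510) (nat_lit 456)) (XT.lf (nat_lit 0) (nat_lit 4736768807) (nat_lit 608) (nat_lit 4929242391) (nat_lit 76) (nat_lit 76747768) (nat_lit 202) (nat_lit 5) (nat_lit 210) (nat_lit 5) (nat_lit 203) (nat_lit 5) (nat_lit 595) (nat_lit 510) (nat_lit 455))))) (XT.nd (nat_lit 234) (nat_lit 1368) (nat_lit 0) (XT.nd (nat_lit 78) (nat_lit 532) (nat_lit 0) (XT.lf (nat_lit 0) (nat_lit 1992047544) (nat_lit 456) (nat_lit 6101146435) (nat_lit 532) (nat_lit 1748171721) (nat_lit 196) (nat_lit 5) (nat_lit 202) (nat_lit 5) (nat_lit 203) (nat_lit 5) (nat_lit 596) (nat_lit 510) (nat_lit 454)) (XT.nd (nat_lit 78) (nat_lit 456) (nat_lit 0) (XT.lf (nat_lit 0) (nat_lit 1548986891) (nat_lit 532) (nat_lit 888812847) (nat_lit 76) (nat_lit 7504047551) (nat_lit 195) (nat_lit 5) (nat_lit 202) (nat_lit 5) (nat_lit 196) (nat_lit 5) (nat_lit 597) (nat_lit 510) (nat_lit 453)) (XT.lf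 (nat_lit 0) (nat_lit 4900091015) (nat_lit 532) (nat_lit 3826313359) (nat_lit 76) (nat_lit 1317478710) (nat_lit 189) (nat_lit 5) (nat_lit 196) (nat_lit 5) (nat_lit 190) (nat_lit 5) (nat_lit 598) (nat_lit 510) (nat_lit 452)))) (XT.nd (nat_lit 156) (nat_lit 380) (nat_lit 0) (XT.nd (nat_lit 78) (nat_lit 532) (nat_lit 0) (XT.lf (nat_lit 0) (nat_lit 3302561076) (nat_lit 456) (nat_lit 5021819293) (nat_lit 532) (nat_lit 1823459775) (nat_lit 183) (nat_lit 5) (nat_lit 189) (nat_lit 5) (nat_lit 190) (nat_lit 5) (nat_lit 599) (nat_lit 510) (nat_lit 451)) (XT.lf (nat_lit 0) (nat_lit 311284644) (nat_lit 456) (nat_lit 1222062996) (nat_lit 532) (nat_lit 8720517950) (nat_lit 176) (nat_lit 5) (nat_lit 182) (nat_lit 5) (nat_lit 183) (nat_lit 5) (nat_lit 600) (nat_lit 510) (nat_lit 450))) (XT.nd (nat_lit 78) (nat_lit 380) (nat_lit 0) (XT.lf (nat_lit 0) (nat_lit 4959332102) (nat_lit 532) (nat_lit 2742193320) (nat_lit 76) (nat_lit 2659719513) (nat_lit 176) (nat_lit 5) (nat_lit 183) (nat_lit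 5) (nat_lit 177) (nat_lit 5) (nat_lit 601) (nat_lit 510) (nat_lit 449)) (XT.lf (nat_lit 0) (nat_lit 4600265700) (nat_lit 380) (nat_lit 3855222898) (nat_lit 456) (nat_lit 2015253745) (nat_lit 171) (nat_lit 5) (nat_lit 176) (nat_lit 5) (nat_lit 177) (nat_lit 5) (nat_lit 602) (nat_lit 510) (nat_lit 448))))))))
noncomputable def xc60 : XT := (XT.nd (nat_lit 1950) (nat_lit 3192) (nat_lit 0) (XT.nd (nat_lit 936) (nat_lit 2888) (nat_lit 0) (XT.nd (nat_lit 468) (nat_lit 1520) (nat_lit 0) (XT.nd (nat_lit 234) (nat_lit 836) (nat_lit 0) (XT.nd (nat_lit 78) (nat_lit 380) (nat_lit 0) (XT.lf (nat_lit 0) (nat_lit 1412915499) (nat_lit 532) (nat_lit 9082383802) (nat_lit 76) (nat_lit 87093876) (nat_lit 164) (nat_lit 5) (nat_lit 171) (nat_lit 5) (nat_lit 165) (nat_lit 5) (nat_lit 603) (nat_lit 510) (nat_lit 447)) (XT.nd (nat_lit 78) (nat_lit 380) (nat_lit 0) (XT.lf (nat_lit 0) (nat_lit 4911929197) (nat_lit 532) (nat_lit 1691695790) (nat_lit 76) (nat_lit 4091803636) (nat_lit 164) (nat_lit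 5) (nat_lit 171) (nat_lit 5) (nat_lit 165) (nat_lit 5) (nat_lit 604) (nat_lit 510) (nat_lit 446)) (XT.lf (nat_lit 0) (nat_lit 5870316436) (nat_lit 380) (nat_lit 2613479483) (nat_lit 456) (nat_lit 2326874658) (nat_lit 159) (nat_lit 5) (nat_lit 164) (nat_lit 5) (nat_lit 165) (nat_lit 5) (nat_lit 605) (nat_lit 510) (nat_lit 445)))) (XT.nd (nat_lit 78) (nat_lit 380) (nat_lit 0) (XT.lf (nat_lit 0) (nat_lit 1186252133) (nat_lit 456) (nat_lit 8285940059) (nat_lit 76) (nat_lit 1455810766) (nat_lit 153) (nat_lit 5) (nat_lit 159) (nat_lit 5) (nat_lit 154) (nat_lit 5) (nat_lit 606) (nat_lit 510) (nat_lit 444)) (XT.nd (nat_lit 78) (nat_lit 380) (nat_lit 0) (XT.lf (nat_lit 0) (nat_lit 4754287316) (nat_lit 456) (nat_lit 690684252) (nat_lit 76) (nat_lit 5602089817) (nat_lit 153) (nat_lit 5) (nat_lit 159) (nat_lit 5) (nat_lit 154) (nat_lit 5) (nat_lit 607) (nat_lit 510) (nat_lit 443)) (XT.lf (nat_lit 0) (nat_lit 7096783372) (nat_lit 380) (nat_lit 1308755132) (nat_lit 456) (nat_lit 2762728376)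 (nat_lit 148) (nat_lit 5) (nat_lit 153) (nat_lit 5) (nat_lit 154) (nat_lit 5) (nat_lit 608) (nat_lit 510) (nat_lit 442))))) (XT.nd (nat_lit 234) (nat_lit 760) (nat_lit 0) (XT.nd (nat_lit 78) (nat_lit 304) (nat_lit 0) (XT.lf (nat_lit 0) (nat_lit 840813975) (nat_lit 456) (nat_lit 7562523569) (nat_lit 76) (nat_lit 2888175322) (nat_lit 142) (nat_lit 5) (nat_lit 148) (nat_lit 5) (nat_lit 143) (nat_lit 5) (nat_lit 609) (nat_lit 510) (nat_lit 441)) (XT.nd (nat_lit 78) (nat_lit 0) (nat_lit 0) (XT.lf (nat_lit 0) (nat_lit 246992074) (nat_lit 304) (nat_lit 4236338212) (nat_lit 380) (nat_lit 6933453164) (nat_lit 138) (nat_lit 5) (nat_lit 142) (nat_lit 5) (nat_lit 143) (nat_lit 5) (nat_lit 610) (nat_lit 510) (nat_lit 440)) (XT.lf (nat_lit 0) (nat_lit 8216158477) (nat_lit 380) (nat_lit 3282049544) (nat_lit 76) (nat_lit 46004970) (nat_lit 138) (nat_lit 5) (nat_lit 143) (nat_lit 5) (nat_lit 139) (nat_lit 5) (nat_lit 611) (nat_lit 510) (nat_lit 439)))) (XT.nd (nat_lit 78) (nat_lit 304)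 (nat_lit 0) (XT.lf (nat_lit 0) (nat_lit 370849755) (nat_lit 456) (nat_lit 6930732158) (nat_lit 76) (nat_lit 4372046887) (nat_lit 132) (nat_lit 5) (nat_lit 138) (nat_lit 5) (nat_lit 133) (nat_lit 5) (nat_lit 612) (nat_lit 510) (nat_lit 438)) (XT.nd (nat_lit 78) (nat_lit 0) (nat_lit 0) (XT.lf (nat_lit 0) (nat_lit 1107639099) (nat_lit 304) (nat_lit 2987972454) (nat_lit 380) (nat_lit 7709655179) (nat_lit 128) (nat_lit 5) (nat_lit 132) (nat_lit 5) (nat_lit 133) (nat_lit 5) (nat_lit 613) (nat_lit 510) (nat_lit 437)) (XT.lf (nat_lit 0) (nat_lit 7918074394) (nat_lit 380) (nat_lit 2599882499) (nat_lit 76) (nat_lit 1421118978) (nat_lit 128) (nat_lit 5) (nat_lit 133) (nat_lit 5) (nat_lit 129) (nat_lit 5) (nat_lit 614) (nat_lit 510) (nat_lit 436)))))) (XT.nd (nat_lit 468) (nat_lit 1520) (nat_lit 0) (XT.nd (nat_lit 234) (nat_lit 684) (nat_lit 0) (XT.nd (nat_lit 78) (nat_lit 380) (nat_lit 0) (XT.lf (nat_lit 0) (nat_lit 5662802354) (nat_lit 304) (nat_lit 6178603302) (nat_lit 380) (nat_lit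 233669670) (nat_lit 124) (nat_lit 5) (nat_lit 128) (nat_lit 5) (nat_lit 129) (nat_lit 5) (nat_lit 615) (nat_lit 510) (nat_lit 435)) (XT.nd (nat_lit 78) (nat_lit 0) (nat_lit 0) (XT.lf (nat_lit 0) (nat_lit 1861687936) (nat_lit 304) (nat_lit 1717719200) (nat_lit 380) (nat_lit 8633966787) (nat_lit 119) (nat_lit 5) (nat_lit 123) (nat_lit 5) (nat_lit 124) (nat_lit 5) (nat_lit 616) (nat_lit 510) (nat_lit 434)) (XT.lf (nat_lit 0) (nat_lit 7495442419) (nat_lit 380) (nat_lit 2037509004) (nat_lit 76) (nat_lit 2820862033) (nat_lit 119) (nat_lit 5) (nat_lit 124) (nat_lit 5) (nat_lit 120) (nat_lit 5) (nat_lit 617) (nat_lit 510) (nat_lit 433)))) (XT.nd (nat_lit 78) (nat_lit 380) (nat_lit 0) (XT.lf (nat_lit 0) (nat_lit 6465631595) (nat_lit 304) (nat_lit 5046265184) (nat_lit 380) (nat_lit 984725356) (nat_lit 115) (nat_lit 5) (nat_lit 119) (nat_lit 5) (nat_lit 120) (nat_lit 5) (nat_lit 618) (nat_lit 510) (nat_lit 432)) (XT.nd (nat_lit 78) (nat_lit 0) (nat_lit 0) (XT.lf (nat_lit 0) (nat_lit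 2486881028) (nat_lit 304) (nat_lit 439339029) (nat_lit 380) (nat_lit 9715709337) (nat_lit 110) (nat_lit 5) (nat_lit 114) (nat_lit 5) (nat_lit 115) (nat_lit 5) (nat_lit 619) (nat_lit 510) (nat_lit 431)) (XT.lf (nat_lit 0) (nat_lit 6939585441) (nat_lit 380) (nat_lit 1617901473) (nat_lit 76) (nat_lit 4231780162) (nat_lit 110) (nat_lit 5) (nat_lit 115) (nat_lit 5) (nat_lit 111) (nat_lit 5) (nat_lit 620) (nat_lit 510) (nat_lit 430))))) (XT.nd (nat_lit 234) (nat_lit 912) (nat_lit 0) (XT.nd (nat_lit 78) (nat_lit 304) (nat_lit 0) (XT.lf (nat_lit 0) (nat_lit 7130614348) (nat_lit 304) (nat_lit 3921396367) (nat_lit 380) (nat_lit 1887167092) (nat_lit 106) (nat_lit 5) (nat_lit 110) (nat_lit 5) (nat_lit 111) (nat_lit 5) (nat_lit 621) (nat_lit 510) (nat_lit 429)) (XT.nd (nat_lit 78) (nat_lit 0) (nat_lit 0) (XT.lf (nat_lit 0) (nat_lit 2131544614) (nat_lit 304) (nat_lit 10138373001) (nat_lit 76) (nat_lit 821787324) (nat_lit 102) (nat_lit 5) (nat_lit 106) (nat_lit 5) (nat_lit 103) (nat_lit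 5) (nat_lit 622) (nat_lit 510) (nat_lit 428)) (XT.lf (nat_lit 0) (nat_lit 6240394212) (nat_lit 304) (nat_lit 1366233257) (nat_lit 76) (nat_lit 5639707028) (nat_lit 102) (nat_lit 5) (nat_lit 106) (nat_lit 5) (nat_lit 103) (nat_lit 5) (nat_lit 623) (nat_lit 510) (nat_lit 427)))) (XT.nd (nat_lit 156) (nat_lit 304) (nat_lit 0) (XT.nd (nat_lit 78) (nat_lit 304) (nat_lit 0) (XT.lf (nat_lit 0) (nat_lit 7632225107) (nat_lit 304) (nat_lit 2819144297) (nat_lit 380) (nat_lit 2952290253) (nat_lit 98) (nat_lit 5) (nat_lit 102) (nat_lit 5) (nat_lit 103) (nat_lit 5) (nat_lit 624) (nat_lit 510) (nat_lit 426)) (XT.lf (nat_lit 0) (nat_lit 1181247173) (nat_lit 304) (nat_lit 10326659765) (nat_lit 76) (nat_lit 2055786301) (nat_lit 94) (nat_lit 5) (nat_lit 98) (nat_lit 5) (nat_lit 95) (nat_lit 5) (nat_lit 625) (nat_lit 510) (nat_lit 425))) (XT.nd (nat_lit 78) (nat_lit 304) (nat_lit 0) (XT.lf (nat_lit 0) (nat_lit 5386212109) (nat_lit 304) (nat_lit 1310154700) (nat_lit 76) (nat_lit 7029606502)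 (nat_lit 94) (nat_lit 5) (nat_lit 98) (nat_lit 5) (nat_lit 95) (nat_lit 5) (nat_lit 626) (nat_lit 510) (nat_lit 424)) (XT.lf (nat_lit 0) (nat_lit 7942387422) (nat_lit 304) (nat_lit 1755628029) (nat_lit 380) (nat_lit 4193030584) (nat_lit 90) (nat_lit 5) (nat_lit 94) (nat_lit 5) (nat_lit 95) (nat_lit 5) (nat_lit 627) (nat_lit 510) (nat_lit 423))))))) (XT.nd (nat_lit 936) (nat_lit 1064) (nat_lit 0) (XT.nd (nat_lit 468) (nat_lit 1064) (nat_lit 0) (XT.nd (nat_lit 234) (nat_lit 532) (nat_lit 0) (XT.nd (nat_lit 78) (nat_lit 228) (nat_lit 0) (XT.lf (nat_lit 0) (nat_lit 59277028) (nat_lit 304) (nat_lit 10747386003) (nat_lit 76) (nat_lit 3252291728) (nat_lit 86) (nat_lit 5) (nat_lit 90) (nat_lit 5) (nat_lit 87) (nat_lit 5) (nat_lit 628) (nat_lit 510) (nat_lit 422)) (XT.nd (nat_lit 78) (nat_lit 228) (nat_lit 0) (XT.lf (nat_lit 0) (nat_lit 4363705043) (nat_lit 304) (nat_lit 1480095517) (nat_lit 76) (nat_lit 8385404129) (nat_lit 86) (nat_lit 5) (nat_lit 90) (nat_lit 5) (nat_lit 87)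 (nat_lit 5) (nat_lit 629) (nat_lit 510) (nat_lit 421)) (XT.lf (nat_lit 0) (nat_lit 8030162623) (nat_lit 228) (nat_lit 748114546) (nat_lit 304) (nat_lit 5624103030) (nat_lit 83) (nat_lit 5) (nat_lit 86) (nat_lit 5) (nat_lit 87) (nat_lit 5) (nat_lit 630) (nat_lit 510) (nat_lit 420)))) (XT.nd (nat_lit 78) (nat_lit 304) (nat_lit 0) (XT.lf (nat_lit 0) (nat_lit 3136232964) (nat_lit 228) (nat_lit 10176191797) (nat_lit 304) (nat_lit 1265970437) (nat_lit 80) (nat_lit 5) (nat_lit 83) (nat_lit 5) (nat_lit 84) (nat_lit 5) (nat_lit 631) (nat_lit 510) (nat_lit 419)) (XT.nd (nat_lit 78) (nat_lit 228) (nat_lit 0) (XT.lf (nat_lit 0) (nat_lit 3157715156) (nat_lit 304) (nat_lit 1909596449) (nat_lit 76) (nat_lit 9689805884) (nat_lit 79) (nat_lit 5) (nat_lit 83) (nat_lit 5) (nat_lit 80) (nat_lit 5) (nat_lit 632) (nat_lit 510) (nat_lit 418)) (XT.lf (nat_lit 0) (nat_lit 7677816744) (nat_lit 304) (nat_lit 7078566075) (nat_lit 76) (nat_lit 182367740) (nat_lit 76) (nat_lit 5) (nat_lit 80) (nat_lit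 5) (nat_lit 77) (nat_lit 5) (nat_lit 633) (nat_lit 510) (nat_lit 417))))) (XT.nd (nat_lit 234) (nat_lit 532) (nat_lit 0) (XT.nd (nat_lit 78) (nat_lit 304) (nat_lit 0) (XT.lf (nat_lit 0) (nat_lit 2681976451) (nat_lit 228) (nat_lit 9642958475) (nat_lit 304) (nat_lit 2798350605) (nat_lit 73) (nat_lit 5) (nat_lit 76) (nat_lit 5) (nat_lit 77) (nat_lit 5) (nat_lit 634) (nat_lit 510) (nat_lit 416)) (XT.nd (nat_lit 78) (nat_lit 228) (nat_lit 0) (XT.lf (nat_lit 0) (nat_lit 1751096829) (nat_lit 304) (nat_lit 2635673481) (nat_lit 76) (nat_lit 10924102473) (nat_lit 72) (nat_lit 5) (nat_lit 76) (nat_lit 5) (nat_lit 73) (nat_lit 5) (nat_lit 635) (nat_lit 510) (nat_lit 415)) (XT.lf (nat_lit 0) (nat_lit 6382103063) (nat_lit 304) (nat_lit 8109654016) (nat_lit 76) (nat_lit 1009525410) (nat_lit 69) (nat_lit 5) (nat_lit 73) (nat_lit 5) (nat_lit 70) (nat_lit 5) (nat_lit 636) (nat_lit 510) (nat_lit 414)))) (XT.nd (nat_lit 78) (nat_lit 304) (nat_lit 0) (XT.lf (nat_lit 0) (nat_lit 1909662358)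 (nat_lit 228) (nat_lit 9228748084) (nat_lit 304) (nat_lit 4556437743) (nat_lit 66) (nat_lit 5) (nat_lit 69) (nat_lit 5) (nat_lit 70) (nat_lit 5) (nat_lit 637) (nat_lit 510) (nat_lit 413)) (XT.nd (nat_lit 78) (nat_lit 228) (nat_lit 0) (XT.lf (nat_lit 0) (nat_lit 124533310) (nat_lit 304) (nat_lit 3699218197) (nat_lit 76) (nat_lit 12067957300) (nat_lit 65) (nat_lit 5) (nat_lit 69) (nat_lit 5) (nat_lit 66) (nat_lit 5) (nat_lit 638) (nat_lit 510) (nat_lit 412)) (XT.lf (nat_lit 0) (nat_lit 4866337679) (nat_lit 304) (nat_lit 9503460014) (nat_lit 76) (nat_lit 1721543432) (nat_lit 62) (nat_lit 5) (nat_lit 66) (nat_lit 5) (nat_lit 63) (nat_lit 5) (nat_lit 639) (nat_lit 510) (nat_lit 411)))))) (XT.nd (nat_lit 468) (nat_lit 152) (nat_lit 0) (XT.nd (nat_lit 234) (nat_lit 456) (nat_lit 0) (XT.nd (nat_lit 78) (nat_lit 304) (nat_lit 0) (XT.lf (nat_lit 0) (nat_lit 775575486) (nat_lit 152) (nat_lit 8956834418) (nat_lit 228) (nat_lit 6561968856) (nat_lit 60) (nat_lit 5) (nat_lit 62) (nat_lit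 5) (nat_lit 63) (nat_lit 5) (nat_lit 640) (nat_lit 510) (nat_lit 410)) (XT.nd (nat_lit 78) (nat_lit 304) (nat_lit 0) (XT.lf (nat_lit 0) (nat_lit 11343807238) (nat_lit 152) (nat_lit 3390069444) (nat_lit 228) (nat_lit 1766840288) (nat_lit 60) (nat_lit 5) (nat_lit 62) (nat_lit 5) (nat_lit 63) (nat_lit 5) (nat_lit 641) (nat_lit 510) (nat_lit 409)) (XT.lf (nat_lit 0) (nat_lit 3108129156) (nat_lit 304) (nat_lit 11307337029) (nat_lit 76) (nat_lit 2294813052) (nat_lit 56) (nat_lit 5) (nat_lit 60) (nat_lit 5) (nat_lit 57) (nat_lit 5) (nat_lit 642) (nat_lit 510) (nat_lit 408)))) (XT.nd (nat_lit 78) (nat_lit 456) (nat_lit 0) (XT.lf (nat_lit 0) (nat_lit 8088967942) (nat_lit 304) (nat_lit 758571134) (nat_lit 76) (nat_lit 8075620748) (nat_lit 56) (nat_lit 5) (nat_lit 60) (nat_lit 5) (nat_lit 57) (nat_lit 5) (nat_lit 643) (nat_lit 510) (nat_lit 407)) (XT.nd (nat_lit 78) (nat_lit 304) (nat_lit 0) (XT.lf (nat_lit 0) (nat_lit 10089630677) (nat_lit 152) (nat_lit 3120517365) (nat_lit 228)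 (nat_lit 3929336676) (nat_lit 54) (nat_lit 5) (nat_lit 56) (nat_lit 5) (nat_lit 57) (nat_lit 5) (nat_lit 644) (nat_lit 510) (nat_lit 406)) (XT.lf (nat_lit 0) (nat_lit 1082398458) (nat_lit 304) (nat_lit 13573659507) (nat_lit 76) (nat_lit 2703482601) (nat_lit 50) (nat_lit 5) (nat_lit 54) (nat_lit 5) (nat_lit 51) (nat_lit 5) (nat_lit 645) (nat_lit 510) (nat_lit 405))))) (XT.nd (nat_lit 72852) (nat_lit 0) (nat_lit 47196) (XT.nd (nat_lit 78) (nat_lit 152) (nat_lit 0) (XT.lf (nat_lit 0) (nat_lit 6185424054) (nat_lit 304) (nat_lit 2740146315) (nat_lit 76) (nat_lit 8657035429) (nat_lit 50) (nat_lit 5) (nat_lit 54) (nat_lit 5) (nat_lit 51) (nat_lit 5) (nat_lit 646) (nat_lit 510) (nat_lit 404)) (XT.nd (nat_lit 72696) (nat_lit 0) (nat_lit 49020) (XT.lf (nat_lit 0) (nat_lit 8376775188) (nat_lit 152) (nat_lit 3043939404) (nat_lit 228) (nat_lit 6388814750) (nat_lit 48) (nat_lit 5) (nat_lit 50) (nat_lit 5) (nat_lit 51) (nat_lit 5) (nat_lit 647) (nat_lit 510) (nat_lit 403)) (XT.lf (nat_lit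 0) (nat_lit 43321484) (nat_lit 836) (nat_lit 3212318802) (nat_lit 0) (nat_lit 43321484) (nat_lit 693) (nat_lit 5) (nat_lit 704) (nat_lit 4) (nat_lit 693) (nat_lit 4) (nat_lit 538) (nat_lit 511) (nat_lit 511)))) (XT.nd (nat_lit 156) (nat_lit 988) (nat_lit 0) (XT.nd (nat_lit 78) (nat_lit 836) (nat_lit 0) (XT.lf (nat_lit 0) (nat_lit 3323135855) (nat_lit 836) (nat_lit 2326883266) (nat_lit 0) (nat_lit 965619150) (nat_lit 693) (nat_lit 5) (nat_lit 704) (nat_lit 4) (nat_lit 693) (nat_lit 4) (nat_lit 539) (nat_lit 511) (nat_lit 510)) (XT.lf (nat_lit 0) (nat_lit 1821654147) (nat_lit 836) (nat_lit 4741056332) (nat_lit 836) (nat_lit 72248741) (nat_lit 682) (nat_lit 4) (nat_lit 693) (nat_lit 5) (nat_lit 693) (nat_lit 4) (nat_lit 540) (nat_lit 511) (nat_lit 509))) (XT.nd (nat_lit 78) (nat_lit 912) (nat_lit 0) (XT.lf (nat_lit 0) (nat_lit 3113108978) (nat_lit 912) (nat_lit 646298912) (nat_lit 76) (nat_lit 2896003172) (nat_lit 681) (nat_lit 5) (nat_lit 693) (nat_lit 5) (nat_lit 682)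 (nat_lit 4) (nat_lit 541) (nat_lit 511) (nat_lit 508)) (XT.lf (nat_lit 0) (nat_lit 3596136869) (nat_lit 912) (nat_lit 2716960439) (nat_lit 988) (nat_lit 364145131) (nat_lit 669) (nat_lit 5) (nat_lit 681) (nat_lit 5) (nat_lit 682) (nat_lit 4) (nat_lit 542) (nat_lit 511) (nat_lit 507))))))))
noncomputable def xc61 : XT := (XT.nd (nat_lit 1950) (nat_lit 12388) (nat_lit 0) (XT.nd (nat_lit 936) (nat_lit 11552) (nat_lit 0) (XT.nd (nat_lit 468) (nat_lit 5852) (nat_lit 0) (XT.nd (nat_lit 234) (nat_lit 2432) (nat_lit 0) (XT.nd (nat_lit 78) (nat_lit 1140) (nat_lit 0) (XT.lf (nat_lit 0) (nat_lit 1174250942) (nat_lit 988) (nat_lit 1606680737) (nat_lit 1064) (nat_lit 3919400341) (nat_lit 655) (nat_lit 5) (nat_lit 668) (nat_lit 5) (nat_lit 669) (nat_lit 5) (nat_lit 543) (nat_lit 511) (nat_lit 506)) (XT.nd (nat_lit 78) (nat_lit 1140) (nat_lit 0) (XT.lf (nat_lit 0) (nat_lit 5499203172) (nat_lit 988) (nat_lit 435636419) (nat_lit 1064) (nat_lit 789996387) (nat_lit 655) (nat_lit 5) (nat_lit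 668) (nat_lit 5) (nat_lit 669) (nat_lit 5) (nat_lit 544) (nat_lit 511) (nat_lit 505)) (XT.lf (nat_lit 0) (nat_lit 2327123787) (nat_lit 1140) (nat_lit 3624153969) (nat_lit 76) (nat_lit 799123922) (nat_lit 640) (nat_lit 5) (nat_lit 655) (nat_lit 5) (nat_lit 641) (nat_lit 5) (nat_lit 545) (nat_lit 511) (nat_lit 504)))) (XT.nd (nat_lit 78) (nat_lit 1292) (nat_lit 0) (XT.lf (nat_lit 0) (nat_lit 751354114) (nat_lit 1140) (nat_lit 4692835236) (nat_lit 1216) (nat_lit 1333237146) (nat_lit 625) (nat_lit 5) (nat_lit 640) (nat_lit 5) (nat_lit 641) (nat_lit 5) (nat_lit 546) (nat_lit 511) (nat_lit 503)) (XT.nd (nat_lit 78) (nat_lit 1216) (nat_lit 0) (XT.lf (nat_lit 0) (nat_lit 1751875411) (nat_lit 1216) (nat_lit 1609312883) (nat_lit 76) (nat_lit 3444440167) (nat_lit 624) (nat_lit 5) (nat_lit 640) (nat_lit 5) (nat_lit 625) (nat_lit 5) (nat_lit 547) (nat_lit 511) (nat_lit 502)) (XT.lf (nat_lit 0) (nat_lit 2869351594) (nat_lit 1216) (nat_lit 1964095043) (nat_lit 1292) (nat_lit 2001734356)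 (nat_lit 608) (nat_lit 5) (nat_lit 624) (nat_lit 5) (nat_lit 625) (nat_lit 5) (nat_lit 548) (nat_lit 511) (nat_lit 501))))) (XT.nd (nat_lit 234) (nat_lit 3040) (nat_lit 0) (XT.nd (nat_lit 78) (nat_lit 1444) (nat_lit 0) (XT.lf (nat_lit 0) (nat_lit 538313596) (nat_lit 1292) (nat_lit 507256905) (nat_lit 1368) (nat_lit 5820647713) (nat_lit 590) (nat_lit 5) (nat_lit 607) (nat_lit 5) (nat_lit 608) (nat_lit 5) (nat_lit 549) (nat_lit 511) (nat_lit 500)) (XT.nd (nat_lit 78) (nat_lit 1444) (nat_lit 0) (XT.lf (nat_lit 0) (nat_lit 4095627402) (nat_lit 1368) (nat_lit 1787588402) (nat_lit 76) (nat_lit 1015037650) (nat_lit 590) (nat_lit 5) (nat_lit 608) (nat_lit 5) (nat_lit 591) (nat_lit 5) (nat_lit 550) (nat_lit 511) (nat_lit 499)) (XT.lf (nat_lit 0) (nat_lit 230235291) (nat_lit 1444) (nat_lit 4111752123) (nat_lit 76) (nat_lit 2589757801) (nat_lit 571) (nat_lit 5) (nat_lit 590) (nat_lit 5) (nat_lit 572) (nat_lit 5) (nat_lit 551) (nat_lit 511) (nat_lit 498)))) (XT.nd (nat_lit 78) (nat_lit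 1596) (nat_lit 0) (XT.lf (nat_lit 0) (nat_lit 510218273) (nat_lit 1444) (nat_lit 2728593215) (nat_lit 1520) (nat_lit 3727686395) (nat_lit 552) (nat_lit 5) (nat_lit 571) (nat_lit 5) (nat_lit 572) (nat_lit 5) (nat_lit 552) (nat_lit 511) (nat_lit 497)) (XT.nd (nat_lit 78) (nat_lit 1596) (nat_lit 0) (XT.lf (nat_lit 0) (nat_lit 5224609193) (nat_lit 1444) (nat_lit 1048574091) (nat_lit 1520) (nat_lit 729462852) (nat_lit 552) (nat_lit 5) (nat_lit 571) (nat_lit 5) (nat_lit 572) (nat_lit 5) (nat_lit 553) (nat_lit 511) (nat_lit 496)) (XT.lf (nat_lit 0) (nat_lit 2260829327) (nat_lit 1596) (nat_lit 4082637168) (nat_lit 76) (nat_lit 696508061) (nat_lit 531) (nat_lit 5) (nat_lit 552) (nat_lit 5) (nat_lit 532) (nat_lit 5) (nat_lit 554) (nat_lit 511) (nat_lit 495)))))) (XT.nd (nat_lit 468) (nat_lit 4712) (nat_lit 0) (XT.nd (nat_lit 234) (nat_lit 3496) (nat_lit 0) (XT.nd (nat_lit 78) (nat_lit 1748) (nat_lit 0) (XT.lf (nat_lit 0) (nat_lit 674325389) (nat_lit 1596) (nat_lit 4589883988) (nat_lit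 1672) (nat_lit 1814495005) (nat_lit 510) (nat_lit 5) (nat_lit 531) (nat_lit 5) (nat_lit 532) (nat_lit 5) (nat_lit 555) (nat_lit 511) (nat_lit 494)) (XT.nd (nat_lit 78) (nat_lit 1672) (nat_lit 0) (XT.lf (nat_lit 0) (nat_lit 1161284488) (nat_lit 1672) (nat_lit 1600737569) (nat_lit 76) (nat_lit 4356687516) (nat_lit 509) (nat_lit 5) (nat_lit 531) (nat_lit 5) (nat_lit 510) (nat_lit 5) (nat_lit 556) (nat_lit 511) (nat_lit 493)) (XT.lf (nat_lit 0) (nat_lit 3274204748) (nat_lit 1672) (nat_lit 860654185) (nat_lit 1748) (nat_lit 3025176107) (nat_lit 487) (nat_lit 5) (nat_lit 509) (nat_lit 5) (nat_lit 510) (nat_lit 5) (nat_lit 557) (nat_lit 511) (nat_lit 492)))) (XT.nd (nat_lit 78) (nat_lit 1748) (nat_lit 0) (XT.lf (nat_lit 0) (nat_lit 1016106384) (nat_lit 1748) (nat_lit 6118315595) (nat_lit 1824) (nat_lit 68446024) (nat_lit 464) (nat_lit 5) (nat_lit 487) (nat_lit 5) (nat_lit 488) (nat_lit 5) (nat_lit 558) (nat_lit 511) (nat_lit 491)) (XT.nd (nat_lit 78) (nat_lit 1672) (nat_lit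 0) (XT.lf (nat_lit 0) (nat_lit 2883195550) (nat_lit 1824) (nat_lit 1259210401) (nat_lit 76) (nat_lit 3104291176) (nat_lit 463) (nat_lit 5) (nat_lit 487) (nat_lit 5) (nat_lit 464) (nat_lit 5) (nat_lit 559) (nat_lit 511) (nat_lit 490)) (XT.lf (nat_lit 0) (nat_lit 3759946459) (nat_lit 1672) (nat_lit 2101032149) (nat_lit 1748) (nat_lit 1431065351) (nat_lit 441) (nat_lit 5) (nat_lit 463) (nat_lit 5) (nat_lit 464) (nat_lit 5) (nat_lit 560) (nat_lit 511) (nat_lit 489))))) (XT.nd (nat_lit 234) (nat_lit 2660) (nat_lit 0) (XT.nd (nat_lit 78) (nat_lit 988) (nat_lit 0) (XT.lf (nat_lit 0) (nat_lit 1501925851) (nat_lit 1064) (nat_lit 5827045949) (nat_lit 76) (nat_lit 9886292) (nat_lit 427) (nat_lit 5) (nat_lit 441) (nat_lit 5) (nat_lit 428) (nat_lit 5) (nat_lit 561) (nat_lit 511) (nat_lit 488)) (XT.nd (nat_lit 78) (nat_lit 988) (nat_lit 0) (XT.lf (nat_lit 0) (nat_lit 4456917778) (nat_lit 1064) (nat_lit 762138983) (nat_lit 76) (nat_lit 2167722563) (nat_lit 427) (nat_lit 5) (nat_lit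 441) (nat_lit 5) (nat_lit 428) (nat_lit 5) (nat_lit 562) (nat_lit 511) (nat_lit 487)) (XT.lf (nat_lit 0) (nat_lit 9110287) (nat_lit 988) (nat_lit 3030206985) (nat_lit 76) (nat_lit 4396862320) (nat_lit 414) (nat_lit 5) (nat_lit 427) (nat_lit 5) (nat_lit 415) (nat_lit 5) (nat_lit 563) (nat_lit 511) (nat_lit 486)))) (XT.nd (nat_lit 156) (nat_lit 1748) (nat_lit 0) (XT.nd (nat_lit 78) (nat_lit 0) (nat_lit 0) (XT.lf (nat_lit 0) (nat_lit 2153947932) (nat_lit 912) (nat_lit 778987196) (nat_lit 988) (nat_lit 4553948803) (nat_lit 402) (nat_lit 5) (nat_lit 414) (nat_lit 5) (nat_lit 415) (nat_lit 5) (nat_lit 564) (nat_lit 511) (nat_lit 485)) (XT.lf (nat_lit 0) (nat_lit 5892428187) (nat_lit 988) (nat_lit 122242938) (nat_lit 76) (nat_lit 1524396693) (nat_lit 402) (nat_lit 5) (nat_lit 415) (nat_lit 5) (nat_lit 403) (nat_lit 5) (nat_lit 565) (nat_lit 511) (nat_lit 484))) (XT.nd (nat_lit 78) (nat_lit 836) (nat_lit 0) (XT.lf (nat_lit 0) (nat_lit 1288197373) (nat_lit 912) (nat_lit 2401087977)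 (nat_lit 76) (nat_lit 3903114148) (nat_lit 390) (nat_lit 5) (nat_lit 402) (nat_lit 5) (nat_lit 391) (nat_lit 5) (nat_lit 566) (nat_lit 511) (nat_lit 483)) (XT.lf (nat_lit 0) (nat_lit 2937550562) (nat_lit 836) (nat_lit 1290218383) (nat_lit 912) (nat_lit 3419458214) (nat_lit 379) (nat_lit 5) (nat_lit 390) (nat_lit 5) (nat_lit 391) (nat_lit 5) (nat_lit 567) (nat_lit 511) (nat_lit 482))))))) (XT.nd (nat_lit 936) (nat_lit 6156) (nat_lit 0) (XT.nd (nat_lit 468) (nat_lit 2964) (nat_lit 0) (XT.nd (nat_lit 234) (nat_lit 1596) (nat_lit 0) (XT.nd (nat_lit 78) (nat_lit 912) (nat_lit 0) (XT.lf (nat_lit 0) (nat_lit 656966656) (nat_lit 760) (nat_lit 6545953582) (nat_lit 836) (nat_lit 500703957) (nat_lit 369) (nat_lit 5) (nat_lit 379) (nat_lit 5) (nat_lit 380) (nat_lit 5) (nat_lit 568) (nat_lit 511) (nat_lit 481)) (XT.nd (nat_lit 78) (nat_lit 836) (nat_lit 0) (XT.lf (nat_lit 0) (nat_lit 2433392545) (nat_lit 836) (nat_lit 1647589632) (nat_lit 76) (nat_lit 3680064755) (nat_lit 368) (nat_lit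 5) (nat_lit 379) (nat_lit 5) (nat_lit 369) (nat_lit 5) (nat_lit 569) (nat_lit 511) (nat_lit 480)) (XT.lf (nat_lit 0) (nat_lit 3850741147) (nat_lit 836) (nat_lit 1543819239) (nat_lit 912) (nat_lit 2425497761) (nat_lit 357) (nat_lit 5) (nat_lit 368) (nat_lit 5) (nat_lit 369) (nat_lit 5) (nat_lit 570) (nat_lit 511) (nat_lit 479)))) (XT.nd (nat_lit 78) (nat_lit 760) (nat_lit 0) (XT.lf (nat_lit 0) (nat_lit 506230664) (nat_lit 836) (nat_lit 6325574747) (nat_lit 76) (nat_lit 1048811692) (nat_lit 346) (nat_lit 5) (nat_lit 357) (nat_lit 5) (nat_lit 347) (nat_lit 5) (nat_lit 571) (nat_lit 511) (nat_lit 478)) (XT.nd (nat_lit 78) (nat_lit 760) (nat_lit 0) (XT.lf (nat_lit 0) (nat_lit 3452119369) (nat_lit 836) (nat_lit 781402997) (nat_lit 76) (nat_lit 3708791784) (nat_lit 346) (nat_lit 5) (nat_lit 357) (nat_lit 5) (nat_lit 347) (nat_lit 5) (nat_lit 572) (nat_lit 511) (nat_lit 477)) (XT.lf (nat_lit 0) (nat_lit 4882014756) (nat_lit 760) (nat_lit 1558506598) (nat_lit 836) (nat_lit 1565059348)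 (nat_lit 336) (nat_lit 5) (nat_lit 346) (nat_lit 5) (nat_lit 347) (nat_lit 5) (nat_lit 573) (nat_lit 511) (nat_lit 476))))) (XT.nd (nat_lit 234) (nat_lit 1444) (nat_lit 0) (XT.nd (nat_lit 78) (nat_lit 760) (nat_lit 0) (XT.lf (nat_lit 0) (nat_lit 1381834590) (nat_lit 760) (nat_lit 5510429223) (nat_lit 76) (nat_lit 1178034535) (nat_lit 326) (nat_lit 5) (nat_lit 336) (nat_lit 5) (nat_lit 327) (nat_lit 5) (nat_lit 574) (nat_lit 511) (nat_lit 475)) (XT.nd (nat_lit 78) (nat_lit 0) (nat_lit 0) (XT.lf (nat_lit 0) (nat_lit 188598409) (nat_lit 760) (nat_lit 4163460442) (nat_lit 836) (nat_lit 3784344668) (nat_lit 316) (nat_lit 5) (nat_lit 326) (nat_lit 5) (nat_lit 327) (nat_lit 5) (nat_lit 575) (nat_lit 511) (nat_lit 474)) (XT.lf (nat_lit 0) (nat_lit 6020200508) (nat_lit 760) (nat_lit 1351712168) (nat_lit 836) (nat_lit 832120522) (nat_lit 316) (nat_lit 5) (nat_lit 326) (nat_lit 5) (nat_lit 327) (nat_lit 5) (nat_lit 576) (nat_lit 511) (nat_lit 473)))) (XT.nd (nat_lit 78) (nat_lit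 684) (nat_lit 0) (XT.lf (nat_lit 0) (nat_lit 2138309615) (nat_lit 760) (nat_lit 4609387392) (nat_lit 76) (nat_lit 1525287304) (nat_lit 306) (nat_lit 5) (nat_lit 316) (nat_lit 5) (nat_lit 307) (nat_lit 5) (nat_lit 577) (nat_lit 511) (nat_lit 472)) (XT.nd (nat_lit 78) (nat_lit 0) (nat_lit 0) (XT.lf (nat_lit 0) (nat_lit 1260416090) (nat_lit 684) (nat_lit 3882824573) (nat_lit 760) (nat_lit 3200245595) (nat_lit 297) (nat_lit 5) (nat_lit 306) (nat_lit 5) (nat_lit 307) (nat_lit 5) (nat_lit 578) (nat_lit 511) (nat_lit 471)) (XT.lf (nat_lit 0) (nat_lit 7254355083) (nat_lit 684) (nat_lit 939717178) (nat_lit 760) (nat_lit 221616325) (nat_lit 297) (nat_lit 5) (nat_lit 306) (nat_lit 5) (nat_lit 307) (nat_lit 5) (nat_lit 579) (nat_lit 511) (nat_lit 470)))))) (XT.nd (nat_lit 468) (nat_lit 2888) (nat_lit 0) (XT.nd (nat_lit 234) (nat_lit 1824) (nat_lit 0) (XT.nd (nat_lit 78) (nat_lit 760) (nat_lit 0) (XT.lf (nat_lit 0) (nat_lit 2780366051) (nat_lit 684) (nat_lit 3633720861) (nat_lit 76)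 (nat_lit 2074874028) (nat_lit 288) (nat_lit 5) (nat_lit 297) (nat_lit 5) (nat_lit 289) (nat_lit 5) (nat_lit 580) (nat_lit 511) (nat_lit 469)) (XT.nd (nat_lit 78) (nat_lit 76) (nat_lit 0) (XT.lf (nat_lit 0) (nat_lit 2412543093) (nat_lit 684) (nat_lit 3412515002) (nat_lit 760) (nat_lit 2738904610) (nat_lit 279) (nat_lit 5) (nat_lit 288) (nat_lit 5) (nat_lit 289) (nat_lit 5) (nat_lit 581) (nat_lit 511) (nat_lit 468)) (XT.lf (nat_lit 0) (nat_lit 267033065) (nat_lit 760) (nat_lit 68956255) (nat_lit 76) (nat_lit 8304830096) (nat_lit 278) (nat_lit 5) (nat_lit 288) (nat_lit 5) (nat_lit 279) (nat_lit 5) (nat_lit 582) (nat_lit 511) (nat_lit 467)))) (XT.nd (nat_lit 78) (nat_lit 1216) (nat_lit 0) (XT.lf (nat_lit 0) (nat_lit 3311807396) (nat_lit 684) (nat_lit 2594664023) (nat_lit 76) (nat_lit 2812077588) (nat_lit 270) (nat_lit 5) (nat_lit 279) (nat_lit 5) (nat_lit 271) (nat_lit 5) (nat_lit 583) (nat_lit 511) (nat_lit 466)) (XT.nd (nat_lit 78) (nat_lit 608) (nat_lit 0) (XT.lf (nat_lit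 0) (nat_lit 3633880789) (nat_lit 608) (nat_lit 2767267647) (nat_lit 684) (nat_lit 2397016884) (nat_lit 262) (nat_lit 5) (nat_lit 270) (nat_lit 5) (nat_lit 271) (nat_lit 5) (nat_lit 584) (nat_lit 511) (nat_lit 465)) (XT.lf (nat_lit 0) (nat_lit 649242021) (nat_lit 608) (nat_lit 7784973647) (nat_lit 76) (nat_lit 445372952) (nat_lit 254) (nat_lit 5) (nat_lit 262) (nat_lit 5) (nat_lit 255) (nat_lit 5) (nat_lit 585) (nat_lit 511) (nat_lit 464))))) (XT.nd (nat_lit 234) (nat_lit 1672) (nat_lit 0) (XT.nd (nat_lit 78) (nat_lit 1216) (nat_lit 0) (XT.lf (nat_lit 0) (nat_lit 3735541261) (nat_lit 608) (nat_lit 1503525145) (nat_lit 76) (nat_lit 3723038104) (nat_lit 254) (nat_lit 5) (nat_lit 262) (nat_lit 5) (nat_lit 255) (nat_lit 5) (nat_lit 586) (nat_lit 511) (nat_lit 463)) (XT.nd (nat_lit 78) (nat_lit 608) (nat_lit 0) (XT.lf (nat_lit 0) (nat_lit 4913241846) (nat_lit 608) (nat_lit 1961019139) (nat_lit 684) (nat_lit 2172200975) (nat_lit 246) (nat_lit 5) (nat_lit 254) (nat_lit 5) (nat_lit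 255) (nat_lit 5) (nat_lit 587) (nat_lit 511) (nat_lit 462)) (XT.lf (nat_lit 0) (nat_lit 924136942) (nat_lit 608) (nat_lit 6826138534) (nat_lit 76) (nat_lit 1382248345) (nat_lit 238) (nat_lit 5) (nat_lit 246) (nat_lit 5) (nat_lit 239) (nat_lit 5) (nat_lit 588) (nat_lit 511) (nat_lit 461)))) (XT.nd (nat_lit 156) (nat_lit 1140) (nat_lit 0) (XT.nd (nat_lit 78) (nat_lit 532) (nat_lit 0) (XT.lf (nat_lit 0) (nat_lit 4053583310) (nat_lit 608) (nat_lit 371800998) (nat_lit 76) (nat_lit 4794634932) (nat_lit 238) (nat_lit 5) (nat_lit 246) (nat_lit 5) (nat_lit 239) (nat_lit 5) (nat_lit 589) (nat_lit 511) (nat_lit 460)) (XT.lf (nat_lit 0) (nat_lit 6239233844) (nat_lit 532) (nat_lit 1007025014) (nat_lit 608) (nat_lit 2062997645) (nat_lit 231) (nat_lit 5) (nat_lit 238) (nat_lit 5) (nat_lit 239) (nat_lit 5) (nat_lit 590) (nat_lit 511) (nat_lit 459))) (XT.nd (nat_lit 78) (nat_lit 532) (nat_lit 0) (XT.lf (nat_lit 0) (nat_lit 1090276331) (nat_lit 608) (nat_lit 5844054544) (nat_lit 76) (nat_lit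 2465764497) (nat_lit 223) (nat_lit 5) (nat_lit 231) (nat_lit 5) (nat_lit 224) (nat_lit 5) (nat_lit 591) (nat_lit 511) (nat_lit 458)) (XT.lf (nat_lit 0) (nat_lit 799185427) (nat_lit 532) (nat_lit 3473057529) (nat_lit 608) (nat_lit 5220374787) (nat_lit 216) (nat_lit 5) (nat_lit 223) (nat_lit 5) (nat_lit 224) (nat_lit 5) (nat_lit 592) (nat_lit 511) (nat_lit 457))))))))
noncomputable def xc62 : XT := (XT.nd (nat_lit 1950) (nat_lit 4560) (nat_lit 0) (XT.nd (nat_lit 936) (nat_lit 3420) (nat_lit 0) (XT.nd (nat_lit 468) (nat_lit 1900) (nat_lit 0) (XT.nd (nat_lit 234) (nat_lit 988) (nat_lit 0) (XT.nd (nat_lit 78) (nat_lit 1064) (nat_lit 0) (XT.lf (nat_lit 0) (nat_lit 7518646230) (nat_lit 608) (nat_lit 1987384128) (nat_lit 76) (nat_lit 80948637) (nat_lit 216) (nat_lit 5) (nat_lit 224) (nat_lit 5) (nat_lit 217) (nat_lit 5) (nat_lit 593) (nat_lit 511) (nat_lit 456)) (XT.nd (nat_lit 78) (nat_lit 532) (nat_lit 0) (XT.lf (nat_lit 0) (nat_lit 1147946760) (nat_lit 532) (nat_lit 4851182374)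 (nat_lit 76) (nat_lit 3683628908) (nat_lit 209) (nat_lit 5) (nat_lit 216) (nat_lit 5) (nat_lit 210) (nat_lit 5) (nat_lit 594) (nat_lit 511) (nat_lit 455)) (XT.lf (nat_lit 0) (nat_lit 1991876622) (nat_lit 532) (nat_lit 2397224708) (nat_lit 608) (nat_lit 5391317144) (nat_lit 202) (nat_lit 5) (nat_lit 209) (nat_lit 5) (nat_lit 210) (nat_lit 5) (nat_lit 595) (nat_lit 511) (nat_lit 454)))) (XT.nd (nat_lit 78) (nat_lit 988) (nat_lit 0) (XT.lf (nat_lit 0) (nat_lit 7698293700) (nat_lit 608) (nat_lit 904758246) (nat_lit 76) (nat_lit 1276919922) (nat_lit 202) (nat_lit 5) (nat_lit 210) (nat_lit 5) (nat_lit 203) (nat_lit 5) (nat_lit 596) (nat_lit 511) (nat_lit 453)) (XT.nd (nat_lit 78) (nat_lit 456) (nat_lit 0) (XT.lf (nat_lit 0) (nat_lit 1096508274) (nat_lit 532) (nat_lit 3860530943) (nat_lit 76) (nat_lit 5023965612) (nat_lit 195) (nat_lit 5) (nat_lit 202) (nat_lit 5) (nat_lit 196) (nat_lit 5) (nat_lit 597) (nat_lit 511) (nat_lit 452)) (XT.lf (nat_lit 0) (nat_lit 3188360424) (nat_lit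 456) (nat_lit 1212559403) (nat_lit 532) (nat_lit 5683056535) (nat_lit 189) (nat_lit 5) (nat_lit 195) (nat_lit 5) (nat_lit 196) (nat_lit 5) (nat_lit 598) (nat_lit 511) (nat_lit 451))))) (XT.nd (nat_lit 234) (nat_lit 912) (nat_lit 0) (XT.nd (nat_lit 78) (nat_lit 532) (nat_lit 0) (XT.lf (nat_lit 0) (nat_lit 173468438) (nat_lit 456) (nat_lit 7605386678) (nat_lit 532) (nat_lit 2410007238) (nat_lit 183) (nat_lit 5) (nat_lit 189) (nat_lit 5) (nat_lit 190) (nat_lit 5) (nat_lit 599) (nat_lit 511) (nat_lit 450)) (XT.nd (nat_lit 78) (nat_lit 456) (nat_lit 0) (XT.lf (nat_lit 0) (nat_lit 934370193) (nat_lit 532) (nat_lit 2885795868) (nat_lit 76) (nat_lit 6475202135) (nat_lit 182) (nat_lit 5) (nat_lit 189) (nat_lit 5) (nat_lit 183) (nat_lit 5) (nat_lit 600) (nat_lit 511) (nat_lit 449)) (XT.lf (nat_lit 0) (nat_lit 4306400180) (nat_lit 532) (nat_lit 6029332585) (nat_lit 76) (nat_lit 68095610) (nat_lit 176) (nat_lit 5) (nat_lit 183) (nat_lit 5) (nat_lit 177) (nat_lit 5) (nat_lit 601)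 (nat_lit 511) (nat_lit 448)))) (XT.nd (nat_lit 78) (nat_lit 532) (nat_lit 0) (XT.lf (nat_lit 0) (nat_lit 1242798464) (nat_lit 380) (nat_lit 6520337115) (nat_lit 456) (nat_lit 2750980334) (nat_lit 171) (nat_lit 5) (nat_lit 176) (nat_lit 5) (nat_lit 177) (nat_lit 5) (nat_lit 602) (nat_lit 511) (nat_lit 447)) (XT.nd (nat_lit 78) (nat_lit 456) (nat_lit 0) (XT.lf (nat_lit 0) (nat_lit 658958814) (nat_lit 456) (nat_lit 1941506966) (nat_lit 76) (nat_lit 8025955732) (nat_lit 170) (nat_lit 5) (nat_lit 176) (nat_lit 5) (nat_lit 171) (nat_lit 5) (nat_lit 603) (nat_lit 511) (nat_lit 446)) (XT.lf (nat_lit 0) (nat_lit 4110784744) (nat_lit 532) (nat_lit 5212804145) (nat_lit 76) (nat_lit 1416813435) (nat_lit 164) (nat_lit 5) (nat_lit 171) (nat_lit 5) (nat_lit 165) (nat_lit 5) (nat_lit 604) (nat_lit 511) (nat_lit 445)))))) (XT.nd (nat_lit 468) (nat_lit 1748) (nat_lit 0) (XT.nd (nat_lit 234) (nat_lit 836) (nat_lit 0) (XT.nd (nat_lit 78) (nat_lit 456) (nat_lit 0) (XT.lf (nat_lit 0) (nat_lit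 2276113434) (nat_lit 380) (nat_lit 5366098008) (nat_lit 456) (nat_lit 3214243217) (nat_lit 159) (nat_lit 5) (nat_lit 164) (nat_lit 5) (nat_lit 165) (nat_lit 5) (nat_lit 605) (nat_lit 511) (nat_lit 444)) (XT.nd (nat_lit 78) (nat_lit 380) (nat_lit 0) (XT.lf (nat_lit 0) (nat_lit 266676611) (nat_lit 456) (nat_lit 1043186164) (nat_lit 76) (nat_lit 9664917908) (nat_lit 158) (nat_lit 5) (nat_lit 164) (nat_lit 5) (nat_lit 159) (nat_lit 5) (nat_lit 606) (nat_lit 511) (nat_lit 443)) (XT.lf (nat_lit 0) (nat_lit 3802357332) (nat_lit 456) (nat_lit 4454284962) (nat_lit 76) (nat_lit 2837845394) (nat_lit 153) (nat_lit 5) (nat_lit 159) (nat_lit 5) (nat_lit 154) (nat_lit 5) (nat_lit 607) (nat_lit 511) (nat_lit 442)))) (XT.nd (nat_lit 78) (nat_lit 456) (nat_lit 0) (XT.lf (nat_lit 0) (nat_lit 3257215041) (nat_lit 380) (nat_lit 4154855195) (nat_lit 456) (nat_lit 3804455174) (nat_lit 148) (nat_lit 5) (nat_lit 153) (nat_lit 5) (nat_lit 154) (nat_lit 5) (nat_lit 608) (nat_lit 511) (nat_lit 441))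 (XT.nd (nat_lit 78) (nat_lit 456) (nat_lit 0) (XT.lf (nat_lit 0) (nat_lit 11090909534) (nat_lit 456) (nat_lit 209411365) (nat_lit 76) (nat_lit 40747232) (nat_lit 148) (nat_lit 5) (nat_lit 154) (nat_lit 5) (nat_lit 149) (nat_lit 5) (nat_lit 609) (nat_lit 511) (nat_lit 440)) (XT.lf (nat_lit 0) (nat_lit 3376189104) (nat_lit 456) (nat_lit 3771145844) (nat_lit 76) (nat_lit 4319426615) (nat_lit 142) (nat_lit 5) (nat_lit 148) (nat_lit 5) (nat_lit 143) (nat_lit 5) (nat_lit 610) (nat_lit 511) (nat_lit 439))))) (XT.nd (nat_lit 234) (nat_lit 988) (nat_lit 0) (XT.nd (nat_lit 78) (nat_lit 456) (nat_lit 0) (XT.lf (nat_lit 0) (nat_lit 4168621769) (nat_lit 304) (nat_lit 2898980214) (nat_lit 380) (nat_lit 4527418776) (nat_lit 138) (nat_lit 5) (nat_lit 142) (nat_lit 5) (nat_lit 143) (nat_lit 5) (nat_lit 611) (nat_lit 511) (nat_lit 438)) (XT.nd (nat_lit 78) (nat_lit 76) (nat_lit 0) (XT.lf (nat_lit 0) (nat_lit 539338967) (nat_lit 380) (nat_lit 10299387768) (nat_lit 456) (nat_lit 887003401)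 (nat_lit 133) (nat_lit 5) (nat_lit 138) (nat_lit 5) (nat_lit 139) (nat_lit 5) (nat_lit 612) (nat_lit 511) (nat_lit 437)) (XT.lf (nat_lit 0) (nat_lit 2826202588) (nat_lit 456) (nat_lit 3182190712) (nat_lit 76) (nat_lit 5849554999) (nat_lit 132) (nat_lit 5) (nat_lit 138) (nat_lit 5) (nat_lit 133) (nat_lit 5) (nat_lit 613) (nat_lit 511) (nat_lit 436)))) (XT.nd (nat_lit 156) (nat_lit 380) (nat_lit 0) (XT.nd (nat_lit 78) (nat_lit 304) (nat_lit 0) (XT.lf (nat_lit 0) (nat_lit 4991374574) (nat_lit 304) (nat_lit 1611158261) (nat_lit 380) (nat_lit 5390148500) (nat_lit 128) (nat_lit 5) (nat_lit 132) (nat_lit 5) (nat_lit 133) (nat_lit 5) (nat_lit 614) (nat_lit 511) (nat_lit 435)) (XT.lf (nat_lit 0) (nat_lit 1188159874) (nat_lit 304) (nat_lit 9282594487) (nat_lit 380) (nat_lit 1659029844) (nat_lit 124) (nat_lit 5) (nat_lit 128) (nat_lit 5) (nat_lit 129) (nat_lit 5) (nat_lit 615) (nat_lit 511) (nat_lit 434))) (XT.nd (nat_lit 78) (nat_lit 304) (nat_lit 0) (XT.lf (nat_lit 0) (nat_lit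 2145097924) (nat_lit 380) (nat_lit 2707862065) (nat_lit 76) (nat_lit 7415861933) (nat_lit 123) (nat_lit 5) (nat_lit 128) (nat_lit 5) (nat_lit 124) (nat_lit 5) (nat_lit 616) (nat_lit 511) (nat_lit 433)) (XT.lf (nat_lit 0) (nat_lit 5704825918) (nat_lit 304) (nat_lit 304522047) (nat_lit 380) (nat_lit 6400950344) (nat_lit 119) (nat_lit 5) (nat_lit 123) (nat_lit 5) (nat_lit 124) (nat_lit 5) (nat_lit 617) (nat_lit 511) (nat_lit 432))))))) (XT.nd (nat_lit 936) (nat_lit 2052) (nat_lit 0) (XT.nd (nat_lit 468) (nat_lit 1216) (nat_lit 0) (XT.nd (nat_lit 234) (nat_lit 608) (nat_lit 0) (XT.nd (nat_lit 78) (nat_lit 380) (nat_lit 0) (XT.lf (nat_lit 0) (nat_lit 1712682215) (nat_lit 304) (nat_lit 8265113578) (nat_lit 380) (nat_lit 2576272454) (nat_lit 115) (nat_lit 5) (nat_lit 119) (nat_lit 5) (nat_lit 120) (nat_lit 5) (nat_lit 618) (nat_lit 511) (nat_lit 431)) (XT.nd (nat_lit 78) (nat_lit 304) (nat_lit 0) (XT.lf (nat_lit 0) (nat_lit 1324267801) (nat_lit 380) (nat_lit 2370464499) (nat_lit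 76) (nat_lit 9005476529) (nat_lit 114) (nat_lit 5) (nat_lit 119) (nat_lit 5) (nat_lit 115) (nat_lit 5) (nat_lit 619) (nat_lit 511) (nat_lit 430)) (XT.lf (nat_lit 0) (nat_lit 5285742322) (nat_lit 380) (nat_lit 6568845553) (nat_lit 76) (nat_lit 993997516) (nat_lit 110) (nat_lit 5) (nat_lit 115) (nat_lit 5) (nat_lit 111) (nat_lit 5) (nat_lit 620) (nat_lit 511) (nat_lit 429)))) (XT.nd (nat_lit 78) (nat_lit 304) (nat_lit 0) (XT.lf (nat_lit 0) (nat_lit 2089293178) (nat_lit 304) (nat_lit 7261381787) (nat_lit 380) (nat_lit 3648772052) (nat_lit 106) (nat_lit 5) (nat_lit 110) (nat_lit 5) (nat_lit 111) (nat_lit 5) (nat_lit 621) (nat_lit 511) (nat_lit 428)) (XT.nd (nat_lit 78) (nat_lit 228) (nat_lit 0) (XT.lf (nat_lit 0) (nat_lit 353700179) (nat_lit 380) (nat_lit 2194408468) (nat_lit 76) (nat_lit 10604882119) (nat_lit 105) (nat_lit 5) (nat_lit 110) (nat_lit 5) (nat_lit 106) (nat_lit 5) (nat_lit 622) (nat_lit 511) (nat_lit 427)) (XT.lf (nat_lit 0) (nat_lit 4416817385) (nat_lit 304)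 (nat_lit 6612438558) (nat_lit 76) (nat_lit 2279280010) (nat_lit 102) (nat_lit 5) (nat_lit 106) (nat_lit 5) (nat_lit 103) (nat_lit 5) (nat_lit 623) (nat_lit 511) (nat_lit 426))))) (XT.nd (nat_lit 234) (nat_lit 608) (nat_lit 0) (XT.nd (nat_lit 78) (nat_lit 304) (nat_lit 0) (XT.lf (nat_lit 0) (nat_lit 2292093395) (nat_lit 304) (nat_lit 6286659000) (nat_lit 380) (nat_lit 4888090484) (nat_lit 98) (nat_lit 5) (nat_lit 102) (nat_lit 5) (nat_lit 103) (nat_lit 5) (nat_lit 624) (nat_lit 511) (nat_lit 425)) (XT.nd (nat_lit 78) (nat_lit 304) (nat_lit 0) (XT.lf (nat_lit 0) (nat_lit 11416409775) (nat_lit 304) (nat_lit 1423122745) (nat_lit 380) (nat_lit 788473202) (nat_lit 98) (nat_lit 5) (nat_lit 102) (nat_lit 5) (nat_lit 103) (nat_lit 5) (nat_lit 625) (nat_lit 511) (nat_lit 424)) (XT.lf (nat_lit 0) (nat_lit 3388675157) (nat_lit 304) (nat_lit 6862312592) (nat_lit 76) (nat_lit 3540164489) (nat_lit 94) (nat_lit 5) (nat_lit 98) (nat_lit 5) (nat_lit 95) (nat_lit 5) (nat_lit 626) (nat_lit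 511) (nat_lit 423)))) (XT.nd (nat_lit 78) (nat_lit 304) (nat_lit 0) (XT.lf (nat_lit 0) (nat_lit 2292612553) (nat_lit 304) (nat_lit 5357192333) (nat_lit 380) (nat_lit 6307434437) (nat_lit 90) (nat_lit 5) (nat_lit 94) (nat_lit 5) (nat_lit 95) (nat_lit 5) (nat_lit 627) (nat_lit 511) (nat_lit 422)) (XT.nd (nat_lit 78) (nat_lit 304) (nat_lit 0) (XT.lf (nat_lit 0) (nat_lit 11676460503) (nat_lit 304) (nat_lit 337731298) (nat_lit 380) (nat_lit 2112097419) (nat_lit 90) (nat_lit 5) (nat_lit 94) (nat_lit 5) (nat_lit 95) (nat_lit 5) (nat_lit 628) (nat_lit 511) (nat_lit 421)) (XT.lf (nat_lit 0) (nat_lit 2187712548) (nat_lit 304) (nat_lit 7349305558) (nat_lit 76) (nat_lit 4760442515) (nat_lit 86) (nat_lit 5) (nat_lit 90) (nat_lit 5) (nat_lit 87) (nat_lit 5) (nat_lit 629) (nat_lit 511) (nat_lit 420)))))) (XT.nd (nat_lit 468) (nat_lit 1064) (nat_lit 0) (XT.nd (nat_lit 234) (nat_lit 456) (nat_lit 0) (XT.nd (nat_lit 78) (nat_lit 304) (nat_lit 0) (XT.lf (nat_lit 0) (nat_lit 2059497731)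 (nat_lit 228) (nat_lit 4490392232) (nat_lit 304) (nat_lit 7921794882) (nat_lit 83) (nat_lit 5) (nat_lit 86) (nat_lit 5) (nat_lit 87) (nat_lit 5) (nat_lit 630) (nat_lit 511) (nat_lit 419)) (XT.nd (nat_lit 78) (nat_lit 304) (nat_lit 0) (XT.lf (nat_lit 0) (nat_lit 11025804858) (nat_lit 304) (nat_lit 2943777147) (nat_lit 76) (nat_lit 679283299) (nat_lit 83) (nat_lit 5) (nat_lit 87) (nat_lit 5) (nat_lit 84) (nat_lit 5) (nat_lit 631) (nat_lit 511) (nat_lit 418)) (XT.lf (nat_lit 0) (nat_lit 798497314) (nat_lit 304) (nat_lit 8107386996) (nat_lit 76) (nat_lit 5922670967) (nat_lit 79) (nat_lit 5) (nat_lit 83) (nat_lit 5) (nat_lit 80) (nat_lit 5) (nat_lit 632) (nat_lit 511) (nat_lit 417)))) (XT.nd (nat_lit 78) (nat_lit 228) (nat_lit 0) (XT.lf (nat_lit 0) (nat_lit 1558171410) (nat_lit 228) (nat_lit 3705022243) (nat_lit 304) (nat_lit 9748103557) (nat_lit 76) (nat_lit 5) (nat_lit 79) (nat_lit 5) (nat_lit 80) (nat_lit 5) (nat_lit 633) (nat_lit 511) (nat_lit 416)) (XT.nd (nat_lit 78)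 (nat_lit 228) (nat_lit 0) (XT.lf (nat_lit 0) (nat_lit 9855614596) (nat_lit 304) (nat_lit 3726533443) (nat_lit 76) (nat_lit 1614778831) (nat_lit 76) (nat_lit 5) (nat_lit 80) (nat_lit 5) (nat_lit 77) (nat_lit 5) (nat_lit 634) (nat_lit 511) (nat_lit 415)) (XT.lf (nat_lit 0) (nat_lit 6206235697) (nat_lit 228) (nat_lit 8372282000) (nat_lit 304) (nat_lit 806980227) (nat_lit 73) (nat_lit 5) (nat_lit 76) (nat_lit 5) (nat_lit 77) (nat_lit 5) (nat_lit 635) (nat_lit 511) (nat_lit 414))))) (XT.nd (nat_lit 234) (nat_lit 532) (nat_lit 0) (XT.nd (nat_lit 78) (nat_lit 228) (nat_lit 0) (XT.lf (nat_lit 0) (nat_lit 750455765) (nat_lit 228) (nat_lit 3021404272) (nat_lit 304) (nat_lit 11805408076) (nat_lit 69) (nat_lit 5) (nat_lit 72) (nat_lit 5) (nat_lit 73) (nat_lit 5) (nat_lit 636) (nat_lit 511) (nat_lit 413)) (XT.nd (nat_lit 78) (nat_lit 228) (nat_lit 0) (XT.lf (nat_lit 0) (nat_lit 8483254593) (nat_lit 304) (nat_lit 4835382197) (nat_lit 76) (nat_lit 2453095963) (nat_lit 69) (nat_lit 5)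 (nat_lit 73) (nat_lit 5) (nat_lit 70) (nat_lit 5) (nat_lit 637) (nat_lit 511) (nat_lit 412)) (XT.lf (nat_lit 0) (nat_lit 5361712183) (nat_lit 228) (nat_lit 7956444694) (nat_lit 304) (nat_lit 2651345573) (nat_lit 66) (nat_lit 5) (nat_lit 69) (nat_lit 5) (nat_lit 70) (nat_lit 5) (nat_lit 638) (nat_lit 511) (nat_lit 411)))) (XT.nd (nat_lit 156) (nat_lit 228) (nat_lit 0) (XT.nd (nat_lit 78) (nat_lit 228) (nat_lit 0) (XT.lf (nat_lit 0) (nat_lit 2058435867) (nat_lit 304) (nat_lit 400517771) (nat_lit 76) (nat_lit 13711861979) (nat_lit 65) (nat_lit 5) (nat_lit 69) (nat_lit 5) (nat_lit 66) (nat_lit 5) (nat_lit 639) (nat_lit 511) (nat_lit 410)) (XT.lf (nat_lit 0) (nat_lit 6888277423) (nat_lit 304) (nat_lit 6313948339) (nat_lit 76) (nat_lit 3172352739) (nat_lit 62) (nat_lit 5) (nat_lit 66) (nat_lit 5) (nat_lit 63) (nat_lit 5) (nat_lit 640) (nat_lit 511) (nat_lit 409))) (XT.nd (nat_lit 78) (nat_lit 76) (nat_lit 0) (XT.lf (nat_lit 0) (nat_lit 4148433787) (nat_lit 152) (nat_lit 7687297919)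 (nat_lit 228) (nat_lit 4746265877) (nat_lit 60) (nat_lit 5) (nat_lit 62) (nat_lit 5) (nat_lit 63) (nat_lit 5) (nat_lit 641) (nat_lit 511) (nat_lit 408)) (XT.lf (nat_lit 0) (nat_lit 105191975) (nat_lit 228) (nat_lit 1931705133) (nat_lit 76) (nat_lit 14756301975) (nat_lit 59) (nat_lit 5) (nat_lit 62) (nat_lit 5) (nat_lit 60) (nat_lit 5) (nat_lit 642) (nat_lit 511) (nat_lit 407))))))))
noncomputable def xc63 : XT := (XT.nd (nat_lit 74490) (nat_lit 0) (nat_lit 17328) (XT.nd (nat_lit 73476) (nat_lit 0) (nat_lit 34884) (XT.nd (nat_lit 73008) (nat_lit 0) (nat_lit 45980) (XT.nd (nat_lit 234) (nat_lit 304) (nat_lit 0) (XT.nd (nat_lit 78) (nat_lit 152) (nat_lit 0) (XT.lf (nat_lit 0) (nat_lit 5047743800) (nat_lit 304) (nat_lit 8210470988) (nat_lit 76) (nat_lit 3748631208) (nat_lit 56) (nat_lit 5) (nat_lit 60) (nat_lit 5) (nat_lit 57) (nat_lit 5) (nat_lit 643) (nat_lit 511) (nat_lit 406)) (XT.nd (nat_lit 78) (nat_lit 0) (nat_lit 0) (XT.lf (nat_lit 0) (nat_lit 2517125666) (nat_lit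 152) (nat_lit 7590603759) (nat_lit 228) (nat_lit 7116665929) (nat_lit 54) (nat_lit 5) (nat_lit 56) (nat_lit 5) (nat_lit 57) (nat_lit 5) (nat_lit 644) (nat_lit 511) (nat_lit 405)) (XT.lf (nat_lit 0) (nat_lit 13527845697) (nat_lit 152) (nat_lit 1772066616) (nat_lit 228) (nat_lit 2145764575) (nat_lit 54) (nat_lit 5) (nat_lit 56) (nat_lit 5) (nat_lit 57) (nat_lit 5) (nat_lit 645) (nat_lit 511) (nat_lit 404)))) (XT.nd (nat_lit 72618) (nat_lit 0) (nat_lit 49704) (XT.lf (nat_lit 0) (nat_lit 2935979918) (nat_lit 304) (nat_lit 10578317394) (nat_lit 76) (nat_lit 4155712448) (nat_lit 50) (nat_lit 5) (nat_lit 54) (nat_lit 5) (nat_lit 51) (nat_lit 5) (nat_lit 646) (nat_lit 511) (nat_lit 403)) (XT.nd (nat_lit 78) (nat_lit 684) (nat_lit 0) (XT.lf (nat_lit 0) (nat_lit 1312406498) (nat_lit 684) (nat_lit 657678964) (nat_lit 0) (nat_lit 1312406498) (nat_lit 713) (nat_lit 5) (nat_lit 722) (nat_lit 4) (nat_lit 713) (nat_lit 4) (nat_lit 536) (nat_lit 512) (nat_lit 512)) (XT.lf (nat_lit 0)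 (nat_lit 2691718914) (nat_lit 684) (nat_lit 3171032956) (nat_lit 684) (nat_lit 718272577) (nat_lit 704) (nat_lit 4) (nat_lit 713) (nat_lit 5) (nat_lit 713) (nat_lit 4) (nat_lit 537) (nat_lit 512) (nat_lit 511))))) (XT.nd (nat_lit 234) (nat_lit 1976) (nat_lit 0) (XT.nd (nat_lit 78) (nat_lit 912) (nat_lit 0) (XT.lf (nat_lit 0) (nat_lit 130745554) (nat_lit 760) (nat_lit 2338647006) (nat_lit 836) (nat_lit 4128978903) (nat_lit 693) (nat_lit 5) (nat_lit 703) (nat_lit 5) (nat_lit 704) (nat_lit 4) (nat_lit 538) (nat_lit 512) (nat_lit 510)) (XT.nd (nat_lit 78) (nat_lit 912) (nat_lit 0) (XT.lf (nat_lit 0) (nat_lit 4225656918) (nat_lit 760) (nat_lit 1438006963) (nat_lit 836) (nat_lit 953276131) (nat_lit 693) (nat_lit 5) (nat_lit 703) (nat_lit 5) (nat_lit 704) (nat_lit 4) (nat_lit 539) (nat_lit 512) (nat_lit 509)) (XT.lf (nat_lit 0) (nat_lit 1720937864) (nat_lit 836) (nat_lit 473536364) (nat_lit 912) (nat_lit 4442356809) (nat_lit 681) (nat_lit 5) (nat_lit 692) (nat_lit 5) (nat_lit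 693) (nat_lit 5) (nat_lit 540) (nat_lit 512) (nat_lit 508)))) (XT.nd (nat_lit 78) (nat_lit 1976) (nat_lit 0) (XT.lf (nat_lit 0) (nat_lit 5340434363) (nat_lit 912) (nat_lit 773309317) (nat_lit 76) (nat_lit 544307661) (nat_lit 681) (nat_lit 5) (nat_lit 693) (nat_lit 5) (nat_lit 682) (nat_lit 4) (nat_lit 541) (nat_lit 512) (nat_lit 507)) (XT.nd (nat_lit 78) (nat_lit 988) (nat_lit 0) (XT.lf (nat_lit 0) (nat_lit 1800201928) (nat_lit 988) (nat_lit 3251860016) (nat_lit 76) (nat_lit 1628306414) (nat_lit 668) (nat_lit 5) (nat_lit 681) (nat_lit 5) (nat_lit 669) (nat_lit 5) (nat_lit 542) (nat_lit 512) (nat_lit 506)) (XT.lf (nat_lit 0) (nat_lit 971686517) (nat_lit 988) (nat_lit 3933093760) (nat_lit 1064) (nat_lit 1799353164) (nat_lit 655) (nat_lit 5) (nat_lit 668) (nat_lit 5) (nat_lit 669) (nat_lit 5) (nat_lit 543) (nat_lit 512) (nat_lit 505)))))) (XT.nd (nat_lit 468) (nat_lit 6156) (nat_lit 0) (XT.nd (nat_lit 234) (nat_lit 2584) (nat_lit 0) (XT.nd (nat_lit 78) (nat_lit 2280) (nat_lit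 0) (XT.lf (nat_lit 0) (nat_lit 1278468746) (nat_lit 1064) (nat_lit 1467708710) (nat_lit 76) (nat_lit 3982978007) (nat_lit 654) (nat_lit 5) (nat_lit 668) (nat_lit 5) (nat_lit 655) (nat_lit 5) (nat_lit 544) (nat_lit 512) (nat_lit 504)) (XT.nd (nat_lit 78) (nat_lit 1216) (nat_lit 0) (XT.lf (nat_lit 0) (nat_lit 2854223580) (nat_lit 1064) (nat_lit 1490477214) (nat_lit 1140) (nat_lit 2410736182) (nat_lit 640) (nat_lit 5) (nat_lit 654) (nat_lit 5) (nat_lit 655) (nat_lit 5) (nat_lit 545) (nat_lit 512) (nat_lit 503)) (XT.lf (nat_lit 0) (nat_lit 447595498) (nat_lit 1140) (nat_lit 179104833) (nat_lit 1216) (nat_lit 6156554703) (nat_lit 624) (nat_lit 5) (nat_lit 639) (nat_lit 5) (nat_lit 640) (nat_lit 5) (nat_lit 546) (nat_lit 512) (nat_lit 502)))) (XT.nd (nat_lit 78) (nat_lit 2584) (nat_lit 0) (XT.lf (nat_lit 0) (nat_lit 3660472318) (nat_lit 1216) (nat_lit 1953736443) (nat_lit 76) (nat_lit 1197759612) (nat_lit 624) (nat_lit 5) (nat_lit 640) (nat_lit 5) (nat_lit 625) (nat_lit 5)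 (nat_lit 547) (nat_lit 512) (nat_lit 501)) (XT.nd (nat_lit 78) (nat_lit 1368) (nat_lit 0) (XT.lf (nat_lit 0) (nat_lit 2493187701) (nat_lit 1216) (nat_lit 4214362499) (nat_lit 1292) (nat_lit 134667826) (nat_lit 608) (nat_lit 5) (nat_lit 624) (nat_lit 5) (nat_lit 625) (nat_lit 5) (nat_lit 548) (nat_lit 512) (nat_lit 500)) (XT.lf (nat_lit 0) (nat_lit 110316930) (nat_lit 1292) (nat_lit 2743242597) (nat_lit 1368) (nat_lit 4020152061) (nat_lit 590) (nat_lit 5) (nat_lit 607) (nat_lit 5) (nat_lit 608) (nat_lit 5) (nat_lit 549) (nat_lit 512) (nat_lit 499))))) (XT.nd (nat_lit 234) (nat_lit 4712) (nat_lit 0) (XT.nd (nat_lit 78) (nat_lit 1444) (nat_lit 0) (XT.lf (nat_lit 0) (nat_lit 4662597601) (nat_lit 1292) (nat_lit 1202978419) (nat_lit 1368) (nat_lit 1040938454) (nat_lit 590) (nat_lit 5) (nat_lit 607) (nat_lit 5) (nat_lit 608) (nat_lit 5) (nat_lit 550) (nat_lit 512) (nat_lit 498)) (XT.nd (nat_lit 78) (nat_lit 0) (nat_lit 0) (XT.lf (nat_lit 0) (nat_lit 1926877510) (nat_lit 1444)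 (nat_lit 4613857811) (nat_lit 76) (nat_lit 399887535) (nat_lit 571) (nat_lit 5) (nat_lit 590) (nat_lit 5) (nat_lit 572) (nat_lit 5) (nat_lit 551) (nat_lit 512) (nat_lit 497)) (XT.lf (nat_lit 0) (nat_lit 4901643038) (nat_lit 1444) (nat_lit 25818391) (nat_lit 76) (nat_lit 2048596751) (nat_lit 571) (nat_lit 5) (nat_lit 590) (nat_lit 5) (nat_lit 572) (nat_lit 5) (nat_lit 552) (nat_lit 512) (nat_lit 496)))) (XT.nd (nat_lit 156) (nat_lit 1672) (nat_lit 0) (XT.nd (nat_lit 78) (nat_lit 1520) (nat_lit 0) (XT.lf (nat_lit 0) (nat_lit 881240406) (nat_lit 1520) (nat_lit 2357446047) (nat_lit 76) (nat_lit 3774015256) (nat_lit 551) (nat_lit 5) (nat_lit 571) (nat_lit 5) (nat_lit 552) (nat_lit 5) (nat_lit 553) (nat_lit 512) (nat_lit 495)) (XT.lf (nat_lit 0) (nat_lit 2342815019) (nat_lit 1520) (nat_lit 1480860657) (nat_lit 1596) (nat_lit 3227031598) (nat_lit 531) (nat_lit 5) (nat_lit 551) (nat_lit 5) (nat_lit 552) (nat_lit 5) (nat_lit 554) (nat_lit 512) (nat_lit 494))) (XT.nd (nat_lit 78)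 (nat_lit 76) (nat_lit 0) (XT.lf (nat_lit 0) (nat_lit 22778948) (nat_lit 1596) (nat_lit 6761169234) (nat_lit 1672) (nat_lit 306357021) (nat_lit 510) (nat_lit 5) (nat_lit 531) (nat_lit 5) (nat_lit 532) (nat_lit 5) (nat_lit 555) (nat_lit 512) (nat_lit 493)) (XT.lf (nat_lit 0) (nat_lit 2620580808) (nat_lit 1672) (nat_lit 2301249532) (nat_lit 76) (nat_lit 2208871182) (nat_lit 509) (nat_lit 5) (nat_lit 531) (nat_lit 5) (nat_lit 510) (nat_lit 5) (nat_lit 556) (nat_lit 512) (nat_lit 492))))))) (XT.nd (nat_lit 1014) (nat_lit 6840) (nat_lit 0) (XT.nd (nat_lit 468) (nat_lit 4484) (nat_lit 0) (XT.nd (nat_lit 234) (nat_lit 2736) (nat_lit 0) (XT.nd (nat_lit 78) (nat_lit 1824) (nat_lit 0) (XT.lf (nat_lit 0) (nat_lit 2536991880) (nat_lit 1672) (nat_lit 3023884579) (nat_lit 1748) (nat_lit 1611821714) (nat_lit 487) (nat_lit 5) (nat_lit 509) (nat_lit 5) (nat_lit 510) (nat_lit 5) (nat_lit 557) (nat_lit 512) (nat_lit 491)) (XT.nd (nat_lit 78) (nat_lit 0) (nat_lit 0) (XT.lf (nat_lit 0) (nat_lit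 227096953) (nat_lit 1748) (nat_lit 1059567887) (nat_lit 1824) (nat_lit 5929509143) (nat_lit 463) (nat_lit 5) (nat_lit 486) (nat_lit 5) (nat_lit 487) (nat_lit 5) (nat_lit 558) (nat_lit 512) (nat_lit 490)) (XT.lf (nat_lit 0) (nat_lit 4202614575) (nat_lit 1824) (nat_lit 2082716767) (nat_lit 76) (nat_lit 975364046) (nat_lit 463) (nat_lit 5) (nat_lit 487) (nat_lit 5) (nat_lit 464) (nat_lit 5) (nat_lit 559) (nat_lit 512) (nat_lit 489)))) (XT.nd (nat_lit 78) (nat_lit 1064) (nat_lit 0) (XT.lf (nat_lit 0) (nat_lit 2898051901) (nat_lit 1672) (nat_lit 4249382345) (nat_lit 1748) (nat_lit 159272423) (nat_lit 441) (nat_lit 5) (nat_lit 463) (nat_lit 5) (nat_lit 464) (nat_lit 5) (nat_lit 560) (nat_lit 512) (nat_lit 488)) (XT.nd (nat_lit 78) (nat_lit 0) (nat_lit 0) (XT.lf (nat_lit 0) (nat_lit 587670322) (nat_lit 988) (nat_lit 2136113722) (nat_lit 1064) (nat_lit 4630241691) (nat_lit 427) (nat_lit 5) (nat_lit 440) (nat_lit 5) (nat_lit 441) (nat_lit 5) (nat_lit 561) (nat_lit 512) (nat_lit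 487)) (XT.lf (nat_lit 0) (nat_lit 5638073100) (nat_lit 1064) (nat_lit 1715212203) (nat_lit 76) (nat_lit 49480604) (nat_lit 427) (nat_lit 5) (nat_lit 441) (nat_lit 5) (nat_lit 428) (nat_lit 5) (nat_lit 562) (nat_lit 512) (nat_lit 486))))) (XT.nd (nat_lit 234) (nat_lit 2584) (nat_lit 0) (XT.nd (nat_lit 78) (nat_lit 912) (nat_lit 0) (XT.lf (nat_lit 0) (nat_lit 1126019876) (nat_lit 988) (nat_lit 4047391657) (nat_lit 76) (nat_lit 2279267590) (nat_lit 414) (nat_lit 5) (nat_lit 427) (nat_lit 5) (nat_lit 415) (nat_lit 5) (nat_lit 563) (nat_lit 512) (nat_lit 485)) (XT.nd (nat_lit 78) (nat_lit 0) (nat_lit 0) (XT.lf (nat_lit 0) (nat_lit 1095618274) (nat_lit 912) (nat_lit 2921211919) (nat_lit 988) (nat_lit 3487218160) (nat_lit 402) (nat_lit 5) (nat_lit 414) (nat_lit 5) (nat_lit 415) (nat_lit 5) (nat_lit 564) (nat_lit 512) (nat_lit 484)) (XT.lf (nat_lit 0) (nat_lit 6341639296) (nat_lit 912) (nat_lit 598848637) (nat_lit 988) (nat_lit 616465523) (nat_lit 402) (nat_lit 5) (nat_lit 414)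 (nat_lit 5) (nat_lit 415) (nat_lit 5) (nat_lit 565) (nat_lit 512) (nat_lit 483)))) (XT.nd (nat_lit 156) (nat_lit 836) (nat_lit 0) (XT.nd (nat_lit 78) (nat_lit 836) (nat_lit 0) (XT.lf (nat_lit 0) (nat_lit 2268073878) (nat_lit 912) (nat_lit 3557229372) (nat_lit 76) (nat_lit 1785588186) (nat_lit 390) (nat_lit 5) (nat_lit 402) (nat_lit 5) (nat_lit 391) (nat_lit 5) (nat_lit 566) (nat_lit 512) (nat_lit 482)) (XT.lf (nat_lit 0) (nat_lit 1738465760) (nat_lit 836) (nat_lit 3436237888) (nat_lit 912) (nat_lit 2491678536) (nat_lit 379) (nat_lit 5) (nat_lit 390) (nat_lit 5) (nat_lit 391) (nat_lit 5) (nat_lit 567) (nat_lit 512) (nat_lit 481))) (XT.nd (nat_lit 78) (nat_lit 760) (nat_lit 0) (XT.lf (nat_lit 0) (nat_lit 384534949) (nat_lit 912) (nat_lit 592370128) (nat_lit 76) (nat_lit 6746561561) (nat_lit 378) (nat_lit 5) (nat_lit 390) (nat_lit 5) (nat_lit 379) (nat_lit 5) (nat_lit 568) (nat_lit 512) (nat_lit 480)) (XT.lf (nat_lit 0) (nat_lit 3277089033) (nat_lit 836) (nat_lit 2949277572)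 (nat_lit 76) (nat_lit 1555161272) (nat_lit 368) (nat_lit 5) (nat_lit 379) (nat_lit 5) (nat_lit 369) (nat_lit 5) (nat_lit 569) (nat_lit 512) (nat_lit 479)))))) (XT.nd (nat_lit 468) (nat_lit 3648) (nat_lit 0) (XT.nd (nat_lit 234) (nat_lit 1520) (nat_lit 0) (XT.nd (nat_lit 78) (nat_lit 836) (nat_lit 0) (XT.lf (nat_lit 0) (nat_lit 2504260437) (nat_lit 836) (nat_lit 3701028798) (nat_lit 912) (nat_lit 1635913136) (nat_lit 357) (nat_lit 5) (nat_lit 368) (nat_lit 5) (nat_lit 369) (nat_lit 5) (nat_lit 570) (nat_lit 512) (nat_lit 478)) (XT.nd (nat_lit 78) (nat_lit 0) (nat_lit 0) (XT.lf (nat_lit 0) (nat_lit 143444517) (nat_lit 760) (nat_lit 1101816785) (nat_lit 836) (nat_lit 6657205238) (nat_lit 346) (nat_lit 5) (nat_lit 356) (nat_lit 5) (nat_lit 357) (nat_lit 5) (nat_lit 571) (nat_lit 512) (nat_lit 477)) (XT.lf (nat_lit 0) (nat_lit 4160183524) (nat_lit 836) (nat_lit 2235253940) (nat_lit 76) (nat_lit 1569349152) (nat_lit 346) (nat_lit 5) (nat_lit 357) (nat_lit 5) (nat_lit 347) (nat_lit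 5) (nat_lit 572) (nat_lit 512) (nat_lit 476)))) (XT.nd (nat_lit 78) (nat_lit 760) (nat_lit 0) (XT.lf (nat_lit 0) (nat_lit 3381466804) (nat_lit 760) (nat_lit 3734030312) (nat_lit 836) (nat_lit 913221449) (nat_lit 336) (nat_lit 5) (nat_lit 346) (nat_lit 5) (nat_lit 347) (nat_lit 5) (nat_lit 573) (nat_lit 512) (nat_lit 475)) (XT.nd (nat_lit 78) (nat_lit 0) (nat_lit 0) (XT.lf (nat_lit 0) (nat_lit 992038967) (nat_lit 684) (nat_lit 991885024) (nat_lit 760) (nat_lit 6110255055) (nat_lit 326) (nat_lit 5) (nat_lit 335) (nat_lit 5) (nat_lit 336) (nat_lit 5) (nat_lit 574) (nat_lit 512) (nat_lit 474)) (XT.lf (nat_lit 0) (nat_lit 4923519140) (nat_lit 760) (nat_lit 1426554699) (nat_lit 76) (nat_lit 1810826379) (nat_lit 326) (nat_lit 5) (nat_lit 336) (nat_lit 5) (nat_lit 327) (nat_lit 5) (nat_lit 575) (nat_lit 512) (nat_lit 473))))) (XT.nd (nat_lit 234) (nat_lit 2128) (nat_lit 0) (XT.nd (nat_lit 78) (nat_lit 760) (nat_lit 0) (XT.lf (nat_lit 0) (nat_lit 4358860834) (nat_lit 760) (nat_lit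 3552435773) (nat_lit 836) (nat_lit 317878169) (nat_lit 316) (nat_lit 5) (nat_lit 326) (nat_lit 5) (nat_lit 327) (nat_lit 5) (nat_lit 576) (nat_lit 512) (nat_lit 472)) (XT.nd (nat_lit 78) (nat_lit 0) (nat_lit 0) (XT.lf (nat_lit 0) (nat_lit 1934201395) (nat_lit 684) (nat_lit 667879795) (nat_lit 760) (nat_lit 5696855672) (nat_lit 306) (nat_lit 5) (nat_lit 315) (nat_lit 5) (nat_lit 316) (nat_lit 5) (nat_lit 577) (nat_lit 512) (nat_lit 471)) (XT.lf (nat_lit 0) (nat_lit 5572330298) (nat_lit 760) (nat_lit 534359394) (nat_lit 76) (nat_lit 2263445914) (nat_lit 306) (nat_lit 5) (nat_lit 316) (nat_lit 5) (nat_lit 307) (nat_lit 5) (nat_lit 578) (nat_lit 512) (nat_lit 470)))) (XT.nd (nat_lit 156) (nat_lit 760) (nat_lit 0) (XT.nd (nat_lit 78) (nat_lit 608) (nat_lit 0) (XT.lf (nat_lit 0) (nat_lit 152862242) (nat_lit 760) (nat_lit 3018430815) (nat_lit 76) (nat_lit 5271536236) (nat_lit 296) (nat_lit 5) (nat_lit 306) (nat_lit 5) (nat_lit 297) (nat_lit 5) (nat_lit 579) (nat_lit 512) (nat_lit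 469)) (XT.lf (nat_lit 0) (nat_lit 2958758285) (nat_lit 608) (nat_lit 145506694) (nat_lit 684) (nat_lit 5412764328) (nat_lit 288) (nat_lit 5) (nat_lit 296) (nat_lit 5) (nat_lit 297) (nat_lit 5) (nat_lit 580) (nat_lit 512) (nat_lit 468))) (XT.nd (nat_lit 78) (nat_lit 76) (nat_lit 0) (XT.lf (nat_lit 0) (nat_lit 435981242) (nat_lit 684) (nat_lit 5677795651) (nat_lit 760) (nat_lit 2478960700) (nat_lit 279) (nat_lit 5) (nat_lit 288) (nat_lit 5) (nat_lit 289) (nat_lit 5) (nat_lit 581) (nat_lit 512) (nat_lit 467)) (XT.lf (nat_lit 0) (nat_lit 502267863) (nat_lit 760) (nat_lit 2103122190) (nat_lit 76) (nat_lit 6064599299) (nat_lit 278) (nat_lit 5) (nat_lit 288) (nat_lit 5) (nat_lit 279) (nat_lit 5) (nat_lit 582) (nat_lit 512) (nat_lit 466))))))))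
noncomputable def xc64 : XT := (XT.nd (nat_lit 1950) (nat_lit 5548) (nat_lit 0) (XT.nd (nat_lit 936) (nat_lit 4256) (nat_lit 0) (XT.nd (nat_lit 468) (nat_lit 2736) (nat_lit 0) (XT.nd (nat_lit 234) (nat_lit 1216) (nat_lit 0) (XT.nd (nat_lit 78) (nat_lit 684) (nat_lit 0) (XT.lf (nat_lit 0) (nat_lit 3497740781) (nat_lit 684) (nat_lit 4697825919) (nat_lit 76) (nat_lit 553141022) (nat_lit 270) (nat_lit 5) (nat_lit 279) (nat_lit 5) (nat_lit 271) (nat_lit 5) (nat_lit 583) (nat_lit 512) (nat_lit 465)) (XT.nd (nat_lit 78) (nat_lit 76) (nat_lit 0) (XT.lf (nat_lit 0) (nat_lit 1475600444) (nat_lit 608) (nat_lit 5076786369) (nat_lit 684) (nat_lit 2276633816) (nat_lit 262) (nat_lit 5) (nat_lit 270) (nat_lit 5) (nat_lit 271) (nat_lit 5) (nat_lit 584) (nat_lit 512) (nat_lit 464)) (XT.lf (nat_lit 0) (nat_lit 737402324) (nat_lit 684) (nat_lit 1133620875) (nat_lit 76) (nat_lit 7040020568) (nat_lit 261) (nat_lit 5) (nat_lit 270) (nat_lit 5) (nat_lit 262) (nat_lit 5) (nat_lit 585) (nat_lit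 512) (nat_lit 463)))) (XT.nd (nat_lit 78) (nat_lit 684) (nat_lit 0) (XT.lf (nat_lit 0) (nat_lit 3783647442) (nat_lit 608) (nat_lit 3793336446) (nat_lit 76) (nat_lit 1417379392) (nat_lit 254) (nat_lit 5) (nat_lit 262) (nat_lit 5) (nat_lit 255) (nat_lit 5) (nat_lit 586) (nat_lit 512) (nat_lit 462)) (XT.nd (nat_lit 78) (nat_lit 76) (nat_lit 0) (XT.lf (nat_lit 0) (nat_lit 2566075237) (nat_lit 608) (nat_lit 4321053768) (nat_lit 684) (nat_lit 2192298979) (nat_lit 246) (nat_lit 5) (nat_lit 254) (nat_lit 5) (nat_lit 255) (nat_lit 5) (nat_lit 587) (nat_lit 512) (nat_lit 461)) (XT.lf (nat_lit 0) (nat_lit 860262538) (nat_lit 684) (nat_lit 121375539) (nat_lit 76) (nat_lit 8184737569) (nat_lit 245) (nat_lit 5) (nat_lit 254) (nat_lit 5) (nat_lit 246) (nat_lit 5) (nat_lit 588) (nat_lit 512) (nat_lit 460))))) (XT.nd (nat_lit 234) (nat_lit 1064) (nat_lit 0) (XT.nd (nat_lit 78) (nat_lit 1140) (nat_lit 0) (XT.lf (nat_lit 0) (nat_lit 3962794525) (nat_lit 608) (nat_lit 2855504558) (nat_lit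 76) (nat_lit 2436112618) (nat_lit 238) (nat_lit 5) (nat_lit 246) (nat_lit 5) (nat_lit 239) (nat_lit 5) (nat_lit 589) (nat_lit 512) (nat_lit 459)) (XT.nd (nat_lit 78) (nat_lit 608) (nat_lit 0) (XT.lf (nat_lit 0) (nat_lit 3695859100) (nat_lit 532) (nat_lit 3423747574) (nat_lit 608) (nat_lit 2224761858) (nat_lit 231) (nat_lit 5) (nat_lit 238) (nat_lit 5) (nat_lit 239) (nat_lit 5) (nat_lit 590) (nat_lit 512) (nat_lit 458)) (XT.lf (nat_lit 0) (nat_lit 878376104) (nat_lit 608) (nat_lit 8502499768) (nat_lit 76) (nat_lit 55399898) (nat_lit 223) (nat_lit 5) (nat_lit 231) (nat_lit 5) (nat_lit 224) (nat_lit 5) (nat_lit 591) (nat_lit 512) (nat_lit 457)))) (XT.nd (nat_lit 78) (nat_lit 1064) (nat_lit 0) (XT.lf (nat_lit 0) (nat_lit 4036045512) (nat_lit 608) (nat_lit 1896304004) (nat_lit 76) (nat_lit 3596936738) (nat_lit 223) (nat_lit 5) (nat_lit 231) (nat_lit 5) (nat_lit 224) (nat_lit 5) (nat_lit 592) (nat_lit 512) (nat_lit 456)) (XT.nd (nat_lit 78) (nat_lit 532) (nat_lit 0) (XT.lf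 (nat_lit 0) (nat_lit 4853059769) (nat_lit 532) (nat_lit 2397475745) (nat_lit 608) (nat_lit 2373752383) (nat_lit 216) (nat_lit 5) (nat_lit 223) (nat_lit 5) (nat_lit 224) (nat_lit 5) (nat_lit 593) (nat_lit 512) (nat_lit 455)) (XT.lf (nat_lit 0) (nat_lit 793650147) (nat_lit 532) (nat_lit 7718823917) (nat_lit 76) (nat_lit 1208692235) (nat_lit 209) (nat_lit 5) (nat_lit 216) (nat_lit 5) (nat_lit 210) (nat_lit 5) (nat_lit 594) (nat_lit 512) (nat_lit 454)))))) (XT.nd (nat_lit 468) (nat_lit 2204) (nat_lit 0) (XT.nd (nat_lit 234) (nat_lit 988) (nat_lit 0) (XT.nd (nat_lit 78) (nat_lit 1064) (nat_lit 0) (XT.lf (nat_lit 0) (nat_lit 4003361770) (nat_lit 532) (nat_lit 928160115) (nat_lit 76) (nat_lit 4887935709) (nat_lit 209) (nat_lit 5) (nat_lit 216) (nat_lit 5) (nat_lit 210) (nat_lit 5) (nat_lit 595) (nat_lit 512) (nat_lit 453)) (XT.nd (nat_lit 78) (nat_lit 532) (nat_lit 0) (XT.lf (nat_lit 0) (nat_lit 6025312391) (nat_lit 532) (nat_lit 1254417776) (nat_lit 608) (nat_lit 2639939264)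 (nat_lit 202) (nat_lit 5) (nat_lit 209) (nat_lit 5) (nat_lit 210) (nat_lit 5) (nat_lit 596) (nat_lit 512) (nat_lit 452)) (XT.lf (nat_lit 0) (nat_lit 598014266) (nat_lit 532) (nat_lit 6945188366) (nat_lit 76) (nat_lit 2478486015) (nat_lit 195) (nat_lit 5) (nat_lit 202) (nat_lit 5) (nat_lit 196) (nat_lit 5) (nat_lit 597) (nat_lit 512) (nat_lit 451)))) (XT.nd (nat_lit 78) (nat_lit 532) (nat_lit 0) (XT.lf (nat_lit 0) (nat_lit 36396181) (nat_lit 456) (nat_lit 3827623907) (nat_lit 532) (nat_lit 6261410057) (nat_lit 189) (nat_lit 5) (nat_lit 195) (nat_lit 5) (nat_lit 196) (nat_lit 5) (nat_lit 598) (nat_lit 512) (nat_lit 450)) (XT.nd (nat_lit 78) (nat_lit 532) (nat_lit 0) (XT.lf (nat_lit 0) (nat_lit 7199645530) (nat_lit 456) (nat_lit 6437637) (nat_lit 532) (nat_lit 3024952227) (nat_lit 189) (nat_lit 5) (nat_lit 195) (nat_lit 5) (nat_lit 196) (nat_lit 5) (nat_lit 599) (nat_lit 512) (nat_lit 449)) (XT.lf (nat_lit 0) (nat_lit 289626430) (nat_lit 532) (nat_lit 6195513158) (nat_lit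 76) (nat_lit 3853240523) (nat_lit 182) (nat_lit 5) (nat_lit 189) (nat_lit 5) (nat_lit 183) (nat_lit 5) (nat_lit 600) (nat_lit 512) (nat_lit 448))))) (XT.nd (nat_lit 234) (nat_lit 1368) (nat_lit 0) (XT.nd (nat_lit 78) (nat_lit 380) (nat_lit 0) (XT.lf (nat_lit 0) (nat_lit 995255208) (nat_lit 456) (nat_lit 2626611287) (nat_lit 532) (nat_lit 6825771303) (nat_lit 176) (nat_lit 5) (nat_lit 182) (nat_lit 5) (nat_lit 183) (nat_lit 5) (nat_lit 601) (nat_lit 512) (nat_lit 447)) (XT.nd (nat_lit 78) (nat_lit 380) (nat_lit 0) (XT.lf (nat_lit 0) (nat_lit 7036202462) (nat_lit 532) (nat_lit 2205275976) (nat_lit 76) (nat_lit 1317296563) (nat_lit 176) (nat_lit 5) (nat_lit 183) (nat_lit 5) (nat_lit 177) (nat_lit 5) (nat_lit 602) (nat_lit 512) (nat_lit 446)) (XT.lf (nat_lit 0) (nat_lit 5186346093) (nat_lit 380) (nat_lit 5349332471) (nat_lit 456) (nat_lit 136122635) (nat_lit 171) (nat_lit 5) (nat_lit 176) (nat_lit 5) (nat_lit 177) (nat_lit 5) (nat_lit 603) (nat_lit 512) (nat_lit 445)))) (XT.nd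 (nat_lit 156) (nat_lit 836) (nat_lit 0) (XT.nd (nat_lit 78) (nat_lit 0) (nat_lit 0) (XT.lf (nat_lit 0) (nat_lit 1921286478) (nat_lit 456) (nat_lit 1346523213) (nat_lit 532) (nat_lit 7518985153) (nat_lit 164) (nat_lit 5) (nat_lit 170) (nat_lit 5) (nat_lit 171) (nat_lit 5) (nat_lit 604) (nat_lit 512) (nat_lit 444)) (XT.lf (nat_lit 0) (nat_lit 6758947128) (nat_lit 532) (nat_lit 1423146989) (nat_lit 76) (nat_lit 2721560394) (nat_lit 164) (nat_lit 5) (nat_lit 171) (nat_lit 5) (nat_lit 165) (nat_lit 5) (nat_lit 605) (nat_lit 512) (nat_lit 443))) (XT.nd (nat_lit 78) (nat_lit 456) (nat_lit 0) (XT.lf (nat_lit 0) (nat_lit 6189931090) (nat_lit 380) (nat_lit 4145874128) (nat_lit 456) (nat_lit 686731263) (nat_lit 159) (nat_lit 5) (nat_lit 164) (nat_lit 5) (nat_lit 165) (nat_lit 5) (nat_lit 606) (nat_lit 512) (nat_lit 442)) (XT.lf (nat_lit 0) (nat_lit 2797838041) (nat_lit 456) (nat_lit 8344891890) (nat_lit 76) (nat_lit 806548) (nat_lit 153) (nat_lit 5) (nat_lit 159) (nat_lit 5) (nat_lit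 154) (nat_lit 5) (nat_lit 607) (nat_lit 512) (nat_lit 441))))))) (XT.nd (nat_lit 936) (nat_lit 2660) (nat_lit 0) (XT.nd (nat_lit 468) (nat_lit 1292) (nat_lit 0) (XT.nd (nat_lit 234) (nat_lit 760) (nat_lit 0) (XT.nd (nat_lit 78) (nat_lit 836) (nat_lit 0) (XT.lf (nat_lit 0) (nat_lit 6370119355) (nat_lit 456) (nat_lit 701219663) (nat_lit 76) (nat_lit 4194985244) (nat_lit 153) (nat_lit 5) (nat_lit 159) (nat_lit 5) (nat_lit 154) (nat_lit 5) (nat_lit 608) (nat_lit 512) (nat_lit 440)) (XT.nd (nat_lit 78) (nat_lit 456) (nat_lit 0) (XT.lf (nat_lit 0) (nat_lit 7139233030) (nat_lit 380) (nat_lit 2888718007) (nat_lit 456) (nat_lit 1363337501) (nat_lit 148) (nat_lit 5) (nat_lit 153) (nat_lit 5) (nat_lit 154) (nat_lit 5) (nat_lit 609) (nat_lit 512) (nat_lit 439)) (XT.lf (nat_lit 0) (nat_lit 2215945499) (nat_lit 456) (nat_lit 7917368071) (nat_lit 76) (nat_lit 1385047584) (nat_lit 142) (nat_lit 5) (nat_lit 148) (nat_lit 5) (nat_lit 143) (nat_lit 5) (nat_lit 610) (nat_lit 512) (nat_lit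 438)))) (XT.nd (nat_lit 78) (nat_lit 760) (nat_lit 0) (XT.lf (nat_lit 0) (nat_lit 5864473027) (nat_lit 456) (nat_lit 57037622) (nat_lit 76) (nat_lit 5725968729) (nat_lit 142) (nat_lit 5) (nat_lit 148) (nat_lit 5) (nat_lit 143) (nat_lit 5) (nat_lit 611) (nat_lit 512) (nat_lit 437)) (XT.nd (nat_lit 78) (nat_lit 456) (nat_lit 0) (XT.lf (nat_lit 0) (nat_lit 8016594217) (nat_lit 304) (nat_lit 1590096342) (nat_lit 380) (nat_lit 2172077637) (nat_lit 138) (nat_lit 5) (nat_lit 142) (nat_lit 5) (nat_lit 143) (nat_lit 5) (nat_lit 612) (nat_lit 512) (nat_lit 436)) (XT.lf (nat_lit 0) (nat_lit 1507059499) (nat_lit 456) (nat_lit 7593307456) (nat_lit 76) (nat_lit 2811805976) (nat_lit 132) (nat_lit 5) (nat_lit 138) (nat_lit 5) (nat_lit 133) (nat_lit 5) (nat_lit 613) (nat_lit 512) (nat_lit 435))))) (XT.nd (nat_lit 234) (nat_lit 608) (nat_lit 0) (XT.nd (nat_lit 78) (nat_lit 380) (nat_lit 0) (XT.lf (nat_lit 0) (nat_lit 496895426) (nat_lit 304) (nat_lit 4741936893) (nat_lit 380) (nat_lit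 6808966018) (nat_lit 128) (nat_lit 5) (nat_lit 132) (nat_lit 5) (nat_lit 133) (nat_lit 5) (nat_lit 614) (nat_lit 512) (nat_lit 434)) (XT.nd (nat_lit 78) (nat_lit 380) (nat_lit 0) (XT.lf (nat_lit 0) (nat_lit 8802834797) (nat_lit 304) (nat_lit 262591690) (nat_lit 380) (nat_lit 3120308464) (nat_lit 128) (nat_lit 5) (nat_lit 132) (nat_lit 5) (nat_lit 133) (nat_lit 5) (nat_lit 615) (nat_lit 512) (nat_lit 433)) (XT.lf (nat_lit 0) (nat_lit 663625434) (nat_lit 380) (nat_lit 7393480762) (nat_lit 76) (nat_lit 4268644550) (nat_lit 123) (nat_lit 5) (nat_lit 128) (nat_lit 5) (nat_lit 124) (nat_lit 5) (nat_lit 616) (nat_lit 512) (nat_lit 432)))) (XT.nd (nat_lit 78) (nat_lit 304) (nat_lit 0) (XT.lf (nat_lit 0) (nat_lit 932553559) (nat_lit 304) (nat_lit 3549385619) (nat_lit 380) (nat_lit 7986207809) (nat_lit 119) (nat_lit 5) (nat_lit 123) (nat_lit 5) (nat_lit 124) (nat_lit 5) (nat_lit 617) (nat_lit 512) (nat_lit 431)) (XT.nd (nat_lit 78) (nat_lit 304) (nat_lit 0) (XT.lf (nat_lit 0) (nat_lit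 8403326710) (nat_lit 380) (nat_lit 3142977623) (nat_lit 76) (nat_lit 1066554903) (nat_lit 119) (nat_lit 5) (nat_lit 124) (nat_lit 5) (nat_lit 120) (nat_lit 5) (nat_lit 618) (nat_lit 512) (nat_lit 430)) (XT.lf (nat_lit 0) (nat_lit 5417216878) (nat_lit 304) (nat_lit 7015149522) (nat_lit 380) (nat_lit 327517033) (nat_lit 115) (nat_lit 5) (nat_lit 119) (nat_lit 5) (nat_lit 120) (nat_lit 5) (nat_lit 619) (nat_lit 512) (nat_lit 429)))))) (XT.nd (nat_lit 468) (nat_lit 1368) (nat_lit 0) (XT.nd (nat_lit 234) (nat_lit 608) (nat_lit 0) (XT.nd (nat_lit 78) (nat_lit 304) (nat_lit 0) (XT.lf (nat_lit 0) (nat_lit 1226260055) (nat_lit 304) (nat_lit 2358055063) (nat_lit 380) (nat_lit 9325067205) (nat_lit 110) (nat_lit 5) (nat_lit 114) (nat_lit 5) (nat_lit 115) (nat_lit 5) (nat_lit 620) (nat_lit 512) (nat_lit 428)) (XT.nd (nat_lit 78) (nat_lit 304) (nat_lit 0) (XT.lf (nat_lit 0) (nat_lit 7605901029) (nat_lit 380) (nat_lit 3060858518) (nat_lit 76) (nat_lit 2394352358) (nat_lit 110) (nat_lit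 5) (nat_lit 115) (nat_lit 5) (nat_lit 111) (nat_lit 5) (nat_lit 621) (nat_lit 512) (nat_lit 427)) (XT.lf (nat_lit 0) (nat_lit 5746499805) (nat_lit 304) (nat_lit 5985685763) (nat_lit 380) (nat_lit 1483207196) (nat_lit 106) (nat_lit 5) (nat_lit 110) (nat_lit 5) (nat_lit 111) (nat_lit 5) (nat_lit 622) (nat_lit 512) (nat_lit 426)))) (XT.nd (nat_lit 78) (nat_lit 304) (nat_lit 0) (XT.lf (nat_lit 0) (nat_lit 1352907645) (nat_lit 228) (nat_lit 1182514667) (nat_lit 304) (nat_lit 10836988006) (nat_lit 102) (nat_lit 5) (nat_lit 105) (nat_lit 5) (nat_lit 106) (nat_lit 5) (nat_lit 623) (nat_lit 512) (nat_lit 425)) (XT.nd (nat_lit 78) (nat_lit 304) (nat_lit 0) (XT.lf (nat_lit 0) (nat_lit 6660711093) (nat_lit 304) (nat_lit 3160775465) (nat_lit 76) (nat_lit 3709964553) (nat_lit 102) (nat_lit 5) (nat_lit 106) (nat_lit 5) (nat_lit 103) (nat_lit 5) (nat_lit 624) (nat_lit 512) (nat_lit 424)) (XT.lf (nat_lit 0) (nat_lit 5898268759) (nat_lit 304) (nat_lit 4988466260) (nat_lit 380) (nat_lit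 2806574984) (nat_lit 98) (nat_lit 5) (nat_lit 102) (nat_lit 5) (nat_lit 103) (nat_lit 5) (nat_lit 625) (nat_lit 512) (nat_lit 423))))) (XT.nd (nat_lit 234) (nat_lit 760) (nat_lit 0) (XT.nd (nat_lit 78) (nat_lit 304) (nat_lit 0) (XT.lf (nat_lit 0) (nat_lit 1284926156) (nat_lit 228) (nat_lit 38246748) (nat_lit 304) (nat_lit 12535023926) (nat_lit 94) (nat_lit 5) (nat_lit 97) (nat_lit 5) (nat_lit 98) (nat_lit 5) (nat_lit 626) (nat_lit 512) (nat_lit 422)) (XT.nd (nat_lit 78) (nat_lit 304) (nat_lit 0) (XT.lf (nat_lit 0) (nat_lit 5555451967) (nat_lit 304) (nat_lit 3471223234) (nat_lit 76) (nat_lit 4998186600) (nat_lit 94) (nat_lit 5) (nat_lit 98) (nat_lit 5) (nat_lit 95) (nat_lit 5) (nat_lit 627) (nat_lit 512) (nat_lit 421)) (XT.lf (nat_lit 0) (nat_lit 5843587679) (nat_lit 304) (nat_lit 4039817266) (nat_lit 380) (nat_lit 4311236286) (nat_lit 90) (nat_lit 5) (nat_lit 94) (nat_lit 5) (nat_lit 95) (nat_lit 5) (nat_lit 628) (nat_lit 512) (nat_lit 420)))) (XT.nd (nat_lit 156) (nat_lit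 456) (nat_lit 0) (XT.nd (nat_lit 78) (nat_lit 76) (nat_lit 0) (XT.lf (nat_lit 0) (nat_lit 984576027) (nat_lit 228) (nat_lit 13322930875) (nat_lit 304) (nat_lit 60119241) (nat_lit 87) (nat_lit 5) (nat_lit 90) (nat_lit 5) (nat_lit 91) (nat_lit 5) (nat_lit 629) (nat_lit 512) (nat_lit 419)) (XT.lf (nat_lit 0) (nat_lit 4276113069) (nat_lit 304) (nat_lit 4023561790) (nat_lit 76) (nat_lit 6242718793) (nat_lit 86) (nat_lit 5) (nat_lit 90) (nat_lit 5) (nat_lit 87) (nat_lit 5) (nat_lit 630) (nat_lit 512) (nat_lit 418))) (XT.nd (nat_lit 78) (nat_lit 228) (nat_lit 0) (XT.lf (nat_lit 0) (nat_lit 5550570657) (nat_lit 228) (nat_lit 3157271200) (nat_lit 304) (nat_lit 6012616765) (nat_lit 83) (nat_lit 5) (nat_lit 86) (nat_lit 5) (nat_lit 87) (nat_lit 5) (nat_lit 631) (nat_lit 512) (nat_lit 417)) (XT.lf (nat_lit 0) (nat_lit 415844611) (nat_lit 228) (nat_lit 12829443629) (nat_lit 304) (nat_lit 1656456555) (nat_lit 80) (nat_lit 5) (nat_lit 83) (nat_lit 5) (nat_lit 84) (nat_lit 5) (nat_lit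 632) (nat_lit 512) (nat_lit 416))))))))
noncomputable def xc65 : XT := (XT.nd (nat_lit 74334) (nat_lit 0) (nat_lit 23864) (XT.nd (nat_lit 936) (nat_lit 152) (nat_lit 0) (XT.nd (nat_lit 468) (nat_lit 988) (nat_lit 0) (XT.nd (nat_lit 234) (nat_lit 532) (nat_lit 0) (XT.nd (nat_lit 78) (nat_lit 228) (nat_lit 0) (XT.lf (nat_lit 0) (nat_lit 2806827566) (nat_lit 304) (nat_lit 4852354255) (nat_lit 76) (nat_lit 7425983486) (nat_lit 79) (nat_lit 5) (nat_lit 83) (nat_lit 5) (nat_lit 80) (nat_lit 5) (nat_lit 633) (nat_lit 512) (nat_lit 415)) (XT.nd (nat_lit 78) (nat_lit 0) (nat_lit 0) (XT.lf (nat_lit 0) (nat_lit 4984033868) (nat_lit 228) (nat_lit 2359758713) (nat_lit 304) (nat_lit 7928112236) (nat_lit 76) (nat_lit 5) (nat_lit 79) (nat_lit 5) (nat_lit 80) (nat_lit 5) (nat_lit 634) (nat_lit 512) (nat_lit 414)) (XT.lf (nat_lit 0) (nat_lit 11998364640) (nat_lit 304) (nat_lit 443121058) (nat_lit 76) (nat_lit 3020357507) (nat_lit 76) (nat_lit 5) (nat_lit 80) (nat_lit 5) (nat_lit 77) (nat_lit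 5) (nat_lit 635) (nat_lit 512) (nat_lit 413)))) (XT.nd (nat_lit 78) (nat_lit 228) (nat_lit 0) (XT.lf (nat_lit 0) (nat_lit 1129703783) (nat_lit 304) (nat_lit 5995738178) (nat_lit 76) (nat_lit 8528927044) (nat_lit 72) (nat_lit 5) (nat_lit 76) (nat_lit 5) (nat_lit 73) (nat_lit 5) (nat_lit 636) (nat_lit 512) (nat_lit 412)) (XT.nd (nat_lit 78) (nat_lit 0) (nat_lit 0) (XT.lf (nat_lit 0) (nat_lit 4105113059) (nat_lit 228) (nat_lit 1667816655) (nat_lit 304) (nat_lit 10077267977) (nat_lit 69) (nat_lit 5) (nat_lit 72) (nat_lit 5) (nat_lit 73) (nat_lit 5) (nat_lit 637) (nat_lit 512) (nat_lit 411)) (XT.lf (nat_lit 0) (nat_lit 10549795375) (nat_lit 304) (nat_lit 1629067062) (nat_lit 76) (nat_lit 3870266344) (nat_lit 69) (nat_lit 5) (nat_lit 73) (nat_lit 5) (nat_lit 70) (nat_lit 5) (nat_lit 638) (nat_lit 512) (nat_lit 410))))) (XT.nd (nat_lit 234) (nat_lit 456) (nat_lit 0) (XT.nd (nat_lit 78) (nat_lit 304) (nat_lit 0) (XT.lf (nat_lit 0) (nat_lit 8750238792) (nat_lit 228) (nat_lit 6715267598)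 (nat_lit 304) (nat_lit 785667252) (nat_lit 66) (nat_lit 5) (nat_lit 69) (nat_lit 5) (nat_lit 70) (nat_lit 5) (nat_lit 639) (nat_lit 512) (nat_lit 409)) (XT.nd (nat_lit 78) (nat_lit 0) (nat_lit 0) (XT.lf (nat_lit 0) (nat_lit 2870842822) (nat_lit 228) (nat_lit 1103813990) (nat_lit 304) (nat_lit 12481978792) (nat_lit 62) (nat_lit 5) (nat_lit 65) (nat_lit 5) (nat_lit 66) (nat_lit 5) (nat_lit 640) (nat_lit 512) (nat_lit 408)) (XT.lf (nat_lit 0) (nat_lit 8875920894) (nat_lit 304) (nat_lit 3191879674) (nat_lit 76) (nat_lit 4597178532) (nat_lit 62) (nat_lit 5) (nat_lit 66) (nat_lit 5) (nat_lit 63) (nat_lit 5) (nat_lit 641) (nat_lit 512) (nat_lit 407)))) (XT.nd (nat_lit 78) (nat_lit 304) (nat_lit 0) (XT.lf (nat_lit 0) (nat_lit 7458379385) (nat_lit 152) (nat_lit 6448624436) (nat_lit 228) (nat_lit 2969850983) (nat_lit 60) (nat_lit 5) (nat_lit 62) (nat_lit 5) (nat_lit 63) (nat_lit 5) (nat_lit 642) (nat_lit 512) (nat_lit 406)) (XT.nd (nat_lit 78) (nat_lit 0) (nat_lit 0) (XT.lf (nat_lit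 0) (nat_lit 1233693494) (nat_lit 228) (nat_lit 692197814) (nat_lit 304) (nat_lit 15166711824) (nat_lit 56) (nat_lit 5) (nat_lit 59) (nat_lit 5) (nat_lit 60) (nat_lit 5) (nat_lit 643) (nat_lit 512) (nat_lit 405)) (XT.lf (nat_lit 0) (nat_lit 6953246985) (nat_lit 304) (nat_lit 5180704263) (nat_lit 76) (nat_lit 5176854404) (nat_lit 56) (nat_lit 5) (nat_lit 60) (nat_lit 5) (nat_lit 57) (nat_lit 5) (nat_lit 644) (nat_lit 512) (nat_lit 404)))))) (XT.nd (nat_lit 72852) (nat_lit 0) (nat_lit 45600) (XT.nd (nat_lit 72618) (nat_lit 0) (nat_lit 49324) (XT.nd (nat_lit 78) (nat_lit 0) (nat_lit 0) (XT.lf (nat_lit 0) (nat_lit 5740431324) (nat_lit 152) (nat_lit 6359218680) (nat_lit 228) (nat_lit 5433353332) (nat_lit 54) (nat_lit 5) (nat_lit 56) (nat_lit 5) (nat_lit 57) (nat_lit 5) (nat_lit 645) (nat_lit 512) (nat_lit 403)) (XT.nd (nat_lit 72462) (nat_lit 0) (nat_lit 50768) (XT.lf (nat_lit 0) (nat_lit 16909150792) (nat_lit 152) (nat_lit 451432307) (nat_lit 228) (nat_lit 398830928) (nat_lit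 54) (nat_lit 5) (nat_lit 56) (nat_lit 5) (nat_lit 57) (nat_lit 5) (nat_lit 646) (nat_lit 512) (nat_lit 402)) (XT.lf (nat_lit 0) (nat_lit 1967026135) (nat_lit 532) (nat_lit 650536932) (nat_lit 532) (nat_lit 650536932) (nat_lit 722) (nat_lit 4) (nat_lit 729) (nat_lit 5) (nat_lit 729) (nat_lit 4) (nat_lit 534) (nat_lit 513) (nat_lit 513)))) (XT.nd (nat_lit 78) (nat_lit 760) (nat_lit 0) (XT.lf (nat_lit 0) (nat_lit 1284998245) (nat_lit 608) (nat_lit 614432519) (nat_lit 684) (nat_lit 4650901836) (nat_lit 713) (nat_lit 5) (nat_lit 721) (nat_lit 5) (nat_lit 722) (nat_lit 4) (nat_lit 535) (nat_lit 513) (nat_lit 512)) (XT.nd (nat_lit 78) (nat_lit 760) (nat_lit 0) (XT.lf (nat_lit 0) (nat_lit 5089327388) (nat_lit 684) (nat_lit 1341661097) (nat_lit 0) (nat_lit 134751421) (nat_lit 713) (nat_lit 5) (nat_lit 722) (nat_lit 4) (nat_lit 713) (nat_lit 4) (nat_lit 536) (nat_lit 513) (nat_lit 511)) (XT.lf (nat_lit 0) (nat_lit 1685426876) (nat_lit 760) (nat_lit 3954680713) (nat_lit 76) (nat_lit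 942199090) (nat_lit 703) (nat_lit 5) (nat_lit 713) (nat_lit 5) (nat_lit 704) (nat_lit 4) (nat_lit 537) (nat_lit 513) (nat_lit 510))))) (XT.nd (nat_lit 234) (nat_lit 2052) (nat_lit 0) (XT.nd (nat_lit 78) (nat_lit 912) (nat_lit 0) (XT.lf (nat_lit 0) (nat_lit 33319996) (nat_lit 760) (nat_lit 4793452135) (nat_lit 836) (nat_lit 1773535673) (nat_lit 693) (nat_lit 5) (nat_lit 703) (nat_lit 5) (nat_lit 704) (nat_lit 4) (nat_lit 538) (nat_lit 513) (nat_lit 509)) (XT.nd (nat_lit 78) (nat_lit 836) (nat_lit 0) (XT.lf (nat_lit 0) (nat_lit 1347807418) (nat_lit 836) (nat_lit 2526173187) (nat_lit 76) (nat_lit 2745442093) (nat_lit 692) (nat_lit 5) (nat_lit 703) (nat_lit 5) (nat_lit 693) (nat_lit 5) (nat_lit 539) (nat_lit 513) (nat_lit 508)) (XT.lf (nat_lit 0) (nat_lit 1551733048) (nat_lit 836) (nat_lit 2894959037) (nat_lit 912) (nat_lit 2193233962) (nat_lit 681) (nat_lit 5) (nat_lit 692) (nat_lit 5) (nat_lit 693) (nat_lit 5) (nat_lit 540) (nat_lit 513) (nat_lit 507)))) (XT.nd (nat_lit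 156) (nat_lit 1064) (nat_lit 0) (XT.nd (nat_lit 78) (nat_lit 912) (nat_lit 0) (XT.lf (nat_lit 0) (nat_lit 880705345) (nat_lit 912) (nat_lit 974261599) (nat_lit 76) (nat_lit 4806838625) (nat_lit 680) (nat_lit 5) (nat_lit 692) (nat_lit 5) (nat_lit 681) (nat_lit 5) (nat_lit 541) (nat_lit 513) (nat_lit 506)) (XT.lf (nat_lit 0) (nat_lit 3197454422) (nat_lit 912) (nat_lit 740816986) (nat_lit 988) (nat_lit 2746547855) (nat_lit 668) (nat_lit 5) (nat_lit 680) (nat_lit 5) (nat_lit 681) (nat_lit 5) (nat_lit 542) (nat_lit 513) (nat_lit 505))) (XT.nd (nat_lit 78) (nat_lit 0) (nat_lit 0) (XT.lf (nat_lit 0) (nat_lit 289373762) (nat_lit 1064) (nat_lit 5999988000) (nat_lit 76) (nat_lit 419997343) (nat_lit 654) (nat_lit 5) (nat_lit 668) (nat_lit 5) (nat_lit 655) (nat_lit 5) (nat_lit 543) (nat_lit 513) (nat_lit 504)) (XT.lf (nat_lit 0) (nat_lit 3310128023) (nat_lit 1064) (nat_lit 1773475992) (nat_lit 76) (nat_lit 1651220691) (nat_lit 654) (nat_lit 5) (nat_lit 668) (nat_lit 5) (nat_lit 655)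 (nat_lit 5) (nat_lit 544) (nat_lit 513) (nat_lit 503))))))) (XT.nd (nat_lit 936) (nat_lit 10716) (nat_lit 0) (XT.nd (nat_lit 468) (nat_lit 6080) (nat_lit 0) (XT.nd (nat_lit 234) (nat_lit 2660) (nat_lit 0) (XT.nd (nat_lit 78) (nat_lit 1216) (nat_lit 0) (XT.lf (nat_lit 0) (nat_lit 2518023827) (nat_lit 1064) (nat_lit 3823340851) (nat_lit 1140) (nat_lit 420449147) (nat_lit 640) (nat_lit 5) (nat_lit 654) (nat_lit 5) (nat_lit 655) (nat_lit 5) (nat_lit 545) (nat_lit 513) (nat_lit 502)) (XT.nd (nat_lit 78) (nat_lit 0) (nat_lit 0) (XT.lf (nat_lit 0) (nat_lit 60730799) (nat_lit 1140) (nat_lit 2495083185) (nat_lit 1216) (nat_lit 4234268263) (nat_lit 624) (nat_lit 5) (nat_lit 639) (nat_lit 5) (nat_lit 640) (nat_lit 5) (nat_lit 546) (nat_lit 513) (nat_lit 501)) (XT.lf (nat_lit 0) (nat_lit 4453285770) (nat_lit 1140) (nat_lit 1096330399) (nat_lit 1216) (nat_lit 1269986069) (nat_lit 624) (nat_lit 5) (nat_lit 639) (nat_lit 5) (nat_lit 640) (nat_lit 5) (nat_lit 547) (nat_lit 513) (nat_lit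 500)))) (XT.nd (nat_lit 78) (nat_lit 1368) (nat_lit 0) (XT.lf (nat_lit 0) (nat_lit 1682269837) (nat_lit 1292) (nat_lit 4806047304) (nat_lit 76) (nat_lit 362148135) (nat_lit 607) (nat_lit 5) (nat_lit 624) (nat_lit 5) (nat_lit 608) (nat_lit 5) (nat_lit 548) (nat_lit 513) (nat_lit 499)) (XT.nd (nat_lit 78) (nat_lit 1368) (nat_lit 0) (XT.lf (nat_lit 0) (nat_lit 4636826757) (nat_lit 1292) (nat_lit 375550884) (nat_lit 76) (nat_lit 1870208632) (nat_lit 607) (nat_lit 5) (nat_lit 624) (nat_lit 5) (nat_lit 608) (nat_lit 5) (nat_lit 549) (nat_lit 513) (nat_lit 498)) (XT.lf (nat_lit 0) (nat_lit 690389797) (nat_lit 1368) (nat_lit 2775218475) (nat_lit 76) (nat_lit 3450361115) (nat_lit 589) (nat_lit 5) (nat_lit 607) (nat_lit 5) (nat_lit 590) (nat_lit 5) (nat_lit 550) (nat_lit 513) (nat_lit 497))))) (XT.nd (nat_lit 234) (nat_lit 3192) (nat_lit 0) (XT.nd (nat_lit 78) (nat_lit 1520) (nat_lit 0) (XT.lf (nat_lit 0) (nat_lit 1757640936) (nat_lit 1368) (nat_lit 1850218535) (nat_lit 1444) (nat_lit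 3342823456) (nat_lit 571) (nat_lit 5) (nat_lit 589) (nat_lit 5) (nat_lit 590) (nat_lit 5) (nat_lit 551) (nat_lit 513) (nat_lit 496)) (XT.nd (nat_lit 78) (nat_lit 1520) (nat_lit 0) (XT.lf (nat_lit 0) (nat_lit 6366103929) (nat_lit 1368) (nat_lit 175749310) (nat_lit 1444) (nat_lit 445086763) (nat_lit 571) (nat_lit 5) (nat_lit 589) (nat_lit 5) (nat_lit 590) (nat_lit 5) (nat_lit 552) (nat_lit 513) (nat_lit 495)) (XT.lf (nat_lit 0) (nat_lit 2454430906) (nat_lit 1520) (nat_lit 3007673165) (nat_lit 76) (nat_lit 1561969337) (nat_lit 551) (nat_lit 5) (nat_lit 571) (nat_lit 5) (nat_lit 552) (nat_lit 5) (nat_lit 553) (nat_lit 513) (nat_lit 494)))) (XT.nd (nat_lit 78) (nat_lit 1672) (nat_lit 0) (XT.lf (nat_lit 0) (nat_lit 1657193722) (nat_lit 1520) (nat_lit 3706115701) (nat_lit 1596) (nat_lit 1699446637) (nat_lit 531) (nat_lit 5) (nat_lit 551) (nat_lit 5) (nat_lit 552) (nat_lit 5) (nat_lit 554) (nat_lit 513) (nat_lit 493)) (XT.nd (nat_lit 78) (nat_lit 1596) (nat_lit 0) (XT.lf (nat_lit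 0) (nat_lit 1173983007) (nat_lit 1596) (nat_lit 707557428) (nat_lit 76) (nat_lit 5221285261) (nat_lit 530) (nat_lit 5) (nat_lit 551) (nat_lit 5) (nat_lit 531) (nat_lit 5) (nat_lit 555) (nat_lit 513) (nat_lit 492)) (XT.lf (nat_lit 0) (nat_lit 4051508572) (nat_lit 1672) (nat_lit 3070376829) (nat_lit 76) (nat_lit 22210328) (nat_lit 509) (nat_lit 5) (nat_lit 531) (nat_lit 5) (nat_lit 510) (nat_lit 5) (nat_lit 556) (nat_lit 513) (nat_lit 491)))))) (XT.nd (nat_lit 468) (nat_lit 4484) (nat_lit 0) (XT.nd (nat_lit 234) (nat_lit 2736) (nat_lit 0) (XT.nd (nat_lit 78) (nat_lit 1824) (nat_lit 0) (XT.lf (nat_lit 0) (nat_lit 1730788904) (nat_lit 1672) (nat_lit 5227847270) (nat_lit 1748) (nat_lit 228125066) (nat_lit 487) (nat_lit 5) (nat_lit 509) (nat_lit 5) (nat_lit 510) (nat_lit 5) (nat_lit 557) (nat_lit 513) (nat_lit 490)) (XT.nd (nat_lit 78) (nat_lit 1748) (nat_lit 0) (XT.lf (nat_lit 0) (nat_lit 2622994915) (nat_lit 1748) (nat_lit 631833205) (nat_lit 76) (nat_lit 3975818921) (nat_lit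 486) (nat_lit 5) (nat_lit 509) (nat_lit 5) (nat_lit 487) (nat_lit 5) (nat_lit 558) (nat_lit 513) (nat_lit 489)) (XT.lf (nat_lit 0) (nat_lit 4290670785) (nat_lit 1748) (nat_lit 1210327304) (nat_lit 1824) (nat_lit 1774934469) (nat_lit 463) (nat_lit 5) (nat_lit 486) (nat_lit 5) (nat_lit 487) (nat_lit 5) (nat_lit 559) (nat_lit 513) (nat_lit 488)))) (XT.nd (nat_lit 78) (nat_lit 988) (nat_lit 0) (XT.lf (nat_lit 0) (nat_lit 1068109417) (nat_lit 1748) (nat_lit 5365221830) (nat_lit 76) (nat_lit 889292128) (nat_lit 440) (nat_lit 5) (nat_lit 463) (nat_lit 5) (nat_lit 441) (nat_lit 5) (nat_lit 560) (nat_lit 513) (nat_lit 487)) (XT.nd (nat_lit 78) (nat_lit 988) (nat_lit 0) (XT.lf (nat_lit 0) (nat_lit 3918605248) (nat_lit 1748) (nat_lit 404375905) (nat_lit 76) (nat_lit 3047554923) (nat_lit 440) (nat_lit 5) (nat_lit 463) (nat_lit 5) (nat_lit 441) (nat_lit 5) (nat_lit 561) (nat_lit 513) (nat_lit 486)) (XT.lf (nat_lit 0) (nat_lit 4663903817) (nat_lit 988) (nat_lit 2139698597) (nat_lit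 1064) (nat_lit 616264460) (nat_lit 427) (nat_lit 5) (nat_lit 440) (nat_lit 5) (nat_lit 441) (nat_lit 5) (nat_lit 562) (nat_lit 513) (nat_lit 485))))) (XT.nd (nat_lit 234) (nat_lit 2508) (nat_lit 0) (XT.nd (nat_lit 78) (nat_lit 988) (nat_lit 0) (XT.lf (nat_lit 0) (nat_lit 2212458502) (nat_lit 988) (nat_lit 5139994924) (nat_lit 76) (nat_lit 118120695) (nat_lit 414) (nat_lit 5) (nat_lit 427) (nat_lit 5) (nat_lit 415) (nat_lit 5) (nat_lit 563) (nat_lit 513) (nat_lit 484)) (XT.nd (nat_lit 78) (nat_lit 988) (nat_lit 0) (XT.lf (nat_lit 0) (nat_lit 5070524804) (nat_lit 988) (nat_lit 38084422) (nat_lit 76) (nat_lit 2413993518) (nat_lit 414) (nat_lit 5) (nat_lit 427) (nat_lit 5) (nat_lit 415) (nat_lit 5) (nat_lit 564) (nat_lit 513) (nat_lit 483)) (XT.lf (nat_lit 0) (nat_lit 387459186) (nat_lit 988) (nat_lit 2397696227) (nat_lit 76) (nat_lit 4790816893) (nat_lit 401) (nat_lit 5) (nat_lit 414) (nat_lit 5) (nat_lit 402) (nat_lit 5) (nat_lit 565) (nat_lit 513) (nat_lit 482)))) (XT.nd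 (nat_lit 156) (nat_lit 836) (nat_lit 0) (XT.nd (nat_lit 78) (nat_lit 836) (nat_lit 0) (XT.lf (nat_lit 0) (nat_lit 2836773069) (nat_lit 836) (nat_lit 382441681) (nat_lit 912) (nat_lit 4411513712) (nat_lit 390) (nat_lit 5) (nat_lit 401) (nat_lit 5) (nat_lit 402) (nat_lit 5) (nat_lit 566) (nat_lit 513) (nat_lit 481)) (XT.lf (nat_lit 0) (nat_lit 460782229) (nat_lit 836) (nat_lit 5629620374) (nat_lit 912) (nat_lit 1596529612) (nat_lit 379) (nat_lit 5) (nat_lit 390) (nat_lit 5) (nat_lit 391) (nat_lit 5) (nat_lit 567) (nat_lit 513) (nat_lit 480))) (XT.nd (nat_lit 78) (nat_lit 760) (nat_lit 0) (XT.lf (nat_lit 0) (nat_lit 1243426735) (nat_lit 912) (nat_lit 1923253391) (nat_lit 76) (nat_lit 4577714654) (nat_lit 378) (nat_lit 5) (nat_lit 390) (nat_lit 5) (nat_lit 379) (nat_lit 5) (nat_lit 568) (nat_lit 513) (nat_lit 479)) (XT.lf (nat_lit 0) (nat_lit 3467455019) (nat_lit 760) (nat_lit 625329190) (nat_lit 836) (nat_lit 3710539668) (nat_lit 368) (nat_lit 5) (nat_lit 378) (nat_lit 5)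 (nat_lit 379) (nat_lit 5) (nat_lit 569) (nat_lit 513) (nat_lit 478))))))))
noncomputable def xc66 : XT := (XT.nd (nat_lit 1950) (nat_lit 7600) (nat_lit 0) (XT.nd (nat_lit 936) (nat_lit 5548) (nat_lit 0) (XT.nd (nat_lit 468) (nat_lit 2888) (nat_lit 0) (XT.nd (nat_lit 234) (nat_lit 1520) (nat_lit 0) (XT.nd (nat_lit 78) (nat_lit 836) (nat_lit 0) (XT.lf (nat_lit 0) (nat_lit 1076401166) (nat_lit 836) (nat_lit 5907502201) (nat_lit 912) (nat_lit 879840476) (nat_lit 357) (nat_lit 5) (nat_lit 368) (nat_lit 5) (nat_lit 369) (nat_lit 5) (nat_lit 570) (nat_lit 513) (nat_lit 477)) (XT.nd (nat_lit 78) (nat_lit 760) (nat_lit 0) (XT.lf (nat_lit 0) (nat_lit 1966871263) (nat_lit 912) (nat_lit 1340490383) (nat_lit 76) (nat_lit 4618042820) (nat_lit 356) (nat_lit 5) (nat_lit 368) (nat_lit 5) (nat_lit 357) (nat_lit 5) (nat_lit 571) (nat_lit 513) (nat_lit 476)) (XT.lf (nat_lit 0) (nat_lit 4211746537) (nat_lit 760) (nat_lit 627578482) (nat_lit 836) (nat_lit 3149252522) (nat_lit 346) (nat_lit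 5) (nat_lit 356) (nat_lit 5) (nat_lit 357) (nat_lit 5) (nat_lit 572) (nat_lit 513) (nat_lit 475)))) (XT.nd (nat_lit 78) (nat_lit 760) (nat_lit 0) (XT.lf (nat_lit 0) (nat_lit 1796692489) (nat_lit 760) (nat_lit 5960693980) (nat_lit 836) (nat_lit 295871620) (nat_lit 336) (nat_lit 5) (nat_lit 346) (nat_lit 5) (nat_lit 347) (nat_lit 5) (nat_lit 573) (nat_lit 513) (nat_lit 474)) (XT.nd (nat_lit 78) (nat_lit 684) (nat_lit 0) (XT.lf (nat_lit 0) (nat_lit 2563972879) (nat_lit 836) (nat_lit 660912863) (nat_lit 76) (nat_lit 4894340168) (nat_lit 335) (nat_lit 5) (nat_lit 346) (nat_lit 5) (nat_lit 336) (nat_lit 5) (nat_lit 574) (nat_lit 513) (nat_lit 473)) (XT.lf (nat_lit 0) (nat_lit 5058318249) (nat_lit 684) (nat_lit 406499671) (nat_lit 760) (nat_lit 2721907515) (nat_lit 326) (nat_lit 5) (nat_lit 335) (nat_lit 5) (nat_lit 336) (nat_lit 5) (nat_lit 575) (nat_lit 513) (nat_lit 472))))) (XT.nd (nat_lit 234) (nat_lit 1368) (nat_lit 0) (XT.nd (nat_lit 78) (nat_lit 684) (nat_lit 0) (XT.lf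 (nat_lit 0) (nat_lit 158697309) (nat_lit 836) (nat_lit 5646397184) (nat_lit 76) (nat_lit 2450609196) (nat_lit 315) (nat_lit 5) (nat_lit 326) (nat_lit 5) (nat_lit 316) (nat_lit 5) (nat_lit 576) (nat_lit 513) (nat_lit 471)) (XT.nd (nat_lit 78) (nat_lit 0) (nat_lit 0) (XT.lf (nat_lit 0) (nat_lit 105605862) (nat_lit 684) (nat_lit 2935051700) (nat_lit 760) (nat_lit 5285446694) (nat_lit 306) (nat_lit 5) (nat_lit 315) (nat_lit 5) (nat_lit 316) (nat_lit 5) (nat_lit 577) (nat_lit 513) (nat_lit 470)) (XT.lf (nat_lit 0) (nat_lit 5974459074) (nat_lit 760) (nat_lit 2402101498) (nat_lit 76) (nat_lit 21474477) (nat_lit 306) (nat_lit 5) (nat_lit 316) (nat_lit 5) (nat_lit 307) (nat_lit 5) (nat_lit 578) (nat_lit 513) (nat_lit 469)))) (XT.nd (nat_lit 78) (nat_lit 608) (nat_lit 0) (XT.lf (nat_lit 0) (nat_lit 488195341) (nat_lit 760) (nat_lit 4968301588) (nat_lit 76) (nat_lit 3014865953) (nat_lit 296) (nat_lit 5) (nat_lit 306) (nat_lit 5) (nat_lit 297) (nat_lit 5) (nat_lit 579) (nat_lit 513)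 (nat_lit 468)) (XT.nd (nat_lit 78) (nat_lit 0) (nat_lit 0) (XT.lf (nat_lit 0) (nat_lit 956337373) (nat_lit 608) (nat_lit 2449064566) (nat_lit 684) (nat_lit 5140847796) (nat_lit 288) (nat_lit 5) (nat_lit 296) (nat_lit 5) (nat_lit 297) (nat_lit 5) (nat_lit 580) (nat_lit 513) (nat_lit 467)) (XT.lf (nat_lit 0) (nat_lit 6376144347) (nat_lit 684) (nat_lit 1612925226) (nat_lit 76) (nat_lit 633666698) (nat_lit 288) (nat_lit 5) (nat_lit 297) (nat_lit 5) (nat_lit 289) (nat_lit 5) (nat_lit 581) (nat_lit 513) (nat_lit 466)))))) (XT.nd (nat_lit 468) (nat_lit 2356) (nat_lit 0) (XT.nd (nat_lit 234) (nat_lit 1824) (nat_lit 0) (XT.nd (nat_lit 78) (nat_lit 608) (nat_lit 0) (XT.lf (nat_lit 0) (nat_lit 700025199) (nat_lit 760) (nat_lit 4231722194) (nat_lit 76) (nat_lit 3768844493) (nat_lit 278) (nat_lit 5) (nat_lit 288) (nat_lit 5) (nat_lit 279) (nat_lit 5) (nat_lit 582) (nat_lit 513) (nat_lit 465)) (XT.nd (nat_lit 78) (nat_lit 0) (nat_lit 0) (XT.lf (nat_lit 0) (nat_lit 1871271473) (nat_lit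 608) (nat_lit 1785939182) (nat_lit 684) (nat_lit 5122868044) (nat_lit 270) (nat_lit 5) (nat_lit 278) (nat_lit 5) (nat_lit 279) (nat_lit 5) (nat_lit 583) (nat_lit 513) (nat_lit 464)) (XT.lf (nat_lit 0) (nat_lit 6670404119) (nat_lit 684) (nat_lit 769424610) (nat_lit 76) (nat_lit 1421394572) (nat_lit 270) (nat_lit 5) (nat_lit 279) (nat_lit 5) (nat_lit 271) (nat_lit 5) (nat_lit 584) (nat_lit 513) (nat_lit 463)))) (XT.nd (nat_lit 78) (nat_lit 1140) (nat_lit 0) (XT.lf (nat_lit 0) (nat_lit 796812170) (nat_lit 684) (nat_lit 3448083052) (nat_lit 76) (nat_lit 4698848201) (nat_lit 261) (nat_lit 5) (nat_lit 270) (nat_lit 5) (nat_lit 262) (nat_lit 5) (nat_lit 585) (nat_lit 513) (nat_lit 462)) (XT.nd (nat_lit 78) (nat_lit 608) (nat_lit 0) (XT.lf (nat_lit 0) (nat_lit 2839107298) (nat_lit 532) (nat_lit 959440196) (nat_lit 608) (nat_lit 5229408127) (nat_lit 254) (nat_lit 5) (nat_lit 261) (nat_lit 5) (nat_lit 262) (nat_lit 5) (nat_lit 586) (nat_lit 513) (nat_lit 461)) (XT.lf (nat_lit 0)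 (nat_lit 118643391) (nat_lit 608) (nat_lit 6741659327) (nat_lit 684) (nat_lit 2253554574) (nat_lit 246) (nat_lit 5) (nat_lit 254) (nat_lit 5) (nat_lit 255) (nat_lit 5) (nat_lit 587) (nat_lit 513) (nat_lit 460))))) (XT.nd (nat_lit 234) (nat_lit 1216) (nat_lit 0) (XT.nd (nat_lit 78) (nat_lit 1064) (nat_lit 0) (XT.lf (nat_lit 0) (nat_lit 780289299) (nat_lit 684) (nat_lit 2628980148) (nat_lit 76) (nat_lit 5791936231) (nat_lit 245) (nat_lit 5) (nat_lit 254) (nat_lit 5) (nat_lit 246) (nat_lit 5) (nat_lit 588) (nat_lit 513) (nat_lit 459)) (XT.nd (nat_lit 78) (nat_lit 532) (nat_lit 0) (XT.lf (nat_lit 0) (nat_lit 3831102717) (nat_lit 608) (nat_lit 5442037209) (nat_lit 76) (nat_lit 17138478) (nat_lit 238) (nat_lit 5) (nat_lit 246) (nat_lit 5) (nat_lit 239) (nat_lit 5) (nat_lit 589) (nat_lit 513) (nat_lit 458)) (XT.lf (nat_lit 0) (nat_lit 1048811546) (nat_lit 532) (nat_lit 5902946223) (nat_lit 608) (nat_lit 2429202863) (nat_lit 231) (nat_lit 5) (nat_lit 238) (nat_lit 5) (nat_lit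 239) (nat_lit 5) (nat_lit 590) (nat_lit 513) (nat_lit 457)))) (XT.nd (nat_lit 156) (nat_lit 608) (nat_lit 0) (XT.nd (nat_lit 78) (nat_lit 532) (nat_lit 0) (XT.lf (nat_lit 0) (nat_lit 651295213) (nat_lit 608) (nat_lit 1786297936) (nat_lit 76) (nat_lit 7035809861) (nat_lit 230) (nat_lit 5) (nat_lit 238) (nat_lit 5) (nat_lit 231) (nat_lit 5) (nat_lit 591) (nat_lit 513) (nat_lit 456)) (XT.lf (nat_lit 0) (nat_lit 3762574660) (nat_lit 608) (nat_lit 4687616791) (nat_lit 76) (nat_lit 1117151966) (nat_lit 223) (nat_lit 5) (nat_lit 231) (nat_lit 5) (nat_lit 224) (nat_lit 5) (nat_lit 592) (nat_lit 513) (nat_lit 455))) (XT.nd (nat_lit 78) (nat_lit 76) (nat_lit 0) (XT.lf (nat_lit 0) (nat_lit 1998781323) (nat_lit 532) (nat_lit 4941385096) (nat_lit 608) (nat_lit 2722918691) (nat_lit 216) (nat_lit 5) (nat_lit 223) (nat_lit 5) (nat_lit 224) (nat_lit 5) (nat_lit 593) (nat_lit 513) (nat_lit 454)) (XT.lf (nat_lit 0) (nat_lit 409764821) (nat_lit 608) (nat_lit 932331178) (nat_lit 76) (nat_lit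 8418700824) (nat_lit 215) (nat_lit 5) (nat_lit 223) (nat_lit 5) (nat_lit 216) (nat_lit 5) (nat_lit 594) (nat_lit 513) (nat_lit 453))))))) (XT.nd (nat_lit 936) (nat_lit 3344) (nat_lit 0) (XT.nd (nat_lit 468) (nat_lit 1824) (nat_lit 0) (XT.nd (nat_lit 234) (nat_lit 1368) (nat_lit 0) (XT.nd (nat_lit 78) (nat_lit 608) (nat_lit 0) (XT.lf (nat_lit 0) (nat_lit 3586440871) (nat_lit 532) (nat_lit 3931978918) (nat_lit 76) (nat_lit 2341331003) (nat_lit 209) (nat_lit 5) (nat_lit 216) (nat_lit 5) (nat_lit 210) (nat_lit 5) (nat_lit 595) (nat_lit 513) (nat_lit 452)) (XT.nd (nat_lit 78) (nat_lit 76) (nat_lit 0) (XT.lf (nat_lit 0) (nat_lit 2955987615) (nat_lit 532) (nat_lit 3869101975) (nat_lit 608) (nat_lit 3135629357) (nat_lit 202) (nat_lit 5) (nat_lit 209) (nat_lit 5) (nat_lit 210) (nat_lit 5) (nat_lit 596) (nat_lit 513) (nat_lit 451)) (XT.lf (nat_lit 0) (nat_lit 54712686) (nat_lit 608) (nat_lit 79913196) (nat_lit 76) (nat_lit 9929260750) (nat_lit 201) (nat_lit 5) (nat_lit 209) (nat_lit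 5) (nat_lit 202) (nat_lit 5) (nat_lit 597) (nat_lit 513) (nat_lit 450)))) (XT.nd (nat_lit 78) (nat_lit 912) (nat_lit 0) (XT.lf (nat_lit 0) (nat_lit 3301489591) (nat_lit 532) (nat_lit 3188346642) (nat_lit 76) (nat_lit 3678178290) (nat_lit 195) (nat_lit 5) (nat_lit 202) (nat_lit 5) (nat_lit 196) (nat_lit 5) (nat_lit 598) (nat_lit 513) (nat_lit 449)) (XT.nd (nat_lit 78) (nat_lit 456) (nat_lit 0) (XT.lf (nat_lit 0) (nat_lit 3907239691) (nat_lit 456) (nat_lit 2697928391) (nat_lit 532) (nat_lit 3669221161) (nat_lit 189) (nat_lit 5) (nat_lit 195) (nat_lit 5) (nat_lit 196) (nat_lit 5) (nat_lit 599) (nat_lit 513) (nat_lit 448)) (XT.lf (nat_lit 0) (nat_lit 757005517) (nat_lit 456) (nat_lit 9217384755) (nat_lit 532) (nat_lit 408515306) (nat_lit 183) (nat_lit 5) (nat_lit 189) (nat_lit 5) (nat_lit 190) (nat_lit 5) (nat_lit 600) (nat_lit 513) (nat_lit 447))))) (XT.nd (nat_lit 234) (nat_lit 912) (nat_lit 0) (XT.nd (nat_lit 78) (nat_lit 836) (nat_lit 0) (XT.lf (nat_lit 0) (nat_lit 2905563117)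 (nat_lit 532) (nat_lit 2470684164) (nat_lit 76) (nat_lit 5116441094) (nat_lit 182) (nat_lit 5) (nat_lit 189) (nat_lit 5) (nat_lit 183) (nat_lit 5) (nat_lit 601) (nat_lit 513) (nat_lit 446)) (XT.nd (nat_lit 78) (nat_lit 380) (nat_lit 0) (XT.lf (nat_lit 0) (nat_lit 4838578916) (nat_lit 456) (nat_lit 1439513938) (nat_lit 532) (nat_lit 4326570492) (nat_lit 176) (nat_lit 5) (nat_lit 182) (nat_lit 5) (nat_lit 183) (nat_lit 5) (nat_lit 602) (nat_lit 513) (nat_lit 445)) (XT.lf (nat_lit 0) (nat_lit 1562579976) (nat_lit 380) (nat_lit 8165509024) (nat_lit 456) (nat_lit 990591754) (nat_lit 171) (nat_lit 5) (nat_lit 176) (nat_lit 5) (nat_lit 177) (nat_lit 5) (nat_lit 603) (nat_lit 513) (nat_lit 444)))) (XT.nd (nat_lit 78) (nat_lit 836) (nat_lit 0) (XT.lf (nat_lit 0) (nat_lit 2395522395) (nat_lit 456) (nat_lit 1793845512) (nat_lit 76) (nat_lit 6644999491) (nat_lit 170) (nat_lit 5) (nat_lit 176) (nat_lit 5) (nat_lit 171) (nat_lit 5) (nat_lit 604) (nat_lit 513) (nat_lit 443)) (XT.nd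 (nat_lit 78) (nat_lit 380) (nat_lit 0) (XT.lf (nat_lit 0) (nat_lit 5735126685) (nat_lit 456) (nat_lit 105440426) (nat_lit 532) (nat_lit 5111583326) (nat_lit 164) (nat_lit 5) (nat_lit 170) (nat_lit 5) (nat_lit 171) (nat_lit 5) (nat_lit 605) (nat_lit 513) (nat_lit 442)) (XT.lf (nat_lit 0) (nat_lit 2321545397) (nat_lit 380) (nat_lit 7053961538) (nat_lit 456) (nat_lit 1696365325) (nat_lit 159) (nat_lit 5) (nat_lit 164) (nat_lit 5) (nat_lit 165) (nat_lit 5) (nat_lit 606) (nat_lit 513) (nat_lit 441)))))) (XT.nd (nat_lit 468) (nat_lit 1748) (nat_lit 0) (XT.nd (nat_lit 234) (nat_lit 760) (nat_lit 0) (XT.nd (nat_lit 78) (nat_lit 760) (nat_lit 0) (XT.lf (nat_lit 0) (nat_lit 1767203101) (nat_lit 456) (nat_lit 1173734029) (nat_lit 76) (nat_lit 8252752510) (nat_lit 158) (nat_lit 5) (nat_lit 164) (nat_lit 5) (nat_lit 159) (nat_lit 5) (nat_lit 607) (nat_lit 513) (nat_lit 440)) (XT.nd (nat_lit 78) (nat_lit 380) (nat_lit 0) (XT.lf (nat_lit 0) (nat_lit 5296652524) (nat_lit 456) (nat_lit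 4744975025) (nat_lit 76) (nat_lit 1275707916) (nat_lit 153) (nat_lit 5) (nat_lit 159) (nat_lit 5) (nat_lit 154) (nat_lit 5) (nat_lit 608) (nat_lit 513) (nat_lit 439)) (XT.lf (nat_lit 0) (nat_lit 3017283753) (nat_lit 380) (nat_lit 5894786747) (nat_lit 456) (nat_lit 2531078890) (nat_lit 148) (nat_lit 5) (nat_lit 153) (nat_lit 5) (nat_lit 154) (nat_lit 5) (nat_lit 609) (nat_lit 513) (nat_lit 438)))) (XT.nd (nat_lit 78) (nat_lit 684) (nat_lit 0) (XT.lf (nat_lit 0) (nat_lit 1015362681) (nat_lit 456) (nat_lit 627474189) (nat_lit 76) (nat_lit 9928501223) (nat_lit 147) (nat_lit 5) (nat_lit 153) (nat_lit 5) (nat_lit 148) (nat_lit 5) (nat_lit 610) (nat_lit 513) (nat_lit 437)) (XT.nd (nat_lit 78) (nat_lit 304) (nat_lit 0) (XT.lf (nat_lit 0) (nat_lit 4633558664) (nat_lit 456) (nat_lit 4360488827) (nat_lit 76) (nat_lit 2707016753) (nat_lit 142) (nat_lit 5) (nat_lit 148) (nat_lit 5) (nat_lit 143) (nat_lit 5) (nat_lit 611) (nat_lit 513) (nat_lit 436)) (XT.lf (nat_lit 0) (nat_lit 3631832790)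 (nat_lit 304) (nat_lit 4700269038) (nat_lit 380) (nat_lit 3501125990) (nat_lit 138) (nat_lit 5) (nat_lit 142) (nat_lit 5) (nat_lit 143) (nat_lit 5) (nat_lit 612) (nat_lit 513) (nat_lit 435))))) (XT.nd (nat_lit 234) (nat_lit 988) (nat_lit 0) (XT.nd (nat_lit 78) (nat_lit 684) (nat_lit 0) (XT.lf (nat_lit 0) (nat_lit 133617743) (nat_lit 380) (nat_lit 173597377) (nat_lit 76) (nat_lit 11660827718) (nat_lit 137) (nat_lit 5) (nat_lit 142) (nat_lit 5) (nat_lit 138) (nat_lit 5) (nat_lit 613) (nat_lit 513) (nat_lit 434)) (XT.nd (nat_lit 78) (nat_lit 304) (nat_lit 0) (XT.lf (nat_lit 0) (nat_lit 3843945302) (nat_lit 456) (nat_lit 4082219605) (nat_lit 76) (nat_lit 4177933440) (nat_lit 132) (nat_lit 5) (nat_lit 138) (nat_lit 5) (nat_lit 133) (nat_lit 5) (nat_lit 614) (nat_lit 513) (nat_lit 433)) (XT.lf (nat_lit 0) (nat_lit 4145688954) (nat_lit 304) (nat_lit 3483060203) (nat_lit 380) (nat_lit 4614122783) (nat_lit 128) (nat_lit 5) (nat_lit 132) (nat_lit 5) (nat_lit 133) (nat_lit 5) (nat_lit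 615) (nat_lit 513) (nat_lit 432)))) (XT.nd (nat_lit 156) (nat_lit 608) (nat_lit 0) (XT.nd (nat_lit 78) (nat_lit 76) (nat_lit 0) (XT.lf (nat_lit 0) (nat_lit 157112758) (nat_lit 304) (nat_lit 11337853723) (nat_lit 380) (nat_lit 889342501) (nat_lit 124) (nat_lit 5) (nat_lit 128) (nat_lit 5) (nat_lit 129) (nat_lit 5) (nat_lit 616) (nat_lit 513) (nat_lit 431)) (XT.lf (nat_lit 0) (nat_lit 2919922002) (nat_lit 380) (nat_lit 3931210908) (nat_lit 76) (nat_lit 5676103167) (nat_lit 123) (nat_lit 5) (nat_lit 128) (nat_lit 5) (nat_lit 124) (nat_lit 5) (nat_lit 617) (nat_lit 513) (nat_lit 430))) (XT.nd (nat_lit 78) (nat_lit 304) (nat_lit 0) (XT.lf (nat_lit 0) (nat_lit 4537593183) (nat_lit 304) (nat_lit 2256313188) (nat_lit 380) (nat_lit 5878991103) (nat_lit 119) (nat_lit 5) (nat_lit 123) (nat_lit 5) (nat_lit 124) (nat_lit 5) (nat_lit 618) (nat_lit 513) (nat_lit 429)) (XT.lf (nat_lit 0) (nat_lit 349873658) (nat_lit 304) (nat_lit 10411227268) (nat_lit 380) (nat_lit 2060058709) (nat_lit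 115) (nat_lit 5) (nat_lit 119) (nat_lit 5) (nat_lit 120) (nat_lit 5) (nat_lit 619) (nat_lit 513) (nat_lit 428))))))))
noncomputable def xc67 : XT := (XT.nd (nat_lit 1950) (nat_lit 152) (nat_lit 0) (XT.nd (nat_lit 936) (nat_lit 2280) (nat_lit 0) (XT.nd (nat_lit 468) (nat_lit 912) (nat_lit 0) (XT.nd (nat_lit 234) (nat_lit 608) (nat_lit 0) (XT.nd (nat_lit 78) (nat_lit 608) (nat_lit 0) (XT.lf (nat_lit 0) (nat_lit 1852275025) (nat_lit 380) (nat_lit 3930437936) (nat_lit 76) (nat_lit 7188615982) (nat_lit 114) (nat_lit 5) (nat_lit 119) (nat_lit 5) (nat_lit 115) (nat_lit 5) (nat_lit 620) (nat_lit 513) (nat_lit 427)) (XT.nd (nat_lit 78) (nat_lit 304) (nat_lit 0) (XT.lf (nat_lit 0) (nat_lit 4784297477) (nat_lit 304) (nat_lit 1033823345) (nat_lit 380) (nat_lit 7306053508) (nat_lit 110) (nat_lit 5) (nat_lit 114) (nat_lit 5) (nat_lit 115) (nat_lit 5) (nat_lit 621) (nat_lit 513) (nat_lit 426)) (XT.lf (nat_lit 0) (nat_lit 380963728) (nat_lit 304) (nat_lit 9507983098) (nat_lit 380) (nat_lit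 3390618514) (nat_lit 106) (nat_lit 5) (nat_lit 110) (nat_lit 5) (nat_lit 111) (nat_lit 5) (nat_lit 622) (nat_lit 513) (nat_lit 425)))) (XT.nd (nat_lit 78) (nat_lit 532) (nat_lit 0) (XT.lf (nat_lit 0) (nat_lit 630366470) (nat_lit 380) (nat_lit 4105055455) (nat_lit 76) (nat_lit 8701862808) (nat_lit 105) (nat_lit 5) (nat_lit 110) (nat_lit 5) (nat_lit 106) (nat_lit 5) (nat_lit 623) (nat_lit 513) (nat_lit 424)) (XT.nd (nat_lit 78) (nat_lit 304) (nat_lit 0) (XT.lf (nat_lit 0) (nat_lit 4691591065) (nat_lit 304) (nat_lit 8738422422) (nat_lit 76) (nat_lit 167594249) (nat_lit 102) (nat_lit 5) (nat_lit 106) (nat_lit 5) (nat_lit 103) (nat_lit 5) (nat_lit 624) (nat_lit 513) (nat_lit 423)) (XT.lf (nat_lit 0) (nat_lit 223686916) (nat_lit 304) (nat_lit 8643545164) (nat_lit 380) (nat_lit 4893243113) (nat_lit 98) (nat_lit 5) (nat_lit 102) (nat_lit 5) (nat_lit 103) (nat_lit 5) (nat_lit 625) (nat_lit 513) (nat_lit 422))))) (XT.nd (nat_lit 234) (nat_lit 608) (nat_lit 0) (XT.nd (nat_lit 78)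 (nat_lit 304) (nat_lit 0) (XT.lf (nat_lit 0) (nat_lit 9438315542) (nat_lit 304) (nat_lit 3719602445) (nat_lit 380) (nat_lit 768053168) (nat_lit 98) (nat_lit 5) (nat_lit 102) (nat_lit 5) (nat_lit 103) (nat_lit 5) (nat_lit 626) (nat_lit 513) (nat_lit 421)) (XT.nd (nat_lit 78) (nat_lit 0) (nat_lit 0) (XT.lf (nat_lit 0) (nat_lit 3407229453) (nat_lit 304) (nat_lit 9365330240) (nat_lit 76) (nat_lit 1321518413) (nat_lit 94) (nat_lit 5) (nat_lit 98) (nat_lit 5) (nat_lit 95) (nat_lit 5) (nat_lit 627) (nat_lit 513) (nat_lit 420)) (XT.lf (nat_lit 0) (nat_lit 7684057457) (nat_lit 304) (nat_lit 149321661) (nat_lit 76) (nat_lit 6431501755) (nat_lit 94) (nat_lit 5) (nat_lit 98) (nat_lit 5) (nat_lit 95) (nat_lit 5) (nat_lit 628) (nat_lit 513) (nat_lit 419)))) (XT.nd (nat_lit 78) (nat_lit 304) (nat_lit 0) (XT.lf (nat_lit 0) (nat_lit 9329474115) (nat_lit 304) (nat_lit 2751410503) (nat_lit 380) (nat_lit 2357527485) (nat_lit 90) (nat_lit 5) (nat_lit 94) (nat_lit 5) (nat_lit 95) (nat_lit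 5) (nat_lit 629) (nat_lit 513) (nat_lit 418)) (XT.nd (nat_lit 78) (nat_lit 0) (nat_lit 0) (XT.lf (nat_lit 0) (nat_lit 1944037783) (nat_lit 304) (nat_lit 10245675843) (nat_lit 76) (nat_lit 2425061061) (nat_lit 86) (nat_lit 5) (nat_lit 90) (nat_lit 5) (nat_lit 87) (nat_lit 5) (nat_lit 630) (nat_lit 513) (nat_lit 417)) (XT.lf (nat_lit 0) (nat_lit 6326885493) (nat_lit 304) (nat_lit 766153481) (nat_lit 76) (nat_lit 7700779079) (nat_lit 86) (nat_lit 5) (nat_lit 90) (nat_lit 5) (nat_lit 87) (nat_lit 5) (nat_lit 631) (nat_lit 513) (nat_lit 416)))))) (XT.nd (nat_lit 468) (nat_lit 1216) (nat_lit 0) (XT.nd (nat_lit 234) (nat_lit 532) (nat_lit 0) (XT.nd (nat_lit 78) (nat_lit 304) (nat_lit 0) (XT.lf (nat_lit 0) (nat_lit 8977501881) (nat_lit 228) (nat_lit 1852741810) (nat_lit 304) (nat_lit 4145543057) (nat_lit 83) (nat_lit 5) (nat_lit 86) (nat_lit 5) (nat_lit 87) (nat_lit 5) (nat_lit 632) (nat_lit 513) (nat_lit 415)) (XT.nd (nat_lit 78) (nat_lit 0) (nat_lit 0) (XT.lf (nat_lit 0) (nat_lit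 285867950) (nat_lit 304) (nat_lit 11414471335) (nat_lit 76) (nat_lit 3460482280) (nat_lit 79) (nat_lit 5) (nat_lit 83) (nat_lit 5) (nat_lit 80) (nat_lit 5) (nat_lit 633) (nat_lit 513) (nat_lit 414)) (XT.lf (nat_lit 0) (nat_lit 4777958643) (nat_lit 304) (nat_lit 1664914143) (nat_lit 76) (nat_lit 8905586490) (nat_lit 79) (nat_lit 5) (nat_lit 83) (nat_lit 5) (nat_lit 80) (nat_lit 5) (nat_lit 634) (nat_lit 513) (nat_lit 413)))) (XT.nd (nat_lit 78) (nat_lit 304) (nat_lit 0) (XT.lf (nat_lit 0) (nat_lit 8346593275) (nat_lit 228) (nat_lit 1042705545) (nat_lit 304) (nat_lit 6149964185) (nat_lit 76) (nat_lit 5) (nat_lit 79) (nat_lit 5) (nat_lit 80) (nat_lit 5) (nat_lit 635) (nat_lit 513) (nat_lit 412)) (XT.nd (nat_lit 78) (nat_lit 76) (nat_lit 0) (XT.lf (nat_lit 0) (nat_lit 2812452371) (nat_lit 228) (nat_lit 11314226135) (nat_lit 304) (nat_lit 1606529435) (nat_lit 73) (nat_lit 5) (nat_lit 76) (nat_lit 5) (nat_lit 77) (nat_lit 5) (nat_lit 636) (nat_lit 513) (nat_lit 411)) (XT.lf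 (nat_lit 0) (nat_lit 3018914785) (nat_lit 304) (nat_lit 2884429323) (nat_lit 76) (nat_lit 10026678827) (nat_lit 72) (nat_lit 5) (nat_lit 76) (nat_lit 5) (nat_lit 73) (nat_lit 5) (nat_lit 637) (nat_lit 513) (nat_lit 410))))) (XT.nd (nat_lit 234) (nat_lit 684) (nat_lit 0) (XT.nd (nat_lit 78) (nat_lit 304) (nat_lit 0) (XT.lf (nat_lit 0) (nat_lit 7397180889) (nat_lit 228) (nat_lit 342065240) (nat_lit 304) (nat_lit 8390839230) (nat_lit 69) (nat_lit 5) (nat_lit 72) (nat_lit 5) (nat_lit 73) (nat_lit 5) (nat_lit 638) (nat_lit 513) (nat_lit 409)) (XT.nd (nat_lit 78) (nat_lit 76) (nat_lit 0) (XT.lf (nat_lit 0) (nat_lit 1533222463) (nat_lit 228) (nat_lit 11060741212) (nat_lit 304) (nat_lit 3739387049) (nat_lit 66) (nat_lit 5) (nat_lit 69) (nat_lit 5) (nat_lit 70) (nat_lit 5) (nat_lit 639) (nat_lit 513) (nat_lit 408)) (XT.lf (nat_lit 0) (nat_lit 1029142214) (nat_lit 304) (nat_lit 4467594248) (nat_lit 76) (nat_lit 11043071052) (nat_lit 65) (nat_lit 5) (nat_lit 69) (nat_lit 5) (nat_lit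 66) (nat_lit 5) (nat_lit 640) (nat_lit 513) (nat_lit 407)))) (XT.nd (nat_lit 156) (nat_lit 456) (nat_lit 0) (XT.nd (nat_lit 78) (nat_lit 0) (nat_lit 0) (XT.lf (nat_lit 0) (nat_lit 5860445729) (nat_lit 304) (nat_lit 10665544071) (nat_lit 76) (nat_lit 223561020) (nat_lit 62) (nat_lit 5) (nat_lit 66) (nat_lit 5) (nat_lit 63) (nat_lit 5) (nat_lit 641) (nat_lit 513) (nat_lit 406)) (XT.lf (nat_lit 0) (nat_lit 10831484221) (nat_lit 304) (nat_lit 133506934) (nat_lit 76) (nat_lit 5997636845) (nat_lit 62) (nat_lit 5) (nat_lit 66) (nat_lit 5) (nat_lit 63) (nat_lit 5) (nat_lit 642) (nat_lit 513) (nat_lit 405))) (XT.nd (nat_lit 78) (nat_lit 304) (nat_lit 0) (XT.lf (nat_lit 0) (nat_lit 10709216449) (nat_lit 152) (nat_lit 5239246827) (nat_lit 228) (nat_lit 1230574213) (nat_lit 60) (nat_lit 5) (nat_lit 62) (nat_lit 5) (nat_lit 63) (nat_lit 5) (nat_lit 643) (nat_lit 513) (nat_lit 404)) (XT.lf (nat_lit 0) (nat_lit 3728990052) (nat_lit 304) (nat_lit 13040154577) (nat_lit 76) (nat_lit 629934341)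 (nat_lit 56) (nat_lit 5) (nat_lit 60) (nat_lit 5) (nat_lit 57) (nat_lit 5) (nat_lit 644) (nat_lit 513) (nat_lit 403))))))) (XT.nd (nat_lit 73164) (nat_lit 0) (nat_lit 36252) (XT.nd (nat_lit 72696) (nat_lit 0) (nat_lit 47576) (XT.nd (nat_lit 72462) (nat_lit 0) (nat_lit 50084) (XT.nd (nat_lit 78) (nat_lit 152) (nat_lit 0) (XT.lf (nat_lit 0) (nat_lit 8826787424) (nat_lit 304) (nat_lit 2214368190) (nat_lit 76) (nat_lit 6581093694) (nat_lit 56) (nat_lit 5) (nat_lit 60) (nat_lit 5) (nat_lit 57) (nat_lit 5) (nat_lit 645) (nat_lit 513) (nat_lit 402)) (XT.nd (nat_lit 72306) (nat_lit 0) (nat_lit 51300) (XT.lf (nat_lit 0) (nat_lit 8904993068) (nat_lit 152) (nat_lit 5156917131) (nat_lit 228) (nat_lit 3787266538) (nat_lit 54) (nat_lit 5) (nat_lit 56) (nat_lit 5) (nat_lit 57) (nat_lit 5) (nat_lit 646) (nat_lit 513) (nat_lit 401)) (XT.lf (nat_lit 0) (nat_lit 701020772) (nat_lit 532) (nat_lit 1853572326) (nat_lit 0) (nat_lit 701020772) (nat_lit 729) (nat_lit 5) (nat_lit 736) (nat_lit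 4) (nat_lit 729) (nat_lit 4) (nat_lit 532) (nat_lit 514) (nat_lit 514)))) (XT.nd (nat_lit 78) (nat_lit 684) (nat_lit 0) (XT.lf (nat_lit 0) (nat_lit 63434767) (nat_lit 532) (nat_lit 4531452390) (nat_lit 532) (nat_lit 1928563453) (nat_lit 722) (nat_lit 4) (nat_lit 729) (nat_lit 5) (nat_lit 729) (nat_lit 4) (nat_lit 533) (nat_lit 514) (nat_lit 513)) (XT.nd (nat_lit 78) (nat_lit 608) (nat_lit 0) (XT.lf (nat_lit 0) (nat_lit 1246784102) (nat_lit 608) (nat_lit 2636236948) (nat_lit 76) (nat_lit 2653779211) (nat_lit 721) (nat_lit 5) (nat_lit 729) (nat_lit 5) (nat_lit 722) (nat_lit 4) (nat_lit 534) (nat_lit 514) (nat_lit 512)) (XT.lf (nat_lit 0) (nat_lit 1216427992) (nat_lit 608) (nat_lit 3176138549) (nat_lit 684) (nat_lit 2158960501) (nat_lit 713) (nat_lit 5) (nat_lit 721) (nat_lit 5) (nat_lit 722) (nat_lit 4) (nat_lit 535) (nat_lit 514) (nat_lit 511))))) (XT.nd (nat_lit 234) (nat_lit 1672) (nat_lit 0) (XT.nd (nat_lit 78) (nat_lit 760) (nat_lit 0) (XT.lf (nat_lit 0) (nat_lit 964419644)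 (nat_lit 684) (nat_lit 1442595743) (nat_lit 76) (nat_lit 4160552472) (nat_lit 712) (nat_lit 5) (nat_lit 721) (nat_lit 5) (nat_lit 713) (nat_lit 5) (nat_lit 536) (nat_lit 514) (nat_lit 510)) (XT.nd (nat_lit 78) (nat_lit 76) (nat_lit 0) (XT.lf (nat_lit 0) (nat_lit 2495753812) (nat_lit 684) (nat_lit 1568763827) (nat_lit 760) (nat_lit 2520282223) (nat_lit 703) (nat_lit 5) (nat_lit 712) (nat_lit 5) (nat_lit 713) (nat_lit 5) (nat_lit 537) (nat_lit 514) (nat_lit 509)) (XT.lf (nat_lit 0) (nat_lit 553338892) (nat_lit 760) (nat_lit 124962540) (nat_lit 76) (nat_lit 5925266540) (nat_lit 702) (nat_lit 5) (nat_lit 712) (nat_lit 5) (nat_lit 703) (nat_lit 5) (nat_lit 538) (nat_lit 514) (nat_lit 508)))) (XT.nd (nat_lit 78) (nat_lit 912) (nat_lit 0) (XT.lf (nat_lit 0) (nat_lit 3610925482) (nat_lit 836) (nat_lit 2722404834) (nat_lit 76) (nat_lit 289941021) (nat_lit 692) (nat_lit 5) (nat_lit 703) (nat_lit 5) (nat_lit 693) (nat_lit 5) (nat_lit 539) (nat_lit 514) (nat_lit 507)) (XT.nd (nat_lit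 78) (nat_lit 0) (nat_lit 0) (XT.lf (nat_lit 0) (nat_lit 28890879) (nat_lit 912) (nat_lit 5317536305) (nat_lit 76) (nat_lit 1298072999) (nat_lit 680) (nat_lit 5) (nat_lit 692) (nat_lit 5) (nat_lit 681) (nat_lit 5) (nat_lit 540) (nat_lit 514) (nat_lit 506)) (XT.lf (nat_lit 0) (nat_lit 3039772423) (nat_lit 912) (nat_lit 1243540116) (nat_lit 76) (nat_lit 2383476564) (nat_lit 680) (nat_lit 5) (nat_lit 692) (nat_lit 5) (nat_lit 681) (nat_lit 5) (nat_lit 541) (nat_lit 514) (nat_lit 505)))))) (XT.nd (nat_lit 468) (nat_lit 6992) (nat_lit 0) (XT.nd (nat_lit 234) (nat_lit 2356) (nat_lit 0) (XT.nd (nat_lit 78) (nat_lit 1064) (nat_lit 0) (XT.lf (nat_lit 0) (nat_lit 2899071101) (nat_lit 912) (nat_lit 3162709390) (nat_lit 988) (nat_lit 628741636) (nat_lit 668) (nat_lit 5) (nat_lit 680) (nat_lit 5) (nat_lit 681) (nat_lit 5) (nat_lit 542) (nat_lit 514) (nat_lit 504)) (XT.nd (nat_lit 78) (nat_lit 0) (nat_lit 0) (XT.lf (nat_lit 0) (nat_lit 364313876) (nat_lit 988) (nat_lit 1976717698) (nat_lit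 1064) (nat_lit 4374530705) (nat_lit 654) (nat_lit 5) (nat_lit 667) (nat_lit 5) (nat_lit 668) (nat_lit 5) (nat_lit 543) (nat_lit 514) (nat_lit 503)) (XT.lf (nat_lit 0) (nat_lit 4599244458) (nat_lit 988) (nat_lit 721579629) (nat_lit 1064) (nat_lit 1421030728) (nat_lit 654) (nat_lit 5) (nat_lit 667) (nat_lit 5) (nat_lit 668) (nat_lit 5) (nat_lit 544) (nat_lit 514) (nat_lit 502)))) (XT.nd (nat_lit 78) (nat_lit 1216) (nat_lit 0) (XT.lf (nat_lit 0) (nat_lit 1522764436) (nat_lit 1140) (nat_lit 4656778913) (nat_lit 76) (nat_lit 589896163) (nat_lit 639) (nat_lit 5) (nat_lit 654) (nat_lit 5) (nat_lit 640) (nat_lit 5) (nat_lit 545) (nat_lit 514) (nat_lit 501)) (XT.nd (nat_lit 78) (nat_lit 1216) (nat_lit 0) (XT.lf (nat_lit 0) (nat_lit 4461198776) (nat_lit 1140) (nat_lit 381560947) (nat_lit 76) (nat_lit 1955547161) (nat_lit 639) (nat_lit 5) (nat_lit 654) (nat_lit 5) (nat_lit 640) (nat_lit 5) (nat_lit 546) (nat_lit 514) (nat_lit 500)) (XT.lf (nat_lit 0) (nat_lit 584745729) (nat_lit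 1216) (nat_lit 2852044060) (nat_lit 76) (nat_lit 3391646677) (nat_lit 623) (nat_lit 5) (nat_lit 639) (nat_lit 5) (nat_lit 624) (nat_lit 5) (nat_lit 547) (nat_lit 514) (nat_lit 499))))) (XT.nd (nat_lit 234) (nat_lit 4408) (nat_lit 0) (XT.nd (nat_lit 78) (nat_lit 1368) (nat_lit 0) (XT.lf (nat_lit 0) (nat_lit 1520446781) (nat_lit 1216) (nat_lit 1963043595) (nat_lit 1292) (nat_lit 3376388156) (nat_lit 607) (nat_lit 5) (nat_lit 623) (nat_lit 5) (nat_lit 624) (nat_lit 5) (nat_lit 548) (nat_lit 514) (nat_lit 498)) (XT.nd (nat_lit 78) (nat_lit 1368) (nat_lit 0) (XT.lf (nat_lit 0) (nat_lit 5967827638) (nat_lit 1216) (nat_lit 429687632) (nat_lit 1292) (nat_lit 495301603) (nat_lit 607) (nat_lit 5) (nat_lit 623) (nat_lit 5) (nat_lit 624) (nat_lit 5) (nat_lit 549) (nat_lit 514) (nat_lit 497)) (XT.lf (nat_lit 0) (nat_lit 2381110856) (nat_lit 1368) (nat_lit 3377060987) (nat_lit 76) (nat_lit 1168542869) (nat_lit 589) (nat_lit 5) (nat_lit 607) (nat_lit 5) (nat_lit 590) (nat_lit 5) (nat_lit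 550) (nat_lit 514) (nat_lit 496)))) (XT.nd (nat_lit 156) (nat_lit 2964) (nat_lit 0) (XT.nd (nat_lit 78) (nat_lit 76) (nat_lit 0) (XT.lf (nat_lit 0) (nat_lit 1121724796) (nat_lit 1368) (nat_lit 4142971256) (nat_lit 1444) (nat_lit 1697416207) (nat_lit 571) (nat_lit 5) (nat_lit 589) (nat_lit 5) (nat_lit 590) (nat_lit 5) (nat_lit 551) (nat_lit 514) (nat_lit 495)) (XT.lf (nat_lit 0) (nat_lit 1155039439) (nat_lit 1444) (nat_lit 1301937620) (nat_lit 76) (nat_lit 4541833254) (nat_lit 570) (nat_lit 5) (nat_lit 589) (nat_lit 5) (nat_lit 571) (nat_lit 5) (nat_lit 552) (nat_lit 514) (nat_lit 494))) (XT.nd (nat_lit 78) (nat_lit 1520) (nat_lit 0) (XT.lf (nat_lit 0) (nat_lit 3308008659) (nat_lit 1444) (nat_lit 696808101) (nat_lit 1520) (nat_lit 3031953173) (nat_lit 551) (nat_lit 5) (nat_lit 570) (nat_lit 5) (nat_lit 571) (nat_lit 5) (nat_lit 553) (nat_lit 514) (nat_lit 493)) (XT.lf (nat_lit 0) (nat_lit 904878562) (nat_lit 1520) (nat_lit 5970873493) (nat_lit 1596) (nat_lit 200465231)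 (nat_lit 531) (nat_lit 5) (nat_lit 551) (nat_lit 5) (nat_lit 552) (nat_lit 5) (nat_lit 554) (nat_lit 514) (nat_lit 492))))))))
noncomputable def xc68 : XT := (XT.nd (nat_lit 1950) (nat_lit 9576) (nat_lit 0) (XT.nd (nat_lit 936) (nat_lit 7144) (nat_lit 0) (XT.nd (nat_lit 468) (nat_lit 3800) (nat_lit 0) (XT.nd (nat_lit 234) (nat_lit 3496) (nat_lit 0) (XT.nd (nat_lit 78) (nat_lit 3344) (nat_lit 0) (XT.lf (nat_lit 0) (nat_lit 2624970979) (nat_lit 1596) (nat_lit 1509162499) (nat_lit 76) (nat_lit 2982531084) (nat_lit 530) (nat_lit 5) (nat_lit 551) (nat_lit 5) (nat_lit 531) (nat_lit 5) (nat_lit 555) (nat_lit 514) (nat_lit 491)) (XT.nd (nat_lit 78) (nat_lit 1748) (nat_lit 0) (XT.lf (nat_lit 0) (nat_lit 3235685344) (nat_lit 1596) (nat_lit 2233444587) (nat_lit 1672) (nat_lit 1689477495) (nat_lit 509) (nat_lit 5) (nat_lit 530) (nat_lit 5) (nat_lit 531) (nat_lit 5) (nat_lit 556) (nat_lit 514) (nat_lit 490)) (XT.lf (nat_lit 0) (nat_lit 846049025) (nat_lit 1672) (nat_lit 267369698)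 (nat_lit 1748) (nat_lit 6088630038) (nat_lit 486) (nat_lit 5) (nat_lit 508) (nat_lit 5) (nat_lit 509) (nat_lit 5) (nat_lit 557) (nat_lit 514) (nat_lit 489)))) (XT.nd (nat_lit 78) (nat_lit 3496) (nat_lit 0) (XT.lf (nat_lit 0) (nat_lit 3932610196) (nat_lit 1748) (nat_lit 1557784061) (nat_lit 76) (nat_lit 1756094597) (nat_lit 486) (nat_lit 5) (nat_lit 509) (nat_lit 5) (nat_lit 487) (nat_lit 5) (nat_lit 558) (nat_lit 514) (nat_lit 488)) (XT.nd (nat_lit 78) (nat_lit 1748) (nat_lit 0) (XT.lf (nat_lit 0) (nat_lit 3326408497) (nat_lit 1748) (nat_lit 3451276923) (nat_lit 1824) (nat_lit 514752591) (nat_lit 463) (nat_lit 5) (nat_lit 486) (nat_lit 5) (nat_lit 487) (nat_lit 5) (nat_lit 559) (nat_lit 514) (nat_lit 487)) (XT.lf (nat_lit 0) (nat_lit 935080274) (nat_lit 1672) (nat_lit 1337667446) (nat_lit 1748) (nat_lit 5067002673) (nat_lit 440) (nat_lit 5) (nat_lit 462) (nat_lit 5) (nat_lit 463) (nat_lit 5) (nat_lit 560) (nat_lit 514) (nat_lit 486))))) (XT.nd (nat_lit 234) (nat_lit 1824)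 (nat_lit 0) (XT.nd (nat_lit 78) (nat_lit 1976) (nat_lit 0) (XT.lf (nat_lit 0) (nat_lit 5088424994) (nat_lit 1748) (nat_lit 1461352566) (nat_lit 76) (nat_lit 838586693) (nat_lit 440) (nat_lit 5) (nat_lit 463) (nat_lit 5) (nat_lit 441) (nat_lit 5) (nat_lit 561) (nat_lit 514) (nat_lit 485)) (XT.nd (nat_lit 78) (nat_lit 912) (nat_lit 0) (XT.lf (nat_lit 0) (nat_lit 495735491) (nat_lit 1064) (nat_lit 3874776487) (nat_lit 76) (nat_lit 3067777416) (nat_lit 426) (nat_lit 5) (nat_lit 440) (nat_lit 5) (nat_lit 427) (nat_lit 5) (nat_lit 562) (nat_lit 514) (nat_lit 484)) (XT.lf (nat_lit 0) (nat_lit 1167418621) (nat_lit 912) (nat_lit 2115166663) (nat_lit 988) (nat_lit 4207011661) (nat_lit 414) (nat_lit 5) (nat_lit 426) (nat_lit 5) (nat_lit 427) (nat_lit 5) (nat_lit 563) (nat_lit 514) (nat_lit 483)))) (XT.nd (nat_lit 78) (nat_lit 1824) (nat_lit 0) (XT.lf (nat_lit 0) (nat_lit 6101790544) (nat_lit 988) (nat_lit 1232740835) (nat_lit 76) (nat_lit 207875831) (nat_lit 414) (nat_lit 5) (nat_lit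 427) (nat_lit 5) (nat_lit 415) (nat_lit 5) (nat_lit 564) (nat_lit 514) (nat_lit 482)) (XT.nd (nat_lit 78) (nat_lit 836) (nat_lit 0) (XT.lf (nat_lit 0) (nat_lit 1352770488) (nat_lit 988) (nat_lit 3661075475) (nat_lit 76) (nat_lit 2582461407) (nat_lit 401) (nat_lit 5) (nat_lit 414) (nat_lit 5) (nat_lit 402) (nat_lit 5) (nat_lit 565) (nat_lit 514) (nat_lit 481)) (XT.lf (nat_lit 0) (nat_lit 1530407865) (nat_lit 836) (nat_lit 2621153217) (nat_lit 912) (nat_lit 3500165911) (nat_lit 390) (nat_lit 5) (nat_lit 401) (nat_lit 5) (nat_lit 402) (nat_lit 5) (nat_lit 566) (nat_lit 514) (nat_lit 480)))))) (XT.nd (nat_lit 468) (nat_lit 3800) (nat_lit 0) (XT.nd (nat_lit 234) (nat_lit 1672) (nat_lit 0) (XT.nd (nat_lit 78) (nat_lit 1672) (nat_lit 0) (XT.lf (nat_lit 0) (nat_lit 6823468746) (nat_lit 836) (nat_lit 158603354) (nat_lit 912) (nat_lit 726676269) (nat_lit 390) (nat_lit 5) (nat_lit 401) (nat_lit 5) (nat_lit 402) (nat_lit 5) (nat_lit 567) (nat_lit 514) (nat_lit 479)) (XT.nd (nat_lit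 78) (nat_lit 760) (nat_lit 0) (XT.lf (nat_lit 0) (nat_lit 2070942886) (nat_lit 912) (nat_lit 3333903688) (nat_lit 76) (nat_lit 2361873912) (nat_lit 378) (nat_lit 5) (nat_lit 390) (nat_lit 5) (nat_lit 379) (nat_lit 5) (nat_lit 568) (nat_lit 514) (nat_lit 478)) (XT.lf (nat_lit 0) (nat_lit 2011919456) (nat_lit 760) (nat_lit 2875365532) (nat_lit 836) (nat_lit 2939028753) (nat_lit 368) (nat_lit 5) (nat_lit 378) (nat_lit 5) (nat_lit 379) (nat_lit 5) (nat_lit 569) (nat_lit 514) (nat_lit 477)))) (XT.nd (nat_lit 78) (nat_lit 1672) (nat_lit 0) (XT.lf (nat_lit 0) (nat_lit 7458086591) (nat_lit 760) (nat_lit 277235421) (nat_lit 836) (nat_lit 152277111) (nat_lit 368) (nat_lit 5) (nat_lit 378) (nat_lit 5) (nat_lit 379) (nat_lit 5) (nat_lit 570) (nat_lit 514) (nat_lit 476)) (XT.nd (nat_lit 78) (nat_lit 760) (nat_lit 0) (XT.lf (nat_lit 0) (nat_lit 2657095767) (nat_lit 912) (nat_lit 2905148530) (nat_lit 76) (nat_lit 2387480538) (nat_lit 356) (nat_lit 5) (nat_lit 368) (nat_lit 5) (nat_lit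 357) (nat_lit 5) (nat_lit 571) (nat_lit 514) (nat_lit 475)) (XT.lf (nat_lit 0) (nat_lit 2600247863) (nat_lit 760) (nat_lit 2896140420) (nat_lit 836) (nat_lit 2517176407) (nat_lit 346) (nat_lit 5) (nat_lit 356) (nat_lit 5) (nat_lit 357) (nat_lit 5) (nat_lit 572) (nat_lit 514) (nat_lit 474))))) (XT.nd (nat_lit 234) (nat_lit 2280) (nat_lit 0) (XT.nd (nat_lit 78) (nat_lit 684) (nat_lit 0) (XT.lf (nat_lit 0) (nat_lit 124105877) (nat_lit 760) (nat_lit 160400686) (nat_lit 836) (nat_lit 7794644207) (nat_lit 335) (nat_lit 5) (nat_lit 345) (nat_lit 5) (nat_lit 346) (nat_lit 5) (nat_lit 573) (nat_lit 514) (nat_lit 473)) (XT.nd (nat_lit 78) (nat_lit 684) (nat_lit 0) (XT.lf (nat_lit 0) (nat_lit 3117112252) (nat_lit 836) (nat_lit 2386368762) (nat_lit 76) (nat_lit 2642069676) (nat_lit 335) (nat_lit 5) (nat_lit 346) (nat_lit 5) (nat_lit 336) (nat_lit 5) (nat_lit 574) (nat_lit 514) (nat_lit 472)) (XT.lf (nat_lit 0) (nat_lit 3284006603) (nat_lit 684) (nat_lit 2700551297) (nat_lit 760)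 (nat_lit 2229163591) (nat_lit 326) (nat_lit 5) (nat_lit 335) (nat_lit 5) (nat_lit 336) (nat_lit 5) (nat_lit 575) (nat_lit 514) (nat_lit 471)))) (XT.nd (nat_lit 156) (nat_lit 1444) (nat_lit 0) (XT.nd (nat_lit 78) (nat_lit 0) (nat_lit 0) (XT.lf (nat_lit 0) (nat_lit 596197491) (nat_lit 836) (nat_lit 7513568676) (nat_lit 76) (nat_lit 173848376) (nat_lit 315) (nat_lit 5) (nat_lit 326) (nat_lit 5) (nat_lit 316) (nat_lit 5) (nat_lit 576) (nat_lit 514) (nat_lit 470)) (XT.lf (nat_lit 0) (nat_lit 3455945003) (nat_lit 836) (nat_lit 1788897783) (nat_lit 76) (nat_lit 3109619677) (nat_lit 315) (nat_lit 5) (nat_lit 326) (nat_lit 5) (nat_lit 316) (nat_lit 5) (nat_lit 577) (nat_lit 514) (nat_lit 469))) (XT.nd (nat_lit 78) (nat_lit 760) (nat_lit 0) (XT.lf (nat_lit 0) (nat_lit 4052024092) (nat_lit 684) (nat_lit 2304539741) (nat_lit 760) (nat_lit 2070496114) (nat_lit 306) (nat_lit 5) (nat_lit 315) (nat_lit 5) (nat_lit 316) (nat_lit 5) (nat_lit 578) (nat_lit 514) (nat_lit 468)) (XT.lf (nat_lit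 0) (nat_lit 787421012) (nat_lit 760) (nat_lit 7010271595) (nat_lit 76) (nat_lit 703636710) (nat_lit 296) (nat_lit 5) (nat_lit 306) (nat_lit 5) (nat_lit 297) (nat_lit 5) (nat_lit 579) (nat_lit 514) (nat_lit 467))))))) (XT.nd (nat_lit 936) (nat_lit 4560) (nat_lit 0) (XT.nd (nat_lit 468) (nat_lit 2356) (nat_lit 0) (XT.nd (nat_lit 234) (nat_lit 1292) (nat_lit 0) (XT.nd (nat_lit 78) (nat_lit 1368) (nat_lit 0) (XT.lf (nat_lit 0) (nat_lit 3677638930) (nat_lit 760) (nat_lit 1123947748) (nat_lit 76) (nat_lit 3775172127) (nat_lit 296) (nat_lit 5) (nat_lit 306) (nat_lit 5) (nat_lit 297) (nat_lit 5) (nat_lit 580) (nat_lit 514) (nat_lit 466)) (XT.nd (nat_lit 78) (nat_lit 760) (nat_lit 0) (XT.lf (nat_lit 0) (nat_lit 4893238466) (nat_lit 608) (nat_lit 1723041324) (nat_lit 684) (nat_lit 2037610387) (nat_lit 288) (nat_lit 5) (nat_lit 296) (nat_lit 5) (nat_lit 297) (nat_lit 5) (nat_lit 581) (nat_lit 514) (nat_lit 465)) (XT.lf (nat_lit 0) (nat_lit 860382625) (nat_lit 760) (nat_lit 6455591010)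 (nat_lit 76) (nat_lit 1416665379) (nat_lit 278) (nat_lit 5) (nat_lit 288) (nat_lit 5) (nat_lit 279) (nat_lit 5) (nat_lit 582) (nat_lit 514) (nat_lit 464)))) (XT.nd (nat_lit 78) (nat_lit 1292) (nat_lit 0) (XT.lf (nat_lit 0) (nat_lit 3785347173) (nat_lit 760) (nat_lit 402715416) (nat_lit 76) (nat_lit 4624710300) (nat_lit 278) (nat_lit 5) (nat_lit 288) (nat_lit 5) (nat_lit 279) (nat_lit 5) (nat_lit 583) (nat_lit 514) (nat_lit 463)) (XT.nd (nat_lit 78) (nat_lit 684) (nat_lit 0) (XT.lf (nat_lit 0) (nat_lit 5796590484) (nat_lit 608) (nat_lit 970106649) (nat_lit 684) (nat_lit 2127859820) (nat_lit 270) (nat_lit 5) (nat_lit 278) (nat_lit 5) (nat_lit 279) (nat_lit 5) (nat_lit 584) (nat_lit 514) (nat_lit 462)) (XT.lf (nat_lit 0) (nat_lit 817438399) (nat_lit 684) (nat_lit 5861085770) (nat_lit 76) (nat_lit 2299377367) (nat_lit 261) (nat_lit 5) (nat_lit 270) (nat_lit 5) (nat_lit 262) (nat_lit 5) (nat_lit 585) (nat_lit 514) (nat_lit 461))))) (XT.nd (nat_lit 234) (nat_lit 1140) (nat_lit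 0) (XT.nd (nat_lit 78) (nat_lit 684) (nat_lit 0) (XT.lf (nat_lit 0) (nat_lit 368340242) (nat_lit 532) (nat_lit 3415391599) (nat_lit 608) (nat_lit 5279093175) (nat_lit 254) (nat_lit 5) (nat_lit 261) (nat_lit 5) (nat_lit 262) (nat_lit 5) (nat_lit 586) (nat_lit 514) (nat_lit 460)) (XT.nd (nat_lit 78) (nat_lit 684) (nat_lit 0) (XT.lf (nat_lit 0) (nat_lit 6750913590) (nat_lit 532) (nat_lit 59018462) (nat_lit 608) (nat_lit 2339508128) (nat_lit 254) (nat_lit 5) (nat_lit 261) (nat_lit 5) (nat_lit 262) (nat_lit 5) (nat_lit 587) (nat_lit 514) (nat_lit 459)) (XT.lf (nat_lit 0) (nat_lit 660057316) (nat_lit 684) (nat_lit 5238506607) (nat_lit 76) (nat_lit 3338946220) (nat_lit 245) (nat_lit 5) (nat_lit 254) (nat_lit 5) (nat_lit 246) (nat_lit 5) (nat_lit 588) (nat_lit 514) (nat_lit 458)))) (XT.nd (nat_lit 78) (nat_lit 608) (nat_lit 0) (XT.lf (nat_lit 0) (nat_lit 1178690526) (nat_lit 532) (nat_lit 2495971216) (nat_lit 608) (nat_lit 5652647561) (nat_lit 238) (nat_lit 5) (nat_lit 245) (nat_lit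 5) (nat_lit 246) (nat_lit 5) (nat_lit 589) (nat_lit 514) (nat_lit 457)) (XT.nd (nat_lit 78) (nat_lit 608) (nat_lit 0) (XT.lf (nat_lit 0) (nat_lit 6753702981) (nat_lit 608) (nat_lit 1680612419) (nat_lit 76) (nat_lit 984510620) (nat_lit 238) (nat_lit 5) (nat_lit 246) (nat_lit 5) (nat_lit 239) (nat_lit 5) (nat_lit 590) (nat_lit 514) (nat_lit 456)) (XT.lf (nat_lit 0) (nat_lit 388818126) (nat_lit 608) (nat_lit 4599912315) (nat_lit 76) (nat_lit 4523163738) (nat_lit 230) (nat_lit 5) (nat_lit 238) (nat_lit 5) (nat_lit 231) (nat_lit 5) (nat_lit 591) (nat_lit 514) (nat_lit 455)))))) (XT.nd (nat_lit 468) (nat_lit 2432) (nat_lit 0) (XT.nd (nat_lit 234) (nat_lit 988) (nat_lit 0) (XT.nd (nat_lit 78) (nat_lit 608) (nat_lit 0) (XT.lf (nat_lit 0) (nat_lit 2011009997) (nat_lit 532) (nat_lit 1444905603) (nat_lit 608) (nat_lit 6150804709) (nat_lit 223) (nat_lit 5) (nat_lit 230) (nat_lit 5) (nat_lit 231) (nat_lit 5) (nat_lit 592) (nat_lit 514) (nat_lit 454)) (XT.nd (nat_lit 78) (nat_lit 608)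 (nat_lit 0) (XT.lf (nat_lit 0) (nat_lit 6593142411) (nat_lit 608) (nat_lit 951175959) (nat_lit 76) (nat_lit 2158952973) (nat_lit 223) (nat_lit 5) (nat_lit 231) (nat_lit 5) (nat_lit 224) (nat_lit 5) (nat_lit 593) (nat_lit 514) (nat_lit 453)) (XT.lf (nat_lit 0) (nat_lit 3399146) (nat_lit 608) (nat_lit 3957791309) (nat_lit 76) (nat_lit 5840329521) (nat_lit 215) (nat_lit 5) (nat_lit 223) (nat_lit 5) (nat_lit 216) (nat_lit 5) (nat_lit 594) (nat_lit 514) (nat_lit 452)))) (XT.nd (nat_lit 78) (nat_lit 532) (nat_lit 0) (XT.lf (nat_lit 0) (nat_lit 2852875407) (nat_lit 456) (nat_lit 274147090) (nat_lit 532) (nat_lit 6774514429) (nat_lit 209) (nat_lit 5) (nat_lit 215) (nat_lit 5) (nat_lit 216) (nat_lit 5) (nat_lit 595) (nat_lit 514) (nat_lit 451)) (XT.nd (nat_lit 78) (nat_lit 532) (nat_lit 0) (XT.lf (nat_lit 0) (nat_lit 6327256309) (nat_lit 532) (nat_lit 222439453) (nat_lit 76) (nat_lit 3453579503) (nat_lit 209) (nat_lit 5) (nat_lit 216) (nat_lit 5) (nat_lit 210) (nat_lit 5) (nat_lit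 596) (nat_lit 514) (nat_lit 450)) (XT.lf (nat_lit 0) (nat_lit 6778364180) (nat_lit 532) (nat_lit 2824412350) (nat_lit 608) (nat_lit 504049946) (nat_lit 202) (nat_lit 5) (nat_lit 209) (nat_lit 5) (nat_lit 210) (nat_lit 5) (nat_lit 597) (nat_lit 514) (nat_lit 449))))) (XT.nd (nat_lit 234) (nat_lit 1444) (nat_lit 0) (XT.nd (nat_lit 78) (nat_lit 456) (nat_lit 0) (XT.lf (nat_lit 0) (nat_lit 2693115802) (nat_lit 532) (nat_lit 6527516358) (nat_lit 76) (nat_lit 991513876) (nat_lit 195) (nat_lit 5) (nat_lit 202) (nat_lit 5) (nat_lit 196) (nat_lit 5) (nat_lit 598) (nat_lit 514) (nat_lit 448)) (XT.nd (nat_lit 78) (nat_lit 0) (nat_lit 0) (XT.lf (nat_lit 0) (nat_lit 498898513) (nat_lit 456) (nat_lit 5458860279) (nat_lit 532) (nat_lit 4361544417) (nat_lit 189) (nat_lit 5) (nat_lit 195) (nat_lit 5) (nat_lit 196) (nat_lit 5) (nat_lit 599) (nat_lit 514) (nat_lit 447)) (XT.lf (nat_lit 0) (nat_lit 7705218766) (nat_lit 456) (nat_lit 1592479045) (nat_lit 532) (nat_lit 1130709106) (nat_lit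 189) (nat_lit 5) (nat_lit 195) (nat_lit 5) (nat_lit 196) (nat_lit 5) (nat_lit 600) (nat_lit 514) (nat_lit 446)))) (XT.nd (nat_lit 156) (nat_lit 456) (nat_lit 0) (XT.nd (nat_lit 78) (nat_lit 456) (nat_lit 0) (XT.lf (nat_lit 0) (nat_lit 2147744155) (nat_lit 532) (nat_lit 6042438881) (nat_lit 76) (nat_lit 2349004037) (nat_lit 182) (nat_lit 5) (nat_lit 189) (nat_lit 5) (nat_lit 183) (nat_lit 5) (nat_lit 601) (nat_lit 514) (nat_lit 445)) (XT.lf (nat_lit 0) (nat_lit 1194860990) (nat_lit 456) (nat_lit 4285360298) (nat_lit 532) (nat_lit 5171743420) (nat_lit 176) (nat_lit 5) (nat_lit 182) (nat_lit 5) (nat_lit 183) (nat_lit 5) (nat_lit 602) (nat_lit 514) (nat_lit 444))) (XT.nd (nat_lit 78) (nat_lit 456) (nat_lit 0) (XT.lf (nat_lit 0) (nat_lit 8610301095) (nat_lit 456) (nat_lit 276810970) (nat_lit 532) (nat_lit 1879733738) (nat_lit 176) (nat_lit 5) (nat_lit 182) (nat_lit 5) (nat_lit 183) (nat_lit 5) (nat_lit 603) (nat_lit 514) (nat_lit 443)) (XT.lf (nat_lit 0) (nat_lit 1485736765)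 (nat_lit 456) (nat_lit 5606763346) (nat_lit 76) (nat_lit 3790795408) (nat_lit 170) (nat_lit 5) (nat_lit 176) (nat_lit 5) (nat_lit 171) (nat_lit 5) (nat_lit 604) (nat_lit 514) (nat_lit 442))))))))
noncomputable def xc69 : XT := (XT.nd (nat_lit 1950) (nat_lit 2736) (nat_lit 0) (XT.nd (nat_lit 936) (nat_lit 2888) (nat_lit 0) (XT.nd (nat_lit 468) (nat_lit 1520) (nat_lit 0) (XT.nd (nat_lit 234) (nat_lit 760) (nat_lit 0) (XT.nd (nat_lit 78) (nat_lit 456) (nat_lit 0) (XT.lf (nat_lit 0) (nat_lit 1847348271) (nat_lit 456) (nat_lit 3042283419) (nat_lit 532) (nat_lit 6112271353) (nat_lit 164) (nat_lit 5) (nat_lit 170) (nat_lit 5) (nat_lit 171) (nat_lit 5) (nat_lit 605) (nat_lit 514) (nat_lit 441)) (XT.nd (nat_lit 78) (nat_lit 456) (nat_lit 0) (XT.lf (nat_lit 0) (nat_lit 8374629047) (nat_lit 532) (nat_lit 1651344534) (nat_lit 76) (nat_lit 1096651594) (nat_lit 164) (nat_lit 5) (nat_lit 171) (nat_lit 5) (nat_lit 165) (nat_lit 5) (nat_lit 606) (nat_lit 514) (nat_lit 440)) (XT.lf (nat_lit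 0) (nat_lit 702677186) (nat_lit 456) (nat_lit 5236672154) (nat_lit 76) (nat_lit 5305764925) (nat_lit 158) (nat_lit 5) (nat_lit 164) (nat_lit 5) (nat_lit 159) (nat_lit 5) (nat_lit 607) (nat_lit 514) (nat_lit 439)))) (XT.nd (nat_lit 78) (nat_lit 380) (nat_lit 0) (XT.lf (nat_lit 0) (nat_lit 2440114456) (nat_lit 380) (nat_lit 1741291940) (nat_lit 456) (nat_lit 7188369470) (nat_lit 153) (nat_lit 5) (nat_lit 158) (nat_lit 5) (nat_lit 159) (nat_lit 5) (nat_lit 608) (nat_lit 514) (nat_lit 438)) (XT.nd (nat_lit 78) (nat_lit 380) (nat_lit 0) (XT.lf (nat_lit 0) (nat_lit 7750584154) (nat_lit 456) (nat_lit 1219329827) (nat_lit 76) (nat_lit 2526601964) (nat_lit 153) (nat_lit 5) (nat_lit 159) (nat_lit 5) (nat_lit 154) (nat_lit 5) (nat_lit 609) (nat_lit 514) (nat_lit 437)) (XT.lf (nat_lit 0) (nat_lit 6674354753) (nat_lit 380) (nat_lit 4741268875) (nat_lit 456) (nat_lit 209680303) (nat_lit 148) (nat_lit 5) (nat_lit 153) (nat_lit 5) (nat_lit 154) (nat_lit 5) (nat_lit 610) (nat_lit 514)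 (nat_lit 436))))) (XT.nd (nat_lit 234) (nat_lit 760) (nat_lit 0) (XT.nd (nat_lit 78) (nat_lit 304) (nat_lit 0) (XT.lf (nat_lit 0) (nat_lit 2955635154) (nat_lit 380) (nat_lit 394235208) (nat_lit 456) (nat_lit 8406416123) (nat_lit 142) (nat_lit 5) (nat_lit 147) (nat_lit 5) (nat_lit 148) (nat_lit 5) (nat_lit 611) (nat_lit 514) (nat_lit 435)) (XT.nd (nat_lit 78) (nat_lit 304) (nat_lit 0) (XT.lf (nat_lit 0) (nat_lit 7007366184) (nat_lit 456) (nat_lit 876738774) (nat_lit 76) (nat_lit 4005167294) (nat_lit 142) (nat_lit 5) (nat_lit 148) (nat_lit 5) (nat_lit 143) (nat_lit 5) (nat_lit 612) (nat_lit 514) (nat_lit 434)) (XT.lf (nat_lit 0) (nat_lit 7251936118) (nat_lit 304) (nat_lit 3506248436) (nat_lit 380) (nat_lit 1266332193) (nat_lit 138) (nat_lit 5) (nat_lit 142) (nat_lit 5) (nat_lit 143) (nat_lit 5) (nat_lit 613) (nat_lit 514) (nat_lit 433)))) (XT.nd (nat_lit 78) (nat_lit 304) (nat_lit 0) (XT.lf (nat_lit 0) (nat_lit 2394597243) (nat_lit 456) (nat_lit 8793675852) (nat_lit 76)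 (nat_lit 973784896) (nat_lit 132) (nat_lit 5) (nat_lit 138) (nat_lit 5) (nat_lit 133) (nat_lit 5) (nat_lit 614) (nat_lit 514) (nat_lit 432)) (XT.nd (nat_lit 78) (nat_lit 304) (nat_lit 0) (XT.lf (nat_lit 0) (nat_lit 6137995117) (nat_lit 456) (nat_lit 643146964) (nat_lit 76) (nat_lit 5520518775) (nat_lit 132) (nat_lit 5) (nat_lit 138) (nat_lit 5) (nat_lit 133) (nat_lit 5) (nat_lit 615) (nat_lit 514) (nat_lit 431)) (XT.lf (nat_lit 0) (nat_lit 7726157153) (nat_lit 304) (nat_lit 2251572400) (nat_lit 380) (nat_lit 2465899131) (nat_lit 128) (nat_lit 5) (nat_lit 132) (nat_lit 5) (nat_lit 133) (nat_lit 5) (nat_lit 616) (nat_lit 514) (nat_lit 430)))))) (XT.nd (nat_lit 468) (nat_lit 1520) (nat_lit 0) (XT.nd (nat_lit 234) (nat_lit 684) (nat_lit 0) (XT.nd (nat_lit 78) (nat_lit 304) (nat_lit 0) (XT.lf (nat_lit 0) (nat_lit 1303811008) (nat_lit 380) (nat_lit 8926498043) (nat_lit 76) (nat_lit 2357657156) (nat_lit 123) (nat_lit 5) (nat_lit 128) (nat_lit 5) (nat_lit 124) (nat_lit 5) (nat_lit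 617) (nat_lit 514) (nat_lit 429)) (XT.nd (nat_lit 78) (nat_lit 304) (nat_lit 0) (XT.lf (nat_lit 0) (nat_lit 5134245143) (nat_lit 380) (nat_lit 539881772) (nat_lit 76) (nat_lit 7060372756) (nat_lit 123) (nat_lit 5) (nat_lit 128) (nat_lit 5) (nat_lit 124) (nat_lit 5) (nat_lit 618) (nat_lit 514) (nat_lit 428)) (XT.lf (nat_lit 0) (nat_lit 8075469760) (nat_lit 304) (nat_lit 990347426) (nat_lit 380) (nat_lit 3817658139) (nat_lit 119) (nat_lit 5) (nat_lit 123) (nat_lit 5) (nat_lit 124) (nat_lit 5) (nat_lit 619) (nat_lit 514) (nat_lit 427)))) (XT.nd (nat_lit 78) (nat_lit 304) (nat_lit 0) (XT.lf (nat_lit 0) (nat_lit 65476014) (nat_lit 380) (nat_lit 9219899351) (nat_lit 76) (nat_lit 3749543516) (nat_lit 114) (nat_lit 5) (nat_lit 119) (nat_lit 5) (nat_lit 115) (nat_lit 5) (nat_lit 620) (nat_lit 514) (nat_lit 426)) (XT.nd (nat_lit 78) (nat_lit 304) (nat_lit 0) (XT.lf (nat_lit 0) (nat_lit 3986553365) (nat_lit 380) (nat_lit 590252996) (nat_lit 76) (nat_lit 8611854256) (nat_lit 114)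 (nat_lit 5) (nat_lit 119) (nat_lit 5) (nat_lit 115) (nat_lit 5) (nat_lit 621) (nat_lit 514) (nat_lit 425)) (XT.lf (nat_lit 0) (nat_lit 8014356635) (nat_lit 380) (nat_lit 5070373947) (nat_lit 76) (nat_lit 260182464) (nat_lit 110) (nat_lit 5) (nat_lit 115) (nat_lit 5) (nat_lit 111) (nat_lit 5) (nat_lit 622) (nat_lit 514) (nat_lit 424))))) (XT.nd (nat_lit 234) (nat_lit 912) (nat_lit 0) (XT.nd (nat_lit 78) (nat_lit 304) (nat_lit 0) (XT.lf (nat_lit 0) (nat_lit 3795474736) (nat_lit 304) (nat_lit 8359174659) (nat_lit 380) (nat_lit 1349004366) (nat_lit 106) (nat_lit 5) (nat_lit 110) (nat_lit 5) (nat_lit 111) (nat_lit 5) (nat_lit 623) (nat_lit 514) (nat_lit 423)) (XT.nd (nat_lit 78) (nat_lit 228) (nat_lit 0) (XT.lf (nat_lit 0) (nat_lit 2683915966) (nat_lit 380) (nat_lit 819804776) (nat_lit 76) (nat_lit 10161352036) (nat_lit 105) (nat_lit 5) (nat_lit 110) (nat_lit 5) (nat_lit 106) (nat_lit 5) (nat_lit 624) (nat_lit 514) (nat_lit 422)) (XT.lf (nat_lit 0) (nat_lit 6816652731) (nat_lit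 304) (nat_lit 5535990676) (nat_lit 76) (nat_lit 1476155803) (nat_lit 102) (nat_lit 5) (nat_lit 106) (nat_lit 5) (nat_lit 103) (nat_lit 5) (nat_lit 625) (nat_lit 514) (nat_lit 421)))) (XT.nd (nat_lit 156) (nat_lit 532) (nat_lit 0) (XT.nd (nat_lit 78) (nat_lit 76) (nat_lit 0) (XT.lf (nat_lit 0) (nat_lit 3583142427) (nat_lit 304) (nat_lit 7474618870) (nat_lit 380) (nat_lit 2937526293) (nat_lit 98) (nat_lit 5) (nat_lit 102) (nat_lit 5) (nat_lit 103) (nat_lit 5) (nat_lit 626) (nat_lit 514) (nat_lit 420)) (XT.lf (nat_lit 0) (nat_lit 1213770768) (nat_lit 380) (nat_lit 1256591238) (nat_lit 76) (nat_lit 11694363859) (nat_lit 97) (nat_lit 5) (nat_lit 102) (nat_lit 5) (nat_lit 98) (nat_lit 5) (nat_lit 627) (nat_lit 514) (nat_lit 419))) (XT.nd (nat_lit 78) (nat_lit 304) (nat_lit 0) (XT.lf (nat_lit 0) (nat_lit 5453311739) (nat_lit 304) (nat_lit 6227807396) (nat_lit 76) (nat_lit 2655156059) (nat_lit 94) (nat_lit 5) (nat_lit 98) (nat_lit 5) (nat_lit 95) (nat_lit 5) (nat_lit 628) (nat_lit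 514) (nat_lit 418)) (XT.lf (nat_lit 0) (nat_lit 3148623381) (nat_lit 304) (nat_lit 6648712780) (nat_lit 380) (nat_lit 4713527123) (nat_lit 90) (nat_lit 5) (nat_lit 94) (nat_lit 5) (nat_lit 95) (nat_lit 5) (nat_lit 629) (nat_lit 514) (nat_lit 417))))))) (XT.nd (nat_lit 936) (nat_lit 836) (nat_lit 0) (XT.nd (nat_lit 468) (nat_lit 836) (nat_lit 0) (XT.nd (nat_lit 234) (nat_lit 532) (nat_lit 0) (XT.nd (nat_lit 78) (nat_lit 532) (nat_lit 0) (XT.lf (nat_lit 0) (nat_lit 12754255334) (nat_lit 304) (nat_lit 1490403431) (nat_lit 380) (nat_lit 443957614) (nat_lit 90) (nat_lit 5) (nat_lit 94) (nat_lit 5) (nat_lit 95) (nat_lit 5) (nat_lit 630) (nat_lit 514) (nat_lit 416)) (XT.nd (nat_lit 78) (nat_lit 228) (nat_lit 0) (XT.lf (nat_lit 0) (nat_lit 3909634385) (nat_lit 304) (nat_lit 7178158433) (nat_lit 76) (nat_lit 3780626900) (nat_lit 86) (nat_lit 5) (nat_lit 90) (nat_lit 5) (nat_lit 87) (nat_lit 5) (nat_lit 631) (nat_lit 514) (nat_lit 415)) (XT.lf (nat_lit 0) (nat_lit 2459039812) (nat_lit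 228) (nat_lit 5899286213) (nat_lit 304) (nat_lit 6693156465) (nat_lit 83) (nat_lit 5) (nat_lit 86) (nat_lit 5) (nat_lit 87) (nat_lit 5) (nat_lit 632) (nat_lit 514) (nat_lit 414)))) (XT.nd (nat_lit 78) (nat_lit 532) (nat_lit 0) (XT.lf (nat_lit 0) (nat_lit 12344210523) (nat_lit 228) (nat_lit 575230313) (nat_lit 304) (nat_lit 2318298167) (nat_lit 83) (nat_lit 5) (nat_lit 86) (nat_lit 5) (nat_lit 87) (nat_lit 5) (nat_lit 633) (nat_lit 514) (nat_lit 413)) (XT.nd (nat_lit 78) (nat_lit 228) (nat_lit 0) (XT.lf (nat_lit 0) (nat_lit 2169030923) (nat_lit 304) (nat_lit 8422675274) (nat_lit 76) (nat_lit 4834675586) (nat_lit 79) (nat_lit 5) (nat_lit 83) (nat_lit 5) (nat_lit 80) (nat_lit 5) (nat_lit 634) (nat_lit 514) (nat_lit 412)) (XT.lf (nat_lit 0) (nat_lit 1478119939) (nat_lit 228) (nat_lit 5245627767) (nat_lit 304) (nat_lit 8894570960) (nat_lit 76) (nat_lit 5) (nat_lit 79) (nat_lit 5) (nat_lit 80) (nat_lit 5) (nat_lit 635) (nat_lit 514) (nat_lit 411))))) (XT.nd (nat_lit 234) (nat_lit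 304) (nat_lit 0) (XT.nd (nat_lit 78) (nat_lit 532) (nat_lit 0) (XT.lf (nat_lit 0) (nat_lit 11403597370) (nat_lit 304) (nat_lit 4165353052) (nat_lit 76) (nat_lit 244464456) (nat_lit 76) (nat_lit 5) (nat_lit 80) (nat_lit 5) (nat_lit 77) (nat_lit 5) (nat_lit 636) (nat_lit 514) (nat_lit 410)) (XT.nd (nat_lit 78) (nat_lit 228) (nat_lit 0) (XT.lf (nat_lit 0) (nat_lit 212847891) (nat_lit 304) (nat_lit 10000665121) (nat_lit 76) (nat_lit 5797872412) (nat_lit 72) (nat_lit 5) (nat_lit 76) (nat_lit 5) (nat_lit 73) (nat_lit 5) (nat_lit 637) (nat_lit 514) (nat_lit 409)) (XT.lf (nat_lit 0) (nat_lit 165807959) (nat_lit 228) (nat_lit 4708695573) (nat_lit 304) (nat_lit 11338118466) (nat_lit 69) (nat_lit 5) (nat_lit 72) (nat_lit 5) (nat_lit 73) (nat_lit 5) (nat_lit 638) (nat_lit 514) (nat_lit 408)))) (XT.nd (nat_lit 78) (nat_lit 304) (nat_lit 0) (XT.lf (nat_lit 0) (nat_lit 9679234048) (nat_lit 304) (nat_lit 5792785091) (nat_lit 76) (nat_lit 944868587) (nat_lit 69) (nat_lit 5) (nat_lit 73)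 (nat_lit 5) (nat_lit 70) (nat_lit 5) (nat_lit 639) (nat_lit 514) (nat_lit 407)) (XT.nd (nat_lit 78) (nat_lit 76) (nat_lit 0) (XT.lf (nat_lit 0) (nat_lit 4655921994) (nat_lit 228) (nat_lit 9962416427) (nat_lit 304) (nat_lit 2006135995) (nat_lit 66) (nat_lit 5) (nat_lit 69) (nat_lit 5) (nat_lit 70) (nat_lit 5) (nat_lit 640) (nat_lit 514) (nat_lit 406)) (XT.lf (nat_lit 0) (nat_lit 2799064314) (nat_lit 304) (nat_lit 1502201606) (nat_lit 76) (nat_lit 12534261174) (nat_lit 65) (nat_lit 5) (nat_lit 69) (nat_lit 5) (nat_lit 66) (nat_lit 5) (nat_lit 641) (nat_lit 514) (nat_lit 405)))))) (XT.nd (nat_lit 72540) (nat_lit 0) (nat_lit 49324) (XT.nd (nat_lit 234) (nat_lit 380) (nat_lit 0) (XT.nd (nat_lit 78) (nat_lit 228) (nat_lit 0) (XT.lf (nat_lit 0) (nat_lit 7720835926) (nat_lit 304) (nat_lit 7817864429) (nat_lit 76) (nat_lit 1510889831) (nat_lit 62) (nat_lit 5) (nat_lit 66) (nat_lit 5) (nat_lit 63) (nat_lit 5) (nat_lit 642) (nat_lit 514) (nat_lit 404)) (XT.nd (nat_lit 78) (nat_lit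 76) (nat_lit 0) (XT.lf (nat_lit 0) (nat_lit 2902865632) (nat_lit 152) (nat_lit 9873096859) (nat_lit 228) (nat_lit 4491274798) (nat_lit 60) (nat_lit 5) (nat_lit 62) (nat_lit 5) (nat_lit 63) (nat_lit 5) (nat_lit 643) (nat_lit 514) (nat_lit 403)) (XT.lf (nat_lit 0) (nat_lit 467431478) (nat_lit 228) (nat_lit 3587083241) (nat_lit 76) (nat_lit 13434060459) (nat_lit 59) (nat_lit 5) (nat_lit 62) (nat_lit 5) (nat_lit 60) (nat_lit 5) (nat_lit 644) (nat_lit 514) (nat_lit 402)))) (XT.nd (nat_lit 78) (nat_lit 152) (nat_lit 0) (XT.lf (nat_lit 0) (nat_lit 5504036028) (nat_lit 304) (nat_lit 10291202611) (nat_lit 76) (nat_lit 1917731265) (nat_lit 56) (nat_lit 5) (nat_lit 60) (nat_lit 5) (nat_lit 57) (nat_lit 5) (nat_lit 645) (nat_lit 514) (nat_lit 401)) (XT.nd (nat_lit 72150) (nat_lit 0) (nat_lit 51832) (XT.lf (nat_lit 0) (nat_lit 701282140) (nat_lit 152) (nat_lit 9973717922) (nat_lit 228) (nat_lit 7266180968) (nat_lit 54) (nat_lit 5) (nat_lit 56) (nat_lit 5) (nat_lit 57) (nat_lit 5)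 (nat_lit 646) (nat_lit 514) (nat_lit 400)) (XT.lf (nat_lit 0) (nat_lit 930616767) (nat_lit 380) (nat_lit 1157213345) (nat_lit 380) (nat_lit 1157213345) (nat_lit 736) (nat_lit 4) (nat_lit 741) (nat_lit 5) (nat_lit 741) (nat_lit 4) (nat_lit 530) (nat_lit 515) (nat_lit 515))))) (XT.nd (nat_lit 234) (nat_lit 1368) (nat_lit 0) (XT.nd (nat_lit 78) (nat_lit 1064) (nat_lit 0) (XT.lf (nat_lit 0) (nat_lit 869459004) (nat_lit 456) (nat_lit 951738460) (nat_lit 76) (nat_lit 4679213774) (nat_lit 735) (nat_lit 5) (nat_lit 741) (nat_lit 5) (nat_lit 736) (nat_lit 4) (nat_lit 531) (nat_lit 515) (nat_lit 514)) (XT.nd (nat_lit 78) (nat_lit 608) (nat_lit 0) (XT.lf (nat_lit 0) (nat_lit 2771255378) (nat_lit 456) (nat_lit 1255599940) (nat_lit 532) (nat_lit 2484985652) (nat_lit 729) (nat_lit 5) (nat_lit 735) (nat_lit 5) (nat_lit 736) (nat_lit 4) (nat_lit 532) (nat_lit 515) (nat_lit 513)) (XT.lf (nat_lit 0) (nat_lit 4151949) (nat_lit 532) (nat_lit 640187174) (nat_lit 608) (nat_lit 5880488036)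 (nat_lit 721) (nat_lit 5) (nat_lit 728) (nat_lit 5) (nat_lit 729) (nat_lit 5) (nat_lit 533) (nat_lit 515) (nat_lit 512)))) (XT.nd (nat_lit 156) (nat_lit 684) (nat_lit 0) (XT.nd (nat_lit 78) (nat_lit 684) (nat_lit 0) (XT.lf (nat_lit 0) (nat_lit 3753023535) (nat_lit 608) (nat_lit 2730395596) (nat_lit 76) (nat_lit 55344603) (nat_lit 721) (nat_lit 5) (nat_lit 729) (nat_lit 5) (nat_lit 722) (nat_lit 4) (nat_lit 534) (nat_lit 515) (nat_lit 511)) (XT.lf (nat_lit 0) (nat_lit 303265081) (nat_lit 684) (nat_lit 5460191651) (nat_lit 76) (nat_lit 790748946) (nat_lit 712) (nat_lit 5) (nat_lit 721) (nat_lit 5) (nat_lit 713) (nat_lit 5) (nat_lit 535) (nat_lit 515) (nat_lit 510))) (XT.nd (nat_lit 78) (nat_lit 684) (nat_lit 0) (XT.lf (nat_lit 0) (nat_lit 3362155624) (nat_lit 684) (nat_lit 1606675216) (nat_lit 76) (nat_lit 1601868182) (nat_lit 712) (nat_lit 5) (nat_lit 721) (nat_lit 5) (nat_lit 713) (nat_lit 5) (nat_lit 536) (nat_lit 515) (nat_lit 509)) (XT.lf (nat_lit 0) (nat_lit 2304688613)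 (nat_lit 684) (nat_lit 4120859340) (nat_lit 760) (nat_lit 163126387) (nat_lit 703) (nat_lit 5) (nat_lit 712) (nat_lit 5) (nat_lit 713) (nat_lit 5) (nat_lit 537) (nat_lit 515) (nat_lit 508))))))))
noncomputable def xc70 : XT := (XT.nd (nat_lit 1950) (nat_lit 13072) (nat_lit 0) (XT.nd (nat_lit 936) (nat_lit 13680) (nat_lit 0) (XT.nd (nat_lit 468) (nat_lit 4636) (nat_lit 0) (XT.nd (nat_lit 234) (nat_lit 988) (nat_lit 0) (XT.nd (nat_lit 78) (nat_lit 1672) (nat_lit 0) (XT.lf (nat_lit 0) (nat_lit 2844412350) (nat_lit 760) (nat_lit 360001462) (nat_lit 76) (nat_lit 3403434756) (nat_lit 702) (nat_lit 5) (nat_lit 712) (nat_lit 5) (nat_lit 703) (nat_lit 5) (nat_lit 538) (nat_lit 515) (nat_lit 507)) (XT.nd (nat_lit 78) (nat_lit 912) (nat_lit 0) (XT.lf (nat_lit 0) (nat_lit 3640017793) (nat_lit 760) (nat_lit 2223889115) (nat_lit 836) (nat_lit 764415537) (nat_lit 692) (nat_lit 5) (nat_lit 702) (nat_lit 5) (nat_lit 703) (nat_lit 5) (nat_lit 539) (nat_lit 515) (nat_lit 506)) (XT.lf (nat_lit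 0) (nat_lit 1024567742) (nat_lit 836) (nat_lit 1179939399) (nat_lit 912) (nat_lit 4445617224) (nat_lit 680) (nat_lit 5) (nat_lit 691) (nat_lit 5) (nat_lit 692) (nat_lit 5) (nat_lit 540) (nat_lit 515) (nat_lit 505)))) (XT.nd (nat_lit 78) (nat_lit 988) (nat_lit 0) (XT.lf (nat_lit 0) (nat_lit 5103686744) (nat_lit 836) (nat_lit 70880503) (nat_lit 912) (nat_lit 1498670637) (nat_lit 680) (nat_lit 5) (nat_lit 691) (nat_lit 5) (nat_lit 692) (nat_lit 5) (nat_lit 541) (nat_lit 515) (nat_lit 504)) (XT.nd (nat_lit 78) (nat_lit 0) (nat_lit 0) (XT.lf (nat_lit 0) (nat_lit 1443966391) (nat_lit 988) (nat_lit 4163025057) (nat_lit 76) (nat_lit 1090511995) (nat_lit 667) (nat_lit 5) (nat_lit 680) (nat_lit 5) (nat_lit 668) (nat_lit 5) (nat_lit 542) (nat_lit 515) (nat_lit 503)) (XT.lf (nat_lit 0) (nat_lit 4370430905) (nat_lit 988) (nat_lit 41097651) (nat_lit 76) (nat_lit 2311642347) (nat_lit 667) (nat_lit 5) (nat_lit 680) (nat_lit 5) (nat_lit 668) (nat_lit 5) (nat_lit 543) (nat_lit 515) (nat_lit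 502))))) (XT.nd (nat_lit 234) (nat_lit 2508) (nat_lit 0) (XT.nd (nat_lit 78) (nat_lit 1064) (nat_lit 0) (XT.lf (nat_lit 0) (nat_lit 560170674) (nat_lit 1064) (nat_lit 2585332234) (nat_lit 76) (nat_lit 3604544125) (nat_lit 653) (nat_lit 5) (nat_lit 667) (nat_lit 5) (nat_lit 654) (nat_lit 5) (nat_lit 544) (nat_lit 515) (nat_lit 501)) (XT.nd (nat_lit 78) (nat_lit 0) (nat_lit 0) (XT.lf (nat_lit 0) (nat_lit 1633579527) (nat_lit 1064) (nat_lit 1812930110) (nat_lit 1140) (nat_lit 3331721208) (nat_lit 639) (nat_lit 5) (nat_lit 653) (nat_lit 5) (nat_lit 654) (nat_lit 5) (nat_lit 545) (nat_lit 515) (nat_lit 500)) (XT.lf (nat_lit 0) (nat_lit 5922235687) (nat_lit 1064) (nat_lit 422385617) (nat_lit 1140) (nat_lit 463290478) (nat_lit 639) (nat_lit 5) (nat_lit 653) (nat_lit 5) (nat_lit 654) (nat_lit 5) (nat_lit 546) (nat_lit 515) (nat_lit 499)))) (XT.nd (nat_lit 78) (nat_lit 1292) (nat_lit 0) (XT.lf (nat_lit 0) (nat_lit 2396852122) (nat_lit 1216) (nat_lit 3407455921) (nat_lit 76) (nat_lit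 1034239552) (nat_lit 623) (nat_lit 5) (nat_lit 639) (nat_lit 5) (nat_lit 624) (nat_lit 5) (nat_lit 547) (nat_lit 515) (nat_lit 498)) (XT.nd (nat_lit 78) (nat_lit 76) (nat_lit 0) (XT.lf (nat_lit 0) (nat_lit 932297348) (nat_lit 1216) (nat_lit 4329034820) (nat_lit 1292) (nat_lit 1609349489) (nat_lit 607) (nat_lit 5) (nat_lit 623) (nat_lit 5) (nat_lit 624) (nat_lit 5) (nat_lit 548) (nat_lit 515) (nat_lit 497)) (XT.lf (nat_lit 0) (nat_lit 1224842406) (nat_lit 1292) (nat_lit 1557466001) (nat_lit 76) (nat_lit 4121757206) (nat_lit 606) (nat_lit 5) (nat_lit 623) (nat_lit 5) (nat_lit 607) (nat_lit 5) (nat_lit 549) (nat_lit 515) (nat_lit 496)))))) (XT.nd (nat_lit 468) (nat_lit 7904) (nat_lit 0) (XT.nd (nat_lit 234) (nat_lit 3040) (nat_lit 0) (XT.nd (nat_lit 78) (nat_lit 1444) (nat_lit 0) (XT.lf (nat_lit 0) (nat_lit 2888253636) (nat_lit 1292) (nat_lit 1164849183) (nat_lit 1368) (nat_lit 2885635756) (nat_lit 589) (nat_lit 5) (nat_lit 606) (nat_lit 5) (nat_lit 607) (nat_lit 5) (nat_lit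 550) (nat_lit 515) (nat_lit 495)) (XT.nd (nat_lit 78) (nat_lit 76) (nat_lit 0) (XT.lf (nat_lit 0) (nat_lit 421450702) (nat_lit 1368) (nat_lit 6473955451) (nat_lit 1444) (nat_lit 79561797) (nat_lit 571) (nat_lit 5) (nat_lit 589) (nat_lit 5) (nat_lit 590) (nat_lit 5) (nat_lit 551) (nat_lit 515) (nat_lit 494)) (XT.lf (nat_lit 0) (nat_lit 2722715958) (nat_lit 1444) (nat_lit 2051025313) (nat_lit 76) (nat_lit 2238299790) (nat_lit 570) (nat_lit 5) (nat_lit 589) (nat_lit 5) (nat_lit 571) (nat_lit 5) (nat_lit 552) (nat_lit 515) (nat_lit 493)))) (XT.nd (nat_lit 78) (nat_lit 1596) (nat_lit 0) (XT.lf (nat_lit 0) (nat_lit 2523679721) (nat_lit 1444) (nat_lit 3015329568) (nat_lit 1520) (nat_lit 1511666908) (nat_lit 551) (nat_lit 5) (nat_lit 570) (nat_lit 5) (nat_lit 571) (nat_lit 5) (nat_lit 553) (nat_lit 515) (nat_lit 492)) (XT.nd (nat_lit 78) (nat_lit 0) (nat_lit 0) (XT.lf (nat_lit 0) (nat_lit 69264481) (nat_lit 1520) (nat_lit 1192314430) (nat_lit 1596) (nat_lit 5829197513) (nat_lit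 530) (nat_lit 5) (nat_lit 550) (nat_lit 5) (nat_lit 551) (nat_lit 5) (nat_lit 554) (nat_lit 515) (nat_lit 491)) (XT.lf (nat_lit 0) (nat_lit 4048866234) (nat_lit 1596) (nat_lit 2378480588) (nat_lit 76) (nat_lit 704566742) (nat_lit 530) (nat_lit 5) (nat_lit 551) (nat_lit 5) (nat_lit 531) (nat_lit 5) (nat_lit 555) (nat_lit 515) (nat_lit 490))))) (XT.nd (nat_lit 234) (nat_lit 4560) (nat_lit 0) (XT.nd (nat_lit 78) (nat_lit 1748) (nat_lit 0) (XT.lf (nat_lit 0) (nat_lit 2329398184) (nat_lit 1596) (nat_lit 4530509007) (nat_lit 1672) (nat_lit 314616988) (nat_lit 509) (nat_lit 5) (nat_lit 530) (nat_lit 5) (nat_lit 531) (nat_lit 5) (nat_lit 556) (nat_lit 515) (nat_lit 489)) (XT.nd (nat_lit 78) (nat_lit 1672) (nat_lit 0) (XT.lf (nat_lit 0) (nat_lit 2437709903) (nat_lit 1672) (nat_lit 121460003) (nat_lit 76) (nat_lit 4659273016) (nat_lit 508) (nat_lit 5) (nat_lit 530) (nat_lit 5) (nat_lit 509) (nat_lit 5) (nat_lit 557) (nat_lit 515) (nat_lit 488)) (XT.lf (nat_lit 0) (nat_lit 4706249751)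 (nat_lit 1672) (nat_lit 511621833) (nat_lit 1748) (nat_lit 2045797105) (nat_lit 486) (nat_lit 5) (nat_lit 508) (nat_lit 5) (nat_lit 509) (nat_lit 5) (nat_lit 558) (nat_lit 515) (nat_lit 487)))) (XT.nd (nat_lit 156) (nat_lit 2736) (nat_lit 0) (XT.nd (nat_lit 78) (nat_lit 0) (nat_lit 0) (XT.lf (nat_lit 0) (nat_lit 707017907) (nat_lit 1824) (nat_lit 5023639169) (nat_lit 76) (nat_lit 1579596452) (nat_lit 462) (nat_lit 5) (nat_lit 486) (nat_lit 5) (nat_lit 463) (nat_lit 5) (nat_lit 559) (nat_lit 515) (nat_lit 486)) (XT.lf (nat_lit 0) (nat_lit 3455726257) (nat_lit 1824) (nat_lit 163481338) (nat_lit 76) (nat_lit 3738937077) (nat_lit 462) (nat_lit 5) (nat_lit 486) (nat_lit 5) (nat_lit 463) (nat_lit 5) (nat_lit 560) (nat_lit 515) (nat_lit 485))) (XT.nd (nat_lit 78) (nat_lit 1064) (nat_lit 0) (XT.lf (nat_lit 0) (nat_lit 4806725505) (nat_lit 1672) (nat_lit 1432461473) (nat_lit 1748) (nat_lit 1168220578) (nat_lit 440) (nat_lit 5) (nat_lit 462) (nat_lit 5) (nat_lit 463) (nat_lit 5)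 (nat_lit 561) (nat_lit 515) (nat_lit 484)) (XT.lf (nat_lit 0) (nat_lit 1570309275) (nat_lit 1064) (nat_lit 5072311161) (nat_lit 76) (nat_lit 815415859) (nat_lit 426) (nat_lit 5) (nat_lit 440) (nat_lit 5) (nat_lit 427) (nat_lit 5) (nat_lit 562) (nat_lit 515) (nat_lit 483))))))) (XT.nd (nat_lit 936) (nat_lit 6156) (nat_lit 0) (XT.nd (nat_lit 468) (nat_lit 3268) (nat_lit 0) (XT.nd (nat_lit 234) (nat_lit 1748) (nat_lit 0) (XT.nd (nat_lit 78) (nat_lit 1900) (nat_lit 0) (XT.lf (nat_lit 0) (nat_lit 4324622074) (nat_lit 1064) (nat_lit 70792788) (nat_lit 76) (nat_lit 3114584146) (nat_lit 426) (nat_lit 5) (nat_lit 440) (nat_lit 5) (nat_lit 427) (nat_lit 5) (nat_lit 563) (nat_lit 515) (nat_lit 482)) (XT.nd (nat_lit 78) (nat_lit 988) (nat_lit 0) (XT.lf (nat_lit 0) (nat_lit 5046710174) (nat_lit 912) (nat_lit 2070652226) (nat_lit 988) (nat_lit 445980507) (nat_lit 414) (nat_lit 5) (nat_lit 426) (nat_lit 5) (nat_lit 427) (nat_lit 5) (nat_lit 564) (nat_lit 515) (nat_lit 481)) (XT.lf (nat_lit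 0) (nat_lit 2287931992) (nat_lit 988) (nat_lit 5001944846) (nat_lit 76) (nat_lit 328169839) (nat_lit 401) (nat_lit 5) (nat_lit 414) (nat_lit 5) (nat_lit 402) (nat_lit 5) (nat_lit 565) (nat_lit 515) (nat_lit 480)))) (XT.nd (nat_lit 78) (nat_lit 912) (nat_lit 0) (XT.lf (nat_lit 0) (nat_lit 146036389) (nat_lit 836) (nat_lit 4907694821) (nat_lit 912) (nat_lit 2620399002) (nat_lit 390) (nat_lit 5) (nat_lit 401) (nat_lit 5) (nat_lit 402) (nat_lit 5) (nat_lit 566) (nat_lit 515) (nat_lit 479)) (XT.nd (nat_lit 78) (nat_lit 836) (nat_lit 0) (XT.lf (nat_lit 0) (nat_lit 127226000) (nat_lit 912) (nat_lit 2318548331) (nat_lit 76) (nat_lit 5285838441) (nat_lit 389) (nat_lit 5) (nat_lit 401) (nat_lit 5) (nat_lit 390) (nat_lit 5) (nat_lit 567) (nat_lit 515) (nat_lit 478)) (XT.lf (nat_lit 0) (nat_lit 2867407919) (nat_lit 912) (nat_lit 4824874215) (nat_lit 76) (nat_lit 98170378) (nat_lit 378) (nat_lit 5) (nat_lit 390) (nat_lit 5) (nat_lit 379) (nat_lit 5) (nat_lit 568) (nat_lit 515) (nat_lit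 477))))) (XT.nd (nat_lit 234) (nat_lit 1596) (nat_lit 0) (XT.nd (nat_lit 78) (nat_lit 912) (nat_lit 0) (XT.lf (nat_lit 0) (nat_lit 475508767) (nat_lit 760) (nat_lit 5175162847) (nat_lit 836) (nat_lit 2200039496) (nat_lit 368) (nat_lit 5) (nat_lit 378) (nat_lit 5) (nat_lit 379) (nat_lit 5) (nat_lit 569) (nat_lit 515) (nat_lit 476)) (XT.nd (nat_lit 78) (nat_lit 836) (nat_lit 0) (XT.lf (nat_lit 0) (nat_lit 556049449) (nat_lit 836) (nat_lit 2019562251) (nat_lit 76) (nat_lit 5336771591) (nat_lit 367) (nat_lit 5) (nat_lit 378) (nat_lit 5) (nat_lit 368) (nat_lit 5) (nat_lit 570) (nat_lit 515) (nat_lit 475)) (XT.lf (nat_lit 0) (nat_lit 3315274152) (nat_lit 912) (nat_lit 4553024813) (nat_lit 76) (nat_lit 107156841) (nat_lit 356) (nat_lit 5) (nat_lit 368) (nat_lit 5) (nat_lit 357) (nat_lit 5) (nat_lit 571) (nat_lit 515) (nat_lit 474)))) (XT.nd (nat_lit 78) (nat_lit 836) (nat_lit 0) (XT.lf (nat_lit 0) (nat_lit 904935853) (nat_lit 760) (nat_lit 5216370470) (nat_lit 836) (nat_lit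 1918658033) (nat_lit 346) (nat_lit 5) (nat_lit 356) (nat_lit 5) (nat_lit 357) (nat_lit 5) (nat_lit 572) (nat_lit 515) (nat_lit 473)) (XT.nd (nat_lit 78) (nat_lit 760) (nat_lit 0) (XT.lf (nat_lit 0) (nat_lit 852241085) (nat_lit 836) (nat_lit 1628452480) (nat_lit 76) (nat_lit 5625241187) (nat_lit 345) (nat_lit 5) (nat_lit 356) (nat_lit 5) (nat_lit 346) (nat_lit 5) (nat_lit 573) (nat_lit 515) (nat_lit 472)) (XT.lf (nat_lit 0) (nat_lit 3637118054) (nat_lit 836) (nat_lit 4198016149) (nat_lit 76) (nat_lit 338158331) (nat_lit 335) (nat_lit 5) (nat_lit 346) (nat_lit 5) (nat_lit 336) (nat_lit 5) (nat_lit 574) (nat_lit 515) (nat_lit 471)))))) (XT.nd (nat_lit 468) (nat_lit 3192) (nat_lit 0) (XT.nd (nat_lit 234) (nat_lit 1444) (nat_lit 0) (XT.nd (nat_lit 78) (nat_lit 836) (nat_lit 0) (XT.lf (nat_lit 0) (nat_lit 1422866369) (nat_lit 684) (nat_lit 5048163197) (nat_lit 760) (nat_lit 1771107671) (nat_lit 326) (nat_lit 5) (nat_lit 335) (nat_lit 5) (nat_lit 336) (nat_lit 5) (nat_lit 575)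 (nat_lit 515) (nat_lit 470)) (XT.nd (nat_lit 78) (nat_lit 760) (nat_lit 0) (XT.lf (nat_lit 0) (nat_lit 1020759934) (nat_lit 760) (nat_lit 1156637351) (nat_lit 76) (nat_lit 6135126341) (nat_lit 325) (nat_lit 5) (nat_lit 335) (nat_lit 5) (nat_lit 326) (nat_lit 5) (nat_lit 576) (nat_lit 515) (nat_lit 469)) (XT.lf (nat_lit 0) (nat_lit 3837605508) (nat_lit 836) (nat_lit 3771264222) (nat_lit 76) (nat_lit 775362890) (nat_lit 315) (nat_lit 5) (nat_lit 326) (nat_lit 5) (nat_lit 316) (nat_lit 5) (nat_lit 577) (nat_lit 515) (nat_lit 468)))) (XT.nd (nat_lit 78) (nat_lit 760) (nat_lit 0) (XT.lf (nat_lit 0) (nat_lit 2018042057) (nat_lit 684) (nat_lit 4686285163) (nat_lit 760) (nat_lit 1753183802) (nat_lit 306) (nat_lit 5) (nat_lit 315) (nat_lit 5) (nat_lit 316) (nat_lit 5) (nat_lit 578) (nat_lit 515) (nat_lit 467)) (XT.nd (nat_lit 78) (nat_lit 684) (nat_lit 0) (XT.lf (nat_lit 0) (nat_lit 1065646342) (nat_lit 760) (nat_lit 615383132) (nat_lit 76) (nat_lit 6851411082) (nat_lit 305) (nat_lit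 5) (nat_lit 315) (nat_lit 5) (nat_lit 306) (nat_lit 5) (nat_lit 579) (nat_lit 515) (nat_lit 466)) (XT.lf (nat_lit 0) (nat_lit 3920502454) (nat_lit 760) (nat_lit 3284084996) (nat_lit 76) (nat_lit 1403992635) (nat_lit 296) (nat_lit 5) (nat_lit 306) (nat_lit 5) (nat_lit 297) (nat_lit 5) (nat_lit 580) (nat_lit 515) (nat_lit 465))))) (XT.nd (nat_lit 234) (nat_lit 1824) (nat_lit 0) (XT.nd (nat_lit 78) (nat_lit 760) (nat_lit 0) (XT.lf (nat_lit 0) (nat_lit 2679293130) (nat_lit 608) (nat_lit 4145503173) (nat_lit 684) (nat_lit 1861604845) (nat_lit 288) (nat_lit 5) (nat_lit 296) (nat_lit 5) (nat_lit 297) (nat_lit 5) (nat_lit 581) (nat_lit 515) (nat_lit 464)) (XT.nd (nat_lit 78) (nat_lit 684) (nat_lit 0) (XT.lf (nat_lit 0) (nat_lit 990039665) (nat_lit 684) (nat_lit 15908635) (nat_lit 76) (nat_lit 7760062276) (nat_lit 287) (nat_lit 5) (nat_lit 296) (nat_lit 5) (nat_lit 288) (nat_lit 5) (nat_lit 582) (nat_lit 515) (nat_lit 463)) (XT.lf (nat_lit 0) (nat_lit 3888689758) (nat_lit 760)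 (nat_lit 2747799672) (nat_lit 76) (nat_lit 2210183900) (nat_lit 278) (nat_lit 5) (nat_lit 288) (nat_lit 5) (nat_lit 279) (nat_lit 5) (nat_lit 583) (nat_lit 515) (nat_lit 462)))) (XT.nd (nat_lit 156) (nat_lit 532) (nat_lit 0) (XT.nd (nat_lit 78) (nat_lit 684) (nat_lit 0) (XT.lf (nat_lit 0) (nat_lit 3395431735) (nat_lit 608) (nat_lit 3439726090) (nat_lit 684) (nat_lit 2093999747) (nat_lit 270) (nat_lit 5) (nat_lit 278) (nat_lit 5) (nat_lit 279) (nat_lit 5) (nat_lit 584) (nat_lit 515) (nat_lit 461)) (XT.lf (nat_lit 0) (nat_lit 638886993) (nat_lit 608) (nat_lit 161450351) (nat_lit 684) (nat_lit 8213173197) (nat_lit 261) (nat_lit 5) (nat_lit 269) (nat_lit 5) (nat_lit 270) (nat_lit 5) (nat_lit 585) (nat_lit 515) (nat_lit 460))) (XT.nd (nat_lit 78) (nat_lit 532) (nat_lit 0) (XT.lf (nat_lit 0) (nat_lit 3744171401) (nat_lit 684) (nat_lit 2173842675) (nat_lit 76) (nat_lit 3180871525) (nat_lit 261) (nat_lit 5) (nat_lit 270) (nat_lit 5) (nat_lit 262) (nat_lit 5) (nat_lit 586) (nat_lit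 515) (nat_lit 459)) (XT.lf (nat_lit 0) (nat_lit 4155142483) (nat_lit 532) (nat_lit 2582120472) (nat_lit 608) (nat_lit 2448902331) (nat_lit 254) (nat_lit 5) (nat_lit 261) (nat_lit 5) (nat_lit 262) (nat_lit 5) (nat_lit 587) (nat_lit 515) (nat_lit 458))))))))
noncomputable def xc71 : XT := (XT.nd (nat_lit 1950) (nat_lit 5016) (nat_lit 0) (XT.nd (nat_lit 936) (nat_lit 4028) (nat_lit 0) (XT.nd (nat_lit 468) (nat_lit 2128) (nat_lit 0) (XT.nd (nat_lit 234) (nat_lit 1140) (nat_lit 0) (XT.nd (nat_lit 78) (nat_lit 532) (nat_lit 0) (XT.lf (nat_lit 0) (nat_lit 499519438) (nat_lit 684) (nat_lit 7950978261) (nat_lit 76) (nat_lit 824805578) (nat_lit 245) (nat_lit 5) (nat_lit 254) (nat_lit 5) (nat_lit 246) (nat_lit 5) (nat_lit 588) (nat_lit 515) (nat_lit 457)) (XT.nd (nat_lit 78) (nat_lit 532) (nat_lit 0) (XT.lf (nat_lit 0) (nat_lit 3488075930) (nat_lit 684) (nat_lit 1573873269) (nat_lit 76) (nat_lit 4303676410) (nat_lit 245) (nat_lit 5) (nat_lit 254) (nat_lit 5) (nat_lit 246) (nat_lit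 5) (nat_lit 589) (nat_lit 515) (nat_lit 456)) (XT.lf (nat_lit 0) (nat_lit 4946869100) (nat_lit 532) (nat_lit 1585223303) (nat_lit 608) (nat_lit 2925752585) (nat_lit 238) (nat_lit 5) (nat_lit 245) (nat_lit 5) (nat_lit 246) (nat_lit 5) (nat_lit 590) (nat_lit 515) (nat_lit 455)))) (XT.nd (nat_lit 78) (nat_lit 532) (nat_lit 0) (XT.lf (nat_lit 0) (nat_lit 84412330) (nat_lit 608) (nat_lit 7520050266) (nat_lit 76) (nat_lit 1947430368) (nat_lit 230) (nat_lit 5) (nat_lit 238) (nat_lit 5) (nat_lit 231) (nat_lit 5) (nat_lit 591) (nat_lit 515) (nat_lit 454)) (XT.nd (nat_lit 78) (nat_lit 532) (nat_lit 0) (XT.lf (nat_lit 0) (nat_lit 3120651030) (nat_lit 608) (nat_lit 959891802) (nat_lit 76) (nat_lit 5566795482) (nat_lit 230) (nat_lit 5) (nat_lit 238) (nat_lit 5) (nat_lit 231) (nat_lit 5) (nat_lit 592) (nat_lit 515) (nat_lit 453)) (XT.lf (nat_lit 0) (nat_lit 5758696202) (nat_lit 532) (nat_lit 461052708) (nat_lit 608) (nat_lit 3524905019) (nat_lit 223) (nat_lit 5) (nat_lit 230) (nat_lit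 5) (nat_lit 231) (nat_lit 5) (nat_lit 593) (nat_lit 515) (nat_lit 452))))) (XT.nd (nat_lit 234) (nat_lit 1064) (nat_lit 0) (XT.nd (nat_lit 78) (nat_lit 532) (nat_lit 0) (XT.lf (nat_lit 0) (nat_lit 2747293873) (nat_lit 532) (nat_lit 6643872609) (nat_lit 608) (nat_lit 452546586) (nat_lit 216) (nat_lit 5) (nat_lit 223) (nat_lit 5) (nat_lit 224) (nat_lit 5) (nat_lit 594) (nat_lit 515) (nat_lit 451)) (XT.nd (nat_lit 78) (nat_lit 456) (nat_lit 0) (XT.lf (nat_lit 0) (nat_lit 2641251069) (nat_lit 608) (nat_lit 344361612) (nat_lit 76) (nat_lit 6958893206) (nat_lit 215) (nat_lit 5) (nat_lit 223) (nat_lit 5) (nat_lit 216) (nat_lit 5) (nat_lit 595) (nat_lit 515) (nat_lit 450)) (XT.lf (nat_lit 0) (nat_lit 5804498992) (nat_lit 532) (nat_lit 3473918183) (nat_lit 76) (nat_lit 768568621) (nat_lit 209) (nat_lit 5) (nat_lit 216) (nat_lit 5) (nat_lit 210) (nat_lit 5) (nat_lit 596) (nat_lit 515) (nat_lit 449)))) (XT.nd (nat_lit 78) (nat_lit 532) (nat_lit 0) (XT.lf (nat_lit 0) (nat_lit 3459563995)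 (nat_lit 532) (nat_lit 5582141958) (nat_lit 608) (nat_lit 1109599132) (nat_lit 202) (nat_lit 5) (nat_lit 209) (nat_lit 5) (nat_lit 210) (nat_lit 5) (nat_lit 597) (nat_lit 515) (nat_lit 448)) (XT.nd (nat_lit 78) (nat_lit 0) (nat_lit 0) (XT.lf (nat_lit 0) (nat_lit 263113071) (nat_lit 456) (nat_lit 1786912585) (nat_lit 532) (nat_lit 8207589022) (nat_lit 195) (nat_lit 5) (nat_lit 201) (nat_lit 5) (nat_lit 202) (nat_lit 5) (nat_lit 598) (nat_lit 515) (nat_lit 447)) (XT.lf (nat_lit 0) (nat_lit 5283252853) (nat_lit 532) (nat_lit 2987018699) (nat_lit 76) (nat_lit 2095130325) (nat_lit 195) (nat_lit 5) (nat_lit 202) (nat_lit 5) (nat_lit 196) (nat_lit 5) (nat_lit 599) (nat_lit 515) (nat_lit 446)))))) (XT.nd (nat_lit 468) (nat_lit 2128) (nat_lit 0) (XT.nd (nat_lit 234) (nat_lit 912) (nat_lit 0) (XT.nd (nat_lit 78) (nat_lit 532) (nat_lit 0) (XT.lf (nat_lit 0) (nat_lit 4155772838) (nat_lit 456) (nat_lit 4431363059) (nat_lit 532) (nat_lit 1888092483) (nat_lit 189) (nat_lit 5) (nat_lit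 195) (nat_lit 5) (nat_lit 196) (nat_lit 5) (nat_lit 600) (nat_lit 515) (nat_lit 445)) (XT.nd (nat_lit 78) (nat_lit 0) (nat_lit 0) (XT.lf (nat_lit 0) (nat_lit 849538464) (nat_lit 456) (nat_lit 495328102) (nat_lit 532) (nat_lit 9242350479) (nat_lit 182) (nat_lit 5) (nat_lit 188) (nat_lit 5) (nat_lit 189) (nat_lit 5) (nat_lit 601) (nat_lit 515) (nat_lit 444)) (XT.lf (nat_lit 0) (nat_lit 4650296174) (nat_lit 532) (nat_lit 2536534697) (nat_lit 76) (nat_lit 3513706338) (nat_lit 182) (nat_lit 5) (nat_lit 189) (nat_lit 5) (nat_lit 183) (nat_lit 5) (nat_lit 602) (nat_lit 515) (nat_lit 443)))) (XT.nd (nat_lit 78) (nat_lit 456) (nat_lit 0) (XT.lf (nat_lit 0) (nat_lit 4821650955) (nat_lit 456) (nat_lit 3202936869) (nat_lit 532) (nat_lit 2791484010) (nat_lit 176) (nat_lit 5) (nat_lit 182) (nat_lit 5) (nat_lit 183) (nat_lit 5) (nat_lit 603) (nat_lit 515) (nat_lit 442)) (XT.nd (nat_lit 78) (nat_lit 0) (nat_lit 0) (XT.lf (nat_lit 0) (nat_lit 525621758) (nat_lit 456) (nat_lit 9544160304)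 (nat_lit 76) (nat_lit 864065822) (nat_lit 170) (nat_lit 5) (nat_lit 176) (nat_lit 5) (nat_lit 171) (nat_lit 5) (nat_lit 604) (nat_lit 515) (nat_lit 441)) (XT.lf (nat_lit 0) (nat_lit 3901926636) (nat_lit 456) (nat_lit 2137680584) (nat_lit 76) (nat_lit 5013401448) (nat_lit 170) (nat_lit 5) (nat_lit 176) (nat_lit 5) (nat_lit 171) (nat_lit 5) (nat_lit 605) (nat_lit 515) (nat_lit 440))))) (XT.nd (nat_lit 234) (nat_lit 1216) (nat_lit 0) (XT.nd (nat_lit 78) (nat_lit 456) (nat_lit 0) (XT.lf (nat_lit 0) (nat_lit 5441952621) (nat_lit 456) (nat_lit 1908251880) (nat_lit 532) (nat_lit 3824262118) (nat_lit 164) (nat_lit 5) (nat_lit 170) (nat_lit 5) (nat_lit 171) (nat_lit 5) (nat_lit 606) (nat_lit 515) (nat_lit 439)) (XT.nd (nat_lit 78) (nat_lit 76) (nat_lit 0) (XT.lf (nat_lit 0) (nat_lit 1866951166) (nat_lit 380) (nat_lit 9011348920) (nat_lit 456) (nat_lit 419839433) (nat_lit 159) (nat_lit 5) (nat_lit 164) (nat_lit 5) (nat_lit 165) (nat_lit 5) (nat_lit 607) (nat_lit 515) (nat_lit 438))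 (XT.lf (nat_lit 0) (nat_lit 3033413467) (nat_lit 456) (nat_lit 1806777531) (nat_lit 76) (nat_lit 6583285640) (nat_lit 158) (nat_lit 5) (nat_lit 164) (nat_lit 5) (nat_lit 159) (nat_lit 5) (nat_lit 608) (nat_lit 515) (nat_lit 437)))) (XT.nd (nat_lit 156) (nat_lit 456) (nat_lit 0) (XT.nd (nat_lit 78) (nat_lit 380) (nat_lit 0) (XT.lf (nat_lit 0) (nat_lit 6000290680) (nat_lit 380) (nat_lit 558799599) (nat_lit 456) (nat_lit 4991997777) (nat_lit 153) (nat_lit 5) (nat_lit 158) (nat_lit 5) (nat_lit 159) (nat_lit 5) (nat_lit 609) (nat_lit 515) (nat_lit 436)) (XT.lf (nat_lit 0) (nat_lit 2265956537) (nat_lit 380) (nat_lit 7911174324) (nat_lit 456) (nat_lit 1503686453) (nat_lit 148) (nat_lit 5) (nat_lit 153) (nat_lit 5) (nat_lit 154) (nat_lit 5) (nat_lit 610) (nat_lit 515) (nat_lit 435))) (XT.nd (nat_lit 78) (nat_lit 380) (nat_lit 0) (XT.lf (nat_lit 0) (nat_lit 2038941364) (nat_lit 456) (nat_lit 1561427451) (nat_lit 76) (nat_lit 8212278211) (nat_lit 147) (nat_lit 5) (nat_lit 153)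 (nat_lit 5) (nat_lit 148) (nat_lit 5) (nat_lit 611) (nat_lit 515) (nat_lit 434)) (XT.lf (nat_lit 0) (nat_lit 5650665124) (nat_lit 456) (nat_lit 5473112520) (nat_lit 76) (nat_lit 822771810) (nat_lit 142) (nat_lit 5) (nat_lit 148) (nat_lit 5) (nat_lit 143) (nat_lit 5) (nat_lit 612) (nat_lit 515) (nat_lit 433))))))) (XT.nd (nat_lit 936) (nat_lit 2204) (nat_lit 0) (XT.nd (nat_lit 468) (nat_lit 1368) (nat_lit 0) (XT.nd (nat_lit 234) (nat_lit 684) (nat_lit 0) (XT.nd (nat_lit 78) (nat_lit 456) (nat_lit 0) (XT.lf (nat_lit 0) (nat_lit 2571750527) (nat_lit 304) (nat_lit 6785017533) (nat_lit 380) (nat_lit 2725921395) (nat_lit 138) (nat_lit 5) (nat_lit 142) (nat_lit 5) (nat_lit 143) (nat_lit 5) (nat_lit 613) (nat_lit 515) (nat_lit 432)) (XT.nd (nat_lit 78) (nat_lit 380) (nat_lit 0) (XT.lf (nat_lit 0) (nat_lit 911544704) (nat_lit 380) (nat_lit 1420701392) (nat_lit 76) (nat_lit 9889027410) (nat_lit 137) (nat_lit 5) (nat_lit 142) (nat_lit 5) (nat_lit 138) (nat_lit 5) (nat_lit 614) (nat_lit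 515) (nat_lit 431)) (XT.lf (nat_lit 0) (nat_lit 4616186158) (nat_lit 456) (nat_lit 5517866004) (nat_lit 76) (nat_lit 2227600464) (nat_lit 132) (nat_lit 5) (nat_lit 138) (nat_lit 5) (nat_lit 133) (nat_lit 5) (nat_lit 615) (nat_lit 515) (nat_lit 430)))) (XT.nd (nat_lit 78) (nat_lit 380) (nat_lit 0) (XT.lf (nat_lit 0) (nat_lit 2764246991) (nat_lit 304) (nat_lit 5645530813) (nat_lit 380) (nat_lit 4094766611) (nat_lit 128) (nat_lit 5) (nat_lit 132) (nat_lit 5) (nat_lit 133) (nat_lit 5) (nat_lit 616) (nat_lit 515) (nat_lit 429)) (XT.nd (nat_lit 78) (nat_lit 380) (nat_lit 0) (XT.lf (nat_lit 0) (nat_lit 11242420416) (nat_lit 304) (nat_lit 1045980041) (nat_lit 380) (nat_lit 361712589) (nat_lit 128) (nat_lit 5) (nat_lit 132) (nat_lit 5) (nat_lit 133) (nat_lit 5) (nat_lit 617) (nat_lit 515) (nat_lit 428)) (XT.lf (nat_lit 0) (nat_lit 3443538896) (nat_lit 380) (nat_lit 5703112951) (nat_lit 76) (nat_lit 3650641207) (nat_lit 123) (nat_lit 5) (nat_lit 128) (nat_lit 5) (nat_lit 124) (nat_lit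 5) (nat_lit 618) (nat_lit 515) (nat_lit 427))))) (XT.nd (nat_lit 234) (nat_lit 684) (nat_lit 0) (XT.nd (nat_lit 78) (nat_lit 380) (nat_lit 0) (XT.lf (nat_lit 0) (nat_lit 2821536385) (nat_lit 304) (nat_lit 4505920464) (nat_lit 380) (nat_lit 5619765962) (nat_lit 119) (nat_lit 5) (nat_lit 123) (nat_lit 5) (nat_lit 124) (nat_lit 5) (nat_lit 619) (nat_lit 515) (nat_lit 426)) (XT.nd (nat_lit 78) (nat_lit 380) (nat_lit 0) (XT.lf (nat_lit 0) (nat_lit 11301844803) (nat_lit 380) (nat_lit 1551305343) (nat_lit 76) (nat_lit 246747208) (nat_lit 119) (nat_lit 5) (nat_lit 124) (nat_lit 5) (nat_lit 120) (nat_lit 5) (nat_lit 620) (nat_lit 515) (nat_lit 425)) (XT.lf (nat_lit 0) (nat_lit 2122896161) (nat_lit 380) (nat_lit 6052538810) (nat_lit 76) (nat_lit 5078912773) (nat_lit 114) (nat_lit 5) (nat_lit 119) (nat_lit 5) (nat_lit 115) (nat_lit 5) (nat_lit 621) (nat_lit 515) (nat_lit 424)))) (XT.nd (nat_lit 78) (nat_lit 380) (nat_lit 0) (XT.lf (nat_lit 0) (nat_lit 2719648393) (nat_lit 304) (nat_lit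 3380088532) (nat_lit 380) (nat_lit 7311883441) (nat_lit 110) (nat_lit 5) (nat_lit 114) (nat_lit 5) (nat_lit 115) (nat_lit 5) (nat_lit 622) (nat_lit 515) (nat_lit 423)) (XT.nd (nat_lit 78) (nat_lit 380) (nat_lit 0) (XT.lf (nat_lit 0) (nat_lit 10180333799) (nat_lit 380) (nat_lit 1875497371) (nat_lit 76) (nat_lit 1515724754) (nat_lit 110) (nat_lit 5) (nat_lit 115) (nat_lit 5) (nat_lit 111) (nat_lit 5) (nat_lit 623) (nat_lit 515) (nat_lit 422)) (XT.lf (nat_lit 0) (nat_lit 642985523) (nat_lit 380) (nat_lit 6592083520) (nat_lit 76) (nat_lit 6498681911) (nat_lit 105) (nat_lit 5) (nat_lit 110) (nat_lit 5) (nat_lit 106) (nat_lit 5) (nat_lit 624) (nat_lit 515) (nat_lit 421)))))) (XT.nd (nat_lit 468) (nat_lit 1064) (nat_lit 0) (XT.nd (nat_lit 234) (nat_lit 608) (nat_lit 0) (XT.nd (nat_lit 78) (nat_lit 304) (nat_lit 0) (XT.lf (nat_lit 0) (nat_lit 2432292495) (nat_lit 228) (nat_lit 2282783743) (nat_lit 304) (nat_lit 9183614943) (nat_lit 102) (nat_lit 5) (nat_lit 105) (nat_lit 5) (nat_lit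 106) (nat_lit 5) (nat_lit 625) (nat_lit 515) (nat_lit 420)) (XT.nd (nat_lit 78) (nat_lit 304) (nat_lit 0) (XT.lf (nat_lit 0) (nat_lit 8905340500) (nat_lit 304) (nat_lit 2400651095) (nat_lit 76) (nat_lit 2760205706) (nat_lit 102) (nat_lit 5) (nat_lit 106) (nat_lit 5) (nat_lit 103) (nat_lit 5) (nat_lit 626) (nat_lit 515) (nat_lit 419)) (XT.lf (nat_lit 0) (nat_lit 6879509016) (nat_lit 304) (nat_lit 6334417672) (nat_lit 380) (nat_lit 1022438217) (nat_lit 98) (nat_lit 5) (nat_lit 102) (nat_lit 5) (nat_lit 103) (nat_lit 5) (nat_lit 627) (nat_lit 515) (nat_lit 418)))) (XT.nd (nat_lit 78) (nat_lit 304) (nat_lit 0) (XT.lf (nat_lit 0) (nat_lit 1930573927) (nat_lit 228) (nat_lit 1229763052) (nat_lit 304) (nat_lit 11249114332) (nat_lit 94) (nat_lit 5) (nat_lit 97) (nat_lit 5) (nat_lit 98) (nat_lit 5) (nat_lit 628) (nat_lit 515) (nat_lit 417)) (XT.nd (nat_lit 78) (nat_lit 304) (nat_lit 0) (XT.lf (nat_lit 0) (nat_lit 7463509939) (nat_lit 304) (nat_lit 3156641275) (nat_lit 76) (nat_lit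 3964706007) (nat_lit 94) (nat_lit 5) (nat_lit 98) (nat_lit 5) (nat_lit 95) (nat_lit 5) (nat_lit 629) (nat_lit 515) (nat_lit 416)) (XT.lf (nat_lit 0) (nat_lit 6386293629) (nat_lit 304) (nat_lit 5491456367) (nat_lit 380) (nat_lit 2885522743) (nat_lit 90) (nat_lit 5) (nat_lit 94) (nat_lit 5) (nat_lit 95) (nat_lit 5) (nat_lit 630) (nat_lit 515) (nat_lit 415))))) (XT.nd (nat_lit 234) (nat_lit 532) (nat_lit 0) (XT.nd (nat_lit 78) (nat_lit 228) (nat_lit 0) (XT.lf (nat_lit 0) (nat_lit 1182682262) (nat_lit 228) (nat_lit 237965373) (nat_lit 304) (nat_lit 13524335097) (nat_lit 86) (nat_lit 5) (nat_lit 89) (nat_lit 5) (nat_lit 90) (nat_lit 5) (nat_lit 631) (nat_lit 515) (nat_lit 414)) (XT.nd (nat_lit 78) (nat_lit 228) (nat_lit 0) (XT.lf (nat_lit 0) (nat_lit 5839726195) (nat_lit 304) (nat_lit 4176363157) (nat_lit 76) (nat_lit 5112549143) (nat_lit 86) (nat_lit 5) (nat_lit 90) (nat_lit 5) (nat_lit 87) (nat_lit 5) (nat_lit 632) (nat_lit 515) (nat_lit 413)) (XT.lf (nat_lit 0) (nat_lit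 5632885905) (nat_lit 228) (nat_lit 4728481413) (nat_lit 304) (nat_lit 4954317878) (nat_lit 83) (nat_lit 5) (nat_lit 86) (nat_lit 5) (nat_lit 87) (nat_lit 5) (nat_lit 633) (nat_lit 515) (nat_lit 412)))) (XT.nd (nat_lit 156) (nat_lit 228) (nat_lit 0) (XT.nd (nat_lit 78) (nat_lit 76) (nat_lit 0) (XT.lf (nat_lit 0) (nat_lit 145618824) (nat_lit 228) (nat_lit 14837427650) (nat_lit 304) (nat_lit 523235671) (nat_lit 80) (nat_lit 5) (nat_lit 83) (nat_lit 5) (nat_lit 84) (nat_lit 5) (nat_lit 634) (nat_lit 515) (nat_lit 411)) (XT.lf (nat_lit 0) (nat_lit 4016953655) (nat_lit 304) (nat_lit 5496083135) (nat_lit 76) (nat_lit 6185678652) (nat_lit 79) (nat_lit 5) (nat_lit 83) (nat_lit 5) (nat_lit 80) (nat_lit 5) (nat_lit 635) (nat_lit 515) (nat_lit 410))) (XT.nd (nat_lit 78) (nat_lit 0) (nat_lit 0) (XT.lf (nat_lit 0) (nat_lit 4582365840) (nat_lit 228) (nat_lit 4064978639) (nat_lit 304) (nat_lit 7247457012) (nat_lit 76) (nat_lit 5) (nat_lit 79) (nat_lit 5) (nat_lit 80) (nat_lit 5) (nat_lit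 636) (nat_lit 515) (nat_lit 409)) (XT.lf (nat_lit 0) (nat_lit 13393893375) (nat_lit 304) (nat_lit 1207267631) (nat_lit 76) (nat_lit 1493178559) (nat_lit 76) (nat_lit 5) (nat_lit 80) (nat_lit 5) (nat_lit 77) (nat_lit 5) (nat_lit 637) (nat_lit 515) (nat_lit 408))))))))
noncomputable def xc72 : XT := (XT.nd (nat_lit 73866) (nat_lit 0) (nat_lit 24472) (XT.nd (nat_lit 72852) (nat_lit 0) (nat_lit 46436) (XT.nd (nat_lit 468) (nat_lit 456) (nat_lit 0) (XT.nd (nat_lit 234) (nat_lit 532) (nat_lit 0) (XT.nd (nat_lit 78) (nat_lit 228) (nat_lit 0) (XT.lf (nat_lit 0) (nat_lit 1976059668) (nat_lit 304) (nat_lit 7155824239) (nat_lit 76) (nat_lit 7164454848) (nat_lit 72) (nat_lit 5) (nat_lit 76) (nat_lit 5) (nat_lit 73) (nat_lit 5) (nat_lit 638) (nat_lit 515) (nat_lit 407)) (XT.nd (nat_lit 78) (nat_lit 0) (nat_lit 0) (XT.lf (nat_lit 0) (nat_lit 3193946368) (nat_lit 228) (nat_lit 3522151897) (nat_lit 304) (nat_lit 9785800668) (nat_lit 69) (nat_lit 5) (nat_lit 72) (nat_lit 5) (nat_lit 73)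 (nat_lit 5) (nat_lit 639) (nat_lit 515) (nat_lit 406)) (XT.lf (nat_lit 0) (nat_lit 11590877484) (nat_lit 304) (nat_lit 2916991296) (nat_lit 76) (nat_lit 2202903944) (nat_lit 69) (nat_lit 5) (nat_lit 73) (nat_lit 5) (nat_lit 70) (nat_lit 5) (nat_lit 640) (nat_lit 515) (nat_lit 405)))) (XT.nd (nat_lit 78) (nat_lit 304) (nat_lit 0) (XT.lf (nat_lit 0) (nat_lit 7721008026) (nat_lit 228) (nat_lit 8893364477) (nat_lit 304) (nat_lit 308428271) (nat_lit 66) (nat_lit 5) (nat_lit 69) (nat_lit 5) (nat_lit 70) (nat_lit 5) (nat_lit 641) (nat_lit 515) (nat_lit 404)) (XT.nd (nat_lit 78) (nat_lit 0) (nat_lit 0) (XT.lf (nat_lit 0) (nat_lit 1422536253) (nat_lit 228) (nat_lit 3123155676) (nat_lit 304) (nat_lit 12592646482) (nat_lit 62) (nat_lit 5) (nat_lit 65) (nat_lit 5) (nat_lit 66) (nat_lit 5) (nat_lit 642) (nat_lit 515) (nat_lit 403)) (XT.lf (nat_lit 0) (nat_lit 9550744074) (nat_lit 304) (nat_lit 5032093187) (nat_lit 76) (nat_lit 2774150294) (nat_lit 62) (nat_lit 5) (nat_lit 66) (nat_lit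 5) (nat_lit 63) (nat_lit 5) (nat_lit 643) (nat_lit 515) (nat_lit 402))))) (XT.nd (nat_lit 72150) (nat_lit 0) (nat_lit 51604) (XT.nd (nat_lit 78) (nat_lit 304) (nat_lit 0) (XT.lf (nat_lit 0) (nat_lit 5883695367) (nat_lit 152) (nat_lit 8809401608) (nat_lit 228) (nat_lit 2886169809) (nat_lit 60) (nat_lit 5) (nat_lit 62) (nat_lit 5) (nat_lit 63) (nat_lit 5) (nat_lit 644) (nat_lit 515) (nat_lit 401)) (XT.nd (nat_lit 78) (nat_lit 228) (nat_lit 0) (XT.lf (nat_lit 0) (nat_lit 2116683213) (nat_lit 228) (nat_lit 771488571) (nat_lit 76) (nat_lit 14917297109) (nat_lit 59) (nat_lit 5) (nat_lit 62) (nat_lit 5) (nat_lit 60) (nat_lit 5) (nat_lit 645) (nat_lit 515) (nat_lit 400)) (XT.lf (nat_lit 0) (nat_lit 7248551750) (nat_lit 304) (nat_lit 7604144063) (nat_lit 76) (nat_lit 3181766627) (nat_lit 56) (nat_lit 5) (nat_lit 60) (nat_lit 5) (nat_lit 57) (nat_lit 5) (nat_lit 646) (nat_lit 515) (nat_lit 399)))) (XT.nd (nat_lit 78) (nat_lit 456) (nat_lit 0) (XT.lf (nat_lit 0) (nat_lit 279074305)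 (nat_lit 380) (nat_lit 2678341287) (nat_lit 0) (nat_lit 279074305) (nat_lit 741) (nat_lit 5) (nat_lit 746) (nat_lit 4) (nat_lit 741) (nat_lit 4) (nat_lit 528) (nat_lit 516) (nat_lit 516)) (XT.nd (nat_lit 78) (nat_lit 456) (nat_lit 0) (XT.lf (nat_lit 0) (nat_lit 3729912523) (nat_lit 380) (nat_lit 1783554880) (nat_lit 0) (nat_lit 967705960) (nat_lit 741) (nat_lit 5) (nat_lit 746) (nat_lit 4) (nat_lit 741) (nat_lit 4) (nat_lit 529) (nat_lit 516) (nat_lit 515)) (XT.lf (nat_lit 0) (nat_lit 402925626) (nat_lit 456) (nat_lit 4656342446) (nat_lit 76) (nat_lit 1431551110) (nat_lit 735) (nat_lit 5) (nat_lit 741) (nat_lit 5) (nat_lit 736) (nat_lit 4) (nat_lit 530) (nat_lit 516) (nat_lit 514)))))) (XT.nd (nat_lit 468) (nat_lit 3420) (nat_lit 0) (XT.nd (nat_lit 234) (nat_lit 1216) (nat_lit 0) (XT.nd (nat_lit 78) (nat_lit 532) (nat_lit 0) (XT.lf (nat_lit 0) (nat_lit 3518240012) (nat_lit 456) (nat_lit 1018354102) (nat_lit 76) (nat_lit 1965023769) (nat_lit 735) (nat_lit 5) (nat_lit 741)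 (nat_lit 5) (nat_lit 736) (nat_lit 4) (nat_lit 531) (nat_lit 516) (nat_lit 513)) (XT.nd (nat_lit 78) (nat_lit 0) (nat_lit 0) (XT.lf (nat_lit 0) (nat_lit 122132506) (nat_lit 532) (nat_lit 3834809496) (nat_lit 76) (nat_lit 2556861136) (nat_lit 728) (nat_lit 5) (nat_lit 735) (nat_lit 5) (nat_lit 729) (nat_lit 5) (nat_lit 532) (nat_lit 516) (nat_lit 512)) (XT.lf (nat_lit 0) (nat_lit 3181699428) (nat_lit 532) (nat_lit 130235909) (nat_lit 76) (nat_lit 3215284603) (nat_lit 728) (nat_lit 5) (nat_lit 735) (nat_lit 5) (nat_lit 729) (nat_lit 5) (nat_lit 533) (nat_lit 516) (nat_lit 511)))) (XT.nd (nat_lit 78) (nat_lit 684) (nat_lit 0) (XT.lf (nat_lit 0) (nat_lit 3648803310) (nat_lit 532) (nat_lit 2603793334) (nat_lit 608) (nat_lit 289325380) (nat_lit 721) (nat_lit 5) (nat_lit 728) (nat_lit 5) (nat_lit 729) (nat_lit 5) (nat_lit 534) (nat_lit 516) (nat_lit 510)) (XT.nd (nat_lit 78) (nat_lit 0) (nat_lit 0) (XT.lf (nat_lit 0) (nat_lit 893483088) (nat_lit 608) (nat_lit 1831187530) (nat_lit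 684) (nat_lit 3833223936) (nat_lit 712) (nat_lit 5) (nat_lit 720) (nat_lit 5) (nat_lit 721) (nat_lit 5) (nat_lit 535) (nat_lit 516) (nat_lit 509)) (XT.lf (nat_lit 0) (nat_lit 4745253076) (nat_lit 608) (nat_lit 997429631) (nat_lit 684) (nat_lit 832531961) (nat_lit 712) (nat_lit 5) (nat_lit 720) (nat_lit 5) (nat_lit 721) (nat_lit 5) (nat_lit 536) (nat_lit 516) (nat_lit 508))))) (XT.nd (nat_lit 234) (nat_lit 1824) (nat_lit 0) (XT.nd (nat_lit 78) (nat_lit 836) (nat_lit 0) (XT.lf (nat_lit 0) (nat_lit 2045678944) (nat_lit 684) (nat_lit 95682405) (nat_lit 760) (nat_lit 4452400158) (nat_lit 702) (nat_lit 5) (nat_lit 711) (nat_lit 5) (nat_lit 712) (nat_lit 5) (nat_lit 537) (nat_lit 516) (nat_lit 507)) (XT.nd (nat_lit 78) (nat_lit 836) (nat_lit 0) (XT.lf (nat_lit 0) (nat_lit 5111661133) (nat_lit 760) (nat_lit 648845038) (nat_lit 76) (nat_lit 853119043) (nat_lit 702) (nat_lit 5) (nat_lit 712) (nat_lit 5) (nat_lit 703) (nat_lit 5) (nat_lit 538) (nat_lit 516) (nat_lit 506)) (XT.lf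 (nat_lit 0) (nat_lit 1441317242) (nat_lit 836) (nat_lit 3321120414) (nat_lit 76) (nat_lit 1872197476) (nat_lit 691) (nat_lit 5) (nat_lit 702) (nat_lit 5) (nat_lit 692) (nat_lit 5) (nat_lit 539) (nat_lit 516) (nat_lit 505)))) (XT.nd (nat_lit 156) (nat_lit 912) (nat_lit 0) (XT.nd (nat_lit 78) (nat_lit 76) (nat_lit 0) (XT.lf (nat_lit 0) (nat_lit 657850248) (nat_lit 836) (nat_lit 3706461370) (nat_lit 912) (nat_lit 2292752400) (nat_lit 680) (nat_lit 5) (nat_lit 691) (nat_lit 5) (nat_lit 692) (nat_lit 5) (nat_lit 540) (nat_lit 516) (nat_lit 504)) (XT.lf (nat_lit 0) (nat_lit 612367508) (nat_lit 912) (nat_lit 1971875766) (nat_lit 76) (nat_lit 4096522104) (nat_lit 679) (nat_lit 5) (nat_lit 691) (nat_lit 5) (nat_lit 680) (nat_lit 5) (nat_lit 541) (nat_lit 516) (nat_lit 503))) (XT.nd (nat_lit 78) (nat_lit 0) (nat_lit 0) (XT.lf (nat_lit 0) (nat_lit 2100005955) (nat_lit 912) (nat_lit 1392705524) (nat_lit 988) (nat_lit 3212985304) (nat_lit 667) (nat_lit 5) (nat_lit 679) (nat_lit 5)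 (nat_lit 680) (nat_lit 5) (nat_lit 542) (nat_lit 516) (nat_lit 502)) (XT.lf (nat_lit 0) (nat_lit 6232011564) (nat_lit 912) (nat_lit 147020468) (nat_lit 988) (nat_lit 353142640) (nat_lit 667) (nat_lit 5) (nat_lit 679) (nat_lit 5) (nat_lit 680) (nat_lit 5) (nat_lit 543) (nat_lit 516) (nat_lit 501))))))) (XT.nd (nat_lit 936) (nat_lit 11552) (nat_lit 0) (XT.nd (nat_lit 468) (nat_lit 5776) (nat_lit 0) (XT.nd (nat_lit 234) (nat_lit 2432) (nat_lit 0) (XT.nd (nat_lit 78) (nat_lit 1140) (nat_lit 0) (XT.lf (nat_lit 0) (nat_lit 2497746211) (nat_lit 1064) (nat_lit 3096327043) (nat_lit 76) (nat_lit 1165441084) (nat_lit 653) (nat_lit 5) (nat_lit 667) (nat_lit 5) (nat_lit 654) (nat_lit 5) (nat_lit 544) (nat_lit 516) (nat_lit 500)) (XT.nd (nat_lit 78) (nat_lit 76) (nat_lit 0) (XT.lf (nat_lit 0) (nat_lit 1091200453) (nat_lit 1064) (nat_lit 4258184788) (nat_lit 1140) (nat_lit 1439014021) (nat_lit 639) (nat_lit 5) (nat_lit 653) (nat_lit 5) (nat_lit 654) (nat_lit 5) (nat_lit 545) (nat_lit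 516) (nat_lit 499)) (XT.lf (nat_lit 0) (nat_lit 1379735647) (nat_lit 1140) (nat_lit 1472033432) (nat_lit 76) (nat_lit 3966751023) (nat_lit 638) (nat_lit 5) (nat_lit 653) (nat_lit 5) (nat_lit 639) (nat_lit 5) (nat_lit 546) (nat_lit 516) (nat_lit 498)))) (XT.nd (nat_lit 78) (nat_lit 1292) (nat_lit 0) (XT.lf (nat_lit 0) (nat_lit 2816466538) (nat_lit 1140) (nat_lit 1376168295) (nat_lit 1216) (nat_lit 2657290972) (nat_lit 623) (nat_lit 5) (nat_lit 638) (nat_lit 5) (nat_lit 639) (nat_lit 5) (nat_lit 547) (nat_lit 516) (nat_lit 497)) (XT.nd (nat_lit 78) (nat_lit 0) (nat_lit 0) (XT.lf (nat_lit 0) (nat_lit 129462822) (nat_lit 1292) (nat_lit 6601609036) (nat_lit 76) (nat_lit 151837645) (nat_lit 606) (nat_lit 5) (nat_lit 623) (nat_lit 5) (nat_lit 607) (nat_lit 5) (nat_lit 548) (nat_lit 516) (nat_lit 496)) (XT.lf (nat_lit 0) (nat_lit 2912924674) (nat_lit 1292) (nat_lit 2255911504) (nat_lit 76) (nat_lit 1747847081) (nat_lit 606) (nat_lit 5) (nat_lit 623) (nat_lit 5) (nat_lit 607)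 (nat_lit 5) (nat_lit 549) (nat_lit 516) (nat_lit 495))))) (XT.nd (nat_lit 234) (nat_lit 3040) (nat_lit 0) (XT.nd (nat_lit 78) (nat_lit 1444) (nat_lit 0) (XT.lf (nat_lit 0) (nat_lit 2155917321) (nat_lit 1292) (nat_lit 3551470664) (nat_lit 1368) (nat_lit 1244650371) (nat_lit 589) (nat_lit 5) (nat_lit 606) (nat_lit 5) (nat_lit 607) (nat_lit 5) (nat_lit 550) (nat_lit 516) (nat_lit 494)) (XT.nd (nat_lit 78) (nat_lit 1368) (nat_lit 0) (XT.lf (nat_lit 0) (nat_lit 1506065868) (nat_lit 1368) (nat_lit 361047963) (nat_lit 76) (nat_lit 5121654683) (nat_lit 588) (nat_lit 5) (nat_lit 606) (nat_lit 5) (nat_lit 589) (nat_lit 5) (nat_lit 551) (nat_lit 516) (nat_lit 493)) (XT.lf (nat_lit 0) (nat_lit 4160499575) (nat_lit 1368) (nat_lit 104574353) (nat_lit 1444) (nat_lit 2761607726) (nat_lit 570) (nat_lit 5) (nat_lit 588) (nat_lit 5) (nat_lit 589) (nat_lit 5) (nat_lit 552) (nat_lit 516) (nat_lit 492)))) (XT.nd (nat_lit 78) (nat_lit 1596) (nat_lit 0) (XT.lf (nat_lit 0) (nat_lit 1673587484)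 (nat_lit 1444) (nat_lit 5373746539) (nat_lit 1520) (nat_lit 18669154) (nat_lit 551) (nat_lit 5) (nat_lit 570) (nat_lit 5) (nat_lit 571) (nat_lit 5) (nat_lit 553) (nat_lit 516) (nat_lit 491)) (XT.nd (nat_lit 78) (nat_lit 1520) (nat_lit 0) (XT.lf (nat_lit 0) (nat_lit 2706911791) (nat_lit 1520) (nat_lit 831433794) (nat_lit 76) (nat_lit 3568131124) (nat_lit 550) (nat_lit 5) (nat_lit 570) (nat_lit 5) (nat_lit 551) (nat_lit 5) (nat_lit 554) (nat_lit 516) (nat_lit 490)) (XT.lf (nat_lit 0) (nat_lit 3821898636) (nat_lit 1520) (nat_lit 1634943664) (nat_lit 1596) (nat_lit 1691524077) (nat_lit 530) (nat_lit 5) (nat_lit 550) (nat_lit 5) (nat_lit 551) (nat_lit 5) (nat_lit 555) (nat_lit 516) (nat_lit 489)))))) (XT.nd (nat_lit 468) (nat_lit 4712) (nat_lit 0) (XT.nd (nat_lit 234) (nat_lit 3496) (nat_lit 0) (XT.nd (nat_lit 78) (nat_lit 1672) (nat_lit 0) (XT.lf (nat_lit 0) (nat_lit 1018844571) (nat_lit 1672) (nat_lit 5843907021) (nat_lit 76) (nat_lit 328969499) (nat_lit 508) (nat_lit 5)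 (nat_lit 530) (nat_lit 5) (nat_lit 509) (nat_lit 5) (nat_lit 556) (nat_lit 516) (nat_lit 488)) (XT.nd (nat_lit 78) (nat_lit 1672) (nat_lit 0) (XT.lf (nat_lit 0) (nat_lit 3740530819) (nat_lit 1672) (nat_lit 1147070520) (nat_lit 76) (nat_lit 2348533010) (nat_lit 508) (nat_lit 5) (nat_lit 530) (nat_lit 5) (nat_lit 509) (nat_lit 5) (nat_lit 557) (nat_lit 516) (nat_lit 487)) (XT.lf (nat_lit 0) (nat_lit 3642385693) (nat_lit 1672) (nat_lit 2845405000) (nat_lit 1748) (nat_lit 794232440) (nat_lit 486) (nat_lit 5) (nat_lit 508) (nat_lit 5) (nat_lit 509) (nat_lit 5) (nat_lit 558) (nat_lit 516) (nat_lit 486)))) (XT.nd (nat_lit 78) (nat_lit 1672) (nat_lit 0) (XT.lf (nat_lit 0) (nat_lit 1167565475) (nat_lit 1748) (nat_lit 731059920) (nat_lit 1824) (nat_lit 5430695696) (nat_lit 462) (nat_lit 5) (nat_lit 485) (nat_lit 5) (nat_lit 486) (nat_lit 5) (nat_lit 559) (nat_lit 516) (nat_lit 485)) (XT.nd (nat_lit 78) (nat_lit 1672) (nat_lit 0) (XT.lf (nat_lit 0) (nat_lit 4617126702) (nat_lit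 1824) (nat_lit 1321700375) (nat_lit 76) (nat_lit 1438993993) (nat_lit 462) (nat_lit 5) (nat_lit 486) (nat_lit 5) (nat_lit 463) (nat_lit 5) (nat_lit 560) (nat_lit 516) (nat_lit 484)) (XT.lf (nat_lit 0) (nat_lit 3608428713) (nat_lit 1672) (nat_lit 3759417280) (nat_lit 1748) (nat_lit 59897390) (nat_lit 440) (nat_lit 5) (nat_lit 462) (nat_lit 5) (nat_lit 463) (nat_lit 5) (nat_lit 561) (nat_lit 516) (nat_lit 483))))) (XT.nd (nat_lit 234) (nat_lit 2660) (nat_lit 0) (XT.nd (nat_lit 78) (nat_lit 988) (nat_lit 0) (XT.lf (nat_lit 0) (nat_lit 1124216176) (nat_lit 988) (nat_lit 1501493226) (nat_lit 1064) (nat_lit 4853290969) (nat_lit 426) (nat_lit 5) (nat_lit 439) (nat_lit 5) (nat_lit 440) (nat_lit 5) (nat_lit 562) (nat_lit 516) (nat_lit 482)) (XT.nd (nat_lit 78) (nat_lit 988) (nat_lit 0) (XT.lf (nat_lit 0) (nat_lit 5345805532) (nat_lit 1064) (nat_lit 1368385592) (nat_lit 76) (nat_lit 817460628) (nat_lit 426) (nat_lit 5) (nat_lit 440) (nat_lit 5) (nat_lit 427) (nat_lit 5) (nat_lit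 563) (nat_lit 516) (nat_lit 481)) (XT.lf (nat_lit 0) (nat_lit 513384232) (nat_lit 988) (nat_lit 3881862946) (nat_lit 76) (nat_lit 3190338882) (nat_lit 413) (nat_lit 5) (nat_lit 426) (nat_lit 5) (nat_lit 414) (nat_lit 5) (nat_lit 564) (nat_lit 516) (nat_lit 480)))) (XT.nd (nat_lit 156) (nat_lit 1748) (nat_lit 0) (XT.nd (nat_lit 78) (nat_lit 0) (nat_lit 0) (XT.lf (nat_lit 0) (nat_lit 1207129099) (nat_lit 912) (nat_lit 1999161207) (nat_lit 988) (nat_lit 4434648842) (nat_lit 401) (nat_lit 5) (nat_lit 413) (nat_lit 5) (nat_lit 414) (nat_lit 5) (nat_lit 565) (nat_lit 516) (nat_lit 479)) (XT.lf (nat_lit 0) (nat_lit 5934629010) (nat_lit 988) (nat_lit 1299613075) (nat_lit 76) (nat_lit 463533815) (nat_lit 401) (nat_lit 5) (nat_lit 414) (nat_lit 5) (nat_lit 402) (nat_lit 5) (nat_lit 566) (nat_lit 516) (nat_lit 478))) (XT.nd (nat_lit 78) (nat_lit 836) (nat_lit 0) (XT.lf (nat_lit 0) (nat_lit 941239340) (nat_lit 912) (nat_lit 3835794933) (nat_lit 76) (nat_lit 2978756636) (nat_lit 389)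 (nat_lit 5) (nat_lit 401) (nat_lit 5) (nat_lit 390) (nat_lit 5) (nat_lit 567) (nat_lit 516) (nat_lit 477)) (XT.lf (nat_lit 0) (nat_lit 1403991490) (nat_lit 836) (nat_lit 2243710339) (nat_lit 912) (nat_lit 4167606984) (nat_lit 378) (nat_lit 5) (nat_lit 389) (nat_lit 5) (nat_lit 390) (nat_lit 5) (nat_lit 568) (nat_lit 516) (nat_lit 476))))))))
noncomputable def xc73 : XT := (XT.nd (nat_lit 1950) (nat_lit 7600) (nat_lit 0) (XT.nd (nat_lit 936) (nat_lit 5548) (nat_lit 0) (XT.nd (nat_lit 468) (nat_lit 2964) (nat_lit 0) (XT.nd (nat_lit 234) (nat_lit 1596) (nat_lit 0) (XT.nd (nat_lit 78) (nat_lit 1672) (nat_lit 0) (XT.lf (nat_lit 0) (nat_lit 6390660541) (nat_lit 912) (nat_lit 1127397046) (nat_lit 76) (nat_lit 358319623) (nat_lit 378) (nat_lit 5) (nat_lit 390) (nat_lit 5) (nat_lit 379) (nat_lit 5) (nat_lit 569) (nat_lit 516) (nat_lit 475)) (XT.nd (nat_lit 78) (nat_lit 836) (nat_lit 0) (XT.lf (nat_lit 0) (nat_lit 1231020087) (nat_lit 836) (nat_lit 3692787422) (nat_lit 76) (nat_lit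 3014752356) (nat_lit 367) (nat_lit 5) (nat_lit 378) (nat_lit 5) (nat_lit 368) (nat_lit 5) (nat_lit 570) (nat_lit 516) (nat_lit 474)) (XT.lf (nat_lit 0) (nat_lit 1702918993) (nat_lit 836) (nat_lit 2253375945) (nat_lit 912) (nat_lit 4046019926) (nat_lit 356) (nat_lit 5) (nat_lit 367) (nat_lit 5) (nat_lit 368) (nat_lit 5) (nat_lit 571) (nat_lit 516) (nat_lit 473)))) (XT.nd (nat_lit 78) (nat_lit 1596) (nat_lit 0) (XT.lf (nat_lit 0) (nat_lit 6720004338) (nat_lit 912) (nat_lit 863380449) (nat_lit 76) (nat_lit 484288501) (nat_lit 356) (nat_lit 5) (nat_lit 368) (nat_lit 5) (nat_lit 357) (nat_lit 5) (nat_lit 572) (nat_lit 516) (nat_lit 472)) (XT.nd (nat_lit 78) (nat_lit 760) (nat_lit 0) (XT.lf (nat_lit 0) (nat_lit 1388329283) (nat_lit 836) (nat_lit 3464571120) (nat_lit 76) (nat_lit 3281220668) (nat_lit 345) (nat_lit 5) (nat_lit 356) (nat_lit 5) (nat_lit 346) (nat_lit 5) (nat_lit 573) (nat_lit 516) (nat_lit 471)) (XT.lf (nat_lit 0) (nat_lit 2092353005) (nat_lit 760) (nat_lit 2045119473)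 (nat_lit 836) (nat_lit 4064724270) (nat_lit 335) (nat_lit 5) (nat_lit 345) (nat_lit 5) (nat_lit 346) (nat_lit 5) (nat_lit 574) (nat_lit 516) (nat_lit 470))))) (XT.nd (nat_lit 234) (nat_lit 1444) (nat_lit 0) (XT.nd (nat_lit 78) (nat_lit 1520) (nat_lit 0) (XT.lf (nat_lit 0) (nat_lit 6927837745) (nat_lit 836) (nat_lit 518935923) (nat_lit 76) (nat_lit 825141868) (nat_lit 335) (nat_lit 5) (nat_lit 346) (nat_lit 5) (nat_lit 336) (nat_lit 5) (nat_lit 575) (nat_lit 516) (nat_lit 469)) (XT.nd (nat_lit 78) (nat_lit 760) (nat_lit 0) (XT.lf (nat_lit 0) (nat_lit 1417835883) (nat_lit 760) (nat_lit 3162643603) (nat_lit 76) (nat_lit 3762257092) (nat_lit 325) (nat_lit 5) (nat_lit 335) (nat_lit 5) (nat_lit 326) (nat_lit 5) (nat_lit 576) (nat_lit 516) (nat_lit 468)) (XT.lf (nat_lit 0) (nat_lit 2560958005) (nat_lit 760) (nat_lit 1634759021) (nat_lit 836) (nat_lit 4219510811) (nat_lit 315) (nat_lit 5) (nat_lit 325) (nat_lit 5) (nat_lit 326) (nat_lit 5) (nat_lit 577) (nat_lit 516) (nat_lit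 467)))) (XT.nd (nat_lit 78) (nat_lit 1444) (nat_lit 0) (XT.lf (nat_lit 0) (nat_lit 7018436883) (nat_lit 836) (nat_lit 105267142) (nat_lit 76) (nat_lit 1365685168) (nat_lit 315) (nat_lit 5) (nat_lit 326) (nat_lit 5) (nat_lit 316) (nat_lit 5) (nat_lit 578) (nat_lit 516) (nat_lit 466)) (XT.nd (nat_lit 78) (nat_lit 684) (nat_lit 0) (XT.lf (nat_lit 0) (nat_lit 1323298210) (nat_lit 760) (nat_lit 2798371832) (nat_lit 76) (nat_lit 4443032403) (nat_lit 305) (nat_lit 5) (nat_lit 315) (nat_lit 5) (nat_lit 306) (nat_lit 5) (nat_lit 579) (nat_lit 516) (nat_lit 465)) (XT.lf (nat_lit 0) (nat_lit 3097518048) (nat_lit 684) (nat_lit 1037094030) (nat_lit 760) (nat_lit 4507103491) (nat_lit 296) (nat_lit 5) (nat_lit 305) (nat_lit 5) (nat_lit 306) (nat_lit 5) (nat_lit 580) (nat_lit 516) (nat_lit 464)))))) (XT.nd (nat_lit 468) (nat_lit 2888) (nat_lit 0) (XT.nd (nat_lit 234) (nat_lit 1292) (nat_lit 0) (XT.nd (nat_lit 78) (nat_lit 760) (nat_lit 0) (XT.lf (nat_lit 0) (nat_lit 371359060) (nat_lit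 608) (nat_lit 6626247734) (nat_lit 684) (nat_lit 1722758515) (nat_lit 288) (nat_lit 5) (nat_lit 296) (nat_lit 5) (nat_lit 297) (nat_lit 5) (nat_lit 581) (nat_lit 516) (nat_lit 463)) (XT.nd (nat_lit 78) (nat_lit 684) (nat_lit 0) (XT.lf (nat_lit 0) (nat_lit 1107580529) (nat_lit 684) (nat_lit 2383096177) (nat_lit 76) (nat_lit 5309672282) (nat_lit 287) (nat_lit 5) (nat_lit 296) (nat_lit 5) (nat_lit 288) (nat_lit 5) (nat_lit 582) (nat_lit 516) (nat_lit 462)) (XT.lf (nat_lit 0) (nat_lit 3690831555) (nat_lit 684) (nat_lit 266025057) (nat_lit 760) (nat_lit 4925145151) (nat_lit 278) (nat_lit 5) (nat_lit 287) (nat_lit 5) (nat_lit 288) (nat_lit 5) (nat_lit 583) (nat_lit 516) (nat_lit 461)))) (XT.nd (nat_lit 78) (nat_lit 684) (nat_lit 0) (XT.lf (nat_lit 0) (nat_lit 896919121) (nat_lit 608) (nat_lit 5969542643) (nat_lit 684) (nat_lit 2098763989) (nat_lit 270) (nat_lit 5) (nat_lit 278) (nat_lit 5) (nat_lit 279) (nat_lit 5) (nat_lit 584) (nat_lit 516) (nat_lit 460)) (XT.nd (nat_lit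 78) (nat_lit 608) (nat_lit 0) (XT.lf (nat_lit 0) (nat_lit 772662974) (nat_lit 684) (nat_lit 1928236837) (nat_lit 76) (nat_lit 6349141377) (nat_lit 269) (nat_lit 5) (nat_lit 278) (nat_lit 5) (nat_lit 270) (nat_lit 5) (nat_lit 585) (nat_lit 516) (nat_lit 459)) (XT.lf (nat_lit 0) (nat_lit 3668592760) (nat_lit 684) (nat_lit 4811179351) (nat_lit 76) (nat_lit 656604568) (nat_lit 261) (nat_lit 5) (nat_lit 270) (nat_lit 5) (nat_lit 262) (nat_lit 5) (nat_lit 586) (nat_lit 516) (nat_lit 458))))) (XT.nd (nat_lit 234) (nat_lit 1672) (nat_lit 0) (XT.nd (nat_lit 78) (nat_lit 684) (nat_lit 0) (XT.lf (nat_lit 0) (nat_lit 1458542321) (nat_lit 532) (nat_lit 5167352799) (nat_lit 608) (nat_lit 2598479329) (nat_lit 254) (nat_lit 5) (nat_lit 261) (nat_lit 5) (nat_lit 262) (nat_lit 5) (nat_lit 587) (nat_lit 516) (nat_lit 457)) (XT.nd (nat_lit 78) (nat_lit 608) (nat_lit 0) (XT.lf (nat_lit 0) (nat_lit 319644785) (nat_lit 608) (nat_lit 1445403562) (nat_lit 76) (nat_lit 7549130915) (nat_lit 253)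 (nat_lit 5) (nat_lit 261) (nat_lit 5) (nat_lit 254) (nat_lit 5) (nat_lit 588) (nat_lit 516) (nat_lit 456)) (XT.lf (nat_lit 0) (nat_lit 3269134795) (nat_lit 684) (nat_lit 4414504228) (nat_lit 76) (nat_lit 1721646068) (nat_lit 245) (nat_lit 5) (nat_lit 254) (nat_lit 5) (nat_lit 246) (nat_lit 5) (nat_lit 589) (nat_lit 516) (nat_lit 455)))) (XT.nd (nat_lit 156) (nat_lit 1140) (nat_lit 0) (XT.nd (nat_lit 78) (nat_lit 0) (nat_lit 0) (XT.lf (nat_lit 0) (nat_lit 2044496139) (nat_lit 532) (nat_lit 4232130209) (nat_lit 608) (nat_lit 3221610748) (nat_lit 238) (nat_lit 5) (nat_lit 245) (nat_lit 5) (nat_lit 246) (nat_lit 5) (nat_lit 590) (nat_lit 516) (nat_lit 454)) (XT.lf (nat_lit 0) (nat_lit 8645003679) (nat_lit 532) (nat_lit 693564316) (nat_lit 608) (nat_lit 254598349) (nat_lit 238) (nat_lit 5) (nat_lit 245) (nat_lit 5) (nat_lit 246) (nat_lit 5) (nat_lit 591) (nat_lit 516) (nat_lit 453))) (XT.nd (nat_lit 78) (nat_lit 532) (nat_lit 0) (XT.lf (nat_lit 0) (nat_lit 2756744245) (nat_lit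 608) (nat_lit 4011609350) (nat_lit 76) (nat_lit 2920857867) (nat_lit 230) (nat_lit 5) (nat_lit 238) (nat_lit 5) (nat_lit 231) (nat_lit 5) (nat_lit 592) (nat_lit 516) (nat_lit 452)) (XT.lf (nat_lit 0) (nat_lit 2642669368) (nat_lit 532) (nat_lit 3175830751) (nat_lit 608) (nat_lit 3968775761) (nat_lit 223) (nat_lit 5) (nat_lit 230) (nat_lit 5) (nat_lit 231) (nat_lit 5) (nat_lit 593) (nat_lit 516) (nat_lit 451))))))) (XT.nd (nat_lit 936) (nat_lit 3572) (nat_lit 0) (XT.nd (nat_lit 468) (nat_lit 1900) (nat_lit 0) (XT.nd (nat_lit 234) (nat_lit 1064) (nat_lit 0) (XT.nd (nat_lit 78) (nat_lit 1064) (nat_lit 0) (XT.lf (nat_lit 0) (nat_lit 8937486607) (nat_lit 608) (nat_lit 453346985) (nat_lit 76) (nat_lit 496551974) (nat_lit 223) (nat_lit 5) (nat_lit 231) (nat_lit 5) (nat_lit 224) (nat_lit 5) (nat_lit 594) (nat_lit 516) (nat_lit 450)) (XT.nd (nat_lit 78) (nat_lit 456) (nat_lit 0) (XT.lf (nat_lit 0) (nat_lit 2130519102) (nat_lit 608) (nat_lit 3615168696) (nat_lit 76) (nat_lit 4242955070)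 (nat_lit 215) (nat_lit 5) (nat_lit 223) (nat_lit 5) (nat_lit 216) (nat_lit 5) (nat_lit 595) (nat_lit 516) (nat_lit 449)) (XT.lf (nat_lit 0) (nat_lit 3240448143) (nat_lit 456) (nat_lit 2010022661) (nat_lit 532) (nat_lit 4841519711) (nat_lit 209) (nat_lit 5) (nat_lit 215) (nat_lit 5) (nat_lit 216) (nat_lit 5) (nat_lit 596) (nat_lit 516) (nat_lit 448)))) (XT.nd (nat_lit 78) (nat_lit 532) (nat_lit 0) (XT.lf (nat_lit 0) (nat_lit 26638541) (nat_lit 532) (nat_lit 8409263321) (nat_lit 608) (nat_lit 1761445239) (nat_lit 202) (nat_lit 5) (nat_lit 209) (nat_lit 5) (nat_lit 210) (nat_lit 5) (nat_lit 597) (nat_lit 516) (nat_lit 447)) (XT.nd (nat_lit 78) (nat_lit 456) (nat_lit 0) (XT.lf (nat_lit 0) (nat_lit 1388646035) (nat_lit 608) (nat_lit 3238467025) (nat_lit 76) (nat_lit 5676991638) (nat_lit 201) (nat_lit 5) (nat_lit 209) (nat_lit 5) (nat_lit 202) (nat_lit 5) (nat_lit 598) (nat_lit 516) (nat_lit 446)) (XT.lf (nat_lit 0) (nat_lit 3824584825) (nat_lit 456) (nat_lit 745994837) (nat_lit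 532) (nat_lit 5842339784) (nat_lit 195) (nat_lit 5) (nat_lit 201) (nat_lit 5) (nat_lit 202) (nat_lit 5) (nat_lit 599) (nat_lit 516) (nat_lit 445))))) (XT.nd (nat_lit 234) (nat_lit 912) (nat_lit 0) (XT.nd (nat_lit 78) (nat_lit 532) (nat_lit 0) (XT.lf (nat_lit 0) (nat_lit 488139684) (nat_lit 456) (nat_lit 7341735649) (nat_lit 532) (nat_lit 2693764006) (nat_lit 189) (nat_lit 5) (nat_lit 195) (nat_lit 5) (nat_lit 196) (nat_lit 5) (nat_lit 600) (nat_lit 516) (nat_lit 444)) (XT.nd (nat_lit 78) (nat_lit 456) (nat_lit 0) (XT.lf (nat_lit 0) (nat_lit 528372265) (nat_lit 532) (nat_lit 2895536426) (nat_lit 76) (nat_lit 7212253297) (nat_lit 188) (nat_lit 5) (nat_lit 195) (nat_lit 5) (nat_lit 189) (nat_lit 5) (nat_lit 601) (nat_lit 516) (nat_lit 443)) (XT.lf (nat_lit 0) (nat_lit 3779853320) (nat_lit 532) (nat_lit 6373511676) (nat_lit 76) (nat_lit 597197676) (nat_lit 182) (nat_lit 5) (nat_lit 189) (nat_lit 5) (nat_lit 183) (nat_lit 5) (nat_lit 602) (nat_lit 516) (nat_lit 442)))) (XT.nd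 (nat_lit 78) (nat_lit 456) (nat_lit 0) (XT.lf (nat_lit 0) (nat_lit 910599002) (nat_lit 456) (nat_lit 6202703289) (nat_lit 532) (nat_lit 3753613378) (nat_lit 176) (nat_lit 5) (nat_lit 182) (nat_lit 5) (nat_lit 183) (nat_lit 5) (nat_lit 603) (nat_lit 516) (nat_lit 441)) (XT.nd (nat_lit 78) (nat_lit 456) (nat_lit 0) (XT.lf (nat_lit 0) (nat_lit 8381072003) (nat_lit 456) (nat_lit 2144224909) (nat_lit 532) (nat_lit 460064288) (nat_lit 176) (nat_lit 5) (nat_lit 182) (nat_lit 5) (nat_lit 183) (nat_lit 5) (nat_lit 604) (nat_lit 516) (nat_lit 440)) (XT.lf (nat_lit 0) (nat_lit 2875815698) (nat_lit 456) (nat_lit 6224045442) (nat_lit 76) (nat_lit 2005651189) (nat_lit 170) (nat_lit 5) (nat_lit 176) (nat_lit 5) (nat_lit 171) (nat_lit 5) (nat_lit 605) (nat_lit 516) (nat_lit 439)))))) (XT.nd (nat_lit 468) (nat_lit 1824) (nat_lit 0) (XT.nd (nat_lit 234) (nat_lit 836) (nat_lit 0) (XT.nd (nat_lit 78) (nat_lit 456) (nat_lit 0) (XT.lf (nat_lit 0) (nat_lit 1278488376) (nat_lit 456) (nat_lit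 5003582983) (nat_lit 532) (nat_lit 4945740767) (nat_lit 164) (nat_lit 5) (nat_lit 170) (nat_lit 5) (nat_lit 171) (nat_lit 5) (nat_lit 606) (nat_lit 516) (nat_lit 438)) (XT.nd (nat_lit 78) (nat_lit 456) (nat_lit 0) (XT.lf (nat_lit 0) (nat_lit 8970300885) (nat_lit 456) (nat_lit 797938249) (nat_lit 532) (nat_lit 1584085824) (nat_lit 164) (nat_lit 5) (nat_lit 170) (nat_lit 5) (nat_lit 171) (nat_lit 5) (nat_lit 607) (nat_lit 516) (nat_lit 437)) (XT.lf (nat_lit 0) (nat_lit 1848637758) (nat_lit 456) (nat_lit 6151710094) (nat_lit 76) (nat_lit 3478182700) (nat_lit 158) (nat_lit 5) (nat_lit 164) (nat_lit 5) (nat_lit 159) (nat_lit 5) (nat_lit 608) (nat_lit 516) (nat_lit 436)))) (XT.nd (nat_lit 78) (nat_lit 456) (nat_lit 0) (XT.lf (nat_lit 0) (nat_lit 1575119037) (nat_lit 380) (nat_lit 3755912539) (nat_lit 456) (nat_lit 6275977349) (nat_lit 153) (nat_lit 5) (nat_lit 158) (nat_lit 5) (nat_lit 159) (nat_lit 5) (nat_lit 609) (nat_lit 516) (nat_lit 435)) (XT.nd (nat_lit 78) (nat_lit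 456) (nat_lit 0) (XT.lf (nat_lit 0) (nat_lit 8899142928) (nat_lit 456) (nat_lit 2246392533) (nat_lit 76) (nat_lit 592202579) (nat_lit 153) (nat_lit 5) (nat_lit 159) (nat_lit 5) (nat_lit 154) (nat_lit 5) (nat_lit 610) (nat_lit 516) (nat_lit 434)) (XT.lf (nat_lit 0) (nat_lit 692247788) (nat_lit 456) (nat_lit 6174423237) (nat_lit 76) (nat_lit 5003657138) (nat_lit 147) (nat_lit 5) (nat_lit 153) (nat_lit 5) (nat_lit 148) (nat_lit 5) (nat_lit 611) (nat_lit 516) (nat_lit 433))))) (XT.nd (nat_lit 234) (nat_lit 1140) (nat_lit 0) (XT.nd (nat_lit 78) (nat_lit 304) (nat_lit 0) (XT.lf (nat_lit 0) (nat_lit 1782463056) (nat_lit 380) (nat_lit 2471469705) (nat_lit 456) (nat_lit 7751299803) (nat_lit 142) (nat_lit 5) (nat_lit 147) (nat_lit 5) (nat_lit 148) (nat_lit 5) (nat_lit 612) (nat_lit 516) (nat_lit 432)) (XT.nd (nat_lit 78) (nat_lit 304) (nat_lit 0) (XT.lf (nat_lit 0) (nat_lit 7913244154) (nat_lit 456) (nat_lit 2217579568) (nat_lit 76) (nat_lit 2011485847) (nat_lit 142) (nat_lit 5)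 (nat_lit 148) (nat_lit 5) (nat_lit 143) (nat_lit 5) (nat_lit 613) (nat_lit 516) (nat_lit 431)) (XT.lf (nat_lit 0) (nat_lit 5966042614) (nat_lit 304) (nat_lit 5706982232) (nat_lit 380) (nat_lit 608559930) (nat_lit 138) (nat_lit 5) (nat_lit 142) (nat_lit 5) (nat_lit 143) (nat_lit 5) (nat_lit 614) (nat_lit 516) (nat_lit 430)))) (XT.nd (nat_lit 156) (nat_lit 684) (nat_lit 0) (XT.nd (nat_lit 78) (nat_lit 0) (nat_lit 0) (XT.lf (nat_lit 0) (nat_lit 1880959842) (nat_lit 380) (nat_lit 1162396133) (nat_lit 456) (nat_lit 9379902190) (nat_lit 132) (nat_lit 5) (nat_lit 137) (nat_lit 5) (nat_lit 138) (nat_lit 5) (nat_lit 615) (nat_lit 516) (nat_lit 429)) (XT.lf (nat_lit 0) (nat_lit 6797799547) (nat_lit 456) (nat_lit 2310573031) (nat_lit 76) (nat_lit 3458561421) (nat_lit 132) (nat_lit 5) (nat_lit 138) (nat_lit 5) (nat_lit 133) (nat_lit 5) (nat_lit 616) (nat_lit 516) (nat_lit 428))) (XT.nd (nat_lit 78) (nat_lit 380) (nat_lit 0) (XT.lf (nat_lit 0) (nat_lit 6115355578) (nat_lit 304) (nat_lit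 4532339658) (nat_lit 380) (nat_lit 2065382997) (nat_lit 128) (nat_lit 5) (nat_lit 132) (nat_lit 5) (nat_lit 133) (nat_lit 5) (nat_lit 617) (nat_lit 516) (nat_lit 427)) (XT.lf (nat_lit 0) (nat_lit 1691663543) (nat_lit 380) (nat_lit 11013636501) (nat_lit 76) (nat_lit 156591423) (nat_lit 123) (nat_lit 5) (nat_lit 128) (nat_lit 5) (nat_lit 124) (nat_lit 5) (nat_lit 618) (nat_lit 516) (nat_lit 426))))))))
noncomputable def xc74 : XT := (XT.nd (nat_lit 1950) (nat_lit 456) (nat_lit 0) (XT.nd (nat_lit 936) (nat_lit 2432) (nat_lit 0) (XT.nd (nat_lit 468) (nat_lit 912) (nat_lit 0) (XT.nd (nat_lit 234) (nat_lit 608) (nat_lit 0) (XT.nd (nat_lit 78) (nat_lit 684) (nat_lit 0) (XT.lf (nat_lit 0) (nat_lit 5543985672) (nat_lit 380) (nat_lit 2547360664) (nat_lit 76) (nat_lit 4921107806) (nat_lit 123) (nat_lit 5) (nat_lit 128) (nat_lit 5) (nat_lit 124) (nat_lit 5) (nat_lit 619) (nat_lit 516) (nat_lit 425)) (XT.nd (nat_lit 78) (nat_lit 380) (nat_lit 0) (XT.lf (nat_lit 0) (nat_lit 6126269720)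 (nat_lit 304) (nat_lit 3360567575) (nat_lit 380) (nat_lit 3678923099) (nat_lit 119) (nat_lit 5) (nat_lit 123) (nat_lit 5) (nat_lit 124) (nat_lit 5) (nat_lit 620) (nat_lit 516) (nat_lit 424)) (XT.lf (nat_lit 0) (nat_lit 195355531) (nat_lit 380) (nat_lit 11667448960) (nat_lit 76) (nat_lit 1459078235) (nat_lit 114) (nat_lit 5) (nat_lit 119) (nat_lit 5) (nat_lit 115) (nat_lit 5) (nat_lit 621) (nat_lit 516) (nat_lit 423)))) (XT.nd (nat_lit 78) (nat_lit 608) (nat_lit 0) (XT.lf (nat_lit 0) (nat_lit 4141623430) (nat_lit 380) (nat_lit 2951983927) (nat_lit 76) (nat_lit 6386160374) (nat_lit 114) (nat_lit 5) (nat_lit 119) (nat_lit 5) (nat_lit 115) (nat_lit 5) (nat_lit 622) (nat_lit 516) (nat_lit 422)) (XT.nd (nat_lit 78) (nat_lit 304) (nat_lit 0) (XT.lf (nat_lit 0) (nat_lit 5974452247) (nat_lit 304) (nat_lit 2205577574) (nat_lit 380) (nat_lit 5460518185) (nat_lit 110) (nat_lit 5) (nat_lit 114) (nat_lit 5) (nat_lit 115) (nat_lit 5) (nat_lit 623) (nat_lit 516) (nat_lit 421)) (XT.lf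 (nat_lit 0) (nat_lit 1271959992) (nat_lit 304) (nat_lit 11048045534) (nat_lit 380) (nat_lit 1484124133) (nat_lit 106) (nat_lit 5) (nat_lit 110) (nat_lit 5) (nat_lit 111) (nat_lit 5) (nat_lit 624) (nat_lit 516) (nat_lit 420))))) (XT.nd (nat_lit 234) (nat_lit 304) (nat_lit 0) (XT.nd (nat_lit 78) (nat_lit 532) (nat_lit 0) (XT.lf (nat_lit 0) (nat_lit 2579070622) (nat_lit 380) (nat_lit 3550794393) (nat_lit 76) (nat_lit 7839965652) (nat_lit 105) (nat_lit 5) (nat_lit 110) (nat_lit 5) (nat_lit 106) (nat_lit 5) (nat_lit 625) (nat_lit 516) (nat_lit 419)) (XT.nd (nat_lit 78) (nat_lit 304) (nat_lit 0) (XT.lf (nat_lit 0) (nat_lit 5633193282) (nat_lit 228) (nat_lit 1082166096) (nat_lit 304) (nat_lit 7423057758) (nat_lit 102) (nat_lit 5) (nat_lit 105) (nat_lit 5) (nat_lit 106) (nat_lit 5) (nat_lit 626) (nat_lit 516) (nat_lit 418)) (XT.lf (nat_lit 0) (nat_lit 680268681) (nat_lit 304) (nat_lit 10284137785) (nat_lit 380) (nat_lit 3345369877) (nat_lit 98) (nat_lit 5) (nat_lit 102) (nat_lit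 5) (nat_lit 103) (nat_lit 5) (nat_lit 627) (nat_lit 516) (nat_lit 417)))) (XT.nd (nat_lit 78) (nat_lit 228) (nat_lit 0) (XT.lf (nat_lit 0) (nat_lit 843100698) (nat_lit 380) (nat_lit 4372734475) (nat_lit 76) (nat_lit 9267825413) (nat_lit 97) (nat_lit 5) (nat_lit 102) (nat_lit 5) (nat_lit 98) (nat_lit 5) (nat_lit 628) (nat_lit 516) (nat_lit 416)) (XT.nd (nat_lit 78) (nat_lit 0) (nat_lit 0) (XT.lf (nat_lit 0) (nat_lit 5073116985) (nat_lit 228) (nat_lit 6177584) (nat_lit 304) (nat_lit 9581112282) (nat_lit 94) (nat_lit 5) (nat_lit 97) (nat_lit 5) (nat_lit 98) (nat_lit 5) (nat_lit 629) (nat_lit 516) (nat_lit 415)) (XT.lf (nat_lit 0) (nat_lit 9440088831) (nat_lit 304) (nat_lit 148145622) (nat_lit 76) (nat_lit 5251657592) (nat_lit 94) (nat_lit 5) (nat_lit 98) (nat_lit 5) (nat_lit 95) (nat_lit 5) (nat_lit 630) (nat_lit 516) (nat_lit 414)))))) (XT.nd (nat_lit 468) (nat_lit 1292) (nat_lit 0) (XT.nd (nat_lit 234) (nat_lit 532) (nat_lit 0) (XT.nd (nat_lit 78) (nat_lit 304) (nat_lit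 0) (XT.lf (nat_lit 0) (nat_lit 9565439898) (nat_lit 304) (nat_lit 4361156055) (nat_lit 380) (nat_lit 1095602553) (nat_lit 90) (nat_lit 5) (nat_lit 94) (nat_lit 5) (nat_lit 95) (nat_lit 5) (nat_lit 631) (nat_lit 516) (nat_lit 413)) (XT.nd (nat_lit 78) (nat_lit 0) (nat_lit 0) (XT.lf (nat_lit 0) (nat_lit 3263072033) (nat_lit 304) (nat_lit 10952285800) (nat_lit 76) (nat_lit 992134877) (nat_lit 86) (nat_lit 5) (nat_lit 90) (nat_lit 5) (nat_lit 87) (nat_lit 5) (nat_lit 632) (nat_lit 516) (nat_lit 412)) (XT.lf (nat_lit 0) (nat_lit 7736508340) (nat_lit 304) (nat_lit 1236670077) (nat_lit 76) (nat_lit 6422325794) (nat_lit 86) (nat_lit 5) (nat_lit 90) (nat_lit 5) (nat_lit 87) (nat_lit 5) (nat_lit 633) (nat_lit 516) (nat_lit 411)))) (XT.nd (nat_lit 78) (nat_lit 304) (nat_lit 0) (XT.lf (nat_lit 0) (nat_lit 8748874359) (nat_lit 228) (nat_lit 3584305825) (nat_lit 304) (nat_lit 3253421809) (nat_lit 83) (nat_lit 5) (nat_lit 86) (nat_lit 5) (nat_lit 87) (nat_lit 5) (nat_lit 634) (nat_lit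 516) (nat_lit 410)) (XT.nd (nat_lit 78) (nat_lit 0) (nat_lit 0) (XT.lf (nat_lit 0) (nat_lit 1242458125) (nat_lit 304) (nat_lit 12630052977) (nat_lit 76) (nat_lit 1908481698) (nat_lit 79) (nat_lit 5) (nat_lit 83) (nat_lit 5) (nat_lit 80) (nat_lit 5) (nat_lit 635) (nat_lit 516) (nat_lit 409)) (XT.lf (nat_lit 0) (nat_lit 5831762271) (nat_lit 304) (nat_lit 2631143548) (nat_lit 76) (nat_lit 7514995411) (nat_lit 79) (nat_lit 5) (nat_lit 83) (nat_lit 5) (nat_lit 80) (nat_lit 5) (nat_lit 636) (nat_lit 516) (nat_lit 408))))) (XT.nd (nat_lit 234) (nat_lit 760) (nat_lit 0) (XT.nd (nat_lit 78) (nat_lit 304) (nat_lit 0) (XT.lf (nat_lit 0) (nat_lit 7629302951) (nat_lit 228) (nat_lit 2910636456) (nat_lit 304) (nat_lit 5638267968) (nat_lit 76) (nat_lit 5) (nat_lit 79) (nat_lit 5) (nat_lit 80) (nat_lit 5) (nat_lit 637) (nat_lit 516) (nat_lit 407)) (XT.nd (nat_lit 78) (nat_lit 76) (nat_lit 0) (XT.lf (nat_lit 0) (nat_lit 1714362695) (nat_lit 228) (nat_lit 13652334076) (nat_lit 304) (nat_lit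 1015335795) (nat_lit 73) (nat_lit 5) (nat_lit 76) (nat_lit 5) (nat_lit 77) (nat_lit 5) (nat_lit 638) (nat_lit 516) (nat_lit 406)) (XT.lf (nat_lit 0) (nat_lit 3706233323) (nat_lit 304) (nat_lit 4372321938) (nat_lit 76) (nat_lit 8509805641) (nat_lit 72) (nat_lit 5) (nat_lit 76) (nat_lit 5) (nat_lit 73) (nat_lit 5) (nat_lit 639) (nat_lit 516) (nat_lit 405)))) (XT.nd (nat_lit 156) (nat_lit 532) (nat_lit 0) (XT.nd (nat_lit 78) (nat_lit 0) (nat_lit 0) (XT.lf (nat_lit 0) (nat_lit 6165190010) (nat_lit 228) (nat_lit 2361609173) (nat_lit 304) (nat_lit 8271520365) (nat_lit 69) (nat_lit 5) (nat_lit 72) (nat_lit 5) (nat_lit 73) (nat_lit 5) (nat_lit 640) (nat_lit 516) (nat_lit 404)) (XT.lf (nat_lit 0) (nat_lit 13474039474) (nat_lit 304) (nat_lit 99851022) (nat_lit 76) (nat_lit 3437982771) (nat_lit 69) (nat_lit 5) (nat_lit 73) (nat_lit 5) (nat_lit 70) (nat_lit 5) (nat_lit 641) (nat_lit 516) (nat_lit 403))) (XT.nd (nat_lit 78) (nat_lit 228) (nat_lit 0) (XT.lf (nat_lit 0) (nat_lit 1337970608)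 (nat_lit 304) (nat_lit 6505232038) (nat_lit 76) (nat_lit 9385041559) (nat_lit 65) (nat_lit 5) (nat_lit 69) (nat_lit 5) (nat_lit 66) (nat_lit 5) (nat_lit 642) (nat_lit 516) (nat_lit 402)) (XT.lf (nat_lit 0) (nat_lit 4310603116) (nat_lit 228) (nat_lit 1960688245) (nat_lit 304) (nat_lit 11177037159) (nat_lit 62) (nat_lit 5) (nat_lit 65) (nat_lit 5) (nat_lit 66) (nat_lit 5) (nat_lit 643) (nat_lit 516) (nat_lit 401))))))) (XT.nd (nat_lit 72696) (nat_lit 0) (nat_lit 43092) (XT.nd (nat_lit 72228) (nat_lit 0) (nat_lit 50464) (XT.nd (nat_lit 71994) (nat_lit 0) (nat_lit 52060) (XT.nd (nat_lit 78) (nat_lit 456) (nat_lit 0) (XT.lf (nat_lit 0) (nat_lit 11352189011) (nat_lit 304) (nat_lit 2304852957) (nat_lit 76) (nat_lit 4014795417) (nat_lit 62) (nat_lit 5) (nat_lit 66) (nat_lit 5) (nat_lit 63) (nat_lit 5) (nat_lit 644) (nat_lit 516) (nat_lit 400)) (XT.nd (nat_lit 78) (nat_lit 304) (nat_lit 0) (XT.lf (nat_lit 0) (nat_lit 8810646881) (nat_lit 152) (nat_lit 7773404722) (nat_lit 228)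 (nat_lit 1314778936) (nat_lit 60) (nat_lit 5) (nat_lit 62) (nat_lit 5) (nat_lit 63) (nat_lit 5) (nat_lit 645) (nat_lit 516) (nat_lit 399)) (XT.lf (nat_lit 0) (nat_lit 2014722651) (nat_lit 228) (nat_lit 1733598810) (nat_lit 304) (nat_lit 14381394088) (nat_lit 56) (nat_lit 5) (nat_lit 59) (nat_lit 5) (nat_lit 60) (nat_lit 5) (nat_lit 646) (nat_lit 516) (nat_lit 398)))) (XT.nd (nat_lit 78) (nat_lit 380) (nat_lit 0) (XT.lf (nat_lit 0) (nat_lit 273153019) (nat_lit 228) (nat_lit 1478285290) (nat_lit 228) (nat_lit 1478285290) (nat_lit 746) (nat_lit 4) (nat_lit 749) (nat_lit 5) (nat_lit 749) (nat_lit 4) (nat_lit 526) (nat_lit 517) (nat_lit 517)) (XT.nd (nat_lit 78) (nat_lit 304) (nat_lit 0) (XT.lf (nat_lit 0) (nat_lit 221401794) (nat_lit 304) (nat_lit 2426568082) (nat_lit 76) (nat_lit 3817891727) (nat_lit 745) (nat_lit 5) (nat_lit 749) (nat_lit 5) (nat_lit 746) (nat_lit 4) (nat_lit 527) (nat_lit 517) (nat_lit 516)) (XT.lf (nat_lit 0) (nat_lit 1077828470) (nat_lit 304) (nat_lit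 2273200674) (nat_lit 380) (nat_lit 3122453273) (nat_lit 741) (nat_lit 5) (nat_lit 745) (nat_lit 5) (nat_lit 746) (nat_lit 4) (nat_lit 528) (nat_lit 517) (nat_lit 515))))) (XT.nd (nat_lit 234) (nat_lit 1140) (nat_lit 0) (XT.nd (nat_lit 78) (nat_lit 456) (nat_lit 0) (XT.lf (nat_lit 0) (nat_lit 4639047444) (nat_lit 304) (nat_lit 1842390382) (nat_lit 380) (nat_lit 1076260) (nat_lit 741) (nat_lit 5) (nat_lit 745) (nat_lit 5) (nat_lit 746) (nat_lit 4) (nat_lit 529) (nat_lit 517) (nat_lit 514)) (XT.nd (nat_lit 78) (nat_lit 0) (nat_lit 0) (XT.lf (nat_lit 0) (nat_lit 1735563170) (nat_lit 380) (nat_lit 1339599465) (nat_lit 456) (nat_lit 3417488288) (nat_lit 735) (nat_lit 5) (nat_lit 740) (nat_lit 5) (nat_lit 741) (nat_lit 5) (nat_lit 530) (nat_lit 517) (nat_lit 513)) (XT.lf (nat_lit 0) (nat_lit 5365160552) (nat_lit 380) (nat_lit 784242895) (nat_lit 456) (nat_lit 354878010) (nat_lit 735) (nat_lit 5) (nat_lit 740) (nat_lit 5) (nat_lit 741) (nat_lit 5) (nat_lit 531) (nat_lit 517)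 (nat_lit 512)))) (XT.nd (nat_lit 78) (nat_lit 608) (nat_lit 0) (XT.lf (nat_lit 0) (nat_lit 2520171513) (nat_lit 456) (nat_lit 153955719) (nat_lit 532) (nat_lit 3842848759) (nat_lit 728) (nat_lit 5) (nat_lit 734) (nat_lit 5) (nat_lit 735) (nat_lit 5) (nat_lit 532) (nat_lit 517) (nat_lit 511)) (XT.nd (nat_lit 78) (nat_lit 608) (nat_lit 0) (XT.lf (nat_lit 0) (nat_lit 5696282941) (nat_lit 532) (nat_lit 314736532) (nat_lit 76) (nat_lit 520131310) (nat_lit 728) (nat_lit 5) (nat_lit 735) (nat_lit 5) (nat_lit 729) (nat_lit 5) (nat_lit 533) (nat_lit 517) (nat_lit 510)) (XT.lf (nat_lit 0) (nat_lit 2154876178) (nat_lit 608) (nat_lit 3122280332) (nat_lit 76) (nat_lit 1269163656) (nat_lit 720) (nat_lit 5) (nat_lit 728) (nat_lit 5) (nat_lit 721) (nat_lit 5) (nat_lit 534) (nat_lit 517) (nat_lit 509)))))) (XT.nd (nat_lit 468) (nat_lit 4332) (nat_lit 0) (XT.nd (nat_lit 234) (nat_lit 1672) (nat_lit 0) (XT.nd (nat_lit 78) (nat_lit 760) (nat_lit 0) (XT.lf (nat_lit 0) (nat_lit 635689749)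 (nat_lit 608) (nat_lit 4492325730) (nat_lit 684) (nat_lit 1434990092) (nat_lit 712) (nat_lit 5) (nat_lit 720) (nat_lit 5) (nat_lit 721) (nat_lit 5) (nat_lit 535) (nat_lit 517) (nat_lit 508)) (XT.nd (nat_lit 78) (nat_lit 684) (nat_lit 0) (XT.lf (nat_lit 0) (nat_lit 1510082517) (nat_lit 684) (nat_lit 2126725087) (nat_lit 76) (nat_lit 2944025313) (nat_lit 711) (nat_lit 5) (nat_lit 720) (nat_lit 5) (nat_lit 712) (nat_lit 5) (nat_lit 536) (nat_lit 517) (nat_lit 507)) (XT.lf (nat_lit 0) (nat_lit 1715956752) (nat_lit 684) (nat_lit 2720562530) (nat_lit 760) (nat_lit 2163491793) (nat_lit 702) (nat_lit 5) (nat_lit 711) (nat_lit 5) (nat_lit 712) (nat_lit 5) (nat_lit 537) (nat_lit 517) (nat_lit 506)))) (XT.nd (nat_lit 78) (nat_lit 1596) (nat_lit 0) (XT.lf (nat_lit 0) (nat_lit 736868522) (nat_lit 760) (nat_lit 1007814101) (nat_lit 76) (nat_lit 4875893403) (nat_lit 701) (nat_lit 5) (nat_lit 711) (nat_lit 5) (nat_lit 702) (nat_lit 5) (nat_lit 538) (nat_lit 517) (nat_lit 505)) (XT.nd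 (nat_lit 78) (nat_lit 836) (nat_lit 0) (XT.lf (nat_lit 0) (nat_lit 2923349475) (nat_lit 760) (nat_lit 694383442) (nat_lit 836) (nat_lit 3024520529) (nat_lit 691) (nat_lit 5) (nat_lit 701) (nat_lit 5) (nat_lit 702) (nat_lit 5) (nat_lit 539) (nat_lit 517) (nat_lit 504)) (XT.lf (nat_lit 0) (nat_lit 235378339) (nat_lit 836) (nat_lit 6265233000) (nat_lit 912) (nat_lit 164881324) (nat_lit 680) (nat_lit 5) (nat_lit 691) (nat_lit 5) (nat_lit 692) (nat_lit 5) (nat_lit 540) (nat_lit 517) (nat_lit 503))))) (XT.nd (nat_lit 234) (nat_lit 3268) (nat_lit 0) (XT.nd (nat_lit 78) (nat_lit 988) (nat_lit 0) (XT.lf (nat_lit 0) (nat_lit 2679736266) (nat_lit 912) (nat_lit 2440533063) (nat_lit 76) (nat_lit 1569307981) (nat_lit 679) (nat_lit 5) (nat_lit 691) (nat_lit 5) (nat_lit 680) (nat_lit 5) (nat_lit 541) (nat_lit 517) (nat_lit 502)) (XT.nd (nat_lit 78) (nat_lit 76) (nat_lit 0) (XT.lf (nat_lit 0) (nat_lit 1601336765) (nat_lit 912) (nat_lit 3923549991) (nat_lit 988) (nat_lit 1190333377) (nat_lit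 667) (nat_lit 5) (nat_lit 679) (nat_lit 5) (nat_lit 680) (nat_lit 5) (nat_lit 542) (nat_lit 517) (nat_lit 501)) (XT.lf (nat_lit 0) (nat_lit 1615916990) (nat_lit 988) (nat_lit 1042941031) (nat_lit 76) (nat_lit 4083264393) (nat_lit 666) (nat_lit 5) (nat_lit 679) (nat_lit 5) (nat_lit 667) (nat_lit 5) (nat_lit 543) (nat_lit 517) (nat_lit 500)))) (XT.nd (nat_lit 156) (nat_lit 1140) (nat_lit 0) (XT.nd (nat_lit 78) (nat_lit 1140) (nat_lit 0) (XT.lf (nat_lit 0) (nat_lit 3095103957) (nat_lit 988) (nat_lit 1324588944) (nat_lit 1064) (nat_lit 2350580064) (nat_lit 653) (nat_lit 5) (nat_lit 666) (nat_lit 5) (nat_lit 667) (nat_lit 5) (nat_lit 544) (nat_lit 517) (nat_lit 499)) (XT.lf (nat_lit 0) (nat_lit 422613889) (nat_lit 1140) (nat_lit 6313537532) (nat_lit 76) (nat_lit 63819341) (nat_lit 638) (nat_lit 5) (nat_lit 653) (nat_lit 5) (nat_lit 639) (nat_lit 5) (nat_lit 545) (nat_lit 517) (nat_lit 498))) (XT.nd (nat_lit 78) (nat_lit 1140) (nat_lit 0) (XT.lf (nat_lit 0) (nat_lit 3192163176)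 (nat_lit 1140) (nat_lit 2121763349) (nat_lit 76) (nat_lit 1516591470) (nat_lit 638) (nat_lit 5) (nat_lit 653) (nat_lit 5) (nat_lit 639) (nat_lit 5) (nat_lit 546) (nat_lit 517) (nat_lit 497)) (XT.lf (nat_lit 0) (nat_lit 2134212103) (nat_lit 1140) (nat_lit 3836687812) (nat_lit 1216) (nat_lit 891713602) (nat_lit 623) (nat_lit 5) (nat_lit 638) (nat_lit 5) (nat_lit 639) (nat_lit 5) (nat_lit 547) (nat_lit 517) (nat_lit 496))))))))
noncomputable def xc75 : XT := (XT.nd (nat_lit 1950) (nat_lit 11172) (nat_lit 0) (XT.nd (nat_lit 936) (nat_lit 9804) (nat_lit 0) (XT.nd (nat_lit 468) (nat_lit 4940) (nat_lit 0) (XT.nd (nat_lit 234) (nat_lit 2888) (nat_lit 0) (XT.nd (nat_lit 78) (nat_lit 2584) (nat_lit 0) (XT.lf (nat_lit 0) (nat_lit 1839550109) (nat_lit 1216) (nat_lit 451608643) (nat_lit 76) (nat_lit 4604862200) (nat_lit 622) (nat_lit 5) (nat_lit 638) (nat_lit 5) (nat_lit 623) (nat_lit 5) (nat_lit 548) (nat_lit 517) (nat_lit 495)) (XT.nd (nat_lit 78) (nat_lit 1368) (nat_lit 0) (XT.lf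 (nat_lit 0) (nat_lit 3908907872) (nat_lit 1216) (nat_lit 671555475) (nat_lit 1292) (nat_lit 2350188525) (nat_lit 606) (nat_lit 5) (nat_lit 622) (nat_lit 5) (nat_lit 623) (nat_lit 5) (nat_lit 549) (nat_lit 517) (nat_lit 494)) (XT.lf (nat_lit 0) (nat_lit 365299644) (nat_lit 1368) (nat_lit 5608977185) (nat_lit 76) (nat_lit 992448132) (nat_lit 588) (nat_lit 5) (nat_lit 606) (nat_lit 5) (nat_lit 589) (nat_lit 5) (nat_lit 550) (nat_lit 517) (nat_lit 493)))) (XT.nd (nat_lit 78) (nat_lit 2888) (nat_lit 0) (XT.lf (nat_lit 0) (nat_lit 3071432201) (nat_lit 1368) (nat_lit 1206019851) (nat_lit 76) (nat_lit 2726412479) (nat_lit 588) (nat_lit 5) (nat_lit 606) (nat_lit 5) (nat_lit 589) (nat_lit 5) (nat_lit 551) (nat_lit 517) (nat_lit 492)) (XT.nd (nat_lit 78) (nat_lit 1520) (nat_lit 0) (XT.lf (nat_lit 0) (nat_lit 3280421937) (nat_lit 1368) (nat_lit 2516598521) (nat_lit 1444) (nat_lit 1245431330) (nat_lit 570) (nat_lit 5) (nat_lit 588) (nat_lit 5) (nat_lit 589) (nat_lit 5) (nat_lit 552)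 (nat_lit 517) (nat_lit 491)) (XT.lf (nat_lit 0) (nat_lit 743242939) (nat_lit 1444) (nat_lit 689875901) (nat_lit 1520) (nat_lit 5649360478) (nat_lit 550) (nat_lit 5) (nat_lit 569) (nat_lit 5) (nat_lit 570) (nat_lit 5) (nat_lit 553) (nat_lit 517) (nat_lit 490))))) (XT.nd (nat_lit 234) (nat_lit 1748) (nat_lit 0) (XT.nd (nat_lit 78) (nat_lit 3192) (nat_lit 0) (XT.lf (nat_lit 0) (nat_lit 4126883424) (nat_lit 1520) (nat_lit 1798089808) (nat_lit 76) (nat_lit 1198614018) (nat_lit 550) (nat_lit 5) (nat_lit 570) (nat_lit 5) (nat_lit 551) (nat_lit 5) (nat_lit 554) (nat_lit 517) (nat_lit 489)) (XT.nd (nat_lit 78) (nat_lit 1672) (nat_lit 0) (XT.lf (nat_lit 0) (nat_lit 2818362192) (nat_lit 1520) (nat_lit 4025374958) (nat_lit 1596) (nat_lit 322406588) (nat_lit 530) (nat_lit 5) (nat_lit 550) (nat_lit 5) (nat_lit 551) (nat_lit 5) (nat_lit 555) (nat_lit 517) (nat_lit 488)) (XT.lf (nat_lit 0) (nat_lit 281891514) (nat_lit 1596) (nat_lit 2052643124) (nat_lit 1672) (nat_lit 4875500533) (nat_lit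 508) (nat_lit 5) (nat_lit 529) (nat_lit 5) (nat_lit 530) (nat_lit 5) (nat_lit 556) (nat_lit 517) (nat_lit 487)))) (XT.nd (nat_lit 78) (nat_lit 1748) (nat_lit 0) (XT.lf (nat_lit 0) (nat_lit 5012932592) (nat_lit 1596) (nat_lit 3992601) (nat_lit 1672) (nat_lit 2238314131) (nat_lit 508) (nat_lit 5) (nat_lit 529) (nat_lit 5) (nat_lit 530) (nat_lit 5) (nat_lit 557) (nat_lit 517) (nat_lit 486)) (XT.nd (nat_lit 78) (nat_lit 0) (nat_lit 0) (XT.lf (nat_lit 0) (nat_lit 423888571) (nat_lit 1748) (nat_lit 4796099452) (nat_lit 76) (nat_lit 2081746648) (nat_lit 485) (nat_lit 5) (nat_lit 508) (nat_lit 5) (nat_lit 486) (nat_lit 5) (nat_lit 558) (nat_lit 517) (nat_lit 485)) (XT.lf (nat_lit 0) (nat_lit 3073439328) (nat_lit 1748) (nat_lit 33374649) (nat_lit 76) (nat_lit 4242778024) (nat_lit 485) (nat_lit 5) (nat_lit 508) (nat_lit 5) (nat_lit 486) (nat_lit 5) (nat_lit 559) (nat_lit 517) (nat_lit 484)))))) (XT.nd (nat_lit 468) (nat_lit 4332) (nat_lit 0) (XT.nd (nat_lit 234) (nat_lit 1976)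 (nat_lit 0) (XT.nd (nat_lit 78) (nat_lit 1748) (nat_lit 0) (XT.lf (nat_lit 0) (nat_lit 4840542799) (nat_lit 1748) (nat_lit 916742649) (nat_lit 1824) (nat_lit 1641504237) (nat_lit 462) (nat_lit 5) (nat_lit 485) (nat_lit 5) (nat_lit 486) (nat_lit 5) (nat_lit 560) (nat_lit 517) (nat_lit 483)) (XT.nd (nat_lit 78) (nat_lit 0) (nat_lit 0) (XT.lf (nat_lit 0) (nat_lit 1006462229) (nat_lit 1748) (nat_lit 5118832765) (nat_lit 76) (nat_lit 1324062629) (nat_lit 439) (nat_lit 5) (nat_lit 462) (nat_lit 5) (nat_lit 440) (nat_lit 5) (nat_lit 561) (nat_lit 517) (nat_lit 482)) (XT.lf (nat_lit 0) (nat_lit 3659673961) (nat_lit 1748) (nat_lit 214489576) (nat_lit 76) (nat_lit 3627079820) (nat_lit 439) (nat_lit 5) (nat_lit 462) (nat_lit 5) (nat_lit 440) (nat_lit 5) (nat_lit 562) (nat_lit 517) (nat_lit 481)))) (XT.nd (nat_lit 78) (nat_lit 988) (nat_lit 0) (XT.lf (nat_lit 0) (nat_lit 4803299330) (nat_lit 988) (nat_lit 1545692798) (nat_lit 1064) (nat_lit 1205522419) (nat_lit 426) (nat_lit 5) (nat_lit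 439) (nat_lit 5) (nat_lit 440) (nat_lit 5) (nat_lit 563) (nat_lit 517) (nat_lit 480)) (XT.nd (nat_lit 78) (nat_lit 0) (nat_lit 0) (XT.lf (nat_lit 0) (nat_lit 1437821421) (nat_lit 988) (nat_lit 5326924696) (nat_lit 76) (nat_lit 844440116) (nat_lit 413) (nat_lit 5) (nat_lit 426) (nat_lit 5) (nat_lit 414) (nat_lit 5) (nat_lit 564) (nat_lit 517) (nat_lit 479)) (XT.lf (nat_lit 0) (nat_lit 4099521372) (nat_lit 988) (nat_lit 277824460) (nat_lit 76) (nat_lit 3287821618) (nat_lit 413) (nat_lit 5) (nat_lit 426) (nat_lit 5) (nat_lit 414) (nat_lit 5) (nat_lit 565) (nat_lit 517) (nat_lit 478))))) (XT.nd (nat_lit 234) (nat_lit 2508) (nat_lit 0) (XT.nd (nat_lit 78) (nat_lit 912) (nat_lit 0) (XT.lf (nat_lit 0) (nat_lit 4888725876) (nat_lit 912) (nat_lit 1911191224) (nat_lit 988) (nat_lit 922649889) (nat_lit 401) (nat_lit 5) (nat_lit 413) (nat_lit 5) (nat_lit 414) (nat_lit 5) (nat_lit 566) (nat_lit 517) (nat_lit 477)) (XT.nd (nat_lit 78) (nat_lit 0) (nat_lit 0) (XT.lf (nat_lit 0) (nat_lit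 1725213462) (nat_lit 912) (nat_lit 5432896362) (nat_lit 76) (nat_lit 623276798) (nat_lit 389) (nat_lit 5) (nat_lit 401) (nat_lit 5) (nat_lit 390) (nat_lit 5) (nat_lit 567) (nat_lit 517) (nat_lit 476)) (XT.lf (nat_lit 0) (nat_lit 4400079485) (nat_lit 912) (nat_lit 235552804) (nat_lit 76) (nat_lit 3205907866) (nat_lit 389) (nat_lit 5) (nat_lit 401) (nat_lit 5) (nat_lit 390) (nat_lit 5) (nat_lit 568) (nat_lit 517) (nat_lit 475)))) (XT.nd (nat_lit 156) (nat_lit 836) (nat_lit 0) (XT.nd (nat_lit 78) (nat_lit 836) (nat_lit 0) (XT.lf (nat_lit 0) (nat_lit 5084838833) (nat_lit 836) (nat_lit 2032097299) (nat_lit 912) (nat_lit 786198091) (nat_lit 378) (nat_lit 5) (nat_lit 389) (nat_lit 5) (nat_lit 390) (nat_lit 5) (nat_lit 569) (nat_lit 517) (nat_lit 474)) (XT.lf (nat_lit 0) (nat_lit 1874896638) (nat_lit 836) (nat_lit 5448855527) (nat_lit 76) (nat_lit 642406720) (nat_lit 367) (nat_lit 5) (nat_lit 378) (nat_lit 5) (nat_lit 368) (nat_lit 5) (nat_lit 570) (nat_lit 517) (nat_lit 473)))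 (XT.nd (nat_lit 78) (nat_lit 836) (nat_lit 0) (XT.lf (nat_lit 0) (nat_lit 4567471882) (nat_lit 836) (nat_lit 99448659) (nat_lit 76) (nat_lit 3363650754) (nat_lit 367) (nat_lit 5) (nat_lit 378) (nat_lit 5) (nat_lit 368) (nat_lit 5) (nat_lit 571) (nat_lit 517) (nat_lit 472)) (XT.lf (nat_lit 0) (nat_lit 5380045605) (nat_lit 836) (nat_lit 1925921970) (nat_lit 912) (nat_lit 790469769) (nat_lit 356) (nat_lit 5) (nat_lit 367) (nat_lit 5) (nat_lit 368) (nat_lit 5) (nat_lit 572) (nat_lit 517) (nat_lit 471))))))) (XT.nd (nat_lit 936) (nat_lit 5244) (nat_lit 0) (XT.nd (nat_lit 468) (nat_lit 2812) (nat_lit 0) (XT.nd (nat_lit 234) (nat_lit 1520) (nat_lit 0) (XT.nd (nat_lit 78) (nat_lit 760) (nat_lit 0) (XT.lf (nat_lit 0) (nat_lit 1892175611) (nat_lit 836) (nat_lit 5386597759) (nat_lit 76) (nat_lit 884963527) (nat_lit 345) (nat_lit 5) (nat_lit 356) (nat_lit 5) (nat_lit 346) (nat_lit 5) (nat_lit 573) (nat_lit 517) (nat_lit 470)) (XT.nd (nat_lit 78) (nat_lit 0) (nat_lit 0) (XT.lf (nat_lit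 0) (nat_lit 120594517) (nat_lit 760) (nat_lit 4487070242) (nat_lit 836) (nat_lit 3624824055) (nat_lit 335) (nat_lit 5) (nat_lit 345) (nat_lit 5) (nat_lit 346) (nat_lit 5) (nat_lit 574) (nat_lit 517) (nat_lit 469)) (XT.lf (nat_lit 0) (nat_lit 5763043431) (nat_lit 760) (nat_lit 1608960836) (nat_lit 836) (nat_lit 930726945) (nat_lit 335) (nat_lit 5) (nat_lit 345) (nat_lit 5) (nat_lit 346) (nat_lit 5) (nat_lit 575) (nat_lit 517) (nat_lit 468)))) (XT.nd (nat_lit 78) (nat_lit 760) (nat_lit 0) (XT.lf (nat_lit 0) (nat_lit 1781430090) (nat_lit 760) (nat_lit 5257707531) (nat_lit 76) (nat_lit 1335250643) (nat_lit 325) (nat_lit 5) (nat_lit 335) (nat_lit 5) (nat_lit 326) (nat_lit 5) (nat_lit 576) (nat_lit 517) (nat_lit 467)) (XT.nd (nat_lit 78) (nat_lit 0) (nat_lit 0) (XT.lf (nat_lit 0) (nat_lit 413984653) (nat_lit 760) (nat_lit 4111282530) (nat_lit 836) (nat_lit 3922296139) (nat_lit 315) (nat_lit 5) (nat_lit 325) (nat_lit 5) (nat_lit 326) (nat_lit 5) (nat_lit 577) (nat_lit 517) (nat_lit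 466)) (XT.lf (nat_lit 0) (nat_lit 6222717945) (nat_lit 760) (nat_lit 1096420860) (nat_lit 836) (nat_lit 1203165700) (nat_lit 315) (nat_lit 5) (nat_lit 325) (nat_lit 5) (nat_lit 326) (nat_lit 5) (nat_lit 578) (nat_lit 517) (nat_lit 465))))) (XT.nd (nat_lit 234) (nat_lit 1368) (nat_lit 0) (XT.nd (nat_lit 78) (nat_lit 684) (nat_lit 0) (XT.lf (nat_lit 0) (nat_lit 1546136875) (nat_lit 760) (nat_lit 5073660093) (nat_lit 76) (nat_lit 1978617483) (nat_lit 305) (nat_lit 5) (nat_lit 315) (nat_lit 5) (nat_lit 306) (nat_lit 5) (nat_lit 579) (nat_lit 517) (nat_lit 464)) (XT.nd (nat_lit 78) (nat_lit 0) (nat_lit 0) (XT.lf (nat_lit 0) (nat_lit 768071715) (nat_lit 684) (nat_lit 3554857395) (nat_lit 760) (nat_lit 4353191592) (nat_lit 296) (nat_lit 5) (nat_lit 305) (nat_lit 5) (nat_lit 306) (nat_lit 5) (nat_lit 580) (nat_lit 517) (nat_lit 463)) (XT.lf (nat_lit 0) (nat_lit 6748040616) (nat_lit 684) (nat_lit 402541630) (nat_lit 760) (nat_lit 1604897672) (nat_lit 296) (nat_lit 5) (nat_lit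 305) (nat_lit 5) (nat_lit 306) (nat_lit 5) (nat_lit 581) (nat_lit 517) (nat_lit 462)))) (XT.nd (nat_lit 78) (nat_lit 684) (nat_lit 0) (XT.lf (nat_lit 0) (nat_lit 1188885315) (nat_lit 684) (nat_lit 4845924934) (nat_lit 76) (nat_lit 2801340789) (nat_lit 287) (nat_lit 5) (nat_lit 296) (nat_lit 5) (nat_lit 288) (nat_lit 5) (nat_lit 582) (nat_lit 517) (nat_lit 461)) (XT.nd (nat_lit 78) (nat_lit 0) (nat_lit 0) (XT.lf (nat_lit 0) (nat_lit 1171520765) (nat_lit 684) (nat_lit 2831555730) (nat_lit 760) (nat_lit 4915431507) (nat_lit 278) (nat_lit 5) (nat_lit 287) (nat_lit 5) (nat_lit 288) (nat_lit 5) (nat_lit 583) (nat_lit 517) (nat_lit 460)) (XT.lf (nat_lit 0) (nat_lit 6871658281) (nat_lit 760) (nat_lit 1677632316) (nat_lit 76) (nat_lit 453264303) (nat_lit 278) (nat_lit 5) (nat_lit 288) (nat_lit 5) (nat_lit 279) (nat_lit 5) (nat_lit 584) (nat_lit 517) (nat_lit 459)))))) (XT.nd (nat_lit 468) (nat_lit 2736) (nat_lit 0) (XT.nd (nat_lit 234) (nat_lit 1216) (nat_lit 0) (XT.nd (nat_lit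 78) (nat_lit 608) (nat_lit 0) (XT.lf (nat_lit 0) (nat_lit 711386194) (nat_lit 684) (nat_lit 4586071736) (nat_lit 76) (nat_lit 3790510235) (nat_lit 269) (nat_lit 5) (nat_lit 278) (nat_lit 5) (nat_lit 270) (nat_lit 5) (nat_lit 585) (nat_lit 517) (nat_lit 458)) (XT.nd (nat_lit 78) (nat_lit 0) (nat_lit 0) (XT.lf (nat_lit 0) (nat_lit 1612882980) (nat_lit 608) (nat_lit 1954380928) (nat_lit 684) (nat_lit 5607843093) (nat_lit 261) (nat_lit 5) (nat_lit 269) (nat_lit 5) (nat_lit 270) (nat_lit 5) (nat_lit 586) (nat_lit 517) (nat_lit 457)) (XT.lf (nat_lit 0) (nat_lit 6484484681) (nat_lit 684) (nat_lit 1322370776) (nat_lit 76) (nat_lit 1457053200) (nat_lit 261) (nat_lit 5) (nat_lit 270) (nat_lit 5) (nat_lit 262) (nat_lit 5) (nat_lit 587) (nat_lit 517) (nat_lit 456)))) (XT.nd (nat_lit 78) (nat_lit 608) (nat_lit 0) (XT.lf (nat_lit 0) (nat_lit 114473975) (nat_lit 608) (nat_lit 4305879710) (nat_lit 76) (nat_lit 4933917435) (nat_lit 253) (nat_lit 5) (nat_lit 261) (nat_lit 5) (nat_lit 254)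 (nat_lit 5) (nat_lit 588) (nat_lit 517) (nat_lit 455)) (XT.nd (nat_lit 78) (nat_lit 0) (nat_lit 0) (XT.lf (nat_lit 0) (nat_lit 2080484678) (nat_lit 608) (nat_lit 935690082) (nat_lit 684) (nat_lit 6430160098) (nat_lit 245) (nat_lit 5) (nat_lit 253) (nat_lit 5) (nat_lit 254) (nat_lit 5) (nat_lit 589) (nat_lit 517) (nat_lit 454)) (XT.lf (nat_lit 0) (nat_lit 5986982859) (nat_lit 684) (nat_lit 950801234) (nat_lit 76) (nat_lit 2602238523) (nat_lit 245) (nat_lit 5) (nat_lit 254) (nat_lit 5) (nat_lit 246) (nat_lit 5) (nat_lit 590) (nat_lit 517) (nat_lit 453))))) (XT.nd (nat_lit 234) (nat_lit 1596) (nat_lit 0) (XT.nd (nat_lit 78) (nat_lit 608) (nat_lit 0) (XT.lf (nat_lit 0) (nat_lit 5614010764) (nat_lit 532) (nat_lit 3411514525) (nat_lit 608) (nat_lit 609896602) (nat_lit 238) (nat_lit 5) (nat_lit 245) (nat_lit 5) (nat_lit 246) (nat_lit 5) (nat_lit 591) (nat_lit 517) (nat_lit 452)) (XT.nd (nat_lit 78) (nat_lit 0) (nat_lit 0) (XT.lf (nat_lit 0) (nat_lit 2350995726) (nat_lit 608)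 (nat_lit 7171714156) (nat_lit 76) (nat_lit 209907429) (nat_lit 230) (nat_lit 5) (nat_lit 238) (nat_lit 5) (nat_lit 231) (nat_lit 5) (nat_lit 592) (nat_lit 517) (nat_lit 451)) (XT.lf (nat_lit 0) (nat_lit 5378818450) (nat_lit 608) (nat_lit 575076907) (nat_lit 76) (nat_lit 3877466961) (nat_lit 230) (nat_lit 5) (nat_lit 238) (nat_lit 5) (nat_lit 231) (nat_lit 5) (nat_lit 593) (nat_lit 517) (nat_lit 450)))) (XT.nd (nat_lit 156) (nat_lit 456) (nat_lit 0) (XT.nd (nat_lit 78) (nat_lit 608) (nat_lit 0) (XT.lf (nat_lit 0) (nat_lit 6189150776) (nat_lit 532) (nat_lit 2285009473) (nat_lit 608) (nat_lit 1457786536) (nat_lit 223) (nat_lit 5) (nat_lit 230) (nat_lit 5) (nat_lit 231) (nat_lit 5) (nat_lit 594) (nat_lit 517) (nat_lit 449)) (XT.lf (nat_lit 0) (nat_lit 1576103549) (nat_lit 608) (nat_lit 6998244489) (nat_lit 76) (nat_lit 1459987594) (nat_lit 215) (nat_lit 5) (nat_lit 223) (nat_lit 5) (nat_lit 216) (nat_lit 5) (nat_lit 595) (nat_lit 517) (nat_lit 448))) (XT.nd (nat_lit 78) (nat_lit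 456) (nat_lit 0) (XT.lf (nat_lit 0) (nat_lit 4658772205) (nat_lit 608) (nat_lit 207866258) (nat_lit 76) (nat_lit 5271792255) (nat_lit 215) (nat_lit 5) (nat_lit 223) (nat_lit 5) (nat_lit 216) (nat_lit 5) (nat_lit 596) (nat_lit 517) (nat_lit 447)) (XT.lf (nat_lit 0) (nat_lit 6761970774) (nat_lit 456) (nat_lit 1052857352) (nat_lit 532) (nat_lit 2429548424) (nat_lit 209) (nat_lit 5) (nat_lit 215) (nat_lit 5) (nat_lit 216) (nat_lit 5) (nat_lit 597) (nat_lit 517) (nat_lit 446))))))))
noncomputable def xc76 : XT := (XT.nd (nat_lit 1950) (nat_lit 4180) (nat_lit 0) (XT.nd (nat_lit 936) (nat_lit 3344) (nat_lit 0) (XT.nd (nat_lit 468) (nat_lit 1824) (nat_lit 0) (XT.nd (nat_lit 234) (nat_lit 988) (nat_lit 0) (XT.nd (nat_lit 78) (nat_lit 456) (nat_lit 0) (XT.lf (nat_lit 0) (nat_lit 683353782) (nat_lit 608) (nat_lit 6852888366) (nat_lit 76) (nat_lit 2815899460) (nat_lit 201) (nat_lit 5) (nat_lit 209) (nat_lit 5) (nat_lit 202) (nat_lit 5) (nat_lit 598) (nat_lit 517) (nat_lit 445)) (XT.nd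 (nat_lit 78) (nat_lit 0) (nat_lit 0) (XT.lf (nat_lit 0) (nat_lit 139345255) (nat_lit 456) (nat_lit 3686276680) (nat_lit 532) (nat_lit 6636129372) (nat_lit 195) (nat_lit 5) (nat_lit 201) (nat_lit 5) (nat_lit 202) (nat_lit 5) (nat_lit 599) (nat_lit 517) (nat_lit 444)) (XT.lf (nat_lit 0) (nat_lit 7047039223) (nat_lit 532) (nat_lit 3255850443) (nat_lit 76) (nat_lit 270340713) (nat_lit 195) (nat_lit 5) (nat_lit 202) (nat_lit 5) (nat_lit 196) (nat_lit 5) (nat_lit 600) (nat_lit 517) (nat_lit 443)))) (XT.nd (nat_lit 78) (nat_lit 532) (nat_lit 0) (XT.lf (nat_lit 0) (nat_lit 3934454364) (nat_lit 456) (nat_lit 6417456663) (nat_lit 532) (nat_lit 334650671) (nat_lit 189) (nat_lit 5) (nat_lit 195) (nat_lit 5) (nat_lit 196) (nat_lit 5) (nat_lit 601) (nat_lit 517) (nat_lit 442)) (XT.nd (nat_lit 78) (nat_lit 0) (nat_lit 0) (XT.lf (nat_lit 0) (nat_lit 452920022) (nat_lit 456) (nat_lit 2423609204) (nat_lit 532) (nat_lit 7925371933) (nat_lit 182) (nat_lit 5) (nat_lit 188) (nat_lit 5) (nat_lit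 189) (nat_lit 5) (nat_lit 602) (nat_lit 517) (nat_lit 441)) (XT.lf (nat_lit 0) (nat_lit 6173183702) (nat_lit 532) (nat_lit 3083411591) (nat_lit 76) (nat_lit 1662396241) (nat_lit 182) (nat_lit 5) (nat_lit 189) (nat_lit 5) (nat_lit 183) (nat_lit 5) (nat_lit 603) (nat_lit 517) (nat_lit 440))))) (XT.nd (nat_lit 234) (nat_lit 912) (nat_lit 0) (XT.nd (nat_lit 78) (nat_lit 456) (nat_lit 0) (XT.lf (nat_lit 0) (nat_lit 4323897285) (nat_lit 456) (nat_lit 5226001769) (nat_lit 532) (nat_lit 1488245055) (nat_lit 176) (nat_lit 5) (nat_lit 182) (nat_lit 5) (nat_lit 183) (nat_lit 5) (nat_lit 604) (nat_lit 517) (nat_lit 439)) (XT.nd (nat_lit 78) (nat_lit 0) (nat_lit 0) (XT.lf (nat_lit 0) (nat_lit 714871473) (nat_lit 380) (nat_lit 1091115041) (nat_lit 456) (nat_lit 9353546302) (nat_lit 170) (nat_lit 5) (nat_lit 175) (nat_lit 5) (nat_lit 176) (nat_lit 5) (nat_lit 605) (nat_lit 517) (nat_lit 438)) (XT.lf (nat_lit 0) (nat_lit 5182160833) (nat_lit 456) (nat_lit 2973864617) (nat_lit 76) (nat_lit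 3126410166) (nat_lit 170) (nat_lit 5) (nat_lit 176) (nat_lit 5) (nat_lit 171) (nat_lit 5) (nat_lit 606) (nat_lit 517) (nat_lit 437)))) (XT.nd (nat_lit 78) (nat_lit 456) (nat_lit 0) (XT.lf (nat_lit 0) (nat_lit 4656518156) (nat_lit 456) (nat_lit 3977695163) (nat_lit 532) (nat_lit 2773418782) (nat_lit 164) (nat_lit 5) (nat_lit 170) (nat_lit 5) (nat_lit 171) (nat_lit 5) (nat_lit 607) (nat_lit 517) (nat_lit 436)) (XT.nd (nat_lit 78) (nat_lit 0) (nat_lit 0) (XT.lf (nat_lit 0) (nat_lit 610771811) (nat_lit 456) (nat_lit 10628389666) (nat_lit 76) (nat_lit 296114579) (nat_lit 158) (nat_lit 5) (nat_lit 164) (nat_lit 5) (nat_lit 159) (nat_lit 5) (nat_lit 608) (nat_lit 517) (nat_lit 435)) (XT.lf (nat_lit 0) (nat_lit 4068672399) (nat_lit 456) (nat_lit 2943985324) (nat_lit 76) (nat_lit 4651587841) (nat_lit 158) (nat_lit 5) (nat_lit 164) (nat_lit 5) (nat_lit 159) (nat_lit 5) (nat_lit 609) (nat_lit 517) (nat_lit 434)))))) (XT.nd (nat_lit 468) (nat_lit 1748) (nat_lit 0) (XT.nd (nat_lit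 234) (nat_lit 760) (nat_lit 0) (XT.nd (nat_lit 78) (nat_lit 456) (nat_lit 0) (XT.lf (nat_lit 0) (nat_lit 4915467501) (nat_lit 380) (nat_lit 2683924681) (nat_lit 456) (nat_lit 4196331572) (nat_lit 153) (nat_lit 5) (nat_lit 158) (nat_lit 5) (nat_lit 159) (nat_lit 5) (nat_lit 610) (nat_lit 517) (nat_lit 433)) (XT.nd (nat_lit 78) (nat_lit 76) (nat_lit 0) (XT.lf (nat_lit 0) (nat_lit 1001047413) (nat_lit 380) (nat_lit 10209232491) (nat_lit 456) (nat_lit 719363000) (nat_lit 148) (nat_lit 5) (nat_lit 153) (nat_lit 5) (nat_lit 154) (nat_lit 5) (nat_lit 611) (nat_lit 517) (nat_lit 432)) (XT.lf (nat_lit 0) (nat_lit 2826327682) (nat_lit 456) (nat_lit 3011890395) (nat_lit 76) (nat_lit 6226932391) (nat_lit 147) (nat_lit 5) (nat_lit 153) (nat_lit 5) (nat_lit 148) (nat_lit 5) (nat_lit 612) (nat_lit 517) (nat_lit 431)))) (XT.nd (nat_lit 78) (nat_lit 380) (nat_lit 0) (XT.lf (nat_lit 0) (nat_lit 5082515063) (nat_lit 380) (nat_lit 1356352726) (nat_lit 456) (nat_lit 5764296260) (nat_lit 142)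 (nat_lit 5) (nat_lit 147) (nat_lit 5) (nat_lit 148) (nat_lit 5) (nat_lit 613) (nat_lit 517) (nat_lit 430)) (XT.nd (nat_lit 78) (nat_lit 76) (nat_lit 0) (XT.lf (nat_lit 0) (nat_lit 985319824) (nat_lit 304) (nat_lit 9158682033) (nat_lit 380) (nat_lit 2199531460) (nat_lit 138) (nat_lit 5) (nat_lit 142) (nat_lit 5) (nat_lit 143) (nat_lit 5) (nat_lit 614) (nat_lit 517) (nat_lit 429)) (XT.lf (nat_lit 0) (nat_lit 1447574516) (nat_lit 380) (nat_lit 3197228557) (nat_lit 76) (nat_lit 7841124825) (nat_lit 137) (nat_lit 5) (nat_lit 142) (nat_lit 5) (nat_lit 138) (nat_lit 5) (nat_lit 615) (nat_lit 517) (nat_lit 428))))) (XT.nd (nat_lit 234) (nat_lit 1064) (nat_lit 0) (XT.nd (nat_lit 78) (nat_lit 304) (nat_lit 0) (XT.lf (nat_lit 0) (nat_lit 5137853591) (nat_lit 380) (nat_lit 7040429) (nat_lit 456) (nat_lit 7485853256) (nat_lit 132) (nat_lit 5) (nat_lit 137) (nat_lit 5) (nat_lit 138) (nat_lit 5) (nat_lit 616) (nat_lit 517) (nat_lit 427)) (XT.nd (nat_lit 78) (nat_lit 0) (nat_lit 0) (XT.lf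 (nat_lit 0) (nat_lit 843094735) (nat_lit 304) (nat_lit 8104294736) (nat_lit 380) (nat_lit 3830451086) (nat_lit 128) (nat_lit 5) (nat_lit 132) (nat_lit 5) (nat_lit 133) (nat_lit 5) (nat_lit 617) (nat_lit 517) (nat_lit 426)) (XT.lf (nat_lit 0) (nat_lit 9405505487) (nat_lit 304) (nat_lit 3444495707) (nat_lit 380) (nat_lit 77395245) (nat_lit 128) (nat_lit 5) (nat_lit 132) (nat_lit 5) (nat_lit 133) (nat_lit 5) (nat_lit 618) (nat_lit 517) (nat_lit 425)))) (XT.nd (nat_lit 156) (nat_lit 380) (nat_lit 0) (XT.nd (nat_lit 78) (nat_lit 304) (nat_lit 0) (XT.lf (nat_lit 0) (nat_lit 3717237988) (nat_lit 380) (nat_lit 8028208696) (nat_lit 76) (nat_lit 1333697541) (nat_lit 123) (nat_lit 5) (nat_lit 128) (nat_lit 5) (nat_lit 124) (nat_lit 5) (nat_lit 619) (nat_lit 517) (nat_lit 424)) (XT.lf (nat_lit 0) (nat_lit 551772377) (nat_lit 304) (nat_lit 7059362906) (nat_lit 380) (nat_lit 5622295243) (nat_lit 119) (nat_lit 5) (nat_lit 123) (nat_lit 5) (nat_lit 124) (nat_lit 5) (nat_lit 620) (nat_lit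 517) (nat_lit 423))) (XT.nd (nat_lit 78) (nat_lit 380) (nat_lit 0) (XT.lf (nat_lit 0) (nat_lit 9370962173) (nat_lit 304) (nat_lit 2240282484) (nat_lit 380) (nat_lit 1778993119) (nat_lit 119) (nat_lit 5) (nat_lit 123) (nat_lit 5) (nat_lit 124) (nat_lit 5) (nat_lit 621) (nat_lit 517) (nat_lit 422)) (XT.lf (nat_lit 0) (nat_lit 2136781607) (nat_lit 380) (nat_lit 8742361018) (nat_lit 76) (nat_lit 2670288570) (nat_lit 114) (nat_lit 5) (nat_lit 119) (nat_lit 5) (nat_lit 115) (nat_lit 5) (nat_lit 622) (nat_lit 517) (nat_lit 421))))))) (XT.nd (nat_lit 936) (nat_lit 1824) (nat_lit 0) (XT.nd (nat_lit 468) (nat_lit 1140) (nat_lit 0) (XT.nd (nat_lit 234) (nat_lit 532) (nat_lit 0) (XT.nd (nat_lit 78) (nat_lit 380) (nat_lit 0) (XT.lf (nat_lit 0) (nat_lit 86619205) (nat_lit 304) (nat_lit 6037927480) (nat_lit 380) (nat_lit 7586678501) (nat_lit 110) (nat_lit 5) (nat_lit 114) (nat_lit 5) (nat_lit 115) (nat_lit 5) (nat_lit 623) (nat_lit 517) (nat_lit 420)) (XT.nd (nat_lit 78) (nat_lit 380)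 (nat_lit 0) (XT.lf (nat_lit 0) (nat_lit 9170076322) (nat_lit 304) (nat_lit 1055809148) (nat_lit 380) (nat_lit 3649694980) (nat_lit 110) (nat_lit 5) (nat_lit 114) (nat_lit 5) (nat_lit 115) (nat_lit 5) (nat_lit 624) (nat_lit 517) (nat_lit 419)) (XT.lf (nat_lit 0) (nat_lit 391562316) (nat_lit 380) (nat_lit 9662071877) (nat_lit 76) (nat_lit 3988936095) (nat_lit 105) (nat_lit 5) (nat_lit 110) (nat_lit 5) (nat_lit 106) (nat_lit 5) (nat_lit 625) (nat_lit 517) (nat_lit 418)))) (XT.nd (nat_lit 78) (nat_lit 532) (nat_lit 0) (XT.lf (nat_lit 0) (nat_lit 4479196236) (nat_lit 380) (nat_lit 571896019) (nat_lit 76) (nat_lit 9161038420) (nat_lit 105) (nat_lit 5) (nat_lit 110) (nat_lit 5) (nat_lit 106) (nat_lit 5) (nat_lit 626) (nat_lit 517) (nat_lit 417)) (XT.nd (nat_lit 78) (nat_lit 304) (nat_lit 0) (XT.lf (nat_lit 0) (nat_lit 8682247355) (nat_lit 304) (nat_lit 5609327402) (nat_lit 76) (nat_lit 92835850) (nat_lit 102) (nat_lit 5) (nat_lit 106) (nat_lit 5) (nat_lit 103) (nat_lit 5) (nat_lit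 627) (nat_lit 517) (nat_lit 416)) (XT.lf (nat_lit 0) (nat_lit 3732584411) (nat_lit 304) (nat_lit 9274513480) (nat_lit 380) (nat_lit 1552285075) (nat_lit 98) (nat_lit 5) (nat_lit 102) (nat_lit 5) (nat_lit 103) (nat_lit 5) (nat_lit 628) (nat_lit 517) (nat_lit 415))))) (XT.nd (nat_lit 234) (nat_lit 532) (nat_lit 0) (XT.nd (nat_lit 78) (nat_lit 532) (nat_lit 0) (XT.lf (nat_lit 0) (nat_lit 2659568661) (nat_lit 380) (nat_lit 1457029401) (nat_lit 76) (nat_lit 10620627470) (nat_lit 97) (nat_lit 5) (nat_lit 102) (nat_lit 5) (nat_lit 98) (nat_lit 5) (nat_lit 629) (nat_lit 517) (nat_lit 414)) (XT.nd (nat_lit 78) (nat_lit 304) (nat_lit 0) (XT.lf (nat_lit 0) (nat_lit 6972318661) (nat_lit 304) (nat_lit 6767594284) (nat_lit 76) (nat_lit 1177759410) (nat_lit 94) (nat_lit 5) (nat_lit 98) (nat_lit 5) (nat_lit 95) (nat_lit 5) (nat_lit 630) (nat_lit 517) (nat_lit 413)) (XT.lf (nat_lit 0) (nat_lit 2838471936) (nat_lit 304) (nat_lit 8565199984) (nat_lit 380) (nat_lit 3697410703) (nat_lit 90)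 (nat_lit 5) (nat_lit 94) (nat_lit 5) (nat_lit 95) (nat_lit 5) (nat_lit 631) (nat_lit 517) (nat_lit 412)))) (XT.nd (nat_lit 78) (nat_lit 456) (nat_lit 0) (XT.lf (nat_lit 0) (nat_lit 649735645) (nat_lit 380) (nat_lit 2602309760) (nat_lit 76) (nat_lit 12035583006) (nat_lit 89) (nat_lit 5) (nat_lit 94) (nat_lit 5) (nat_lit 90) (nat_lit 5) (nat_lit 632) (nat_lit 517) (nat_lit 411)) (XT.nd (nat_lit 78) (nat_lit 228) (nat_lit 0) (XT.lf (nat_lit 0) (nat_lit 5073419377) (nat_lit 304) (nat_lit 8207390003) (nat_lit 76) (nat_lit 2195826269) (nat_lit 86) (nat_lit 5) (nat_lit 90) (nat_lit 5) (nat_lit 87) (nat_lit 5) (nat_lit 633) (nat_lit 517) (nat_lit 410)) (XT.lf (nat_lit 0) (nat_lit 1666275030) (nat_lit 228) (nat_lit 7946650572) (nat_lit 304) (nat_lit 6055951816) (nat_lit 83) (nat_lit 5) (nat_lit 86) (nat_lit 5) (nat_lit 87) (nat_lit 5) (nat_lit 634) (nat_lit 517) (nat_lit 409)))))) (XT.nd (nat_lit 468) (nat_lit 988) (nat_lit 0) (XT.nd (nat_lit 234) (nat_lit 304) (nat_lit 0) (XT.nd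 (nat_lit 78) (nat_lit 532) (nat_lit 0) (XT.lf (nat_lit 0) (nat_lit 11810559589) (nat_lit 228) (nat_lit 2465348711) (nat_lit 304) (nat_lit 1588403330) (nat_lit 83) (nat_lit 5) (nat_lit 86) (nat_lit 5) (nat_lit 87) (nat_lit 5) (nat_lit 635) (nat_lit 517) (nat_lit 408)) (XT.nd (nat_lit 78) (nat_lit 228) (nat_lit 0) (XT.lf (nat_lit 0) (nat_lit 2967767624) (nat_lit 304) (nat_lit 9966123399) (nat_lit 76) (nat_lit 3128615240) (nat_lit 79) (nat_lit 5) (nat_lit 83) (nat_lit 5) (nat_lit 80) (nat_lit 5) (nat_lit 636) (nat_lit 517) (nat_lit 407)) (XT.lf (nat_lit 0) (nat_lit 177910672) (nat_lit 228) (nat_lit 7438759935) (nat_lit 304) (nat_lit 8647327906) (nat_lit 76) (nat_lit 5) (nat_lit 79) (nat_lit 5) (nat_lit 80) (nat_lit 5) (nat_lit 637) (nat_lit 517) (nat_lit 406)))) (XT.nd (nat_lit 78) (nat_lit 304) (nat_lit 0) (XT.lf (nat_lit 0) (nat_lit 10622421299) (nat_lit 228) (nat_lit 1781188905) (nat_lit 304) (nat_lit 4065010466) (nat_lit 76) (nat_lit 5) (nat_lit 79) (nat_lit 5) (nat_lit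 80) (nat_lit 5) (nat_lit 638) (nat_lit 517) (nat_lit 405)) (XT.nd (nat_lit 78) (nat_lit 0) (nat_lit 0) (XT.lf (nat_lit 0) (nat_lit 635442538) (nat_lit 304) (nat_lit 12085065087) (nat_lit 76) (nat_lit 3956060240) (nat_lit 72) (nat_lit 5) (nat_lit 76) (nat_lit 5) (nat_lit 73) (nat_lit 5) (nat_lit 639) (nat_lit 517) (nat_lit 404)) (XT.lf (nat_lit 0) (nat_lit 5405360354) (nat_lit 304) (nat_lit 1646793766) (nat_lit 76) (nat_lit 9835385928) (nat_lit 72) (nat_lit 5) (nat_lit 76) (nat_lit 5) (nat_lit 73) (nat_lit 5) (nat_lit 640) (nat_lit 517) (nat_lit 403))))) (XT.nd (nat_lit 234) (nat_lit 456) (nat_lit 0) (XT.nd (nat_lit 78) (nat_lit 304) (nat_lit 0) (XT.lf (nat_lit 0) (nat_lit 9082962009) (nat_lit 228) (nat_lit 1225656272) (nat_lit 304) (nat_lit 6793355697) (nat_lit 69) (nat_lit 5) (nat_lit 72) (nat_lit 5) (nat_lit 73) (nat_lit 5) (nat_lit 641) (nat_lit 517) (nat_lit 402)) (XT.nd (nat_lit 78) (nat_lit 76) (nat_lit 0) (XT.lf (nat_lit 0) (nat_lit 2697349889) (nat_lit 228) (nat_lit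 12650904081) (nat_lit 304) (nat_lit 1971677481) (nat_lit 66) (nat_lit 5) (nat_lit 69) (nat_lit 5) (nat_lit 70) (nat_lit 5) (nat_lit 642) (nat_lit 517) (nat_lit 401)) (XT.lf (nat_lit 0) (nat_lit 2949160481) (nat_lit 304) (nat_lit 3868560446) (nat_lit 76) (nat_lit 10723318234) (nat_lit 65) (nat_lit 5) (nat_lit 69) (nat_lit 5) (nat_lit 66) (nat_lit 5) (nat_lit 643) (nat_lit 517) (nat_lit 400)))) (XT.nd (nat_lit 156) (nat_lit 76) (nat_lit 0) (XT.nd (nat_lit 78) (nat_lit 152) (nat_lit 0) (XT.lf (nat_lit 0) (nat_lit 7145388937) (nat_lit 228) (nat_lit 822537012) (nat_lit 304) (nat_lit 9797865240) (nat_lit 62) (nat_lit 5) (nat_lit 65) (nat_lit 5) (nat_lit 66) (nat_lit 5) (nat_lit 644) (nat_lit 517) (nat_lit 399)) (XT.lf (nat_lit 0) (nat_lit 372000826) (nat_lit 152) (nat_lit 12757542333) (nat_lit 228) (nat_lit 4864646602) (nat_lit 60) (nat_lit 5) (nat_lit 62) (nat_lit 5) (nat_lit 63) (nat_lit 5) (nat_lit 645) (nat_lit 517) (nat_lit 398))) (XT.nd (nat_lit 71682) (nat_lit 0) (nat_lit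 52440) (XT.lf (nat_lit 0) (nat_lit 221831239) (nat_lit 228) (nat_lit 6540438672) (nat_lit 76) (nat_lit 11463729907) (nat_lit 59) (nat_lit 5) (nat_lit 62) (nat_lit 5) (nat_lit 60) (nat_lit 5) (nat_lit 646) (nat_lit 517) (nat_lit 397)) (XT.lf (nat_lit 0) (nat_lit 45538946) (nat_lit 228) (nat_lit 3133965408) (nat_lit 0) (nat_lit 45538946) (nat_lit 749) (nat_lit 5) (nat_lit 752) (nat_lit 4) (nat_lit 749) (nat_lit 4) (nat_lit 524) (nat_lit 518) (nat_lit 518))))))))
noncomputable def xc77 : XT := (XT.nd (nat_lit 1950) (nat_lit 19836) (nat_lit 0) (XT.nd (nat_lit 936) (nat_lit 7980) (nat_lit 0) (XT.nd (nat_lit 468) (nat_lit 1824) (nat_lit 0) (XT.nd (nat_lit 234) (nat_lit 760) (nat_lit 0) (XT.nd (nat_lit 78) (nat_lit 304) (nat_lit 0) (XT.lf (nat_lit 0) (nat_lit 3249476309) (nat_lit 228) (nat_lit 2886672499) (nat_lit 0) (nat_lit 318200607) (nat_lit 749) (nat_lit 5) (nat_lit 752) (nat_lit 4) (nat_lit 749) (nat_lit 4) (nat_lit 525) (nat_lit 518) (nat_lit 517)) (XT.nd (nat_lit 78)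 (nat_lit 76) (nat_lit 0) (XT.lf (nat_lit 0) (nat_lit 523387965) (nat_lit 228) (nat_lit 5870971089) (nat_lit 228) (nat_lit 65895679) (nat_lit 746) (nat_lit 4) (nat_lit 749) (nat_lit 5) (nat_lit 749) (nat_lit 4) (nat_lit 526) (nat_lit 518) (nat_lit 516)) (XT.lf (nat_lit 0) (nat_lit 3034882313) (nat_lit 304) (nat_lit 2492063831) (nat_lit 76) (nat_lit 940144501) (nat_lit 745) (nat_lit 5) (nat_lit 749) (nat_lit 5) (nat_lit 746) (nat_lit 4) (nat_lit 527) (nat_lit 518) (nat_lit 515)))) (XT.nd (nat_lit 78) (nat_lit 456) (nat_lit 0) (XT.lf (nat_lit 0) (nat_lit 988611683) (nat_lit 304) (nat_lit 5136806311) (nat_lit 380) (nat_lit 350086295) (nat_lit 741) (nat_lit 5) (nat_lit 745) (nat_lit 5) (nat_lit 746) (nat_lit 4) (nat_lit 528) (nat_lit 518) (nat_lit 514)) (XT.nd (nat_lit 78) (nat_lit 380) (nat_lit 0) (XT.lf (nat_lit 0) (nat_lit 2696780370) (nat_lit 380) (nat_lit 1975618695) (nat_lit 76) (nat_lit 1812550890) (nat_lit 740) (nat_lit 5) (nat_lit 745) (nat_lit 5) (nat_lit 741) (nat_lit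 5) (nat_lit 529) (nat_lit 518) (nat_lit 513)) (XT.lf (nat_lit 0) (nat_lit 1578878260) (nat_lit 380) (nat_lit 4155693536) (nat_lit 456) (nat_lit 761293885) (nat_lit 735) (nat_lit 5) (nat_lit 740) (nat_lit 5) (nat_lit 741) (nat_lit 5) (nat_lit 530) (nat_lit 518) (nat_lit 512))))) (XT.nd (nat_lit 234) (nat_lit 1216) (nat_lit 0) (XT.nd (nat_lit 78) (nat_lit 532) (nat_lit 0) (XT.lf (nat_lit 0) (nat_lit 2234052958) (nat_lit 456) (nat_lit 1336788081) (nat_lit 76) (nat_lit 2937107930) (nat_lit 734) (nat_lit 5) (nat_lit 740) (nat_lit 5) (nat_lit 735) (nat_lit 5) (nat_lit 531) (nat_lit 518) (nat_lit 511)) (XT.nd (nat_lit 78) (nat_lit 76) (nat_lit 0) (XT.lf (nat_lit 0) (nat_lit 2294867058) (nat_lit 456) (nat_lit 2925719857) (nat_lit 532) (nat_lit 1300776610) (nat_lit 728) (nat_lit 5) (nat_lit 734) (nat_lit 5) (nat_lit 735) (nat_lit 5) (nat_lit 532) (nat_lit 518) (nat_lit 510)) (XT.lf (nat_lit 0) (nat_lit 1645337313) (nat_lit 532) (nat_lit 574787522) (nat_lit 76) (nat_lit 4315990715)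 (nat_lit 727) (nat_lit 5) (nat_lit 734) (nat_lit 5) (nat_lit 728) (nat_lit 5) (nat_lit 533) (nat_lit 518) (nat_lit 509)))) (XT.nd (nat_lit 78) (nat_lit 684) (nat_lit 0) (XT.lf (nat_lit 0) (nat_lit 3137496946) (nat_lit 532) (nat_lit 1444488430) (nat_lit 608) (nat_lit 1970043281) (nat_lit 720) (nat_lit 5) (nat_lit 727) (nat_lit 5) (nat_lit 728) (nat_lit 5) (nat_lit 534) (nat_lit 518) (nat_lit 508)) (XT.nd (nat_lit 78) (nat_lit 0) (nat_lit 0) (XT.lf (nat_lit 0) (nat_lit 315541744) (nat_lit 608) (nat_lit 615529422) (nat_lit 684) (nat_lit 5638371700) (nat_lit 711) (nat_lit 5) (nat_lit 719) (nat_lit 5) (nat_lit 720) (nat_lit 5) (nat_lit 535) (nat_lit 518) (nat_lit 507)) (XT.lf (nat_lit 0) (nat_lit 3818930233) (nat_lit 684) (nat_lit 2481859853) (nat_lit 76) (nat_lit 287070327) (nat_lit 711) (nat_lit 5) (nat_lit 720) (nat_lit 5) (nat_lit 712) (nat_lit 5) (nat_lit 536) (nat_lit 518) (nat_lit 506)))))) (XT.nd (nat_lit 468) (nat_lit 4560) (nat_lit 0) (XT.nd (nat_lit 234) (nat_lit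 1900) (nat_lit 0) (XT.nd (nat_lit 78) (nat_lit 760) (nat_lit 0) (XT.lf (nat_lit 0) (nat_lit 100057287) (nat_lit 760) (nat_lit 5275403250) (nat_lit 76) (nat_lit 1232297545) (nat_lit 701) (nat_lit 5) (nat_lit 711) (nat_lit 5) (nat_lit 702) (nat_lit 5) (nat_lit 537) (nat_lit 518) (nat_lit 505)) (XT.nd (nat_lit 78) (nat_lit 760) (nat_lit 0) (XT.lf (nat_lit 0) (nat_lit 2938606695) (nat_lit 760) (nat_lit 1436286061) (nat_lit 76) (nat_lit 2253826238) (nat_lit 701) (nat_lit 5) (nat_lit 711) (nat_lit 5) (nat_lit 702) (nat_lit 5) (nat_lit 538) (nat_lit 518) (nat_lit 504)) (XT.lf (nat_lit 0) (nat_lit 2466258956) (nat_lit 760) (nat_lit 3317463691) (nat_lit 836) (nat_lit 867396749) (nat_lit 691) (nat_lit 5) (nat_lit 701) (nat_lit 5) (nat_lit 702) (nat_lit 5) (nat_lit 539) (nat_lit 518) (nat_lit 503)))) (XT.nd (nat_lit 78) (nat_lit 1824) (nat_lit 0) (XT.lf (nat_lit 0) (nat_lit 1929429456) (nat_lit 836) (nat_lit 266863965) (nat_lit 76) (nat_lit 4478547880) (nat_lit 690) (nat_lit 5)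 (nat_lit 701) (nat_lit 5) (nat_lit 691) (nat_lit 5) (nat_lit 540) (nat_lit 518) (nat_lit 502)) (XT.nd (nat_lit 78) (nat_lit 988) (nat_lit 0) (XT.lf (nat_lit 0) (nat_lit 3727251824) (nat_lit 836) (nat_lit 1003163079) (nat_lit 912) (nat_lit 1969326575) (nat_lit 679) (nat_lit 5) (nat_lit 690) (nat_lit 5) (nat_lit 691) (nat_lit 5) (nat_lit 541) (nat_lit 518) (nat_lit 501)) (XT.lf (nat_lit 0) (nat_lit 797298339) (nat_lit 988) (nat_lit 5685872931) (nat_lit 76) (nat_lit 242944539) (nat_lit 666) (nat_lit 5) (nat_lit 679) (nat_lit 5) (nat_lit 667) (nat_lit 5) (nat_lit 542) (nat_lit 518) (nat_lit 500))))) (XT.nd (nat_lit 234) (nat_lit 3496) (nat_lit 0) (XT.nd (nat_lit 78) (nat_lit 1064) (nat_lit 0) (XT.lf (nat_lit 0) (nat_lit 3556862387) (nat_lit 988) (nat_lit 1645939244) (nat_lit 76) (nat_lit 1550690501) (nat_lit 666) (nat_lit 5) (nat_lit 679) (nat_lit 5) (nat_lit 667) (nat_lit 5) (nat_lit 543) (nat_lit 518) (nat_lit 499)) (XT.nd (nat_lit 78) (nat_lit 76) (nat_lit 0) (XT.lf (nat_lit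 0) (nat_lit 2460965158) (nat_lit 988) (nat_lit 3865090318) (nat_lit 1064) (nat_lit 456285837) (nat_lit 653) (nat_lit 5) (nat_lit 666) (nat_lit 5) (nat_lit 667) (nat_lit 5) (nat_lit 544) (nat_lit 518) (nat_lit 498)) (XT.lf (nat_lit 0) (nat_lit 2258262270) (nat_lit 1064) (nat_lit 201111854) (nat_lit 76) (nat_lit 4353101747) (nat_lit 652) (nat_lit 5) (nat_lit 666) (nat_lit 5) (nat_lit 653) (nat_lit 5) (nat_lit 545) (nat_lit 518) (nat_lit 497)))) (XT.nd (nat_lit 156) (nat_lit 1216) (nat_lit 0) (XT.nd (nat_lit 78) (nat_lit 1216) (nat_lit 0) (XT.lf (nat_lit 0) (nat_lit 4005355700) (nat_lit 1064) (nat_lit 981797784) (nat_lit 1140) (nat_lit 1856689351) (nat_lit 638) (nat_lit 5) (nat_lit 652) (nat_lit 5) (nat_lit 653) (nat_lit 5) (nat_lit 546) (nat_lit 518) (nat_lit 496)) (XT.lf (nat_lit 0) (nat_lit 837656708) (nat_lit 1216) (nat_lit 5491261583) (nat_lit 76) (nat_lit 547723286) (nat_lit 622) (nat_lit 5) (nat_lit 638) (nat_lit 5) (nat_lit 623) (nat_lit 5) (nat_lit 547) (nat_lit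 518) (nat_lit 495))) (XT.nd (nat_lit 78) (nat_lit 1216) (nat_lit 0) (XT.lf (nat_lit 0) (nat_lit 3528301631) (nat_lit 1216) (nat_lit 1243611255) (nat_lit 76) (nat_lit 2138605002) (nat_lit 622) (nat_lit 5) (nat_lit 638) (nat_lit 5) (nat_lit 623) (nat_lit 5) (nat_lit 548) (nat_lit 518) (nat_lit 494)) (XT.lf (nat_lit 0) (nat_lit 3083180751) (nat_lit 1216) (nat_lit 3152316278) (nat_lit 1292) (nat_lit 710332207) (nat_lit 606) (nat_lit 5) (nat_lit 622) (nat_lit 5) (nat_lit 623) (nat_lit 5) (nat_lit 549) (nat_lit 518) (nat_lit 493))))))) (XT.nd (nat_lit 936) (nat_lit 7144) (nat_lit 0) (XT.nd (nat_lit 468) (nat_lit 6840) (nat_lit 0) (XT.nd (nat_lit 234) (nat_lit 3040) (nat_lit 0) (XT.nd (nat_lit 78) (nat_lit 1444) (nat_lit 0) (XT.lf (nat_lit 0) (nat_lit 478108010) (nat_lit 1292) (nat_lit 1465117940) (nat_lit 1368) (nat_lit 5039277730) (nat_lit 588) (nat_lit 5) (nat_lit 605) (nat_lit 5) (nat_lit 606) (nat_lit 5) (nat_lit 550) (nat_lit 518) (nat_lit 492)) (XT.nd (nat_lit 78) (nat_lit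 1444) (nat_lit 0) (XT.lf (nat_lit 0) (nat_lit 4612140235) (nat_lit 1368) (nat_lit 2115489193) (nat_lit 76) (nat_lit 292763909) (nat_lit 588) (nat_lit 5) (nat_lit 606) (nat_lit 5) (nat_lit 589) (nat_lit 5) (nat_lit 551) (nat_lit 518) (nat_lit 491)) (XT.lf (nat_lit 0) (nat_lit 241568180) (nat_lit 1444) (nat_lit 4725783550) (nat_lit 76) (nat_lit 2092268643) (nat_lit 569) (nat_lit 5) (nat_lit 588) (nat_lit 5) (nat_lit 570) (nat_lit 5) (nat_lit 552) (nat_lit 518) (nat_lit 490)))) (XT.nd (nat_lit 78) (nat_lit 3040) (nat_lit 0) (XT.lf (nat_lit 0) (nat_lit 2871996990) (nat_lit 1444) (nat_lit 261657752) (nat_lit 76) (nat_lit 3966472577) (nat_lit 569) (nat_lit 5) (nat_lit 588) (nat_lit 5) (nat_lit 570) (nat_lit 5) (nat_lit 553) (nat_lit 518) (nat_lit 489)) (XT.nd (nat_lit 78) (nat_lit 1596) (nat_lit 0) (XT.lf (nat_lit 0) (nat_lit 4302003100) (nat_lit 1444) (nat_lit 1227568034) (nat_lit 1520) (nat_lit 1612393209) (nat_lit 550) (nat_lit 5) (nat_lit 569) (nat_lit 5) (nat_lit 570)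 (nat_lit 5) (nat_lit 554) (nat_lit 518) (nat_lit 488)) (XT.lf (nat_lit 0) (nat_lit 1006735053) (nat_lit 1596) (nat_lit 5444810466) (nat_lit 76) (nat_lit 733667340) (nat_lit 529) (nat_lit 5) (nat_lit 550) (nat_lit 5) (nat_lit 530) (nat_lit 5) (nat_lit 555) (nat_lit 518) (nat_lit 487))))) (XT.nd (nat_lit 234) (nat_lit 3496) (nat_lit 0) (XT.nd (nat_lit 78) (nat_lit 3344) (nat_lit 0) (XT.lf (nat_lit 0) (nat_lit 3631762814) (nat_lit 1596) (nat_lit 844377125) (nat_lit 76) (nat_lit 2753481170) (nat_lit 529) (nat_lit 5) (nat_lit 550) (nat_lit 5) (nat_lit 530) (nat_lit 5) (nat_lit 556) (nat_lit 518) (nat_lit 486)) (XT.nd (nat_lit 78) (nat_lit 1748) (nat_lit 0) (XT.lf (nat_lit 0) (nat_lit 3852147511) (nat_lit 1596) (nat_lit 2430951633) (nat_lit 1672) (nat_lit 992352082) (nat_lit 508) (nat_lit 5) (nat_lit 529) (nat_lit 5) (nat_lit 530) (nat_lit 5) (nat_lit 557) (nat_lit 518) (nat_lit 485)) (XT.lf (nat_lit 0) (nat_lit 1291230359) (nat_lit 1672) (nat_lit 315438711) (nat_lit 1748)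 (nat_lit 5716057216) (nat_lit 485) (nat_lit 5) (nat_lit 507) (nat_lit 5) (nat_lit 508) (nat_lit 5) (nat_lit 558) (nat_lit 518) (nat_lit 484)))) (XT.nd (nat_lit 78) (nat_lit 3496) (nat_lit 0) (XT.lf (nat_lit 0) (nat_lit 4229358094) (nat_lit 1748) (nat_lit 1290260928) (nat_lit 76) (nat_lit 1851506429) (nat_lit 485) (nat_lit 5) (nat_lit 508) (nat_lit 5) (nat_lit 486) (nat_lit 5) (nat_lit 559) (nat_lit 518) (nat_lit 483)) (XT.nd (nat_lit 78) (nat_lit 1748) (nat_lit 0) (XT.lf (nat_lit 0) (nat_lit 3543570175) (nat_lit 1748) (nat_lit 3336886080) (nat_lit 1824) (nat_lit 540526351) (nat_lit 462) (nat_lit 5) (nat_lit 485) (nat_lit 5) (nat_lit 486) (nat_lit 5) (nat_lit 560) (nat_lit 518) (nat_lit 482)) (XT.lf (nat_lit 0) (nat_lit 971911262) (nat_lit 1672) (nat_lit 1079337393) (nat_lit 1748) (nat_lit 5420998299) (nat_lit 439) (nat_lit 5) (nat_lit 461) (nat_lit 5) (nat_lit 462) (nat_lit 5) (nat_lit 561) (nat_lit 518) (nat_lit 481)))))) (XT.nd (nat_lit 468) (nat_lit 3344) (nat_lit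 0) (XT.nd (nat_lit 234) (nat_lit 1824) (nat_lit 0) (XT.nd (nat_lit 78) (nat_lit 1976) (nat_lit 0) (XT.lf (nat_lit 0) (nat_lit 4673618948) (nat_lit 1748) (nat_lit 1612567540) (nat_lit 76) (nat_lit 1238567279) (nat_lit 439) (nat_lit 5) (nat_lit 462) (nat_lit 5) (nat_lit 440) (nat_lit 5) (nat_lit 562) (nat_lit 518) (nat_lit 480)) (XT.nd (nat_lit 78) (nat_lit 988) (nat_lit 0) (XT.lf (nat_lit 0) (nat_lit 3363213984) (nat_lit 988) (nat_lit 3967006804) (nat_lit 1064) (nat_lit 248462665) (nat_lit 426) (nat_lit 5) (nat_lit 439) (nat_lit 5) (nat_lit 440) (nat_lit 5) (nat_lit 563) (nat_lit 518) (nat_lit 479)) (XT.lf (nat_lit 0) (nat_lit 774328118) (nat_lit 912) (nat_lit 1569404194) (nat_lit 988) (nat_lit 5290274491) (nat_lit 413) (nat_lit 5) (nat_lit 425) (nat_lit 5) (nat_lit 426) (nat_lit 5) (nat_lit 564) (nat_lit 518) (nat_lit 478)))) (XT.nd (nat_lit 78) (nat_lit 1824) (nat_lit 0) (XT.lf (nat_lit 0) (nat_lit 4972332218) (nat_lit 988) (nat_lit 1823977165) (nat_lit 76) (nat_lit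 894344564) (nat_lit 413) (nat_lit 5) (nat_lit 426) (nat_lit 5) (nat_lit 414) (nat_lit 5) (nat_lit 565) (nat_lit 518) (nat_lit 477)) (XT.nd (nat_lit 78) (nat_lit 912) (nat_lit 0) (XT.lf (nat_lit 0) (nat_lit 3298592472) (nat_lit 912) (nat_lit 4341350064) (nat_lit 988) (nat_lit 108770508) (nat_lit 401) (nat_lit 5) (nat_lit 413) (nat_lit 5) (nat_lit 414) (nat_lit 5) (nat_lit 566) (nat_lit 518) (nat_lit 476)) (XT.lf (nat_lit 0) (nat_lit 685976048) (nat_lit 836) (nat_lit 1805200315) (nat_lit 912) (nat_lit 5316999176) (nat_lit 389) (nat_lit 5) (nat_lit 400) (nat_lit 5) (nat_lit 401) (nat_lit 5) (nat_lit 567) (nat_lit 518) (nat_lit 475))))) (XT.nd (nat_lit 234) (nat_lit 1672) (nat_lit 0) (XT.nd (nat_lit 78) (nat_lit 1672) (nat_lit 0) (XT.lf (nat_lit 0) (nat_lit 5132281808) (nat_lit 912) (nat_lit 1936693479) (nat_lit 76) (nat_lit 800032626) (nat_lit 389) (nat_lit 5) (nat_lit 401) (nat_lit 5) (nat_lit 390) (nat_lit 5) (nat_lit 568) (nat_lit 518) (nat_lit 474)) (XT.nd (nat_lit 78)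 (nat_lit 836) (nat_lit 0) (XT.lf (nat_lit 0) (nat_lit 3337687780) (nat_lit 836) (nat_lit 4478499148) (nat_lit 912) (nat_lit 115077640) (nat_lit 378) (nat_lit 5) (nat_lit 389) (nat_lit 5) (nat_lit 390) (nat_lit 5) (nat_lit 569) (nat_lit 518) (nat_lit 473)) (XT.lf (nat_lit 0) (nat_lit 694783192) (nat_lit 760) (nat_lit 1804866801) (nat_lit 836) (nat_lit 5495306813) (nat_lit 367) (nat_lit 5) (nat_lit 377) (nat_lit 5) (nat_lit 378) (nat_lit 5) (nat_lit 570) (nat_lit 518) (nat_lit 472)))) (XT.nd (nat_lit 156) (nat_lit 836) (nat_lit 0) (XT.nd (nat_lit 78) (nat_lit 836) (nat_lit 0) (XT.lf (nat_lit 0) (nat_lit 5159288093) (nat_lit 836) (nat_lit 1962543901) (nat_lit 76) (nat_lit 938199316) (nat_lit 367) (nat_lit 5) (nat_lit 378) (nat_lit 5) (nat_lit 368) (nat_lit 5) (nat_lit 571) (nat_lit 518) (nat_lit 471)) (XT.lf (nat_lit 0) (nat_lit 3468849836) (nat_lit 836) (nat_lit 4395722502) (nat_lit 912) (nat_lit 261992538) (nat_lit 356) (nat_lit 5) (nat_lit 367) (nat_lit 5) (nat_lit 368)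 (nat_lit 5) (nat_lit 572) (nat_lit 518) (nat_lit 470))) (XT.nd (nat_lit 78) (nat_lit 0) (nat_lit 0) (XT.lf (nat_lit 0) (nat_lit 789009294) (nat_lit 760) (nat_lit 1585260926) (nat_lit 836) (nat_lit 5820317771) (nat_lit 345) (nat_lit 5) (nat_lit 355) (nat_lit 5) (nat_lit 356) (nat_lit 5) (nat_lit 573) (nat_lit 518) (nat_lit 469)) (XT.lf (nat_lit 0) (nat_lit 5058240604) (nat_lit 836) (nat_lit 1913079281) (nat_lit 76) (nat_lit 1292653495) (nat_lit 345) (nat_lit 5) (nat_lit 356) (nat_lit 5) (nat_lit 346) (nat_lit 5) (nat_lit 574) (nat_lit 518) (nat_lit 468))))))))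
noncomputable def xc78 : XT := (XT.nd (nat_lit 1950) (nat_lit 6916) (nat_lit 0) (XT.nd (nat_lit 936) (nat_lit 5168) (nat_lit 0) (XT.nd (nat_lit 468) (nat_lit 2736) (nat_lit 0) (XT.nd (nat_lit 234) (nat_lit 1520) (nat_lit 0) (XT.nd (nat_lit 78) (nat_lit 760) (nat_lit 0) (XT.lf (nat_lit 0) (nat_lit 3680695982) (nat_lit 760) (nat_lit 4109104758) (nat_lit 836) (nat_lit 545073664) (nat_lit 335) (nat_lit 5) (nat_lit 345) (nat_lit 5) (nat_lit 346) (nat_lit 5) (nat_lit 575) (nat_lit 518) (nat_lit 467)) (XT.nd (nat_lit 78) (nat_lit 0) (nat_lit 0) (XT.lf (nat_lit 0) (nat_lit 957144439) (nat_lit 684) (nat_lit 1162085735) (nat_lit 760) (nat_lit 6288110026) (nat_lit 325) (nat_lit 5) (nat_lit 334) (nat_lit 5) (nat_lit 335) (nat_lit 5) (nat_lit 576) (nat_lit 518) (nat_lit 466)) (XT.lf (nat_lit 0) (nat_lit 4833124104) (nat_lit 760) (nat_lit 1799673794) (nat_lit 76) (nat_lit 1848319084) (nat_lit 325) (nat_lit 5) (nat_lit 335) (nat_lit 5) (nat_lit 326) (nat_lit 5) (nat_lit 577) (nat_lit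 518) (nat_lit 465)))) (XT.nd (nat_lit 78) (nat_lit 760) (nat_lit 0) (XT.lf (nat_lit 0) (nat_lit 3962010209) (nat_lit 760) (nat_lit 3633671571) (nat_lit 836) (nat_lit 960805467) (nat_lit 315) (nat_lit 5) (nat_lit 325) (nat_lit 5) (nat_lit 326) (nat_lit 5) (nat_lit 578) (nat_lit 518) (nat_lit 464)) (XT.nd (nat_lit 78) (nat_lit 0) (nat_lit 0) (XT.lf (nat_lit 0) (nat_lit 1187807134) (nat_lit 684) (nat_lit 550013643) (nat_lit 760) (nat_lit 6895697596) (nat_lit 305) (nat_lit 5) (nat_lit 314) (nat_lit 5) (nat_lit 315) (nat_lit 5) (nat_lit 579) (nat_lit 518) (nat_lit 463)) (XT.lf (nat_lit 0) (nat_lit 4487038147) (nat_lit 760) (nat_lit 1633625857) (nat_lit 76) (nat_lit 2591114760) (nat_lit 305) (nat_lit 5) (nat_lit 315) (nat_lit 5) (nat_lit 306) (nat_lit 5) (nat_lit 580) (nat_lit 518) (nat_lit 462))))) (XT.nd (nat_lit 234) (nat_lit 1368) (nat_lit 0) (XT.nd (nat_lit 78) (nat_lit 684) (nat_lit 0) (XT.lf (nat_lit 0) (nat_lit 4301641196) (nat_lit 684) (nat_lit 2983509170) (nat_lit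 760) (nat_lit 1506581023) (nat_lit 296) (nat_lit 5) (nat_lit 305) (nat_lit 5) (nat_lit 306) (nat_lit 5) (nat_lit 581) (nat_lit 518) (nat_lit 461)) (XT.nd (nat_lit 78) (nat_lit 0) (nat_lit 0) (XT.lf (nat_lit 0) (nat_lit 1233985907) (nat_lit 684) (nat_lit 7405360721) (nat_lit 76) (nat_lit 234084138) (nat_lit 287) (nat_lit 5) (nat_lit 296) (nat_lit 5) (nat_lit 288) (nat_lit 5) (nat_lit 582) (nat_lit 518) (nat_lit 460)) (XT.lf (nat_lit 0) (nat_lit 4022210145) (nat_lit 684) (nat_lit 1426260922) (nat_lit 76) (nat_lit 3507838443) (nat_lit 287) (nat_lit 5) (nat_lit 296) (nat_lit 5) (nat_lit 288) (nat_lit 5) (nat_lit 583) (nat_lit 518) (nat_lit 459)))) (XT.nd (nat_lit 78) (nat_lit 684) (nat_lit 0) (XT.lf (nat_lit 0) (nat_lit 4688398279) (nat_lit 684) (nat_lit 2171879486) (nat_lit 760) (nat_lit 2180691321) (nat_lit 278) (nat_lit 5) (nat_lit 287) (nat_lit 5) (nat_lit 288) (nat_lit 5) (nat_lit 584) (nat_lit 518) (nat_lit 458)) (XT.nd (nat_lit 78) (nat_lit 0) (nat_lit 0) (XT.lf (nat_lit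 0) (nat_lit 612334899) (nat_lit 684) (nat_lit 7344039109) (nat_lit 76) (nat_lit 1171015303) (nat_lit 269) (nat_lit 5) (nat_lit 278) (nat_lit 5) (nat_lit 270) (nat_lit 5) (nat_lit 585) (nat_lit 518) (nat_lit 457)) (XT.lf (nat_lit 0) (nat_lit 3440001927) (nat_lit 684) (nat_lit 1189036990) (nat_lit 76) (nat_lit 4586055697) (nat_lit 269) (nat_lit 5) (nat_lit 278) (nat_lit 5) (nat_lit 270) (nat_lit 5) (nat_lit 586) (nat_lit 518) (nat_lit 456)))))) (XT.nd (nat_lit 468) (nat_lit 2736) (nat_lit 0) (XT.nd (nat_lit 234) (nat_lit 1216) (nat_lit 0) (XT.nd (nat_lit 78) (nat_lit 608) (nat_lit 0) (XT.lf (nat_lit 0) (nat_lit 5110944477) (nat_lit 608) (nat_lit 1211331720) (nat_lit 684) (nat_lit 2982321216) (nat_lit 261) (nat_lit 5) (nat_lit 269) (nat_lit 5) (nat_lit 270) (nat_lit 5) (nat_lit 587) (nat_lit 518) (nat_lit 455)) (XT.nd (nat_lit 78) (nat_lit 76) (nat_lit 0) (XT.lf (nat_lit 0) (nat_lit 2124870865) (nat_lit 532) (nat_lit 7139124250) (nat_lit 608) (nat_lit 131863548) (nat_lit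 254) (nat_lit 5) (nat_lit 261) (nat_lit 5) (nat_lit 262) (nat_lit 5) (nat_lit 588) (nat_lit 518) (nat_lit 454)) (XT.lf (nat_lit 0) (nat_lit 2740909723) (nat_lit 608) (nat_lit 933653793) (nat_lit 76) (nat_lit 5813991231) (nat_lit 253) (nat_lit 5) (nat_lit 261) (nat_lit 5) (nat_lit 254) (nat_lit 5) (nat_lit 589) (nat_lit 518) (nat_lit 453)))) (XT.nd (nat_lit 78) (nat_lit 608) (nat_lit 0) (XT.lf (nat_lit 0) (nat_lit 5557685623) (nat_lit 608) (nat_lit 113811190) (nat_lit 684) (nat_lit 3911552154) (nat_lit 245) (nat_lit 5) (nat_lit 253) (nat_lit 5) (nat_lit 254) (nat_lit 5) (nat_lit 590) (nat_lit 518) (nat_lit 452)) (XT.nd (nat_lit 78) (nat_lit 76) (nat_lit 0) (XT.lf (nat_lit 0) (nat_lit 2476730362) (nat_lit 532) (nat_lit 6195539634) (nat_lit 608) (nat_lit 1006935634) (nat_lit 238) (nat_lit 5) (nat_lit 245) (nat_lit 5) (nat_lit 246) (nat_lit 5) (nat_lit 591) (nat_lit 518) (nat_lit 451)) (XT.lf (nat_lit 0) (nat_lit 1924557445) (nat_lit 608) (nat_lit 672166571) (nat_lit 76)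 (nat_lit 7180422646) (nat_lit 237) (nat_lit 5) (nat_lit 245) (nat_lit 5) (nat_lit 238) (nat_lit 5) (nat_lit 592) (nat_lit 518) (nat_lit 450))))) (XT.nd (nat_lit 234) (nat_lit 1596) (nat_lit 0) (XT.nd (nat_lit 78) (nat_lit 608) (nat_lit 0) (XT.lf (nat_lit 0) (nat_lit 4914622817) (nat_lit 608) (nat_lit 3867339978) (nat_lit 76) (nat_lit 1094685908) (nat_lit 230) (nat_lit 5) (nat_lit 238) (nat_lit 5) (nat_lit 231) (nat_lit 5) (nat_lit 593) (nat_lit 518) (nat_lit 449)) (XT.nd (nat_lit 78) (nat_lit 76) (nat_lit 0) (XT.lf (nat_lit 0) (nat_lit 2830751746) (nat_lit 532) (nat_lit 5141284129) (nat_lit 608) (nat_lit 2005957722) (nat_lit 223) (nat_lit 5) (nat_lit 230) (nat_lit 5) (nat_lit 231) (nat_lit 5) (nat_lit 594) (nat_lit 518) (nat_lit 448)) (XT.lf (nat_lit 0) (nat_lit 989683084) (nat_lit 608) (nat_lit 417105493) (nat_lit 76) (nat_lit 8674575599) (nat_lit 222) (nat_lit 5) (nat_lit 230) (nat_lit 5) (nat_lit 223) (nat_lit 5) (nat_lit 595) (nat_lit 518) (nat_lit 447)))) (XT.nd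 (nat_lit 156) (nat_lit 608) (nat_lit 0) (XT.nd (nat_lit 78) (nat_lit 456) (nat_lit 0) (XT.lf (nat_lit 0) (nat_lit 4044530248) (nat_lit 608) (nat_lit 3726831132) (nat_lit 76) (nat_lit 2414656055) (nat_lit 215) (nat_lit 5) (nat_lit 223) (nat_lit 5) (nat_lit 216) (nat_lit 5) (nat_lit 596) (nat_lit 518) (nat_lit 446)) (XT.lf (nat_lit 0) (nat_lit 3174093703) (nat_lit 456) (nat_lit 3987584453) (nat_lit 532) (nat_lit 3131064983) (nat_lit 209) (nat_lit 5) (nat_lit 215) (nat_lit 5) (nat_lit 216) (nat_lit 5) (nat_lit 597) (nat_lit 518) (nat_lit 445))) (XT.nd (nat_lit 78) (nat_lit 608) (nat_lit 0) (XT.lf (nat_lit 0) (nat_lit 10219695453) (nat_lit 456) (nat_lit 115277666) (nat_lit 532) (nat_lit 66757539) (nat_lit 209) (nat_lit 5) (nat_lit 215) (nat_lit 5) (nat_lit 216) (nat_lit 5) (nat_lit 598) (nat_lit 518) (nat_lit 444)) (XT.lf (nat_lit 0) (nat_lit 3058097581) (nat_lit 608) (nat_lit 3616657816) (nat_lit 76) (nat_lit 3836961012) (nat_lit 201) (nat_lit 5) (nat_lit 209) (nat_lit 5)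 (nat_lit 202) (nat_lit 5) (nat_lit 599) (nat_lit 518) (nat_lit 443))))))) (XT.nd (nat_lit 936) (nat_lit 3268) (nat_lit 0) (XT.nd (nat_lit 468) (nat_lit 1672) (nat_lit 0) (XT.nd (nat_lit 234) (nat_lit 988) (nat_lit 0) (XT.nd (nat_lit 78) (nat_lit 532) (nat_lit 0) (XT.lf (nat_lit 0) (nat_lit 3493227791) (nat_lit 456) (nat_lit 2745445219) (nat_lit 532) (nat_lit 4385340886) (nat_lit 195) (nat_lit 5) (nat_lit 201) (nat_lit 5) (nat_lit 202) (nat_lit 5) (nat_lit 600) (nat_lit 518) (nat_lit 442)) (XT.nd (nat_lit 78) (nat_lit 76) (nat_lit 0) (XT.lf (nat_lit 0) (nat_lit 4067154) (nat_lit 456) (nat_lit 9481121430) (nat_lit 532) (nat_lit 1253325306) (nat_lit 189) (nat_lit 5) (nat_lit 195) (nat_lit 5) (nat_lit 196) (nat_lit 5) (nat_lit 601) (nat_lit 518) (nat_lit 441)) (XT.lf (nat_lit 0) (nat_lit 1952004528) (nat_lit 532) (nat_lit 3551181242) (nat_lit 76) (nat_lit 5351146334) (nat_lit 188) (nat_lit 5) (nat_lit 195) (nat_lit 5) (nat_lit 189) (nat_lit 5) (nat_lit 602) (nat_lit 518)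 (nat_lit 440)))) (XT.nd (nat_lit 78) (nat_lit 532) (nat_lit 0) (XT.lf (nat_lit 0) (nat_lit 3773797853) (nat_lit 456) (nat_lit 1425756083) (nat_lit 532) (nat_lit 5772852103) (nat_lit 182) (nat_lit 5) (nat_lit 188) (nat_lit 5) (nat_lit 189) (nat_lit 5) (nat_lit 603) (nat_lit 518) (nat_lit 439)) (XT.nd (nat_lit 78) (nat_lit 76) (nat_lit 0) (XT.lf (nat_lit 0) (nat_lit 141639704) (nat_lit 456) (nat_lit 8383660197) (nat_lit 532) (nat_lit 2567279532) (nat_lit 176) (nat_lit 5) (nat_lit 182) (nat_lit 5) (nat_lit 183) (nat_lit 5) (nat_lit 604) (nat_lit 518) (nat_lit 438)) (XT.lf (nat_lit 0) (nat_lit 721954083) (nat_lit 532) (nat_lit 3545711123) (nat_lit 76) (nat_lit 6946827419) (nat_lit 175) (nat_lit 5) (nat_lit 182) (nat_lit 5) (nat_lit 176) (nat_lit 5) (nat_lit 605) (nat_lit 518) (nat_lit 437))))) (XT.nd (nat_lit 234) (nat_lit 836) (nat_lit 0) (XT.nd (nat_lit 78) (nat_lit 456) (nat_lit 0) (XT.lf (nat_lit 0) (nat_lit 4000469371) (nat_lit 380) (nat_lit 39400901) (nat_lit 456) (nat_lit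 7298691663) (nat_lit 170) (nat_lit 5) (nat_lit 175) (nat_lit 5) (nat_lit 176) (nat_lit 5) (nat_lit 606) (nat_lit 518) (nat_lit 436)) (XT.nd (nat_lit 78) (nat_lit 0) (nat_lit 0) (XT.lf (nat_lit 0) (nat_lit 213072074) (nat_lit 456) (nat_lit 7235619438) (nat_lit 532) (nat_lit 4015932855) (nat_lit 164) (nat_lit 5) (nat_lit 170) (nat_lit 5) (nat_lit 171) (nat_lit 5) (nat_lit 607) (nat_lit 518) (nat_lit 435)) (XT.lf (nat_lit 0) (nat_lit 7971928422) (nat_lit 456) (nat_lit 2975011966) (nat_lit 532) (nat_lit 645845250) (nat_lit 164) (nat_lit 5) (nat_lit 170) (nat_lit 5) (nat_lit 171) (nat_lit 5) (nat_lit 608) (nat_lit 518) (nat_lit 434)))) (XT.nd (nat_lit 78) (nat_lit 380) (nat_lit 0) (XT.lf (nat_lit 0) (nat_lit 2763243997) (nat_lit 456) (nat_lit 7575507487) (nat_lit 76) (nat_lit 1384234407) (nat_lit 158) (nat_lit 5) (nat_lit 164) (nat_lit 5) (nat_lit 159) (nat_lit 5) (nat_lit 609) (nat_lit 518) (nat_lit 433)) (XT.nd (nat_lit 78) (nat_lit 0) (nat_lit 0) (XT.lf (nat_lit 0) (nat_lit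 201195220) (nat_lit 380) (nat_lit 6048447850) (nat_lit 456) (nat_lit 5605708646) (nat_lit 153) (nat_lit 5) (nat_lit 158) (nat_lit 5) (nat_lit 159) (nat_lit 5) (nat_lit 610) (nat_lit 518) (nat_lit 432)) (XT.lf (nat_lit 0) (nat_lit 8194136408) (nat_lit 380) (nat_lit 1635040594) (nat_lit 456) (nat_lit 2160722138) (nat_lit 153) (nat_lit 5) (nat_lit 158) (nat_lit 5) (nat_lit 159) (nat_lit 5) (nat_lit 611) (nat_lit 518) (nat_lit 431)))))) (XT.nd (nat_lit 468) (nat_lit 1672) (nat_lit 0) (XT.nd (nat_lit 234) (nat_lit 760) (nat_lit 0) (XT.nd (nat_lit 78) (nat_lit 380) (nat_lit 0) (XT.lf (nat_lit 0) (nat_lit 1354534711) (nat_lit 456) (nat_lit 7920813891) (nat_lit 76) (nat_lit 2851233168) (nat_lit 147) (nat_lit 5) (nat_lit 153) (nat_lit 5) (nat_lit 148) (nat_lit 5) (nat_lit 612) (nat_lit 518) (nat_lit 430)) (XT.nd (nat_lit 78) (nat_lit 0) (nat_lit 0) (XT.lf (nat_lit 0) (nat_lit 87439678) (nat_lit 380) (nat_lit 4833885906) (nat_lit 456) (nat_lit 7344185879) (nat_lit 142) (nat_lit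 5) (nat_lit 147) (nat_lit 5) (nat_lit 148) (nat_lit 5) (nat_lit 613) (nat_lit 518) (nat_lit 429)) (XT.lf (nat_lit 0) (nat_lit 8321807373) (nat_lit 380) (nat_lit 264154162) (nat_lit 456) (nat_lit 3820730264) (nat_lit 142) (nat_lit 5) (nat_lit 147) (nat_lit 5) (nat_lit 148) (nat_lit 5) (nat_lit 614) (nat_lit 518) (nat_lit 428)))) (XT.nd (nat_lit 78) (nat_lit 456) (nat_lit 0) (XT.lf (nat_lit 0) (nat_lit 4155075105) (nat_lit 304) (nat_lit 8198125462) (nat_lit 380) (nat_lit 196911158) (nat_lit 138) (nat_lit 5) (nat_lit 142) (nat_lit 5) (nat_lit 143) (nat_lit 5) (nat_lit 615) (nat_lit 518) (nat_lit 427)) (XT.nd (nat_lit 78) (nat_lit 380) (nat_lit 0) (XT.lf (nat_lit 0) (nat_lit 3456691948) (nat_lit 380) (nat_lit 146415102) (nat_lit 76) (nat_lit 9092776644) (nat_lit 137) (nat_lit 5) (nat_lit 142) (nat_lit 5) (nat_lit 138) (nat_lit 5) (nat_lit 616) (nat_lit 518) (nat_lit 426)) (XT.lf (nat_lit 0) (nat_lit 7216529593) (nat_lit 456) (nat_lit 4516408965) (nat_lit 76) (nat_lit 1110892594)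 (nat_lit 132) (nat_lit 5) (nat_lit 138) (nat_lit 5) (nat_lit 133) (nat_lit 5) (nat_lit 617) (nat_lit 518) (nat_lit 425))))) (XT.nd (nat_lit 234) (nat_lit 988) (nat_lit 0) (XT.nd (nat_lit 78) (nat_lit 380) (nat_lit 0) (XT.lf (nat_lit 0) (nat_lit 3965684863) (nat_lit 304) (nat_lit 7110997547) (nat_lit 380) (nat_lit 1917554803) (nat_lit 128) (nat_lit 5) (nat_lit 132) (nat_lit 5) (nat_lit 133) (nat_lit 5) (nat_lit 618) (nat_lit 518) (nat_lit 424)) (XT.nd (nat_lit 78) (nat_lit 304) (nat_lit 0) (XT.lf (nat_lit 0) (nat_lit 1847006502) (nat_lit 380) (nat_lit 521256220) (nat_lit 76) (nat_lit 10779046309) (nat_lit 127) (nat_lit 5) (nat_lit 132) (nat_lit 5) (nat_lit 128) (nat_lit 5) (nat_lit 619) (nat_lit 518) (nat_lit 423)) (XT.lf (nat_lit 0) (nat_lit 5705982185) (nat_lit 380) (nat_lit 5107553594) (nat_lit 76) (nat_lit 2488758929) (nat_lit 123) (nat_lit 5) (nat_lit 128) (nat_lit 5) (nat_lit 124) (nat_lit 5) (nat_lit 620) (nat_lit 518) (nat_lit 422)))) (XT.nd (nat_lit 156) (nat_lit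 608) (nat_lit 0) (XT.nd (nat_lit 78) (nat_lit 76) (nat_lit 0) (XT.lf (nat_lit 0) (nat_lit 3623755921) (nat_lit 304) (nat_lit 6036337966) (nat_lit 380) (nat_lit 3799928950) (nat_lit 119) (nat_lit 5) (nat_lit 123) (nat_lit 5) (nat_lit 124) (nat_lit 5) (nat_lit 621) (nat_lit 518) (nat_lit 421)) (XT.lf (nat_lit 0) (nat_lit 81222320) (nat_lit 380) (nat_lit 1061936261) (nat_lit 76) (nat_lit 12477543558) (nat_lit 118) (nat_lit 5) (nat_lit 123) (nat_lit 5) (nat_lit 119) (nat_lit 5) (nat_lit 622) (nat_lit 518) (nat_lit 420))) (XT.nd (nat_lit 78) (nat_lit 304) (nat_lit 0) (XT.lf (nat_lit 0) (nat_lit 4041799983) (nat_lit 380) (nat_lit 5881417273) (nat_lit 76) (nat_lit 3859823494) (nat_lit 114) (nat_lit 5) (nat_lit 119) (nat_lit 5) (nat_lit 115) (nat_lit 5) (nat_lit 623) (nat_lit 518) (nat_lit 419)) (XT.lf (nat_lit 0) (nat_lit 3104170246) (nat_lit 304) (nat_lit 4988215463) (nat_lit 380) (nat_lit 5856026219) (nat_lit 110) (nat_lit 5) (nat_lit 114) (nat_lit 5) (nat_lit 115) (nat_lit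 5) (nat_lit 624) (nat_lit 518) (nat_lit 418))))))))
noncomputable def xc79 : XT := (XT.nd (nat_lit 73398) (nat_lit 0) (nat_lit 41420) (XT.nd (nat_lit 936) (nat_lit 1672) (nat_lit 0) (XT.nd (nat_lit 468) (nat_lit 912) (nat_lit 0) (XT.nd (nat_lit 234) (nat_lit 608) (nat_lit 0) (XT.nd (nat_lit 78) (nat_lit 608) (nat_lit 0) (XT.lf (nat_lit 0) (nat_lit 12240026322) (nat_lit 380) (nat_lit 1807076071) (nat_lit 76) (nat_lit 69668968) (nat_lit 110) (nat_lit 5) (nat_lit 115) (nat_lit 5) (nat_lit 111) (nat_lit 5) (nat_lit 625) (nat_lit 518) (nat_lit 417)) (XT.nd (nat_lit 78) (nat_lit 228) (nat_lit 0) (XT.lf (nat_lit 0) (nat_lit 2211691799) (nat_lit 380) (nat_lit 6865201294) (nat_lit 76) (nat_lit 5210159381) (nat_lit 105) (nat_lit 5) (nat_lit 110) (nat_lit 5) (nat_lit 106) (nat_lit 5) (nat_lit 626) (nat_lit 518) (nat_lit 416)) (XT.lf (nat_lit 0) (nat_lit 2379354090) (nat_lit 228) (nat_lit 3981637394) (nat_lit 304) (nat_lit 8099416741) (nat_lit 102) (nat_lit 5) (nat_lit 105) (nat_lit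 5) (nat_lit 106) (nat_lit 5) (nat_lit 627) (nat_lit 518) (nat_lit 415)))) (XT.nd (nat_lit 78) (nat_lit 608) (nat_lit 0) (XT.lf (nat_lit 0) (nat_lit 10624200119) (nat_lit 304) (nat_lit 2781457946) (nat_lit 76) (nat_lit 1230956130) (nat_lit 102) (nat_lit 5) (nat_lit 106) (nat_lit 5) (nat_lit 103) (nat_lit 5) (nat_lit 628) (nat_lit 518) (nat_lit 414)) (XT.nd (nat_lit 78) (nat_lit 228) (nat_lit 0) (XT.lf (nat_lit 0) (nat_lit 201754448) (nat_lit 380) (nat_lit 8088780215) (nat_lit 76) (nat_lit 6524841303) (nat_lit 97) (nat_lit 5) (nat_lit 102) (nat_lit 5) (nat_lit 98) (nat_lit 5) (nat_lit 629) (nat_lit 518) (nat_lit 413)) (XT.lf (nat_lit 0) (nat_lit 1418983645) (nat_lit 228) (nat_lit 3032714428) (nat_lit 304) (nat_lit 10545381573) (nat_lit 94) (nat_lit 5) (nat_lit 97) (nat_lit 5) (nat_lit 98) (nat_lit 5) (nat_lit 630) (nat_lit 518) (nat_lit 412))))) (XT.nd (nat_lit 234) (nat_lit 304) (nat_lit 0) (XT.nd (nat_lit 78) (nat_lit 608) (nat_lit 0) (XT.lf (nat_lit 0) (nat_lit 8833678829)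 (nat_lit 304) (nat_lit 4008482051) (nat_lit 76) (nat_lit 2339317200) (nat_lit 94) (nat_lit 5) (nat_lit 98) (nat_lit 5) (nat_lit 95) (nat_lit 5) (nat_lit 631) (nat_lit 518) (nat_lit 411)) (XT.nd (nat_lit 78) (nat_lit 304) (nat_lit 0) (XT.lf (nat_lit 0) (nat_lit 5770662966) (nat_lit 304) (nat_lit 7567902315) (nat_lit 380) (nat_lit 2030295295) (nat_lit 90) (nat_lit 5) (nat_lit 94) (nat_lit 5) (nat_lit 95) (nat_lit 5) (nat_lit 632) (nat_lit 518) (nat_lit 410)) (XT.lf (nat_lit 0) (nat_lit 189662036) (nat_lit 228) (nat_lit 2158838223) (nat_lit 304) (nat_lit 13211062188) (nat_lit 86) (nat_lit 5) (nat_lit 89) (nat_lit 5) (nat_lit 90) (nat_lit 5) (nat_lit 633) (nat_lit 518) (nat_lit 409)))) (XT.nd (nat_lit 78) (nat_lit 304) (nat_lit 0) (XT.lf (nat_lit 0) (nat_lit 6852209856) (nat_lit 304) (nat_lit 5522689752) (nat_lit 76) (nat_lit 3377621201) (nat_lit 86) (nat_lit 5) (nat_lit 90) (nat_lit 5) (nat_lit 87) (nat_lit 5) (nat_lit 634) (nat_lit 518) (nat_lit 408)) (XT.nd (nat_lit 78)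 (nat_lit 76) (nat_lit 0) (XT.lf (nat_lit 0) (nat_lit 4529706161) (nat_lit 228) (nat_lit 6938286299) (nat_lit 304) (nat_lit 4480907210) (nat_lit 83) (nat_lit 5) (nat_lit 86) (nat_lit 5) (nat_lit 87) (nat_lit 5) (nat_lit 635) (nat_lit 518) (nat_lit 407)) (XT.lf (nat_lit 0) (nat_lit 42173668) (nat_lit 304) (nat_lit 1327789906) (nat_lit 76) (nat_lit 14778927468) (nat_lit 82) (nat_lit 5) (nat_lit 86) (nat_lit 5) (nat_lit 83) (nat_lit 5) (nat_lit 636) (nat_lit 518) (nat_lit 406)))))) (XT.nd (nat_lit 468) (nat_lit 684) (nat_lit 0) (XT.nd (nat_lit 234) (nat_lit 532) (nat_lit 0) (XT.nd (nat_lit 78) (nat_lit 228) (nat_lit 0) (XT.lf (nat_lit 0) (nat_lit 4661552366) (nat_lit 304) (nat_lit 7362167669) (nat_lit 76) (nat_lit 4327254353) (nat_lit 79) (nat_lit 5) (nat_lit 83) (nat_lit 5) (nat_lit 80) (nat_lit 5) (nat_lit 637) (nat_lit 518) (nat_lit 405)) (XT.nd (nat_lit 78) (nat_lit 0) (nat_lit 0) (XT.lf (nat_lit 0) (nat_lit 2966304463) (nat_lit 228) (nat_lit 6423162310) (nat_lit 304)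 (nat_lit 7167310875) (nat_lit 76) (nat_lit 5) (nat_lit 79) (nat_lit 5) (nat_lit 80) (nat_lit 5) (nat_lit 638) (nat_lit 518) (nat_lit 404)) (XT.lf (nat_lit 0) (nat_lit 13565100684) (nat_lit 228) (nat_lit 675270698) (nat_lit 304) (nat_lit 2525758136) (nat_lit 76) (nat_lit 5) (nat_lit 79) (nat_lit 5) (nat_lit 80) (nat_lit 5) (nat_lit 639) (nat_lit 518) (nat_lit 403)))) (XT.nd (nat_lit 78) (nat_lit 228) (nat_lit 0) (XT.lf (nat_lit 0) (nat_lit 2241290963) (nat_lit 304) (nat_lit 9568948142) (nat_lit 76) (nat_lit 5167911028) (nat_lit 72) (nat_lit 5) (nat_lit 76) (nat_lit 5) (nat_lit 73) (nat_lit 5) (nat_lit 640) (nat_lit 518) (nat_lit 402)) (XT.nd (nat_lit 78) (nat_lit 0) (nat_lit 0) (XT.lf (nat_lit 0) (nat_lit 1037622340) (nat_lit 228) (nat_lit 6044483696) (nat_lit 304) (nat_lit 10111727437) (nat_lit 69) (nat_lit 5) (nat_lit 72) (nat_lit 5) (nat_lit 73) (nat_lit 5) (nat_lit 641) (nat_lit 518) (nat_lit 401)) (XT.lf (nat_lit 0) (nat_lit 11950576843) (nat_lit 228) (nat_lit 112928832)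 (nat_lit 304) (nat_lit 5349450535) (nat_lit 69) (nat_lit 5) (nat_lit 72) (nat_lit 5) (nat_lit 73) (nat_lit 5) (nat_lit 642) (nat_lit 518) (nat_lit 400))))) (XT.nd (nat_lit 234) (nat_lit 152) (nat_lit 0) (XT.nd (nat_lit 78) (nat_lit 304) (nat_lit 0) (XT.lf (nat_lit 0) (nat_lit 5443099501) (nat_lit 228) (nat_lit 11755183524) (nat_lit 304) (nat_lit 437104455) (nat_lit 66) (nat_lit 5) (nat_lit 69) (nat_lit 5) (nat_lit 70) (nat_lit 5) (nat_lit 643) (nat_lit 518) (nat_lit 399)) (XT.nd (nat_lit 78) (nat_lit 228) (nat_lit 0) (XT.lf (nat_lit 0) (nat_lit 4531048785) (nat_lit 304) (nat_lit 1286592714) (nat_lit 76) (nat_lit 12043682179) (nat_lit 65) (nat_lit 5) (nat_lit 69) (nat_lit 5) (nat_lit 66) (nat_lit 5) (nat_lit 644) (nat_lit 518) (nat_lit 398)) (XT.lf (nat_lit 0) (nat_lit 9639381413) (nat_lit 304) (nat_lit 8162586576) (nat_lit 76) (nat_lit 288820455) (nat_lit 62) (nat_lit 5) (nat_lit 66) (nat_lit 5) (nat_lit 63) (nat_lit 5) (nat_lit 645) (nat_lit 518) (nat_lit 397)))) (XT.nd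 (nat_lit 71604) (nat_lit 0) (nat_lit 52364) (XT.nd (nat_lit 71526) (nat_lit 0) (nat_lit 52668) (XT.lf (nat_lit 0) (nat_lit 3026685875) (nat_lit 152) (nat_lit 11870424258) (nat_lit 228) (nat_lit 3426788774) (nat_lit 60) (nat_lit 5) (nat_lit 62) (nat_lit 5) (nat_lit 63) (nat_lit 5) (nat_lit 646) (nat_lit 518) (nat_lit 396)) (XT.lf (nat_lit 0) (nat_lit 1607676300) (nat_lit 76) (nat_lit 6724209) (nat_lit 0) (nat_lit 1607676300) (nat_lit 753) (nat_lit 5) (nat_lit 754) (nat_lit 0) (nat_lit 753) (nat_lit 4) (nat_lit 522) (nat_lit 519) (nat_lit 519))) (XT.nd (nat_lit 78) (nat_lit 228) (nat_lit 0) (XT.lf (nat_lit 0) (nat_lit 3286586882) (nat_lit 76) (nat_lit 3104908015) (nat_lit 76) (nat_lit 55208774) (nat_lit 752) (nat_lit 4) (nat_lit 753) (nat_lit 5) (nat_lit 753) (nat_lit 4) (nat_lit 523) (nat_lit 519) (nat_lit 518)) (XT.lf (nat_lit 0) (nat_lit 140576009) (nat_lit 152) (nat_lit 2918917290) (nat_lit 228) (nat_lit 3391034921) (nat_lit 749) (nat_lit 5) (nat_lit 751) (nat_lit 5)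 (nat_lit 752) (nat_lit 4) (nat_lit 524) (nat_lit 519) (nat_lit 517))))))) (XT.nd (nat_lit 936) (nat_lit 8056) (nat_lit 0) (XT.nd (nat_lit 468) (nat_lit 1748) (nat_lit 0) (XT.nd (nat_lit 234) (nat_lit 836) (nat_lit 0) (XT.nd (nat_lit 78) (nat_lit 304) (nat_lit 0) (XT.lf (nat_lit 0) (nat_lit 3505927974) (nat_lit 152) (nat_lit 2670707735) (nat_lit 228) (nat_lit 278992116) (nat_lit 749) (nat_lit 5) (nat_lit 751) (nat_lit 5) (nat_lit 752) (nat_lit 4) (nat_lit 525) (nat_lit 519) (nat_lit 516)) (XT.nd (nat_lit 78) (nat_lit 0) (nat_lit 0) (XT.lf (nat_lit 0) (nat_lit 420435937) (nat_lit 228) (nat_lit 2360324879) (nat_lit 304) (nat_lit 3681246471) (nat_lit 745) (nat_lit 5) (nat_lit 748) (nat_lit 5) (nat_lit 749) (nat_lit 5) (nat_lit 526) (nat_lit 519) (nat_lit 515)) (XT.lf (nat_lit 0) (nat_lit 3852338378) (nat_lit 228) (nat_lit 1987402524) (nat_lit 304) (nat_lit 629923411) (nat_lit 745) (nat_lit 5) (nat_lit 748) (nat_lit 5) (nat_lit 749) (nat_lit 5) (nat_lit 527) (nat_lit 519)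 (nat_lit 514)))) (XT.nd (nat_lit 78) (nat_lit 456) (nat_lit 0) (XT.lf (nat_lit 0) (nat_lit 826187539) (nat_lit 304) (nat_lit 1552029407) (nat_lit 380) (nat_lit 4100389568) (nat_lit 740) (nat_lit 5) (nat_lit 744) (nat_lit 5) (nat_lit 745) (nat_lit 5) (nat_lit 528) (nat_lit 519) (nat_lit 513)) (XT.nd (nat_lit 78) (nat_lit 456) (nat_lit 0) (XT.lf (nat_lit 0) (nat_lit 4326176866) (nat_lit 304) (nat_lit 1053663529) (nat_lit 380) (nat_lit 1108989723) (nat_lit 740) (nat_lit 5) (nat_lit 744) (nat_lit 5) (nat_lit 745) (nat_lit 5) (nat_lit 529) (nat_lit 519) (nat_lit 512)) (XT.lf (nat_lit 0) (nat_lit 1358307514) (nat_lit 380) (nat_lit 492461451) (nat_lit 456) (nat_lit 4649577070) (nat_lit 734) (nat_lit 5) (nat_lit 739) (nat_lit 5) (nat_lit 740) (nat_lit 5) (nat_lit 530) (nat_lit 519) (nat_lit 511))))) (XT.nd (nat_lit 234) (nat_lit 1216) (nat_lit 0) (XT.nd (nat_lit 78) (nat_lit 532) (nat_lit 0) (XT.lf (nat_lit 0) (nat_lit 4796579746) (nat_lit 456) (nat_lit 1585962886) (nat_lit 76)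 (nat_lit 130588629) (nat_lit 734) (nat_lit 5) (nat_lit 740) (nat_lit 5) (nat_lit 735) (nat_lit 5) (nat_lit 531) (nat_lit 519) (nat_lit 510)) (XT.nd (nat_lit 78) (nat_lit 0) (nat_lit 0) (XT.lf (nat_lit 0) (nat_lit 1202405484) (nat_lit 532) (nat_lit 4515064646) (nat_lit 76) (nat_lit 809675550) (nat_lit 727) (nat_lit 5) (nat_lit 734) (nat_lit 5) (nat_lit 728) (nat_lit 5) (nat_lit 532) (nat_lit 519) (nat_lit 509)) (XT.lf (nat_lit 0) (nat_lit 4096133878) (nat_lit 532) (nat_lit 894075006) (nat_lit 76) (nat_lit 1552235625) (nat_lit 727) (nat_lit 5) (nat_lit 734) (nat_lit 5) (nat_lit 728) (nat_lit 5) (nat_lit 533) (nat_lit 519) (nat_lit 508)))) (XT.nd (nat_lit 78) (nat_lit 608) (nat_lit 0) (XT.lf (nat_lit 0) (nat_lit 431071850) (nat_lit 608) (nat_lit 3770101143) (nat_lit 76) (nat_lit 2357874468) (nat_lit 719) (nat_lit 5) (nat_lit 727) (nat_lit 5) (nat_lit 720) (nat_lit 5) (nat_lit 534) (nat_lit 519) (nat_lit 507)) (XT.nd (nat_lit 78) (nat_lit 608) (nat_lit 0) (XT.lf (nat_lit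 0) (nat_lit 3269970878) (nat_lit 608) (nat_lit 79115184) (nat_lit 76) (nat_lit 3227856023) (nat_lit 719) (nat_lit 5) (nat_lit 727) (nat_lit 5) (nat_lit 720) (nat_lit 5) (nat_lit 535) (nat_lit 519) (nat_lit 506)) (XT.lf (nat_lit 0) (nat_lit 3690206120) (nat_lit 608) (nat_lit 2431415667) (nat_lit 684) (nat_lit 474470508) (nat_lit 711) (nat_lit 5) (nat_lit 719) (nat_lit 5) (nat_lit 720) (nat_lit 5) (nat_lit 536) (nat_lit 519) (nat_lit 505)))))) (XT.nd (nat_lit 468) (nat_lit 4636) (nat_lit 0) (XT.nd (nat_lit 234) (nat_lit 1824) (nat_lit 0) (XT.nd (nat_lit 78) (nat_lit 836) (nat_lit 0) (XT.lf (nat_lit 0) (nat_lit 871616019) (nat_lit 684) (nat_lit 1450193499) (nat_lit 760) (nat_lit 4294742977) (nat_lit 701) (nat_lit 5) (nat_lit 710) (nat_lit 5) (nat_lit 711) (nat_lit 5) (nat_lit 537) (nat_lit 519) (nat_lit 504)) (XT.nd (nat_lit 78) (nat_lit 836) (nat_lit 0) (XT.lf (nat_lit 0) (nat_lit 4716661617) (nat_lit 684) (nat_lit 404124828) (nat_lit 760) (nat_lit 1517526423) (nat_lit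 701) (nat_lit 5) (nat_lit 710) (nat_lit 5) (nat_lit 711) (nat_lit 5) (nat_lit 538) (nat_lit 519) (nat_lit 503)) (XT.lf (nat_lit 0) (nat_lit 1249727728) (nat_lit 836) (nat_lit 4715077350) (nat_lit 76) (nat_lit 696513280) (nat_lit 690) (nat_lit 5) (nat_lit 701) (nat_lit 5) (nat_lit 691) (nat_lit 5) (nat_lit 539) (nat_lit 519) (nat_lit 502)))) (XT.nd (nat_lit 78) (nat_lit 1824) (nat_lit 0) (XT.lf (nat_lit 0) (nat_lit 4003309806) (nat_lit 836) (nat_lit 825177859) (nat_lit 76) (nat_lit 1857084874) (nat_lit 690) (nat_lit 5) (nat_lit 701) (nat_lit 5) (nat_lit 691) (nat_lit 5) (nat_lit 540) (nat_lit 519) (nat_lit 501)) (XT.nd (nat_lit 78) (nat_lit 912) (nat_lit 0) (XT.lf (nat_lit 0) (nat_lit 57291324) (nat_lit 912) (nat_lit 3572357498) (nat_lit 76) (nat_lit 3081524982) (nat_lit 678) (nat_lit 5) (nat_lit 690) (nat_lit 5) (nat_lit 679) (nat_lit 5) (nat_lit 541) (nat_lit 519) (nat_lit 500)) (XT.lf (nat_lit 0) (nat_lit 398482216) (nat_lit 912) (nat_lit 2362846712) (nat_lit 988) (nat_lit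 3976705781) (nat_lit 666) (nat_lit 5) (nat_lit 678) (nat_lit 5) (nat_lit 679) (nat_lit 5) (nat_lit 542) (nat_lit 519) (nat_lit 499))))) (XT.nd (nat_lit 234) (nat_lit 3572) (nat_lit 0) (XT.nd (nat_lit 78) (nat_lit 1064) (nat_lit 0) (XT.lf (nat_lit 0) (nat_lit 4452415850) (nat_lit 912) (nat_lit 1029353632) (nat_lit 988) (nat_lit 1284430994) (nat_lit 666) (nat_lit 5) (nat_lit 678) (nat_lit 5) (nat_lit 679) (nat_lit 5) (nat_lit 543) (nat_lit 519) (nat_lit 498)) (XT.nd (nat_lit 78) (nat_lit 0) (nat_lit 0) (XT.lf (nat_lit 0) (nat_lit 1395491345) (nat_lit 1064) (nat_lit 5036715387) (nat_lit 76) (nat_lit 363487113) (nat_lit 652) (nat_lit 5) (nat_lit 666) (nat_lit 5) (nat_lit 653) (nat_lit 5) (nat_lit 544) (nat_lit 519) (nat_lit 497)) (XT.lf (nat_lit 0) (nat_lit 4074426803) (nat_lit 1064) (nat_lit 942042919) (nat_lit 76) (nat_lit 1809898569) (nat_lit 652) (nat_lit 5) (nat_lit 666) (nat_lit 5) (nat_lit 653) (nat_lit 5) (nat_lit 545) (nat_lit 519) (nat_lit 496)))) (XT.nd (nat_lit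 156) (nat_lit 1292) (nat_lit 0) (XT.nd (nat_lit 78) (nat_lit 1216) (nat_lit 0) (XT.lf (nat_lit 0) (nat_lit 3232097606) (nat_lit 1064) (nat_lit 3537152479) (nat_lit 1140) (nat_lit 89172973) (nat_lit 638) (nat_lit 5) (nat_lit 652) (nat_lit 5) (nat_lit 653) (nat_lit 5) (nat_lit 546) (nat_lit 519) (nat_lit 495)) (XT.lf (nat_lit 0) (nat_lit 556391964) (nat_lit 1140) (nat_lit 1987773435) (nat_lit 1216) (nat_lit 4347589603) (nat_lit 622) (nat_lit 5) (nat_lit 637) (nat_lit 5) (nat_lit 638) (nat_lit 5) (nat_lit 547) (nat_lit 519) (nat_lit 494))) (XT.nd (nat_lit 78) (nat_lit 1292) (nat_lit 0) (XT.lf (nat_lit 0) (nat_lit 4826313009) (nat_lit 1140) (nat_lit 369634611) (nat_lit 1216) (nat_lit 1730467018) (nat_lit 622) (nat_lit 5) (nat_lit 637) (nat_lit 5) (nat_lit 638) (nat_lit 5) (nat_lit 548) (nat_lit 519) (nat_lit 493)) (XT.lf (nat_lit 0) (nat_lit 892858851) (nat_lit 1292) (nat_lit 4773329803) (nat_lit 76) (nat_lit 1296145149) (nat_lit 605) (nat_lit 5) (nat_lit 622) (nat_lit 5)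 (nat_lit 606) (nat_lit 5) (nat_lit 549) (nat_lit 519) (nat_lit 492))))))))
noncomputable def xc80 : XT := (XT.nd (nat_lit 1950) (nat_lit 10944) (nat_lit 0) (XT.nd (nat_lit 936) (nat_lit 8816) (nat_lit 0) (XT.nd (nat_lit 468) (nat_lit 5168) (nat_lit 0) (XT.nd (nat_lit 234) (nat_lit 3040) (nat_lit 0) (XT.nd (nat_lit 78) (nat_lit 2736) (nat_lit 0) (XT.lf (nat_lit 0) (nat_lit 3506409140) (nat_lit 1292) (nat_lit 466126428) (nat_lit 76) (nat_lit 3026999995) (nat_lit 605) (nat_lit 5) (nat_lit 622) (nat_lit 5) (nat_lit 606) (nat_lit 5) (nat_lit 550) (nat_lit 519) (nat_lit 491)) (XT.nd (nat_lit 78) (nat_lit 1444) (nat_lit 0) (XT.lf (nat_lit 0) (nat_lit 3933918177) (nat_lit 1292) (nat_lit 2209219713) (nat_lit 1368) (nat_lit 894936649) (nat_lit 588) (nat_lit 5) (nat_lit 605) (nat_lit 5) (nat_lit 606) (nat_lit 5) (nat_lit 551) (nat_lit 519) (nat_lit 490)) (XT.lf (nat_lit 0) (nat_lit 1311410084) (nat_lit 1368) (nat_lit 378229988) (nat_lit 1444) (nat_lit 5388378329) (nat_lit 569) (nat_lit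 5) (nat_lit 587) (nat_lit 5) (nat_lit 588) (nat_lit 5) (nat_lit 552) (nat_lit 519) (nat_lit 489)))) (XT.nd (nat_lit 78) (nat_lit 3040) (nat_lit 0) (XT.lf (nat_lit 0) (nat_lit 4291180142) (nat_lit 1444) (nat_lit 1322882743) (nat_lit 76) (nat_lit 1505045520) (nat_lit 569) (nat_lit 5) (nat_lit 588) (nat_lit 5) (nat_lit 570) (nat_lit 5) (nat_lit 553) (nat_lit 519) (nat_lit 488)) (XT.nd (nat_lit 78) (nat_lit 1596) (nat_lit 0) (XT.lf (nat_lit 0) (nat_lit 3203969412) (nat_lit 1444) (nat_lit 3711740987) (nat_lit 1520) (nat_lit 245901091) (nat_lit 550) (nat_lit 5) (nat_lit 569) (nat_lit 5) (nat_lit 570) (nat_lit 5) (nat_lit 554) (nat_lit 519) (nat_lit 487)) (XT.lf (nat_lit 0) (nat_lit 580893719) (nat_lit 1520) (nat_lit 1736299290) (nat_lit 1596) (nat_lit 4888256781) (nat_lit 529) (nat_lit 5) (nat_lit 549) (nat_lit 5) (nat_lit 550) (nat_lit 5) (nat_lit 555) (nat_lit 519) (nat_lit 486))))) (XT.nd (nat_lit 234) (nat_lit 3496) (nat_lit 0) (XT.nd (nat_lit 78) (nat_lit 1672) (nat_lit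 0) (XT.lf (nat_lit 0) (nat_lit 4905599701) (nat_lit 1596) (nat_lit 2035839117) (nat_lit 76) (nat_lit 309156526) (nat_lit 529) (nat_lit 5) (nat_lit 550) (nat_lit 5) (nat_lit 530) (nat_lit 5) (nat_lit 556) (nat_lit 519) (nat_lit 485)) (XT.nd (nat_lit 78) (nat_lit 0) (nat_lit 0) (XT.lf (nat_lit 0) (nat_lit 224034040) (nat_lit 1672) (nat_lit 4676547641) (nat_lit 76) (nat_lit 2396475844) (nat_lit 507) (nat_lit 5) (nat_lit 529) (nat_lit 5) (nat_lit 508) (nat_lit 5) (nat_lit 557) (nat_lit 519) (nat_lit 484)) (XT.lf (nat_lit 0) (nat_lit 2776980903) (nat_lit 1672) (nat_lit 8114357) (nat_lit 76) (nat_lit 4559774254) (nat_lit 507) (nat_lit 5) (nat_lit 529) (nat_lit 5) (nat_lit 508) (nat_lit 5) (nat_lit 558) (nat_lit 519) (nat_lit 483)))) (XT.nd (nat_lit 78) (nat_lit 1824) (nat_lit 0) (XT.lf (nat_lit 0) (nat_lit 4771262981) (nat_lit 1672) (nat_lit 591833984) (nat_lit 1748) (nat_lit 2030907684) (nat_lit 485) (nat_lit 5) (nat_lit 507) (nat_lit 5) (nat_lit 508) (nat_lit 5) (nat_lit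 559) (nat_lit 519) (nat_lit 482)) (XT.nd (nat_lit 78) (nat_lit 0) (nat_lit 0) (XT.lf (nat_lit 0) (nat_lit 526024054) (nat_lit 1824) (nat_lit 5273707950) (nat_lit 76) (nat_lit 1644796661) (nat_lit 461) (nat_lit 5) (nat_lit 485) (nat_lit 5) (nat_lit 462) (nat_lit 5) (nat_lit 560) (nat_lit 519) (nat_lit 481)) (XT.lf (nat_lit 0) (nat_lit 3080711149) (nat_lit 1824) (nat_lit 463434559) (nat_lit 76) (nat_lit 3952181342) (nat_lit 461) (nat_lit 5) (nat_lit 485) (nat_lit 5) (nat_lit 462) (nat_lit 5) (nat_lit 561) (nat_lit 519) (nat_lit 480)))))) (XT.nd (nat_lit 468) (nat_lit 4180) (nat_lit 0) (XT.nd (nat_lit 234) (nat_lit 1900) (nat_lit 0) (XT.nd (nat_lit 78) (nat_lit 1064) (nat_lit 0) (XT.lf (nat_lit 0) (nat_lit 4456348947) (nat_lit 1672) (nat_lit 1212164055) (nat_lit 1748) (nat_lit 1881016397) (nat_lit 439) (nat_lit 5) (nat_lit 461) (nat_lit 5) (nat_lit 462) (nat_lit 5) (nat_lit 562) (nat_lit 519) (nat_lit 479)) (XT.nd (nat_lit 78) (nat_lit 0) (nat_lit 0) (XT.lf (nat_lit 0) (nat_lit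 671301525) (nat_lit 1064) (nat_lit 5760760988) (nat_lit 76) (nat_lit 1172124661) (nat_lit 425) (nat_lit 5) (nat_lit 439) (nat_lit 5) (nat_lit 426) (nat_lit 5) (nat_lit 563) (nat_lit 519) (nat_lit 478)) (XT.lf (nat_lit 0) (nat_lit 3232451566) (nat_lit 1064) (nat_lit 805556355) (nat_lit 76) (nat_lit 3622029993) (nat_lit 425) (nat_lit 5) (nat_lit 439) (nat_lit 5) (nat_lit 426) (nat_lit 5) (nat_lit 564) (nat_lit 519) (nat_lit 477)))) (XT.nd (nat_lit 78) (nat_lit 988) (nat_lit 0) (XT.lf (nat_lit 0) (nat_lit 4259414255) (nat_lit 912) (nat_lit 1567993841) (nat_lit 988) (nat_lit 1889953680) (nat_lit 413) (nat_lit 5) (nat_lit 425) (nat_lit 5) (nat_lit 426) (nat_lit 5) (nat_lit 565) (nat_lit 519) (nat_lit 476)) (XT.nd (nat_lit 78) (nat_lit 0) (nat_lit 0) (XT.lf (nat_lit 0) (nat_lit 666837939) (nat_lit 988) (nat_lit 6150422814) (nat_lit 76) (nat_lit 958936817) (nat_lit 400) (nat_lit 5) (nat_lit 413) (nat_lit 5) (nat_lit 401) (nat_lit 5) (nat_lit 566) (nat_lit 519) (nat_lit 475))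 (XT.lf (nat_lit 0) (nat_lit 3239021614) (nat_lit 988) (nat_lit 1046846746) (nat_lit 76) (nat_lit 3550307942) (nat_lit 400) (nat_lit 5) (nat_lit 413) (nat_lit 5) (nat_lit 401) (nat_lit 5) (nat_lit 567) (nat_lit 519) (nat_lit 474))))) (XT.nd (nat_lit 234) (nat_lit 2432) (nat_lit 0) (XT.nd (nat_lit 78) (nat_lit 912) (nat_lit 0) (XT.lf (nat_lit 0) (nat_lit 4168280709) (nat_lit 836) (nat_lit 1678094887) (nat_lit 912) (nat_lit 2051311666) (nat_lit 389) (nat_lit 5) (nat_lit 400) (nat_lit 5) (nat_lit 401) (nat_lit 5) (nat_lit 568) (nat_lit 519) (nat_lit 473)) (XT.nd (nat_lit 78) (nat_lit 0) (nat_lit 0) (XT.lf (nat_lit 0) (nat_lit 518611282) (nat_lit 912) (nat_lit 6454991979) (nat_lit 76) (nat_lit 987154923) (nat_lit 377) (nat_lit 5) (nat_lit 389) (nat_lit 5) (nat_lit 378) (nat_lit 5) (nat_lit 569) (nat_lit 519) (nat_lit 472)) (XT.lf (nat_lit 0) (nat_lit 3106261924) (nat_lit 912) (nat_lit 1199268892) (nat_lit 76) (nat_lit 3719419369) (nat_lit 377) (nat_lit 5) (nat_lit 389) (nat_lit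 5) (nat_lit 378) (nat_lit 5) (nat_lit 570) (nat_lit 519) (nat_lit 471)))) (XT.nd (nat_lit 156) (nat_lit 760) (nat_lit 0) (XT.nd (nat_lit 78) (nat_lit 912) (nat_lit 0) (XT.lf (nat_lit 0) (nat_lit 4171165807) (nat_lit 760) (nat_lit 1559881153) (nat_lit 836) (nat_lit 2359678077) (nat_lit 367) (nat_lit 5) (nat_lit 377) (nat_lit 5) (nat_lit 378) (nat_lit 5) (nat_lit 571) (nat_lit 519) (nat_lit 470)) (XT.lf (nat_lit 0) (nat_lit 231641761) (nat_lit 912) (nat_lit 6686449502) (nat_lit 76) (nat_lit 1240009674) (nat_lit 355) (nat_lit 5) (nat_lit 367) (nat_lit 5) (nat_lit 356) (nat_lit 5) (nat_lit 572) (nat_lit 519) (nat_lit 469))) (XT.nd (nat_lit 78) (nat_lit 760) (nat_lit 0) (XT.lf (nat_lit 0) (nat_lit 2839068606) (nat_lit 912) (nat_lit 1274481377) (nat_lit 76) (nat_lit 4113051143) (nat_lit 355) (nat_lit 5) (nat_lit 367) (nat_lit 5) (nat_lit 356) (nat_lit 5) (nat_lit 573) (nat_lit 519) (nat_lit 468)) (XT.lf (nat_lit 0) (nat_lit 4256582834) (nat_lit 760) (nat_lit 1229541176) (nat_lit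 836) (nat_lit 2810603840) (nat_lit 345) (nat_lit 5) (nat_lit 355) (nat_lit 5) (nat_lit 356) (nat_lit 5) (nat_lit 574) (nat_lit 519) (nat_lit 467))))))) (XT.nd (nat_lit 936) (nat_lit 5168) (nat_lit 0) (XT.nd (nat_lit 468) (nat_lit 2736) (nat_lit 0) (XT.nd (nat_lit 234) (nat_lit 1520) (nat_lit 0) (XT.nd (nat_lit 78) (nat_lit 760) (nat_lit 0) (XT.lf (nat_lit 0) (nat_lit 1510657794) (nat_lit 760) (nat_lit 6665304643) (nat_lit 836) (nat_lit 192503846) (nat_lit 335) (nat_lit 5) (nat_lit 345) (nat_lit 5) (nat_lit 346) (nat_lit 5) (nat_lit 575) (nat_lit 519) (nat_lit 466)) (XT.nd (nat_lit 78) (nat_lit 684) (nat_lit 0) (XT.lf (nat_lit 0) (nat_lit 2441420947) (nat_lit 836) (nat_lit 1283937426) (nat_lit 76) (nat_lit 4716045886) (nat_lit 334) (nat_lit 5) (nat_lit 345) (nat_lit 5) (nat_lit 335) (nat_lit 5) (nat_lit 576) (nat_lit 519) (nat_lit 465)) (XT.lf (nat_lit 0) (nat_lit 4413240852) (nat_lit 684) (nat_lit 702163781) (nat_lit 760) (nat_lit 3400577417) (nat_lit 325) (nat_lit 5)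 (nat_lit 334) (nat_lit 5) (nat_lit 335) (nat_lit 5) (nat_lit 577) (nat_lit 519) (nat_lit 464)))) (XT.nd (nat_lit 78) (nat_lit 760) (nat_lit 0) (XT.lf (nat_lit 0) (nat_lit 1610276759) (nat_lit 760) (nat_lit 6228912729) (nat_lit 836) (nat_lit 752941034) (nat_lit 315) (nat_lit 5) (nat_lit 325) (nat_lit 5) (nat_lit 326) (nat_lit 5) (nat_lit 578) (nat_lit 519) (nat_lit 463)) (XT.nd (nat_lit 78) (nat_lit 684) (nat_lit 0) (XT.lf (nat_lit 0) (nat_lit 1916402593) (nat_lit 836) (nat_lit 1238984867) (nat_lit 76) (nat_lit 5514280967) (nat_lit 314) (nat_lit 5) (nat_lit 325) (nat_lit 5) (nat_lit 315) (nat_lit 5) (nat_lit 579) (nat_lit 519) (nat_lit 462)) (XT.lf (nat_lit 0) (nat_lit 4621854851) (nat_lit 760) (nat_lit 4118916875) (nat_lit 76) (nat_lit 8034987) (nat_lit 305) (nat_lit 5) (nat_lit 315) (nat_lit 5) (nat_lit 306) (nat_lit 5) (nat_lit 580) (nat_lit 519) (nat_lit 461))))) (XT.nd (nat_lit 234) (nat_lit 1368) (nat_lit 0) (XT.nd (nat_lit 78) (nat_lit 684) (nat_lit 0) (XT.lf (nat_lit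 0) (nat_lit 1760780971) (nat_lit 684) (nat_lit 5624410619) (nat_lit 760) (nat_lit 1444265796) (nat_lit 296) (nat_lit 5) (nat_lit 305) (nat_lit 5) (nat_lit 306) (nat_lit 5) (nat_lit 581) (nat_lit 519) (nat_lit 460)) (XT.nd (nat_lit 78) (nat_lit 608) (nat_lit 0) (XT.lf (nat_lit 0) (nat_lit 1266216256) (nat_lit 760) (nat_lit 1150967682) (nat_lit 76) (nat_lit 6494552526) (nat_lit 295) (nat_lit 5) (nat_lit 305) (nat_lit 5) (nat_lit 296) (nat_lit 5) (nat_lit 582) (nat_lit 519) (nat_lit 459)) (XT.lf (nat_lit 0) (nat_lit 4013123589) (nat_lit 684) (nat_lit 4105838023) (nat_lit 76) (nat_lit 876482328) (nat_lit 287) (nat_lit 5) (nat_lit 296) (nat_lit 5) (nat_lit 288) (nat_lit 5) (nat_lit 583) (nat_lit 519) (nat_lit 458)))) (XT.nd (nat_lit 78) (nat_lit 684) (nat_lit 0) (XT.lf (nat_lit 0) (nat_lit 1950828653) (nat_lit 684) (nat_lit 4864940752) (nat_lit 760) (nat_lit 2265044894) (nat_lit 278) (nat_lit 5) (nat_lit 287) (nat_lit 5) (nat_lit 288) (nat_lit 5) (nat_lit 584) (nat_lit 519)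 (nat_lit 457)) (XT.nd (nat_lit 78) (nat_lit 608) (nat_lit 0) (XT.lf (nat_lit 0) (nat_lit 492191957) (nat_lit 760) (nat_lit 1031329979) (nat_lit 76) (nat_lit 7644463711) (nat_lit 277) (nat_lit 5) (nat_lit 287) (nat_lit 5) (nat_lit 278) (nat_lit 5) (nat_lit 585) (nat_lit 519) (nat_lit 456)) (XT.lf (nat_lit 0) (nat_lit 3285746311) (nat_lit 684) (nat_lit 4070570695) (nat_lit 76) (nat_lit 1900058410) (nat_lit 269) (nat_lit 5) (nat_lit 278) (nat_lit 5) (nat_lit 270) (nat_lit 5) (nat_lit 586) (nat_lit 519) (nat_lit 455)))))) (XT.nd (nat_lit 468) (nat_lit 2736) (nat_lit 0) (XT.nd (nat_lit 234) (nat_lit 1216) (nat_lit 0) (XT.nd (nat_lit 78) (nat_lit 608) (nat_lit 0) (XT.lf (nat_lit 0) (nat_lit 2168911459) (nat_lit 608) (nat_lit 3962957531) (nat_lit 684) (nat_lit 3214734423) (nat_lit 261) (nat_lit 5) (nat_lit 269) (nat_lit 5) (nat_lit 270) (nat_lit 5) (nat_lit 587) (nat_lit 519) (nat_lit 454)) (XT.nd (nat_lit 78) (nat_lit 608) (nat_lit 0) (XT.lf (nat_lit 0) (nat_lit 8544385816)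 (nat_lit 608) (nat_lit 483792855) (nat_lit 684) (nat_lit 410596303) (nat_lit 261) (nat_lit 5) (nat_lit 269) (nat_lit 5) (nat_lit 270) (nat_lit 5) (nat_lit 588) (nat_lit 519) (nat_lit 453)) (XT.lf (nat_lit 0) (nat_lit 2439955602) (nat_lit 608) (nat_lit 4025001432) (nat_lit 76) (nat_lit 3067069802) (nat_lit 253) (nat_lit 5) (nat_lit 261) (nat_lit 5) (nat_lit 254) (nat_lit 5) (nat_lit 589) (nat_lit 519) (nat_lit 452)))) (XT.nd (nat_lit 78) (nat_lit 608) (nat_lit 0) (XT.lf (nat_lit 0) (nat_lit 2403243925) (nat_lit 608) (nat_lit 2930334917) (nat_lit 684) (nat_lit 4293683495) (nat_lit 245) (nat_lit 5) (nat_lit 253) (nat_lit 5) (nat_lit 254) (nat_lit 5) (nat_lit 590) (nat_lit 519) (nat_lit 451)) (XT.nd (nat_lit 78) (nat_lit 608) (nat_lit 0) (XT.lf (nat_lit 0) (nat_lit 8283650391) (nat_lit 684) (nat_lit 757994486) (nat_lit 76) (nat_lit 682790119) (nat_lit 245) (nat_lit 5) (nat_lit 254) (nat_lit 5) (nat_lit 246) (nat_lit 5) (nat_lit 591) (nat_lit 519) (nat_lit 450)) (XT.lf (nat_lit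 0) (nat_lit 1475114641) (nat_lit 608) (nat_lit 3981391887) (nat_lit 76) (nat_lit 4366353400) (nat_lit 237) (nat_lit 5) (nat_lit 245) (nat_lit 5) (nat_lit 238) (nat_lit 5) (nat_lit 592) (nat_lit 519) (nat_lit 449))))) (XT.nd (nat_lit 234) (nat_lit 1596) (nat_lit 0) (XT.nd (nat_lit 78) (nat_lit 608) (nat_lit 0) (XT.lf (nat_lit 0) (nat_lit 2641647980) (nat_lit 532) (nat_lit 1778472262) (nat_lit 608) (nat_lit 5503144773) (nat_lit 230) (nat_lit 5) (nat_lit 237) (nat_lit 5) (nat_lit 238) (nat_lit 5) (nat_lit 593) (nat_lit 519) (nat_lit 448)) (XT.nd (nat_lit 78) (nat_lit 608) (nat_lit 0) (XT.lf (nat_lit 0) (nat_lit 7431799526) (nat_lit 608) (nat_lit 630760922) (nat_lit 76) (nat_lit 1962965949) (nat_lit 230) (nat_lit 5) (nat_lit 238) (nat_lit 5) (nat_lit 231) (nat_lit 5) (nat_lit 594) (nat_lit 519) (nat_lit 447)) (XT.lf (nat_lit 0) (nat_lit 389702728) (nat_lit 608) (nat_lit 3952498061) (nat_lit 76) (nat_lit 5787172654) (nat_lit 222) (nat_lit 5) (nat_lit 230) (nat_lit 5) (nat_lit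 223) (nat_lit 5) (nat_lit 595) (nat_lit 519) (nat_lit 446)))) (XT.nd (nat_lit 156) (nat_lit 1064) (nat_lit 0) (XT.nd (nat_lit 78) (nat_lit 0) (nat_lit 0) (XT.lf (nat_lit 0) (nat_lit 2871431481) (nat_lit 532) (nat_lit 518399227) (nat_lit 608) (nat_lit 6845292089) (nat_lit 215) (nat_lit 5) (nat_lit 222) (nat_lit 5) (nat_lit 223) (nat_lit 5) (nat_lit 596) (nat_lit 519) (nat_lit 445)) (XT.lf (nat_lit 0) (nat_lit 6467697505) (nat_lit 608) (nat_lit 522457483) (nat_lit 76) (nat_lit 3352480808) (nat_lit 215) (nat_lit 5) (nat_lit 223) (nat_lit 5) (nat_lit 216) (nat_lit 5) (nat_lit 597) (nat_lit 519) (nat_lit 444))) (XT.nd (nat_lit 78) (nat_lit 608) (nat_lit 0) (XT.lf (nat_lit 0) (nat_lit 6494914070) (nat_lit 456) (nat_lit 3127496109) (nat_lit 532) (nat_lit 829586426) (nat_lit 209) (nat_lit 5) (nat_lit 215) (nat_lit 5) (nat_lit 216) (nat_lit 5) (nat_lit 598) (nat_lit 519) (nat_lit 443)) (XT.lf (nat_lit 0) (nat_lit 2245588388) (nat_lit 608) (nat_lit 7489574119) (nat_lit 76) (nat_lit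 828114183) (nat_lit 201) (nat_lit 5) (nat_lit 209) (nat_lit 5) (nat_lit 202) (nat_lit 5) (nat_lit 599) (nat_lit 519) (nat_lit 442))))))))
noncomputable def xc81 : XT := (XT.nd (nat_lit 1950) (nat_lit 3952) (nat_lit 0) (XT.nd (nat_lit 936) (nat_lit 2964) (nat_lit 0) (XT.nd (nat_lit 468) (nat_lit 1748) (nat_lit 0) (XT.nd (nat_lit 234) (nat_lit 912) (nat_lit 0) (XT.nd (nat_lit 78) (nat_lit 988) (nat_lit 0) (XT.lf (nat_lit 0) (nat_lit 5388652769) (nat_lit 608) (nat_lit 446691551) (nat_lit 76) (nat_lit 4840981627) (nat_lit 201) (nat_lit 5) (nat_lit 209) (nat_lit 5) (nat_lit 202) (nat_lit 5) (nat_lit 600) (nat_lit 519) (nat_lit 441)) (XT.nd (nat_lit 78) (nat_lit 532) (nat_lit 0) (XT.lf (nat_lit 0) (nat_lit 6784060851) (nat_lit 456) (nat_lit 1825193614) (nat_lit 532) (nat_lit 2182091271) (nat_lit 195) (nat_lit 5) (nat_lit 201) (nat_lit 5) (nat_lit 202) (nat_lit 5) (nat_lit 601) (nat_lit 519) (nat_lit 440)) (XT.lf (nat_lit 0) (nat_lit 982366123) (nat_lit 532) (nat_lit 7672451180)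 (nat_lit 76) (nat_lit 2253529776) (nat_lit 188) (nat_lit 5) (nat_lit 195) (nat_lit 5) (nat_lit 189) (nat_lit 5) (nat_lit 602) (nat_lit 519) (nat_lit 439)))) (XT.nd (nat_lit 78) (nat_lit 912) (nat_lit 0) (XT.lf (nat_lit 0) (nat_lit 4191036381) (nat_lit 532) (nat_lit 417906510) (nat_lit 76) (nat_lit 6418257137) (nat_lit 188) (nat_lit 5) (nat_lit 195) (nat_lit 5) (nat_lit 189) (nat_lit 5) (nat_lit 603) (nat_lit 519) (nat_lit 438)) (XT.nd (nat_lit 78) (nat_lit 456) (nat_lit 0) (XT.lf (nat_lit 0) (nat_lit 7032491256) (nat_lit 456) (nat_lit 448575987) (nat_lit 532) (nat_lit 3667021882) (nat_lit 182) (nat_lit 5) (nat_lit 188) (nat_lit 5) (nat_lit 189) (nat_lit 5) (nat_lit 604) (nat_lit 519) (nat_lit 437)) (XT.lf (nat_lit 0) (nat_lit 3343738149) (nat_lit 456) (nat_lit 7514066827) (nat_lit 532) (nat_lit 413175681) (nat_lit 176) (nat_lit 5) (nat_lit 182) (nat_lit 5) (nat_lit 183) (nat_lit 5) (nat_lit 605) (nat_lit 519) (nat_lit 436))))) (XT.nd (nat_lit 234) (nat_lit 836) (nat_lit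 0) (XT.nd (nat_lit 78) (nat_lit 836) (nat_lit 0) (XT.lf (nat_lit 0) (nat_lit 2870240787) (nat_lit 532) (nat_lit 451530469) (nat_lit 76) (nat_lit 8074132056) (nat_lit 175) (nat_lit 5) (nat_lit 182) (nat_lit 5) (nat_lit 176) (nat_lit 5) (nat_lit 606) (nat_lit 519) (nat_lit 435)) (XT.nd (nat_lit 78) (nat_lit 456) (nat_lit 0) (XT.lf (nat_lit 0) (nat_lit 6239528370) (nat_lit 456) (nat_lit 4304574360) (nat_lit 76) (nat_lit 978654983) (nat_lit 170) (nat_lit 5) (nat_lit 176) (nat_lit 5) (nat_lit 171) (nat_lit 5) (nat_lit 607) (nat_lit 519) (nat_lit 434)) (XT.lf (nat_lit 0) (nat_lit 3376431460) (nat_lit 456) (nat_lit 6319315061) (nat_lit 532) (nat_lit 1956014348) (nat_lit 164) (nat_lit 5) (nat_lit 170) (nat_lit 5) (nat_lit 171) (nat_lit 5) (nat_lit 608) (nat_lit 519) (nat_lit 433)))) (XT.nd (nat_lit 78) (nat_lit 760) (nat_lit 0) (XT.lf (nat_lit 0) (nat_lit 1420630146) (nat_lit 532) (nat_lit 564136368) (nat_lit 76) (nat_lit 9798358516) (nat_lit 163) (nat_lit 5) (nat_lit 170) (nat_lit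 5) (nat_lit 164) (nat_lit 5) (nat_lit 609) (nat_lit 519) (nat_lit 432)) (XT.nd (nat_lit 78) (nat_lit 380) (nat_lit 0) (XT.lf (nat_lit 0) (nat_lit 4875656850) (nat_lit 456) (nat_lit 4588369068) (nat_lit 76) (nat_lit 2452093582) (nat_lit 158) (nat_lit 5) (nat_lit 164) (nat_lit 5) (nat_lit 159) (nat_lit 5) (nat_lit 610) (nat_lit 519) (nat_lit 431)) (XT.lf (nat_lit 0) (nat_lit 3323218690) (nat_lit 380) (nat_lit 5088473101) (nat_lit 456) (nat_lit 3639846284) (nat_lit 153) (nat_lit 5) (nat_lit 158) (nat_lit 5) (nat_lit 159) (nat_lit 5) (nat_lit 611) (nat_lit 519) (nat_lit 430)))))) (XT.nd (nat_lit 468) (nat_lit 1368) (nat_lit 0) (XT.nd (nat_lit 234) (nat_lit 760) (nat_lit 0) (XT.nd (nat_lit 78) (nat_lit 836) (nat_lit 0) (XT.lf (nat_lit 0) (nat_lit 11414881456) (nat_lit 380) (nat_lit 607992673) (nat_lit 456) (nat_lit 166704683) (nat_lit 153) (nat_lit 5) (nat_lit 158) (nat_lit 5) (nat_lit 159) (nat_lit 5) (nat_lit 612) (nat_lit 519) (nat_lit 429)) (XT.nd (nat_lit 78) (nat_lit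 380) (nat_lit 0) (XT.lf (nat_lit 0) (nat_lit 3379570142) (nat_lit 456) (nat_lit 4982738899) (nat_lit 76) (nat_lit 3966676266) (nat_lit 147) (nat_lit 5) (nat_lit 153) (nat_lit 5) (nat_lit 148) (nat_lit 5) (nat_lit 613) (nat_lit 519) (nat_lit 428)) (XT.lf (nat_lit 0) (nat_lit 3165308088) (nat_lit 380) (nat_lit 3833185566) (nat_lit 456) (nat_lit 5472587321) (nat_lit 142) (nat_lit 5) (nat_lit 147) (nat_lit 5) (nat_lit 148) (nat_lit 5) (nat_lit 614) (nat_lit 519) (nat_lit 427)))) (XT.nd (nat_lit 78) (nat_lit 760) (nat_lit 0) (XT.lf (nat_lit 0) (nat_lit 10702859308) (nat_lit 456) (nat_lit 1117052919) (nat_lit 76) (nat_lit 795847204) (nat_lit 142) (nat_lit 5) (nat_lit 148) (nat_lit 5) (nat_lit 143) (nat_lit 5) (nat_lit 615) (nat_lit 519) (nat_lit 426)) (XT.nd (nat_lit 78) (nat_lit 380) (nat_lit 0) (XT.lf (nat_lit 0) (nat_lit 1743123952) (nat_lit 380) (nat_lit 5507948965) (nat_lit 76) (nat_lit 5511084022) (nat_lit 137) (nat_lit 5) (nat_lit 142) (nat_lit 5) (nat_lit 138) (nat_lit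 5) (nat_lit 616) (nat_lit 519) (nat_lit 425)) (XT.lf (nat_lit 0) (nat_lit 2882266212) (nat_lit 380) (nat_lit 2565546844) (nat_lit 456) (nat_lit 7463395314) (nat_lit 132) (nat_lit 5) (nat_lit 137) (nat_lit 5) (nat_lit 138) (nat_lit 5) (nat_lit 617) (nat_lit 519) (nat_lit 424))))) (XT.nd (nat_lit 234) (nat_lit 684) (nat_lit 0) (XT.nd (nat_lit 78) (nat_lit 684) (nat_lit 0) (XT.lf (nat_lit 0) (nat_lit 9253194206) (nat_lit 456) (nat_lit 1601839058) (nat_lit 76) (nat_lit 2207677583) (nat_lit 132) (nat_lit 5) (nat_lit 138) (nat_lit 5) (nat_lit 133) (nat_lit 5) (nat_lit 618) (nat_lit 519) (nat_lit 423)) (XT.nd (nat_lit 78) (nat_lit 380) (nat_lit 0) (XT.lf (nat_lit 0) (nat_lit 7030127581) (nat_lit 304) (nat_lit 6142699349) (nat_lit 380) (nat_lit 43655509) (nat_lit 128) (nat_lit 5) (nat_lit 132) (nat_lit 5) (nat_lit 133) (nat_lit 5) (nat_lit 619) (nat_lit 519) (nat_lit 422)) (XT.lf (nat_lit 0) (nat_lit 2451800877) (nat_lit 304) (nat_lit 1298232003) (nat_lit 380) (nat_lit 9622759026)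 (nat_lit 123) (nat_lit 5) (nat_lit 127) (nat_lit 5) (nat_lit 128) (nat_lit 5) (nat_lit 620) (nat_lit 519) (nat_lit 421)))) (XT.nd (nat_lit 156) (nat_lit 380) (nat_lit 0) (XT.nd (nat_lit 78) (nat_lit 304) (nat_lit 0) (XT.lf (nat_lit 0) (nat_lit 7660162802) (nat_lit 380) (nat_lit 2248132890) (nat_lit 76) (nat_lit 3623104886) (nat_lit 123) (nat_lit 5) (nat_lit 128) (nat_lit 5) (nat_lit 124) (nat_lit 5) (nat_lit 621) (nat_lit 519) (nat_lit 420)) (XT.lf (nat_lit 0) (nat_lit 6638318790) (nat_lit 304) (nat_lit 5038060306) (nat_lit 380) (nat_lit 2016246447) (nat_lit 119) (nat_lit 5) (nat_lit 123) (nat_lit 5) (nat_lit 124) (nat_lit 5) (nat_lit 622) (nat_lit 519) (nat_lit 419))) (XT.nd (nat_lit 78) (nat_lit 0) (nat_lit 0) (XT.lf (nat_lit 0) (nat_lit 1849524226) (nat_lit 304) (nat_lit 44635809) (nat_lit 380) (nat_lit 11962599082) (nat_lit 114) (nat_lit 5) (nat_lit 118) (nat_lit 5) (nat_lit 119) (nat_lit 5) (nat_lit 623) (nat_lit 519) (nat_lit 418)) (XT.lf (nat_lit 0) (nat_lit 5912604017)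 (nat_lit 380) (nat_lit 3081138115) (nat_lit 76) (nat_lit 5029031837) (nat_lit 114) (nat_lit 5) (nat_lit 119) (nat_lit 5) (nat_lit 115) (nat_lit 5) (nat_lit 624) (nat_lit 519) (nat_lit 417))))))) (XT.nd (nat_lit 936) (nat_lit 1596) (nat_lit 0) (XT.nd (nat_lit 468) (nat_lit 1064) (nat_lit 0) (XT.nd (nat_lit 234) (nat_lit 608) (nat_lit 0) (XT.nd (nat_lit 78) (nat_lit 380) (nat_lit 0) (XT.lf (nat_lit 0) (nat_lit 6064964394) (nat_lit 304) (nat_lit 3962960005) (nat_lit 380) (nat_lit 4163856229) (nat_lit 110) (nat_lit 5) (nat_lit 114) (nat_lit 5) (nat_lit 115) (nat_lit 5) (nat_lit 625) (nat_lit 519) (nat_lit 416)) (XT.nd (nat_lit 78) (nat_lit 76) (nat_lit 0) (XT.lf (nat_lit 0) (nat_lit 1040036305) (nat_lit 304) (nat_lit 13197617021) (nat_lit 380) (nat_lit 126273678) (nat_lit 106) (nat_lit 5) (nat_lit 110) (nat_lit 5) (nat_lit 111) (nat_lit 5) (nat_lit 626) (nat_lit 519) (nat_lit 415)) (XT.lf (nat_lit 0) (nat_lit 3997850123) (nat_lit 380) (nat_lit 4128502993) (nat_lit 76) (nat_lit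 6411483449) (nat_lit 105) (nat_lit 5) (nat_lit 110) (nat_lit 5) (nat_lit 106) (nat_lit 5) (nat_lit 627) (nat_lit 519) (nat_lit 414)))) (XT.nd (nat_lit 78) (nat_lit 380) (nat_lit 0) (XT.lf (nat_lit 0) (nat_lit 5282035589) (nat_lit 228) (nat_lit 2932481997) (nat_lit 304) (nat_lit 6500456532) (nat_lit 102) (nat_lit 5) (nat_lit 105) (nat_lit 5) (nat_lit 106) (nat_lit 5) (nat_lit 628) (nat_lit 519) (nat_lit 413)) (XT.nd (nat_lit 78) (nat_lit 380) (nat_lit 0) (XT.lf (nat_lit 0) (nat_lit 12536326390) (nat_lit 304) (nat_lit 11197059) (nat_lit 76) (nat_lit 2347716316) (nat_lit 102) (nat_lit 5) (nat_lit 106) (nat_lit 5) (nat_lit 103) (nat_lit 5) (nat_lit 629) (nat_lit 519) (nat_lit 412)) (XT.lf (nat_lit 0) (nat_lit 1901598416) (nat_lit 380) (nat_lit 5420611300) (nat_lit 76) (nat_lit 7755448144) (nat_lit 97) (nat_lit 5) (nat_lit 102) (nat_lit 5) (nat_lit 98) (nat_lit 5) (nat_lit 630) (nat_lit 519) (nat_lit 411))))) (XT.nd (nat_lit 234) (nat_lit 532) (nat_lit 0) (XT.nd (nat_lit 78)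 (nat_lit 304) (nat_lit 0) (XT.lf (nat_lit 0) (nat_lit 4258689781) (nat_lit 228) (nat_lit 1962852974) (nat_lit 304) (nat_lit 9041754968) (nat_lit 94) (nat_lit 5) (nat_lit 97) (nat_lit 5) (nat_lit 98) (nat_lit 5) (nat_lit 631) (nat_lit 519) (nat_lit 410)) (XT.nd (nat_lit 78) (nat_lit 304) (nat_lit 0) (XT.lf (nat_lit 0) (nat_lit 10665402189) (nat_lit 304) (nat_lit 1306583142) (nat_lit 76) (nat_lit 3479916117) (nat_lit 94) (nat_lit 5) (nat_lit 98) (nat_lit 5) (nat_lit 95) (nat_lit 5) (nat_lit 632) (nat_lit 519) (nat_lit 409)) (XT.lf (nat_lit 0) (nat_lit 8649841693) (nat_lit 304) (nat_lit 6596036920) (nat_lit 380) (nat_lit 397445201) (nat_lit 90) (nat_lit 5) (nat_lit 94) (nat_lit 5) (nat_lit 95) (nat_lit 5) (nat_lit 633) (nat_lit 519) (nat_lit 408)))) (XT.nd (nat_lit 78) (nat_lit 228) (nat_lit 0) (XT.lf (nat_lit 0) (nat_lit 2960941807) (nat_lit 228) (nat_lit 1071622623) (nat_lit 304) (nat_lit 11805348253) (nat_lit 86) (nat_lit 5) (nat_lit 89) (nat_lit 5) (nat_lit 90) (nat_lit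 5) (nat_lit 634) (nat_lit 519) (nat_lit 407)) (XT.nd (nat_lit 78) (nat_lit 228) (nat_lit 0) (XT.lf (nat_lit 0) (nat_lit 8601443684) (nat_lit 304) (nat_lit 2894919737) (nat_lit 76) (nat_lit 4538866826) (nat_lit 86) (nat_lit 5) (nat_lit 90) (nat_lit 5) (nat_lit 87) (nat_lit 5) (nat_lit 635) (nat_lit 519) (nat_lit 406)) (XT.lf (nat_lit 0) (nat_lit 7340509464) (nat_lit 228) (nat_lit 5955082316) (nat_lit 304) (nat_lit 2940225814) (nat_lit 83) (nat_lit 5) (nat_lit 86) (nat_lit 5) (nat_lit 87) (nat_lit 5) (nat_lit 636) (nat_lit 519) (nat_lit 405)))))) (XT.nd (nat_lit 468) (nat_lit 532) (nat_lit 0) (XT.nd (nat_lit 234) (nat_lit 532) (nat_lit 0) (XT.nd (nat_lit 78) (nat_lit 228) (nat_lit 0) (XT.lf (nat_lit 0) (nat_lit 1351302620) (nat_lit 228) (nat_lit 277858534) (nat_lit 304) (nat_lit 14810893249) (nat_lit 79) (nat_lit 5) (nat_lit 82) (nat_lit 5) (nat_lit 83) (nat_lit 5) (nat_lit 637) (nat_lit 519) (nat_lit 404)) (XT.nd (nat_lit 78) (nat_lit 228) (nat_lit 0) (XT.lf (nat_lit 0)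 (nat_lit 6325745917) (nat_lit 304) (nat_lit 4814987534) (nat_lit 76) (nat_lit 5505751390) (nat_lit 79) (nat_lit 5) (nat_lit 83) (nat_lit 5) (nat_lit 80) (nat_lit 5) (nat_lit 638) (nat_lit 519) (nat_lit 403)) (XT.lf (nat_lit 0) (nat_lit 5702327571) (nat_lit 228) (nat_lit 5432466748) (nat_lit 304) (nat_lit 5721880093) (nat_lit 76) (nat_lit 5) (nat_lit 79) (nat_lit 5) (nat_lit 80) (nat_lit 5) (nat_lit 639) (nat_lit 519) (nat_lit 402)))) (XT.nd (nat_lit 78) (nat_lit 532) (nat_lit 0) (XT.lf (nat_lit 0) (nat_lit 16054828909) (nat_lit 304) (nat_lit 612862239) (nat_lit 76) (nat_lit 403081661) (nat_lit 76) (nat_lit 5) (nat_lit 80) (nat_lit 5) (nat_lit 77) (nat_lit 5) (nat_lit 640) (nat_lit 519) (nat_lit 401)) (XT.nd (nat_lit 78) (nat_lit 228) (nat_lit 0) (XT.lf (nat_lit 0) (nat_lit 3817392804) (nat_lit 304) (nat_lit 7109598302) (nat_lit 76) (nat_lit 6360013561) (nat_lit 72) (nat_lit 5) (nat_lit 76) (nat_lit 5) (nat_lit 73) (nat_lit 5) (nat_lit 641) (nat_lit 519) (nat_lit 400))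 (XT.lf (nat_lit 0) (nat_lit 3691664585) (nat_lit 228) (nat_lit 5050431638) (nat_lit 304) (nat_lit 8765165638) (nat_lit 69) (nat_lit 5) (nat_lit 72) (nat_lit 5) (nat_lit 73) (nat_lit 5) (nat_lit 642) (nat_lit 519) (nat_lit 399))))) (XT.nd (nat_lit 234) (nat_lit 0) (nat_lit 0) (XT.nd (nat_lit 78) (nat_lit 532) (nat_lit 0) (XT.lf (nat_lit 0) (nat_lit 13799701452) (nat_lit 304) (nat_lit 2966468162) (nat_lit 76) (nat_lit 965067480) (nat_lit 69) (nat_lit 5) (nat_lit 73) (nat_lit 5) (nat_lit 70) (nat_lit 5) (nat_lit 643) (nat_lit 519) (nat_lit 398)) (XT.nd (nat_lit 78) (nat_lit 228) (nat_lit 0) (XT.lf (nat_lit 0) (nat_lit 1053045023) (nat_lit 304) (nat_lit 9826043968) (nat_lit 76) (nat_lit 7079126619) (nat_lit 65) (nat_lit 5) (nat_lit 69) (nat_lit 5) (nat_lit 66) (nat_lit 5) (nat_lit 644) (nat_lit 519) (nat_lit 397)) (XT.lf (nat_lit 0) (nat_lit 1260277769) (nat_lit 228) (nat_lit 4833343384) (nat_lit 304) (nat_lit 12095414843) (nat_lit 62) (nat_lit 5) (nat_lit 65) (nat_lit 5)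 (nat_lit 66) (nat_lit 5) (nat_lit 645) (nat_lit 519) (nat_lit 396)))) (XT.nd (nat_lit 71448) (nat_lit 0) (nat_lit 52516) (XT.nd (nat_lit 71370) (nat_lit 0) (nat_lit 52592) (XT.lf (nat_lit 0) (nat_lit 11290785159) (nat_lit 304) (nat_lit 5764538368) (nat_lit 76) (nat_lit 1368034708) (nat_lit 62) (nat_lit 5) (nat_lit 66) (nat_lit 5) (nat_lit 63) (nat_lit 5) (nat_lit 646) (nat_lit 519) (nat_lit 395)) (XT.lf (nat_lit 0) (nat_lit 1073741823) (nat_lit 0) (nat_lit 0) (nat_lit 0) (nat_lit 0) (nat_lit 754) (nat_lit 0) (nat_lit 1) (nat_lit 0) (nat_lit 1) (nat_lit 0) (nat_lit 520) (nat_lit 520) (nat_lit 520))) (XT.nd (nat_lit 78) (nat_lit 0) (nat_lit 0) (XT.lf (nat_lit 0) (nat_lit 3152306472) (nat_lit 76) (nat_lit 3248955868) (nat_lit 0) (nat_lit 41613247) (nat_lit 753) (nat_lit 5) (nat_lit 754) (nat_lit 0) (nat_lit 753) (nat_lit 4) (nat_lit 521) (nat_lit 520) (nat_lit 519)) (XT.lf (nat_lit 0) (nat_lit 6285248526) (nat_lit 76) (nat_lit 34877367) (nat_lit 0) (nat_lit 124856060) (nat_lit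 753) (nat_lit 5) (nat_lit 754) (nat_lit 0) (nat_lit 753) (nat_lit 4) (nat_lit 522) (nat_lit 520) (nat_lit 518))))))))
noncomputable def xc82 : XT := (XT.nd (nat_lit 1950) (nat_lit 20596) (nat_lit 0) (XT.nd (nat_lit 936) (nat_lit 6232) (nat_lit 0) (XT.nd (nat_lit 468) (nat_lit 1596) (nat_lit 0) (XT.nd (nat_lit 234) (nat_lit 608) (nat_lit 0) (XT.nd (nat_lit 78) (nat_lit 228) (nat_lit 0) (XT.lf (nat_lit 0) (nat_lit 2933776254) (nat_lit 152) (nat_lit 3224065648) (nat_lit 76) (nat_lit 290121749) (nat_lit 751) (nat_lit 5) (nat_lit 753) (nat_lit 5) (nat_lit 752) (nat_lit 4) (nat_lit 523) (nat_lit 520) (nat_lit 517)) (XT.nd (nat_lit 78) (nat_lit 76) (nat_lit 0) (XT.lf (nat_lit 0) (nat_lit 53720809) (nat_lit 152) (nat_lit 5953848593) (nat_lit 228) (nat_lit 445026997) (nat_lit 749) (nat_lit 5) (nat_lit 751) (nat_lit 5) (nat_lit 752) (nat_lit 4) (nat_lit 524) (nat_lit 520) (nat_lit 516)) (XT.lf (nat_lit 0) (nat_lit 2592785827) (nat_lit 228) (nat_lit 3077740037) (nat_lit 76) (nat_lit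 787620067) (nat_lit 748) (nat_lit 5) (nat_lit 751) (nat_lit 5) (nat_lit 749) (nat_lit 5) (nat_lit 525) (nat_lit 520) (nat_lit 515)))) (XT.nd (nat_lit 78) (nat_lit 380) (nat_lit 0) (XT.lf (nat_lit 0) (nat_lit 267201344) (nat_lit 228) (nat_lit 5342201535) (nat_lit 304) (nat_lit 855886821) (nat_lit 745) (nat_lit 5) (nat_lit 748) (nat_lit 5) (nat_lit 749) (nat_lit 5) (nat_lit 526) (nat_lit 520) (nat_lit 514)) (XT.nd (nat_lit 78) (nat_lit 304) (nat_lit 0) (XT.lf (nat_lit 0) (nat_lit 2128516037) (nat_lit 304) (nat_lit 2809847114) (nat_lit 76) (nat_lit 1535071594) (nat_lit 744) (nat_lit 5) (nat_lit 748) (nat_lit 5) (nat_lit 745) (nat_lit 5) (nat_lit 527) (nat_lit 520) (nat_lit 513)) (XT.lf (nat_lit 0) (nat_lit 605356770) (nat_lit 304) (nat_lit 4484225208) (nat_lit 380) (nat_lit 1393499791) (nat_lit 740) (nat_lit 5) (nat_lit 744) (nat_lit 5) (nat_lit 745) (nat_lit 5) (nat_lit 528) (nat_lit 520) (nat_lit 512))))) (XT.nd (nat_lit 234) (nat_lit 1064) (nat_lit 0) (XT.nd (nat_lit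 78) (nat_lit 456) (nat_lit 0) (XT.lf (nat_lit 0) (nat_lit 1539905988) (nat_lit 380) (nat_lit 2420019259) (nat_lit 76) (nat_lit 2533923339) (nat_lit 739) (nat_lit 5) (nat_lit 744) (nat_lit 5) (nat_lit 740) (nat_lit 5) (nat_lit 529) (nat_lit 520) (nat_lit 511)) (XT.nd (nat_lit 78) (nat_lit 76) (nat_lit 0) (XT.lf (nat_lit 0) (nat_lit 1068682575) (nat_lit 380) (nat_lit 3378245969) (nat_lit 456) (nat_lit 2059065548) (nat_lit 734) (nat_lit 5) (nat_lit 739) (nat_lit 5) (nat_lit 740) (nat_lit 5) (nat_lit 530) (nat_lit 520) (nat_lit 510)) (XT.lf (nat_lit 0) (nat_lit 825650684) (nat_lit 456) (nat_lit 1907653242) (nat_lit 76) (nat_lit 3786108236) (nat_lit 733) (nat_lit 5) (nat_lit 739) (nat_lit 5) (nat_lit 734) (nat_lit 5) (nat_lit 531) (nat_lit 520) (nat_lit 509)))) (XT.nd (nat_lit 78) (nat_lit 608) (nat_lit 0) (XT.lf (nat_lit 0) (nat_lit 1657913812) (nat_lit 456) (nat_lit 2022107420) (nat_lit 532) (nat_lit 2854033122) (nat_lit 727) (nat_lit 5) (nat_lit 733) (nat_lit 5) (nat_lit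 734) (nat_lit 5) (nat_lit 532) (nat_lit 520) (nat_lit 508)) (XT.nd (nat_lit 78) (nat_lit 608) (nat_lit 0) (XT.lf (nat_lit 0) (nat_lit 5278140448) (nat_lit 456) (nat_lit 1256002164) (nat_lit 532) (nat_lit 16011733) (nat_lit 727) (nat_lit 5) (nat_lit 733) (nat_lit 5) (nat_lit 734) (nat_lit 5) (nat_lit 533) (nat_lit 520) (nat_lit 507)) (XT.lf (nat_lit 0) (nat_lit 2374025581) (nat_lit 532) (nat_lit 413166965) (nat_lit 608) (nat_lit 3780103928) (nat_lit 719) (nat_lit 5) (nat_lit 726) (nat_lit 5) (nat_lit 727) (nat_lit 5) (nat_lit 534) (nat_lit 520) (nat_lit 506)))))) (XT.nd (nat_lit 468) (nat_lit 4028) (nat_lit 0) (XT.nd (nat_lit 234) (nat_lit 836) (nat_lit 0) (XT.nd (nat_lit 78) (nat_lit 1368) (nat_lit 0) (XT.lf (nat_lit 0) (nat_lit 5589752899) (nat_lit 608) (nat_lit 521326187) (nat_lit 76) (nat_lit 474847286) (nat_lit 719) (nat_lit 5) (nat_lit 727) (nat_lit 5) (nat_lit 720) (nat_lit 5) (nat_lit 535) (nat_lit 520) (nat_lit 505)) (XT.nd (nat_lit 78) (nat_lit 684) (nat_lit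 0) (XT.lf (nat_lit 0) (nat_lit 1775950928) (nat_lit 684) (nat_lit 3396952239) (nat_lit 76) (nat_lit 1432668984) (nat_lit 710) (nat_lit 5) (nat_lit 719) (nat_lit 5) (nat_lit 711) (nat_lit 5) (nat_lit 536) (nat_lit 520) (nat_lit 504)) (XT.lf (nat_lit 0) (nat_lit 349014931) (nat_lit 684) (nat_lit 4180890396) (nat_lit 760) (nat_lit 2096795482) (nat_lit 701) (nat_lit 5) (nat_lit 710) (nat_lit 5) (nat_lit 711) (nat_lit 5) (nat_lit 537) (nat_lit 520) (nat_lit 503)))) (XT.nd (nat_lit 78) (nat_lit 760) (nat_lit 0) (XT.lf (nat_lit 0) (nat_lit 639068437) (nat_lit 760) (nat_lit 2480715390) (nat_lit 76) (nat_lit 3529245275) (nat_lit 700) (nat_lit 5) (nat_lit 710) (nat_lit 5) (nat_lit 701) (nat_lit 5) (nat_lit 538) (nat_lit 520) (nat_lit 502)) (XT.nd (nat_lit 78) (nat_lit 0) (nat_lit 0) (XT.lf (nat_lit 0) (nat_lit 1352684513) (nat_lit 760) (nat_lit 1993476079) (nat_lit 836) (nat_lit 3326489680) (nat_lit 690) (nat_lit 5) (nat_lit 700) (nat_lit 5) (nat_lit 701) (nat_lit 5) (nat_lit 539)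 (nat_lit 520) (nat_lit 501)) (XT.lf (nat_lit 0) (nat_lit 5253299825) (nat_lit 760) (nat_lit 807499500) (nat_lit 836) (nat_lit 636891395) (nat_lit 690) (nat_lit 5) (nat_lit 700) (nat_lit 5) (nat_lit 701) (nat_lit 5) (nat_lit 540) (nat_lit 520) (nat_lit 500))))) (XT.nd (nat_lit 234) (nat_lit 2128) (nat_lit 0) (XT.nd (nat_lit 78) (nat_lit 988) (nat_lit 0) (XT.lf (nat_lit 0) (nat_lit 2035510080) (nat_lit 912) (nat_lit 4242308055) (nat_lit 76) (nat_lit 446021909) (nat_lit 678) (nat_lit 5) (nat_lit 690) (nat_lit 5) (nat_lit 679) (nat_lit 5) (nat_lit 541) (nat_lit 520) (nat_lit 499)) (XT.nd (nat_lit 78) (nat_lit 988) (nat_lit 0) (XT.lf (nat_lit 0) (nat_lit 4706584397) (nat_lit 912) (nat_lit 298556019) (nat_lit 76) (nat_lit 1746226773) (nat_lit 678) (nat_lit 5) (nat_lit 690) (nat_lit 5) (nat_lit 679) (nat_lit 5) (nat_lit 542) (nat_lit 520) (nat_lit 498)) (XT.lf (nat_lit 0) (nat_lit 606896452) (nat_lit 988) (nat_lit 3054477971) (nat_lit 76) (nat_lit 3118723228) (nat_lit 665) (nat_lit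 5) (nat_lit 678) (nat_lit 5) (nat_lit 666) (nat_lit 5) (nat_lit 543) (nat_lit 520) (nat_lit 497)))) (XT.nd (nat_lit 156) (nat_lit 1140) (nat_lit 0) (XT.nd (nat_lit 78) (nat_lit 0) (nat_lit 0) (XT.lf (nat_lit 0) (nat_lit 980451479) (nat_lit 988) (nat_lit 2252524193) (nat_lit 1064) (nat_lit 3577195084) (nat_lit 652) (nat_lit 5) (nat_lit 665) (nat_lit 5) (nat_lit 666) (nat_lit 5) (nat_lit 544) (nat_lit 520) (nat_lit 496)) (XT.lf (nat_lit 0) (nat_lit 5093956344) (nat_lit 988) (nat_lit 779342484) (nat_lit 1064) (nat_lit 968325062) (nat_lit 652) (nat_lit 5) (nat_lit 665) (nat_lit 5) (nat_lit 666) (nat_lit 5) (nat_lit 545) (nat_lit 520) (nat_lit 495))) (XT.nd (nat_lit 78) (nat_lit 0) (nat_lit 0) (XT.lf (nat_lit 0) (nat_lit 1633008506) (nat_lit 1140) (nat_lit 4486353158) (nat_lit 76) (nat_lit 754887398) (nat_lit 637) (nat_lit 5) (nat_lit 652) (nat_lit 5) (nat_lit 638) (nat_lit 5) (nat_lit 546) (nat_lit 520) (nat_lit 494)) (XT.lf (nat_lit 0) (nat_lit 4233313184) (nat_lit 1140)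 (nat_lit 333500916) (nat_lit 76) (nat_lit 2341398681) (nat_lit 637) (nat_lit 5) (nat_lit 652) (nat_lit 5) (nat_lit 638) (nat_lit 5) (nat_lit 547) (nat_lit 520) (nat_lit 493))))))) (XT.nd (nat_lit 936) (nat_lit 9044) (nat_lit 0) (XT.nd (nat_lit 468) (nat_lit 6384) (nat_lit 0) (XT.nd (nat_lit 234) (nat_lit 2736) (nat_lit 0) (XT.nd (nat_lit 78) (nat_lit 1292) (nat_lit 0) (XT.lf (nat_lit 0) (nat_lit 3910143717) (nat_lit 1140) (nat_lit 2944918019) (nat_lit 1216) (nat_lit 88417306) (nat_lit 622) (nat_lit 5) (nat_lit 637) (nat_lit 5) (nat_lit 638) (nat_lit 5) (nat_lit 548) (nat_lit 520) (nat_lit 492)) (XT.nd (nat_lit 78) (nat_lit 0) (nat_lit 0) (XT.lf (nat_lit 0) (nat_lit 1219186482) (nat_lit 1216) (nat_lit 1251825640) (nat_lit 1292) (nat_lit 4509025794) (nat_lit 605) (nat_lit 5) (nat_lit 621) (nat_lit 5) (nat_lit 622) (nat_lit 5) (nat_lit 549) (nat_lit 520) (nat_lit 491)) (XT.lf (nat_lit 0) (nat_lit 5049388120) (nat_lit 1292) (nat_lit 1467746556) (nat_lit 76) (nat_lit 500814094)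 (nat_lit 605) (nat_lit 5) (nat_lit 622) (nat_lit 5) (nat_lit 606) (nat_lit 5) (nat_lit 550) (nat_lit 520) (nat_lit 490)))) (XT.nd (nat_lit 78) (nat_lit 1368) (nat_lit 0) (XT.lf (nat_lit 0) (nat_lit 587896556) (nat_lit 1368) (nat_lit 4164118880) (nat_lit 76) (nat_lit 2305065439) (nat_lit 587) (nat_lit 5) (nat_lit 605) (nat_lit 5) (nat_lit 588) (nat_lit 5) (nat_lit 551) (nat_lit 520) (nat_lit 489)) (XT.nd (nat_lit 78) (nat_lit 0) (nat_lit 0) (XT.lf (nat_lit 0) (nat_lit 209179070) (nat_lit 1368) (nat_lit 2918085222) (nat_lit 1444) (nat_lit 3970318955) (nat_lit 569) (nat_lit 5) (nat_lit 587) (nat_lit 5) (nat_lit 588) (nat_lit 5) (nat_lit 552) (nat_lit 520) (nat_lit 488)) (XT.lf (nat_lit 0) (nat_lit 4682237032) (nat_lit 1368) (nat_lit 1010724475) (nat_lit 1444) (nat_lit 1446433784) (nat_lit 569) (nat_lit 5) (nat_lit 587) (nat_lit 5) (nat_lit 588) (nat_lit 5) (nat_lit 553) (nat_lit 520) (nat_lit 487))))) (XT.nd (nat_lit 234) (nat_lit 3344) (nat_lit 0) (XT.nd (nat_lit 78) (nat_lit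 1520) (nat_lit 0) (XT.lf (nat_lit 0) (nat_lit 1080900476) (nat_lit 1520) (nat_lit 5150796189) (nat_lit 76) (nat_lit 950855218) (nat_lit 549) (nat_lit 5) (nat_lit 569) (nat_lit 5) (nat_lit 550) (nat_lit 5) (nat_lit 554) (nat_lit 520) (nat_lit 486)) (XT.nd (nat_lit 78) (nat_lit 1520) (nat_lit 0) (XT.lf (nat_lit 0) (nat_lit 3611777063) (nat_lit 1520) (nat_lit 643639415) (nat_lit 76) (nat_lit 2971526506) (nat_lit 549) (nat_lit 5) (nat_lit 569) (nat_lit 5) (nat_lit 550) (nat_lit 5) (nat_lit 555) (nat_lit 520) (nat_lit 485)) (XT.lf (nat_lit 0) (nat_lit 3961725936) (nat_lit 1520) (nat_lit 2207320066) (nat_lit 1596) (nat_lit 1103670078) (nat_lit 529) (nat_lit 5) (nat_lit 549) (nat_lit 5) (nat_lit 550) (nat_lit 5) (nat_lit 556) (nat_lit 520) (nat_lit 484)))) (XT.nd (nat_lit 78) (nat_lit 1672) (nat_lit 0) (XT.lf (nat_lit 0) (nat_lit 1312044666) (nat_lit 1596) (nat_lit 90168176) (nat_lit 1672) (nat_lit 5917746161) (nat_lit 507) (nat_lit 5) (nat_lit 528) (nat_lit 5) (nat_lit 529)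 (nat_lit 5) (nat_lit 557) (nat_lit 520) (nat_lit 483)) (XT.nd (nat_lit 78) (nat_lit 1672) (nat_lit 0) (XT.lf (nat_lit 0) (nat_lit 3930382224) (nat_lit 1672) (nat_lit 1361173139) (nat_lit 76) (nat_lit 2076715691) (nat_lit 507) (nat_lit 5) (nat_lit 529) (nat_lit 5) (nat_lit 508) (nat_lit 5) (nat_lit 558) (nat_lit 520) (nat_lit 482)) (XT.lf (nat_lit 0) (nat_lit 3378091808) (nat_lit 1672) (nat_lit 3105643392) (nat_lit 1748) (nat_lit 934330674) (nat_lit 485) (nat_lit 5) (nat_lit 507) (nat_lit 5) (nat_lit 508) (nat_lit 5) (nat_lit 559) (nat_lit 520) (nat_lit 481)))))) (XT.nd (nat_lit 468) (nat_lit 3572) (nat_lit 0) (XT.nd (nat_lit 234) (nat_lit 1976) (nat_lit 0) (XT.nd (nat_lit 78) (nat_lit 1672) (nat_lit 0) (XT.lf (nat_lit 0) (nat_lit 716270350) (nat_lit 1748) (nat_lit 848059592) (nat_lit 1824) (nat_lit 5904999589) (nat_lit 461) (nat_lit 5) (nat_lit 484) (nat_lit 5) (nat_lit 485) (nat_lit 5) (nat_lit 560) (nat_lit 520) (nat_lit 480)) (XT.nd (nat_lit 78) (nat_lit 1672) (nat_lit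 0) (XT.lf (nat_lit 0) (nat_lit 4090286835) (nat_lit 1824) (nat_lit 1959626740) (nat_lit 76) (nat_lit 1471793113) (nat_lit 461) (nat_lit 5) (nat_lit 485) (nat_lit 5) (nat_lit 462) (nat_lit 5) (nat_lit 561) (nat_lit 520) (nat_lit 479)) (XT.lf (nat_lit 0) (nat_lit 2918073066) (nat_lit 1672) (nat_lit 3727259450) (nat_lit 1748) (nat_lit 930235731) (nat_lit 439) (nat_lit 5) (nat_lit 461) (nat_lit 5) (nat_lit 462) (nat_lit 5) (nat_lit 562) (nat_lit 520) (nat_lit 478)))) (XT.nd (nat_lit 78) (nat_lit 912) (nat_lit 0) (XT.lf (nat_lit 0) (nat_lit 237570404) (nat_lit 988) (nat_lit 1331237181) (nat_lit 1064) (nat_lit 6062115000) (nat_lit 425) (nat_lit 5) (nat_lit 438) (nat_lit 5) (nat_lit 439) (nat_lit 5) (nat_lit 563) (nat_lit 520) (nat_lit 477)) (XT.nd (nat_lit 78) (nat_lit 912) (nat_lit 0) (XT.lf (nat_lit 0) (nat_lit 4099001751) (nat_lit 1064) (nat_lit 2451881055) (nat_lit 76) (nat_lit 1136513486) (nat_lit 425) (nat_lit 5) (nat_lit 439) (nat_lit 5) (nat_lit 426) (nat_lit 5) (nat_lit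 564) (nat_lit 520) (nat_lit 476)) (XT.lf (nat_lit 0) (nat_lit 2568981199) (nat_lit 912) (nat_lit 4092126570) (nat_lit 988) (nat_lit 1084273171) (nat_lit 413) (nat_lit 5) (nat_lit 425) (nat_lit 5) (nat_lit 426) (nat_lit 5) (nat_lit 565) (nat_lit 520) (nat_lit 475))))) (XT.nd (nat_lit 234) (nat_lit 1748) (nat_lit 0) (XT.nd (nat_lit 78) (nat_lit 1748) (nat_lit 0) (XT.lf (nat_lit 0) (nat_lit 1423311330) (nat_lit 988) (nat_lit 134966385) (nat_lit 76) (nat_lit 6246610836) (nat_lit 412) (nat_lit 5) (nat_lit 425) (nat_lit 5) (nat_lit 413) (nat_lit 5) (nat_lit 566) (nat_lit 520) (nat_lit 474)) (XT.nd (nat_lit 78) (nat_lit 836) (nat_lit 0) (XT.lf (nat_lit 0) (nat_lit 3963030048) (nat_lit 988) (nat_lit 2850337247) (nat_lit 76) (nat_lit 1052152844) (nat_lit 400) (nat_lit 5) (nat_lit 413) (nat_lit 5) (nat_lit 401) (nat_lit 5) (nat_lit 567) (nat_lit 520) (nat_lit 473)) (XT.lf (nat_lit 0) (nat_lit 2318599702) (nat_lit 836) (nat_lit 4218741868) (nat_lit 912) (nat_lit 1390353865) (nat_lit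 389) (nat_lit 5) (nat_lit 400) (nat_lit 5) (nat_lit 401) (nat_lit 5) (nat_lit 568) (nat_lit 520) (nat_lit 472)))) (XT.nd (nat_lit 156) (nat_lit 836) (nat_lit 0) (XT.nd (nat_lit 78) (nat_lit 836) (nat_lit 0) (XT.lf (nat_lit 0) (nat_lit 1133683599) (nat_lit 912) (nat_lit 413493758) (nat_lit 76) (nat_lit 6444250863) (nat_lit 388) (nat_lit 5) (nat_lit 400) (nat_lit 5) (nat_lit 389) (nat_lit 5) (nat_lit 569) (nat_lit 520) (nat_lit 471)) (XT.lf (nat_lit 0) (nat_lit 3687906712) (nat_lit 912) (nat_lit 3167016006) (nat_lit 76) (nat_lit 1201369339) (nat_lit 377) (nat_lit 5) (nat_lit 389) (nat_lit 5) (nat_lit 378) (nat_lit 5) (nat_lit 570) (nat_lit 520) (nat_lit 470))) (XT.nd (nat_lit 78) (nat_lit 76) (nat_lit 0) (XT.lf (nat_lit 0) (nat_lit 2155084374) (nat_lit 760) (nat_lit 4124278559) (nat_lit 836) (nat_lit 1843373774) (nat_lit 367) (nat_lit 5) (nat_lit 377) (nat_lit 5) (nat_lit 378) (nat_lit 5) (nat_lit 571) (nat_lit 520) (nat_lit 469)) (XT.lf (nat_lit 0) (nat_lit 703288819)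 (nat_lit 836) (nat_lit 612902328) (nat_lit 76) (nat_lit 6874615229) (nat_lit 366) (nat_lit 5) (nat_lit 377) (nat_lit 5) (nat_lit 367) (nat_lit 5) (nat_lit 572) (nat_lit 520) (nat_lit 468))))))))
noncomputable def xc83 : XT := (XT.nd (nat_lit 1950) (nat_lit 7296) (nat_lit 0) (XT.nd (nat_lit 936) (nat_lit 5472) (nat_lit 0) (XT.nd (nat_lit 468) (nat_lit 2888) (nat_lit 0) (XT.nd (nat_lit 234) (nat_lit 1444) (nat_lit 0) (XT.nd (nat_lit 78) (nat_lit 836) (nat_lit 0) (XT.lf (nat_lit 0) (nat_lit 3278231649) (nat_lit 912) (nat_lit 3413656028) (nat_lit 76) (nat_lit 1568071604) (nat_lit 355) (nat_lit 5) (nat_lit 367) (nat_lit 5) (nat_lit 356) (nat_lit 5) (nat_lit 573) (nat_lit 520) (nat_lit 467)) (XT.nd (nat_lit 78) (nat_lit 76) (nat_lit 0) (XT.lf (nat_lit 0) (nat_lit 2066864196) (nat_lit 760) (nat_lit 3824716072) (nat_lit 836) (nat_lit 2439182850) (nat_lit 345) (nat_lit 5) (nat_lit 355) (nat_lit 5) (nat_lit 356) (nat_lit 5) (nat_lit 574) (nat_lit 520) (nat_lit 466)) (XT.lf (nat_lit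 0) (nat_lit 136104549) (nat_lit 836) (nat_lit 744733330) (nat_lit 76) (nat_lit 7522452620) (nat_lit 344) (nat_lit 5) (nat_lit 355) (nat_lit 5) (nat_lit 345) (nat_lit 5) (nat_lit 575) (nat_lit 520) (nat_lit 465)))) (XT.nd (nat_lit 78) (nat_lit 684) (nat_lit 0) (XT.lf (nat_lit 0) (nat_lit 2737696167) (nat_lit 836) (nat_lit 3601812539) (nat_lit 76) (nat_lit 2137293746) (nat_lit 334) (nat_lit 5) (nat_lit 345) (nat_lit 5) (nat_lit 335) (nat_lit 5) (nat_lit 576) (nat_lit 520) (nat_lit 464)) (XT.nd (nat_lit 78) (nat_lit 0) (nat_lit 0) (XT.lf (nat_lit 0) (nat_lit 2042541994) (nat_lit 684) (nat_lit 3334963884) (nat_lit 760) (nat_lit 3174560595) (nat_lit 325) (nat_lit 5) (nat_lit 334) (nat_lit 5) (nat_lit 335) (nat_lit 5) (nat_lit 577) (nat_lit 520) (nat_lit 463)) (XT.lf (nat_lit 0) (nat_lit 7804998099) (nat_lit 684) (nat_lit 251805223) (nat_lit 760) (nat_lit 572304065) (nat_lit 325) (nat_lit 5) (nat_lit 334) (nat_lit 5) (nat_lit 335) (nat_lit 5) (nat_lit 578) (nat_lit 520) (nat_lit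 462))))) (XT.nd (nat_lit 234) (nat_lit 1368) (nat_lit 0) (XT.nd (nat_lit 78) (nat_lit 684) (nat_lit 0) (XT.lf (nat_lit 0) (nat_lit 2069103003) (nat_lit 836) (nat_lit 3742956668) (nat_lit 76) (nat_lit 2895076105) (nat_lit 314) (nat_lit 5) (nat_lit 325) (nat_lit 5) (nat_lit 315) (nat_lit 5) (nat_lit 579) (nat_lit 520) (nat_lit 461)) (XT.nd (nat_lit 78) (nat_lit 0) (nat_lit 0) (XT.lf (nat_lit 0) (nat_lit 2070794081) (nat_lit 684) (nat_lit 2668979966) (nat_lit 760) (nat_lit 4047198180) (nat_lit 305) (nat_lit 5) (nat_lit 314) (nat_lit 5) (nat_lit 315) (nat_lit 5) (nat_lit 580) (nat_lit 520) (nat_lit 460)) (XT.lf (nat_lit 0) (nat_lit 7456429714) (nat_lit 760) (nat_lit 864053656) (nat_lit 76) (nat_lit 548075642) (nat_lit 305) (nat_lit 5) (nat_lit 315) (nat_lit 5) (nat_lit 306) (nat_lit 5) (nat_lit 581) (nat_lit 520) (nat_lit 459)))) (XT.nd (nat_lit 78) (nat_lit 608) (nat_lit 0) (XT.lf (nat_lit 0) (nat_lit 1274379958) (nat_lit 760) (nat_lit 3848576488) (nat_lit 76) (nat_lit 3828350891)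 (nat_lit 295) (nat_lit 5) (nat_lit 305) (nat_lit 5) (nat_lit 296) (nat_lit 5) (nat_lit 582) (nat_lit 520) (nat_lit 458)) (XT.nd (nat_lit 78) (nat_lit 0) (nat_lit 0) (XT.lf (nat_lit 0) (nat_lit 2140268043) (nat_lit 608) (nat_lit 1839884684) (nat_lit 684) (nat_lit 5055687124) (nat_lit 287) (nat_lit 5) (nat_lit 295) (nat_lit 5) (nat_lit 296) (nat_lit 5) (nat_lit 583) (nat_lit 520) (nat_lit 457)) (XT.lf (nat_lit 0) (nat_lit 6740885066) (nat_lit 684) (nat_lit 874200542) (nat_lit 76) (nat_lit 1506965173) (nat_lit 287) (nat_lit 5) (nat_lit 296) (nat_lit 5) (nat_lit 288) (nat_lit 5) (nat_lit 584) (nat_lit 520) (nat_lit 456)))))) (XT.nd (nat_lit 468) (nat_lit 2888) (nat_lit 0) (XT.nd (nat_lit 234) (nat_lit 1216) (nat_lit 0) (XT.nd (nat_lit 78) (nat_lit 608) (nat_lit 0) (XT.lf (nat_lit 0) (nat_lit 354587105) (nat_lit 760) (nat_lit 3930280572) (nat_lit 76) (nat_lit 4924831880) (nat_lit 277) (nat_lit 5) (nat_lit 287) (nat_lit 5) (nat_lit 278) (nat_lit 5) (nat_lit 585) (nat_lit 520)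 (nat_lit 455)) (XT.nd (nat_lit 78) (nat_lit 0) (nat_lit 0) (XT.lf (nat_lit 0) (nat_lit 2239477800) (nat_lit 608) (nat_lit 860071012) (nat_lit 684) (nat_lit 6199514535) (nat_lit 269) (nat_lit 5) (nat_lit 277) (nat_lit 5) (nat_lit 278) (nat_lit 5) (nat_lit 586) (nat_lit 520) (nat_lit 454)) (XT.lf (nat_lit 0) (nat_lit 5909289682) (nat_lit 684) (nat_lit 864449240) (nat_lit 76) (nat_lit 2616282186) (nat_lit 269) (nat_lit 5) (nat_lit 278) (nat_lit 5) (nat_lit 270) (nat_lit 5) (nat_lit 587) (nat_lit 520) (nat_lit 453)))) (XT.nd (nat_lit 78) (nat_lit 608) (nat_lit 0) (XT.lf (nat_lit 0) (nat_lit 5478194051) (nat_lit 608) (nat_lit 3305191682) (nat_lit 684) (nat_lit 699253291) (nat_lit 261) (nat_lit 5) (nat_lit 269) (nat_lit 5) (nat_lit 270) (nat_lit 5) (nat_lit 588) (nat_lit 520) (nat_lit 452)) (XT.nd (nat_lit 78) (nat_lit 0) (nat_lit 0) (XT.lf (nat_lit 0) (nat_lit 2099686491) (nat_lit 608) (nat_lit 7222056462) (nat_lit 76) (nat_lit 255295378) (nat_lit 253) (nat_lit 5) (nat_lit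 261) (nat_lit 5) (nat_lit 254) (nat_lit 5) (nat_lit 589) (nat_lit 520) (nat_lit 451)) (XT.lf (nat_lit 0) (nat_lit 4961546352) (nat_lit 608) (nat_lit 846627129) (nat_lit 76) (nat_lit 3864737581) (nat_lit 253) (nat_lit 5) (nat_lit 261) (nat_lit 5) (nat_lit 254) (nat_lit 5) (nat_lit 590) (nat_lit 520) (nat_lit 450))))) (XT.nd (nat_lit 234) (nat_lit 1672) (nat_lit 0) (XT.nd (nat_lit 78) (nat_lit 608) (nat_lit 0) (XT.lf (nat_lit 0) (nat_lit 5688743172) (nat_lit 608) (nat_lit 2196832345) (nat_lit 684) (nat_lit 1885030977) (nat_lit 245) (nat_lit 5) (nat_lit 253) (nat_lit 5) (nat_lit 254) (nat_lit 5) (nat_lit 591) (nat_lit 520) (nat_lit 449)) (XT.nd (nat_lit 78) (nat_lit 0) (nat_lit 0) (XT.lf (nat_lit 0) (nat_lit 984473864) (nat_lit 608) (nat_lit 7400267117) (nat_lit 76) (nat_lit 1485394399) (nat_lit 237) (nat_lit 5) (nat_lit 245) (nat_lit 5) (nat_lit 238) (nat_lit 5) (nat_lit 592) (nat_lit 520) (nat_lit 448)) (XT.lf (nat_lit 0) (nat_lit 3896695676) (nat_lit 608) (nat_lit 832968553)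 (nat_lit 76) (nat_lit 5241533727) (nat_lit 237) (nat_lit 5) (nat_lit 245) (nat_lit 5) (nat_lit 238) (nat_lit 5) (nat_lit 593) (nat_lit 520) (nat_lit 447)))) (XT.nd (nat_lit 156) (nat_lit 608) (nat_lit 0) (XT.nd (nat_lit 78) (nat_lit 532) (nat_lit 0) (XT.lf (nat_lit 0) (nat_lit 5901294934) (nat_lit 532) (nat_lit 973223715) (nat_lit 608) (nat_lit 3199619594) (nat_lit 230) (nat_lit 5) (nat_lit 237) (nat_lit 5) (nat_lit 238) (nat_lit 5) (nat_lit 594) (nat_lit 520) (nat_lit 446)) (XT.lf (nat_lit 0) (nat_lit 2575645996) (nat_lit 532) (nat_lit 7346468352) (nat_lit 608) (nat_lit 256822185) (nat_lit 223) (nat_lit 5) (nat_lit 230) (nat_lit 5) (nat_lit 231) (nat_lit 5) (nat_lit 595) (nat_lit 520) (nat_lit 445))) (XT.nd (nat_lit 78) (nat_lit 532) (nat_lit 0) (XT.lf (nat_lit 0) (nat_lit 2712899453) (nat_lit 608) (nat_lit 836234547) (nat_lit 76) (nat_lit 6736262403) (nat_lit 222) (nat_lit 5) (nat_lit 230) (nat_lit 5) (nat_lit 223) (nat_lit 5) (nat_lit 596) (nat_lit 520) (nat_lit 444))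 (XT.lf (nat_lit 0) (nat_lit 5750543873) (nat_lit 608) (nat_lit 4292914121) (nat_lit 76) (nat_lit 350257500) (nat_lit 215) (nat_lit 5) (nat_lit 223) (nat_lit 5) (nat_lit 216) (nat_lit 5) (nat_lit 597) (nat_lit 520) (nat_lit 443))))))) (XT.nd (nat_lit 936) (nat_lit 3344) (nat_lit 0) (XT.nd (nat_lit 468) (nat_lit 1900) (nat_lit 0) (XT.nd (nat_lit 234) (nat_lit 988) (nat_lit 0) (XT.nd (nat_lit 78) (nat_lit 608) (nat_lit 0) (XT.lf (nat_lit 0) (nat_lit 2653480429) (nat_lit 456) (nat_lit 6212122375) (nat_lit 532) (nat_lit 1638268184) (nat_lit 209) (nat_lit 5) (nat_lit 215) (nat_lit 5) (nat_lit 216) (nat_lit 5) (nat_lit 598) (nat_lit 520) (nat_lit 442)) (XT.nd (nat_lit 78) (nat_lit 532) (nat_lit 0) (XT.lf (nat_lit 0) (nat_lit 1407416991) (nat_lit 532) (nat_lit 869839632) (nat_lit 76) (nat_lit 8338802922) (nat_lit 208) (nat_lit 5) (nat_lit 215) (nat_lit 5) (nat_lit 209) (nat_lit 5) (nat_lit 599) (nat_lit 520) (nat_lit 441)) (XT.lf (nat_lit 0) (nat_lit 4515395485) (nat_lit 608)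 (nat_lit 4460640679) (nat_lit 76) (nat_lit 1753775873) (nat_lit 201) (nat_lit 5) (nat_lit 209) (nat_lit 5) (nat_lit 202) (nat_lit 5) (nat_lit 600) (nat_lit 520) (nat_lit 440)))) (XT.nd (nat_lit 78) (nat_lit 532) (nat_lit 0) (XT.lf (nat_lit 0) (nat_lit 2696131854) (nat_lit 456) (nat_lit 4999068978) (nat_lit 532) (nat_lit 3150448410) (nat_lit 195) (nat_lit 5) (nat_lit 201) (nat_lit 5) (nat_lit 202) (nat_lit 5) (nat_lit 601) (nat_lit 520) (nat_lit 439)) (XT.nd (nat_lit 78) (nat_lit 532) (nat_lit 0) (XT.lf (nat_lit 0) (nat_lit 10015636439) (nat_lit 456) (nat_lit 924403647) (nat_lit 532) (nat_lit 23737294) (nat_lit 195) (nat_lit 5) (nat_lit 201) (nat_lit 5) (nat_lit 202) (nat_lit 5) (nat_lit 602) (nat_lit 520) (nat_lit 438)) (XT.lf (nat_lit 0) (nat_lit 3158868115) (nat_lit 532) (nat_lit 4684431227) (nat_lit 76) (nat_lit 3239862996) (nat_lit 188) (nat_lit 5) (nat_lit 195) (nat_lit 5) (nat_lit 189) (nat_lit 5) (nat_lit 603) (nat_lit 520) (nat_lit 437))))) (XT.nd (nat_lit 234)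 (nat_lit 912) (nat_lit 0) (XT.nd (nat_lit 78) (nat_lit 532) (nat_lit 0) (XT.lf (nat_lit 0) (nat_lit 2688871943) (nat_lit 456) (nat_lit 3718006506) (nat_lit 532) (nat_lit 4798014770) (nat_lit 182) (nat_lit 5) (nat_lit 188) (nat_lit 5) (nat_lit 189) (nat_lit 5) (nat_lit 604) (nat_lit 520) (nat_lit 436)) (XT.nd (nat_lit 78) (nat_lit 532) (nat_lit 0) (XT.lf (nat_lit 0) (nat_lit 9726960359) (nat_lit 532) (nat_lit 1099540393) (nat_lit 76) (nat_lit 502418462) (nat_lit 182) (nat_lit 5) (nat_lit 189) (nat_lit 5) (nat_lit 183) (nat_lit 5) (nat_lit 605) (nat_lit 520) (nat_lit 435)) (XT.lf (nat_lit 0) (nat_lit 1676095528) (nat_lit 532) (nat_lit 4980016903) (nat_lit 76) (nat_lit 4798304166) (nat_lit 175) (nat_lit 5) (nat_lit 182) (nat_lit 5) (nat_lit 176) (nat_lit 5) (nat_lit 606) (nat_lit 520) (nat_lit 434)))) (XT.nd (nat_lit 78) (nat_lit 532) (nat_lit 0) (XT.lf (nat_lit 0) (nat_lit 2615937801) (nat_lit 380) (nat_lit 2379679924) (nat_lit 456) (nat_lit 6586649851) (nat_lit 170) (nat_lit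 5) (nat_lit 175) (nat_lit 5) (nat_lit 176) (nat_lit 5) (nat_lit 607) (nat_lit 520) (nat_lit 433)) (XT.nd (nat_lit 78) (nat_lit 532) (nat_lit 0) (XT.lf (nat_lit 0) (nat_lit 8401152486) (nat_lit 456) (nat_lit 1334130742) (nat_lit 76) (nat_lit 1977002417) (nat_lit 170) (nat_lit 5) (nat_lit 176) (nat_lit 5) (nat_lit 171) (nat_lit 5) (nat_lit 608) (nat_lit 520) (nat_lit 432)) (XT.lf (nat_lit 0) (nat_lit 61181441) (nat_lit 532) (nat_lit 5364293170) (nat_lit 76) (nat_lit 6418794409) (nat_lit 163) (nat_lit 5) (nat_lit 170) (nat_lit 5) (nat_lit 164) (nat_lit 5) (nat_lit 609) (nat_lit 520) (nat_lit 431)))))) (XT.nd (nat_lit 468) (nat_lit 1748) (nat_lit 0) (XT.nd (nat_lit 234) (nat_lit 836) (nat_lit 0) (XT.nd (nat_lit 78) (nat_lit 380) (nat_lit 0) (XT.lf (nat_lit 0) (nat_lit 2460367786) (nat_lit 380) (nat_lit 994991976) (nat_lit 456) (nat_lit 8523121868) (nat_lit 158) (nat_lit 5) (nat_lit 163) (nat_lit 5) (nat_lit 164) (nat_lit 5) (nat_lit 610) (nat_lit 520) (nat_lit 430)) (XT.nd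 (nat_lit 78) (nat_lit 380) (nat_lit 0) (XT.lf (nat_lit 0) (nat_lit 6950436396) (nat_lit 456) (nat_lit 1663365429) (nat_lit 76) (nat_lit 3500918698) (nat_lit 158) (nat_lit 5) (nat_lit 164) (nat_lit 5) (nat_lit 159) (nat_lit 5) (nat_lit 611) (nat_lit 520) (nat_lit 429)) (XT.lf (nat_lit 0) (nat_lit 6386606907) (nat_lit 380) (nat_lit 4151273218) (nat_lit 456) (nat_lit 1715357035) (nat_lit 153) (nat_lit 5) (nat_lit 158) (nat_lit 5) (nat_lit 159) (nat_lit 5) (nat_lit 612) (nat_lit 520) (nat_lit 428)))) (XT.nd (nat_lit 78) (nat_lit 380) (nat_lit 0) (XT.lf (nat_lit 0) (nat_lit 1781701166) (nat_lit 456) (nat_lit 10193226264) (nat_lit 76) (nat_lit 419308956) (nat_lit 147) (nat_lit 5) (nat_lit 153) (nat_lit 5) (nat_lit 148) (nat_lit 5) (nat_lit 613) (nat_lit 520) (nat_lit 427)) (XT.nd (nat_lit 78) (nat_lit 380) (nat_lit 0) (XT.lf (nat_lit 0) (nat_lit 5367523653) (nat_lit 456) (nat_lit 2106142937) (nat_lit 76) (nat_lit 5063328548) (nat_lit 147) (nat_lit 5) (nat_lit 153) (nat_lit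 5) (nat_lit 148) (nat_lit 5) (nat_lit 614) (nat_lit 520) (nat_lit 426)) (XT.lf (nat_lit 0) (nat_lit 6185284393) (nat_lit 380) (nat_lit 2855083748) (nat_lit 456) (nat_lit 3641936918) (nat_lit 142) (nat_lit 5) (nat_lit 147) (nat_lit 5) (nat_lit 148) (nat_lit 5) (nat_lit 615) (nat_lit 520) (nat_lit 425))))) (XT.nd (nat_lit 234) (nat_lit 988) (nat_lit 0) (XT.nd (nat_lit 78) (nat_lit 456) (nat_lit 0) (XT.lf (nat_lit 0) (nat_lit 1813825493) (nat_lit 304) (nat_lit 10986193883) (nat_lit 380) (nat_lit 30236869) (nat_lit 138) (nat_lit 5) (nat_lit 142) (nat_lit 5) (nat_lit 143) (nat_lit 5) (nat_lit 616) (nat_lit 520) (nat_lit 424)) (XT.nd (nat_lit 78) (nat_lit 380) (nat_lit 0) (XT.lf (nat_lit 0) (nat_lit 3643941024) (nat_lit 380) (nat_lit 2683001889) (nat_lit 76) (nat_lit 6652987826) (nat_lit 137) (nat_lit 5) (nat_lit 142) (nat_lit 5) (nat_lit 138) (nat_lit 5) (nat_lit 617) (nat_lit 520) (nat_lit 423)) (XT.lf (nat_lit 0) (nat_lit 5855707683) (nat_lit 380) (nat_lit 1549360164) (nat_lit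 456) (nat_lit 5727251418) (nat_lit 132) (nat_lit 5) (nat_lit 137) (nat_lit 5) (nat_lit 138) (nat_lit 5) (nat_lit 618) (nat_lit 520) (nat_lit 422)))) (XT.nd (nat_lit 156) (nat_lit 608) (nat_lit 0) (XT.nd (nat_lit 78) (nat_lit 76) (nat_lit 0) (XT.lf (nat_lit 0) (nat_lit 1271007889) (nat_lit 304) (nat_lit 9994354812) (nat_lit 380) (nat_lit 2021915856) (nat_lit 128) (nat_lit 5) (nat_lit 132) (nat_lit 5) (nat_lit 133) (nat_lit 5) (nat_lit 619) (nat_lit 520) (nat_lit 421)) (XT.lf (nat_lit 0) (nat_lit 1769945117) (nat_lit 380) (nat_lit 3416335578) (nat_lit 76) (nat_lit 8258120574) (nat_lit 127) (nat_lit 5) (nat_lit 132) (nat_lit 5) (nat_lit 128) (nat_lit 5) (nat_lit 620) (nat_lit 520) (nat_lit 420))) (XT.nd (nat_lit 78) (nat_lit 304) (nat_lit 0) (XT.lf (nat_lit 0) (nat_lit 5375258259) (nat_lit 304) (nat_lit 246761200) (nat_lit 380) (nat_lit 7982152483) (nat_lit 123) (nat_lit 5) (nat_lit 127) (nat_lit 5) (nat_lit 128) (nat_lit 5) (nat_lit 621) (nat_lit 520) (nat_lit 419)) (XT.lf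 (nat_lit 0) (nat_lit 560830175) (nat_lit 304) (nat_lit 9024786328) (nat_lit 380) (nat_lit 4180833662) (nat_lit 119) (nat_lit 5) (nat_lit 123) (nat_lit 5) (nat_lit 124) (nat_lit 5) (nat_lit 622) (nat_lit 520) (nat_lit 418))))))))
noncomputable def xc84 : XT := (XT.nd (nat_lit 73242) (nat_lit 0) (nat_lit 44916) (XT.nd (nat_lit 936) (nat_lit 2204) (nat_lit 0) (XT.nd (nat_lit 468) (nat_lit 1216) (nat_lit 0) (XT.nd (nat_lit 234) (nat_lit 684) (nat_lit 0) (XT.nd (nat_lit 78) (nat_lit 380) (nat_lit 0) (XT.lf (nat_lit 0) (nat_lit 9598928064) (nat_lit 304) (nat_lit 4063269398) (nat_lit 380) (nat_lit 269103977) (nat_lit 119) (nat_lit 5) (nat_lit 123) (nat_lit 5) (nat_lit 124) (nat_lit 5) (nat_lit 623) (nat_lit 520) (nat_lit 417)) (XT.nd (nat_lit 78) (nat_lit 0) (nat_lit 0) (XT.lf (nat_lit 0) (nat_lit 3686618258) (nat_lit 380) (nat_lit 9386390358) (nat_lit 76) (nat_lit 1025668464) (nat_lit 114) (nat_lit 5) (nat_lit 119) (nat_lit 5) (nat_lit 115) (nat_lit 5) (nat_lit 624) (nat_lit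 520) (nat_lit 416)) (XT.lf (nat_lit 0) (nat_lit 7751317492) (nat_lit 380) (nat_lit 338159280) (nat_lit 76) (nat_lit 6179220194) (nat_lit 114) (nat_lit 5) (nat_lit 119) (nat_lit 5) (nat_lit 115) (nat_lit 5) (nat_lit 625) (nat_lit 520) (nat_lit 415)))) (XT.nd (nat_lit 78) (nat_lit 380) (nat_lit 0) (XT.lf (nat_lit 0) (nat_lit 8972413954) (nat_lit 304) (nat_lit 2960885326) (nat_lit 380) (nat_lit 2508099794) (nat_lit 110) (nat_lit 5) (nat_lit 114) (nat_lit 5) (nat_lit 115) (nat_lit 5) (nat_lit 626) (nat_lit 520) (nat_lit 414)) (XT.nd (nat_lit 78) (nat_lit 0) (nat_lit 0) (XT.lf (nat_lit 0) (nat_lit 1580659178) (nat_lit 380) (nat_lit 10771882923) (nat_lit 76) (nat_lit 2264408639) (nat_lit 105) (nat_lit 5) (nat_lit 110) (nat_lit 5) (nat_lit 106) (nat_lit 5) (nat_lit 627) (nat_lit 520) (nat_lit 413)) (XT.lf (nat_lit 0) (nat_lit 5752090563) (nat_lit 380) (nat_lit 1448671738) (nat_lit 76) (nat_lit 7594231457) (nat_lit 105) (nat_lit 5) (nat_lit 110) (nat_lit 5) (nat_lit 106) (nat_lit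 5) (nat_lit 628) (nat_lit 520) (nat_lit 412))))) (XT.nd (nat_lit 234) (nat_lit 608) (nat_lit 0) (XT.nd (nat_lit 78) (nat_lit 380) (nat_lit 0) (XT.lf (nat_lit 0) (nat_lit 8131903921) (nat_lit 228) (nat_lit 1906175712) (nat_lit 304) (nat_lit 4937896897) (nat_lit 102) (nat_lit 5) (nat_lit 105) (nat_lit 5) (nat_lit 106) (nat_lit 5) (nat_lit 629) (nat_lit 520) (nat_lit 411)) (XT.nd (nat_lit 78) (nat_lit 76) (nat_lit 0) (XT.lf (nat_lit 0) (nat_lit 2740680813) (nat_lit 304) (nat_lit 11697809510) (nat_lit 380) (nat_lit 721516042) (nat_lit 98) (nat_lit 5) (nat_lit 102) (nat_lit 5) (nat_lit 103) (nat_lit 5) (nat_lit 630) (nat_lit 520) (nat_lit 410)) (XT.lf (nat_lit 0) (nat_lit 3569588938) (nat_lit 380) (nat_lit 2808969202) (nat_lit 76) (nat_lit 8967948510) (nat_lit 97) (nat_lit 5) (nat_lit 102) (nat_lit 5) (nat_lit 98) (nat_lit 5) (nat_lit 631) (nat_lit 520) (nat_lit 409)))) (XT.nd (nat_lit 78) (nat_lit 380) (nat_lit 0) (XT.lf (nat_lit 0) (nat_lit 7046022806) (nat_lit 228) (nat_lit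 915493596) (nat_lit 304) (nat_lit 7574633286) (nat_lit 94) (nat_lit 5) (nat_lit 97) (nat_lit 5) (nat_lit 98) (nat_lit 5) (nat_lit 632) (nat_lit 520) (nat_lit 408)) (XT.nd (nat_lit 78) (nat_lit 76) (nat_lit 0) (XT.lf (nat_lit 0) (nat_lit 1359148103) (nat_lit 304) (nat_lit 11119168803) (nat_lit 380) (nat_lit 3250529326) (nat_lit 90) (nat_lit 5) (nat_lit 94) (nat_lit 5) (nat_lit 95) (nat_lit 5) (nat_lit 633) (nat_lit 520) (nat_lit 407)) (XT.lf (nat_lit 0) (nat_lit 1187300954) (nat_lit 380) (nat_lit 4453081983) (nat_lit 76) (nat_lit 10284015244) (nat_lit 89) (nat_lit 5) (nat_lit 94) (nat_lit 5) (nat_lit 90) (nat_lit 5) (nat_lit 634) (nat_lit 520) (nat_lit 406)))))) (XT.nd (nat_lit 468) (nat_lit 1216) (nat_lit 0) (XT.nd (nat_lit 234) (nat_lit 532) (nat_lit 0) (XT.nd (nat_lit 78) (nat_lit 228) (nat_lit 0) (XT.lf (nat_lit 0) (nat_lit 5680182298) (nat_lit 228) (nat_lit 6557224) (nat_lit 304) (nat_lit 10436365657) (nat_lit 86) (nat_lit 5) (nat_lit 89) (nat_lit 5) (nat_lit 90)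 (nat_lit 5) (nat_lit 635) (nat_lit 520) (nat_lit 405)) (XT.nd (nat_lit 78) (nat_lit 228) (nat_lit 0) (XT.lf (nat_lit 0) (nat_lit 10323058899) (nat_lit 304) (nat_lit 320922890) (nat_lit 76) (nat_lit 5680867924) (nat_lit 86) (nat_lit 5) (nat_lit 90) (nat_lit 5) (nat_lit 87) (nat_lit 5) (nat_lit 636) (nat_lit 520) (nat_lit 404)) (XT.lf (nat_lit 0) (nat_lit 10101899795) (nat_lit 228) (nat_lit 4995781705) (nat_lit 304) (nat_lit 1432037307) (nat_lit 83) (nat_lit 5) (nat_lit 86) (nat_lit 5) (nat_lit 87) (nat_lit 5) (nat_lit 637) (nat_lit 520) (nat_lit 403)))) (XT.nd (nat_lit 78) (nat_lit 228) (nat_lit 0) (XT.lf (nat_lit 0) (nat_lit 3200063572) (nat_lit 304) (nat_lit 12747095041) (nat_lit 76) (nat_lit 790842469) (nat_lit 79) (nat_lit 5) (nat_lit 83) (nat_lit 5) (nat_lit 80) (nat_lit 5) (nat_lit 638) (nat_lit 520) (nat_lit 402)) (XT.nd (nat_lit 78) (nat_lit 228) (nat_lit 0) (XT.lf (nat_lit 0) (nat_lit 7962220951) (nat_lit 304) (nat_lit 2321491544) (nat_lit 76) (nat_lit 6665416543)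 (nat_lit 79) (nat_lit 5) (nat_lit 83) (nat_lit 5) (nat_lit 80) (nat_lit 5) (nat_lit 639) (nat_lit 520) (nat_lit 401)) (XT.lf (nat_lit 0) (nat_lit 8389131733) (nat_lit 228) (nat_lit 4465415575) (nat_lit 304) (nat_lit 4309234844) (nat_lit 76) (nat_lit 5) (nat_lit 79) (nat_lit 5) (nat_lit 80) (nat_lit 5) (nat_lit 640) (nat_lit 520) (nat_lit 400))))) (XT.nd (nat_lit 234) (nat_lit 684) (nat_lit 0) (XT.nd (nat_lit 78) (nat_lit 228) (nat_lit 0) (XT.lf (nat_lit 0) (nat_lit 474439131) (nat_lit 304) (nat_lit 15440188442) (nat_lit 76) (nat_lit 1467671710) (nat_lit 72) (nat_lit 5) (nat_lit 76) (nat_lit 5) (nat_lit 73) (nat_lit 5) (nat_lit 641) (nat_lit 520) (nat_lit 399)) (XT.nd (nat_lit 78) (nat_lit 228) (nat_lit 0) (XT.lf (nat_lit 0) (nat_lit 5365555369) (nat_lit 304) (nat_lit 4703992496) (nat_lit 76) (nat_lit 7533680877) (nat_lit 72) (nat_lit 5) (nat_lit 76) (nat_lit 5) (nat_lit 73) (nat_lit 5) (nat_lit 642) (nat_lit 520) (nat_lit 398)) (XT.lf (nat_lit 0) (nat_lit 6296533822)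 (nat_lit 228) (nat_lit 4079793086) (nat_lit 304) (nat_lit 7451814252) (nat_lit 69) (nat_lit 5) (nat_lit 72) (nat_lit 5) (nat_lit 73) (nat_lit 5) (nat_lit 643) (nat_lit 520) (nat_lit 397)))) (XT.nd (nat_lit 156) (nat_lit 380) (nat_lit 0) (XT.nd (nat_lit 78) (nat_lit 304) (nat_lit 0) (XT.lf (nat_lit 0) (nat_lit 15513290192) (nat_lit 304) (nat_lit 522519055) (nat_lit 76) (nat_lit 2021224065) (nat_lit 69) (nat_lit 5) (nat_lit 73) (nat_lit 5) (nat_lit 70) (nat_lit 5) (nat_lit 644) (nat_lit 520) (nat_lit 396)) (XT.lf (nat_lit 0) (nat_lit 2509173408) (nat_lit 304) (nat_lit 7516610369) (nat_lit 76) (nat_lit 8262821141) (nat_lit 65) (nat_lit 5) (nat_lit 69) (nat_lit 5) (nat_lit 66) (nat_lit 5) (nat_lit 645) (nat_lit 520) (nat_lit 395))) (XT.nd (nat_lit 156) (nat_lit 152) (nat_lit 0) (XT.lf (nat_lit 0) (nat_lit 3774951260) (nat_lit 228) (nat_lit 3863634499) (nat_lit 304) (nat_lit 10885696903) (nat_lit 62) (nat_lit 5) (nat_lit 65) (nat_lit 5) (nat_lit 66) (nat_lit 5) (nat_lit 646)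 (nat_lit 520) (nat_lit 394)) (XT.lf (nat_lit 0) (nat_lit 8189947467) (nat_lit 152) (nat_lit 10174837988) (nat_lit 228) (nat_lit 641939266) (nat_lit 60) (nat_lit 5) (nat_lit 62) (nat_lit 5) (nat_lit 63) (nat_lit 5) (nat_lit 648) (nat_lit 520) (nat_lit 392))))))) (XT.nd (nat_lit 936) (nat_lit 5776) (nat_lit 0) (XT.nd (nat_lit 468) (nat_lit 1216) (nat_lit 0) (XT.nd (nat_lit 234) (nat_lit 532) (nat_lit 0) (XT.nd (nat_lit 78) (nat_lit 228) (nat_lit 0) (XT.lf (nat_lit 0) (nat_lit 1565783807) (nat_lit 0) (nat_lit 1565783807) (nat_lit 76) (nat_lit 90503471) (nat_lit 753) (nat_lit 5) (nat_lit 753) (nat_lit 3) (nat_lit 754) (nat_lit 0) (nat_lit 521) (nat_lit 521) (nat_lit 518)) (XT.nd (nat_lit 78) (nat_lit 0) (nat_lit 0) (XT.lf (nat_lit 0) (nat_lit 2870184583) (nat_lit 228) (nat_lit 137709704) (nat_lit 228) (nat_lit 3438802240) (nat_lit 750) (nat_lit 3) (nat_lit 753) (nat_lit 3) (nat_lit 753) (nat_lit 5) (nat_lit 522) (nat_lit 521) (nat_lit 517)) (XT.lf (nat_lit 76) (nat_lit 3099280150)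 (nat_lit 0) (nat_lit 2820802517) (nat_lit 228) (nat_lit 530416820) (nat_lit 751) (nat_lit 5) (nat_lit 750) (nat_lit 3) (nat_lit 753) (nat_lit 5) (nat_lit 523) (nat_lit 521) (nat_lit 516)))) (XT.nd (nat_lit 78) (nat_lit 304) (nat_lit 0) (XT.lf (nat_lit 0) (nat_lit 2464481026) (nat_lit 228) (nat_lit 109847219) (nat_lit 304) (nat_lit 3881304873) (nat_lit 747) (nat_lit 5) (nat_lit 750) (nat_lit 3) (nat_lit 751) (nat_lit 5) (nat_lit 524) (nat_lit 521) (nat_lit 515)) (XT.nd (nat_lit 78) (nat_lit 304) (nat_lit 0) (XT.lf (nat_lit 76) (nat_lit 3193916108) (nat_lit 0) (nat_lit 2261299329) (nat_lit 304) (nat_lit 1006745259) (nat_lit 748) (nat_lit 5) (nat_lit 747) (nat_lit 5) (nat_lit 751) (nat_lit 5) (nat_lit 525) (nat_lit 521) (nat_lit 514)) (XT.lf (nat_lit 76) (nat_lit 42581314) (nat_lit 0) (nat_lit 1892096506) (nat_lit 380) (nat_lit 4535012834) (nat_lit 744) (nat_lit 5) (nat_lit 743) (nat_lit 5) (nat_lit 748) (nat_lit 5) (nat_lit 526) (nat_lit 521) (nat_lit 513))))) (XT.nd (nat_lit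 234) (nat_lit 836) (nat_lit 0) (XT.nd (nat_lit 78) (nat_lit 380) (nat_lit 0) (XT.lf (nat_lit 76) (nat_lit 3415648689) (nat_lit 0) (nat_lit 1451970209) (nat_lit 380) (nat_lit 1610920758) (nat_lit 744) (nat_lit 5) (nat_lit 743) (nat_lit 5) (nat_lit 748) (nat_lit 5) (nat_lit 527) (nat_lit 521) (nat_lit 512)) (XT.nd (nat_lit 78) (nat_lit 0) (nat_lit 0) (XT.lf (nat_lit 76) (nat_lit 322416680) (nat_lit 0) (nat_lit 958584109) (nat_lit 456) (nat_lit 5207860113) (nat_lit 739) (nat_lit 5) (nat_lit 738) (nat_lit 5) (nat_lit 744) (nat_lit 5) (nat_lit 528) (nat_lit 521) (nat_lit 511)) (XT.lf (nat_lit 76) (nat_lit 3764893828) (nat_lit 0) (nat_lit 391242083) (nat_lit 456) (nat_lit 2344120516) (nat_lit 739) (nat_lit 5) (nat_lit 738) (nat_lit 5) (nat_lit 744) (nat_lit 5) (nat_lit 529) (nat_lit 521) (nat_lit 510)))) (XT.nd (nat_lit 78) (nat_lit 456) (nat_lit 0) (XT.lf (nat_lit 0) (nat_lit 502922339) (nat_lit 456) (nat_lit 5785924731) (nat_lit 76) (nat_lit 224304951) (nat_lit 733) (nat_lit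 5) (nat_lit 739) (nat_lit 5) (nat_lit 734) (nat_lit 5) (nat_lit 530) (nat_lit 521) (nat_lit 509)) (XT.nd (nat_lit 78) (nat_lit 456) (nat_lit 0) (XT.lf (nat_lit 0) (nat_lit 3325356741) (nat_lit 456) (nat_lit 2290819446) (nat_lit 76) (nat_lit 910841264) (nat_lit 733) (nat_lit 5) (nat_lit 739) (nat_lit 5) (nat_lit 734) (nat_lit 5) (nat_lit 531) (nat_lit 521) (nat_lit 508)) (XT.lf (nat_lit 0) (nat_lit 1248610727) (nat_lit 456) (nat_lit 4893873980) (nat_lit 532) (nat_lit 399928809) (nat_lit 727) (nat_lit 5) (nat_lit 733) (nat_lit 5) (nat_lit 734) (nat_lit 5) (nat_lit 532) (nat_lit 521) (nat_lit 507)))))) (XT.nd (nat_lit 468) (nat_lit 3724) (nat_lit 0) (XT.nd (nat_lit 234) (nat_lit 1368) (nat_lit 0) (XT.nd (nat_lit 78) (nat_lit 608) (nat_lit 0) (XT.lf (nat_lit 0) (nat_lit 2371841458) (nat_lit 532) (nat_lit 1726602189) (nat_lit 76) (nat_lit 2460447440) (nat_lit 726) (nat_lit 5) (nat_lit 733) (nat_lit 5) (nat_lit 727) (nat_lit 5) (nat_lit 533) (nat_lit 521) (nat_lit 506)) (XT.nd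 (nat_lit 78) (nat_lit 76) (nat_lit 0) (XT.lf (nat_lit 0) (nat_lit 1892333173) (nat_lit 532) (nat_lit 3245772064) (nat_lit 608) (nat_lit 1438669010) (nat_lit 719) (nat_lit 5) (nat_lit 726) (nat_lit 5) (nat_lit 727) (nat_lit 5) (nat_lit 534) (nat_lit 521) (nat_lit 505)) (XT.lf (nat_lit 0) (nat_lit 1291168575) (nat_lit 608) (nat_lit 1039083395) (nat_lit 76) (nat_lit 4265714651) (nat_lit 718) (nat_lit 5) (nat_lit 726) (nat_lit 5) (nat_lit 719) (nat_lit 5) (nat_lit 535) (nat_lit 521) (nat_lit 504)))) (XT.nd (nat_lit 78) (nat_lit 760) (nat_lit 0) (XT.lf (nat_lit 0) (nat_lit 2662996459) (nat_lit 608) (nat_lit 1344693982) (nat_lit 684) (nat_lit 2608651364) (nat_lit 710) (nat_lit 5) (nat_lit 718) (nat_lit 5) (nat_lit 719) (nat_lit 5) (nat_lit 536) (nat_lit 521) (nat_lit 503)) (XT.nd (nat_lit 78) (nat_lit 684) (nat_lit 0) (XT.lf (nat_lit 0) (nat_lit 81205251) (nat_lit 684) (nat_lit 226940294) (nat_lit 76) (nat_lit 6330143304) (nat_lit 709) (nat_lit 5) (nat_lit 718) (nat_lit 5)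 (nat_lit 710) (nat_lit 5) (nat_lit 537) (nat_lit 521) (nat_lit 502)) (XT.lf (nat_lit 0) (nat_lit 2754272789) (nat_lit 760) (nat_lit 3104375288) (nat_lit 76) (nat_lit 802410269) (nat_lit 700) (nat_lit 5) (nat_lit 710) (nat_lit 5) (nat_lit 701) (nat_lit 5) (nat_lit 538) (nat_lit 521) (nat_lit 501))))) (XT.nd (nat_lit 234) (nat_lit 2052) (nat_lit 0) (XT.nd (nat_lit 78) (nat_lit 912) (nat_lit 0) (XT.lf (nat_lit 0) (nat_lit 699410098) (nat_lit 760) (nat_lit 4726543815) (nat_lit 836) (nat_lit 1259441224) (nat_lit 690) (nat_lit 5) (nat_lit 700) (nat_lit 5) (nat_lit 701) (nat_lit 5) (nat_lit 539) (nat_lit 521) (nat_lit 500)) (XT.nd (nat_lit 78) (nat_lit 836) (nat_lit 0) (XT.lf (nat_lit 0) (nat_lit 1380495737) (nat_lit 836) (nat_lit 2141021763) (nat_lit 76) (nat_lit 3189357580) (nat_lit 689) (nat_lit 5) (nat_lit 700) (nat_lit 5) (nat_lit 690) (nat_lit 5) (nat_lit 540) (nat_lit 521) (nat_lit 499)) (XT.lf (nat_lit 0) (nat_lit 1753260474) (nat_lit 836) (nat_lit 2253302999) (nat_lit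 912) (nat_lit 2731144818) (nat_lit 678) (nat_lit 5) (nat_lit 689) (nat_lit 5) (nat_lit 690) (nat_lit 5) (nat_lit 541) (nat_lit 521) (nat_lit 498)))) (XT.nd (nat_lit 156) (nat_lit 1064) (nat_lit 0) (XT.nd (nat_lit 78) (nat_lit 988) (nat_lit 0) (XT.lf (nat_lit 0) (nat_lit 5712494365) (nat_lit 836) (nat_lit 926750097) (nat_lit 912) (nat_lit 126765677) (nat_lit 678) (nat_lit 5) (nat_lit 689) (nat_lit 5) (nat_lit 690) (nat_lit 5) (nat_lit 542) (nat_lit 521) (nat_lit 497)) (XT.lf (nat_lit 0) (nat_lit 2459205955) (nat_lit 988) (nat_lit 3862307037) (nat_lit 76) (nat_lit 473796170) (nat_lit 665) (nat_lit 5) (nat_lit 678) (nat_lit 5) (nat_lit 666) (nat_lit 5) (nat_lit 543) (nat_lit 521) (nat_lit 496))) (XT.nd (nat_lit 78) (nat_lit 76) (nat_lit 0) (XT.lf (nat_lit 0) (nat_lit 140338559) (nat_lit 988) (nat_lit 4910535514) (nat_lit 1064) (nat_lit 1775202859) (nat_lit 652) (nat_lit 5) (nat_lit 665) (nat_lit 5) (nat_lit 666) (nat_lit 5) (nat_lit 544) (nat_lit 521) (nat_lit 495)) (XT.lf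 (nat_lit 0) (nat_lit 794012401) (nat_lit 1064) (nat_lit 2630612960) (nat_lit 76) (nat_lit 3433377065) (nat_lit 651) (nat_lit 5) (nat_lit 665) (nat_lit 5) (nat_lit 652) (nat_lit 5) (nat_lit 545) (nat_lit 521) (nat_lit 494))))))))
noncomputable def xc85 : XT := (XT.nd (nat_lit 1950) (nat_lit 11172) (nat_lit 0) (XT.nd (nat_lit 936) (nat_lit 11476) (nat_lit 0) (XT.nd (nat_lit 468) (nat_lit 4484) (nat_lit 0) (XT.nd (nat_lit 234) (nat_lit 2584) (nat_lit 0) (XT.nd (nat_lit 78) (nat_lit 1216) (nat_lit 0) (XT.lf (nat_lit 0) (nat_lit 1470539683) (nat_lit 1064) (nat_lit 1872993282) (nat_lit 1140) (nat_lit 3547757228) (nat_lit 637) (nat_lit 5) (nat_lit 651) (nat_lit 5) (nat_lit 652) (nat_lit 5) (nat_lit 546) (nat_lit 521) (nat_lit 493)) (XT.nd (nat_lit 78) (nat_lit 1216) (nat_lit 0) (XT.lf (nat_lit 0) (nat_lit 5647048969) (nat_lit 1064) (nat_lit 258609266) (nat_lit 1140) (nat_lit 1020365217) (nat_lit 637) (nat_lit 5) (nat_lit 651) (nat_lit 5) (nat_lit 652) (nat_lit 5) (nat_lit 547)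 (nat_lit 521) (nat_lit 492)) (XT.lf (nat_lit 0) (nat_lit 1510156468) (nat_lit 1216) (nat_lit 4039543787) (nat_lit 76) (nat_lit 1412100228) (nat_lit 621) (nat_lit 5) (nat_lit 637) (nat_lit 5) (nat_lit 622) (nat_lit 5) (nat_lit 548) (nat_lit 521) (nat_lit 491)))) (XT.nd (nat_lit 78) (nat_lit 1368) (nat_lit 0) (XT.lf (nat_lit 0) (nat_lit 177380724) (nat_lit 1216) (nat_lit 3857340078) (nat_lit 1292) (nat_lit 2964306793) (nat_lit 605) (nat_lit 5) (nat_lit 621) (nat_lit 5) (nat_lit 622) (nat_lit 5) (nat_lit 549) (nat_lit 521) (nat_lit 490)) (XT.nd (nat_lit 78) (nat_lit 1368) (nat_lit 0) (XT.lf (nat_lit 0) (nat_lit 4490537946) (nat_lit 1216) (nat_lit 2092713124) (nat_lit 1292) (nat_lit 454289793) (nat_lit 605) (nat_lit 5) (nat_lit 621) (nat_lit 5) (nat_lit 622) (nat_lit 5) (nat_lit 550) (nat_lit 521) (nat_lit 489)) (XT.lf (nat_lit 0) (nat_lit 1780070141) (nat_lit 1292) (nat_lit 256855021) (nat_lit 1368) (nat_lit 5040464104) (nat_lit 587) (nat_lit 5) (nat_lit 604) (nat_lit 5)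 (nat_lit 605) (nat_lit 5) (nat_lit 551) (nat_lit 521) (nat_lit 488))))) (XT.nd (nat_lit 234) (nat_lit 1596) (nat_lit 0) (XT.nd (nat_lit 78) (nat_lit 2888) (nat_lit 0) (XT.lf (nat_lit 0) (nat_lit 4547467768) (nat_lit 1368) (nat_lit 946667525) (nat_lit 76) (nat_lit 1624338029) (nat_lit 587) (nat_lit 5) (nat_lit 605) (nat_lit 5) (nat_lit 588) (nat_lit 5) (nat_lit 552) (nat_lit 521) (nat_lit 487)) (XT.nd (nat_lit 78) (nat_lit 1520) (nat_lit 0) (XT.lf (nat_lit 0) (nat_lit 3492381031) (nat_lit 1368) (nat_lit 3589123287) (nat_lit 1444) (nat_lit 79419341) (nat_lit 569) (nat_lit 5) (nat_lit 587) (nat_lit 5) (nat_lit 588) (nat_lit 5) (nat_lit 553) (nat_lit 521) (nat_lit 486)) (XT.lf (nat_lit 0) (nat_lit 780029174) (nat_lit 1444) (nat_lit 1610429059) (nat_lit 1520) (nat_lit 4814239950) (nat_lit 549) (nat_lit 5) (nat_lit 568) (nat_lit 5) (nat_lit 569) (nat_lit 5) (nat_lit 554) (nat_lit 521) (nat_lit 485)))) (XT.nd (nat_lit 78) (nat_lit 1596) (nat_lit 0) (XT.lf (nat_lit 0) (nat_lit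 4886152446) (nat_lit 1520) (nat_lit 1928785621) (nat_lit 76) (nat_lit 434859652) (nat_lit 549) (nat_lit 5) (nat_lit 569) (nat_lit 5) (nat_lit 550) (nat_lit 5) (nat_lit 555) (nat_lit 521) (nat_lit 484)) (XT.nd (nat_lit 78) (nat_lit 0) (nat_lit 0) (XT.lf (nat_lit 0) (nat_lit 112852756) (nat_lit 1596) (nat_lit 4659060284) (nat_lit 76) (nat_lit 2524304353) (nat_lit 528) (nat_lit 5) (nat_lit 549) (nat_lit 5) (nat_lit 529) (nat_lit 5) (nat_lit 556) (nat_lit 521) (nat_lit 483)) (XT.lf (nat_lit 0) (nat_lit 2571675689) (nat_lit 1596) (nat_lit 81886414) (nat_lit 76) (nat_lit 4690411112) (nat_lit 528) (nat_lit 5) (nat_lit 549) (nat_lit 5) (nat_lit 529) (nat_lit 5) (nat_lit 557) (nat_lit 521) (nat_lit 482)))))) (XT.nd (nat_lit 468) (nat_lit 4636) (nat_lit 0) (XT.nd (nat_lit 234) (nat_lit 3496) (nat_lit 0) (XT.nd (nat_lit 78) (nat_lit 1748) (nat_lit 0) (XT.lf (nat_lit 0) (nat_lit 4604668346) (nat_lit 1596) (nat_lit 457242199) (nat_lit 1672) (nat_lit 2331137832) (nat_lit 507) (nat_lit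 5) (nat_lit 528) (nat_lit 5) (nat_lit 529) (nat_lit 5) (nat_lit 558) (nat_lit 521) (nat_lit 481)) (XT.nd (nat_lit 78) (nat_lit 0) (nat_lit 0) (XT.lf (nat_lit 0) (nat_lit 134185860) (nat_lit 1748) (nat_lit 5531215735) (nat_lit 76) (nat_lit 1778142927) (nat_lit 484) (nat_lit 5) (nat_lit 507) (nat_lit 5) (nat_lit 485) (nat_lit 5) (nat_lit 559) (nat_lit 521) (nat_lit 480)) (XT.lf (nat_lit 0) (nat_lit 2592851161) (nat_lit 1748) (nat_lit 812014242) (nat_lit 76) (nat_lit 4090380447) (nat_lit 484) (nat_lit 5) (nat_lit 507) (nat_lit 5) (nat_lit 485) (nat_lit 5) (nat_lit 560) (nat_lit 521) (nat_lit 479)))) (XT.nd (nat_lit 78) (nat_lit 1748) (nat_lit 0) (XT.lf (nat_lit 0) (nat_lit 4011439997) (nat_lit 1748) (nat_lit 1069565664) (nat_lit 1824) (nat_lit 2467377479) (nat_lit 461) (nat_lit 5) (nat_lit 484) (nat_lit 5) (nat_lit 485) (nat_lit 5) (nat_lit 561) (nat_lit 521) (nat_lit 478)) (XT.nd (nat_lit 78) (nat_lit 76) (nat_lit 0) (XT.lf (nat_lit 0) (nat_lit 1305066777) (nat_lit 1672)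 (nat_lit 6291245309) (nat_lit 1748) (nat_lit 6731404) (nat_lit 439) (nat_lit 5) (nat_lit 461) (nat_lit 5) (nat_lit 462) (nat_lit 5) (nat_lit 562) (nat_lit 521) (nat_lit 477)) (XT.lf (nat_lit 0) (nat_lit 2456484729) (nat_lit 1748) (nat_lit 1433659460) (nat_lit 76) (nat_lit 3768611874) (nat_lit 438) (nat_lit 5) (nat_lit 461) (nat_lit 5) (nat_lit 439) (nat_lit 5) (nat_lit 563) (nat_lit 521) (nat_lit 476))))) (XT.nd (nat_lit 234) (nat_lit 2660) (nat_lit 0) (XT.nd (nat_lit 78) (nat_lit 988) (nat_lit 0) (XT.lf (nat_lit 0) (nat_lit 3531365191) (nat_lit 988) (nat_lit 1416527082) (nat_lit 1064) (nat_lit 2768117004) (nat_lit 425) (nat_lit 5) (nat_lit 438) (nat_lit 5) (nat_lit 439) (nat_lit 5) (nat_lit 564) (nat_lit 521) (nat_lit 475)) (XT.nd (nat_lit 78) (nat_lit 76) (nat_lit 0) (XT.lf (nat_lit 0) (nat_lit 800716224) (nat_lit 912) (nat_lit 6667158110) (nat_lit 988) (nat_lit 306965770) (nat_lit 413) (nat_lit 5) (nat_lit 425) (nat_lit 5) (nat_lit 426) (nat_lit 5) (nat_lit 565) (nat_lit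 521) (nat_lit 474)) (XT.lf (nat_lit 0) (nat_lit 2169116075) (nat_lit 988) (nat_lit 1959390415) (nat_lit 76) (nat_lit 3706170009) (nat_lit 412) (nat_lit 5) (nat_lit 425) (nat_lit 5) (nat_lit 413) (nat_lit 5) (nat_lit 566) (nat_lit 521) (nat_lit 473)))) (XT.nd (nat_lit 156) (nat_lit 912) (nat_lit 0) (XT.nd (nat_lit 78) (nat_lit 836) (nat_lit 0) (XT.lf (nat_lit 0) (nat_lit 3152063085) (nat_lit 912) (nat_lit 1516816876) (nat_lit 988) (nat_lit 3227230710) (nat_lit 400) (nat_lit 5) (nat_lit 412) (nat_lit 5) (nat_lit 413) (nat_lit 5) (nat_lit 567) (nat_lit 521) (nat_lit 472)) (XT.lf (nat_lit 0) (nat_lit 387914687) (nat_lit 836) (nat_lit 6812272637) (nat_lit 912) (nat_lit 758962145) (nat_lit 389) (nat_lit 5) (nat_lit 400) (nat_lit 5) (nat_lit 401) (nat_lit 5) (nat_lit 568) (nat_lit 521) (nat_lit 471))) (XT.nd (nat_lit 78) (nat_lit 836) (nat_lit 0) (XT.lf (nat_lit 0) (nat_lit 1736301346) (nat_lit 912) (nat_lit 2401367967) (nat_lit 76) (nat_lit 3885544100) (nat_lit 388) (nat_lit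 5) (nat_lit 400) (nat_lit 5) (nat_lit 389) (nat_lit 5) (nat_lit 569) (nat_lit 521) (nat_lit 470)) (XT.lf (nat_lit 0) (nat_lit 2861552454) (nat_lit 836) (nat_lit 1387759260) (nat_lit 912) (nat_lit 3839593015) (nat_lit 377) (nat_lit 5) (nat_lit 388) (nat_lit 5) (nat_lit 389) (nat_lit 5) (nat_lit 570) (nat_lit 521) (nat_lit 469))))))) (XT.nd (nat_lit 936) (nat_lit 4940) (nat_lit 0) (XT.nd (nat_lit 468) (nat_lit 2964) (nat_lit 0) (XT.nd (nat_lit 234) (nat_lit 1596) (nat_lit 0) (XT.nd (nat_lit 78) (nat_lit 912) (nat_lit 0) (XT.lf (nat_lit 0) (nat_lit 54748300) (nat_lit 760) (nat_lit 6743530375) (nat_lit 836) (nat_lit 1357923647) (nat_lit 367) (nat_lit 5) (nat_lit 377) (nat_lit 5) (nat_lit 378) (nat_lit 5) (nat_lit 571) (nat_lit 521) (nat_lit 468)) (XT.nd (nat_lit 78) (nat_lit 836) (nat_lit 0) (XT.lf (nat_lit 0) (nat_lit 1162647770) (nat_lit 836) (nat_lit 2771443607) (nat_lit 76) (nat_lit 4290515100) (nat_lit 366) (nat_lit 5) (nat_lit 377) (nat_lit 5) (nat_lit 367) (nat_lit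 5) (nat_lit 572) (nat_lit 521) (nat_lit 467)) (XT.lf (nat_lit 0) (nat_lit 2648152980) (nat_lit 836) (nat_lit 1045443532) (nat_lit 912) (nat_lit 4601045728) (nat_lit 355) (nat_lit 5) (nat_lit 366) (nat_lit 5) (nat_lit 367) (nat_lit 5) (nat_lit 573) (nat_lit 521) (nat_lit 466)))) (XT.nd (nat_lit 78) (nat_lit 1596) (nat_lit 0) (XT.lf (nat_lit 0) (nat_lit 6267630436) (nat_lit 912) (nat_lit 207686103) (nat_lit 76) (nat_lit 1890918750) (nat_lit 355) (nat_lit 5) (nat_lit 367) (nat_lit 5) (nat_lit 356) (nat_lit 5) (nat_lit 574) (nat_lit 521) (nat_lit 465)) (XT.nd (nat_lit 78) (nat_lit 760) (nat_lit 0) (XT.lf (nat_lit 0) (nat_lit 451841719) (nat_lit 836) (nat_lit 3081257376) (nat_lit 76) (nat_lit 4906029637) (nat_lit 344) (nat_lit 5) (nat_lit 355) (nat_lit 5) (nat_lit 345) (nat_lit 5) (nat_lit 575) (nat_lit 521) (nat_lit 464)) (XT.lf (nat_lit 0) (nat_lit 2500386587) (nat_lit 760) (nat_lit 504848829) (nat_lit 836) (nat_lit 5508371977) (nat_lit 334) (nat_lit 5) (nat_lit 344) (nat_lit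 5) (nat_lit 345) (nat_lit 5) (nat_lit 576) (nat_lit 521) (nat_lit 463))))) (XT.nd (nat_lit 234) (nat_lit 1444) (nat_lit 0) (XT.nd (nat_lit 78) (nat_lit 1520) (nat_lit 0) (XT.lf (nat_lit 0) (nat_lit 5610092222) (nat_lit 836) (nat_lit 413682257) (nat_lit 76) (nat_lit 2565798687) (nat_lit 334) (nat_lit 5) (nat_lit 345) (nat_lit 5) (nat_lit 335) (nat_lit 5) (nat_lit 577) (nat_lit 521) (nat_lit 462)) (XT.nd (nat_lit 78) (nat_lit 836) (nat_lit 0) (XT.lf (nat_lit 0) (nat_lit 5322110902) (nat_lit 684) (nat_lit 2946367246) (nat_lit 760) (nat_lit 398556807) (nat_lit 325) (nat_lit 5) (nat_lit 334) (nat_lit 5) (nat_lit 335) (nat_lit 5) (nat_lit 578) (nat_lit 521) (nat_lit 461)) (XT.lf (nat_lit 0) (nat_lit 2188269859) (nat_lit 836) (nat_lit 6340668523) (nat_lit 76) (nat_lit 217150974) (nat_lit 314) (nat_lit 5) (nat_lit 325) (nat_lit 5) (nat_lit 315) (nat_lit 5) (nat_lit 579) (nat_lit 521) (nat_lit 460)))) (XT.nd (nat_lit 78) (nat_lit 1444) (nat_lit 0) (XT.lf (nat_lit 0) (nat_lit 4827738430)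 (nat_lit 836) (nat_lit 575266969) (nat_lit 76) (nat_lit 3423546947) (nat_lit 314) (nat_lit 5) (nat_lit 325) (nat_lit 5) (nat_lit 315) (nat_lit 5) (nat_lit 580) (nat_lit 521) (nat_lit 459)) (XT.nd (nat_lit 78) (nat_lit 760) (nat_lit 0) (XT.lf (nat_lit 0) (nat_lit 5333426237) (nat_lit 684) (nat_lit 2186031452) (nat_lit 760) (nat_lit 1389182611) (nat_lit 305) (nat_lit 5) (nat_lit 314) (nat_lit 5) (nat_lit 315) (nat_lit 5) (nat_lit 581) (nat_lit 521) (nat_lit 458)) (XT.lf (nat_lit 0) (nat_lit 1247398304) (nat_lit 760) (nat_lit 6643518034) (nat_lit 76) (nat_lit 1101464202) (nat_lit 295) (nat_lit 5) (nat_lit 305) (nat_lit 5) (nat_lit 296) (nat_lit 5) (nat_lit 582) (nat_lit 521) (nat_lit 457)))))) (XT.nd (nat_lit 468) (nat_lit 2356) (nat_lit 0) (XT.nd (nat_lit 234) (nat_lit 1216) (nat_lit 0) (XT.nd (nat_lit 78) (nat_lit 1368) (nat_lit 0) (XT.lf (nat_lit 0) (nat_lit 3922138251) (nat_lit 760) (nat_lit 703797940) (nat_lit 76) (nat_lit 4451599822) (nat_lit 295) (nat_lit 5) (nat_lit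 305) (nat_lit 5) (nat_lit 296) (nat_lit 5) (nat_lit 583) (nat_lit 521) (nat_lit 456)) (XT.nd (nat_lit 78) (nat_lit 760) (nat_lit 0) (XT.lf (nat_lit 0) (nat_lit 5383627758) (nat_lit 608) (nat_lit 1267761767) (nat_lit 684) (nat_lit 2512989293) (nat_lit 287) (nat_lit 5) (nat_lit 295) (nat_lit 5) (nat_lit 296) (nat_lit 5) (nat_lit 584) (nat_lit 521) (nat_lit 455)) (XT.lf (nat_lit 0) (nat_lit 180132619) (nat_lit 760) (nat_lit 6930272312) (nat_lit 76) (nat_lit 2142529147) (nat_lit 277) (nat_lit 5) (nat_lit 287) (nat_lit 5) (nat_lit 278) (nat_lit 5) (nat_lit 585) (nat_lit 521) (nat_lit 454)))) (XT.nd (nat_lit 78) (nat_lit 1216) (nat_lit 0) (XT.lf (nat_lit 0) (nat_lit 2894005162) (nat_lit 760) (nat_lit 810784982) (nat_lit 76) (nat_lit 5638131631) (nat_lit 277) (nat_lit 5) (nat_lit 287) (nat_lit 5) (nat_lit 278) (nat_lit 5) (nat_lit 586) (nat_lit 521) (nat_lit 453)) (XT.nd (nat_lit 78) (nat_lit 608) (nat_lit 0) (XT.lf (nat_lit 0) (nat_lit 5461328418) (nat_lit 608) (nat_lit 203511815)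 (nat_lit 684) (nat_lit 3769819502) (nat_lit 269) (nat_lit 5) (nat_lit 277) (nat_lit 5) (nat_lit 278) (nat_lit 5) (nat_lit 587) (nat_lit 521) (nat_lit 452)) (XT.lf (nat_lit 0) (nat_lit 2308410960) (nat_lit 608) (nat_lit 6192557099) (nat_lit 684) (nat_lit 1027071001) (nat_lit 261) (nat_lit 5) (nat_lit 269) (nat_lit 5) (nat_lit 270) (nat_lit 5) (nat_lit 588) (nat_lit 521) (nat_lit 451))))) (XT.nd (nat_lit 234) (nat_lit 1140) (nat_lit 0) (XT.nd (nat_lit 78) (nat_lit 1140) (nat_lit 0) (XT.lf (nat_lit 0) (nat_lit 1743195473) (nat_lit 684) (nat_lit 907996863) (nat_lit 76) (nat_lit 6971950016) (nat_lit 260) (nat_lit 5) (nat_lit 269) (nat_lit 5) (nat_lit 261) (nat_lit 5) (nat_lit 589) (nat_lit 521) (nat_lit 450)) (XT.nd (nat_lit 78) (nat_lit 608) (nat_lit 0) (XT.lf (nat_lit 0) (nat_lit 4565985748) (nat_lit 608) (nat_lit 4171522756) (nat_lit 76) (nat_lit 982289896) (nat_lit 253) (nat_lit 5) (nat_lit 261) (nat_lit 5) (nat_lit 254) (nat_lit 5) (nat_lit 590) (nat_lit 521) (nat_lit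 449)) (XT.lf (nat_lit 0) (nat_lit 2298919338) (nat_lit 608) (nat_lit 5153554175) (nat_lit 684) (nat_lit 2365773035) (nat_lit 245) (nat_lit 5) (nat_lit 253) (nat_lit 5) (nat_lit 254) (nat_lit 5) (nat_lit 591) (nat_lit 521) (nat_lit 448)))) (XT.nd (nat_lit 156) (nat_lit 532) (nat_lit 0) (XT.nd (nat_lit 78) (nat_lit 532) (nat_lit 0) (XT.lf (nat_lit 0) (nat_lit 468700317) (nat_lit 684) (nat_lit 1007572747) (nat_lit 76) (nat_lit 8442393339) (nat_lit 244) (nat_lit 5) (nat_lit 253) (nat_lit 5) (nat_lit 245) (nat_lit 5) (nat_lit 592) (nat_lit 521) (nat_lit 447)) (XT.lf (nat_lit 0) (nat_lit 3349338579) (nat_lit 608) (nat_lit 4383516408) (nat_lit 76) (nat_lit 2287507443) (nat_lit 237) (nat_lit 5) (nat_lit 245) (nat_lit 5) (nat_lit 238) (nat_lit 5) (nat_lit 593) (nat_lit 521) (nat_lit 446))) (XT.nd (nat_lit 78) (nat_lit 0) (nat_lit 0) (XT.lf (nat_lit 0) (nat_lit 2283016255) (nat_lit 532) (nat_lit 4005627600) (nat_lit 608) (nat_lit 3835430959) (nat_lit 230) (nat_lit 5) (nat_lit 237)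 (nat_lit 5) (nat_lit 238) (nat_lit 5) (nat_lit 594) (nat_lit 521) (nat_lit 445)) (XT.lf (nat_lit 0) (nat_lit 9101610330) (nat_lit 532) (nat_lit 184520185) (nat_lit 608) (nat_lit 943746479) (nat_lit 230) (nat_lit 5) (nat_lit 237) (nat_lit 5) (nat_lit 238) (nat_lit 5) (nat_lit 595) (nat_lit 521) (nat_lit 444))))))))
noncomputable def xc86 : XT := (XT.nd (nat_lit 1950) (nat_lit 4712) (nat_lit 0) (XT.nd (nat_lit 936) (nat_lit 3572) (nat_lit 0) (XT.nd (nat_lit 468) (nat_lit 1976) (nat_lit 0) (XT.nd (nat_lit 234) (nat_lit 1064) (nat_lit 0) (XT.nd (nat_lit 78) (nat_lit 532) (nat_lit 0) (XT.lf (nat_lit 0) (nat_lit 2011479623) (nat_lit 608) (nat_lit 4620995270) (nat_lit 76) (nat_lit 3704422907) (nat_lit 222) (nat_lit 5) (nat_lit 230) (nat_lit 5) (nat_lit 223) (nat_lit 5) (nat_lit 596) (nat_lit 521) (nat_lit 443)) (XT.nd (nat_lit 78) (nat_lit 0) (nat_lit 0) (XT.lf (nat_lit 0) (nat_lit 2247756044) (nat_lit 532) (nat_lit 2759488084) (nat_lit 608) (nat_lit 5438811973) (nat_lit 215)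 (nat_lit 5) (nat_lit 222) (nat_lit 5) (nat_lit 223) (nat_lit 5) (nat_lit 597) (nat_lit 521) (nat_lit 442)) (XT.lf (nat_lit 0) (nat_lit 8072734353) (nat_lit 608) (nat_lit 1288982021) (nat_lit 76) (nat_lit 1195488174) (nat_lit 215) (nat_lit 5) (nat_lit 223) (nat_lit 5) (nat_lit 216) (nat_lit 5) (nat_lit 598) (nat_lit 521) (nat_lit 441)))) (XT.nd (nat_lit 78) (nat_lit 532) (nat_lit 0) (XT.lf (nat_lit 0) (nat_lit 549409188) (nat_lit 532) (nat_lit 4897636556) (nat_lit 76) (nat_lit 5222916838) (nat_lit 208) (nat_lit 5) (nat_lit 215) (nat_lit 5) (nat_lit 209) (nat_lit 5) (nat_lit 599) (nat_lit 521) (nat_lit 440)) (XT.nd (nat_lit 78) (nat_lit 0) (nat_lit 0) (XT.lf (nat_lit 0) (nat_lit 2179497446) (nat_lit 532) (nat_lit 1425637089) (nat_lit 608) (nat_lit 7179627091) (nat_lit 201) (nat_lit 5) (nat_lit 208) (nat_lit 5) (nat_lit 209) (nat_lit 5) (nat_lit 600) (nat_lit 521) (nat_lit 439)) (XT.lf (nat_lit 0) (nat_lit 6744203327) (nat_lit 608) (nat_lit 1494562333) (nat_lit 76) (nat_lit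 2662649359) (nat_lit 201) (nat_lit 5) (nat_lit 209) (nat_lit 5) (nat_lit 202) (nat_lit 5) (nat_lit 601) (nat_lit 521) (nat_lit 438))))) (XT.nd (nat_lit 234) (nat_lit 988) (nat_lit 0) (XT.nd (nat_lit 78) (nat_lit 532) (nat_lit 0) (XT.lf (nat_lit 0) (nat_lit 5785245050) (nat_lit 456) (nat_lit 4180134829) (nat_lit 532) (nat_lit 1054637963) (nat_lit 195) (nat_lit 5) (nat_lit 201) (nat_lit 5) (nat_lit 202) (nat_lit 5) (nat_lit 602) (nat_lit 521) (nat_lit 437)) (XT.nd (nat_lit 78) (nat_lit 0) (nat_lit 0) (XT.lf (nat_lit 0) (nat_lit 2063765641) (nat_lit 456) (nat_lit 14470679) (nat_lit 532) (nat_lit 9062566753) (nat_lit 188) (nat_lit 5) (nat_lit 194) (nat_lit 5) (nat_lit 195) (nat_lit 5) (nat_lit 603) (nat_lit 521) (nat_lit 436)) (XT.lf (nat_lit 0) (nat_lit 5295146851) (nat_lit 532) (nat_lit 1758637944) (nat_lit 76) (nat_lit 4209372505) (nat_lit 188) (nat_lit 5) (nat_lit 195) (nat_lit 5) (nat_lit 189) (nat_lit 5) (nat_lit 604) (nat_lit 521) (nat_lit 435)))) (XT.nd (nat_lit 78)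 (nat_lit 532) (nat_lit 0) (XT.lf (nat_lit 0) (nat_lit 5742266277) (nat_lit 456) (nat_lit 2844677571) (nat_lit 532) (nat_lit 2800806466) (nat_lit 182) (nat_lit 5) (nat_lit 188) (nat_lit 5) (nat_lit 189) (nat_lit 5) (nat_lit 605) (nat_lit 521) (nat_lit 434)) (XT.nd (nat_lit 78) (nat_lit 0) (nat_lit 0) (XT.lf (nat_lit 0) (nat_lit 430992503) (nat_lit 532) (nat_lit 9639232683) (nat_lit 76) (nat_lit 1444419025) (nat_lit 175) (nat_lit 5) (nat_lit 182) (nat_lit 5) (nat_lit 176) (nat_lit 5) (nat_lit 606) (nat_lit 521) (nat_lit 433)) (XT.lf (nat_lit 0) (nat_lit 3720389712) (nat_lit 532) (nat_lit 2097077648) (nat_lit 76) (nat_lit 5825631574) (nat_lit 175) (nat_lit 5) (nat_lit 182) (nat_lit 5) (nat_lit 176) (nat_lit 5) (nat_lit 607) (nat_lit 521) (nat_lit 432)))))) (XT.nd (nat_lit 468) (nat_lit 1824) (nat_lit 0) (XT.nd (nat_lit 234) (nat_lit 836) (nat_lit 0) (XT.nd (nat_lit 78) (nat_lit 532) (nat_lit 0) (XT.lf (nat_lit 0) (nat_lit 5631174179) (nat_lit 380) (nat_lit 1454938492) (nat_lit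 456) (nat_lit 4687801790) (nat_lit 170) (nat_lit 5) (nat_lit 175) (nat_lit 5) (nat_lit 176) (nat_lit 5) (nat_lit 608) (nat_lit 521) (nat_lit 431)) (XT.nd (nat_lit 78) (nat_lit 76) (nat_lit 0) (XT.lf (nat_lit 0) (nat_lit 1597990699) (nat_lit 456) (nat_lit 8939300872) (nat_lit 532) (nat_lit 1369694316) (nat_lit 164) (nat_lit 5) (nat_lit 170) (nat_lit 5) (nat_lit 171) (nat_lit 5) (nat_lit 609) (nat_lit 521) (nat_lit 430)) (XT.lf (nat_lit 0) (nat_lit 2013721418) (nat_lit 532) (nat_lit 2526952840) (nat_lit 76) (nat_lit 7501277777) (nat_lit 163) (nat_lit 5) (nat_lit 170) (nat_lit 5) (nat_lit 164) (nat_lit 5) (nat_lit 610) (nat_lit 521) (nat_lit 429)))) (XT.nd (nat_lit 78) (nat_lit 456) (nat_lit 0) (XT.lf (nat_lit 0) (nat_lit 5434828794) (nat_lit 380) (nat_lit 21686093) (nat_lit 456) (nat_lit 6722722831) (nat_lit 158) (nat_lit 5) (nat_lit 163) (nat_lit 5) (nat_lit 164) (nat_lit 5) (nat_lit 611) (nat_lit 521) (nat_lit 428)) (XT.nd (nat_lit 78) (nat_lit 76) (nat_lit 0) (XT.lf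 (nat_lit 0) (nat_lit 1218980535) (nat_lit 380) (nat_lit 7778865764) (nat_lit 456) (nat_lit 3320831408) (nat_lit 153) (nat_lit 5) (nat_lit 158) (nat_lit 5) (nat_lit 159) (nat_lit 5) (nat_lit 612) (nat_lit 521) (nat_lit 427)) (XT.lf (nat_lit 0) (nat_lit 167834509) (nat_lit 456) (nat_lit 3066713016) (nat_lit 76) (nat_lit 9225927915) (nat_lit 152) (nat_lit 5) (nat_lit 158) (nat_lit 5) (nat_lit 153) (nat_lit 5) (nat_lit 613) (nat_lit 521) (nat_lit 426))))) (XT.nd (nat_lit 234) (nat_lit 1064) (nat_lit 0) (XT.nd (nat_lit 78) (nat_lit 380) (nat_lit 0) (XT.lf (nat_lit 0) (nat_lit 3700043138) (nat_lit 456) (nat_lit 7479197907) (nat_lit 76) (nat_lit 1425066465) (nat_lit 147) (nat_lit 5) (nat_lit 153) (nat_lit 5) (nat_lit 148) (nat_lit 5) (nat_lit 614) (nat_lit 521) (nat_lit 425)) (XT.nd (nat_lit 78) (nat_lit 0) (nat_lit 0) (XT.lf (nat_lit 0) (nat_lit 721881100) (nat_lit 380) (nat_lit 6603472064) (nat_lit 456) (nat_lit 5425215979) (nat_lit 142) (nat_lit 5) (nat_lit 147) (nat_lit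 5) (nat_lit 148) (nat_lit 5) (nat_lit 615) (nat_lit 521) (nat_lit 424)) (XT.lf (nat_lit 0) (nat_lit 9150849118) (nat_lit 380) (nat_lit 1898377724) (nat_lit 456) (nat_lit 1850010039) (nat_lit 142) (nat_lit 5) (nat_lit 147) (nat_lit 5) (nat_lit 148) (nat_lit 5) (nat_lit 616) (nat_lit 521) (nat_lit 423)))) (XT.nd (nat_lit 156) (nat_lit 304) (nat_lit 0) (XT.nd (nat_lit 78) (nat_lit 380) (nat_lit 0) (XT.lf (nat_lit 0) (nat_lit 1798930134) (nat_lit 380) (nat_lit 8359004167) (nat_lit 76) (nat_lit 2892196428) (nat_lit 137) (nat_lit 5) (nat_lit 142) (nat_lit 5) (nat_lit 138) (nat_lit 5) (nat_lit 617) (nat_lit 521) (nat_lit 422)) (XT.lf (nat_lit 0) (nat_lit 85592949) (nat_lit 380) (nat_lit 5425279923) (nat_lit 456) (nat_lit 7692631008) (nat_lit 132) (nat_lit 5) (nat_lit 137) (nat_lit 5) (nat_lit 138) (nat_lit 5) (nat_lit 618) (nat_lit 521) (nat_lit 421))) (XT.nd (nat_lit 78) (nat_lit 304) (nat_lit 0) (XT.lf (nat_lit 0) (nat_lit 8775394066) (nat_lit 380) (nat_lit 554301984) (nat_lit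 456) (nat_lit 4029597482) (nat_lit 132) (nat_lit 5) (nat_lit 137) (nat_lit 5) (nat_lit 138) (nat_lit 5) (nat_lit 619) (nat_lit 521) (nat_lit 420)) (XT.lf (nat_lit 0) (nat_lit 4109381795) (nat_lit 304) (nat_lit 9147775853) (nat_lit 380) (nat_lit 260397922) (nat_lit 128) (nat_lit 5) (nat_lit 132) (nat_lit 5) (nat_lit 133) (nat_lit 5) (nat_lit 620) (nat_lit 521) (nat_lit 419))))))) (XT.nd (nat_lit 936) (nat_lit 2356) (nat_lit 0) (XT.nd (nat_lit 468) (nat_lit 988) (nat_lit 0) (XT.nd (nat_lit 234) (nat_lit 684) (nat_lit 0) (XT.nd (nat_lit 78) (nat_lit 608) (nat_lit 0) (XT.lf (nat_lit 0) (nat_lit 3548798207) (nat_lit 380) (nat_lit 703561494) (nat_lit 76) (nat_lit 9425927095) (nat_lit 127) (nat_lit 5) (nat_lit 132) (nat_lit 5) (nat_lit 128) (nat_lit 5) (nat_lit 621) (nat_lit 521) (nat_lit 418)) (XT.nd (nat_lit 78) (nat_lit 304) (nat_lit 0) (XT.lf (nat_lit 0) (nat_lit 7466756221) (nat_lit 380) (nat_lit 5601102547) (nat_lit 76) (nat_lit 773619886) (nat_lit 123) (nat_lit 5) (nat_lit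 128) (nat_lit 5) (nat_lit 124) (nat_lit 5) (nat_lit 622) (nat_lit 521) (nat_lit 417)) (XT.lf (nat_lit 0) (nat_lit 3344441776) (nat_lit 304) (nat_lit 8150819198) (nat_lit 380) (nat_lit 2512031317) (nat_lit 119) (nat_lit 5) (nat_lit 123) (nat_lit 5) (nat_lit 124) (nat_lit 5) (nat_lit 623) (nat_lit 521) (nat_lit 416)))) (XT.nd (nat_lit 78) (nat_lit 608) (nat_lit 0) (XT.lf (nat_lit 0) (nat_lit 1424639100) (nat_lit 380) (nat_lit 1676548492) (nat_lit 76) (nat_lit 11074741759) (nat_lit 118) (nat_lit 5) (nat_lit 123) (nat_lit 5) (nat_lit 119) (nat_lit 5) (nat_lit 624) (nat_lit 521) (nat_lit 415)) (XT.nd (nat_lit 78) (nat_lit 304) (nat_lit 0) (XT.lf (nat_lit 0) (nat_lit 5447077480) (nat_lit 380) (nat_lit 6824508755) (nat_lit 76) (nat_lit 2075209010) (nat_lit 114) (nat_lit 5) (nat_lit 119) (nat_lit 5) (nat_lit 115) (nat_lit 5) (nat_lit 625) (nat_lit 521) (nat_lit 414)) (XT.lf (nat_lit 0) (nat_lit 2382013570) (nat_lit 304) (nat_lit 7193449665) (nat_lit 380) (nat_lit 4945106813)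 (nat_lit 110) (nat_lit 5) (nat_lit 114) (nat_lit 5) (nat_lit 115) (nat_lit 5) (nat_lit 626) (nat_lit 521) (nat_lit 413))))) (XT.nd (nat_lit 234) (nat_lit 380) (nat_lit 0) (XT.nd (nat_lit 78) (nat_lit 608) (nat_lit 0) (XT.lf (nat_lit 0) (nat_lit 11829822894) (nat_lit 304) (nat_lit 1980758666) (nat_lit 380) (nat_lit 886757024) (nat_lit 110) (nat_lit 5) (nat_lit 114) (nat_lit 5) (nat_lit 115) (nat_lit 5) (nat_lit 627) (nat_lit 521) (nat_lit 412)) (XT.nd (nat_lit 78) (nat_lit 228) (nat_lit 0) (XT.lf (nat_lit 0) (nat_lit 3253726712) (nat_lit 380) (nat_lit 8279083999) (nat_lit 76) (nat_lit 3343538321) (nat_lit 105) (nat_lit 5) (nat_lit 110) (nat_lit 5) (nat_lit 106) (nat_lit 5) (nat_lit 628) (nat_lit 521) (nat_lit 411)) (XT.lf (nat_lit 0) (nat_lit 1193136936) (nat_lit 228) (nat_lit 6291011045) (nat_lit 304) (nat_lit 7574295894) (nat_lit 102) (nat_lit 5) (nat_lit 105) (nat_lit 5) (nat_lit 106) (nat_lit 5) (nat_lit 629) (nat_lit 521) (nat_lit 410)))) (XT.nd (nat_lit 78) (nat_lit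 380) (nat_lit 0) (XT.lf (nat_lit 0) (nat_lit 10932207918) (nat_lit 228) (nat_lit 901473462) (nat_lit 304) (nat_lit 3409810577) (nat_lit 102) (nat_lit 5) (nat_lit 105) (nat_lit 5) (nat_lit 106) (nat_lit 5) (nat_lit 630) (nat_lit 521) (nat_lit 409)) (XT.nd (nat_lit 78) (nat_lit 0) (nat_lit 0) (XT.lf (nat_lit 0) (nat_lit 871704287) (nat_lit 380) (nat_lit 9996213886) (nat_lit 76) (nat_lit 4563320778) (nat_lit 97) (nat_lit 5) (nat_lit 102) (nat_lit 5) (nat_lit 98) (nat_lit 5) (nat_lit 631) (nat_lit 521) (nat_lit 408)) (XT.lf (nat_lit 0) (nat_lit 5207645993) (nat_lit 380) (nat_lit 250717286) (nat_lit 76) (nat_lit 10163639086) (nat_lit 97) (nat_lit 5) (nat_lit 102) (nat_lit 5) (nat_lit 98) (nat_lit 5) (nat_lit 632) (nat_lit 521) (nat_lit 407)))))) (XT.nd (nat_lit 468) (nat_lit 1216) (nat_lit 0) (XT.nd (nat_lit 234) (nat_lit 532) (nat_lit 0) (XT.nd (nat_lit 78) (nat_lit 380) (nat_lit 0) (XT.lf (nat_lit 0) (nat_lit 9674274235) (nat_lit 304) (nat_lit 6032261218) (nat_lit 76) (nat_lit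 109167550) (nat_lit 94) (nat_lit 5) (nat_lit 98) (nat_lit 5) (nat_lit 95) (nat_lit 5) (nat_lit 633) (nat_lit 521) (nat_lit 406)) (XT.nd (nat_lit 78) (nat_lit 76) (nat_lit 0) (XT.lf (nat_lit 0) (nat_lit 3990688992) (nat_lit 304) (nat_lit 10283113643) (nat_lit 380) (nat_lit 1738604948) (nat_lit 90) (nat_lit 5) (nat_lit 94) (nat_lit 5) (nat_lit 95) (nat_lit 5) (nat_lit 634) (nat_lit 521) (nat_lit 405)) (XT.lf (nat_lit 0) (nat_lit 2736785384) (nat_lit 380) (nat_lit 1968481865) (nat_lit 76) (nat_lit 11507010715) (nat_lit 89) (nat_lit 5) (nat_lit 94) (nat_lit 5) (nat_lit 90) (nat_lit 5) (nat_lit 635) (nat_lit 521) (nat_lit 404)))) (XT.nd (nat_lit 78) (nat_lit 304) (nat_lit 0) (XT.lf (nat_lit 0) (nat_lit 7319633185) (nat_lit 304) (nat_lit 8071448462) (nat_lit 76) (nat_lit 1024010880) (nat_lit 86) (nat_lit 5) (nat_lit 90) (nat_lit 5) (nat_lit 87) (nat_lit 5) (nat_lit 636) (nat_lit 521) (nat_lit 403)) (XT.nd (nat_lit 78) (nat_lit 76) (nat_lit 0) (XT.lf (nat_lit 0) (nat_lit 2231622322)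 (nat_lit 228) (nat_lit 9801800943) (nat_lit 304) (nat_lit 4587755594) (nat_lit 83) (nat_lit 5) (nat_lit 86) (nat_lit 5) (nat_lit 87) (nat_lit 5) (nat_lit 637) (nat_lit 521) (nat_lit 402)) (XT.lf (nat_lit 0) (nat_lit 44870415) (nat_lit 304) (nat_lit 4013999236) (nat_lit 76) (nat_lit 12771819080) (nat_lit 82) (nat_lit 5) (nat_lit 86) (nat_lit 5) (nat_lit 83) (nat_lit 5) (nat_lit 638) (nat_lit 521) (nat_lit 401))))) (XT.nd (nat_lit 234) (nat_lit 760) (nat_lit 0) (XT.nd (nat_lit 78) (nat_lit 228) (nat_lit 0) (XT.lf (nat_lit 0) (nat_lit 4744417898) (nat_lit 304) (nat_lit 10463021510) (nat_lit 76) (nat_lit 1835630029) (nat_lit 79) (nat_lit 5) (nat_lit 83) (nat_lit 5) (nat_lit 80) (nat_lit 5) (nat_lit 639) (nat_lit 521) (nat_lit 400)) (XT.nd (nat_lit 78) (nat_lit 0) (nat_lit 0) (XT.lf (nat_lit 0) (nat_lit 122921579) (nat_lit 228) (nat_lit 9450668403) (nat_lit 304) (nat_lit 7685396197) (nat_lit 76) (nat_lit 5) (nat_lit 79) (nat_lit 5) (nat_lit 80) (nat_lit 5) (nat_lit 640) (nat_lit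 521) (nat_lit 399)) (XT.lf (nat_lit 0) (nat_lit 11029768665) (nat_lit 228) (nat_lit 3520794141) (nat_lit 304) (nat_lit 2927635177) (nat_lit 76) (nat_lit 5) (nat_lit 79) (nat_lit 5) (nat_lit 80) (nat_lit 5) (nat_lit 641) (nat_lit 521) (nat_lit 398)))) (XT.nd (nat_lit 156) (nat_lit 456) (nat_lit 0) (XT.nd (nat_lit 78) (nat_lit 0) (nat_lit 0) (XT.lf (nat_lit 0) (nat_lit 1926883510) (nat_lit 304) (nat_lit 13251151257) (nat_lit 76) (nat_lit 2522973227) (nat_lit 72) (nat_lit 5) (nat_lit 76) (nat_lit 5) (nat_lit 73) (nat_lit 5) (nat_lit 642) (nat_lit 521) (nat_lit 397)) (XT.lf (nat_lit 0) (nat_lit 6887528825) (nat_lit 304) (nat_lit 2349208666) (nat_lit 76) (nat_lit 8690185948) (nat_lit 72) (nat_lit 5) (nat_lit 76) (nat_lit 5) (nat_lit 73) (nat_lit 5) (nat_lit 643) (nat_lit 521) (nat_lit 396))) (XT.nd (nat_lit 78) (nat_lit 228) (nat_lit 0) (XT.lf (nat_lit 0) (nat_lit 8855217233) (nat_lit 228) (nat_lit 3131355129) (nat_lit 304) (nat_lit 6170002114) (nat_lit 69) (nat_lit 5) (nat_lit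 72) (nat_lit 5) (nat_lit 73) (nat_lit 5) (nat_lit 644) (nat_lit 521) (nat_lit 395)) (XT.lf (nat_lit 0) (nat_lit 1897996241) (nat_lit 228) (nat_lit 15319653961) (nat_lit 304) (nat_lit 1172568238) (nat_lit 66) (nat_lit 5) (nat_lit 69) (nat_lit 5) (nat_lit 70) (nat_lit 5) (nat_lit 645) (nat_lit 521) (nat_lit 394))))))))
noncomputable def xc87 : XT := (XT.nd (nat_lit 73242) (nat_lit 0) (nat_lit 25916) (XT.nd (nat_lit 72228) (nat_lit 0) (nat_lit 46056) (XT.nd (nat_lit 71760) (nat_lit 0) (nat_lit 51148) (XT.nd (nat_lit 71526) (nat_lit 0) (nat_lit 52288) (XT.nd (nat_lit 156) (nat_lit 456) (nat_lit 0) (XT.lf (nat_lit 0) (nat_lit 3938698940) (nat_lit 304) (nat_lit 5258297364) (nat_lit 76) (nat_lit 9429723076) (nat_lit 65) (nat_lit 5) (nat_lit 69) (nat_lit 5) (nat_lit 66) (nat_lit 5) (nat_lit 646) (nat_lit 521) (nat_lit 393)) (XT.nd (nat_lit 78) (nat_lit 228) (nat_lit 0) (XT.lf (nat_lit 0) (nat_lit 14524484510) (nat_lit 304) (nat_lit 1120102113) (nat_lit 76) (nat_lit 3467383996)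 (nat_lit 62) (nat_lit 5) (nat_lit 66) (nat_lit 5) (nat_lit 63) (nat_lit 5) (nat_lit 648) (nat_lit 521) (nat_lit 391)) (XT.lf (nat_lit 0) (nat_lit 699101204) (nat_lit 228) (nat_lit 8660240093) (nat_lit 76) (nat_lit 10000631706) (nat_lit 59) (nat_lit 5) (nat_lit 62) (nat_lit 5) (nat_lit 60) (nat_lit 5) (nat_lit 649) (nat_lit 521) (nat_lit 390)))) (XT.nd (nat_lit 78) (nat_lit 228) (nat_lit 0) (XT.lf (nat_lit 0) (nat_lit 2939694541) (nat_lit 228) (nat_lit 142660557) (nat_lit 228) (nat_lit 142660557) (nat_lit 750) (nat_lit 3) (nat_lit 753) (nat_lit 3) (nat_lit 753) (nat_lit 5) (nat_lit 522) (nat_lit 522) (nat_lit 516)) (XT.nd (nat_lit 78) (nat_lit 0) (nat_lit 0) (XT.lf (nat_lit 0) (nat_lit 2402773272) (nat_lit 228) (nat_lit 3540820686) (nat_lit 304) (nat_lit 510734357) (nat_lit 747) (nat_lit 5) (nat_lit 750) (nat_lit 3) (nat_lit 751) (nat_lit 5) (nat_lit 523) (nat_lit 522) (nat_lit 515)) (XT.lf (nat_lit 0) (nat_lit 5352247888) (nat_lit 228) (nat_lit 323096506) (nat_lit 304)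 (nat_lit 784829007) (nat_lit 747) (nat_lit 5) (nat_lit 750) (nat_lit 3) (nat_lit 751) (nat_lit 5) (nat_lit 524) (nat_lit 522) (nat_lit 514))))) (XT.nd (nat_lit 234) (nat_lit 456) (nat_lit 0) (XT.nd (nat_lit 78) (nat_lit 380) (nat_lit 0) (XT.lf (nat_lit 0) (nat_lit 1812354642) (nat_lit 304) (nat_lit 3521458410) (nat_lit 380) (nat_lit 1133245156) (nat_lit 743) (nat_lit 5) (nat_lit 747) (nat_lit 5) (nat_lit 748) (nat_lit 5) (nat_lit 525) (nat_lit 522) (nat_lit 513)) (XT.nd (nat_lit 78) (nat_lit 380) (nat_lit 0) (XT.lf (nat_lit 0) (nat_lit 4702940709) (nat_lit 304) (nat_lit 238111888) (nat_lit 380) (nat_lit 1534367869) (nat_lit 743) (nat_lit 5) (nat_lit 747) (nat_lit 5) (nat_lit 748) (nat_lit 5) (nat_lit 526) (nat_lit 522) (nat_lit 512)) (XT.lf (nat_lit 0) (nat_lit 1097923777) (nat_lit 380) (nat_lit 3380529800) (nat_lit 456) (nat_lit 2006448010) (nat_lit 738) (nat_lit 5) (nat_lit 743) (nat_lit 5) (nat_lit 744) (nat_lit 5) (nat_lit 527) (nat_lit 522) (nat_lit 511)))) (XT.nd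 (nat_lit 78) (nat_lit 456) (nat_lit 0) (XT.lf (nat_lit 0) (nat_lit 3930342078) (nat_lit 380) (nat_lit 30060309) (nat_lit 456) (nat_lit 2535388542) (nat_lit 738) (nat_lit 5) (nat_lit 743) (nat_lit 5) (nat_lit 744) (nat_lit 5) (nat_lit 528) (nat_lit 522) (nat_lit 510)) (XT.nd (nat_lit 78) (nat_lit 0) (nat_lit 0) (XT.lf (nat_lit 0) (nat_lit 258232715) (nat_lit 456) (nat_lit 3117613421) (nat_lit 532) (nat_lit 3132033889) (nat_lit 732) (nat_lit 5) (nat_lit 738) (nat_lit 5) (nat_lit 739) (nat_lit 5) (nat_lit 529) (nat_lit 522) (nat_lit 509)) (XT.lf (nat_lit 76) (nat_lit 305609847) (nat_lit 0) (nat_lit 2729457301) (nat_lit 532) (nat_lit 3486202578) (nat_lit 733) (nat_lit 5) (nat_lit 732) (nat_lit 5) (nat_lit 739) (nat_lit 5) (nat_lit 530) (nat_lit 522) (nat_lit 508)))))) (XT.nd (nat_lit 468) (nat_lit 3420) (nat_lit 0) (XT.nd (nat_lit 234) (nat_lit 1140) (nat_lit 0) (XT.nd (nat_lit 78) (nat_lit 532) (nat_lit 0) (XT.lf (nat_lit 76) (nat_lit 3799216926) (nat_lit 0) (nat_lit 2019087315)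 (nat_lit 532) (nat_lit 717623883) (nat_lit 733) (nat_lit 5) (nat_lit 732) (nat_lit 5) (nat_lit 739) (nat_lit 5) (nat_lit 531) (nat_lit 522) (nat_lit 507)) (XT.nd (nat_lit 78) (nat_lit 0) (nat_lit 0) (XT.lf (nat_lit 76) (nat_lit 767723354) (nat_lit 0) (nat_lit 1246809046) (nat_lit 608) (nat_lit 4537374676) (nat_lit 726) (nat_lit 5) (nat_lit 725) (nat_lit 5) (nat_lit 733) (nat_lit 5) (nat_lit 532) (nat_lit 522) (nat_lit 506)) (XT.lf (nat_lit 76) (nat_lit 4334307899) (nat_lit 0) (nat_lit 407698532) (nat_lit 608) (nat_lit 1827115806) (nat_lit 726) (nat_lit 5) (nat_lit 725) (nat_lit 5) (nat_lit 733) (nat_lit 5) (nat_lit 533) (nat_lit 522) (nat_lit 505)))) (XT.nd (nat_lit 78) (nat_lit 608) (nat_lit 0) (XT.lf (nat_lit 0) (nat_lit 869864728) (nat_lit 608) (nat_lit 5234014767) (nat_lit 76) (nat_lit 483800795) (nat_lit 718) (nat_lit 5) (nat_lit 726) (nat_lit 5) (nat_lit 719) (nat_lit 5) (nat_lit 534) (nat_lit 522) (nat_lit 504)) (XT.nd (nat_lit 78) (nat_lit 608) (nat_lit 0) (XT.lf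 (nat_lit 0) (nat_lit 3548182110) (nat_lit 608) (nat_lit 1618583547) (nat_lit 76) (nat_lit 1440581237) (nat_lit 718) (nat_lit 5) (nat_lit 726) (nat_lit 5) (nat_lit 719) (nat_lit 5) (nat_lit 535) (nat_lit 522) (nat_lit 503)) (XT.lf (nat_lit 0) (nat_lit 2055344820) (nat_lit 608) (nat_lit 4173402308) (nat_lit 684) (nat_lit 399701941) (nat_lit 710) (nat_lit 5) (nat_lit 718) (nat_lit 5) (nat_lit 719) (nat_lit 5) (nat_lit 536) (nat_lit 522) (nat_lit 502))))) (XT.nd (nat_lit 234) (nat_lit 2584) (nat_lit 0) (XT.nd (nat_lit 78) (nat_lit 760) (nat_lit 0) (XT.lf (nat_lit 0) (nat_lit 2229453538) (nat_lit 684) (nat_lit 881519640) (nat_lit 76) (nat_lit 3539778252) (nat_lit 709) (nat_lit 5) (nat_lit 718) (nat_lit 5) (nat_lit 710) (nat_lit 5) (nat_lit 537) (nat_lit 522) (nat_lit 501)) (XT.nd (nat_lit 78) (nat_lit 76) (nat_lit 0) (XT.lf (nat_lit 0) (nat_lit 2878445541) (nat_lit 684) (nat_lit 1983249788) (nat_lit 760) (nat_lit 1812649513) (nat_lit 700) (nat_lit 5) (nat_lit 709) (nat_lit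 5) (nat_lit 710) (nat_lit 5) (nat_lit 538) (nat_lit 522) (nat_lit 500)) (XT.lf (nat_lit 0) (nat_lit 780710335) (nat_lit 760) (nat_lit 19409432) (nat_lit 76) (nat_lit 5899321338) (nat_lit 699) (nat_lit 5) (nat_lit 709) (nat_lit 5) (nat_lit 700) (nat_lit 5) (nat_lit 539) (nat_lit 522) (nat_lit 499)))) (XT.nd (nat_lit 156) (nat_lit 988) (nat_lit 0) (XT.nd (nat_lit 78) (nat_lit 836) (nat_lit 0) (XT.lf (nat_lit 0) (nat_lit 3368507467) (nat_lit 836) (nat_lit 2898037032) (nat_lit 76) (nat_lit 458932420) (nat_lit 689) (nat_lit 5) (nat_lit 700) (nat_lit 5) (nat_lit 690) (nat_lit 5) (nat_lit 540) (nat_lit 522) (nat_lit 498)) (XT.lf (nat_lit 0) (nat_lit 965414521) (nat_lit 836) (nat_lit 4994340970) (nat_lit 912) (nat_lit 793257872) (nat_lit 678) (nat_lit 5) (nat_lit 689) (nat_lit 5) (nat_lit 690) (nat_lit 5) (nat_lit 541) (nat_lit 522) (nat_lit 497))) (XT.nd (nat_lit 78) (nat_lit 912) (nat_lit 0) (XT.lf (nat_lit 0) (nat_lit 1757913471) (nat_lit 912) (nat_lit 1889186895) (nat_lit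 76) (nat_lit 3134575329) (nat_lit 677) (nat_lit 5) (nat_lit 689) (nat_lit 5) (nat_lit 678) (nat_lit 5) (nat_lit 542) (nat_lit 522) (nat_lit 496)) (XT.lf (nat_lit 0) (nat_lit 2067946303) (nat_lit 912) (nat_lit 2236644932) (nat_lit 988) (nat_lit 2507126091) (nat_lit 665) (nat_lit 5) (nat_lit 677) (nat_lit 5) (nat_lit 678) (nat_lit 5) (nat_lit 543) (nat_lit 522) (nat_lit 495))))))) (XT.nd (nat_lit 936) (nat_lit 11324) (nat_lit 0) (XT.nd (nat_lit 468) (nat_lit 5472) (nat_lit 0) (XT.nd (nat_lit 234) (nat_lit 1216) (nat_lit 0) (XT.nd (nat_lit 78) (nat_lit 2052) (nat_lit 0) (XT.lf (nat_lit 0) (nat_lit 13973113) (nat_lit 988) (nat_lit 754374015) (nat_lit 76) (nat_lit 6074919095) (nat_lit 664) (nat_lit 5) (nat_lit 677) (nat_lit 5) (nat_lit 665) (nat_lit 5) (nat_lit 544) (nat_lit 522) (nat_lit 494)) (XT.nd (nat_lit 78) (nat_lit 1064) (nat_lit 0) (XT.lf (nat_lit 0) (nat_lit 2521763888) (nat_lit 1064) (nat_lit 3580235390) (nat_lit 76) (nat_lit 773730842) (nat_lit 651) (nat_lit 5)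 (nat_lit 665) (nat_lit 5) (nat_lit 652) (nat_lit 5) (nat_lit 545) (nat_lit 522) (nat_lit 493)) (XT.lf (nat_lit 0) (nat_lit 487344270) (nat_lit 1064) (nat_lit 4549950833) (nat_lit 1140) (nat_lit 1872408523) (nat_lit 637) (nat_lit 5) (nat_lit 651) (nat_lit 5) (nat_lit 652) (nat_lit 5) (nat_lit 546) (nat_lit 522) (nat_lit 492)))) (XT.nd (nat_lit 78) (nat_lit 1140) (nat_lit 0) (XT.lf (nat_lit 0) (nat_lit 619009508) (nat_lit 1140) (nat_lit 2305747711) (nat_lit 76) (nat_lit 4020148011) (nat_lit 636) (nat_lit 5) (nat_lit 651) (nat_lit 5) (nat_lit 637) (nat_lit 5) (nat_lit 547) (nat_lit 522) (nat_lit 491)) (XT.nd (nat_lit 78) (nat_lit 0) (nat_lit 0) (XT.lf (nat_lit 0) (nat_lit 1863826983) (nat_lit 1140) (nat_lit 1229251436) (nat_lit 1216) (nat_lit 3888338363) (nat_lit 621) (nat_lit 5) (nat_lit 636) (nat_lit 5) (nat_lit 637) (nat_lit 5) (nat_lit 548) (nat_lit 522) (nat_lit 490)) (XT.lf (nat_lit 0) (nat_lit 5582096834) (nat_lit 1216) (nat_lit 915951495) (nat_lit 76) (nat_lit 521311982)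 (nat_lit 621) (nat_lit 5) (nat_lit 637) (nat_lit 5) (nat_lit 622) (nat_lit 5) (nat_lit 549) (nat_lit 522) (nat_lit 489))))) (XT.nd (nat_lit 234) (nat_lit 2888) (nat_lit 0) (XT.nd (nat_lit 78) (nat_lit 1292) (nat_lit 0) (XT.lf (nat_lit 0) (nat_lit 1026410262) (nat_lit 1292) (nat_lit 3701042756) (nat_lit 76) (nat_lit 2330932023) (nat_lit 604) (nat_lit 5) (nat_lit 621) (nat_lit 5) (nat_lit 605) (nat_lit 5) (nat_lit 550) (nat_lit 522) (nat_lit 488)) (XT.nd (nat_lit 78) (nat_lit 0) (nat_lit 0) (XT.lf (nat_lit 0) (nat_lit 586687411) (nat_lit 1292) (nat_lit 2891537365) (nat_lit 1368) (nat_lit 3620623707) (nat_lit 587) (nat_lit 5) (nat_lit 604) (nat_lit 5) (nat_lit 605) (nat_lit 5) (nat_lit 551) (nat_lit 522) (nat_lit 487)) (XT.lf (nat_lit 0) (nat_lit 4968717778) (nat_lit 1292) (nat_lit 984039073) (nat_lit 1368) (nat_lit 1187900979) (nat_lit 587) (nat_lit 5) (nat_lit 604) (nat_lit 5) (nat_lit 605) (nat_lit 5) (nat_lit 552) (nat_lit 522) (nat_lit 486)))) (XT.nd (nat_lit 78) (nat_lit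 1444) (nat_lit 0) (XT.lf (nat_lit 0) (nat_lit 1246979794) (nat_lit 1444) (nat_lit 4955813103) (nat_lit 76) (nat_lit 980943012) (nat_lit 568) (nat_lit 5) (nat_lit 587) (nat_lit 5) (nat_lit 569) (nat_lit 5) (nat_lit 553) (nat_lit 522) (nat_lit 485)) (XT.nd (nat_lit 78) (nat_lit 1444) (nat_lit 0) (XT.lf (nat_lit 0) (nat_lit 3686139588) (nat_lit 1444) (nat_lit 538915618) (nat_lit 76) (nat_lit 3003043225) (nat_lit 568) (nat_lit 5) (nat_lit 587) (nat_lit 5) (nat_lit 569) (nat_lit 5) (nat_lit 554) (nat_lit 522) (nat_lit 484)) (XT.lf (nat_lit 0) (nat_lit 3977032771) (nat_lit 1444) (nat_lit 2174130490) (nat_lit 1520) (nat_lit 1122652810) (nat_lit 549) (nat_lit 5) (nat_lit 568) (nat_lit 5) (nat_lit 569) (nat_lit 5) (nat_lit 555) (nat_lit 522) (nat_lit 483)))))) (XT.nd (nat_lit 468) (nat_lit 4636) (nat_lit 0) (XT.nd (nat_lit 234) (nat_lit 3496) (nat_lit 0) (XT.nd (nat_lit 78) (nat_lit 1596) (nat_lit 0) (XT.lf (nat_lit 0) (nat_lit 1235855236) (nat_lit 1520) (nat_lit 54828147) (nat_lit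 1596) (nat_lit 6030333446) (nat_lit 528) (nat_lit 5) (nat_lit 548) (nat_lit 5) (nat_lit 549) (nat_lit 5) (nat_lit 556) (nat_lit 522) (nat_lit 482)) (XT.nd (nat_lit 78) (nat_lit 1596) (nat_lit 0) (XT.lf (nat_lit 0) (nat_lit 3725555734) (nat_lit 1596) (nat_lit 1528697901) (nat_lit 76) (nat_lit 2115002450) (nat_lit 528) (nat_lit 5) (nat_lit 549) (nat_lit 5) (nat_lit 529) (nat_lit 5) (nat_lit 557) (nat_lit 522) (nat_lit 481)) (XT.lf (nat_lit 0) (nat_lit 3117701930) (nat_lit 1596) (nat_lit 3065302326) (nat_lit 1672) (nat_lit 1235987054) (nat_lit 507) (nat_lit 5) (nat_lit 528) (nat_lit 5) (nat_lit 529) (nat_lit 5) (nat_lit 558) (nat_lit 522) (nat_lit 480)))) (XT.nd (nat_lit 78) (nat_lit 1748) (nat_lit 0) (XT.lf (nat_lit 0) (nat_lit 362937625) (nat_lit 1672) (nat_lit 807233586) (nat_lit 1748) (nat_lit 6300074249) (nat_lit 484) (nat_lit 5) (nat_lit 506) (nat_lit 5) (nat_lit 507) (nat_lit 5) (nat_lit 559) (nat_lit 522) (nat_lit 479)) (XT.nd (nat_lit 78) (nat_lit 1748) (nat_lit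 0) (XT.lf (nat_lit 0) (nat_lit 3600957280) (nat_lit 1748) (nat_lit 2404024672) (nat_lit 76) (nat_lit 1517526506) (nat_lit 484) (nat_lit 5) (nat_lit 507) (nat_lit 5) (nat_lit 485) (nat_lit 5) (nat_lit 560) (nat_lit 522) (nat_lit 478)) (XT.lf (nat_lit 0) (nat_lit 2377252367) (nat_lit 1748) (nat_lit 3679054931) (nat_lit 1824) (nat_lit 1519998545) (nat_lit 461) (nat_lit 5) (nat_lit 484) (nat_lit 5) (nat_lit 485) (nat_lit 5) (nat_lit 561) (nat_lit 522) (nat_lit 477))))) (XT.nd (nat_lit 234) (nat_lit 1900) (nat_lit 0) (XT.nd (nat_lit 78) (nat_lit 2660) (nat_lit 0) (XT.lf (nat_lit 0) (nat_lit 889108270) (nat_lit 1824) (nat_lit 392484475) (nat_lit 76) (nat_lit 6350039202) (nat_lit 460) (nat_lit 5) (nat_lit 484) (nat_lit 5) (nat_lit 461) (nat_lit 5) (nat_lit 562) (nat_lit 522) (nat_lit 476)) (XT.nd (nat_lit 78) (nat_lit 988) (nat_lit 0) (XT.lf (nat_lit 0) (nat_lit 3319577901) (nat_lit 1748) (nat_lit 3177984685) (nat_lit 76) (nat_lit 1190437999) (nat_lit 438) (nat_lit 5) (nat_lit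 461) (nat_lit 5) (nat_lit 439) (nat_lit 5) (nat_lit 563) (nat_lit 522) (nat_lit 475)) (XT.lf (nat_lit 0) (nat_lit 1742786051) (nat_lit 988) (nat_lit 4035274954) (nat_lit 1064) (nat_lit 1967854983) (nat_lit 425) (nat_lit 5) (nat_lit 438) (nat_lit 5) (nat_lit 439) (nat_lit 5) (nat_lit 564) (nat_lit 522) (nat_lit 474)))) (XT.nd (nat_lit 156) (nat_lit 912) (nat_lit 0) (XT.nd (nat_lit 78) (nat_lit 912) (nat_lit 0) (XT.lf (nat_lit 0) (nat_lit 453121264) (nat_lit 1064) (nat_lit 1045082794) (nat_lit 76) (nat_lit 6307156365) (nat_lit 424) (nat_lit 5) (nat_lit 438) (nat_lit 5) (nat_lit 425) (nat_lit 5) (nat_lit 565) (nat_lit 522) (nat_lit 473)) (XT.lf (nat_lit 0) (nat_lit 2887638464) (nat_lit 988) (nat_lit 3863184547) (nat_lit 76) (nat_lit 1115088208) (nat_lit 412) (nat_lit 5) (nat_lit 425) (nat_lit 5) (nat_lit 413) (nat_lit 5) (nat_lit 566) (nat_lit 522) (nat_lit 472))) (XT.nd (nat_lit 78) (nat_lit 0) (nat_lit 0) (XT.lf (nat_lit 0) (nat_lit 1201879668) (nat_lit 912) (nat_lit 4152380090)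 (nat_lit 988) (nat_lit 2573751904) (nat_lit 400) (nat_lit 5) (nat_lit 412) (nat_lit 5) (nat_lit 413) (nat_lit 5) (nat_lit 567) (nat_lit 522) (nat_lit 471)) (XT.lf (nat_lit 0) (nat_lit 6378847431) (nat_lit 912) (nat_lit 1476459054) (nat_lit 988) (nat_lit 136352539) (nat_lit 400) (nat_lit 5) (nat_lit 412) (nat_lit 5) (nat_lit 413) (nat_lit 5) (nat_lit 568) (nat_lit 522) (nat_lit 470))))))))
noncomputable def xc88 : XT := (XT.nd (nat_lit 1950) (nat_lit 7600) (nat_lit 0) (XT.nd (nat_lit 936) (nat_lit 5852) (nat_lit 0) (XT.nd (nat_lit 468) (nat_lit 3116) (nat_lit 0) (XT.nd (nat_lit 234) (nat_lit 1672) (nat_lit 0) (XT.nd (nat_lit 78) (nat_lit 836) (nat_lit 0) (XT.lf (nat_lit 0) (nat_lit 2310386962) (nat_lit 912) (nat_lit 4471846925) (nat_lit 76) (nat_lit 1274218623) (nat_lit 388) (nat_lit 5) (nat_lit 400) (nat_lit 5) (nat_lit 389) (nat_lit 5) (nat_lit 569) (nat_lit 522) (nat_lit 469)) (XT.nd (nat_lit 78) (nat_lit 0) (nat_lit 0) (XT.lf (nat_lit 0) (nat_lit 742485954) (nat_lit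 836) (nat_lit 4047455608) (nat_lit 912) (nat_lit 3332874537) (nat_lit 377) (nat_lit 5) (nat_lit 388) (nat_lit 5) (nat_lit 389) (nat_lit 5) (nat_lit 570) (nat_lit 522) (nat_lit 468)) (XT.lf (nat_lit 0) (nat_lit 6079991794) (nat_lit 836) (nat_lit 1229824421) (nat_lit 912) (nat_lit 880882419) (nat_lit 377) (nat_lit 5) (nat_lit 388) (nat_lit 5) (nat_lit 389) (nat_lit 5) (nat_lit 571) (nat_lit 522) (nat_lit 467)))) (XT.nd (nat_lit 78) (nat_lit 836) (nat_lit 0) (XT.lf (nat_lit 0) (nat_lit 1592131832) (nat_lit 836) (nat_lit 5015907878) (nat_lit 76) (nat_lit 1651830125) (nat_lit 366) (nat_lit 5) (nat_lit 377) (nat_lit 5) (nat_lit 367) (nat_lit 5) (nat_lit 572) (nat_lit 522) (nat_lit 466)) (XT.nd (nat_lit 78) (nat_lit 0) (nat_lit 0) (XT.lf (nat_lit 0) (nat_lit 352835762) (nat_lit 836) (nat_lit 3736383602) (nat_lit 912) (nat_lit 4241366375) (nat_lit 355) (nat_lit 5) (nat_lit 366) (nat_lit 5) (nat_lit 367) (nat_lit 5) (nat_lit 573) (nat_lit 522) (nat_lit 465)) (XT.lf (nat_lit 0)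 (nat_lit 5855308088) (nat_lit 836) (nat_lit 776784358) (nat_lit 912) (nat_lit 1770712419) (nat_lit 355) (nat_lit 5) (nat_lit 366) (nat_lit 5) (nat_lit 367) (nat_lit 5) (nat_lit 574) (nat_lit 522) (nat_lit 464))))) (XT.nd (nat_lit 234) (nat_lit 1520) (nat_lit 0) (XT.nd (nat_lit 78) (nat_lit 760) (nat_lit 0) (XT.lf (nat_lit 0) (nat_lit 736268794) (nat_lit 836) (nat_lit 5507114095) (nat_lit 76) (nat_lit 2233058890) (nat_lit 344) (nat_lit 5) (nat_lit 355) (nat_lit 5) (nat_lit 345) (nat_lit 5) (nat_lit 575) (nat_lit 522) (nat_lit 463)) (XT.nd (nat_lit 78) (nat_lit 0) (nat_lit 0) (XT.lf (nat_lit 0) (nat_lit 21340065) (nat_lit 760) (nat_lit 3233965872) (nat_lit 836) (nat_lit 5296304329) (nat_lit 334) (nat_lit 5) (nat_lit 344) (nat_lit 5) (nat_lit 345) (nat_lit 5) (nat_lit 576) (nat_lit 522) (nat_lit 462)) (XT.lf (nat_lit 0) (nat_lit 5693521617) (nat_lit 760) (nat_lit 131724628) (nat_lit 836) (nat_lit 2803030769) (nat_lit 334) (nat_lit 5) (nat_lit 344) (nat_lit 5) (nat_lit 345)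 (nat_lit 5) (nat_lit 577) (nat_lit 522) (nat_lit 461)))) (XT.nd (nat_lit 78) (nat_lit 836) (nat_lit 0) (XT.lf (nat_lit 0) (nat_lit 2747650318) (nat_lit 684) (nat_lit 5700712970) (nat_lit 760) (nat_lit 258083483) (nat_lit 325) (nat_lit 5) (nat_lit 334) (nat_lit 5) (nat_lit 335) (nat_lit 5) (nat_lit 578) (nat_lit 522) (nat_lit 460)) (XT.nd (nat_lit 78) (nat_lit 760) (nat_lit 0) (XT.lf (nat_lit 0) (nat_lit 2292243298) (nat_lit 760) (nat_lit 260052913) (nat_lit 76) (nat_lit 6233882362) (nat_lit 324) (nat_lit 5) (nat_lit 334) (nat_lit 5) (nat_lit 325) (nat_lit 5) (nat_lit 579) (nat_lit 522) (nat_lit 459)) (XT.lf (nat_lit 0) (nat_lit 4896009146) (nat_lit 836) (nat_lit 3288512449) (nat_lit 76) (nat_lit 682836464) (nat_lit 314) (nat_lit 5) (nat_lit 325) (nat_lit 5) (nat_lit 315) (nat_lit 5) (nat_lit 580) (nat_lit 522) (nat_lit 458)))))) (XT.nd (nat_lit 468) (nat_lit 3040) (nat_lit 0) (XT.nd (nat_lit 234) (nat_lit 1368) (nat_lit 0) (XT.nd (nat_lit 78) (nat_lit 760) (nat_lit 0)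 (XT.lf (nat_lit 0) (nat_lit 2563484967) (nat_lit 684) (nat_lit 4989191183) (nat_lit 760) (nat_lit 1397473302) (nat_lit 305) (nat_lit 5) (nat_lit 314) (nat_lit 5) (nat_lit 315) (nat_lit 5) (nat_lit 581) (nat_lit 522) (nat_lit 457)) (XT.nd (nat_lit 78) (nat_lit 684) (nat_lit 0) (XT.lf (nat_lit 0) (nat_lit 1199692844) (nat_lit 760) (nat_lit 506506828) (nat_lit 76) (nat_lit 7328483868) (nat_lit 304) (nat_lit 5) (nat_lit 314) (nat_lit 5) (nat_lit 305) (nat_lit 5) (nat_lit 582) (nat_lit 522) (nat_lit 456)) (XT.lf (nat_lit 0) (nat_lit 3843199892) (nat_lit 760) (nat_lit 3617809887) (nat_lit 76) (nat_lit 1659456146) (nat_lit 295) (nat_lit 5) (nat_lit 305) (nat_lit 5) (nat_lit 296) (nat_lit 5) (nat_lit 583) (nat_lit 522) (nat_lit 455)))) (XT.nd (nat_lit 78) (nat_lit 760) (nat_lit 0) (XT.lf (nat_lit 0) (nat_lit 2410384320) (nat_lit 608) (nat_lit 4126291235) (nat_lit 684) (nat_lit 2671350899) (nat_lit 287) (nat_lit 5) (nat_lit 295) (nat_lit 5) (nat_lit 296) (nat_lit 5) (nat_lit 584)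 (nat_lit 522) (nat_lit 454)) (XT.nd (nat_lit 78) (nat_lit 760) (nat_lit 0) (XT.lf (nat_lit 0) (nat_lit 8567573241) (nat_lit 608) (nat_lit 707841520) (nat_lit 684) (nat_lit 22099932) (nat_lit 287) (nat_lit 5) (nat_lit 295) (nat_lit 5) (nat_lit 296) (nat_lit 5) (nat_lit 585) (nat_lit 522) (nat_lit 453)) (XT.lf (nat_lit 0) (nat_lit 2666408129) (nat_lit 760) (nat_lit 3933484423) (nat_lit 76) (nat_lit 2788127880) (nat_lit 277) (nat_lit 5) (nat_lit 287) (nat_lit 5) (nat_lit 278) (nat_lit 5) (nat_lit 586) (nat_lit 522) (nat_lit 452))))) (XT.nd (nat_lit 234) (nat_lit 1748) (nat_lit 0) (XT.nd (nat_lit 78) (nat_lit 684) (nat_lit 0) (XT.lf (nat_lit 0) (nat_lit 2276774660) (nat_lit 608) (nat_lit 3123885933) (nat_lit 684) (nat_lit 4079831493) (nat_lit 269) (nat_lit 5) (nat_lit 277) (nat_lit 5) (nat_lit 278) (nat_lit 5) (nat_lit 587) (nat_lit 522) (nat_lit 451)) (XT.nd (nat_lit 78) (nat_lit 684) (nat_lit 0) (XT.lf (nat_lit 0) (nat_lit 8187088150) (nat_lit 684) (nat_lit 953534536) (nat_lit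 76) (nat_lit 434244734) (nat_lit 269) (nat_lit 5) (nat_lit 278) (nat_lit 5) (nat_lit 270) (nat_lit 5) (nat_lit 588) (nat_lit 522) (nat_lit 450)) (XT.lf (nat_lit 0) (nat_lit 1365224832) (nat_lit 684) (nat_lit 4247506913) (nat_lit 76) (nat_lit 4057727593) (nat_lit 260) (nat_lit 5) (nat_lit 269) (nat_lit 5) (nat_lit 261) (nat_lit 5) (nat_lit 589) (nat_lit 522) (nat_lit 449)))) (XT.nd (nat_lit 156) (nat_lit 1216) (nat_lit 0) (XT.nd (nat_lit 78) (nat_lit 0) (nat_lit 0) (XT.lf (nat_lit 0) (nat_lit 2150788386) (nat_lit 532) (nat_lit 1993291839) (nat_lit 608) (nat_lit 5623915746) (nat_lit 253) (nat_lit 5) (nat_lit 260) (nat_lit 5) (nat_lit 261) (nat_lit 5) (nat_lit 590) (nat_lit 522) (nat_lit 448)) (XT.lf (nat_lit 0) (nat_lit 6987472252) (nat_lit 608) (nat_lit 1184043143) (nat_lit 76) (nat_lit 1695792490) (nat_lit 253) (nat_lit 5) (nat_lit 261) (nat_lit 5) (nat_lit 254) (nat_lit 5) (nat_lit 591) (nat_lit 522) (nat_lit 447))) (XT.nd (nat_lit 78) (nat_lit 608) (nat_lit 0) (XT.lf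 (nat_lit 0) (nat_lit 5395604437) (nat_lit 608) (nat_lit 4510203002) (nat_lit 684) (nat_lit 62440755) (nat_lit 245) (nat_lit 5) (nat_lit 253) (nat_lit 5) (nat_lit 254) (nat_lit 5) (nat_lit 592) (nat_lit 522) (nat_lit 446)) (XT.lf (nat_lit 0) (nat_lit 2020150863) (nat_lit 532) (nat_lit 745371553) (nat_lit 608) (nat_lit 7305501537) (nat_lit 237) (nat_lit 5) (nat_lit 244) (nat_lit 5) (nat_lit 245) (nat_lit 5) (nat_lit 593) (nat_lit 522) (nat_lit 445))))))) (XT.nd (nat_lit 936) (nat_lit 3420) (nat_lit 0) (XT.nd (nat_lit 468) (nat_lit 2052) (nat_lit 0) (XT.nd (nat_lit 234) (nat_lit 988) (nat_lit 0) (XT.nd (nat_lit 78) (nat_lit 1140) (nat_lit 0) (XT.lf (nat_lit 0) (nat_lit 5670434576) (nat_lit 608) (nat_lit 1429322019) (nat_lit 76) (nat_lit 3075669314) (nat_lit 237) (nat_lit 5) (nat_lit 245) (nat_lit 5) (nat_lit 238) (nat_lit 5) (nat_lit 594) (nat_lit 522) (nat_lit 444)) (XT.nd (nat_lit 78) (nat_lit 608) (nat_lit 0) (XT.lf (nat_lit 0) (nat_lit 5350529029) (nat_lit 532) (nat_lit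 3293418579) (nat_lit 608) (nat_lit 1637761629) (nat_lit 230) (nat_lit 5) (nat_lit 237) (nat_lit 5) (nat_lit 238) (nat_lit 5) (nat_lit 595) (nat_lit 522) (nat_lit 443)) (XT.lf (nat_lit 0) (nat_lit 1266652915) (nat_lit 608) (nat_lit 8521994245) (nat_lit 76) (nat_lit 601372889) (nat_lit 222) (nat_lit 5) (nat_lit 230) (nat_lit 5) (nat_lit 223) (nat_lit 5) (nat_lit 596) (nat_lit 522) (nat_lit 442)))) (XT.nd (nat_lit 78) (nat_lit 988) (nat_lit 0) (XT.lf (nat_lit 0) (nat_lit 4233564866) (nat_lit 608) (nat_lit 1702399922) (nat_lit 76) (nat_lit 4563792192) (nat_lit 222) (nat_lit 5) (nat_lit 230) (nat_lit 5) (nat_lit 223) (nat_lit 5) (nat_lit 597) (nat_lit 522) (nat_lit 441)) (XT.nd (nat_lit 78) (nat_lit 456) (nat_lit 0) (XT.lf (nat_lit 0) (nat_lit 5283917106) (nat_lit 532) (nat_lit 1981966963) (nat_lit 608) (nat_lit 3345686326) (nat_lit 215) (nat_lit 5) (nat_lit 222) (nat_lit 5) (nat_lit 223) (nat_lit 5) (nat_lit 598) (nat_lit 522) (nat_lit 440)) (XT.lf (nat_lit 0) (nat_lit 1677043115)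 (nat_lit 456) (nat_lit 8689506529) (nat_lit 532) (nat_lit 358919504) (nat_lit 209) (nat_lit 5) (nat_lit 215) (nat_lit 5) (nat_lit 216) (nat_lit 5) (nat_lit 599) (nat_lit 522) (nat_lit 439))))) (XT.nd (nat_lit 234) (nat_lit 988) (nat_lit 0) (XT.nd (nat_lit 78) (nat_lit 988) (nat_lit 0) (XT.lf (nat_lit 0) (nat_lit 2673552726) (nat_lit 532) (nat_lit 2017011473) (nat_lit 76) (nat_lit 6150311267) (nat_lit 208) (nat_lit 5) (nat_lit 215) (nat_lit 5) (nat_lit 209) (nat_lit 5) (nat_lit 600) (nat_lit 522) (nat_lit 438)) (XT.nd (nat_lit 78) (nat_lit 456) (nat_lit 0) (XT.lf (nat_lit 0) (nat_lit 5182069302) (nat_lit 532) (nat_lit 586100533) (nat_lit 608) (nat_lit 5190249489) (nat_lit 201) (nat_lit 5) (nat_lit 208) (nat_lit 5) (nat_lit 209) (nat_lit 5) (nat_lit 601) (nat_lit 522) (nat_lit 437)) (XT.lf (nat_lit 0) (nat_lit 1430964253) (nat_lit 456) (nat_lit 7512873283) (nat_lit 532) (nat_lit 2134096191) (nat_lit 195) (nat_lit 5) (nat_lit 201) (nat_lit 5) (nat_lit 202) (nat_lit 5) (nat_lit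 602) (nat_lit 522) (nat_lit 436)))) (XT.nd (nat_lit 78) (nat_lit 912) (nat_lit 0) (XT.lf (nat_lit 0) (nat_lit 986153639) (nat_lit 532) (nat_lit 2387733358) (nat_lit 76) (nat_lit 7825509113) (nat_lit 194) (nat_lit 5) (nat_lit 201) (nat_lit 5) (nat_lit 195) (nat_lit 5) (nat_lit 603) (nat_lit 522) (nat_lit 435)) (XT.nd (nat_lit 78) (nat_lit 456) (nat_lit 0) (XT.lf (nat_lit 0) (nat_lit 4152157541) (nat_lit 532) (nat_lit 6298205969) (nat_lit 76) (nat_lit 872406281) (nat_lit 188) (nat_lit 5) (nat_lit 195) (nat_lit 5) (nat_lit 189) (nat_lit 5) (nat_lit 604) (nat_lit 522) (nat_lit 434)) (XT.lf (nat_lit 0) (nat_lit 1123151374) (nat_lit 456) (nat_lit 6277790978) (nat_lit 532) (nat_lit 4047281994) (nat_lit 182) (nat_lit 5) (nat_lit 188) (nat_lit 5) (nat_lit 189) (nat_lit 5) (nat_lit 605) (nat_lit 522) (nat_lit 433)))))) (XT.nd (nat_lit 468) (nat_lit 1596) (nat_lit 0) (XT.nd (nat_lit 234) (nat_lit 912) (nat_lit 0) (XT.nd (nat_lit 78) (nat_lit 912) (nat_lit 0) (XT.lf (nat_lit 0) (nat_lit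 8740249718) (nat_lit 456) (nat_lit 1990681978) (nat_lit 532) (nat_lit 844934284) (nat_lit 182) (nat_lit 5) (nat_lit 188) (nat_lit 5) (nat_lit 189) (nat_lit 5) (nat_lit 606) (nat_lit 522) (nat_lit 432)) (XT.nd (nat_lit 78) (nat_lit 380) (nat_lit 0) (XT.lf (nat_lit 0) (nat_lit 2410957719) (nat_lit 532) (nat_lit 6907958912) (nat_lit 76) (nat_lit 2386406743) (nat_lit 175) (nat_lit 5) (nat_lit 182) (nat_lit 5) (nat_lit 176) (nat_lit 5) (nat_lit 607) (nat_lit 522) (nat_lit 431)) (XT.lf (nat_lit 0) (nat_lit 737375557) (nat_lit 380) (nat_lit 4994901015) (nat_lit 456) (nat_lit 6104751608) (nat_lit 170) (nat_lit 5) (nat_lit 175) (nat_lit 5) (nat_lit 176) (nat_lit 5) (nat_lit 608) (nat_lit 522) (nat_lit 430)))) (XT.nd (nat_lit 78) (nat_lit 912) (nat_lit 0) (XT.lf (nat_lit 0) (nat_lit 8591661583) (nat_lit 380) (nat_lit 549459186) (nat_lit 456) (nat_lit 2829826705) (nat_lit 170) (nat_lit 5) (nat_lit 175) (nat_lit 5) (nat_lit 176) (nat_lit 5) (nat_lit 609) (nat_lit 522) (nat_lit 429))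 (XT.nd (nat_lit 78) (nat_lit 380) (nat_lit 0) (XT.lf (nat_lit 0) (nat_lit 534290102) (nat_lit 532) (nat_lit 7619215844) (nat_lit 76) (nat_lit 3953367382) (nat_lit 163) (nat_lit 5) (nat_lit 170) (nat_lit 5) (nat_lit 164) (nat_lit 5) (nat_lit 610) (nat_lit 522) (nat_lit 428)) (XT.lf (nat_lit 0) (nat_lit 256150328) (nat_lit 380) (nat_lit 3675052970) (nat_lit 456) (nat_lit 8313874425) (nat_lit 158) (nat_lit 5) (nat_lit 163) (nat_lit 5) (nat_lit 164) (nat_lit 5) (nat_lit 611) (nat_lit 522) (nat_lit 427))))) (XT.nd (nat_lit 234) (nat_lit 1140) (nat_lit 0) (XT.nd (nat_lit 78) (nat_lit 456) (nat_lit 0) (XT.lf (nat_lit 0) (nat_lit 7428723868) (nat_lit 456) (nat_lit 4036382776) (nat_lit 76) (nat_lit 920288370) (nat_lit 158) (nat_lit 5) (nat_lit 164) (nat_lit 5) (nat_lit 159) (nat_lit 5) (nat_lit 612) (nat_lit 522) (nat_lit 426)) (XT.nd (nat_lit 78) (nat_lit 76) (nat_lit 0) (XT.lf (nat_lit 0) (nat_lit 4067428417) (nat_lit 380) (nat_lit 6955399060) (nat_lit 456) (nat_lit 1505160666)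 (nat_lit 153) (nat_lit 5) (nat_lit 158) (nat_lit 5) (nat_lit 159) (nat_lit 5) (nat_lit 613) (nat_lit 522) (nat_lit 425)) (XT.lf (nat_lit 0) (nat_lit 1992174979) (nat_lit 456) (nat_lit 334996659) (nat_lit 76) (nat_lit 10345937317) (nat_lit 152) (nat_lit 5) (nat_lit 158) (nat_lit 5) (nat_lit 153) (nat_lit 5) (nat_lit 614) (nat_lit 522) (nat_lit 424)))) (XT.nd (nat_lit 156) (nat_lit 380) (nat_lit 0) (XT.nd (nat_lit 78) (nat_lit 380) (nat_lit 0) (XT.lf (nat_lit 0) (nat_lit 5583644106) (nat_lit 456) (nat_lit 4824194320) (nat_lit 76) (nat_lit 2412209981) (nat_lit 147) (nat_lit 5) (nat_lit 153) (nat_lit 5) (nat_lit 148) (nat_lit 5) (nat_lit 615) (nat_lit 522) (nat_lit 423)) (XT.lf (nat_lit 0) (nat_lit 3522455033) (nat_lit 380) (nat_lit 5741612389) (nat_lit 456) (nat_lit 3705518712) (nat_lit 142) (nat_lit 5) (nat_lit 147) (nat_lit 5) (nat_lit 148) (nat_lit 5) (nat_lit 616) (nat_lit 522) (nat_lit 422))) (XT.nd (nat_lit 78) (nat_lit 380) (nat_lit 0) (XT.lf (nat_lit 0) (nat_lit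 12065372288) (nat_lit 380) (nat_lit 961904969) (nat_lit 456) (nat_lit 94655743) (nat_lit 142) (nat_lit 5) (nat_lit 147) (nat_lit 5) (nat_lit 148) (nat_lit 5) (nat_lit 617) (nat_lit 522) (nat_lit 421)) (XT.lf (nat_lit 0) (nat_lit 3593239425) (nat_lit 380) (nat_lit 5760368260) (nat_lit 76) (nat_lit 3922217464) (nat_lit 137) (nat_lit 5) (nat_lit 142) (nat_lit 5) (nat_lit 138) (nat_lit 5) (nat_lit 618) (nat_lit 522) (nat_lit 420))))))))
noncomputable def xc89 : XT := (XT.nd (nat_lit 1950) (nat_lit 912) (nat_lit 0) (XT.nd (nat_lit 936) (nat_lit 2280) (nat_lit 0) (XT.nd (nat_lit 468) (nat_lit 1292) (nat_lit 0) (XT.nd (nat_lit 234) (nat_lit 608) (nat_lit 0) (XT.nd (nat_lit 78) (nat_lit 380) (nat_lit 0) (XT.lf (nat_lit 0) (nat_lit 2834924641) (nat_lit 380) (nat_lit 4527858675) (nat_lit 456) (nat_lit 6069817977) (nat_lit 132) (nat_lit 5) (nat_lit 137) (nat_lit 5) (nat_lit 138) (nat_lit 5) (nat_lit 619) (nat_lit 522) (nat_lit 419)) (XT.nd (nat_lit 78) (nat_lit 380) (nat_lit 0)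 (XT.lf (nat_lit 0) (nat_lit 11226564324) (nat_lit 456) (nat_lit 1950277804) (nat_lit 76) (nat_lit 415295704) (nat_lit 132) (nat_lit 5) (nat_lit 138) (nat_lit 5) (nat_lit 133) (nat_lit 5) (nat_lit 620) (nat_lit 522) (nat_lit 418)) (XT.lf (nat_lit 0) (nat_lit 1447146398) (nat_lit 380) (nat_lit 6868043355) (nat_lit 76) (nat_lit 5438435243) (nat_lit 127) (nat_lit 5) (nat_lit 132) (nat_lit 5) (nat_lit 128) (nat_lit 5) (nat_lit 621) (nat_lit 522) (nat_lit 417)))) (XT.nd (nat_lit 78) (nat_lit 304) (nat_lit 0) (XT.lf (nat_lit 0) (nat_lit 1981461765) (nat_lit 304) (nat_lit 3326931106) (nat_lit 380) (nat_lit 8609559052) (nat_lit 123) (nat_lit 5) (nat_lit 127) (nat_lit 5) (nat_lit 128) (nat_lit 5) (nat_lit 622) (nat_lit 522) (nat_lit 416)) (XT.nd (nat_lit 78) (nat_lit 304) (nat_lit 0) (XT.lf (nat_lit 0) (nat_lit 9282691261) (nat_lit 380) (nat_lit 3030737795) (nat_lit 76) (nat_lit 1771421453) (nat_lit 123) (nat_lit 5) (nat_lit 128) (nat_lit 5) (nat_lit 124) (nat_lit 5) (nat_lit 623)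 (nat_lit 522) (nat_lit 415)) (XT.lf (nat_lit 0) (nat_lit 6076070133) (nat_lit 304) (nat_lit 7300318803) (nat_lit 380) (nat_lit 877901490) (nat_lit 119) (nat_lit 5) (nat_lit 123) (nat_lit 5) (nat_lit 124) (nat_lit 5) (nat_lit 624) (nat_lit 522) (nat_lit 414))))) (XT.nd (nat_lit 234) (nat_lit 608) (nat_lit 0) (XT.nd (nat_lit 78) (nat_lit 304) (nat_lit 0) (XT.lf (nat_lit 0) (nat_lit 936468352) (nat_lit 304) (nat_lit 2152429617) (nat_lit 380) (nat_lit 11337716179) (nat_lit 114) (nat_lit 5) (nat_lit 118) (nat_lit 5) (nat_lit 119) (nat_lit 5) (nat_lit 625) (nat_lit 522) (nat_lit 413)) (XT.nd (nat_lit 78) (nat_lit 304) (nat_lit 0) (XT.lf (nat_lit 0) (nat_lit 7177248227) (nat_lit 380) (nat_lit 4318160204) (nat_lit 76) (nat_lit 3105781988) (nat_lit 114) (nat_lit 5) (nat_lit 119) (nat_lit 5) (nat_lit 115) (nat_lit 5) (nat_lit 626) (nat_lit 522) (nat_lit 412)) (XT.lf (nat_lit 0) (nat_lit 5055105470) (nat_lit 304) (nat_lit 6318353593) (nat_lit 380) (nat_lit 3405278786) (nat_lit 110)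 (nat_lit 5) (nat_lit 114) (nat_lit 5) (nat_lit 115) (nat_lit 5) (nat_lit 627) (nat_lit 522) (nat_lit 411)))) (XT.nd (nat_lit 78) (nat_lit 532) (nat_lit 0) (XT.lf (nat_lit 0) (nat_lit 692897787) (nat_lit 380) (nat_lit 323840984) (nat_lit 76) (nat_lit 13942844040) (nat_lit 109) (nat_lit 5) (nat_lit 114) (nat_lit 5) (nat_lit 110) (nat_lit 5) (nat_lit 628) (nat_lit 522) (nat_lit 410)) (XT.nd (nat_lit 78) (nat_lit 228) (nat_lit 0) (XT.lf (nat_lit 0) (nat_lit 4896515923) (nat_lit 380) (nat_lit 5841593224) (nat_lit 76) (nat_lit 4404105271) (nat_lit 105) (nat_lit 5) (nat_lit 110) (nat_lit 5) (nat_lit 106) (nat_lit 5) (nat_lit 629) (nat_lit 522) (nat_lit 409)) (XT.lf (nat_lit 0) (nat_lit 3802946653) (nat_lit 228) (nat_lit 5394453066) (nat_lit 304) (nat_lit 6130836461) (nat_lit 102) (nat_lit 5) (nat_lit 105) (nat_lit 5) (nat_lit 106) (nat_lit 5) (nat_lit 630) (nat_lit 522) (nat_lit 408)))))) (XT.nd (nat_lit 468) (nat_lit 1064) (nat_lit 0) (XT.nd (nat_lit 234) (nat_lit 608) (nat_lit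 0) (XT.nd (nat_lit 78) (nat_lit 608) (nat_lit 0) (XT.lf (nat_lit 0) (nat_lit 13603803353) (nat_lit 304) (nat_lit 1832044017) (nat_lit 76) (nat_lit 81742324) (nat_lit 102) (nat_lit 5) (nat_lit 106) (nat_lit 5) (nat_lit 103) (nat_lit 5) (nat_lit 631) (nat_lit 522) (nat_lit 407)) (XT.nd (nat_lit 78) (nat_lit 228) (nat_lit 0) (XT.lf (nat_lit 0) (nat_lit 2425084722) (nat_lit 380) (nat_lit 7632970223) (nat_lit 76) (nat_lit 5650990729) (nat_lit 97) (nat_lit 5) (nat_lit 102) (nat_lit 5) (nat_lit 98) (nat_lit 5) (nat_lit 632) (nat_lit 522) (nat_lit 406)) (XT.lf (nat_lit 0) (nat_lit 2287174823) (nat_lit 228) (nat_lit 4545303701) (nat_lit 304) (nat_lit 9071453111) (nat_lit 94) (nat_lit 5) (nat_lit 97) (nat_lit 5) (nat_lit 98) (nat_lit 5) (nat_lit 633) (nat_lit 522) (nat_lit 405)))) (XT.nd (nat_lit 78) (nat_lit 608) (nat_lit 0) (XT.lf (nat_lit 0) (nat_lit 11366789300) (nat_lit 304) (nat_lit 3633101242) (nat_lit 76) (nat_lit 1102050649) (nat_lit 94) (nat_lit 5) (nat_lit 98) (nat_lit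 5) (nat_lit 95) (nat_lit 5) (nat_lit 634) (nat_lit 522) (nat_lit 404)) (XT.nd (nat_lit 78) (nat_lit 304) (nat_lit 0) (XT.lf (nat_lit 0) (nat_lit 6573730306) (nat_lit 304) (nat_lit 9471437839) (nat_lit 380) (nat_lit 257676388) (nat_lit 90) (nat_lit 5) (nat_lit 94) (nat_lit 5) (nat_lit 95) (nat_lit 5) (nat_lit 635) (nat_lit 522) (nat_lit 403)) (XT.lf (nat_lit 0) (nat_lit 472063023) (nat_lit 228) (nat_lit 3789015143) (nat_lit 304) (nat_lit 12245964431) (nat_lit 86) (nat_lit 5) (nat_lit 89) (nat_lit 5) (nat_lit 90) (nat_lit 5) (nat_lit 636) (nat_lit 522) (nat_lit 402))))) (XT.nd (nat_lit 234) (nat_lit 760) (nat_lit 0) (XT.nd (nat_lit 78) (nat_lit 304) (nat_lit 0) (XT.lf (nat_lit 0) (nat_lit 8926235668) (nat_lit 304) (nat_lit 5752783762) (nat_lit 76) (nat_lit 2035082726) (nat_lit 86) (nat_lit 5) (nat_lit 90) (nat_lit 5) (nat_lit 87) (nat_lit 5) (nat_lit 637) (nat_lit 522) (nat_lit 401)) (XT.nd (nat_lit 78) (nat_lit 76) (nat_lit 0) (XT.lf (nat_lit 0) (nat_lit 4740032031) (nat_lit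 228) (nat_lit 8981634429) (nat_lit 304) (nat_lit 3202898182) (nat_lit 83) (nat_lit 5) (nat_lit 86) (nat_lit 5) (nat_lit 87) (nat_lit 5) (nat_lit 638) (nat_lit 522) (nat_lit 400)) (XT.lf (nat_lit 0) (nat_lit 1474440848) (nat_lit 304) (nat_lit 1659742056) (nat_lit 76) (nat_lit 14004463194) (nat_lit 82) (nat_lit 5) (nat_lit 86) (nat_lit 5) (nat_lit 83) (nat_lit 5) (nat_lit 639) (nat_lit 522) (nat_lit 399)))) (XT.nd (nat_lit 156) (nat_lit 304) (nat_lit 0) (XT.nd (nat_lit 78) (nat_lit 228) (nat_lit 0) (XT.lf (nat_lit 0) (nat_lit 6262175397) (nat_lit 304) (nat_lit 8231859571) (nat_lit 76) (nat_lit 2861357154) (nat_lit 79) (nat_lit 5) (nat_lit 83) (nat_lit 5) (nat_lit 80) (nat_lit 5) (nat_lit 640) (nat_lit 522) (nat_lit 398)) (XT.lf (nat_lit 0) (nat_lit 2549746968) (nat_lit 228) (nat_lit 8626025158) (nat_lit 304) (nat_lit 6400099844) (nat_lit 76) (nat_lit 5) (nat_lit 79) (nat_lit 5) (nat_lit 80) (nat_lit 5) (nat_lit 641) (nat_lit 522) (nat_lit 397))) (XT.nd (nat_lit 78) (nat_lit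 304) (nat_lit 0) (XT.lf (nat_lit 0) (nat_lit 13627194390) (nat_lit 228) (nat_lit 2597429030) (nat_lit 304) (nat_lit 1575399373) (nat_lit 76) (nat_lit 5) (nat_lit 79) (nat_lit 5) (nat_lit 80) (nat_lit 5) (nat_lit 642) (nat_lit 522) (nat_lit 396)) (XT.lf (nat_lit 0) (nat_lit 3352345052) (nat_lit 304) (nat_lit 11115327537) (nat_lit 76) (nat_lit 3559541960) (nat_lit 72) (nat_lit 5) (nat_lit 76) (nat_lit 5) (nat_lit 73) (nat_lit 5) (nat_lit 643) (nat_lit 522) (nat_lit 395))))))) (XT.nd (nat_lit 72306) (nat_lit 0) (nat_lit 46892) (XT.nd (nat_lit 71838) (nat_lit 0) (nat_lit 50996) (XT.nd (nat_lit 312) (nat_lit 380) (nat_lit 0) (XT.nd (nat_lit 78) (nat_lit 532) (nat_lit 0) (XT.lf (nat_lit 0) (nat_lit 8385008688) (nat_lit 304) (nat_lit 42421520) (nat_lit 76) (nat_lit 9830763459) (nat_lit 72) (nat_lit 5) (nat_lit 76) (nat_lit 5) (nat_lit 73) (nat_lit 5) (nat_lit 644) (nat_lit 522) (nat_lit 394)) (XT.nd (nat_lit 78) (nat_lit 304) (nat_lit 0) (XT.lf (nat_lit 0) (nat_lit 11370607559)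 (nat_lit 228) (nat_lit 2203945882) (nat_lit 304) (nat_lit 4918115322) (nat_lit 69) (nat_lit 5) (nat_lit 72) (nat_lit 5) (nat_lit 73) (nat_lit 5) (nat_lit 645) (nat_lit 522) (nat_lit 393)) (XT.lf (nat_lit 0) (nat_lit 171962551) (nat_lit 304) (nat_lit 14452884416) (nat_lit 76) (nat_lit 4106215819) (nat_lit 65) (nat_lit 5) (nat_lit 69) (nat_lit 5) (nat_lit 66) (nat_lit 5) (nat_lit 646) (nat_lit 522) (nat_lit 392)))) (XT.nd (nat_lit 78) (nat_lit 152) (nat_lit 0) (XT.lf (nat_lit 0) (nat_lit 8667997697) (nat_lit 228) (nat_lit 1989092546) (nat_lit 304) (nat_lit 8561237820) (nat_lit 62) (nat_lit 5) (nat_lit 65) (nat_lit 5) (nat_lit 66) (nat_lit 5) (nat_lit 648) (nat_lit 522) (nat_lit 390)) (XT.nd (nat_lit 71370) (nat_lit 0) (nat_lit 52212) (XT.lf (nat_lit 0) (nat_lit 1146898673) (nat_lit 152) (nat_lit 14970731324) (nat_lit 228) (nat_lit 3350461516) (nat_lit 60) (nat_lit 5) (nat_lit 62) (nat_lit 5) (nat_lit 63) (nat_lit 5) (nat_lit 649) (nat_lit 522) (nat_lit 389)) (XT.lf (nat_lit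 0) (nat_lit 1331780589) (nat_lit 0) (nat_lit 1331780589) (nat_lit 228) (nat_lit 566135753) (nat_lit 747) (nat_lit 5) (nat_lit 747) (nat_lit 3) (nat_lit 750) (nat_lit 3) (nat_lit 523) (nat_lit 523) (nat_lit 514))))) (XT.nd (nat_lit 234) (nat_lit 456) (nat_lit 0) (XT.nd (nat_lit 78) (nat_lit 380) (nat_lit 0) (XT.lf (nat_lit 0) (nat_lit 1747690040) (nat_lit 380) (nat_lit 607488347) (nat_lit 380) (nat_lit 4110634155) (nat_lit 742) (nat_lit 3) (nat_lit 747) (nat_lit 3) (nat_lit 747) (nat_lit 5) (nat_lit 524) (nat_lit 523) (nat_lit 513)) (XT.nd (nat_lit 78) (nat_lit 380) (nat_lit 0) (XT.lf (nat_lit 76) (nat_lit 2633170969) (nat_lit 0) (nat_lit 1978583186) (nat_lit 380) (nat_lit 1861643397) (nat_lit 743) (nat_lit 5) (nat_lit 742) (nat_lit 3) (nat_lit 747) (nat_lit 5) (nat_lit 525) (nat_lit 523) (nat_lit 512)) (XT.lf (nat_lit 0) (nat_lit 967545474) (nat_lit 380) (nat_lit 580279569) (nat_lit 456) (nat_lit 4934605200) (nat_lit 737) (nat_lit 5) (nat_lit 742) (nat_lit 3) (nat_lit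 743) (nat_lit 5) (nat_lit 526) (nat_lit 523) (nat_lit 511)))) (XT.nd (nat_lit 78) (nat_lit 456) (nat_lit 0) (XT.lf (nat_lit 76) (nat_lit 2729861898) (nat_lit 0) (nat_lit 1043014758) (nat_lit 456) (nat_lit 2719650830) (nat_lit 738) (nat_lit 5) (nat_lit 737) (nat_lit 5) (nat_lit 743) (nat_lit 5) (nat_lit 527) (nat_lit 523) (nat_lit 510)) (XT.nd (nat_lit 78) (nat_lit 0) (nat_lit 76) (XT.lf (nat_lit 0) (nat_lit 61113558) (nat_lit 456) (nat_lit 428764827) (nat_lit 532) (nat_lit 6014323167) (nat_lit 731) (nat_lit 5) (nat_lit 737) (nat_lit 5) (nat_lit 738) (nat_lit 5) (nat_lit 528) (nat_lit 523) (nat_lit 509)) (XT.lf (nat_lit 0) (nat_lit 2810085783) (nat_lit 456) (nat_lit 3563641117) (nat_lit 532) (nat_lit 143061078) (nat_lit 732) (nat_lit 5) (nat_lit 738) (nat_lit 5) (nat_lit 739) (nat_lit 5) (nat_lit 529) (nat_lit 523) (nat_lit 508)))))) (XT.nd (nat_lit 468) (nat_lit 3040) (nat_lit 0) (XT.nd (nat_lit 234) (nat_lit 608) (nat_lit 0) (XT.nd (nat_lit 78) (nat_lit 532) (nat_lit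 0) (XT.lf (nat_lit 0) (nat_lit 5550385036) (nat_lit 456) (nat_lit 164134714) (nat_lit 532) (nat_lit 816397655) (nat_lit 732) (nat_lit 5) (nat_lit 738) (nat_lit 5) (nat_lit 739) (nat_lit 5) (nat_lit 530) (nat_lit 523) (nat_lit 507)) (XT.nd (nat_lit 78) (nat_lit 0) (nat_lit 0) (XT.lf (nat_lit 0) (nat_lit 1729274284) (nat_lit 532) (nat_lit 3249951036) (nat_lit 608) (nat_lit 1566833401) (nat_lit 725) (nat_lit 5) (nat_lit 732) (nat_lit 5) (nat_lit 733) (nat_lit 5) (nat_lit 531) (nat_lit 523) (nat_lit 506)) (XT.lf (nat_lit 76) (nat_lit 223030775) (nat_lit 0) (nat_lit 4191888278) (nat_lit 608) (nat_lit 2147775929) (nat_lit 726) (nat_lit 5) (nat_lit 725) (nat_lit 5) (nat_lit 733) (nat_lit 5) (nat_lit 532) (nat_lit 523) (nat_lit 505)))) (XT.nd (nat_lit 78) (nat_lit 0) (nat_lit 0) (XT.lf (nat_lit 0) (nat_lit 521847016) (nat_lit 608) (nat_lit 2813917435) (nat_lit 684) (nat_lit 3244746000) (nat_lit 717) (nat_lit 5) (nat_lit 725) (nat_lit 5) (nat_lit 726) (nat_lit 5) (nat_lit 533)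 (nat_lit 523) (nat_lit 504)) (XT.nd (nat_lit 78) (nat_lit 0) (nat_lit 0) (XT.lf (nat_lit 76) (nat_lit 738253296) (nat_lit 0) (nat_lit 2416804935) (nat_lit 684) (nat_lit 3444577154) (nat_lit 718) (nat_lit 5) (nat_lit 717) (nat_lit 5) (nat_lit 726) (nat_lit 5) (nat_lit 534) (nat_lit 523) (nat_lit 503)) (XT.lf (nat_lit 76) (nat_lit 4360321411) (nat_lit 0) (nat_lit 1434665934) (nat_lit 684) (nat_lit 825090264) (nat_lit 718) (nat_lit 5) (nat_lit 717) (nat_lit 5) (nat_lit 726) (nat_lit 5) (nat_lit 535) (nat_lit 523) (nat_lit 502))))) (XT.nd (nat_lit 234) (nat_lit 1672) (nat_lit 0) (XT.nd (nat_lit 78) (nat_lit 684) (nat_lit 0) (XT.lf (nat_lit 76) (nat_lit 1380634172) (nat_lit 0) (nat_lit 386900951) (nat_lit 760) (nat_lit 4874269597) (nat_lit 709) (nat_lit 5) (nat_lit 708) (nat_lit 5) (nat_lit 718) (nat_lit 5) (nat_lit 536) (nat_lit 523) (nat_lit 501)) (XT.nd (nat_lit 78) (nat_lit 760) (nat_lit 0) (XT.lf (nat_lit 0) (nat_lit 4357828221) (nat_lit 684) (nat_lit 1589745991) (nat_lit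 76) (nat_lit 717160771) (nat_lit 709) (nat_lit 5) (nat_lit 718) (nat_lit 5) (nat_lit 710) (nat_lit 5) (nat_lit 537) (nat_lit 523) (nat_lit 500)) (XT.lf (nat_lit 0) (nat_lit 262256253) (nat_lit 760) (nat_lit 4549904385) (nat_lit 76) (nat_lit 1876846249) (nat_lit 699) (nat_lit 5) (nat_lit 709) (nat_lit 5) (nat_lit 700) (nat_lit 5) (nat_lit 538) (nat_lit 523) (nat_lit 499)))) (XT.nd (nat_lit 156) (nat_lit 912) (nat_lit 0) (XT.nd (nat_lit 78) (nat_lit 760) (nat_lit 0) (XT.lf (nat_lit 0) (nat_lit 2801609812) (nat_lit 760) (nat_lit 805145972) (nat_lit 76) (nat_lit 3107723621) (nat_lit 699) (nat_lit 5) (nat_lit 709) (nat_lit 5) (nat_lit 700) (nat_lit 5) (nat_lit 539) (nat_lit 523) (nat_lit 498)) (XT.lf (nat_lit 0) (nat_lit 3014509799) (nat_lit 760) (nat_lit 2336939516) (nat_lit 836) (nat_lit 1389831895) (nat_lit 689) (nat_lit 5) (nat_lit 699) (nat_lit 5) (nat_lit 700) (nat_lit 5) (nat_lit 540) (nat_lit 523) (nat_lit 497))) (XT.nd (nat_lit 78) (nat_lit 0) (nat_lit 0) (XT.lf (nat_lit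 0) (nat_lit 106562648) (nat_lit 836) (nat_lit 1008352401) (nat_lit 912) (nat_lit 5654628123) (nat_lit 677) (nat_lit 5) (nat_lit 688) (nat_lit 5) (nat_lit 689) (nat_lit 5) (nat_lit 541) (nat_lit 523) (nat_lit 496)) (XT.lf (nat_lit 0) (nat_lit 3620258706) (nat_lit 912) (nat_lit 2783526057) (nat_lit 76) (nat_lit 395032656) (nat_lit 677) (nat_lit 5) (nat_lit 689) (nat_lit 5) (nat_lit 678) (nat_lit 5) (nat_lit 542) (nat_lit 523) (nat_lit 495))))))))
noncomputable def xc90 : XT := (XT.nd (nat_lit 1950) (nat_lit 12692) (nat_lit 0) (XT.nd (nat_lit 936) (nat_lit 11856) (nat_lit 0) (XT.nd (nat_lit 468) (nat_lit 4028) (nat_lit 0) (XT.nd (nat_lit 234) (nat_lit 2280) (nat_lit 0) (XT.nd (nat_lit 78) (nat_lit 1064) (nat_lit 0) (XT.lf (nat_lit 0) (nat_lit 1141501737) (nat_lit 912) (nat_lit 4991108783) (nat_lit 988) (nat_lit 696941365) (nat_lit 665) (nat_lit 5) (nat_lit 677) (nat_lit 5) (nat_lit 678) (nat_lit 5) (nat_lit 543) (nat_lit 523) (nat_lit 494)) (XT.nd (nat_lit 78) (nat_lit 988)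 (nat_lit 0) (XT.lf (nat_lit 0) (nat_lit 1772341713) (nat_lit 988) (nat_lit 1730608872) (nat_lit 76) (nat_lit 3358482716) (nat_lit 664) (nat_lit 5) (nat_lit 677) (nat_lit 5) (nat_lit 665) (nat_lit 5) (nat_lit 544) (nat_lit 523) (nat_lit 493)) (XT.lf (nat_lit 0) (nat_lit 2291408470) (nat_lit 988) (nat_lit 1949556045) (nat_lit 1064) (nat_lit 2653721995) (nat_lit 651) (nat_lit 5) (nat_lit 664) (nat_lit 5) (nat_lit 665) (nat_lit 5) (nat_lit 545) (nat_lit 523) (nat_lit 492)))) (XT.nd (nat_lit 78) (nat_lit 2280) (nat_lit 0) (XT.lf (nat_lit 0) (nat_lit 6377578752) (nat_lit 988) (nat_lit 338226494) (nat_lit 1064) (nat_lit 213674414) (nat_lit 651) (nat_lit 5) (nat_lit 664) (nat_lit 5) (nat_lit 665) (nat_lit 5) (nat_lit 546) (nat_lit 523) (nat_lit 491)) (XT.nd (nat_lit 78) (nat_lit 1140) (nat_lit 0) (XT.lf (nat_lit 0) (nat_lit 2223291241) (nat_lit 1140) (nat_lit 3401227341) (nat_lit 76) (nat_lit 1340606855) (nat_lit 636) (nat_lit 5) (nat_lit 651) (nat_lit 5) (nat_lit 637) (nat_lit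 5) (nat_lit 547) (nat_lit 523) (nat_lit 490)) (XT.lf (nat_lit 0) (nat_lit 733422126) (nat_lit 1140) (nat_lit 3930278279) (nat_lit 1216) (nat_lit 2338615277) (nat_lit 621) (nat_lit 5) (nat_lit 636) (nat_lit 5) (nat_lit 637) (nat_lit 5) (nat_lit 548) (nat_lit 523) (nat_lit 489))))) (XT.nd (nat_lit 234) (nat_lit 2736) (nat_lit 0) (XT.nd (nat_lit 78) (nat_lit 1216) (nat_lit 0) (XT.lf (nat_lit 0) (nat_lit 81421250) (nat_lit 1216) (nat_lit 2084852833) (nat_lit 76) (nat_lit 4874567079) (nat_lit 620) (nat_lit 5) (nat_lit 636) (nat_lit 5) (nat_lit 621) (nat_lit 5) (nat_lit 549) (nat_lit 523) (nat_lit 488)) (XT.nd (nat_lit 78) (nat_lit 0) (nat_lit 0) (XT.lf (nat_lit 0) (nat_lit 2155408554) (nat_lit 1216) (nat_lit 325449426) (nat_lit 1292) (nat_lit 4599734203) (nat_lit 604) (nat_lit 5) (nat_lit 620) (nat_lit 5) (nat_lit 621) (nat_lit 5) (nat_lit 550) (nat_lit 523) (nat_lit 487)) (XT.lf (nat_lit 0) (nat_lit 4901559985) (nat_lit 1292) (nat_lit 663370146) (nat_lit 76) (nat_lit 1556752823)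 (nat_lit 604) (nat_lit 5) (nat_lit 621) (nat_lit 5) (nat_lit 605) (nat_lit 5) (nat_lit 551) (nat_lit 523) (nat_lit 486)))) (XT.nd (nat_lit 78) (nat_lit 1368) (nat_lit 0) (XT.lf (nat_lit 0) (nat_lit 180421413) (nat_lit 1368) (nat_lit 3475625144) (nat_lit 76) (nat_lit 3508010821) (nat_lit 586) (nat_lit 5) (nat_lit 604) (nat_lit 5) (nat_lit 587) (nat_lit 5) (nat_lit 552) (nat_lit 523) (nat_lit 485)) (XT.nd (nat_lit 78) (nat_lit 0) (nat_lit 0) (XT.lf (nat_lit 0) (nat_lit 885276551) (nat_lit 1368) (nat_lit 1674725692) (nat_lit 1444) (nat_lit 4647778156) (nat_lit 568) (nat_lit 5) (nat_lit 586) (nat_lit 5) (nat_lit 587) (nat_lit 5) (nat_lit 553) (nat_lit 523) (nat_lit 484)) (XT.lf (nat_lit 0) (nat_lit 4964159474) (nat_lit 1444) (nat_lit 1915251025) (nat_lit 76) (nat_lit 373437168) (nat_lit 568) (nat_lit 5) (nat_lit 587) (nat_lit 5) (nat_lit 569) (nat_lit 5) (nat_lit 554) (nat_lit 523) (nat_lit 483)))))) (XT.nd (nat_lit 468) (nat_lit 5472) (nat_lit 0) (XT.nd (nat_lit 234) (nat_lit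 3344) (nat_lit 0) (XT.nd (nat_lit 78) (nat_lit 1520) (nat_lit 0) (XT.lf (nat_lit 0) (nat_lit 95839526) (nat_lit 1520) (nat_lit 4737833808) (nat_lit 76) (nat_lit 2465540827) (nat_lit 548) (nat_lit 5) (nat_lit 568) (nat_lit 5) (nat_lit 549) (nat_lit 5) (nat_lit 555) (nat_lit 523) (nat_lit 482)) (XT.nd (nat_lit 78) (nat_lit 1520) (nat_lit 0) (XT.lf (nat_lit 0) (nat_lit 2462947117) (nat_lit 1520) (nat_lit 248992646) (nat_lit 76) (nat_lit 4634963894) (nat_lit 548) (nat_lit 5) (nat_lit 568) (nat_lit 5) (nat_lit 549) (nat_lit 5) (nat_lit 556) (nat_lit 523) (nat_lit 481)) (XT.lf (nat_lit 0) (nat_lit 4346427747) (nat_lit 1520) (nat_lit 512687778) (nat_lit 1596) (nat_lit 2536805803) (nat_lit 528) (nat_lit 5) (nat_lit 548) (nat_lit 5) (nat_lit 549) (nat_lit 5) (nat_lit 557) (nat_lit 523) (nat_lit 480)))) (XT.nd (nat_lit 78) (nat_lit 1748) (nat_lit 0) (XT.lf (nat_lit 0) (nat_lit 1559551400) (nat_lit 1596) (nat_lit 5720888997) (nat_lit 1672) (nat_lit 165942880) (nat_lit 507) (nat_lit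 5) (nat_lit 528) (nat_lit 5) (nat_lit 529) (nat_lit 5) (nat_lit 558) (nat_lit 523) (nat_lit 479)) (XT.nd (nat_lit 78) (nat_lit 1672) (nat_lit 0) (XT.lf (nat_lit 0) (nat_lit 2201308592) (nat_lit 1672) (nat_lit 1254730541) (nat_lit 76) (nat_lit 4041960890) (nat_lit 506) (nat_lit 5) (nat_lit 528) (nat_lit 5) (nat_lit 507) (nat_lit 5) (nat_lit 559) (nat_lit 523) (nat_lit 478)) (XT.lf (nat_lit 0) (nat_lit 3474040402) (nat_lit 1672) (nat_lit 1117608989) (nat_lit 1748) (nat_lit 2959426542) (nat_lit 484) (nat_lit 5) (nat_lit 506) (nat_lit 5) (nat_lit 507) (nat_lit 5) (nat_lit 560) (nat_lit 523) (nat_lit 477))))) (XT.nd (nat_lit 234) (nat_lit 1976) (nat_lit 0) (XT.nd (nat_lit 78) (nat_lit 1748) (nat_lit 0) (XT.lf (nat_lit 0) (nat_lit 668752706) (nat_lit 1748) (nat_lit 6338138660) (nat_lit 1824) (nat_lit 598788039) (nat_lit 461) (nat_lit 5) (nat_lit 484) (nat_lit 5) (nat_lit 485) (nat_lit 5) (nat_lit 561) (nat_lit 523) (nat_lit 476)) (XT.nd (nat_lit 78) (nat_lit 1672) (nat_lit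 0) (XT.lf (nat_lit 0) (nat_lit 1776627393) (nat_lit 1824) (nat_lit 2156833740) (nat_lit 76) (nat_lit 3727860720) (nat_lit 460) (nat_lit 5) (nat_lit 484) (nat_lit 5) (nat_lit 461) (nat_lit 5) (nat_lit 562) (nat_lit 523) (nat_lit 475)) (XT.lf (nat_lit 0) (nat_lit 2709847730) (nat_lit 1672) (nat_lit 1456491886) (nat_lit 1748) (nat_lit 3552169722) (nat_lit 438) (nat_lit 5) (nat_lit 460) (nat_lit 5) (nat_lit 461) (nat_lit 5) (nat_lit 563) (nat_lit 523) (nat_lit 474)))) (XT.nd (nat_lit 156) (nat_lit 912) (nat_lit 0) (XT.nd (nat_lit 78) (nat_lit 1064) (nat_lit 0) (XT.lf (nat_lit 0) (nat_lit 6583156968) (nat_lit 1748) (nat_lit 121679919) (nat_lit 76) (nat_lit 1072424799) (nat_lit 438) (nat_lit 5) (nat_lit 461) (nat_lit 5) (nat_lit 439) (nat_lit 5) (nat_lit 564) (nat_lit 523) (nat_lit 473)) (XT.lf (nat_lit 0) (nat_lit 1195162050) (nat_lit 1064) (nat_lit 2968079724) (nat_lit 76) (nat_lit 3673798591) (nat_lit 424) (nat_lit 5) (nat_lit 438) (nat_lit 5) (nat_lit 425) (nat_lit 5) (nat_lit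 565) (nat_lit 523) (nat_lit 472))) (XT.nd (nat_lit 78) (nat_lit 0) (nat_lit 0) (XT.lf (nat_lit 0) (nat_lit 2041258254) (nat_lit 912) (nat_lit 1547952349) (nat_lit 988) (nat_lit 4309193350) (nat_lit 412) (nat_lit 5) (nat_lit 424) (nat_lit 5) (nat_lit 425) (nat_lit 5) (nat_lit 566) (nat_lit 523) (nat_lit 471)) (XT.lf (nat_lit 0) (nat_lit 6017899039) (nat_lit 988) (nat_lit 818198214) (nat_lit 76) (nat_lit 1125169152) (nat_lit 412) (nat_lit 5) (nat_lit 425) (nat_lit 5) (nat_lit 413) (nat_lit 5) (nat_lit 567) (nat_lit 523) (nat_lit 470))))))) (XT.nd (nat_lit 936) (nat_lit 6004) (nat_lit 0) (XT.nd (nat_lit 468) (nat_lit 3192) (nat_lit 0) (XT.nd (nat_lit 234) (nat_lit 1672) (nat_lit 0) (XT.nd (nat_lit 78) (nat_lit 836) (nat_lit 0) (XT.lf (nat_lit 0) (nat_lit 462182643) (nat_lit 988) (nat_lit 3700835561) (nat_lit 76) (nat_lit 3862342034) (nat_lit 399) (nat_lit 5) (nat_lit 412) (nat_lit 5) (nat_lit 400) (nat_lit 5) (nat_lit 568) (nat_lit 523) (nat_lit 469)) (XT.nd (nat_lit 78)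 (nat_lit 0) (nat_lit 0) (XT.lf (nat_lit 0) (nat_lit 1456083297) (nat_lit 836) (nat_lit 1409231948) (nat_lit 912) (nat_lit 5225660304) (nat_lit 388) (nat_lit 5) (nat_lit 399) (nat_lit 5) (nat_lit 400) (nat_lit 5) (nat_lit 569) (nat_lit 523) (nat_lit 468)) (XT.lf (nat_lit 0) (nat_lit 5311588306) (nat_lit 912) (nat_lit 1441535388) (nat_lit 76) (nat_lit 1404884169) (nat_lit 388) (nat_lit 5) (nat_lit 400) (nat_lit 5) (nat_lit 389) (nat_lit 5) (nat_lit 570) (nat_lit 523) (nat_lit 467)))) (XT.nd (nat_lit 78) (nat_lit 836) (nat_lit 0) (XT.lf (nat_lit 0) (nat_lit 3856559487) (nat_lit 836) (nat_lit 3946355677) (nat_lit 912) (nat_lit 423549228) (nat_lit 377) (nat_lit 5) (nat_lit 388) (nat_lit 5) (nat_lit 389) (nat_lit 5) (nat_lit 571) (nat_lit 523) (nat_lit 466)) (XT.nd (nat_lit 78) (nat_lit 0) (nat_lit 0) (XT.lf (nat_lit 0) (nat_lit 942439401) (nat_lit 760) (nat_lit 1056328412) (nat_lit 836) (nat_lit 6297705294) (nat_lit 366) (nat_lit 5) (nat_lit 376) (nat_lit 5) (nat_lit 377)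 (nat_lit 5) (nat_lit 572) (nat_lit 523) (nat_lit 465)) (XT.lf (nat_lit 0) (nat_lit 4468119366) (nat_lit 836) (nat_lit 2003401783) (nat_lit 76) (nat_lit 1896225445) (nat_lit 366) (nat_lit 5) (nat_lit 377) (nat_lit 5) (nat_lit 367) (nat_lit 5) (nat_lit 573) (nat_lit 523) (nat_lit 464))))) (XT.nd (nat_lit 234) (nat_lit 1520) (nat_lit 0) (XT.nd (nat_lit 78) (nat_lit 836) (nat_lit 0) (XT.lf (nat_lit 0) (nat_lit 3452237623) (nat_lit 836) (nat_lit 3527221035) (nat_lit 912) (nat_lit 1461140542) (nat_lit 355) (nat_lit 5) (nat_lit 366) (nat_lit 5) (nat_lit 367) (nat_lit 5) (nat_lit 574) (nat_lit 523) (nat_lit 463)) (XT.nd (nat_lit 78) (nat_lit 0) (nat_lit 0) (XT.lf (nat_lit 0) (nat_lit 488650932) (nat_lit 760) (nat_lit 504119461) (nat_lit 836) (nat_lit 7522408422) (nat_lit 344) (nat_lit 5) (nat_lit 354) (nat_lit 5) (nat_lit 355) (nat_lit 5) (nat_lit 575) (nat_lit 523) (nat_lit 462)) (XT.lf (nat_lit 0) (nat_lit 3490493024) (nat_lit 836) (nat_lit 2515351759) (nat_lit 76) (nat_lit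 2584931452) (nat_lit 344) (nat_lit 5) (nat_lit 355) (nat_lit 5) (nat_lit 345) (nat_lit 5) (nat_lit 576) (nat_lit 523) (nat_lit 461)))) (XT.nd (nat_lit 78) (nat_lit 760) (nat_lit 0) (XT.lf (nat_lit 0) (nat_lit 3103264218) (nat_lit 760) (nat_lit 2922938153) (nat_lit 836) (nat_lit 2641927820) (nat_lit 334) (nat_lit 5) (nat_lit 344) (nat_lit 5) (nat_lit 345) (nat_lit 5) (nat_lit 577) (nat_lit 523) (nat_lit 460)) (XT.nd (nat_lit 78) (nat_lit 76) (nat_lit 0) (XT.lf (nat_lit 0) (nat_lit 80606752) (nat_lit 684) (nat_lit 8515922532) (nat_lit 760) (nat_lit 150829006) (nat_lit 325) (nat_lit 5) (nat_lit 334) (nat_lit 5) (nat_lit 335) (nat_lit 5) (nat_lit 578) (nat_lit 523) (nat_lit 459)) (XT.lf (nat_lit 0) (nat_lit 2380834368) (nat_lit 760) (nat_lit 2988880699) (nat_lit 76) (nat_lit 3457708675) (nat_lit 324) (nat_lit 5) (nat_lit 334) (nat_lit 5) (nat_lit 325) (nat_lit 5) (nat_lit 579) (nat_lit 523) (nat_lit 458)))))) (XT.nd (nat_lit 468) (nat_lit 3192) (nat_lit 0) (XT.nd (nat_lit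 234) (nat_lit 1292) (nat_lit 0) (XT.nd (nat_lit 78) (nat_lit 760) (nat_lit 0) (XT.lf (nat_lit 0) (nat_lit 2798291737) (nat_lit 760) (nat_lit 2146814807) (nat_lit 836) (nat_lit 3964288952) (nat_lit 314) (nat_lit 5) (nat_lit 324) (nat_lit 5) (nat_lit 325) (nat_lit 5) (nat_lit 580) (nat_lit 523) (nat_lit 457)) (XT.nd (nat_lit 78) (nat_lit 760) (nat_lit 0) (XT.lf (nat_lit 0) (nat_lit 7554457865) (nat_lit 836) (nat_lit 298756512) (nat_lit 76) (nat_lit 1139921173) (nat_lit 314) (nat_lit 5) (nat_lit 325) (nat_lit 5) (nat_lit 315) (nat_lit 5) (nat_lit 581) (nat_lit 523) (nat_lit 456)) (XT.lf (nat_lit 0) (nat_lit 1140404594) (nat_lit 760) (nat_lit 3435523737) (nat_lit 76) (nat_lit 4502121397) (nat_lit 304) (nat_lit 5) (nat_lit 314) (nat_lit 5) (nat_lit 305) (nat_lit 5) (nat_lit 582) (nat_lit 523) (nat_lit 455)))) (XT.nd (nat_lit 78) (nat_lit 608) (nat_lit 0) (XT.lf (nat_lit 0) (nat_lit 2525921586) (nat_lit 684) (nat_lit 1211353982) (nat_lit 760) (nat_lit 5427491478) (nat_lit 295)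 (nat_lit 5) (nat_lit 304) (nat_lit 5) (nat_lit 305) (nat_lit 5) (nat_lit 583) (nat_lit 523) (nat_lit 454)) (XT.nd (nat_lit 78) (nat_lit 608) (nat_lit 0) (XT.lf (nat_lit 0) (nat_lit 6391088131) (nat_lit 760) (nat_lit 654239029) (nat_lit 76) (nat_lit 2207795845) (nat_lit 295) (nat_lit 5) (nat_lit 305) (nat_lit 5) (nat_lit 296) (nat_lit 5) (nat_lit 584) (nat_lit 523) (nat_lit 453)) (XT.lf (nat_lit 0) (nat_lit 5474545858) (nat_lit 608) (nat_lit 3635017568) (nat_lit 684) (nat_lit 233455224) (nat_lit 287) (nat_lit 5) (nat_lit 295) (nat_lit 5) (nat_lit 296) (nat_lit 5) (nat_lit 585) (nat_lit 523) (nat_lit 452))))) (XT.nd (nat_lit 234) (nat_lit 1824) (nat_lit 0) (XT.nd (nat_lit 78) (nat_lit 608) (nat_lit 0) (XT.lf (nat_lit 0) (nat_lit 2274601476) (nat_lit 684) (nat_lit 128360208) (nat_lit 760) (nat_lit 7031689454) (nat_lit 277) (nat_lit 5) (nat_lit 286) (nat_lit 5) (nat_lit 287) (nat_lit 5) (nat_lit 586) (nat_lit 523) (nat_lit 451)) (XT.nd (nat_lit 78) (nat_lit 608) (nat_lit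 0) (XT.lf (nat_lit 0) (nat_lit 5106003936) (nat_lit 760) (nat_lit 998511921) (nat_lit 76) (nat_lit 3423233142) (nat_lit 277) (nat_lit 5) (nat_lit 287) (nat_lit 5) (nat_lit 278) (nat_lit 5) (nat_lit 587) (nat_lit 523) (nat_lit 450)) (XT.lf (nat_lit 0) (nat_lit 5316125750) (nat_lit 608) (nat_lit 2551463975) (nat_lit 684) (nat_lit 1755033407) (nat_lit 269) (nat_lit 5) (nat_lit 277) (nat_lit 5) (nat_lit 278) (nat_lit 5) (nat_lit 588) (nat_lit 523) (nat_lit 449)))) (XT.nd (nat_lit 156) (nat_lit 1140) (nat_lit 0) (XT.nd (nat_lit 78) (nat_lit 0) (nat_lit 0) (XT.lf (nat_lit 0) (nat_lit 948645542) (nat_lit 684) (nat_lit 7694053205) (nat_lit 76) (nat_lit 1076648715) (nat_lit 260) (nat_lit 5) (nat_lit 269) (nat_lit 5) (nat_lit 261) (nat_lit 5) (nat_lit 589) (nat_lit 523) (nat_lit 448)) (XT.lf (nat_lit 0) (nat_lit 3698467073) (nat_lit 684) (nat_lit 1343499001) (nat_lit 76) (nat_lit 4775500549) (nat_lit 260) (nat_lit 5) (nat_lit 269) (nat_lit 5) (nat_lit 261) (nat_lit 5) (nat_lit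 590) (nat_lit 523) (nat_lit 447))) (XT.nd (nat_lit 78) (nat_lit 608) (nat_lit 0) (XT.lf (nat_lit 0) (nat_lit 5163098006) (nat_lit 532) (nat_lit 1343865728) (nat_lit 608) (nat_lit 3410514524) (nat_lit 253) (nat_lit 5) (nat_lit 260) (nat_lit 5) (nat_lit 261) (nat_lit 5) (nat_lit 591) (nat_lit 523) (nat_lit 446)) (XT.lf (nat_lit 0) (nat_lit 1767114910) (nat_lit 608) (nat_lit 7611263641) (nat_lit 684) (nat_lit 640980202) (nat_lit 245) (nat_lit 5) (nat_lit 253) (nat_lit 5) (nat_lit 254) (nat_lit 5) (nat_lit 592) (nat_lit 523) (nat_lit 445))))))))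
noncomputable def xc91 : XT := (XT.nd (nat_lit 1950) (nat_lit 5016) (nat_lit 0) (XT.nd (nat_lit 936) (nat_lit 3496) (nat_lit 0) (XT.nd (nat_lit 468) (nat_lit 2052) (nat_lit 0) (XT.nd (nat_lit 234) (nat_lit 1140) (nat_lit 0) (XT.nd (nat_lit 78) (nat_lit 1064) (nat_lit 0) (XT.lf (nat_lit 0) (nat_lit 2166882919) (nat_lit 684) (nat_lit 1701545448) (nat_lit 76) (nat_lit 6254336734) (nat_lit 244) (nat_lit 5) (nat_lit 253) (nat_lit 5) (nat_lit 245) (nat_lit 5) (nat_lit 593) (nat_lit 523) (nat_lit 444)) (XT.nd (nat_lit 78) (nat_lit 532) (nat_lit 0) (XT.lf (nat_lit 0) (nat_lit 5003203803) (nat_lit 532) (nat_lit 22751549) (nat_lit 608) (nat_lit 5202130175) (nat_lit 237) (nat_lit 5) (nat_lit 244) (nat_lit 5) (nat_lit 245) (nat_lit 5) (nat_lit 594) (nat_lit 523) (nat_lit 443)) (XT.lf (nat_lit 0) (nat_lit 1485317144) (nat_lit 532) (nat_lit 6474749205) (nat_lit 608) (nat_lit 2375092191) (nat_lit 230) (nat_lit 5) (nat_lit 237) (nat_lit 5) (nat_lit 238) (nat_lit 5) (nat_lit 595) (nat_lit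 523) (nat_lit 442)))) (XT.nd (nat_lit 78) (nat_lit 1064) (nat_lit 0) (XT.lf (nat_lit 0) (nat_lit 508782763) (nat_lit 608) (nat_lit 2085535226) (nat_lit 76) (nat_lit 7849852882) (nat_lit 229) (nat_lit 5) (nat_lit 237) (nat_lit 5) (nat_lit 230) (nat_lit 5) (nat_lit 596) (nat_lit 523) (nat_lit 441)) (XT.nd (nat_lit 78) (nat_lit 532) (nat_lit 0) (XT.lf (nat_lit 0) (nat_lit 3431060140) (nat_lit 608) (nat_lit 5740458392) (nat_lit 76) (nat_lit 1383283510) (nat_lit 222) (nat_lit 5) (nat_lit 230) (nat_lit 5) (nat_lit 223) (nat_lit 5) (nat_lit 597) (nat_lit 523) (nat_lit 440)) (XT.lf (nat_lit 0) (nat_lit 1173030445) (nat_lit 532) (nat_lit 5249953346) (nat_lit 608) (nat_lit 4244441097) (nat_lit 215) (nat_lit 5) (nat_lit 222) (nat_lit 5) (nat_lit 223) (nat_lit 5) (nat_lit 598) (nat_lit 523) (nat_lit 439))))) (XT.nd (nat_lit 234) (nat_lit 988) (nat_lit 0) (XT.nd (nat_lit 78) (nat_lit 1064) (nat_lit 0) (XT.lf (nat_lit 0) (nat_lit 8264649218) (nat_lit 532) (nat_lit 1221230599) (nat_lit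 608) (nat_lit 1296200701) (nat_lit 215) (nat_lit 5) (nat_lit 222) (nat_lit 5) (nat_lit 223) (nat_lit 5) (nat_lit 599) (nat_lit 523) (nat_lit 438)) (XT.nd (nat_lit 78) (nat_lit 532) (nat_lit 0) (XT.lf (nat_lit 0) (nat_lit 1710424481) (nat_lit 532) (nat_lit 6306843276) (nat_lit 76) (nat_lit 2881105011) (nat_lit 208) (nat_lit 5) (nat_lit 215) (nat_lit 5) (nat_lit 209) (nat_lit 5) (nat_lit 600) (nat_lit 523) (nat_lit 437)) (XT.lf (nat_lit 0) (nat_lit 816269830) (nat_lit 532) (nat_lit 3947152673) (nat_lit 608) (nat_lit 6253327908) (nat_lit 201) (nat_lit 5) (nat_lit 208) (nat_lit 5) (nat_lit 209) (nat_lit 5) (nat_lit 601) (nat_lit 523) (nat_lit 436)))) (XT.nd (nat_lit 78) (nat_lit 988) (nat_lit 0) (XT.lf (nat_lit 0) (nat_lit 7894808021) (nat_lit 608) (nat_lit 3008926464) (nat_lit 76) (nat_lit 233417347) (nat_lit 201) (nat_lit 5) (nat_lit 209) (nat_lit 5) (nat_lit 202) (nat_lit 5) (nat_lit 602) (nat_lit 523) (nat_lit 435)) (XT.nd (nat_lit 78) (nat_lit 532) (nat_lit 0) (XT.lf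 (nat_lit 0) (nat_lit 4319711392) (nat_lit 456) (nat_lit 6797216123) (nat_lit 532) (nat_lit 142474364) (nat_lit 195) (nat_lit 5) (nat_lit 201) (nat_lit 5) (nat_lit 202) (nat_lit 5) (nat_lit 603) (nat_lit 523) (nat_lit 434)) (XT.lf (nat_lit 0) (nat_lit 400162457) (nat_lit 456) (nat_lit 2576570698) (nat_lit 532) (nat_lit 8407035500) (nat_lit 188) (nat_lit 5) (nat_lit 194) (nat_lit 5) (nat_lit 195) (nat_lit 5) (nat_lit 604) (nat_lit 523) (nat_lit 433)))))) (XT.nd (nat_lit 468) (nat_lit 2128) (nat_lit 0) (XT.nd (nat_lit 234) (nat_lit 836) (nat_lit 0) (XT.nd (nat_lit 78) (nat_lit 532) (nat_lit 0) (XT.lf (nat_lit 0) (nat_lit 6188730418) (nat_lit 532) (nat_lit 3578844848) (nat_lit 76) (nat_lit 1742384966) (nat_lit 188) (nat_lit 5) (nat_lit 195) (nat_lit 5) (nat_lit 189) (nat_lit 5) (nat_lit 605) (nat_lit 523) (nat_lit 432)) (XT.nd (nat_lit 78) (nat_lit 76) (nat_lit 0) (XT.lf (nat_lit 0) (nat_lit 3972220397) (nat_lit 456) (nat_lit 5510318224) (nat_lit 532) (nat_lit 2155788113)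 (nat_lit 182) (nat_lit 5) (nat_lit 188) (nat_lit 5) (nat_lit 189) (nat_lit 5) (nat_lit 606) (nat_lit 523) (nat_lit 431)) (XT.lf (nat_lit 0) (nat_lit 1057872695) (nat_lit 532) (nat_lit 90005831) (nat_lit 76) (nat_lit 10621265483) (nat_lit 181) (nat_lit 5) (nat_lit 188) (nat_lit 5) (nat_lit 182) (nat_lit 5) (nat_lit 607) (nat_lit 523) (nat_lit 430)))) (XT.nd (nat_lit 78) (nat_lit 380) (nat_lit 0) (XT.lf (nat_lit 0) (nat_lit 4353972497) (nat_lit 532) (nat_lit 4235604418) (nat_lit 76) (nat_lit 3311777456) (nat_lit 175) (nat_lit 5) (nat_lit 182) (nat_lit 5) (nat_lit 176) (nat_lit 5) (nat_lit 608) (nat_lit 523) (nat_lit 429)) (XT.nd (nat_lit 78) (nat_lit 0) (nat_lit 0) (XT.lf (nat_lit 0) (nat_lit 3544146519) (nat_lit 380) (nat_lit 4178546020) (nat_lit 456) (nat_lit 4313384757) (nat_lit 170) (nat_lit 5) (nat_lit 175) (nat_lit 5) (nat_lit 176) (nat_lit 5) (nat_lit 609) (nat_lit 523) (nat_lit 428)) (XT.lf (nat_lit 0) (nat_lit 11165127282) (nat_lit 456) (nat_lit 674834791) (nat_lit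 76) (nat_lit 333408081) (nat_lit 170) (nat_lit 5) (nat_lit 176) (nat_lit 5) (nat_lit 171) (nat_lit 5) (nat_lit 610) (nat_lit 523) (nat_lit 427))))) (XT.nd (nat_lit 234) (nat_lit 1216) (nat_lit 0) (XT.nd (nat_lit 78) (nat_lit 380) (nat_lit 0) (XT.lf (nat_lit 0) (nat_lit 2383744880) (nat_lit 532) (nat_lit 4996813133) (nat_lit 76) (nat_lit 4931511518) (nat_lit 163) (nat_lit 5) (nat_lit 170) (nat_lit 5) (nat_lit 164) (nat_lit 5) (nat_lit 611) (nat_lit 523) (nat_lit 426)) (XT.nd (nat_lit 78) (nat_lit 0) (nat_lit 0) (XT.lf (nat_lit 0) (nat_lit 3017805185) (nat_lit 380) (nat_lit 2812634095) (nat_lit 456) (nat_lit 6622965127) (nat_lit 158) (nat_lit 5) (nat_lit 163) (nat_lit 5) (nat_lit 164) (nat_lit 5) (nat_lit 612) (nat_lit 523) (nat_lit 425)) (XT.lf (nat_lit 0) (nat_lit 9368169451) (nat_lit 456) (nat_lit 1384727972) (nat_lit 76) (nat_lit 1844228624) (nat_lit 158) (nat_lit 5) (nat_lit 164) (nat_lit 5) (nat_lit 159) (nat_lit 5) (nat_lit 613) (nat_lit 523) (nat_lit 424)))) (XT.nd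 (nat_lit 156) (nat_lit 380) (nat_lit 0) (XT.nd (nat_lit 78) (nat_lit 380) (nat_lit 0) (XT.lf (nat_lit 0) (nat_lit 270149598) (nat_lit 456) (nat_lit 5881518050) (nat_lit 76) (nat_lit 6591220800) (nat_lit 152) (nat_lit 5) (nat_lit 158) (nat_lit 5) (nat_lit 153) (nat_lit 5) (nat_lit 614) (nat_lit 523) (nat_lit 423)) (XT.lf (nat_lit 0) (nat_lit 2374032326) (nat_lit 380) (nat_lit 1423672706) (nat_lit 456) (nat_lit 9093402124) (nat_lit 147) (nat_lit 5) (nat_lit 152) (nat_lit 5) (nat_lit 153) (nat_lit 5) (nat_lit 615) (nat_lit 523) (nat_lit 422))) (XT.nd (nat_lit 78) (nat_lit 380) (nat_lit 0) (XT.lf (nat_lit 0) (nat_lit 7434648115) (nat_lit 456) (nat_lit 2224996214) (nat_lit 76) (nat_lit 3381871122) (nat_lit 147) (nat_lit 5) (nat_lit 153) (nat_lit 5) (nat_lit 148) (nat_lit 5) (nat_lit 616) (nat_lit 523) (nat_lit 421)) (XT.lf (nat_lit 0) (nat_lit 6270851376) (nat_lit 380) (nat_lit 4901110999) (nat_lit 456) (nat_lit 2022418796) (nat_lit 142) (nat_lit 5) (nat_lit 147) (nat_lit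 5) (nat_lit 148) (nat_lit 5) (nat_lit 617) (nat_lit 523) (nat_lit 420))))))) (XT.nd (nat_lit 936) (nat_lit 2204) (nat_lit 0) (XT.nd (nat_lit 468) (nat_lit 1368) (nat_lit 0) (XT.nd (nat_lit 234) (nat_lit 684) (nat_lit 0) (XT.nd (nat_lit 78) (nat_lit 380) (nat_lit 0) (XT.lf (nat_lit 0) (nat_lit 1591985632) (nat_lit 304) (nat_lit 23228933) (nat_lit 380) (nat_lit 11734820883) (nat_lit 137) (nat_lit 5) (nat_lit 141) (nat_lit 5) (nat_lit 142) (nat_lit 5) (nat_lit 618) (nat_lit 523) (nat_lit 419)) (XT.nd (nat_lit 78) (nat_lit 380) (nat_lit 0) (XT.lf (nat_lit 0) (nat_lit 5355156778) (nat_lit 380) (nat_lit 3217159641) (nat_lit 76) (nat_lit 4935088098) (nat_lit 137) (nat_lit 5) (nat_lit 142) (nat_lit 5) (nat_lit 138) (nat_lit 5) (nat_lit 619) (nat_lit 523) (nat_lit 418)) (XT.lf (nat_lit 0) (nat_lit 5532549539) (nat_lit 380) (nat_lit 3651550368) (nat_lit 456) (nat_lit 4483538777) (nat_lit 132) (nat_lit 5) (nat_lit 137) (nat_lit 5) (nat_lit 138) (nat_lit 5) (nat_lit 620) (nat_lit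 523) (nat_lit 417)))) (XT.nd (nat_lit 78) (nat_lit 380) (nat_lit 0) (XT.lf (nat_lit 0) (nat_lit 634989252) (nat_lit 304) (nat_lit 12467619773) (nat_lit 380) (nat_lit 728210496) (nat_lit 128) (nat_lit 5) (nat_lit 132) (nat_lit 5) (nat_lit 133) (nat_lit 5) (nat_lit 621) (nat_lit 523) (nat_lit 416)) (XT.nd (nat_lit 78) (nat_lit 304) (nat_lit 0) (XT.lf (nat_lit 0) (nat_lit 3118985146) (nat_lit 380) (nat_lit 4384710827) (nat_lit 76) (nat_lit 6492017885) (nat_lit 127) (nat_lit 5) (nat_lit 132) (nat_lit 5) (nat_lit 128) (nat_lit 5) (nat_lit 622) (nat_lit 523) (nat_lit 415)) (XT.lf (nat_lit 0) (nat_lit 4624542990) (nat_lit 304) (nat_lit 2417603251) (nat_lit 380) (nat_lit 7121489754) (nat_lit 123) (nat_lit 5) (nat_lit 127) (nat_lit 5) (nat_lit 128) (nat_lit 5) (nat_lit 623) (nat_lit 523) (nat_lit 414))))) (XT.nd (nat_lit 234) (nat_lit 684) (nat_lit 0) (XT.nd (nat_lit 78) (nat_lit 684) (nat_lit 0) (XT.lf (nat_lit 0) (nat_lit 11070228896) (nat_lit 380) (nat_lit 513126096) (nat_lit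 76) (nat_lit 2751034012) (nat_lit 123) (nat_lit 5) (nat_lit 128) (nat_lit 5) (nat_lit 124) (nat_lit 5) (nat_lit 624) (nat_lit 523) (nat_lit 413)) (XT.nd (nat_lit 78) (nat_lit 304) (nat_lit 0) (XT.lf (nat_lit 0) (nat_lit 714015879) (nat_lit 380) (nat_lit 5753357190) (nat_lit 76) (nat_lit 8040048673) (nat_lit 118) (nat_lit 5) (nat_lit 123) (nat_lit 5) (nat_lit 119) (nat_lit 5) (nat_lit 625) (nat_lit 523) (nat_lit 412)) (XT.lf (nat_lit 0) (nat_lit 3520820432) (nat_lit 304) (nat_lit 1212916443) (nat_lit 380) (nat_lit 9949634468) (nat_lit 114) (nat_lit 5) (nat_lit 118) (nat_lit 5) (nat_lit 119) (nat_lit 5) (nat_lit 626) (nat_lit 523) (nat_lit 411)))) (XT.nd (nat_lit 78) (nat_lit 684) (nat_lit 0) (XT.lf (nat_lit 0) (nat_lit 8879068084) (nat_lit 380) (nat_lit 1864309331) (nat_lit 76) (nat_lit 4118559679) (nat_lit 114) (nat_lit 5) (nat_lit 119) (nat_lit 5) (nat_lit 115) (nat_lit 5) (nat_lit 627) (nat_lit 523) (nat_lit 410)) (XT.nd (nat_lit 78) (nat_lit 380) (nat_lit 0) (XT.lf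 (nat_lit 0) (nat_lit 7679709722) (nat_lit 304) (nat_lit 5465323254) (nat_lit 380) (nat_lit 1898288088) (nat_lit 110) (nat_lit 5) (nat_lit 114) (nat_lit 5) (nat_lit 115) (nat_lit 5) (nat_lit 628) (nat_lit 523) (nat_lit 409)) (XT.lf (nat_lit 0) (nat_lit 2192820960) (nat_lit 304) (nat_lit 52131445) (nat_lit 380) (nat_lit 12982952933) (nat_lit 105) (nat_lit 5) (nat_lit 109) (nat_lit 5) (nat_lit 110) (nat_lit 5) (nat_lit 629) (nat_lit 523) (nat_lit 408)))))) (XT.nd (nat_lit 468) (nat_lit 1368) (nat_lit 0) (XT.nd (nat_lit 234) (nat_lit 304) (nat_lit 0) (XT.nd (nat_lit 78) (nat_lit 532) (nat_lit 0) (XT.lf (nat_lit 0) (nat_lit 6510896335) (nat_lit 380) (nat_lit 3456433109) (nat_lit 76) (nat_lit 5447297126) (nat_lit 105) (nat_lit 5) (nat_lit 110) (nat_lit 5) (nat_lit 106) (nat_lit 5) (nat_lit 630) (nat_lit 523) (nat_lit 407)) (XT.nd (nat_lit 78) (nat_lit 304) (nat_lit 0) (XT.lf (nat_lit 0) (nat_lit 6364537092) (nat_lit 228) (nat_lit 4519664119) (nat_lit 304) (nat_lit 4720441511)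 (nat_lit 102) (nat_lit 5) (nat_lit 105) (nat_lit 5) (nat_lit 106) (nat_lit 5) (nat_lit 631) (nat_lit 523) (nat_lit 406)) (XT.lf (nat_lit 0) (nat_lit 599282139) (nat_lit 304) (nat_lit 14760129096) (nat_lit 380) (nat_lit 438760488) (nat_lit 98) (nat_lit 5) (nat_lit 102) (nat_lit 5) (nat_lit 103) (nat_lit 5) (nat_lit 632) (nat_lit 523) (nat_lit 405)))) (XT.nd (nat_lit 78) (nat_lit 228) (nat_lit 0) (XT.lf (nat_lit 0) (nat_lit 3949890097) (nat_lit 380) (nat_lit 5321992621) (nat_lit 76) (nat_lit 6721722515) (nat_lit 97) (nat_lit 5) (nat_lit 102) (nat_lit 5) (nat_lit 98) (nat_lit 5) (nat_lit 633) (nat_lit 523) (nat_lit 404)) (XT.nd (nat_lit 78) (nat_lit 0) (nat_lit 0) (XT.lf (nat_lit 0) (nat_lit 4780347187) (nat_lit 228) (nat_lit 3652027788) (nat_lit 304) (nat_lit 7760276942) (nat_lit 94) (nat_lit 5) (nat_lit 97) (nat_lit 5) (nat_lit 98) (nat_lit 5) (nat_lit 634) (nat_lit 523) (nat_lit 403)) (XT.lf (nat_lit 0) (nat_lit 13034945520) (nat_lit 304) (nat_lit 1283805173) (nat_lit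 76) (nat_lit 2076321331) (nat_lit 94) (nat_lit 5) (nat_lit 98) (nat_lit 5) (nat_lit 95) (nat_lit 5) (nat_lit 635) (nat_lit 523) (nat_lit 402))))) (XT.nd (nat_lit 234) (nat_lit 760) (nat_lit 0) (XT.nd (nat_lit 78) (nat_lit 228) (nat_lit 0) (XT.lf (nat_lit 0) (nat_lit 1178354526) (nat_lit 380) (nat_lit 7496771090) (nat_lit 76) (nat_lit 7924967165) (nat_lit 89) (nat_lit 5) (nat_lit 94) (nat_lit 5) (nat_lit 90) (nat_lit 5) (nat_lit 636) (nat_lit 523) (nat_lit 401)) (XT.nd (nat_lit 78) (nat_lit 0) (nat_lit 0) (XT.lf (nat_lit 0) (nat_lit 2890767852) (nat_lit 228) (nat_lit 2880720867) (nat_lit 304) (nat_lit 11037104652) (nat_lit 86) (nat_lit 5) (nat_lit 89) (nat_lit 5) (nat_lit 90) (nat_lit 5) (nat_lit 637) (nat_lit 523) (nat_lit 400)) (XT.lf (nat_lit 0) (nat_lit 10508268473) (nat_lit 304) (nat_lit 3484050828) (nat_lit 76) (nat_lit 3027910129) (nat_lit 86) (nat_lit 5) (nat_lit 90) (nat_lit 5) (nat_lit 87) (nat_lit 5) (nat_lit 638) (nat_lit 523) (nat_lit 399)))) (XT.nd (nat_lit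 156) (nat_lit 228) (nat_lit 0) (XT.nd (nat_lit 78) (nat_lit 304) (nat_lit 0) (XT.lf (nat_lit 0) (nat_lit 7202938461) (nat_lit 228) (nat_lit 8184524968) (nat_lit 304) (nat_lit 1847682287) (nat_lit 83) (nat_lit 5) (nat_lit 86) (nat_lit 5) (nat_lit 87) (nat_lit 5) (nat_lit 639) (nat_lit 523) (nat_lit 398)) (XT.lf (nat_lit 0) (nat_lit 655663364) (nat_lit 228) (nat_lit 2225719211) (nat_lit 304) (nat_lit 14572407661) (nat_lit 79) (nat_lit 5) (nat_lit 82) (nat_lit 5) (nat_lit 83) (nat_lit 5) (nat_lit 640) (nat_lit 523) (nat_lit 397))) (XT.nd (nat_lit 78) (nat_lit 228) (nat_lit 0) (XT.lf (nat_lit 0) (nat_lit 7755036303) (nat_lit 304) (nat_lit 6050838969) (nat_lit 76) (nat_lit 3869194181) (nat_lit 79) (nat_lit 5) (nat_lit 83) (nat_lit 5) (nat_lit 80) (nat_lit 5) (nat_lit 641) (nat_lit 523) (nat_lit 396)) (XT.lf (nat_lit 0) (nat_lit 4930967742) (nat_lit 228) (nat_lit 7824250569) (nat_lit 304) (nat_lit 5144975853) (nat_lit 76) (nat_lit 5) (nat_lit 79) (nat_lit 5) (nat_lit 80) (nat_lit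 5) (nat_lit 642) (nat_lit 523) (nat_lit 395))))))))
noncomputable def xc92 : XT := (XT.nd (nat_lit 73320) (nat_lit 0) (nat_lit 27512) (XT.nd (nat_lit 72306) (nat_lit 0) (nat_lit 47576) (XT.nd (nat_lit 468) (nat_lit 228) (nat_lit 0) (XT.nd (nat_lit 234) (nat_lit 304) (nat_lit 0) (XT.nd (nat_lit 78) (nat_lit 532) (nat_lit 0) (XT.lf (nat_lit 0) (nat_lit 16184273409) (nat_lit 228) (nat_lit 1694186344) (nat_lit 304) (nat_lit 250901491) (nat_lit 76) (nat_lit 5) (nat_lit 79) (nat_lit 5) (nat_lit 80) (nat_lit 5) (nat_lit 643) (nat_lit 523) (nat_lit 394)) (XT.nd (nat_lit 78) (nat_lit 228) (nat_lit 0) (XT.lf (nat_lit 0) (nat_lit 4752459881) (nat_lit 304) (nat_lit 9030015148) (nat_lit 76) (nat_lit 4578550242) (nat_lit 72) (nat_lit 5) (nat_lit 76) (nat_lit 5) (nat_lit 73) (nat_lit 5) (nat_lit 644) (nat_lit 523) (nat_lit 393)) (XT.lf (nat_lit 0) (nat_lit 2248592250) (nat_lit 228) (nat_lit 7625645304) (nat_lit 304) (nat_lit 8722618617) (nat_lit 69) (nat_lit 5) (nat_lit 72) (nat_lit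 5) (nat_lit 73) (nat_lit 5) (nat_lit 645) (nat_lit 523) (nat_lit 392)))) (XT.nd (nat_lit 78) (nat_lit 304) (nat_lit 0) (XT.lf (nat_lit 0) (nat_lit 13845507197) (nat_lit 228) (nat_lit 1296432767) (nat_lit 304) (nat_lit 3694594859) (nat_lit 69) (nat_lit 5) (nat_lit 72) (nat_lit 5) (nat_lit 73) (nat_lit 5) (nat_lit 646) (nat_lit 523) (nat_lit 391)) (XT.nd (nat_lit 78) (nat_lit 0) (nat_lit 0) (XT.lf (nat_lit 0) (nat_lit 1475186636) (nat_lit 304) (nat_lit 12472221924) (nat_lit 76) (nat_lit 5132213073) (nat_lit 65) (nat_lit 5) (nat_lit 69) (nat_lit 5) (nat_lit 66) (nat_lit 5) (nat_lit 647) (nat_lit 523) (nat_lit 390)) (XT.lf (nat_lit 0) (nat_lit 6724417377) (nat_lit 304) (nat_lit 884099841) (nat_lit 76) (nat_lit 11718054916) (nat_lit 65) (nat_lit 5) (nat_lit 69) (nat_lit 5) (nat_lit 66) (nat_lit 5) (nat_lit 648) (nat_lit 523) (nat_lit 389))))) (XT.nd (nat_lit 71604) (nat_lit 0) (nat_lit 50844) (XT.nd (nat_lit 71448) (nat_lit 0) (nat_lit 51300) (XT.lf (nat_lit 0) (nat_lit 11051933935)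 (nat_lit 228) (nat_lit 1081963246) (nat_lit 304) (nat_lit 7443460020) (nat_lit 62) (nat_lit 5) (nat_lit 65) (nat_lit 5) (nat_lit 66) (nat_lit 5) (nat_lit 649) (nat_lit 523) (nat_lit 388)) (XT.nd (nat_lit 78) (nat_lit 380) (nat_lit 0) (XT.lf (nat_lit 0) (nat_lit 2287726066) (nat_lit 380) (nat_lit 474347353) (nat_lit 380) (nat_lit 474347353) (nat_lit 742) (nat_lit 3) (nat_lit 747) (nat_lit 3) (nat_lit 747) (nat_lit 5) (nat_lit 524) (nat_lit 524) (nat_lit 512)) (XT.lf (nat_lit 0) (nat_lit 907258014) (nat_lit 380) (nat_lit 4218683138) (nat_lit 456) (nat_lit 1355155883) (nat_lit 737) (nat_lit 5) (nat_lit 742) (nat_lit 3) (nat_lit 743) (nat_lit 5) (nat_lit 525) (nat_lit 524) (nat_lit 511)))) (XT.nd (nat_lit 78) (nat_lit 456) (nat_lit 0) (XT.lf (nat_lit 0) (nat_lit 3675763060) (nat_lit 380) (nat_lit 989871836) (nat_lit 456) (nat_lit 1824988215) (nat_lit 737) (nat_lit 5) (nat_lit 742) (nat_lit 3) (nat_lit 743) (nat_lit 5) (nat_lit 526) (nat_lit 524) (nat_lit 510)) (XT.nd (nat_lit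 78) (nat_lit 456) (nat_lit 0) (XT.lf (nat_lit 76) (nat_lit 2295902995) (nat_lit 0) (nat_lit 4146816797) (nat_lit 456) (nat_lit 58777624) (nat_lit 738) (nat_lit 5) (nat_lit 737) (nat_lit 5) (nat_lit 743) (nat_lit 5) (nat_lit 527) (nat_lit 524) (nat_lit 509)) (XT.lf (nat_lit 0) (nat_lit 2651867853) (nat_lit 456) (nat_lit 907999410) (nat_lit 532) (nat_lit 2953672321) (nat_lit 731) (nat_lit 5) (nat_lit 737) (nat_lit 5) (nat_lit 738) (nat_lit 5) (nat_lit 528) (nat_lit 524) (nat_lit 508)))))) (XT.nd (nat_lit 468) (nat_lit 2128) (nat_lit 0) (XT.nd (nat_lit 234) (nat_lit 608) (nat_lit 0) (XT.nd (nat_lit 78) (nat_lit 532) (nat_lit 0) (XT.lf (nat_lit 76) (nat_lit 2449599120) (nat_lit 0) (nat_lit 2912493697) (nat_lit 532) (nat_lit 1164817160) (nat_lit 732) (nat_lit 5) (nat_lit 731) (nat_lit 5) (nat_lit 738) (nat_lit 5) (nat_lit 529) (nat_lit 524) (nat_lit 507)) (XT.nd (nat_lit 78) (nat_lit 0) (nat_lit 0) (XT.lf (nat_lit 0) (nat_lit 1502208607) (nat_lit 532) (nat_lit 702479605) (nat_lit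 608) (nat_lit 4336930448) (nat_lit 724) (nat_lit 5) (nat_lit 731) (nat_lit 5) (nat_lit 732) (nat_lit 5) (nat_lit 530) (nat_lit 524) (nat_lit 506)) (XT.lf (nat_lit 76) (nat_lit 2730321407) (nat_lit 0) (nat_lit 1426654041) (nat_lit 608) (nat_lit 2400509303) (nat_lit 725) (nat_lit 5) (nat_lit 724) (nat_lit 5) (nat_lit 732) (nat_lit 5) (nat_lit 531) (nat_lit 524) (nat_lit 505)))) (XT.nd (nat_lit 78) (nat_lit 0) (nat_lit 76) (XT.lf (nat_lit 0) (nat_lit 224979370) (nat_lit 608) (nat_lit 372477273) (nat_lit 684) (nat_lit 5977437644) (nat_lit 716) (nat_lit 5) (nat_lit 724) (nat_lit 5) (nat_lit 725) (nat_lit 5) (nat_lit 532) (nat_lit 524) (nat_lit 504)) (XT.nd (nat_lit 78) (nat_lit 0) (nat_lit 0) (XT.lf (nat_lit 0) (nat_lit 2827481303) (nat_lit 608) (nat_lit 3456252317) (nat_lit 684) (nat_lit 309484302) (nat_lit 717) (nat_lit 5) (nat_lit 725) (nat_lit 5) (nat_lit 726) (nat_lit 5) (nat_lit 533) (nat_lit 524) (nat_lit 503)) (XT.lf (nat_lit 76) (nat_lit 67931912) (nat_lit 0) (nat_lit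 5356441058) (nat_lit 684) (nat_lit 1188704130) (nat_lit 718) (nat_lit 5) (nat_lit 717) (nat_lit 5) (nat_lit 726) (nat_lit 5) (nat_lit 534) (nat_lit 524) (nat_lit 502))))) (XT.nd (nat_lit 234) (nat_lit 1520) (nat_lit 0) (XT.nd (nat_lit 78) (nat_lit 0) (nat_lit 0) (XT.lf (nat_lit 0) (nat_lit 1380337441) (nat_lit 684) (nat_lit 2972306285) (nat_lit 760) (nat_lit 2281330962) (nat_lit 708) (nat_lit 5) (nat_lit 717) (nat_lit 5) (nat_lit 718) (nat_lit 5) (nat_lit 535) (nat_lit 524) (nat_lit 501)) (XT.nd (nat_lit 78) (nat_lit 0) (nat_lit 0) (XT.lf (nat_lit 76) (nat_lit 633817320) (nat_lit 0) (nat_lit 3292416310) (nat_lit 760) (nat_lit 2730086589) (nat_lit 709) (nat_lit 5) (nat_lit 708) (nat_lit 5) (nat_lit 718) (nat_lit 5) (nat_lit 536) (nat_lit 524) (nat_lit 500)) (XT.lf (nat_lit 76) (nat_lit 4313995329) (nat_lit 0) (nat_lit 2167239785) (nat_lit 760) (nat_lit 198728456) (nat_lit 709) (nat_lit 5) (nat_lit 708) (nat_lit 5) (nat_lit 718) (nat_lit 5) (nat_lit 537) (nat_lit 524) (nat_lit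 499)))) (XT.nd (nat_lit 156) (nat_lit 760) (nat_lit 0) (XT.nd (nat_lit 78) (nat_lit 0) (nat_lit 76) (XT.lf (nat_lit 76) (nat_lit 1327199298) (nat_lit 0) (nat_lit 972455179) (nat_lit 836) (nat_lit 4405176834) (nat_lit 699) (nat_lit 5) (nat_lit 698) (nat_lit 5) (nat_lit 709) (nat_lit 5) (nat_lit 538) (nat_lit 524) (nat_lit 498)) (XT.lf (nat_lit 0) (nat_lit 4803053954) (nat_lit 760) (nat_lit 1646130890) (nat_lit 76) (nat_lit 281844907) (nat_lit 699) (nat_lit 5) (nat_lit 709) (nat_lit 5) (nat_lit 700) (nat_lit 5) (nat_lit 539) (nat_lit 524) (nat_lit 497))) (XT.nd (nat_lit 78) (nat_lit 0) (nat_lit 0) (XT.lf (nat_lit 0) (nat_lit 552302914) (nat_lit 836) (nat_lit 4619259913) (nat_lit 76) (nat_lit 1586897121) (nat_lit 688) (nat_lit 5) (nat_lit 699) (nat_lit 5) (nat_lit 689) (nat_lit 5) (nat_lit 540) (nat_lit 524) (nat_lit 496)) (XT.lf (nat_lit 0) (nat_lit 3009321064) (nat_lit 836) (nat_lit 815797582) (nat_lit 76) (nat_lit 2962019251) (nat_lit 688) (nat_lit 5) (nat_lit 699) (nat_lit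 5) (nat_lit 689) (nat_lit 5) (nat_lit 541) (nat_lit 524) (nat_lit 495))))))) (XT.nd (nat_lit 936) (nat_lit 12312) (nat_lit 0) (XT.nd (nat_lit 468) (nat_lit 3800) (nat_lit 0) (XT.nd (nat_lit 234) (nat_lit 2128) (nat_lit 0) (XT.nd (nat_lit 78) (nat_lit 988) (nat_lit 0) (XT.lf (nat_lit 0) (nat_lit 3065418020) (nat_lit 836) (nat_lit 2412911114) (nat_lit 912) (nat_lit 1338816039) (nat_lit 677) (nat_lit 5) (nat_lit 688) (nat_lit 5) (nat_lit 689) (nat_lit 5) (nat_lit 542) (nat_lit 524) (nat_lit 494)) (XT.nd (nat_lit 78) (nat_lit 0) (nat_lit 0) (XT.lf (nat_lit 0) (nat_lit 143022774) (nat_lit 912) (nat_lit 940745056) (nat_lit 988) (nat_lit 5764850392) (nat_lit 664) (nat_lit 5) (nat_lit 676) (nat_lit 5) (nat_lit 677) (nat_lit 5) (nat_lit 543) (nat_lit 524) (nat_lit 493)) (XT.lf (nat_lit 0) (nat_lit 3510277725) (nat_lit 988) (nat_lit 2766377913) (nat_lit 76) (nat_lit 604432105) (nat_lit 664) (nat_lit 5) (nat_lit 677) (nat_lit 5) (nat_lit 665) (nat_lit 5) (nat_lit 544) (nat_lit 524)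 (nat_lit 492)))) (XT.nd (nat_lit 78) (nat_lit 1140) (nat_lit 0) (XT.lf (nat_lit 0) (nat_lit 1222198233) (nat_lit 988) (nat_lit 4722775239) (nat_lit 1064) (nat_lit 970051855) (nat_lit 651) (nat_lit 5) (nat_lit 664) (nat_lit 5) (nat_lit 665) (nat_lit 5) (nat_lit 545) (nat_lit 524) (nat_lit 491)) (XT.nd (nat_lit 78) (nat_lit 1064) (nat_lit 0) (XT.lf (nat_lit 0) (nat_lit 1423953624) (nat_lit 1064) (nat_lit 1670645984) (nat_lit 76) (nat_lit 3855568853) (nat_lit 650) (nat_lit 5) (nat_lit 664) (nat_lit 5) (nat_lit 651) (nat_lit 5) (nat_lit 546) (nat_lit 524) (nat_lit 490)) (XT.lf (nat_lit 0) (nat_lit 2418353370) (nat_lit 1064) (nat_lit 1397209625) (nat_lit 1140) (nat_lit 3171080073) (nat_lit 636) (nat_lit 5) (nat_lit 650) (nat_lit 5) (nat_lit 651) (nat_lit 5) (nat_lit 547) (nat_lit 524) (nat_lit 489))))) (XT.nd (nat_lit 234) (nat_lit 1368) (nat_lit 0) (XT.nd (nat_lit 78) (nat_lit 2432) (nat_lit 0) (XT.lf (nat_lit 0) (nat_lit 6216334365) (nat_lit 1140) (nat_lit 453893232) (nat_lit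 76) (nat_lit 354403865) (nat_lit 636) (nat_lit 5) (nat_lit 651) (nat_lit 5) (nat_lit 637) (nat_lit 5) (nat_lit 548) (nat_lit 524) (nat_lit 488)) (XT.nd (nat_lit 78) (nat_lit 1216) (nat_lit 0) (XT.lf (nat_lit 0) (nat_lit 1563064066) (nat_lit 1216) (nat_lit 3330413148) (nat_lit 76) (nat_lit 2170058291) (nat_lit 620) (nat_lit 5) (nat_lit 636) (nat_lit 5) (nat_lit 621) (nat_lit 5) (nat_lit 549) (nat_lit 524) (nat_lit 487)) (XT.lf (nat_lit 0) (nat_lit 873505072) (nat_lit 1216) (nat_lit 3055575647) (nat_lit 1292) (nat_lit 3174879288) (nat_lit 604) (nat_lit 5) (nat_lit 620) (nat_lit 5) (nat_lit 621) (nat_lit 5) (nat_lit 550) (nat_lit 524) (nat_lit 486)))) (XT.nd (nat_lit 78) (nat_lit 1368) (nat_lit 0) (XT.lf (nat_lit 0) (nat_lit 5167453677) (nat_lit 1216) (nat_lit 1147356270) (nat_lit 1292) (nat_lit 830945267) (nat_lit 604) (nat_lit 5) (nat_lit 620) (nat_lit 5) (nat_lit 621) (nat_lit 5) (nat_lit 551) (nat_lit 524) (nat_lit 485)) (XT.nd (nat_lit 78) (nat_lit 0) (nat_lit 0) (XT.lf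 (nat_lit 0) (nat_lit 1510715500) (nat_lit 1368) (nat_lit 4853925120) (nat_lit 76) (nat_lit 824126702) (nat_lit 586) (nat_lit 5) (nat_lit 604) (nat_lit 5) (nat_lit 587) (nat_lit 5) (nat_lit 552) (nat_lit 524) (nat_lit 484)) (XT.lf (nat_lit 0) (nat_lit 3860522307) (nat_lit 1368) (nat_lit 524374951) (nat_lit 76) (nat_lit 2848193259) (nat_lit 586) (nat_lit 5) (nat_lit 604) (nat_lit 5) (nat_lit 587) (nat_lit 5) (nat_lit 553) (nat_lit 524) (nat_lit 483)))))) (XT.nd (nat_lit 468) (nat_lit 6232) (nat_lit 0) (XT.nd (nat_lit 234) (nat_lit 3192) (nat_lit 0) (XT.nd (nat_lit 78) (nat_lit 1520) (nat_lit 0) (XT.lf (nat_lit 0) (nat_lit 3903871340) (nat_lit 1368) (nat_lit 2331219090) (nat_lit 1444) (nat_lit 1043663737) (nat_lit 568) (nat_lit 5) (nat_lit 586) (nat_lit 5) (nat_lit 587) (nat_lit 5) (nat_lit 554) (nat_lit 524) (nat_lit 482)) (XT.nd (nat_lit 78) (nat_lit 0) (nat_lit 0) (XT.lf (nat_lit 0) (nat_lit 1068397639) (nat_lit 1444) (nat_lit 209212898) (nat_lit 1520) (nat_lit 6048291372)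 (nat_lit 548) (nat_lit 5) (nat_lit 567) (nat_lit 5) (nat_lit 568) (nat_lit 5) (nat_lit 555) (nat_lit 524) (nat_lit 481)) (XT.lf (nat_lit 0) (nat_lit 3620339370) (nat_lit 1520) (nat_lit 1787206627) (nat_lit 76) (nat_lit 1966537318) (nat_lit 548) (nat_lit 5) (nat_lit 568) (nat_lit 5) (nat_lit 549) (nat_lit 5) (nat_lit 556) (nat_lit 524) (nat_lit 480)))) (XT.nd (nat_lit 78) (nat_lit 1672) (nat_lit 0) (XT.lf (nat_lit 0) (nat_lit 2768000776) (nat_lit 1520) (nat_lit 3215689777) (nat_lit 1596) (nat_lit 1440071028) (nat_lit 528) (nat_lit 5) (nat_lit 548) (nat_lit 5) (nat_lit 549) (nat_lit 5) (nat_lit 557) (nat_lit 524) (nat_lit 479)) (XT.nd (nat_lit 78) (nat_lit 1596) (nat_lit 0) (XT.lf (nat_lit 0) (nat_lit 874627807) (nat_lit 1596) (nat_lit 81470914) (nat_lit 76) (nat_lit 6518887160) (nat_lit 527) (nat_lit 5) (nat_lit 548) (nat_lit 5) (nat_lit 528) (nat_lit 5) (nat_lit 558) (nat_lit 524) (nat_lit 478)) (XT.lf (nat_lit 0) (nat_lit 3210880701) (nat_lit 1672) (nat_lit 2940333005)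 (nat_lit 76) (nat_lit 1375947824) (nat_lit 506) (nat_lit 5) (nat_lit 528) (nat_lit 5) (nat_lit 507) (nat_lit 5) (nat_lit 559) (nat_lit 524) (nat_lit 477))))) (XT.nd (nat_lit 234) (nat_lit 2736) (nat_lit 0) (XT.nd (nat_lit 78) (nat_lit 1824) (nat_lit 0) (XT.lf (nat_lit 0) (nat_lit 1746150982) (nat_lit 1672) (nat_lit 3822209718) (nat_lit 1748) (nat_lit 2012537882) (nat_lit 484) (nat_lit 5) (nat_lit 506) (nat_lit 5) (nat_lit 507) (nat_lit 5) (nat_lit 560) (nat_lit 524) (nat_lit 476)) (XT.nd (nat_lit 78) (nat_lit 1748) (nat_lit 0) (XT.lf (nat_lit 0) (nat_lit 309309347) (nat_lit 1748) (nat_lit 1111381586) (nat_lit 76) (nat_lit 6215454211) (nat_lit 483) (nat_lit 5) (nat_lit 506) (nat_lit 5) (nat_lit 484) (nat_lit 5) (nat_lit 561) (nat_lit 524) (nat_lit 475)) (XT.lf (nat_lit 0) (nat_lit 2639101530) (nat_lit 1824) (nat_lit 3997057994) (nat_lit 76) (nat_lit 1056309414) (nat_lit 460) (nat_lit 5) (nat_lit 484) (nat_lit 5) (nat_lit 461) (nat_lit 5) (nat_lit 562) (nat_lit 524) (nat_lit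 474)))) (XT.nd (nat_lit 156) (nat_lit 1064) (nat_lit 0) (XT.nd (nat_lit 78) (nat_lit 0) (nat_lit 0) (XT.lf (nat_lit 0) (nat_lit 825206985) (nat_lit 1672) (nat_lit 4170600014) (nat_lit 1748) (nat_lit 2754513189) (nat_lit 438) (nat_lit 5) (nat_lit 460) (nat_lit 5) (nat_lit 461) (nat_lit 5) (nat_lit 563) (nat_lit 524) (nat_lit 473)) (XT.lf (nat_lit 0) (nat_lit 5758568067) (nat_lit 1672) (nat_lit 1626510645) (nat_lit 1748) (nat_lit 424548293) (nat_lit 438) (nat_lit 5) (nat_lit 460) (nat_lit 5) (nat_lit 461) (nat_lit 5) (nat_lit 564) (nat_lit 524) (nat_lit 472))) (XT.nd (nat_lit 78) (nat_lit 0) (nat_lit 0) (XT.lf (nat_lit 0) (nat_lit 1910939071) (nat_lit 1064) (nat_lit 4970201551) (nat_lit 76) (nat_lit 989042282) (nat_lit 424) (nat_lit 5) (nat_lit 438) (nat_lit 5) (nat_lit 425) (nat_lit 5) (nat_lit 565) (nat_lit 524) (nat_lit 471)) (XT.lf (nat_lit 0) (nat_lit 4271784616) (nat_lit 1064) (nat_lit 7371480) (nat_lit 76) (nat_lit 3653057808) (nat_lit 424) (nat_lit 5) (nat_lit 438)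 (nat_lit 5) (nat_lit 425) (nat_lit 5) (nat_lit 566) (nat_lit 524) (nat_lit 470))))))))
noncomputable def xc93 : XT := (XT.nd (nat_lit 1950) (nat_lit 8056) (nat_lit 0) (XT.nd (nat_lit 936) (nat_lit 6156) (nat_lit 0) (XT.nd (nat_lit 468) (nat_lit 3192) (nat_lit 0) (XT.nd (nat_lit 234) (nat_lit 1748) (nat_lit 0) (XT.nd (nat_lit 78) (nat_lit 988) (nat_lit 0) (XT.lf (nat_lit 0) (nat_lit 5082284377) (nat_lit 912) (nat_lit 1591051816) (nat_lit 988) (nat_lit 1322286186) (nat_lit 412) (nat_lit 5) (nat_lit 424) (nat_lit 5) (nat_lit 425) (nat_lit 5) (nat_lit 567) (nat_lit 524) (nat_lit 469)) (XT.nd (nat_lit 78) (nat_lit 0) (nat_lit 0) (XT.lf (nat_lit 0) (nat_lit 1031352672) (nat_lit 988) (nat_lit 5872196940) (nat_lit 76) (nat_lit 1156964420) (nat_lit 399) (nat_lit 5) (nat_lit 412) (nat_lit 5) (nat_lit 400) (nat_lit 5) (nat_lit 568) (nat_lit 524) (nat_lit 468)) (XT.lf (nat_lit 0) (nat_lit 3405854652) (nat_lit 988) (nat_lit 754115671) (nat_lit 76) (nat_lit 3966734728) (nat_lit 399)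 (nat_lit 5) (nat_lit 412) (nat_lit 5) (nat_lit 400) (nat_lit 5) (nat_lit 569) (nat_lit 524) (nat_lit 467)))) (XT.nd (nat_lit 78) (nat_lit 912) (nat_lit 0) (XT.lf (nat_lit 0) (nat_lit 4486068297) (nat_lit 836) (nat_lit 1332927394) (nat_lit 912) (nat_lit 2375407352) (nat_lit 388) (nat_lit 5) (nat_lit 399) (nat_lit 5) (nat_lit 400) (nat_lit 5) (nat_lit 570) (nat_lit 524) (nat_lit 466)) (XT.nd (nat_lit 78) (nat_lit 0) (nat_lit 0) (XT.lf (nat_lit 0) (nat_lit 4357407) (nat_lit 912) (nat_lit 6715186997) (nat_lit 76) (nat_lit 1544161583) (nat_lit 376) (nat_lit 5) (nat_lit 388) (nat_lit 5) (nat_lit 377) (nat_lit 5) (nat_lit 571) (nat_lit 524) (nat_lit 465)) (XT.lf (nat_lit 0) (nat_lit 2396552624) (nat_lit 912) (nat_lit 1437668179) (nat_lit 76) (nat_lit 4499933099) (nat_lit 376) (nat_lit 5) (nat_lit 388) (nat_lit 5) (nat_lit 377) (nat_lit 5) (nat_lit 572) (nat_lit 524) (nat_lit 464))))) (XT.nd (nat_lit 234) (nat_lit 1520) (nat_lit 0) (XT.nd (nat_lit 78) (nat_lit 912) (nat_lit 0)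 (XT.lf (nat_lit 0) (nat_lit 3958270487) (nat_lit 760) (nat_lit 867486780) (nat_lit 836) (nat_lit 3580475864) (nat_lit 366) (nat_lit 5) (nat_lit 376) (nat_lit 5) (nat_lit 377) (nat_lit 5) (nat_lit 573) (nat_lit 524) (nat_lit 463)) (XT.nd (nat_lit 78) (nat_lit 76) (nat_lit 0) (XT.lf (nat_lit 0) (nat_lit 961084470) (nat_lit 836) (nat_lit 6336340565) (nat_lit 912) (nat_lit 1182456882) (nat_lit 355) (nat_lit 5) (nat_lit 366) (nat_lit 5) (nat_lit 367) (nat_lit 5) (nat_lit 574) (nat_lit 524) (nat_lit 462)) (XT.lf (nat_lit 0) (nat_lit 1246866107) (nat_lit 912) (nat_lit 2069665784) (nat_lit 76) (nat_lit 5238314755) (nat_lit 354) (nat_lit 5) (nat_lit 366) (nat_lit 5) (nat_lit 355) (nat_lit 5) (nat_lit 575) (nat_lit 524) (nat_lit 461)))) (XT.nd (nat_lit 78) (nat_lit 760) (nat_lit 0) (XT.lf (nat_lit 0) (nat_lit 3487415899) (nat_lit 760) (nat_lit 209011594) (nat_lit 836) (nat_lit 4934982389) (nat_lit 344) (nat_lit 5) (nat_lit 354) (nat_lit 5) (nat_lit 355) (nat_lit 5) (nat_lit 576)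 (nat_lit 524) (nat_lit 460)) (XT.nd (nat_lit 78) (nat_lit 0) (nat_lit 0) (XT.lf (nat_lit 0) (nat_lit 421320785) (nat_lit 760) (nat_lit 5774838368) (nat_lit 836) (nat_lit 2513326781) (nat_lit 334) (nat_lit 5) (nat_lit 344) (nat_lit 5) (nat_lit 345) (nat_lit 5) (nat_lit 577) (nat_lit 524) (nat_lit 459)) (XT.lf (nat_lit 0) (nat_lit 6127168555) (nat_lit 760) (nat_lit 2620279042) (nat_lit 836) (nat_lit 41649695) (nat_lit 334) (nat_lit 5) (nat_lit 344) (nat_lit 5) (nat_lit 345) (nat_lit 5) (nat_lit 578) (nat_lit 524) (nat_lit 458)))))) (XT.nd (nat_lit 468) (nat_lit 3192) (nat_lit 0) (XT.nd (nat_lit 234) (nat_lit 1444) (nat_lit 0) (XT.nd (nat_lit 78) (nat_lit 760) (nat_lit 0) (XT.lf (nat_lit 0) (nat_lit 2437022139) (nat_lit 760) (nat_lit 5812242093) (nat_lit 76) (nat_lit 620917920) (nat_lit 324) (nat_lit 5) (nat_lit 334) (nat_lit 5) (nat_lit 325) (nat_lit 5) (nat_lit 579) (nat_lit 524) (nat_lit 457)) (XT.nd (nat_lit 78) (nat_lit 760) (nat_lit 0) (XT.lf (nat_lit 0) (nat_lit 4966539305)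 (nat_lit 760) (nat_lit 81162617) (nat_lit 76) (nat_lit 3905149430) (nat_lit 324) (nat_lit 5) (nat_lit 334) (nat_lit 5) (nat_lit 325) (nat_lit 5) (nat_lit 580) (nat_lit 524) (nat_lit 456)) (XT.lf (nat_lit 0) (nat_lit 5802230269) (nat_lit 760) (nat_lit 1749240412) (nat_lit 836) (nat_lit 1485611426) (nat_lit 314) (nat_lit 5) (nat_lit 324) (nat_lit 5) (nat_lit 325) (nat_lit 5) (nat_lit 581) (nat_lit 524) (nat_lit 455)))) (XT.nd (nat_lit 78) (nat_lit 684) (nat_lit 0) (XT.lf (nat_lit 0) (nat_lit 1046965466) (nat_lit 760) (nat_lit 6462848144) (nat_lit 76) (nat_lit 1613133400) (nat_lit 304) (nat_lit 5) (nat_lit 314) (nat_lit 5) (nat_lit 305) (nat_lit 5) (nat_lit 582) (nat_lit 524) (nat_lit 454)) (XT.nd (nat_lit 78) (nat_lit 684) (nat_lit 0) (XT.lf (nat_lit 0) (nat_lit 3611437107) (nat_lit 760) (nat_lit 553812021) (nat_lit 76) (nat_lit 5045065355) (nat_lit 304) (nat_lit 5) (nat_lit 314) (nat_lit 5) (nat_lit 305) (nat_lit 5) (nat_lit 583) (nat_lit 524) (nat_lit 453)) (XT.lf (nat_lit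 0) (nat_lit 5507451537) (nat_lit 684) (nat_lit 723819634) (nat_lit 760) (nat_lit 3068080967) (nat_lit 295) (nat_lit 5) (nat_lit 304) (nat_lit 5) (nat_lit 305) (nat_lit 5) (nat_lit 584) (nat_lit 524) (nat_lit 452))))) (XT.nd (nat_lit 234) (nat_lit 1824) (nat_lit 0) (XT.nd (nat_lit 78) (nat_lit 760) (nat_lit 0) (XT.lf (nat_lit 0) (nat_lit 2280625307) (nat_lit 608) (nat_lit 6628163277) (nat_lit 684) (nat_lit 481280438) (nat_lit 287) (nat_lit 5) (nat_lit 295) (nat_lit 5) (nat_lit 296) (nat_lit 5) (nat_lit 585) (nat_lit 524) (nat_lit 451)) (XT.nd (nat_lit 78) (nat_lit 684) (nat_lit 0) (XT.lf (nat_lit 0) (nat_lit 2128174943) (nat_lit 684) (nat_lit 1013743643) (nat_lit 76) (nat_lit 6340421345) (nat_lit 286) (nat_lit 5) (nat_lit 295) (nat_lit 5) (nat_lit 287) (nat_lit 5) (nat_lit 586) (nat_lit 524) (nat_lit 450)) (XT.lf (nat_lit 0) (nat_lit 4789648933) (nat_lit 760) (nat_lit 4347849421) (nat_lit 76) (nat_lit 438772767) (nat_lit 277) (nat_lit 5) (nat_lit 287) (nat_lit 5) (nat_lit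 278) (nat_lit 5) (nat_lit 587) (nat_lit 524) (nat_lit 449)))) (XT.nd (nat_lit 156) (nat_lit 1140) (nat_lit 0) (XT.nd (nat_lit 78) (nat_lit 76) (nat_lit 0) (XT.lf (nat_lit 0) (nat_lit 1903096078) (nat_lit 608) (nat_lit 5610990062) (nat_lit 684) (nat_lit 2157804011) (nat_lit 269) (nat_lit 5) (nat_lit 277) (nat_lit 5) (nat_lit 278) (nat_lit 5) (nat_lit 588) (nat_lit 524) (nat_lit 448)) (XT.lf (nat_lit 0) (nat_lit 515960556) (nat_lit 684) (nat_lit 1472824582) (nat_lit 76) (nat_lit 7780587430) (nat_lit 268) (nat_lit 5) (nat_lit 277) (nat_lit 5) (nat_lit 269) (nat_lit 5) (nat_lit 589) (nat_lit 524) (nat_lit 447))) (XT.nd (nat_lit 78) (nat_lit 532) (nat_lit 0) (XT.lf (nat_lit 0) (nat_lit 3228341731) (nat_lit 684) (nat_lit 4917583240) (nat_lit 76) (nat_lit 1722317379) (nat_lit 260) (nat_lit 5) (nat_lit 269) (nat_lit 5) (nat_lit 261) (nat_lit 5) (nat_lit 590) (nat_lit 524) (nat_lit 446)) (XT.lf (nat_lit 0) (nat_lit 1522491939) (nat_lit 532) (nat_lit 4476224873) (nat_lit 608) (nat_lit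 3970301383) (nat_lit 253) (nat_lit 5) (nat_lit 260) (nat_lit 5) (nat_lit 261) (nat_lit 5) (nat_lit 591) (nat_lit 524) (nat_lit 445))))))) (XT.nd (nat_lit 936) (nat_lit 4104) (nat_lit 0) (XT.nd (nat_lit 468) (nat_lit 1596) (nat_lit 0) (XT.nd (nat_lit 234) (nat_lit 1140) (nat_lit 0) (XT.nd (nat_lit 78) (nat_lit 1216) (nat_lit 0) (XT.lf (nat_lit 0) (nat_lit 8120352519) (nat_lit 532) (nat_lit 708217140) (nat_lit 608) (nat_lit 1243162014) (nat_lit 253) (nat_lit 5) (nat_lit 260) (nat_lit 5) (nat_lit 261) (nat_lit 5) (nat_lit 592) (nat_lit 524) (nat_lit 444)) (XT.nd (nat_lit 78) (nat_lit 532) (nat_lit 0) (XT.lf (nat_lit 0) (nat_lit 1540791748) (nat_lit 684) (nat_lit 5508987278) (nat_lit 76) (nat_lit 3126075007) (nat_lit 244) (nat_lit 5) (nat_lit 253) (nat_lit 5) (nat_lit 245) (nat_lit 5) (nat_lit 593) (nat_lit 524) (nat_lit 443)) (XT.lf (nat_lit 0) (nat_lit 1126309651) (nat_lit 532) (nat_lit 3234377452) (nat_lit 608) (nat_lit 5921272542) (nat_lit 237) (nat_lit 5) (nat_lit 244)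 (nat_lit 5) (nat_lit 245) (nat_lit 5) (nat_lit 594) (nat_lit 524) (nat_lit 442)))) (XT.nd (nat_lit 78) (nat_lit 1140) (nat_lit 0) (XT.lf (nat_lit 0) (nat_lit 7250421255) (nat_lit 608) (nat_lit 2462811625) (nat_lit 76) (nat_lit 676688925) (nat_lit 237) (nat_lit 5) (nat_lit 245) (nat_lit 5) (nat_lit 238) (nat_lit 5) (nat_lit 595) (nat_lit 524) (nat_lit 441)) (XT.nd (nat_lit 78) (nat_lit 608) (nat_lit 0) (XT.lf (nat_lit 0) (nat_lit 4362582541) (nat_lit 532) (nat_lit 5857621874) (nat_lit 608) (nat_lit 279396897) (nat_lit 230) (nat_lit 5) (nat_lit 237) (nat_lit 5) (nat_lit 238) (nat_lit 5) (nat_lit 596) (nat_lit 524) (nat_lit 440)) (XT.lf (nat_lit 0) (nat_lit 701468061) (nat_lit 532) (nat_lit 1895661147) (nat_lit 608) (nat_lit 8014129385) (nat_lit 222) (nat_lit 5) (nat_lit 229) (nat_lit 5) (nat_lit 230) (nat_lit 5) (nat_lit 597) (nat_lit 524) (nat_lit 439))))) (XT.nd (nat_lit 234) (nat_lit 532) (nat_lit 0) (XT.nd (nat_lit 78) (nat_lit 1064) (nat_lit 0) (XT.lf (nat_lit 0) (nat_lit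 5555692652) (nat_lit 608) (nat_lit 3017920637) (nat_lit 76) (nat_lit 2150936841) (nat_lit 222) (nat_lit 5) (nat_lit 230) (nat_lit 5) (nat_lit 223) (nat_lit 5) (nat_lit 598) (nat_lit 524) (nat_lit 438)) (XT.nd (nat_lit 78) (nat_lit 532) (nat_lit 0) (XT.lf (nat_lit 0) (nat_lit 4015171220) (nat_lit 532) (nat_lit 4570270350) (nat_lit 608) (nat_lit 2254428593) (nat_lit 215) (nat_lit 5) (nat_lit 222) (nat_lit 5) (nat_lit 223) (nat_lit 5) (nat_lit 599) (nat_lit 524) (nat_lit 437)) (XT.lf (nat_lit 0) (nat_lit 234181151) (nat_lit 456) (nat_lit 470092359) (nat_lit 532) (nat_lit 10253224543) (nat_lit 208) (nat_lit 5) (nat_lit 214) (nat_lit 5) (nat_lit 215) (nat_lit 5) (nat_lit 600) (nat_lit 524) (nat_lit 436)))) (XT.nd (nat_lit 78) (nat_lit 532) (nat_lit 0) (XT.lf (nat_lit 0) (nat_lit 3735906458) (nat_lit 532) (nat_lit 3626199743) (nat_lit 76) (nat_lit 3714198171) (nat_lit 208) (nat_lit 5) (nat_lit 215) (nat_lit 5) (nat_lit 209) (nat_lit 5) (nat_lit 601) (nat_lit 524) (nat_lit 435))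 (XT.nd (nat_lit 78) (nat_lit 0) (nat_lit 0) (XT.lf (nat_lit 0) (nat_lit 3620909965) (nat_lit 532) (nat_lit 3208113486) (nat_lit 608) (nat_lit 4368449061) (nat_lit 201) (nat_lit 5) (nat_lit 208) (nat_lit 5) (nat_lit 209) (nat_lit 5) (nat_lit 602) (nat_lit 524) (nat_lit 434)) (XT.lf (nat_lit 0) (nat_lit 9989609457) (nat_lit 608) (nat_lit 301833658) (nat_lit 76) (nat_lit 1029511436) (nat_lit 201) (nat_lit 5) (nat_lit 209) (nat_lit 5) (nat_lit 202) (nat_lit 5) (nat_lit 603) (nat_lit 524) (nat_lit 433)))))) (XT.nd (nat_lit 468) (nat_lit 2128) (nat_lit 0) (XT.nd (nat_lit 234) (nat_lit 988) (nat_lit 0) (XT.nd (nat_lit 78) (nat_lit 456) (nat_lit 0) (XT.lf (nat_lit 0) (nat_lit 1786247120) (nat_lit 532) (nat_lit 4302636561) (nat_lit 76) (nat_lit 5356937445) (nat_lit 194) (nat_lit 5) (nat_lit 201) (nat_lit 5) (nat_lit 195) (nat_lit 5) (nat_lit 604) (nat_lit 524) (nat_lit 432)) (XT.nd (nat_lit 78) (nat_lit 0) (nat_lit 0) (XT.lf (nat_lit 0) (nat_lit 3164813955) (nat_lit 456) (nat_lit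 1781180307) (nat_lit 532) (nat_lit 6627064687) (nat_lit 188) (nat_lit 5) (nat_lit 194) (nat_lit 5) (nat_lit 195) (nat_lit 5) (nat_lit 605) (nat_lit 524) (nat_lit 431)) (XT.lf (nat_lit 0) (nat_lit 8190176813) (nat_lit 532) (nat_lit 915583951) (nat_lit 76) (nat_lit 2596658423) (nat_lit 188) (nat_lit 5) (nat_lit 195) (nat_lit 5) (nat_lit 189) (nat_lit 5) (nat_lit 606) (nat_lit 524) (nat_lit 430)))) (XT.nd (nat_lit 78) (nat_lit 532) (nat_lit 0) (XT.lf (nat_lit 0) (nat_lit 6768510245) (nat_lit 456) (nat_lit 4762173404) (nat_lit 532) (nat_lit 303056584) (nat_lit 182) (nat_lit 5) (nat_lit 188) (nat_lit 5) (nat_lit 189) (nat_lit 5) (nat_lit 607) (nat_lit 524) (nat_lit 429)) (XT.nd (nat_lit 78) (nat_lit 0) (nat_lit 0) (XT.lf (nat_lit 0) (nat_lit 2630824630) (nat_lit 456) (nat_lit 299583550) (nat_lit 532) (nat_lit 9036915110) (nat_lit 175) (nat_lit 5) (nat_lit 181) (nat_lit 5) (nat_lit 182) (nat_lit 5) (nat_lit 608) (nat_lit 524) (nat_lit 428)) (XT.lf (nat_lit 0) (nat_lit 6262270346)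 (nat_lit 532) (nat_lit 1618938505) (nat_lit 76) (nat_lit 4221575652) (nat_lit 175) (nat_lit 5) (nat_lit 182) (nat_lit 5) (nat_lit 176) (nat_lit 5) (nat_lit 609) (nat_lit 524) (nat_lit 427))))) (XT.nd (nat_lit 234) (nat_lit 1216) (nat_lit 0) (XT.nd (nat_lit 78) (nat_lit 532) (nat_lit 0) (XT.lf (nat_lit 0) (nat_lit 6298635227) (nat_lit 380) (nat_lit 3381443146) (nat_lit 456) (nat_lit 2560492627) (nat_lit 170) (nat_lit 5) (nat_lit 175) (nat_lit 5) (nat_lit 176) (nat_lit 5) (nat_lit 610) (nat_lit 524) (nat_lit 426)) (XT.nd (nat_lit 78) (nat_lit 0) (nat_lit 0) (XT.lf (nat_lit 0) (nat_lit 783236217) (nat_lit 532) (nat_lit 10387320644) (nat_lit 76) (nat_lit 1210288482) (nat_lit 163) (nat_lit 5) (nat_lit 170) (nat_lit 5) (nat_lit 164) (nat_lit 5) (nat_lit 611) (nat_lit 524) (nat_lit 425)) (XT.lf (nat_lit 0) (nat_lit 4198787113) (nat_lit 532) (nat_lit 2429710730) (nat_lit 76) (nat_lit 5894306288) (nat_lit 163) (nat_lit 5) (nat_lit 170) (nat_lit 5) (nat_lit 164) (nat_lit 5) (nat_lit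 612) (nat_lit 524) (nat_lit 424)))) (XT.nd (nat_lit 156) (nat_lit 456) (nat_lit 0) (XT.nd (nat_lit 78) (nat_lit 380) (nat_lit 0) (XT.lf (nat_lit 0) (nat_lit 5727653648) (nat_lit 380) (nat_lit 1969309753) (nat_lit 456) (nat_lit 4970354470) (nat_lit 158) (nat_lit 5) (nat_lit 163) (nat_lit 5) (nat_lit 164) (nat_lit 5) (nat_lit 613) (nat_lit 524) (nat_lit 423)) (XT.lf (nat_lit 0) (nat_lit 1229989722) (nat_lit 380) (nat_lit 10054858425) (nat_lit 456) (nat_lit 1529480863) (nat_lit 153) (nat_lit 5) (nat_lit 158) (nat_lit 5) (nat_lit 159) (nat_lit 5) (nat_lit 614) (nat_lit 524) (nat_lit 422))) (XT.nd (nat_lit 78) (nat_lit 380) (nat_lit 0) (XT.lf (nat_lit 0) (nat_lit 1991506277) (nat_lit 456) (nat_lit 3367194433) (nat_lit 76) (nat_lit 7604579132) (nat_lit 152) (nat_lit 5) (nat_lit 158) (nat_lit 5) (nat_lit 153) (nat_lit 5) (nat_lit 615) (nat_lit 524) (nat_lit 421)) (XT.lf (nat_lit 0) (nat_lit 5036151464) (nat_lit 380) (nat_lit 536791172) (nat_lit 456) (nat_lit 7541856579) (nat_lit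 147) (nat_lit 5) (nat_lit 152) (nat_lit 5) (nat_lit 153) (nat_lit 5) (nat_lit 616) (nat_lit 524) (nat_lit 420))))))))
noncomputable def xc94 : XT := (XT.nd (nat_lit 1950) (nat_lit 1292) (nat_lit 0) (XT.nd (nat_lit 936) (nat_lit 2356) (nat_lit 0) (XT.nd (nat_lit 468) (nat_lit 1292) (nat_lit 0) (XT.nd (nat_lit 234) (nat_lit 760) (nat_lit 0) (XT.nd (nat_lit 78) (nat_lit 380) (nat_lit 0) (XT.lf (nat_lit 0) (nat_lit 325781925) (nat_lit 380) (nat_lit 8931465125) (nat_lit 456) (nat_lit 4011479009) (nat_lit 142) (nat_lit 5) (nat_lit 147) (nat_lit 5) (nat_lit 148) (nat_lit 5) (nat_lit 617) (nat_lit 524) (nat_lit 419)) (XT.nd (nat_lit 78) (nat_lit 380) (nat_lit 0) (XT.lf (nat_lit 0) (nat_lit 8970227691) (nat_lit 380) (nat_lit 4080896351) (nat_lit 456) (nat_lit 373891499) (nat_lit 142) (nat_lit 5) (nat_lit 147) (nat_lit 5) (nat_lit 148) (nat_lit 5) (nat_lit 618) (nat_lit 524) (nat_lit 418)) (XT.lf (nat_lit 0) (nat_lit 3304279302) (nat_lit 380) (nat_lit 9386766798) (nat_lit 76) (nat_lit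 892721433) (nat_lit 137) (nat_lit 5) (nat_lit 142) (nat_lit 5) (nat_lit 138) (nat_lit 5) (nat_lit 619) (nat_lit 524) (nat_lit 417)))) (XT.nd (nat_lit 78) (nat_lit 760) (nat_lit 0) (XT.lf (nat_lit 0) (nat_lit 7086685677) (nat_lit 380) (nat_lit 726316382) (nat_lit 76) (nat_lit 5931931233) (nat_lit 137) (nat_lit 5) (nat_lit 142) (nat_lit 5) (nat_lit 138) (nat_lit 5) (nat_lit 620) (nat_lit 524) (nat_lit 416)) (XT.nd (nat_lit 78) (nat_lit 380) (nat_lit 0) (XT.lf (nat_lit 0) (nat_lit 8181576545) (nat_lit 380) (nat_lit 2795260460) (nat_lit 456) (nat_lit 2931845117) (nat_lit 132) (nat_lit 5) (nat_lit 137) (nat_lit 5) (nat_lit 138) (nat_lit 5) (nat_lit 621) (nat_lit 524) (nat_lit 415)) (XT.lf (nat_lit 0) (nat_lit 877649094) (nat_lit 380) (nat_lit 10885617039) (nat_lit 76) (nat_lit 2311929331) (nat_lit 127) (nat_lit 5) (nat_lit 132) (nat_lit 5) (nat_lit 128) (nat_lit 5) (nat_lit 622) (nat_lit 524) (nat_lit 414))))) (XT.nd (nat_lit 234) (nat_lit 684) (nat_lit 0) (XT.nd (nat_lit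 78) (nat_lit 608) (nat_lit 0) (XT.lf (nat_lit 0) (nat_lit 4760465022) (nat_lit 380) (nat_lit 1953476368) (nat_lit 76) (nat_lit 7529983904) (nat_lit 127) (nat_lit 5) (nat_lit 132) (nat_lit 5) (nat_lit 128) (nat_lit 5) (nat_lit 623) (nat_lit 524) (nat_lit 413)) (XT.nd (nat_lit 78) (nat_lit 304) (nat_lit 0) (XT.lf (nat_lit 0) (nat_lit 7219390627) (nat_lit 304) (nat_lit 1527982924) (nat_lit 380) (nat_lit 5668129008) (nat_lit 123) (nat_lit 5) (nat_lit 127) (nat_lit 5) (nat_lit 128) (nat_lit 5) (nat_lit 624) (nat_lit 524) (nat_lit 412)) (XT.lf (nat_lit 0) (nat_lit 1980699388) (nat_lit 304) (nat_lit 10863474809) (nat_lit 380) (nat_lit 1745735627) (nat_lit 119) (nat_lit 5) (nat_lit 123) (nat_lit 5) (nat_lit 124) (nat_lit 5) (nat_lit 625) (nat_lit 524) (nat_lit 411)))) (XT.nd (nat_lit 78) (nat_lit 608) (nat_lit 0) (XT.lf (nat_lit 0) (nat_lit 2263985630) (nat_lit 380) (nat_lit 3386096775) (nat_lit 76) (nat_lit 9116662346) (nat_lit 118) (nat_lit 5) (nat_lit 123) (nat_lit 5) (nat_lit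 119) (nat_lit 5) (nat_lit 626) (nat_lit 524) (nat_lit 410)) (XT.nd (nat_lit 78) (nat_lit 304) (nat_lit 0) (XT.lf (nat_lit 0) (nat_lit 6057233297) (nat_lit 304) (nat_lit 292767076) (nat_lit 380) (nat_lit 8596497174) (nat_lit 114) (nat_lit 5) (nat_lit 118) (nat_lit 5) (nat_lit 119) (nat_lit 5) (nat_lit 627) (nat_lit 524) (nat_lit 409)) (XT.lf (nat_lit 0) (nat_lit 547154985) (nat_lit 304) (nat_lit 10010812132) (nat_lit 380) (nat_lit 4571075065) (nat_lit 110) (nat_lit 5) (nat_lit 114) (nat_lit 5) (nat_lit 115) (nat_lit 5) (nat_lit 628) (nat_lit 524) (nat_lit 408)))))) (XT.nd (nat_lit 468) (nat_lit 1368) (nat_lit 0) (XT.nd (nat_lit 234) (nat_lit 608) (nat_lit 0) (XT.nd (nat_lit 78) (nat_lit 380) (nat_lit 0) (XT.lf (nat_lit 0) (nat_lit 10258815395) (nat_lit 304) (nat_lit 4633263505) (nat_lit 380) (nat_lit 422320484) (nat_lit 110) (nat_lit 5) (nat_lit 114) (nat_lit 5) (nat_lit 115) (nat_lit 5) (nat_lit 629) (nat_lit 524) (nat_lit 407)) (XT.nd (nat_lit 78) (nat_lit 0) (nat_lit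 0) (XT.lf (nat_lit 0) (nat_lit 3776221990) (nat_lit 380) (nat_lit 10842507512) (nat_lit 76) (nat_lit 883905420) (nat_lit 105) (nat_lit 5) (nat_lit 110) (nat_lit 5) (nat_lit 106) (nat_lit 5) (nat_lit 630) (nat_lit 524) (nat_lit 406)) (XT.lf (nat_lit 0) (nat_lit 8098678750) (nat_lit 380) (nat_lit 1120725190) (nat_lit 76) (nat_lit 6474264742) (nat_lit 105) (nat_lit 5) (nat_lit 110) (nat_lit 5) (nat_lit 106) (nat_lit 5) (nat_lit 631) (nat_lit 524) (nat_lit 405)))) (XT.nd (nat_lit 78) (nat_lit 380) (nat_lit 0) (XT.lf (nat_lit 0) (nat_lit 8880843121) (nat_lit 228) (nat_lit 3665537977) (nat_lit 304) (nat_lit 3341367373) (nat_lit 102) (nat_lit 5) (nat_lit 105) (nat_lit 5) (nat_lit 106) (nat_lit 5) (nat_lit 632) (nat_lit 524) (nat_lit 404)) (XT.nd (nat_lit 78) (nat_lit 0) (nat_lit 0) (XT.lf (nat_lit 0) (nat_lit 1005690362) (nat_lit 380) (nat_lit 13084631279) (nat_lit 76) (nat_lit 1994831086) (nat_lit 97) (nat_lit 5) (nat_lit 102) (nat_lit 5) (nat_lit 98) (nat_lit 5) (nat_lit 633)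 (nat_lit 524) (nat_lit 403)) (XT.lf (nat_lit 0) (nat_lit 5447864908) (nat_lit 380) (nat_lit 3060461495) (nat_lit 76) (nat_lit 7776679814) (nat_lit 97) (nat_lit 5) (nat_lit 102) (nat_lit 5) (nat_lit 98) (nat_lit 5) (nat_lit 634) (nat_lit 524) (nat_lit 402))))) (XT.nd (nat_lit 234) (nat_lit 760) (nat_lit 0) (XT.nd (nat_lit 78) (nat_lit 380) (nat_lit 0) (XT.lf (nat_lit 0) (nat_lit 7228346353) (nat_lit 228) (nat_lit 2779103343) (nat_lit 304) (nat_lit 6480836931) (nat_lit 94) (nat_lit 5) (nat_lit 97) (nat_lit 5) (nat_lit 98) (nat_lit 5) (nat_lit 635) (nat_lit 524) (nat_lit 401)) (XT.nd (nat_lit 78) (nat_lit 76) (nat_lit 0) (XT.lf (nat_lit 0) (nat_lit 1031963620) (nat_lit 304) (nat_lit 13655252624) (nat_lit 380) (nat_lit 2007837761) (nat_lit 90) (nat_lit 5) (nat_lit 94) (nat_lit 5) (nat_lit 95) (nat_lit 5) (nat_lit 636) (nat_lit 524) (nat_lit 400)) (XT.lf (nat_lit 0) (nat_lit 2583829903) (nat_lit 380) (nat_lit 5315661764) (nat_lit 76) (nat_lit 9004880198) (nat_lit 89) (nat_lit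 5) (nat_lit 94) (nat_lit 5) (nat_lit 90) (nat_lit 5) (nat_lit 637) (nat_lit 524) (nat_lit 399)))) (XT.nd (nat_lit 156) (nat_lit 532) (nat_lit 0) (XT.nd (nat_lit 78) (nat_lit 0) (nat_lit 0) (XT.lf (nat_lit 0) (nat_lit 5264292136) (nat_lit 228) (nat_lit 1992473521) (nat_lit 304) (nat_lit 9860519691) (nat_lit 86) (nat_lit 5) (nat_lit 89) (nat_lit 5) (nat_lit 90) (nat_lit 5) (nat_lit 638) (nat_lit 524) (nat_lit 398)) (XT.lf (nat_lit 0) (nat_lit 12067442005) (nat_lit 304) (nat_lit 1262508653) (nat_lit 76) (nat_lit 4003621877) (nat_lit 86) (nat_lit 5) (nat_lit 90) (nat_lit 5) (nat_lit 87) (nat_lit 5) (nat_lit 639) (nat_lit 524) (nat_lit 397))) (XT.nd (nat_lit 78) (nat_lit 304) (nat_lit 0) (XT.lf (nat_lit 0) (nat_lit 9623146586) (nat_lit 228) (nat_lit 7409401405) (nat_lit 304) (nat_lit 520474207) (nat_lit 83) (nat_lit 5) (nat_lit 86) (nat_lit 5) (nat_lit 87) (nat_lit 5) (nat_lit 640) (nat_lit 524) (nat_lit 396)) (XT.lf (nat_lit 0) (nat_lit 2947802489) (nat_lit 228) (nat_lit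 1325877723) (nat_lit 304) (nat_lit 13502415798) (nat_lit 79) (nat_lit 5) (nat_lit 82) (nat_lit 5) (nat_lit 83) (nat_lit 5) (nat_lit 641) (nat_lit 524) (nat_lit 395))))))) (XT.nd (nat_lit 72384) (nat_lit 0) (nat_lit 47500) (XT.nd (nat_lit 468) (nat_lit 532) (nat_lit 0) (XT.nd (nat_lit 234) (nat_lit 228) (nat_lit 0) (XT.nd (nat_lit 78) (nat_lit 532) (nat_lit 0) (XT.lf (nat_lit 0) (nat_lit 9224648177) (nat_lit 304) (nat_lit 3917282706) (nat_lit 76) (nat_lit 4860274609) (nat_lit 79) (nat_lit 5) (nat_lit 83) (nat_lit 5) (nat_lit 80) (nat_lit 5) (nat_lit 642) (nat_lit 524) (nat_lit 394)) (XT.nd (nat_lit 78) (nat_lit 304) (nat_lit 0) (XT.lf (nat_lit 0) (nat_lit 7269327422) (nat_lit 228) (nat_lit 7044273554) (nat_lit 304) (nat_lit 3918457850) (nat_lit 76) (nat_lit 5) (nat_lit 79) (nat_lit 5) (nat_lit 80) (nat_lit 5) (nat_lit 643) (nat_lit 524) (nat_lit 393)) (XT.lf (nat_lit 0) (nat_lit 233725680) (nat_lit 228) (nat_lit 801485564) (nat_lit 304) (nat_lit 17430944175) (nat_lit 72)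 (nat_lit 5) (nat_lit 75) (nat_lit 5) (nat_lit 76) (nat_lit 5) (nat_lit 644) (nat_lit 524) (nat_lit 392)))) (XT.nd (nat_lit 78) (nat_lit 228) (nat_lit 0) (XT.lf (nat_lit 0) (nat_lit 6128812354) (nat_lit 304) (nat_lit 6992604167) (nat_lit 76) (nat_lit 5581133784) (nat_lit 72) (nat_lit 5) (nat_lit 76) (nat_lit 5) (nat_lit 73) (nat_lit 5) (nat_lit 645) (nat_lit 524) (nat_lit 391)) (XT.nd (nat_lit 78) (nat_lit 0) (nat_lit 0) (XT.lf (nat_lit 0) (nat_lit 4496983200) (nat_lit 228) (nat_lit 6845224846) (nat_lit 304) (nat_lit 7601107489) (nat_lit 69) (nat_lit 5) (nat_lit 72) (nat_lit 5) (nat_lit 73) (nat_lit 5) (nat_lit 646) (nat_lit 524) (nat_lit 390)) (XT.lf (nat_lit 0) (nat_lit 16282632149) (nat_lit 228) (nat_lit 407720869) (nat_lit 304) (nat_lit 2497934304) (nat_lit 69) (nat_lit 5) (nat_lit 72) (nat_lit 5) (nat_lit 73) (nat_lit 5) (nat_lit 647) (nat_lit 524) (nat_lit 389))))) (XT.nd (nat_lit 71682) (nat_lit 0) (nat_lit 50768) (XT.nd (nat_lit 78) (nat_lit 228) (nat_lit 0) (XT.lf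 (nat_lit 0) (nat_lit 2754002974) (nat_lit 304) (nat_lit 10540082184) (nat_lit 76) (nat_lit 6142078534) (nat_lit 65) (nat_lit 5) (nat_lit 69) (nat_lit 5) (nat_lit 66) (nat_lit 5) (nat_lit 648) (nat_lit 524) (nat_lit 388)) (XT.nd (nat_lit 71526) (nat_lit 0) (nat_lit 51300) (XT.lf (nat_lit 0) (nat_lit 1253465607) (nat_lit 228) (nat_lit 6838394727) (nat_lit 304) (nat_lit 11596521287) (nat_lit 62) (nat_lit 5) (nat_lit 65) (nat_lit 5) (nat_lit 66) (nat_lit 5) (nat_lit 649) (nat_lit 524) (nat_lit 387)) (XT.lf (nat_lit 0) (nat_lit 911301364) (nat_lit 0) (nat_lit 911301364) (nat_lit 380) (nat_lit 1422373378) (nat_lit 737) (nat_lit 5) (nat_lit 737) (nat_lit 3) (nat_lit 742) (nat_lit 3) (nat_lit 525) (nat_lit 525) (nat_lit 510)))) (XT.nd (nat_lit 78) (nat_lit 532) (nat_lit 0) (XT.lf (nat_lit 0) (nat_lit 5046256577) (nat_lit 0) (nat_lit 1328690220) (nat_lit 380) (nat_lit 125316344) (nat_lit 737) (nat_lit 5) (nat_lit 737) (nat_lit 3) (nat_lit 742) (nat_lit 3) (nat_lit 526) (nat_lit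 525) (nat_lit 509)) (XT.nd (nat_lit 78) (nat_lit 0) (nat_lit 0) (XT.lf (nat_lit 76) (nat_lit 1793644476) (nat_lit 0) (nat_lit 760635630) (nat_lit 532) (nat_lit 3957364588) (nat_lit 731) (nat_lit 5) (nat_lit 730) (nat_lit 3) (nat_lit 737) (nat_lit 5) (nat_lit 527) (nat_lit 525) (nat_lit 508)) (XT.lf (nat_lit 76) (nat_lit 5089068894) (nat_lit 0) (nat_lit 136503058) (nat_lit 532) (nat_lit 1298887953) (nat_lit 731) (nat_lit 5) (nat_lit 730) (nat_lit 3) (nat_lit 737) (nat_lit 5) (nat_lit 528) (nat_lit 525) (nat_lit 507)))))) (XT.nd (nat_lit 468) (nat_lit 1520) (nat_lit 0) (XT.nd (nat_lit 234) (nat_lit 684) (nat_lit 0) (XT.nd (nat_lit 78) (nat_lit 608) (nat_lit 0) (XT.lf (nat_lit 0) (nat_lit 1341045650) (nat_lit 532) (nat_lit 4649865207) (nat_lit 608) (nat_lit 547518309) (nat_lit 724) (nat_lit 5) (nat_lit 731) (nat_lit 5) (nat_lit 732) (nat_lit 5) (nat_lit 529) (nat_lit 525) (nat_lit 506)) (XT.nd (nat_lit 78) (nat_lit 608) (nat_lit 0) (XT.lf (nat_lit 0) (nat_lit 3959257910)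 (nat_lit 532) (nat_lit 1301221225) (nat_lit 608) (nat_lit 1293186694) (nat_lit 724) (nat_lit 5) (nat_lit 731) (nat_lit 5) (nat_lit 732) (nat_lit 5) (nat_lit 530) (nat_lit 525) (nat_lit 505)) (XT.lf (nat_lit 0) (nat_lit 6718093) (nat_lit 608) (nat_lit 4465202371) (nat_lit 684) (nat_lit 2098357674) (nat_lit 716) (nat_lit 5) (nat_lit 724) (nat_lit 5) (nat_lit 725) (nat_lit 5) (nat_lit 531) (nat_lit 525) (nat_lit 504)))) (XT.nd (nat_lit 78) (nat_lit 684) (nat_lit 0) (XT.lf (nat_lit 0) (nat_lit 2568149117) (nat_lit 608) (nat_lit 1044682099) (nat_lit 684) (nat_lit 2975204245) (nat_lit 716) (nat_lit 5) (nat_lit 724) (nat_lit 5) (nat_lit 725) (nat_lit 5) (nat_lit 532) (nat_lit 525) (nat_lit 503)) (XT.nd (nat_lit 78) (nat_lit 684) (nat_lit 0) (XT.lf (nat_lit 76) (nat_lit 2439446469) (nat_lit 0) (nat_lit 2692690437) (nat_lit 684) (nat_lit 1475000328) (nat_lit 717) (nat_lit 5) (nat_lit 716) (nat_lit 5) (nat_lit 725) (nat_lit 5) (nat_lit 533) (nat_lit 525) (nat_lit 502)) (XT.lf (nat_lit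 0) (nat_lit 1049222379) (nat_lit 684) (nat_lit 663804080) (nat_lit 760) (nat_lit 4914601529) (nat_lit 707) (nat_lit 5) (nat_lit 716) (nat_lit 5) (nat_lit 717) (nat_lit 5) (nat_lit 534) (nat_lit 525) (nat_lit 501))))) (XT.nd (nat_lit 234) (nat_lit 836) (nat_lit 0) (XT.nd (nat_lit 78) (nat_lit 684) (nat_lit 0) (XT.lf (nat_lit 76) (nat_lit 2901764482) (nat_lit 0) (nat_lit 658608202) (nat_lit 760) (nat_lit 3088851958) (nat_lit 708) (nat_lit 5) (nat_lit 707) (nat_lit 5) (nat_lit 717) (nat_lit 5) (nat_lit 535) (nat_lit 525) (nat_lit 500)) (XT.nd (nat_lit 78) (nat_lit 760) (nat_lit 0) (XT.lf (nat_lit 0) (nat_lit 6067427431) (nat_lit 684) (nat_lit 164113351) (nat_lit 760) (nat_lit 440813475) (nat_lit 708) (nat_lit 5) (nat_lit 717) (nat_lit 5) (nat_lit 718) (nat_lit 5) (nat_lit 536) (nat_lit 525) (nat_lit 499)) (XT.lf (nat_lit 0) (nat_lit 1869899476) (nat_lit 760) (nat_lit 3213661087) (nat_lit 836) (nat_lit 1612819193) (nat_lit 698) (nat_lit 5) (nat_lit 708) (nat_lit 5) (nat_lit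 709) (nat_lit 5) (nat_lit 537) (nat_lit 525) (nat_lit 498)))) (XT.nd (nat_lit 156) (nat_lit 0) (nat_lit 0) (XT.nd (nat_lit 78) (nat_lit 836) (nat_lit 0) (XT.lf (nat_lit 76) (nat_lit 448033761) (nat_lit 0) (nat_lit 3882346425) (nat_lit 836) (nat_lit 2391554260) (nat_lit 699) (nat_lit 5) (nat_lit 698) (nat_lit 5) (nat_lit 709) (nat_lit 5) (nat_lit 538) (nat_lit 525) (nat_lit 497)) (XT.lf (nat_lit 0) (nat_lit 53329574) (nat_lit 836) (nat_lit 2560014724) (nat_lit 912) (nat_lit 4135407917) (nat_lit 687) (nat_lit 5) (nat_lit 698) (nat_lit 5) (nat_lit 699) (nat_lit 5) (nat_lit 539) (nat_lit 525) (nat_lit 496))) (XT.nd (nat_lit 78) (nat_lit 0) (nat_lit 76) (XT.lf (nat_lit 76) (nat_lit 1190443606) (nat_lit 0) (nat_lit 1274323885) (nat_lit 912) (nat_lit 4312042111) (nat_lit 688) (nat_lit 5) (nat_lit 687) (nat_lit 5) (nat_lit 699) (nat_lit 5) (nat_lit 540) (nat_lit 525) (nat_lit 495)) (XT.lf (nat_lit 0) (nat_lit 4885267742) (nat_lit 836) (nat_lit 1793698961) (nat_lit 76) (nat_lit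 127257522) (nat_lit 688) (nat_lit 5) (nat_lit 699) (nat_lit 5) (nat_lit 689) (nat_lit 5) (nat_lit 541) (nat_lit 525) (nat_lit 494))))))))
noncomputable def xc95 : XT := (XT.nd (nat_lit 1950) (nat_lit 12996) (nat_lit 0) (XT.nd (nat_lit 936) (nat_lit 12312) (nat_lit 0) (XT.nd (nat_lit 468) (nat_lit 3800) (nat_lit 0) (XT.nd (nat_lit 234) (nat_lit 2128) (nat_lit 0) (XT.nd (nat_lit 78) (nat_lit 912) (nat_lit 0) (XT.lf (nat_lit 0) (nat_lit 476770262) (nat_lit 912) (nat_lit 4784482027) (nat_lit 76) (nat_lit 1575607609) (nat_lit 676) (nat_lit 5) (nat_lit 688) (nat_lit 5) (nat_lit 677) (nat_lit 5) (nat_lit 542) (nat_lit 525) (nat_lit 493)) (XT.nd (nat_lit 78) (nat_lit 912) (nat_lit 0) (XT.lf (nat_lit 0) (nat_lit 2853412175) (nat_lit 912) (nat_lit 919243312) (nat_lit 76) (nat_lit 3096077226) (nat_lit 676) (nat_lit 5) (nat_lit 688) (nat_lit 5) (nat_lit 677) (nat_lit 5) (nat_lit 543) (nat_lit 525) (nat_lit 492)) (XT.lf (nat_lit 0) (nat_lit 3025465203) (nat_lit 912) (nat_lit 2217394283)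 (nat_lit 988) (nat_lit 1659089835) (nat_lit 664) (nat_lit 5) (nat_lit 676) (nat_lit 5) (nat_lit 677) (nat_lit 5) (nat_lit 544) (nat_lit 525) (nat_lit 491)))) (XT.nd (nat_lit 78) (nat_lit 1064) (nat_lit 0) (XT.lf (nat_lit 0) (nat_lit 84055381) (nat_lit 988) (nat_lit 603291469) (nat_lit 1064) (nat_lit 6249341244) (nat_lit 650) (nat_lit 5) (nat_lit 663) (nat_lit 5) (nat_lit 664) (nat_lit 5) (nat_lit 545) (nat_lit 525) (nat_lit 490)) (XT.nd (nat_lit 78) (nat_lit 1064) (nat_lit 0) (XT.lf (nat_lit 0) (nat_lit 3038474879) (nat_lit 1064) (nat_lit 2852099355) (nat_lit 76) (nat_lit 1081739628) (nat_lit 650) (nat_lit 5) (nat_lit 664) (nat_lit 5) (nat_lit 651) (nat_lit 5) (nat_lit 546) (nat_lit 525) (nat_lit 489)) (XT.lf (nat_lit 0) (nat_lit 1202059356) (nat_lit 1064) (nat_lit 4194404298) (nat_lit 1140) (nat_lit 1613002617) (nat_lit 636) (nat_lit 5) (nat_lit 650) (nat_lit 5) (nat_lit 651) (nat_lit 5) (nat_lit 547) (nat_lit 525) (nat_lit 488))))) (XT.nd (nat_lit 234) (nat_lit 2584)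 (nat_lit 0) (XT.nd (nat_lit 78) (nat_lit 1140) (nat_lit 0) (XT.lf (nat_lit 0) (nat_lit 712085716) (nat_lit 1140) (nat_lit 1714640185) (nat_lit 76) (nat_lit 4621193807) (nat_lit 635) (nat_lit 5) (nat_lit 650) (nat_lit 5) (nat_lit 636) (nat_lit 5) (nat_lit 548) (nat_lit 525) (nat_lit 487)) (XT.nd (nat_lit 78) (nat_lit 0) (nat_lit 0) (XT.lf (nat_lit 0) (nat_lit 2443503998) (nat_lit 1140) (nat_lit 583930845) (nat_lit 1216) (nat_lit 4060197251) (nat_lit 620) (nat_lit 5) (nat_lit 635) (nat_lit 5) (nat_lit 636) (nat_lit 5) (nat_lit 549) (nat_lit 525) (nat_lit 486)) (XT.lf (nat_lit 0) (nat_lit 5359383846) (nat_lit 1216) (nat_lit 467022601) (nat_lit 76) (nat_lit 1302336481) (nat_lit 620) (nat_lit 5) (nat_lit 636) (nat_lit 5) (nat_lit 621) (nat_lit 5) (nat_lit 550) (nat_lit 525) (nat_lit 485)))) (XT.nd (nat_lit 78) (nat_lit 1292) (nat_lit 0) (XT.lf (nat_lit 0) (nat_lit 539534969) (nat_lit 1292) (nat_lit 3372941288) (nat_lit 76) (nat_lit 3258542142) (nat_lit 603) (nat_lit 5) (nat_lit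 620) (nat_lit 5) (nat_lit 604) (nat_lit 5) (nat_lit 551) (nat_lit 525) (nat_lit 484)) (XT.nd (nat_lit 78) (nat_lit 0) (nat_lit 0) (XT.lf (nat_lit 0) (nat_lit 902508266) (nat_lit 1292) (nat_lit 1929099227) (nat_lit 1368) (nat_lit 4383093611) (nat_lit 586) (nat_lit 5) (nat_lit 603) (nat_lit 5) (nat_lit 604) (nat_lit 5) (nat_lit 552) (nat_lit 525) (nat_lit 483)) (XT.lf (nat_lit 0) (nat_lit 5145334189) (nat_lit 1368) (nat_lit 1989471567) (nat_lit 76) (nat_lit 124944748) (nat_lit 586) (nat_lit 5) (nat_lit 604) (nat_lit 5) (nat_lit 587) (nat_lit 5) (nat_lit 553) (nat_lit 525) (nat_lit 482)))))) (XT.nd (nat_lit 468) (nat_lit 6232) (nat_lit 0) (XT.nd (nat_lit 234) (nat_lit 3192) (nat_lit 0) (XT.nd (nat_lit 78) (nat_lit 1444) (nat_lit 0) (XT.lf (nat_lit 0) (nat_lit 178596180) (nat_lit 1444) (nat_lit 4907172977) (nat_lit 76) (nat_lit 2220283146) (nat_lit 567) (nat_lit 5) (nat_lit 586) (nat_lit 5) (nat_lit 568) (nat_lit 5) (nat_lit 554) (nat_lit 525) (nat_lit 481)) (XT.nd (nat_lit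 78) (nat_lit 1444) (nat_lit 0) (XT.lf (nat_lit 0) (nat_lit 2456327930) (nat_lit 1444) (nat_lit 503839366) (nat_lit 76) (nat_lit 4393498653) (nat_lit 567) (nat_lit 5) (nat_lit 586) (nat_lit 5) (nat_lit 568) (nat_lit 5) (nat_lit 555) (nat_lit 525) (nat_lit 480)) (XT.lf (nat_lit 0) (nat_lit 4002107994) (nat_lit 1444) (nat_lit 758104150) (nat_lit 1520) (nat_lit 2642416356) (nat_lit 548) (nat_lit 5) (nat_lit 567) (nat_lit 5) (nat_lit 568) (nat_lit 5) (nat_lit 556) (nat_lit 525) (nat_lit 479)))) (XT.nd (nat_lit 78) (nat_lit 1672) (nat_lit 0) (XT.lf (nat_lit 0) (nat_lit 1118851062) (nat_lit 1520) (nat_lit 5966956278) (nat_lit 1596) (nat_lit 367258713) (nat_lit 528) (nat_lit 5) (nat_lit 548) (nat_lit 5) (nat_lit 549) (nat_lit 5) (nat_lit 557) (nat_lit 525) (nat_lit 478)) (XT.nd (nat_lit 78) (nat_lit 1596) (nat_lit 0) (XT.lf (nat_lit 0) (nat_lit 1911405459) (nat_lit 1596) (nat_lit 1786189617) (nat_lit 76) (nat_lit 3806999265) (nat_lit 527) (nat_lit 5) (nat_lit 548) (nat_lit 5)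 (nat_lit 528) (nat_lit 5) (nat_lit 558) (nat_lit 525) (nat_lit 477)) (XT.lf (nat_lit 0) (nat_lit 2849516202) (nat_lit 1596) (nat_lit 1356216270) (nat_lit 1672) (nat_lit 3351879962) (nat_lit 506) (nat_lit 5) (nat_lit 527) (nat_lit 5) (nat_lit 528) (nat_lit 5) (nat_lit 559) (nat_lit 525) (nat_lit 476))))) (XT.nd (nat_lit 234) (nat_lit 2736) (nat_lit 0) (XT.nd (nat_lit 78) (nat_lit 3496) (nat_lit 0) (XT.lf (nat_lit 0) (nat_lit 6521852007) (nat_lit 1672) (nat_lit 54948439) (nat_lit 76) (nat_lit 1035380100) (nat_lit 506) (nat_lit 5) (nat_lit 528) (nat_lit 5) (nat_lit 507) (nat_lit 5) (nat_lit 560) (nat_lit 525) (nat_lit 475)) (XT.nd (nat_lit 78) (nat_lit 1748) (nat_lit 0) (XT.lf (nat_lit 0) (nat_lit 1197991641) (nat_lit 1748) (nat_lit 2969883306) (nat_lit 76) (nat_lit 3499864752) (nat_lit 483) (nat_lit 5) (nat_lit 506) (nat_lit 5) (nat_lit 484) (nat_lit 5) (nat_lit 561) (nat_lit 525) (nat_lit 474)) (XT.lf (nat_lit 0) (nat_lit 1800029055) (nat_lit 1748) (nat_lit 1687798156)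 (nat_lit 1824) (nat_lit 4237039042) (nat_lit 460) (nat_lit 5) (nat_lit 483) (nat_lit 5) (nat_lit 484) (nat_lit 5) (nat_lit 562) (nat_lit 525) (nat_lit 473)))) (XT.nd (nat_lit 156) (nat_lit 988) (nat_lit 0) (XT.nd (nat_lit 78) (nat_lit 1748) (nat_lit 0) (XT.lf (nat_lit 0) (nat_lit 5807853431) (nat_lit 1824) (nat_lit 1121749485) (nat_lit 76) (nat_lit 853851729) (nat_lit 460) (nat_lit 5) (nat_lit 484) (nat_lit 5) (nat_lit 461) (nat_lit 5) (nat_lit 563) (nat_lit 525) (nat_lit 472)) (XT.lf (nat_lit 0) (nat_lit 322062411) (nat_lit 1748) (nat_lit 4067914788) (nat_lit 76) (nat_lit 3453294741) (nat_lit 437) (nat_lit 5) (nat_lit 460) (nat_lit 5) (nat_lit 438) (nat_lit 5) (nat_lit 564) (nat_lit 525) (nat_lit 471))) (XT.nd (nat_lit 78) (nat_lit 0) (nat_lit 0) (XT.lf (nat_lit 0) (nat_lit 840836506) (nat_lit 988) (nat_lit 1771397605) (nat_lit 1064) (nat_lit 5292336903) (nat_lit 424) (nat_lit 5) (nat_lit 437) (nat_lit 5) (nat_lit 438) (nat_lit 5) (nat_lit 565) (nat_lit 525) (nat_lit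 470)) (XT.lf (nat_lit 0) (nat_lit 4942019936) (nat_lit 1064) (nat_lit 2108752799) (nat_lit 76) (nat_lit 916453760) (nat_lit 424) (nat_lit 5) (nat_lit 438) (nat_lit 5) (nat_lit 425) (nat_lit 5) (nat_lit 566) (nat_lit 525) (nat_lit 469))))))) (XT.nd (nat_lit 1014) (nat_lit 5396) (nat_lit 0) (XT.nd (nat_lit 468) (nat_lit 3952) (nat_lit 0) (XT.nd (nat_lit 234) (nat_lit 1748) (nat_lit 0) (XT.nd (nat_lit 78) (nat_lit 988) (nat_lit 0) (XT.lf (nat_lit 0) (nat_lit 2933754656) (nat_lit 912) (nat_lit 4376692047) (nat_lit 988) (nat_lit 720853985) (nat_lit 412) (nat_lit 5) (nat_lit 424) (nat_lit 5) (nat_lit 425) (nat_lit 5) (nat_lit 567) (nat_lit 525) (nat_lit 468)) (XT.nd (nat_lit 78) (nat_lit 912) (nat_lit 0) (XT.lf (nat_lit 0) (nat_lit 1583977030) (nat_lit 988) (nat_lit 39935495) (nat_lit 76) (nat_lit 6473023213) (nat_lit 411) (nat_lit 5) (nat_lit 424) (nat_lit 5) (nat_lit 412) (nat_lit 5) (nat_lit 568) (nat_lit 525) (nat_lit 467)) (XT.lf (nat_lit 0) (nat_lit 3928870271) (nat_lit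 988) (nat_lit 3028134407) (nat_lit 76) (nat_lit 1206717290) (nat_lit 399) (nat_lit 5) (nat_lit 412) (nat_lit 5) (nat_lit 400) (nat_lit 5) (nat_lit 569) (nat_lit 525) (nat_lit 466)))) (XT.nd (nat_lit 78) (nat_lit 912) (nat_lit 0) (XT.lf (nat_lit 0) (nat_lit 2162602654) (nat_lit 836) (nat_lit 4145891069) (nat_lit 912) (nat_lit 1923599565) (nat_lit 388) (nat_lit 5) (nat_lit 399) (nat_lit 5) (nat_lit 400) (nat_lit 5) (nat_lit 570) (nat_lit 525) (nat_lit 465)) (XT.nd (nat_lit 78) (nat_lit 836) (nat_lit 0) (XT.lf (nat_lit 0) (nat_lit 411642967) (nat_lit 912) (nat_lit 844748884) (nat_lit 76) (nat_lit 7045720507) (nat_lit 387) (nat_lit 5) (nat_lit 399) (nat_lit 5) (nat_lit 388) (nat_lit 5) (nat_lit 571) (nat_lit 525) (nat_lit 464)) (XT.lf (nat_lit 0) (nat_lit 2772000256) (nat_lit 912) (nat_lit 3891814402) (nat_lit 76) (nat_lit 1709385178) (nat_lit 376) (nat_lit 5) (nat_lit 388) (nat_lit 5) (nat_lit 377) (nat_lit 5) (nat_lit 572) (nat_lit 525) (nat_lit 463))))) (XT.nd (nat_lit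 234) (nat_lit 2280) (nat_lit 0) (XT.nd (nat_lit 78) (nat_lit 912) (nat_lit 0) (XT.lf (nat_lit 0) (nat_lit 1452308424) (nat_lit 760) (nat_lit 3714894504) (nat_lit 836) (nat_lit 3278758925) (nat_lit 366) (nat_lit 5) (nat_lit 376) (nat_lit 5) (nat_lit 377) (nat_lit 5) (nat_lit 573) (nat_lit 525) (nat_lit 462)) (XT.nd (nat_lit 78) (nat_lit 912) (nat_lit 0) (XT.lf (nat_lit 0) (nat_lit 6918041718) (nat_lit 760) (nat_lit 683021637) (nat_lit 836) (nat_lit 919306126) (nat_lit 366) (nat_lit 5) (nat_lit 376) (nat_lit 5) (nat_lit 377) (nat_lit 5) (nat_lit 574) (nat_lit 525) (nat_lit 461)) (XT.lf (nat_lit 0) (nat_lit 1474107450) (nat_lit 912) (nat_lit 4711551775) (nat_lit 76) (nat_lit 2410292568) (nat_lit 354) (nat_lit 5) (nat_lit 366) (nat_lit 5) (nat_lit 355) (nat_lit 5) (nat_lit 575) (nat_lit 525) (nat_lit 460)))) (XT.nd (nat_lit 156) (nat_lit 1520) (nat_lit 0) (XT.nd (nat_lit 78) (nat_lit 0) (nat_lit 0) (XT.lf (nat_lit 0) (nat_lit 791270298) (nat_lit 760) (nat_lit 3097822714)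 (nat_lit 836) (nat_lit 4784116075) (nat_lit 344) (nat_lit 5) (nat_lit 354) (nat_lit 5) (nat_lit 355) (nat_lit 5) (nat_lit 576) (nat_lit 525) (nat_lit 459)) (XT.lf (nat_lit 0) (nat_lit 6350462815) (nat_lit 836) (nat_lit 2322495679) (nat_lit 76) (nat_lit 79096371) (nat_lit 344) (nat_lit 5) (nat_lit 355) (nat_lit 5) (nat_lit 345) (nat_lit 5) (nat_lit 577) (nat_lit 525) (nat_lit 458))) (XT.nd (nat_lit 78) (nat_lit 684) (nat_lit 0) (XT.lf (nat_lit 0) (nat_lit 37009630) (nat_lit 836) (nat_lit 5499040019) (nat_lit 76) (nat_lit 3296252994) (nat_lit 333) (nat_lit 5) (nat_lit 344) (nat_lit 5) (nat_lit 334) (nat_lit 5) (nat_lit 578) (nat_lit 525) (nat_lit 457)) (XT.lf (nat_lit 0) (nat_lit 167942367) (nat_lit 684) (nat_lit 2307870504) (nat_lit 760) (nat_lit 6438358017) (nat_lit 324) (nat_lit 5) (nat_lit 333) (nat_lit 5) (nat_lit 334) (nat_lit 5) (nat_lit 579) (nat_lit 525) (nat_lit 456)))))) (XT.nd (nat_lit 468) (nat_lit 3192) (nat_lit 0) (XT.nd (nat_lit 234) (nat_lit 1368) (nat_lit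 0) (XT.nd (nat_lit 78) (nat_lit 836) (nat_lit 0) (XT.lf (nat_lit 0) (nat_lit 4974084395) (nat_lit 760) (nat_lit 3019177429) (nat_lit 76) (nat_lit 1004205477) (nat_lit 324) (nat_lit 5) (nat_lit 334) (nat_lit 5) (nat_lit 325) (nat_lit 5) (nat_lit 580) (nat_lit 525) (nat_lit 455)) (XT.nd (nat_lit 78) (nat_lit 76) (nat_lit 0) (XT.lf (nat_lit 0) (nat_lit 2806283260) (nat_lit 760) (nat_lit 4717338272) (nat_lit 836) (nat_lit 1558786664) (nat_lit 314) (nat_lit 5) (nat_lit 324) (nat_lit 5) (nat_lit 325) (nat_lit 5) (nat_lit 581) (nat_lit 525) (nat_lit 454)) (XT.lf (nat_lit 0) (nat_lit 930939126) (nat_lit 836) (nat_lit 423633879) (nat_lit 76) (nat_lit 7814587981) (nat_lit 313) (nat_lit 5) (nat_lit 324) (nat_lit 5) (nat_lit 314) (nat_lit 5) (nat_lit 582) (nat_lit 525) (nat_lit 453)))) (XT.nd (nat_lit 78) (nat_lit 684) (nat_lit 0) (XT.lf (nat_lit 0) (nat_lit 3468124796) (nat_lit 760) (nat_lit 3699534331) (nat_lit 76) (nat_lit 2089417176) (nat_lit 304) (nat_lit 5) (nat_lit 314) (nat_lit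 5) (nat_lit 305) (nat_lit 5) (nat_lit 583) (nat_lit 525) (nat_lit 452)) (XT.nd (nat_lit 78) (nat_lit 0) (nat_lit 0) (XT.lf (nat_lit 0) (nat_lit 2301145375) (nat_lit 684) (nat_lit 3750617918) (nat_lit 760) (nat_lit 3295076660) (nat_lit 295) (nat_lit 5) (nat_lit 304) (nat_lit 5) (nat_lit 305) (nat_lit 5) (nat_lit 584) (nat_lit 525) (nat_lit 451)) (XT.lf (nat_lit 0) (nat_lit 8434797337) (nat_lit 684) (nat_lit 246406918) (nat_lit 760) (nat_lit 757316154) (nat_lit 295) (nat_lit 5) (nat_lit 304) (nat_lit 5) (nat_lit 305) (nat_lit 5) (nat_lit 585) (nat_lit 525) (nat_lit 450))))) (XT.nd (nat_lit 234) (nat_lit 1824) (nat_lit 0) (XT.nd (nat_lit 78) (nat_lit 684) (nat_lit 0) (XT.lf (nat_lit 0) (nat_lit 1832371713) (nat_lit 684) (nat_lit 4375354573) (nat_lit 76) (nat_lit 3323570595) (nat_lit 286) (nat_lit 5) (nat_lit 295) (nat_lit 5) (nat_lit 287) (nat_lit 5) (nat_lit 586) (nat_lit 525) (nat_lit 449)) (XT.nd (nat_lit 78) (nat_lit 0) (nat_lit 0) (XT.lf (nat_lit 0) (nat_lit 1806428737)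 (nat_lit 684) (nat_lit 2647449453) (nat_lit 760) (nat_lit 5172151158) (nat_lit 277) (nat_lit 5) (nat_lit 286) (nat_lit 5) (nat_lit 287) (nat_lit 5) (nat_lit 587) (nat_lit 525) (nat_lit 448)) (XT.lf (nat_lit 0) (nat_lit 7134075209) (nat_lit 760) (nat_lit 1594984066) (nat_lit 76) (nat_lit 993475793) (nat_lit 277) (nat_lit 5) (nat_lit 287) (nat_lit 5) (nat_lit 278) (nat_lit 5) (nat_lit 588) (nat_lit 525) (nat_lit 447)))) (XT.nd (nat_lit 156) (nat_lit 532) (nat_lit 0) (XT.nd (nat_lit 78) (nat_lit 608) (nat_lit 0) (XT.lf (nat_lit 0) (nat_lit 65765407) (nat_lit 684) (nat_lit 5058722989) (nat_lit 76) (nat_lit 4696090574) (nat_lit 268) (nat_lit 5) (nat_lit 277) (nat_lit 5) (nat_lit 269) (nat_lit 5) (nat_lit 589) (nat_lit 525) (nat_lit 446)) (XT.lf (nat_lit 0) (nat_lit 1310153663) (nat_lit 608) (nat_lit 1418612404) (nat_lit 684) (nat_lit 7191672074) (nat_lit 260) (nat_lit 5) (nat_lit 268) (nat_lit 5) (nat_lit 269) (nat_lit 5) (nat_lit 590) (nat_lit 525) (nat_lit 445))) (XT.nd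 (nat_lit 78) (nat_lit 532) (nat_lit 0) (XT.lf (nat_lit 0) (nat_lit 5465845204) (nat_lit 684) (nat_lit 2199372977) (nat_lit 76) (nat_lit 2356663467) (nat_lit 260) (nat_lit 5) (nat_lit 269) (nat_lit 5) (nat_lit 261) (nat_lit 5) (nat_lit 591) (nat_lit 525) (nat_lit 444)) (XT.lf (nat_lit 0) (nat_lit 4350973693) (nat_lit 532) (nat_lit 3916214173) (nat_lit 608) (nat_lit 1857979175) (nat_lit 253) (nat_lit 5) (nat_lit 260) (nat_lit 5) (nat_lit 261) (nat_lit 5) (nat_lit 592) (nat_lit 525) (nat_lit 443))))))))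
noncomputable def xc96 : XT := (XT.nd (nat_lit 1950) (nat_lit 5168) (nat_lit 0) (XT.nd (nat_lit 936) (nat_lit 3572) (nat_lit 0) (XT.nd (nat_lit 468) (nat_lit 2128) (nat_lit 0) (XT.nd (nat_lit 234) (nat_lit 1140) (nat_lit 0) (XT.nd (nat_lit 78) (nat_lit 532) (nat_lit 0) (XT.lf (nat_lit 0) (nat_lit 799918451) (nat_lit 608) (nat_lit 74452161) (nat_lit 684) (nat_lit 9356193616) (nat_lit 244) (nat_lit 5) (nat_lit 252) (nat_lit 5) (nat_lit 253) (nat_lit 5) (nat_lit 593) (nat_lit 525) (nat_lit 442)) (XT.nd (nat_lit 78) (nat_lit 532) (nat_lit 0) (XT.lf (nat_lit 0) (nat_lit 3672738737) (nat_lit 684) (nat_lit 2827878539) (nat_lit 76) (nat_lit 3836484718) (nat_lit 244) (nat_lit 5) (nat_lit 253) (nat_lit 5) (nat_lit 245) (nat_lit 5) (nat_lit 594) (nat_lit 525) (nat_lit 441)) (XT.lf (nat_lit 0) (nat_lit 3921760589) (nat_lit 532) (nat_lit 2604076427) (nat_lit 608) (nat_lit 3919961435) (nat_lit 237) (nat_lit 5) (nat_lit 244) (nat_lit 5) (nat_lit 245) (nat_lit 5) (nat_lit 595) (nat_lit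 525) (nat_lit 440)))) (XT.nd (nat_lit 78) (nat_lit 608) (nat_lit 0) (XT.lf (nat_lit 0) (nat_lit 246272645) (nat_lit 532) (nat_lit 9192372174) (nat_lit 608) (nat_lit 1117974194) (nat_lit 230) (nat_lit 5) (nat_lit 237) (nat_lit 5) (nat_lit 238) (nat_lit 5) (nat_lit 596) (nat_lit 525) (nat_lit 439)) (XT.nd (nat_lit 78) (nat_lit 532) (nat_lit 0) (XT.lf (nat_lit 0) (nat_lit 1751710041) (nat_lit 608) (nat_lit 3493679314) (nat_lit 76) (nat_lit 5423354119) (nat_lit 229) (nat_lit 5) (nat_lit 237) (nat_lit 5) (nat_lit 230) (nat_lit 5) (nat_lit 597) (nat_lit 525) (nat_lit 438)) (XT.lf (nat_lit 0) (nat_lit 3461541224) (nat_lit 532) (nat_lit 1198455048) (nat_lit 608) (nat_lit 6123045743) (nat_lit 222) (nat_lit 5) (nat_lit 229) (nat_lit 5) (nat_lit 230) (nat_lit 5) (nat_lit 598) (nat_lit 525) (nat_lit 437))))) (XT.nd (nat_lit 234) (nat_lit 1064) (nat_lit 0) (XT.nd (nat_lit 78) (nat_lit 1064) (nat_lit 0) (XT.lf (nat_lit 0) (nat_lit 7642980390) (nat_lit 608) (nat_lit 351109767) (nat_lit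 76) (nat_lit 2905208617) (nat_lit 222) (nat_lit 5) (nat_lit 230) (nat_lit 5) (nat_lit 223) (nat_lit 5) (nat_lit 599) (nat_lit 525) (nat_lit 436)) (XT.nd (nat_lit 78) (nat_lit 532) (nat_lit 0) (XT.lf (nat_lit 0) (nat_lit 6804702025) (nat_lit 532) (nat_lit 3907463855) (nat_lit 608) (nat_lit 305186787) (nat_lit 215) (nat_lit 5) (nat_lit 222) (nat_lit 5) (nat_lit 223) (nat_lit 5) (nat_lit 600) (nat_lit 525) (nat_lit 435)) (XT.lf (nat_lit 0) (nat_lit 2667474696) (nat_lit 532) (nat_lit 8182924557) (nat_lit 76) (nat_lit 287060190) (nat_lit 208) (nat_lit 5) (nat_lit 215) (nat_lit 5) (nat_lit 209) (nat_lit 5) (nat_lit 601) (nat_lit 525) (nat_lit 434)))) (XT.nd (nat_lit 78) (nat_lit 1064) (nat_lit 0) (XT.lf (nat_lit 0) (nat_lit 5724574498) (nat_lit 532) (nat_lit 1000934042) (nat_lit 76) (nat_lit 4533840708) (nat_lit 208) (nat_lit 5) (nat_lit 215) (nat_lit 5) (nat_lit 209) (nat_lit 5) (nat_lit 602) (nat_lit 525) (nat_lit 433)) (XT.nd (nat_lit 78) (nat_lit 532) (nat_lit 0) (XT.lf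 (nat_lit 0) (nat_lit 6373369243) (nat_lit 532) (nat_lit 2486056762) (nat_lit 608) (nat_lit 2523921267) (nat_lit 201) (nat_lit 5) (nat_lit 208) (nat_lit 5) (nat_lit 209) (nat_lit 5) (nat_lit 603) (nat_lit 525) (nat_lit 432)) (XT.lf (nat_lit 0) (nat_lit 549627629) (nat_lit 532) (nat_lit 9130051338) (nat_lit 76) (nat_lit 1829884670) (nat_lit 194) (nat_lit 5) (nat_lit 201) (nat_lit 5) (nat_lit 195) (nat_lit 5) (nat_lit 604) (nat_lit 525) (nat_lit 431)))))) (XT.nd (nat_lit 468) (nat_lit 1748) (nat_lit 0) (XT.nd (nat_lit 234) (nat_lit 912) (nat_lit 0) (XT.nd (nat_lit 78) (nat_lit 912) (nat_lit 0) (XT.lf (nat_lit 0) (nat_lit 3676705842) (nat_lit 532) (nat_lit 1721538007) (nat_lit 76) (nat_lit 6239212211) (nat_lit 194) (nat_lit 5) (nat_lit 201) (nat_lit 5) (nat_lit 195) (nat_lit 5) (nat_lit 605) (nat_lit 525) (nat_lit 430)) (XT.nd (nat_lit 78) (nat_lit 456) (nat_lit 0) (XT.lf (nat_lit 0) (nat_lit 5877714472) (nat_lit 456) (nat_lit 1002769114) (nat_lit 532) (nat_lit 4887142003)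 (nat_lit 188) (nat_lit 5) (nat_lit 194) (nat_lit 5) (nat_lit 195) (nat_lit 5) (nat_lit 606) (nat_lit 525) (nat_lit 429)) (XT.lf (nat_lit 0) (nat_lit 1717267348) (nat_lit 456) (nat_lit 8452622141) (nat_lit 532) (nat_lit 1730080339) (nat_lit 182) (nat_lit 5) (nat_lit 188) (nat_lit 5) (nat_lit 189) (nat_lit 5) (nat_lit 607) (nat_lit 525) (nat_lit 428)))) (XT.nd (nat_lit 78) (nat_lit 836) (nat_lit 0) (XT.lf (nat_lit 0) (nat_lit 1493266783) (nat_lit 532) (nat_lit 2529109120) (nat_lit 76) (nat_lit 8011940080) (nat_lit 181) (nat_lit 5) (nat_lit 188) (nat_lit 5) (nat_lit 182) (nat_lit 5) (nat_lit 608) (nat_lit 525) (nat_lit 427)) (XT.nd (nat_lit 78) (nat_lit 380) (nat_lit 0) (XT.lf (nat_lit 0) (nat_lit 4772540582) (nat_lit 532) (nat_lit 6872834832) (nat_lit 76) (nat_lit 525454655) (nat_lit 175) (nat_lit 5) (nat_lit 182) (nat_lit 5) (nat_lit 176) (nat_lit 5) (nat_lit 609) (nat_lit 525) (nat_lit 426)) (XT.lf (nat_lit 0) (nat_lit 957723643) (nat_lit 380) (nat_lit 7186508556) (nat_lit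 456) (nat_lit 4165307779) (nat_lit 170) (nat_lit 5) (nat_lit 175) (nat_lit 5) (nat_lit 176) (nat_lit 5) (nat_lit 610) (nat_lit 525) (nat_lit 425))))) (XT.nd (nat_lit 234) (nat_lit 836) (nat_lit 0) (XT.nd (nat_lit 78) (nat_lit 912) (nat_lit 0) (XT.lf (nat_lit 0) (nat_lit 9004006026) (nat_lit 380) (nat_lit 2602595852) (nat_lit 456) (nat_lit 843959471) (nat_lit 170) (nat_lit 5) (nat_lit 175) (nat_lit 5) (nat_lit 176) (nat_lit 5) (nat_lit 611) (nat_lit 525) (nat_lit 424)) (XT.nd (nat_lit 78) (nat_lit 380) (nat_lit 0) (XT.lf (nat_lit 0) (nat_lit 2531614015) (nat_lit 532) (nat_lit 7980323267) (nat_lit 76) (nat_lit 2081714389) (nat_lit 163) (nat_lit 5) (nat_lit 170) (nat_lit 5) (nat_lit 164) (nat_lit 5) (nat_lit 612) (nat_lit 525) (nat_lit 423)) (XT.lf (nat_lit 0) (nat_lit 86301215) (nat_lit 380) (nat_lit 5895760273) (nat_lit 456) (nat_lit 6757059501) (nat_lit 158) (nat_lit 5) (nat_lit 163) (nat_lit 5) (nat_lit 164) (nat_lit 5) (nat_lit 613) (nat_lit 525) (nat_lit 422)))) (XT.nd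 (nat_lit 156) (nat_lit 380) (nat_lit 0) (XT.nd (nat_lit 78) (nat_lit 456) (nat_lit 0) (XT.lf (nat_lit 0) (nat_lit 8388816063) (nat_lit 380) (nat_lit 1144050597) (nat_lit 456) (nat_lit 3354008041) (nat_lit 158) (nat_lit 5) (nat_lit 163) (nat_lit 5) (nat_lit 164) (nat_lit 5) (nat_lit 614) (nat_lit 525) (nat_lit 421)) (XT.lf (nat_lit 0) (nat_lit 142697660) (nat_lit 456) (nat_lit 9225550025) (nat_lit 76) (nat_lit 3668779922) (nat_lit 152) (nat_lit 5) (nat_lit 158) (nat_lit 5) (nat_lit 153) (nat_lit 5) (nat_lit 615) (nat_lit 525) (nat_lit 420))) (XT.nd (nat_lit 78) (nat_lit 380) (nat_lit 0) (XT.lf (nat_lit 0) (nat_lit 3680657517) (nat_lit 456) (nat_lit 904786324) (nat_lit 76) (nat_lit 8603973594) (nat_lit 152) (nat_lit 5) (nat_lit 158) (nat_lit 5) (nat_lit 153) (nat_lit 5) (nat_lit 616) (nat_lit 525) (nat_lit 419)) (XT.lf (nat_lit 0) (nat_lit 7319857149) (nat_lit 456) (nat_lit 5696464450) (nat_lit 76) (nat_lit 327925682) (nat_lit 147) (nat_lit 5) (nat_lit 153) (nat_lit 5)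 (nat_lit 148) (nat_lit 5) (nat_lit 617) (nat_lit 525) (nat_lit 418))))))) (XT.nd (nat_lit 936) (nat_lit 2356) (nat_lit 0) (XT.nd (nat_lit 468) (nat_lit 1292) (nat_lit 0) (XT.nd (nat_lit 234) (nat_lit 760) (nat_lit 0) (XT.nd (nat_lit 78) (nat_lit 380) (nat_lit 0) (XT.lf (nat_lit 0) (nat_lit 2855787061) (nat_lit 380) (nat_lit 8209862203) (nat_lit 456) (nat_lit 2435850086) (nat_lit 142) (nat_lit 5) (nat_lit 147) (nat_lit 5) (nat_lit 148) (nat_lit 5) (nat_lit 618) (nat_lit 525) (nat_lit 417)) (XT.nd (nat_lit 78) (nat_lit 304) (nat_lit 0) (XT.lf (nat_lit 0) (nat_lit 1225732026) (nat_lit 456) (nat_lit 2045976333) (nat_lit 76) (nat_lit 10389684223) (nat_lit 141) (nat_lit 5) (nat_lit 147) (nat_lit 5) (nat_lit 142) (nat_lit 5) (nat_lit 619) (nat_lit 525) (nat_lit 416)) (XT.lf (nat_lit 0) (nat_lit 4962939166) (nat_lit 380) (nat_lit 7069417377) (nat_lit 76) (nat_lit 1791106620) (nat_lit 137) (nat_lit 5) (nat_lit 142) (nat_lit 5) (nat_lit 138) (nat_lit 5) (nat_lit 620) (nat_lit 525)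 (nat_lit 415)))) (XT.nd (nat_lit 78) (nat_lit 380) (nat_lit 0) (XT.lf (nat_lit 0) (nat_lit 1737915816) (nat_lit 380) (nat_lit 7063134608) (nat_lit 456) (nat_lit 5187203193) (nat_lit 132) (nat_lit 5) (nat_lit 137) (nat_lit 5) (nat_lit 138) (nat_lit 5) (nat_lit 621) (nat_lit 525) (nat_lit 414)) (XT.nd (nat_lit 78) (nat_lit 380) (nat_lit 0) (XT.lf (nat_lit 0) (nat_lit 10785015856) (nat_lit 380) (nat_lit 1957931417) (nat_lit 456) (nat_lit 1412853765) (nat_lit 132) (nat_lit 5) (nat_lit 137) (nat_lit 5) (nat_lit 138) (nat_lit 5) (nat_lit 622) (nat_lit 525) (nat_lit 413)) (XT.lf (nat_lit 0) (nat_lit 2443339500) (nat_lit 380) (nat_lit 8633791463) (nat_lit 76) (nat_lit 3248487193) (nat_lit 127) (nat_lit 5) (nat_lit 132) (nat_lit 5) (nat_lit 128) (nat_lit 5) (nat_lit 623) (nat_lit 525) (nat_lit 412))))) (XT.nd (nat_lit 234) (nat_lit 684) (nat_lit 0) (XT.nd (nat_lit 78) (nat_lit 304) (nat_lit 0) (XT.lf (nat_lit 0) (nat_lit 434265175) (nat_lit 304) (nat_lit 5942010473) (nat_lit 380)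 (nat_lit 8121999979) (nat_lit 123) (nat_lit 5) (nat_lit 127) (nat_lit 5) (nat_lit 128) (nat_lit 5) (nat_lit 624) (nat_lit 525) (nat_lit 411)) (XT.nd (nat_lit 78) (nat_lit 304) (nat_lit 0) (XT.lf (nat_lit 0) (nat_lit 9768965653) (nat_lit 304) (nat_lit 656992802) (nat_lit 380) (nat_lit 4247667539) (nat_lit 123) (nat_lit 5) (nat_lit 127) (nat_lit 5) (nat_lit 128) (nat_lit 5) (nat_lit 625) (nat_lit 525) (nat_lit 410)) (XT.lf (nat_lit 0) (nat_lit 4433850061) (nat_lit 304) (nat_lit 10162770932) (nat_lit 380) (nat_lit 255064125) (nat_lit 119) (nat_lit 5) (nat_lit 123) (nat_lit 5) (nat_lit 124) (nat_lit 5) (nat_lit 626) (nat_lit 525) (nat_lit 409)))) (XT.nd (nat_lit 78) (nat_lit 608) (nat_lit 0) (XT.lf (nat_lit 0) (nat_lit 3785322085) (nat_lit 380) (nat_lit 1067882956) (nat_lit 76) (nat_lit 10179246170) (nat_lit 118) (nat_lit 5) (nat_lit 123) (nat_lit 5) (nat_lit 119) (nat_lit 5) (nat_lit 627) (nat_lit 525) (nat_lit 408)) (XT.nd (nat_lit 78) (nat_lit 304) (nat_lit 0) (XT.lf (nat_lit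 0) (nat_lit 7943458761) (nat_lit 380) (nat_lit 6671410222) (nat_lit 76) (nat_lit 601124151) (nat_lit 114) (nat_lit 5) (nat_lit 119) (nat_lit 5) (nat_lit 115) (nat_lit 5) (nat_lit 628) (nat_lit 525) (nat_lit 407)) (XT.lf (nat_lit 0) (nat_lit 2936050515) (nat_lit 304) (nat_lit 9288120320) (nat_lit 380) (nat_lit 3178248168) (nat_lit 110) (nat_lit 5) (nat_lit 114) (nat_lit 5) (nat_lit 115) (nat_lit 5) (nat_lit 629) (nat_lit 525) (nat_lit 406)))))) (XT.nd (nat_lit 468) (nat_lit 1368) (nat_lit 0) (XT.nd (nat_lit 234) (nat_lit 380) (nat_lit 0) (XT.nd (nat_lit 78) (nat_lit 532) (nat_lit 0) (XT.lf (nat_lit 0) (nat_lit 1010943684) (nat_lit 380) (nat_lit 2803389308) (nat_lit 76) (nat_lit 11777589966) (nat_lit 109) (nat_lit 5) (nat_lit 114) (nat_lit 5) (nat_lit 110) (nat_lit 5) (nat_lit 630) (nat_lit 525) (nat_lit 405)) (XT.nd (nat_lit 78) (nat_lit 228) (nat_lit 0) (XT.lf (nat_lit 0) (nat_lit 5280731222) (nat_lit 380) (nat_lit 8701674739) (nat_lit 76) (nat_lit 1801604777) (nat_lit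 105) (nat_lit 5) (nat_lit 110) (nat_lit 5) (nat_lit 106) (nat_lit 5) (nat_lit 631) (nat_lit 525) (nat_lit 404)) (XT.lf (nat_lit 0) (nat_lit 1183840431) (nat_lit 228) (nat_lit 8485463653) (nat_lit 304) (nat_lit 6309969656) (nat_lit 102) (nat_lit 5) (nat_lit 105) (nat_lit 5) (nat_lit 106) (nat_lit 5) (nat_lit 632) (nat_lit 525) (nat_lit 403)))) (XT.nd (nat_lit 78) (nat_lit 380) (nat_lit 0) (XT.lf (nat_lit 0) (nat_lit 11354706897) (nat_lit 228) (nat_lit 2831006153) (nat_lit 304) (nat_lit 1991928893) (nat_lit 102) (nat_lit 5) (nat_lit 105) (nat_lit 5) (nat_lit 106) (nat_lit 5) (nat_lit 633) (nat_lit 525) (nat_lit 402)) (XT.nd (nat_lit 78) (nat_lit 0) (nat_lit 0) (XT.lf (nat_lit 0) (nat_lit 2416958100) (nat_lit 380) (nat_lit 11024783730) (nat_lit 76) (nat_lit 2937201089) (nat_lit 97) (nat_lit 5) (nat_lit 102) (nat_lit 5) (nat_lit 98) (nat_lit 5) (nat_lit 634) (nat_lit 525) (nat_lit 401)) (XT.lf (nat_lit 0) (nat_lit 6920698609) (nat_lit 380) (nat_lit 845650946) (nat_lit 76)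 (nat_lit 8816991234) (nat_lit 97) (nat_lit 5) (nat_lit 102) (nat_lit 5) (nat_lit 98) (nat_lit 5) (nat_lit 635) (nat_lit 525) (nat_lit 400))))) (XT.nd (nat_lit 234) (nat_lit 760) (nat_lit 0) (XT.nd (nat_lit 78) (nat_lit 380) (nat_lit 0) (XT.lf (nat_lit 0) (nat_lit 9633959245) (nat_lit 228) (nat_lit 1925453383) (nat_lit 304) (nat_lit 5231517154) (nat_lit 94) (nat_lit 5) (nat_lit 97) (nat_lit 5) (nat_lit 98) (nat_lit 5) (nat_lit 636) (nat_lit 525) (nat_lit 399)) (XT.nd (nat_lit 78) (nat_lit 76) (nat_lit 0) (XT.lf (nat_lit 0) (nat_lit 3319853194) (nat_lit 304) (nat_lit 13006923236) (nat_lit 380) (nat_lit 675177731) (nat_lit 90) (nat_lit 5) (nat_lit 94) (nat_lit 5) (nat_lit 95) (nat_lit 5) (nat_lit 637) (nat_lit 525) (nat_lit 398)) (XT.lf (nat_lit 0) (nat_lit 3963753604) (nat_lit 380) (nat_lit 3181447560) (nat_lit 76) (nat_lit 10070611875) (nat_lit 89) (nat_lit 5) (nat_lit 94) (nat_lit 5) (nat_lit 90) (nat_lit 5) (nat_lit 638) (nat_lit 525) (nat_lit 397)))) (XT.nd (nat_lit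 156) (nat_lit 304) (nat_lit 0) (XT.nd (nat_lit 78) (nat_lit 228) (nat_lit 0) (XT.lf (nat_lit 0) (nat_lit 7595365106) (nat_lit 228) (nat_lit 1123190193) (nat_lit 304) (nat_lit 8714662943) (nat_lit 86) (nat_lit 5) (nat_lit 89) (nat_lit 5) (nat_lit 90) (nat_lit 5) (nat_lit 639) (nat_lit 525) (nat_lit 396)) (XT.lf (nat_lit 0) (nat_lit 926646512) (nat_lit 228) (nat_lit 12684785269) (nat_lit 304) (nat_lit 4042681224) (nat_lit 83) (nat_lit 5) (nat_lit 86) (nat_lit 5) (nat_lit 87) (nat_lit 5) (nat_lit 640) (nat_lit 525) (nat_lit 395))) (XT.nd (nat_lit 78) (nat_lit 228) (nat_lit 0) (XT.lf (nat_lit 0) (nat_lit 770072118) (nat_lit 304) (nat_lit 5879990958) (nat_lit 76) (nat_lit 11228133511) (nat_lit 82) (nat_lit 5) (nat_lit 86) (nat_lit 5) (nat_lit 83) (nat_lit 5) (nat_lit 641) (nat_lit 525) (nat_lit 394)) (XT.lf (nat_lit 0) (nat_lit 5197287046) (nat_lit 228) (nat_lit 444709895) (nat_lit 304) (nat_lit 12463890473) (nat_lit 79) (nat_lit 5) (nat_lit 82) (nat_lit 5) (nat_lit 83) (nat_lit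 5) (nat_lit 642) (nat_lit 525) (nat_lit 393))))))))
noncomputable def xc97 : XT := (XT.nd (nat_lit 73398) (nat_lit 0) (nat_lit 26600) (XT.nd (nat_lit 72384) (nat_lit 0) (nat_lit 46588) (XT.nd (nat_lit 468) (nat_lit 532) (nat_lit 0) (XT.nd (nat_lit 234) (nat_lit 228) (nat_lit 0) (XT.nd (nat_lit 78) (nat_lit 532) (nat_lit 0) (XT.lf (nat_lit 0) (nat_lit 10672608219) (nat_lit 304) (nat_lit 1828603136) (nat_lit 76) (nat_lit 5835696695) (nat_lit 79) (nat_lit 5) (nat_lit 83) (nat_lit 5) (nat_lit 80) (nat_lit 5) (nat_lit 643) (nat_lit 525) (nat_lit 392)) (XT.nd (nat_lit 78) (nat_lit 304) (nat_lit 0) (XT.lf (nat_lit 0) (nat_lit 9567482450) (nat_lit 228) (nat_lit 6285060961) (nat_lit 304) (nat_lit 2719032389) (nat_lit 76) (nat_lit 5) (nat_lit 79) (nat_lit 5) (nat_lit 80) (nat_lit 5) (nat_lit 644) (nat_lit 525) (nat_lit 391)) (XT.lf (nat_lit 0) (nat_lit 2306787300) (nat_lit 304) (nat_lit 16417249616) (nat_lit 76) (nat_lit 86356130) (nat_lit 72) (nat_lit 5) (nat_lit 76) (nat_lit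 5) (nat_lit 73) (nat_lit 5) (nat_lit 645) (nat_lit 525) (nat_lit 390)))) (XT.nd (nat_lit 78) (nat_lit 228) (nat_lit 0) (XT.lf (nat_lit 0) (nat_lit 7482937308) (nat_lit 304) (nat_lit 5000573048) (nat_lit 76) (nat_lit 6568393269) (nat_lit 72) (nat_lit 5) (nat_lit 76) (nat_lit 5) (nat_lit 73) (nat_lit 5) (nat_lit 646) (nat_lit 525) (nat_lit 389)) (XT.nd (nat_lit 78) (nat_lit 0) (nat_lit 0) (XT.lf (nat_lit 0) (nat_lit 6704780519) (nat_lit 228) (nat_lit 6085422917) (nat_lit 304) (nat_lit 6507489981) (nat_lit 69) (nat_lit 5) (nat_lit 72) (nat_lit 5) (nat_lit 73) (nat_lit 5) (nat_lit 647) (nat_lit 525) (nat_lit 388)) (XT.lf (nat_lit 0) (nat_lit 18224374885) (nat_lit 304) (nat_lit 866436698) (nat_lit 76) (nat_lit 457173069) (nat_lit 69) (nat_lit 5) (nat_lit 73) (nat_lit 5) (nat_lit 70) (nat_lit 5) (nat_lit 648) (nat_lit 525) (nat_lit 387))))) (XT.nd (nat_lit 71682) (nat_lit 0) (nat_lit 50236) (XT.nd (nat_lit 78) (nat_lit 228) (nat_lit 0) (XT.lf (nat_lit 0) (nat_lit 4009883308)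 (nat_lit 304) (nat_lit 8654013222) (nat_lit 76) (nat_lit 7136912801) (nat_lit 65) (nat_lit 5) (nat_lit 69) (nat_lit 5) (nat_lit 66) (nat_lit 5) (nat_lit 649) (nat_lit 525) (nat_lit 386)) (XT.nd (nat_lit 71526) (nat_lit 0) (nat_lit 50768) (XT.lf (nat_lit 0) (nat_lit 3361610324) (nat_lit 228) (nat_lit 6082867095) (nat_lit 304) (nat_lit 10613795814) (nat_lit 62) (nat_lit 5) (nat_lit 65) (nat_lit 5) (nat_lit 66) (nat_lit 5) (nat_lit 650) (nat_lit 525) (nat_lit 385)) (XT.lf (nat_lit 0) (nat_lit 1262438840) (nat_lit 532) (nat_lit 996518253) (nat_lit 532) (nat_lit 996518253) (nat_lit 730) (nat_lit 3) (nat_lit 737) (nat_lit 3) (nat_lit 737) (nat_lit 5) (nat_lit 526) (nat_lit 526) (nat_lit 508)))) (XT.nd (nat_lit 78) (nat_lit 532) (nat_lit 0) (XT.lf (nat_lit 76) (nat_lit 1228781043) (nat_lit 0) (nat_lit 3935858433) (nat_lit 532) (nat_lit 1358449343) (nat_lit 731) (nat_lit 5) (nat_lit 730) (nat_lit 3) (nat_lit 737) (nat_lit 5) (nat_lit 527) (nat_lit 526) (nat_lit 507)) (XT.nd (nat_lit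 78) (nat_lit 0) (nat_lit 0) (XT.lf (nat_lit 0) (nat_lit 1248783266) (nat_lit 532) (nat_lit 2038098003) (nat_lit 608) (nat_lit 3249546499) (nat_lit 723) (nat_lit 5) (nat_lit 730) (nat_lit 3) (nat_lit 731) (nat_lit 5) (nat_lit 528) (nat_lit 526) (nat_lit 506)) (XT.lf (nat_lit 76) (nat_lit 1255135488) (nat_lit 0) (nat_lit 2575284183) (nat_lit 608) (nat_lit 2720642435) (nat_lit 724) (nat_lit 5) (nat_lit 723) (nat_lit 5) (nat_lit 731) (nat_lit 5) (nat_lit 529) (nat_lit 526) (nat_lit 505)))))) (XT.nd (nat_lit 468) (nat_lit 2432) (nat_lit 0) (XT.nd (nat_lit 234) (nat_lit 608) (nat_lit 0) (XT.nd (nat_lit 78) (nat_lit 608) (nat_lit 0) (XT.lf (nat_lit 76) (nat_lit 4606529134) (nat_lit 0) (nat_lit 1804217381) (nat_lit 608) (nat_lit 156318297) (nat_lit 724) (nat_lit 5) (nat_lit 723) (nat_lit 5) (nat_lit 731) (nat_lit 5) (nat_lit 530) (nat_lit 526) (nat_lit 504)) (XT.nd (nat_lit 78) (nat_lit 0) (nat_lit 0) (XT.lf (nat_lit 76) (nat_lit 1408540166) (nat_lit 0) (nat_lit 961881705) (nat_lit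 684) (nat_lit 4213794864) (nat_lit 716) (nat_lit 5) (nat_lit 715) (nat_lit 5) (nat_lit 724) (nat_lit 5) (nat_lit 531) (nat_lit 526) (nat_lit 503)) (XT.lf (nat_lit 76) (nat_lit 4835229055) (nat_lit 0) (nat_lit 58824773) (nat_lit 684) (nat_lit 1708684065) (nat_lit 716) (nat_lit 5) (nat_lit 715) (nat_lit 5) (nat_lit 724) (nat_lit 5) (nat_lit 532) (nat_lit 526) (nat_lit 502)))) (XT.nd (nat_lit 78) (nat_lit 0) (nat_lit 0) (XT.lf (nat_lit 0) (nat_lit 788423306) (nat_lit 684) (nat_lit 4938460797) (nat_lit 760) (nat_lit 895590762) (nat_lit 707) (nat_lit 5) (nat_lit 716) (nat_lit 5) (nat_lit 717) (nat_lit 5) (nat_lit 533) (nat_lit 526) (nat_lit 501)) (XT.nd (nat_lit 78) (nat_lit 0) (nat_lit 0) (XT.lf (nat_lit 0) (nat_lit 3262278721) (nat_lit 684) (nat_lit 1462311587) (nat_lit 760) (nat_lit 1918811625) (nat_lit 707) (nat_lit 5) (nat_lit 716) (nat_lit 5) (nat_lit 717) (nat_lit 5) (nat_lit 534) (nat_lit 526) (nat_lit 500)) (XT.lf (nat_lit 76) (nat_lit 2074603915) (nat_lit 0) (nat_lit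 3663040521) (nat_lit 760) (nat_lit 928077100) (nat_lit 708) (nat_lit 5) (nat_lit 707) (nat_lit 5) (nat_lit 717) (nat_lit 5) (nat_lit 535) (nat_lit 526) (nat_lit 499))))) (XT.nd (nat_lit 234) (nat_lit 1672) (nat_lit 0) (XT.nd (nat_lit 78) (nat_lit 0) (nat_lit 0) (XT.lf (nat_lit 0) (nat_lit 1502385661) (nat_lit 760) (nat_lit 1033048169) (nat_lit 836) (nat_lit 4153883406) (nat_lit 697) (nat_lit 5) (nat_lit 707) (nat_lit 5) (nat_lit 708) (nat_lit 5) (nat_lit 536) (nat_lit 526) (nat_lit 498)) (XT.nd (nat_lit 78) (nat_lit 0) (nat_lit 0) (XT.lf (nat_lit 76) (nat_lit 2588145150) (nat_lit 0) (nat_lit 1338016387) (nat_lit 836) (nat_lit 2787971816) (nat_lit 698) (nat_lit 5) (nat_lit 697) (nat_lit 5) (nat_lit 708) (nat_lit 5) (nat_lit 537) (nat_lit 526) (nat_lit 497)) (XT.lf (nat_lit 76) (nat_lit 6260166032) (nat_lit 0) (nat_lit 86433591) (nat_lit 836) (nat_lit 393895977) (nat_lit 698) (nat_lit 5) (nat_lit 697) (nat_lit 5) (nat_lit 708) (nat_lit 5) (nat_lit 538) (nat_lit 526) (nat_lit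 496)))) (XT.nd (nat_lit 156) (nat_lit 912) (nat_lit 0) (XT.nd (nat_lit 78) (nat_lit 0) (nat_lit 0) (XT.lf (nat_lit 0) (nat_lit 1992293675) (nat_lit 836) (nat_lit 3544328265) (nat_lit 912) (nat_lit 1231088359) (nat_lit 687) (nat_lit 5) (nat_lit 698) (nat_lit 5) (nat_lit 699) (nat_lit 5) (nat_lit 539) (nat_lit 526) (nat_lit 495)) (XT.lf (nat_lit 76) (nat_lit 174616607) (nat_lit 0) (nat_lit 4194330975) (nat_lit 912) (nat_lit 2427522101) (nat_lit 688) (nat_lit 5) (nat_lit 687) (nat_lit 5) (nat_lit 699) (nat_lit 5) (nat_lit 540) (nat_lit 526) (nat_lit 494))) (XT.nd (nat_lit 78) (nat_lit 912) (nat_lit 0) (XT.lf (nat_lit 76) (nat_lit 3979481203) (nat_lit 0) (nat_lit 2781376210) (nat_lit 912) (nat_lit 65604894) (nat_lit 688) (nat_lit 5) (nat_lit 687) (nat_lit 5) (nat_lit 699) (nat_lit 5) (nat_lit 541) (nat_lit 526) (nat_lit 493)) (XT.lf (nat_lit 76) (nat_lit 964284016) (nat_lit 0) (nat_lit 1299453013) (nat_lit 988) (nat_lit 4594007011) (nat_lit 676) (nat_lit 5) (nat_lit 675)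 (nat_lit 5) (nat_lit 688) (nat_lit 5) (nat_lit 542) (nat_lit 526) (nat_lit 492))))))) (XT.nd (nat_lit 936) (nat_lit 11780) (nat_lit 0) (XT.nd (nat_lit 468) (nat_lit 5168) (nat_lit 0) (XT.nd (nat_lit 234) (nat_lit 2128) (nat_lit 0) (XT.nd (nat_lit 78) (nat_lit 988) (nat_lit 0) (XT.lf (nat_lit 0) (nat_lit 4605025810) (nat_lit 912) (nat_lit 2038355930) (nat_lit 76) (nat_lit 246948012) (nat_lit 676) (nat_lit 5) (nat_lit 688) (nat_lit 5) (nat_lit 677) (nat_lit 5) (nat_lit 543) (nat_lit 526) (nat_lit 491)) (XT.nd (nat_lit 78) (nat_lit 0) (nat_lit 0) (XT.lf (nat_lit 0) (nat_lit 35895766) (nat_lit 988) (nat_lit 5051434838) (nat_lit 76) (nat_lit 1836894171) (nat_lit 663) (nat_lit 5) (nat_lit 676) (nat_lit 5) (nat_lit 664) (nat_lit 5) (nat_lit 544) (nat_lit 526) (nat_lit 490)) (XT.lf (nat_lit 0) (nat_lit 2333861335) (nat_lit 988) (nat_lit 1121210482) (nat_lit 76) (nat_lit 3504216029) (nat_lit 663) (nat_lit 5) (nat_lit 676) (nat_lit 5) (nat_lit 664) (nat_lit 5) (nat_lit 545) (nat_lit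 526) (nat_lit 489)))) (XT.nd (nat_lit 78) (nat_lit 1140) (nat_lit 0) (XT.lf (nat_lit 0) (nat_lit 2888987879) (nat_lit 988) (nat_lit 1755736397) (nat_lit 1064) (nat_lit 2351000031) (nat_lit 650) (nat_lit 5) (nat_lit 663) (nat_lit 5) (nat_lit 664) (nat_lit 5) (nat_lit 546) (nat_lit 526) (nat_lit 488)) (XT.nd (nat_lit 78) (nat_lit 1140) (nat_lit 0) (XT.lf (nat_lit 0) (nat_lit 6958289858) (nat_lit 1064) (nat_lit 75461895) (nat_lit 76) (nat_lit 18713) (nat_lit 650) (nat_lit 5) (nat_lit 664) (nat_lit 5) (nat_lit 651) (nat_lit 5) (nat_lit 547) (nat_lit 526) (nat_lit 487)) (XT.lf (nat_lit 0) (nat_lit 2203929284) (nat_lit 1140) (nat_lit 3046191764) (nat_lit 76) (nat_lit 1822418553) (nat_lit 635) (nat_lit 5) (nat_lit 650) (nat_lit 5) (nat_lit 636) (nat_lit 5) (nat_lit 548) (nat_lit 526) (nat_lit 486))))) (XT.nd (nat_lit 234) (nat_lit 2736) (nat_lit 0) (XT.nd (nat_lit 78) (nat_lit 1292) (nat_lit 0) (XT.lf (nat_lit 0) (nat_lit 1075646020) (nat_lit 1140) (nat_lit 3410228001) (nat_lit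 1216) (nat_lit 2627051034) (nat_lit 620) (nat_lit 5) (nat_lit 635) (nat_lit 5) (nat_lit 636) (nat_lit 5) (nat_lit 549) (nat_lit 526) (nat_lit 485)) (XT.nd (nat_lit 78) (nat_lit 1292) (nat_lit 0) (XT.lf (nat_lit 0) (nat_lit 5284355852) (nat_lit 1140) (nat_lit 1500738206) (nat_lit 1216) (nat_lit 369601294) (nat_lit 620) (nat_lit 5) (nat_lit 635) (nat_lit 5) (nat_lit 636) (nat_lit 5) (nat_lit 550) (nat_lit 526) (nat_lit 484)) (XT.lf (nat_lit 0) (nat_lit 1877964612) (nat_lit 1292) (nat_lit 4839299442) (nat_lit 76) (nat_lit 480389100) (nat_lit 603) (nat_lit 5) (nat_lit 620) (nat_lit 5) (nat_lit 604) (nat_lit 5) (nat_lit 551) (nat_lit 526) (nat_lit 483)))) (XT.nd (nat_lit 78) (nat_lit 2736) (nat_lit 0) (XT.lf (nat_lit 0) (nat_lit 4140713931) (nat_lit 1292) (nat_lit 594286067) (nat_lit 76) (nat_lit 2506926927) (nat_lit 603) (nat_lit 5) (nat_lit 620) (nat_lit 5) (nat_lit 604) (nat_lit 5) (nat_lit 552) (nat_lit 526) (nat_lit 482)) (XT.nd (nat_lit 78) (nat_lit 1444) (nat_lit 0)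 (XT.lf (nat_lit 0) (nat_lit 3747948044) (nat_lit 1292) (nat_lit 2678637380) (nat_lit 1368) (nat_lit 860952514) (nat_lit 586) (nat_lit 5) (nat_lit 603) (nat_lit 5) (nat_lit 604) (nat_lit 5) (nat_lit 553) (nat_lit 526) (nat_lit 481)) (XT.lf (nat_lit 0) (nat_lit 815307648) (nat_lit 1368) (nat_lit 553330401) (nat_lit 1444) (nat_lit 5965982909) (nat_lit 567) (nat_lit 5) (nat_lit 585) (nat_lit 5) (nat_lit 586) (nat_lit 5) (nat_lit 554) (nat_lit 526) (nat_lit 480)))))) (XT.nd (nat_lit 468) (nat_lit 7144) (nat_lit 0) (XT.nd (nat_lit 234) (nat_lit 3116) (nat_lit 0) (XT.nd (nat_lit 78) (nat_lit 1520) (nat_lit 0) (XT.lf (nat_lit 0) (nat_lit 3620308642) (nat_lit 1444) (nat_lit 2131169928) (nat_lit 76) (nat_lit 1631281509) (nat_lit 567) (nat_lit 5) (nat_lit 586) (nat_lit 5) (nat_lit 568) (nat_lit 5) (nat_lit 555) (nat_lit 526) (nat_lit 479)) (XT.nd (nat_lit 78) (nat_lit 76) (nat_lit 0) (XT.lf (nat_lit 0) (nat_lit 2334491820) (nat_lit 1444) (nat_lit 3556845756) (nat_lit 1520) (nat_lit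 1541046327) (nat_lit 548) (nat_lit 5) (nat_lit 567) (nat_lit 5) (nat_lit 568) (nat_lit 5) (nat_lit 556) (nat_lit 526) (nat_lit 478)) (XT.lf (nat_lit 0) (nat_lit 685514504) (nat_lit 1520) (nat_lit 606706924) (nat_lit 76) (nat_lit 6191288083) (nat_lit 547) (nat_lit 5) (nat_lit 567) (nat_lit 5) (nat_lit 548) (nat_lit 5) (nat_lit 557) (nat_lit 526) (nat_lit 477)))) (XT.nd (nat_lit 78) (nat_lit 1596) (nat_lit 0) (XT.lf (nat_lit 0) (nat_lit 2925420269) (nat_lit 1596) (nat_lit 3563222496) (nat_lit 76) (nat_lit 1047030107) (nat_lit 527) (nat_lit 5) (nat_lit 548) (nat_lit 5) (nat_lit 528) (nat_lit 5) (nat_lit 558) (nat_lit 526) (nat_lit 476)) (XT.nd (nat_lit 78) (nat_lit 0) (nat_lit 0) (XT.lf (nat_lit 0) (nat_lit 1030071275) (nat_lit 1596) (nat_lit 4156751335) (nat_lit 1672) (nat_lit 2402530697) (nat_lit 506) (nat_lit 5) (nat_lit 527) (nat_lit 5) (nat_lit 528) (nat_lit 5) (nat_lit 559) (nat_lit 526) (nat_lit 475)) (XT.lf (nat_lit 0) (nat_lit 5726307463) (nat_lit 1596) (nat_lit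 1749005653) (nat_lit 1672) (nat_lit 169164658) (nat_lit 506) (nat_lit 5) (nat_lit 527) (nat_lit 5) (nat_lit 528) (nat_lit 5) (nat_lit 560) (nat_lit 526) (nat_lit 474))))) (XT.nd (nat_lit 234) (nat_lit 3648) (nat_lit 0) (XT.nd (nat_lit 78) (nat_lit 1748) (nat_lit 0) (XT.lf (nat_lit 0) (nat_lit 2062724261) (nat_lit 1748) (nat_lit 4903970051) (nat_lit 76) (nat_lit 734113628) (nat_lit 483) (nat_lit 5) (nat_lit 506) (nat_lit 5) (nat_lit 484) (nat_lit 5) (nat_lit 561) (nat_lit 526) (nat_lit 473)) (XT.nd (nat_lit 78) (nat_lit 1748) (nat_lit 0) (XT.lf (nat_lit 0) (nat_lit 4320622744) (nat_lit 1748) (nat_lit 176309826) (nat_lit 76) (nat_lit 3261644223) (nat_lit 483) (nat_lit 5) (nat_lit 506) (nat_lit 5) (nat_lit 484) (nat_lit 5) (nat_lit 562) (nat_lit 526) (nat_lit 472)) (XT.lf (nat_lit 0) (nat_lit 4670231236) (nat_lit 1748) (nat_lit 1943667047) (nat_lit 1824) (nat_lit 1203805403) (nat_lit 460) (nat_lit 5) (nat_lit 483) (nat_lit 5) (nat_lit 484) (nat_lit 5) (nat_lit 563) (nat_lit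 526) (nat_lit 471)))) (XT.nd (nat_lit 156) (nat_lit 1900) (nat_lit 0) (XT.nd (nat_lit 78) (nat_lit 0) (nat_lit 0) (XT.lf (nat_lit 0) (nat_lit 1037872668) (nat_lit 1748) (nat_lit 6166453746) (nat_lit 76) (nat_lit 674014963) (nat_lit 437) (nat_lit 5) (nat_lit 460) (nat_lit 5) (nat_lit 438) (nat_lit 5) (nat_lit 564) (nat_lit 526) (nat_lit 470)) (XT.lf (nat_lit 0) (nat_lit 3303145538) (nat_lit 1748) (nat_lit 1287432569) (nat_lit 76) (nat_lit 3349563608) (nat_lit 437) (nat_lit 5) (nat_lit 460) (nat_lit 5) (nat_lit 438) (nat_lit 5) (nat_lit 565) (nat_lit 526) (nat_lit 469))) (XT.nd (nat_lit 78) (nat_lit 912) (nat_lit 0) (XT.lf (nat_lit 0) (nat_lit 3700665853) (nat_lit 988) (nat_lit 1898587232) (nat_lit 1064) (nat_lit 2404220898) (nat_lit 424) (nat_lit 5) (nat_lit 437) (nat_lit 5) (nat_lit 438) (nat_lit 5) (nat_lit 566) (nat_lit 526) (nat_lit 468)) (XT.lf (nat_lit 0) (nat_lit 704186943) (nat_lit 912) (nat_lit 7217891041) (nat_lit 988) (nat_lit 146385387) (nat_lit 412) (nat_lit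 5) (nat_lit 424) (nat_lit 5) (nat_lit 425) (nat_lit 5) (nat_lit 567) (nat_lit 526) (nat_lit 467))))))))
noncomputable def xc98 : XT := (XT.nd (nat_lit 1950) (nat_lit 8056) (nat_lit 0) (XT.nd (nat_lit 936) (nat_lit 6080) (nat_lit 0) (XT.nd (nat_lit 468) (nat_lit 3268) (nat_lit 0) (XT.nd (nat_lit 234) (nat_lit 1748) (nat_lit 0) (XT.nd (nat_lit 78) (nat_lit 912) (nat_lit 0) (XT.lf (nat_lit 0) (nat_lit 2132234968) (nat_lit 988) (nat_lit 2329122689) (nat_lit 76) (nat_lit 3673042732) (nat_lit 411) (nat_lit 5) (nat_lit 424) (nat_lit 5) (nat_lit 412) (nat_lit 5) (nat_lit 568) (nat_lit 526) (nat_lit 466)) (XT.nd (nat_lit 78) (nat_lit 0) (nat_lit 0) (XT.lf (nat_lit 0) (nat_lit 2805472221) (nat_lit 912) (nat_lit 1630225632) (nat_lit 988) (nat_lit 3766320350) (nat_lit 399) (nat_lit 5) (nat_lit 411) (nat_lit 5) (nat_lit 412) (nat_lit 5) (nat_lit 569) (nat_lit 526) (nat_lit 465)) (XT.lf (nat_lit 0) (nat_lit 6772625056) (nat_lit 988) (nat_lit 242189530) (nat_lit 76) (nat_lit 1256431779)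 (nat_lit 399) (nat_lit 5) (nat_lit 412) (nat_lit 5) (nat_lit 400) (nat_lit 5) (nat_lit 570) (nat_lit 526) (nat_lit 464)))) (XT.nd (nat_lit 78) (nat_lit 836) (nat_lit 0) (XT.lf (nat_lit 0) (nat_lit 811486359) (nat_lit 912) (nat_lit 3313414531) (nat_lit 76) (nat_lit 4216703389) (nat_lit 387) (nat_lit 5) (nat_lit 399) (nat_lit 5) (nat_lit 388) (nat_lit 5) (nat_lit 571) (nat_lit 526) (nat_lit 463)) (XT.nd (nat_lit 78) (nat_lit 0) (nat_lit 0) (XT.lf (nat_lit 0) (nat_lit 1972785304) (nat_lit 836) (nat_lit 1153845227) (nat_lit 912) (nat_lit 5286968238) (nat_lit 376) (nat_lit 5) (nat_lit 387) (nat_lit 5) (nat_lit 388) (nat_lit 5) (nat_lit 572) (nat_lit 526) (nat_lit 462)) (XT.lf (nat_lit 0) (nat_lit 5487528401) (nat_lit 912) (nat_lit 1126824531) (nat_lit 76) (nat_lit 1872696646) (nat_lit 376) (nat_lit 5) (nat_lit 388) (nat_lit 5) (nat_lit 377) (nat_lit 5) (nat_lit 573) (nat_lit 526) (nat_lit 461))))) (XT.nd (nat_lit 234) (nat_lit 1596) (nat_lit 0) (XT.nd (nat_lit 78) (nat_lit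 912) (nat_lit 0) (XT.lf (nat_lit 0) (nat_lit 4305477947) (nat_lit 760) (nat_lit 3591334670) (nat_lit 836) (nat_lit 665138756) (nat_lit 366) (nat_lit 5) (nat_lit 376) (nat_lit 5) (nat_lit 377) (nat_lit 5) (nat_lit 574) (nat_lit 526) (nat_lit 460)) (XT.nd (nat_lit 78) (nat_lit 0) (nat_lit 0) (XT.lf (nat_lit 0) (nat_lit 1190919152) (nat_lit 836) (nat_lit 483631797) (nat_lit 912) (nat_lit 6963960081) (nat_lit 354) (nat_lit 5) (nat_lit 365) (nat_lit 5) (nat_lit 366) (nat_lit 5) (nat_lit 575) (nat_lit 526) (nat_lit 459)) (XT.lf (nat_lit 0) (nat_lit 4064523061) (nat_lit 912) (nat_lit 1970536001) (nat_lit 76) (nat_lit 2681212020) (nat_lit 354) (nat_lit 5) (nat_lit 366) (nat_lit 5) (nat_lit 355) (nat_lit 5) (nat_lit 576) (nat_lit 526) (nat_lit 458)))) (XT.nd (nat_lit 78) (nat_lit 836) (nat_lit 0) (XT.lf (nat_lit 0) (nat_lit 3623689575) (nat_lit 760) (nat_lit 2872191573) (nat_lit 836) (nat_lit 2299838388) (nat_lit 344) (nat_lit 5) (nat_lit 354) (nat_lit 5) (nat_lit 355) (nat_lit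 5) (nat_lit 577) (nat_lit 526) (nat_lit 457)) (XT.nd (nat_lit 78) (nat_lit 0) (nat_lit 0) (XT.lf (nat_lit 0) (nat_lit 83462984) (nat_lit 836) (nat_lit 8431196244) (nat_lit 76) (nat_lit 362376534) (nat_lit 333) (nat_lit 5) (nat_lit 344) (nat_lit 5) (nat_lit 334) (nat_lit 5) (nat_lit 578) (nat_lit 526) (nat_lit 456)) (XT.lf (nat_lit 0) (nat_lit 2505051783) (nat_lit 836) (nat_lit 2784872525) (nat_lit 76) (nat_lit 3669326289) (nat_lit 333) (nat_lit 5) (nat_lit 344) (nat_lit 5) (nat_lit 334) (nat_lit 5) (nat_lit 579) (nat_lit 526) (nat_lit 455)))))) (XT.nd (nat_lit 468) (nat_lit 3192) (nat_lit 0) (XT.nd (nat_lit 234) (nat_lit 1368) (nat_lit 0) (XT.nd (nat_lit 78) (nat_lit 836) (nat_lit 0) (XT.lf (nat_lit 0) (nat_lit 2976869585) (nat_lit 684) (nat_lit 1985598645) (nat_lit 760) (nat_lit 4080898139) (nat_lit 324) (nat_lit 5) (nat_lit 333) (nat_lit 5) (nat_lit 334) (nat_lit 5) (nat_lit 580) (nat_lit 526) (nat_lit 454)) (XT.nd (nat_lit 78) (nat_lit 836) (nat_lit 0) (XT.lf (nat_lit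 0) (nat_lit 7465263327) (nat_lit 760) (nat_lit 283223507) (nat_lit 76) (nat_lit 1380757482) (nat_lit 324) (nat_lit 5) (nat_lit 334) (nat_lit 5) (nat_lit 325) (nat_lit 5) (nat_lit 581) (nat_lit 526) (nat_lit 453)) (XT.lf (nat_lit 0) (nat_lit 809703027) (nat_lit 836) (nat_lit 3581445413) (nat_lit 76) (nat_lit 4825212878) (nat_lit 313) (nat_lit 5) (nat_lit 324) (nat_lit 5) (nat_lit 314) (nat_lit 5) (nat_lit 582) (nat_lit 526) (nat_lit 452)))) (XT.nd (nat_lit 78) (nat_lit 684) (nat_lit 0) (XT.lf (nat_lit 0) (nat_lit 2353543860) (nat_lit 684) (nat_lit 943464211) (nat_lit 760) (nat_lit 6008268261) (nat_lit 304) (nat_lit 5) (nat_lit 313) (nat_lit 5) (nat_lit 314) (nat_lit 5) (nat_lit 583) (nat_lit 526) (nat_lit 451)) (XT.nd (nat_lit 78) (nat_lit 684) (nat_lit 0) (XT.lf (nat_lit 0) (nat_lit 5844503843) (nat_lit 760) (nat_lit 993276290) (nat_lit 76) (nat_lit 2557984746) (nat_lit 304) (nat_lit 5) (nat_lit 314) (nat_lit 5) (nat_lit 305) (nat_lit 5) (nat_lit 584) (nat_lit 526) (nat_lit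 450)) (XT.lf (nat_lit 0) (nat_lit 5109125900) (nat_lit 684) (nat_lit 3343386053) (nat_lit 760) (nat_lit 1035364044) (nat_lit 295) (nat_lit 5) (nat_lit 304) (nat_lit 5) (nat_lit 305) (nat_lit 5) (nat_lit 585) (nat_lit 526) (nat_lit 449))))) (XT.nd (nat_lit 234) (nat_lit 1824) (nat_lit 0) (XT.nd (nat_lit 78) (nat_lit 684) (nat_lit 0) (XT.lf (nat_lit 0) (nat_lit 1500667772) (nat_lit 684) (nat_lit 7841381400) (nat_lit 76) (nat_lit 239787382) (nat_lit 286) (nat_lit 5) (nat_lit 295) (nat_lit 5) (nat_lit 287) (nat_lit 5) (nat_lit 586) (nat_lit 526) (nat_lit 448)) (XT.nd (nat_lit 78) (nat_lit 684) (nat_lit 0) (XT.lf (nat_lit 0) (nat_lit 4095892888) (nat_lit 684) (nat_lit 1701336551) (nat_lit 76) (nat_lit 3879867096) (nat_lit 286) (nat_lit 5) (nat_lit 295) (nat_lit 5) (nat_lit 287) (nat_lit 5) (nat_lit 587) (nat_lit 526) (nat_lit 447)) (XT.lf (nat_lit 0) (nat_lit 4585914497) (nat_lit 684) (nat_lit 2158062501) (nat_lit 760) (nat_lit 3030269365) (nat_lit 277) (nat_lit 5) (nat_lit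 286) (nat_lit 5) (nat_lit 287) (nat_lit 5) (nat_lit 588) (nat_lit 526) (nat_lit 446)))) (XT.nd (nat_lit 156) (nat_lit 1140) (nat_lit 0) (XT.nd (nat_lit 78) (nat_lit 76) (nat_lit 0) (XT.lf (nat_lit 0) (nat_lit 1117318669) (nat_lit 608) (nat_lit 8328008544) (nat_lit 684) (nat_lit 428009551) (nat_lit 269) (nat_lit 5) (nat_lit 277) (nat_lit 5) (nat_lit 278) (nat_lit 5) (nat_lit 589) (nat_lit 526) (nat_lit 445)) (XT.lf (nat_lit 0) (nat_lit 2218041415) (nat_lit 684) (nat_lit 2419454472) (nat_lit 76) (nat_lit 5336208632) (nat_lit 268) (nat_lit 5) (nat_lit 277) (nat_lit 5) (nat_lit 269) (nat_lit 5) (nat_lit 590) (nat_lit 526) (nat_lit 444))) (XT.nd (nat_lit 78) (nat_lit 532) (nat_lit 0) (XT.lf (nat_lit 0) (nat_lit 4058770483) (nat_lit 608) (nat_lit 851031620) (nat_lit 684) (nat_lit 5166254002) (nat_lit 260) (nat_lit 5) (nat_lit 268) (nat_lit 5) (nat_lit 269) (nat_lit 5) (nat_lit 591) (nat_lit 526) (nat_lit 443)) (XT.lf (nat_lit 0) (nat_lit 469995027) (nat_lit 532) (nat_lit 7196777461)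 (nat_lit 608) (nat_lit 2513458131) (nat_lit 253) (nat_lit 5) (nat_lit 260) (nat_lit 5) (nat_lit 261) (nat_lit 5) (nat_lit 592) (nat_lit 526) (nat_lit 442))))))) (XT.nd (nat_lit 936) (nat_lit 4104) (nat_lit 0) (XT.nd (nat_lit 468) (nat_lit 2128) (nat_lit 0) (XT.nd (nat_lit 234) (nat_lit 1140) (nat_lit 0) (XT.nd (nat_lit 78) (nat_lit 608) (nat_lit 0) (XT.lf (nat_lit 0) (nat_lit 208708373) (nat_lit 608) (nat_lit 3160116585) (nat_lit 76) (nat_lit 6917265175) (nat_lit 252) (nat_lit 5) (nat_lit 260) (nat_lit 5) (nat_lit 253) (nat_lit 5) (nat_lit 593) (nat_lit 526) (nat_lit 441)) (XT.nd (nat_lit 78) (nat_lit 0) (nat_lit 0) (XT.lf (nat_lit 0) (nat_lit 2951297468) (nat_lit 684) (nat_lit 6882208294) (nat_lit 76) (nat_lit 560239298) (nat_lit 244) (nat_lit 5) (nat_lit 253) (nat_lit 5) (nat_lit 245) (nat_lit 5) (nat_lit 594) (nat_lit 526) (nat_lit 440)) (XT.lf (nat_lit 0) (nat_lit 5765735183) (nat_lit 684) (nat_lit 201536758) (nat_lit 76) (nat_lit 4535944335) (nat_lit 244) (nat_lit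 5) (nat_lit 253) (nat_lit 5) (nat_lit 245) (nat_lit 5) (nat_lit 595) (nat_lit 526) (nat_lit 439)))) (XT.nd (nat_lit 78) (nat_lit 608) (nat_lit 0) (XT.lf (nat_lit 0) (nat_lit 6665444498) (nat_lit 532) (nat_lit 1988156635) (nat_lit 608) (nat_lit 1960936060) (nat_lit 237) (nat_lit 5) (nat_lit 244) (nat_lit 5) (nat_lit 245) (nat_lit 5) (nat_lit 596) (nat_lit 526) (nat_lit 438)) (XT.nd (nat_lit 78) (nat_lit 0) (nat_lit 0) (XT.lf (nat_lit 0) (nat_lit 867717344) (nat_lit 608) (nat_lit 7799120550) (nat_lit 76) (nat_lit 2060976408) (nat_lit 229) (nat_lit 5) (nat_lit 237) (nat_lit 5) (nat_lit 230) (nat_lit 5) (nat_lit 597) (nat_lit 526) (nat_lit 437)) (XT.lf (nat_lit 0) (nat_lit 3740759284) (nat_lit 608) (nat_lit 906661779) (nat_lit 76) (nat_lit 6195398098) (nat_lit 229) (nat_lit 5) (nat_lit 237) (nat_lit 5) (nat_lit 230) (nat_lit 5) (nat_lit 598) (nat_lit 526) (nat_lit 436))))) (XT.nd (nat_lit 234) (nat_lit 988) (nat_lit 0) (XT.nd (nat_lit 78) (nat_lit 608) (nat_lit 0) (XT.lf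 (nat_lit 0) (nat_lit 6170183623) (nat_lit 532) (nat_lit 515850406) (nat_lit 608) (nat_lit 4273797479) (nat_lit 222) (nat_lit 5) (nat_lit 229) (nat_lit 5) (nat_lit 230) (nat_lit 5) (nat_lit 599) (nat_lit 526) (nat_lit 435)) (XT.nd (nat_lit 78) (nat_lit 76) (nat_lit 0) (XT.lf (nat_lit 0) (nat_lit 2293213926) (nat_lit 532) (nat_lit 7416951781) (nat_lit 608) (nat_lit 1368622145) (nat_lit 215) (nat_lit 5) (nat_lit 222) (nat_lit 5) (nat_lit 223) (nat_lit 5) (nat_lit 600) (nat_lit 526) (nat_lit 434)) (XT.lf (nat_lit 0) (nat_lit 1584539875) (nat_lit 608) (nat_lit 1665515226) (nat_lit 76) (nat_lit 7949647873) (nat_lit 214) (nat_lit 5) (nat_lit 222) (nat_lit 5) (nat_lit 215) (nat_lit 5) (nat_lit 601) (nat_lit 526) (nat_lit 433)))) (XT.nd (nat_lit 78) (nat_lit 532) (nat_lit 0) (XT.lf (nat_lit 0) (nat_lit 4597245672) (nat_lit 532) (nat_lit 5701691190) (nat_lit 76) (nat_lit 1023545093) (nat_lit 208) (nat_lit 5) (nat_lit 215) (nat_lit 5) (nat_lit 209) (nat_lit 5) (nat_lit 602) (nat_lit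 526) (nat_lit 432)) (XT.nd (nat_lit 78) (nat_lit 0) (nat_lit 0) (XT.lf (nat_lit 0) (nat_lit 1592970606) (nat_lit 532) (nat_lit 6096066907) (nat_lit 608) (nat_lit 3758304928) (nat_lit 201) (nat_lit 5) (nat_lit 208) (nat_lit 5) (nat_lit 209) (nat_lit 5) (nat_lit 603) (nat_lit 526) (nat_lit 431)) (XT.lf (nat_lit 0) (nat_lit 9076808446) (nat_lit 532) (nat_lit 1780088746) (nat_lit 608) (nat_lit 717520823) (nat_lit 201) (nat_lit 5) (nat_lit 208) (nat_lit 5) (nat_lit 209) (nat_lit 5) (nat_lit 604) (nat_lit 526) (nat_lit 430)))))) (XT.nd (nat_lit 468) (nat_lit 2128) (nat_lit 0) (XT.nd (nat_lit 234) (nat_lit 988) (nat_lit 0) (XT.nd (nat_lit 78) (nat_lit 456) (nat_lit 0) (XT.lf (nat_lit 0) (nat_lit 2378986632) (nat_lit 532) (nat_lit 6697798163) (nat_lit 76) (nat_lit 2626419635) (nat_lit 194) (nat_lit 5) (nat_lit 201) (nat_lit 5) (nat_lit 195) (nat_lit 5) (nat_lit 605) (nat_lit 526) (nat_lit 429)) (XT.nd (nat_lit 78) (nat_lit 0) (nat_lit 0) (XT.lf (nat_lit 0) (nat_lit 818346544)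 (nat_lit 456) (nat_lit 4719918869) (nat_lit 532) (nat_lit 6295999699) (nat_lit 188) (nat_lit 5) (nat_lit 194) (nat_lit 5) (nat_lit 195) (nat_lit 5) (nat_lit 606) (nat_lit 526) (nat_lit 428)) (XT.lf (nat_lit 0) (nat_lit 8541985637) (nat_lit 456) (nat_lit 240399661) (nat_lit 532) (nat_lit 3185130924) (nat_lit 188) (nat_lit 5) (nat_lit 194) (nat_lit 5) (nat_lit 195) (nat_lit 5) (nat_lit 607) (nat_lit 526) (nat_lit 427)))) (XT.nd (nat_lit 78) (nat_lit 456) (nat_lit 0) (XT.lf (nat_lit 0) (nat_lit 21531161) (nat_lit 532) (nat_lit 7791155445) (nat_lit 76) (nat_lit 4290081186) (nat_lit 181) (nat_lit 5) (nat_lit 188) (nat_lit 5) (nat_lit 182) (nat_lit 5) (nat_lit 608) (nat_lit 526) (nat_lit 426)) (XT.nd (nat_lit 78) (nat_lit 456) (nat_lit 0) (XT.lf (nat_lit 0) (nat_lit 3251631125) (nat_lit 532) (nat_lit 46609342) (nat_lit 76) (nat_lit 8942025970) (nat_lit 181) (nat_lit 5) (nat_lit 188) (nat_lit 5) (nat_lit 182) (nat_lit 5) (nat_lit 609) (nat_lit 526) (nat_lit 425)) (XT.lf (nat_lit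 0) (nat_lit 6584166167) (nat_lit 532) (nat_lit 4464722704) (nat_lit 76) (nat_lit 1330871670) (nat_lit 175) (nat_lit 5) (nat_lit 182) (nat_lit 5) (nat_lit 176) (nat_lit 5) (nat_lit 610) (nat_lit 526) (nat_lit 424))))) (XT.nd (nat_lit 234) (nat_lit 1216) (nat_lit 0) (XT.nd (nat_lit 78) (nat_lit 532) (nat_lit 0) (XT.lf (nat_lit 0) (nat_lit 3505699777) (nat_lit 380) (nat_lit 6500360141) (nat_lit 456) (nat_lit 2515532554) (nat_lit 170) (nat_lit 5) (nat_lit 175) (nat_lit 5) (nat_lit 176) (nat_lit 5) (nat_lit 611) (nat_lit 526) (nat_lit 423)) (XT.nd (nat_lit 78) (nat_lit 456) (nat_lit 0) (XT.lf (nat_lit 0) (nat_lit 827266792) (nat_lit 456) (nat_lit 1008223124) (nat_lit 76) (nat_lit 10830504882) (nat_lit 169) (nat_lit 5) (nat_lit 175) (nat_lit 5) (nat_lit 170) (nat_lit 5) (nat_lit 612) (nat_lit 526) (nat_lit 422)) (XT.lf (nat_lit 0) (nat_lit 4247676009) (nat_lit 532) (nat_lit 5626719630) (nat_lit 76) (nat_lit 2937670224) (nat_lit 163) (nat_lit 5) (nat_lit 170) (nat_lit 5) (nat_lit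 164) (nat_lit 5) (nat_lit 613) (nat_lit 526) (nat_lit 421)))) (XT.nd (nat_lit 156) (nat_lit 836) (nat_lit 0) (XT.nd (nat_lit 78) (nat_lit 0) (nat_lit 0) (XT.lf (nat_lit 0) (nat_lit 2584703064) (nat_lit 380) (nat_lit 5165983958) (nat_lit 456) (nat_lit 5210089399) (nat_lit 158) (nat_lit 5) (nat_lit 163) (nat_lit 5) (nat_lit 164) (nat_lit 5) (nat_lit 614) (nat_lit 526) (nat_lit 420)) (XT.lf (nat_lit 0) (nat_lit 11004313781) (nat_lit 380) (nat_lit 335861491) (nat_lit 456) (nat_lit 1771959485) (nat_lit 158) (nat_lit 5) (nat_lit 163) (nat_lit 5) (nat_lit 164) (nat_lit 5) (nat_lit 615) (nat_lit 526) (nat_lit 419))) (XT.nd (nat_lit 78) (nat_lit 380) (nat_lit 0) (XT.lf (nat_lit 0) (nat_lit 1762533098) (nat_lit 456) (nat_lit 6929912008) (nat_lit 76) (nat_lit 4572844618) (nat_lit 152) (nat_lit 5) (nat_lit 158) (nat_lit 5) (nat_lit 153) (nat_lit 5) (nat_lit 616) (nat_lit 526) (nat_lit 418)) (XT.lf (nat_lit 0) (nat_lit 1528685579) (nat_lit 380) (nat_lit 3820786294) (nat_lit 456) (nat_lit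 8071693804) (nat_lit 147) (nat_lit 5) (nat_lit 152) (nat_lit 5) (nat_lit 153) (nat_lit 5) (nat_lit 617) (nat_lit 526) (nat_lit 417))))))))
noncomputable def xc99 : XT := (XT.nd (nat_lit 1950) (nat_lit 1292) (nat_lit 0) (XT.nd (nat_lit 936) (nat_lit 2432) (nat_lit 0) (XT.nd (nat_lit 468) (nat_lit 1292) (nat_lit 0) (XT.nd (nat_lit 234) (nat_lit 456) (nat_lit 0) (XT.nd (nat_lit 78) (nat_lit 760) (nat_lit 0) (XT.lf (nat_lit 0) (nat_lit 9041620083) (nat_lit 456) (nat_lit 3368831505) (nat_lit 76) (nat_lit 1169039908) (nat_lit 147) (nat_lit 5) (nat_lit 153) (nat_lit 5) (nat_lit 148) (nat_lit 5) (nat_lit 618) (nat_lit 526) (nat_lit 416)) (XT.nd (nat_lit 78) (nat_lit 380) (nat_lit 0) (XT.lf (nat_lit 0) (nat_lit 5338402127) (nat_lit 380) (nat_lit 7508784338) (nat_lit 456) (nat_lit 893007589) (nat_lit 142) (nat_lit 5) (nat_lit 147) (nat_lit 5) (nat_lit 148) (nat_lit 5) (nat_lit 619) (nat_lit 526) (nat_lit 415)) (XT.lf (nat_lit 0) (nat_lit 315776138) (nat_lit 304) (nat_lit 2476408904)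 (nat_lit 380) (nat_lit 11111470904) (nat_lit 137) (nat_lit 5) (nat_lit 141) (nat_lit 5) (nat_lit 142) (nat_lit 5) (nat_lit 620) (nat_lit 526) (nat_lit 414)))) (XT.nd (nat_lit 78) (nat_lit 456) (nat_lit 0) (XT.lf (nat_lit 0) (nat_lit 6592930628) (nat_lit 380) (nat_lit 4802996462) (nat_lit 76) (nat_lit 2673267428) (nat_lit 137) (nat_lit 5) (nat_lit 142) (nat_lit 5) (nat_lit 138) (nat_lit 5) (nat_lit 621) (nat_lit 526) (nat_lit 413)) (XT.nd (nat_lit 78) (nat_lit 76) (nat_lit 0) (XT.lf (nat_lit 0) (nat_lit 4164642544) (nat_lit 380) (nat_lit 6328677445) (nat_lit 456) (nat_lit 3744252890) (nat_lit 132) (nat_lit 5) (nat_lit 137) (nat_lit 5) (nat_lit 138) (nat_lit 5) (nat_lit 622) (nat_lit 526) (nat_lit 412)) (XT.lf (nat_lit 0) (nat_lit 74269186) (nat_lit 456) (nat_lit 1063773596) (nat_lit 76) (nat_lit 13271015672) (nat_lit 131) (nat_lit 5) (nat_lit 137) (nat_lit 5) (nat_lit 132) (nat_lit 5) (nat_lit 623) (nat_lit 526) (nat_lit 411))))) (XT.nd (nat_lit 234) (nat_lit 684) (nat_lit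 0) (XT.nd (nat_lit 78) (nat_lit 304) (nat_lit 0) (XT.lf (nat_lit 0) (nat_lit 3980227652) (nat_lit 380) (nat_lit 6432824541) (nat_lit 76) (nat_lit 4169204030) (nat_lit 127) (nat_lit 5) (nat_lit 132) (nat_lit 5) (nat_lit 128) (nat_lit 5) (nat_lit 624) (nat_lit 526) (nat_lit 410)) (XT.nd (nat_lit 78) (nat_lit 0) (nat_lit 0) (XT.lf (nat_lit 0) (nat_lit 2800977158) (nat_lit 304) (nat_lit 5176978349) (nat_lit 380) (nat_lit 6780690911) (nat_lit 123) (nat_lit 5) (nat_lit 127) (nat_lit 5) (nat_lit 128) (nat_lit 5) (nat_lit 625) (nat_lit 526) (nat_lit 409)) (XT.lf (nat_lit 0) (nat_lit 12081002199) (nat_lit 380) (nat_lit 2663223467) (nat_lit 76) (nat_lit 193832908) (nat_lit 123) (nat_lit 5) (nat_lit 128) (nat_lit 5) (nat_lit 124) (nat_lit 5) (nat_lit 626) (nat_lit 526) (nat_lit 408)))) (XT.nd (nat_lit 78) (nat_lit 304) (nat_lit 0) (XT.lf (nat_lit 0) (nat_lit 1190361160) (nat_lit 380) (nat_lit 8285349892) (nat_lit 76) (nat_lit 5643994065) (nat_lit 118) (nat_lit 5) (nat_lit 123) (nat_lit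 5) (nat_lit 119) (nat_lit 5) (nat_lit 627) (nat_lit 526) (nat_lit 407)) (XT.nd (nat_lit 78) (nat_lit 0) (nat_lit 0) (XT.lf (nat_lit 0) (nat_lit 1220047487) (nat_lit 304) (nat_lit 4067642055) (nat_lit 380) (nat_lit 10016774337) (nat_lit 114) (nat_lit 5) (nat_lit 118) (nat_lit 5) (nat_lit 119) (nat_lit 5) (nat_lit 628) (nat_lit 526) (nat_lit 406)) (XT.lf (nat_lit 0) (nat_lit 9513705516) (nat_lit 380) (nat_lit 4504088273) (nat_lit 76) (nat_lit 1474190543) (nat_lit 114) (nat_lit 5) (nat_lit 119) (nat_lit 5) (nat_lit 115) (nat_lit 5) (nat_lit 629) (nat_lit 526) (nat_lit 405)))))) (XT.nd (nat_lit 468) (nat_lit 1140) (nat_lit 0) (XT.nd (nat_lit 234) (nat_lit 608) (nat_lit 0) (XT.nd (nat_lit 78) (nat_lit 380) (nat_lit 0) (XT.lf (nat_lit 0) (nat_lit 5280385164) (nat_lit 304) (nat_lit 8586812317) (nat_lit 380) (nat_lit 1815199908) (nat_lit 110) (nat_lit 5) (nat_lit 114) (nat_lit 5) (nat_lit 115) (nat_lit 5) (nat_lit 630) (nat_lit 526) (nat_lit 404)) (XT.nd (nat_lit 78) (nat_lit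 304) (nat_lit 0) (XT.lf (nat_lit 0) (nat_lit 2411459552) (nat_lit 380) (nat_lit 600220709) (nat_lit 76) (nat_lit 12864379936) (nat_lit 109) (nat_lit 5) (nat_lit 114) (nat_lit 5) (nat_lit 110) (nat_lit 5) (nat_lit 631) (nat_lit 526) (nat_lit 403)) (XT.lf (nat_lit 0) (nat_lit 6759841418) (nat_lit 380) (nat_lit 6609577012) (nat_lit 76) (nat_lit 2702709199) (nat_lit 105) (nat_lit 5) (nat_lit 110) (nat_lit 5) (nat_lit 106) (nat_lit 5) (nat_lit 632) (nat_lit 526) (nat_lit 402)))) (XT.nd (nat_lit 78) (nat_lit 380) (nat_lit 0) (XT.lf (nat_lit 0) (nat_lit 3458739703) (nat_lit 228) (nat_lit 7765131178) (nat_lit 304) (nat_lit 5047673140) (nat_lit 102) (nat_lit 5) (nat_lit 105) (nat_lit 5) (nat_lit 106) (nat_lit 5) (nat_lit 633) (nat_lit 526) (nat_lit 401)) (XT.nd (nat_lit 78) (nat_lit 380) (nat_lit 0) (XT.lf (nat_lit 0) (nat_lit 13788881881) (nat_lit 228) (nat_lit 2015036327) (nat_lit 304) (nat_lit 670496971) (nat_lit 102) (nat_lit 5) (nat_lit 105) (nat_lit 5) (nat_lit 106) (nat_lit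 5) (nat_lit 634) (nat_lit 526) (nat_lit 400)) (XT.lf (nat_lit 0) (nat_lit 3802430990) (nat_lit 380) (nat_lit 9013887464) (nat_lit 76) (nat_lit 3863374350) (nat_lit 97) (nat_lit 5) (nat_lit 102) (nat_lit 5) (nat_lit 98) (nat_lit 5) (nat_lit 635) (nat_lit 526) (nat_lit 399))))) (XT.nd (nat_lit 234) (nat_lit 532) (nat_lit 0) (XT.nd (nat_lit 78) (nat_lit 380) (nat_lit 0) (XT.lf (nat_lit 0) (nat_lit 1342684744) (nat_lit 228) (nat_lit 7036060857) (nat_lit 304) (nat_lit 8509784738) (nat_lit 94) (nat_lit 5) (nat_lit 97) (nat_lit 5) (nat_lit 98) (nat_lit 5) (nat_lit 636) (nat_lit 526) (nat_lit 398)) (XT.nd (nat_lit 78) (nat_lit 380) (nat_lit 0) (XT.lf (nat_lit 0) (nat_lit 11999885224) (nat_lit 228) (nat_lit 1090037012) (nat_lit 304) (nat_lit 4010756767) (nat_lit 94) (nat_lit 5) (nat_lit 97) (nat_lit 5) (nat_lit 98) (nat_lit 5) (nat_lit 637) (nat_lit 526) (nat_lit 397)) (XT.lf (nat_lit 0) (nat_lit 622553935) (nat_lit 380) (nat_lit 11754676083) (nat_lit 76) (nat_lit 4938728868)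 (nat_lit 89) (nat_lit 5) (nat_lit 94) (nat_lit 5) (nat_lit 90) (nat_lit 5) (nat_lit 638) (nat_lit 526) (nat_lit 396)))) (XT.nd (nat_lit 156) (nat_lit 304) (nat_lit 0) (XT.nd (nat_lit 78) (nat_lit 228) (nat_lit 0) (XT.lf (nat_lit 0) (nat_lit 5319698326) (nat_lit 380) (nat_lit 1091551483) (nat_lit 76) (nat_lit 11123267935) (nat_lit 89) (nat_lit 5) (nat_lit 94) (nat_lit 5) (nat_lit 90) (nat_lit 5) (nat_lit 639) (nat_lit 526) (nat_lit 395)) (XT.lf (nat_lit 0) (nat_lit 9886629509) (nat_lit 228) (nat_lit 271823933) (nat_lit 304) (nat_lit 7598041994) (nat_lit 86) (nat_lit 5) (nat_lit 89) (nat_lit 5) (nat_lit 90) (nat_lit 5) (nat_lit 640) (nat_lit 526) (nat_lit 394))) (XT.nd (nat_lit 78) (nat_lit 76) (nat_lit 0) (XT.lf (nat_lit 0) (nat_lit 3090045816) (nat_lit 228) (nat_lit 12053815516) (nat_lit 304) (nat_lit 2838054787) (nat_lit 83) (nat_lit 5) (nat_lit 86) (nat_lit 5) (nat_lit 87) (nat_lit 5) (nat_lit 641) (nat_lit 526) (nat_lit 393)) (XT.lf (nat_lit 0) (nat_lit 2029219404)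 (nat_lit 304) (nat_lit 3878179668) (nat_lit 76) (nat_lit 12303414320) (nat_lit 82) (nat_lit 5) (nat_lit 86) (nat_lit 5) (nat_lit 83) (nat_lit 5) (nat_lit 642) (nat_lit 526) (nat_lit 392))))))) (XT.nd (nat_lit 72462) (nat_lit 0) (nat_lit 46360) (XT.nd (nat_lit 468) (nat_lit 304) (nat_lit 0) (XT.nd (nat_lit 234) (nat_lit 532) (nat_lit 0) (XT.nd (nat_lit 78) (nat_lit 228) (nat_lit 0) (XT.lf (nat_lit 0) (nat_lit 6990584995) (nat_lit 304) (nat_lit 11039292744) (nat_lit 76) (nat_lit 413341666) (nat_lit 79) (nat_lit 5) (nat_lit 83) (nat_lit 5) (nat_lit 80) (nat_lit 5) (nat_lit 643) (nat_lit 526) (nat_lit 391)) (XT.nd (nat_lit 78) (nat_lit 0) (nat_lit 0) (XT.lf (nat_lit 0) (nat_lit 220594935) (nat_lit 228) (nat_lit 11881302807) (nat_lit 304) (nat_lit 6577362315) (nat_lit 76) (nat_lit 5) (nat_lit 79) (nat_lit 5) (nat_lit 80) (nat_lit 5) (nat_lit 644) (nat_lit 526) (nat_lit 390)) (XT.lf (nat_lit 0) (nat_lit 11828005954) (nat_lit 228) (nat_lit 5545616021) (nat_lit 304) (nat_lit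 1545236742) (nat_lit 76) (nat_lit 5) (nat_lit 79) (nat_lit 5) (nat_lit 80) (nat_lit 5) (nat_lit 645) (nat_lit 526) (nat_lit 389)))) (XT.nd (nat_lit 78) (nat_lit 228) (nat_lit 0) (XT.lf (nat_lit 0) (nat_lit 3560323739) (nat_lit 304) (nat_lit 14655513037) (nat_lit 76) (nat_lit 946550713) (nat_lit 72) (nat_lit 5) (nat_lit 76) (nat_lit 5) (nat_lit 73) (nat_lit 5) (nat_lit 646) (nat_lit 526) (nat_lit 388)) (XT.nd (nat_lit 78) (nat_lit 228) (nat_lit 0) (XT.lf (nat_lit 0) (nat_lit 8816322225) (nat_lit 304) (nat_lit 3051484929) (nat_lit 76) (nat_lit 7541395900) (nat_lit 72) (nat_lit 5) (nat_lit 76) (nat_lit 5) (nat_lit 73) (nat_lit 5) (nat_lit 647) (nat_lit 526) (nat_lit 387)) (XT.lf (nat_lit 0) (nat_lit 8874494791) (nat_lit 228) (nat_lit 5345245154) (nat_lit 304) (nat_lit 5440369829) (nat_lit 69) (nat_lit 5) (nat_lit 72) (nat_lit 5) (nat_lit 73) (nat_lit 5) (nat_lit 648) (nat_lit 526) (nat_lit 386))))) (XT.nd (nat_lit 71760) (nat_lit 0) (nat_lit 49400) (XT.nd (nat_lit 78) (nat_lit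 76) (nat_lit 0) (XT.lf (nat_lit 0) (nat_lit 1144539762) (nat_lit 228) (nat_lit 18607958023) (nat_lit 304) (nat_lit 163112222) (nat_lit 66) (nat_lit 5) (nat_lit 69) (nat_lit 5) (nat_lit 70) (nat_lit 5) (nat_lit 649) (nat_lit 526) (nat_lit 385)) (XT.nd (nat_lit 71604) (nat_lit 0) (nat_lit 50008) (XT.lf (nat_lit 0) (nat_lit 5244252710) (nat_lit 304) (nat_lit 6811646921) (nat_lit 76) (nat_lit 8117783213) (nat_lit 65) (nat_lit 5) (nat_lit 69) (nat_lit 5) (nat_lit 66) (nat_lit 5) (nat_lit 650) (nat_lit 526) (nat_lit 384)) (XT.lf (nat_lit 0) (nat_lit 302587756) (nat_lit 0) (nat_lit 302587756) (nat_lit 532) (nat_lit 2662781671) (nat_lit 723) (nat_lit 5) (nat_lit 723) (nat_lit 3) (nat_lit 730) (nat_lit 3) (nat_lit 527) (nat_lit 527) (nat_lit 506)))) (XT.nd (nat_lit 78) (nat_lit 608) (nat_lit 0) (XT.lf (nat_lit 0) (nat_lit 3762314662) (nat_lit 532) (nat_lit 2697026493) (nat_lit 608) (nat_lit 90493314) (nat_lit 723) (nat_lit 5) (nat_lit 730) (nat_lit 3) (nat_lit 731) (nat_lit 5)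 (nat_lit 528) (nat_lit 527) (nat_lit 505)) (XT.nd (nat_lit 78) (nat_lit 608) (nat_lit 0) (XT.lf (nat_lit 76) (nat_lit 569959358) (nat_lit 0) (nat_lit 5736676951) (nat_lit 608) (nat_lit 258587128) (nat_lit 724) (nat_lit 5) (nat_lit 723) (nat_lit 5) (nat_lit 731) (nat_lit 5) (nat_lit 529) (nat_lit 527) (nat_lit 504)) (XT.lf (nat_lit 0) (nat_lit 2242941622) (nat_lit 608) (nat_lit 2692432036) (nat_lit 684) (nat_lit 1646212194) (nat_lit 715) (nat_lit 5) (nat_lit 723) (nat_lit 5) (nat_lit 724) (nat_lit 5) (nat_lit 530) (nat_lit 527) (nat_lit 503)))))) (XT.nd (nat_lit 468) (nat_lit 1596) (nat_lit 0) (XT.nd (nat_lit 234) (nat_lit 760) (nat_lit 0) (XT.nd (nat_lit 78) (nat_lit 684) (nat_lit 0) (XT.lf (nat_lit 76) (nat_lit 648416074) (nat_lit 0) (nat_lit 4082363450) (nat_lit 684) (nat_lit 1868682848) (nat_lit 716) (nat_lit 5) (nat_lit 715) (nat_lit 5) (nat_lit 724) (nat_lit 5) (nat_lit 531) (nat_lit 527) (nat_lit 502)) (XT.nd (nat_lit 78) (nat_lit 0) (nat_lit 0) (XT.lf (nat_lit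 0) (nat_lit 596463229) (nat_lit 684) (nat_lit 2564568617) (nat_lit 760) (nat_lit 3457508947) (nat_lit 706) (nat_lit 5) (nat_lit 715) (nat_lit 5) (nat_lit 716) (nat_lit 5) (nat_lit 532) (nat_lit 527) (nat_lit 501)) (XT.lf (nat_lit 76) (nat_lit 853687902) (nat_lit 0) (nat_lit 2175153010) (nat_lit 760) (nat_lit 3610068775) (nat_lit 707) (nat_lit 5) (nat_lit 706) (nat_lit 5) (nat_lit 716) (nat_lit 5) (nat_lit 533) (nat_lit 527) (nat_lit 500)))) (XT.nd (nat_lit 78) (nat_lit 760) (nat_lit 0) (XT.lf (nat_lit 76) (nat_lit 4340530115) (nat_lit 0) (nat_lit 1124933375) (nat_lit 760) (nat_lit 1195125178) (nat_lit 707) (nat_lit 5) (nat_lit 706) (nat_lit 5) (nat_lit 716) (nat_lit 5) (nat_lit 534) (nat_lit 527) (nat_lit 499)) (XT.nd (nat_lit 78) (nat_lit 0) (nat_lit 76) (XT.lf (nat_lit 76) (nat_lit 1187055063) (nat_lit 0) (nat_lit 11319399) (nat_lit 836) (nat_lit 5485238410) (nat_lit 697) (nat_lit 5) (nat_lit 696) (nat_lit 5) (nat_lit 707) (nat_lit 5) (nat_lit 535) (nat_lit 527) (nat_lit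 498)) (XT.lf (nat_lit 0) (nat_lit 3587044922) (nat_lit 760) (nat_lit 1962180806) (nat_lit 836) (nat_lit 1158461576) (nat_lit 697) (nat_lit 5) (nat_lit 707) (nat_lit 5) (nat_lit 708) (nat_lit 5) (nat_lit 536) (nat_lit 527) (nat_lit 497))))) (XT.nd (nat_lit 234) (nat_lit 836) (nat_lit 0) (XT.nd (nat_lit 78) (nat_lit 836) (nat_lit 0) (XT.lf (nat_lit 76) (nat_lit 1629041292) (nat_lit 0) (nat_lit 4346584808) (nat_lit 836) (nat_lit 757587918) (nat_lit 698) (nat_lit 5) (nat_lit 697) (nat_lit 5) (nat_lit 708) (nat_lit 5) (nat_lit 537) (nat_lit 527) (nat_lit 496)) (XT.nd (nat_lit 78) (nat_lit 0) (nat_lit 0) (XT.lf (nat_lit 0) (nat_lit 1586318034) (nat_lit 836) (nat_lit 1486805178) (nat_lit 912) (nat_lit 3686821132) (nat_lit 686) (nat_lit 5) (nat_lit 697) (nat_lit 5) (nat_lit 698) (nat_lit 5) (nat_lit 538) (nat_lit 527) (nat_lit 495)) (XT.lf (nat_lit 76) (nat_lit 2191651025) (nat_lit 0) (nat_lit 1732694891) (nat_lit 912) (nat_lit 2863628211) (nat_lit 687) (nat_lit 5) (nat_lit 686)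 (nat_lit 5) (nat_lit 698) (nat_lit 5) (nat_lit 539) (nat_lit 527) (nat_lit 494)))) (XT.nd (nat_lit 156) (nat_lit 0) (nat_lit 0) (XT.nd (nat_lit 78) (nat_lit 836) (nat_lit 0) (XT.lf (nat_lit 76) (nat_lit 5929075102) (nat_lit 0) (nat_lit 334074352) (nat_lit 912) (nat_lit 554347257) (nat_lit 687) (nat_lit 5) (nat_lit 686) (nat_lit 5) (nat_lit 698) (nat_lit 5) (nat_lit 540) (nat_lit 527) (nat_lit 493)) (XT.lf (nat_lit 0) (nat_lit 1748415522) (nat_lit 912) (nat_lit 3970584821) (nat_lit 988) (nat_lit 1128969183) (nat_lit 675) (nat_lit 5) (nat_lit 687) (nat_lit 5) (nat_lit 688) (nat_lit 5) (nat_lit 541) (nat_lit 527) (nat_lit 492))) (XT.nd (nat_lit 78) (nat_lit 0) (nat_lit 0) (XT.lf (nat_lit 0) (nat_lit 4043778212) (nat_lit 912) (nat_lit 190124481) (nat_lit 988) (nat_lit 2646008257) (nat_lit 675) (nat_lit 5) (nat_lit 687) (nat_lit 5) (nat_lit 688) (nat_lit 5) (nat_lit 542) (nat_lit 527) (nat_lit 491)) (XT.lf (nat_lit 76) (nat_lit 3679080408) (nat_lit 0) (nat_lit 2676665324)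 (nat_lit 988) (nat_lit 557343078) (nat_lit 676) (nat_lit 5) (nat_lit 675) (nat_lit 5) (nat_lit 688) (nat_lit 5) (nat_lit 543) (nat_lit 527) (nat_lit 490))))))))
noncomputable def xc100 : XT := (XT.nd (nat_lit 1950) (nat_lit 12008) (nat_lit 0) (XT.nd (nat_lit 936) (nat_lit 11856) (nat_lit 0) (XT.nd (nat_lit 468) (nat_lit 5168) (nat_lit 0) (XT.nd (nat_lit 234) (nat_lit 1140) (nat_lit 0) (XT.nd (nat_lit 78) (nat_lit 912) (nat_lit 0) (XT.lf (nat_lit 76) (nat_lit 642692465) (nat_lit 0) (nat_lit 1053881116) (nat_lit 1064) (nat_lit 5251083779) (nat_lit 663) (nat_lit 5) (nat_lit 662) (nat_lit 5) (nat_lit 676) (nat_lit 5) (nat_lit 544) (nat_lit 527) (nat_lit 489)) (XT.nd (nat_lit 78) (nat_lit 988) (nat_lit 0) (XT.lf (nat_lit 0) (nat_lit 3962043603) (nat_lit 988) (nat_lit 2385977291) (nat_lit 76) (nat_lit 635354839) (nat_lit 663) (nat_lit 5) (nat_lit 676) (nat_lit 5) (nat_lit 664) (nat_lit 5) (nat_lit 545) (nat_lit 527) (nat_lit 488)) (XT.lf (nat_lit 0) (nat_lit 1589452681) (nat_lit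 988) (nat_lit 4649866369) (nat_lit 1064) (nat_lit 781170180) (nat_lit 650) (nat_lit 5) (nat_lit 663) (nat_lit 5) (nat_lit 664) (nat_lit 5) (nat_lit 546) (nat_lit 527) (nat_lit 487)))) (XT.nd (nat_lit 78) (nat_lit 1064) (nat_lit 0) (XT.lf (nat_lit 0) (nat_lit 1449810061) (nat_lit 1064) (nat_lit 1427408864) (nat_lit 76) (nat_lit 4181626308) (nat_lit 649) (nat_lit 5) (nat_lit 663) (nat_lit 5) (nat_lit 650) (nat_lit 5) (nat_lit 547) (nat_lit 527) (nat_lit 486)) (XT.nd (nat_lit 78) (nat_lit 0) (nat_lit 0) (XT.lf (nat_lit 0) (nat_lit 2650340276) (nat_lit 1064) (nat_lit 1032435540) (nat_lit 1140) (nat_lit 3415742815) (nat_lit 635) (nat_lit 5) (nat_lit 649) (nat_lit 5) (nat_lit 650) (nat_lit 5) (nat_lit 548) (nat_lit 527) (nat_lit 485)) (XT.lf (nat_lit 0) (nat_lit 5926990991) (nat_lit 1140) (nat_lit 351751169) (nat_lit 76) (nat_lit 860921398) (nat_lit 635) (nat_lit 5) (nat_lit 650) (nat_lit 5) (nat_lit 636) (nat_lit 5) (nat_lit 549) (nat_lit 527) (nat_lit 484))))) (XT.nd (nat_lit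 234) (nat_lit 2736) (nat_lit 0) (XT.nd (nat_lit 78) (nat_lit 1216) (nat_lit 0) (XT.lf (nat_lit 0) (nat_lit 1004896441) (nat_lit 1216) (nat_lit 3354173858) (nat_lit 76) (nat_lit 2822756148) (nat_lit 619) (nat_lit 5) (nat_lit 635) (nat_lit 5) (nat_lit 620) (nat_lit 5) (nat_lit 550) (nat_lit 527) (nat_lit 483)) (XT.nd (nat_lit 78) (nat_lit 0) (nat_lit 0) (XT.lf (nat_lit 0) (nat_lit 837502124) (nat_lit 1216) (nat_lit 2373675886) (nat_lit 1292) (nat_lit 4014291586) (nat_lit 603) (nat_lit 5) (nat_lit 619) (nat_lit 5) (nat_lit 620) (nat_lit 5) (nat_lit 551) (nat_lit 527) (nat_lit 482)) (XT.lf (nat_lit 0) (nat_lit 5122653179) (nat_lit 1216) (nat_lit 314903782) (nat_lit 1292) (nat_lit 1832918323) (nat_lit 603) (nat_lit 5) (nat_lit 619) (nat_lit 5) (nat_lit 620) (nat_lit 5) (nat_lit 552) (nat_lit 527) (nat_lit 481)))) (XT.nd (nat_lit 78) (nat_lit 1368) (nat_lit 0) (XT.lf (nat_lit 0) (nat_lit 366842390) (nat_lit 1368) (nat_lit 5161479485) (nat_lit 76) (nat_lit 1788419012) (nat_lit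 585) (nat_lit 5) (nat_lit 603) (nat_lit 5) (nat_lit 586) (nat_lit 5) (nat_lit 553) (nat_lit 527) (nat_lit 480)) (XT.nd (nat_lit 78) (nat_lit 1368) (nat_lit 0) (XT.lf (nat_lit 0) (nat_lit 2557470913) (nat_lit 1368) (nat_lit 840926113) (nat_lit 76) (nat_lit 3965872744) (nat_lit 585) (nat_lit 5) (nat_lit 603) (nat_lit 5) (nat_lit 586) (nat_lit 5) (nat_lit 554) (nat_lit 527) (nat_lit 479)) (XT.lf (nat_lit 0) (nat_lit 3577185117) (nat_lit 1368) (nat_lit 1193637156) (nat_lit 1444) (nat_lit 2642357171) (nat_lit 567) (nat_lit 5) (nat_lit 585) (nat_lit 5) (nat_lit 586) (nat_lit 5) (nat_lit 555) (nat_lit 527) (nat_lit 478)))))) (XT.nd (nat_lit 468) (nat_lit 5472) (nat_lit 0) (XT.nd (nat_lit 234) (nat_lit 3344) (nat_lit 0) (XT.nd (nat_lit 78) (nat_lit 1596) (nat_lit 0) (XT.lf (nat_lit 0) (nat_lit 596570700) (nat_lit 1444) (nat_lit 6404650798) (nat_lit 1520) (nat_lit 462398449) (nat_lit 548) (nat_lit 5) (nat_lit 567) (nat_lit 5) (nat_lit 568) (nat_lit 5) (nat_lit 556) (nat_lit 527)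 (nat_lit 477)) (XT.nd (nat_lit 78) (nat_lit 1520) (nat_lit 0) (XT.lf (nat_lit 0) (nat_lit 1728581702) (nat_lit 1520) (nat_lit 2401090842) (nat_lit 76) (nat_lit 3385365552) (nat_lit 547) (nat_lit 5) (nat_lit 567) (nat_lit 5) (nat_lit 548) (nat_lit 5) (nat_lit 557) (nat_lit 527) (nat_lit 476)) (XT.lf (nat_lit 0) (nat_lit 2143142596) (nat_lit 1520) (nat_lit 1785520072) (nat_lit 1596) (nat_lit 3639339135) (nat_lit 527) (nat_lit 5) (nat_lit 547) (nat_lit 5) (nat_lit 548) (nat_lit 5) (nat_lit 558) (nat_lit 527) (nat_lit 475)))) (XT.nd (nat_lit 78) (nat_lit 3344) (nat_lit 0) (XT.lf (nat_lit 0) (nat_lit 6151086651) (nat_lit 1596) (nat_lit 851668205) (nat_lit 76) (nat_lit 619710725) (nat_lit 527) (nat_lit 5) (nat_lit 548) (nat_lit 5) (nat_lit 528) (nat_lit 5) (nat_lit 559) (nat_lit 527) (nat_lit 474)) (XT.nd (nat_lit 78) (nat_lit 1672) (nat_lit 0) (XT.lf (nat_lit 0) (nat_lit 725805376) (nat_lit 1672) (nat_lit 3867705605) (nat_lit 76) (nat_lit 3084507512) (nat_lit 505) (nat_lit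 5) (nat_lit 527) (nat_lit 5) (nat_lit 506) (nat_lit 5) (nat_lit 560) (nat_lit 527) (nat_lit 473)) (XT.lf (nat_lit 0) (nat_lit 806985305) (nat_lit 1672) (nat_lit 2110564197) (nat_lit 1748) (nat_lit 4817539270) (nat_lit 483) (nat_lit 5) (nat_lit 505) (nat_lit 5) (nat_lit 506) (nat_lit 5) (nat_lit 561) (nat_lit 527) (nat_lit 472))))) (XT.nd (nat_lit 234) (nat_lit 3648) (nat_lit 0) (XT.nd (nat_lit 78) (nat_lit 1824) (nat_lit 0) (XT.lf (nat_lit 0) (nat_lit 5141891757) (nat_lit 1748) (nat_lit 2205018916) (nat_lit 76) (nat_lit 446621564) (nat_lit 483) (nat_lit 5) (nat_lit 506) (nat_lit 5) (nat_lit 484) (nat_lit 5) (nat_lit 562) (nat_lit 527) (nat_lit 471)) (XT.nd (nat_lit 78) (nat_lit 76) (nat_lit 0) (XT.lf (nat_lit 0) (nat_lit 2596403069) (nat_lit 1748) (nat_lit 4805835788) (nat_lit 1824) (nat_lit 451082259) (nat_lit 460) (nat_lit 5) (nat_lit 483) (nat_lit 5) (nat_lit 484) (nat_lit 5) (nat_lit 563) (nat_lit 527) (nat_lit 470)) (XT.lf (nat_lit 0) (nat_lit 1745817169) (nat_lit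 1824) (nat_lit 438495877) (nat_lit 76) (nat_lit 5730249435) (nat_lit 459) (nat_lit 5) (nat_lit 483) (nat_lit 5) (nat_lit 460) (nat_lit 5) (nat_lit 564) (nat_lit 527) (nat_lit 469)))) (XT.nd (nat_lit 156) (nat_lit 988) (nat_lit 0) (XT.nd (nat_lit 78) (nat_lit 988) (nat_lit 0) (XT.lf (nat_lit 0) (nat_lit 3974945689) (nat_lit 1748) (nat_lit 3484056827) (nat_lit 76) (nat_lit 518086412) (nat_lit 437) (nat_lit 5) (nat_lit 460) (nat_lit 5) (nat_lit 438) (nat_lit 5) (nat_lit 565) (nat_lit 527) (nat_lit 468)) (XT.lf (nat_lit 0) (nat_lit 1456634563) (nat_lit 988) (nat_lit 4781164233) (nat_lit 1064) (nat_lit 1803290647) (nat_lit 424) (nat_lit 5) (nat_lit 437) (nat_lit 5) (nat_lit 438) (nat_lit 5) (nat_lit 566) (nat_lit 527) (nat_lit 467))) (XT.nd (nat_lit 78) (nat_lit 912) (nat_lit 0) (XT.lf (nat_lit 0) (nat_lit 419819030) (nat_lit 1064) (nat_lit 1602121196) (nat_lit 76) (nat_lit 6084657904) (nat_lit 423) (nat_lit 5) (nat_lit 437) (nat_lit 5) (nat_lit 424) (nat_lit 5) (nat_lit 567)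 (nat_lit 527) (nat_lit 466)) (XT.lf (nat_lit 0) (nat_lit 2654471468) (nat_lit 988) (nat_lit 4701180363) (nat_lit 76) (nat_lit 817708245) (nat_lit 411) (nat_lit 5) (nat_lit 424) (nat_lit 5) (nat_lit 412) (nat_lit 5) (nat_lit 568) (nat_lit 527) (nat_lit 465))))))) (XT.nd (nat_lit 936) (nat_lit 6080) (nat_lit 0) (XT.nd (nat_lit 468) (nat_lit 2508) (nat_lit 0) (XT.nd (nat_lit 234) (nat_lit 1596) (nat_lit 0) (XT.nd (nat_lit 78) (nat_lit 912) (nat_lit 0) (XT.lf (nat_lit 0) (nat_lit 383652165) (nat_lit 912) (nat_lit 4540606953) (nat_lit 988) (nat_lit 3317395196) (nat_lit 399) (nat_lit 5) (nat_lit 411) (nat_lit 5) (nat_lit 412) (nat_lit 5) (nat_lit 569) (nat_lit 527) (nat_lit 464)) (XT.nd (nat_lit 78) (nat_lit 912) (nat_lit 0) (XT.lf (nat_lit 0) (nat_lit 5597786743) (nat_lit 912) (nat_lit 1637418292) (nat_lit 988) (nat_lit 1076199927) (nat_lit 399) (nat_lit 5) (nat_lit 411) (nat_lit 5) (nat_lit 412) (nat_lit 5) (nat_lit 570) (nat_lit 527) (nat_lit 463)) (XT.lf (nat_lit 0) (nat_lit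 1183764137) (nat_lit 912) (nat_lit 5868528922) (nat_lit 76) (nat_lit 1330309783) (nat_lit 387) (nat_lit 5) (nat_lit 399) (nat_lit 5) (nat_lit 388) (nat_lit 5) (nat_lit 571) (nat_lit 527) (nat_lit 462)))) (XT.nd (nat_lit 78) (nat_lit 1596) (nat_lit 0) (XT.lf (nat_lit 0) (nat_lit 3468839688) (nat_lit 912) (nat_lit 626196809) (nat_lit 76) (nat_lit 4360164903) (nat_lit 387) (nat_lit 5) (nat_lit 399) (nat_lit 5) (nat_lit 388) (nat_lit 5) (nat_lit 572) (nat_lit 527) (nat_lit 461)) (XT.nd (nat_lit 78) (nat_lit 760) (nat_lit 0) (XT.lf (nat_lit 0) (nat_lit 4747611982) (nat_lit 836) (nat_lit 1048647866) (nat_lit 912) (nat_lit 2733064558) (nat_lit 376) (nat_lit 5) (nat_lit 387) (nat_lit 5) (nat_lit 388) (nat_lit 5) (nat_lit 573) (nat_lit 527) (nat_lit 460)) (XT.lf (nat_lit 0) (nat_lit 1604112961) (nat_lit 760) (nat_lit 6560374648) (nat_lit 836) (nat_lit 440562313) (nat_lit 366) (nat_lit 5) (nat_lit 376) (nat_lit 5) (nat_lit 377) (nat_lit 5) (nat_lit 574) (nat_lit 527) (nat_lit 459)))))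 (XT.nd (nat_lit 234) (nat_lit 836) (nat_lit 0) (XT.nd (nat_lit 78) (nat_lit 1596) (nat_lit 0) (XT.lf (nat_lit 0) (nat_lit 1871841605) (nat_lit 836) (nat_lit 1588584049) (nat_lit 76) (nat_lit 5221644062) (nat_lit 365) (nat_lit 5) (nat_lit 376) (nat_lit 5) (nat_lit 366) (nat_lit 5) (nat_lit 575) (nat_lit 527) (nat_lit 458)) (XT.nd (nat_lit 78) (nat_lit 760) (nat_lit 0) (XT.lf (nat_lit 0) (nat_lit 3945268503) (nat_lit 836) (nat_lit 272056054) (nat_lit 912) (nat_lit 4543397435) (nat_lit 354) (nat_lit 5) (nat_lit 365) (nat_lit 5) (nat_lit 366) (nat_lit 5) (nat_lit 576) (nat_lit 527) (nat_lit 457)) (XT.lf (nat_lit 0) (nat_lit 724708684) (nat_lit 760) (nat_lit 5887299422) (nat_lit 836) (nat_lit 2228898224) (nat_lit 344) (nat_lit 5) (nat_lit 354) (nat_lit 5) (nat_lit 355) (nat_lit 5) (nat_lit 577) (nat_lit 527) (nat_lit 456)))) (XT.nd (nat_lit 78) (nat_lit 760) (nat_lit 0) (XT.lf (nat_lit 0) (nat_lit 132185189) (nat_lit 836) (nat_lit 2520142966) (nat_lit 76) (nat_lit 6270313243)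 (nat_lit 343) (nat_lit 5) (nat_lit 354) (nat_lit 5) (nat_lit 344) (nat_lit 5) (nat_lit 578) (nat_lit 527) (nat_lit 455)) (XT.nd (nat_lit 78) (nat_lit 0) (nat_lit 0) (XT.lf (nat_lit 0) (nat_lit 2504055735) (nat_lit 836) (nat_lit 5831047332) (nat_lit 76) (nat_lit 670749787) (nat_lit 333) (nat_lit 5) (nat_lit 344) (nat_lit 5) (nat_lit 334) (nat_lit 5) (nat_lit 579) (nat_lit 527) (nat_lit 454)) (XT.lf (nat_lit 0) (nat_lit 4926646437) (nat_lit 836) (nat_lit 126086802) (nat_lit 76) (nat_lit 4037934111) (nat_lit 333) (nat_lit 5) (nat_lit 344) (nat_lit 5) (nat_lit 334) (nat_lit 5) (nat_lit 580) (nat_lit 527) (nat_lit 453)))))) (XT.nd (nat_lit 468) (nat_lit 3116) (nat_lit 0) (XT.nd (nat_lit 234) (nat_lit 1444) (nat_lit 0) (XT.nd (nat_lit 78) (nat_lit 836) (nat_lit 0) (XT.lf (nat_lit 0) (nat_lit 5733031709) (nat_lit 684) (nat_lit 1671187906) (nat_lit 760) (nat_lit 1772832289) (nat_lit 324) (nat_lit 5) (nat_lit 333) (nat_lit 5) (nat_lit 334) (nat_lit 5) (nat_lit 581) (nat_lit 527)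 (nat_lit 452)) (XT.nd (nat_lit 78) (nat_lit 0) (nat_lit 0) (XT.lf (nat_lit 0) (nat_lit 655255498) (nat_lit 836) (nat_lit 6838778766) (nat_lit 76) (nat_lit 1771091337) (nat_lit 313) (nat_lit 5) (nat_lit 324) (nat_lit 5) (nat_lit 314) (nat_lit 5) (nat_lit 582) (nat_lit 527) (nat_lit 451)) (XT.lf (nat_lit 0) (nat_lit 3112337672) (nat_lit 836) (nat_lit 952306414) (nat_lit 76) (nat_lit 5290003030) (nat_lit 313) (nat_lit 5) (nat_lit 324) (nat_lit 5) (nat_lit 314) (nat_lit 5) (nat_lit 583) (nat_lit 527) (nat_lit 450)))) (XT.nd (nat_lit 78) (nat_lit 760) (nat_lit 0) (XT.lf (nat_lit 0) (nat_lit 5083614435) (nat_lit 684) (nat_lit 538362027) (nat_lit 760) (nat_lit 3823918345) (nat_lit 304) (nat_lit 5) (nat_lit 313) (nat_lit 5) (nat_lit 314) (nat_lit 5) (nat_lit 584) (nat_lit 527) (nat_lit 449)) (XT.nd (nat_lit 78) (nat_lit 76) (nat_lit 0) (XT.lf (nat_lit 0) (nat_lit 1681195647) (nat_lit 684) (nat_lit 6508545997) (nat_lit 760) (nat_lit 1349071101) (nat_lit 295) (nat_lit 5) (nat_lit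 304) (nat_lit 5) (nat_lit 305) (nat_lit 5) (nat_lit 585) (nat_lit 527) (nat_lit 448)) (XT.lf (nat_lit 0) (nat_lit 1163770495) (nat_lit 760) (nat_lit 1775155673) (nat_lit 76) (nat_lit 6694435847) (nat_lit 294) (nat_lit 5) (nat_lit 304) (nat_lit 5) (nat_lit 295) (nat_lit 5) (nat_lit 586) (nat_lit 527) (nat_lit 447))))) (XT.nd (nat_lit 234) (nat_lit 1824) (nat_lit 0) (XT.nd (nat_lit 78) (nat_lit 684) (nat_lit 0) (XT.lf (nat_lit 0) (nat_lit 3713890677) (nat_lit 684) (nat_lit 5290831465) (nat_lit 76) (nat_lit 724803804) (nat_lit 286) (nat_lit 5) (nat_lit 295) (nat_lit 5) (nat_lit 287) (nat_lit 5) (nat_lit 587) (nat_lit 527) (nat_lit 446)) (XT.nd (nat_lit 78) (nat_lit 0) (nat_lit 0) (XT.lf (nat_lit 0) (nat_lit 931140521) (nat_lit 684) (nat_lit 5393117325) (nat_lit 760) (nat_lit 3503174081) (nat_lit 277) (nat_lit 5) (nat_lit 286) (nat_lit 5) (nat_lit 287) (nat_lit 5) (nat_lit 588) (nat_lit 527) (nat_lit 445)) (XT.lf (nat_lit 0) (nat_lit 7314462070) (nat_lit 684) (nat_lit 1679947375)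 (nat_lit 760) (nat_lit 932738635) (nat_lit 277) (nat_lit 5) (nat_lit 286) (nat_lit 5) (nat_lit 287) (nat_lit 5) (nat_lit 589) (nat_lit 527) (nat_lit 444)))) (XT.nd (nat_lit 156) (nat_lit 532) (nat_lit 0) (XT.nd (nat_lit 78) (nat_lit 608) (nat_lit 0) (XT.lf (nat_lit 0) (nat_lit 1677940947) (nat_lit 684) (nat_lit 6241595157) (nat_lit 76) (nat_lit 2108886801) (nat_lit 268) (nat_lit 5) (nat_lit 277) (nat_lit 5) (nat_lit 269) (nat_lit 5) (nat_lit 590) (nat_lit 527) (nat_lit 443)) (XT.lf (nat_lit 0) (nat_lit 168393180) (nat_lit 608) (nat_lit 4162538657) (nat_lit 684) (nat_lit 5800619726) (nat_lit 260) (nat_lit 5) (nat_lit 268) (nat_lit 5) (nat_lit 269) (nat_lit 5) (nat_lit 591) (nat_lit 527) (nat_lit 442))) (XT.nd (nat_lit 78) (nat_lit 532) (nat_lit 0) (XT.lf (nat_lit 0) (nat_lit 6756644995) (nat_lit 608) (nat_lit 295240804) (nat_lit 684) (nat_lit 3184562248) (nat_lit 260) (nat_lit 5) (nat_lit 268) (nat_lit 5) (nat_lit 269) (nat_lit 5) (nat_lit 592) (nat_lit 527) (nat_lit 441))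 (XT.lf (nat_lit 0) (nat_lit 3116042893) (nat_lit 532) (nat_lit 6728641486) (nat_lit 608) (nat_lit 498412826) (nat_lit 253) (nat_lit 5) (nat_lit 260) (nat_lit 5) (nat_lit 261) (nat_lit 5) (nat_lit 593) (nat_lit 527) (nat_lit 440))))))))
noncomputable def xc101 : XT := (XT.nd (nat_lit 1950) (nat_lit 4940) (nat_lit 0) (XT.nd (nat_lit 936) (nat_lit 4028) (nat_lit 0) (XT.nd (nat_lit 468) (nat_lit 1672) (nat_lit 0) (XT.nd (nat_lit 234) (nat_lit 1140) (nat_lit 0) (XT.nd (nat_lit 78) (nat_lit 1140) (nat_lit 0) (XT.lf (nat_lit 0) (nat_lit 2211144792) (nat_lit 608) (nat_lit 611577152) (nat_lit 76) (nat_lit 7628887822) (nat_lit 252) (nat_lit 5) (nat_lit 260) (nat_lit 5) (nat_lit 253) (nat_lit 5) (nat_lit 594) (nat_lit 527) (nat_lit 439)) (XT.nd (nat_lit 78) (nat_lit 532) (nat_lit 0) (XT.lf (nat_lit 0) (nat_lit 4990266232) (nat_lit 684) (nat_lit 4389558978) (nat_lit 76) (nat_lit 1181963615) (nat_lit 244) (nat_lit 5) (nat_lit 253) (nat_lit 5) (nat_lit 245) (nat_lit 5) (nat_lit 595)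 (nat_lit 527) (nat_lit 438)) (XT.lf (nat_lit 0) (nat_lit 2404689541) (nat_lit 532) (nat_lit 5433093591) (nat_lit 608) (nat_lit 2836135080) (nat_lit 237) (nat_lit 5) (nat_lit 244) (nat_lit 5) (nat_lit 245) (nat_lit 5) (nat_lit 596) (nat_lit 527) (nat_lit 437)))) (XT.nd (nat_lit 78) (nat_lit 1140) (nat_lit 0) (XT.lf (nat_lit 0) (nat_lit 9360507231) (nat_lit 532) (nat_lit 1385857752) (nat_lit 608) (nat_lit 41845858) (nat_lit 237) (nat_lit 5) (nat_lit 244) (nat_lit 5) (nat_lit 245) (nat_lit 5) (nat_lit 597) (nat_lit 527) (nat_lit 436)) (XT.nd (nat_lit 78) (nat_lit 532) (nat_lit 0) (XT.lf (nat_lit 0) (nat_lit 2800772713) (nat_lit 608) (nat_lit 5350307744) (nat_lit 76) (nat_lit 2752761522) (nat_lit 229) (nat_lit 5) (nat_lit 237) (nat_lit 5) (nat_lit 230) (nat_lit 5) (nat_lit 598) (nat_lit 527) (nat_lit 435)) (XT.lf (nat_lit 0) (nat_lit 1650573352) (nat_lit 532) (nat_lit 4053855990) (nat_lit 608) (nat_lit 5317258722) (nat_lit 222) (nat_lit 5) (nat_lit 229) (nat_lit 5) (nat_lit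 230) (nat_lit 5) (nat_lit 599) (nat_lit 527) (nat_lit 434))))) (XT.nd (nat_lit 234) (nat_lit 608) (nat_lit 0) (XT.nd (nat_lit 78) (nat_lit 1064) (nat_lit 0) (XT.lf (nat_lit 0) (nat_lit 8678531272) (nat_lit 608) (nat_lit 2312152090) (nat_lit 76) (nat_lit 150962989) (nat_lit 222) (nat_lit 5) (nat_lit 230) (nat_lit 5) (nat_lit 223) (nat_lit 5) (nat_lit 600) (nat_lit 527) (nat_lit 433)) (XT.nd (nat_lit 78) (nat_lit 456) (nat_lit 0) (XT.lf (nat_lit 0) (nat_lit 476968805) (nat_lit 608) (nat_lit 6374410580) (nat_lit 76) (nat_lit 4411874158) (nat_lit 214) (nat_lit 5) (nat_lit 222) (nat_lit 5) (nat_lit 215) (nat_lit 5) (nat_lit 601) (nat_lit 527) (nat_lit 432)) (XT.lf (nat_lit 0) (nat_lit 839449790) (nat_lit 456) (nat_lit 2600520042) (nat_lit 532) (nat_lit 7947058057) (nat_lit 208) (nat_lit 5) (nat_lit 214) (nat_lit 5) (nat_lit 215) (nat_lit 5) (nat_lit 602) (nat_lit 527) (nat_lit 431)))) (XT.nd (nat_lit 78) (nat_lit 608) (nat_lit 0) (XT.lf (nat_lit 0) (nat_lit 6492748333) (nat_lit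 532) (nat_lit 3273537530) (nat_lit 76) (nat_lit 1746384025) (nat_lit 208) (nat_lit 5) (nat_lit 215) (nat_lit 5) (nat_lit 209) (nat_lit 5) (nat_lit 603) (nat_lit 527) (nat_lit 430)) (XT.nd (nat_lit 78) (nat_lit 76) (nat_lit 0) (XT.lf (nat_lit 0) (nat_lit 4150292585) (nat_lit 532) (nat_lit 5477116528) (nat_lit 608) (nat_lit 2013001547) (nat_lit 201) (nat_lit 5) (nat_lit 208) (nat_lit 5) (nat_lit 209) (nat_lit 5) (nat_lit 604) (nat_lit 527) (nat_lit 429)) (XT.lf (nat_lit 0) (nat_lit 1039093751) (nat_lit 608) (nat_lit 43279082) (nat_lit 76) (nat_lit 10688221690) (nat_lit 200) (nat_lit 5) (nat_lit 208) (nat_lit 5) (nat_lit 201) (nat_lit 5) (nat_lit 605) (nat_lit 527) (nat_lit 428)))))) (XT.nd (nat_lit 468) (nat_lit 2128) (nat_lit 0) (XT.nd (nat_lit 234) (nat_lit 988) (nat_lit 0) (XT.nd (nat_lit 78) (nat_lit 456) (nat_lit 0) (XT.lf (nat_lit 0) (nat_lit 4174323429) (nat_lit 532) (nat_lit 4318437901) (nat_lit 76) (nat_lit 3409376009) (nat_lit 194) (nat_lit 5) (nat_lit 201) (nat_lit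 5) (nat_lit 195) (nat_lit 5) (nat_lit 606) (nat_lit 527) (nat_lit 427)) (XT.nd (nat_lit 78) (nat_lit 0) (nat_lit 0) (XT.lf (nat_lit 0) (nat_lit 3331494726) (nat_lit 456) (nat_lit 4047234074) (nat_lit 532) (nat_lit 4657455066) (nat_lit 188) (nat_lit 5) (nat_lit 194) (nat_lit 5) (nat_lit 195) (nat_lit 5) (nat_lit 607) (nat_lit 527) (nat_lit 426)) (XT.lf (nat_lit 0) (nat_lit 10657106141) (nat_lit 532) (nat_lit 1015422296) (nat_lit 76) (nat_lit 500187443) (nat_lit 188) (nat_lit 5) (nat_lit 195) (nat_lit 5) (nat_lit 189) (nat_lit 5) (nat_lit 608) (nat_lit 527) (nat_lit 425)))) (XT.nd (nat_lit 78) (nat_lit 456) (nat_lit 0) (XT.lf (nat_lit 0) (nat_lit 1716568653) (nat_lit 532) (nat_lit 5463564868) (nat_lit 76) (nat_lit 5130634857) (nat_lit 181) (nat_lit 5) (nat_lit 188) (nat_lit 5) (nat_lit 182) (nat_lit 5) (nat_lit 609) (nat_lit 527) (nat_lit 424)) (XT.nd (nat_lit 78) (nat_lit 0) (nat_lit 0) (XT.lf (nat_lit 0) (nat_lit 2418902106) (nat_lit 456) (nat_lit 2574846041) (nat_lit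 532) (nat_lit 7457622488) (nat_lit 175) (nat_lit 5) (nat_lit 181) (nat_lit 5) (nat_lit 182) (nat_lit 5) (nat_lit 610) (nat_lit 527) (nat_lit 423)) (XT.lf (nat_lit 0) (nat_lit 8365383106) (nat_lit 532) (nat_lit 2107295873) (nat_lit 76) (nat_lit 2121529783) (nat_lit 175) (nat_lit 5) (nat_lit 182) (nat_lit 5) (nat_lit 176) (nat_lit 5) (nat_lit 611) (nat_lit 527) (nat_lit 422))))) (XT.nd (nat_lit 234) (nat_lit 1216) (nat_lit 0) (XT.nd (nat_lit 78) (nat_lit 532) (nat_lit 0) (XT.lf (nat_lit 0) (nat_lit 6006438207) (nat_lit 380) (nat_lit 5832713955) (nat_lit 456) (nat_lit 900059486) (nat_lit 170) (nat_lit 5) (nat_lit 175) (nat_lit 5) (nat_lit 176) (nat_lit 5) (nat_lit 612) (nat_lit 527) (nat_lit 421)) (XT.nd (nat_lit 78) (nat_lit 0) (nat_lit 0) (XT.lf (nat_lit 0) (nat_lit 1394431748) (nat_lit 456) (nat_lit 1070136569) (nat_lit 532) (nat_lit 10422183953) (nat_lit 163) (nat_lit 5) (nat_lit 169) (nat_lit 5) (nat_lit 170) (nat_lit 5) (nat_lit 613) (nat_lit 527) (nat_lit 420)) (XT.lf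 (nat_lit 0) (nat_lit 5933388577) (nat_lit 532) (nat_lit 3323634932) (nat_lit 76) (nat_lit 3779124077) (nat_lit 163) (nat_lit 5) (nat_lit 170) (nat_lit 5) (nat_lit 164) (nat_lit 5) (nat_lit 614) (nat_lit 527) (nat_lit 419)))) (XT.nd (nat_lit 156) (nat_lit 456) (nat_lit 0) (XT.nd (nat_lit 78) (nat_lit 380) (nat_lit 0) (XT.lf (nat_lit 0) (nat_lit 5036123986) (nat_lit 380) (nat_lit 4454529011) (nat_lit 456) (nat_lit 3697498327) (nat_lit 158) (nat_lit 5) (nat_lit 163) (nat_lit 5) (nat_lit 164) (nat_lit 5) (nat_lit 615) (nat_lit 527) (nat_lit 418)) (XT.lf (nat_lit 0) (nat_lit 234019420) (nat_lit 380) (nat_lit 12891315588) (nat_lit 456) (nat_lit 217736513) (nat_lit 153) (nat_lit 5) (nat_lit 158) (nat_lit 5) (nat_lit 159) (nat_lit 5) (nat_lit 616) (nat_lit 527) (nat_lit 417))) (XT.nd (nat_lit 78) (nat_lit 380) (nat_lit 0) (XT.lf (nat_lit 0) (nat_lit 3351975883) (nat_lit 456) (nat_lit 4684668440) (nat_lit 76) (nat_lit 5462733938) (nat_lit 152) (nat_lit 5) (nat_lit 158) (nat_lit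 5) (nat_lit 153) (nat_lit 5) (nat_lit 617) (nat_lit 527) (nat_lit 416)) (XT.lf (nat_lit 0) (nat_lit 3927417929) (nat_lit 380) (nat_lit 3068136805) (nat_lit 456) (nat_lit 6663121588) (nat_lit 147) (nat_lit 5) (nat_lit 152) (nat_lit 5) (nat_lit 153) (nat_lit 5) (nat_lit 618) (nat_lit 527) (nat_lit 415))))))) (XT.nd (nat_lit 936) (nat_lit 2432) (nat_lit 0) (XT.nd (nat_lit 468) (nat_lit 988) (nat_lit 0) (XT.nd (nat_lit 234) (nat_lit 760) (nat_lit 0) (XT.nd (nat_lit 78) (nat_lit 760) (nat_lit 0) (XT.lf (nat_lit 0) (nat_lit 10736644902) (nat_lit 456) (nat_lit 1089454738) (nat_lit 76) (nat_lit 1994569603) (nat_lit 147) (nat_lit 5) (nat_lit 153) (nat_lit 5) (nat_lit 148) (nat_lit 5) (nat_lit 619) (nat_lit 527) (nat_lit 414)) (XT.nd (nat_lit 78) (nat_lit 304) (nat_lit 0) (XT.lf (nat_lit 0) (nat_lit 610772715) (nat_lit 456) (nat_lit 6212413281) (nat_lit 76) (nat_lit 7161613078) (nat_lit 141) (nat_lit 5) (nat_lit 147) (nat_lit 5) (nat_lit 142) (nat_lit 5) (nat_lit 620) (nat_lit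 527) (nat_lit 413)) (XT.lf (nat_lit 0) (nat_lit 2658121790) (nat_lit 304) (nat_lit 1685166424) (nat_lit 380) (nat_lit 9808414824) (nat_lit 137) (nat_lit 5) (nat_lit 141) (nat_lit 5) (nat_lit 142) (nat_lit 5) (nat_lit 621) (nat_lit 527) (nat_lit 412)))) (XT.nd (nat_lit 78) (nat_lit 760) (nat_lit 0) (XT.lf (nat_lit 0) (nat_lit 8196081703) (nat_lit 380) (nat_lit 2584745297) (nat_lit 76) (nat_lit 3540207090) (nat_lit 137) (nat_lit 5) (nat_lit 142) (nat_lit 5) (nat_lit 138) (nat_lit 5) (nat_lit 622) (nat_lit 527) (nat_lit 411)) (XT.nd (nat_lit 78) (nat_lit 380) (nat_lit 0) (XT.lf (nat_lit 0) (nat_lit 6547020759) (nat_lit 380) (nat_lit 5613536409) (nat_lit 456) (nat_lit 2332503608) (nat_lit 132) (nat_lit 5) (nat_lit 137) (nat_lit 5) (nat_lit 138) (nat_lit 5) (nat_lit 623) (nat_lit 527) (nat_lit 410)) (XT.lf (nat_lit 0) (nat_lit 1203973325) (nat_lit 304) (nat_lit 317967711) (nat_lit 380) (nat_lit 13146263222) (nat_lit 127) (nat_lit 5) (nat_lit 131) (nat_lit 5) (nat_lit 132)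 (nat_lit 5) (nat_lit 624) (nat_lit 527) (nat_lit 409))))) (XT.nd (nat_lit 234) (nat_lit 684) (nat_lit 0) (XT.nd (nat_lit 78) (nat_lit 304) (nat_lit 0) (XT.lf (nat_lit 0) (nat_lit 5490071883) (nat_lit 380) (nat_lit 4280009723) (nat_lit 76) (nat_lit 5075105501) (nat_lit 127) (nat_lit 5) (nat_lit 132) (nat_lit 5) (nat_lit 128) (nat_lit 5) (nat_lit 625) (nat_lit 527) (nat_lit 408)) (XT.nd (nat_lit 78) (nat_lit 0) (nat_lit 0) (XT.lf (nat_lit 0) (nat_lit 5123458331) (nat_lit 304) (nat_lit 4430967421) (nat_lit 380) (nat_lit 5470948070) (nat_lit 123) (nat_lit 5) (nat_lit 127) (nat_lit 5) (nat_lit 128) (nat_lit 5) (nat_lit 626) (nat_lit 527) (nat_lit 407)) (XT.lf (nat_lit 0) (nat_lit 13717158498) (nat_lit 380) (nat_lit 471986654) (nat_lit 76) (nat_lit 1019678671) (nat_lit 123) (nat_lit 5) (nat_lit 128) (nat_lit 5) (nat_lit 124) (nat_lit 5) (nat_lit 627) (nat_lit 527) (nat_lit 406)))) (XT.nd (nat_lit 78) (nat_lit 304) (nat_lit 0) (XT.lf (nat_lit 0) (nat_lit 2605089618) (nat_lit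 380) (nat_lit 6202736339) (nat_lit 76) (nat_lit 6586353725) (nat_lit 118) (nat_lit 5) (nat_lit 123) (nat_lit 5) (nat_lit 119) (nat_lit 5) (nat_lit 628) (nat_lit 527) (nat_lit 405)) (XT.nd (nat_lit 78) (nat_lit 0) (nat_lit 0) (XT.lf (nat_lit 0) (nat_lit 3477977405) (nat_lit 304) (nat_lit 3293615750) (nat_lit 380) (nat_lit 8811297877) (nat_lit 114) (nat_lit 5) (nat_lit 118) (nat_lit 5) (nat_lit 119) (nat_lit 5) (nat_lit 629) (nat_lit 527) (nat_lit 404)) (XT.lf (nat_lit 0) (nat_lit 11060551695) (nat_lit 380) (nat_lit 2382760818) (nat_lit 76) (nat_lit 2331282879) (nat_lit 114) (nat_lit 5) (nat_lit 119) (nat_lit 5) (nat_lit 115) (nat_lit 5) (nat_lit 630) (nat_lit 527) (nat_lit 403)))))) (XT.nd (nat_lit 468) (nat_lit 1140) (nat_lit 0) (XT.nd (nat_lit 234) (nat_lit 608) (nat_lit 0) (XT.nd (nat_lit 78) (nat_lit 380) (nat_lit 0) (XT.lf (nat_lit 0) (nat_lit 7582853343) (nat_lit 304) (nat_lit 7905924180) (nat_lit 380) (nat_lit 480287813) (nat_lit 110) (nat_lit 5) (nat_lit 114) (nat_lit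 5) (nat_lit 115) (nat_lit 5) (nat_lit 631) (nat_lit 527) (nat_lit 402)) (XT.nd (nat_lit 78) (nat_lit 0) (nat_lit 0) (XT.lf (nat_lit 0) (nat_lit 1580004402) (nat_lit 304) (nat_lit 2216641158) (nat_lit 380) (nat_lit 12370105125) (nat_lit 105) (nat_lit 5) (nat_lit 109) (nat_lit 5) (nat_lit 110) (nat_lit 5) (nat_lit 632) (nat_lit 527) (nat_lit 401)) (XT.lf (nat_lit 0) (nat_lit 8215199311) (nat_lit 380) (nat_lit 4563633968) (nat_lit 76) (nat_lit 3588243897) (nat_lit 105) (nat_lit 5) (nat_lit 110) (nat_lit 5) (nat_lit 106) (nat_lit 5) (nat_lit 633) (nat_lit 527) (nat_lit 400)))) (XT.nd (nat_lit 78) (nat_lit 380) (nat_lit 0) (XT.lf (nat_lit 0) (nat_lit 5691719249) (nat_lit 228) (nat_lit 7064953458) (nat_lit 304) (nat_lit 3814047681) (nat_lit 102) (nat_lit 5) (nat_lit 105) (nat_lit 5) (nat_lit 106) (nat_lit 5) (nat_lit 634) (nat_lit 527) (nat_lit 399)) (XT.nd (nat_lit 78) (nat_lit 304) (nat_lit 0) (XT.lf (nat_lit 0) (nat_lit 616313316) (nat_lit 304) (nat_lit 596181732) (nat_lit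 76) (nat_lit 15565587623) (nat_lit 101) (nat_lit 5) (nat_lit 105) (nat_lit 5) (nat_lit 102) (nat_lit 5) (nat_lit 635) (nat_lit 527) (nat_lit 398)) (XT.lf (nat_lit 0) (nat_lit 5163690806) (nat_lit 380) (nat_lit 7049420941) (nat_lit 76) (nat_lit 4774387742) (nat_lit 97) (nat_lit 5) (nat_lit 102) (nat_lit 5) (nat_lit 98) (nat_lit 5) (nat_lit 636) (nat_lit 527) (nat_lit 397))))) (XT.nd (nat_lit 234) (nat_lit 532) (nat_lit 0) (XT.nd (nat_lit 78) (nat_lit 380) (nat_lit 0) (XT.lf (nat_lit 0) (nat_lit 3500172551) (nat_lit 228) (nat_lit 6319992428) (nat_lit 304) (nat_lit 7380577756) (nat_lit 94) (nat_lit 5) (nat_lit 97) (nat_lit 5) (nat_lit 98) (nat_lit 5) (nat_lit 637) (nat_lit 527) (nat_lit 396)) (XT.nd (nat_lit 78) (nat_lit 380) (nat_lit 0) (XT.lf (nat_lit 0) (nat_lit 14328739901) (nat_lit 228) (nat_lit 271847903) (nat_lit 304) (nat_lit 2817047710) (nat_lit 94) (nat_lit 5) (nat_lit 97) (nat_lit 5) (nat_lit 98) (nat_lit 5) (nat_lit 638) (nat_lit 527) (nat_lit 395)) (XT.lf (nat_lit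 0) (nat_lit 1886641925) (nat_lit 380) (nat_lit 9878470557) (nat_lit 76) (nat_lit 5872056212) (nat_lit 89) (nat_lit 5) (nat_lit 94) (nat_lit 5) (nat_lit 90) (nat_lit 5) (nat_lit 639) (nat_lit 527) (nat_lit 394)))) (XT.nd (nat_lit 156) (nat_lit 304) (nat_lit 0) (XT.nd (nat_lit 78) (nat_lit 0) (nat_lit 0) (XT.lf (nat_lit 0) (nat_lit 969230141) (nat_lit 228) (nat_lit 5690250047) (nat_lit 304) (nat_lit 11200985025) (nat_lit 86) (nat_lit 5) (nat_lit 89) (nat_lit 5) (nat_lit 90) (nat_lit 5) (nat_lit 640) (nat_lit 527) (nat_lit 393)) (XT.lf (nat_lit 0) (nat_lit 11581660608) (nat_lit 304) (nat_lit 5950231650) (nat_lit 76) (nat_lit 555258669) (nat_lit 86) (nat_lit 5) (nat_lit 90) (nat_lit 5) (nat_lit 87) (nat_lit 5) (nat_lit 641) (nat_lit 527) (nat_lit 392))) (XT.nd (nat_lit 78) (nat_lit 76) (nat_lit 0) (XT.lf (nat_lit 0) (nat_lit 5213425331) (nat_lit 228) (nat_lit 11444579006) (nat_lit 304) (nat_lit 1659252578) (nat_lit 83) (nat_lit 5) (nat_lit 86) (nat_lit 5) (nat_lit 87) (nat_lit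 5) (nat_lit 642) (nat_lit 527) (nat_lit 391)) (XT.lf (nat_lit 0) (nat_lit 3265253468) (nat_lit 304) (nat_lit 1918631469) (nat_lit 76) (nat_lit 13367166323) (nat_lit 82) (nat_lit 5) (nat_lit 86) (nat_lit 5) (nat_lit 83) (nat_lit 5) (nat_lit 643) (nat_lit 527) (nat_lit 390))))))))
noncomputable def xc102 : XT := (XT.nd (nat_lit 73554) (nat_lit 0) (nat_lit 25384) (XT.nd (nat_lit 72540) (nat_lit 0) (nat_lit 45372) (XT.nd (nat_lit 468) (nat_lit 304) (nat_lit 0) (XT.nd (nat_lit 234) (nat_lit 532) (nat_lit 0) (XT.nd (nat_lit 78) (nat_lit 228) (nat_lit 0) (XT.lf (nat_lit 0) (nat_lit 8320989941) (nat_lit 304) (nat_lit 9218042331) (nat_lit 76) (nat_lit 1249171610) (nat_lit 79) (nat_lit 5) (nat_lit 83) (nat_lit 5) (nat_lit 80) (nat_lit 5) (nat_lit 644) (nat_lit 527) (nat_lit 389)) (XT.nd (nat_lit 78) (nat_lit 0) (nat_lit 0) (XT.lf (nat_lit 0) (nat_lit 2253608653) (nat_lit 228) (nat_lit 11270746354) (nat_lit 304) (nat_lit 5504815154) (nat_lit 76) (nat_lit 5) (nat_lit 79) (nat_lit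 5) (nat_lit 80) (nat_lit 5) (nat_lit 645) (nat_lit 527) (nat_lit 388)) (XT.lf (nat_lit 0) (nat_lit 14053391385) (nat_lit 228) (nat_lit 4824976861) (nat_lit 304) (nat_lit 395656764) (nat_lit 76) (nat_lit 5) (nat_lit 79) (nat_lit 5) (nat_lit 80) (nat_lit 5) (nat_lit 646) (nat_lit 527) (nat_lit 387)))) (XT.nd (nat_lit 78) (nat_lit 228) (nat_lit 0) (XT.lf (nat_lit 0) (nat_lit 4792046067) (nat_lit 304) (nat_lit 12939702141) (nat_lit 76) (nat_lit 1790613850) (nat_lit 72) (nat_lit 5) (nat_lit 76) (nat_lit 5) (nat_lit 73) (nat_lit 5) (nat_lit 647) (nat_lit 527) (nat_lit 386)) (XT.nd (nat_lit 78) (nat_lit 228) (nat_lit 0) (XT.lf (nat_lit 0) (nat_lit 10130409309) (nat_lit 304) (nat_lit 1142984082) (nat_lit 76) (nat_lit 8501176879) (nat_lit 72) (nat_lit 5) (nat_lit 76) (nat_lit 5) (nat_lit 73) (nat_lit 5) (nat_lit 648) (nat_lit 527) (nat_lit 385)) (XT.lf (nat_lit 0) (nat_lit 11008557794) (nat_lit 228) (nat_lit 4623731928) (nat_lit 304) (nat_lit 4398398725) (nat_lit 69) (nat_lit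 5) (nat_lit 72) (nat_lit 5) (nat_lit 73) (nat_lit 5) (nat_lit 649) (nat_lit 527) (nat_lit 384))))) (XT.nd (nat_lit 71838) (nat_lit 0) (nat_lit 48640) (XT.nd (nat_lit 71682) (nat_lit 0) (nat_lit 49324) (XT.lf (nat_lit 0) (nat_lit 967348482) (nat_lit 304) (nat_lit 17169483432) (nat_lit 76) (nat_lit 2154423003) (nat_lit 65) (nat_lit 5) (nat_lit 69) (nat_lit 5) (nat_lit 66) (nat_lit 5) (nat_lit 650) (nat_lit 527) (nat_lit 383)) (XT.nd (nat_lit 78) (nat_lit 684) (nat_lit 0) (XT.lf (nat_lit 0) (nat_lit 1570028604) (nat_lit 0) (nat_lit 1570028604) (nat_lit 532) (nat_lit 142165884) (nat_lit 723) (nat_lit 5) (nat_lit 723) (nat_lit 3) (nat_lit 730) (nat_lit 3) (nat_lit 528) (nat_lit 528) (nat_lit 504)) (XT.lf (nat_lit 0) (nat_lit 2174025443) (nat_lit 684) (nat_lit 191167807) (nat_lit 684) (nat_lit 4215181188) (nat_lit 714) (nat_lit 3) (nat_lit 723) (nat_lit 3) (nat_lit 723) (nat_lit 5) (nat_lit 529) (nat_lit 528) (nat_lit 503)))) (XT.nd (nat_lit 78) (nat_lit 684) (nat_lit 0) (XT.lf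 (nat_lit 76) (nat_lit 3112777211) (nat_lit 0) (nat_lit 1520719778) (nat_lit 684) (nat_lit 1963987454) (nat_lit 715) (nat_lit 5) (nat_lit 714) (nat_lit 3) (nat_lit 723) (nat_lit 5) (nat_lit 530) (nat_lit 528) (nat_lit 502)) (XT.nd (nat_lit 78) (nat_lit 0) (nat_lit 76) (XT.lf (nat_lit 0) (nat_lit 457755219) (nat_lit 684) (nat_lit 166479671) (nat_lit 760) (nat_lit 5991899576) (nat_lit 705) (nat_lit 5) (nat_lit 714) (nat_lit 3) (nat_lit 715) (nat_lit 5) (nat_lit 531) (nat_lit 528) (nat_lit 501)) (XT.lf (nat_lit 0) (nat_lit 2862239828) (nat_lit 684) (nat_lit 3423656981) (nat_lit 760) (nat_lit 349803892) (nat_lit 706) (nat_lit 5) (nat_lit 715) (nat_lit 5) (nat_lit 716) (nat_lit 5) (nat_lit 532) (nat_lit 528) (nat_lit 500)))))) (XT.nd (nat_lit 468) (nat_lit 1748) (nat_lit 0) (XT.nd (nat_lit 234) (nat_lit 836) (nat_lit 0) (XT.nd (nat_lit 78) (nat_lit 760) (nat_lit 0) (XT.lf (nat_lit 0) (nat_lit 5258684709) (nat_lit 684) (nat_lit 33472872) (nat_lit 760) (nat_lit 1364637925) (nat_lit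 706) (nat_lit 5) (nat_lit 715) (nat_lit 5) (nat_lit 716) (nat_lit 5) (nat_lit 533) (nat_lit 528) (nat_lit 499)) (XT.nd (nat_lit 78) (nat_lit 0) (nat_lit 0) (XT.lf (nat_lit 0) (nat_lit 973167064) (nat_lit 760) (nat_lit 3249327093) (nat_lit 836) (nat_lit 2456461861) (nat_lit 696) (nat_lit 5) (nat_lit 706) (nat_lit 5) (nat_lit 707) (nat_lit 5) (nat_lit 534) (nat_lit 528) (nat_lit 498)) (XT.lf (nat_lit 76) (nat_lit 220515134) (nat_lit 0) (nat_lit 3094684112) (nat_lit 836) (nat_lit 3387348485) (nat_lit 697) (nat_lit 5) (nat_lit 696) (nat_lit 5) (nat_lit 707) (nat_lit 5) (nat_lit 535) (nat_lit 528) (nat_lit 497)))) (XT.nd (nat_lit 78) (nat_lit 836) (nat_lit 0) (XT.lf (nat_lit 76) (nat_lit 3770015718) (nat_lit 0) (nat_lit 1897184964) (nat_lit 836) (nat_lit 1060161565) (nat_lit 697) (nat_lit 5) (nat_lit 696) (nat_lit 5) (nat_lit 707) (nat_lit 5) (nat_lit 536) (nat_lit 528) (nat_lit 496)) (XT.nd (nat_lit 78) (nat_lit 0) (nat_lit 76) (XT.lf (nat_lit 76) (nat_lit 603312977) (nat_lit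 0) (nat_lit 639025888) (nat_lit 912) (nat_lit 5511256681) (nat_lit 686) (nat_lit 5) (nat_lit 685) (nat_lit 5) (nat_lit 697) (nat_lit 5) (nat_lit 537) (nat_lit 528) (nat_lit 495)) (XT.lf (nat_lit 0) (nat_lit 3544015768) (nat_lit 836) (nat_lit 2551004337) (nat_lit 912) (nat_lit 685859574) (nat_lit 686) (nat_lit 5) (nat_lit 697) (nat_lit 5) (nat_lit 698) (nat_lit 5) (nat_lit 538) (nat_lit 528) (nat_lit 494))))) (XT.nd (nat_lit 234) (nat_lit 912) (nat_lit 0) (XT.nd (nat_lit 78) (nat_lit 912) (nat_lit 0) (XT.lf (nat_lit 76) (nat_lit 1096103633) (nat_lit 0) (nat_lit 4751234673) (nat_lit 912) (nat_lit 962271453) (nat_lit 687) (nat_lit 5) (nat_lit 686) (nat_lit 5) (nat_lit 698) (nat_lit 5) (nat_lit 539) (nat_lit 528) (nat_lit 493)) (XT.nd (nat_lit 78) (nat_lit 0) (nat_lit 0) (XT.lf (nat_lit 0) (nat_lit 1301996546) (nat_lit 912) (nat_lit 2031587910) (nat_lit 988) (nat_lit 3505925858) (nat_lit 674) (nat_lit 5) (nat_lit 686) (nat_lit 5) (nat_lit 687) (nat_lit 5) (nat_lit 540) (nat_lit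 528) (nat_lit 492)) (XT.lf (nat_lit 76) (nat_lit 1705831089) (nat_lit 0) (nat_lit 1849764281) (nat_lit 988) (nat_lit 3315159483) (nat_lit 675) (nat_lit 5) (nat_lit 674) (nat_lit 5) (nat_lit 687) (nat_lit 5) (nat_lit 541) (nat_lit 528) (nat_lit 491)))) (XT.nd (nat_lit 156) (nat_lit 0) (nat_lit 0) (XT.nd (nat_lit 78) (nat_lit 912) (nat_lit 0) (XT.lf (nat_lit 76) (nat_lit 5511624560) (nat_lit 0) (nat_lit 302959202) (nat_lit 988) (nat_lit 1088845723) (nat_lit 675) (nat_lit 5) (nat_lit 674) (nat_lit 5) (nat_lit 687) (nat_lit 5) (nat_lit 542) (nat_lit 528) (nat_lit 490)) (XT.lf (nat_lit 0) (nat_lit 1138307968) (nat_lit 988) (nat_lit 4498664162) (nat_lit 1064) (nat_lit 1300206787) (nat_lit 662) (nat_lit 5) (nat_lit 675) (nat_lit 5) (nat_lit 676) (nat_lit 5) (nat_lit 543) (nat_lit 528) (nat_lit 489))) (XT.nd (nat_lit 78) (nat_lit 0) (nat_lit 0) (XT.lf (nat_lit 0) (nat_lit 3355149562) (nat_lit 988) (nat_lit 651287852) (nat_lit 1064) (nat_lit 2965838380) (nat_lit 662) (nat_lit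 5) (nat_lit 675) (nat_lit 5) (nat_lit 676) (nat_lit 5) (nat_lit 544) (nat_lit 528) (nat_lit 488)) (XT.lf (nat_lit 76) (nat_lit 3281863191) (nat_lit 0) (nat_lit 2305089393) (nat_lit 1064) (nat_lit 1421720209) (nat_lit 663) (nat_lit 5) (nat_lit 662) (nat_lit 5) (nat_lit 676) (nat_lit 5) (nat_lit 545) (nat_lit 528) (nat_lit 487))))))) (XT.nd (nat_lit 936) (nat_lit 11248) (nat_lit 0) (XT.nd (nat_lit 468) (nat_lit 5472) (nat_lit 0) (XT.nd (nat_lit 234) (nat_lit 1216) (nat_lit 0) (XT.nd (nat_lit 78) (nat_lit 988) (nat_lit 0) (XT.lf (nat_lit 76) (nat_lit 219671039) (nat_lit 0) (nat_lit 542774492) (nat_lit 1140) (nat_lit 6284144805) (nat_lit 649) (nat_lit 5) (nat_lit 648) (nat_lit 5) (nat_lit 663) (nat_lit 5) (nat_lit 546) (nat_lit 528) (nat_lit 486)) (XT.nd (nat_lit 78) (nat_lit 1064) (nat_lit 0) (XT.lf (nat_lit 0) (nat_lit 2955205164) (nat_lit 1064) (nat_lit 2842432245) (nat_lit 76) (nat_lit 1287771983) (nat_lit 649) (nat_lit 5) (nat_lit 663) (nat_lit 5) (nat_lit 650) (nat_lit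 5) (nat_lit 547) (nat_lit 528) (nat_lit 485)) (XT.lf (nat_lit 0) (nat_lit 1199034911) (nat_lit 1064) (nat_lit 3955741238) (nat_lit 1140) (nat_lit 1970979418) (nat_lit 635) (nat_lit 5) (nat_lit 649) (nat_lit 5) (nat_lit 650) (nat_lit 5) (nat_lit 548) (nat_lit 528) (nat_lit 484)))) (XT.nd (nat_lit 78) (nat_lit 1140) (nat_lit 0) (XT.lf (nat_lit 0) (nat_lit 199571205) (nat_lit 1140) (nat_lit 1843553911) (nat_lit 76) (nat_lit 5124339448) (nat_lit 634) (nat_lit 5) (nat_lit 649) (nat_lit 5) (nat_lit 635) (nat_lit 5) (nat_lit 549) (nat_lit 528) (nat_lit 483)) (XT.nd (nat_lit 78) (nat_lit 0) (nat_lit 0) (XT.lf (nat_lit 0) (nat_lit 2303871224) (nat_lit 1140) (nat_lit 51170807) (nat_lit 1216) (nat_lit 4855356429) (nat_lit 619) (nat_lit 5) (nat_lit 634) (nat_lit 5) (nat_lit 635) (nat_lit 5) (nat_lit 550) (nat_lit 528) (nat_lit 482)) (XT.lf (nat_lit 0) (nat_lit 4532631014) (nat_lit 1216) (nat_lit 743005635) (nat_lit 76) (nat_lit 1978983323) (nat_lit 619) (nat_lit 5) (nat_lit 635)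 (nat_lit 5) (nat_lit 620) (nat_lit 5) (nat_lit 551) (nat_lit 528) (nat_lit 481))))) (XT.nd (nat_lit 234) (nat_lit 2888) (nat_lit 0) (XT.nd (nat_lit 78) (nat_lit 1368) (nat_lit 0) (XT.lf (nat_lit 0) (nat_lit 3514883789) (nat_lit 1216) (nat_lit 3216651821) (nat_lit 1292) (nat_lit 568643959) (nat_lit 603) (nat_lit 5) (nat_lit 619) (nat_lit 5) (nat_lit 620) (nat_lit 5) (nat_lit 552) (nat_lit 528) (nat_lit 480)) (XT.nd (nat_lit 78) (nat_lit 0) (nat_lit 0) (XT.lf (nat_lit 0) (nat_lit 482132594) (nat_lit 1292) (nat_lit 1087401861) (nat_lit 1368) (nat_lit 5777650821) (nat_lit 585) (nat_lit 5) (nat_lit 602) (nat_lit 5) (nat_lit 603) (nat_lit 5) (nat_lit 553) (nat_lit 528) (nat_lit 479)) (XT.lf (nat_lit 0) (nat_lit 3731164630) (nat_lit 1368) (nat_lit 2555146421) (nat_lit 76) (nat_lit 1108987241) (nat_lit 585) (nat_lit 5) (nat_lit 603) (nat_lit 5) (nat_lit 586) (nat_lit 5) (nat_lit 554) (nat_lit 528) (nat_lit 478)))) (XT.nd (nat_lit 78) (nat_lit 1520) (nat_lit 0) (XT.lf (nat_lit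 0) (nat_lit 1822592973) (nat_lit 1368) (nat_lit 4089022989) (nat_lit 1444) (nat_lit 1533254090) (nat_lit 567) (nat_lit 5) (nat_lit 585) (nat_lit 5) (nat_lit 586) (nat_lit 5) (nat_lit 555) (nat_lit 528) (nat_lit 477)) (XT.nd (nat_lit 78) (nat_lit 1444) (nat_lit 0) (XT.lf (nat_lit 0) (nat_lit 605993974) (nat_lit 1444) (nat_lit 1212255371) (nat_lit 76) (nat_lit 5677625741) (nat_lit 566) (nat_lit 5) (nat_lit 585) (nat_lit 5) (nat_lit 567) (nat_lit 5) (nat_lit 556) (nat_lit 528) (nat_lit 476)) (XT.lf (nat_lit 0) (nat_lit 2750062480) (nat_lit 1520) (nat_lit 4267452032) (nat_lit 76) (nat_lit 530539475) (nat_lit 547) (nat_lit 5) (nat_lit 567) (nat_lit 5) (nat_lit 548) (nat_lit 5) (nat_lit 557) (nat_lit 528) (nat_lit 475)))))) (XT.nd (nat_lit 468) (nat_lit 4560) (nat_lit 0) (XT.nd (nat_lit 234) (nat_lit 3496) (nat_lit 0) (XT.nd (nat_lit 78) (nat_lit 1672) (nat_lit 0) (XT.lf (nat_lit 0) (nat_lit 234229854) (nat_lit 1520) (nat_lit 4682917954) (nat_lit 1596) (nat_lit 2684533572)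 (nat_lit 527) (nat_lit 5) (nat_lit 547) (nat_lit 5) (nat_lit 548) (nat_lit 5) (nat_lit 558) (nat_lit 528) (nat_lit 474)) (XT.nd (nat_lit 78) (nat_lit 1672) (nat_lit 0) (XT.lf (nat_lit 0) (nat_lit 4848642637) (nat_lit 1520) (nat_lit 2266541379) (nat_lit 1596) (nat_lit 541452599) (nat_lit 527) (nat_lit 5) (nat_lit 547) (nat_lit 5) (nat_lit 548) (nat_lit 5) (nat_lit 559) (nat_lit 528) (nat_lit 473)) (XT.lf (nat_lit 0) (nat_lit 1595718820) (nat_lit 1672) (nat_lit 5893678303) (nat_lit 76) (nat_lit 223631540) (nat_lit 505) (nat_lit 5) (nat_lit 527) (nat_lit 5) (nat_lit 506) (nat_lit 5) (nat_lit 560) (nat_lit 528) (nat_lit 472)))) (XT.nd (nat_lit 78) (nat_lit 3496) (nat_lit 0) (XT.lf (nat_lit 0) (nat_lit 3762473417) (nat_lit 1672) (nat_lit 1247201903) (nat_lit 76) (nat_lit 2760926900) (nat_lit 505) (nat_lit 5) (nat_lit 527) (nat_lit 5) (nat_lit 506) (nat_lit 5) (nat_lit 561) (nat_lit 528) (nat_lit 471)) (XT.nd (nat_lit 78) (nat_lit 1824) (nat_lit 0) (XT.lf (nat_lit 0) (nat_lit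 3503233760) (nat_lit 1672) (nat_lit 2452961829) (nat_lit 1748) (nat_lit 1873465917) (nat_lit 483) (nat_lit 5) (nat_lit 505) (nat_lit 5) (nat_lit 506) (nat_lit 5) (nat_lit 562) (nat_lit 528) (nat_lit 470)) (XT.lf (nat_lit 0) (nat_lit 273498951) (nat_lit 1824) (nat_lit 7447095399) (nat_lit 76) (nat_lit 169802917) (nat_lit 459) (nat_lit 5) (nat_lit 483) (nat_lit 5) (nat_lit 460) (nat_lit 5) (nat_lit 563) (nat_lit 528) (nat_lit 469))))) (XT.nd (nat_lit 234) (nat_lit 2888) (nat_lit 0) (XT.nd (nat_lit 78) (nat_lit 1672) (nat_lit 0) (XT.lf (nat_lit 0) (nat_lit 2445533180) (nat_lit 1824) (nat_lit 2649310480) (nat_lit 76) (nat_lit 2857118603) (nat_lit 459) (nat_lit 5) (nat_lit 483) (nat_lit 5) (nat_lit 460) (nat_lit 5) (nat_lit 564) (nat_lit 528) (nat_lit 468)) (XT.nd (nat_lit 78) (nat_lit 0) (nat_lit 0) (XT.lf (nat_lit 0) (nat_lit 2238721546) (nat_lit 1672) (nat_lit 2399295015) (nat_lit 1748) (nat_lit 3377208209) (nat_lit 437) (nat_lit 5) (nat_lit 459) (nat_lit 5) (nat_lit 460)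 (nat_lit 5) (nat_lit 565) (nat_lit 528) (nat_lit 467)) (XT.lf (nat_lit 0) (nat_lit 6857516083) (nat_lit 1748) (nat_lit 856961729) (nat_lit 76) (nat_lit 365617642) (nat_lit 437) (nat_lit 5) (nat_lit 460) (nat_lit 5) (nat_lit 438) (nat_lit 5) (nat_lit 566) (nat_lit 528) (nat_lit 466)))) (XT.nd (nat_lit 156) (nat_lit 912) (nat_lit 0) (XT.nd (nat_lit 78) (nat_lit 912) (nat_lit 0) (XT.lf (nat_lit 0) (nat_lit 969043424) (nat_lit 1064) (nat_lit 3987710377) (nat_lit 76) (nat_lit 3189255324) (nat_lit 423) (nat_lit 5) (nat_lit 437) (nat_lit 5) (nat_lit 424) (nat_lit 5) (nat_lit 567) (nat_lit 528) (nat_lit 465)) (XT.lf (nat_lit 0) (nat_lit 1042738830) (nat_lit 912) (nat_lit 2121929472) (nat_lit 988) (nat_lit 5048886239) (nat_lit 411) (nat_lit 5) (nat_lit 423) (nat_lit 5) (nat_lit 424) (nat_lit 5) (nat_lit 568) (nat_lit 528) (nat_lit 464))) (XT.nd (nat_lit 78) (nat_lit 912) (nat_lit 0) (XT.lf (nat_lit 0) (nat_lit 5400588864) (nat_lit 988) (nat_lit 2094884715) (nat_lit 76) (nat_lit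 787055400) (nat_lit 411) (nat_lit 5) (nat_lit 424) (nat_lit 5) (nat_lit 412) (nat_lit 5) (nat_lit 569) (nat_lit 528) (nat_lit 463)) (XT.lf (nat_lit 0) (nat_lit 3073879206) (nat_lit 912) (nat_lit 4606505510) (nat_lit 988) (nat_lit 672520718) (nat_lit 399) (nat_lit 5) (nat_lit 411) (nat_lit 5) (nat_lit 412) (nat_lit 5) (nat_lit 570) (nat_lit 528) (nat_lit 462))))))))
noncomputable def xc103 : XT := (XT.nd (nat_lit 1950) (nat_lit 7752) (nat_lit 0) (XT.nd (nat_lit 936) (nat_lit 6004) (nat_lit 0) (XT.nd (nat_lit 468) (nat_lit 2356) (nat_lit 0) (XT.nd (nat_lit 234) (nat_lit 1672) (nat_lit 0) (XT.nd (nat_lit 78) (nat_lit 1672) (nat_lit 0) (XT.lf (nat_lit 0) (nat_lit 1539873128) (nat_lit 988) (nat_lit 95535090) (nat_lit 76) (nat_lit 6789490890) (nat_lit 398) (nat_lit 5) (nat_lit 411) (nat_lit 5) (nat_lit 399) (nat_lit 5) (nat_lit 571) (nat_lit 528) (nat_lit 461)) (XT.nd (nat_lit 78) (nat_lit 836) (nat_lit 0) (XT.lf (nat_lit 0) (nat_lit 3796776284) (nat_lit 912) (nat_lit 3286403410)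 (nat_lit 76) (nat_lit 1414884063) (nat_lit 387) (nat_lit 5) (nat_lit 399) (nat_lit 5) (nat_lit 388) (nat_lit 5) (nat_lit 572) (nat_lit 528) (nat_lit 460)) (XT.lf (nat_lit 0) (nat_lit 2034527239) (nat_lit 836) (nat_lit 4055464296) (nat_lit 912) (nat_lit 2482881917) (nat_lit 376) (nat_lit 5) (nat_lit 387) (nat_lit 5) (nat_lit 388) (nat_lit 5) (nat_lit 573) (nat_lit 528) (nat_lit 459)))) (XT.nd (nat_lit 78) (nat_lit 1672) (nat_lit 0) (XT.lf (nat_lit 0) (nat_lit 7471717406) (nat_lit 836) (nat_lit 946327604) (nat_lit 912) (nat_lit 231359984) (nat_lit 376) (nat_lit 5) (nat_lit 387) (nat_lit 5) (nat_lit 388) (nat_lit 5) (nat_lit 574) (nat_lit 528) (nat_lit 458)) (XT.nd (nat_lit 78) (nat_lit 836) (nat_lit 0) (XT.lf (nat_lit 0) (nat_lit 2048074226) (nat_lit 836) (nat_lit 4443318506) (nat_lit 76) (nat_lit 2235611851) (nat_lit 365) (nat_lit 5) (nat_lit 376) (nat_lit 5) (nat_lit 366) (nat_lit 5) (nat_lit 575) (nat_lit 528) (nat_lit 457)) (XT.lf (nat_lit 0) (nat_lit 1035101740) (nat_lit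 836) (nat_lit 3323597431) (nat_lit 912) (nat_lit 4447657242) (nat_lit 354) (nat_lit 5) (nat_lit 365) (nat_lit 5) (nat_lit 366) (nat_lit 5) (nat_lit 576) (nat_lit 528) (nat_lit 456))))) (XT.nd (nat_lit 234) (nat_lit 760) (nat_lit 0) (XT.nd (nat_lit 78) (nat_lit 1596) (nat_lit 0) (XT.lf (nat_lit 0) (nat_lit 6648674996) (nat_lit 836) (nat_lit 64840140) (nat_lit 912) (nat_lit 2173825315) (nat_lit 354) (nat_lit 5) (nat_lit 365) (nat_lit 5) (nat_lit 366) (nat_lit 5) (nat_lit 577) (nat_lit 528) (nat_lit 455)) (XT.nd (nat_lit 78) (nat_lit 760) (nat_lit 0) (XT.lf (nat_lit 0) (nat_lit 155609776) (nat_lit 836) (nat_lit 5577391197) (nat_lit 76) (nat_lit 3236688169) (nat_lit 343) (nat_lit 5) (nat_lit 354) (nat_lit 5) (nat_lit 344) (nat_lit 5) (nat_lit 578) (nat_lit 528) (nat_lit 454)) (XT.lf (nat_lit 0) (nat_lit 63988977) (nat_lit 760) (nat_lit 2423479802) (nat_lit 836) (nat_lit 6566234261) (nat_lit 333) (nat_lit 5) (nat_lit 343) (nat_lit 5) (nat_lit 344) (nat_lit 5) (nat_lit 579)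 (nat_lit 528) (nat_lit 453)))) (XT.nd (nat_lit 78) (nat_lit 760) (nat_lit 0) (XT.lf (nat_lit 0) (nat_lit 4879130593) (nat_lit 836) (nat_lit 3286410265) (nat_lit 76) (nat_lit 973597425) (nat_lit 333) (nat_lit 5) (nat_lit 344) (nat_lit 5) (nat_lit 334) (nat_lit 5) (nat_lit 580) (nat_lit 528) (nat_lit 452)) (XT.nd (nat_lit 78) (nat_lit 76) (nat_lit 0) (XT.lf (nat_lit 0) (nat_lit 2513432058) (nat_lit 684) (nat_lit 4807471806) (nat_lit 760) (nat_lit 1905337095) (nat_lit 324) (nat_lit 5) (nat_lit 333) (nat_lit 5) (nat_lit 334) (nat_lit 5) (nat_lit 581) (nat_lit 528) (nat_lit 451)) (XT.lf (nat_lit 0) (nat_lit 482192458) (nat_lit 760) (nat_lit 878811745) (nat_lit 76) (nat_lit 7954175626) (nat_lit 323) (nat_lit 5) (nat_lit 333) (nat_lit 5) (nat_lit 324) (nat_lit 5) (nat_lit 582) (nat_lit 528) (nat_lit 450)))))) (XT.nd (nat_lit 468) (nat_lit 3192) (nat_lit 0) (XT.nd (nat_lit 234) (nat_lit 1368) (nat_lit 0) (XT.nd (nat_lit 78) (nat_lit 684) (nat_lit 0) (XT.lf (nat_lit 0) (nat_lit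 2909969024) (nat_lit 836) (nat_lit 4327742667) (nat_lit 76) (nat_lit 2167577767) (nat_lit 313) (nat_lit 5) (nat_lit 324) (nat_lit 5) (nat_lit 314) (nat_lit 5) (nat_lit 583) (nat_lit 528) (nat_lit 449)) (XT.nd (nat_lit 78) (nat_lit 0) (nat_lit 0) (XT.lf (nat_lit 0) (nat_lit 1646130554) (nat_lit 684) (nat_lit 3736796951) (nat_lit 760) (nat_lit 4114345213) (nat_lit 304) (nat_lit 5) (nat_lit 313) (nat_lit 5) (nat_lit 314) (nat_lit 5) (nat_lit 584) (nat_lit 528) (nat_lit 448)) (XT.lf (nat_lit 0) (nat_lit 7764102274) (nat_lit 684) (nat_lit 141621127) (nat_lit 760) (nat_lit 1685368567) (nat_lit 304) (nat_lit 5) (nat_lit 313) (nat_lit 5) (nat_lit 314) (nat_lit 5) (nat_lit 585) (nat_lit 528) (nat_lit 447)))) (XT.nd (nat_lit 78) (nat_lit 608) (nat_lit 0) (XT.lf (nat_lit 0) (nat_lit 804731177) (nat_lit 760) (nat_lit 5374156068) (nat_lit 76) (nat_lit 3507342563) (nat_lit 294) (nat_lit 5) (nat_lit 304) (nat_lit 5) (nat_lit 295) (nat_lit 5) (nat_lit 586) (nat_lit 528) (nat_lit 446))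 (XT.nd (nat_lit 78) (nat_lit 0) (nat_lit 0) (XT.lf (nat_lit 0) (nat_lit 779643959) (nat_lit 608) (nat_lit 2532793837) (nat_lit 684) (nat_lit 6470806027) (nat_lit 286) (nat_lit 5) (nat_lit 294) (nat_lit 5) (nat_lit 295) (nat_lit 5) (nat_lit 587) (nat_lit 528) (nat_lit 445)) (XT.lf (nat_lit 0) (nat_lit 5886601352) (nat_lit 684) (nat_lit 2794401302) (nat_lit 76) (nat_lit 1200873001) (nat_lit 286) (nat_lit 5) (nat_lit 295) (nat_lit 5) (nat_lit 287) (nat_lit 5) (nat_lit 588) (nat_lit 528) (nat_lit 444))))) (XT.nd (nat_lit 234) (nat_lit 1824) (nat_lit 0) (XT.nd (nat_lit 78) (nat_lit 684) (nat_lit 0) (XT.lf (nat_lit 0) (nat_lit 3534890079) (nat_lit 684) (nat_lit 4989924401) (nat_lit 760) (nat_lit 1457417840) (nat_lit 277) (nat_lit 5) (nat_lit 286) (nat_lit 5) (nat_lit 287) (nat_lit 5) (nat_lit 589) (nat_lit 528) (nat_lit 443)) (XT.nd (nat_lit 78) (nat_lit 608) (nat_lit 0) (XT.lf (nat_lit 0) (nat_lit 1108212097) (nat_lit 760) (nat_lit 96862959) (nat_lit 76) (nat_lit 8879540515)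 (nat_lit 276) (nat_lit 5) (nat_lit 286) (nat_lit 5) (nat_lit 277) (nat_lit 5) (nat_lit 590) (nat_lit 528) (nat_lit 442)) (XT.lf (nat_lit 0) (nat_lit 3738398074) (nat_lit 684) (nat_lit 3784046436) (nat_lit 76) (nat_lit 2665757460) (nat_lit 268) (nat_lit 5) (nat_lit 277) (nat_lit 5) (nat_lit 269) (nat_lit 5) (nat_lit 591) (nat_lit 528) (nat_lit 441)))) (XT.nd (nat_lit 156) (nat_lit 1216) (nat_lit 0) (XT.nd (nat_lit 78) (nat_lit 0) (nat_lit 0) (XT.lf (nat_lit 0) (nat_lit 2737152321) (nat_lit 608) (nat_lit 3684209578) (nat_lit 684) (nat_lit 3872497970) (nat_lit 260) (nat_lit 5) (nat_lit 268) (nat_lit 5) (nat_lit 269) (nat_lit 5) (nat_lit 592) (nat_lit 528) (nat_lit 440)) (XT.lf (nat_lit 0) (nat_lit 9159063940) (nat_lit 684) (nat_lit 996396961) (nat_lit 76) (nat_lit 246151635) (nat_lit 260) (nat_lit 5) (nat_lit 269) (nat_lit 5) (nat_lit 261) (nat_lit 5) (nat_lit 593) (nat_lit 528) (nat_lit 439))) (XT.nd (nat_lit 78) (nat_lit 608) (nat_lit 0) (XT.lf (nat_lit 0) (nat_lit 1457367065)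 (nat_lit 608) (nat_lit 4807763510) (nat_lit 76) (nat_lit 4245480698) (nat_lit 252) (nat_lit 5) (nat_lit 260) (nat_lit 5) (nat_lit 253) (nat_lit 5) (nat_lit 594) (nat_lit 528) (nat_lit 438)) (XT.lf (nat_lit 0) (nat_lit 1911586757) (nat_lit 608) (nat_lit 2276859512) (nat_lit 684) (nat_lit 6433306395) (nat_lit 244) (nat_lit 5) (nat_lit 252) (nat_lit 5) (nat_lit 253) (nat_lit 5) (nat_lit 595) (nat_lit 528) (nat_lit 437))))))) (XT.nd (nat_lit 936) (nat_lit 3952) (nat_lit 0) (XT.nd (nat_lit 468) (nat_lit 1596) (nat_lit 0) (XT.nd (nat_lit 234) (nat_lit 1064) (nat_lit 0) (XT.nd (nat_lit 78) (nat_lit 1140) (nat_lit 0) (XT.lf (nat_lit 0) (nat_lit 6993130779) (nat_lit 684) (nat_lit 1949194177) (nat_lit 76) (nat_lit 1792415202) (nat_lit 244) (nat_lit 5) (nat_lit 253) (nat_lit 5) (nat_lit 245) (nat_lit 5) (nat_lit 596) (nat_lit 528) (nat_lit 436)) (XT.nd (nat_lit 78) (nat_lit 608) (nat_lit 0) (XT.lf (nat_lit 0) (nat_lit 4964306707) (nat_lit 532) (nat_lit 4912282899) (nat_lit 608)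 (nat_lit 972947072) (nat_lit 237) (nat_lit 5) (nat_lit 244) (nat_lit 5) (nat_lit 245) (nat_lit 5) (nat_lit 597) (nat_lit 528) (nat_lit 435)) (XT.lf (nat_lit 0) (nat_lit 1044897915) (nat_lit 532) (nat_lit 777342422) (nat_lit 608) (nat_lit 9144242613) (nat_lit 229) (nat_lit 5) (nat_lit 236) (nat_lit 5) (nat_lit 237) (nat_lit 5) (nat_lit 598) (nat_lit 528) (nat_lit 434)))) (XT.nd (nat_lit 78) (nat_lit 1064) (nat_lit 0) (XT.lf (nat_lit 0) (nat_lit 4698100183) (nat_lit 608) (nat_lit 2953666055) (nat_lit 76) (nat_lit 3433120082) (nat_lit 229) (nat_lit 5) (nat_lit 237) (nat_lit 5) (nat_lit 230) (nat_lit 5) (nat_lit 599) (nat_lit 528) (nat_lit 433)) (XT.nd (nat_lit 78) (nat_lit 532) (nat_lit 0) (XT.lf (nat_lit 0) (nat_lit 4170761296) (nat_lit 532) (nat_lit 3469112891) (nat_lit 608) (nat_lit 3565618300) (nat_lit 222) (nat_lit 5) (nat_lit 229) (nat_lit 5) (nat_lit 230) (nat_lit 5) (nat_lit 600) (nat_lit 528) (nat_lit 432)) (XT.lf (nat_lit 0) (nat_lit 113170360) (nat_lit 532) (nat_lit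 10529547886) (nat_lit 608) (nat_lit 685750455) (nat_lit 215) (nat_lit 5) (nat_lit 222) (nat_lit 5) (nat_lit 223) (nat_lit 5) (nat_lit 601) (nat_lit 528) (nat_lit 431))))) (XT.nd (nat_lit 234) (nat_lit 1064) (nat_lit 0) (XT.nd (nat_lit 78) (nat_lit 456) (nat_lit 0) (XT.lf (nat_lit 0) (nat_lit 2269144353) (nat_lit 608) (nat_lit 4024187236) (nat_lit 76) (nat_lit 5159343751) (nat_lit 214) (nat_lit 5) (nat_lit 222) (nat_lit 5) (nat_lit 215) (nat_lit 5) (nat_lit 602) (nat_lit 528) (nat_lit 430)) (XT.nd (nat_lit 78) (nat_lit 0) (nat_lit 0) (XT.lf (nat_lit 0) (nat_lit 3317649608) (nat_lit 456) (nat_lit 1954783254) (nat_lit 532) (nat_lit 6306875498) (nat_lit 208) (nat_lit 5) (nat_lit 214) (nat_lit 5) (nat_lit 215) (nat_lit 5) (nat_lit 603) (nat_lit 528) (nat_lit 429)) (XT.lf (nat_lit 0) (nat_lit 8356126703) (nat_lit 532) (nat_lit 895537035) (nat_lit 76) (nat_lit 2456405930) (nat_lit 208) (nat_lit 5) (nat_lit 215) (nat_lit 5) (nat_lit 209) (nat_lit 5) (nat_lit 604) (nat_lit 528)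 (nat_lit 428)))) (XT.nd (nat_lit 78) (nat_lit 532) (nat_lit 0) (XT.lf (nat_lit 0) (nat_lit 6660694213) (nat_lit 532) (nat_lit 4874556093) (nat_lit 608) (nat_lit 303483147) (nat_lit 201) (nat_lit 5) (nat_lit 208) (nat_lit 5) (nat_lit 209) (nat_lit 5) (nat_lit 605) (nat_lit 528) (nat_lit 427)) (XT.nd (nat_lit 78) (nat_lit 0) (nat_lit 0) (XT.lf (nat_lit 0) (nat_lit 2389667305) (nat_lit 456) (nat_lit 378693990) (nat_lit 532) (nat_lit 9203302818) (nat_lit 194) (nat_lit 5) (nat_lit 200) (nat_lit 5) (nat_lit 201) (nat_lit 5) (nat_lit 606) (nat_lit 528) (nat_lit 426)) (XT.lf (nat_lit 0) (nat_lit 5937699426) (nat_lit 532) (nat_lit 1989085565) (nat_lit 76) (nat_lit 4179628101) (nat_lit 194) (nat_lit 5) (nat_lit 201) (nat_lit 5) (nat_lit 195) (nat_lit 5) (nat_lit 607) (nat_lit 528) (nat_lit 425)))))) (XT.nd (nat_lit 468) (nat_lit 2052) (nat_lit 0) (XT.nd (nat_lit 234) (nat_lit 912) (nat_lit 0) (XT.nd (nat_lit 78) (nat_lit 532) (nat_lit 0) (XT.lf (nat_lit 0) (nat_lit 5797952812)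 (nat_lit 456) (nat_lit 3390882357) (nat_lit 532) (nat_lit 3054655853) (nat_lit 188) (nat_lit 5) (nat_lit 194) (nat_lit 5) (nat_lit 195) (nat_lit 5) (nat_lit 608) (nat_lit 528) (nat_lit 424)) (XT.nd (nat_lit 78) (nat_lit 0) (nat_lit 0) (XT.lf (nat_lit 0) (nat_lit 128873247) (nat_lit 532) (nat_lit 11020999962) (nat_lit 76) (nat_lit 1233247885) (nat_lit 181) (nat_lit 5) (nat_lit 188) (nat_lit 5) (nat_lit 182) (nat_lit 5) (nat_lit 609) (nat_lit 528) (nat_lit 423)) (XT.lf (nat_lit 0) (nat_lit 3379703244) (nat_lit 532) (nat_lit 3185856459) (nat_lit 76) (nat_lit 5958691660) (nat_lit 181) (nat_lit 5) (nat_lit 188) (nat_lit 5) (nat_lit 182) (nat_lit 5) (nat_lit 610) (nat_lit 528) (nat_lit 422)))) (XT.nd (nat_lit 78) (nat_lit 456) (nat_lit 0) (XT.lf (nat_lit 0) (nat_lit 4838556040) (nat_lit 456) (nat_lit 1867328866) (nat_lit 532) (nat_lit 5962114653) (nat_lit 175) (nat_lit 5) (nat_lit 181) (nat_lit 5) (nat_lit 182) (nat_lit 5) (nat_lit 611) (nat_lit 528) (nat_lit 421)) (XT.nd (nat_lit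 78) (nat_lit 76) (nat_lit 0) (XT.lf (nat_lit 0) (nat_lit 204958390) (nat_lit 380) (nat_lit 9914543319) (nat_lit 456) (nat_lit 2694704763) (nat_lit 170) (nat_lit 5) (nat_lit 175) (nat_lit 5) (nat_lit 176) (nat_lit 5) (nat_lit 612) (nat_lit 528) (nat_lit 420)) (XT.lf (nat_lit 0) (nat_lit 674080455) (nat_lit 456) (nat_lit 4504084809) (nat_lit 76) (nat_lit 7784203406) (nat_lit 169) (nat_lit 5) (nat_lit 175) (nat_lit 5) (nat_lit 170) (nat_lit 5) (nat_lit 613) (nat_lit 528) (nat_lit 419))))) (XT.nd (nat_lit 234) (nat_lit 1216) (nat_lit 0) (XT.nd (nat_lit 78) (nat_lit 380) (nat_lit 0) (XT.lf (nat_lit 0) (nat_lit 3764194725) (nat_lit 456) (nat_lit 313988196) (nat_lit 532) (nat_lit 9034876347) (nat_lit 163) (nat_lit 5) (nat_lit 169) (nat_lit 5) (nat_lit 170) (nat_lit 5) (nat_lit 614) (nat_lit 528) (nat_lit 418)) (XT.nd (nat_lit 78) (nat_lit 380) (nat_lit 0) (XT.lf (nat_lit 0) (nat_lit 7590655972) (nat_lit 532) (nat_lit 1068289973) (nat_lit 76) (nat_lit 4607013795) (nat_lit 163)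 (nat_lit 5) (nat_lit 170) (nat_lit 5) (nat_lit 164) (nat_lit 5) (nat_lit 615) (nat_lit 528) (nat_lit 417)) (XT.lf (nat_lit 0) (nat_lit 7443389007) (nat_lit 380) (nat_lit 3760483657) (nat_lit 456) (nat_lit 2217437470) (nat_lit 158) (nat_lit 5) (nat_lit 163) (nat_lit 5) (nat_lit 164) (nat_lit 5) (nat_lit 616) (nat_lit 528) (nat_lit 416)))) (XT.nd (nat_lit 156) (nat_lit 760) (nat_lit 0) (XT.nd (nat_lit 78) (nat_lit 0) (nat_lit 0) (XT.lf (nat_lit 0) (nat_lit 1304539289) (nat_lit 456) (nat_lit 11032691368) (nat_lit 76) (nat_lit 1242125979) (nat_lit 152) (nat_lit 5) (nat_lit 158) (nat_lit 5) (nat_lit 153) (nat_lit 5) (nat_lit 617) (nat_lit 528) (nat_lit 415)) (XT.lf (nat_lit 0) (nat_lit 4912856349) (nat_lit 456) (nat_lit 2487087483) (nat_lit 76) (nat_lit 6339416940) (nat_lit 152) (nat_lit 5) (nat_lit 158) (nat_lit 5) (nat_lit 153) (nat_lit 5) (nat_lit 618) (nat_lit 528) (nat_lit 414))) (XT.nd (nat_lit 78) (nat_lit 380) (nat_lit 0) (XT.lf (nat_lit 0) (nat_lit 6282166440) (nat_lit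 380) (nat_lit 2332627940) (nat_lit 456) (nat_lit 5287343178) (nat_lit 147) (nat_lit 5) (nat_lit 152) (nat_lit 5) (nat_lit 153) (nat_lit 5) (nat_lit 619) (nat_lit 528) (nat_lit 413)) (XT.lf (nat_lit 0) (nat_lit 1159590507) (nat_lit 380) (nat_lit 11254710603) (nat_lit 456) (nat_lit 1653399796) (nat_lit 142) (nat_lit 5) (nat_lit 147) (nat_lit 5) (nat_lit 148) (nat_lit 5) (nat_lit 620) (nat_lit 528) (nat_lit 412))))))))
noncomputable def xc104 : XT := (XT.nd (nat_lit 1950) (nat_lit 760) (nat_lit 0) (XT.nd (nat_lit 936) (nat_lit 2280) (nat_lit 0) (XT.nd (nat_lit 468) (nat_lit 1368) (nat_lit 0) (XT.nd (nat_lit 234) (nat_lit 760) (nat_lit 0) (XT.nd (nat_lit 78) (nat_lit 304) (nat_lit 0) (XT.lf (nat_lit 0) (nat_lit 2074059163) (nat_lit 456) (nat_lit 4076472651) (nat_lit 76) (nat_lit 8084823352) (nat_lit 141) (nat_lit 5) (nat_lit 147) (nat_lit 5) (nat_lit 142) (nat_lit 5) (nat_lit 621) (nat_lit 528) (nat_lit 411)) (XT.nd (nat_lit 78) (nat_lit 0) (nat_lit 0) (XT.lf (nat_lit 0)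 (nat_lit 4956603458) (nat_lit 304) (nat_lit 910747244) (nat_lit 380) (nat_lit 8538526316) (nat_lit 137) (nat_lit 5) (nat_lit 141) (nat_lit 5) (nat_lit 142) (nat_lit 5) (nat_lit 622) (nat_lit 528) (nat_lit 410)) (XT.lf (nat_lit 0) (nat_lit 9774163720) (nat_lit 380) (nat_lit 411996629) (nat_lit 76) (nat_lit 4392897346) (nat_lit 137) (nat_lit 5) (nat_lit 142) (nat_lit 5) (nat_lit 138) (nat_lit 5) (nat_lit 623) (nat_lit 528) (nat_lit 409)))) (XT.nd (nat_lit 78) (nat_lit 380) (nat_lit 0) (XT.lf (nat_lit 0) (nat_lit 8887770251) (nat_lit 380) (nat_lit 4916777354) (nat_lit 456) (nat_lit 950247164) (nat_lit 132) (nat_lit 5) (nat_lit 137) (nat_lit 5) (nat_lit 138) (nat_lit 5) (nat_lit 624) (nat_lit 528) (nat_lit 408)) (XT.nd (nat_lit 78) (nat_lit 0) (nat_lit 0) (XT.lf (nat_lit 0) (nat_lit 2952469874) (nat_lit 380) (nat_lit 11494673228) (nat_lit 76) (nat_lit 486316140) (nat_lit 127) (nat_lit 5) (nat_lit 132) (nat_lit 5) (nat_lit 128) (nat_lit 5) (nat_lit 625) (nat_lit 528) (nat_lit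 407)) (XT.lf (nat_lit 0) (nat_lit 6974575050) (nat_lit 380) (nat_lit 2172730919) (nat_lit 76) (nat_lit 5967185649) (nat_lit 127) (nat_lit 5) (nat_lit 132) (nat_lit 5) (nat_lit 128) (nat_lit 5) (nat_lit 626) (nat_lit 528) (nat_lit 406))))) (XT.nd (nat_lit 234) (nat_lit 684) (nat_lit 0) (XT.nd (nat_lit 78) (nat_lit 380) (nat_lit 0) (XT.lf (nat_lit 0) (nat_lit 7404379660) (nat_lit 304) (nat_lit 3703025356) (nat_lit 380) (nat_lit 4191135332) (nat_lit 123) (nat_lit 5) (nat_lit 127) (nat_lit 5) (nat_lit 128) (nat_lit 5) (nat_lit 627) (nat_lit 528) (nat_lit 405)) (XT.nd (nat_lit 78) (nat_lit 76) (nat_lit 0) (XT.lf (nat_lit 0) (nat_lit 1698190245) (nat_lit 304) (nat_lit 13644721914) (nat_lit 380) (nat_lit 142958820) (nat_lit 119) (nat_lit 5) (nat_lit 123) (nat_lit 5) (nat_lit 124) (nat_lit 5) (nat_lit 628) (nat_lit 528) (nat_lit 404)) (XT.lf (nat_lit 0) (nat_lit 3994101479) (nat_lit 380) (nat_lit 4165775543) (nat_lit 76) (nat_lit 7515350868) (nat_lit 118) (nat_lit 5) (nat_lit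 123) (nat_lit 5) (nat_lit 119) (nat_lit 5) (nat_lit 629) (nat_lit 528) (nat_lit 403)))) (XT.nd (nat_lit 78) (nat_lit 380) (nat_lit 0) (XT.lf (nat_lit 0) (nat_lit 5694335269) (nat_lit 304) (nat_lit 2537324333) (nat_lit 380) (nat_lit 7636301279) (nat_lit 114) (nat_lit 5) (nat_lit 118) (nat_lit 5) (nat_lit 119) (nat_lit 5) (nat_lit 630) (nat_lit 528) (nat_lit 402)) (XT.nd (nat_lit 78) (nat_lit 380) (nat_lit 0) (XT.lf (nat_lit 0) (nat_lit 12585657450) (nat_lit 380) (nat_lit 304878529) (nat_lit 76) (nat_lit 3173380014) (nat_lit 114) (nat_lit 5) (nat_lit 119) (nat_lit 5) (nat_lit 115) (nat_lit 5) (nat_lit 631) (nat_lit 528) (nat_lit 401)) (XT.lf (nat_lit 0) (nat_lit 817216159) (nat_lit 380) (nat_lit 6421826613) (nat_lit 76) (nat_lit 9023364006) (nat_lit 109) (nat_lit 5) (nat_lit 114) (nat_lit 5) (nat_lit 110) (nat_lit 5) (nat_lit 632) (nat_lit 528) (nat_lit 400)))))) (XT.nd (nat_lit 468) (nat_lit 1140) (nat_lit 0) (XT.nd (nat_lit 234) (nat_lit 608) (nat_lit 0) (XT.nd (nat_lit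 78) (nat_lit 228) (nat_lit 0) (XT.lf (nat_lit 0) (nat_lit 3726527284) (nat_lit 304) (nat_lit 1434963734) (nat_lit 380) (nat_lit 11302728405) (nat_lit 105) (nat_lit 5) (nat_lit 109) (nat_lit 5) (nat_lit 110) (nat_lit 5) (nat_lit 633) (nat_lit 528) (nat_lit 399)) (XT.nd (nat_lit 78) (nat_lit 228) (nat_lit 0) (XT.lf (nat_lit 0) (nat_lit 9648400898) (nat_lit 380) (nat_lit 2561351684) (nat_lit 76) (nat_lit 4459201888) (nat_lit 105) (nat_lit 5) (nat_lit 110) (nat_lit 5) (nat_lit 106) (nat_lit 5) (nat_lit 634) (nat_lit 528) (nat_lit 398)) (XT.lf (nat_lit 0) (nat_lit 7885335210) (nat_lit 228) (nat_lit 6383991529) (nat_lit 304) (nat_lit 2607573040) (nat_lit 102) (nat_lit 5) (nat_lit 105) (nat_lit 5) (nat_lit 106) (nat_lit 5) (nat_lit 635) (nat_lit 528) (nat_lit 397)))) (XT.nd (nat_lit 78) (nat_lit 228) (nat_lit 0) (XT.lf (nat_lit 0) (nat_lit 1466707325) (nat_lit 304) (nat_lit 412564922) (nat_lit 380) (nat_lit 15209278104) (nat_lit 97) (nat_lit 5) (nat_lit 101) (nat_lit 5) (nat_lit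 102) (nat_lit 5) (nat_lit 636) (nat_lit 528) (nat_lit 396)) (XT.nd (nat_lit 78) (nat_lit 228) (nat_lit 0) (XT.lf (nat_lit 0) (nat_lit 6502269501) (nat_lit 380) (nat_lit 5128948122) (nat_lit 76) (nat_lit 5671246032) (nat_lit 97) (nat_lit 5) (nat_lit 102) (nat_lit 5) (nat_lit 98) (nat_lit 5) (nat_lit 637) (nat_lit 528) (nat_lit 395)) (XT.lf (nat_lit 0) (nat_lit 5618074995) (nat_lit 228) (nat_lit 5622872817) (nat_lit 304) (nat_lit 6279244024) (nat_lit 94) (nat_lit 5) (nat_lit 97) (nat_lit 5) (nat_lit 98) (nat_lit 5) (nat_lit 638) (nat_lit 528) (nat_lit 394))))) (XT.nd (nat_lit 234) (nat_lit 532) (nat_lit 0) (XT.nd (nat_lit 78) (nat_lit 608) (nat_lit 0) (XT.lf (nat_lit 0) (nat_lit 16096413330) (nat_lit 304) (nat_lit 1122287020) (nat_lit 76) (nat_lit 523134968) (nat_lit 94) (nat_lit 5) (nat_lit 98) (nat_lit 5) (nat_lit 95) (nat_lit 5) (nat_lit 639) (nat_lit 528) (nat_lit 393)) (XT.nd (nat_lit 78) (nat_lit 228) (nat_lit 0) (XT.lf (nat_lit 0) (nat_lit 3127409088) (nat_lit 380)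 (nat_lit 8046725236) (nat_lit 76) (nat_lit 6791643403) (nat_lit 89) (nat_lit 5) (nat_lit 94) (nat_lit 5) (nat_lit 90) (nat_lit 5) (nat_lit 640) (nat_lit 528) (nat_lit 392)) (XT.lf (nat_lit 0) (nat_lit 3004578721) (nat_lit 228) (nat_lit 4980625462) (nat_lit 304) (nat_lit 10208547435) (nat_lit 86) (nat_lit 5) (nat_lit 89) (nat_lit 5) (nat_lit 90) (nat_lit 5) (nat_lit 641) (nat_lit 528) (nat_lit 391)))) (XT.nd (nat_lit 156) (nat_lit 304) (nat_lit 0) (XT.nd (nat_lit 78) (nat_lit 228) (nat_lit 0) (XT.lf (nat_lit 0) (nat_lit 12987686607) (nat_lit 304) (nat_lit 4074588612) (nat_lit 76) (nat_lit 1363060076) (nat_lit 86) (nat_lit 5) (nat_lit 90) (nat_lit 5) (nat_lit 87) (nat_lit 5) (nat_lit 642) (nat_lit 528) (nat_lit 390)) (XT.lf (nat_lit 0) (nat_lit 7299218827) (nat_lit 228) (nat_lit 10856176449) (nat_lit 304) (nat_lit 504852754) (nat_lit 83) (nat_lit 5) (nat_lit 86) (nat_lit 5) (nat_lit 87) (nat_lit 5) (nat_lit 643) (nat_lit 528) (nat_lit 389))) (XT.nd (nat_lit 78) (nat_lit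 0) (nat_lit 0) (XT.lf (nat_lit 0) (nat_lit 1017504) (nat_lit 228) (nat_lit 4478576547) (nat_lit 304) (nat_lit 14419430812) (nat_lit 79) (nat_lit 5) (nat_lit 82) (nat_lit 5) (nat_lit 83) (nat_lit 5) (nat_lit 644) (nat_lit 528) (nat_lit 388)) (XT.lf (nat_lit 0) (nat_lit 9631770800) (nat_lit 304) (nat_lit 7439661667) (nat_lit 76) (nat_lit 2069582869) (nat_lit 79) (nat_lit 5) (nat_lit 83) (nat_lit 5) (nat_lit 80) (nat_lit 5) (nat_lit 645) (nat_lit 528) (nat_lit 387))))))) (XT.nd (nat_lit 72618) (nat_lit 0) (nat_lit 44004) (XT.nd (nat_lit 72150) (nat_lit 0) (nat_lit 47576) (XT.nd (nat_lit 234) (nat_lit 228) (nat_lit 0) (XT.nd (nat_lit 78) (nat_lit 304) (nat_lit 0) (XT.lf (nat_lit 0) (nat_lit 4248509564) (nat_lit 228) (nat_lit 10680914732) (nat_lit 304) (nat_lit 4457573504) (nat_lit 76) (nat_lit 5) (nat_lit 79) (nat_lit 5) (nat_lit 80) (nat_lit 5) (nat_lit 646) (nat_lit 528) (nat_lit 386)) (XT.nd (nat_lit 78) (nat_lit 228) (nat_lit 0) (XT.lf (nat_lit 0) (nat_lit 721486970)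 (nat_lit 304) (nat_lit 3395886549) (nat_lit 76) (nat_lit 15519727487) (nat_lit 75) (nat_lit 5) (nat_lit 79) (nat_lit 5) (nat_lit 76) (nat_lit 5) (nat_lit 647) (nat_lit 528) (nat_lit 385)) (XT.lf (nat_lit 0) (nat_lit 6003338597) (nat_lit 304) (nat_lit 11267583885) (nat_lit 76) (nat_lit 2619517364) (nat_lit 72) (nat_lit 5) (nat_lit 76) (nat_lit 5) (nat_lit 73) (nat_lit 5) (nat_lit 648) (nat_lit 528) (nat_lit 384)))) (XT.nd (nat_lit 78) (nat_lit 0) (nat_lit 0) (XT.lf (nat_lit 0) (nat_lit 736871715) (nat_lit 228) (nat_lit 10694510048) (nat_lit 304) (nat_lit 8716653390) (nat_lit 69) (nat_lit 5) (nat_lit 72) (nat_lit 5) (nat_lit 73) (nat_lit 5) (nat_lit 649) (nat_lit 528) (nat_lit 383)) (XT.nd (nat_lit 71760) (nat_lit 0) (nat_lit 49020) (XT.lf (nat_lit 0) (nat_lit 13109325940) (nat_lit 228) (nat_lit 3919956923) (nat_lit 304) (nat_lit 3380274330) (nat_lit 69) (nat_lit 5) (nat_lit 72) (nat_lit 5) (nat_lit 73) (nat_lit 5) (nat_lit 650) (nat_lit 528) (nat_lit 382)) (XT.lf (nat_lit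 0) (nat_lit 2298371505) (nat_lit 684) (nat_lit 500042206) (nat_lit 684) (nat_lit 500042206) (nat_lit 714) (nat_lit 3) (nat_lit 723) (nat_lit 3) (nat_lit 723) (nat_lit 5) (nat_lit 529) (nat_lit 529) (nat_lit 502))))) (XT.nd (nat_lit 234) (nat_lit 760) (nat_lit 0) (XT.nd (nat_lit 78) (nat_lit 0) (nat_lit 0) (XT.lf (nat_lit 0) (nat_lit 399430854) (nat_lit 684) (nat_lit 4340452310) (nat_lit 760) (nat_lit 1874828053) (nat_lit 705) (nat_lit 5) (nat_lit 714) (nat_lit 3) (nat_lit 715) (nat_lit 5) (nat_lit 530) (nat_lit 529) (nat_lit 501)) (XT.nd (nat_lit 78) (nat_lit 0) (nat_lit 0) (XT.lf (nat_lit 0) (nat_lit 2764429831) (nat_lit 684) (nat_lit 1051249589) (nat_lit 760) (nat_lit 2818053902) (nat_lit 705) (nat_lit 5) (nat_lit 714) (nat_lit 3) (nat_lit 715) (nat_lit 5) (nat_lit 531) (nat_lit 529) (nat_lit 500)) (XT.lf (nat_lit 76) (nat_lit 2301696773) (nat_lit 0) (nat_lit 2828612422) (nat_lit 760) (nat_lit 1523769723) (nat_lit 706) (nat_lit 5) (nat_lit 705) (nat_lit 5) (nat_lit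 715) (nat_lit 5) (nat_lit 532) (nat_lit 529) (nat_lit 499)))) (XT.nd (nat_lit 78) (nat_lit 0) (nat_lit 0) (XT.lf (nat_lit 0) (nat_lit 803600690) (nat_lit 760) (nat_lit 977262449) (nat_lit 836) (nat_lit 4894943199) (nat_lit 695) (nat_lit 5) (nat_lit 705) (nat_lit 5) (nat_lit 706) (nat_lit 5) (nat_lit 533) (nat_lit 529) (nat_lit 498)) (XT.nd (nat_lit 78) (nat_lit 0) (nat_lit 76) (XT.lf (nat_lit 76) (nat_lit 2455276304) (nat_lit 0) (nat_lit 658208736) (nat_lit 836) (nat_lit 3585168238) (nat_lit 696) (nat_lit 5) (nat_lit 695) (nat_lit 5) (nat_lit 706) (nat_lit 5) (nat_lit 534) (nat_lit 529) (nat_lit 497)) (XT.lf (nat_lit 0) (nat_lit 5420872985) (nat_lit 760) (nat_lit 788658705) (nat_lit 836) (nat_lit 513412888) (nat_lit 696) (nat_lit 5) (nat_lit 706) (nat_lit 5) (nat_lit 707) (nat_lit 5) (nat_lit 535) (nat_lit 529) (nat_lit 496)))))) (XT.nd (nat_lit 468) (nat_lit 1900) (nat_lit 0) (XT.nd (nat_lit 234) (nat_lit 912) (nat_lit 0) (XT.nd (nat_lit 78) (nat_lit 0) (nat_lit 0) (XT.lf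 (nat_lit 0) (nat_lit 977774759) (nat_lit 836) (nat_lit 4020907511) (nat_lit 912) (nat_lit 1749628073) (nat_lit 685) (nat_lit 5) (nat_lit 696) (nat_lit 5) (nat_lit 697) (nat_lit 5) (nat_lit 536) (nat_lit 529) (nat_lit 495)) (XT.nd (nat_lit 78) (nat_lit 0) (nat_lit 0) (XT.lf (nat_lit 0) (nat_lit 3234343002) (nat_lit 836) (nat_lit 491499026) (nat_lit 912) (nat_lit 3049210825) (nat_lit 685) (nat_lit 5) (nat_lit 696) (nat_lit 5) (nat_lit 697) (nat_lit 5) (nat_lit 537) (nat_lit 529) (nat_lit 494)) (XT.lf (nat_lit 76) (nat_lit 3116787119) (nat_lit 0) (nat_lit 2383821192) (nat_lit 912) (nat_lit 1302443098) (nat_lit 686) (nat_lit 5) (nat_lit 685) (nat_lit 5) (nat_lit 697) (nat_lit 5) (nat_lit 538) (nat_lit 529) (nat_lit 493)))) (XT.nd (nat_lit 78) (nat_lit 0) (nat_lit 76) (XT.lf (nat_lit 0) (nat_lit 915884344) (nat_lit 912) (nat_lit 67149528) (nat_lit 988) (nat_lit 5849497635) (nat_lit 673) (nat_lit 5) (nat_lit 685) (nat_lit 5) (nat_lit 686) (nat_lit 5) (nat_lit 539) (nat_lit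 529) (nat_lit 492)) (XT.nd (nat_lit 78) (nat_lit 0) (nat_lit 0) (XT.lf (nat_lit 0) (nat_lit 3133894303) (nat_lit 912) (nat_lit 3235425915) (nat_lit 988) (nat_lit 493665481) (nat_lit 674) (nat_lit 5) (nat_lit 686) (nat_lit 5) (nat_lit 687) (nat_lit 5) (nat_lit 540) (nat_lit 529) (nat_lit 491)) (XT.lf (nat_lit 76) (nat_lit 469206287) (nat_lit 0) (nat_lit 4883973074) (nat_lit 988) (nat_lit 1541742871) (nat_lit 675) (nat_lit 5) (nat_lit 674) (nat_lit 5) (nat_lit 687) (nat_lit 5) (nat_lit 541) (nat_lit 529) (nat_lit 490))))) (XT.nd (nat_lit 234) (nat_lit 988) (nat_lit 0) (XT.nd (nat_lit 78) (nat_lit 0) (nat_lit 0) (XT.lf (nat_lit 0) (nat_lit 649539463) (nat_lit 988) (nat_lit 2673852766) (nat_lit 1064) (nat_lit 3604642303) (nat_lit 661) (nat_lit 5) (nat_lit 674) (nat_lit 5) (nat_lit 675) (nat_lit 5) (nat_lit 542) (nat_lit 529) (nat_lit 489)) (XT.nd (nat_lit 78) (nat_lit 0) (nat_lit 76) (XT.lf (nat_lit 76) (nat_lit 1124290415) (nat_lit 0) (nat_lit 1695436568) (nat_lit 1064)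 (nat_lit 4142774699) (nat_lit 662) (nat_lit 5) (nat_lit 661) (nat_lit 5) (nat_lit 675) (nat_lit 5) (nat_lit 543) (nat_lit 529) (nat_lit 488)) (XT.lf (nat_lit 0) (nat_lit 5000469868) (nat_lit 988) (nat_lit 1996765186) (nat_lit 1064) (nat_lit 1090763) (nat_lit 662) (nat_lit 5) (nat_lit 675) (nat_lit 5) (nat_lit 676) (nat_lit 5) (nat_lit 544) (nat_lit 529) (nat_lit 487)))) (XT.nd (nat_lit 156) (nat_lit 0) (nat_lit 0) (XT.nd (nat_lit 78) (nat_lit 0) (nat_lit 0) (XT.lf (nat_lit 0) (nat_lit 161171895) (nat_lit 1064) (nat_lit 5134781059) (nat_lit 1140) (nat_lit 1739425035) (nat_lit 648) (nat_lit 5) (nat_lit 662) (nat_lit 5) (nat_lit 663) (nat_lit 5) (nat_lit 545) (nat_lit 529) (nat_lit 486)) (XT.lf (nat_lit 0) (nat_lit 2300876224) (nat_lit 1064) (nat_lit 1217238048) (nat_lit 1140) (nat_lit 3555517932) (nat_lit 648) (nat_lit 5) (nat_lit 662) (nat_lit 5) (nat_lit 663) (nat_lit 5) (nat_lit 546) (nat_lit 529) (nat_lit 485))) (XT.nd (nat_lit 78) (nat_lit 0) (nat_lit 76) (XT.lf (nat_lit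 76) (nat_lit 2781818075) (nat_lit 0) (nat_lit 1671318097) (nat_lit 1140) (nat_lit 2660129964) (nat_lit 649) (nat_lit 5) (nat_lit 648) (nat_lit 5) (nat_lit 663) (nat_lit 5) (nat_lit 547) (nat_lit 529) (nat_lit 484)) (XT.lf (nat_lit 0) (nat_lit 6610569029) (nat_lit 1064) (nat_lit 311764816) (nat_lit 76) (nat_lit 232126016) (nat_lit 649) (nat_lit 5) (nat_lit 663) (nat_lit 5) (nat_lit 650) (nat_lit 5) (nat_lit 548) (nat_lit 529) (nat_lit 483))))))))
noncomputable def xc105 : XT := (XT.nd (nat_lit 1950) (nat_lit 11476) (nat_lit 0) (XT.nd (nat_lit 936) (nat_lit 10564) (nat_lit 0) (XT.nd (nat_lit 468) (nat_lit 4484) (nat_lit 0) (XT.nd (nat_lit 234) (nat_lit 2584) (nat_lit 0) (XT.nd (nat_lit 78) (nat_lit 1140) (nat_lit 0) (XT.lf (nat_lit 0) (nat_lit 1582570517) (nat_lit 1140) (nat_lit 3413606934) (nat_lit 76) (nat_lit 2200318152) (nat_lit 634) (nat_lit 5) (nat_lit 649) (nat_lit 5) (nat_lit 635) (nat_lit 5) (nat_lit 549) (nat_lit 529) (nat_lit 482)) (XT.nd (nat_lit 78) (nat_lit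 0) (nat_lit 0) (XT.lf (nat_lit 0) (nat_lit 695952843) (nat_lit 1140) (nat_lit 3008797766) (nat_lit 1216) (nat_lit 3535349216) (nat_lit 619) (nat_lit 5) (nat_lit 634) (nat_lit 5) (nat_lit 635) (nat_lit 5) (nat_lit 550) (nat_lit 529) (nat_lit 481)) (XT.lf (nat_lit 0) (nat_lit 4900309131) (nat_lit 1140) (nat_lit 946499619) (nat_lit 1216) (nat_lit 1438227625) (nat_lit 619) (nat_lit 5) (nat_lit 634) (nat_lit 5) (nat_lit 635) (nat_lit 5) (nat_lit 551) (nat_lit 529) (nat_lit 480)))) (XT.nd (nat_lit 78) (nat_lit 1292) (nat_lit 0) (XT.lf (nat_lit 0) (nat_lit 666426632) (nat_lit 1292) (nat_lit 5495240685) (nat_lit 76) (nat_lit 1169626283) (nat_lit 602) (nat_lit 5) (nat_lit 619) (nat_lit 5) (nat_lit 603) (nat_lit 5) (nat_lit 552) (nat_lit 529) (nat_lit 479)) (XT.nd (nat_lit 78) (nat_lit 1292) (nat_lit 0) (XT.lf (nat_lit 0) (nat_lit 2772159781) (nat_lit 1292) (nat_lit 1254834514) (nat_lit 76) (nat_lit 3351735087) (nat_lit 602) (nat_lit 5) (nat_lit 619) (nat_lit 5) (nat_lit 603) (nat_lit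 5) (nat_lit 553) (nat_lit 529) (nat_lit 478)) (XT.lf (nat_lit 0) (nat_lit 3077055513) (nat_lit 1292) (nat_lit 1819644785) (nat_lit 1368) (nat_lit 2530887980) (nat_lit 585) (nat_lit 5) (nat_lit 602) (nat_lit 5) (nat_lit 603) (nat_lit 5) (nat_lit 554) (nat_lit 529) (nat_lit 477))))) (XT.nd (nat_lit 234) (nat_lit 1596) (nat_lit 0) (XT.nd (nat_lit 78) (nat_lit 2888) (nat_lit 0) (XT.lf (nat_lit 0) (nat_lit 7032417481) (nat_lit 1368) (nat_lit 1902315) (nat_lit 76) (nat_lit 443738929) (nat_lit 585) (nat_lit 5) (nat_lit 603) (nat_lit 5) (nat_lit 586) (nat_lit 5) (nat_lit 555) (nat_lit 529) (nat_lit 476)) (XT.nd (nat_lit 78) (nat_lit 1444) (nat_lit 0) (XT.lf (nat_lit 0) (nat_lit 1658405830) (nat_lit 1444) (nat_lit 3094215887) (nat_lit 76) (nat_lit 2776723398) (nat_lit 566) (nat_lit 5) (nat_lit 585) (nat_lit 5) (nat_lit 567) (nat_lit 5) (nat_lit 556) (nat_lit 529) (nat_lit 475)) (XT.lf (nat_lit 0) (nat_lit 1360114862) (nat_lit 1444) (nat_lit 2405863015) (nat_lit 1520) (nat_lit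 3816279842) (nat_lit 547) (nat_lit 5) (nat_lit 566) (nat_lit 5) (nat_lit 567) (nat_lit 5) (nat_lit 557) (nat_lit 529) (nat_lit 474)))) (XT.nd (nat_lit 78) (nat_lit 1596) (nat_lit 0) (XT.lf (nat_lit 0) (nat_lit 5895724217) (nat_lit 1520) (nat_lit 1725084849) (nat_lit 76) (nat_lit 15826527) (nat_lit 547) (nat_lit 5) (nat_lit 567) (nat_lit 5) (nat_lit 548) (nat_lit 5) (nat_lit 558) (nat_lit 529) (nat_lit 473)) (XT.nd (nat_lit 78) (nat_lit 0) (nat_lit 0) (XT.lf (nat_lit 0) (nat_lit 365422734) (nat_lit 1596) (nat_lit 4845280719) (nat_lit 76) (nat_lit 2481468154) (nat_lit 526) (nat_lit 5) (nat_lit 547) (nat_lit 5) (nat_lit 527) (nat_lit 5) (nat_lit 559) (nat_lit 529) (nat_lit 472)) (XT.lf (nat_lit 0) (nat_lit 2462544636) (nat_lit 1596) (nat_lit 260821539) (nat_lit 76) (nat_lit 5025789623) (nat_lit 526) (nat_lit 5) (nat_lit 547) (nat_lit 5) (nat_lit 527) (nat_lit 5) (nat_lit 560) (nat_lit 529) (nat_lit 471)))))) (XT.nd (nat_lit 468) (nat_lit 3800) (nat_lit 0) (XT.nd (nat_lit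 234) (nat_lit 3420) (nat_lit 0) (XT.nd (nat_lit 78) (nat_lit 1748) (nat_lit 0) (XT.lf (nat_lit 0) (nat_lit 4439911010) (nat_lit 1596) (nat_lit 151600530) (nat_lit 1672) (nat_lit 3215976989) (nat_lit 505) (nat_lit 5) (nat_lit 526) (nat_lit 5) (nat_lit 527) (nat_lit 5) (nat_lit 561) (nat_lit 529) (nat_lit 470)) (XT.nd (nat_lit 78) (nat_lit 76) (nat_lit 0) (XT.lf (nat_lit 0) (nat_lit 1338505505) (nat_lit 1672) (nat_lit 5412705937) (nat_lit 1748) (nat_lit 1116020169) (nat_lit 483) (nat_lit 5) (nat_lit 505) (nat_lit 5) (nat_lit 506) (nat_lit 5) (nat_lit 562) (nat_lit 529) (nat_lit 469)) (XT.lf (nat_lit 0) (nat_lit 998160500) (nat_lit 1748) (nat_lit 1785692129) (nat_lit 76) (nat_lit 5144476612) (nat_lit 482) (nat_lit 5) (nat_lit 505) (nat_lit 5) (nat_lit 483) (nat_lit 5) (nat_lit 563) (nat_lit 529) (nat_lit 468)))) (XT.nd (nat_lit 78) (nat_lit 1672) (nat_lit 0) (XT.lf (nat_lit 0) (nat_lit 3050984268) (nat_lit 1748) (nat_lit 71194689) (nat_lit 1824) (nat_lit 4868678755) (nat_lit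 459) (nat_lit 5) (nat_lit 482) (nat_lit 5) (nat_lit 483) (nat_lit 5) (nat_lit 564) (nat_lit 529) (nat_lit 467)) (XT.nd (nat_lit 78) (nat_lit 1672) (nat_lit 0) (XT.lf (nat_lit 0) (nat_lit 5281451475) (nat_lit 1824) (nat_lit 97761291) (nat_lit 76) (nat_lit 2675574765) (nat_lit 459) (nat_lit 5) (nat_lit 483) (nat_lit 5) (nat_lit 460) (nat_lit 5) (nat_lit 565) (nat_lit 529) (nat_lit 466)) (XT.lf (nat_lit 0) (nat_lit 4870896274) (nat_lit 1672) (nat_lit 2609040161) (nat_lit 1748) (nat_lit 640145107) (nat_lit 437) (nat_lit 5) (nat_lit 459) (nat_lit 5) (nat_lit 460) (nat_lit 5) (nat_lit 566) (nat_lit 529) (nat_lit 465))))) (XT.nd (nat_lit 234) (nat_lit 1824) (nat_lit 0) (XT.nd (nat_lit 78) (nat_lit 912) (nat_lit 0) (XT.lf (nat_lit 0) (nat_lit 1493218067) (nat_lit 1064) (nat_lit 6456168302) (nat_lit 76) (nat_lit 237548549) (nat_lit 423) (nat_lit 5) (nat_lit 437) (nat_lit 5) (nat_lit 424) (nat_lit 5) (nat_lit 567) (nat_lit 529) (nat_lit 464)) (XT.nd (nat_lit 78) (nat_lit 912) (nat_lit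 0) (XT.lf (nat_lit 0) (nat_lit 3664583840) (nat_lit 1064) (nat_lit 1456457974) (nat_lit 76) (nat_lit 3133926563) (nat_lit 423) (nat_lit 5) (nat_lit 437) (nat_lit 5) (nat_lit 424) (nat_lit 5) (nat_lit 568) (nat_lit 529) (nat_lit 463)) (XT.lf (nat_lit 0) (nat_lit 3657422542) (nat_lit 912) (nat_lit 2211065815) (nat_lit 988) (nat_lit 2456097584) (nat_lit 411) (nat_lit 5) (nat_lit 423) (nat_lit 5) (nat_lit 424) (nat_lit 5) (nat_lit 569) (nat_lit 529) (nat_lit 462)))) (XT.nd (nat_lit 156) (nat_lit 836) (nat_lit 0) (XT.nd (nat_lit 78) (nat_lit 76) (nat_lit 0) (XT.lf (nat_lit 0) (nat_lit 464775776) (nat_lit 912) (nat_lit 7635296906) (nat_lit 988) (nat_lit 295856694) (nat_lit 399) (nat_lit 5) (nat_lit 411) (nat_lit 5) (nat_lit 412) (nat_lit 5) (nat_lit 570) (nat_lit 529) (nat_lit 461)) (XT.lf (nat_lit 0) (nat_lit 1894790412) (nat_lit 988) (nat_lit 2767184011) (nat_lit 76) (nat_lit 3806238494) (nat_lit 398) (nat_lit 5) (nat_lit 411) (nat_lit 5) (nat_lit 399) (nat_lit 5) (nat_lit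 571) (nat_lit 529) (nat_lit 460))) (XT.nd (nat_lit 78) (nat_lit 0) (nat_lit 0) (XT.lf (nat_lit 0) (nat_lit 2497037581) (nat_lit 836) (nat_lit 1611183580) (nat_lit 912) (nat_lit 4434028443) (nat_lit 387) (nat_lit 5) (nat_lit 398) (nat_lit 5) (nat_lit 399) (nat_lit 5) (nat_lit 572) (nat_lit 529) (nat_lit 459)) (XT.lf (nat_lit 0) (nat_lit 6361501568) (nat_lit 912) (nat_lit 757460112) (nat_lit 76) (nat_lit 1498898857) (nat_lit 387) (nat_lit 5) (nat_lit 399) (nat_lit 5) (nat_lit 388) (nat_lit 5) (nat_lit 573) (nat_lit 529) (nat_lit 458))))))) (XT.nd (nat_lit 936) (nat_lit 5168) (nat_lit 0) (XT.nd (nat_lit 468) (nat_lit 2964) (nat_lit 0) (XT.nd (nat_lit 234) (nat_lit 1672) (nat_lit 0) (XT.nd (nat_lit 78) (nat_lit 836) (nat_lit 0) (XT.lf (nat_lit 0) (nat_lit 4652818944) (nat_lit 836) (nat_lit 4015697877) (nat_lit 912) (nat_lit 26298512) (nat_lit 376) (nat_lit 5) (nat_lit 387) (nat_lit 5) (nat_lit 388) (nat_lit 5) (nat_lit 574) (nat_lit 529) (nat_lit 457)) (XT.nd (nat_lit 78)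 (nat_lit 0) (nat_lit 0) (XT.lf (nat_lit 0) (nat_lit 1378015301) (nat_lit 760) (nat_lit 822913283) (nat_lit 836) (nat_lit 6572452457) (nat_lit 365) (nat_lit 5) (nat_lit 375) (nat_lit 5) (nat_lit 376) (nat_lit 5) (nat_lit 575) (nat_lit 529) (nat_lit 456)) (XT.lf (nat_lit 0) (nat_lit 4483839796) (nat_lit 836) (nat_lit 1942104558) (nat_lit 76) (nat_lit 2427345139) (nat_lit 365) (nat_lit 5) (nat_lit 376) (nat_lit 5) (nat_lit 366) (nat_lit 5) (nat_lit 576) (nat_lit 529) (nat_lit 455)))) (XT.nd (nat_lit 78) (nat_lit 836) (nat_lit 0) (XT.lf (nat_lit 0) (nat_lit 3628844091) (nat_lit 836) (nat_lit 3181582091) (nat_lit 912) (nat_lit 2124414241) (nat_lit 354) (nat_lit 5) (nat_lit 365) (nat_lit 5) (nat_lit 366) (nat_lit 5) (nat_lit 577) (nat_lit 529) (nat_lit 454)) (XT.nd (nat_lit 78) (nat_lit 0) (nat_lit 0) (XT.lf (nat_lit 0) (nat_lit 148451403) (nat_lit 836) (nat_lit 8730551515) (nat_lit 76) (nat_lit 139300421) (nat_lit 343) (nat_lit 5) (nat_lit 354) (nat_lit 5) (nat_lit 344) (nat_lit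 5) (nat_lit 578) (nat_lit 529) (nat_lit 453)) (XT.lf (nat_lit 0) (nat_lit 2464824353) (nat_lit 836) (nat_lit 3106884534) (nat_lit 76) (nat_lit 3530920238) (nat_lit 343) (nat_lit 5) (nat_lit 354) (nat_lit 5) (nat_lit 344) (nat_lit 5) (nat_lit 579) (nat_lit 529) (nat_lit 452))))) (XT.nd (nat_lit 234) (nat_lit 1444) (nat_lit 0) (XT.nd (nat_lit 78) (nat_lit 760) (nat_lit 0) (XT.lf (nat_lit 0) (nat_lit 2630336043) (nat_lit 760) (nat_lit 2184420918) (nat_lit 836) (nat_lit 4374144117) (nat_lit 333) (nat_lit 5) (nat_lit 343) (nat_lit 5) (nat_lit 344) (nat_lit 5) (nat_lit 580) (nat_lit 529) (nat_lit 451)) (XT.nd (nat_lit 78) (nat_lit 760) (nat_lit 0) (XT.lf (nat_lit 0) (nat_lit 7211424608) (nat_lit 836) (nat_lit 794220349) (nat_lit 76) (nat_lit 1271262994) (nat_lit 333) (nat_lit 5) (nat_lit 344) (nat_lit 5) (nat_lit 334) (nat_lit 5) (nat_lit 581) (nat_lit 529) (nat_lit 450)) (XT.lf (nat_lit 0) (nat_lit 304363757) (nat_lit 760) (nat_lit 4263517303) (nat_lit 76) (nat_lit 4798384214)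 (nat_lit 323) (nat_lit 5) (nat_lit 333) (nat_lit 5) (nat_lit 324) (nat_lit 5) (nat_lit 582) (nat_lit 529) (nat_lit 449)))) (XT.nd (nat_lit 78) (nat_lit 684) (nat_lit 0) (XT.lf (nat_lit 0) (nat_lit 1645715134) (nat_lit 760) (nat_lit 1035550345) (nat_lit 836) (nat_lit 6776128885) (nat_lit 313) (nat_lit 5) (nat_lit 323) (nat_lit 5) (nat_lit 324) (nat_lit 5) (nat_lit 583) (nat_lit 529) (nat_lit 448)) (XT.nd (nat_lit 78) (nat_lit 684) (nat_lit 0) (XT.lf (nat_lit 0) (nat_lit 5122732433) (nat_lit 836) (nat_lit 1869303600) (nat_lit 76) (nat_lit 2557973347) (nat_lit 313) (nat_lit 5) (nat_lit 324) (nat_lit 5) (nat_lit 314) (nat_lit 5) (nat_lit 584) (nat_lit 529) (nat_lit 447)) (XT.lf (nat_lit 0) (nat_lit 4207303704) (nat_lit 684) (nat_lit 3412015106) (nat_lit 760) (nat_lit 2025035897) (nat_lit 304) (nat_lit 5) (nat_lit 313) (nat_lit 5) (nat_lit 314) (nat_lit 5) (nat_lit 585) (nat_lit 529) (nat_lit 446)))))) (XT.nd (nat_lit 468) (nat_lit 2432) (nat_lit 0) (XT.nd (nat_lit 234) (nat_lit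 1368) (nat_lit 0) (XT.nd (nat_lit 78) (nat_lit 608) (nat_lit 0) (XT.lf (nat_lit 0) (nat_lit 410520833) (nat_lit 760) (nat_lit 9079195787) (nat_lit 76) (nat_lit 251001804) (nat_lit 294) (nat_lit 5) (nat_lit 304) (nat_lit 5) (nat_lit 295) (nat_lit 5) (nat_lit 586) (nat_lit 529) (nat_lit 445)) (XT.nd (nat_lit 78) (nat_lit 608) (nat_lit 0) (XT.lf (nat_lit 0) (nat_lit 2899580630) (nat_lit 760) (nat_lit 2952151370) (nat_lit 76) (nat_lit 3986375155) (nat_lit 294) (nat_lit 5) (nat_lit 304) (nat_lit 5) (nat_lit 295) (nat_lit 5) (nat_lit 587) (nat_lit 529) (nat_lit 444)) (XT.lf (nat_lit 0) (nat_lit 3308083290) (nat_lit 608) (nat_lit 2124913258) (nat_lit 684) (nat_lit 4504559135) (nat_lit 286) (nat_lit 5) (nat_lit 294) (nat_lit 5) (nat_lit 295) (nat_lit 5) (nat_lit 588) (nat_lit 529) (nat_lit 443)))) (XT.nd (nat_lit 78) (nat_lit 1368) (nat_lit 0) (XT.lf (nat_lit 0) (nat_lit 8021281535) (nat_lit 684) (nat_lit 349090950) (nat_lit 76) (nat_lit 1668540135) (nat_lit 286) (nat_lit 5)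 (nat_lit 295) (nat_lit 5) (nat_lit 287) (nat_lit 5) (nat_lit 589) (nat_lit 529) (nat_lit 442)) (XT.nd (nat_lit 78) (nat_lit 608) (nat_lit 0) (XT.lf (nat_lit 0) (nat_lit 539918434) (nat_lit 760) (nat_lit 4054970946) (nat_lit 76) (nat_lit 5546789434) (nat_lit 276) (nat_lit 5) (nat_lit 286) (nat_lit 5) (nat_lit 277) (nat_lit 5) (nat_lit 590) (nat_lit 529) (nat_lit 441)) (XT.lf (nat_lit 0) (nat_lit 2395029024) (nat_lit 608) (nat_lit 718532775) (nat_lit 684) (nat_lit 7132835879) (nat_lit 268) (nat_lit 5) (nat_lit 276) (nat_lit 5) (nat_lit 277) (nat_lit 5) (nat_lit 591) (nat_lit 529) (nat_lit 440))))) (XT.nd (nat_lit 234) (nat_lit 1216) (nat_lit 0) (XT.nd (nat_lit 78) (nat_lit 1216) (nat_lit 0) (XT.lf (nat_lit 0) (nat_lit 5761357412) (nat_lit 684) (nat_lit 1377623728) (nat_lit 76) (nat_lit 3213779379) (nat_lit 268) (nat_lit 5) (nat_lit 277) (nat_lit 5) (nat_lit 269) (nat_lit 5) (nat_lit 592) (nat_lit 529) (nat_lit 439)) (XT.nd (nat_lit 78) (nat_lit 608) (nat_lit 0) (XT.lf (nat_lit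 0) (nat_lit 5257669375) (nat_lit 608) (nat_lit 3218120748) (nat_lit 684) (nat_lit 1985189999) (nat_lit 260) (nat_lit 5) (nat_lit 268) (nat_lit 5) (nat_lit 269) (nat_lit 5) (nat_lit 593) (nat_lit 529) (nat_lit 438)) (XT.lf (nat_lit 0) (nat_lit 663159268) (nat_lit 608) (nat_lit 9121012111) (nat_lit 76) (nat_lit 787131526) (nat_lit 252) (nat_lit 5) (nat_lit 260) (nat_lit 5) (nat_lit 253) (nat_lit 5) (nat_lit 594) (nat_lit 529) (nat_lit 437)))) (XT.nd (nat_lit 156) (nat_lit 608) (nat_lit 0) (XT.nd (nat_lit 78) (nat_lit 608) (nat_lit 0) (XT.lf (nat_lit 0) (nat_lit 3369521556) (nat_lit 608) (nat_lit 2442816183) (nat_lit 76) (nat_lit 4870602356) (nat_lit 252) (nat_lit 5) (nat_lit 260) (nat_lit 5) (nat_lit 253) (nat_lit 5) (nat_lit 595) (nat_lit 529) (nat_lit 436)) (XT.lf (nat_lit 0) (nat_lit 4394729625) (nat_lit 608) (nat_lit 1739444996) (nat_lit 684) (nat_lit 4662555026) (nat_lit 244) (nat_lit 5) (nat_lit 252) (nat_lit 5) (nat_lit 253) (nat_lit 5) (nat_lit 596) (nat_lit 529)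 (nat_lit 435))) (XT.nd (nat_lit 78) (nat_lit 76) (nat_lit 0) (XT.lf (nat_lit 0) (nat_lit 447677917) (nat_lit 532) (nat_lit 8517383212) (nat_lit 608) (nat_lit 1947517887) (nat_lit 237) (nat_lit 5) (nat_lit 244) (nat_lit 5) (nat_lit 245) (nat_lit 5) (nat_lit 597) (nat_lit 529) (nat_lit 434)) (XT.lf (nat_lit 0) (nat_lit 841765600) (nat_lit 608) (nat_lit 3558084889) (nat_lit 76) (nat_lit 6630176412) (nat_lit 236) (nat_lit 5) (nat_lit 244) (nat_lit 5) (nat_lit 237) (nat_lit 5) (nat_lit 598) (nat_lit 529) (nat_lit 433))))))))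
noncomputable def xc106 : XT := (XT.nd (nat_lit 1950) (nat_lit 4712) (nat_lit 0) (XT.nd (nat_lit 936) (nat_lit 3344) (nat_lit 0) (XT.nd (nat_lit 468) (nat_lit 2052) (nat_lit 0) (XT.nd (nat_lit 234) (nat_lit 1064) (nat_lit 0) (XT.nd (nat_lit 78) (nat_lit 532) (nat_lit 0) (XT.lf (nat_lit 0) (nat_lit 3488160051) (nat_lit 532) (nat_lit 171699778) (nat_lit 608) (nat_lit 7489727074) (nat_lit 229) (nat_lit 5) (nat_lit 236) (nat_lit 5) (nat_lit 237) (nat_lit 5) (nat_lit 599) (nat_lit 529) (nat_lit 432)) (XT.nd (nat_lit 78) (nat_lit 532) (nat_lit 0) (XT.lf (nat_lit 0) (nat_lit 6561873812) (nat_lit 608) (nat_lit 606311229) (nat_lit 76) (nat_lit 4102804524) (nat_lit 229) (nat_lit 5) (nat_lit 237) (nat_lit 5) (nat_lit 230) (nat_lit 5) (nat_lit 600) (nat_lit 529) (nat_lit 431)) (XT.lf (nat_lit 0) (nat_lit 6644772904) (nat_lit 532) (nat_lit 2898529541) (nat_lit 608) (nat_lit 1851092915) (nat_lit 222) (nat_lit 5) (nat_lit 229) (nat_lit 5) (nat_lit 230) (nat_lit 5) (nat_lit 601) (nat_lit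 529) (nat_lit 430)))) (XT.nd (nat_lit 78) (nat_lit 456) (nat_lit 0) (XT.lf (nat_lit 0) (nat_lit 1057390671) (nat_lit 608) (nat_lit 9005933939) (nat_lit 76) (nat_lit 1456663829) (nat_lit 214) (nat_lit 5) (nat_lit 222) (nat_lit 5) (nat_lit 215) (nat_lit 5) (nat_lit 602) (nat_lit 529) (nat_lit 429)) (XT.nd (nat_lit 78) (nat_lit 456) (nat_lit 0) (XT.lf (nat_lit 0) (nat_lit 4027941477) (nat_lit 608) (nat_lit 1723171984) (nat_lit 76) (nat_lit 5896163950) (nat_lit 214) (nat_lit 5) (nat_lit 222) (nat_lit 5) (nat_lit 215) (nat_lit 5) (nat_lit 603) (nat_lit 529) (nat_lit 428)) (XT.lf (nat_lit 0) (nat_lit 5749833840) (nat_lit 456) (nat_lit 1323226105) (nat_lit 532) (nat_lit 4703751455) (nat_lit 208) (nat_lit 5) (nat_lit 214) (nat_lit 5) (nat_lit 215) (nat_lit 5) (nat_lit 604) (nat_lit 529) (nat_lit 427))))) (XT.nd (nat_lit 234) (nat_lit 988) (nat_lit 0) (XT.nd (nat_lit 78) (nat_lit 532) (nat_lit 0) (XT.lf (nat_lit 0) (nat_lit 1454212765) (nat_lit 532) (nat_lit 8744686762) (nat_lit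 608) (nat_lit 1709642489) (nat_lit 201) (nat_lit 5) (nat_lit 208) (nat_lit 5) (nat_lit 209) (nat_lit 5) (nat_lit 605) (nat_lit 529) (nat_lit 426)) (XT.nd (nat_lit 78) (nat_lit 456) (nat_lit 0) (XT.lf (nat_lit 0) (nat_lit 1354281897) (nat_lit 608) (nat_lit 2924226425) (nat_lit 76) (nat_lit 7763675296) (nat_lit 200) (nat_lit 5) (nat_lit 208) (nat_lit 5) (nat_lit 201) (nat_lit 5) (nat_lit 606) (nat_lit 529) (nat_lit 425)) (XT.lf (nat_lit 0) (nat_lit 4468171132) (nat_lit 532) (nat_lit 7402774825) (nat_lit 76) (nat_lit 307096702) (nat_lit 194) (nat_lit 5) (nat_lit 201) (nat_lit 5) (nat_lit 195) (nat_lit 5) (nat_lit 607) (nat_lit 529) (nat_lit 424)))) (XT.nd (nat_lit 78) (nat_lit 532) (nat_lit 0) (XT.lf (nat_lit 0) (nat_lit 296942882) (nat_lit 456) (nat_lit 7376095852) (nat_lit 532) (nat_lit 4643008281) (nat_lit 188) (nat_lit 5) (nat_lit 194) (nat_lit 5) (nat_lit 195) (nat_lit 5) (nat_lit 608) (nat_lit 529) (nat_lit 423)) (XT.nd (nat_lit 78) (nat_lit 532) (nat_lit 0) (XT.lf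 (nat_lit 0) (nat_lit 8220551806) (nat_lit 456) (nat_lit 2750033724) (nat_lit 532) (nat_lit 1485656395) (nat_lit 188) (nat_lit 5) (nat_lit 194) (nat_lit 5) (nat_lit 195) (nat_lit 5) (nat_lit 609) (nat_lit 529) (nat_lit 422)) (XT.lf (nat_lit 0) (nat_lit 1728316613) (nat_lit 532) (nat_lit 8901243778) (nat_lit 76) (nat_lit 1969132555) (nat_lit 181) (nat_lit 5) (nat_lit 188) (nat_lit 5) (nat_lit 182) (nat_lit 5) (nat_lit 610) (nat_lit 529) (nat_lit 421)))))) (XT.nd (nat_lit 468) (nat_lit 1596) (nat_lit 0) (XT.nd (nat_lit 234) (nat_lit 912) (nat_lit 0) (XT.nd (nat_lit 78) (nat_lit 836) (nat_lit 0) (XT.lf (nat_lit 0) (nat_lit 5012852113) (nat_lit 532) (nat_lit 955283213) (nat_lit 76) (nat_lit 6775139720) (nat_lit 181) (nat_lit 5) (nat_lit 188) (nat_lit 5) (nat_lit 182) (nat_lit 5) (nat_lit 611) (nat_lit 529) (nat_lit 420)) (XT.nd (nat_lit 78) (nat_lit 380) (nat_lit 0) (XT.lf (nat_lit 0) (nat_lit 7214523521) (nat_lit 456) (nat_lit 1175134790) (nat_lit 532) (nat_lit 4500560824)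 (nat_lit 175) (nat_lit 5) (nat_lit 181) (nat_lit 5) (nat_lit 182) (nat_lit 5) (nat_lit 612) (nat_lit 529) (nat_lit 419)) (XT.lf (nat_lit 0) (nat_lit 2499489249) (nat_lit 380) (nat_lit 9361187582) (nat_lit 456) (nat_lit 1178893656) (nat_lit 170) (nat_lit 5) (nat_lit 175) (nat_lit 5) (nat_lit 176) (nat_lit 5) (nat_lit 613) (nat_lit 529) (nat_lit 418)))) (XT.nd (nat_lit 78) (nat_lit 836) (nat_lit 0) (XT.lf (nat_lit 0) (nat_lit 2206305433) (nat_lit 456) (nat_lit 2328323133) (nat_lit 76) (nat_lit 8656473804) (nat_lit 169) (nat_lit 5) (nat_lit 175) (nat_lit 5) (nat_lit 170) (nat_lit 5) (nat_lit 614) (nat_lit 529) (nat_lit 417)) (XT.nd (nat_lit 78) (nat_lit 380) (nat_lit 0) (XT.lf (nat_lit 0) (nat_lit 5666098191) (nat_lit 532) (nat_lit 7257470622) (nat_lit 76) (nat_lit 421488525) (nat_lit 163) (nat_lit 5) (nat_lit 170) (nat_lit 5) (nat_lit 164) (nat_lit 5) (nat_lit 615) (nat_lit 529) (nat_lit 416)) (XT.lf (nat_lit 0) (nat_lit 1157179492) (nat_lit 380) (nat_lit 8071656701) (nat_lit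 456) (nat_lit 4272581985) (nat_lit 158) (nat_lit 5) (nat_lit 163) (nat_lit 5) (nat_lit 164) (nat_lit 5) (nat_lit 616) (nat_lit 529) (nat_lit 415))))) (XT.nd (nat_lit 234) (nat_lit 1140) (nat_lit 0) (XT.nd (nat_lit 78) (nat_lit 456) (nat_lit 0) (XT.lf (nat_lit 0) (nat_lit 9809233470) (nat_lit 380) (nat_lit 3082967519) (nat_lit 456) (nat_lit 768119531) (nat_lit 158) (nat_lit 5) (nat_lit 163) (nat_lit 5) (nat_lit 164) (nat_lit 5) (nat_lit 617) (nat_lit 529) (nat_lit 414)) (XT.nd (nat_lit 78) (nat_lit 0) (nat_lit 0) (XT.lf (nat_lit 0) (nat_lit 2795180025) (nat_lit 456) (nat_lit 9006997818) (nat_lit 76) (nat_lit 2019349208) (nat_lit 152) (nat_lit 5) (nat_lit 158) (nat_lit 5) (nat_lit 153) (nat_lit 5) (nat_lit 618) (nat_lit 529) (nat_lit 413)) (XT.lf (nat_lit 0) (nat_lit 6446946759) (nat_lit 456) (nat_lit 334527882) (nat_lit 76) (nat_lit 7203833425) (nat_lit 152) (nat_lit 5) (nat_lit 158) (nat_lit 5) (nat_lit 153) (nat_lit 5) (nat_lit 619) (nat_lit 529) (nat_lit 412)))) (XT.nd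 (nat_lit 156) (nat_lit 380) (nat_lit 0) (XT.nd (nat_lit 78) (nat_lit 380) (nat_lit 0) (XT.lf (nat_lit 0) (nat_lit 8595622295) (nat_lit 380) (nat_lit 1613352392) (nat_lit 456) (nat_lit 3942647095) (nat_lit 147) (nat_lit 5) (nat_lit 152) (nat_lit 5) (nat_lit 153) (nat_lit 5) (nat_lit 620) (nat_lit 529) (nat_lit 411)) (XT.lf (nat_lit 0) (nat_lit 3379631785) (nat_lit 380) (nat_lit 10696098490) (nat_lit 456) (nat_lit 244943318) (nat_lit 142) (nat_lit 5) (nat_lit 147) (nat_lit 5) (nat_lit 148) (nat_lit 5) (nat_lit 621) (nat_lit 529) (nat_lit 410))) (XT.nd (nat_lit 78) (nat_lit 304) (nat_lit 0) (XT.lf (nat_lit 0) (nat_lit 3510264485) (nat_lit 456) (nat_lit 1985579097) (nat_lit 76) (nat_lit 8996210335) (nat_lit 141) (nat_lit 5) (nat_lit 147) (nat_lit 5) (nat_lit 142) (nat_lit 5) (nat_lit 622) (nat_lit 529) (nat_lit 409)) (XT.lf (nat_lit 0) (nat_lit 7213866277) (nat_lit 304) (nat_lit 152220062) (nat_lit 380) (nat_lit 7300168811) (nat_lit 137) (nat_lit 5) (nat_lit 141) (nat_lit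 5) (nat_lit 142) (nat_lit 5) (nat_lit 623) (nat_lit 529) (nat_lit 408))))))) (XT.nd (nat_lit 936) (nat_lit 2280) (nat_lit 0) (XT.nd (nat_lit 468) (nat_lit 988) (nat_lit 0) (XT.nd (nat_lit 234) (nat_lit 684) (nat_lit 0) (XT.nd (nat_lit 78) (nat_lit 380) (nat_lit 0) (XT.lf (nat_lit 0) (nat_lit 1740658201) (nat_lit 380) (nat_lit 9599537112) (nat_lit 456) (nat_lit 3502923123) (nat_lit 132) (nat_lit 5) (nat_lit 137) (nat_lit 5) (nat_lit 138) (nat_lit 5) (nat_lit 624) (nat_lit 529) (nat_lit 407)) (XT.nd (nat_lit 78) (nat_lit 304) (nat_lit 0) (XT.lf (nat_lit 0) (nat_lit 398867487) (nat_lit 456) (nat_lit 3835954633) (nat_lit 76) (nat_lit 10787981054) (nat_lit 131) (nat_lit 5) (nat_lit 137) (nat_lit 5) (nat_lit 132) (nat_lit 5) (nat_lit 625) (nat_lit 529) (nat_lit 406)) (XT.lf (nat_lit 0) (nat_lit 4359266064) (nat_lit 380) (nat_lit 9574685322) (nat_lit 76) (nat_lit 1271118970) (nat_lit 127) (nat_lit 5) (nat_lit 132) (nat_lit 5) (nat_lit 128) (nat_lit 5) (nat_lit 626) (nat_lit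 529) (nat_lit 405)))) (XT.nd (nat_lit 78) (nat_lit 684) (nat_lit 0) (XT.lf (nat_lit 0) (nat_lit 8435386936) (nat_lit 380) (nat_lit 108458704) (nat_lit 76) (nat_lit 6846408291) (nat_lit 127) (nat_lit 5) (nat_lit 132) (nat_lit 5) (nat_lit 128) (nat_lit 5) (nat_lit 627) (nat_lit 529) (nat_lit 404)) (XT.nd (nat_lit 78) (nat_lit 380) (nat_lit 0) (XT.lf (nat_lit 0) (nat_lit 9646327463) (nat_lit 304) (nat_lit 2992232525) (nat_lit 380) (nat_lit 2939671900) (nat_lit 123) (nat_lit 5) (nat_lit 127) (nat_lit 5) (nat_lit 128) (nat_lit 5) (nat_lit 628) (nat_lit 529) (nat_lit 403)) (XT.lf (nat_lit 0) (nat_lit 1166790577) (nat_lit 380) (nat_lit 11943844932) (nat_lit 76) (nat_lit 2658662620) (nat_lit 118) (nat_lit 5) (nat_lit 123) (nat_lit 5) (nat_lit 119) (nat_lit 5) (nat_lit 629) (nat_lit 529) (nat_lit 402))))) (XT.nd (nat_lit 234) (nat_lit 380) (nat_lit 0) (XT.nd (nat_lit 78) (nat_lit 608) (nat_lit 0) (XT.lf (nat_lit 0) (nat_lit 5358979729) (nat_lit 380) (nat_lit 2171990397) (nat_lit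 76) (nat_lit 8431968984) (nat_lit 118) (nat_lit 5) (nat_lit 123) (nat_lit 5) (nat_lit 119) (nat_lit 5) (nat_lit 630) (nat_lit 529) (nat_lit 401)) (XT.nd (nat_lit 78) (nat_lit 304) (nat_lit 0) (XT.lf (nat_lit 0) (nat_lit 7871657495) (nat_lit 304) (nat_lit 1797832707) (nat_lit 380) (nat_lit 6490274368) (nat_lit 114) (nat_lit 5) (nat_lit 118) (nat_lit 5) (nat_lit 119) (nat_lit 5) (nat_lit 631) (nat_lit 529) (nat_lit 400)) (XT.lf (nat_lit 0) (nat_lit 1755041882) (nat_lit 304) (nat_lit 12346986513) (nat_lit 380) (nat_lit 2257782978) (nat_lit 110) (nat_lit 5) (nat_lit 114) (nat_lit 5) (nat_lit 115) (nat_lit 5) (nat_lit 632) (nat_lit 529) (nat_lit 399)))) (XT.nd (nat_lit 78) (nat_lit 304) (nat_lit 0) (XT.lf (nat_lit 0) (nat_lit 2083737997) (nat_lit 380) (nat_lit 4504003144) (nat_lit 76) (nat_lit 9974823924) (nat_lit 109) (nat_lit 5) (nat_lit 114) (nat_lit 5) (nat_lit 110) (nat_lit 5) (nat_lit 633) (nat_lit 529) (nat_lit 398)) (XT.nd (nat_lit 78) (nat_lit 0) (nat_lit 0) (XT.lf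 (nat_lit 0) (nat_lit 5833855594) (nat_lit 304) (nat_lit 669727745) (nat_lit 380) (nat_lit 10265058615) (nat_lit 105) (nat_lit 5) (nat_lit 109) (nat_lit 5) (nat_lit 110) (nat_lit 5) (nat_lit 634) (nat_lit 529) (nat_lit 397)) (XT.lf (nat_lit 0) (nat_lit 11060993677) (nat_lit 380) (nat_lit 600319044) (nat_lit 76) (nat_lit 5316545395) (nat_lit 105) (nat_lit 5) (nat_lit 110) (nat_lit 5) (nat_lit 106) (nat_lit 5) (nat_lit 635) (nat_lit 529) (nat_lit 396)))))) (XT.nd (nat_lit 468) (nat_lit 1064) (nat_lit 0) (XT.nd (nat_lit 234) (nat_lit 608) (nat_lit 0) (XT.nd (nat_lit 78) (nat_lit 380) (nat_lit 0) (XT.lf (nat_lit 0) (nat_lit 10042063036) (nat_lit 228) (nat_lit 5721339758) (nat_lit 304) (nat_lit 1426779869) (nat_lit 102) (nat_lit 5) (nat_lit 105) (nat_lit 5) (nat_lit 106) (nat_lit 5) (nat_lit 636) (nat_lit 529) (nat_lit 395)) (XT.nd (nat_lit 78) (nat_lit 0) (nat_lit 0) (XT.lf (nat_lit 0) (nat_lit 3125208689) (nat_lit 380) (nat_lit 13910507239) (nat_lit 76) (nat_lit 370360246)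 (nat_lit 97) (nat_lit 5) (nat_lit 102) (nat_lit 5) (nat_lit 98) (nat_lit 5) (nat_lit 637) (nat_lit 529) (nat_lit 394)) (XT.lf (nat_lit 0) (nat_lit 7819651376) (nat_lit 380) (nat_lit 3250114899) (nat_lit 76) (nat_lit 6554923294) (nat_lit 97) (nat_lit 5) (nat_lit 102) (nat_lit 5) (nat_lit 98) (nat_lit 5) (nat_lit 638) (nat_lit 529) (nat_lit 393)))) (XT.nd (nat_lit 78) (nat_lit 380) (nat_lit 0) (XT.lf (nat_lit 0) (nat_lit 7698813074) (nat_lit 228) (nat_lit 4943789078) (nat_lit 304) (nat_lit 5204381686) (nat_lit 94) (nat_lit 5) (nat_lit 97) (nat_lit 5) (nat_lit 98) (nat_lit 5) (nat_lit 639) (nat_lit 529) (nat_lit 392)) (XT.nd (nat_lit 78) (nat_lit 76) (nat_lit 0) (XT.lf (nat_lit 0) (nat_lit 813832170) (nat_lit 304) (nat_lit 16768591986) (nat_lit 380) (nat_lit 490892563) (nat_lit 90) (nat_lit 5) (nat_lit 94) (nat_lit 5) (nat_lit 95) (nat_lit 5) (nat_lit 640) (nat_lit 529) (nat_lit 391)) (XT.lf (nat_lit 0) (nat_lit 4346276305) (nat_lit 380) (nat_lit 6257145773) (nat_lit 76)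 (nat_lit 7698474028) (nat_lit 89) (nat_lit 5) (nat_lit 94) (nat_lit 5) (nat_lit 90) (nat_lit 5) (nat_lit 641) (nat_lit 529) (nat_lit 390))))) (XT.nd (nat_lit 234) (nat_lit 532) (nat_lit 0) (XT.nd (nat_lit 78) (nat_lit 304) (nat_lit 0) (XT.lf (nat_lit 0) (nat_lit 5002351935) (nat_lit 228) (nat_lit 4288783160) (nat_lit 304) (nat_lit 9243497613) (nat_lit 86) (nat_lit 5) (nat_lit 89) (nat_lit 5) (nat_lit 90) (nat_lit 5) (nat_lit 642) (nat_lit 529) (nat_lit 389)) (XT.nd (nat_lit 78) (nat_lit 304) (nat_lit 0) (XT.lf (nat_lit 0) (nat_lit 14376230023) (nat_lit 304) (nat_lit 2238887313) (nat_lit 76) (nat_lit 2156080826) (nat_lit 86) (nat_lit 5) (nat_lit 90) (nat_lit 5) (nat_lit 87) (nat_lit 5) (nat_lit 643) (nat_lit 529) (nat_lit 388)) (XT.lf (nat_lit 0) (nat_lit 618302779) (nat_lit 304) (nat_lit 9665290451) (nat_lit 76) (nat_lit 8727331246) (nat_lit 82) (nat_lit 5) (nat_lit 86) (nat_lit 5) (nat_lit 83) (nat_lit 5) (nat_lit 644) (nat_lit 529) (nat_lit 387)))) (XT.nd (nat_lit 156)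 (nat_lit 304) (nat_lit 0) (XT.nd (nat_lit 78) (nat_lit 0) (nat_lit 0) (XT.lf (nat_lit 0) (nat_lit 1908024742) (nat_lit 228) (nat_lit 3777953329) (nat_lit 304) (nat_lit 13568627325) (nat_lit 79) (nat_lit 5) (nat_lit 82) (nat_lit 5) (nat_lit 83) (nat_lit 5) (nat_lit 645) (nat_lit 529) (nat_lit 386)) (XT.lf (nat_lit 0) (nat_lit 10924330341) (nat_lit 304) (nat_lit 5701929034) (nat_lit 76) (nat_lit 2875514921) (nat_lit 79) (nat_lit 5) (nat_lit 83) (nat_lit 5) (nat_lit 80) (nat_lit 5) (nat_lit 646) (nat_lit 529) (nat_lit 385))) (XT.nd (nat_lit 78) (nat_lit 76) (nat_lit 0) (XT.lf (nat_lit 0) (nat_lit 6207594266) (nat_lit 228) (nat_lit 10110943495) (nat_lit 304) (nat_lit 3434327863) (nat_lit 76) (nat_lit 5) (nat_lit 79) (nat_lit 5) (nat_lit 80) (nat_lit 5) (nat_lit 647) (nat_lit 529) (nat_lit 384)) (XT.lf (nat_lit 0) (nat_lit 1812198888) (nat_lit 304) (nat_lit 1612074650) (nat_lit 76) (nat_lit 16583984606) (nat_lit 75) (nat_lit 5) (nat_lit 79) (nat_lit 5) (nat_lit 76) (nat_lit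 5) (nat_lit 648) (nat_lit 529) (nat_lit 383))))))))
noncomputable def xc107 : XT := (XT.nd (nat_lit 73632) (nat_lit 0) (nat_lit 22496) (XT.nd (nat_lit 72618) (nat_lit 0) (nat_lit 41800) (XT.nd (nat_lit 72150) (nat_lit 0) (nat_lit 45904) (XT.nd (nat_lit 71916) (nat_lit 0) (nat_lit 47576) (XT.nd (nat_lit 78) (nat_lit 228) (nat_lit 0) (XT.lf (nat_lit 0) (nat_lit 7195542631) (nat_lit 304) (nat_lit 9637002941) (nat_lit 76) (nat_lit 3434202248) (nat_lit 72) (nat_lit 5) (nat_lit 76) (nat_lit 5) (nat_lit 73) (nat_lit 5) (nat_lit 649) (nat_lit 529) (nat_lit 382)) (XT.nd (nat_lit 78) (nat_lit 0) (nat_lit 0) (XT.lf (nat_lit 0) (nat_lit 2595331688) (nat_lit 228) (nat_lit 10127763344) (nat_lit 304) (nat_lit 7806582175) (nat_lit 69) (nat_lit 5) (nat_lit 72) (nat_lit 5) (nat_lit 73) (nat_lit 5) (nat_lit 650) (nat_lit 529) (nat_lit 381)) (XT.lf (nat_lit 0) (nat_lit 15179083575) (nat_lit 228) (nat_lit 3233025761) (nat_lit 304) (nat_lit 2384738363) (nat_lit 69) (nat_lit 5) (nat_lit 72)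 (nat_lit 5) (nat_lit 73) (nat_lit 5) (nat_lit 651) (nat_lit 529) (nat_lit 380)))) (XT.nd (nat_lit 78) (nat_lit 760) (nat_lit 0) (XT.lf (nat_lit 0) (nat_lit 682529043) (nat_lit 0) (nat_lit 682529043) (nat_lit 684) (nat_lit 1951497867) (nat_lit 705) (nat_lit 5) (nat_lit 705) (nat_lit 3) (nat_lit 714) (nat_lit 3) (nat_lit 530) (nat_lit 530) (nat_lit 500)) (XT.nd (nat_lit 78) (nat_lit 760) (nat_lit 0) (XT.lf (nat_lit 0) (nat_lit 4664373942) (nat_lit 0) (nat_lit 394058750) (nat_lit 684) (nat_lit 1594442225) (nat_lit 705) (nat_lit 5) (nat_lit 705) (nat_lit 3) (nat_lit 714) (nat_lit 3) (nat_lit 531) (nat_lit 530) (nat_lit 499)) (XT.lf (nat_lit 0) (nat_lit 702385110) (nat_lit 760) (nat_lit 5339887428) (nat_lit 836) (nat_lit 631634531) (nat_lit 695) (nat_lit 5) (nat_lit 705) (nat_lit 5) (nat_lit 706) (nat_lit 5) (nat_lit 532) (nat_lit 530) (nat_lit 498))))) (XT.nd (nat_lit 234) (nat_lit 836) (nat_lit 0) (XT.nd (nat_lit 78) (nat_lit 836) (nat_lit 0) (XT.lf (nat_lit 0) (nat_lit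 2980270738) (nat_lit 760) (nat_lit 1990598450) (nat_lit 836) (nat_lit 1725164278) (nat_lit 695) (nat_lit 5) (nat_lit 705) (nat_lit 5) (nat_lit 706) (nat_lit 5) (nat_lit 533) (nat_lit 530) (nat_lit 497)) (XT.nd (nat_lit 78) (nat_lit 836) (nat_lit 0) (XT.lf (nat_lit 76) (nat_lit 1412641057) (nat_lit 0) (nat_lit 3841822716) (nat_lit 836) (nat_lit 1465137162) (nat_lit 696) (nat_lit 5) (nat_lit 695) (nat_lit 5) (nat_lit 706) (nat_lit 5) (nat_lit 534) (nat_lit 530) (nat_lit 496)) (XT.lf (nat_lit 0) (nat_lit 775181257) (nat_lit 836) (nat_lit 1870061553) (nat_lit 912) (nat_lit 4099190665) (nat_lit 684) (nat_lit 5) (nat_lit 695) (nat_lit 5) (nat_lit 696) (nat_lit 5) (nat_lit 535) (nat_lit 530) (nat_lit 495)))) (XT.nd (nat_lit 78) (nat_lit 836) (nat_lit 0) (XT.lf (nat_lit 76) (nat_lit 1615553476) (nat_lit 0) (nat_lit 1378902833) (nat_lit 912) (nat_lit 3776050057) (nat_lit 685) (nat_lit 5) (nat_lit 684) (nat_lit 5) (nat_lit 696) (nat_lit 5) (nat_lit 536) (nat_lit 530) (nat_lit 494))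 (XT.nd (nat_lit 78) (nat_lit 836) (nat_lit 0) (XT.lf (nat_lit 76) (nat_lit 5164930623) (nat_lit 0) (nat_lit 49905519) (nat_lit 912) (nat_lit 1583142694) (nat_lit 685) (nat_lit 5) (nat_lit 684) (nat_lit 5) (nat_lit 696) (nat_lit 5) (nat_lit 537) (nat_lit 530) (nat_lit 493)) (XT.lf (nat_lit 0) (nat_lit 611339078) (nat_lit 912) (nat_lit 4886335277) (nat_lit 988) (nat_lit 1328927777) (nat_lit 673) (nat_lit 5) (nat_lit 685) (nat_lit 5) (nat_lit 686) (nat_lit 5) (nat_lit 538) (nat_lit 530) (nat_lit 492)))))) (XT.nd (nat_lit 468) (nat_lit 3116) (nat_lit 0) (XT.nd (nat_lit 234) (nat_lit 0) (nat_lit 76) (XT.nd (nat_lit 78) (nat_lit 988) (nat_lit 0) (XT.lf (nat_lit 0) (nat_lit 2785811253) (nat_lit 912) (nat_lit 1291750643) (nat_lit 988) (nat_lit 2778892513) (nat_lit 673) (nat_lit 5) (nat_lit 685) (nat_lit 5) (nat_lit 686) (nat_lit 5) (nat_lit 539) (nat_lit 530) (nat_lit 491)) (XT.nd (nat_lit 78) (nat_lit 988) (nat_lit 0) (XT.lf (nat_lit 76) (nat_lit 2374029065) (nat_lit 0) (nat_lit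 2592135564) (nat_lit 988) (nat_lit 1921502825) (nat_lit 674) (nat_lit 5) (nat_lit 673) (nat_lit 5) (nat_lit 686) (nat_lit 5) (nat_lit 540) (nat_lit 530) (nat_lit 490)) (XT.lf (nat_lit 0) (nat_lit 223252332) (nat_lit 988) (nat_lit 822843865) (nat_lit 1064) (nat_lit 5874260904) (nat_lit 660) (nat_lit 5) (nat_lit 673) (nat_lit 5) (nat_lit 674) (nat_lit 5) (nat_lit 541) (nat_lit 530) (nat_lit 489)))) (XT.nd (nat_lit 78) (nat_lit 0) (nat_lit 0) (XT.lf (nat_lit 0) (nat_lit 2356530877) (nat_lit 988) (nat_lit 4022044777) (nat_lit 1064) (nat_lit 575454609) (nat_lit 661) (nat_lit 5) (nat_lit 674) (nat_lit 5) (nat_lit 675) (nat_lit 5) (nat_lit 542) (nat_lit 530) (nat_lit 488)) (XT.nd (nat_lit 78) (nat_lit 0) (nat_lit 0) (XT.lf (nat_lit 0) (nat_lit 4494377279) (nat_lit 988) (nat_lit 254805047) (nat_lit 1064) (nat_lit 2239967194) (nat_lit 661) (nat_lit 5) (nat_lit 674) (nat_lit 5) (nat_lit 675) (nat_lit 5) (nat_lit 543) (nat_lit 530) (nat_lit 487)) (XT.lf (nat_lit 76) (nat_lit 3603034387)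 (nat_lit 0) (nat_lit 3045747563) (nat_lit 1064) (nat_lit 376723652) (nat_lit 662) (nat_lit 5) (nat_lit 661) (nat_lit 5) (nat_lit 675) (nat_lit 5) (nat_lit 544) (nat_lit 530) (nat_lit 486))))) (XT.nd (nat_lit 234) (nat_lit 2128) (nat_lit 0) (XT.nd (nat_lit 78) (nat_lit 0) (nat_lit 76) (XT.lf (nat_lit 76) (nat_lit 440664779) (nat_lit 0) (nat_lit 1275050626) (nat_lit 1140) (nat_lit 5347543386) (nat_lit 648) (nat_lit 5) (nat_lit 647) (nat_lit 5) (nat_lit 662) (nat_lit 5) (nat_lit 545) (nat_lit 530) (nat_lit 485)) (XT.nd (nat_lit 78) (nat_lit 0) (nat_lit 0) (XT.lf (nat_lit 0) (nat_lit 3823230431) (nat_lit 1064) (nat_lit 2713268464) (nat_lit 1140) (nat_lit 565662780) (nat_lit 648) (nat_lit 5) (nat_lit 662) (nat_lit 5) (nat_lit 663) (nat_lit 5) (nat_lit 546) (nat_lit 530) (nat_lit 484)) (XT.lf (nat_lit 76) (nat_lit 1249518791) (nat_lit 0) (nat_lit 4692580894) (nat_lit 1140) (nat_lit 1200368522) (nat_lit 649) (nat_lit 5) (nat_lit 648) (nat_lit 5) (nat_lit 663) (nat_lit 5) (nat_lit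 547) (nat_lit 530) (nat_lit 483)))) (XT.nd (nat_lit 156) (nat_lit 1064) (nat_lit 0) (XT.nd (nat_lit 78) (nat_lit 0) (nat_lit 0) (XT.lf (nat_lit 0) (nat_lit 879077364) (nat_lit 1140) (nat_lit 1894054945) (nat_lit 1216) (nat_lit 4410910924) (nat_lit 633) (nat_lit 5) (nat_lit 648) (nat_lit 5) (nat_lit 649) (nat_lit 5) (nat_lit 548) (nat_lit 530) (nat_lit 482)) (XT.lf (nat_lit 76) (nat_lit 2172928281) (nat_lit 0) (nat_lit 779201482) (nat_lit 1216) (nat_lit 4274808612) (nat_lit 634) (nat_lit 5) (nat_lit 633) (nat_lit 5) (nat_lit 649) (nat_lit 5) (nat_lit 549) (nat_lit 530) (nat_lit 481))) (XT.nd (nat_lit 78) (nat_lit 1140) (nat_lit 0) (XT.lf (nat_lit 0) (nat_lit 5042329174) (nat_lit 1140) (nat_lit 964967027) (nat_lit 76) (nat_lit 1263890432) (nat_lit 634) (nat_lit 5) (nat_lit 649) (nat_lit 5) (nat_lit 635) (nat_lit 5) (nat_lit 550) (nat_lit 530) (nat_lit 480)) (XT.lf (nat_lit 0) (nat_lit 3210225313) (nat_lit 1140) (nat_lit 3945743718) (nat_lit 1216) (nat_lit 160726854) (nat_lit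 619) (nat_lit 5) (nat_lit 634) (nat_lit 5) (nat_lit 635) (nat_lit 5) (nat_lit 551) (nat_lit 530) (nat_lit 479))))))) (XT.nd (nat_lit 936) (nat_lit 8892) (nat_lit 0) (XT.nd (nat_lit 468) (nat_lit 6384) (nat_lit 0) (XT.nd (nat_lit 234) (nat_lit 1444) (nat_lit 0) (XT.nd (nat_lit 78) (nat_lit 1292) (nat_lit 0) (XT.lf (nat_lit 0) (nat_lit 74342605) (nat_lit 1216) (nat_lit 1811861521) (nat_lit 1292) (nat_lit 5477406636) (nat_lit 602) (nat_lit 5) (nat_lit 618) (nat_lit 5) (nat_lit 619) (nat_lit 5) (nat_lit 552) (nat_lit 530) (nat_lit 478)) (XT.nd (nat_lit 78) (nat_lit 1292) (nat_lit 0) (XT.lf (nat_lit 0) (nat_lit 3958744964) (nat_lit 1292) (nat_lit 3053771647) (nat_lit 76) (nat_lit 399197865) (nat_lit 602) (nat_lit 5) (nat_lit 619) (nat_lit 5) (nat_lit 603) (nat_lit 5) (nat_lit 553) (nat_lit 530) (nat_lit 477)) (XT.lf (nat_lit 0) (nat_lit 1237647680) (nat_lit 1292) (nat_lit 4812686807) (nat_lit 1368) (nat_lit 1410901910) (nat_lit 585) (nat_lit 5) (nat_lit 602) (nat_lit 5) (nat_lit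 603) (nat_lit 5) (nat_lit 554) (nat_lit 530) (nat_lit 476)))) (XT.nd (nat_lit 78) (nat_lit 1368) (nat_lit 0) (XT.lf (nat_lit 0) (nat_lit 641719183) (nat_lit 1368) (nat_lit 1892917727) (nat_lit 76) (nat_lit 4977461849) (nat_lit 584) (nat_lit 5) (nat_lit 602) (nat_lit 5) (nat_lit 585) (nat_lit 5) (nat_lit 555) (nat_lit 530) (nat_lit 475)) (XT.nd (nat_lit 78) (nat_lit 0) (nat_lit 0) (XT.lf (nat_lit 0) (nat_lit 2515295771) (nat_lit 1368) (nat_lit 176276627) (nat_lit 1444) (nat_lit 4872725641) (nat_lit 566) (nat_lit 5) (nat_lit 584) (nat_lit 5) (nat_lit 585) (nat_lit 5) (nat_lit 556) (nat_lit 530) (nat_lit 474)) (XT.lf (nat_lit 0) (nat_lit 4769057531) (nat_lit 1444) (nat_lit 627887272) (nat_lit 76) (nat_lit 2220871278) (nat_lit 566) (nat_lit 5) (nat_lit 585) (nat_lit 5) (nat_lit 567) (nat_lit 5) (nat_lit 557) (nat_lit 530) (nat_lit 473))))) (XT.nd (nat_lit 234) (nat_lit 3344) (nat_lit 0) (XT.nd (nat_lit 78) (nat_lit 1596) (nat_lit 0) (XT.lf (nat_lit 0) (nat_lit 3898897112)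 (nat_lit 1444) (nat_lit 2975847935) (nat_lit 1520) (nat_lit 797933714) (nat_lit 547) (nat_lit 5) (nat_lit 566) (nat_lit 5) (nat_lit 567) (nat_lit 5) (nat_lit 558) (nat_lit 530) (nat_lit 472)) (XT.nd (nat_lit 78) (nat_lit 0) (nat_lit 0) (XT.lf (nat_lit 0) (nat_lit 764737483) (nat_lit 1520) (nat_lit 481880738) (nat_lit 1596) (nat_lit 6482465890) (nat_lit 526) (nat_lit 5) (nat_lit 546) (nat_lit 5) (nat_lit 547) (nat_lit 5) (nat_lit 559) (nat_lit 530) (nat_lit 471)) (XT.lf (nat_lit 0) (nat_lit 3321341987) (nat_lit 1596) (nat_lit 2393415216) (nat_lit 76) (nat_lit 2071762480) (nat_lit 526) (nat_lit 5) (nat_lit 547) (nat_lit 5) (nat_lit 527) (nat_lit 5) (nat_lit 560) (nat_lit 530) (nat_lit 470)))) (XT.nd (nat_lit 78) (nat_lit 1748) (nat_lit 0) (XT.lf (nat_lit 0) (nat_lit 2262429410) (nat_lit 1596) (nat_lit 3154850211) (nat_lit 1672) (nat_lit 2428236729) (nat_lit 505) (nat_lit 5) (nat_lit 526) (nat_lit 5) (nat_lit 527) (nat_lit 5) (nat_lit 561) (nat_lit 530) (nat_lit 469)) (XT.nd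 (nat_lit 78) (nat_lit 1748) (nat_lit 0) (XT.lf (nat_lit 0) (nat_lit 7011065001) (nat_lit 1596) (nat_lit 522506518) (nat_lit 1672) (nat_lit 372559360) (nat_lit 505) (nat_lit 5) (nat_lit 526) (nat_lit 5) (nat_lit 527) (nat_lit 5) (nat_lit 562) (nat_lit 530) (nat_lit 468)) (XT.lf (nat_lit 0) (nat_lit 1704072769) (nat_lit 1748) (nat_lit 4088324362) (nat_lit 76) (nat_lit 2175293954) (nat_lit 482) (nat_lit 5) (nat_lit 505) (nat_lit 5) (nat_lit 483) (nat_lit 5) (nat_lit 563) (nat_lit 530) (nat_lit 467)))))) (XT.nd (nat_lit 468) (nat_lit 3496) (nat_lit 0) (XT.nd (nat_lit 234) (nat_lit 1976) (nat_lit 0) (XT.nd (nat_lit 78) (nat_lit 1672) (nat_lit 0) (XT.lf (nat_lit 0) (nat_lit 701108213) (nat_lit 1748) (nat_lit 3093610499) (nat_lit 1824) (nat_lit 4236171390) (nat_lit 459) (nat_lit 5) (nat_lit 482) (nat_lit 5) (nat_lit 483) (nat_lit 5) (nat_lit 564) (nat_lit 530) (nat_lit 466)) (XT.nd (nat_lit 78) (nat_lit 1672) (nat_lit 0) (XT.lf (nat_lit 0) (nat_lit 5608787984) (nat_lit 1748)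 (nat_lit 309734489) (nat_lit 1824) (nat_lit 2177009861) (nat_lit 459) (nat_lit 5) (nat_lit 482) (nat_lit 5) (nat_lit 483) (nat_lit 5) (nat_lit 565) (nat_lit 530) (nat_lit 465)) (XT.lf (nat_lit 0) (nat_lit 2435625260) (nat_lit 1672) (nat_lit 5646053668) (nat_lit 1748) (nat_lit 79856962) (nat_lit 437) (nat_lit 5) (nat_lit 459) (nat_lit 5) (nat_lit 460) (nat_lit 5) (nat_lit 566) (nat_lit 530) (nat_lit 464)))) (XT.nd (nat_lit 78) (nat_lit 1900) (nat_lit 0) (XT.lf (nat_lit 0) (nat_lit 2015961866) (nat_lit 1748) (nat_lit 787208869) (nat_lit 76) (nat_lit 5425752558) (nat_lit 436) (nat_lit 5) (nat_lit 459) (nat_lit 5) (nat_lit 437) (nat_lit 5) (nat_lit 567) (nat_lit 530) (nat_lit 463)) (XT.nd (nat_lit 78) (nat_lit 912) (nat_lit 0) (XT.lf (nat_lit 0) (nat_lit 4146768260) (nat_lit 1064) (nat_lit 4025481265) (nat_lit 76) (nat_lit 125521219) (nat_lit 423) (nat_lit 5) (nat_lit 437) (nat_lit 5) (nat_lit 424) (nat_lit 5) (nat_lit 568) (nat_lit 530) (nat_lit 462)) (XT.lf (nat_lit 0)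 (nat_lit 1037639740) (nat_lit 912) (nat_lit 5279213833) (nat_lit 988) (nat_lit 2051213868) (nat_lit 411) (nat_lit 5) (nat_lit 423) (nat_lit 5) (nat_lit 424) (nat_lit 5) (nat_lit 569) (nat_lit 530) (nat_lit 461))))) (XT.nd (nat_lit 234) (nat_lit 2508) (nat_lit 0) (XT.nd (nat_lit 78) (nat_lit 912) (nat_lit 0) (XT.lf (nat_lit 0) (nat_lit 82843663) (nat_lit 988) (nat_lit 2216771965) (nat_lit 76) (nat_lit 6140278802) (nat_lit 410) (nat_lit 5) (nat_lit 423) (nat_lit 5) (nat_lit 411) (nat_lit 5) (nat_lit 570) (nat_lit 530) (nat_lit 460)) (XT.nd (nat_lit 78) (nat_lit 0) (nat_lit 0) (XT.lf (nat_lit 0) (nat_lit 2223522137) (nat_lit 988) (nat_lit 5526083079) (nat_lit 76) (nat_lit 763458697) (nat_lit 398) (nat_lit 5) (nat_lit 411) (nat_lit 5) (nat_lit 399) (nat_lit 5) (nat_lit 571) (nat_lit 530) (nat_lit 459)) (XT.lf (nat_lit 0) (nat_lit 4404586364) (nat_lit 988) (nat_lit 311023497) (nat_lit 76) (nat_lit 3872140609) (nat_lit 398) (nat_lit 5) (nat_lit 411) (nat_lit 5) (nat_lit 399)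 (nat_lit 5) (nat_lit 572) (nat_lit 530) (nat_lit 458)))) (XT.nd (nat_lit 156) (nat_lit 760) (nat_lit 0) (XT.nd (nat_lit 78) (nat_lit 912) (nat_lit 0) (XT.lf (nat_lit 0) (nat_lit 5041959473) (nat_lit 836) (nat_lit 1588056699) (nat_lit 912) (nat_lit 2033904734) (nat_lit 387) (nat_lit 5) (nat_lit 398) (nat_lit 5) (nat_lit 399) (nat_lit 5) (nat_lit 573) (nat_lit 530) (nat_lit 457)) (XT.lf (nat_lit 0) (nat_lit 148455403) (nat_lit 912) (nat_lit 6998568317) (nat_lit 76) (nat_lit 1594731458) (nat_lit 375) (nat_lit 5) (nat_lit 387) (nat_lit 5) (nat_lit 376) (nat_lit 5) (nat_lit 574) (nat_lit 530) (nat_lit 456))) (XT.nd (nat_lit 78) (nat_lit 760) (nat_lit 0) (XT.lf (nat_lit 0) (nat_lit 2350854546) (nat_lit 912) (nat_lit 1613199862) (nat_lit 76) (nat_lit 4856755071) (nat_lit 375) (nat_lit 5) (nat_lit 387) (nat_lit 5) (nat_lit 376) (nat_lit 5) (nat_lit 575) (nat_lit 530) (nat_lit 455)) (XT.lf (nat_lit 0) (nat_lit 3898528280) (nat_lit 760) (nat_lit 693317741) (nat_lit 836) (nat_lit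 4309712606) (nat_lit 365) (nat_lit 5) (nat_lit 375) (nat_lit 5) (nat_lit 376) (nat_lit 5) (nat_lit 576) (nat_lit 530) (nat_lit 454))))))))
noncomputable def xc108 : XT := (XT.nd (nat_lit 1950) (nat_lit 6916) (nat_lit 0) (XT.nd (nat_lit 936) (nat_lit 5472) (nat_lit 0) (XT.nd (nat_lit 468) (nat_lit 2204) (nat_lit 0) (XT.nd (nat_lit 234) (nat_lit 1520) (nat_lit 0) (XT.nd (nat_lit 78) (nat_lit 836) (nat_lit 0) (XT.lf (nat_lit 0) (nat_lit 515316157) (nat_lit 836) (nat_lit 6363357134) (nat_lit 912) (nat_lit 2105233704) (nat_lit 354) (nat_lit 5) (nat_lit 365) (nat_lit 5) (nat_lit 366) (nat_lit 5) (nat_lit 577) (nat_lit 530) (nat_lit 453)) (XT.nd (nat_lit 78) (nat_lit 760) (nat_lit 0) (XT.lf (nat_lit 0) (nat_lit 149636513) (nat_lit 912) (nat_lit 2894181607) (nat_lit 76) (nat_lit 6023906345) (nat_lit 353) (nat_lit 5) (nat_lit 365) (nat_lit 5) (nat_lit 354) (nat_lit 5) (nat_lit 578) (nat_lit 530) (nat_lit 452)) (XT.lf (nat_lit 0) (nat_lit 2412305118) (nat_lit 836) (nat_lit 6373736578)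 (nat_lit 76) (nat_lit 367084768) (nat_lit 343) (nat_lit 5) (nat_lit 354) (nat_lit 5) (nat_lit 344) (nat_lit 5) (nat_lit 579) (nat_lit 530) (nat_lit 451)))) (XT.nd (nat_lit 78) (nat_lit 1520) (nat_lit 0) (XT.lf (nat_lit 0) (nat_lit 4730674455) (nat_lit 836) (nat_lit 687232061) (nat_lit 76) (nat_lit 3822125250) (nat_lit 343) (nat_lit 5) (nat_lit 354) (nat_lit 5) (nat_lit 344) (nat_lit 5) (nat_lit 580) (nat_lit 530) (nat_lit 450)) (XT.nd (nat_lit 78) (nat_lit 760) (nat_lit 0) (XT.lf (nat_lit 0) (nat_lit 5148405361) (nat_lit 760) (nat_lit 1951745937) (nat_lit 836) (nat_lit 2228433200) (nat_lit 333) (nat_lit 5) (nat_lit 343) (nat_lit 5) (nat_lit 344) (nat_lit 5) (nat_lit 581) (nat_lit 530) (nat_lit 449)) (XT.lf (nat_lit 0) (nat_lit 94217123) (nat_lit 760) (nat_lit 7749190068) (nat_lit 76) (nat_lit 1575544431) (nat_lit 323) (nat_lit 5) (nat_lit 333) (nat_lit 5) (nat_lit 324) (nat_lit 5) (nat_lit 582) (nat_lit 530) (nat_lit 448))))) (XT.nd (nat_lit 234) (nat_lit 760) (nat_lit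 0) (XT.nd (nat_lit 78) (nat_lit 1444) (nat_lit 0) (XT.lf (nat_lit 0) (nat_lit 2446474657) (nat_lit 760) (nat_lit 1877690331) (nat_lit 76) (nat_lit 5186410532) (nat_lit 323) (nat_lit 5) (nat_lit 333) (nat_lit 5) (nat_lit 324) (nat_lit 5) (nat_lit 583) (nat_lit 530) (nat_lit 447)) (XT.nd (nat_lit 78) (nat_lit 684) (nat_lit 0) (XT.lf (nat_lit 0) (nat_lit 4133469536) (nat_lit 760) (nat_lit 711500512) (nat_lit 836) (nat_lit 4759081808) (nat_lit 313) (nat_lit 5) (nat_lit 323) (nat_lit 5) (nat_lit 324) (nat_lit 5) (nat_lit 584) (nat_lit 530) (nat_lit 446)) (XT.lf (nat_lit 0) (nat_lit 546648424) (nat_lit 684) (nat_lit 6752987543) (nat_lit 760) (nat_lit 2399601476) (nat_lit 304) (nat_lit 5) (nat_lit 313) (nat_lit 5) (nat_lit 314) (nat_lit 5) (nat_lit 585) (nat_lit 530) (nat_lit 445)))) (XT.nd (nat_lit 78) (nat_lit 684) (nat_lit 0) (XT.lf (nat_lit 0) (nat_lit 21448832) (nat_lit 760) (nat_lit 3074658620) (nat_lit 76) (nat_lit 6699932502) (nat_lit 303) (nat_lit 5) (nat_lit 313) (nat_lit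 5) (nat_lit 304) (nat_lit 5) (nat_lit 586) (nat_lit 530) (nat_lit 444)) (XT.nd (nat_lit 78) (nat_lit 0) (nat_lit 0) (XT.lf (nat_lit 0) (nat_lit 2456726181) (nat_lit 760) (nat_lit 6780889684) (nat_lit 76) (nat_lit 656890213) (nat_lit 294) (nat_lit 5) (nat_lit 304) (nat_lit 5) (nat_lit 295) (nat_lit 5) (nat_lit 587) (nat_lit 530) (nat_lit 443)) (XT.lf (nat_lit 0) (nat_lit 4955606488) (nat_lit 760) (nat_lit 579929672) (nat_lit 76) (nat_lit 4459110867) (nat_lit 294) (nat_lit 5) (nat_lit 304) (nat_lit 5) (nat_lit 295) (nat_lit 5) (nat_lit 588) (nat_lit 530) (nat_lit 442)))))) (XT.nd (nat_lit 468) (nat_lit 2888) (nat_lit 0) (XT.nd (nat_lit 234) (nat_lit 1216) (nat_lit 0) (XT.nd (nat_lit 78) (nat_lit 760) (nat_lit 0) (XT.lf (nat_lit 0) (nat_lit 5789514518) (nat_lit 608) (nat_lit 1726680598) (nat_lit 684) (nat_lit 2580364454) (nat_lit 286) (nat_lit 5) (nat_lit 294) (nat_lit 5) (nat_lit 295) (nat_lit 5) (nat_lit 589) (nat_lit 530) (nat_lit 441)) (XT.nd (nat_lit 78) (nat_lit 76)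 (nat_lit 0) (XT.lf (nat_lit 0) (nat_lit 2075217882) (nat_lit 684) (nat_lit 8058590576) (nat_lit 760) (nat_lit 66588963) (nat_lit 277) (nat_lit 5) (nat_lit 286) (nat_lit 5) (nat_lit 287) (nat_lit 5) (nat_lit 590) (nat_lit 530) (nat_lit 440)) (XT.lf (nat_lit 0) (nat_lit 2479771060) (nat_lit 760) (nat_lit 1721935064) (nat_lit 76) (nat_lit 6103983518) (nat_lit 276) (nat_lit 5) (nat_lit 286) (nat_lit 5) (nat_lit 277) (nat_lit 5) (nat_lit 591) (nat_lit 530) (nat_lit 439)))) (XT.nd (nat_lit 78) (nat_lit 608) (nat_lit 0) (XT.lf (nat_lit 0) (nat_lit 4841182436) (nat_lit 608) (nat_lit 241451310) (nat_lit 684) (nat_lit 5330318945) (nat_lit 268) (nat_lit 5) (nat_lit 276) (nat_lit 5) (nat_lit 277) (nat_lit 5) (nat_lit 592) (nat_lit 530) (nat_lit 438)) (XT.nd (nat_lit 78) (nat_lit 0) (nat_lit 0) (XT.lf (nat_lit 0) (nat_lit 993575241) (nat_lit 608) (nat_lit 6762000998) (nat_lit 684) (nat_lit 2766427377) (nat_lit 260) (nat_lit 5) (nat_lit 268) (nat_lit 5) (nat_lit 269) (nat_lit 5) (nat_lit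 593) (nat_lit 530) (nat_lit 437)) (XT.lf (nat_lit 0) (nat_lit 7732847760) (nat_lit 608) (nat_lit 2763670185) (nat_lit 684) (nat_lit 136429814) (nat_lit 260) (nat_lit 5) (nat_lit 268) (nat_lit 5) (nat_lit 269) (nat_lit 5) (nat_lit 594) (nat_lit 530) (nat_lit 436))))) (XT.nd (nat_lit 234) (nat_lit 1672) (nat_lit 0) (XT.nd (nat_lit 78) (nat_lit 608) (nat_lit 0) (XT.lf (nat_lit 0) (nat_lit 2522507894) (nat_lit 608) (nat_lit 6890586670) (nat_lit 76) (nat_lit 1332493808) (nat_lit 252) (nat_lit 5) (nat_lit 260) (nat_lit 5) (nat_lit 253) (nat_lit 5) (nat_lit 595) (nat_lit 530) (nat_lit 435)) (XT.nd (nat_lit 78) (nat_lit 608) (nat_lit 0) (XT.lf (nat_lit 0) (nat_lit 5246799675) (nat_lit 608) (nat_lit 126137523) (nat_lit 76) (nat_lit 5487249355) (nat_lit 252) (nat_lit 5) (nat_lit 260) (nat_lit 5) (nat_lit 253) (nat_lit 5) (nat_lit 596) (nat_lit 530) (nat_lit 434)) (XT.lf (nat_lit 0) (nat_lit 6832596471) (nat_lit 608) (nat_lit 1213918914) (nat_lit 684) (nat_lit 2930145326) (nat_lit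 244) (nat_lit 5) (nat_lit 252) (nat_lit 5) (nat_lit 253) (nat_lit 5) (nat_lit 597) (nat_lit 530) (nat_lit 433)))) (XT.nd (nat_lit 156) (nat_lit 1064) (nat_lit 0) (XT.nd (nat_lit 78) (nat_lit 76) (nat_lit 0) (XT.lf (nat_lit 0) (nat_lit 2823296045) (nat_lit 532) (nat_lit 8094564820) (nat_lit 608) (nat_lit 177293503) (nat_lit 237) (nat_lit 5) (nat_lit 244) (nat_lit 5) (nat_lit 245) (nat_lit 5) (nat_lit 598) (nat_lit 530) (nat_lit 432)) (XT.lf (nat_lit 0) (nat_lit 2609039235) (nat_lit 608) (nat_lit 1285526552) (nat_lit 76) (nat_lit 7320854637) (nat_lit 236) (nat_lit 5) (nat_lit 244) (nat_lit 5) (nat_lit 237) (nat_lit 5) (nat_lit 599) (nat_lit 530) (nat_lit 431))) (XT.nd (nat_lit 78) (nat_lit 532) (nat_lit 0) (XT.lf (nat_lit 0) (nat_lit 5467029379) (nat_lit 608) (nat_lit 5454275024) (nat_lit 76) (nat_lit 416400430) (nat_lit 229) (nat_lit 5) (nat_lit 237) (nat_lit 5) (nat_lit 230) (nat_lit 5) (nat_lit 600) (nat_lit 530) (nat_lit 430)) (XT.lf (nat_lit 0) (nat_lit 1717065781)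 (nat_lit 532) (nat_lit 6688281521) (nat_lit 608) (nat_lit 3056626785) (nat_lit 222) (nat_lit 5) (nat_lit 229) (nat_lit 5) (nat_lit 230) (nat_lit 5) (nat_lit 601) (nat_lit 530) (nat_lit 429))))))) (XT.nd (nat_lit 936) (nat_lit 3344) (nat_lit 0) (XT.nd (nat_lit 468) (nat_lit 1900) (nat_lit 0) (XT.nd (nat_lit 234) (nat_lit 608) (nat_lit 0) (XT.nd (nat_lit 78) (nat_lit 1064) (nat_lit 0) (XT.lf (nat_lit 0) (nat_lit 9075434974) (nat_lit 532) (nat_lit 2341385168) (nat_lit 608) (nat_lit 171623278) (nat_lit 222) (nat_lit 5) (nat_lit 229) (nat_lit 5) (nat_lit 230) (nat_lit 5) (nat_lit 602) (nat_lit 530) (nat_lit 428)) (XT.nd (nat_lit 78) (nat_lit 456) (nat_lit 0) (XT.lf (nat_lit 0) (nat_lit 2758356364) (nat_lit 608) (nat_lit 6851249680) (nat_lit 76) (nat_lit 2107006247) (nat_lit 214) (nat_lit 5) (nat_lit 222) (nat_lit 5) (nat_lit 215) (nat_lit 5) (nat_lit 603) (nat_lit 530) (nat_lit 427)) (XT.lf (nat_lit 0) (nat_lit 538448917) (nat_lit 456) (nat_lit 5220427630) (nat_lit 532) (nat_lit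 6088162848) (nat_lit 208) (nat_lit 5) (nat_lit 214) (nat_lit 5) (nat_lit 215) (nat_lit 5) (nat_lit 604) (nat_lit 530) (nat_lit 426)))) (XT.nd (nat_lit 78) (nat_lit 608) (nat_lit 0) (XT.lf (nat_lit 0) (nat_lit 8138793646) (nat_lit 456) (nat_lit 705080078) (nat_lit 532) (nat_lit 3135714265) (nat_lit 208) (nat_lit 5) (nat_lit 214) (nat_lit 5) (nat_lit 215) (nat_lit 5) (nat_lit 605) (nat_lit 530) (nat_lit 425)) (XT.nd (nat_lit 78) (nat_lit 76) (nat_lit 0) (XT.lf (nat_lit 0) (nat_lit 3770686276) (nat_lit 532) (nat_lit 8248550156) (nat_lit 608) (nat_lit 94980043) (nat_lit 201) (nat_lit 5) (nat_lit 208) (nat_lit 5) (nat_lit 209) (nat_lit 5) (nat_lit 606) (nat_lit 530) (nat_lit 424)) (XT.lf (nat_lit 0) (nat_lit 2976691322) (nat_lit 608) (nat_lit 718808822) (nat_lit 76) (nat_lit 8555458039) (nat_lit 200) (nat_lit 5) (nat_lit 208) (nat_lit 5) (nat_lit 201) (nat_lit 5) (nat_lit 607) (nat_lit 530) (nat_lit 423))))) (XT.nd (nat_lit 234) (nat_lit 912) (nat_lit 0) (XT.nd (nat_lit 78)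 (nat_lit 532) (nat_lit 0) (XT.lf (nat_lit 0) (nat_lit 6140531976) (nat_lit 532) (nat_lit 5274442381) (nat_lit 76) (nat_lit 974809762) (nat_lit 194) (nat_lit 5) (nat_lit 201) (nat_lit 5) (nat_lit 195) (nat_lit 5) (nat_lit 608) (nat_lit 530) (nat_lit 422)) (XT.nd (nat_lit 78) (nat_lit 76) (nat_lit 0) (XT.lf (nat_lit 0) (nat_lit 2564293443) (nat_lit 456) (nat_lit 6828846907) (nat_lit 532) (nat_lit 3137738471) (nat_lit 188) (nat_lit 5) (nat_lit 194) (nat_lit 5) (nat_lit 195) (nat_lit 5) (nat_lit 609) (nat_lit 530) (nat_lit 421)) (XT.lf (nat_lit 0) (nat_lit 50750128) (nat_lit 532) (nat_lit 2072795806) (nat_lit 76) (nat_lit 10550942453) (nat_lit 187) (nat_lit 5) (nat_lit 194) (nat_lit 5) (nat_lit 188) (nat_lit 5) (nat_lit 610) (nat_lit 530) (nat_lit 420)))) (XT.nd (nat_lit 78) (nat_lit 456) (nat_lit 0) (XT.lf (nat_lit 0) (nat_lit 3297740597) (nat_lit 532) (nat_lit 6829964365) (nat_lit 76) (nat_lit 2692117389) (nat_lit 181) (nat_lit 5) (nat_lit 188) (nat_lit 5) (nat_lit 182)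 (nat_lit 5) (nat_lit 611) (nat_lit 530) (nat_lit 419)) (XT.nd (nat_lit 78) (nat_lit 0) (nat_lit 0) (XT.lf (nat_lit 0) (nat_lit 1247168241) (nat_lit 456) (nat_lit 5378800761) (nat_lit 532) (nat_lit 6341769936) (nat_lit 175) (nat_lit 5) (nat_lit 181) (nat_lit 5) (nat_lit 182) (nat_lit 5) (nat_lit 612) (nat_lit 530) (nat_lit 418)) (XT.lf (nat_lit 0) (nat_lit 9549506378) (nat_lit 456) (nat_lit 497425785) (nat_lit 532) (nat_lit 3071160159) (nat_lit 175) (nat_lit 5) (nat_lit 181) (nat_lit 5) (nat_lit 182) (nat_lit 5) (nat_lit 613) (nat_lit 530) (nat_lit 417)))))) (XT.nd (nat_lit 468) (nat_lit 1596) (nat_lit 0) (XT.nd (nat_lit 234) (nat_lit 836) (nat_lit 0) (XT.nd (nat_lit 78) (nat_lit 456) (nat_lit 0) (XT.lf (nat_lit 0) (nat_lit 302263188) (nat_lit 456) (nat_lit 8521660550) (nat_lit 76) (nat_lit 4446678937) (nat_lit 169) (nat_lit 5) (nat_lit 175) (nat_lit 5) (nat_lit 170) (nat_lit 5) (nat_lit 614) (nat_lit 530) (nat_lit 416)) (XT.nd (nat_lit 78) (nat_lit 456) (nat_lit 0) (XT.lf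 (nat_lit 0) (nat_lit 3710200255) (nat_lit 456) (nat_lit 197031684) (nat_lit 76) (nat_lit 9518363689) (nat_lit 169) (nat_lit 5) (nat_lit 175) (nat_lit 5) (nat_lit 170) (nat_lit 5) (nat_lit 615) (nat_lit 530) (nat_lit 415)) (XT.lf (nat_lit 0) (nat_lit 7229276944) (nat_lit 532) (nat_lit 5214719399) (nat_lit 76) (nat_lit 1138834207) (nat_lit 163) (nat_lit 5) (nat_lit 170) (nat_lit 5) (nat_lit 164) (nat_lit 5) (nat_lit 616) (nat_lit 530) (nat_lit 414)))) (XT.nd (nat_lit 78) (nat_lit 456) (nat_lit 0) (XT.lf (nat_lit 0) (nat_lit 3353829634) (nat_lit 380) (nat_lit 7495123353) (nat_lit 456) (nat_lit 2893654518) (nat_lit 158) (nat_lit 5) (nat_lit 163) (nat_lit 5) (nat_lit 164) (nat_lit 5) (nat_lit 617) (nat_lit 530) (nat_lit 413)) (XT.nd (nat_lit 78) (nat_lit 380) (nat_lit 0) (XT.lf (nat_lit 0) (nat_lit 643630360) (nat_lit 456) (nat_lit 1773180860) (nat_lit 76) (nat_lit 11488357458) (nat_lit 157) (nat_lit 5) (nat_lit 163) (nat_lit 5) (nat_lit 158) (nat_lit 5) (nat_lit 618) (nat_lit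 530) (nat_lit 412)) (XT.lf (nat_lit 0) (nat_lit 4258763315) (nat_lit 456) (nat_lit 7028018803) (nat_lit 76) (nat_lit 2782901041) (nat_lit 152) (nat_lit 5) (nat_lit 158) (nat_lit 5) (nat_lit 153) (nat_lit 5) (nat_lit 619) (nat_lit 530) (nat_lit 411))))) (XT.nd (nat_lit 234) (nat_lit 760) (nat_lit 0) (XT.nd (nat_lit 78) (nat_lit 456) (nat_lit 0) (XT.lf (nat_lit 0) (nat_lit 1799161187) (nat_lit 380) (nat_lit 6168483982) (nat_lit 456) (nat_lit 6269415400) (nat_lit 147) (nat_lit 5) (nat_lit 152) (nat_lit 5) (nat_lit 153) (nat_lit 5) (nat_lit 620) (nat_lit 530) (nat_lit 410)) (XT.nd (nat_lit 78) (nat_lit 456) (nat_lit 0) (XT.lf (nat_lit 0) (nat_lit 10870391840) (nat_lit 380) (nat_lit 909433256) (nat_lit 456) (nat_lit 2627379557) (nat_lit 147) (nat_lit 5) (nat_lit 152) (nat_lit 5) (nat_lit 153) (nat_lit 5) (nat_lit 621) (nat_lit 530) (nat_lit 409)) (XT.lf (nat_lit 0) (nat_lit 1120811147) (nat_lit 456) (nat_lit 9028414026) (nat_lit 76) (nat_lit 4430435166) (nat_lit 141) (nat_lit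 5) (nat_lit 147) (nat_lit 5) (nat_lit 142) (nat_lit 5) (nat_lit 622) (nat_lit 530) (nat_lit 408)))) (XT.nd (nat_lit 156) (nat_lit 456) (nat_lit 0) (XT.nd (nat_lit 78) (nat_lit 0) (nat_lit 0) (XT.lf (nat_lit 0) (nat_lit 63608733) (nat_lit 304) (nat_lit 4857839332) (nat_lit 380) (nat_lit 9833517918) (nat_lit 137) (nat_lit 5) (nat_lit 141) (nat_lit 5) (nat_lit 142) (nat_lit 5) (nat_lit 623) (nat_lit 530) (nat_lit 407)) (XT.lf (nat_lit 0) (nat_lit 8844994899) (nat_lit 380) (nat_lit 5504285709) (nat_lit 76) (nat_lit 583560606) (nat_lit 137) (nat_lit 5) (nat_lit 142) (nat_lit 5) (nat_lit 138) (nat_lit 5) (nat_lit 624) (nat_lit 530) (nat_lit 406))) (XT.nd (nat_lit 78) (nat_lit 76) (nat_lit 0) (XT.lf (nat_lit 0) (nat_lit 3857823813) (nat_lit 380) (nat_lit 9029161021) (nat_lit 456) (nat_lit 2226491061) (nat_lit 132) (nat_lit 5) (nat_lit 137) (nat_lit 5) (nat_lit 138) (nat_lit 5) (nat_lit 625) (nat_lit 530) (nat_lit 405)) (XT.lf (nat_lit 0) (nat_lit 1709620385) (nat_lit 456) (nat_lit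 1853737404) (nat_lit 76) (nat_lit 11733744825) (nat_lit 131) (nat_lit 5) (nat_lit 137) (nat_lit 5) (nat_lit 132) (nat_lit 5) (nat_lit 626) (nat_lit 530) (nat_lit 404))))))))
noncomputable def xc109 : XT := (XT.nd (nat_lit 73710) (nat_lit 0) (nat_lit 39140) (XT.nd (nat_lit 936) (nat_lit 2128) (nat_lit 0) (XT.nd (nat_lit 468) (nat_lit 1292) (nat_lit 0) (XT.nd (nat_lit 234) (nat_lit 684) (nat_lit 0) (XT.nd (nat_lit 78) (nat_lit 304) (nat_lit 0) (XT.lf (nat_lit 0) (nat_lit 5741863528) (nat_lit 380) (nat_lit 7699780171) (nat_lit 76) (nat_lit 2041520692) (nat_lit 127) (nat_lit 5) (nat_lit 132) (nat_lit 5) (nat_lit 128) (nat_lit 5) (nat_lit 627) (nat_lit 530) (nat_lit 403)) (XT.nd (nat_lit 78) (nat_lit 0) (nat_lit 0) (XT.lf (nat_lit 0) (nat_lit 1940706062) (nat_lit 304) (nat_lit 7946000867) (nat_lit 380) (nat_lit 5785602649) (nat_lit 123) (nat_lit 5) (nat_lit 127) (nat_lit 5) (nat_lit 128) (nat_lit 5) (nat_lit 628) (nat_lit 530) (nat_lit 402)) (XT.lf (nat_lit 0) (nat_lit 11851807079)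 (nat_lit 304) (nat_lit 2297700649) (nat_lit 380) (nat_lit 1715029988) (nat_lit 123) (nat_lit 5) (nat_lit 127) (nat_lit 5) (nat_lit 128) (nat_lit 5) (nat_lit 629) (nat_lit 530) (nat_lit 401)))) (XT.nd (nat_lit 78) (nat_lit 304) (nat_lit 0) (XT.lf (nat_lit 0) (nat_lit 2449926605) (nat_lit 380) (nat_lit 10146348638) (nat_lit 76) (nat_lit 3463121264) (nat_lit 118) (nat_lit 5) (nat_lit 123) (nat_lit 5) (nat_lit 119) (nat_lit 5) (nat_lit 630) (nat_lit 530) (nat_lit 400)) (XT.nd (nat_lit 78) (nat_lit 304) (nat_lit 0) (XT.lf (nat_lit 0) (nat_lit 6701257575) (nat_lit 380) (nat_lit 218985899) (nat_lit 76) (nat_lit 9337162670) (nat_lit 118) (nat_lit 5) (nat_lit 123) (nat_lit 5) (nat_lit 119) (nat_lit 5) (nat_lit 631) (nat_lit 530) (nat_lit 399)) (XT.lf (nat_lit 0) (nat_lit 10012400449) (nat_lit 304) (nat_lit 1074237158) (nat_lit 380) (nat_lit 5371759077) (nat_lit 114) (nat_lit 5) (nat_lit 118) (nat_lit 5) (nat_lit 119) (nat_lit 5) (nat_lit 632) (nat_lit 530) (nat_lit 398))))) (XT.nd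 (nat_lit 234) (nat_lit 608) (nat_lit 0) (XT.nd (nat_lit 78) (nat_lit 380) (nat_lit 0) (XT.lf (nat_lit 0) (nat_lit 3779906938) (nat_lit 304) (nat_lit 11821678069) (nat_lit 380) (nat_lit 1060985975) (nat_lit 110) (nat_lit 5) (nat_lit 114) (nat_lit 5) (nat_lit 115) (nat_lit 5) (nat_lit 633) (nat_lit 530) (nat_lit 397)) (XT.nd (nat_lit 78) (nat_lit 304) (nat_lit 0) (XT.lf (nat_lit 0) (nat_lit 3327044355) (nat_lit 380) (nat_lit 2627281975) (nat_lit 76) (nat_lit 10915374457) (nat_lit 109) (nat_lit 5) (nat_lit 114) (nat_lit 5) (nat_lit 110) (nat_lit 5) (nat_lit 634) (nat_lit 530) (nat_lit 396)) (XT.lf (nat_lit 0) (nat_lit 7824930274) (nat_lit 380) (nat_lit 9176243204) (nat_lit 76) (nat_lit 78934490) (nat_lit 105) (nat_lit 5) (nat_lit 110) (nat_lit 5) (nat_lit 106) (nat_lit 5) (nat_lit 635) (nat_lit 530) (nat_lit 395)))) (XT.nd (nat_lit 78) (nat_lit 380) (nat_lit 0) (XT.lf (nat_lit 0) (nat_lit 1339361721) (nat_lit 228) (nat_lit 11123813098) (nat_lit 304) (nat_lit 4830541508)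 (nat_lit 102) (nat_lit 5) (nat_lit 105) (nat_lit 5) (nat_lit 106) (nat_lit 5) (nat_lit 636) (nat_lit 530) (nat_lit 394)) (XT.nd (nat_lit 78) (nat_lit 380) (nat_lit 0) (XT.lf (nat_lit 0) (nat_lit 12164300993) (nat_lit 228) (nat_lit 5076124491) (nat_lit 304) (nat_lit 270247577) (nat_lit 102) (nat_lit 5) (nat_lit 105) (nat_lit 5) (nat_lit 106) (nat_lit 5) (nat_lit 637) (nat_lit 530) (nat_lit 393)) (XT.lf (nat_lit 0) (nat_lit 4351768240) (nat_lit 380) (nat_lit 12246156418) (nat_lit 76) (nat_lit 1132916805) (nat_lit 97) (nat_lit 5) (nat_lit 102) (nat_lit 5) (nat_lit 98) (nat_lit 5) (nat_lit 638) (nat_lit 530) (nat_lit 392)))))) (XT.nd (nat_lit 468) (nat_lit 1292) (nat_lit 0) (XT.nd (nat_lit 234) (nat_lit 228) (nat_lit 0) (XT.nd (nat_lit 78) (nat_lit 608) (nat_lit 0) (XT.lf (nat_lit 0) (nat_lit 9117275165) (nat_lit 380) (nat_lit 1410645661) (nat_lit 76) (nat_lit 7426364263) (nat_lit 97) (nat_lit 5) (nat_lit 102) (nat_lit 5) (nat_lit 98) (nat_lit 5) (nat_lit 639) (nat_lit 530)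 (nat_lit 391)) (XT.nd (nat_lit 78) (nat_lit 380) (nat_lit 0) (XT.lf (nat_lit 0) (nat_lit 9744731453) (nat_lit 228) (nat_lit 4281860173) (nat_lit 304) (nat_lit 4154636929) (nat_lit 94) (nat_lit 5) (nat_lit 97) (nat_lit 5) (nat_lit 98) (nat_lit 5) (nat_lit 640) (nat_lit 530) (nat_lit 390)) (XT.lf (nat_lit 0) (nat_lit 639502605) (nat_lit 380) (nat_lit 15689154701) (nat_lit 76) (nat_lit 2083448438) (nat_lit 89) (nat_lit 5) (nat_lit 94) (nat_lit 5) (nat_lit 90) (nat_lit 5) (nat_lit 641) (nat_lit 530) (nat_lit 389)))) (XT.nd (nat_lit 78) (nat_lit 228) (nat_lit 0) (XT.lf (nat_lit 0) (nat_lit 5544619590) (nat_lit 380) (nat_lit 4507515555) (nat_lit 76) (nat_lit 8593502483) (nat_lit 89) (nat_lit 5) (nat_lit 94) (nat_lit 5) (nat_lit 90) (nat_lit 5) (nat_lit 642) (nat_lit 530) (nat_lit 388)) (XT.nd (nat_lit 78) (nat_lit 0) (nat_lit 0) (XT.lf (nat_lit 0) (nat_lit 6964838073) (nat_lit 228) (nat_lit 3613837167) (nat_lit 304) (nat_lit 8304549062) (nat_lit 86) (nat_lit 5) (nat_lit 89)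 (nat_lit 5) (nat_lit 90) (nat_lit 5) (nat_lit 643) (nat_lit 530) (nat_lit 387)) (XT.lf (nat_lit 0) (nat_lit 15748712029) (nat_lit 304) (nat_lit 440918931) (nat_lit 76) (nat_lit 2935226614) (nat_lit 86) (nat_lit 5) (nat_lit 90) (nat_lit 5) (nat_lit 87) (nat_lit 5) (nat_lit 644) (nat_lit 530) (nat_lit 386))))) (XT.nd (nat_lit 234) (nat_lit 760) (nat_lit 0) (XT.nd (nat_lit 78) (nat_lit 228) (nat_lit 0) (XT.lf (nat_lit 0) (nat_lit 1713424438) (nat_lit 304) (nat_lit 8013521347) (nat_lit 76) (nat_lit 9642479206) (nat_lit 82) (nat_lit 5) (nat_lit 86) (nat_lit 5) (nat_lit 83) (nat_lit 5) (nat_lit 645) (nat_lit 530) (nat_lit 385)) (XT.nd (nat_lit 78) (nat_lit 0) (nat_lit 0) (XT.lf (nat_lit 0) (nat_lit 3779121500) (nat_lit 228) (nat_lit 3094001872) (nat_lit 304) (nat_lit 12745043987) (nat_lit 79) (nat_lit 5) (nat_lit 82) (nat_lit 5) (nat_lit 83) (nat_lit 5) (nat_lit 646) (nat_lit 530) (nat_lit 384)) (XT.lf (nat_lit 0) (nat_lit 12200029678) (nat_lit 304) (nat_lit 4002697848) (nat_lit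 76) (nat_lit 3667877579) (nat_lit 79) (nat_lit 5) (nat_lit 83) (nat_lit 5) (nat_lit 80) (nat_lit 5) (nat_lit 647) (nat_lit 530) (nat_lit 383)))) (XT.nd (nat_lit 156) (nat_lit 228) (nat_lit 0) (XT.nd (nat_lit 78) (nat_lit 304) (nat_lit 0) (XT.lf (nat_lit 0) (nat_lit 8133086512) (nat_lit 228) (nat_lit 9560000570) (nat_lit 304) (nat_lit 2433813046) (nat_lit 76) (nat_lit 5) (nat_lit 79) (nat_lit 5) (nat_lit 80) (nat_lit 5) (nat_lit 648) (nat_lit 530) (nat_lit 382)) (XT.lf (nat_lit 0) (nat_lit 137309405) (nat_lit 228) (nat_lit 2746513794) (nat_lit 304) (nat_lit 17503835564) (nat_lit 72) (nat_lit 5) (nat_lit 75) (nat_lit 5) (nat_lit 76) (nat_lit 5) (nat_lit 649) (nat_lit 530) (nat_lit 381))) (XT.nd (nat_lit 78) (nat_lit 228) (nat_lit 0) (XT.lf (nat_lit 0) (nat_lit 8369958350) (nat_lit 304) (nat_lit 8045878503) (nat_lit 76) (nat_lit 4235580005) (nat_lit 72) (nat_lit 5) (nat_lit 76) (nat_lit 5) (nat_lit 73) (nat_lit 5) (nat_lit 650) (nat_lit 530) (nat_lit 380)) (XT.lf (nat_lit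 0) (nat_lit 4419366867) (nat_lit 228) (nat_lit 9579994787) (nat_lit 304) (nat_lit 6920418275) (nat_lit 69) (nat_lit 5) (nat_lit 72) (nat_lit 5) (nat_lit 73) (nat_lit 5) (nat_lit 651) (nat_lit 530) (nat_lit 379))))))) (XT.nd (nat_lit 936) (nat_lit 5776) (nat_lit 0) (XT.nd (nat_lit 468) (nat_lit 1748) (nat_lit 0) (XT.nd (nat_lit 234) (nat_lit 836) (nat_lit 0) (XT.nd (nat_lit 78) (nat_lit 0) (nat_lit 0) (XT.lf (nat_lit 0) (nat_lit 337330625) (nat_lit 836) (nat_lit 1499623152) (nat_lit 836) (nat_lit 1499623152) (nat_lit 694) (nat_lit 3) (nat_lit 705) (nat_lit 3) (nat_lit 705) (nat_lit 5) (nat_lit 531) (nat_lit 531) (nat_lit 498)) (XT.nd (nat_lit 78) (nat_lit 0) (nat_lit 0) (XT.lf (nat_lit 76) (nat_lit 288345356) (nat_lit 0) (nat_lit 2621765169) (nat_lit 836) (nat_lit 3784684613) (nat_lit 695) (nat_lit 5) (nat_lit 694) (nat_lit 3) (nat_lit 705) (nat_lit 5) (nat_lit 532) (nat_lit 531) (nat_lit 497)) (XT.lf (nat_lit 76) (nat_lit 3652152289) (nat_lit 0) (nat_lit 1499636424) (nat_lit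 836) (nat_lit 1565863672) (nat_lit 695) (nat_lit 5) (nat_lit 694) (nat_lit 3) (nat_lit 705) (nat_lit 5) (nat_lit 533) (nat_lit 531) (nat_lit 496)))) (XT.nd (nat_lit 78) (nat_lit 0) (nat_lit 76) (XT.lf (nat_lit 76) (nat_lit 311443713) (nat_lit 0) (nat_lit 320915358) (nat_lit 912) (nat_lit 6109646750) (nat_lit 684) (nat_lit 5) (nat_lit 683) (nat_lit 5) (nat_lit 695) (nat_lit 5) (nat_lit 534) (nat_lit 531) (nat_lit 495)) (XT.nd (nat_lit 78) (nat_lit 0) (nat_lit 0) (XT.lf (nat_lit 0) (nat_lit 2823289679) (nat_lit 836) (nat_lit 3016690177) (nat_lit 912) (nat_lit 927278014) (nat_lit 684) (nat_lit 5) (nat_lit 695) (nat_lit 5) (nat_lit 696) (nat_lit 5) (nat_lit 535) (nat_lit 531) (nat_lit 494)) (XT.lf (nat_lit 76) (nat_lit 438192029) (nat_lit 0) (nat_lit 4569190569) (nat_lit 912) (nat_lit 1786657997) (nat_lit 685) (nat_lit 5) (nat_lit 684) (nat_lit 5) (nat_lit 696) (nat_lit 5) (nat_lit 536) (nat_lit 531) (nat_lit 493))))) (XT.nd (nat_lit 234) (nat_lit 912) (nat_lit 0) (XT.nd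 (nat_lit 78) (nat_lit 0) (nat_lit 0) (XT.lf (nat_lit 0) (nat_lit 373639301) (nat_lit 912) (nat_lit 2852140961) (nat_lit 988) (nat_lit 3596231645) (nat_lit 672) (nat_lit 5) (nat_lit 684) (nat_lit 5) (nat_lit 685) (nat_lit 5) (nat_lit 537) (nat_lit 531) (nat_lit 492)) (XT.nd (nat_lit 78) (nat_lit 0) (nat_lit 0) (XT.lf (nat_lit 76) (nat_lit 688018334) (nat_lit 0) (nat_lit 1815661175) (nat_lit 988) (nat_lit 4347629520) (nat_lit 673) (nat_lit 5) (nat_lit 672) (nat_lit 5) (nat_lit 685) (nat_lit 5) (nat_lit 538) (nat_lit 531) (nat_lit 491)) (XT.lf (nat_lit 76) (nat_lit 4307031285) (nat_lit 0) (nat_lit 335260131) (nat_lit 988) (nat_lit 2239592815) (nat_lit 673) (nat_lit 5) (nat_lit 672) (nat_lit 5) (nat_lit 685) (nat_lit 5) (nat_lit 539) (nat_lit 531) (nat_lit 490)))) (XT.nd (nat_lit 78) (nat_lit 988) (nat_lit 0) (XT.lf (nat_lit 76) (nat_lit 1060425709) (nat_lit 0) (nat_lit 5725779723) (nat_lit 988) (nat_lit 127626240) (nat_lit 674) (nat_lit 5) (nat_lit 673) (nat_lit 5) (nat_lit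 686) (nat_lit 5) (nat_lit 540) (nat_lit 531) (nat_lit 489)) (XT.nd (nat_lit 78) (nat_lit 0) (nat_lit 0) (XT.lf (nat_lit 0) (nat_lit 1968099825) (nat_lit 988) (nat_lit 2189950772) (nat_lit 1064) (nat_lit 2788753213) (nat_lit 660) (nat_lit 5) (nat_lit 673) (nat_lit 5) (nat_lit 674) (nat_lit 5) (nat_lit 541) (nat_lit 531) (nat_lit 488)) (XT.lf (nat_lit 76) (nat_lit 1534982993) (nat_lit 0) (nat_lit 2528512116) (nat_lit 1064) (nat_lit 2917744815) (nat_lit 661) (nat_lit 5) (nat_lit 660) (nat_lit 5) (nat_lit 674) (nat_lit 5) (nat_lit 542) (nat_lit 531) (nat_lit 487)))))) (XT.nd (nat_lit 468) (nat_lit 3648) (nat_lit 0) (XT.nd (nat_lit 234) (nat_lit 1140) (nat_lit 0) (XT.nd (nat_lit 78) (nat_lit 988) (nat_lit 0) (XT.lf (nat_lit 76) (nat_lit 5333228345) (nat_lit 0) (nat_lit 832551395) (nat_lit 1064) (nat_lit 851295858) (nat_lit 661) (nat_lit 5) (nat_lit 660) (nat_lit 5) (nat_lit 674) (nat_lit 5) (nat_lit 543) (nat_lit 531) (nat_lit 486)) (XT.nd (nat_lit 78) (nat_lit 0) (nat_lit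 0) (XT.lf (nat_lit 0) (nat_lit 1210933358) (nat_lit 1064) (nat_lit 4917441142) (nat_lit 1140) (nat_lit 925681781) (nat_lit 647) (nat_lit 5) (nat_lit 661) (nat_lit 5) (nat_lit 662) (nat_lit 5) (nat_lit 544) (nat_lit 531) (nat_lit 485)) (XT.lf (nat_lit 0) (nat_lit 3271711362) (nat_lit 1064) (nat_lit 1078281006) (nat_lit 1140) (nat_lit 2742307472) (nat_lit 647) (nat_lit 5) (nat_lit 661) (nat_lit 5) (nat_lit 662) (nat_lit 5) (nat_lit 545) (nat_lit 531) (nat_lit 484)))) (XT.nd (nat_lit 78) (nat_lit 1140) (nat_lit 0) (XT.lf (nat_lit 76) (nat_lit 2843766634) (nat_lit 0) (nat_lit 2501151402) (nat_lit 1140) (nat_lit 1786975642) (nat_lit 648) (nat_lit 5) (nat_lit 647) (nat_lit 5) (nat_lit 662) (nat_lit 5) (nat_lit 546) (nat_lit 531) (nat_lit 483)) (XT.nd (nat_lit 78) (nat_lit 0) (nat_lit 76) (XT.lf (nat_lit 0) (nat_lit 243982400) (nat_lit 1140) (nat_lit 346795196) (nat_lit 1216) (nat_lit 6582264962) (nat_lit 632) (nat_lit 5) (nat_lit 647) (nat_lit 5) (nat_lit 648) (nat_lit 5) (nat_lit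 547) (nat_lit 531) (nat_lit 482)) (XT.lf (nat_lit 0) (nat_lit 2278764452) (nat_lit 1140) (nat_lit 3545598824) (nat_lit 1216) (nat_lit 1390681364) (nat_lit 633) (nat_lit 5) (nat_lit 648) (nat_lit 5) (nat_lit 649) (nat_lit 5) (nat_lit 548) (nat_lit 531) (nat_lit 481))))) (XT.nd (nat_lit 234) (nat_lit 2584) (nat_lit 0) (XT.nd (nat_lit 78) (nat_lit 1140) (nat_lit 0) (XT.lf (nat_lit 76) (nat_lit 483483476) (nat_lit 0) (nat_lit 3835022800) (nat_lit 1216) (nat_lit 2940104138) (nat_lit 634) (nat_lit 5) (nat_lit 633) (nat_lit 5) (nat_lit 649) (nat_lit 5) (nat_lit 549) (nat_lit 531) (nat_lit 480)) (XT.nd (nat_lit 78) (nat_lit 1140) (nat_lit 0) (XT.lf (nat_lit 76) (nat_lit 4609616194) (nat_lit 0) (nat_lit 1768769371) (nat_lit 1216) (nat_lit 925083845) (nat_lit 634) (nat_lit 5) (nat_lit 633) (nat_lit 5) (nat_lit 649) (nat_lit 5) (nat_lit 550) (nat_lit 531) (nat_lit 479)) (XT.lf (nat_lit 0) (nat_lit 1083337331) (nat_lit 1216) (nat_lit 5903018403) (nat_lit 76) (nat_lit 363373031) (nat_lit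 618) (nat_lit 5) (nat_lit 634) (nat_lit 5) (nat_lit 619) (nat_lit 5) (nat_lit 551) (nat_lit 531) (nat_lit 478)))) (XT.nd (nat_lit 156) (nat_lit 1368) (nat_lit 0) (XT.nd (nat_lit 78) (nat_lit 1216) (nat_lit 0) (XT.lf (nat_lit 0) (nat_lit 3106320256) (nat_lit 1216) (nat_lit 1740217241) (nat_lit 76) (nat_lit 2550526163) (nat_lit 618) (nat_lit 5) (nat_lit 634) (nat_lit 5) (nat_lit 619) (nat_lit 5) (nat_lit 552) (nat_lit 531) (nat_lit 477)) (XT.lf (nat_lit 0) (nat_lit 2507047005) (nat_lit 1216) (nat_lit 2636697190) (nat_lit 1292) (nat_lit 2302129522) (nat_lit 602) (nat_lit 5) (nat_lit 618) (nat_lit 5) (nat_lit 619) (nat_lit 5) (nat_lit 553) (nat_lit 531) (nat_lit 476))) (XT.nd (nat_lit 78) (nat_lit 1368) (nat_lit 0) (XT.lf (nat_lit 0) (nat_lit 6831380706) (nat_lit 1216) (nat_lit 360542668) (nat_lit 1292) (nat_lit 304344398) (nat_lit 602) (nat_lit 5) (nat_lit 618) (nat_lit 5) (nat_lit 619) (nat_lit 5) (nat_lit 554) (nat_lit 531) (nat_lit 475)) (XT.lf (nat_lit 0) (nat_lit 1706585752)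 (nat_lit 1368) (nat_lit 3860417902) (nat_lit 76) (nat_lit 1980530129) (nat_lit 584) (nat_lit 5) (nat_lit 602) (nat_lit 5) (nat_lit 585) (nat_lit 5) (nat_lit 555) (nat_lit 531) (nat_lit 474))))))))
noncomputable def xc110 : XT := (XT.nd (nat_lit 1950) (nat_lit 10260) (nat_lit 0) (XT.nd (nat_lit 936) (nat_lit 7068) (nat_lit 0) (XT.nd (nat_lit 468) (nat_lit 5244) (nat_lit 0) (XT.nd (nat_lit 234) (nat_lit 3116) (nat_lit 0) (XT.nd (nat_lit 78) (nat_lit 1520) (nat_lit 0) (XT.lf (nat_lit 0) (nat_lit 505559191) (nat_lit 1368) (nat_lit 3217797767) (nat_lit 1444) (nat_lit 3877041446) (nat_lit 566) (nat_lit 5) (nat_lit 584) (nat_lit 5) (nat_lit 585) (nat_lit 5) (nat_lit 556) (nat_lit 531) (nat_lit 473)) (XT.nd (nat_lit 78) (nat_lit 1520) (nat_lit 0) (XT.lf (nat_lit 0) (nat_lit 4979321560) (nat_lit 1368) (nat_lit 787166467) (nat_lit 1444) (nat_lit 1888119129) (nat_lit 566) (nat_lit 5) (nat_lit 584) (nat_lit 5) (nat_lit 585) (nat_lit 5) (nat_lit 557) (nat_lit 531) (nat_lit 472)) (XT.lf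 (nat_lit 0) (nat_lit 122334677) (nat_lit 1520) (nat_lit 5897660777) (nat_lit 76) (nat_lit 1690221483) (nat_lit 546) (nat_lit 5) (nat_lit 566) (nat_lit 5) (nat_lit 547) (nat_lit 5) (nat_lit 558) (nat_lit 531) (nat_lit 471)))) (XT.nd (nat_lit 78) (nat_lit 3116) (nat_lit 0) (XT.lf (nat_lit 0) (nat_lit 2132272679) (nat_lit 1520) (nat_lit 1390386445) (nat_lit 76) (nat_lit 4244345944) (nat_lit 546) (nat_lit 5) (nat_lit 566) (nat_lit 5) (nat_lit 547) (nat_lit 5) (nat_lit 559) (nat_lit 531) (nat_lit 470)) (XT.nd (nat_lit 78) (nat_lit 1596) (nat_lit 0) (XT.lf (nat_lit 0) (nat_lit 3217476724) (nat_lit 1520) (nat_lit 947831449) (nat_lit 1596) (nat_lit 3659969585) (nat_lit 526) (nat_lit 5) (nat_lit 546) (nat_lit 5) (nat_lit 547) (nat_lit 5) (nat_lit 560) (nat_lit 531) (nat_lit 469)) (XT.lf (nat_lit 0) (nat_lit 8628876) (nat_lit 1596) (nat_lit 6213308623) (nat_lit 1672) (nat_lit 1663126380) (nat_lit 505) (nat_lit 5) (nat_lit 526) (nat_lit 5) (nat_lit 527) (nat_lit 5) (nat_lit 561)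 (nat_lit 531) (nat_lit 468))))) (XT.nd (nat_lit 234) (nat_lit 3496) (nat_lit 0) (XT.nd (nat_lit 78) (nat_lit 1672) (nat_lit 0) (XT.lf (nat_lit 0) (nat_lit 369017205) (nat_lit 1672) (nat_lit 3207114473) (nat_lit 76) (nat_lit 4369866621) (nat_lit 504) (nat_lit 5) (nat_lit 526) (nat_lit 5) (nat_lit 505) (nat_lit 5) (nat_lit 562) (nat_lit 531) (nat_lit 467)) (XT.nd (nat_lit 78) (nat_lit 0) (nat_lit 0) (XT.lf (nat_lit 0) (nat_lit 1532692970) (nat_lit 1672) (nat_lit 860403190) (nat_lit 1748) (nat_lit 5615370403) (nat_lit 482) (nat_lit 5) (nat_lit 504) (nat_lit 5) (nat_lit 505) (nat_lit 5) (nat_lit 563) (nat_lit 531) (nat_lit 466)) (XT.lf (nat_lit 0) (nat_lit 4455843383) (nat_lit 1748) (nat_lit 1706052590) (nat_lit 76) (nat_lit 1910330617) (nat_lit 482) (nat_lit 5) (nat_lit 505) (nat_lit 5) (nat_lit 483) (nat_lit 5) (nat_lit 564) (nat_lit 531) (nat_lit 465)))) (XT.nd (nat_lit 78) (nat_lit 1748) (nat_lit 0) (XT.lf (nat_lit 0) (nat_lit 3162957858) (nat_lit 1748) (nat_lit 3387949283)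 (nat_lit 1824) (nat_lit 1586539457) (nat_lit 459) (nat_lit 5) (nat_lit 482) (nat_lit 5) (nat_lit 483) (nat_lit 5) (nat_lit 565) (nat_lit 531) (nat_lit 464)) (XT.nd (nat_lit 78) (nat_lit 1672) (nat_lit 0) (XT.lf (nat_lit 0) (nat_lit 454155010) (nat_lit 1824) (nat_lit 86634954) (nat_lit 76) (nat_lit 7663591978) (nat_lit 458) (nat_lit 5) (nat_lit 482) (nat_lit 5) (nat_lit 459) (nat_lit 5) (nat_lit 566) (nat_lit 531) (nat_lit 463)) (XT.lf (nat_lit 0) (nat_lit 2527796874) (nat_lit 1748) (nat_lit 3366644369) (nat_lit 76) (nat_lit 2377743131) (nat_lit 436) (nat_lit 5) (nat_lit 459) (nat_lit 5) (nat_lit 437) (nat_lit 5) (nat_lit 567) (nat_lit 531) (nat_lit 462)))))) (XT.nd (nat_lit 468) (nat_lit 3344) (nat_lit 0) (XT.nd (nat_lit 234) (nat_lit 1748) (nat_lit 0) (XT.nd (nat_lit 78) (nat_lit 988) (nat_lit 0) (XT.lf (nat_lit 0) (nat_lit 1643360331) (nat_lit 988) (nat_lit 2980632411) (nat_lit 1064) (nat_lit 3717734042) (nat_lit 423) (nat_lit 5) (nat_lit 436) (nat_lit 5) (nat_lit 437)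 (nat_lit 5) (nat_lit 568) (nat_lit 531) (nat_lit 461)) (XT.nd (nat_lit 78) (nat_lit 988) (nat_lit 0) (XT.lf (nat_lit 0) (nat_lit 6751508538) (nat_lit 1064) (nat_lit 1645581045) (nat_lit 76) (nat_lit 15787985) (nat_lit 423) (nat_lit 5) (nat_lit 437) (nat_lit 5) (nat_lit 424) (nat_lit 5) (nat_lit 569) (nat_lit 531) (nat_lit 460)) (XT.lf (nat_lit 0) (nat_lit 440306634) (nat_lit 988) (nat_lit 4985541122) (nat_lit 76) (nat_lit 3059354149) (nat_lit 410) (nat_lit 5) (nat_lit 423) (nat_lit 5) (nat_lit 411) (nat_lit 5) (nat_lit 570) (nat_lit 531) (nat_lit 459)))) (XT.nd (nat_lit 78) (nat_lit 836) (nat_lit 0) (XT.lf (nat_lit 0) (nat_lit 170452558) (nat_lit 912) (nat_lit 2371139670) (nat_lit 988) (nat_lit 6017569557) (nat_lit 398) (nat_lit 5) (nat_lit 410) (nat_lit 5) (nat_lit 411) (nat_lit 5) (nat_lit 571) (nat_lit 531) (nat_lit 458)) (XT.nd (nat_lit 78) (nat_lit 836) (nat_lit 0) (XT.lf (nat_lit 0) (nat_lit 4691424094) (nat_lit 988) (nat_lit 3174345727) (nat_lit 76) (nat_lit 768705661)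 (nat_lit 398) (nat_lit 5) (nat_lit 411) (nat_lit 5) (nat_lit 399) (nat_lit 5) (nat_lit 572) (nat_lit 531) (nat_lit 457)) (XT.lf (nat_lit 0) (nat_lit 2124599967) (nat_lit 836) (nat_lit 4757785685) (nat_lit 912) (nat_lit 1828952070) (nat_lit 387) (nat_lit 5) (nat_lit 398) (nat_lit 5) (nat_lit 399) (nat_lit 5) (nat_lit 573) (nat_lit 531) (nat_lit 456))))) (XT.nd (nat_lit 234) (nat_lit 1672) (nat_lit 0) (XT.nd (nat_lit 78) (nat_lit 1596) (nat_lit 0) (XT.lf (nat_lit 0) (nat_lit 313413050) (nat_lit 912) (nat_lit 1251100393) (nat_lit 76) (nat_lit 7225380427) (nat_lit 386) (nat_lit 5) (nat_lit 398) (nat_lit 5) (nat_lit 387) (nat_lit 5) (nat_lit 574) (nat_lit 531) (nat_lit 455)) (XT.nd (nat_lit 78) (nat_lit 760) (nat_lit 0) (XT.lf (nat_lit 0) (nat_lit 2482137474) (nat_lit 912) (nat_lit 4678282534) (nat_lit 76) (nat_lit 1709203957) (nat_lit 375) (nat_lit 5) (nat_lit 387) (nat_lit 5) (nat_lit 376) (nat_lit 5) (nat_lit 575) (nat_lit 531) (nat_lit 454)) (XT.lf (nat_lit 0) (nat_lit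 776740038) (nat_lit 760) (nat_lit 3911187418) (nat_lit 836) (nat_lit 4263151941) (nat_lit 365) (nat_lit 5) (nat_lit 375) (nat_lit 5) (nat_lit 376) (nat_lit 5) (nat_lit 576) (nat_lit 531) (nat_lit 453)))) (XT.nd (nat_lit 156) (nat_lit 760) (nat_lit 0) (XT.nd (nat_lit 78) (nat_lit 912) (nat_lit 0) (XT.lf (nat_lit 0) (nat_lit 6372647127) (nat_lit 760) (nat_lit 566801736) (nat_lit 836) (nat_lit 2094687231) (nat_lit 365) (nat_lit 5) (nat_lit 375) (nat_lit 5) (nat_lit 376) (nat_lit 5) (nat_lit 577) (nat_lit 531) (nat_lit 452)) (XT.lf (nat_lit 0) (nat_lit 124078981) (nat_lit 912) (nat_lit 6169250431) (nat_lit 76) (nat_lit 2825344222) (nat_lit 353) (nat_lit 5) (nat_lit 365) (nat_lit 5) (nat_lit 354) (nat_lit 5) (nat_lit 578) (nat_lit 531) (nat_lit 451))) (XT.nd (nat_lit 78) (nat_lit 760) (nat_lit 0) (XT.lf (nat_lit 0) (nat_lit 2351898488) (nat_lit 912) (nat_lit 545427711) (nat_lit 76) (nat_lit 6307448499) (nat_lit 353) (nat_lit 5) (nat_lit 365) (nat_lit 5) (nat_lit 354) (nat_lit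 5) (nat_lit 579) (nat_lit 531) (nat_lit 450)) (XT.lf (nat_lit 0) (nat_lit 4633643000) (nat_lit 836) (nat_lit 4068083698) (nat_lit 76) (nat_lit 590687843) (nat_lit 343) (nat_lit 5) (nat_lit 354) (nat_lit 5) (nat_lit 344) (nat_lit 5) (nat_lit 580) (nat_lit 531) (nat_lit 449))))))) (XT.nd (nat_lit 936) (nat_lit 4560) (nat_lit 0) (XT.nd (nat_lit 468) (nat_lit 2736) (nat_lit 0) (XT.nd (nat_lit 234) (nat_lit 1444) (nat_lit 0) (XT.nd (nat_lit 78) (nat_lit 760) (nat_lit 0) (XT.lf (nat_lit 0) (nat_lit 1706827879) (nat_lit 760) (nat_lit 5260024060) (nat_lit 836) (nat_lit 2414842694) (nat_lit 333) (nat_lit 5) (nat_lit 343) (nat_lit 5) (nat_lit 344) (nat_lit 5) (nat_lit 581) (nat_lit 531) (nat_lit 448)) (XT.nd (nat_lit 78) (nat_lit 760) (nat_lit 0) (XT.lf (nat_lit 0) (nat_lit 7621099147) (nat_lit 760) (nat_lit 1725148984) (nat_lit 836) (nat_lit 126525702) (nat_lit 333) (nat_lit 5) (nat_lit 343) (nat_lit 5) (nat_lit 344) (nat_lit 5) (nat_lit 582) (nat_lit 531) (nat_lit 447)) (XT.lf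 (nat_lit 0) (nat_lit 2190242275) (nat_lit 760) (nat_lit 5481529439) (nat_lit 76) (nat_lit 1893387314) (nat_lit 323) (nat_lit 5) (nat_lit 333) (nat_lit 5) (nat_lit 324) (nat_lit 5) (nat_lit 583) (nat_lit 531) (nat_lit 446)))) (XT.nd (nat_lit 78) (nat_lit 684) (nat_lit 0) (XT.lf (nat_lit 0) (nat_lit 466009254) (nat_lit 760) (nat_lit 4085499761) (nat_lit 836) (nat_lit 5107872771) (nat_lit 313) (nat_lit 5) (nat_lit 323) (nat_lit 5) (nat_lit 324) (nat_lit 5) (nat_lit 584) (nat_lit 531) (nat_lit 445)) (XT.nd (nat_lit 78) (nat_lit 684) (nat_lit 0) (XT.lf (nat_lit 0) (nat_lit 6575654593) (nat_lit 760) (nat_lit 394357165) (nat_lit 836) (nat_lit 2785280693) (nat_lit 313) (nat_lit 5) (nat_lit 323) (nat_lit 5) (nat_lit 324) (nat_lit 5) (nat_lit 585) (nat_lit 531) (nat_lit 444)) (XT.lf (nat_lit 0) (nat_lit 2940008343) (nat_lit 684) (nat_lit 6511572762) (nat_lit 760) (nat_lit 401249885) (nat_lit 304) (nat_lit 5) (nat_lit 313) (nat_lit 5) (nat_lit 314) (nat_lit 5) (nat_lit 586) (nat_lit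 531) (nat_lit 443))))) (XT.nd (nat_lit 234) (nat_lit 1368) (nat_lit 0) (XT.nd (nat_lit 78) (nat_lit 1292) (nat_lit 0) (XT.lf (nat_lit 0) (nat_lit 2001785118) (nat_lit 760) (nat_lit 773865586) (nat_lit 76) (nat_lit 7176450319) (nat_lit 303) (nat_lit 5) (nat_lit 313) (nat_lit 5) (nat_lit 304) (nat_lit 5) (nat_lit 587) (nat_lit 531) (nat_lit 442)) (XT.nd (nat_lit 78) (nat_lit 608) (nat_lit 0) (XT.lf (nat_lit 0) (nat_lit 4464717808) (nat_lit 760) (nat_lit 4532914610) (nat_lit 76) (nat_lit 1055330184) (nat_lit 294) (nat_lit 5) (nat_lit 304) (nat_lit 5) (nat_lit 295) (nat_lit 5) (nat_lit 588) (nat_lit 531) (nat_lit 441)) (XT.lf (nat_lit 0) (nat_lit 1768521969) (nat_lit 608) (nat_lit 5218127207) (nat_lit 684) (nat_lit 3169000754) (nat_lit 286) (nat_lit 5) (nat_lit 294) (nat_lit 5) (nat_lit 295) (nat_lit 5) (nat_lit 589) (nat_lit 531) (nat_lit 440)))) (XT.nd (nat_lit 78) (nat_lit 1368) (nat_lit 0) (XT.lf (nat_lit 0) (nat_lit 8226786509) (nat_lit 608) (nat_lit 1337597402) (nat_lit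 684) (nat_lit 695903054) (nat_lit 286) (nat_lit 5) (nat_lit 294) (nat_lit 5) (nat_lit 295) (nat_lit 5) (nat_lit 590) (nat_lit 531) (nat_lit 439)) (XT.nd (nat_lit 78) (nat_lit 608) (nat_lit 0) (XT.lf (nat_lit 0) (nat_lit 1824199714) (nat_lit 760) (nat_lit 5920442829) (nat_lit 76) (nat_lit 2621710128) (nat_lit 276) (nat_lit 5) (nat_lit 286) (nat_lit 5) (nat_lit 277) (nat_lit 5) (nat_lit 591) (nat_lit 531) (nat_lit 438)) (XT.lf (nat_lit 0) (nat_lit 571513217) (nat_lit 608) (nat_lit 3815710637) (nat_lit 684) (nat_lit 6087190155) (nat_lit 268) (nat_lit 5) (nat_lit 276) (nat_lit 5) (nat_lit 277) (nat_lit 5) (nat_lit 592) (nat_lit 531) (nat_lit 437)))))) (XT.nd (nat_lit 468) (nat_lit 2736) (nat_lit 0) (XT.nd (nat_lit 234) (nat_lit 1140) (nat_lit 0) (XT.nd (nat_lit 78) (nat_lit 684) (nat_lit 0) (XT.lf (nat_lit 0) (nat_lit 7018511652) (nat_lit 684) (nat_lit 3342664952) (nat_lit 76) (nat_lit 223122911) (nat_lit 268) (nat_lit 5) (nat_lit 277) (nat_lit 5) (nat_lit 269) (nat_lit 5)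 (nat_lit 593) (nat_lit 531) (nat_lit 436)) (XT.nd (nat_lit 78) (nat_lit 76) (nat_lit 0) (XT.lf (nat_lit 0) (nat_lit 3337000665) (nat_lit 608) (nat_lit 6388600844) (nat_lit 684) (nat_lit 970320644) (nat_lit 260) (nat_lit 5) (nat_lit 268) (nat_lit 5) (nat_lit 269) (nat_lit 5) (nat_lit 594) (nat_lit 531) (nat_lit 435)) (XT.lf (nat_lit 0) (nat_lit 1653993513) (nat_lit 684) (nat_lit 655184071) (nat_lit 76) (nat_lit 8500406073) (nat_lit 259) (nat_lit 5) (nat_lit 268) (nat_lit 5) (nat_lit 260) (nat_lit 5) (nat_lit 595) (nat_lit 531) (nat_lit 434)))) (XT.nd (nat_lit 78) (nat_lit 608) (nat_lit 0) (XT.lf (nat_lit 0) (nat_lit 4347357746) (nat_lit 608) (nat_lit 4709246458) (nat_lit 76) (nat_lit 1868197559) (nat_lit 252) (nat_lit 5) (nat_lit 260) (nat_lit 5) (nat_lit 253) (nat_lit 5) (nat_lit 596) (nat_lit 531) (nat_lit 433)) (XT.nd (nat_lit 78) (nat_lit 0) (nat_lit 0) (XT.lf (nat_lit 0) (nat_lit 2173524265) (nat_lit 608) (nat_lit 4931930907) (nat_lit 684) (nat_lit 3936654464) (nat_lit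 244) (nat_lit 5) (nat_lit 252) (nat_lit 5) (nat_lit 253) (nat_lit 5) (nat_lit 597) (nat_lit 531) (nat_lit 432)) (XT.lf (nat_lit 0) (nat_lit 9227968368) (nat_lit 608) (nat_lit 699640025) (nat_lit 684) (nat_lit 1233980067) (nat_lit 244) (nat_lit 5) (nat_lit 252) (nat_lit 5) (nat_lit 253) (nat_lit 5) (nat_lit 598) (nat_lit 531) (nat_lit 431))))) (XT.nd (nat_lit 234) (nat_lit 1596) (nat_lit 0) (XT.nd (nat_lit 78) (nat_lit 532) (nat_lit 0) (XT.lf (nat_lit 0) (nat_lit 1537648369) (nat_lit 608) (nat_lit 6138356622) (nat_lit 76) (nat_lit 3606559266) (nat_lit 236) (nat_lit 5) (nat_lit 244) (nat_lit 5) (nat_lit 237) (nat_lit 5) (nat_lit 599) (nat_lit 531) (nat_lit 430)) (XT.nd (nat_lit 78) (nat_lit 0) (nat_lit 0) (XT.lf (nat_lit 0) (nat_lit 953985132) (nat_lit 532) (nat_lit 3395895461) (nat_lit 608) (nat_lit 7055884478) (nat_lit 229) (nat_lit 5) (nat_lit 236) (nat_lit 5) (nat_lit 237) (nat_lit 5) (nat_lit 600) (nat_lit 531) (nat_lit 429)) (XT.lf (nat_lit 0) (nat_lit 7244102990)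 (nat_lit 608) (nat_lit 3295729535) (nat_lit 76) (nat_lit 991084931) (nat_lit 229) (nat_lit 5) (nat_lit 237) (nat_lit 5) (nat_lit 230) (nat_lit 5) (nat_lit 601) (nat_lit 531) (nat_lit 428)))) (XT.nd (nat_lit 156) (nat_lit 988) (nat_lit 0) (XT.nd (nat_lit 78) (nat_lit 76) (nat_lit 0) (XT.lf (nat_lit 0) (nat_lit 4004119461) (nat_lit 532) (nat_lit 6218993266) (nat_lit 608) (nat_lit 1434924522) (nat_lit 222) (nat_lit 5) (nat_lit 229) (nat_lit 5) (nat_lit 230) (nat_lit 5) (nat_lit 602) (nat_lit 531) (nat_lit 427)) (XT.lf (nat_lit 0) (nat_lit 1455440258) (nat_lit 608) (nat_lit 331776543) (nat_lit 76) (nat_lit 10000278178) (nat_lit 221) (nat_lit 5) (nat_lit 229) (nat_lit 5) (nat_lit 222) (nat_lit 5) (nat_lit 603) (nat_lit 531) (nat_lit 426))) (XT.nd (nat_lit 78) (nat_lit 456) (nat_lit 0) (XT.lf (nat_lit 0) (nat_lit 4428111995) (nat_lit 608) (nat_lit 4744134980) (nat_lit 76) (nat_lit 2746233205) (nat_lit 214) (nat_lit 5) (nat_lit 222) (nat_lit 5) (nat_lit 215) (nat_lit 5) (nat_lit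 604) (nat_lit 531) (nat_lit 425)) (XT.lf (nat_lit 0) (nat_lit 2778593512) (nat_lit 456) (nat_lit 4692865057) (nat_lit 532) (nat_lit 4580404322) (nat_lit 208) (nat_lit 5) (nat_lit 214) (nat_lit 5) (nat_lit 215) (nat_lit 5) (nat_lit 605) (nat_lit 531) (nat_lit 424))))))))
noncomputable def xc111 : XT := (XT.nd (nat_lit 1950) (nat_lit 3876) (nat_lit 0) (XT.nd (nat_lit 936) (nat_lit 3040) (nat_lit 0) (XT.nd (nat_lit 468) (nat_lit 1368) (nat_lit 0) (XT.nd (nat_lit 234) (nat_lit 988) (nat_lit 0) (XT.nd (nat_lit 78) (nat_lit 1064) (nat_lit 0) (XT.lf (nat_lit 0) (nat_lit 10487231888) (nat_lit 456) (nat_lit 99602144) (nat_lit 532) (nat_lit 1600858174) (nat_lit 208) (nat_lit 5) (nat_lit 214) (nat_lit 5) (nat_lit 215) (nat_lit 5) (nat_lit 606) (nat_lit 531) (nat_lit 423)) (XT.nd (nat_lit 78) (nat_lit 456) (nat_lit 0) (XT.lf (nat_lit 0) (nat_lit 1468433877) (nat_lit 608) (nat_lit 6290259903) (nat_lit 76) (nat_lit 4566379302) (nat_lit 200) (nat_lit 5) (nat_lit 208) (nat_lit 5) (nat_lit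 201) (nat_lit 5) (nat_lit 607) (nat_lit 531) (nat_lit 422)) (XT.lf (nat_lit 0) (nat_lit 1461981200) (nat_lit 456) (nat_lit 3117111519) (nat_lit 532) (nat_lit 7885870958) (nat_lit 194) (nat_lit 5) (nat_lit 200) (nat_lit 5) (nat_lit 201) (nat_lit 5) (nat_lit 608) (nat_lit 531) (nat_lit 421)))) (XT.nd (nat_lit 78) (nat_lit 988) (nat_lit 0) (XT.lf (nat_lit 0) (nat_lit 7784870318) (nat_lit 532) (nat_lit 3191938206) (nat_lit 76) (nat_lit 1630187471) (nat_lit 194) (nat_lit 5) (nat_lit 201) (nat_lit 5) (nat_lit 195) (nat_lit 5) (nat_lit 609) (nat_lit 531) (nat_lit 420)) (XT.nd (nat_lit 78) (nat_lit 532) (nat_lit 0) (XT.lf (nat_lit 0) (nat_lit 4789177644) (nat_lit 456) (nat_lit 6297631781) (nat_lit 532) (nat_lit 1664420599) (nat_lit 188) (nat_lit 5) (nat_lit 194) (nat_lit 5) (nat_lit 195) (nat_lit 5) (nat_lit 610) (nat_lit 531) (nat_lit 419)) (XT.lf (nat_lit 0) (nat_lit 37108989) (nat_lit 456) (nat_lit 1501099794) (nat_lit 532) (nat_lit 11359896084) (nat_lit 181) (nat_lit 5) (nat_lit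 187) (nat_lit 5) (nat_lit 188) (nat_lit 5) (nat_lit 611) (nat_lit 531) (nat_lit 418))))) (XT.nd (nat_lit 234) (nat_lit 912) (nat_lit 0) (XT.nd (nat_lit 78) (nat_lit 456) (nat_lit 0) (XT.lf (nat_lit 0) (nat_lit 4838952667) (nat_lit 532) (nat_lit 4804602590) (nat_lit 76) (nat_lit 3403016814) (nat_lit 181) (nat_lit 5) (nat_lit 188) (nat_lit 5) (nat_lit 182) (nat_lit 5) (nat_lit 612) (nat_lit 531) (nat_lit 417)) (XT.nd (nat_lit 78) (nat_lit 0) (nat_lit 0) (XT.lf (nat_lit 0) (nat_lit 3419849240) (nat_lit 456) (nat_lit 4798914324) (nat_lit 532) (nat_lit 4978985843) (nat_lit 175) (nat_lit 5) (nat_lit 181) (nat_lit 5) (nat_lit 182) (nat_lit 5) (nat_lit 613) (nat_lit 531) (nat_lit 416)) (XT.lf (nat_lit 0) (nat_lit 11680594875) (nat_lit 532) (nat_lit 1506645334) (nat_lit 76) (nat_lit 164423394) (nat_lit 175) (nat_lit 5) (nat_lit 182) (nat_lit 5) (nat_lit 176) (nat_lit 5) (nat_lit 614) (nat_lit 531) (nat_lit 415)))) (XT.nd (nat_lit 78) (nat_lit 456) (nat_lit 0) (XT.lf (nat_lit 0)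 (nat_lit 1739454249) (nat_lit 456) (nat_lit 6556938946) (nat_lit 76) (nat_lit 5210867819) (nat_lit 169) (nat_lit 5) (nat_lit 175) (nat_lit 5) (nat_lit 170) (nat_lit 5) (nat_lit 615) (nat_lit 531) (nat_lit 414)) (XT.nd (nat_lit 78) (nat_lit 0) (nat_lit 0) (XT.lf (nat_lit 0) (nat_lit 1917464609) (nat_lit 456) (nat_lit 3282473218) (nat_lit 532) (nat_lit 8465730808) (nat_lit 163) (nat_lit 5) (nat_lit 169) (nat_lit 5) (nat_lit 170) (nat_lit 5) (nat_lit 616) (nat_lit 531) (nat_lit 413)) (XT.lf (nat_lit 0) (nat_lit 8767419565) (nat_lit 532) (nat_lit 3216071999) (nat_lit 76) (nat_lit 1842998733) (nat_lit 163) (nat_lit 5) (nat_lit 170) (nat_lit 5) (nat_lit 164) (nat_lit 5) (nat_lit 617) (nat_lit 531) (nat_lit 412)))))) (XT.nd (nat_lit 468) (nat_lit 1368) (nat_lit 0) (XT.nd (nat_lit 234) (nat_lit 836) (nat_lit 0) (XT.nd (nat_lit 78) (nat_lit 456) (nat_lit 0) (XT.lf (nat_lit 0) (nat_lit 5510012871) (nat_lit 380) (nat_lit 6935715476) (nat_lit 456) (nat_lit 1544012127) (nat_lit 158)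 (nat_lit 5) (nat_lit 163) (nat_lit 5) (nat_lit 164) (nat_lit 5) (nat_lit 618) (nat_lit 531) (nat_lit 411)) (XT.nd (nat_lit 78) (nat_lit 0) (nat_lit 0) (XT.lf (nat_lit 0) (nat_lit 261140526) (nat_lit 380) (nat_lit 1758877215) (nat_lit 456) (nat_lit 12135865545) (nat_lit 152) (nat_lit 5) (nat_lit 157) (nat_lit 5) (nat_lit 158) (nat_lit 5) (nat_lit 619) (nat_lit 531) (nat_lit 410)) (XT.lf (nat_lit 0) (nat_lit 5696956353) (nat_lit 456) (nat_lit 5093301429) (nat_lit 76) (nat_lit 3533642539) (nat_lit 152) (nat_lit 5) (nat_lit 158) (nat_lit 5) (nat_lit 153) (nat_lit 5) (nat_lit 620) (nat_lit 531) (nat_lit 409)))) (XT.nd (nat_lit 78) (nat_lit 456) (nat_lit 0) (XT.lf (nat_lit 0) (nat_lit 3896769018) (nat_lit 380) (nat_lit 5570102501) (nat_lit 456) (nat_lit 5028018924) (nat_lit 147) (nat_lit 5) (nat_lit 152) (nat_lit 5) (nat_lit 153) (nat_lit 5) (nat_lit 621) (nat_lit 531) (nat_lit 408)) (XT.nd (nat_lit 78) (nat_lit 456) (nat_lit 0) (XT.lf (nat_lit 0) (nat_lit 13109000272) (nat_lit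 380) (nat_lit 220022743) (nat_lit 456) (nat_lit 1339942066) (nat_lit 147) (nat_lit 5) (nat_lit 152) (nat_lit 5) (nat_lit 153) (nat_lit 5) (nat_lit 622) (nat_lit 531) (nat_lit 407)) (XT.lf (nat_lit 0) (nat_lit 2457507076) (nat_lit 456) (nat_lit 7161859588) (nat_lit 76) (nat_lit 5225493986) (nat_lit 141) (nat_lit 5) (nat_lit 147) (nat_lit 5) (nat_lit 142) (nat_lit 5) (nat_lit 623) (nat_lit 531) (nat_lit 406))))) (XT.nd (nat_lit 234) (nat_lit 684) (nat_lit 0) (XT.nd (nat_lit 78) (nat_lit 380) (nat_lit 0) (XT.lf (nat_lit 0) (nat_lit 2098535714) (nat_lit 304) (nat_lit 4223054665) (nat_lit 380) (nat_lit 8702335460) (nat_lit 137) (nat_lit 5) (nat_lit 141) (nat_lit 5) (nat_lit 142) (nat_lit 5) (nat_lit 624) (nat_lit 531) (nat_lit 405)) (XT.nd (nat_lit 78) (nat_lit 380) (nat_lit 0) (XT.lf (nat_lit 0) (nat_lit 10302743426) (nat_lit 380) (nat_lit 3599624344) (nat_lit 76) (nat_lit 1303410162) (nat_lit 137) (nat_lit 5) (nat_lit 142) (nat_lit 5) (nat_lit 138) (nat_lit 5) (nat_lit 625)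 (nat_lit 531) (nat_lit 404)) (XT.lf (nat_lit 0) (nat_lit 5936472454) (nat_lit 380) (nat_lit 8476981042) (nat_lit 456) (nat_lit 976816226) (nat_lit 132) (nat_lit 5) (nat_lit 137) (nat_lit 5) (nat_lit 138) (nat_lit 5) (nat_lit 626) (nat_lit 531) (nat_lit 403)))) (XT.nd (nat_lit 156) (nat_lit 304) (nat_lit 0) (XT.nd (nat_lit 78) (nat_lit 0) (nat_lit 0) (XT.lf (nat_lit 0) (nat_lit 89344937) (nat_lit 304) (nat_lit 2907235128) (nat_lit 380) (nat_lit 12581312071) (nat_lit 127) (nat_lit 5) (nat_lit 131) (nat_lit 5) (nat_lit 132) (nat_lit 5) (nat_lit 627) (nat_lit 531) (nat_lit 402)) (XT.lf (nat_lit 0) (nat_lit 7101810508) (nat_lit 380) (nat_lit 5867617704) (nat_lit 76) (nat_lit 2798401992) (nat_lit 127) (nat_lit 5) (nat_lit 132) (nat_lit 5) (nat_lit 128) (nat_lit 5) (nat_lit 628) (nat_lit 531) (nat_lit 401))) (XT.nd (nat_lit 78) (nat_lit 0) (nat_lit 0) (XT.lf (nat_lit 0) (nat_lit 3952611425) (nat_lit 304) (nat_lit 7365336054) (nat_lit 380) (nat_lit 4643044750) (nat_lit 123) (nat_lit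 5) (nat_lit 127) (nat_lit 5) (nat_lit 128) (nat_lit 5) (nat_lit 629) (nat_lit 531) (nat_lit 400)) (XT.lf (nat_lit 0) (nat_lit 14023246398) (nat_lit 304) (nat_lit 1618571495) (nat_lit 380) (nat_lit 515732596) (nat_lit 123) (nat_lit 5) (nat_lit 127) (nat_lit 5) (nat_lit 128) (nat_lit 5) (nat_lit 630) (nat_lit 531) (nat_lit 399))))))) (XT.nd (nat_lit 1014) (nat_lit 1292) (nat_lit 0) (XT.nd (nat_lit 468) (nat_lit 1216) (nat_lit 0) (XT.nd (nat_lit 234) (nat_lit 684) (nat_lit 0) (XT.nd (nat_lit 78) (nat_lit 304) (nat_lit 0) (XT.lf (nat_lit 0) (nat_lit 3709805776) (nat_lit 380) (nat_lit 8391977271) (nat_lit 76) (nat_lit 4254495754) (nat_lit 118) (nat_lit 5) (nat_lit 123) (nat_lit 5) (nat_lit 119) (nat_lit 5) (nat_lit 631) (nat_lit 531) (nat_lit 398)) (XT.nd (nat_lit 78) (nat_lit 0) (nat_lit 0) (XT.lf (nat_lit 0) (nat_lit 1718087348) (nat_lit 304) (nat_lit 6315488221) (nat_lit 380) (nat_lit 8524926541) (nat_lit 114) (nat_lit 5) (nat_lit 118) (nat_lit 5) (nat_lit 119) (nat_lit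 5) (nat_lit 632) (nat_lit 531) (nat_lit 397)) (XT.lf (nat_lit 0) (nat_lit 12118943926) (nat_lit 304) (nat_lit 365664036) (nat_lit 380) (nat_lit 4279347299) (nat_lit 114) (nat_lit 5) (nat_lit 118) (nat_lit 5) (nat_lit 119) (nat_lit 5) (nat_lit 633) (nat_lit 531) (nat_lit 396)))) (XT.nd (nat_lit 78) (nat_lit 304) (nat_lit 0) (XT.lf (nat_lit 0) (nat_lit 110057822) (nat_lit 380) (nat_lit 11205054426) (nat_lit 76) (nat_lit 5657207956) (nat_lit 109) (nat_lit 5) (nat_lit 114) (nat_lit 5) (nat_lit 110) (nat_lit 5) (nat_lit 634) (nat_lit 531) (nat_lit 395)) (XT.nd (nat_lit 78) (nat_lit 304) (nat_lit 0) (XT.lf (nat_lit 0) (nat_lit 4548556021) (nat_lit 380) (nat_lit 789399672) (nat_lit 76) (nat_lit 11845959968) (nat_lit 109) (nat_lit 5) (nat_lit 114) (nat_lit 5) (nat_lit 110) (nat_lit 5) (nat_lit 635) (nat_lit 531) (nat_lit 394)) (XT.lf (nat_lit 0) (nat_lit 9130708531) (nat_lit 380) (nat_lit 7463570836) (nat_lit 76) (nat_lit 804367005) (nat_lit 105) (nat_lit 5) (nat_lit 110) (nat_lit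 5) (nat_lit 106) (nat_lit 5) (nat_lit 636) (nat_lit 531) (nat_lit 393))))) (XT.nd (nat_lit 234) (nat_lit 608) (nat_lit 0) (XT.nd (nat_lit 78) (nat_lit 380) (nat_lit 0) (XT.lf (nat_lit 0) (nat_lit 3249871206) (nat_lit 228) (nat_lit 10601542240) (nat_lit 304) (nat_lit 3765321074) (nat_lit 102) (nat_lit 5) (nat_lit 105) (nat_lit 5) (nat_lit 106) (nat_lit 5) (nat_lit 637) (nat_lit 531) (nat_lit 392)) (XT.nd (nat_lit 78) (nat_lit 304) (nat_lit 0) (XT.lf (nat_lit 0) (nat_lit 852074113) (nat_lit 304) (nat_lit 3589710766) (nat_lit 76) (nat_lit 13396581554) (nat_lit 101) (nat_lit 5) (nat_lit 105) (nat_lit 5) (nat_lit 102) (nat_lit 5) (nat_lit 638) (nat_lit 531) (nat_lit 391)) (XT.lf (nat_lit 0) (nat_lit 5557657293) (nat_lit 380) (nat_lit 10623950590) (nat_lit 76) (nat_lit 1881401125) (nat_lit 97) (nat_lit 5) (nat_lit 102) (nat_lit 5) (nat_lit 98) (nat_lit 5) (nat_lit 639) (nat_lit 531) (nat_lit 390)))) (XT.nd (nat_lit 156) (nat_lit 380) (nat_lit 0) (XT.nd (nat_lit 78) (nat_lit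 0) (nat_lit 0) (XT.lf (nat_lit 0) (nat_lit 396864965) (nat_lit 228) (nat_lit 10002247795) (nat_lit 304) (nat_lit 7892197396) (nat_lit 94) (nat_lit 5) (nat_lit 97) (nat_lit 5) (nat_lit 98) (nat_lit 5) (nat_lit 640) (nat_lit 531) (nat_lit 389)) (XT.lf (nat_lit 0) (nat_lit 11758101782) (nat_lit 228) (nat_lit 3636235664) (nat_lit 304) (nat_lit 3128701995) (nat_lit 94) (nat_lit 5) (nat_lit 97) (nat_lit 5) (nat_lit 98) (nat_lit 5) (nat_lit 641) (nat_lit 531) (nat_lit 388))) (XT.nd (nat_lit 78) (nat_lit 0) (nat_lit 0) (XT.lf (nat_lit 0) (nat_lit 1741917910) (nat_lit 380) (nat_lit 14164924919) (nat_lit 76) (nat_lit 2851645813) (nat_lit 89) (nat_lit 5) (nat_lit 94) (nat_lit 5) (nat_lit 90) (nat_lit 5) (nat_lit 642) (nat_lit 531) (nat_lit 387)) (XT.lf (nat_lit 0) (nat_lit 6723772034) (nat_lit 380) (nat_lit 2795692459) (nat_lit 76) (nat_lit 9477655284) (nat_lit 89) (nat_lit 5) (nat_lit 94) (nat_lit 5) (nat_lit 90) (nat_lit 5) (nat_lit 643) (nat_lit 531) (nat_lit 386)))))) (XT.nd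 (nat_lit 468) (nat_lit 304) (nat_lit 0) (XT.nd (nat_lit 234) (nat_lit 456) (nat_lit 0) (XT.nd (nat_lit 78) (nat_lit 304) (nat_lit 0) (XT.lf (nat_lit 0) (nat_lit 8894253154) (nat_lit 228) (nat_lit 2954932003) (nat_lit 304) (nat_lit 7390460782) (nat_lit 86) (nat_lit 5) (nat_lit 89) (nat_lit 5) (nat_lit 90) (nat_lit 5) (nat_lit 644) (nat_lit 531) (nat_lit 385)) (XT.nd (nat_lit 78) (nat_lit 76) (nat_lit 0) (XT.lf (nat_lit 0) (nat_lit 1339014150) (nat_lit 228) (nat_lit 15776193073) (nat_lit 304) (nat_lit 2371054220) (nat_lit 83) (nat_lit 5) (nat_lit 86) (nat_lit 5) (nat_lit 87) (nat_lit 5) (nat_lit 645) (nat_lit 531) (nat_lit 384)) (XT.lf (nat_lit 0) (nat_lit 2788403810) (nat_lit 304) (nat_lit 6400363368) (nat_lit 76) (nat_lit 10547171672) (nat_lit 82) (nat_lit 5) (nat_lit 86) (nat_lit 5) (nat_lit 83) (nat_lit 5) (nat_lit 646) (nat_lit 531) (nat_lit 383)))) (XT.nd (nat_lit 78) (nat_lit 228) (nat_lit 0) (XT.lf (nat_lit 0) (nat_lit 5616465044) (nat_lit 228) (nat_lit 2425864105)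 (nat_lit 304) (nat_lit 11947507453) (nat_lit 79) (nat_lit 5) (nat_lit 82) (nat_lit 5) (nat_lit 83) (nat_lit 5) (nat_lit 647) (nat_lit 531) (nat_lit 382)) (XT.nd (nat_lit 78) (nat_lit 228) (nat_lit 0) (XT.lf (nat_lit 0) (nat_lit 13460190144) (nat_lit 304) (nat_lit 2339893513) (nat_lit 76) (nat_lit 4447552277) (nat_lit 79) (nat_lit 5) (nat_lit 83) (nat_lit 5) (nat_lit 80) (nat_lit 5) (nat_lit 648) (nat_lit 531) (nat_lit 381)) (XT.lf (nat_lit 0) (nat_lit 10027140362) (nat_lit 228) (nat_lit 9027284977) (nat_lit 304) (nat_lit 1454806324) (nat_lit 76) (nat_lit 5) (nat_lit 79) (nat_lit 5) (nat_lit 80) (nat_lit 5) (nat_lit 649) (nat_lit 531) (nat_lit 380))))) (XT.nd (nat_lit 72072) (nat_lit 0) (nat_lit 45524) (XT.nd (nat_lit 78) (nat_lit 0) (nat_lit 0) (XT.lf (nat_lit 0) (nat_lit 1873502003) (nat_lit 228) (nat_lit 2073570712) (nat_lit 304) (nat_lit 16828173036) (nat_lit 72) (nat_lit 5) (nat_lit 75) (nat_lit 5) (nat_lit 76) (nat_lit 5) (nat_lit 650) (nat_lit 531) (nat_lit 379))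 (XT.nd (nat_lit 71916) (nat_lit 0) (nat_lit 47272) (XT.lf (nat_lit 0) (nat_lit 9527846623) (nat_lit 304) (nat_lit 6492201210) (nat_lit 76) (nat_lit 5024533927) (nat_lit 72) (nat_lit 5) (nat_lit 76) (nat_lit 5) (nat_lit 73) (nat_lit 5) (nat_lit 651) (nat_lit 531) (nat_lit 378)) (XT.lf (nat_lit 0) (nat_lit 2556449710) (nat_lit 836) (nat_lit 401049227) (nat_lit 836) (nat_lit 401049227) (nat_lit 694) (nat_lit 3) (nat_lit 705) (nat_lit 3) (nat_lit 705) (nat_lit 5) (nat_lit 532) (nat_lit 532) (nat_lit 496)))) (XT.nd (nat_lit 156) (nat_lit 912) (nat_lit 0) (XT.nd (nat_lit 78) (nat_lit 0) (nat_lit 0) (XT.lf (nat_lit 0) (nat_lit 572612078) (nat_lit 836) (nat_lit 4208006277) (nat_lit 912) (nat_lit 1959940874) (nat_lit 683) (nat_lit 5) (nat_lit 694) (nat_lit 3) (nat_lit 695) (nat_lit 5) (nat_lit 533) (nat_lit 532) (nat_lit 495)) (XT.lf (nat_lit 0) (nat_lit 2720198554) (nat_lit 836) (nat_lit 860059391) (nat_lit 912) (nat_lit 3185059697) (nat_lit 683) (nat_lit 5) (nat_lit 694) (nat_lit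 3) (nat_lit 695) (nat_lit 5) (nat_lit 534) (nat_lit 532) (nat_lit 494))) (XT.nd (nat_lit 78) (nat_lit 912) (nat_lit 0) (XT.lf (nat_lit 76) (nat_lit 2559208727) (nat_lit 0) (nat_lit 2312539481) (nat_lit 912) (nat_lit 1919615294) (nat_lit 684) (nat_lit 5) (nat_lit 683) (nat_lit 5) (nat_lit 695) (nat_lit 5) (nat_lit 535) (nat_lit 532) (nat_lit 493)) (XT.lf (nat_lit 0) (nat_lit 195873387) (nat_lit 912) (nat_lit 790699338) (nat_lit 988) (nat_lit 5832322671) (nat_lit 671) (nat_lit 5) (nat_lit 683) (nat_lit 5) (nat_lit 684) (nat_lit 5) (nat_lit 536) (nat_lit 532) (nat_lit 492))))))))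
noncomputable def xc112 : XT := (XT.nd (nat_lit 1950) (nat_lit 16188) (nat_lit 0) (XT.nd (nat_lit 936) (nat_lit 8056) (nat_lit 0) (XT.nd (nat_lit 468) (nat_lit 2052) (nat_lit 0) (XT.nd (nat_lit 234) (nat_lit 988) (nat_lit 0) (XT.nd (nat_lit 78) (nat_lit 0) (nat_lit 0) (XT.lf (nat_lit 0) (nat_lit 2294349352) (nat_lit 912) (nat_lit 4136913726) (nat_lit 988) (nat_lit 416145242) (nat_lit 672) (nat_lit 5) (nat_lit 684) (nat_lit 5) (nat_lit 685) (nat_lit 5) (nat_lit 537) (nat_lit 532) (nat_lit 491)) (XT.nd (nat_lit 78) (nat_lit 0) (nat_lit 0) (XT.lf (nat_lit 0) (nat_lit 4393699853) (nat_lit 912) (nat_lit 620733153) (nat_lit 988) (nat_lit 1862891951) (nat_lit 672) (nat_lit 5) (nat_lit 684) (nat_lit 5) (nat_lit 685) (nat_lit 5) (nat_lit 538) (nat_lit 532) (nat_lit 490)) (XT.lf (nat_lit 76) (nat_lit 2975173732) (nat_lit 0) (nat_lit 3527249331) (nat_lit 988) (nat_lit 406080481) (nat_lit 673) (nat_lit 5) (nat_lit 672) (nat_lit 5) (nat_lit 685) (nat_lit 5) (nat_lit 539) (nat_lit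 532) (nat_lit 489)))) (XT.nd (nat_lit 78) (nat_lit 0) (nat_lit 0) (XT.lf (nat_lit 0) (nat_lit 1643288292) (nat_lit 988) (nat_lit 330076117) (nat_lit 1064) (nat_lit 4967674947) (nat_lit 659) (nat_lit 5) (nat_lit 672) (nat_lit 5) (nat_lit 673) (nat_lit 5) (nat_lit 540) (nat_lit 532) (nat_lit 488)) (XT.nd (nat_lit 78) (nat_lit 0) (nat_lit 76) (XT.lf (nat_lit 76) (nat_lit 3357055227) (nat_lit 0) (nat_lit 342508722) (nat_lit 1064) (nat_lit 3275191789) (nat_lit 660) (nat_lit 5) (nat_lit 659) (nat_lit 5) (nat_lit 673) (nat_lit 5) (nat_lit 541) (nat_lit 532) (nat_lit 487)) (XT.lf (nat_lit 76) (nat_lit 75229167) (nat_lit 0) (nat_lit 5683516782) (nat_lit 1064) (nat_lit 1251175350) (nat_lit 661) (nat_lit 5) (nat_lit 660) (nat_lit 5) (nat_lit 674) (nat_lit 5) (nat_lit 542) (nat_lit 532) (nat_lit 486))))) (XT.nd (nat_lit 234) (nat_lit 1064) (nat_lit 0) (XT.nd (nat_lit 78) (nat_lit 0) (nat_lit 0) (XT.lf (nat_lit 0) (nat_lit 780287881) (nat_lit 1064) (nat_lit 3192887291) (nat_lit 1140)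 (nat_lit 3072966781) (nat_lit 646) (nat_lit 5) (nat_lit 660) (nat_lit 5) (nat_lit 661) (nat_lit 5) (nat_lit 543) (nat_lit 532) (nat_lit 485)) (XT.nd (nat_lit 78) (nat_lit 0) (nat_lit 0) (XT.lf (nat_lit 76) (nat_lit 592921128) (nat_lit 0) (nat_lit 2198461115) (nat_lit 1140) (nat_lit 4292434132) (nat_lit 647) (nat_lit 5) (nat_lit 646) (nat_lit 5) (nat_lit 661) (nat_lit 5) (nat_lit 544) (nat_lit 532) (nat_lit 484)) (XT.lf (nat_lit 76) (nat_lit 4467602782) (nat_lit 0) (nat_lit 349159230) (nat_lit 1140) (nat_lit 2306010674) (nat_lit 647) (nat_lit 5) (nat_lit 646) (nat_lit 5) (nat_lit 661) (nat_lit 5) (nat_lit 545) (nat_lit 532) (nat_lit 483)))) (XT.nd (nat_lit 78) (nat_lit 1140) (nat_lit 0) (XT.lf (nat_lit 76) (nat_lit 1232878715) (nat_lit 0) (nat_lit 5621431358) (nat_lit 1140) (nat_lit 308774317) (nat_lit 648) (nat_lit 5) (nat_lit 647) (nat_lit 5) (nat_lit 662) (nat_lit 5) (nat_lit 546) (nat_lit 532) (nat_lit 482)) (XT.nd (nat_lit 78) (nat_lit 0) (nat_lit 0) (XT.lf (nat_lit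 0) (nat_lit 1680062096) (nat_lit 1140) (nat_lit 2013817244) (nat_lit 1216) (nat_lit 3510621185) (nat_lit 632) (nat_lit 5) (nat_lit 647) (nat_lit 5) (nat_lit 648) (nat_lit 5) (nat_lit 547) (nat_lit 532) (nat_lit 481)) (XT.lf (nat_lit 76) (nat_lit 1974357131) (nat_lit 0) (nat_lit 1697982592) (nat_lit 1216) (nat_lit 3575017396) (nat_lit 633) (nat_lit 5) (nat_lit 632) (nat_lit 5) (nat_lit 648) (nat_lit 5) (nat_lit 548) (nat_lit 532) (nat_lit 480)))))) (XT.nd (nat_lit 468) (nat_lit 5700) (nat_lit 0) (XT.nd (nat_lit 234) (nat_lit 1216) (nat_lit 0) (XT.nd (nat_lit 78) (nat_lit 1216) (nat_lit 0) (XT.lf (nat_lit 0) (nat_lit 5676014516) (nat_lit 1140) (nat_lit 1254669086) (nat_lit 1216) (nat_lit 360964968) (nat_lit 633) (nat_lit 5) (nat_lit 648) (nat_lit 5) (nat_lit 649) (nat_lit 5) (nat_lit 549) (nat_lit 532) (nat_lit 479)) (XT.nd (nat_lit 78) (nat_lit 0) (nat_lit 0) (XT.lf (nat_lit 0) (nat_lit 364118501) (nat_lit 1216) (nat_lit 4500047465) (nat_lit 1292) (nat_lit 2472894500)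 (nat_lit 617) (nat_lit 5) (nat_lit 633) (nat_lit 5) (nat_lit 634) (nat_lit 5) (nat_lit 550) (nat_lit 532) (nat_lit 478)) (XT.lf (nat_lit 0) (nat_lit 2327312837) (nat_lit 1216) (nat_lit 397377305) (nat_lit 1292) (nat_lit 4659175522) (nat_lit 617) (nat_lit 5) (nat_lit 633) (nat_lit 5) (nat_lit 634) (nat_lit 5) (nat_lit 551) (nat_lit 532) (nat_lit 477)))) (XT.nd (nat_lit 78) (nat_lit 1216) (nat_lit 0) (XT.lf (nat_lit 76) (nat_lit 3806935812) (nat_lit 0) (nat_lit 505380439) (nat_lit 1292) (nat_lit 3119647904) (nat_lit 618) (nat_lit 5) (nat_lit 617) (nat_lit 5) (nat_lit 634) (nat_lit 5) (nat_lit 552) (nat_lit 532) (nat_lit 476)) (XT.nd (nat_lit 78) (nat_lit 76) (nat_lit 0) (XT.lf (nat_lit 0) (nat_lit 584935926) (nat_lit 1216) (nat_lit 5728515300) (nat_lit 1292) (nat_lit 1168052693) (nat_lit 602) (nat_lit 5) (nat_lit 618) (nat_lit 5) (nat_lit 619) (nat_lit 5) (nat_lit 553) (nat_lit 532) (nat_lit 475)) (XT.lf (nat_lit 0) (nat_lit 798487882) (nat_lit 1292) (nat_lit 2643561176)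 (nat_lit 76) (nat_lit 4090152196) (nat_lit 601) (nat_lit 5) (nat_lit 618) (nat_lit 5) (nat_lit 602) (nat_lit 5) (nat_lit 554) (nat_lit 532) (nat_lit 474))))) (XT.nd (nat_lit 234) (nat_lit 3040) (nat_lit 0) (XT.nd (nat_lit 78) (nat_lit 1368) (nat_lit 0) (XT.lf (nat_lit 0) (nat_lit 1677990987) (nat_lit 1292) (nat_lit 1081311655) (nat_lit 1368) (nat_lit 4825051281) (nat_lit 584) (nat_lit 5) (nat_lit 601) (nat_lit 5) (nat_lit 602) (nat_lit 5) (nat_lit 555) (nat_lit 532) (nat_lit 473)) (XT.nd (nat_lit 78) (nat_lit 1368) (nat_lit 0) (XT.lf (nat_lit 0) (nat_lit 4746130178) (nat_lit 1368) (nat_lit 1555562757) (nat_lit 76) (nat_lit 1336128110) (nat_lit 584) (nat_lit 5) (nat_lit 602) (nat_lit 5) (nat_lit 585) (nat_lit 5) (nat_lit 556) (nat_lit 532) (nat_lit 472)) (XT.lf (nat_lit 0) (nat_lit 2882062408) (nat_lit 1368) (nat_lit 3877608926) (nat_lit 1444) (nat_lit 932953819) (nat_lit 566) (nat_lit 5) (nat_lit 584) (nat_lit 5) (nat_lit 585) (nat_lit 5) (nat_lit 557) (nat_lit 532) (nat_lit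 471)))) (XT.nd (nat_lit 156) (nat_lit 1520) (nat_lit 0) (XT.nd (nat_lit 78) (nat_lit 1444) (nat_lit 0) (XT.lf (nat_lit 0) (nat_lit 1022905452) (nat_lit 1444) (nat_lit 356919722) (nat_lit 76) (nat_lit 6369130494) (nat_lit 565) (nat_lit 5) (nat_lit 584) (nat_lit 5) (nat_lit 566) (nat_lit 5) (nat_lit 558) (nat_lit 532) (nat_lit 470)) (XT.lf (nat_lit 0) (nat_lit 3002713452) (nat_lit 1520) (nat_lit 3610137023) (nat_lit 76) (nat_lit 1193499276) (nat_lit 546) (nat_lit 5) (nat_lit 566) (nat_lit 5) (nat_lit 547) (nat_lit 5) (nat_lit 559) (nat_lit 532) (nat_lit 469))) (XT.nd (nat_lit 78) (nat_lit 0) (nat_lit 0) (XT.lf (nat_lit 0) (nat_lit 952610233) (nat_lit 1520) (nat_lit 4049994918) (nat_lit 1596) (nat_lit 2862683453) (nat_lit 526) (nat_lit 5) (nat_lit 546) (nat_lit 5) (nat_lit 547) (nat_lit 5) (nat_lit 560) (nat_lit 532) (nat_lit 468)) (XT.lf (nat_lit 0) (nat_lit 5624621810) (nat_lit 1520) (nat_lit 1405381981) (nat_lit 1596) (nat_lit 895658768) (nat_lit 526) (nat_lit 5) (nat_lit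 546) (nat_lit 5) (nat_lit 547) (nat_lit 5) (nat_lit 561) (nat_lit 532) (nat_lit 467))))))) (XT.nd (nat_lit 936) (nat_lit 6460) (nat_lit 0) (XT.nd (nat_lit 468) (nat_lit 2888) (nat_lit 0) (XT.nd (nat_lit 234) (nat_lit 3496) (nat_lit 0) (XT.nd (nat_lit 78) (nat_lit 1672) (nat_lit 0) (XT.lf (nat_lit 0) (nat_lit 1084031080) (nat_lit 1672) (nat_lit 5599858278) (nat_lit 76) (nat_lit 1303458825) (nat_lit 504) (nat_lit 5) (nat_lit 526) (nat_lit 5) (nat_lit 505) (nat_lit 5) (nat_lit 562) (nat_lit 532) (nat_lit 466)) (XT.nd (nat_lit 78) (nat_lit 1672) (nat_lit 0) (XT.lf (nat_lit 0) (nat_lit 3080487296) (nat_lit 1672) (nat_lit 895677014) (nat_lit 76) (nat_lit 4074207626) (nat_lit 504) (nat_lit 5) (nat_lit 526) (nat_lit 5) (nat_lit 505) (nat_lit 5) (nat_lit 563) (nat_lit 532) (nat_lit 465)) (XT.lf (nat_lit 0) (nat_lit 3923297763) (nat_lit 1672) (nat_lit 1184051066) (nat_lit 1748) (nat_lit 3007503825) (nat_lit 482) (nat_lit 5) (nat_lit 504) (nat_lit 5) (nat_lit 505) (nat_lit 5) (nat_lit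 564) (nat_lit 532) (nat_lit 464)))) (XT.nd (nat_lit 78) (nat_lit 1748) (nat_lit 0) (XT.lf (nat_lit 0) (nat_lit 636531230) (nat_lit 1748) (nat_lit 6524719780) (nat_lit 1824) (nat_lit 1019647802) (nat_lit 459) (nat_lit 5) (nat_lit 482) (nat_lit 5) (nat_lit 483) (nat_lit 5) (nat_lit 565) (nat_lit 532) (nat_lit 463)) (XT.nd (nat_lit 78) (nat_lit 1672) (nat_lit 0) (XT.lf (nat_lit 0) (nat_lit 996661655) (nat_lit 1824) (nat_lit 2675798103) (nat_lit 76) (nat_lit 4575642593) (nat_lit 458) (nat_lit 5) (nat_lit 482) (nat_lit 5) (nat_lit 459) (nat_lit 5) (nat_lit 566) (nat_lit 532) (nat_lit 462)) (XT.lf (nat_lit 0) (nat_lit 2282423135) (nat_lit 1672) (nat_lit 738484956) (nat_lit 1748) (nat_lit 5295987348) (nat_lit 436) (nat_lit 5) (nat_lit 458) (nat_lit 5) (nat_lit 459) (nat_lit 5) (nat_lit 567) (nat_lit 532) (nat_lit 461))))) (XT.nd (nat_lit 234) (nat_lit 912) (nat_lit 0) (XT.nd (nat_lit 78) (nat_lit 1976) (nat_lit 0) (XT.lf (nat_lit 0) (nat_lit 5085256590) (nat_lit 1748) (nat_lit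 1056761166) (nat_lit 76) (nat_lit 2245059737) (nat_lit 436) (nat_lit 5) (nat_lit 459) (nat_lit 5) (nat_lit 437) (nat_lit 5) (nat_lit 568) (nat_lit 532) (nat_lit 460)) (XT.nd (nat_lit 78) (nat_lit 988) (nat_lit 0) (XT.lf (nat_lit 0) (nat_lit 4037804048) (nat_lit 988) (nat_lit 3151750272) (nat_lit 1064) (nat_lit 1269140961) (nat_lit 423) (nat_lit 5) (nat_lit 436) (nat_lit 5) (nat_lit 437) (nat_lit 5) (nat_lit 569) (nat_lit 532) (nat_lit 459)) (XT.lf (nat_lit 0) (nat_lit 689762687) (nat_lit 912) (nat_lit 83275673) (nat_lit 988) (nat_lit 7759019910) (nat_lit 410) (nat_lit 5) (nat_lit 422) (nat_lit 5) (nat_lit 423) (nat_lit 5) (nat_lit 570) (nat_lit 532) (nat_lit 458)))) (XT.nd (nat_lit 78) (nat_lit 912) (nat_lit 0) (XT.lf (nat_lit 0) (nat_lit 2856941200) (nat_lit 988) (nat_lit 2703561309) (nat_lit 76) (nat_lit 3045865787) (nat_lit 410) (nat_lit 5) (nat_lit 423) (nat_lit 5) (nat_lit 411) (nat_lit 5) (nat_lit 571) (nat_lit 532) (nat_lit 457)) (XT.nd (nat_lit 78) (nat_lit 0)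 (nat_lit 0) (XT.lf (nat_lit 0) (nat_lit 2539883226) (nat_lit 912) (nat_lit 2428518738) (nat_lit 988) (nat_lit 3714049891) (nat_lit 398) (nat_lit 5) (nat_lit 410) (nat_lit 5) (nat_lit 411) (nat_lit 5) (nat_lit 572) (nat_lit 532) (nat_lit 456)) (XT.lf (nat_lit 0) (nat_lit 7114579290) (nat_lit 988) (nat_lit 871186147) (nat_lit 76) (nat_lit 774446738) (nat_lit 398) (nat_lit 5) (nat_lit 411) (nat_lit 5) (nat_lit 399) (nat_lit 5) (nat_lit 573) (nat_lit 532) (nat_lit 455)))))) (XT.nd (nat_lit 468) (nat_lit 3040) (nat_lit 0) (XT.nd (nat_lit 234) (nat_lit 1672) (nat_lit 0) (XT.nd (nat_lit 78) (nat_lit 836) (nat_lit 0) (XT.lf (nat_lit 0) (nat_lit 473433068) (nat_lit 912) (nat_lit 4324173283) (nat_lit 76) (nat_lit 4041558365) (nat_lit 386) (nat_lit 5) (nat_lit 398) (nat_lit 5) (nat_lit 387) (nat_lit 5) (nat_lit 574) (nat_lit 532) (nat_lit 454)) (XT.nd (nat_lit 78) (nat_lit 0) (nat_lit 0) (XT.lf (nat_lit 0) (nat_lit 1073433283) (nat_lit 836) (nat_lit 1522332570) (nat_lit 912) (nat_lit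 6324059047) (nat_lit 375) (nat_lit 5) (nat_lit 386) (nat_lit 5) (nat_lit 387) (nat_lit 5) (nat_lit 575) (nat_lit 532) (nat_lit 453)) (XT.lf (nat_lit 0) (nat_lit 4771988761) (nat_lit 912) (nat_lit 2407125818) (nat_lit 76) (nat_lit 1822759307) (nat_lit 375) (nat_lit 5) (nat_lit 387) (nat_lit 5) (nat_lit 376) (nat_lit 5) (nat_lit 576) (nat_lit 532) (nat_lit 452)))) (XT.nd (nat_lit 78) (nat_lit 912) (nat_lit 0) (XT.lf (nat_lit 0) (nat_lit 3141439822) (nat_lit 760) (nat_lit 3851781402) (nat_lit 836) (nat_lit 2092317306) (nat_lit 365) (nat_lit 5) (nat_lit 375) (nat_lit 5) (nat_lit 376) (nat_lit 5) (nat_lit 577) (nat_lit 532) (nat_lit 451)) (XT.nd (nat_lit 78) (nat_lit 836) (nat_lit 0) (XT.lf (nat_lit 0) (nat_lit 74292184) (nat_lit 836) (nat_lit 368415904) (nat_lit 76) (nat_lit 8728412269) (nat_lit 364) (nat_lit 5) (nat_lit 375) (nat_lit 5) (nat_lit 365) (nat_lit 5) (nat_lit 578) (nat_lit 532) (nat_lit 450)) (XT.lf (nat_lit 0) (nat_lit 2282706879) (nat_lit 912) (nat_lit 3933186883)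 (nat_lit 76) (nat_lit 3041717800) (nat_lit 353) (nat_lit 5) (nat_lit 365) (nat_lit 5) (nat_lit 354) (nat_lit 5) (nat_lit 579) (nat_lit 532) (nat_lit 449))))) (XT.nd (nat_lit 234) (nat_lit 1520) (nat_lit 0) (XT.nd (nat_lit 78) (nat_lit 760) (nat_lit 0) (XT.lf (nat_lit 0) (nat_lit 1780196186) (nat_lit 760) (nat_lit 2744167426) (nat_lit 836) (nat_lit 4821691549) (nat_lit 343) (nat_lit 5) (nat_lit 353) (nat_lit 5) (nat_lit 354) (nat_lit 5) (nat_lit 580) (nat_lit 532) (nat_lit 448)) (XT.nd (nat_lit 78) (nat_lit 760) (nat_lit 0) (XT.lf (nat_lit 0) (nat_lit 6815023837) (nat_lit 836) (nat_lit 1810799070) (nat_lit 76) (nat_lit 810365286) (nat_lit 343) (nat_lit 5) (nat_lit 354) (nat_lit 5) (nat_lit 344) (nat_lit 5) (nat_lit 581) (nat_lit 532) (nat_lit 447)) (XT.lf (nat_lit 0) (nat_lit 4064224906) (nat_lit 760) (nat_lit 5104801138) (nat_lit 836) (nat_lit 358751154) (nat_lit 333) (nat_lit 5) (nat_lit 343) (nat_lit 5) (nat_lit 344) (nat_lit 5) (nat_lit 582) (nat_lit 532) (nat_lit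 446)))) (XT.nd (nat_lit 156) (nat_lit 760) (nat_lit 0) (XT.nd (nat_lit 78) (nat_lit 0) (nat_lit 0) (XT.lf (nat_lit 0) (nat_lit 422721564) (nat_lit 684) (nat_lit 1488727012) (nat_lit 760) (nat_lit 7709738100) (nat_lit 323) (nat_lit 5) (nat_lit 332) (nat_lit 5) (nat_lit 333) (nat_lit 5) (nat_lit 583) (nat_lit 532) (nat_lit 445)) (XT.lf (nat_lit 0) (nat_lit 4246869889) (nat_lit 760) (nat_lit 3262589834) (nat_lit 76) (nat_lit 2206468434) (nat_lit 323) (nat_lit 5) (nat_lit 333) (nat_lit 5) (nat_lit 324) (nat_lit 5) (nat_lit 584) (nat_lit 532) (nat_lit 444))) (XT.nd (nat_lit 78) (nat_lit 0) (nat_lit 0) (XT.lf (nat_lit 0) (nat_lit 2788580092) (nat_lit 760) (nat_lit 3842333917) (nat_lit 836) (nat_lit 3181615764) (nat_lit 313) (nat_lit 5) (nat_lit 323) (nat_lit 5) (nat_lit 324) (nat_lit 5) (nat_lit 585) (nat_lit 532) (nat_lit 443)) (XT.lf (nat_lit 0) (nat_lit 8975060482) (nat_lit 760) (nat_lit 83738583) (nat_lit 836) (nat_lit 852344677) (nat_lit 313) (nat_lit 5) (nat_lit 323)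 (nat_lit 5) (nat_lit 324) (nat_lit 5) (nat_lit 586) (nat_lit 532) (nat_lit 442))))))))
noncomputable def xc113 : XT := (XT.nd (nat_lit 1950) (nat_lit 6308) (nat_lit 0) (XT.nd (nat_lit 936) (nat_lit 4256) (nat_lit 0) (XT.nd (nat_lit 468) (nat_lit 2432) (nat_lit 0) (XT.nd (nat_lit 234) (nat_lit 1368) (nat_lit 0) (XT.nd (nat_lit 78) (nat_lit 684) (nat_lit 0) (XT.lf (nat_lit 0) (nat_lit 1537178427) (nat_lit 760) (nat_lit 4732454948) (nat_lit 76) (nat_lit 3741229214) (nat_lit 303) (nat_lit 5) (nat_lit 313) (nat_lit 5) (nat_lit 304) (nat_lit 5) (nat_lit 587) (nat_lit 532) (nat_lit 441)) (XT.nd (nat_lit 78) (nat_lit 0) (nat_lit 0) (XT.lf (nat_lit 0) (nat_lit 1500897395) (nat_lit 684) (nat_lit 2453693341) (nat_lit 760) (nat_lit 6158045482) (nat_lit 294) (nat_lit 5) (nat_lit 303) (nat_lit 5) (nat_lit 304) (nat_lit 5) (nat_lit 588) (nat_lit 532) (nat_lit 440)) (XT.lf (nat_lit 0) (nat_lit 6436804459) (nat_lit 760) (nat_lit 2332537851) (nat_lit 76) (nat_lit 1446777201) (nat_lit 294)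 (nat_lit 5) (nat_lit 304) (nat_lit 5) (nat_lit 295) (nat_lit 5) (nat_lit 589) (nat_lit 532) (nat_lit 439)))) (XT.nd (nat_lit 78) (nat_lit 760) (nat_lit 0) (XT.lf (nat_lit 0) (nat_lit 4079854861) (nat_lit 608) (nat_lit 4907179156) (nat_lit 684) (nat_lit 1334274212) (nat_lit 286) (nat_lit 5) (nat_lit 294) (nat_lit 5) (nat_lit 295) (nat_lit 5) (nat_lit 590) (nat_lit 532) (nat_lit 438)) (XT.nd (nat_lit 78) (nat_lit 0) (nat_lit 0) (XT.lf (nat_lit 0) (nat_lit 188889389) (nat_lit 684) (nat_lit 948308213) (nat_lit 760) (nat_lit 9291400811) (nat_lit 276) (nat_lit 5) (nat_lit 285) (nat_lit 5) (nat_lit 286) (nat_lit 5) (nat_lit 591) (nat_lit 532) (nat_lit 437)) (XT.lf (nat_lit 0) (nat_lit 3678474619) (nat_lit 760) (nat_lit 3763958073) (nat_lit 76) (nat_lit 3094663489) (nat_lit 276) (nat_lit 5) (nat_lit 286) (nat_lit 5) (nat_lit 277) (nat_lit 5) (nat_lit 592) (nat_lit 532) (nat_lit 436))))) (XT.nd (nat_lit 234) (nat_lit 1140) (nat_lit 0) (XT.nd (nat_lit 78) (nat_lit 684) (nat_lit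 0) (XT.lf (nat_lit 0) (nat_lit 2842870688) (nat_lit 608) (nat_lit 3428918541) (nat_lit 684) (nat_lit 4375953382) (nat_lit 268) (nat_lit 5) (nat_lit 276) (nat_lit 5) (nat_lit 277) (nat_lit 5) (nat_lit 593) (nat_lit 532) (nat_lit 435)) (XT.nd (nat_lit 78) (nat_lit 684) (nat_lit 0) (XT.lf (nat_lit 0) (nat_lit 8923418838) (nat_lit 684) (nat_lit 1161400514) (nat_lit 76) (nat_lit 675656532) (nat_lit 268) (nat_lit 5) (nat_lit 277) (nat_lit 5) (nat_lit 269) (nat_lit 5) (nat_lit 594) (nat_lit 532) (nat_lit 434)) (XT.lf (nat_lit 0) (nat_lit 779456171) (nat_lit 684) (nat_lit 5242797072) (nat_lit 76) (nat_lit 4852381435) (nat_lit 259) (nat_lit 5) (nat_lit 268) (nat_lit 5) (nat_lit 260) (nat_lit 5) (nat_lit 595) (nat_lit 532) (nat_lit 433)))) (XT.nd (nat_lit 78) (nat_lit 608) (nat_lit 0) (XT.lf (nat_lit 0) (nat_lit 1564860062) (nat_lit 532) (nat_lit 1854140863) (nat_lit 608) (nat_lit 7571929597) (nat_lit 252) (nat_lit 5) (nat_lit 259) (nat_lit 5) (nat_lit 260) (nat_lit 5) (nat_lit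 596) (nat_lit 532) (nat_lit 432)) (XT.nd (nat_lit 78) (nat_lit 608) (nat_lit 0) (XT.lf (nat_lit 0) (nat_lit 6139802492) (nat_lit 608) (nat_lit 2574334939) (nat_lit 76) (nat_lit 2394848202) (nat_lit 252) (nat_lit 5) (nat_lit 260) (nat_lit 5) (nat_lit 253) (nat_lit 5) (nat_lit 597) (nat_lit 532) (nat_lit 431)) (XT.lf (nat_lit 0) (nat_lit 4431426090) (nat_lit 608) (nat_lit 4502572204) (nat_lit 684) (nat_lit 2295026606) (nat_lit 244) (nat_lit 5) (nat_lit 252) (nat_lit 5) (nat_lit 253) (nat_lit 5) (nat_lit 598) (nat_lit 532) (nat_lit 430)))))) (XT.nd (nat_lit 468) (nat_lit 1976) (nat_lit 0) (XT.nd (nat_lit 234) (nat_lit 1140) (nat_lit 0) (XT.nd (nat_lit 78) (nat_lit 532) (nat_lit 0) (XT.lf (nat_lit 0) (nat_lit 232247630) (nat_lit 532) (nat_lit 191616099) (nat_lit 608) (nat_lit 10927609073) (nat_lit 236) (nat_lit 5) (nat_lit 243) (nat_lit 5) (nat_lit 244) (nat_lit 5) (nat_lit 599) (nat_lit 532) (nat_lit 429)) (XT.nd (nat_lit 78) (nat_lit 532) (nat_lit 0) (XT.lf (nat_lit 0)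 (nat_lit 3217878464) (nat_lit 608) (nat_lit 4052584020) (nat_lit 76) (nat_lit 4204576703) (nat_lit 236) (nat_lit 5) (nat_lit 244) (nat_lit 5) (nat_lit 237) (nat_lit 5) (nat_lit 600) (nat_lit 532) (nat_lit 428)) (XT.lf (nat_lit 0) (nat_lit 3167074702) (nat_lit 532) (nat_lit 2901182908) (nat_lit 608) (nat_lit 5532812023) (nat_lit 229) (nat_lit 5) (nat_lit 236) (nat_lit 5) (nat_lit 237) (nat_lit 5) (nat_lit 601) (nat_lit 532) (nat_lit 427)))) (XT.nd (nat_lit 78) (nat_lit 1140) (nat_lit 0) (XT.lf (nat_lit 0) (nat_lit 8991957967) (nat_lit 608) (nat_lit 1182068012) (nat_lit 76) (nat_lit 1555270808) (nat_lit 229) (nat_lit 5) (nat_lit 237) (nat_lit 5) (nat_lit 230) (nat_lit 5) (nat_lit 602) (nat_lit 532) (nat_lit 426)) (XT.nd (nat_lit 78) (nat_lit 532) (nat_lit 0) (XT.lf (nat_lit 0) (nat_lit 151847289) (nat_lit 608) (nat_lit 5610870298) (nat_lit 76) (nat_lit 6096572383) (nat_lit 221) (nat_lit 5) (nat_lit 229) (nat_lit 5) (nat_lit 222) (nat_lit 5) (nat_lit 603) (nat_lit 532) (nat_lit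 425)) (XT.lf (nat_lit 0) (nat_lit 1829327964) (nat_lit 532) (nat_lit 1232073431) (nat_lit 608) (nat_lit 8930137235) (nat_lit 214) (nat_lit 5) (nat_lit 221) (nat_lit 5) (nat_lit 222) (nat_lit 5) (nat_lit 604) (nat_lit 532) (nat_lit 424))))) (XT.nd (nat_lit 234) (nat_lit 988) (nat_lit 0) (XT.nd (nat_lit 78) (nat_lit 988) (nat_lit 0) (XT.lf (nat_lit 0) (nat_lit 6068566300) (nat_lit 608) (nat_lit 2682020665) (nat_lit 76) (nat_lit 3375059092) (nat_lit 214) (nat_lit 5) (nat_lit 222) (nat_lit 5) (nat_lit 215) (nat_lit 5) (nat_lit 605) (nat_lit 532) (nat_lit 423)) (XT.nd (nat_lit 78) (nat_lit 532) (nat_lit 0) (XT.lf (nat_lit 0) (nat_lit 4976971627) (nat_lit 456) (nat_lit 4179291441) (nat_lit 532) (nat_lit 3105766941) (nat_lit 208) (nat_lit 5) (nat_lit 214) (nat_lit 5) (nat_lit 215) (nat_lit 5) (nat_lit 606) (nat_lit 532) (nat_lit 422)) (XT.lf (nat_lit 0) (nat_lit 398606653) (nat_lit 532) (nat_lit 11911028906) (nat_lit 608) (nat_lit 91429751) (nat_lit 201) (nat_lit 5) (nat_lit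 208) (nat_lit 5) (nat_lit 209) (nat_lit 5) (nat_lit 607) (nat_lit 532) (nat_lit 421)))) (XT.nd (nat_lit 156) (nat_lit 456) (nat_lit 0) (XT.nd (nat_lit 78) (nat_lit 456) (nat_lit 0) (XT.lf (nat_lit 0) (nat_lit 3001111790) (nat_lit 608) (nat_lit 4282739559) (nat_lit 76) (nat_lit 5257503758) (nat_lit 200) (nat_lit 5) (nat_lit 208) (nat_lit 5) (nat_lit 201) (nat_lit 5) (nat_lit 608) (nat_lit 532) (nat_lit 420)) (XT.lf (nat_lit 0) (nat_lit 3610511330) (nat_lit 456) (nat_lit 2547755667) (nat_lit 532) (nat_lit 6526093858) (nat_lit 194) (nat_lit 5) (nat_lit 200) (nat_lit 5) (nat_lit 201) (nat_lit 5) (nat_lit 609) (nat_lit 532) (nat_lit 419))) (XT.nd (nat_lit 78) (nat_lit 456) (nat_lit 0) (XT.lf (nat_lit 0) (nat_lit 9403012652) (nat_lit 532) (nat_lit 1152746383) (nat_lit 76) (nat_lit 2273980680) (nat_lit 194) (nat_lit 5) (nat_lit 201) (nat_lit 5) (nat_lit 195) (nat_lit 5) (nat_lit 610) (nat_lit 532) (nat_lit 418)) (XT.lf (nat_lit 0) (nat_lit 6974156056) (nat_lit 456) (nat_lit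 5781723533) (nat_lit 532) (nat_lit 221283943) (nat_lit 188) (nat_lit 5) (nat_lit 194) (nat_lit 5) (nat_lit 195) (nat_lit 5) (nat_lit 611) (nat_lit 532) (nat_lit 417))))))) (XT.nd (nat_lit 936) (nat_lit 2812) (nat_lit 0) (XT.nd (nat_lit 468) (nat_lit 1596) (nat_lit 0) (XT.nd (nat_lit 234) (nat_lit 912) (nat_lit 0) (XT.nd (nat_lit 78) (nat_lit 456) (nat_lit 0) (XT.lf (nat_lit 0) (nat_lit 2132678164) (nat_lit 456) (nat_lit 878387456) (nat_lit 532) (nat_lit 10116020687) (nat_lit 181) (nat_lit 5) (nat_lit 187) (nat_lit 5) (nat_lit 188) (nat_lit 5) (nat_lit 612) (nat_lit 532) (nat_lit 416)) (XT.nd (nat_lit 78) (nat_lit 456) (nat_lit 0) (XT.lf (nat_lit 0) (nat_lit 6353702941) (nat_lit 532) (nat_lit 2822685162) (nat_lit 76) (nat_lit 4102619901) (nat_lit 181) (nat_lit 5) (nat_lit 188) (nat_lit 5) (nat_lit 182) (nat_lit 5) (nat_lit 613) (nat_lit 532) (nat_lit 415)) (XT.lf (nat_lit 0) (nat_lit 5552584589) (nat_lit 456) (nat_lit 4234125164) (nat_lit 532) (nat_lit 3646789808) (nat_lit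 175) (nat_lit 5) (nat_lit 181) (nat_lit 5) (nat_lit 182) (nat_lit 5) (nat_lit 614) (nat_lit 532) (nat_lit 414)))) (XT.nd (nat_lit 78) (nat_lit 532) (nat_lit 0) (XT.lf (nat_lit 0) (nat_lit 517313335) (nat_lit 380) (nat_lit 12780508118) (nat_lit 456) (nat_lit 293072330) (nat_lit 170) (nat_lit 5) (nat_lit 175) (nat_lit 5) (nat_lit 176) (nat_lit 5) (nat_lit 615) (nat_lit 532) (nat_lit 413)) (XT.nd (nat_lit 78) (nat_lit 456) (nat_lit 0) (XT.lf (nat_lit 0) (nat_lit 3149815996) (nat_lit 456) (nat_lit 4635833573) (nat_lit 76) (nat_lit 5964119491) (nat_lit 169) (nat_lit 5) (nat_lit 175) (nat_lit 5) (nat_lit 170) (nat_lit 5) (nat_lit 616) (nat_lit 532) (nat_lit 412)) (XT.lf (nat_lit 0) (nat_lit 3994556446) (nat_lit 456) (nat_lit 2671217655) (nat_lit 532) (nat_lit 7245847901) (nat_lit 163) (nat_lit 5) (nat_lit 169) (nat_lit 5) (nat_lit 170) (nat_lit 5) (nat_lit 617) (nat_lit 532) (nat_lit 411))))) (XT.nd (nat_lit 234) (nat_lit 760) (nat_lit 0) (XT.nd (nat_lit 78) (nat_lit 836) (nat_lit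 0) (XT.lf (nat_lit 0) (nat_lit 10282211520) (nat_lit 532) (nat_lit 1259111445) (nat_lit 76) (nat_lit 2534787430) (nat_lit 163) (nat_lit 5) (nat_lit 170) (nat_lit 5) (nat_lit 164) (nat_lit 5) (nat_lit 618) (nat_lit 532) (nat_lit 410)) (XT.nd (nat_lit 78) (nat_lit 456) (nat_lit 0) (XT.lf (nat_lit 0) (nat_lit 7628197215) (nat_lit 380) (nat_lit 6392662827) (nat_lit 456) (nat_lit 222032430) (nat_lit 158) (nat_lit 5) (nat_lit 163) (nat_lit 5) (nat_lit 164) (nat_lit 5) (nat_lit 619) (nat_lit 532) (nat_lit 409)) (XT.lf (nat_lit 0) (nat_lit 2278878655) (nat_lit 380) (nat_lit 1103544200) (nat_lit 456) (nat_lit 11030024133) (nat_lit 152) (nat_lit 5) (nat_lit 157) (nat_lit 5) (nat_lit 158) (nat_lit 5) (nat_lit 620) (nat_lit 532) (nat_lit 408)))) (XT.nd (nat_lit 78) (nat_lit 760) (nat_lit 0) (XT.lf (nat_lit 0) (nat_lit 7111373923) (nat_lit 456) (nat_lit 3200475271) (nat_lit 76) (nat_lit 4272407928) (nat_lit 152) (nat_lit 5) (nat_lit 158) (nat_lit 5) (nat_lit 153) (nat_lit 5) (nat_lit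 621) (nat_lit 532) (nat_lit 407)) (XT.nd (nat_lit 78) (nat_lit 380) (nat_lit 0) (XT.lf (nat_lit 0) (nat_lit 5956273610) (nat_lit 380) (nat_lit 4987779867) (nat_lit 456) (nat_lit 3814868438) (nat_lit 147) (nat_lit 5) (nat_lit 152) (nat_lit 5) (nat_lit 153) (nat_lit 5) (nat_lit 622) (nat_lit 532) (nat_lit 406)) (XT.lf (nat_lit 0) (nat_lit 378920875) (nat_lit 380) (nat_lit 14484694180) (nat_lit 456) (nat_lit 73261795) (nat_lit 142) (nat_lit 5) (nat_lit 147) (nat_lit 5) (nat_lit 148) (nat_lit 5) (nat_lit 623) (nat_lit 532) (nat_lit 405)))))) (XT.nd (nat_lit 468) (nat_lit 1672) (nat_lit 0) (XT.nd (nat_lit 234) (nat_lit 760) (nat_lit 0) (XT.nd (nat_lit 78) (nat_lit 304) (nat_lit 0) (XT.lf (nat_lit 0) (nat_lit 3769901841) (nat_lit 456) (nat_lit 5337466331) (nat_lit 76) (nat_lit 6009021665) (nat_lit 141) (nat_lit 5) (nat_lit 147) (nat_lit 5) (nat_lit 142) (nat_lit 5) (nat_lit 624) (nat_lit 532) (nat_lit 404)) (XT.nd (nat_lit 78) (nat_lit 0) (nat_lit 0) (XT.lf (nat_lit 0) (nat_lit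 4095191940) (nat_lit 304) (nat_lit 3603996483) (nat_lit 380) (nat_lit 7600091497) (nat_lit 137) (nat_lit 5) (nat_lit 141) (nat_lit 5) (nat_lit 142) (nat_lit 5) (nat_lit 625) (nat_lit 532) (nat_lit 403)) (XT.lf (nat_lit 0) (nat_lit 11739910011) (nat_lit 380) (nat_lit 1735104836) (nat_lit 76) (nat_lit 2010157280) (nat_lit 137) (nat_lit 5) (nat_lit 142) (nat_lit 5) (nat_lit 138) (nat_lit 5) (nat_lit 626) (nat_lit 532) (nat_lit 402)))) (XT.nd (nat_lit 78) (nat_lit 304) (nat_lit 0) (XT.lf (nat_lit 0) (nat_lit 244349287) (nat_lit 456) (nat_lit 7696222551) (nat_lit 76) (nat_lit 7732984688) (nat_lit 131) (nat_lit 5) (nat_lit 137) (nat_lit 5) (nat_lit 132) (nat_lit 5) (nat_lit 627) (nat_lit 532) (nat_lit 401)) (XT.nd (nat_lit 78) (nat_lit 0) (nat_lit 0) (XT.lf (nat_lit 0) (nat_lit 2018549163) (nat_lit 304) (nat_lit 2254039805) (nat_lit 380) (nat_lit 11592446052) (nat_lit 127) (nat_lit 5) (nat_lit 131) (nat_lit 5) (nat_lit 132) (nat_lit 5) (nat_lit 628) (nat_lit 532) (nat_lit 400))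 (XT.lf (nat_lit 0) (nat_lit 8440607301) (nat_lit 380) (nat_lit 4075936926) (nat_lit 76) (nat_lit 3542615789) (nat_lit 127) (nat_lit 5) (nat_lit 132) (nat_lit 5) (nat_lit 128) (nat_lit 5) (nat_lit 629) (nat_lit 532) (nat_lit 399))))) (XT.nd (nat_lit 234) (nat_lit 988) (nat_lit 0) (XT.nd (nat_lit 78) (nat_lit 380) (nat_lit 0) (XT.lf (nat_lit 0) (nat_lit 5928137357) (nat_lit 304) (nat_lit 6801776925) (nat_lit 380) (nat_lit 3526495850) (nat_lit 123) (nat_lit 5) (nat_lit 127) (nat_lit 5) (nat_lit 128) (nat_lit 5) (nat_lit 630) (nat_lit 532) (nat_lit 398)) (XT.nd (nat_lit 78) (nat_lit 304) (nat_lit 0) (XT.lf (nat_lit 0) (nat_lit 650997219) (nat_lit 380) (nat_lit 298649868) (nat_lit 76) (nat_lit 15507633518) (nat_lit 122) (nat_lit 5) (nat_lit 127) (nat_lit 5) (nat_lit 123) (nat_lit 5) (nat_lit 631) (nat_lit 532) (nat_lit 397)) (XT.lf (nat_lit 0) (nat_lit 4947862559) (nat_lit 380) (nat_lit 6678522756) (nat_lit 76) (nat_lit 5033657241) (nat_lit 118) (nat_lit 5) (nat_lit 123) (nat_lit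 5) (nat_lit 119) (nat_lit 5) (nat_lit 632) (nat_lit 532) (nat_lit 396)))) (XT.nd (nat_lit 156) (nat_lit 684) (nat_lit 0) (XT.nd (nat_lit 78) (nat_lit 0) (nat_lit 0) (XT.lf (nat_lit 0) (nat_lit 3621366220) (nat_lit 304) (nat_lit 5726054981) (nat_lit 380) (nat_lit 7519104523) (nat_lit 114) (nat_lit 5) (nat_lit 118) (nat_lit 5) (nat_lit 119) (nat_lit 5) (nat_lit 633) (nat_lit 532) (nat_lit 395)) (XT.lf (nat_lit 0) (nat_lit 13866997327) (nat_lit 380) (nat_lit 2885081635) (nat_lit 76) (nat_lit 324420138) (nat_lit 114) (nat_lit 5) (nat_lit 119) (nat_lit 5) (nat_lit 115) (nat_lit 5) (nat_lit 634) (nat_lit 532) (nat_lit 394))) (XT.nd (nat_lit 78) (nat_lit 304) (nat_lit 0) (XT.lf (nat_lit 0) (nat_lit 1244583271) (nat_lit 380) (nat_lit 9575794786) (nat_lit 76) (nat_lit 6468663902) (nat_lit 109) (nat_lit 5) (nat_lit 114) (nat_lit 5) (nat_lit 110) (nat_lit 5) (nat_lit 635) (nat_lit 532) (nat_lit 393)) (XT.lf (nat_lit 0) (nat_lit 1025279379) (nat_lit 304) (nat_lit 4731026412) (nat_lit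 380) (nat_lit 11748875980) (nat_lit 105) (nat_lit 5) (nat_lit 109) (nat_lit 5) (nat_lit 110) (nat_lit 5) (nat_lit 636) (nat_lit 532) (nat_lit 392))))))))
noncomputable def xc114 : XT := (XT.nd (nat_lit 73788) (nat_lit 0) (nat_lit 29336) (XT.nd (nat_lit 936) (nat_lit 532) (nat_lit 0) (XT.nd (nat_lit 468) (nat_lit 1140) (nat_lit 0) (XT.nd (nat_lit 234) (nat_lit 532) (nat_lit 0) (XT.nd (nat_lit 78) (nat_lit 304) (nat_lit 0) (XT.lf (nat_lit 0) (nat_lit 10417974424) (nat_lit 380) (nat_lit 5790276669) (nat_lit 76) (nat_lit 1516200043) (nat_lit 105) (nat_lit 5) (nat_lit 110) (nat_lit 5) (nat_lit 106) (nat_lit 5) (nat_lit 637) (nat_lit 532) (nat_lit 391)) (XT.nd (nat_lit 78) (nat_lit 76) (nat_lit 0) (XT.lf (nat_lit 0) (nat_lit 5125443651) (nat_lit 228) (nat_lit 10097745404) (nat_lit 304) (nat_lit 2723911555) (nat_lit 102) (nat_lit 5) (nat_lit 105) (nat_lit 5) (nat_lit 106) (nat_lit 5) (nat_lit 638) (nat_lit 532) (nat_lit 390)) (XT.lf (nat_lit 0) (nat_lit 1949576389) (nat_lit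 304) (nat_lit 1872001882) (nat_lit 76) (nat_lit 14351875480) (nat_lit 101) (nat_lit 5) (nat_lit 105) (nat_lit 5) (nat_lit 102) (nat_lit 5) (nat_lit 639) (nat_lit 532) (nat_lit 389)))) (XT.nd (nat_lit 78) (nat_lit 228) (nat_lit 0) (XT.lf (nat_lit 0) (nat_lit 6744217675) (nat_lit 380) (nat_lit 9041803538) (nat_lit 76) (nat_lit 2616670424) (nat_lit 97) (nat_lit 5) (nat_lit 102) (nat_lit 5) (nat_lit 98) (nat_lit 5) (nat_lit 640) (nat_lit 532) (nat_lit 388)) (XT.nd (nat_lit 78) (nat_lit 0) (nat_lit 0) (XT.lf (nat_lit 0) (nat_lit 2187621577) (nat_lit 228) (nat_lit 9485369503) (nat_lit 304) (nat_lit 6962759312) (nat_lit 94) (nat_lit 5) (nat_lit 97) (nat_lit 5) (nat_lit 98) (nat_lit 5) (nat_lit 641) (nat_lit 532) (nat_lit 387)) (XT.lf (nat_lit 0) (nat_lit 13741125889) (nat_lit 228) (nat_lit 3006094447) (nat_lit 304) (nat_lit 2125313258) (nat_lit 94) (nat_lit 5) (nat_lit 97) (nat_lit 5) (nat_lit 98) (nat_lit 5) (nat_lit 642) (nat_lit 532) (nat_lit 386))))) (XT.nd (nat_lit 234)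 (nat_lit 532) (nat_lit 0) (XT.nd (nat_lit 78) (nat_lit 228) (nat_lit 0) (XT.lf (nat_lit 0) (nat_lit 2824070045) (nat_lit 380) (nat_lit 12681582822) (nat_lit 76) (nat_lit 3606995152) (nat_lit 89) (nat_lit 5) (nat_lit 94) (nat_lit 5) (nat_lit 90) (nat_lit 5) (nat_lit 643) (nat_lit 532) (nat_lit 385)) (XT.nd (nat_lit 78) (nat_lit 228) (nat_lit 0) (XT.lf (nat_lit 0) (nat_lit 7885025687) (nat_lit 380) (nat_lit 1119605724) (nat_lit 76) (nat_lit 10351832333) (nat_lit 89) (nat_lit 5) (nat_lit 94) (nat_lit 5) (nat_lit 90) (nat_lit 5) (nat_lit 644) (nat_lit 532) (nat_lit 384)) (XT.lf (nat_lit 0) (nat_lit 10792744061) (nat_lit 228) (nat_lit 2311241421) (nat_lit 304) (nat_lit 6500035414) (nat_lit 86) (nat_lit 5) (nat_lit 89) (nat_lit 5) (nat_lit 90) (nat_lit 5) (nat_lit 645) (nat_lit 532) (nat_lit 383)))) (XT.nd (nat_lit 78) (nat_lit 304) (nat_lit 0) (XT.lf (nat_lit 0) (nat_lit 3090831182) (nat_lit 228) (nat_lit 15380213204) (nat_lit 304) (nat_lit 1384611203) (nat_lit 83) (nat_lit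 5) (nat_lit 86) (nat_lit 5) (nat_lit 87) (nat_lit 5) (nat_lit 646) (nat_lit 532) (nat_lit 382)) (XT.nd (nat_lit 78) (nat_lit 228) (nat_lit 0) (XT.lf (nat_lit 0) (nat_lit 3844470698) (nat_lit 304) (nat_lit 4823806615) (nat_lit 76) (nat_lit 11442316261) (nat_lit 82) (nat_lit 5) (nat_lit 86) (nat_lit 5) (nat_lit 83) (nat_lit 5) (nat_lit 647) (nat_lit 532) (nat_lit 381)) (XT.lf (nat_lit 0) (nat_lit 7422144127) (nat_lit 228) (nat_lit 1772711064) (nat_lit 304) (nat_lit 11174887616) (nat_lit 79) (nat_lit 5) (nat_lit 82) (nat_lit 5) (nat_lit 83) (nat_lit 5) (nat_lit 648) (nat_lit 532) (nat_lit 380)))))) (XT.nd (nat_lit 72306) (nat_lit 0) (nat_lit 44612) (XT.nd (nat_lit 234) (nat_lit 0) (nat_lit 0) (XT.nd (nat_lit 78) (nat_lit 532) (nat_lit 0) (XT.lf (nat_lit 0) (nat_lit 14706095092) (nat_lit 304) (nat_lit 711510402) (nat_lit 76) (nat_lit 5215393314) (nat_lit 79) (nat_lit 5) (nat_lit 83) (nat_lit 5) (nat_lit 80) (nat_lit 5) (nat_lit 649) (nat_lit 532) (nat_lit 379)) (XT.nd (nat_lit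 78) (nat_lit 304) (nat_lit 0) (XT.lf (nat_lit 0) (nat_lit 11891843222) (nat_lit 228) (nat_lit 8512025597) (nat_lit 304) (nat_lit 496125651) (nat_lit 76) (nat_lit 5) (nat_lit 79) (nat_lit 5) (nat_lit 80) (nat_lit 5) (nat_lit 650) (nat_lit 532) (nat_lit 378)) (XT.lf (nat_lit 0) (nat_lit 3577106616) (nat_lit 228) (nat_lit 1415432978) (nat_lit 304) (nat_lit 16178827962) (nat_lit 72) (nat_lit 5) (nat_lit 75) (nat_lit 5) (nat_lit 76) (nat_lit 5) (nat_lit 651) (nat_lit 532) (nat_lit 377)))) (XT.nd (nat_lit 71916) (nat_lit 0) (nat_lit 46436) (XT.lf (nat_lit 0) (nat_lit 10670430763) (nat_lit 304) (nat_lit 4974030179) (nat_lit 76) (nat_lit 5801920339) (nat_lit 72) (nat_lit 5) (nat_lit 76) (nat_lit 5) (nat_lit 73) (nat_lit 5) (nat_lit 652) (nat_lit 532) (nat_lit 376)) (XT.nd (nat_lit 78) (nat_lit 0) (nat_lit 0) (XT.lf (nat_lit 0) (nat_lit 671227353) (nat_lit 0) (nat_lit 671227353) (nat_lit 836) (nat_lit 2039890085) (nat_lit 683) (nat_lit 5) (nat_lit 683) (nat_lit 3) (nat_lit 694)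 (nat_lit 3) (nat_lit 533) (nat_lit 533) (nat_lit 494)) (XT.lf (nat_lit 0) (nat_lit 4709572848) (nat_lit 0) (nat_lit 87246350) (nat_lit 836) (nat_lit 1993348524) (nat_lit 683) (nat_lit 5) (nat_lit 683) (nat_lit 3) (nat_lit 694) (nat_lit 3) (nat_lit 534) (nat_lit 533) (nat_lit 493))))) (XT.nd (nat_lit 234) (nat_lit 912) (nat_lit 0) (XT.nd (nat_lit 78) (nat_lit 0) (nat_lit 0) (XT.lf (nat_lit 0) (nat_lit 94506676) (nat_lit 912) (nat_lit 5508889331) (nat_lit 988) (nat_lit 1213524673) (nat_lit 671) (nat_lit 5) (nat_lit 683) (nat_lit 5) (nat_lit 684) (nat_lit 5) (nat_lit 535) (nat_lit 533) (nat_lit 492)) (XT.nd (nat_lit 78) (nat_lit 0) (nat_lit 0) (XT.lf (nat_lit 0) (nat_lit 2158088007) (nat_lit 912) (nat_lit 2094338212) (nat_lit 988) (nat_lit 2592317547) (nat_lit 671) (nat_lit 5) (nat_lit 683) (nat_lit 5) (nat_lit 684) (nat_lit 5) (nat_lit 536) (nat_lit 533) (nat_lit 491)) (XT.lf (nat_lit 76) (nat_lit 1377977703) (nat_lit 0) (nat_lit 2840971648) (nat_lit 988) (nat_lit 2655065352)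 (nat_lit 672) (nat_lit 5) (nat_lit 671) (nat_lit 5) (nat_lit 684) (nat_lit 5) (nat_lit 537) (nat_lit 533) (nat_lit 490)))) (XT.nd (nat_lit 156) (nat_lit 0) (nat_lit 0) (XT.nd (nat_lit 78) (nat_lit 912) (nat_lit 0) (XT.lf (nat_lit 76) (nat_lit 4919718740) (nat_lit 0) (nat_lit 1363278481) (nat_lit 988) (nat_lit 621645781) (nat_lit 672) (nat_lit 5) (nat_lit 671) (nat_lit 5) (nat_lit 684) (nat_lit 5) (nat_lit 538) (nat_lit 533) (nat_lit 489)) (XT.lf (nat_lit 0) (nat_lit 1393446863) (nat_lit 988) (nat_lit 5358599201) (nat_lit 1064) (nat_lit 184459014) (nat_lit 659) (nat_lit 5) (nat_lit 672) (nat_lit 5) (nat_lit 673) (nat_lit 5) (nat_lit 539) (nat_lit 533) (nat_lit 488))) (XT.nd (nat_lit 78) (nat_lit 0) (nat_lit 0) (XT.lf (nat_lit 0) (nat_lit 3412517350) (nat_lit 988) (nat_lit 1772599145) (nat_lit 1064) (nat_lit 1784376400) (nat_lit 659) (nat_lit 5) (nat_lit 672) (nat_lit 5) (nat_lit 673) (nat_lit 5) (nat_lit 540) (nat_lit 533) (nat_lit 487)) (XT.lf (nat_lit 76) (nat_lit 1880840896)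 (nat_lit 0) (nat_lit 3553884736) (nat_lit 1064) (nat_lit 1569170174) (nat_lit 660) (nat_lit 5) (nat_lit 659) (nat_lit 5) (nat_lit 673) (nat_lit 5) (nat_lit 541) (nat_lit 533) (nat_lit 486))))))) (XT.nd (nat_lit 936) (nat_lit 12008) (nat_lit 0) (XT.nd (nat_lit 468) (nat_lit 1140) (nat_lit 0) (XT.nd (nat_lit 234) (nat_lit 1064) (nat_lit 0) (XT.nd (nat_lit 78) (nat_lit 0) (nat_lit 0) (XT.lf (nat_lit 0) (nat_lit 415348528) (nat_lit 1064) (nat_lit 1439844488) (nat_lit 1140) (nat_lit 5184484914) (nat_lit 645) (nat_lit 5) (nat_lit 659) (nat_lit 5) (nat_lit 660) (nat_lit 5) (nat_lit 542) (nat_lit 533) (nat_lit 485)) (XT.nd (nat_lit 78) (nat_lit 0) (nat_lit 76) (XT.lf (nat_lit 76) (nat_lit 2308067391) (nat_lit 0) (nat_lit 77440307) (nat_lit 1140) (nat_lit 4691131193) (nat_lit 646) (nat_lit 5) (nat_lit 645) (nat_lit 5) (nat_lit 660) (nat_lit 5) (nat_lit 543) (nat_lit 533) (nat_lit 484)) (XT.lf (nat_lit 0) (nat_lit 4368899703) (nat_lit 1064) (nat_lit 1004753528) (nat_lit 1140) (nat_lit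 1741218917) (nat_lit 646) (nat_lit 5) (nat_lit 660) (nat_lit 5) (nat_lit 661) (nat_lit 5) (nat_lit 544) (nat_lit 533) (nat_lit 483)))) (XT.nd (nat_lit 78) (nat_lit 1140) (nat_lit 0) (XT.lf (nat_lit 76) (nat_lit 2841955326) (nat_lit 0) (nat_lit 3522726914) (nat_lit 1140) (nat_lit 789742857) (nat_lit 647) (nat_lit 5) (nat_lit 646) (nat_lit 5) (nat_lit 661) (nat_lit 5) (nat_lit 545) (nat_lit 533) (nat_lit 482)) (XT.nd (nat_lit 78) (nat_lit 0) (nat_lit 76) (XT.lf (nat_lit 0) (nat_lit 1150752643) (nat_lit 1140) (nat_lit 452860337) (nat_lit 1216) (nat_lit 5591789621) (nat_lit 631) (nat_lit 5) (nat_lit 646) (nat_lit 5) (nat_lit 647) (nat_lit 5) (nat_lit 546) (nat_lit 533) (nat_lit 481)) (XT.lf (nat_lit 0) (nat_lit 3099839658) (nat_lit 1140) (nat_lit 3744570743) (nat_lit 1216) (nat_lit 393086659) (nat_lit 632) (nat_lit 5) (nat_lit 647) (nat_lit 5) (nat_lit 648) (nat_lit 5) (nat_lit 547) (nat_lit 533) (nat_lit 480))))) (XT.nd (nat_lit 234) (nat_lit 0) (nat_lit 76) (XT.nd (nat_lit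 78) (nat_lit 1216) (nat_lit 0) (XT.lf (nat_lit 76) (nat_lit 205656756) (nat_lit 0) (nat_lit 4853125017) (nat_lit 1216) (nat_lit 2222242926) (nat_lit 633) (nat_lit 5) (nat_lit 632) (nat_lit 5) (nat_lit 648) (nat_lit 5) (nat_lit 548) (nat_lit 533) (nat_lit 479)) (XT.nd (nat_lit 78) (nat_lit 1216) (nat_lit 0) (XT.lf (nat_lit 76) (nat_lit 4256048360) (nat_lit 0) (nat_lit 2782514833) (nat_lit 1216) (nat_lit 287235076) (nat_lit 633) (nat_lit 5) (nat_lit 632) (nat_lit 5) (nat_lit 648) (nat_lit 5) (nat_lit 549) (nat_lit 533) (nat_lit 478)) (XT.lf (nat_lit 76) (nat_lit 988396623) (nat_lit 0) (nat_lit 639469436) (nat_lit 1292) (nat_lit 5744120279) (nat_lit 617) (nat_lit 5) (nat_lit 616) (nat_lit 5) (nat_lit 633) (nat_lit 5) (nat_lit 550) (nat_lit 533) (nat_lit 477)))) (XT.nd (nat_lit 78) (nat_lit 0) (nat_lit 0) (XT.lf (nat_lit 0) (nat_lit 3566031328) (nat_lit 1216) (nat_lit 2291787049) (nat_lit 1292) (nat_lit 1561477747) (nat_lit 617) (nat_lit 5) (nat_lit 633) (nat_lit 5) (nat_lit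 634) (nat_lit 5) (nat_lit 551) (nat_lit 533) (nat_lit 476)) (XT.nd (nat_lit 78) (nat_lit 0) (nat_lit 0) (XT.lf (nat_lit 76) (nat_lit 1872429819) (nat_lit 0) (nat_lit 3645576976) (nat_lit 1292) (nat_lit 1950052306) (nat_lit 618) (nat_lit 5) (nat_lit 617) (nat_lit 5) (nat_lit 634) (nat_lit 5) (nat_lit 552) (nat_lit 533) (nat_lit 475)) (XT.lf (nat_lit 76) (nat_lit 6121448278) (nat_lit 0) (nat_lit 1362226369) (nat_lit 1292) (nat_lit 34637410) (nat_lit 618) (nat_lit 5) (nat_lit 617) (nat_lit 5) (nat_lit 634) (nat_lit 5) (nat_lit 553) (nat_lit 533) (nat_lit 474)))))) (XT.nd (nat_lit 468) (nat_lit 6688) (nat_lit 0) (XT.nd (nat_lit 234) (nat_lit 2888) (nat_lit 0) (XT.nd (nat_lit 78) (nat_lit 1292) (nat_lit 0) (XT.lf (nat_lit 0) (nat_lit 1878979795) (nat_lit 1292) (nat_lit 4694610788) (nat_lit 76) (nat_lit 996036501) (nat_lit 601) (nat_lit 5) (nat_lit 618) (nat_lit 5) (nat_lit 602) (nat_lit 5) (nat_lit 554) (nat_lit 533) (nat_lit 473)) (XT.nd (nat_lit 78) (nat_lit 1292) (nat_lit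 0) (XT.lf (nat_lit 0) (nat_lit 3809328166) (nat_lit 1292) (nat_lit 410007775) (nat_lit 76) (nat_lit 3403056766) (nat_lit 601) (nat_lit 5) (nat_lit 618) (nat_lit 5) (nat_lit 602) (nat_lit 5) (nat_lit 555) (nat_lit 533) (nat_lit 472)) (XT.lf (nat_lit 0) (nat_lit 3982933164) (nat_lit 1292) (nat_lit 1782450427) (nat_lit 1368) (nat_lit 1911095238) (nat_lit 584) (nat_lit 5) (nat_lit 601) (nat_lit 5) (nat_lit 602) (nat_lit 5) (nat_lit 556) (nat_lit 533) (nat_lit 471)))) (XT.nd (nat_lit 78) (nat_lit 1444) (nat_lit 0) (XT.lf (nat_lit 0) (nat_lit 2179768) (nat_lit 1444) (nat_lit 7019959428) (nat_lit 76) (nat_lit 710037718) (nat_lit 565) (nat_lit 5) (nat_lit 584) (nat_lit 5) (nat_lit 566) (nat_lit 5) (nat_lit 557) (nat_lit 533) (nat_lit 470)) (XT.nd (nat_lit 78) (nat_lit 1444) (nat_lit 0) (XT.lf (nat_lit 0) (nat_lit 1927072268) (nat_lit 1444) (nat_lit 2587490119) (nat_lit 76) (nat_lit 3274201864) (nat_lit 565) (nat_lit 5) (nat_lit 584) (nat_lit 5) (nat_lit 566) (nat_lit 5) (nat_lit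 558) (nat_lit 533) (nat_lit 469)) (XT.lf (nat_lit 0) (nat_lit 1928991322) (nat_lit 1444) (nat_lit 1936901029) (nat_lit 1520) (nat_lit 3981089028) (nat_lit 546) (nat_lit 5) (nat_lit 565) (nat_lit 5) (nat_lit 566) (nat_lit 5) (nat_lit 559) (nat_lit 533) (nat_lit 468))))) (XT.nd (nat_lit 234) (nat_lit 5092) (nat_lit 0) (XT.nd (nat_lit 78) (nat_lit 1596) (nat_lit 0) (XT.lf (nat_lit 0) (nat_lit 5828946193) (nat_lit 1520) (nat_lit 1370270398) (nat_lit 76) (nat_lit 707443620) (nat_lit 546) (nat_lit 5) (nat_lit 566) (nat_lit 5) (nat_lit 547) (nat_lit 5) (nat_lit 560) (nat_lit 533) (nat_lit 467)) (XT.nd (nat_lit 78) (nat_lit 76) (nat_lit 0) (XT.lf (nat_lit 0) (nat_lit 3268520821) (nat_lit 1520) (nat_lit 4560988838) (nat_lit 1596) (nat_lit 138064367) (nat_lit 526) (nat_lit 5) (nat_lit 546) (nat_lit 5) (nat_lit 547) (nat_lit 5) (nat_lit 561) (nat_lit 533) (nat_lit 466)) (XT.lf (nat_lit 0) (nat_lit 1789966572) (nat_lit 1596) (nat_lit 53074197) (nat_lit 76) (nat_lit 6186958000) (nat_lit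 525) (nat_lit 5) (nat_lit 546) (nat_lit 5) (nat_lit 526) (nat_lit 5) (nat_lit 562) (nat_lit 533) (nat_lit 465)))) (XT.nd (nat_lit 156) (nat_lit 1824) (nat_lit 0) (XT.nd (nat_lit 78) (nat_lit 1672) (nat_lit 0) (XT.lf (nat_lit 0) (nat_lit 3756780081) (nat_lit 1672) (nat_lit 3382855691) (nat_lit 76) (nat_lit 953982582) (nat_lit 504) (nat_lit 5) (nat_lit 526) (nat_lit 5) (nat_lit 505) (nat_lit 5) (nat_lit 563) (nat_lit 533) (nat_lit 464)) (XT.lf (nat_lit 0) (nat_lit 1387945693) (nat_lit 1672) (nat_lit 4362249460) (nat_lit 1748) (nat_lit 2408575766) (nat_lit 482) (nat_lit 5) (nat_lit 504) (nat_lit 5) (nat_lit 505) (nat_lit 5) (nat_lit 564) (nat_lit 533) (nat_lit 463))) (XT.nd (nat_lit 78) (nat_lit 1824) (nat_lit 0) (XT.lf (nat_lit 0) (nat_lit 6270074881) (nat_lit 1672) (nat_lit 1502272469) (nat_lit 1748) (nat_lit 453107586) (nat_lit 482) (nat_lit 5) (nat_lit 504) (nat_lit 5) (nat_lit 505) (nat_lit 5) (nat_lit 565) (nat_lit 533) (nat_lit 462)) (XT.lf (nat_lit 0) (nat_lit 1516450539)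 (nat_lit 1824) (nat_lit 5347645900) (nat_lit 76) (nat_lit 1429277640) (nat_lit 458) (nat_lit 5) (nat_lit 482) (nat_lit 5) (nat_lit 459) (nat_lit 5) (nat_lit 566) (nat_lit 533) (nat_lit 461))))))))
noncomputable def xc115 : XT := (XT.nd (nat_lit 1950) (nat_lit 8816) (nat_lit 0) (XT.nd (nat_lit 936) (nat_lit 6004) (nat_lit 0) (XT.nd (nat_lit 468) (nat_lit 3496) (nat_lit 0) (XT.nd (nat_lit 234) (nat_lit 988) (nat_lit 0) (XT.nd (nat_lit 78) (nat_lit 2660) (nat_lit 0) (XT.lf (nat_lit 0) (nat_lit 3509586041) (nat_lit 1824) (nat_lit 434356810) (nat_lit 76) (nat_lit 4418849231) (nat_lit 458) (nat_lit 5) (nat_lit 482) (nat_lit 5) (nat_lit 459) (nat_lit 5) (nat_lit 567) (nat_lit 533) (nat_lit 460)) (XT.nd (nat_lit 78) (nat_lit 988) (nat_lit 0) (XT.lf (nat_lit 0) (nat_lit 4607930450) (nat_lit 1672) (nat_lit 932307133) (nat_lit 1748) (nat_lit 2893413135) (nat_lit 436) (nat_lit 5) (nat_lit 458) (nat_lit 5) (nat_lit 459) (nat_lit 5) (nat_lit 568) (nat_lit 533) (nat_lit 459)) (XT.lf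 (nat_lit 0) (nat_lit 1223050023) (nat_lit 988) (nat_lit 6381410200) (nat_lit 1064) (nat_lit 901612375) (nat_lit 423) (nat_lit 5) (nat_lit 436) (nat_lit 5) (nat_lit 437) (nat_lit 5) (nat_lit 569) (nat_lit 533) (nat_lit 458)))) (XT.nd (nat_lit 78) (nat_lit 912) (nat_lit 0) (XT.lf (nat_lit 0) (nat_lit 1115628726) (nat_lit 1064) (nat_lit 2198845424) (nat_lit 76) (nat_lit 5265318563) (nat_lit 422) (nat_lit 5) (nat_lit 436) (nat_lit 5) (nat_lit 423) (nat_lit 5) (nat_lit 570) (nat_lit 533) (nat_lit 457)) (XT.nd (nat_lit 78) (nat_lit 0) (nat_lit 0) (XT.lf (nat_lit 0) (nat_lit 2990471544) (nat_lit 912) (nat_lit 159125347) (nat_lit 988) (nat_lit 5505506983) (nat_lit 410) (nat_lit 5) (nat_lit 422) (nat_lit 5) (nat_lit 423) (nat_lit 5) (nat_lit 571) (nat_lit 533) (nat_lit 456)) (XT.lf (nat_lit 0) (nat_lit 5228409543) (nat_lit 988) (nat_lit 468425851) (nat_lit 76) (nat_lit 3035007396) (nat_lit 410) (nat_lit 5) (nat_lit 423) (nat_lit 5) (nat_lit 411) (nat_lit 5) (nat_lit 572) (nat_lit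 533) (nat_lit 455))))) (XT.nd (nat_lit 234) (nat_lit 1672) (nat_lit 0) (XT.nd (nat_lit 78) (nat_lit 912) (nat_lit 0) (XT.lf (nat_lit 0) (nat_lit 4864827005) (nat_lit 912) (nat_lit 2486658773) (nat_lit 988) (nat_lit 1458581700) (nat_lit 398) (nat_lit 5) (nat_lit 410) (nat_lit 5) (nat_lit 411) (nat_lit 5) (nat_lit 573) (nat_lit 533) (nat_lit 454)) (XT.nd (nat_lit 78) (nat_lit 0) (nat_lit 0) (XT.lf (nat_lit 0) (nat_lit 606699151) (nat_lit 912) (nat_lit 7489538009) (nat_lit 76) (nat_lit 793787463) (nat_lit 386) (nat_lit 5) (nat_lit 398) (nat_lit 5) (nat_lit 387) (nat_lit 5) (nat_lit 574) (nat_lit 533) (nat_lit 453)) (XT.lf (nat_lit 0) (nat_lit 2707524379) (nat_lit 912) (nat_lit 2120973009) (nat_lit 76) (nat_lit 4142619782) (nat_lit 386) (nat_lit 5) (nat_lit 398) (nat_lit 5) (nat_lit 387) (nat_lit 5) (nat_lit 575) (nat_lit 533) (nat_lit 452)))) (XT.nd (nat_lit 78) (nat_lit 836) (nat_lit 0) (XT.lf (nat_lit 0) (nat_lit 3369521980) (nat_lit 836) (nat_lit 1473930130) (nat_lit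 912) (nat_lit 4210522117) (nat_lit 375) (nat_lit 5) (nat_lit 386) (nat_lit 5) (nat_lit 387) (nat_lit 5) (nat_lit 576) (nat_lit 533) (nat_lit 451)) (XT.nd (nat_lit 78) (nat_lit 836) (nat_lit 0) (XT.lf (nat_lit 0) (nat_lit 7020647046) (nat_lit 912) (nat_lit 182371020) (nat_lit 76) (nat_lit 1935503681) (nat_lit 375) (nat_lit 5) (nat_lit 387) (nat_lit 5) (nat_lit 376) (nat_lit 5) (nat_lit 577) (nat_lit 533) (nat_lit 450)) (XT.lf (nat_lit 0) (nat_lit 33876794) (nat_lit 836) (nat_lit 3762427471) (nat_lit 76) (nat_lit 5428108536) (nat_lit 364) (nat_lit 5) (nat_lit 375) (nat_lit 5) (nat_lit 365) (nat_lit 5) (nat_lit 578) (nat_lit 533) (nat_lit 449)))))) (XT.nd (nat_lit 468) (nat_lit 2888) (nat_lit 0) (XT.nd (nat_lit 234) (nat_lit 1520) (nat_lit 0) (XT.nd (nat_lit 78) (nat_lit 760) (nat_lit 0) (XT.lf (nat_lit 0) (nat_lit 1890874550) (nat_lit 836) (nat_lit 295269021) (nat_lit 912) (nat_lit 7125885395) (nat_lit 353) (nat_lit 5) (nat_lit 364) (nat_lit 5) (nat_lit 365) (nat_lit 5)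 (nat_lit 579) (nat_lit 533) (nat_lit 448)) (XT.nd (nat_lit 78) (nat_lit 760) (nat_lit 0) (XT.lf (nat_lit 0) (nat_lit 4400781547) (nat_lit 912) (nat_lit 1744022327) (nat_lit 76) (nat_lit 3256211031) (nat_lit 353) (nat_lit 5) (nat_lit 365) (nat_lit 5) (nat_lit 354) (nat_lit 5) (nat_lit 580) (nat_lit 533) (nat_lit 447)) (XT.lf (nat_lit 0) (nat_lit 4068708481) (nat_lit 760) (nat_lit 2592554613) (nat_lit 836) (nat_lit 2830490341) (nat_lit 343) (nat_lit 5) (nat_lit 353) (nat_lit 5) (nat_lit 354) (nat_lit 5) (nat_lit 581) (nat_lit 533) (nat_lit 446)))) (XT.nd (nat_lit 78) (nat_lit 760) (nat_lit 0) (XT.lf (nat_lit 0) (nat_lit 406145433) (nat_lit 760) (nat_lit 8555416747) (nat_lit 836) (nat_lit 622856210) (nat_lit 333) (nat_lit 5) (nat_lit 343) (nat_lit 5) (nat_lit 344) (nat_lit 5) (nat_lit 582) (nat_lit 533) (nat_lit 445)) (XT.nd (nat_lit 78) (nat_lit 684) (nat_lit 0) (XT.lf (nat_lit 0) (nat_lit 1635017725) (nat_lit 836) (nat_lit 3310596760) (nat_lit 76) (nat_lit 4732565284)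 (nat_lit 332) (nat_lit 5) (nat_lit 343) (nat_lit 5) (nat_lit 333) (nat_lit 5) (nat_lit 583) (nat_lit 533) (nat_lit 444)) (XT.lf (nat_lit 0) (nat_lit 2676159299) (nat_lit 684) (nat_lit 1245098793) (nat_lit 760) (nat_lit 5852648555) (nat_lit 323) (nat_lit 5) (nat_lit 332) (nat_lit 5) (nat_lit 333) (nat_lit 5) (nat_lit 584) (nat_lit 533) (nat_lit 443))))) (XT.nd (nat_lit 234) (nat_lit 1368) (nat_lit 0) (XT.nd (nat_lit 78) (nat_lit 1520) (nat_lit 0) (XT.lf (nat_lit 0) (nat_lit 6266469695) (nat_lit 760) (nat_lit 1089692656) (nat_lit 76) (nat_lit 2515124306) (nat_lit 323) (nat_lit 5) (nat_lit 333) (nat_lit 5) (nat_lit 324) (nat_lit 5) (nat_lit 585) (nat_lit 533) (nat_lit 442)) (XT.nd (nat_lit 78) (nat_lit 760) (nat_lit 0) (XT.lf (nat_lit 0) (nat_lit 5067776005) (nat_lit 760) (nat_lit 3606920080) (nat_lit 836) (nat_lit 1295599423) (nat_lit 313) (nat_lit 5) (nat_lit 323) (nat_lit 5) (nat_lit 324) (nat_lit 5) (nat_lit 586) (nat_lit 533) (nat_lit 441)) (XT.lf (nat_lit 0) (nat_lit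 1038157979) (nat_lit 760) (nat_lit 8800189451) (nat_lit 76) (nat_lit 232957708) (nat_lit 303) (nat_lit 5) (nat_lit 313) (nat_lit 5) (nat_lit 304) (nat_lit 5) (nat_lit 587) (nat_lit 533) (nat_lit 440)))) (XT.nd (nat_lit 156) (nat_lit 684) (nat_lit 0) (XT.nd (nat_lit 78) (nat_lit 684) (nat_lit 0) (XT.lf (nat_lit 0) (nat_lit 3433632873) (nat_lit 760) (nat_lit 2601068994) (nat_lit 76) (nat_lit 4138817260) (nat_lit 303) (nat_lit 5) (nat_lit 313) (nat_lit 5) (nat_lit 304) (nat_lit 5) (nat_lit 588) (nat_lit 533) (nat_lit 439)) (XT.lf (nat_lit 0) (nat_lit 3742305429) (nat_lit 684) (nat_lit 2134863245) (nat_lit 760) (nat_lit 4400608883) (nat_lit 294) (nat_lit 5) (nat_lit 303) (nat_lit 5) (nat_lit 304) (nat_lit 5) (nat_lit 589) (nat_lit 533) (nat_lit 438))) (XT.nd (nat_lit 78) (nat_lit 684) (nat_lit 0) (XT.lf (nat_lit 0) (nat_lit 8375221724) (nat_lit 760) (nat_lit 177117240) (nat_lit 76) (nat_lit 1831672388) (nat_lit 294) (nat_lit 5) (nat_lit 304) (nat_lit 5) (nat_lit 295) (nat_lit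 5) (nat_lit 590) (nat_lit 533) (nat_lit 437)) (XT.lf (nat_lit 0) (nat_lit 457362957) (nat_lit 684) (nat_lit 4145707058) (nat_lit 76) (nat_lit 5888603911) (nat_lit 285) (nat_lit 5) (nat_lit 294) (nat_lit 5) (nat_lit 286) (nat_lit 5) (nat_lit 591) (nat_lit 533) (nat_lit 436))))))) (XT.nd (nat_lit 936) (nat_lit 4028) (nat_lit 0) (XT.nd (nat_lit 468) (nat_lit 2280) (nat_lit 0) (XT.nd (nat_lit 234) (nat_lit 1216) (nat_lit 0) (XT.nd (nat_lit 78) (nat_lit 608) (nat_lit 0) (XT.lf (nat_lit 0) (nat_lit 2389855387) (nat_lit 684) (nat_lit 549521792) (nat_lit 760) (nat_lit 7661981230) (nat_lit 276) (nat_lit 5) (nat_lit 285) (nat_lit 5) (nat_lit 286) (nat_lit 5) (nat_lit 592) (nat_lit 533) (nat_lit 435)) (XT.nd (nat_lit 78) (nat_lit 608) (nat_lit 0) (XT.lf (nat_lit 0) (nat_lit 5499247986) (nat_lit 760) (nat_lit 1652680513) (nat_lit 76) (nat_lit 3560746645) (nat_lit 276) (nat_lit 5) (nat_lit 286) (nat_lit 5) (nat_lit 277) (nat_lit 5) (nat_lit 593) (nat_lit 533) (nat_lit 434)) (XT.lf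 (nat_lit 0) (nat_lit 5071899581) (nat_lit 608) (nat_lit 3052373585) (nat_lit 684) (nat_lit 2701668743) (nat_lit 268) (nat_lit 5) (nat_lit 276) (nat_lit 5) (nat_lit 277) (nat_lit 5) (nat_lit 594) (nat_lit 533) (nat_lit 433)))) (XT.nd (nat_lit 78) (nat_lit 608) (nat_lit 0) (XT.lf (nat_lit 0) (nat_lit 989165138) (nat_lit 608) (nat_lit 9815162225) (nat_lit 684) (nat_lit 137098854) (nat_lit 260) (nat_lit 5) (nat_lit 268) (nat_lit 5) (nat_lit 269) (nat_lit 5) (nat_lit 595) (nat_lit 533) (nat_lit 432)) (XT.nd (nat_lit 78) (nat_lit 532) (nat_lit 0) (XT.lf (nat_lit 0) (nat_lit 2483052581) (nat_lit 684) (nat_lit 3178413412) (nat_lit 76) (nat_lit 5396699020) (nat_lit 259) (nat_lit 5) (nat_lit 268) (nat_lit 5) (nat_lit 260) (nat_lit 5) (nat_lit 596) (nat_lit 533) (nat_lit 431)) (XT.lf (nat_lit 0) (nat_lit 3751125552) (nat_lit 532) (nat_lit 1405155979) (nat_lit 608) (nat_lit 6020891341) (nat_lit 252) (nat_lit 5) (nat_lit 259) (nat_lit 5) (nat_lit 260) (nat_lit 5) (nat_lit 597) (nat_lit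 533) (nat_lit 430))))) (XT.nd (nat_lit 234) (nat_lit 1064) (nat_lit 0) (XT.nd (nat_lit 78) (nat_lit 1216) (nat_lit 0) (XT.lf (nat_lit 0) (nat_lit 7901869583) (nat_lit 608) (nat_lit 483283721) (nat_lit 76) (nat_lit 2913032260) (nat_lit 252) (nat_lit 5) (nat_lit 260) (nat_lit 5) (nat_lit 253) (nat_lit 5) (nat_lit 598) (nat_lit 533) (nat_lit 429)) (XT.nd (nat_lit 78) (nat_lit 608) (nat_lit 0) (XT.lf (nat_lit 0) (nat_lit 6648496885) (nat_lit 608) (nat_lit 4085129106) (nat_lit 684) (nat_lit 687369903) (nat_lit 244) (nat_lit 5) (nat_lit 252) (nat_lit 5) (nat_lit 253) (nat_lit 5) (nat_lit 599) (nat_lit 533) (nat_lit 428)) (XT.lf (nat_lit 0) (nat_lit 2048206462) (nat_lit 608) (nat_lit 9175105661) (nat_lit 76) (nat_lit 322689675) (nat_lit 236) (nat_lit 5) (nat_lit 244) (nat_lit 5) (nat_lit 237) (nat_lit 5) (nat_lit 600) (nat_lit 533) (nat_lit 427)))) (XT.nd (nat_lit 78) (nat_lit 1064) (nat_lit 0) (XT.lf (nat_lit 0) (nat_lit 4867661953) (nat_lit 608) (nat_lit 2010856255) (nat_lit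 76) (nat_lit 4794133684) (nat_lit 236) (nat_lit 5) (nat_lit 244) (nat_lit 5) (nat_lit 237) (nat_lit 5) (nat_lit 601) (nat_lit 533) (nat_lit 426)) (XT.nd (nat_lit 78) (nat_lit 532) (nat_lit 0) (XT.lf (nat_lit 0) (nat_lit 5339229987) (nat_lit 532) (nat_lit 2418423731) (nat_lit 608) (nat_lit 4043900651) (nat_lit 229) (nat_lit 5) (nat_lit 236) (nat_lit 5) (nat_lit 237) (nat_lit 5) (nat_lit 602) (nat_lit 533) (nat_lit 425)) (XT.lf (nat_lit 0) (nat_lit 901048558) (nat_lit 532) (nat_lit 9817326298) (nat_lit 608) (nat_lit 1214403725) (nat_lit 222) (nat_lit 5) (nat_lit 229) (nat_lit 5) (nat_lit 230) (nat_lit 5) (nat_lit 603) (nat_lit 533) (nat_lit 424)))))) (XT.nd (nat_lit 468) (nat_lit 2356) (nat_lit 0) (XT.nd (nat_lit 234) (nat_lit 1064) (nat_lit 0) (XT.nd (nat_lit 78) (nat_lit 532) (nat_lit 0) (XT.lf (nat_lit 0) (nat_lit 1689173569) (nat_lit 608) (nat_lit 3621373907) (nat_lit 76) (nat_lit 6755076622) (nat_lit 221) (nat_lit 5) (nat_lit 229) (nat_lit 5) (nat_lit 222) (nat_lit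 5) (nat_lit 604) (nat_lit 533) (nat_lit 423)) (XT.nd (nat_lit 78) (nat_lit 0) (nat_lit 0) (XT.lf (nat_lit 0) (nat_lit 3953801255) (nat_lit 532) (nat_lit 686589342) (nat_lit 608) (nat_lit 7560460949) (nat_lit 214) (nat_lit 5) (nat_lit 221) (nat_lit 5) (nat_lit 222) (nat_lit 5) (nat_lit 605) (nat_lit 533) (nat_lit 422)) (XT.lf (nat_lit 0) (nat_lit 7681567830) (nat_lit 608) (nat_lit 662422887) (nat_lit 76) (nat_lit 3994176214) (nat_lit 214) (nat_lit 5) (nat_lit 222) (nat_lit 5) (nat_lit 215) (nat_lit 5) (nat_lit 606) (nat_lit 533) (nat_lit 421)))) (XT.nd (nat_lit 78) (nat_lit 608) (nat_lit 0) (XT.lf (nat_lit 0) (nat_lit 7136109526) (nat_lit 456) (nat_lit 3679033636) (nat_lit 532) (nat_lit 1662456034) (nat_lit 208) (nat_lit 5) (nat_lit 214) (nat_lit 5) (nat_lit 215) (nat_lit 5) (nat_lit 607) (nat_lit 533) (nat_lit 420)) (XT.nd (nat_lit 78) (nat_lit 0) (nat_lit 0) (XT.lf (nat_lit 0) (nat_lit 1381797336) (nat_lit 608) (nat_lit 10150406706) (nat_lit 76) (nat_lit 1087267785)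 (nat_lit 200) (nat_lit 5) (nat_lit 208) (nat_lit 5) (nat_lit 201) (nat_lit 5) (nat_lit 608) (nat_lit 533) (nat_lit 419)) (XT.lf (nat_lit 0) (nat_lit 4506067931) (nat_lit 608) (nat_lit 2317908439) (nat_lit 76) (nat_lit 5939159860) (nat_lit 200) (nat_lit 5) (nat_lit 208) (nat_lit 5) (nat_lit 201) (nat_lit 5) (nat_lit 609) (nat_lit 533) (nat_lit 418))))) (XT.nd (nat_lit 234) (nat_lit 1368) (nat_lit 0) (XT.nd (nat_lit 78) (nat_lit 532) (nat_lit 0) (XT.lf (nat_lit 0) (nat_lit 5719717429) (nat_lit 456) (nat_lit 1991542304) (nat_lit 532) (nat_lit 5198047378) (nat_lit 194) (nat_lit 5) (nat_lit 200) (nat_lit 5) (nat_lit 201) (nat_lit 5) (nat_lit 610) (nat_lit 533) (nat_lit 417)) (XT.nd (nat_lit 78) (nat_lit 76) (nat_lit 0) (XT.lf (nat_lit 0) (nat_lit 856803162) (nat_lit 456) (nat_lit 10145489086) (nat_lit 532) (nat_lit 2055676294) (nat_lit 188) (nat_lit 5) (nat_lit 194) (nat_lit 5) (nat_lit 195) (nat_lit 5) (nat_lit 611) (nat_lit 533) (nat_lit 416)) (XT.lf (nat_lit 0) (nat_lit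 1177732614) (nat_lit 532) (nat_lit 4094785540) (nat_lit 76) (nat_lit 7936072234) (nat_lit 187) (nat_lit 5) (nat_lit 194) (nat_lit 5) (nat_lit 188) (nat_lit 5) (nat_lit 612) (nat_lit 533) (nat_lit 415)))) (XT.nd (nat_lit 156) (nat_lit 912) (nat_lit 0) (XT.nd (nat_lit 78) (nat_lit 0) (nat_lit 0) (XT.lf (nat_lit 0) (nat_lit 4188814036) (nat_lit 456) (nat_lit 268567342) (nat_lit 532) (nat_lit 8904391351) (nat_lit 181) (nat_lit 5) (nat_lit 187) (nat_lit 5) (nat_lit 188) (nat_lit 5) (nat_lit 613) (nat_lit 533) (nat_lit 414)) (XT.lf (nat_lit 0) (nat_lit 7843686670) (nat_lit 532) (nat_lit 881821027) (nat_lit 76) (nat_lit 4791691475) (nat_lit 181) (nat_lit 5) (nat_lit 188) (nat_lit 5) (nat_lit 182) (nat_lit 5) (nat_lit 614) (nat_lit 533) (nat_lit 413))) (XT.nd (nat_lit 78) (nat_lit 456) (nat_lit 0) (XT.lf (nat_lit 0) (nat_lit 7647813871) (nat_lit 456) (nat_lit 3683698626) (nat_lit 532) (nat_lit 2343547451) (nat_lit 175) (nat_lit 5) (nat_lit 181) (nat_lit 5) (nat_lit 182) (nat_lit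 5) (nat_lit 615) (nat_lit 533) (nat_lit 412)) (XT.lf (nat_lit 0) (nat_lit 1053587442) (nat_lit 456) (nat_lit 11321107111) (nat_lit 76) (nat_lit 1460960655) (nat_lit 169) (nat_lit 5) (nat_lit 175) (nat_lit 5) (nat_lit 170) (nat_lit 5) (nat_lit 616) (nat_lit 533) (nat_lit 411))))))))
noncomputable def xc116 : XT := (XT.nd (nat_lit 1950) (nat_lit 1900) (nat_lit 0) (XT.nd (nat_lit 936) (nat_lit 2584) (nat_lit 0) (XT.nd (nat_lit 468) (nat_lit 1596) (nat_lit 0) (XT.nd (nat_lit 234) (nat_lit 456) (nat_lit 0) (XT.nd (nat_lit 78) (nat_lit 836) (nat_lit 0) (XT.lf (nat_lit 0) (nat_lit 4534969815) (nat_lit 456) (nat_lit 2755997235) (nat_lit 76) (nat_lit 6707233404) (nat_lit 169) (nat_lit 5) (nat_lit 175) (nat_lit 5) (nat_lit 170) (nat_lit 5) (nat_lit 617) (nat_lit 533) (nat_lit 410)) (XT.nd (nat_lit 78) (nat_lit 380) (nat_lit 0) (XT.lf (nat_lit 0) (nat_lit 6034023263) (nat_lit 456) (nat_lit 2074022027) (nat_lit 532) (nat_lit 6055511569) (nat_lit 163) (nat_lit 5) (nat_lit 169) (nat_lit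 5) (nat_lit 170) (nat_lit 5) (nat_lit 618) (nat_lit 533) (nat_lit 409)) (XT.lf (nat_lit 0) (nat_lit 667250588) (nat_lit 380) (nat_lit 11112368731) (nat_lit 456) (nat_lit 2552061865) (nat_lit 158) (nat_lit 5) (nat_lit 163) (nat_lit 5) (nat_lit 164) (nat_lit 5) (nat_lit 619) (nat_lit 533) (nat_lit 408)))) (XT.nd (nat_lit 78) (nat_lit 380) (nat_lit 0) (XT.lf (nat_lit 0) (nat_lit 1059769876) (nat_lit 456) (nat_lit 4798341476) (nat_lit 76) (nat_lit 8643891286) (nat_lit 157) (nat_lit 5) (nat_lit 163) (nat_lit 5) (nat_lit 158) (nat_lit 5) (nat_lit 620) (nat_lit 533) (nat_lit 407)) (XT.nd (nat_lit 78) (nat_lit 0) (nat_lit 0) (XT.lf (nat_lit 0) (nat_lit 4258823124) (nat_lit 380) (nat_lit 461917892) (nat_lit 456) (nat_lit 9954432071) (nat_lit 152) (nat_lit 5) (nat_lit 157) (nat_lit 5) (nat_lit 158) (nat_lit 5) (nat_lit 621) (nat_lit 533) (nat_lit 406)) (XT.lf (nat_lit 0) (nat_lit 8503580682) (nat_lit 456) (nat_lit 1347248919) (nat_lit 76) (nat_lit 5000005777) (nat_lit 152) (nat_lit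 5) (nat_lit 158) (nat_lit 5) (nat_lit 153) (nat_lit 5) (nat_lit 622) (nat_lit 533) (nat_lit 405))))) (XT.nd (nat_lit 234) (nat_lit 760) (nat_lit 0) (XT.nd (nat_lit 78) (nat_lit 456) (nat_lit 0) (XT.lf (nat_lit 0) (nat_lit 7980021545) (nat_lit 380) (nat_lit 4420748955) (nat_lit 456) (nat_lit 2628467936) (nat_lit 147) (nat_lit 5) (nat_lit 152) (nat_lit 5) (nat_lit 153) (nat_lit 5) (nat_lit 623) (nat_lit 533) (nat_lit 404)) (XT.nd (nat_lit 78) (nat_lit 0) (nat_lit 0) (XT.lf (nat_lit 0) (nat_lit 1164728148) (nat_lit 456) (nat_lit 12919580458) (nat_lit 76) (nat_lit 1126444870) (nat_lit 141) (nat_lit 5) (nat_lit 147) (nat_lit 5) (nat_lit 142) (nat_lit 5) (nat_lit 624) (nat_lit 533) (nat_lit 403)) (XT.lf (nat_lit 0) (nat_lit 5059491174) (nat_lit 456) (nat_lit 3552990697) (nat_lit 76) (nat_lit 6781852807) (nat_lit 141) (nat_lit 5) (nat_lit 147) (nat_lit 5) (nat_lit 142) (nat_lit 5) (nat_lit 625) (nat_lit 533) (nat_lit 402)))) (XT.nd (nat_lit 78) (nat_lit 456) (nat_lit 0) (XT.lf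 (nat_lit 0) (nat_lit 6055878470) (nat_lit 304) (nat_lit 2999875647) (nat_lit 380) (nat_lit 6525362576) (nat_lit 137) (nat_lit 5) (nat_lit 141) (nat_lit 5) (nat_lit 142) (nat_lit 5) (nat_lit 626) (nat_lit 533) (nat_lit 401)) (XT.nd (nat_lit 78) (nat_lit 76) (nat_lit 0) (XT.lf (nat_lit 0) (nat_lit 92724033) (nat_lit 380) (nat_lit 13065892350) (nat_lit 456) (nat_lit 2612485742) (nat_lit 132) (nat_lit 5) (nat_lit 137) (nat_lit 5) (nat_lit 138) (nat_lit 5) (nat_lit 627) (nat_lit 533) (nat_lit 400)) (XT.lf (nat_lit 0) (nat_lit 1429200225) (nat_lit 456) (nat_lit 5985304940) (nat_lit 76) (nat_lit 8548831632) (nat_lit 131) (nat_lit 5) (nat_lit 137) (nat_lit 5) (nat_lit 132) (nat_lit 5) (nat_lit 628) (nat_lit 533) (nat_lit 399)))))) (XT.nd (nat_lit 468) (nat_lit 1292) (nat_lit 0) (XT.nd (nat_lit 234) (nat_lit 684) (nat_lit 0) (XT.nd (nat_lit 78) (nat_lit 304) (nat_lit 0) (XT.lf (nat_lit 0) (nat_lit 3911493511) (nat_lit 304) (nat_lit 1615402776) (nat_lit 380) (nat_lit 10631972538)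 (nat_lit 127) (nat_lit 5) (nat_lit 131) (nat_lit 5) (nat_lit 132) (nat_lit 5) (nat_lit 629) (nat_lit 533) (nat_lit 398)) (XT.nd (nat_lit 78) (nat_lit 304) (nat_lit 0) (XT.lf (nat_lit 0) (nat_lit 9759708358) (nat_lit 380) (nat_lit 2322552615) (nat_lit 76) (nat_lit 4274988441) (nat_lit 127) (nat_lit 5) (nat_lit 132) (nat_lit 5) (nat_lit 128) (nat_lit 5) (nat_lit 630) (nat_lit 533) (nat_lit 397)) (XT.lf (nat_lit 0) (nat_lit 7869531423) (nat_lit 304) (nat_lit 6254550401) (nat_lit 380) (nat_lit 2434578827) (nat_lit 123) (nat_lit 5) (nat_lit 127) (nat_lit 5) (nat_lit 128) (nat_lit 5) (nat_lit 631) (nat_lit 533) (nat_lit 396)))) (XT.nd (nat_lit 78) (nat_lit 304) (nat_lit 0) (XT.lf (nat_lit 0) (nat_lit 1517397313) (nat_lit 304) (nat_lit 281178896) (nat_lit 380) (nat_lit 14965075879) (nat_lit 118) (nat_lit 5) (nat_lit 122) (nat_lit 5) (nat_lit 123) (nat_lit 5) (nat_lit 632) (nat_lit 533) (nat_lit 395)) (XT.nd (nat_lit 78) (nat_lit 304) (nat_lit 0) (XT.lf (nat_lit 0) (nat_lit 6165486350)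 (nat_lit 380) (nat_lit 5003852093) (nat_lit 76) (nat_lit 5801450314) (nat_lit 118) (nat_lit 5) (nat_lit 123) (nat_lit 5) (nat_lit 119) (nat_lit 5) (nat_lit 633) (nat_lit 533) (nat_lit 394)) (XT.lf (nat_lit 0) (nat_lit 5490138340) (nat_lit 304) (nat_lit 5152626248) (nat_lit 380) (nat_lit 6538844025) (nat_lit 114) (nat_lit 5) (nat_lit 118) (nat_lit 5) (nat_lit 119) (nat_lit 5) (nat_lit 634) (nat_lit 533) (nat_lit 393))))) (XT.nd (nat_lit 234) (nat_lit 608) (nat_lit 0) (XT.nd (nat_lit 78) (nat_lit 684) (nat_lit 0) (XT.lf (nat_lit 0) (nat_lit 15235378048) (nat_lit 380) (nat_lit 1164228568) (nat_lit 76) (nat_lit 996523488) (nat_lit 114) (nat_lit 5) (nat_lit 119) (nat_lit 5) (nat_lit 115) (nat_lit 5) (nat_lit 635) (nat_lit 533) (nat_lit 392)) (XT.nd (nat_lit 78) (nat_lit 304) (nat_lit 0) (XT.lf (nat_lit 0) (nat_lit 2357829697) (nat_lit 380) (nat_lit 7985918210) (nat_lit 76) (nat_lit 7269232669) (nat_lit 109) (nat_lit 5) (nat_lit 114) (nat_lit 5) (nat_lit 110) (nat_lit 5) (nat_lit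 636) (nat_lit 533) (nat_lit 391)) (XT.lf (nat_lit 0) (nat_lit 2815457752) (nat_lit 304) (nat_lit 4134478515) (nat_lit 380) (nat_lit 10883705397) (nat_lit 105) (nat_lit 5) (nat_lit 109) (nat_lit 5) (nat_lit 110) (nat_lit 5) (nat_lit 637) (nat_lit 533) (nat_lit 390)))) (XT.nd (nat_lit 156) (nat_lit 380) (nat_lit 0) (XT.nd (nat_lit 78) (nat_lit 228) (nat_lit 0) (XT.lf (nat_lit 0) (nat_lit 11688090662) (nat_lit 380) (nat_lit 4154289062) (nat_lit 76) (nat_lit 2215253089) (nat_lit 105) (nat_lit 5) (nat_lit 110) (nat_lit 5) (nat_lit 106) (nat_lit 5) (nat_lit 638) (nat_lit 533) (nat_lit 389)) (XT.lf (nat_lit 0) (nat_lit 6968220709) (nat_lit 228) (nat_lit 9611669091) (nat_lit 304) (nat_lit 1705037287) (nat_lit 102) (nat_lit 5) (nat_lit 105) (nat_lit 5) (nat_lit 106) (nat_lit 5) (nat_lit 639) (nat_lit 533) (nat_lit 388))) (XT.nd (nat_lit 78) (nat_lit 304) (nat_lit 0) (XT.lf (nat_lit 0) (nat_lit 3027073102) (nat_lit 304) (nat_lit 189427407) (nat_lit 76) (nat_lit 15299584169) (nat_lit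 101) (nat_lit 5) (nat_lit 105) (nat_lit 5) (nat_lit 102) (nat_lit 5) (nat_lit 640) (nat_lit 533) (nat_lit 387)) (XT.lf (nat_lit 0) (nat_lit 7912749891) (nat_lit 380) (nat_lit 7497701062) (nat_lit 76) (nat_lit 3339554848) (nat_lit 97) (nat_lit 5) (nat_lit 102) (nat_lit 5) (nat_lit 98) (nat_lit 5) (nat_lit 641) (nat_lit 533) (nat_lit 386))))))) (XT.nd (nat_lit 72852) (nat_lit 0) (nat_lit 42484) (XT.nd (nat_lit 468) (nat_lit 836) (nat_lit 0) (XT.nd (nat_lit 234) (nat_lit 456) (nat_lit 0) (XT.nd (nat_lit 78) (nat_lit 380) (nat_lit 0) (XT.lf (nat_lit 0) (nat_lit 3944964275) (nat_lit 228) (nat_lit 8985992648) (nat_lit 304) (nat_lit 6056952952) (nat_lit 94) (nat_lit 5) (nat_lit 97) (nat_lit 5) (nat_lit 98) (nat_lit 5) (nat_lit 642) (nat_lit 533) (nat_lit 385)) (XT.nd (nat_lit 78) (nat_lit 380) (nat_lit 0) (XT.lf (nat_lit 0) (nat_lit 15695938864) (nat_lit 228) (nat_lit 2390643548) (nat_lit 304) (nat_lit 1143249381) (nat_lit 94) (nat_lit 5) (nat_lit 97) (nat_lit 5) (nat_lit 98)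 (nat_lit 5) (nat_lit 643) (nat_lit 533) (nat_lit 384)) (XT.lf (nat_lit 0) (nat_lit 3887196752) (nat_lit 380) (nat_lit 11237174690) (nat_lit 76) (nat_lit 4350335000) (nat_lit 89) (nat_lit 5) (nat_lit 94) (nat_lit 5) (nat_lit 90) (nat_lit 5) (nat_lit 644) (nat_lit 533) (nat_lit 383)))) (XT.nd (nat_lit 78) (nat_lit 228) (nat_lit 0) (XT.lf (nat_lit 0) (nat_lit 529694084) (nat_lit 228) (nat_lit 8503378404) (nat_lit 304) (nat_lit 10690653182) (nat_lit 86) (nat_lit 5) (nat_lit 89) (nat_lit 5) (nat_lit 90) (nat_lit 5) (nat_lit 645) (nat_lit 533) (nat_lit 382)) (XT.nd (nat_lit 78) (nat_lit 228) (nat_lit 0) (XT.lf (nat_lit 0) (nat_lit 12662391563) (nat_lit 228) (nat_lit 1681967188) (nat_lit 304) (nat_lit 5632117452) (nat_lit 86) (nat_lit 5) (nat_lit 89) (nat_lit 5) (nat_lit 90) (nat_lit 5) (nat_lit 646) (nat_lit 533) (nat_lit 381)) (XT.lf (nat_lit 0) (nat_lit 4810699274) (nat_lit 228) (nat_lit 15003942295) (nat_lit 304) (nat_lit 418585529) (nat_lit 83) (nat_lit 5) (nat_lit 86)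 (nat_lit 5) (nat_lit 87) (nat_lit 5) (nat_lit 647) (nat_lit 533) (nat_lit 380))))) (XT.nd (nat_lit 234) (nat_lit 304) (nat_lit 0) (XT.nd (nat_lit 78) (nat_lit 456) (nat_lit 0) (XT.lf (nat_lit 0) (nat_lit 4882816101) (nat_lit 304) (nat_lit 3281909026) (nat_lit 76) (nat_lit 12328795377) (nat_lit 82) (nat_lit 5) (nat_lit 86) (nat_lit 5) (nat_lit 83) (nat_lit 5) (nat_lit 648) (nat_lit 533) (nat_lit 379)) (XT.nd (nat_lit 78) (nat_lit 228) (nat_lit 0) (XT.lf (nat_lit 0) (nat_lit 9198181957) (nat_lit 228) (nat_lit 1133741676) (nat_lit 304) (nat_lit 10426095878) (nat_lit 79) (nat_lit 5) (nat_lit 82) (nat_lit 5) (nat_lit 83) (nat_lit 5) (nat_lit 649) (nat_lit 533) (nat_lit 378)) (XT.lf (nat_lit 0) (nat_lit 896144142) (nat_lit 228) (nat_lit 15048665864) (nat_lit 304) (nat_lit 5081903265) (nat_lit 76) (nat_lit 5) (nat_lit 79) (nat_lit 5) (nat_lit 80) (nat_lit 5) (nat_lit 650) (nat_lit 533) (nat_lit 377)))) (XT.nd (nat_lit 78) (nat_lit 228) (nat_lit 0) (XT.lf (nat_lit 0) (nat_lit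 437557153) (nat_lit 304) (nat_lit 7572986596) (nat_lit 76) (nat_lit 13288725384) (nat_lit 75) (nat_lit 5) (nat_lit 79) (nat_lit 5) (nat_lit 76) (nat_lit 5) (nat_lit 651) (nat_lit 533) (nat_lit 376)) (XT.nd (nat_lit 71994) (nat_lit 0) (nat_lit 45448) (XT.lf (nat_lit 0) (nat_lit 5250085285) (nat_lit 228) (nat_lit 771299164) (nat_lit 304) (nat_lit 15554780017) (nat_lit 72) (nat_lit 5) (nat_lit 75) (nat_lit 5) (nat_lit 76) (nat_lit 5) (nat_lit 652) (nat_lit 533) (nat_lit 375)) (XT.lf (nat_lit 0) (nat_lit 32300914) (nat_lit 988) (nat_lit 1687895776) (nat_lit 988) (nat_lit 1687895776) (nat_lit 670) (nat_lit 3) (nat_lit 683) (nat_lit 3) (nat_lit 683) (nat_lit 5) (nat_lit 534) (nat_lit 534) (nat_lit 492)))))) (XT.nd (nat_lit 468) (nat_lit 2052) (nat_lit 0) (XT.nd (nat_lit 234) (nat_lit 912) (nat_lit 0) (XT.nd (nat_lit 78) (nat_lit 0) (nat_lit 0) (XT.lf (nat_lit 0) (nat_lit 2083058739) (nat_lit 988) (nat_lit 22859112) (nat_lit 988) (nat_lit 4737632140) (nat_lit 670) (nat_lit 3)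 (nat_lit 683) (nat_lit 3) (nat_lit 683) (nat_lit 5) (nat_lit 535) (nat_lit 534) (nat_lit 491)) (XT.nd (nat_lit 78) (nat_lit 0) (nat_lit 76) (XT.lf (nat_lit 76) (nat_lit 3414920261) (nat_lit 0) (nat_lit 696208547) (nat_lit 988) (nat_lit 2760960214) (nat_lit 671) (nat_lit 5) (nat_lit 670) (nat_lit 3) (nat_lit 683) (nat_lit 5) (nat_lit 536) (nat_lit 534) (nat_lit 490)) (XT.lf (nat_lit 0) (nat_lit 6132829916) (nat_lit 912) (nat_lit 12285169) (nat_lit 988) (nat_lit 757033687) (nat_lit 671) (nat_lit 5) (nat_lit 683) (nat_lit 5) (nat_lit 684) (nat_lit 5) (nat_lit 537) (nat_lit 534) (nat_lit 489)))) (XT.nd (nat_lit 78) (nat_lit 0) (nat_lit 0) (XT.lf (nat_lit 0) (nat_lit 1221988629) (nat_lit 988) (nat_lit 3425825390) (nat_lit 1064) (nat_lit 2285314960) (nat_lit 658) (nat_lit 5) (nat_lit 671) (nat_lit 5) (nat_lit 672) (nat_lit 5) (nat_lit 538) (nat_lit 534) (nat_lit 488)) (XT.nd (nat_lit 78) (nat_lit 0) (nat_lit 0) (XT.lf (nat_lit 76) (nat_lit 100964490) (nat_lit 0) (nat_lit 3092200157)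 (nat_lit 1064) (nat_lit 3772466242) (nat_lit 659) (nat_lit 5) (nat_lit 658) (nat_lit 5) (nat_lit 672) (nat_lit 5) (nat_lit 539) (nat_lit 534) (nat_lit 487)) (XT.lf (nat_lit 76) (nat_lit 3716924450) (nat_lit 0) (nat_lit 1460232053) (nat_lit 1064) (nat_lit 1822168957) (nat_lit 659) (nat_lit 5) (nat_lit 658) (nat_lit 5) (nat_lit 672) (nat_lit 5) (nat_lit 540) (nat_lit 534) (nat_lit 486))))) (XT.nd (nat_lit 234) (nat_lit 1064) (nat_lit 0) (XT.nd (nat_lit 78) (nat_lit 0) (nat_lit 0) (XT.lf (nat_lit 0) (nat_lit 119724807) (nat_lit 1064) (nat_lit 6689044904) (nat_lit 1140) (nat_lit 225816918) (nat_lit 645) (nat_lit 5) (nat_lit 659) (nat_lit 5) (nat_lit 660) (nat_lit 5) (nat_lit 541) (nat_lit 534) (nat_lit 485)) (XT.nd (nat_lit 78) (nat_lit 0) (nat_lit 0) (XT.lf (nat_lit 0) (nat_lit 2059879470) (nat_lit 1064) (nat_lit 3030300602) (nat_lit 1140) (nat_lit 1980465484) (nat_lit 645) (nat_lit 5) (nat_lit 659) (nat_lit 5) (nat_lit 660) (nat_lit 5) (nat_lit 542) (nat_lit 534) (nat_lit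 484)) (XT.lf (nat_lit 76) (nat_lit 682290862) (nat_lit 0) (nat_lit 3313874424) (nat_lit 1140) (nat_lit 3112123486) (nat_lit 646) (nat_lit 5) (nat_lit 645) (nat_lit 5) (nat_lit 660) (nat_lit 5) (nat_lit 543) (nat_lit 534) (nat_lit 483)))) (XT.nd (nat_lit 156) (nat_lit 0) (nat_lit 0) (XT.nd (nat_lit 78) (nat_lit 1064) (nat_lit 0) (XT.lf (nat_lit 76) (nat_lit 4482120614) (nat_lit 0) (nat_lit 1463030476) (nat_lit 1140) (nat_lit 1202063756) (nat_lit 646) (nat_lit 5) (nat_lit 645) (nat_lit 5) (nat_lit 660) (nat_lit 5) (nat_lit 544) (nat_lit 534) (nat_lit 482)) (XT.lf (nat_lit 0) (nat_lit 701090141) (nat_lit 1140) (nat_lit 6037401467) (nat_lit 1216) (nat_lit 449046460) (nat_lit 631) (nat_lit 5) (nat_lit 646) (nat_lit 5) (nat_lit 647) (nat_lit 5) (nat_lit 545) (nat_lit 534) (nat_lit 481))) (XT.nd (nat_lit 78) (nat_lit 0) (nat_lit 0) (XT.lf (nat_lit 0) (nat_lit 2608982853) (nat_lit 1140) (nat_lit 2197272050) (nat_lit 1216) (nat_lit 2422607444) (nat_lit 631) (nat_lit 5) (nat_lit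 646) (nat_lit 5) (nat_lit 647) (nat_lit 5) (nat_lit 546) (nat_lit 534) (nat_lit 480)) (XT.lf (nat_lit 76) (nat_lit 1713712050) (nat_lit 0) (nat_lit 2808393766) (nat_lit 1216) (nat_lit 2749574607) (nat_lit 632) (nat_lit 5) (nat_lit 631) (nat_lit 5) (nat_lit 647) (nat_lit 5) (nat_lit 547) (nat_lit 534) (nat_lit 479))))))))
noncomputable def xc117 : XT := (XT.nd (nat_lit 1950) (nat_lit 11476) (nat_lit 0) (XT.nd (nat_lit 936) (nat_lit 11780) (nat_lit 0) (XT.nd (nat_lit 468) (nat_lit 2660) (nat_lit 0) (XT.nd (nat_lit 234) (nat_lit 1216) (nat_lit 0) (XT.nd (nat_lit 78) (nat_lit 1140) (nat_lit 0) (XT.lf (nat_lit 76) (nat_lit 5704463885) (nat_lit 0) (nat_lit 740398524) (nat_lit 1216) (nat_lit 871073615) (nat_lit 632) (nat_lit 5) (nat_lit 631) (nat_lit 5) (nat_lit 647) (nat_lit 5) (nat_lit 548) (nat_lit 534) (nat_lit 478)) (XT.nd (nat_lit 78) (nat_lit 0) (nat_lit 0) (XT.lf (nat_lit 0) (nat_lit 1013260890) (nat_lit 1216) (nat_lit 4960100239) (nat_lit 1292) (nat_lit 1387948787)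 (nat_lit 616) (nat_lit 5) (nat_lit 632) (nat_lit 5) (nat_lit 633) (nat_lit 5) (nat_lit 549) (nat_lit 534) (nat_lit 477)) (XT.lf (nat_lit 0) (nat_lit 2897353545) (nat_lit 1216) (nat_lit 931146391) (nat_lit 1292) (nat_lit 3579509583) (nat_lit 616) (nat_lit 5) (nat_lit 632) (nat_lit 5) (nat_lit 633) (nat_lit 5) (nat_lit 550) (nat_lit 534) (nat_lit 476)))) (XT.nd (nat_lit 78) (nat_lit 1216) (nat_lit 0) (XT.lf (nat_lit 76) (nat_lit 3191799693) (nat_lit 0) (nat_lit 1606811924) (nat_lit 1292) (nat_lit 2657449760) (nat_lit 617) (nat_lit 5) (nat_lit 616) (nat_lit 5) (nat_lit 633) (nat_lit 5) (nat_lit 551) (nat_lit 534) (nat_lit 475)) (XT.nd (nat_lit 78) (nat_lit 1292) (nat_lit 0) (XT.lf (nat_lit 0) (nat_lit 6707931018) (nat_lit 1216) (nat_lit 128605714) (nat_lit 1292) (nat_lit 669144593) (nat_lit 617) (nat_lit 5) (nat_lit 633) (nat_lit 5) (nat_lit 634) (nat_lit 5) (nat_lit 552) (nat_lit 534) (nat_lit 474)) (XT.lf (nat_lit 0) (nat_lit 1082253723) (nat_lit 1292) (nat_lit 3459107908)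 (nat_lit 1368) (nat_lit 3014846267) (nat_lit 600) (nat_lit 5) (nat_lit 617) (nat_lit 5) (nat_lit 618) (nat_lit 5) (nat_lit 553) (nat_lit 534) (nat_lit 473))))) (XT.nd (nat_lit 234) (nat_lit 1444) (nat_lit 0) (XT.nd (nat_lit 78) (nat_lit 1216) (nat_lit 0) (XT.lf (nat_lit 76) (nat_lit 777308864) (nat_lit 0) (nat_lit 2178381226) (nat_lit 1368) (nat_lit 4652626498) (nat_lit 601) (nat_lit 5) (nat_lit 600) (nat_lit 5) (nat_lit 618) (nat_lit 5) (nat_lit 554) (nat_lit 534) (nat_lit 472)) (XT.nd (nat_lit 78) (nat_lit 1292) (nat_lit 0) (XT.lf (nat_lit 0) (nat_lit 4852706966) (nat_lit 1292) (nat_lit 2546910234) (nat_lit 76) (nat_lit 262135198) (nat_lit 601) (nat_lit 5) (nat_lit 618) (nat_lit 5) (nat_lit 602) (nat_lit 5) (nat_lit 555) (nat_lit 534) (nat_lit 471)) (XT.lf (nat_lit 0) (nat_lit 1803079753) (nat_lit 1292) (nat_lit 4972717820) (nat_lit 1368) (nat_lit 940703730) (nat_lit 584) (nat_lit 5) (nat_lit 601) (nat_lit 5) (nat_lit 602) (nat_lit 5) (nat_lit 556) (nat_lit 534) (nat_lit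 470)))) (XT.nd (nat_lit 78) (nat_lit 1368) (nat_lit 0) (XT.lf (nat_lit 0) (nat_lit 931856328) (nat_lit 1368) (nat_lit 1533116100) (nat_lit 76) (nat_lit 5307664064) (nat_lit 583) (nat_lit 5) (nat_lit 601) (nat_lit 5) (nat_lit 584) (nat_lit 5) (nat_lit 557) (nat_lit 534) (nat_lit 469)) (XT.nd (nat_lit 78) (nat_lit 0) (nat_lit 0) (XT.lf (nat_lit 0) (nat_lit 2812227863) (nat_lit 1444) (nat_lit 4892608245) (nat_lit 76) (nat_lit 125281428) (nat_lit 565) (nat_lit 5) (nat_lit 584) (nat_lit 5) (nat_lit 566) (nat_lit 5) (nat_lit 558) (nat_lit 534) (nat_lit 468)) (XT.lf (nat_lit 0) (nat_lit 4720520086) (nat_lit 1444) (nat_lit 415955244) (nat_lit 76) (nat_lit 2752473113) (nat_lit 565) (nat_lit 5) (nat_lit 584) (nat_lit 5) (nat_lit 566) (nat_lit 5) (nat_lit 559) (nat_lit 534) (nat_lit 467)))))) (XT.nd (nat_lit 468) (nat_lit 5396) (nat_lit 0) (XT.nd (nat_lit 234) (nat_lit 3344) (nat_lit 0) (XT.nd (nat_lit 78) (nat_lit 1596) (nat_lit 0) (XT.lf (nat_lit 0) (nat_lit 4176228954) (nat_lit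 1444) (nat_lit 2482209917) (nat_lit 1520) (nat_lit 1290694263) (nat_lit 546) (nat_lit 5) (nat_lit 565) (nat_lit 5) (nat_lit 566) (nat_lit 5) (nat_lit 560) (nat_lit 534) (nat_lit 466)) (XT.nd (nat_lit 78) (nat_lit 0) (nat_lit 0) (XT.lf (nat_lit 0) (nat_lit 590827010) (nat_lit 1596) (nat_lit 7179351059) (nat_lit 76) (nat_lit 240779992) (nat_lit 525) (nat_lit 5) (nat_lit 546) (nat_lit 5) (nat_lit 526) (nat_lit 5) (nat_lit 561) (nat_lit 534) (nat_lit 465)) (XT.lf (nat_lit 0) (nat_lit 2499802529) (nat_lit 1596) (nat_lit 2548927925) (nat_lit 76) (nat_lit 3024982291) (nat_lit 525) (nat_lit 5) (nat_lit 546) (nat_lit 5) (nat_lit 526) (nat_lit 5) (nat_lit 562) (nat_lit 534) (nat_lit 464)))) (XT.nd (nat_lit 78) (nat_lit 1748) (nat_lit 0) (XT.lf (nat_lit 0) (nat_lit 2173579053) (nat_lit 1596) (nat_lit 2253339590) (nat_lit 1672) (nat_lit 3711210553) (nat_lit 504) (nat_lit 5) (nat_lit 525) (nat_lit 5) (nat_lit 526) (nat_lit 5) (nat_lit 563) (nat_lit 534) (nat_lit 463)) (XT.nd (nat_lit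 78) (nat_lit 1748) (nat_lit 0) (XT.lf (nat_lit 0) (nat_lit 6380039847) (nat_lit 1672) (nat_lit 1211950951) (nat_lit 76) (nat_lit 612099700) (nat_lit 504) (nat_lit 5) (nat_lit 526) (nat_lit 5) (nat_lit 505) (nat_lit 5) (nat_lit 564) (nat_lit 534) (nat_lit 462)) (XT.lf (nat_lit 0) (nat_lit 105136214) (nat_lit 1748) (nat_lit 4632417795) (nat_lit 76) (nat_lit 3533697346) (nat_lit 481) (nat_lit 5) (nat_lit 504) (nat_lit 5) (nat_lit 482) (nat_lit 5) (nat_lit 565) (nat_lit 534) (nat_lit 461))))) (XT.nd (nat_lit 234) (nat_lit 1976) (nat_lit 0) (XT.nd (nat_lit 78) (nat_lit 1672) (nat_lit 0) (XT.lf (nat_lit 0) (nat_lit 225065915) (nat_lit 1748) (nat_lit 1800348644) (nat_lit 1824) (nat_lit 6314566541) (nat_lit 458) (nat_lit 5) (nat_lit 481) (nat_lit 5) (nat_lit 482) (nat_lit 5) (nat_lit 566) (nat_lit 534) (nat_lit 460)) (XT.nd (nat_lit 78) (nat_lit 1672) (nat_lit 0) (XT.lf (nat_lit 0) (nat_lit 3990888524) (nat_lit 1824) (nat_lit 3204640724) (nat_lit 76) (nat_lit 1214425729) (nat_lit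 458) (nat_lit 5) (nat_lit 482) (nat_lit 5) (nat_lit 459) (nat_lit 5) (nat_lit 567) (nat_lit 534) (nat_lit 459)) (XT.lf (nat_lit 0) (nat_lit 1786223969) (nat_lit 1672) (nat_lit 4201336412) (nat_lit 1748) (nat_lit 2493935416) (nat_lit 436) (nat_lit 5) (nat_lit 458) (nat_lit 5) (nat_lit 459) (nat_lit 5) (nat_lit 568) (nat_lit 534) (nat_lit 458)))) (XT.nd (nat_lit 156) (nat_lit 912) (nat_lit 0) (XT.nd (nat_lit 78) (nat_lit 1064) (nat_lit 0) (XT.lf (nat_lit 0) (nat_lit 6891418213) (nat_lit 1672) (nat_lit 1123052928) (nat_lit 1748) (nat_lit 540195314) (nat_lit 436) (nat_lit 5) (nat_lit 458) (nat_lit 5) (nat_lit 459) (nat_lit 5) (nat_lit 569) (nat_lit 534) (nat_lit 457)) (XT.lf (nat_lit 0) (nat_lit 1438666284) (nat_lit 1064) (nat_lit 5165791764) (nat_lit 76) (nat_lit 2024556822) (nat_lit 422) (nat_lit 5) (nat_lit 436) (nat_lit 5) (nat_lit 423) (nat_lit 5) (nat_lit 570) (nat_lit 534) (nat_lit 456))) (XT.nd (nat_lit 78) (nat_lit 912) (nat_lit 0) (XT.lf (nat_lit 0) (nat_lit 3438186010)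 (nat_lit 1064) (nat_lit 30155352) (nat_lit 76) (nat_lit 5236676031) (nat_lit 422) (nat_lit 5) (nat_lit 436) (nat_lit 5) (nat_lit 423) (nat_lit 5) (nat_lit 571) (nat_lit 534) (nat_lit 455)) (XT.lf (nat_lit 0) (nat_lit 5248390936) (nat_lit 912) (nat_lit 233611352) (nat_lit 988) (nat_lit 3300456295) (nat_lit 410) (nat_lit 5) (nat_lit 422) (nat_lit 5) (nat_lit 423) (nat_lit 5) (nat_lit 572) (nat_lit 534) (nat_lit 454))))))) (XT.nd (nat_lit 936) (nat_lit 5548) (nat_lit 0) (XT.nd (nat_lit 468) (nat_lit 2508) (nat_lit 0) (XT.nd (nat_lit 234) (nat_lit 1596) (nat_lit 0) (XT.nd (nat_lit 78) (nat_lit 912) (nat_lit 0) (XT.lf (nat_lit 0) (nat_lit 1745411009) (nat_lit 912) (nat_lit 5823360374) (nat_lit 988) (nat_lit 1292640331) (nat_lit 398) (nat_lit 5) (nat_lit 410) (nat_lit 5) (nat_lit 411) (nat_lit 5) (nat_lit 573) (nat_lit 534) (nat_lit 453)) (XT.nd (nat_lit 78) (nat_lit 836) (nat_lit 0) (XT.lf (nat_lit 0) (nat_lit 741672418) (nat_lit 988) (nat_lit 1798940577) (nat_lit 76) (nat_lit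 6401312363) (nat_lit 397) (nat_lit 5) (nat_lit 410) (nat_lit 5) (nat_lit 398) (nat_lit 5) (nat_lit 574) (nat_lit 534) (nat_lit 452)) (XT.lf (nat_lit 0) (nat_lit 2799835732) (nat_lit 912) (nat_lit 5394540789) (nat_lit 76) (nat_lit 829496791) (nat_lit 386) (nat_lit 5) (nat_lit 398) (nat_lit 5) (nat_lit 387) (nat_lit 5) (nat_lit 575) (nat_lit 534) (nat_lit 451)))) (XT.nd (nat_lit 78) (nat_lit 760) (nat_lit 0) (XT.lf (nat_lit 0) (nat_lit 37876820) (nat_lit 836) (nat_lit 4862281808) (nat_lit 912) (nat_lit 4207285963) (nat_lit 375) (nat_lit 5) (nat_lit 386) (nat_lit 5) (nat_lit 387) (nat_lit 5) (nat_lit 576) (nat_lit 534) (nat_lit 450)) (XT.nd (nat_lit 78) (nat_lit 760) (nat_lit 0) (XT.lf (nat_lit 0) (nat_lit 5623206182) (nat_lit 836) (nat_lit 1427621448) (nat_lit 912) (nat_lit 2141697082) (nat_lit 375) (nat_lit 5) (nat_lit 386) (nat_lit 5) (nat_lit 387) (nat_lit 5) (nat_lit 577) (nat_lit 534) (nat_lit 449)) (XT.lf (nat_lit 0) (nat_lit 2025180102) (nat_lit 760) (nat_lit 7218635108)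 (nat_lit 836) (nat_lit 35509249) (nat_lit 365) (nat_lit 5) (nat_lit 375) (nat_lit 5) (nat_lit 376) (nat_lit 5) (nat_lit 578) (nat_lit 534) (nat_lit 448))))) (XT.nd (nat_lit 234) (nat_lit 836) (nat_lit 0) (XT.nd (nat_lit 78) (nat_lit 1596) (nat_lit 0) (XT.lf (nat_lit 0) (nat_lit 2091504067) (nat_lit 836) (nat_lit 1639774439) (nat_lit 76) (nat_lit 5636183078) (nat_lit 364) (nat_lit 5) (nat_lit 375) (nat_lit 5) (nat_lit 365) (nat_lit 5) (nat_lit 579) (nat_lit 534) (nat_lit 447)) (XT.nd (nat_lit 78) (nat_lit 760) (nat_lit 0) (XT.lf (nat_lit 0) (nat_lit 4112133744) (nat_lit 836) (nat_lit 148526440) (nat_lit 912) (nat_lit 5196698900) (nat_lit 353) (nat_lit 5) (nat_lit 364) (nat_lit 5) (nat_lit 365) (nat_lit 5) (nat_lit 580) (nat_lit 534) (nat_lit 446)) (XT.lf (nat_lit 0) (nat_lit 406190241) (nat_lit 760) (nat_lit 6077190108) (nat_lit 836) (nat_lit 3065474381) (nat_lit 343) (nat_lit 5) (nat_lit 353) (nat_lit 5) (nat_lit 354) (nat_lit 5) (nat_lit 581) (nat_lit 534) (nat_lit 445))))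 (XT.nd (nat_lit 78) (nat_lit 836) (nat_lit 0) (XT.lf (nat_lit 0) (nat_lit 6315507843) (nat_lit 760) (nat_lit 2445928040) (nat_lit 836) (nat_lit 880530522) (nat_lit 343) (nat_lit 5) (nat_lit 353) (nat_lit 5) (nat_lit 354) (nat_lit 5) (nat_lit 582) (nat_lit 534) (nat_lit 444)) (XT.nd (nat_lit 78) (nat_lit 0) (nat_lit 0) (XT.lf (nat_lit 0) (nat_lit 1330023536) (nat_lit 836) (nat_lit 7142173597) (nat_lit 76) (nat_lit 1264579876) (nat_lit 332) (nat_lit 5) (nat_lit 343) (nat_lit 5) (nat_lit 333) (nat_lit 5) (nat_lit 583) (nat_lit 534) (nat_lit 443)) (XT.lf (nat_lit 0) (nat_lit 3586350063) (nat_lit 836) (nat_lit 1204710711) (nat_lit 76) (nat_lit 5042043135) (nat_lit 332) (nat_lit 5) (nat_lit 343) (nat_lit 5) (nat_lit 333) (nat_lit 5) (nat_lit 584) (nat_lit 534) (nat_lit 442)))))) (XT.nd (nat_lit 468) (nat_lit 2660) (nat_lit 0) (XT.nd (nat_lit 234) (nat_lit 1368) (nat_lit 0) (XT.nd (nat_lit 78) (nat_lit 836) (nat_lit 0) (XT.lf (nat_lit 0) (nat_lit 4887490351) (nat_lit 684) (nat_lit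 1007214571) (nat_lit 760) (nat_lit 4036517840) (nat_lit 323) (nat_lit 5) (nat_lit 332) (nat_lit 5) (nat_lit 333) (nat_lit 5) (nat_lit 585) (nat_lit 534) (nat_lit 441)) (XT.nd (nat_lit 78) (nat_lit 76) (nat_lit 0) (XT.lf (nat_lit 0) (nat_lit 1053570175) (nat_lit 760) (nat_lit 7204606498) (nat_lit 836) (nat_lit 1772951710) (nat_lit 313) (nat_lit 5) (nat_lit 323) (nat_lit 5) (nat_lit 324) (nat_lit 5) (nat_lit 586) (nat_lit 534) (nat_lit 440)) (XT.lf (nat_lit 0) (nat_lit 545184792) (nat_lit 836) (nat_lit 2830080155) (nat_lit 76) (nat_lit 6757374292) (nat_lit 312) (nat_lit 5) (nat_lit 323) (nat_lit 5) (nat_lit 313) (nat_lit 5) (nat_lit 587) (nat_lit 534) (nat_lit 439)))) (XT.nd (nat_lit 78) (nat_lit 684) (nat_lit 0) (XT.lf (nat_lit 0) (nat_lit 2888049450) (nat_lit 760) (nat_lit 6793805933) (nat_lit 76) (nat_lit 554051628) (nat_lit 303) (nat_lit 5) (nat_lit 313) (nat_lit 5) (nat_lit 304) (nat_lit 5) (nat_lit 588) (nat_lit 534) (nat_lit 438)) (XT.nd (nat_lit 78) (nat_lit 684)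 (nat_lit 0) (XT.lf (nat_lit 0) (nat_lit 5295568580) (nat_lit 760) (nat_lit 513494974) (nat_lit 76) (nat_lit 4531823768) (nat_lit 303) (nat_lit 5) (nat_lit 313) (nat_lit 5) (nat_lit 304) (nat_lit 5) (nat_lit 589) (nat_lit 534) (nat_lit 437)) (XT.lf (nat_lit 0) (nat_lit 5942670651) (nat_lit 684) (nat_lit 1823942706) (nat_lit 760) (nat_lit 2681049446) (nat_lit 294) (nat_lit 5) (nat_lit 303) (nat_lit 5) (nat_lit 304) (nat_lit 5) (nat_lit 590) (nat_lit 534) (nat_lit 436))))) (XT.nd (nat_lit 234) (nat_lit 1292) (nat_lit 0) (XT.nd (nat_lit 78) (nat_lit 760) (nat_lit 0) (XT.lf (nat_lit 0) (nat_lit 1961629794) (nat_lit 608) (nat_lit 8333241616) (nat_lit 684) (nat_lit 261549540) (nat_lit 286) (nat_lit 5) (nat_lit 294) (nat_lit 5) (nat_lit 295) (nat_lit 5) (nat_lit 591) (nat_lit 534) (nat_lit 435)) (XT.nd (nat_lit 78) (nat_lit 684) (nat_lit 0) (XT.lf (nat_lit 0) (nat_lit 2197069061) (nat_lit 684) (nat_lit 2102766599) (nat_lit 76) (nat_lit 6366841685) (nat_lit 285) (nat_lit 5) (nat_lit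 294) (nat_lit 5) (nat_lit 286) (nat_lit 5) (nat_lit 592) (nat_lit 534) (nat_lit 434)) (XT.lf (nat_lit 0) (nat_lit 4549521208) (nat_lit 684) (nat_lit 158981485) (nat_lit 760) (nat_lit 6070461533) (nat_lit 276) (nat_lit 5) (nat_lit 285) (nat_lit 5) (nat_lit 286) (nat_lit 5) (nat_lit 593) (nat_lit 534) (nat_lit 433)))) (XT.nd (nat_lit 156) (nat_lit 684) (nat_lit 0) (XT.nd (nat_lit 78) (nat_lit 0) (nat_lit 0) (XT.lf (nat_lit 0) (nat_lit 421443238) (nat_lit 608) (nat_lit 6869883815) (nat_lit 684) (nat_lit 3601749329) (nat_lit 268) (nat_lit 5) (nat_lit 276) (nat_lit 5) (nat_lit 277) (nat_lit 5) (nat_lit 594) (nat_lit 534) (nat_lit 432)) (XT.lf (nat_lit 0) (nat_lit 7261160987) (nat_lit 608) (nat_lit 2685582412) (nat_lit 684) (nat_lit 1062311396) (nat_lit 268) (nat_lit 5) (nat_lit 276) (nat_lit 5) (nat_lit 277) (nat_lit 5) (nat_lit 595) (nat_lit 534) (nat_lit 431))) (XT.nd (nat_lit 78) (nat_lit 0) (nat_lit 0) (XT.lf (nat_lit 0) (nat_lit 1516902310) (nat_lit 684) (nat_lit 8023692869)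 (nat_lit 76) (nat_lit 1586381290) (nat_lit 259) (nat_lit 5) (nat_lit 268) (nat_lit 5) (nat_lit 260) (nat_lit 5) (nat_lit 596) (nat_lit 534) (nat_lit 430)) (XT.lf (nat_lit 0) (nat_lit 4155173539) (nat_lit 684) (nat_lit 1156976296) (nat_lit 76) (nat_lit 5934534920) (nat_lit 259) (nat_lit 5) (nat_lit 268) (nat_lit 5) (nat_lit 260) (nat_lit 5) (nat_lit 597) (nat_lit 534) (nat_lit 429))))))))
noncomputable def xc118 : XT := (XT.nd (nat_lit 1950) (nat_lit 5016) (nat_lit 0) (XT.nd (nat_lit 936) (nat_lit 3648) (nat_lit 0) (XT.nd (nat_lit 468) (nat_lit 2204) (nat_lit 0) (XT.nd (nat_lit 234) (nat_lit 1064) (nat_lit 0) (XT.nd (nat_lit 78) (nat_lit 684) (nat_lit 0) (XT.lf (nat_lit 0) (nat_lit 5897436306) (nat_lit 532) (nat_lit 966065999) (nat_lit 608) (nat_lit 4504941571) (nat_lit 252) (nat_lit 5) (nat_lit 259) (nat_lit 5) (nat_lit 260) (nat_lit 5) (nat_lit 598) (nat_lit 534) (nat_lit 428)) (XT.nd (nat_lit 78) (nat_lit 76) (nat_lit 0) (XT.lf (nat_lit 0) (nat_lit 1587207675) (nat_lit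 608) (nat_lit 8058620652) (nat_lit 684) (nat_lit 1846415707) (nat_lit 244) (nat_lit 5) (nat_lit 252) (nat_lit 5) (nat_lit 253) (nat_lit 5) (nat_lit 599) (nat_lit 534) (nat_lit 427)) (XT.lf (nat_lit 0) (nat_lit 876580990) (nat_lit 684) (nat_lit 2796580467) (nat_lit 76) (nat_lit 7944795777) (nat_lit 243) (nat_lit 5) (nat_lit 252) (nat_lit 5) (nat_lit 244) (nat_lit 5) (nat_lit 600) (nat_lit 534) (nat_lit 426)))) (XT.nd (nat_lit 78) (nat_lit 532) (nat_lit 0) (XT.lf (nat_lit 0) (nat_lit 3643509728) (nat_lit 608) (nat_lit 7277451456) (nat_lit 76) (nat_lit 824697829) (nat_lit 236) (nat_lit 5) (nat_lit 244) (nat_lit 5) (nat_lit 237) (nat_lit 5) (nat_lit 601) (nat_lit 534) (nat_lit 425)) (XT.nd (nat_lit 78) (nat_lit 532) (nat_lit 0) (XT.lf (nat_lit 0) (nat_lit 6488877091) (nat_lit 608) (nat_lit 10724048) (nat_lit 76) (nat_lit 5375853966) (nat_lit 236) (nat_lit 5) (nat_lit 244) (nat_lit 5) (nat_lit 237) (nat_lit 5) (nat_lit 602) (nat_lit 534) (nat_lit 424)) (XT.lf (nat_lit 0) (nat_lit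 7472940568) (nat_lit 532) (nat_lit 1947008626) (nat_lit 608) (nat_lit 2587324211) (nat_lit 229) (nat_lit 5) (nat_lit 236) (nat_lit 5) (nat_lit 237) (nat_lit 5) (nat_lit 603) (nat_lit 534) (nat_lit 423))))) (XT.nd (nat_lit 234) (nat_lit 1064) (nat_lit 0) (XT.nd (nat_lit 78) (nat_lit 532) (nat_lit 0) (XT.lf (nat_lit 0) (nat_lit 281759094) (nat_lit 608) (nat_lit 9183818492) (nat_lit 76) (nat_lit 2675770677) (nat_lit 221) (nat_lit 5) (nat_lit 229) (nat_lit 5) (nat_lit 222) (nat_lit 5) (nat_lit 604) (nat_lit 534) (nat_lit 422)) (XT.nd (nat_lit 78) (nat_lit 532) (nat_lit 0) (XT.lf (nat_lit 0) (nat_lit 3197668049) (nat_lit 608) (nat_lit 1673699697) (nat_lit 76) (nat_lit 7405915170) (nat_lit 221) (nat_lit 5) (nat_lit 229) (nat_lit 5) (nat_lit 222) (nat_lit 5) (nat_lit 605) (nat_lit 534) (nat_lit 421)) (XT.lf (nat_lit 0) (nat_lit 6039688826) (nat_lit 532) (nat_lit 152334241) (nat_lit 608) (nat_lit 6223512698) (nat_lit 214) (nat_lit 5) (nat_lit 221) (nat_lit 5) (nat_lit 222) (nat_lit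 5) (nat_lit 606) (nat_lit 534) (nat_lit 420)))) (XT.nd (nat_lit 78) (nat_lit 608) (nat_lit 0) (XT.lf (nat_lit 0) (nat_lit 1334563520) (nat_lit 456) (nat_lit 7943008922) (nat_lit 532) (nat_lit 3278357109) (nat_lit 208) (nat_lit 5) (nat_lit 214) (nat_lit 5) (nat_lit 215) (nat_lit 5) (nat_lit 607) (nat_lit 534) (nat_lit 419)) (XT.nd (nat_lit 78) (nat_lit 608) (nat_lit 0) (XT.lf (nat_lit 0) (nat_lit 9258453465) (nat_lit 456) (nat_lit 3191442034) (nat_lit 532) (nat_lit 248736444) (nat_lit 208) (nat_lit 5) (nat_lit 214) (nat_lit 5) (nat_lit 215) (nat_lit 5) (nat_lit 608) (nat_lit 534) (nat_lit 418)) (XT.lf (nat_lit 0) (nat_lit 2826035150) (nat_lit 608) (nat_lit 8343134535) (nat_lit 76) (nat_lit 1674215127) (nat_lit 200) (nat_lit 5) (nat_lit 208) (nat_lit 5) (nat_lit 201) (nat_lit 5) (nat_lit 609) (nat_lit 534) (nat_lit 417)))))) (XT.nd (nat_lit 468) (nat_lit 1748) (nat_lit 0) (XT.nd (nat_lit 234) (nat_lit 988) (nat_lit 0) (XT.nd (nat_lit 78) (nat_lit 912) (nat_lit 0) (XT.lf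 (nat_lit 0) (nat_lit 5985014650) (nat_lit 608) (nat_lit 393403564) (nat_lit 76) (nat_lit 6612062652) (nat_lit 200) (nat_lit 5) (nat_lit 208) (nat_lit 5) (nat_lit 201) (nat_lit 5) (nat_lit 610) (nat_lit 534) (nat_lit 416)) (XT.nd (nat_lit 78) (nat_lit 456) (nat_lit 0) (XT.lf (nat_lit 0) (nat_lit 7792008617) (nat_lit 456) (nat_lit 1447781766) (nat_lit 532) (nat_lit 3900077955) (nat_lit 194) (nat_lit 5) (nat_lit 200) (nat_lit 5) (nat_lit 201) (nat_lit 5) (nat_lit 611) (nat_lit 534) (nat_lit 415)) (XT.lf (nat_lit 0) (nat_lit 2842634202) (nat_lit 456) (nat_lit 9743559021) (nat_lit 532) (nat_lit 705521502) (nat_lit 188) (nat_lit 5) (nat_lit 194) (nat_lit 5) (nat_lit 195) (nat_lit 5) (nat_lit 612) (nat_lit 534) (nat_lit 414)))) (XT.nd (nat_lit 78) (nat_lit 912) (nat_lit 0) (XT.lf (nat_lit 0) (nat_lit 2547386857) (nat_lit 532) (nat_lit 2228568382) (nat_lit 76) (nat_lit 8669754166) (nat_lit 187) (nat_lit 5) (nat_lit 194) (nat_lit 5) (nat_lit 188) (nat_lit 5) (nat_lit 613) (nat_lit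 534) (nat_lit 413)) (XT.nd (nat_lit 78) (nat_lit 456) (nat_lit 0) (XT.lf (nat_lit 0) (nat_lit 5880936365) (nat_lit 532) (nat_lit 7396484531) (nat_lit 76) (nat_lit 324770905) (nat_lit 181) (nat_lit 5) (nat_lit 188) (nat_lit 5) (nat_lit 182) (nat_lit 5) (nat_lit 614) (nat_lit 534) (nat_lit 412)) (XT.lf (nat_lit 0) (nat_lit 1033861382) (nat_lit 456) (nat_lit 8283397761) (nat_lit 532) (nat_lit 4443824317) (nat_lit 175) (nat_lit 5) (nat_lit 181) (nat_lit 5) (nat_lit 182) (nat_lit 5) (nat_lit 615) (nat_lit 534) (nat_lit 411))))) (XT.nd (nat_lit 234) (nat_lit 1292) (nat_lit 0) (XT.nd (nat_lit 78) (nat_lit 456) (nat_lit 0) (XT.lf (nat_lit 0) (nat_lit 9707899704) (nat_lit 456) (nat_lit 3146925615) (nat_lit 532) (nat_lit 1067678921) (nat_lit 175) (nat_lit 5) (nat_lit 181) (nat_lit 5) (nat_lit 182) (nat_lit 5) (nat_lit 616) (nat_lit 534) (nat_lit 410)) (XT.nd (nat_lit 78) (nat_lit 0) (nat_lit 0) (XT.lf (nat_lit 0) (nat_lit 2370892033) (nat_lit 456) (nat_lit 9613653753) (nat_lit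 76) (nat_lit 2101779400) (nat_lit 169) (nat_lit 5) (nat_lit 175) (nat_lit 5) (nat_lit 170) (nat_lit 5) (nat_lit 617) (nat_lit 534) (nat_lit 409)) (XT.lf (nat_lit 0) (nat_lit 5896485723) (nat_lit 456) (nat_lit 915160807) (nat_lit 76) (nat_lit 7440985457) (nat_lit 169) (nat_lit 5) (nat_lit 175) (nat_lit 5) (nat_lit 170) (nat_lit 5) (nat_lit 618) (nat_lit 534) (nat_lit 408)))) (XT.nd (nat_lit 156) (nat_lit 456) (nat_lit 0) (XT.nd (nat_lit 78) (nat_lit 380) (nat_lit 0) (XT.lf (nat_lit 0) (nat_lit 8038186704) (nat_lit 456) (nat_lit 1490146854) (nat_lit 532) (nat_lit 4893218022) (nat_lit 163) (nat_lit 5) (nat_lit 169) (nat_lit 5) (nat_lit 170) (nat_lit 5) (nat_lit 619) (nat_lit 534) (nat_lit 407)) (XT.lf (nat_lit 0) (nat_lit 2572763852) (nat_lit 380) (nat_lit 10692171874) (nat_lit 456) (nat_lit 1328272966) (nat_lit 158) (nat_lit 5) (nat_lit 163) (nat_lit 5) (nat_lit 164) (nat_lit 5) (nat_lit 620) (nat_lit 534) (nat_lit 406))) (XT.nd (nat_lit 78) (nat_lit 380) (nat_lit 0) (XT.lf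 (nat_lit 0) (nat_lit 2314406950) (nat_lit 456) (nat_lit 3022742300) (nat_lit 76) (nat_lit 9430117307) (nat_lit 157) (nat_lit 5) (nat_lit 163) (nat_lit 5) (nat_lit 158) (nat_lit 5) (nat_lit 621) (nat_lit 534) (nat_lit 405)) (XT.lf (nat_lit 0) (nat_lit 6037566660) (nat_lit 456) (nat_lit 8741974907) (nat_lit 76) (nat_lit 164581569) (nat_lit 152) (nat_lit 5) (nat_lit 158) (nat_lit 5) (nat_lit 153) (nat_lit 5) (nat_lit 622) (nat_lit 534) (nat_lit 404))))))) (XT.nd (nat_lit 936) (nat_lit 2432) (nat_lit 0) (XT.nd (nat_lit 468) (nat_lit 1064) (nat_lit 0) (XT.nd (nat_lit 234) (nat_lit 684) (nat_lit 0) (XT.nd (nat_lit 78) (nat_lit 456) (nat_lit 0) (XT.lf (nat_lit 0) (nat_lit 474820713) (nat_lit 380) (nat_lit 9403355494) (nat_lit 456) (nat_lit 5245482266) (nat_lit 147) (nat_lit 5) (nat_lit 152) (nat_lit 5) (nat_lit 153) (nat_lit 5) (nat_lit 623) (nat_lit 534) (nat_lit 403)) (XT.nd (nat_lit 78) (nat_lit 456) (nat_lit 0) (XT.lf (nat_lit 0) (nat_lit 9970285628) (nat_lit 380) (nat_lit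 3868269558) (nat_lit 456) (nat_lit 1467371521) (nat_lit 147) (nat_lit 5) (nat_lit 152) (nat_lit 5) (nat_lit 153) (nat_lit 5) (nat_lit 624) (nat_lit 534) (nat_lit 402)) (XT.lf (nat_lit 0) (nat_lit 2378406334) (nat_lit 456) (nat_lit 11323829949) (nat_lit 76) (nat_lit 1788827405) (nat_lit 141) (nat_lit 5) (nat_lit 147) (nat_lit 5) (nat_lit 142) (nat_lit 5) (nat_lit 625) (nat_lit 534) (nat_lit 401)))) (XT.nd (nat_lit 78) (nat_lit 684) (nat_lit 0) (XT.lf (nat_lit 0) (nat_lit 6327723765) (nat_lit 456) (nat_lit 1806264120) (nat_lit 76) (nat_lit 7544797351) (nat_lit 141) (nat_lit 5) (nat_lit 147) (nat_lit 5) (nat_lit 142) (nat_lit 5) (nat_lit 626) (nat_lit 534) (nat_lit 400)) (XT.nd (nat_lit 78) (nat_lit 380) (nat_lit 0) (XT.lf (nat_lit 0) (nat_lit 7982823309) (nat_lit 304) (nat_lit 2409930096) (nat_lit 380) (nat_lit 5476774527) (nat_lit 137) (nat_lit 5) (nat_lit 141) (nat_lit 5) (nat_lit 142) (nat_lit 5) (nat_lit 627) (nat_lit 534) (nat_lit 399)) (XT.lf (nat_lit 0) (nat_lit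 1907391633) (nat_lit 380) (nat_lit 12663523991) (nat_lit 456) (nat_lit 1492534426) (nat_lit 132) (nat_lit 5) (nat_lit 137) (nat_lit 5) (nat_lit 138) (nat_lit 5) (nat_lit 628) (nat_lit 534) (nat_lit 398))))) (XT.nd (nat_lit 234) (nat_lit 684) (nat_lit 0) (XT.nd (nat_lit 78) (nat_lit 304) (nat_lit 0) (XT.lf (nat_lit 0) (nat_lit 2591928743) (nat_lit 456) (nat_lit 4312583067) (nat_lit 76) (nat_lit 9355320808) (nat_lit 131) (nat_lit 5) (nat_lit 137) (nat_lit 5) (nat_lit 132) (nat_lit 5) (nat_lit 629) (nat_lit 534) (nat_lit 397)) (XT.nd (nat_lit 78) (nat_lit 0) (nat_lit 0) (XT.lf (nat_lit 0) (nat_lit 5770359063) (nat_lit 304) (nat_lit 990542603) (nat_lit 380) (nat_lit 9698588888) (nat_lit 127) (nat_lit 5) (nat_lit 131) (nat_lit 5) (nat_lit 132) (nat_lit 5) (nat_lit 630) (nat_lit 534) (nat_lit 396)) (XT.lf (nat_lit 0) (nat_lit 11060524315) (nat_lit 380) (nat_lit 605352140) (nat_lit 76) (nat_lit 4996320905) (nat_lit 127) (nat_lit 5) (nat_lit 132) (nat_lit 5) (nat_lit 128) (nat_lit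 5) (nat_lit 631) (nat_lit 534) (nat_lit 395)))) (XT.nd (nat_lit 78) (nat_lit 380) (nat_lit 0) (XT.lf (nat_lit 0) (nat_lit 9778970608) (nat_lit 304) (nat_lit 5722911245) (nat_lit 380) (nat_lit 1365962696) (nat_lit 123) (nat_lit 5) (nat_lit 127) (nat_lit 5) (nat_lit 128) (nat_lit 5) (nat_lit 632) (nat_lit 534) (nat_lit 394)) (XT.nd (nat_lit 78) (nat_lit 0) (nat_lit 0) (XT.lf (nat_lit 0) (nat_lit 2929417523) (nat_lit 380) (nat_lit 13776532350) (nat_lit 76) (nat_lit 370998135) (nat_lit 118) (nat_lit 5) (nat_lit 123) (nat_lit 5) (nat_lit 119) (nat_lit 5) (nat_lit 633) (nat_lit 534) (nat_lit 393)) (XT.lf (nat_lit 0) (nat_lit 7364023431) (nat_lit 380) (nat_lit 3365904223) (nat_lit 76) (nat_lit 6558694168) (nat_lit 118) (nat_lit 5) (nat_lit 123) (nat_lit 5) (nat_lit 119) (nat_lit 5) (nat_lit 634) (nat_lit 534) (nat_lit 392)))))) (XT.nd (nat_lit 468) (nat_lit 1216) (nat_lit 0) (XT.nd (nat_lit 234) (nat_lit 532) (nat_lit 0) (XT.nd (nat_lit 78) (nat_lit 380) (nat_lit 0) (XT.lf (nat_lit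 0) (nat_lit 7326531644) (nat_lit 304) (nat_lit 4594442871) (nat_lit 380) (nat_lit 5582882546) (nat_lit 114) (nat_lit 5) (nat_lit 118) (nat_lit 5) (nat_lit 119) (nat_lit 5) (nat_lit 635) (nat_lit 534) (nat_lit 391)) (XT.nd (nat_lit 78) (nat_lit 76) (nat_lit 0) (XT.lf (nat_lit 0) (nat_lit 528914928) (nat_lit 304) (nat_lit 16063279078) (nat_lit 380) (nat_lit 1130741404) (nat_lit 110) (nat_lit 5) (nat_lit 114) (nat_lit 5) (nat_lit 115) (nat_lit 5) (nat_lit 636) (nat_lit 534) (nat_lit 390)) (XT.lf (nat_lit 0) (nat_lit 3451078910) (nat_lit 380) (nat_lit 6433417742) (nat_lit 76) (nat_lit 8059749472) (nat_lit 109) (nat_lit 5) (nat_lit 114) (nat_lit 5) (nat_lit 110) (nat_lit 5) (nat_lit 637) (nat_lit 534) (nat_lit 389)))) (XT.nd (nat_lit 78) (nat_lit 228) (nat_lit 0) (XT.lf (nat_lit 0) (nat_lit 4572721141) (nat_lit 304) (nat_lit 3552838574) (nat_lit 380) (nat_lit 10043951494) (nat_lit 105) (nat_lit 5) (nat_lit 109) (nat_lit 5) (nat_lit 110) (nat_lit 5) (nat_lit 638) (nat_lit 534)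 (nat_lit 388)) (XT.nd (nat_lit 78) (nat_lit 228) (nat_lit 0) (XT.lf (nat_lit 0) (nat_lit 12942379916) (nat_lit 380) (nat_lit 2553605966) (nat_lit 76) (nat_lit 2902319633) (nat_lit 105) (nat_lit 5) (nat_lit 110) (nat_lit 5) (nat_lit 106) (nat_lit 5) (nat_lit 639) (nat_lit 534) (nat_lit 387)) (XT.lf (nat_lit 0) (nat_lit 8780276574) (nat_lit 228) (nat_lit 9142588344) (nat_lit 304) (nat_lit 707465120) (nat_lit 102) (nat_lit 5) (nat_lit 105) (nat_lit 5) (nat_lit 106) (nat_lit 5) (nat_lit 640) (nat_lit 534) (nat_lit 386))))) (XT.nd (nat_lit 234) (nat_lit 608) (nat_lit 0) (XT.nd (nat_lit 78) (nat_lit 228) (nat_lit 0) (XT.lf (nat_lit 0) (nat_lit 1479411038) (nat_lit 304) (nat_lit 2615987605) (nat_lit 380) (nat_lit 14770786643) (nat_lit 97) (nat_lit 5) (nat_lit 101) (nat_lit 5) (nat_lit 102) (nat_lit 5) (nat_lit 641) (nat_lit 534) (nat_lit 385)) (XT.nd (nat_lit 78) (nat_lit 228) (nat_lit 0) (XT.lf (nat_lit 0) (nat_lit 9064514944) (nat_lit 380) (nat_lit 5989698003) (nat_lit 76)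 (nat_lit 4050858647) (nat_lit 97) (nat_lit 5) (nat_lit 102) (nat_lit 5) (nat_lit 98) (nat_lit 5) (nat_lit 642) (nat_lit 534) (nat_lit 384)) (XT.lf (nat_lit 0) (nat_lit 5670913028) (nat_lit 228) (nat_lit 8503386238) (nat_lit 304) (nat_lit 5173611479) (nat_lit 94) (nat_lit 5) (nat_lit 97) (nat_lit 5) (nat_lit 98) (nat_lit 5) (nat_lit 643) (nat_lit 534) (nat_lit 383)))) (XT.nd (nat_lit 156) (nat_lit 228) (nat_lit 0) (XT.nd (nat_lit 78) (nat_lit 380) (nat_lit 0) (XT.lf (nat_lit 0) (nat_lit 17624612021) (nat_lit 228) (nat_lit 1789116945) (nat_lit 304) (nat_lit 181329533) (nat_lit 94) (nat_lit 5) (nat_lit 97) (nat_lit 5) (nat_lit 98) (nat_lit 5) (nat_lit 644) (nat_lit 534) (nat_lit 382)) (XT.lf (nat_lit 0) (nat_lit 4932496729) (nat_lit 380) (nat_lit 9829815350) (nat_lit 76) (nat_lit 5082478133) (nat_lit 89) (nat_lit 5) (nat_lit 94) (nat_lit 5) (nat_lit 90) (nat_lit 5) (nat_lit 645) (nat_lit 534) (nat_lit 381))) (XT.nd (nat_lit 78) (nat_lit 0) (nat_lit 0) (XT.lf (nat_lit 0)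 (nat_lit 2161653281) (nat_lit 228) (nat_lit 8011191991) (nat_lit 304) (nat_lit 9926114608) (nat_lit 86) (nat_lit 5) (nat_lit 89) (nat_lit 5) (nat_lit 90) (nat_lit 5) (nat_lit 646) (nat_lit 534) (nat_lit 380)) (XT.lf (nat_lit 0) (nat_lit 14505213233) (nat_lit 228) (nat_lit 1066337923) (nat_lit 304) (nat_lit 4785591530) (nat_lit 86) (nat_lit 5) (nat_lit 89) (nat_lit 5) (nat_lit 90) (nat_lit 5) (nat_lit 647) (nat_lit 534) (nat_lit 379))))))))
noncomputable def xc119 : XT := (XT.nd (nat_lit 73944) (nat_lit 0) (nat_lit 21964) (XT.nd (nat_lit 72930) (nat_lit 0) (nat_lit 39824) (XT.nd (nat_lit 72462) (nat_lit 0) (nat_lit 43244) (XT.nd (nat_lit 234) (nat_lit 304) (nat_lit 0) (XT.nd (nat_lit 78) (nat_lit 228) (nat_lit 0) (XT.lf (nat_lit 0) (nat_lit 521246292) (nat_lit 304) (nat_lit 14121957545) (nat_lit 76) (nat_lit 5975836440) (nat_lit 82) (nat_lit 5) (nat_lit 86) (nat_lit 5) (nat_lit 83) (nat_lit 5) (nat_lit 648) (nat_lit 534) (nat_lit 378)) (XT.nd (nat_lit 78) (nat_lit 228)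 (nat_lit 0) (XT.lf (nat_lit 0) (nat_lit 5904593905) (nat_lit 304) (nat_lit 1772793534) (nat_lit 76) (nat_lit 13207467393) (nat_lit 82) (nat_lit 5) (nat_lit 86) (nat_lit 5) (nat_lit 83) (nat_lit 5) (nat_lit 649) (nat_lit 534) (nat_lit 377)) (XT.lf (nat_lit 0) (nat_lit 10946539047) (nat_lit 228) (nat_lit 508181590) (nat_lit 304) (nat_lit 9700083491) (nat_lit 79) (nat_lit 5) (nat_lit 82) (nat_lit 5) (nat_lit 83) (nat_lit 5) (nat_lit 650) (nat_lit 534) (nat_lit 376)))) (XT.nd (nat_lit 78) (nat_lit 76) (nat_lit 0) (XT.lf (nat_lit 0) (nat_lit 2482242211) (nat_lit 228) (nat_lit 14693966514) (nat_lit 304) (nat_lit 4252737191) (nat_lit 76) (nat_lit 5) (nat_lit 79) (nat_lit 5) (nat_lit 80) (nat_lit 5) (nat_lit 651) (nat_lit 534) (nat_lit 375)) (XT.nd (nat_lit 72072) (nat_lit 0) (nat_lit 45220) (XT.lf (nat_lit 0) (nat_lit 1346893077) (nat_lit 304) (nat_lit 6175001810) (nat_lit 76) (nat_lit 14185298367) (nat_lit 75) (nat_lit 5) (nat_lit 79) (nat_lit 5) (nat_lit 76) (nat_lit 5) (nat_lit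 652) (nat_lit 534) (nat_lit 374)) (XT.lf (nat_lit 0) (nat_lit 2037656857) (nat_lit 988) (nat_lit 699032772) (nat_lit 988) (nat_lit 699032772) (nat_lit 670) (nat_lit 3) (nat_lit 683) (nat_lit 3) (nat_lit 683) (nat_lit 5) (nat_lit 535) (nat_lit 535) (nat_lit 490))))) (XT.nd (nat_lit 234) (nat_lit 988) (nat_lit 0) (XT.nd (nat_lit 78) (nat_lit 988) (nat_lit 0) (XT.lf (nat_lit 76) (nat_lit 2008160145) (nat_lit 0) (nat_lit 4060401850) (nat_lit 988) (nat_lit 832123887) (nat_lit 671) (nat_lit 5) (nat_lit 670) (nat_lit 3) (nat_lit 683) (nat_lit 5) (nat_lit 536) (nat_lit 535) (nat_lit 489)) (XT.nd (nat_lit 78) (nat_lit 0) (nat_lit 0) (XT.lf (nat_lit 0) (nat_lit 1113854951) (nat_lit 988) (nat_lit 1463518094) (nat_lit 1064) (nat_lit 4353836515) (nat_lit 657) (nat_lit 5) (nat_lit 670) (nat_lit 3) (nat_lit 671) (nat_lit 5) (nat_lit 537) (nat_lit 535) (nat_lit 488)) (XT.lf (nat_lit 76) (nat_lit 2028705646) (nat_lit 0) (nat_lit 1021703017) (nat_lit 1064) (nat_lit 3912579770) (nat_lit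 658) (nat_lit 5) (nat_lit 657) (nat_lit 5) (nat_lit 671) (nat_lit 5) (nat_lit 538) (nat_lit 535) (nat_lit 487)))) (XT.nd (nat_lit 78) (nat_lit 1064) (nat_lit 0) (XT.lf (nat_lit 0) (nat_lit 4989832088) (nat_lit 988) (nat_lit 1415767180) (nat_lit 1064) (nat_lit 590531311) (nat_lit 658) (nat_lit 5) (nat_lit 671) (nat_lit 5) (nat_lit 672) (nat_lit 5) (nat_lit 539) (nat_lit 535) (nat_lit 486)) (XT.nd (nat_lit 78) (nat_lit 1064) (nat_lit 0) (XT.lf (nat_lit 76) (nat_lit 2167883664) (nat_lit 0) (nat_lit 4772554590) (nat_lit 1064) (nat_lit 90059688) (nat_lit 659) (nat_lit 5) (nat_lit 658) (nat_lit 5) (nat_lit 672) (nat_lit 5) (nat_lit 540) (nat_lit 535) (nat_lit 485)) (XT.lf (nat_lit 0) (nat_lit 1801617544) (nat_lit 1064) (nat_lit 1262504279) (nat_lit 1140) (nat_lit 4001967244) (nat_lit 644) (nat_lit 5) (nat_lit 658) (nat_lit 5) (nat_lit 659) (nat_lit 5) (nat_lit 541) (nat_lit 535) (nat_lit 484)))))) (XT.nd (nat_lit 468) (nat_lit 2356) (nat_lit 0) (XT.nd (nat_lit 234) (nat_lit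 0) (nat_lit 0) (XT.nd (nat_lit 78) (nat_lit 1064) (nat_lit 0) (XT.lf (nat_lit 76) (nat_lit 2413834326) (nat_lit 0) (nat_lit 1284706042) (nat_lit 1140) (nat_lit 3404477050) (nat_lit 645) (nat_lit 5) (nat_lit 644) (nat_lit 5) (nat_lit 659) (nat_lit 5) (nat_lit 542) (nat_lit 535) (nat_lit 483)) (XT.nd (nat_lit 78) (nat_lit 1140) (nat_lit 0) (XT.lf (nat_lit 0) (nat_lit 5599194611) (nat_lit 1064) (nat_lit 990922424) (nat_lit 1140) (nat_lit 551260922) (nat_lit 645) (nat_lit 5) (nat_lit 659) (nat_lit 5) (nat_lit 660) (nat_lit 5) (nat_lit 543) (nat_lit 535) (nat_lit 482)) (XT.lf (nat_lit 0) (nat_lit 333834868) (nat_lit 1140) (nat_lit 4400980133) (nat_lit 1216) (nat_lit 2446030107) (nat_lit 630) (nat_lit 5) (nat_lit 645) (nat_lit 5) (nat_lit 646) (nat_lit 5) (nat_lit 544) (nat_lit 535) (nat_lit 481)))) (XT.nd (nat_lit 78) (nat_lit 0) (nat_lit 0) (XT.lf (nat_lit 0) (nat_lit 2188572070) (nat_lit 1140) (nat_lit 619329895) (nat_lit 1216) (nat_lit 4413767724) (nat_lit 630) (nat_lit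 5) (nat_lit 645) (nat_lit 5) (nat_lit 646) (nat_lit 5) (nat_lit 545) (nat_lit 535) (nat_lit 480)) (XT.nd (nat_lit 78) (nat_lit 0) (nat_lit 76) (XT.lf (nat_lit 76) (nat_lit 3253561200) (nat_lit 0) (nat_lit 803982294) (nat_lit 1216) (nat_lit 3206233236) (nat_lit 631) (nat_lit 5) (nat_lit 630) (nat_lit 5) (nat_lit 646) (nat_lit 5) (nat_lit 546) (nat_lit 535) (nat_lit 479)) (XT.lf (nat_lit 0) (nat_lit 5932938554) (nat_lit 1140) (nat_lit 130282244) (nat_lit 1216) (nat_lit 1244132817) (nat_lit 631) (nat_lit 5) (nat_lit 646) (nat_lit 5) (nat_lit 647) (nat_lit 5) (nat_lit 547) (nat_lit 535) (nat_lit 478))))) (XT.nd (nat_lit 234) (nat_lit 1216) (nat_lit 0) (XT.nd (nat_lit 78) (nat_lit 0) (nat_lit 0) (XT.lf (nat_lit 0) (nat_lit 475417334) (nat_lit 1216) (nat_lit 3510145487) (nat_lit 1292) (nat_lit 3366426171) (nat_lit 615) (nat_lit 5) (nat_lit 631) (nat_lit 5) (nat_lit 632) (nat_lit 5) (nat_lit 548) (nat_lit 535) (nat_lit 477)) (XT.nd (nat_lit 78) (nat_lit 0) (nat_lit 76) (XT.lf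 (nat_lit 76) (nat_lit 466988967) (nat_lit 0) (nat_lit 1838809587) (nat_lit 1292) (nat_lit 5092305805) (nat_lit 616) (nat_lit 5) (nat_lit 615) (nat_lit 5) (nat_lit 632) (nat_lit 5) (nat_lit 549) (nat_lit 535) (nat_lit 476)) (XT.lf (nat_lit 0) (nat_lit 4157536737) (nat_lit 1216) (nat_lit 2904305875) (nat_lit 1292) (nat_lit 383612367) (nat_lit 616) (nat_lit 5) (nat_lit 632) (nat_lit 5) (nat_lit 633) (nat_lit 5) (nat_lit 550) (nat_lit 535) (nat_lit 475)))) (XT.nd (nat_lit 156) (nat_lit 0) (nat_lit 0) (XT.nd (nat_lit 78) (nat_lit 1292) (nat_lit 0) (XT.lf (nat_lit 76) (nat_lit 1178427508) (nat_lit 0) (nat_lit 4847279759) (nat_lit 1292) (nat_lit 1468465170) (nat_lit 617) (nat_lit 5) (nat_lit 616) (nat_lit 5) (nat_lit 633) (nat_lit 5) (nat_lit 551) (nat_lit 535) (nat_lit 474)) (XT.lf (nat_lit 0) (nat_lit 361825496) (nat_lit 1292) (nat_lit 2192181266) (nat_lit 1368) (nat_lit 4990224074) (nat_lit 599) (nat_lit 5) (nat_lit 616) (nat_lit 5) (nat_lit 617) (nat_lit 5) (nat_lit 552)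 (nat_lit 535) (nat_lit 473))) (XT.nd (nat_lit 78) (nat_lit 0) (nat_lit 76) (XT.lf (nat_lit 76) (nat_lit 2002701564) (nat_lit 0) (nat_lit 180075537) (nat_lit 1368) (nat_lit 5412852142) (nat_lit 600) (nat_lit 5) (nat_lit 599) (nat_lit 5) (nat_lit 617) (nat_lit 5) (nat_lit 553) (nat_lit 535) (nat_lit 472)) (XT.lf (nat_lit 0) (nat_lit 4030869467) (nat_lit 1292) (nat_lit 1379578314) (nat_lit 1368) (nat_lit 2237800587) (nat_lit 600) (nat_lit 5) (nat_lit 617) (nat_lit 5) (nat_lit 618) (nat_lit 5) (nat_lit 554) (nat_lit 535) (nat_lit 471))))))) (XT.nd (nat_lit 936) (nat_lit 8892) (nat_lit 0) (XT.nd (nat_lit 468) (nat_lit 4940) (nat_lit 0) (XT.nd (nat_lit 234) (nat_lit 2736) (nat_lit 0) (XT.nd (nat_lit 78) (nat_lit 1368) (nat_lit 0) (XT.lf (nat_lit 76) (nat_lit 2927430531) (nat_lit 0) (nat_lit 2970811527) (nat_lit 1368) (nat_lit 1804038495) (nat_lit 601) (nat_lit 5) (nat_lit 600) (nat_lit 5) (nat_lit 618) (nat_lit 5) (nat_lit 555) (nat_lit 535) (nat_lit 470)) (XT.nd (nat_lit 78)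 (nat_lit 0) (nat_lit 76) (XT.lf (nat_lit 0) (nat_lit 16718537) (nat_lit 1368) (nat_lit 446417152) (nat_lit 1444) (nat_lit 7294823596) (nat_lit 582) (nat_lit 5) (nat_lit 600) (nat_lit 5) (nat_lit 601) (nat_lit 5) (nat_lit 556) (nat_lit 535) (nat_lit 469)) (XT.lf (nat_lit 0) (nat_lit 1852681959) (nat_lit 1368) (nat_lit 3847377588) (nat_lit 76) (nat_lit 2114401242) (nat_lit 583) (nat_lit 5) (nat_lit 601) (nat_lit 5) (nat_lit 584) (nat_lit 5) (nat_lit 557) (nat_lit 535) (nat_lit 468)))) (XT.nd (nat_lit 78) (nat_lit 1444) (nat_lit 0) (XT.lf (nat_lit 0) (nat_lit 579192862) (nat_lit 1368) (nat_lit 3119782190) (nat_lit 1444) (nat_lit 4173651571) (nat_lit 565) (nat_lit 5) (nat_lit 583) (nat_lit 5) (nat_lit 584) (nat_lit 5) (nat_lit 558) (nat_lit 535) (nat_lit 467)) (XT.nd (nat_lit 78) (nat_lit 1444) (nat_lit 0) (XT.lf (nat_lit 0) (nat_lit 5118443542) (nat_lit 1368) (nat_lit 453864266) (nat_lit 1444) (nat_lit 2359852070) (nat_lit 565) (nat_lit 5) (nat_lit 583) (nat_lit 5) (nat_lit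 584) (nat_lit 5) (nat_lit 559) (nat_lit 535) (nat_lit 466)) (XT.lf (nat_lit 0) (nat_lit 1735438057) (nat_lit 1444) (nat_lit 5738690045) (nat_lit 1520) (nat_lit 518941533) (nat_lit 546) (nat_lit 5) (nat_lit 565) (nat_lit 5) (nat_lit 566) (nat_lit 5) (nat_lit 560) (nat_lit 535) (nat_lit 465))))) (XT.nd (nat_lit 234) (nat_lit 3344) (nat_lit 0) (XT.nd (nat_lit 78) (nat_lit 1520) (nat_lit 0) (XT.lf (nat_lit 0) (nat_lit 1328292964) (nat_lit 1520) (nat_lit 1681547708) (nat_lit 76) (nat_lit 5045439954) (nat_lit 545) (nat_lit 5) (nat_lit 565) (nat_lit 5) (nat_lit 546) (nat_lit 5) (nat_lit 561) (nat_lit 535) (nat_lit 464)) (XT.nd (nat_lit 78) (nat_lit 0) (nat_lit 0) (XT.lf (nat_lit 0) (nat_lit 2993955004) (nat_lit 1520) (nat_lit 197008075) (nat_lit 1596) (nat_lit 4928001257) (nat_lit 525) (nat_lit 5) (nat_lit 545) (nat_lit 5) (nat_lit 546) (nat_lit 5) (nat_lit 562) (nat_lit 535) (nat_lit 463)) (XT.lf (nat_lit 0) (nat_lit 5086112720) (nat_lit 1596) (nat_lit 443820352) (nat_lit 76)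 (nat_lit 2654089906) (nat_lit 525) (nat_lit 5) (nat_lit 546) (nat_lit 5) (nat_lit 526) (nat_lit 5) (nat_lit 563) (nat_lit 535) (nat_lit 462)))) (XT.nd (nat_lit 78) (nat_lit 1748) (nat_lit 0) (XT.lf (nat_lit 0) (nat_lit 4358951989) (nat_lit 1596) (nat_lit 2656994162) (nat_lit 1672) (nat_lit 1234506690) (nat_lit 504) (nat_lit 5) (nat_lit 525) (nat_lit 5) (nat_lit 526) (nat_lit 5) (nat_lit 564) (nat_lit 535) (nat_lit 461)) (XT.nd (nat_lit 78) (nat_lit 0) (nat_lit 0) (XT.lf (nat_lit 0) (nat_lit 635744435) (nat_lit 1748) (nat_lit 7395218504) (nat_lit 76) (nat_lit 287600975) (nat_lit 481) (nat_lit 5) (nat_lit 504) (nat_lit 5) (nat_lit 482) (nat_lit 5) (nat_lit 565) (nat_lit 535) (nat_lit 460)) (XT.lf (nat_lit 0) (nat_lit 2538671862) (nat_lit 1748) (nat_lit 2554869013) (nat_lit 76) (nat_lit 3294102445) (nat_lit 481) (nat_lit 5) (nat_lit 504) (nat_lit 5) (nat_lit 482) (nat_lit 5) (nat_lit 566) (nat_lit 535) (nat_lit 459)))))) (XT.nd (nat_lit 468) (nat_lit 3496) (nat_lit 0) (XT.nd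 (nat_lit 234) (nat_lit 1976) (nat_lit 0) (XT.nd (nat_lit 78) (nat_lit 1672) (nat_lit 0) (XT.lf (nat_lit 0) (nat_lit 2385486759) (nat_lit 1748) (nat_lit 2078191519) (nat_lit 1824) (nat_lit 3994750860) (nat_lit 458) (nat_lit 5) (nat_lit 481) (nat_lit 5) (nat_lit 482) (nat_lit 5) (nat_lit 567) (nat_lit 535) (nat_lit 458)) (XT.nd (nat_lit 78) (nat_lit 1672) (nat_lit 0) (XT.lf (nat_lit 0) (nat_lit 6419907538) (nat_lit 1824) (nat_lit 1106144061) (nat_lit 76) (nat_lit 1004729752) (nat_lit 458) (nat_lit 5) (nat_lit 482) (nat_lit 5) (nat_lit 459) (nat_lit 5) (nat_lit 568) (nat_lit 535) (nat_lit 457)) (XT.lf (nat_lit 0) (nat_lit 3970310364) (nat_lit 1672) (nat_lit 4454088290) (nat_lit 1748) (nat_lit 180004239) (nat_lit 436) (nat_lit 5) (nat_lit 458) (nat_lit 5) (nat_lit 459) (nat_lit 5) (nat_lit 569) (nat_lit 535) (nat_lit 456)))) (XT.nd (nat_lit 78) (nat_lit 912) (nat_lit 0) (XT.lf (nat_lit 0) (nat_lit 449962956) (nat_lit 988) (nat_lit 1296252492) (nat_lit 1064) (nat_lit 6933449840)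 (nat_lit 422) (nat_lit 5) (nat_lit 435) (nat_lit 5) (nat_lit 436) (nat_lit 5) (nat_lit 570) (nat_lit 535) (nat_lit 455)) (XT.nd (nat_lit 78) (nat_lit 912) (nat_lit 0) (XT.lf (nat_lit 0) (nat_lit 3722581481) (nat_lit 1064) (nat_lit 3099826246) (nat_lit 76) (nat_lit 1933725504) (nat_lit 422) (nat_lit 5) (nat_lit 436) (nat_lit 5) (nat_lit 423) (nat_lit 5) (nat_lit 571) (nat_lit 535) (nat_lit 454)) (XT.lf (nat_lit 0) (nat_lit 2123842541) (nat_lit 912) (nat_lit 3607819986) (nat_lit 988) (nat_lit 3102608900) (nat_lit 410) (nat_lit 5) (nat_lit 422) (nat_lit 5) (nat_lit 423) (nat_lit 5) (nat_lit 572) (nat_lit 535) (nat_lit 453))))) (XT.nd (nat_lit 234) (nat_lit 1672) (nat_lit 0) (XT.nd (nat_lit 78) (nat_lit 1824) (nat_lit 0) (XT.lf (nat_lit 0) (nat_lit 7466113427) (nat_lit 912) (nat_lit 306818275) (nat_lit 988) (nat_lit 1141205110) (nat_lit 410) (nat_lit 5) (nat_lit 422) (nat_lit 5) (nat_lit 423) (nat_lit 5) (nat_lit 573) (nat_lit 535) (nat_lit 452)) (XT.nd (nat_lit 78) (nat_lit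 836) (nat_lit 0) (XT.lf (nat_lit 0) (nat_lit 865381097) (nat_lit 988) (nat_lit 5077657027) (nat_lit 76) (nat_lit 3052109645) (nat_lit 397) (nat_lit 5) (nat_lit 410) (nat_lit 5) (nat_lit 398) (nat_lit 5) (nat_lit 574) (nat_lit 535) (nat_lit 451)) (XT.lf (nat_lit 0) (nat_lit 298508507) (nat_lit 836) (nat_lit 2584035436) (nat_lit 912) (nat_lit 6195373913) (nat_lit 386) (nat_lit 5) (nat_lit 397) (nat_lit 5) (nat_lit 398) (nat_lit 5) (nat_lit 575) (nat_lit 535) (nat_lit 450)))) (XT.nd (nat_lit 156) (nat_lit 836) (nat_lit 0) (XT.nd (nat_lit 78) (nat_lit 836) (nat_lit 0) (XT.lf (nat_lit 0) (nat_lit 4952144055) (nat_lit 912) (nat_lit 3344811478) (nat_lit 76) (nat_lit 865150143) (nat_lit 386) (nat_lit 5) (nat_lit 398) (nat_lit 5) (nat_lit 387) (nat_lit 5) (nat_lit 576) (nat_lit 535) (nat_lit 449)) (XT.lf (nat_lit 0) (nat_lit 2182059614) (nat_lit 836) (nat_lit 4885226184) (nat_lit 912) (nat_lit 2180612587) (nat_lit 375) (nat_lit 5) (nat_lit 386) (nat_lit 5) (nat_lit 387) (nat_lit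 5) (nat_lit 577) (nat_lit 535) (nat_lit 448))) (XT.nd (nat_lit 78) (nat_lit 836) (nat_lit 0) (XT.lf (nat_lit 0) (nat_lit 7837067617) (nat_lit 836) (nat_lit 1383329505) (nat_lit 912) (nat_lit 115100539) (nat_lit 375) (nat_lit 5) (nat_lit 386) (nat_lit 5) (nat_lit 387) (nat_lit 5) (nat_lit 578) (nat_lit 535) (nat_lit 447)) (XT.lf (nat_lit 0) (nat_lit 1980872978) (nat_lit 836) (nat_lit 5244186612) (nat_lit 76) (nat_lit 2199229127) (nat_lit 364) (nat_lit 5) (nat_lit 375) (nat_lit 5) (nat_lit 365) (nat_lit 5) (nat_lit 579) (nat_lit 535) (nat_lit 446))))))))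
noncomputable def xc120 : XT := (XT.nd (nat_lit 1950) (nat_lit 7372) (nat_lit 0) (XT.nd (nat_lit 936) (nat_lit 4940) (nat_lit 0) (XT.nd (nat_lit 468) (nat_lit 2204) (nat_lit 0) (XT.nd (nat_lit 234) (nat_lit 1520) (nat_lit 0) (XT.nd (nat_lit 78) (nat_lit 760) (nat_lit 0) (XT.lf (nat_lit 0) (nat_lit 445831618) (nat_lit 836) (nat_lit 3667473037) (nat_lit 912) (nat_lit 5401617940) (nat_lit 353) (nat_lit 5) (nat_lit 364) (nat_lit 5) (nat_lit 365) (nat_lit 5) (nat_lit 580) (nat_lit 535) (nat_lit 445)) (XT.nd (nat_lit 78) (nat_lit 760) (nat_lit 0) (XT.lf (nat_lit 0) (nat_lit 6293032419) (nat_lit 836) (nat_lit 4776514) (nat_lit 912) (nat_lit 3309375475) (nat_lit 353) (nat_lit 5) (nat_lit 364) (nat_lit 5) (nat_lit 365) (nat_lit 5) (nat_lit 581) (nat_lit 535) (nat_lit 444)) (XT.lf (nat_lit 0) (nat_lit 2537279921) (nat_lit 760) (nat_lit 6004147964) (nat_lit 836) (nat_lit 1159558744) (nat_lit 343) (nat_lit 5) (nat_lit 353) (nat_lit 5) (nat_lit 354) (nat_lit 5) (nat_lit 582) (nat_lit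 535) (nat_lit 443)))) (XT.nd (nat_lit 78) (nat_lit 1444) (nat_lit 0) (XT.lf (nat_lit 0) (nat_lit 1016995613) (nat_lit 836) (nat_lit 1280255877) (nat_lit 76) (nat_lit 7499336905) (nat_lit 342) (nat_lit 5) (nat_lit 353) (nat_lit 5) (nat_lit 343) (nat_lit 5) (nat_lit 583) (nat_lit 535) (nat_lit 442)) (XT.nd (nat_lit 78) (nat_lit 684) (nat_lit 0) (XT.lf (nat_lit 0) (nat_lit 3237635756) (nat_lit 836) (nat_lit 5155509241) (nat_lit 76) (nat_lit 1500485734) (nat_lit 332) (nat_lit 5) (nat_lit 343) (nat_lit 5) (nat_lit 333) (nat_lit 5) (nat_lit 584) (nat_lit 535) (nat_lit 441)) (XT.lf (nat_lit 0) (nat_lit 870362811) (nat_lit 684) (nat_lit 4637494391) (nat_lit 760) (nat_lit 4484656727) (nat_lit 323) (nat_lit 5) (nat_lit 332) (nat_lit 5) (nat_lit 333) (nat_lit 5) (nat_lit 585) (nat_lit 535) (nat_lit 440))))) (XT.nd (nat_lit 234) (nat_lit 1368) (nat_lit 0) (XT.nd (nat_lit 78) (nat_lit 836) (nat_lit 0) (XT.lf (nat_lit 0) (nat_lit 7059257715) (nat_lit 684) (nat_lit 774776974) (nat_lit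 760) (nat_lit 2259132389) (nat_lit 323) (nat_lit 5) (nat_lit 332) (nat_lit 5) (nat_lit 333) (nat_lit 5) (nat_lit 586) (nat_lit 535) (nat_lit 439)) (XT.nd (nat_lit 78) (nat_lit 0) (nat_lit 0) (XT.lf (nat_lit 0) (nat_lit 28409185) (nat_lit 836) (nat_lit 7025848744) (nat_lit 76) (nat_lit 3141224140) (nat_lit 312) (nat_lit 5) (nat_lit 323) (nat_lit 5) (nat_lit 313) (nat_lit 5) (nat_lit 587) (nat_lit 535) (nat_lit 438)) (XT.lf (nat_lit 0) (nat_lit 2333639760) (nat_lit 836) (nat_lit 808721732) (nat_lit 76) (nat_lit 7157142580) (nat_lit 312) (nat_lit 5) (nat_lit 323) (nat_lit 5) (nat_lit 313) (nat_lit 5) (nat_lit 588) (nat_lit 535) (nat_lit 437)))) (XT.nd (nat_lit 78) (nat_lit 684) (nat_lit 0) (XT.lf (nat_lit 0) (nat_lit 4703911468) (nat_lit 760) (nat_lit 4832039503) (nat_lit 76) (nat_lit 869279879) (nat_lit 303) (nat_lit 5) (nat_lit 313) (nat_lit 5) (nat_lit 304) (nat_lit 5) (nat_lit 589) (nat_lit 535) (nat_lit 436)) (XT.nd (nat_lit 78) (nat_lit 0) (nat_lit 0) (XT.lf (nat_lit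 0) (nat_lit 1553116834) (nat_lit 684) (nat_lit 5582075443) (nat_lit 760) (nat_lit 3377610821) (nat_lit 294) (nat_lit 5) (nat_lit 303) (nat_lit 5) (nat_lit 304) (nat_lit 5) (nat_lit 590) (nat_lit 535) (nat_lit 435)) (XT.lf (nat_lit 0) (nat_lit 8104506680) (nat_lit 684) (nat_lit 1520535166) (nat_lit 760) (nat_lit 997289028) (nat_lit 294) (nat_lit 5) (nat_lit 303) (nat_lit 5) (nat_lit 304) (nat_lit 5) (nat_lit 591) (nat_lit 535) (nat_lit 434)))))) (XT.nd (nat_lit 468) (nat_lit 2280) (nat_lit 0) (XT.nd (nat_lit 234) (nat_lit 1292) (nat_lit 0) (XT.nd (nat_lit 78) (nat_lit 684) (nat_lit 0) (XT.lf (nat_lit 0) (nat_lit 1433344662) (nat_lit 684) (nat_lit 6680783687) (nat_lit 76) (nat_lit 2619308546) (nat_lit 285) (nat_lit 5) (nat_lit 294) (nat_lit 5) (nat_lit 286) (nat_lit 5) (nat_lit 592) (nat_lit 535) (nat_lit 433)) (XT.nd (nat_lit 78) (nat_lit 684) (nat_lit 0) (XT.lf (nat_lit 0) (nat_lit 3904369578) (nat_lit 684) (nat_lit 101516857) (nat_lit 76) (nat_lit 6840646891) (nat_lit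 285) (nat_lit 5) (nat_lit 294) (nat_lit 5) (nat_lit 286) (nat_lit 5) (nat_lit 593) (nat_lit 535) (nat_lit 432)) (XT.lf (nat_lit 0) (nat_lit 6448049125) (nat_lit 760) (nat_lit 4292537788) (nat_lit 76) (nat_lit 220842814) (nat_lit 276) (nat_lit 5) (nat_lit 286) (nat_lit 5) (nat_lit 277) (nat_lit 5) (nat_lit 594) (nat_lit 535) (nat_lit 431)))) (XT.nd (nat_lit 78) (nat_lit 684) (nat_lit 0) (XT.lf (nat_lit 0) (nat_lit 2476757802) (nat_lit 608) (nat_lit 6587831840) (nat_lit 684) (nat_lit 2013597334) (nat_lit 268) (nat_lit 5) (nat_lit 276) (nat_lit 5) (nat_lit 277) (nat_lit 5) (nat_lit 595) (nat_lit 535) (nat_lit 430)) (XT.nd (nat_lit 78) (nat_lit 608) (nat_lit 0) (XT.lf (nat_lit 0) (nat_lit 536941007) (nat_lit 684) (nat_lit 1787524747) (nat_lit 76) (nat_lit 8872590728) (nat_lit 267) (nat_lit 5) (nat_lit 276) (nat_lit 5) (nat_lit 268) (nat_lit 5) (nat_lit 596) (nat_lit 535) (nat_lit 429)) (XT.lf (nat_lit 0) (nat_lit 3137887323) (nat_lit 684) (nat_lit 6140043800) (nat_lit 76)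 (nat_lit 2039581386) (nat_lit 259) (nat_lit 5) (nat_lit 268) (nat_lit 5) (nat_lit 260) (nat_lit 5) (nat_lit 597) (nat_lit 535) (nat_lit 428))))) (XT.nd (nat_lit 234) (nat_lit 1140) (nat_lit 0) (XT.nd (nat_lit 78) (nat_lit 608) (nat_lit 0) (XT.lf (nat_lit 0) (nat_lit 834875808) (nat_lit 532) (nat_lit 4968279579) (nat_lit 608) (nat_lit 5636978680) (nat_lit 252) (nat_lit 5) (nat_lit 259) (nat_lit 5) (nat_lit 260) (nat_lit 5) (nat_lit 598) (nat_lit 535) (nat_lit 427)) (XT.nd (nat_lit 78) (nat_lit 608) (nat_lit 0) (XT.lf (nat_lit 0) (nat_lit 8006242629) (nat_lit 532) (nat_lit 536335897) (nat_lit 608) (nat_lit 3022214954) (nat_lit 252) (nat_lit 5) (nat_lit 259) (nat_lit 5) (nat_lit 260) (nat_lit 5) (nat_lit 599) (nat_lit 535) (nat_lit 426)) (XT.lf (nat_lit 0) (nat_lit 3624630520) (nat_lit 608) (nat_lit 7741569624) (nat_lit 684) (nat_lit 325160108) (nat_lit 244) (nat_lit 5) (nat_lit 252) (nat_lit 5) (nat_lit 253) (nat_lit 5) (nat_lit 600) (nat_lit 535) (nat_lit 425)))) (XT.nd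 (nat_lit 156) (nat_lit 532) (nat_lit 0) (XT.nd (nat_lit 78) (nat_lit 532) (nat_lit 0) (XT.lf (nat_lit 0) (nat_lit 2401708739) (nat_lit 684) (nat_lit 865952673) (nat_lit 76) (nat_lit 8552330457) (nat_lit 243) (nat_lit 5) (nat_lit 252) (nat_lit 5) (nat_lit 244) (nat_lit 5) (nat_lit 601) (nat_lit 535) (nat_lit 424)) (XT.lf (nat_lit 0) (nat_lit 5210362177) (nat_lit 608) (nat_lit 5422658003) (nat_lit 76) (nat_lit 1317503165) (nat_lit 236) (nat_lit 5) (nat_lit 244) (nat_lit 5) (nat_lit 237) (nat_lit 5) (nat_lit 602) (nat_lit 535) (nat_lit 423))) (XT.nd (nat_lit 78) (nat_lit 0) (nat_lit 0) (XT.lf (nat_lit 0) (nat_lit 1976098437) (nat_lit 532) (nat_lit 6120074822) (nat_lit 608) (nat_lit 3987074691) (nat_lit 229) (nat_lit 5) (nat_lit 236) (nat_lit 5) (nat_lit 237) (nat_lit 5) (nat_lit 603) (nat_lit 535) (nat_lit 422)) (XT.lf (nat_lit 0) (nat_lit 9570617354) (nat_lit 532) (nat_lit 1486349049) (nat_lit 608) (nat_lit 1161317472) (nat_lit 229) (nat_lit 5) (nat_lit 236) (nat_lit 5)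 (nat_lit 237) (nat_lit 5) (nat_lit 604) (nat_lit 535) (nat_lit 421))))))) (XT.nd (nat_lit 936) (nat_lit 3268) (nat_lit 0) (XT.nd (nat_lit 468) (nat_lit 1900) (nat_lit 0) (XT.nd (nat_lit 234) (nat_lit 1064) (nat_lit 0) (XT.nd (nat_lit 78) (nat_lit 532) (nat_lit 0) (XT.lf (nat_lit 0) (nat_lit 1733189383) (nat_lit 608) (nat_lit 7387003011) (nat_lit 76) (nat_lit 3234910615) (nat_lit 221) (nat_lit 5) (nat_lit 229) (nat_lit 5) (nat_lit 222) (nat_lit 5) (nat_lit 605) (nat_lit 535) (nat_lit 420)) (XT.nd (nat_lit 78) (nat_lit 0) (nat_lit 0) (XT.lf (nat_lit 0) (nat_lit 237601169) (nat_lit 532) (nat_lit 4443009089) (nat_lit 608) (nat_lit 7813685287) (nat_lit 214) (nat_lit 5) (nat_lit 221) (nat_lit 5) (nat_lit 222) (nat_lit 5) (nat_lit 606) (nat_lit 535) (nat_lit 419)) (XT.lf (nat_lit 0) (nat_lit 7720451150) (nat_lit 608) (nat_lit 4548696390) (nat_lit 76) (nat_lit 366456942) (nat_lit 214) (nat_lit 5) (nat_lit 222) (nat_lit 5) (nat_lit 215) (nat_lit 5) (nat_lit 607) (nat_lit 535)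 (nat_lit 418)))) (XT.nd (nat_lit 78) (nat_lit 608) (nat_lit 0) (XT.lf (nat_lit 0) (nat_lit 3302060426) (nat_lit 456) (nat_lit 7551700205) (nat_lit 532) (nat_lit 1925327476) (nat_lit 208) (nat_lit 5) (nat_lit 214) (nat_lit 5) (nat_lit 215) (nat_lit 5) (nat_lit 608) (nat_lit 535) (nat_lit 417)) (XT.nd (nat_lit 78) (nat_lit 532) (nat_lit 0) (XT.lf (nat_lit 0) (nat_lit 1122157101) (nat_lit 532) (nat_lit 1586202238) (nat_lit 76) (nat_lit 10216685790) (nat_lit 207) (nat_lit 5) (nat_lit 214) (nat_lit 5) (nat_lit 208) (nat_lit 5) (nat_lit 609) (nat_lit 535) (nat_lit 416)) (XT.lf (nat_lit 0) (nat_lit 4244149344) (nat_lit 608) (nat_lit 6577778555) (nat_lit 76) (nat_lit 2250953935) (nat_lit 200) (nat_lit 5) (nat_lit 208) (nat_lit 5) (nat_lit 201) (nat_lit 5) (nat_lit 610) (nat_lit 535) (nat_lit 415))))) (XT.nd (nat_lit 234) (nat_lit 912) (nat_lit 0) (XT.nd (nat_lit 78) (nat_lit 532) (nat_lit 0) (XT.lf (nat_lit 0) (nat_lit 1512902381) (nat_lit 456) (nat_lit 5936530906) (nat_lit 532)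 (nat_lit 5773826745) (nat_lit 194) (nat_lit 5) (nat_lit 200) (nat_lit 5) (nat_lit 201) (nat_lit 5) (nat_lit 611) (nat_lit 535) (nat_lit 414)) (XT.nd (nat_lit 78) (nat_lit 532) (nat_lit 0) (XT.lf (nat_lit 0) (nat_lit 9829718109) (nat_lit 456) (nat_lit 915807582) (nat_lit 532) (nat_lit 2630587809) (nat_lit 194) (nat_lit 5) (nat_lit 200) (nat_lit 5) (nat_lit 201) (nat_lit 5) (nat_lit 612) (nat_lit 535) (nat_lit 413)) (XT.lf (nat_lit 0) (nat_lit 609511650) (nat_lit 532) (nat_lit 8743475229) (nat_lit 76) (nat_lit 4178133243) (nat_lit 187) (nat_lit 5) (nat_lit 194) (nat_lit 5) (nat_lit 188) (nat_lit 5) (nat_lit 613) (nat_lit 535) (nat_lit 412)))) (XT.nd (nat_lit 78) (nat_lit 912) (nat_lit 0) (XT.lf (nat_lit 0) (nat_lit 3892163497) (nat_lit 532) (nat_lit 400674477) (nat_lit 76) (nat_lit 9395783320) (nat_lit 187) (nat_lit 5) (nat_lit 194) (nat_lit 5) (nat_lit 188) (nat_lit 5) (nat_lit 614) (nat_lit 535) (nat_lit 411)) (XT.nd (nat_lit 78) (nat_lit 456) (nat_lit 0) (XT.lf (nat_lit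 0) (nat_lit 7282855315) (nat_lit 532) (nat_lit 5662297013) (nat_lit 76) (nat_lit 903274049) (nat_lit 181) (nat_lit 5) (nat_lit 188) (nat_lit 5) (nat_lit 182) (nat_lit 5) (nat_lit 615) (nat_lit 535) (nat_lit 410)) (XT.lf (nat_lit 0) (nat_lit 2924273468) (nat_lit 456) (nat_lit 7850588282) (nat_lit 532) (nat_lit 3235897392) (nat_lit 175) (nat_lit 5) (nat_lit 181) (nat_lit 5) (nat_lit 182) (nat_lit 5) (nat_lit 616) (nat_lit 535) (nat_lit 409)))))) (XT.nd (nat_lit 468) (nat_lit 1900) (nat_lit 0) (XT.nd (nat_lit 234) (nat_lit 456) (nat_lit 0) (XT.nd (nat_lit 78) (nat_lit 836) (nat_lit 0) (XT.lf (nat_lit 0) (nat_lit 179951926) (nat_lit 532) (nat_lit 2441962046) (nat_lit 76) (nat_lit 11553971590) (nat_lit 174) (nat_lit 5) (nat_lit 181) (nat_lit 5) (nat_lit 175) (nat_lit 5) (nat_lit 617) (nat_lit 535) (nat_lit 408)) (XT.nd (nat_lit 78) (nat_lit 456) (nat_lit 0) (XT.lf (nat_lit 0) (nat_lit 3664208414) (nat_lit 456) (nat_lit 7947146071) (nat_lit 76) (nat_lit 2731665365) (nat_lit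 169) (nat_lit 5) (nat_lit 175) (nat_lit 5) (nat_lit 170) (nat_lit 5) (nat_lit 618) (nat_lit 535) (nat_lit 407)) (XT.lf (nat_lit 0) (nat_lit 900682667) (nat_lit 456) (nat_lit 6341049756) (nat_lit 532) (nat_lit 7271294226) (nat_lit 163) (nat_lit 5) (nat_lit 169) (nat_lit 5) (nat_lit 170) (nat_lit 5) (nat_lit 619) (nat_lit 535) (nat_lit 406)))) (XT.nd (nat_lit 78) (nat_lit 456) (nat_lit 0) (XT.lf (nat_lit 0) (nat_lit 10009295474) (nat_lit 456) (nat_lit 918877498) (nat_lit 532) (nat_lit 3757514738) (nat_lit 163) (nat_lit 5) (nat_lit 169) (nat_lit 5) (nat_lit 170) (nat_lit 5) (nat_lit 620) (nat_lit 535) (nat_lit 405)) (XT.nd (nat_lit 78) (nat_lit 76) (nat_lit 0) (XT.lf (nat_lit 0) (nat_lit 4442912183) (nat_lit 380) (nat_lit 10288517972) (nat_lit 456) (nat_lit 129511496) (nat_lit 158) (nat_lit 5) (nat_lit 163) (nat_lit 5) (nat_lit 164) (nat_lit 5) (nat_lit 621) (nat_lit 535) (nat_lit 404)) (XT.lf (nat_lit 0) (nat_lit 3546240723) (nat_lit 456) (nat_lit 1284306329) (nat_lit 76)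 (nat_lit 10208250789) (nat_lit 157) (nat_lit 5) (nat_lit 163) (nat_lit 5) (nat_lit 158) (nat_lit 5) (nat_lit 622) (nat_lit 535) (nat_lit 403))))) (XT.nd (nat_lit 234) (nat_lit 1140) (nat_lit 0) (XT.nd (nat_lit 78) (nat_lit 380) (nat_lit 0) (XT.lf (nat_lit 0) (nat_lit 7336201386) (nat_lit 456) (nat_lit 7110160236) (nat_lit 76) (nat_lit 772985196) (nat_lit 152) (nat_lit 5) (nat_lit 158) (nat_lit 5) (nat_lit 153) (nat_lit 5) (nat_lit 623) (nat_lit 535) (nat_lit 402)) (XT.nd (nat_lit 78) (nat_lit 0) (nat_lit 0) (XT.lf (nat_lit 0) (nat_lit 2279085413) (nat_lit 380) (nat_lit 8963094785) (nat_lit 456) (nat_lit 4160523506) (nat_lit 147) (nat_lit 5) (nat_lit 152) (nat_lit 5) (nat_lit 153) (nat_lit 5) (nat_lit 624) (nat_lit 535) (nat_lit 401)) (XT.lf (nat_lit 0) (nat_lit 11929268092) (nat_lit 380) (nat_lit 3329627283) (nat_lit 456) (nat_lit 330181299) (nat_lit 147) (nat_lit 5) (nat_lit 152) (nat_lit 5) (nat_lit 153) (nat_lit 5) (nat_lit 625) (nat_lit 535) (nat_lit 400)))) (XT.nd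 (nat_lit 156) (nat_lit 684) (nat_lit 0) (XT.nd (nat_lit 78) (nat_lit 0) (nat_lit 0) (XT.lf (nat_lit 0) (nat_lit 3570134037) (nat_lit 456) (nat_lit 9768163028) (nat_lit 76) (nat_lit 2439611293) (nat_lit 141) (nat_lit 5) (nat_lit 147) (nat_lit 5) (nat_lit 142) (nat_lit 5) (nat_lit 626) (nat_lit 535) (nat_lit 399)) (XT.lf (nat_lit 0) (nat_lit 7576003315) (nat_lit 456) (nat_lit 95189873) (nat_lit 76) (nat_lit 8298641671) (nat_lit 141) (nat_lit 5) (nat_lit 147) (nat_lit 5) (nat_lit 142) (nat_lit 5) (nat_lit 627) (nat_lit 535) (nat_lit 398))) (XT.nd (nat_lit 78) (nat_lit 380) (nat_lit 0) (XT.lf (nat_lit 0) (nat_lit 9878184571) (nat_lit 304) (nat_lit 1833423714) (nat_lit 380) (nat_lit 4453000424) (nat_lit 137) (nat_lit 5) (nat_lit 141) (nat_lit 5) (nat_lit 142) (nat_lit 5) (nat_lit 628) (nat_lit 535) (nat_lit 397)) (XT.lf (nat_lit 0) (nat_lit 3687958842) (nat_lit 380) (nat_lit 12278880009) (nat_lit 456) (nat_lit 395702077) (nat_lit 132) (nat_lit 5) (nat_lit 137) (nat_lit 5)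 (nat_lit 138) (nat_lit 5) (nat_lit 629) (nat_lit 535) (nat_lit 396))))))))
noncomputable def xc121 : XT := (XT.nd (nat_lit 74022) (nat_lit 0) (nat_lit 34124) (XT.nd (nat_lit 936) (nat_lit 1900) (nat_lit 0) (XT.nd (nat_lit 468) (nat_lit 1292) (nat_lit 0) (XT.nd (nat_lit 234) (nat_lit 380) (nat_lit 0) (XT.nd (nat_lit 78) (nat_lit 608) (nat_lit 0) (XT.lf (nat_lit 0) (nat_lit 3733871618) (nat_lit 456) (nat_lit 2676008919) (nat_lit 76) (nat_lit 10153262041) (nat_lit 131) (nat_lit 5) (nat_lit 137) (nat_lit 5) (nat_lit 132) (nat_lit 5) (nat_lit 630) (nat_lit 535) (nat_lit 395)) (XT.nd (nat_lit 78) (nat_lit 304) (nat_lit 0) (XT.lf (nat_lit 0) (nat_lit 7597257673) (nat_lit 304) (nat_lit 378703870) (nat_lit 380) (nat_lit 8791039038) (nat_lit 127) (nat_lit 5) (nat_lit 131) (nat_lit 5) (nat_lit 132) (nat_lit 5) (nat_lit 631) (nat_lit 535) (nat_lit 394)) (XT.lf (nat_lit 0) (nat_lit 1092029772) (nat_lit 304) (nat_lit 11259484359) (nat_lit 380) (nat_lit 4622450270) (nat_lit 123) (nat_lit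 5) (nat_lit 127) (nat_lit 5) (nat_lit 128) (nat_lit 5) (nat_lit 632) (nat_lit 535) (nat_lit 393)))) (XT.nd (nat_lit 78) (nat_lit 380) (nat_lit 0) (XT.lf (nat_lit 0) (nat_lit 11658564396) (nat_lit 304) (nat_lit 5206140939) (nat_lit 380) (nat_lit 319360662) (nat_lit 123) (nat_lit 5) (nat_lit 127) (nat_lit 5) (nat_lit 128) (nat_lit 5) (nat_lit 633) (nat_lit 535) (nat_lit 392)) (XT.nd (nat_lit 78) (nat_lit 0) (nat_lit 0) (XT.lf (nat_lit 0) (nat_lit 4042150339) (nat_lit 380) (nat_lit 12348117004) (nat_lit 76) (nat_lit 1007060106) (nat_lit 118) (nat_lit 5) (nat_lit 123) (nat_lit 5) (nat_lit 119) (nat_lit 5) (nat_lit 634) (nat_lit 535) (nat_lit 391)) (XT.lf (nat_lit 0) (nat_lit 8544778865) (nat_lit 380) (nat_lit 1762687021) (nat_lit 76) (nat_lit 7306183745) (nat_lit 118) (nat_lit 5) (nat_lit 123) (nat_lit 5) (nat_lit 119) (nat_lit 5) (nat_lit 635) (nat_lit 535) (nat_lit 390))))) (XT.nd (nat_lit 234) (nat_lit 608) (nat_lit 0) (XT.nd (nat_lit 78) (nat_lit 380) (nat_lit 0) (XT.lf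 (nat_lit 0) (nat_lit 9132607200) (nat_lit 304) (nat_lit 4050772423) (nat_lit 380) (nat_lit 4650001213) (nat_lit 114) (nat_lit 5) (nat_lit 118) (nat_lit 5) (nat_lit 119) (nat_lit 5) (nat_lit 636) (nat_lit 535) (nat_lit 389)) (XT.nd (nat_lit 78) (nat_lit 76) (nat_lit 0) (XT.lf (nat_lit 0) (nat_lit 2204438913) (nat_lit 304) (nat_lit 15738361934) (nat_lit 380) (nat_lit 114145802) (nat_lit 110) (nat_lit 5) (nat_lit 114) (nat_lit 5) (nat_lit 115) (nat_lit 5) (nat_lit 637) (nat_lit 535) (nat_lit 388)) (XT.lf (nat_lit 0) (nat_lit 4525572056) (nat_lit 380) (nat_lit 4916354810) (nat_lit 76) (nat_lit 8841025343) (nat_lit 109) (nat_lit 5) (nat_lit 114) (nat_lit 5) (nat_lit 110) (nat_lit 5) (nat_lit 638) (nat_lit 535) (nat_lit 387)))) (XT.nd (nat_lit 78) (nat_lit 304) (nat_lit 0) (XT.lf (nat_lit 0) (nat_lit 6299079671) (nat_lit 304) (nat_lit 2985362558) (nat_lit 380) (nat_lit 9228463731) (nat_lit 105) (nat_lit 5) (nat_lit 109) (nat_lit 5) (nat_lit 110) (nat_lit 5) (nat_lit 639) (nat_lit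 535) (nat_lit 386)) (XT.nd (nat_lit 78) (nat_lit 304) (nat_lit 0) (XT.lf (nat_lit 0) (nat_lit 14182126631) (nat_lit 380) (nat_lit 986292005) (nat_lit 76) (nat_lit 3578168295) (nat_lit 105) (nat_lit 5) (nat_lit 110) (nat_lit 5) (nat_lit 106) (nat_lit 5) (nat_lit 640) (nat_lit 535) (nat_lit 385)) (XT.lf (nat_lit 0) (nat_lit 266456310) (nat_lit 304) (nat_lit 8421561243) (nat_lit 76) (nat_lit 10295376537) (nat_lit 101) (nat_lit 5) (nat_lit 105) (nat_lit 5) (nat_lit 102) (nat_lit 5) (nat_lit 641) (nat_lit 535) (nat_lit 384)))))) (XT.nd (nat_lit 468) (nat_lit 760) (nat_lit 0) (XT.nd (nat_lit 234) (nat_lit 608) (nat_lit 0) (XT.nd (nat_lit 78) (nat_lit 228) (nat_lit 0) (XT.lf (nat_lit 0) (nat_lit 3119144139) (nat_lit 304) (nat_lit 2028034870) (nat_lit 380) (nat_lit 14076869671) (nat_lit 97) (nat_lit 5) (nat_lit 101) (nat_lit 5) (nat_lit 102) (nat_lit 5) (nat_lit 642) (nat_lit 535) (nat_lit 383)) (XT.nd (nat_lit 78) (nat_lit 228) (nat_lit 0) (XT.lf (nat_lit 0) (nat_lit 10200736093)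 (nat_lit 380) (nat_lit 4515915377) (nat_lit 76) (nat_lit 4751361308) (nat_lit 97) (nat_lit 5) (nat_lit 102) (nat_lit 5) (nat_lit 98) (nat_lit 5) (nat_lit 643) (nat_lit 535) (nat_lit 382)) (XT.lf (nat_lit 0) (nat_lit 7367423818) (nat_lit 228) (nat_lit 8036846635) (nat_lit 304) (nat_lit 4311608380) (nat_lit 94) (nat_lit 5) (nat_lit 97) (nat_lit 5) (nat_lit 98) (nat_lit 5) (nat_lit 644) (nat_lit 535) (nat_lit 381)))) (XT.nd (nat_lit 78) (nat_lit 532) (nat_lit 0) (XT.lf (nat_lit 0) (nat_lit 751599948) (nat_lit 304) (nat_lit 444130873) (nat_lit 76) (nat_lit 18772512182) (nat_lit 93) (nat_lit 5) (nat_lit 97) (nat_lit 5) (nat_lit 94) (nat_lit 5) (nat_lit 645) (nat_lit 535) (nat_lit 380)) (XT.nd (nat_lit 78) (nat_lit 228) (nat_lit 0) (XT.lf (nat_lit 0) (nat_lit 5961131326) (nat_lit 380) (nat_lit 8457685365) (nat_lit 76) (nat_lit 5804212695) (nat_lit 89) (nat_lit 5) (nat_lit 94) (nat_lit 5) (nat_lit 90) (nat_lit 5) (nat_lit 646) (nat_lit 535) (nat_lit 379)) (XT.lf (nat_lit 0)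 (nat_lit 3763292071) (nat_lit 228) (nat_lit 7534877979) (nat_lit 304) (nat_lit 9184275850) (nat_lit 86) (nat_lit 5) (nat_lit 89) (nat_lit 5) (nat_lit 90) (nat_lit 5) (nat_lit 647) (nat_lit 535) (nat_lit 378))))) (XT.nd (nat_lit 234) (nat_lit 456) (nat_lit 0) (XT.nd (nat_lit 78) (nat_lit 304) (nat_lit 0) (XT.lf (nat_lit 0) (nat_lit 16323166246) (nat_lit 228) (nat_lit 463607964) (nat_lit 304) (nat_lit 3959380762) (nat_lit 86) (nat_lit 5) (nat_lit 89) (nat_lit 5) (nat_lit 90) (nat_lit 5) (nat_lit 648) (nat_lit 535) (nat_lit 377)) (XT.nd (nat_lit 78) (nat_lit 0) (nat_lit 0) (XT.lf (nat_lit 0) (nat_lit 1437672670) (nat_lit 304) (nat_lit 12860520546) (nat_lit 76) (nat_lit 6715055236) (nat_lit 82) (nat_lit 5) (nat_lit 86) (nat_lit 5) (nat_lit 83) (nat_lit 5) (nat_lit 649) (nat_lit 535) (nat_lit 376)) (XT.lf (nat_lit 0) (nat_lit 6910922501) (nat_lit 304) (nat_lit 294645336) (nat_lit 76) (nat_lit 14079167787) (nat_lit 82) (nat_lit 5) (nat_lit 86) (nat_lit 5) (nat_lit 83) (nat_lit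 5) (nat_lit 650) (nat_lit 535) (nat_lit 375)))) (XT.nd (nat_lit 72228) (nat_lit 0) (nat_lit 44156) (XT.nd (nat_lit 78) (nat_lit 228) (nat_lit 0) (XT.lf (nat_lit 0) (nat_lit 12565077929) (nat_lit 304) (nat_lit 8891801916) (nat_lit 76) (nat_lit 103344549) (nat_lit 79) (nat_lit 5) (nat_lit 83) (nat_lit 5) (nat_lit 80) (nat_lit 5) (nat_lit 651) (nat_lit 535) (nat_lit 374)) (XT.lf (nat_lit 0) (nat_lit 4039168087) (nat_lit 228) (nat_lit 14357633746) (nat_lit 304) (nat_lit 3443132054) (nat_lit 76) (nat_lit 5) (nat_lit 79) (nat_lit 5) (nat_lit 80) (nat_lit 5) (nat_lit 652) (nat_lit 535) (nat_lit 373))) (XT.nd (nat_lit 78) (nat_lit 0) (nat_lit 0) (XT.lf (nat_lit 0) (nat_lit 268122231) (nat_lit 0) (nat_lit 268122231) (nat_lit 988) (nat_lit 2929093719) (nat_lit 657) (nat_lit 5) (nat_lit 657) (nat_lit 3) (nat_lit 670) (nat_lit 3) (nat_lit 536) (nat_lit 536) (nat_lit 488)) (XT.lf (nat_lit 0) (nat_lit 2979129741) (nat_lit 988) (nat_lit 2980444382) (nat_lit 1064) (nat_lit 1002091640)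 (nat_lit 657) (nat_lit 5) (nat_lit 670) (nat_lit 3) (nat_lit 671) (nat_lit 5) (nat_lit 537) (nat_lit 536) (nat_lit 487))))))) (XT.nd (nat_lit 936) (nat_lit 6764) (nat_lit 0) (XT.nd (nat_lit 468) (nat_lit 1140) (nat_lit 0) (XT.nd (nat_lit 234) (nat_lit 1064) (nat_lit 0) (XT.nd (nat_lit 78) (nat_lit 1064) (nat_lit 0) (XT.lf (nat_lit 76) (nat_lit 478607305) (nat_lit 0) (nat_lit 4402558046) (nat_lit 1064) (nat_lit 2112974829) (nat_lit 658) (nat_lit 5) (nat_lit 657) (nat_lit 5) (nat_lit 671) (nat_lit 5) (nat_lit 538) (nat_lit 536) (nat_lit 486)) (XT.nd (nat_lit 78) (nat_lit 1064) (nat_lit 0) (XT.lf (nat_lit 76) (nat_lit 4021470088) (nat_lit 0) (nat_lit 2771176434) (nat_lit 1064) (nat_lit 235199729) (nat_lit 658) (nat_lit 5) (nat_lit 657) (nat_lit 5) (nat_lit 671) (nat_lit 5) (nat_lit 539) (nat_lit 536) (nat_lit 485)) (XT.lf (nat_lit 76) (nat_lit 543267535) (nat_lit 0) (nat_lit 1070387277) (nat_lit 1140) (nat_lit 5449252139) (nat_lit 644) (nat_lit 5) (nat_lit 643) (nat_lit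 5) (nat_lit 658) (nat_lit 5) (nat_lit 540) (nat_lit 536) (nat_lit 484)))) (XT.nd (nat_lit 78) (nat_lit 1140) (nat_lit 0) (XT.lf (nat_lit 0) (nat_lit 3473906483) (nat_lit 1064) (nat_lit 2926449155) (nat_lit 1140) (nat_lit 698740418) (nat_lit 644) (nat_lit 5) (nat_lit 658) (nat_lit 5) (nat_lit 659) (nat_lit 5) (nat_lit 541) (nat_lit 536) (nat_lit 483)) (XT.nd (nat_lit 78) (nat_lit 1140) (nat_lit 0) (XT.lf (nat_lit 76) (nat_lit 714579222) (nat_lit 0) (nat_lit 4622379404) (nat_lit 1140) (nat_lit 1799747888) (nat_lit 645) (nat_lit 5) (nat_lit 644) (nat_lit 5) (nat_lit 659) (nat_lit 5) (nat_lit 542) (nat_lit 536) (nat_lit 482)) (XT.lf (nat_lit 0) (nat_lit 35447211) (nat_lit 1140) (nat_lit 2733865704) (nat_lit 1216) (nat_lit 4406276094) (nat_lit 629) (nat_lit 5) (nat_lit 644) (nat_lit 5) (nat_lit 645) (nat_lit 5) (nat_lit 543) (nat_lit 536) (nat_lit 481))))) (XT.nd (nat_lit 234) (nat_lit 1140) (nat_lit 0) (XT.nd (nat_lit 78) (nat_lit 0) (nat_lit 76) (XT.lf (nat_lit 76) (nat_lit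 1003171256) (nat_lit 0) (nat_lit 841800654) (nat_lit 1216) (nat_lit 5370813764) (nat_lit 630) (nat_lit 5) (nat_lit 629) (nat_lit 5) (nat_lit 645) (nat_lit 5) (nat_lit 544) (nat_lit 536) (nat_lit 480)) (XT.nd (nat_lit 78) (nat_lit 0) (nat_lit 0) (XT.lf (nat_lit 0) (nat_lit 3672468932) (nat_lit 1140) (nat_lit 2438896270) (nat_lit 1216) (nat_lit 1145794194) (nat_lit 630) (nat_lit 5) (nat_lit 645) (nat_lit 5) (nat_lit 646) (nat_lit 5) (nat_lit 545) (nat_lit 536) (nat_lit 479)) (XT.lf (nat_lit 76) (nat_lit 1396504270) (nat_lit 0) (nat_lit 4111531142) (nat_lit 1216) (nat_lit 1791903374) (nat_lit 631) (nat_lit 5) (nat_lit 630) (nat_lit 5) (nat_lit 646) (nat_lit 5) (nat_lit 546) (nat_lit 536) (nat_lit 478)))) (XT.nd (nat_lit 78) (nat_lit 0) (nat_lit 76) (XT.lf (nat_lit 0) (nat_lit 9994907) (nat_lit 1216) (nat_lit 2028854851) (nat_lit 1292) (nat_lit 5305252744) (nat_lit 614) (nat_lit 5) (nat_lit 630) (nat_lit 5) (nat_lit 631) (nat_lit 5) (nat_lit 547) (nat_lit 536) (nat_lit 477))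 (XT.nd (nat_lit 78) (nat_lit 0) (nat_lit 0) (XT.lf (nat_lit 0) (nat_lit 1795211667) (nat_lit 1216) (nat_lit 5480266990) (nat_lit 1292) (nat_lit 114016554) (nat_lit 615) (nat_lit 5) (nat_lit 631) (nat_lit 5) (nat_lit 632) (nat_lit 5) (nat_lit 548) (nat_lit 536) (nat_lit 476)) (XT.lf (nat_lit 0) (nat_lit 3602189277) (nat_lit 1216) (nat_lit 1522704076) (nat_lit 1292) (nat_lit 2311189224) (nat_lit 615) (nat_lit 5) (nat_lit 631) (nat_lit 5) (nat_lit 632) (nat_lit 5) (nat_lit 549) (nat_lit 536) (nat_lit 475)))))) (XT.nd (nat_lit 468) (nat_lit 5624) (nat_lit 0) (XT.nd (nat_lit 234) (nat_lit 0) (nat_lit 0) (XT.nd (nat_lit 78) (nat_lit 1216) (nat_lit 0) (XT.lf (nat_lit 76) (nat_lit 2520435934) (nat_lit 0) (nat_lit 2900891072) (nat_lit 1292) (nat_lit 2062762050) (nat_lit 616) (nat_lit 5) (nat_lit 615) (nat_lit 5) (nat_lit 632) (nat_lit 5) (nat_lit 550) (nat_lit 536) (nat_lit 474)) (XT.nd (nat_lit 78) (nat_lit 1216) (nat_lit 0) (XT.lf (nat_lit 76) (nat_lit 6638624466) (nat_lit 0)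 (nat_lit 608716686) (nat_lit 1292) (nat_lit 286312264) (nat_lit 616) (nat_lit 5) (nat_lit 615) (nat_lit 5) (nat_lit 632) (nat_lit 5) (nat_lit 551) (nat_lit 536) (nat_lit 473)) (XT.lf (nat_lit 0) (nat_lit 1499137602) (nat_lit 1292) (nat_lit 4334524455) (nat_lit 1368) (nat_lit 1750486613) (nat_lit 599) (nat_lit 5) (nat_lit 616) (nat_lit 5) (nat_lit 617) (nat_lit 5) (nat_lit 552) (nat_lit 536) (nat_lit 472)))) (XT.nd (nat_lit 78) (nat_lit 0) (nat_lit 0) (XT.lf (nat_lit 0) (nat_lit 3288010738) (nat_lit 1292) (nat_lit 179347991) (nat_lit 1368) (nat_lit 4168833474) (nat_lit 599) (nat_lit 5) (nat_lit 616) (nat_lit 5) (nat_lit 617) (nat_lit 5) (nat_lit 553) (nat_lit 536) (nat_lit 471)) (XT.nd (nat_lit 78) (nat_lit 0) (nat_lit 76) (XT.lf (nat_lit 76) (nat_lit 4085901727) (nat_lit 0) (nat_lit 1015510820) (nat_lit 1368) (nat_lit 2588096080) (nat_lit 600) (nat_lit 5) (nat_lit 599) (nat_lit 5) (nat_lit 617) (nat_lit 5) (nat_lit 554) (nat_lit 536) (nat_lit 470)) (XT.lf (nat_lit 76)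 (nat_lit 666850640) (nat_lit 0) (nat_lit 6262278683) (nat_lit 1368) (nat_lit 815208024) (nat_lit 601) (nat_lit 5) (nat_lit 600) (nat_lit 5) (nat_lit 618) (nat_lit 5) (nat_lit 555) (nat_lit 536) (nat_lit 469))))) (XT.nd (nat_lit 234) (nat_lit 4332) (nat_lit 0) (XT.nd (nat_lit 78) (nat_lit 0) (nat_lit 0) (XT.lf (nat_lit 0) (nat_lit 974345245) (nat_lit 1368) (nat_lit 2769127569) (nat_lit 1444) (nat_lit 4056782849) (nat_lit 582) (nat_lit 5) (nat_lit 600) (nat_lit 5) (nat_lit 601) (nat_lit 5) (nat_lit 556) (nat_lit 536) (nat_lit 468)) (XT.nd (nat_lit 78) (nat_lit 0) (nat_lit 76) (XT.lf (nat_lit 76) (nat_lit 1614130169) (nat_lit 0) (nat_lit 1149021385) (nat_lit 1444) (nat_lit 5094551978) (nat_lit 583) (nat_lit 5) (nat_lit 582) (nat_lit 5) (nat_lit 601) (nat_lit 5) (nat_lit 557) (nat_lit 536) (nat_lit 467)) (XT.lf (nat_lit 0) (nat_lit 4580638632) (nat_lit 1368) (nat_lit 1830820173) (nat_lit 76) (nat_lit 1504989840) (nat_lit 583) (nat_lit 5) (nat_lit 601) (nat_lit 5) (nat_lit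 584) (nat_lit 5) (nat_lit 558) (nat_lit 536) (nat_lit 466)))) (XT.nd (nat_lit 156) (nat_lit 2964) (nat_lit 0) (XT.nd (nat_lit 78) (nat_lit 76) (nat_lit 0) (XT.lf (nat_lit 0) (nat_lit 2670508627) (nat_lit 1368) (nat_lit 3754089154) (nat_lit 1444) (nat_lit 1551974686) (nat_lit 565) (nat_lit 5) (nat_lit 583) (nat_lit 5) (nat_lit 584) (nat_lit 5) (nat_lit 559) (nat_lit 536) (nat_lit 465)) (XT.lf (nat_lit 0) (nat_lit 241844661) (nat_lit 1444) (nat_lit 780171358) (nat_lit 76) (nat_lit 7016297698) (nat_lit 564) (nat_lit 5) (nat_lit 583) (nat_lit 5) (nat_lit 565) (nat_lit 5) (nat_lit 560) (nat_lit 536) (nat_lit 464))) (XT.nd (nat_lit 78) (nat_lit 1520) (nat_lit 0) (XT.lf (nat_lit 0) (nat_lit 2053636347) (nat_lit 1520) (nat_lit 4263399560) (nat_lit 76) (nat_lit 1783997068) (nat_lit 545) (nat_lit 5) (nat_lit 565) (nat_lit 5) (nat_lit 546) (nat_lit 5) (nat_lit 561) (nat_lit 536) (nat_lit 463)) (XT.lf (nat_lit 0) (nat_lit 364054756) (nat_lit 1520) (nat_lit 3518672242) (nat_lit 1596)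 (nat_lit 4282664137) (nat_lit 525) (nat_lit 5) (nat_lit 545) (nat_lit 5) (nat_lit 546) (nat_lit 5) (nat_lit 562) (nat_lit 536) (nat_lit 462))))))))
noncomputable def xc122 : XT := (XT.nd (nat_lit 1950) (nat_lit 9804) (nat_lit 0) (XT.nd (nat_lit 936) (nat_lit 5624) (nat_lit 0) (XT.nd (nat_lit 468) (nat_lit 4636) (nat_lit 0) (XT.nd (nat_lit 234) (nat_lit 3420) (nat_lit 0) (XT.nd (nat_lit 78) (nat_lit 1672) (nat_lit 0) (XT.lf (nat_lit 0) (nat_lit 5114645126) (nat_lit 1520) (nat_lit 629502162) (nat_lit 1596) (nat_lit 2486979880) (nat_lit 525) (nat_lit 5) (nat_lit 545) (nat_lit 5) (nat_lit 546) (nat_lit 5) (nat_lit 563) (nat_lit 536) (nat_lit 461)) (XT.nd (nat_lit 78) (nat_lit 76) (nat_lit 0) (XT.lf (nat_lit 0) (nat_lit 1641190428) (nat_lit 1596) (nat_lit 5995126214) (nat_lit 1672) (nat_lit 661996420) (nat_lit 504) (nat_lit 5) (nat_lit 525) (nat_lit 5) (nat_lit 526) (nat_lit 5) (nat_lit 564) (nat_lit 536) (nat_lit 460)) (XT.lf (nat_lit 0) (nat_lit 1177033449) (nat_lit 1672)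 (nat_lit 1869865461) (nat_lit 76) (nat_lit 5319927780) (nat_lit 503) (nat_lit 5) (nat_lit 525) (nat_lit 5) (nat_lit 504) (nat_lit 5) (nat_lit 565) (nat_lit 536) (nat_lit 459)))) (XT.nd (nat_lit 78) (nat_lit 1748) (nat_lit 0) (XT.lf (nat_lit 0) (nat_lit 3021312252) (nat_lit 1672) (nat_lit 10976103) (nat_lit 1748) (nat_lit 5404573781) (nat_lit 481) (nat_lit 5) (nat_lit 503) (nat_lit 5) (nat_lit 504) (nat_lit 5) (nat_lit 566) (nat_lit 536) (nat_lit 458)) (XT.nd (nat_lit 78) (nat_lit 1748) (nat_lit 0) (XT.lf (nat_lit 0) (nat_lit 4926462719) (nat_lit 1748) (nat_lit 520040655) (nat_lit 76) (nat_lit 3061763763) (nat_lit 481) (nat_lit 5) (nat_lit 504) (nat_lit 5) (nat_lit 482) (nat_lit 5) (nat_lit 567) (nat_lit 536) (nat_lit 457)) (XT.lf (nat_lit 0) (nat_lit 4505399037) (nat_lit 1748) (nat_lit 2352200469) (nat_lit 1824) (nat_lit 1723524183) (nat_lit 458) (nat_lit 5) (nat_lit 481) (nat_lit 5) (nat_lit 482) (nat_lit 5) (nat_lit 568) (nat_lit 536) (nat_lit 456))))) (XT.nd (nat_lit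 234) (nat_lit 1900) (nat_lit 0) (XT.nd (nat_lit 78) (nat_lit 988) (nat_lit 0) (XT.lf (nat_lit 0) (nat_lit 154741681) (nat_lit 1748) (nat_lit 7693780630) (nat_lit 76) (nat_lit 807196076) (nat_lit 435) (nat_lit 5) (nat_lit 458) (nat_lit 5) (nat_lit 436) (nat_lit 5) (nat_lit 569) (nat_lit 536) (nat_lit 455)) (XT.nd (nat_lit 78) (nat_lit 988) (nat_lit 0) (XT.lf (nat_lit 0) (nat_lit 2061025991) (nat_lit 1748) (nat_lit 2630486841) (nat_lit 76) (nat_lit 4039798415) (nat_lit 435) (nat_lit 5) (nat_lit 458) (nat_lit 5) (nat_lit 436) (nat_lit 5) (nat_lit 570) (nat_lit 536) (nat_lit 454)) (XT.lf (nat_lit 0) (nat_lit 2540274150) (nat_lit 988) (nat_lit 1452636033) (nat_lit 1064) (nat_lit 4815760944) (nat_lit 422) (nat_lit 5) (nat_lit 435) (nat_lit 5) (nat_lit 436) (nat_lit 5) (nat_lit 571) (nat_lit 536) (nat_lit 453)))) (XT.nd (nat_lit 78) (nat_lit 1900) (nat_lit 0) (XT.lf (nat_lit 0) (nat_lit 5964605074) (nat_lit 1064) (nat_lit 1076777257) (nat_lit 76) (nat_lit 1846176971) (nat_lit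 422) (nat_lit 5) (nat_lit 436) (nat_lit 5) (nat_lit 423) (nat_lit 5) (nat_lit 572) (nat_lit 536) (nat_lit 452)) (XT.nd (nat_lit 78) (nat_lit 988) (nat_lit 0) (XT.lf (nat_lit 0) (nat_lit 4237647502) (nat_lit 912) (nat_lit 3747167264) (nat_lit 988) (nat_lit 983033322) (nat_lit 410) (nat_lit 5) (nat_lit 422) (nat_lit 5) (nat_lit 423) (nat_lit 5) (nat_lit 573) (nat_lit 536) (nat_lit 451)) (XT.lf (nat_lit 0) (nat_lit 597500616) (nat_lit 912) (nat_lit 368415322) (nat_lit 988) (nat_lit 8084035943) (nat_lit 397) (nat_lit 5) (nat_lit 409) (nat_lit 5) (nat_lit 410) (nat_lit 5) (nat_lit 574) (nat_lit 536) (nat_lit 450)))))) (XT.nd (nat_lit 468) (nat_lit 3116) (nat_lit 0) (XT.nd (nat_lit 234) (nat_lit 1672) (nat_lit 0) (XT.nd (nat_lit 78) (nat_lit 836) (nat_lit 0) (XT.lf (nat_lit 0) (nat_lit 2965139662) (nat_lit 988) (nat_lit 3091452419) (nat_lit 76) (nat_lit 3076490755) (nat_lit 397) (nat_lit 5) (nat_lit 410) (nat_lit 5) (nat_lit 398) (nat_lit 5) (nat_lit 575) (nat_lit 536) (nat_lit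 449)) (XT.nd (nat_lit 78) (nat_lit 0) (nat_lit 0) (XT.lf (nat_lit 0) (nat_lit 2378501178) (nat_lit 836) (nat_lit 2616778145) (nat_lit 912) (nat_lit 4222782583) (nat_lit 386) (nat_lit 5) (nat_lit 397) (nat_lit 5) (nat_lit 398) (nat_lit 5) (nat_lit 576) (nat_lit 536) (nat_lit 448)) (XT.lf (nat_lit 0) (nat_lit 7066096210) (nat_lit 912) (nat_lit 1337870600) (nat_lit 76) (nat_lit 900776306) (nat_lit 386) (nat_lit 5) (nat_lit 398) (nat_lit 5) (nat_lit 387) (nat_lit 5) (nat_lit 577) (nat_lit 536) (nat_lit 447)))) (XT.nd (nat_lit 78) (nat_lit 836) (nat_lit 0) (XT.lf (nat_lit 0) (nat_lit 4285894249) (nat_lit 836) (nat_lit 4911514657) (nat_lit 912) (nat_lit 195371421) (nat_lit 375) (nat_lit 5) (nat_lit 386) (nat_lit 5) (nat_lit 387) (nat_lit 5) (nat_lit 578) (nat_lit 536) (nat_lit 446)) (XT.nd (nat_lit 78) (nat_lit 0) (nat_lit 0) (XT.lf (nat_lit 0) (nat_lit 525428032) (nat_lit 760) (nat_lit 1325105541) (nat_lit 836) (nat_lit 7632072548) (nat_lit 364) (nat_lit 5) (nat_lit 374) (nat_lit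 5) (nat_lit 375) (nat_lit 5) (nat_lit 579) (nat_lit 536) (nat_lit 445)) (XT.lf (nat_lit 0) (nat_lit 3958800117) (nat_lit 836) (nat_lit 3277938595) (nat_lit 76) (nat_lit 2336986439) (nat_lit 364) (nat_lit 5) (nat_lit 375) (nat_lit 5) (nat_lit 365) (nat_lit 5) (nat_lit 580) (nat_lit 536) (nat_lit 444))))) (XT.nd (nat_lit 234) (nat_lit 1444) (nat_lit 0) (XT.nd (nat_lit 78) (nat_lit 836) (nat_lit 0) (XT.lf (nat_lit 0) (nat_lit 2512254133) (nat_lit 836) (nat_lit 3596978914) (nat_lit 912) (nat_lit 3557437158) (nat_lit 353) (nat_lit 5) (nat_lit 364) (nat_lit 5) (nat_lit 365) (nat_lit 5) (nat_lit 581) (nat_lit 536) (nat_lit 443)) (XT.nd (nat_lit 78) (nat_lit 836) (nat_lit 0) (XT.lf (nat_lit 0) (nat_lit 8300788604) (nat_lit 912) (nat_lit 1326361440) (nat_lit 76) (nat_lit 134365430) (nat_lit 353) (nat_lit 5) (nat_lit 365) (nat_lit 5) (nat_lit 354) (nat_lit 5) (nat_lit 582) (nat_lit 536) (nat_lit 442)) (XT.lf (nat_lit 0) (nat_lit 698798786) (nat_lit 836) (nat_lit 5233712893) (nat_lit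 76) (nat_lit 3925065948) (nat_lit 342) (nat_lit 5) (nat_lit 353) (nat_lit 5) (nat_lit 343) (nat_lit 5) (nat_lit 583) (nat_lit 536) (nat_lit 441)))) (XT.nd (nat_lit 156) (nat_lit 684) (nat_lit 0) (XT.nd (nat_lit 78) (nat_lit 0) (nat_lit 0) (XT.lf (nat_lit 0) (nat_lit 728784153) (nat_lit 760) (nat_lit 2142730895) (nat_lit 836) (nat_lit 7084065069) (nat_lit 332) (nat_lit 5) (nat_lit 342) (nat_lit 5) (nat_lit 343) (nat_lit 5) (nat_lit 584) (nat_lit 536) (nat_lit 440)) (XT.lf (nat_lit 0) (nat_lit 5110358241) (nat_lit 836) (nat_lit 3211802983) (nat_lit 76) (nat_lit 1732931300) (nat_lit 332) (nat_lit 5) (nat_lit 343) (nat_lit 5) (nat_lit 333) (nat_lit 5) (nat_lit 585) (nat_lit 536) (nat_lit 439))) (XT.nd (nat_lit 78) (nat_lit 0) (nat_lit 0) (XT.lf (nat_lit 0) (nat_lit 2921120613) (nat_lit 684) (nat_lit 4482614976) (nat_lit 760) (nat_lit 2752667697) (nat_lit 323) (nat_lit 5) (nat_lit 332) (nat_lit 5) (nat_lit 333) (nat_lit 5) (nat_lit 586) (nat_lit 536) (nat_lit 438)) (XT.lf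 (nat_lit 0) (nat_lit 9193923796) (nat_lit 684) (nat_lit 547498687) (nat_lit 760) (nat_lit 518352131) (nat_lit 323) (nat_lit 5) (nat_lit 332) (nat_lit 5) (nat_lit 333) (nat_lit 5) (nat_lit 587) (nat_lit 536) (nat_lit 437))))))) (XT.nd (nat_lit 936) (nat_lit 4408) (nat_lit 0) (XT.nd (nat_lit 468) (nat_lit 2508) (nat_lit 0) (XT.nd (nat_lit 234) (nat_lit 1368) (nat_lit 0) (XT.nd (nat_lit 78) (nat_lit 684) (nat_lit 0) (XT.lf (nat_lit 0) (nat_lit 1771674695) (nat_lit 836) (nat_lit 5129150007) (nat_lit 76) (nat_lit 3463480782) (nat_lit 312) (nat_lit 5) (nat_lit 323) (nat_lit 5) (nat_lit 313) (nat_lit 5) (nat_lit 588) (nat_lit 536) (nat_lit 436)) (XT.nd (nat_lit 78) (nat_lit 0) (nat_lit 0) (XT.lf (nat_lit 0) (nat_lit 1187954373) (nat_lit 684) (nat_lit 2908597960) (nat_lit 760) (nat_lit 6374389300) (nat_lit 303) (nat_lit 5) (nat_lit 312) (nat_lit 5) (nat_lit 313) (nat_lit 5) (nat_lit 589) (nat_lit 536) (nat_lit 435)) (XT.lf (nat_lit 0) (nat_lit 6487821522) (nat_lit 760) (nat_lit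 2912491762) (nat_lit 76) (nat_lit 1179002288) (nat_lit 303) (nat_lit 5) (nat_lit 313) (nat_lit 5) (nat_lit 304) (nat_lit 5) (nat_lit 590) (nat_lit 536) (nat_lit 434)))) (XT.nd (nat_lit 78) (nat_lit 684) (nat_lit 0) (XT.lf (nat_lit 0) (nat_lit 3587103304) (nat_lit 684) (nat_lit 5360494997) (nat_lit 760) (nat_lit 1741847933) (nat_lit 294) (nat_lit 5) (nat_lit 303) (nat_lit 5) (nat_lit 304) (nat_lit 5) (nat_lit 591) (nat_lit 536) (nat_lit 433)) (XT.nd (nat_lit 78) (nat_lit 608) (nat_lit 0) (XT.lf (nat_lit 0) (nat_lit 644121918) (nat_lit 760) (nat_lit 575813363) (nat_lit 76) (nat_lit 9581803609) (nat_lit 293) (nat_lit 5) (nat_lit 303) (nat_lit 5) (nat_lit 294) (nat_lit 5) (nat_lit 592) (nat_lit 536) (nat_lit 432)) (XT.lf (nat_lit 0) (nat_lit 3092755806) (nat_lit 684) (nat_lit 4811159092) (nat_lit 76) (nat_lit 3011369593) (nat_lit 285) (nat_lit 5) (nat_lit 294) (nat_lit 5) (nat_lit 286) (nat_lit 5) (nat_lit 593) (nat_lit 536) (nat_lit 431))))) (XT.nd (nat_lit 234) (nat_lit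 1216) (nat_lit 0) (XT.nd (nat_lit 78) (nat_lit 608) (nat_lit 0) (XT.lf (nat_lit 0) (nat_lit 1885137774) (nat_lit 684) (nat_lit 3708327633) (nat_lit 760) (nat_lit 5437576203) (nat_lit 276) (nat_lit 5) (nat_lit 285) (nat_lit 5) (nat_lit 286) (nat_lit 5) (nat_lit 594) (nat_lit 536) (nat_lit 430)) (XT.nd (nat_lit 78) (nat_lit 608) (nat_lit 0) (XT.lf (nat_lit 0) (nat_lit 8159506487) (nat_lit 760) (nat_lit 2397956754) (nat_lit 76) (nat_lit 591346904) (nat_lit 276) (nat_lit 5) (nat_lit 286) (nat_lit 5) (nat_lit 277) (nat_lit 5) (nat_lit 595) (nat_lit 536) (nat_lit 429)) (XT.lf (nat_lit 0) (nat_lit 4493695592) (nat_lit 608) (nat_lit 6316426566) (nat_lit 684) (nat_lit 458149383) (nat_lit 268) (nat_lit 5) (nat_lit 276) (nat_lit 5) (nat_lit 277) (nat_lit 5) (nat_lit 596) (nat_lit 536) (nat_lit 428)))) (XT.nd (nat_lit 78) (nat_lit 532) (nat_lit 0) (XT.lf (nat_lit 0) (nat_lit 127933348) (nat_lit 608) (nat_lit 1964490582) (nat_lit 684) (nat_lit 9297491986) (nat_lit 259) (nat_lit 5)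 (nat_lit 267) (nat_lit 5) (nat_lit 268) (nat_lit 5) (nat_lit 597) (nat_lit 536) (nat_lit 427)) (XT.nd (nat_lit 78) (nat_lit 532) (nat_lit 0) (XT.lf (nat_lit 0) (nat_lit 4729525276) (nat_lit 684) (nat_lit 4298097535) (nat_lit 76) (nat_lit 2485479194) (nat_lit 259) (nat_lit 5) (nat_lit 268) (nat_lit 5) (nat_lit 260) (nat_lit 5) (nat_lit 598) (nat_lit 536) (nat_lit 426)) (XT.lf (nat_lit 0) (nat_lit 2803394498) (nat_lit 532) (nat_lit 4627398678) (nat_lit 608) (nat_lit 4207732520) (nat_lit 252) (nat_lit 5) (nat_lit 259) (nat_lit 5) (nat_lit 260) (nat_lit 5) (nat_lit 599) (nat_lit 536) (nat_lit 425)))))) (XT.nd (nat_lit 468) (nat_lit 2584) (nat_lit 0) (XT.nd (nat_lit 234) (nat_lit 608) (nat_lit 0) (XT.nd (nat_lit 78) (nat_lit 1216) (nat_lit 0) (XT.lf (nat_lit 0) (nat_lit 10079917652) (nat_lit 532) (nat_lit 115448406) (nat_lit 608) (nat_lit 1570908533) (nat_lit 252) (nat_lit 5) (nat_lit 259) (nat_lit 5) (nat_lit 260) (nat_lit 5) (nat_lit 600) (nat_lit 536) (nat_lit 424)) (XT.nd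 (nat_lit 78) (nat_lit 532) (nat_lit 0) (XT.lf (nat_lit 0) (nat_lit 1150721934) (nat_lit 684) (nat_lit 6278303689) (nat_lit 76) (nat_lit 4466474989) (nat_lit 243) (nat_lit 5) (nat_lit 252) (nat_lit 5) (nat_lit 244) (nat_lit 5) (nat_lit 601) (nat_lit 536) (nat_lit 423)) (XT.lf (nat_lit 0) (nat_lit 1039784110) (nat_lit 532) (nat_lit 2865764106) (nat_lit 608) (nat_lit 8121561500) (nat_lit 236) (nat_lit 5) (nat_lit 243) (nat_lit 5) (nat_lit 244) (nat_lit 5) (nat_lit 602) (nat_lit 536) (nat_lit 422)))) (XT.nd (nat_lit 78) (nat_lit 608) (nat_lit 0) (XT.lf (nat_lit 0) (nat_lit 6750538523) (nat_lit 608) (nat_lit 3608444417) (nat_lit 76) (nat_lit 1801668858) (nat_lit 236) (nat_lit 5) (nat_lit 244) (nat_lit 5) (nat_lit 237) (nat_lit 5) (nat_lit 603) (nat_lit 536) (nat_lit 421)) (XT.nd (nat_lit 78) (nat_lit 76) (nat_lit 0) (XT.lf (nat_lit 0) (nat_lit 3925638028) (nat_lit 532) (nat_lit 5752672642) (nat_lit 608) (nat_lit 2618038515) (nat_lit 229) (nat_lit 5) (nat_lit 236) (nat_lit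 5) (nat_lit 237) (nat_lit 5) (nat_lit 604) (nat_lit 536) (nat_lit 420)) (XT.lf (nat_lit 0) (nat_lit 232733535) (nat_lit 608) (nat_lit 801581048) (nat_lit 76) (nat_lit 11400300697) (nat_lit 228) (nat_lit 5) (nat_lit 236) (nat_lit 5) (nat_lit 229) (nat_lit 5) (nat_lit 605) (nat_lit 536) (nat_lit 419))))) (XT.nd (nat_lit 234) (nat_lit 1520) (nat_lit 0) (XT.nd (nat_lit 78) (nat_lit 532) (nat_lit 0) (XT.lf (nat_lit 0) (nat_lit 3157506292) (nat_lit 608) (nat_lit 5631156131) (nat_lit 76) (nat_lit 3785599336) (nat_lit 221) (nat_lit 5) (nat_lit 229) (nat_lit 5) (nat_lit 222) (nat_lit 5) (nat_lit 606) (nat_lit 536) (nat_lit 418)) (XT.nd (nat_lit 78) (nat_lit 0) (nat_lit 0) (XT.lf (nat_lit 0) (nat_lit 2133416533) (nat_lit 532) (nat_lit 4015488988) (nat_lit 608) (nat_lit 6567634972) (nat_lit 214) (nat_lit 5) (nat_lit 221) (nat_lit 5) (nat_lit 222) (nat_lit 5) (nat_lit 607) (nat_lit 536) (nat_lit 417)) (XT.lf (nat_lit 0) (nat_lit 9225875606) (nat_lit 608) (nat_lit 2761874612) (nat_lit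 76) (nat_lit 873401632) (nat_lit 214) (nat_lit 5) (nat_lit 222) (nat_lit 5) (nat_lit 215) (nat_lit 5) (nat_lit 608) (nat_lit 536) (nat_lit 416)))) (XT.nd (nat_lit 156) (nat_lit 456) (nat_lit 0) (XT.nd (nat_lit 78) (nat_lit 608) (nat_lit 0) (XT.lf (nat_lit 0) (nat_lit 5233543422) (nat_lit 456) (nat_lit 7173929041) (nat_lit 532) (nat_lit 600323092) (nat_lit 208) (nat_lit 5) (nat_lit 214) (nat_lit 5) (nat_lit 215) (nat_lit 5) (nat_lit 609) (nat_lit 536) (nat_lit 415)) (XT.lf (nat_lit 0) (nat_lit 231644406) (nat_lit 532) (nat_lit 2233703201) (nat_lit 608) (nat_lit 10691647394) (nat_lit 200) (nat_lit 5) (nat_lit 207) (nat_lit 5) (nat_lit 208) (nat_lit 5) (nat_lit 610) (nat_lit 536) (nat_lit 414))) (XT.nd (nat_lit 78) (nat_lit 456) (nat_lit 0) (XT.lf (nat_lit 0) (nat_lit 5637753487) (nat_lit 608) (nat_lit 4852145861) (nat_lit 76) (nat_lit 2818132284) (nat_lit 200) (nat_lit 5) (nat_lit 208) (nat_lit 5) (nat_lit 201) (nat_lit 5) (nat_lit 611) (nat_lit 536) (nat_lit 413)) (XT.lf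 (nat_lit 0) (nat_lit 3388130350) (nat_lit 456) (nat_lit 5505330329) (nat_lit 532) (nat_lit 4568232980) (nat_lit 194) (nat_lit 5) (nat_lit 200) (nat_lit 5) (nat_lit 201) (nat_lit 5) (nat_lit 612) (nat_lit 536) (nat_lit 412))))))))
noncomputable def xc123 : XT := (XT.nd (nat_lit 1950) (nat_lit 2888) (nat_lit 0) (XT.nd (nat_lit 936) (nat_lit 2888) (nat_lit 0) (XT.nd (nat_lit 468) (nat_lit 1672) (nat_lit 0) (XT.nd (nat_lit 234) (nat_lit 532) (nat_lit 0) (XT.nd (nat_lit 78) (nat_lit 988) (nat_lit 0) (XT.lf (nat_lit 0) (nat_lit 11835106512) (nat_lit 456) (nat_lit 394975503) (nat_lit 532) (nat_lit 1388032605) (nat_lit 194) (nat_lit 5) (nat_lit 200) (nat_lit 5) (nat_lit 201) (nat_lit 5) (nat_lit 613) (nat_lit 536) (nat_lit 411)) (XT.nd (nat_lit 78) (nat_lit 456) (nat_lit 0) (XT.lf (nat_lit 0) (nat_lit 1890161592) (nat_lit 532) (nat_lit 7082594467) (nat_lit 76) (nat_lit 4803494017) (nat_lit 187) (nat_lit 5) (nat_lit 194) (nat_lit 5) (nat_lit 188) (nat_lit 5) (nat_lit 614) (nat_lit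 536) (nat_lit 410)) (XT.lf (nat_lit 0) (nat_lit 1409553747) (nat_lit 456) (nat_lit 3813192728) (nat_lit 532) (nat_lit 8714471613) (nat_lit 181) (nat_lit 5) (nat_lit 187) (nat_lit 5) (nat_lit 188) (nat_lit 5) (nat_lit 615) (nat_lit 536) (nat_lit 409)))) (XT.nd (nat_lit 78) (nat_lit 532) (nat_lit 0) (XT.lf (nat_lit 0) (nat_lit 8662941700) (nat_lit 532) (nat_lit 3966510650) (nat_lit 76) (nat_lit 1471135500) (nat_lit 181) (nat_lit 5) (nat_lit 188) (nat_lit 5) (nat_lit 182) (nat_lit 5) (nat_lit 616) (nat_lit 536) (nat_lit 408)) (XT.nd (nat_lit 78) (nat_lit 76) (nat_lit 0) (XT.lf (nat_lit 0) (nat_lit 4779889713) (nat_lit 456) (nat_lit 7432362221) (nat_lit 532) (nat_lit 2054168386) (nat_lit 175) (nat_lit 5) (nat_lit 181) (nat_lit 5) (nat_lit 182) (nat_lit 5) (nat_lit 617) (nat_lit 536) (nat_lit 407)) (XT.lf (nat_lit 0) (nat_lit 1389530943) (nat_lit 532) (nat_lit 712769894) (nat_lit 76) (nat_lit 12332871200) (nat_lit 174) (nat_lit 5) (nat_lit 181) (nat_lit 5) (nat_lit 175) (nat_lit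 5) (nat_lit 618) (nat_lit 536) (nat_lit 406))))) (XT.nd (nat_lit 234) (nat_lit 836) (nat_lit 0) (XT.nd (nat_lit 78) (nat_lit 456) (nat_lit 0) (XT.lf (nat_lit 0) (nat_lit 4935011364) (nat_lit 456) (nat_lit 6319486957) (nat_lit 76) (nat_lit 3351322103) (nat_lit 169) (nat_lit 5) (nat_lit 175) (nat_lit 5) (nat_lit 170) (nat_lit 5) (nat_lit 619) (nat_lit 536) (nat_lit 405)) (XT.nd (nat_lit 78) (nat_lit 0) (nat_lit 0) (XT.lf (nat_lit 0) (nat_lit 2693544395) (nat_lit 456) (nat_lit 5878584190) (nat_lit 532) (nat_lit 6207340067) (nat_lit 163) (nat_lit 5) (nat_lit 169) (nat_lit 5) (nat_lit 170) (nat_lit 5) (nat_lit 620) (nat_lit 536) (nat_lit 404)) (XT.lf (nat_lit 0) (nat_lit 11949528515) (nat_lit 456) (nat_lit 359523125) (nat_lit 532) (nat_lit 2646998323) (nat_lit 163) (nat_lit 5) (nat_lit 169) (nat_lit 5) (nat_lit 170) (nat_lit 5) (nat_lit 621) (nat_lit 536) (nat_lit 403)))) (XT.nd (nat_lit 78) (nat_lit 380) (nat_lit 0) (XT.lf (nat_lit 0) (nat_lit 1031930451) (nat_lit 456) (nat_lit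 8861913918) (nat_lit 76) (nat_lit 5240986164) (nat_lit 157) (nat_lit 5) (nat_lit 163) (nat_lit 5) (nat_lit 158) (nat_lit 5) (nat_lit 622) (nat_lit 536) (nat_lit 402)) (XT.nd (nat_lit 78) (nat_lit 0) (nat_lit 0) (XT.lf (nat_lit 0) (nat_lit 424614128) (nat_lit 380) (nat_lit 4334817736) (nat_lit 456) (nat_lit 10557197477) (nat_lit 152) (nat_lit 5) (nat_lit 157) (nat_lit 5) (nat_lit 158) (nat_lit 5) (nat_lit 623) (nat_lit 536) (nat_lit 401)) (XT.lf (nat_lit 0) (nat_lit 8615070159) (nat_lit 456) (nat_lit 5515863855) (nat_lit 76) (nat_lit 1370059659) (nat_lit 152) (nat_lit 5) (nat_lit 158) (nat_lit 5) (nat_lit 153) (nat_lit 5) (nat_lit 624) (nat_lit 536) (nat_lit 400)))))) (XT.nd (nat_lit 468) (nat_lit 1292) (nat_lit 0) (XT.nd (nat_lit 234) (nat_lit 760) (nat_lit 0) (XT.nd (nat_lit 78) (nat_lit 456) (nat_lit 0) (XT.lf (nat_lit 0) (nat_lit 4049742368) (nat_lit 380) (nat_lit 8538427596) (nat_lit 456) (nat_lit 3100069611) (nat_lit 147) (nat_lit 5) (nat_lit 152) (nat_lit 5) (nat_lit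 153) (nat_lit 5) (nat_lit 625) (nat_lit 536) (nat_lit 399)) (XT.nd (nat_lit 78) (nat_lit 380) (nat_lit 0) (XT.lf (nat_lit 0) (nat_lit 774166384) (nat_lit 456) (nat_lit 2024771043) (nat_lit 76) (nat_lit 13079742247) (nat_lit 146) (nat_lit 5) (nat_lit 152) (nat_lit 5) (nat_lit 147) (nat_lit 5) (nat_lit 626) (nat_lit 536) (nat_lit 398)) (XT.lf (nat_lit 0) (nat_lit 4741267183) (nat_lit 456) (nat_lit 8250585574) (nat_lit 76) (nat_lit 3079529375) (nat_lit 141) (nat_lit 5) (nat_lit 147) (nat_lit 5) (nat_lit 142) (nat_lit 5) (nat_lit 627) (nat_lit 536) (nat_lit 397)))) (XT.nd (nat_lit 78) (nat_lit 456) (nat_lit 0) (XT.lf (nat_lit 0) (nat_lit 1603287373) (nat_lit 304) (nat_lit 7212812736) (nat_lit 380) (nat_lit 7451271889) (nat_lit 137) (nat_lit 5) (nat_lit 141) (nat_lit 5) (nat_lit 142) (nat_lit 5) (nat_lit 628) (nat_lit 536) (nat_lit 396)) (XT.nd (nat_lit 78) (nat_lit 456) (nat_lit 0) (XT.lf (nat_lit 0) (nat_lit 11744053525) (nat_lit 304) (nat_lit 1269645261) (nat_lit 380) (nat_lit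 3452758632) (nat_lit 137) (nat_lit 5) (nat_lit 141) (nat_lit 5) (nat_lit 142) (nat_lit 5) (nat_lit 629) (nat_lit 536) (nat_lit 395)) (XT.lf (nat_lit 0) (nat_lit 670407084) (nat_lit 456) (nat_lit 11236408274) (nat_lit 76) (nat_lit 4761571258) (nat_lit 131) (nat_lit 5) (nat_lit 137) (nat_lit 5) (nat_lit 132) (nat_lit 5) (nat_lit 630) (nat_lit 536) (nat_lit 394))))) (XT.nd (nat_lit 234) (nat_lit 684) (nat_lit 0) (XT.nd (nat_lit 78) (nat_lit 608) (nat_lit 0) (XT.lf (nat_lit 0) (nat_lit 4856323272) (nat_lit 456) (nat_lit 1073602715) (nat_lit 76) (nat_lit 10943442639) (nat_lit 131) (nat_lit 5) (nat_lit 137) (nat_lit 5) (nat_lit 132) (nat_lit 5) (nat_lit 631) (nat_lit 536) (nat_lit 393)) (XT.nd (nat_lit 78) (nat_lit 304) (nat_lit 0) (XT.lf (nat_lit 0) (nat_lit 9174824909) (nat_lit 380) (nat_lit 7688701570) (nat_lit 76) (nat_lit 217947506) (nat_lit 127) (nat_lit 5) (nat_lit 132) (nat_lit 5) (nat_lit 128) (nat_lit 5) (nat_lit 632) (nat_lit 536) (nat_lit 392)) (XT.lf (nat_lit 0)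 (nat_lit 2764864853) (nat_lit 304) (nat_lit 10865822545) (nat_lit 380) (nat_lit 3662035267) (nat_lit 123) (nat_lit 5) (nat_lit 127) (nat_lit 5) (nat_lit 128) (nat_lit 5) (nat_lit 633) (nat_lit 536) (nat_lit 391)))) (XT.nd (nat_lit 156) (nat_lit 304) (nat_lit 0) (XT.nd (nat_lit 78) (nat_lit 304) (nat_lit 0) (XT.lf (nat_lit 0) (nat_lit 697206235) (nat_lit 380) (nat_lit 4001661743) (nat_lit 76) (nat_lit 12808472872) (nat_lit 122) (nat_lit 5) (nat_lit 127) (nat_lit 5) (nat_lit 123) (nat_lit 5) (nat_lit 634) (nat_lit 536) (nat_lit 390)) (XT.lf (nat_lit 0) (nat_lit 5136204096) (nat_lit 380) (nat_lit 10957299652) (nat_lit 76) (nat_lit 1631432380) (nat_lit 118) (nat_lit 5) (nat_lit 123) (nat_lit 5) (nat_lit 119) (nat_lit 5) (nat_lit 635) (nat_lit 536) (nat_lit 389))) (XT.nd (nat_lit 78) (nat_lit 304) (nat_lit 0) (XT.lf (nat_lit 0) (nat_lit 9709018316) (nat_lit 380) (nat_lit 192274396) (nat_lit 76) (nat_lit 8044690824) (nat_lit 118) (nat_lit 5) (nat_lit 123) (nat_lit 5) (nat_lit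 119) (nat_lit 5) (nat_lit 636) (nat_lit 536) (nat_lit 388)) (XT.lf (nat_lit 0) (nat_lit 10910362115) (nat_lit 304) (nat_lit 3520908108) (nat_lit 380) (nat_lit 3739022975) (nat_lit 114) (nat_lit 5) (nat_lit 118) (nat_lit 5) (nat_lit 119) (nat_lit 5) (nat_lit 637) (nat_lit 536) (nat_lit 387))))))) (XT.nd (nat_lit 936) (nat_lit 760) (nat_lit 0) (XT.nd (nat_lit 468) (nat_lit 836) (nat_lit 0) (XT.nd (nat_lit 234) (nat_lit 608) (nat_lit 0) (XT.nd (nat_lit 78) (nat_lit 304) (nat_lit 0) (XT.lf (nat_lit 0) (nat_lit 870854704) (nat_lit 380) (nat_lit 14555339912) (nat_lit 76) (nat_lit 2972122911) (nat_lit 109) (nat_lit 5) (nat_lit 114) (nat_lit 5) (nat_lit 110) (nat_lit 5) (nat_lit 638) (nat_lit 536) (nat_lit 386)) (XT.nd (nat_lit 78) (nat_lit 304) (nat_lit 0) (XT.lf (nat_lit 0) (nat_lit 5582511378) (nat_lit 380) (nat_lit 3432856370) (nat_lit 76) (nat_lit 9613848236) (nat_lit 109) (nat_lit 5) (nat_lit 114) (nat_lit 5) (nat_lit 110) (nat_lit 5) (nat_lit 639) (nat_lit 536) (nat_lit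 385)) (XT.lf (nat_lit 0) (nat_lit 7996480054) (nat_lit 304) (nat_lit 2431332028) (nat_lit 380) (nat_lit 8436132974) (nat_lit 105) (nat_lit 5) (nat_lit 109) (nat_lit 5) (nat_lit 110) (nat_lit 5) (nat_lit 640) (nat_lit 536) (nat_lit 384)))) (XT.nd (nat_lit 78) (nat_lit 380) (nat_lit 0) (XT.lf (nat_lit 0) (nat_lit 556827219) (nat_lit 228) (nat_lit 14855366845) (nat_lit 304) (nat_lit 3690331988) (nat_lit 102) (nat_lit 5) (nat_lit 105) (nat_lit 5) (nat_lit 106) (nat_lit 5) (nat_lit 641) (nat_lit 536) (nat_lit 383)) (XT.nd (nat_lit 78) (nat_lit 304) (nat_lit 0) (XT.lf (nat_lit 0) (nat_lit 1212391577) (nat_lit 304) (nat_lit 7032122330) (nat_lit 76) (nat_lit 11099674310) (nat_lit 101) (nat_lit 5) (nat_lit 105) (nat_lit 5) (nat_lit 102) (nat_lit 5) (nat_lit 642) (nat_lit 536) (nat_lit 382)) (XT.lf (nat_lit 0) (nat_lit 4729148014) (nat_lit 304) (nat_lit 1453185641) (nat_lit 380) (nat_lit 13407491355) (nat_lit 97) (nat_lit 5) (nat_lit 101) (nat_lit 5) (nat_lit 102) (nat_lit 5) (nat_lit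 643) (nat_lit 536) (nat_lit 381))))) (XT.nd (nat_lit 234) (nat_lit 228) (nat_lit 0) (XT.nd (nat_lit 78) (nat_lit 608) (nat_lit 0) (XT.lf (nat_lit 0) (nat_lit 11322600536) (nat_lit 380) (nat_lit 3074537620) (nat_lit 76) (nat_lit 5441818646) (nat_lit 97) (nat_lit 5) (nat_lit 102) (nat_lit 5) (nat_lit 98) (nat_lit 5) (nat_lit 644) (nat_lit 536) (nat_lit 380)) (XT.nd (nat_lit 78) (nat_lit 380) (nat_lit 0) (XT.lf (nat_lit 0) (nat_lit 9036391412) (nat_lit 228) (nat_lit 7585696479) (nat_lit 304) (nat_lit 3469855803) (nat_lit 94) (nat_lit 5) (nat_lit 97) (nat_lit 5) (nat_lit 98) (nat_lit 5) (nat_lit 645) (nat_lit 536) (nat_lit 379)) (XT.lf (nat_lit 0) (nat_lit 1064721842) (nat_lit 304) (nat_lit 606679904) (nat_lit 380) (nat_lit 18678054900) (nat_lit 89) (nat_lit 5) (nat_lit 93) (nat_lit 5) (nat_lit 94) (nat_lit 5) (nat_lit 646) (nat_lit 536) (nat_lit 378)))) (XT.nd (nat_lit 78) (nat_lit 228) (nat_lit 0) (XT.lf (nat_lit 0) (nat_lit 6974226176) (nat_lit 380) (nat_lit 7119028335)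 (nat_lit 76) (nat_lit 6516303292) (nat_lit 89) (nat_lit 5) (nat_lit 94) (nat_lit 5) (nat_lit 90) (nat_lit 5) (nat_lit 647) (nat_lit 536) (nat_lit 377)) (XT.nd (nat_lit 78) (nat_lit 0) (nat_lit 0) (XT.lf (nat_lit 0) (nat_lit 5336448843) (nat_lit 228) (nat_lit 7073755227) (nat_lit 304) (nat_lit 8464115682) (nat_lit 86) (nat_lit 5) (nat_lit 89) (nat_lit 5) (nat_lit 90) (nat_lit 5) (nat_lit 648) (nat_lit 536) (nat_lit 376)) (XT.lf (nat_lit 0) (nat_lit 17992030584) (nat_lit 304) (nat_lit 3026325649) (nat_lit 76) (nat_lit 125278820) (nat_lit 86) (nat_lit 5) (nat_lit 90) (nat_lit 5) (nat_lit 87) (nat_lit 5) (nat_lit 649) (nat_lit 536) (nat_lit 375)))))) (XT.nd (nat_lit 72540) (nat_lit 0) (nat_lit 42028) (XT.nd (nat_lit 234) (nat_lit 228) (nat_lit 0) (XT.nd (nat_lit 78) (nat_lit 228) (nat_lit 0) (XT.lf (nat_lit 0) (nat_lit 2337246436) (nat_lit 304) (nat_lit 11633805400) (nat_lit 76) (nat_lit 7444994621) (nat_lit 82) (nat_lit 5) (nat_lit 86) (nat_lit 5) (nat_lit 83) (nat_lit 5)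 (nat_lit 650) (nat_lit 536) (nat_lit 374)) (XT.nd (nat_lit 78) (nat_lit 0) (nat_lit 0) (XT.lf (nat_lit 0) (nat_lit 1169630650) (nat_lit 228) (nat_lit 6740849723) (nat_lit 304) (nat_lit 13782673608) (nat_lit 79) (nat_lit 5) (nat_lit 82) (nat_lit 5) (nat_lit 83) (nat_lit 5) (nat_lit 651) (nat_lit 536) (nat_lit 373)) (XT.lf (nat_lit 0) (nat_lit 13666656612) (nat_lit 304) (nat_lit 7611292101) (nat_lit 76) (nat_lit 696426032) (nat_lit 79) (nat_lit 5) (nat_lit 83) (nat_lit 5) (nat_lit 80) (nat_lit 5) (nat_lit 652) (nat_lit 536) (nat_lit 372)))) (XT.nd (nat_lit 72150) (nat_lit 0) (nat_lit 44156) (XT.lf (nat_lit 0) (nat_lit 5568702922) (nat_lit 228) (nat_lit 14039046227) (nat_lit 304) (nat_lit 2652075548) (nat_lit 76) (nat_lit 5) (nat_lit 79) (nat_lit 5) (nat_lit 80) (nat_lit 5) (nat_lit 653) (nat_lit 536) (nat_lit 371)) (XT.nd (nat_lit 78) (nat_lit 0) (nat_lit 0) (XT.lf (nat_lit 0) (nat_lit 1212012916) (nat_lit 0) (nat_lit 1212012916) (nat_lit 988) (nat_lit 1072681530) (nat_lit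 657) (nat_lit 5) (nat_lit 657) (nat_lit 3) (nat_lit 670) (nat_lit 3) (nat_lit 537) (nat_lit 537) (nat_lit 486)) (XT.lf (nat_lit 0) (nat_lit 5907956315) (nat_lit 0) (nat_lit 804534362) (nat_lit 988) (nat_lit 314155477) (nat_lit 657) (nat_lit 5) (nat_lit 657) (nat_lit 3) (nat_lit 670) (nat_lit 3) (nat_lit 538) (nat_lit 537) (nat_lit 485))))) (XT.nd (nat_lit 234) (nat_lit 1064) (nat_lit 0) (XT.nd (nat_lit 78) (nat_lit 0) (nat_lit 0) (XT.lf (nat_lit 0) (nat_lit 1506733776) (nat_lit 1064) (nat_lit 4668901078) (nat_lit 1140) (nat_lit 885246785) (nat_lit 643) (nat_lit 5) (nat_lit 657) (nat_lit 5) (nat_lit 658) (nat_lit 5) (nat_lit 539) (nat_lit 537) (nat_lit 484)) (XT.nd (nat_lit 78) (nat_lit 0) (nat_lit 0) (XT.lf (nat_lit 0) (nat_lit 3325695417) (nat_lit 1064) (nat_lit 1140486029) (nat_lit 1140) (nat_lit 2630271304) (nat_lit 643) (nat_lit 5) (nat_lit 657) (nat_lit 5) (nat_lit 658) (nat_lit 5) (nat_lit 540) (nat_lit 537) (nat_lit 483)) (XT.lf (nat_lit 76) (nat_lit 2465932007)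 (nat_lit 0) (nat_lit 2685009315) (nat_lit 1140) (nat_lit 1982405341) (nat_lit 644) (nat_lit 5) (nat_lit 643) (nat_lit 5) (nat_lit 658) (nat_lit 5) (nat_lit 541) (nat_lit 537) (nat_lit 482)))) (XT.nd (nat_lit 156) (nat_lit 0) (nat_lit 0) (XT.nd (nat_lit 78) (nat_lit 1064) (nat_lit 0) (XT.lf (nat_lit 76) (nat_lit 6135195399) (nat_lit 0) (nat_lit 839787959) (nat_lit 1140) (nat_lit 196758568) (nat_lit 644) (nat_lit 5) (nat_lit 643) (nat_lit 5) (nat_lit 658) (nat_lit 5) (nat_lit 542) (nat_lit 537) (nat_lit 481)) (XT.lf (nat_lit 0) (nat_lit 1582912141) (nat_lit 1140) (nat_lit 4551832504) (nat_lit 1216) (nat_lit 1076366063) (nat_lit 629) (nat_lit 5) (nat_lit 644) (nat_lit 5) (nat_lit 645) (nat_lit 5) (nat_lit 543) (nat_lit 537) (nat_lit 480))) (XT.nd (nat_lit 78) (nat_lit 0) (nat_lit 0) (XT.lf (nat_lit 0) (nat_lit 3364174675) (nat_lit 1140) (nat_lit 840681768) (nat_lit 1216) (nat_lit 3047020508) (nat_lit 629) (nat_lit 5) (nat_lit 644) (nat_lit 5) (nat_lit 645) (nat_lit 5) (nat_lit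 544) (nat_lit 537) (nat_lit 479)) (XT.lf (nat_lit 76) (nat_lit 2958281055) (nat_lit 0) (nat_lit 2198917153) (nat_lit 1216) (nat_lit 2136746185) (nat_lit 630) (nat_lit 5) (nat_lit 629) (nat_lit 5) (nat_lit 645) (nat_lit 5) (nat_lit 545) (nat_lit 537) (nat_lit 478))))))))
noncomputable def xc124 : XT := (XT.nd (nat_lit 1950) (nat_lit 12084) (nat_lit 0) (XT.nd (nat_lit 936) (nat_lit 11096) (nat_lit 0) (XT.nd (nat_lit 468) (nat_lit 1292) (nat_lit 0) (XT.nd (nat_lit 234) (nat_lit 1216) (nat_lit 0) (XT.nd (nat_lit 78) (nat_lit 1140) (nat_lit 0) (XT.lf (nat_lit 76) (nat_lit 6819575336) (nat_lit 0) (nat_lit 129758856) (nat_lit 1216) (nat_lit 388262369) (nat_lit 630) (nat_lit 5) (nat_lit 629) (nat_lit 5) (nat_lit 645) (nat_lit 5) (nat_lit 546) (nat_lit 537) (nat_lit 477)) (XT.nd (nat_lit 78) (nat_lit 0) (nat_lit 0) (XT.lf (nat_lit 0) (nat_lit 1370211555) (nat_lit 1216) (nat_lit 4009311143) (nat_lit 1292) (nat_lit 2002559624) (nat_lit 614) (nat_lit 5) (nat_lit 630) (nat_lit 5)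 (nat_lit 631) (nat_lit 5) (nat_lit 547) (nat_lit 537) (nat_lit 476)) (XT.lf (nat_lit 0) (nat_lit 3121941706) (nat_lit 1216) (nat_lit 108328856) (nat_lit 1292) (nat_lit 4197878128) (nat_lit 614) (nat_lit 5) (nat_lit 630) (nat_lit 5) (nat_lit 631) (nat_lit 5) (nat_lit 548) (nat_lit 537) (nat_lit 475)))) (XT.nd (nat_lit 78) (nat_lit 1216) (nat_lit 0) (XT.lf (nat_lit 76) (nat_lit 3896394298) (nat_lit 0) (nat_lit 997337761) (nat_lit 1292) (nat_lit 2581711592) (nat_lit 615) (nat_lit 5) (nat_lit 614) (nat_lit 5) (nat_lit 631) (nat_lit 5) (nat_lit 549) (nat_lit 537) (nat_lit 474)) (XT.nd (nat_lit 78) (nat_lit 1292) (nat_lit 0) (XT.lf (nat_lit 76) (nat_lit 430227840) (nat_lit 0) (nat_lit 6243014998) (nat_lit 1292) (nat_lit 851003606) (nat_lit 616) (nat_lit 5) (nat_lit 615) (nat_lit 5) (nat_lit 632) (nat_lit 5) (nat_lit 550) (nat_lit 537) (nat_lit 473)) (XT.lf (nat_lit 0) (nat_lit 893897466) (nat_lit 1292) (nat_lit 3044504344) (nat_lit 1368) (nat_lit 3635680677) (nat_lit 598) (nat_lit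 5) (nat_lit 615) (nat_lit 5) (nat_lit 616) (nat_lit 5) (nat_lit 551) (nat_lit 537) (nat_lit 472))))) (XT.nd (nat_lit 234) (nat_lit 1292) (nat_lit 0) (XT.nd (nat_lit 78) (nat_lit 0) (nat_lit 76) (XT.lf (nat_lit 76) (nat_lit 1068431370) (nat_lit 0) (nat_lit 1562375843) (nat_lit 1368) (nat_lit 4994632608) (nat_lit 599) (nat_lit 5) (nat_lit 598) (nat_lit 5) (nat_lit 616) (nat_lit 5) (nat_lit 552) (nat_lit 537) (nat_lit 471)) (XT.nd (nat_lit 78) (nat_lit 0) (nat_lit 0) (XT.lf (nat_lit 0) (nat_lit 4390834798) (nat_lit 1292) (nat_lit 2404865041) (nat_lit 1368) (nat_lit 882363912) (nat_lit 599) (nat_lit 5) (nat_lit 616) (nat_lit 5) (nat_lit 617) (nat_lit 5) (nat_lit 553) (nat_lit 537) (nat_lit 470)) (XT.lf (nat_lit 76) (nat_lit 1817718382) (nat_lit 0) (nat_lit 4353456800) (nat_lit 1368) (nat_lit 1560869641) (nat_lit 600) (nat_lit 5) (nat_lit 599) (nat_lit 5) (nat_lit 617) (nat_lit 5) (nat_lit 554) (nat_lit 537) (nat_lit 469)))) (XT.nd (nat_lit 78) (nat_lit 0) (nat_lit 76) (XT.lf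 (nat_lit 0) (nat_lit 176911567) (nat_lit 1368) (nat_lit 1657254952) (nat_lit 1444) (nat_lit 5953329302) (nat_lit 581) (nat_lit 5) (nat_lit 599) (nat_lit 5) (nat_lit 600) (nat_lit 5) (nat_lit 555) (nat_lit 537) (nat_lit 468)) (XT.nd (nat_lit 78) (nat_lit 0) (nat_lit 0) (XT.lf (nat_lit 0) (nat_lit 1915011889) (nat_lit 1368) (nat_lit 5165331655) (nat_lit 1444) (nat_lit 763783185) (nat_lit 582) (nat_lit 5) (nat_lit 600) (nat_lit 5) (nat_lit 601) (nat_lit 5) (nat_lit 556) (nat_lit 537) (nat_lit 467)) (XT.lf (nat_lit 0) (nat_lit 3675811211) (nat_lit 1368) (nat_lit 816366927) (nat_lit 1444) (nat_lit 3409959757) (nat_lit 582) (nat_lit 5) (nat_lit 600) (nat_lit 5) (nat_lit 601) (nat_lit 5) (nat_lit 557) (nat_lit 537) (nat_lit 466)))))) (XT.nd (nat_lit 468) (nat_lit 6840) (nat_lit 0) (XT.nd (nat_lit 234) (nat_lit 2964) (nat_lit 0) (XT.nd (nat_lit 78) (nat_lit 1368) (nat_lit 0) (XT.lf (nat_lit 76) (nat_lit 3641344498) (nat_lit 0) (nat_lit 1819413744) (nat_lit 1444) (nat_lit 2500778664)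 (nat_lit 583) (nat_lit 5) (nat_lit 582) (nat_lit 5) (nat_lit 601) (nat_lit 5) (nat_lit 558) (nat_lit 537) (nat_lit 465)) (XT.nd (nat_lit 78) (nat_lit 76) (nat_lit 0) (XT.lf (nat_lit 0) (nat_lit 146699025) (nat_lit 1368) (nat_lit 7112916836) (nat_lit 1444) (nat_lit 762949934) (nat_lit 565) (nat_lit 5) (nat_lit 583) (nat_lit 5) (nat_lit 584) (nat_lit 5) (nat_lit 559) (nat_lit 537) (nat_lit 464)) (XT.lf (nat_lit 0) (nat_lit 1003752130) (nat_lit 1444) (nat_lit 3368386408) (nat_lit 76) (nat_lit 3712404348) (nat_lit 564) (nat_lit 5) (nat_lit 583) (nat_lit 5) (nat_lit 565) (nat_lit 5) (nat_lit 560) (nat_lit 537) (nat_lit 463)))) (XT.nd (nat_lit 78) (nat_lit 1520) (nat_lit 0) (XT.lf (nat_lit 0) (nat_lit 1213792091) (nat_lit 1444) (nat_lit 1556461181) (nat_lit 1520) (nat_lit 5377917544) (nat_lit 545) (nat_lit 5) (nat_lit 564) (nat_lit 5) (nat_lit 565) (nat_lit 5) (nat_lit 561) (nat_lit 537) (nat_lit 462)) (XT.nd (nat_lit 78) (nat_lit 1520) (nat_lit 0) (XT.lf (nat_lit 0) (nat_lit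 4570693869) (nat_lit 1520) (nat_lit 2314884437) (nat_lit 76) (nat_lit 1327526477) (nat_lit 545) (nat_lit 5) (nat_lit 565) (nat_lit 5) (nat_lit 546) (nat_lit 5) (nat_lit 562) (nat_lit 537) (nat_lit 461)) (XT.lf (nat_lit 0) (nat_lit 2391738813) (nat_lit 1520) (nat_lit 4009196594) (nat_lit 1596) (nat_lit 1878531732) (nat_lit 525) (nat_lit 5) (nat_lit 545) (nat_lit 5) (nat_lit 546) (nat_lit 5) (nat_lit 563) (nat_lit 537) (nat_lit 460))))) (XT.nd (nat_lit 234) (nat_lit 3496) (nat_lit 0) (XT.nd (nat_lit 78) (nat_lit 3344) (nat_lit 0) (XT.lf (nat_lit 0) (nat_lit 7197725246) (nat_lit 1520) (nat_lit 1054004859) (nat_lit 1596) (nat_lit 95753116) (nat_lit 525) (nat_lit 5) (nat_lit 545) (nat_lit 5) (nat_lit 546) (nat_lit 5) (nat_lit 564) (nat_lit 537) (nat_lit 459)) (XT.nd (nat_lit 78) (nat_lit 1672) (nat_lit 0) (XT.lf (nat_lit 0) (nat_lit 1705889772) (nat_lit 1672) (nat_lit 4735596821) (nat_lit 76) (nat_lit 1975038531) (nat_lit 503) (nat_lit 5) (nat_lit 525) (nat_lit 5) (nat_lit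 504) (nat_lit 5) (nat_lit 565) (nat_lit 537) (nat_lit 458)) (XT.lf (nat_lit 0) (nat_lit 104186182) (nat_lit 1672) (nat_lit 3422819552) (nat_lit 1748) (nat_lit 4960240156) (nat_lit 481) (nat_lit 5) (nat_lit 503) (nat_lit 5) (nat_lit 504) (nat_lit 5) (nat_lit 566) (nat_lit 537) (nat_lit 457)))) (XT.nd (nat_lit 156) (nat_lit 1748) (nat_lit 0) (XT.nd (nat_lit 78) (nat_lit 1748) (nat_lit 0) (XT.lf (nat_lit 0) (nat_lit 5078596803) (nat_lit 1672) (nat_lit 307454377) (nat_lit 1748) (nat_lit 3173304779) (nat_lit 481) (nat_lit 5) (nat_lit 503) (nat_lit 5) (nat_lit 504) (nat_lit 5) (nat_lit 567) (nat_lit 537) (nat_lit 456)) (XT.lf (nat_lit 0) (nat_lit 1494080363) (nat_lit 1748) (nat_lit 5786880356) (nat_lit 1824) (nat_lit 1351978779) (nat_lit 458) (nat_lit 5) (nat_lit 481) (nat_lit 5) (nat_lit 482) (nat_lit 5) (nat_lit 568) (nat_lit 537) (nat_lit 455))) (XT.nd (nat_lit 78) (nat_lit 1672) (nat_lit 0) (XT.lf (nat_lit 0) (nat_lit 495248514) (nat_lit 1824) (nat_lit 2124091578) (nat_lit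 76) (nat_lit 6088671518) (nat_lit 457) (nat_lit 5) (nat_lit 481) (nat_lit 5) (nat_lit 458) (nat_lit 5) (nat_lit 569) (nat_lit 537) (nat_lit 454)) (XT.lf (nat_lit 0) (nat_lit 2356093683) (nat_lit 1748) (nat_lit 5793641088) (nat_lit 76) (nat_lit 634780782) (nat_lit 435) (nat_lit 5) (nat_lit 458) (nat_lit 5) (nat_lit 436) (nat_lit 5) (nat_lit 570) (nat_lit 537) (nat_lit 453))))))) (XT.nd (nat_lit 936) (nat_lit 5852) (nat_lit 0) (XT.nd (nat_lit 468) (nat_lit 3344) (nat_lit 0) (XT.nd (nat_lit 234) (nat_lit 988) (nat_lit 0) (XT.nd (nat_lit 78) (nat_lit 1900) (nat_lit 0) (XT.lf (nat_lit 0) (nat_lit 4257400598) (nat_lit 1748) (nat_lit 669356230) (nat_lit 76) (nat_lit 3935732408) (nat_lit 435) (nat_lit 5) (nat_lit 458) (nat_lit 5) (nat_lit 436) (nat_lit 5) (nat_lit 571) (nat_lit 537) (nat_lit 452)) (XT.nd (nat_lit 78) (nat_lit 912) (nat_lit 0) (XT.lf (nat_lit 0) (nat_lit 4591571689) (nat_lit 988) (nat_lit 1607081383) (nat_lit 1064) (nat_lit 2743335397) (nat_lit 422) (nat_lit 5)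 (nat_lit 435) (nat_lit 5) (nat_lit 436) (nat_lit 5) (nat_lit 572) (nat_lit 537) (nat_lit 451)) (XT.lf (nat_lit 0) (nat_lit 917805031) (nat_lit 912) (nat_lit 7255453646) (nat_lit 988) (nat_lit 849932828) (nat_lit 410) (nat_lit 5) (nat_lit 422) (nat_lit 5) (nat_lit 423) (nat_lit 5) (nat_lit 573) (nat_lit 537) (nat_lit 450)))) (XT.nd (nat_lit 78) (nat_lit 912) (nat_lit 0) (XT.lf (nat_lit 0) (nat_lit 1079867630) (nat_lit 988) (nat_lit 2799578275) (nat_lit 76) (nat_lit 5226182257) (nat_lit 409) (nat_lit 5) (nat_lit 422) (nat_lit 5) (nat_lit 410) (nat_lit 5) (nat_lit 574) (nat_lit 537) (nat_lit 449)) (XT.nd (nat_lit 78) (nat_lit 0) (nat_lit 0) (XT.lf (nat_lit 0) (nat_lit 2614885770) (nat_lit 912) (nat_lit 412203520) (nat_lit 988) (nat_lit 6162711910) (nat_lit 397) (nat_lit 5) (nat_lit 409) (nat_lit 5) (nat_lit 410) (nat_lit 5) (nat_lit 575) (nat_lit 537) (nat_lit 448)) (XT.lf (nat_lit 0) (nat_lit 5026029290) (nat_lit 988) (nat_lit 1146593896) (nat_lit 76) (nat_lit 3102783081)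 (nat_lit 397) (nat_lit 5) (nat_lit 410) (nat_lit 5) (nat_lit 398) (nat_lit 5) (nat_lit 576) (nat_lit 537) (nat_lit 447))))) (XT.nd (nat_lit 234) (nat_lit 1596) (nat_lit 0) (XT.nd (nat_lit 78) (nat_lit 912) (nat_lit 0) (XT.lf (nat_lit 0) (nat_lit 4419556880) (nat_lit 836) (nat_lit 2650911095) (nat_lit 912) (nat_lit 2292149029) (nat_lit 386) (nat_lit 5) (nat_lit 397) (nat_lit 5) (nat_lit 398) (nat_lit 5) (nat_lit 577) (nat_lit 537) (nat_lit 446)) (XT.nd (nat_lit 78) (nat_lit 76) (nat_lit 0) (XT.lf (nat_lit 0) (nat_lit 637034292) (nat_lit 836) (nat_lit 8511187782) (nat_lit 912) (nat_lit 303505239) (nat_lit 375) (nat_lit 5) (nat_lit 386) (nat_lit 5) (nat_lit 387) (nat_lit 5) (nat_lit 578) (nat_lit 537) (nat_lit 445)) (XT.lf (nat_lit 0) (nat_lit 1727829768) (nat_lit 912) (nat_lit 3201677656) (nat_lit 76) (nat_lit 4612381339) (nat_lit 374) (nat_lit 5) (nat_lit 386) (nat_lit 5) (nat_lit 375) (nat_lit 5) (nat_lit 579) (nat_lit 537) (nat_lit 444)))) (XT.nd (nat_lit 78) (nat_lit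 836) (nat_lit 0) (XT.lf (nat_lit 0) (nat_lit 2528791174) (nat_lit 760) (nat_lit 1258451847) (nat_lit 836) (nat_lit 5846743651) (nat_lit 364) (nat_lit 5) (nat_lit 374) (nat_lit 5) (nat_lit 375) (nat_lit 5) (nat_lit 580) (nat_lit 537) (nat_lit 443)) (XT.nd (nat_lit 78) (nat_lit 836) (nat_lit 0) (XT.lf (nat_lit 0) (nat_lit 5901018870) (nat_lit 836) (nat_lit 1352790188) (nat_lit 76) (nat_lit 2473857589) (nat_lit 364) (nat_lit 5) (nat_lit 375) (nat_lit 5) (nat_lit 365) (nat_lit 5) (nat_lit 581) (nat_lit 537) (nat_lit 442)) (XT.lf (nat_lit 0) (nat_lit 4540109637) (nat_lit 836) (nat_lit 3530660531) (nat_lit 912) (nat_lit 1752179576) (nat_lit 353) (nat_lit 5) (nat_lit 364) (nat_lit 5) (nat_lit 365) (nat_lit 5) (nat_lit 582) (nat_lit 537) (nat_lit 441)))))) (XT.nd (nat_lit 468) (nat_lit 2736) (nat_lit 0) (XT.nd (nat_lit 234) (nat_lit 1520) (nat_lit 0) (XT.nd (nat_lit 78) (nat_lit 760) (nat_lit 0) (XT.lf (nat_lit 0) (nat_lit 350087687) (nat_lit 836) (nat_lit 9292971998) (nat_lit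 76) (nat_lit 277213352) (nat_lit 342) (nat_lit 5) (nat_lit 353) (nat_lit 5) (nat_lit 343) (nat_lit 5) (nat_lit 583) (nat_lit 537) (nat_lit 440)) (XT.nd (nat_lit 78) (nat_lit 760) (nat_lit 0) (XT.lf (nat_lit 0) (nat_lit 2506351010) (nat_lit 836) (nat_lit 3353007726) (nat_lit 76) (nat_lit 4159247491) (nat_lit 342) (nat_lit 5) (nat_lit 353) (nat_lit 5) (nat_lit 343) (nat_lit 5) (nat_lit 584) (nat_lit 537) (nat_lit 439)) (XT.lf (nat_lit 0) (nat_lit 2715677554) (nat_lit 760) (nat_lit 1984481477) (nat_lit 836) (nat_lit 5418861919) (nat_lit 332) (nat_lit 5) (nat_lit 342) (nat_lit 5) (nat_lit 343) (nat_lit 5) (nat_lit 585) (nat_lit 537) (nat_lit 438)))) (XT.nd (nat_lit 78) (nat_lit 1520) (nat_lit 0) (XT.lf (nat_lit 0) (nat_lit 6950329506) (nat_lit 836) (nat_lit 1308702976) (nat_lit 76) (nat_lit 1962164946) (nat_lit 332) (nat_lit 5) (nat_lit 343) (nat_lit 5) (nat_lit 333) (nat_lit 5) (nat_lit 586) (nat_lit 537) (nat_lit 437)) (XT.nd (nat_lit 78) (nat_lit 836) (nat_lit 0) (XT.lf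 (nat_lit 0) (nat_lit 4933936091) (nat_lit 684) (nat_lit 4334253720) (nat_lit 760) (nat_lit 1056777025) (nat_lit 323) (nat_lit 5) (nat_lit 332) (nat_lit 5) (nat_lit 333) (nat_lit 5) (nat_lit 587) (nat_lit 537) (nat_lit 436)) (XT.lf (nat_lit 0) (nat_lit 866441527) (nat_lit 760) (nat_lit 311497176) (nat_lit 836) (nat_lit 9252877862) (nat_lit 312) (nat_lit 5) (nat_lit 322) (nat_lit 5) (nat_lit 323) (nat_lit 5) (nat_lit 588) (nat_lit 537) (nat_lit 435))))) (XT.nd (nat_lit 234) (nat_lit 2052) (nat_lit 0) (XT.nd (nat_lit 78) (nat_lit 684) (nat_lit 0) (XT.lf (nat_lit 0) (nat_lit 3482134454) (nat_lit 836) (nat_lit 3273624865) (nat_lit 76) (nat_lit 3782108490) (nat_lit 312) (nat_lit 5) (nat_lit 323) (nat_lit 5) (nat_lit 313) (nat_lit 5) (nat_lit 589) (nat_lit 537) (nat_lit 434)) (XT.nd (nat_lit 78) (nat_lit 0) (nat_lit 0) (XT.lf (nat_lit 0) (nat_lit 3156939313) (nat_lit 684) (nat_lit 2676356376) (nat_lit 760) (nat_lit 4813749648) (nat_lit 303) (nat_lit 5) (nat_lit 312) (nat_lit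 5) (nat_lit 313) (nat_lit 5) (nat_lit 590) (nat_lit 537) (nat_lit 433)) (XT.lf (nat_lit 0) (nat_lit 8241791547) (nat_lit 760) (nat_lit 1032844124) (nat_lit 76) (nat_lit 1483567350) (nat_lit 303) (nat_lit 5) (nat_lit 313) (nat_lit 5) (nat_lit 304) (nat_lit 5) (nat_lit 591) (nat_lit 537) (nat_lit 432)))) (XT.nd (nat_lit 156) (nat_lit 684) (nat_lit 0) (XT.nd (nat_lit 78) (nat_lit 684) (nat_lit 0) (XT.lf (nat_lit 0) (nat_lit 5583993518) (nat_lit 684) (nat_lit 5147422357) (nat_lit 760) (nat_lit 139511589) (nat_lit 294) (nat_lit 5) (nat_lit 303) (nat_lit 5) (nat_lit 304) (nat_lit 5) (nat_lit 592) (nat_lit 537) (nat_lit 431)) (XT.lf (nat_lit 0) (nat_lit 1338883228) (nat_lit 608) (nat_lit 910835106) (nat_lit 684) (nat_lit 8735998842) (nat_lit 285) (nat_lit 5) (nat_lit 293) (nat_lit 5) (nat_lit 294) (nat_lit 5) (nat_lit 593) (nat_lit 537) (nat_lit 430))) (XT.nd (nat_lit 78) (nat_lit 684) (nat_lit 0) (XT.lf (nat_lit 0) (nat_lit 4722031386) (nat_lit 684) (nat_lit 2981930265) (nat_lit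 76) (nat_lit 3398081871) (nat_lit 285) (nat_lit 5) (nat_lit 294) (nat_lit 5) (nat_lit 286) (nat_lit 5) (nat_lit 594) (nat_lit 537) (nat_lit 429)) (XT.lf (nat_lit 0) (nat_lit 3835625090) (nat_lit 684) (nat_lit 3418815421) (nat_lit 760) (nat_lit 3966045454) (nat_lit 276) (nat_lit 5) (nat_lit 285) (nat_lit 5) (nat_lit 286) (nat_lit 5) (nat_lit 595) (nat_lit 537) (nat_lit 428))))))))
noncomputable def xc125 : XT := (XT.nd (nat_lit 1950) (nat_lit 5472) (nat_lit 0) (XT.nd (nat_lit 936) (nat_lit 3952) (nat_lit 0) (XT.nd (nat_lit 468) (nat_lit 1748) (nat_lit 0) (XT.nd (nat_lit 234) (nat_lit 1140) (nat_lit 0) (XT.nd (nat_lit 78) (nat_lit 1292) (nat_lit 0) (XT.lf (nat_lit 0) (nat_lit 9843742734) (nat_lit 760) (nat_lit 542386679) (nat_lit 76) (nat_lit 955045462) (nat_lit 276) (nat_lit 5) (nat_lit 286) (nat_lit 5) (nat_lit 277) (nat_lit 5) (nat_lit 596) (nat_lit 537) (nat_lit 427)) (XT.nd (nat_lit 78) (nat_lit 608) (nat_lit 0) (XT.lf (nat_lit 0) (nat_lit 1052457176) (nat_lit 684)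 (nat_lit 4995728737) (nat_lit 76) (nat_lit 5415055777) (nat_lit 267) (nat_lit 5) (nat_lit 276) (nat_lit 5) (nat_lit 268) (nat_lit 5) (nat_lit 597) (nat_lit 537) (nat_lit 426)) (XT.lf (nat_lit 0) (nat_lit 2029222272) (nat_lit 608) (nat_lit 1601339385) (nat_lit 684) (nat_lit 7957047232) (nat_lit 259) (nat_lit 5) (nat_lit 267) (nat_lit 5) (nat_lit 268) (nat_lit 5) (nat_lit 598) (nat_lit 537) (nat_lit 425)))) (XT.nd (nat_lit 78) (nat_lit 1140) (nat_lit 0) (XT.lf (nat_lit 0) (nat_lit 6293627707) (nat_lit 684) (nat_lit 2495605870) (nat_lit 76) (nat_lit 2924564191) (nat_lit 259) (nat_lit 5) (nat_lit 268) (nat_lit 5) (nat_lit 260) (nat_lit 5) (nat_lit 599) (nat_lit 537) (nat_lit 424)) (XT.nd (nat_lit 78) (nat_lit 608) (nat_lit 0) (XT.lf (nat_lit 0) (nat_lit 4735491966) (nat_lit 532) (nat_lit 4296795467) (nat_lit 608) (nat_lit 2809778622) (nat_lit 252) (nat_lit 5) (nat_lit 259) (nat_lit 5) (nat_lit 260) (nat_lit 5) (nat_lit 600) (nat_lit 537) (nat_lit 423)) (XT.lf (nat_lit 0)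 (nat_lit 147827454) (nat_lit 608) (nat_lit 11678725251) (nat_lit 684) (nat_lit 146332589) (nat_lit 244) (nat_lit 5) (nat_lit 252) (nat_lit 5) (nat_lit 253) (nat_lit 5) (nat_lit 601) (nat_lit 537) (nat_lit 422))))) (XT.nd (nat_lit 234) (nat_lit 1140) (nat_lit 0) (XT.nd (nat_lit 78) (nat_lit 532) (nat_lit 0) (XT.lf (nat_lit 0) (nat_lit 2594377877) (nat_lit 684) (nat_lit 4531890468) (nat_lit 76) (nat_lit 4978566817) (nat_lit 243) (nat_lit 5) (nat_lit 252) (nat_lit 5) (nat_lit 244) (nat_lit 5) (nat_lit 602) (nat_lit 537) (nat_lit 421)) (XT.nd (nat_lit 78) (nat_lit 0) (nat_lit 0) (XT.lf (nat_lit 0) (nat_lit 2920243434) (nat_lit 532) (nat_lit 2468275704) (nat_lit 608) (nat_lit 6850876129) (nat_lit 236) (nat_lit 5) (nat_lit 243) (nat_lit 5) (nat_lit 244) (nat_lit 5) (nat_lit 603) (nat_lit 537) (nat_lit 420)) (XT.lf (nat_lit 0) (nat_lit 8265757965) (nat_lit 608) (nat_lit 1832606053) (nat_lit 76) (nat_lit 2277740325) (nat_lit 236) (nat_lit 5) (nat_lit 244) (nat_lit 5) (nat_lit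 237) (nat_lit 5) (nat_lit 604) (nat_lit 537) (nat_lit 419)))) (XT.nd (nat_lit 78) (nat_lit 608) (nat_lit 0) (XT.lf (nat_lit 0) (nat_lit 5840000099) (nat_lit 532) (nat_lit 5396942093) (nat_lit 608) (nat_lit 1277879419) (nat_lit 229) (nat_lit 5) (nat_lit 236) (nat_lit 5) (nat_lit 237) (nat_lit 5) (nat_lit 605) (nat_lit 537) (nat_lit 418)) (XT.nd (nat_lit 78) (nat_lit 0) (nat_lit 0) (XT.lf (nat_lit 0) (nat_lit 1013585297) (nat_lit 532) (nat_lit 577694284) (nat_lit 608) (nat_lit 11064802876) (nat_lit 221) (nat_lit 5) (nat_lit 228) (nat_lit 5) (nat_lit 229) (nat_lit 5) (nat_lit 606) (nat_lit 537) (nat_lit 417)) (XT.lf (nat_lit 0) (nat_lit 4556347615) (nat_lit 608) (nat_lit 3914110916) (nat_lit 76) (nat_lit 4328430228) (nat_lit 221) (nat_lit 5) (nat_lit 229) (nat_lit 5) (nat_lit 222) (nat_lit 5) (nat_lit 607) (nat_lit 537) (nat_lit 416)))))) (XT.nd (nat_lit 468) (nat_lit 1900) (nat_lit 0) (XT.nd (nat_lit 234) (nat_lit 988) (nat_lit 0) (XT.nd (nat_lit 78) (nat_lit 532) (nat_lit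 0) (XT.lf (nat_lit 0) (nat_lit 3993715910) (nat_lit 532) (nat_lit 3599470160) (nat_lit 608) (nat_lit 5351117602) (nat_lit 214) (nat_lit 5) (nat_lit 221) (nat_lit 5) (nat_lit 222) (nat_lit 5) (nat_lit 608) (nat_lit 537) (nat_lit 415)) (XT.nd (nat_lit 78) (nat_lit 532) (nat_lit 0) (XT.lf (nat_lit 0) (nat_lit 10708946975) (nat_lit 608) (nat_lit 1012233494) (nat_lit 76) (nat_lit 1371084536) (nat_lit 214) (nat_lit 5) (nat_lit 222) (nat_lit 5) (nat_lit 215) (nat_lit 5) (nat_lit 609) (nat_lit 537) (nat_lit 414)) (XT.lf (nat_lit 0) (nat_lit 689077115) (nat_lit 532) (nat_lit 6115435418) (nat_lit 76) (nat_lit 6437517514) (nat_lit 207) (nat_lit 5) (nat_lit 214) (nat_lit 5) (nat_lit 208) (nat_lit 5) (nat_lit 610) (nat_lit 537) (nat_lit 413)))) (XT.nd (nat_lit 78) (nat_lit 456) (nat_lit 0) (XT.lf (nat_lit 0) (nat_lit 2034693362) (nat_lit 532) (nat_lit 1759653253) (nat_lit 608) (nat_lit 9600063645) (nat_lit 200) (nat_lit 5) (nat_lit 207) (nat_lit 5) (nat_lit 208) (nat_lit 5) (nat_lit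 611) (nat_lit 537) (nat_lit 412)) (XT.nd (nat_lit 78) (nat_lit 456) (nat_lit 0) (XT.lf (nat_lit 0) (nat_lit 7008410476) (nat_lit 608) (nat_lit 3164117397) (nat_lit 76) (nat_lit 3376378119) (nat_lit 200) (nat_lit 5) (nat_lit 208) (nat_lit 5) (nat_lit 201) (nat_lit 5) (nat_lit 612) (nat_lit 537) (nat_lit 411)) (XT.lf (nat_lit 0) (nat_lit 5229220447) (nat_lit 456) (nat_lit 5086860238) (nat_lit 532) (nat_lit 3389826110) (nat_lit 194) (nat_lit 5) (nat_lit 200) (nat_lit 5) (nat_lit 201) (nat_lit 5) (nat_lit 613) (nat_lit 537) (nat_lit 410))))) (XT.nd (nat_lit 234) (nat_lit 912) (nat_lit 0) (XT.nd (nat_lit 78) (nat_lit 988) (nat_lit 0) (XT.lf (nat_lit 0) (nat_lit 13695776417) (nat_lit 532) (nat_lit 56330621) (nat_lit 76) (nat_lit 113824763) (nat_lit 194) (nat_lit 5) (nat_lit 201) (nat_lit 5) (nat_lit 195) (nat_lit 5) (nat_lit 614) (nat_lit 537) (nat_lit 409)) (XT.nd (nat_lit 78) (nat_lit 456) (nat_lit 0) (XT.lf (nat_lit 0) (nat_lit 3147168696) (nat_lit 532) (nat_lit 5459780509)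 (nat_lit 76) (nat_lit 5420323325) (nat_lit 187) (nat_lit 5) (nat_lit 194) (nat_lit 5) (nat_lit 188) (nat_lit 5) (nat_lit 615) (nat_lit 537) (nat_lit 408)) (XT.lf (nat_lit 0) (nat_lit 3190602340) (nat_lit 456) (nat_lit 3343277692) (nat_lit 532) (nat_lit 7657832698) (nat_lit 181) (nat_lit 5) (nat_lit 187) (nat_lit 5) (nat_lit 188) (nat_lit 5) (nat_lit 616) (nat_lit 537) (nat_lit 407)))) (XT.nd (nat_lit 156) (nat_lit 456) (nat_lit 0) (XT.nd (nat_lit 78) (nat_lit 456) (nat_lit 0) (XT.lf (nat_lit 0) (nat_lit 10022695420) (nat_lit 532) (nat_lit 2307055489) (nat_lit 76) (nat_lit 2029004932) (nat_lit 181) (nat_lit 5) (nat_lit 188) (nat_lit 5) (nat_lit 182) (nat_lit 5) (nat_lit 617) (nat_lit 537) (nat_lit 406)) (XT.lf (nat_lit 0) (nat_lit 6602833504) (nat_lit 456) (nat_lit 7028108824) (nat_lit 532) (nat_lit 897205855) (nat_lit 175) (nat_lit 5) (nat_lit 181) (nat_lit 5) (nat_lit 182) (nat_lit 5) (nat_lit 618) (nat_lit 537) (nat_lit 405))) (XT.nd (nat_lit 78) (nat_lit 0) (nat_lit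 0) (XT.lf (nat_lit 0) (nat_lit 995012744) (nat_lit 380) (nat_lit 1587919406) (nat_lit 456) (nat_lit 12117523816) (nat_lit 169) (nat_lit 5) (nat_lit 174) (nat_lit 5) (nat_lit 175) (nat_lit 5) (nat_lit 619) (nat_lit 537) (nat_lit 404)) (XT.lf (nat_lit 0) (nat_lit 6184729260) (nat_lit 456) (nat_lit 4728650595) (nat_lit 76) (nat_lit 3961431427) (nat_lit 169) (nat_lit 5) (nat_lit 175) (nat_lit 5) (nat_lit 170) (nat_lit 5) (nat_lit 620) (nat_lit 537) (nat_lit 403))))))) (XT.nd (nat_lit 936) (nat_lit 2280) (nat_lit 0) (XT.nd (nat_lit 468) (nat_lit 1520) (nat_lit 0) (XT.nd (nat_lit 234) (nat_lit 760) (nat_lit 0) (XT.nd (nat_lit 78) (nat_lit 456) (nat_lit 0) (XT.lf (nat_lit 0) (nat_lit 4453343844) (nat_lit 456) (nat_lit 5429752027) (nat_lit 532) (nat_lit 5169068525) (nat_lit 163) (nat_lit 5) (nat_lit 169) (nat_lit 5) (nat_lit 170) (nat_lit 5) (nat_lit 621) (nat_lit 537) (nat_lit 402)) (XT.nd (nat_lit 78) (nat_lit 456) (nat_lit 0) (XT.lf (nat_lit 0) (nat_lit 13673638180) (nat_lit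 532) (nat_lit 1372952576) (nat_lit 76) (nat_lit 186110984) (nat_lit 163) (nat_lit 5) (nat_lit 170) (nat_lit 5) (nat_lit 164) (nat_lit 5) (nat_lit 622) (nat_lit 537) (nat_lit 401)) (XT.lf (nat_lit 0) (nat_lit 2169735189) (nat_lit 456) (nat_lit 7344017202) (nat_lit 76) (nat_lit 5901334244) (nat_lit 157) (nat_lit 5) (nat_lit 163) (nat_lit 5) (nat_lit 158) (nat_lit 5) (nat_lit 623) (nat_lit 537) (nat_lit 400)))) (XT.nd (nat_lit 78) (nat_lit 380) (nat_lit 0) (XT.lf (nat_lit 0) (nat_lit 2117089201) (nat_lit 380) (nat_lit 3843725745) (nat_lit 456) (nat_lit 9639927814) (nat_lit 152) (nat_lit 5) (nat_lit 157) (nat_lit 5) (nat_lit 158) (nat_lit 5) (nat_lit 624) (nat_lit 537) (nat_lit 399)) (XT.nd (nat_lit 78) (nat_lit 380) (nat_lit 0) (XT.lf (nat_lit 0) (nat_lit 9875553748) (nat_lit 456) (nat_lit 3957111941) (nat_lit 76) (nat_lit 1956490802) (nat_lit 152) (nat_lit 5) (nat_lit 158) (nat_lit 5) (nat_lit 153) (nat_lit 5) (nat_lit 625) (nat_lit 537) (nat_lit 398)) (XT.lf (nat_lit 0)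 (nat_lit 5788825687) (nat_lit 380) (nat_lit 8128718365) (nat_lit 456) (nat_lit 2062816519) (nat_lit 147) (nat_lit 5) (nat_lit 152) (nat_lit 5) (nat_lit 153) (nat_lit 5) (nat_lit 626) (nat_lit 537) (nat_lit 397))))) (XT.nd (nat_lit 234) (nat_lit 760) (nat_lit 0) (XT.nd (nat_lit 78) (nat_lit 684) (nat_lit 0) (XT.lf (nat_lit 0) (nat_lit 1853215951) (nat_lit 456) (nat_lit 425467270) (nat_lit 76) (nat_lit 13896210697) (nat_lit 146) (nat_lit 5) (nat_lit 152) (nat_lit 5) (nat_lit 147) (nat_lit 5) (nat_lit 627) (nat_lit 537) (nat_lit 396)) (XT.nd (nat_lit 78) (nat_lit 304) (nat_lit 0) (XT.lf (nat_lit 0) (nat_lit 5893119117) (nat_lit 456) (nat_lit 6769172146) (nat_lit 76) (nat_lit 3709291681) (nat_lit 141) (nat_lit 5) (nat_lit 147) (nat_lit 5) (nat_lit 142) (nat_lit 5) (nat_lit 628) (nat_lit 537) (nat_lit 395)) (XT.lf (nat_lit 0) (nat_lit 3270946515) (nat_lit 304) (nat_lit 6768395532) (nat_lit 380) (nat_lit 6532354385) (nat_lit 137) (nat_lit 5) (nat_lit 141) (nat_lit 5) (nat_lit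 142) (nat_lit 5) (nat_lit 629) (nat_lit 537) (nat_lit 394)))) (XT.nd (nat_lit 78) (nat_lit 760) (nat_lit 0) (XT.lf (nat_lit 0) (nat_lit 13582457532) (nat_lit 304) (nat_lit 717907324) (nat_lit 380) (nat_lit 2474810921) (nat_lit 137) (nat_lit 5) (nat_lit 141) (nat_lit 5) (nat_lit 142) (nat_lit 5) (nat_lit 630) (nat_lit 537) (nat_lit 393)) (XT.nd (nat_lit 78) (nat_lit 304) (nat_lit 0) (XT.lf (nat_lit 0) (nat_lit 1711044854) (nat_lit 456) (nat_lit 9837679201) (nat_lit 76) (nat_lit 5432405974) (nat_lit 131) (nat_lit 5) (nat_lit 137) (nat_lit 5) (nat_lit 132) (nat_lit 5) (nat_lit 631) (nat_lit 537) (nat_lit 392)) (XT.lf (nat_lit 0) (nat_lit 503148862) (nat_lit 304) (nat_lit 5460655523) (nat_lit 380) (nat_lit 11226746358) (nat_lit 127) (nat_lit 5) (nat_lit 131) (nat_lit 5) (nat_lit 132) (nat_lit 5) (nat_lit 632) (nat_lit 537) (nat_lit 391)))))) (XT.nd (nat_lit 468) (nat_lit 1292) (nat_lit 0) (XT.nd (nat_lit 234) (nat_lit 608) (nat_lit 0) (XT.nd (nat_lit 78) (nat_lit 380) (nat_lit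 0) (XT.lf (nat_lit 0) (nat_lit 10359717126) (nat_lit 380) (nat_lit 6245082075) (nat_lit 76) (nat_lit 798199718) (nat_lit 127) (nat_lit 5) (nat_lit 132) (nat_lit 5) (nat_lit 128) (nat_lit 5) (nat_lit 633) (nat_lit 537) (nat_lit 390)) (XT.nd (nat_lit 78) (nat_lit 76) (nat_lit 0) (XT.lf (nat_lit 0) (nat_lit 4407046508) (nat_lit 304) (nat_lit 10488318253) (nat_lit 380) (nat_lit 2723295957) (nat_lit 123) (nat_lit 5) (nat_lit 127) (nat_lit 5) (nat_lit 128) (nat_lit 5) (nat_lit 634) (nat_lit 537) (nat_lit 389)) (XT.lf (nat_lit 0) (nat_lit 1690275571) (nat_lit 380) (nat_lit 2512841730) (nat_lit 76) (nat_lit 13634715652) (nat_lit 122) (nat_lit 5) (nat_lit 127) (nat_lit 5) (nat_lit 123) (nat_lit 5) (nat_lit 635) (nat_lit 537) (nat_lit 388)))) (XT.nd (nat_lit 78) (nat_lit 304) (nat_lit 0) (XT.lf (nat_lit 0) (nat_lit 6212794720) (nat_lit 380) (nat_lit 9602262934) (nat_lit 76) (nat_lit 2244829071) (nat_lit 118) (nat_lit 5) (nat_lit 123) (nat_lit 5) (nat_lit 119) (nat_lit 5) (nat_lit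 636) (nat_lit 537) (nat_lit 387)) (XT.nd (nat_lit 78) (nat_lit 0) (nat_lit 0) (XT.lf (nat_lit 0) (nat_lit 1365100031) (nat_lit 304) (nat_lit 9501732905) (nat_lit 380) (nat_lit 7418728178) (nat_lit 114) (nat_lit 5) (nat_lit 118) (nat_lit 5) (nat_lit 119) (nat_lit 5) (nat_lit 637) (nat_lit 537) (nat_lit 386)) (XT.lf (nat_lit 0) (nat_lit 12661732343) (nat_lit 304) (nat_lit 3004167713) (nat_lit 380) (nat_lit 2848810871) (nat_lit 114) (nat_lit 5) (nat_lit 118) (nat_lit 5) (nat_lit 119) (nat_lit 5) (nat_lit 638) (nat_lit 537) (nat_lit 385))))) (XT.nd (nat_lit 234) (nat_lit 608) (nat_lit 0) (XT.nd (nat_lit 78) (nat_lit 304) (nat_lit 0) (XT.lf (nat_lit 0) (nat_lit 1835750113) (nat_lit 380) (nat_lit 13295637361) (nat_lit 76) (nat_lit 3615881434) (nat_lit 109) (nat_lit 5) (nat_lit 114) (nat_lit 5) (nat_lit 110) (nat_lit 5) (nat_lit 639) (nat_lit 537) (nat_lit 384)) (XT.nd (nat_lit 78) (nat_lit 304) (nat_lit 0) (XT.lf (nat_lit 0) (nat_lit 6623061914) (nat_lit 380) (nat_lit 1981112175)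 (nat_lit 76) (nat_lit 10378984087) (nat_lit 109) (nat_lit 5) (nat_lit 114) (nat_lit 5) (nat_lit 110) (nat_lit 5) (nat_lit 640) (nat_lit 537) (nat_lit 383)) (XT.lf (nat_lit 0) (nat_lit 9666808337) (nat_lit 304) (nat_lit 1890053074) (nat_lit 380) (nat_lit 7665889821) (nat_lit 105) (nat_lit 5) (nat_lit 109) (nat_lit 5) (nat_lit 110) (nat_lit 5) (nat_lit 641) (nat_lit 537) (nat_lit 382)))) (XT.nd (nat_lit 156) (nat_lit 304) (nat_lit 0) (XT.nd (nat_lit 78) (nat_lit 76) (nat_lit 0) (XT.lf (nat_lit 0) (nat_lit 2082971946) (nat_lit 228) (nat_lit 14553501599) (nat_lit 304) (nat_lit 2829720684) (nat_lit 102) (nat_lit 5) (nat_lit 105) (nat_lit 5) (nat_lit 106) (nat_lit 5) (nat_lit 642) (nat_lit 537) (nat_lit 381)) (XT.lf (nat_lit 0) (nat_lit 2140720668) (nat_lit 304) (nat_lit 5675388635) (nat_lit 76) (nat_lit 11896821815) (nat_lit 101) (nat_lit 5) (nat_lit 105) (nat_lit 5) (nat_lit 102) (nat_lit 5) (nat_lit 643) (nat_lit 537) (nat_lit 380))) (XT.nd (nat_lit 78) (nat_lit 0) (nat_lit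 0) (XT.lf (nat_lit 0) (nat_lit 6311255957) (nat_lit 304) (nat_lit 890736546) (nat_lit 380) (nat_lit 12761650688) (nat_lit 97) (nat_lit 5) (nat_lit 101) (nat_lit 5) (nat_lit 102) (nat_lit 5) (nat_lit 644) (nat_lit 537) (nat_lit 379)) (XT.lf (nat_lit 0) (nat_lit 12431261044) (nat_lit 380) (nat_lit 1663809932) (nat_lit 76) (nat_lit 6122963854) (nat_lit 97) (nat_lit 5) (nat_lit 102) (nat_lit 5) (nat_lit 98) (nat_lit 5) (nat_lit 645) (nat_lit 537) (nat_lit 378))))))))
noncomputable def xc126 : XT := (XT.nd (nat_lit 74100) (nat_lit 0) (nat_lit 22420) (XT.nd (nat_lit 73086) (nat_lit 0) (nat_lit 39368) (XT.nd (nat_lit 468) (nat_lit 228) (nat_lit 0) (XT.nd (nat_lit 234) (nat_lit 532) (nat_lit 0) (XT.nd (nat_lit 78) (nat_lit 380) (nat_lit 0) (XT.lf (nat_lit 0) (nat_lit 10679652033) (nat_lit 228) (nat_lit 7149283641) (nat_lit 304) (nat_lit 2647302952) (nat_lit 94) (nat_lit 5) (nat_lit 97) (nat_lit 5) (nat_lit 98) (nat_lit 5) (nat_lit 646) (nat_lit 537) (nat_lit 377)) (XT.nd (nat_lit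 78) (nat_lit 0) (nat_lit 0) (XT.lf (nat_lit 0) (nat_lit 2550602635) (nat_lit 304) (nat_lit 26728254) (nat_lit 380) (nat_lit 18161611214) (nat_lit 89) (nat_lit 5) (nat_lit 93) (nat_lit 5) (nat_lit 94) (nat_lit 5) (nat_lit 647) (nat_lit 537) (nat_lit 376)) (XT.lf (nat_lit 0) (nat_lit 7972872776) (nat_lit 380) (nat_lit 5812148293) (nat_lit 76) (nat_lit 7219492048) (nat_lit 89) (nat_lit 5) (nat_lit 94) (nat_lit 5) (nat_lit 90) (nat_lit 5) (nat_lit 648) (nat_lit 537) (nat_lit 375)))) (XT.nd (nat_lit 78) (nat_lit 304) (nat_lit 0) (XT.lf (nat_lit 0) (nat_lit 6882903819) (nat_lit 228) (nat_lit 6627167749) (nat_lit 304) (nat_lit 7764649740) (nat_lit 86) (nat_lit 5) (nat_lit 89) (nat_lit 5) (nat_lit 90) (nat_lit 5) (nat_lit 649) (nat_lit 537) (nat_lit 374)) (XT.nd (nat_lit 78) (nat_lit 304) (nat_lit 0) (XT.lf (nat_lit 0) (nat_lit 19190578557) (nat_lit 304) (nat_lit 1662349469) (nat_lit 76) (nat_lit 696755021) (nat_lit 86) (nat_lit 5) (nat_lit 90) (nat_lit 5) (nat_lit 87) (nat_lit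 5) (nat_lit 650) (nat_lit 537) (nat_lit 373)) (XT.lf (nat_lit 0) (nat_lit 3220996663) (nat_lit 304) (nat_lit 10440178588) (nat_lit 76) (nat_lit 8166403433) (nat_lit 82) (nat_lit 5) (nat_lit 86) (nat_lit 5) (nat_lit 83) (nat_lit 5) (nat_lit 651) (nat_lit 537) (nat_lit 372))))) (XT.nd (nat_lit 72384) (nat_lit 0) (nat_lit 42788) (XT.nd (nat_lit 78) (nat_lit 0) (nat_lit 0) (XT.lf (nat_lit 0) (nat_lit 2609942611) (nat_lit 228) (nat_lit 6288540379) (nat_lit 304) (nat_lit 13211890567) (nat_lit 79) (nat_lit 5) (nat_lit 82) (nat_lit 5) (nat_lit 83) (nat_lit 5) (nat_lit 652) (nat_lit 537) (nat_lit 371)) (XT.nd (nat_lit 72228) (nat_lit 0) (nat_lit 42788) (XT.lf (nat_lit 0) (nat_lit 14757249571) (nat_lit 304) (nat_lit 6361801436) (nat_lit 76) (nat_lit 1278419327) (nat_lit 79) (nat_lit 5) (nat_lit 83) (nat_lit 5) (nat_lit 80) (nat_lit 5) (nat_lit 653) (nat_lit 537) (nat_lit 370)) (XT.lf (nat_lit 0) (nat_lit 736706901) (nat_lit 1140) (nat_lit 1396686626) (nat_lit 1140) (nat_lit 1396686626)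 (nat_lit 642) (nat_lit 3) (nat_lit 657) (nat_lit 3) (nat_lit 657) (nat_lit 5) (nat_lit 538) (nat_lit 538) (nat_lit 484)))) (XT.nd (nat_lit 78) (nat_lit 0) (nat_lit 0) (XT.lf (nat_lit 76) (nat_lit 686884015) (nat_lit 0) (nat_lit 2563089289) (nat_lit 1140) (nat_lit 3845190675) (nat_lit 643) (nat_lit 5) (nat_lit 642) (nat_lit 3) (nat_lit 657) (nat_lit 5) (nat_lit 539) (nat_lit 538) (nat_lit 483)) (XT.nd (nat_lit 78) (nat_lit 0) (nat_lit 76) (XT.lf (nat_lit 76) (nat_lit 4250784981) (nat_lit 0) (nat_lit 783772990) (nat_lit 1140) (nat_lit 2096869352) (nat_lit 643) (nat_lit 5) (nat_lit 642) (nat_lit 3) (nat_lit 657) (nat_lit 5) (nat_lit 540) (nat_lit 538) (nat_lit 482)) (XT.lf (nat_lit 76) (nat_lit 695557525) (nat_lit 0) (nat_lit 6125286199) (nat_lit 1140) (nat_lit 348261316) (nat_lit 644) (nat_lit 5) (nat_lit 643) (nat_lit 5) (nat_lit 658) (nat_lit 5) (nat_lit 541) (nat_lit 538) (nat_lit 481)))))) (XT.nd (nat_lit 468) (nat_lit 1216) (nat_lit 0) (XT.nd (nat_lit 234) (nat_lit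 1140) (nat_lit 0) (XT.nd (nat_lit 78) (nat_lit 0) (nat_lit 0) (XT.lf (nat_lit 0) (nat_lit 1396367495) (nat_lit 1140) (nat_lit 2864319485) (nat_lit 1216) (nat_lit 2947074423) (nat_lit 628) (nat_lit 5) (nat_lit 643) (nat_lit 5) (nat_lit 644) (nat_lit 5) (nat_lit 542) (nat_lit 538) (nat_lit 480)) (XT.nd (nat_lit 78) (nat_lit 0) (nat_lit 0) (XT.lf (nat_lit 76) (nat_lit 800916956) (nat_lit 0) (nat_lit 2331615001) (nat_lit 1216) (nat_lit 4115395528) (nat_lit 629) (nat_lit 5) (nat_lit 628) (nat_lit 5) (nat_lit 644) (nat_lit 5) (nat_lit 543) (nat_lit 538) (nat_lit 479)) (XT.lf (nat_lit 76) (nat_lit 4554071135) (nat_lit 0) (nat_lit 325375053) (nat_lit 1216) (nat_lit 2409938758) (nat_lit 629) (nat_lit 5) (nat_lit 628) (nat_lit 5) (nat_lit 644) (nat_lit 5) (nat_lit 544) (nat_lit 538) (nat_lit 478)))) (XT.nd (nat_lit 78) (nat_lit 1216) (nat_lit 0) (XT.lf (nat_lit 76) (nat_lit 1028213220) (nat_lit 0) (nat_lit 5608708295) (nat_lit 1216) (nat_lit 695246004) (nat_lit 630) (nat_lit 5)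 (nat_lit 629) (nat_lit 5) (nat_lit 645) (nat_lit 5) (nat_lit 545) (nat_lit 538) (nat_lit 477)) (XT.nd (nat_lit 78) (nat_lit 0) (nat_lit 0) (XT.lf (nat_lit 0) (nat_lit 1018710725) (nat_lit 1216) (nat_lit 2505584446) (nat_lit 1292) (nat_lit 3851806029) (nat_lit 613) (nat_lit 5) (nat_lit 629) (nat_lit 5) (nat_lit 630) (nat_lit 5) (nat_lit 546) (nat_lit 538) (nat_lit 476)) (XT.lf (nat_lit 76) (nat_lit 1357326023) (nat_lit 0) (nat_lit 1368111374) (nat_lit 1292) (nat_lit 4696036177) (nat_lit 614) (nat_lit 5) (nat_lit 613) (nat_lit 5) (nat_lit 630) (nat_lit 5) (nat_lit 547) (nat_lit 538) (nat_lit 475))))) (XT.nd (nat_lit 234) (nat_lit 0) (nat_lit 76) (XT.nd (nat_lit 78) (nat_lit 1292) (nat_lit 0) (XT.lf (nat_lit 0) (nat_lit 4448348042) (nat_lit 1216) (nat_lit 2166847275) (nat_lit 1292) (nat_lit 852924865) (nat_lit 614) (nat_lit 5) (nat_lit 630) (nat_lit 5) (nat_lit 631) (nat_lit 5) (nat_lit 548) (nat_lit 538) (nat_lit 474)) (XT.nd (nat_lit 78) (nat_lit 1292) (nat_lit 0) (XT.lf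 (nat_lit 76) (nat_lit 1798037216) (nat_lit 0) (nat_lit 4388931350) (nat_lit 1292) (nat_lit 1329113748) (nat_lit 615) (nat_lit 5) (nat_lit 614) (nat_lit 5) (nat_lit 631) (nat_lit 5) (nat_lit 549) (nat_lit 538) (nat_lit 473)) (XT.lf (nat_lit 0) (nat_lit 365675770) (nat_lit 1292) (nat_lit 1721031236) (nat_lit 1368) (nat_lit 5478742611) (nat_lit 597) (nat_lit 5) (nat_lit 614) (nat_lit 5) (nat_lit 615) (nat_lit 5) (nat_lit 550) (nat_lit 538) (nat_lit 472)))) (XT.nd (nat_lit 156) (nat_lit 0) (nat_lit 0) (XT.nd (nat_lit 78) (nat_lit 0) (nat_lit 0) (XT.lf (nat_lit 0) (nat_lit 2055439228) (nat_lit 1292) (nat_lit 5264811068) (nat_lit 1368) (nat_lit 295807946) (nat_lit 598) (nat_lit 5) (nat_lit 615) (nat_lit 5) (nat_lit 616) (nat_lit 5) (nat_lit 551) (nat_lit 538) (nat_lit 471)) (XT.lf (nat_lit 0) (nat_lit 3766754455) (nat_lit 1292) (nat_lit 1178480585) (nat_lit 1368) (nat_lit 2722695913) (nat_lit 598) (nat_lit 5) (nat_lit 615) (nat_lit 5) (nat_lit 616) (nat_lit 5) (nat_lit 552)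 (nat_lit 538) (nat_lit 470))) (XT.nd (nat_lit 78) (nat_lit 0) (nat_lit 76) (XT.lf (nat_lit 76) (nat_lit 3004036779) (nat_lit 0) (nat_lit 2490814132) (nat_lit 1368) (nat_lit 2226346015) (nat_lit 599) (nat_lit 5) (nat_lit 598) (nat_lit 5) (nat_lit 616) (nat_lit 5) (nat_lit 553) (nat_lit 538) (nat_lit 469)) (XT.lf (nat_lit 0) (nat_lit 7229242078) (nat_lit 1292) (nat_lit 514909764) (nat_lit 1368) (nat_lit 31948491) (nat_lit 599) (nat_lit 5) (nat_lit 616) (nat_lit 5) (nat_lit 617) (nat_lit 5) (nat_lit 554) (nat_lit 538) (nat_lit 468))))))) (XT.nd (nat_lit 936) (nat_lit 9804) (nat_lit 0) (XT.nd (nat_lit 468) (nat_lit 4560) (nat_lit 0) (XT.nd (nat_lit 234) (nat_lit 1368) (nat_lit 0) (XT.nd (nat_lit 78) (nat_lit 0) (nat_lit 0) (XT.lf (nat_lit 0) (nat_lit 1156388921) (nat_lit 1368) (nat_lit 4060232578) (nat_lit 1444) (nat_lit 2615226082) (nat_lit 581) (nat_lit 5) (nat_lit 599) (nat_lit 5) (nat_lit 600) (nat_lit 5) (nat_lit 555) (nat_lit 538) (nat_lit 467)) (XT.nd (nat_lit 78)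 (nat_lit 0) (nat_lit 76) (XT.lf (nat_lit 76) (nat_lit 236270746) (nat_lit 0) (nat_lit 2619826262) (nat_lit 1444) (nat_lit 5033152484) (nat_lit 582) (nat_lit 5) (nat_lit 581) (nat_lit 5) (nat_lit 600) (nat_lit 5) (nat_lit 556) (nat_lit 538) (nat_lit 466)) (XT.lf (nat_lit 0) (nat_lit 4582703364) (nat_lit 1368) (nat_lit 3299870451) (nat_lit 1444) (nat_lit 65373800) (nat_lit 582) (nat_lit 5) (nat_lit 600) (nat_lit 5) (nat_lit 601) (nat_lit 5) (nat_lit 557) (nat_lit 538) (nat_lit 465)))) (XT.nd (nat_lit 78) (nat_lit 1444) (nat_lit 0) (XT.lf (nat_lit 76) (nat_lit 1112055082) (nat_lit 0) (nat_lit 5222327098) (nat_lit 1444) (nat_lit 1673632845) (nat_lit 583) (nat_lit 5) (nat_lit 582) (nat_lit 5) (nat_lit 601) (nat_lit 5) (nat_lit 558) (nat_lit 538) (nat_lit 464)) (XT.nd (nat_lit 78) (nat_lit 0) (nat_lit 76) (XT.lf (nat_lit 0) (nat_lit 39667030) (nat_lit 1444) (nat_lit 2438140939) (nat_lit 1520) (nat_lit 5591704266) (nat_lit 563) (nat_lit 5) (nat_lit 582) (nat_lit 5) (nat_lit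 583) (nat_lit 5) (nat_lit 559) (nat_lit 538) (nat_lit 463)) (XT.lf (nat_lit 0) (nat_lit 1747688392) (nat_lit 1444) (nat_lit 6034683682) (nat_lit 76) (nat_lit 349994531) (nat_lit 564) (nat_lit 5) (nat_lit 583) (nat_lit 5) (nat_lit 565) (nat_lit 5) (nat_lit 560) (nat_lit 538) (nat_lit 462))))) (XT.nd (nat_lit 234) (nat_lit 3192) (nat_lit 0) (XT.nd (nat_lit 78) (nat_lit 1444) (nat_lit 0) (XT.lf (nat_lit 0) (nat_lit 3490190874) (nat_lit 1444) (nat_lit 1481197493) (nat_lit 76) (nat_lit 3225088945) (nat_lit 564) (nat_lit 5) (nat_lit 583) (nat_lit 5) (nat_lit 565) (nat_lit 5) (nat_lit 561) (nat_lit 538) (nat_lit 461)) (XT.nd (nat_lit 78) (nat_lit 0) (nat_lit 0) (XT.lf (nat_lit 0) (nat_lit 3179765651) (nat_lit 1444) (nat_lit 2076503106) (nat_lit 1520) (nat_lit 3005832526) (nat_lit 545) (nat_lit 5) (nat_lit 564) (nat_lit 5) (nat_lit 565) (nat_lit 5) (nat_lit 562) (nat_lit 538) (nat_lit 460)) (XT.lf (nat_lit 0) (nat_lit 7041947033) (nat_lit 1520) (nat_lit 406373289) (nat_lit 76)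 (nat_lit 881037278) (nat_lit 545) (nat_lit 5) (nat_lit 565) (nat_lit 5) (nat_lit 546) (nat_lit 5) (nat_lit 563) (nat_lit 538) (nat_lit 459)))) (XT.nd (nat_lit 78) (nat_lit 1596) (nat_lit 0) (XT.lf (nat_lit 0) (nat_lit 470745943) (nat_lit 1596) (nat_lit 4019311565) (nat_lit 76) (nat_lit 3907616946) (nat_lit 524) (nat_lit 5) (nat_lit 545) (nat_lit 5) (nat_lit 525) (nat_lit 5) (nat_lit 564) (nat_lit 538) (nat_lit 458)) (XT.nd (nat_lit 78) (nat_lit 0) (nat_lit 0) (XT.lf (nat_lit 0) (nat_lit 773049795) (nat_lit 1596) (nat_lit 1450992194) (nat_lit 1672) (nat_lit 6243606294) (nat_lit 503) (nat_lit 5) (nat_lit 524) (nat_lit 5) (nat_lit 525) (nat_lit 5) (nat_lit 565) (nat_lit 538) (nat_lit 457)) (XT.lf (nat_lit 0) (nat_lit 4020159696) (nat_lit 1672) (nat_lit 2859639608) (nat_lit 76) (nat_lit 1659072201) (nat_lit 503) (nat_lit 5) (nat_lit 525) (nat_lit 5) (nat_lit 504) (nat_lit 5) (nat_lit 566) (nat_lit 538) (nat_lit 456)))))) (XT.nd (nat_lit 468) (nat_lit 3648) (nat_lit 0) (XT.nd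 (nat_lit 234) (nat_lit 2660) (nat_lit 0) (XT.nd (nat_lit 78) (nat_lit 1824) (nat_lit 0) (XT.lf (nat_lit 0) (nat_lit 2063974126) (nat_lit 1672) (nat_lit 3781725700) (nat_lit 1748) (nat_lit 2765954295) (nat_lit 481) (nat_lit 5) (nat_lit 503) (nat_lit 5) (nat_lit 504) (nat_lit 5) (nat_lit 567) (nat_lit 538) (nat_lit 455)) (XT.nd (nat_lit 78) (nat_lit 1824) (nat_lit 0) (XT.lf (nat_lit 0) (nat_lit 7099486602) (nat_lit 1672) (nat_lit 598358129) (nat_lit 1748) (nat_lit 988250616) (nat_lit 481) (nat_lit 5) (nat_lit 503) (nat_lit 5) (nat_lit 504) (nat_lit 5) (nat_lit 568) (nat_lit 538) (nat_lit 454)) (XT.lf (nat_lit 0) (nat_lit 825525331) (nat_lit 1824) (nat_lit 5290591149) (nat_lit 76) (nat_lit 2645579667) (nat_lit 457) (nat_lit 5) (nat_lit 481) (nat_lit 5) (nat_lit 458) (nat_lit 5) (nat_lit 569) (nat_lit 538) (nat_lit 453)))) (XT.nd (nat_lit 78) (nat_lit 2660) (nat_lit 0) (XT.lf (nat_lit 0) (nat_lit 2648739379) (nat_lit 1824) (nat_lit 223346285) (nat_lit 76) (nat_lit 5966869304)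 (nat_lit 457) (nat_lit 5) (nat_lit 481) (nat_lit 5) (nat_lit 458) (nat_lit 5) (nat_lit 570) (nat_lit 538) (nat_lit 452)) (XT.nd (nat_lit 78) (nat_lit 988) (nat_lit 0) (XT.lf (nat_lit 0) (nat_lit 4516111720) (nat_lit 1748) (nat_lit 3935258667) (nat_lit 76) (nat_lit 466239167) (nat_lit 435) (nat_lit 5) (nat_lit 458) (nat_lit 5) (nat_lit 436) (nat_lit 5) (nat_lit 571) (nat_lit 538) (nat_lit 451)) (XT.lf (nat_lit 0) (nat_lit 1269450067) (nat_lit 988) (nat_lit 5152807482) (nat_lit 1064) (nat_lit 2575555540) (nat_lit 422) (nat_lit 5) (nat_lit 435) (nat_lit 5) (nat_lit 436) (nat_lit 5) (nat_lit 572) (nat_lit 538) (nat_lit 450))))) (XT.nd (nat_lit 234) (nat_lit 2660) (nat_lit 0) (XT.nd (nat_lit 78) (nat_lit 988) (nat_lit 0) (XT.lf (nat_lit 0) (nat_lit 6606213635) (nat_lit 988) (nat_lit 1759746491) (nat_lit 1064) (nat_lit 713676186) (nat_lit 422) (nat_lit 5) (nat_lit 435) (nat_lit 5) (nat_lit 436) (nat_lit 5) (nat_lit 573) (nat_lit 538) (nat_lit 449)) (XT.nd (nat_lit 78) (nat_lit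 0) (nat_lit 0) (XT.lf (nat_lit 0) (nat_lit 1173272895) (nat_lit 988) (nat_lit 6282732010) (nat_lit 76) (nat_lit 1706873698) (nat_lit 409) (nat_lit 5) (nat_lit 422) (nat_lit 5) (nat_lit 410) (nat_lit 5) (nat_lit 574) (nat_lit 538) (nat_lit 448)) (XT.lf (nat_lit 0) (nat_lit 3090518334) (nat_lit 988) (nat_lit 915242880) (nat_lit 76) (nat_lit 5241891956) (nat_lit 409) (nat_lit 5) (nat_lit 422) (nat_lit 5) (nat_lit 410) (nat_lit 5) (nat_lit 575) (nat_lit 538) (nat_lit 447)))) (XT.nd (nat_lit 156) (nat_lit 912) (nat_lit 0) (XT.nd (nat_lit 78) (nat_lit 836) (nat_lit 0) (XT.lf (nat_lit 0) (nat_lit 4594745136) (nat_lit 912) (nat_lit 455453254) (nat_lit 988) (nat_lit 4283847009) (nat_lit 397) (nat_lit 5) (nat_lit 409) (nat_lit 5) (nat_lit 410) (nat_lit 5) (nat_lit 576) (nat_lit 538) (nat_lit 446)) (XT.lf (nat_lit 0) (nat_lit 769329567) (nat_lit 836) (nat_lit 6286078084) (nat_lit 912) (nat_lit 2366634999) (nat_lit 386) (nat_lit 5) (nat_lit 397) (nat_lit 5) (nat_lit 398) (nat_lit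 5) (nat_lit 577) (nat_lit 538) (nat_lit 445))) (XT.nd (nat_lit 78) (nat_lit 912) (nat_lit 0) (XT.lf (nat_lit 0) (nat_lit 6424024218) (nat_lit 836) (nat_lit 2686433533) (nat_lit 912) (nat_lit 401151175) (nat_lit 386) (nat_lit 5) (nat_lit 397) (nat_lit 5) (nat_lit 398) (nat_lit 5) (nat_lit 578) (nat_lit 538) (nat_lit 444)) (XT.lf (nat_lit 0) (nat_lit 1581244635) (nat_lit 912) (nat_lit 7022258978) (nat_lit 76) (nat_lit 999285653) (nat_lit 374) (nat_lit 5) (nat_lit 386) (nat_lit 5) (nat_lit 375) (nat_lit 5) (nat_lit 579) (nat_lit 538) (nat_lit 443))))))))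
noncomputable def xc127 : XT := (XT.nd (nat_lit 1950) (nat_lit 7524) (nat_lit 0) (XT.nd (nat_lit 936) (nat_lit 5092) (nat_lit 0) (XT.nd (nat_lit 468) (nat_lit 2964) (nat_lit 0) (XT.nd (nat_lit 234) (nat_lit 836) (nat_lit 0) (XT.nd (nat_lit 78) (nat_lit 1596) (nat_lit 0) (XT.lf (nat_lit 0) (nat_lit 3612150915) (nat_lit 912) (nat_lit 1337556371) (nat_lit 76) (nat_lit 4745751808) (nat_lit 374) (nat_lit 5) (nat_lit 386) (nat_lit 5) (nat_lit 375) (nat_lit 5) (nat_lit 580) (nat_lit 538) (nat_lit 442)) (XT.nd (nat_lit 78) (nat_lit 836) (nat_lit 0) (XT.lf (nat_lit 0) (nat_lit 4494836607) (nat_lit 760) (nat_lit 1194082433) (nat_lit 836) (nat_lit 4100961926) (nat_lit 364) (nat_lit 5) (nat_lit 374) (nat_lit 5) (nat_lit 375) (nat_lit 5) (nat_lit 581) (nat_lit 538) (nat_lit 441)) (XT.lf (nat_lit 0) (nat_lit 540650327) (nat_lit 836) (nat_lit 7272597711) (nat_lit 912) (nat_lit 2072826181) (nat_lit 353) (nat_lit 5) (nat_lit 364) (nat_lit 5) (nat_lit 365) (nat_lit 5) (nat_lit 582) (nat_lit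 538) (nat_lit 440)))) (XT.nd (nat_lit 78) (nat_lit 760) (nat_lit 0) (XT.lf (nat_lit 0) (nat_lit 16105972) (nat_lit 912) (nat_lit 3452170453) (nat_lit 76) (nat_lit 6515515177) (nat_lit 352) (nat_lit 5) (nat_lit 364) (nat_lit 5) (nat_lit 353) (nat_lit 5) (nat_lit 583) (nat_lit 538) (nat_lit 439)) (XT.nd (nat_lit 78) (nat_lit 0) (nat_lit 0) (XT.lf (nat_lit 0) (nat_lit 2115497527) (nat_lit 836) (nat_lit 7532381021) (nat_lit 76) (nat_lit 435385290) (nat_lit 342) (nat_lit 5) (nat_lit 353) (nat_lit 5) (nat_lit 343) (nat_lit 5) (nat_lit 584) (nat_lit 538) (nat_lit 438)) (XT.lf (nat_lit 0) (nat_lit 4280407527) (nat_lit 836) (nat_lit 1511783159) (nat_lit 76) (nat_lit 4392067413) (nat_lit 342) (nat_lit 5) (nat_lit 353) (nat_lit 5) (nat_lit 343) (nat_lit 5) (nat_lit 585) (nat_lit 538) (nat_lit 437))))) (XT.nd (nat_lit 234) (nat_lit 1444) (nat_lit 0) (XT.nd (nat_lit 78) (nat_lit 760) (nat_lit 0) (XT.lf (nat_lit 0) (nat_lit 4665721322) (nat_lit 760) (nat_lit 1830876184) (nat_lit 836)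 (nat_lit 3790518231) (nat_lit 332) (nat_lit 5) (nat_lit 342) (nat_lit 5) (nat_lit 343) (nat_lit 5) (nat_lit 586) (nat_lit 538) (nat_lit 436)) (XT.nd (nat_lit 78) (nat_lit 76) (nat_lit 0) (XT.lf (nat_lit 0) (nat_lit 563454783) (nat_lit 684) (nat_lit 8199824237) (nat_lit 760) (nat_lit 1628631219) (nat_lit 323) (nat_lit 5) (nat_lit 332) (nat_lit 5) (nat_lit 333) (nat_lit 5) (nat_lit 587) (nat_lit 538) (nat_lit 435)) (XT.lf (nat_lit 0) (nat_lit 597104958) (nat_lit 760) (nat_lit 3591055749) (nat_lit 76) (nat_lit 6310004567) (nat_lit 322) (nat_lit 5) (nat_lit 332) (nat_lit 5) (nat_lit 323) (nat_lit 5) (nat_lit 588) (nat_lit 538) (nat_lit 434)))) (XT.nd (nat_lit 78) (nat_lit 684) (nat_lit 0) (XT.lf (nat_lit 0) (nat_lit 2772062202) (nat_lit 760) (nat_lit 70009540) (nat_lit 836) (nat_lit 7764330786) (nat_lit 312) (nat_lit 5) (nat_lit 322) (nat_lit 5) (nat_lit 323) (nat_lit 5) (nat_lit 589) (nat_lit 538) (nat_lit 433)) (XT.nd (nat_lit 78) (nat_lit 684) (nat_lit 0) (XT.lf (nat_lit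 0) (nat_lit 5161760097) (nat_lit 836) (nat_lit 1457024945) (nat_lit 76) (nat_lit 4097425874) (nat_lit 312) (nat_lit 5) (nat_lit 323) (nat_lit 5) (nat_lit 313) (nat_lit 5) (nat_lit 590) (nat_lit 538) (nat_lit 432)) (XT.lf (nat_lit 0) (nat_lit 5089768460) (nat_lit 684) (nat_lit 2450747073) (nat_lit 760) (nat_lit 3287449250) (nat_lit 303) (nat_lit 5) (nat_lit 312) (nat_lit 5) (nat_lit 313) (nat_lit 5) (nat_lit 591) (nat_lit 538) (nat_lit 431)))))) (XT.nd (nat_lit 468) (nat_lit 2432) (nat_lit 0) (XT.nd (nat_lit 234) (nat_lit 1292) (nat_lit 0) (XT.nd (nat_lit 78) (nat_lit 684) (nat_lit 0) (XT.lf (nat_lit 0) (nat_lit 819898664) (nat_lit 684) (nat_lit 9153195440) (nat_lit 760) (nat_lit 968737385) (nat_lit 294) (nat_lit 5) (nat_lit 303) (nat_lit 5) (nat_lit 304) (nat_lit 5) (nat_lit 592) (nat_lit 538) (nat_lit 430)) (XT.nd (nat_lit 78) (nat_lit 608) (nat_lit 0) (XT.lf (nat_lit 0) (nat_lit 1412526315) (nat_lit 760) (nat_lit 3520520115) (nat_lit 76) (nat_lit 6124060577) (nat_lit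 293) (nat_lit 5) (nat_lit 303) (nat_lit 5) (nat_lit 294) (nat_lit 5) (nat_lit 593) (nat_lit 538) (nat_lit 429)) (XT.lf (nat_lit 0) (nat_lit 3224578771) (nat_lit 608) (nat_lit 604714849) (nat_lit 684) (nat_lit 7345251920) (nat_lit 285) (nat_lit 5) (nat_lit 293) (nat_lit 5) (nat_lit 294) (nat_lit 5) (nat_lit 594) (nat_lit 538) (nat_lit 428)))) (XT.nd (nat_lit 78) (nat_lit 1292) (nat_lit 0) (XT.lf (nat_lit 0) (nat_lit 6323027631) (nat_lit 684) (nat_lit 1190884511) (nat_lit 76) (nat_lit 3779850588) (nat_lit 285) (nat_lit 5) (nat_lit 294) (nat_lit 5) (nat_lit 286) (nat_lit 5) (nat_lit 595) (nat_lit 538) (nat_lit 427)) (XT.nd (nat_lit 78) (nat_lit 608) (nat_lit 0) (XT.lf (nat_lit 0) (nat_lit 5750846397) (nat_lit 684) (nat_lit 3137635054) (nat_lit 760) (nat_lit 2526448377) (nat_lit 276) (nat_lit 5) (nat_lit 285) (nat_lit 5) (nat_lit 286) (nat_lit 5) (nat_lit 596) (nat_lit 538) (nat_lit 426)) (XT.lf (nat_lit 0) (nat_lit 1293340834) (nat_lit 608) (nat_lit 10217656024) (nat_lit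 684) (nat_lit 27410779) (nat_lit 268) (nat_lit 5) (nat_lit 276) (nat_lit 5) (nat_lit 277) (nat_lit 5) (nat_lit 597) (nat_lit 538) (nat_lit 425))))) (XT.nd (nat_lit 234) (nat_lit 1748) (nat_lit 0) (XT.nd (nat_lit 78) (nat_lit 608) (nat_lit 0) (XT.lf (nat_lit 0) (nat_lit 2528370469) (nat_lit 684) (nat_lit 3258556970) (nat_lit 76) (nat_lit 5876305762) (nat_lit 267) (nat_lit 5) (nat_lit 276) (nat_lit 5) (nat_lit 268) (nat_lit 5) (nat_lit 598) (nat_lit 538) (nat_lit 424)) (XT.nd (nat_lit 78) (nat_lit 0) (nat_lit 0) (XT.lf (nat_lit 0) (nat_lit 3894806965) (nat_lit 608) (nat_lit 1246552440) (nat_lit 684) (nat_lit 6649065345) (nat_lit 259) (nat_lit 5) (nat_lit 267) (nat_lit 5) (nat_lit 268) (nat_lit 5) (nat_lit 599) (nat_lit 538) (nat_lit 423)) (XT.lf (nat_lit 0) (nat_lit 7831949246) (nat_lit 684) (nat_lit 730395328) (nat_lit 76) (nat_lit 3357310966) (nat_lit 259) (nat_lit 5) (nat_lit 268) (nat_lit 5) (nat_lit 260) (nat_lit 5) (nat_lit 600) (nat_lit 538) (nat_lit 422)))) (XT.nd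 (nat_lit 156) (nat_lit 532) (nat_lit 0) (XT.nd (nat_lit 78) (nat_lit 684) (nat_lit 0) (XT.lf (nat_lit 0) (nat_lit 6633382869) (nat_lit 532) (nat_lit 3976011668) (nat_lit 608) (nat_lit 1441417727) (nat_lit 252) (nat_lit 5) (nat_lit 259) (nat_lit 5) (nat_lit 260) (nat_lit 5) (nat_lit 601) (nat_lit 538) (nat_lit 421)) (XT.lf (nat_lit 0) (nat_lit 1245484108) (nat_lit 684) (nat_lit 10225316088) (nat_lit 76) (nat_lit 713547026) (nat_lit 243) (nat_lit 5) (nat_lit 252) (nat_lit 5) (nat_lit 244) (nat_lit 5) (nat_lit 602) (nat_lit 538) (nat_lit 420))) (XT.nd (nat_lit 78) (nat_lit 532) (nat_lit 0) (XT.lf (nat_lit 0) (nat_lit 4011741698) (nat_lit 684) (nat_lit 2823240219) (nat_lit 76) (nat_lit 5484484106) (nat_lit 243) (nat_lit 5) (nat_lit 252) (nat_lit 5) (nat_lit 244) (nat_lit 5) (nat_lit 603) (nat_lit 538) (nat_lit 419)) (XT.lf (nat_lit 0) (nat_lit 4766098939) (nat_lit 532) (nat_lit 2080498116) (nat_lit 608) (nat_lit 5610426714) (nat_lit 236) (nat_lit 5) (nat_lit 243) (nat_lit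 5) (nat_lit 244) (nat_lit 5) (nat_lit 604) (nat_lit 538) (nat_lit 418))))))) (XT.nd (nat_lit 1014) (nat_lit 3344) (nat_lit 0) (XT.nd (nat_lit 468) (nat_lit 2052) (nat_lit 0) (XT.nd (nat_lit 234) (nat_lit 988) (nat_lit 0) (XT.nd (nat_lit 78) (nat_lit 1140) (nat_lit 0) (XT.lf (nat_lit 0) (nat_lit 9757686612) (nat_lit 608) (nat_lit 93011295) (nat_lit 76) (nat_lit 2746246006) (nat_lit 236) (nat_lit 5) (nat_lit 244) (nat_lit 5) (nat_lit 237) (nat_lit 5) (nat_lit 605) (nat_lit 538) (nat_lit 417)) (XT.nd (nat_lit 78) (nat_lit 532) (nat_lit 0) (XT.lf (nat_lit 0) (nat_lit 34550457) (nat_lit 608) (nat_lit 5017595740) (nat_lit 76) (nat_lit 7686578835) (nat_lit 228) (nat_lit 5) (nat_lit 236) (nat_lit 5) (nat_lit 229) (nat_lit 5) (nat_lit 606) (nat_lit 538) (nat_lit 416)) (XT.lf (nat_lit 0) (nat_lit 2804391038) (nat_lit 532) (nat_lit 125202416) (nat_lit 608) (nat_lit 9953339306) (nat_lit 221) (nat_lit 5) (nat_lit 228) (nat_lit 5) (nat_lit 229) (nat_lit 5) (nat_lit 607) (nat_lit 538)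 (nat_lit 415)))) (XT.nd (nat_lit 78) (nat_lit 988) (nat_lit 0) (XT.lf (nat_lit 0) (nat_lit 5931299246) (nat_lit 608) (nat_lit 2233773047) (nat_lit 76) (nat_lit 4863978941) (nat_lit 221) (nat_lit 5) (nat_lit 229) (nat_lit 5) (nat_lit 222) (nat_lit 5) (nat_lit 608) (nat_lit 538) (nat_lit 414)) (XT.nd (nat_lit 78) (nat_lit 456) (nat_lit 0) (XT.lf (nat_lit 0) (nat_lit 5820640447) (nat_lit 532) (nat_lit 3194404001) (nat_lit 608) (nat_lit 4162609322) (nat_lit 214) (nat_lit 5) (nat_lit 221) (nat_lit 5) (nat_lit 222) (nat_lit 5) (nat_lit 609) (nat_lit 538) (nat_lit 413)) (XT.lf (nat_lit 0) (nat_lit 711648204) (nat_lit 456) (nat_lit 11464227630) (nat_lit 532) (nat_lit 1153046056) (nat_lit 208) (nat_lit 5) (nat_lit 214) (nat_lit 5) (nat_lit 215) (nat_lit 5) (nat_lit 610) (nat_lit 538) (nat_lit 412))))) (XT.nd (nat_lit 234) (nat_lit 1444) (nat_lit 0) (XT.nd (nat_lit 78) (nat_lit 532) (nat_lit 0) (XT.lf (nat_lit 0) (nat_lit 1946011154) (nat_lit 532) (nat_lit 4497715187) (nat_lit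 76) (nat_lit 7038153022) (nat_lit 207) (nat_lit 5) (nat_lit 214) (nat_lit 5) (nat_lit 208) (nat_lit 5) (nat_lit 611) (nat_lit 538) (nat_lit 411)) (XT.nd (nat_lit 78) (nat_lit 0) (nat_lit 0) (XT.lf (nat_lit 0) (nat_lit 3803968610) (nat_lit 532) (nat_lit 1296264992) (nat_lit 608) (nat_lit 8537339142) (nat_lit 200) (nat_lit 5) (nat_lit 207) (nat_lit 5) (nat_lit 208) (nat_lit 5) (nat_lit 612) (nat_lit 538) (nat_lit 410)) (XT.lf (nat_lit 0) (nat_lit 8357634739) (nat_lit 608) (nat_lit 1511644862) (nat_lit 76) (nat_lit 3926300135) (nat_lit 200) (nat_lit 5) (nat_lit 208) (nat_lit 5) (nat_lit 201) (nat_lit 5) (nat_lit 613) (nat_lit 538) (nat_lit 409)))) (XT.nd (nat_lit 156) (nat_lit 456) (nat_lit 0) (XT.nd (nat_lit 78) (nat_lit 532) (nat_lit 0) (XT.lf (nat_lit 0) (nat_lit 7038271879) (nat_lit 456) (nat_lit 4680546024) (nat_lit 532) (nat_lit 2237157879) (nat_lit 194) (nat_lit 5) (nat_lit 200) (nat_lit 5) (nat_lit 201) (nat_lit 5) (nat_lit 614) (nat_lit 538) (nat_lit 408)) (XT.lf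 (nat_lit 0) (nat_lit 1023635161) (nat_lit 532) (nat_lit 12470480971) (nat_lit 76) (nat_lit 625142349) (nat_lit 187) (nat_lit 5) (nat_lit 194) (nat_lit 5) (nat_lit 188) (nat_lit 5) (nat_lit 615) (nat_lit 538) (nat_lit 407))) (XT.nd (nat_lit 78) (nat_lit 456) (nat_lit 0) (XT.lf (nat_lit 0) (nat_lit 4381972771) (nat_lit 532) (nat_lit 3873026632) (nat_lit 76) (nat_lit 6029267496) (nat_lit 187) (nat_lit 5) (nat_lit 194) (nat_lit 5) (nat_lit 188) (nat_lit 5) (nat_lit 616) (nat_lit 538) (nat_lit 406)) (XT.lf (nat_lit 0) (nat_lit 4939206312) (nat_lit 456) (nat_lit 2885173147) (nat_lit 532) (nat_lit 6627859454) (nat_lit 181) (nat_lit 5) (nat_lit 187) (nat_lit 5) (nat_lit 188) (nat_lit 5) (nat_lit 617) (nat_lit 538) (nat_lit 405)))))) (XT.nd (nat_lit 468) (nat_lit 1596) (nat_lit 0) (XT.nd (nat_lit 234) (nat_lit 836) (nat_lit 0) (XT.nd (nat_lit 78) (nat_lit 912) (nat_lit 0) (XT.lf (nat_lit 0) (nat_lit 11363571172) (nat_lit 532) (nat_lit 681930379) (nat_lit 76) (nat_lit 2577511522)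 (nat_lit 181) (nat_lit 5) (nat_lit 188) (nat_lit 5) (nat_lit 182) (nat_lit 5) (nat_lit 618) (nat_lit 538) (nat_lit 404)) (XT.nd (nat_lit 78) (nat_lit 380) (nat_lit 0) (XT.lf (nat_lit 0) (nat_lit 233274252) (nat_lit 532) (nat_lit 6402400520) (nat_lit 76) (nat_lit 8160321575) (nat_lit 174) (nat_lit 5) (nat_lit 181) (nat_lit 5) (nat_lit 175) (nat_lit 5) (nat_lit 619) (nat_lit 538) (nat_lit 403)) (XT.lf (nat_lit 0) (nat_lit 2679368805) (nat_lit 380) (nat_lit 1080167826) (nat_lit 456) (nat_lit 11212326403) (nat_lit 169) (nat_lit 5) (nat_lit 174) (nat_lit 5) (nat_lit 175) (nat_lit 5) (nat_lit 620) (nat_lit 538) (nat_lit 402)))) (XT.nd (nat_lit 78) (nat_lit 836) (nat_lit 0) (XT.lf (nat_lit 0) (nat_lit 7414746095) (nat_lit 456) (nat_lit 3172679489) (nat_lit 76) (nat_lit 4562654368) (nat_lit 169) (nat_lit 5) (nat_lit 175) (nat_lit 5) (nat_lit 170) (nat_lit 5) (nat_lit 621) (nat_lit 538) (nat_lit 401)) (XT.nd (nat_lit 78) (nat_lit 380) (nat_lit 0) (XT.lf (nat_lit 0) (nat_lit 6182095996)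 (nat_lit 456) (nat_lit 4993937373) (nat_lit 532) (nat_lit 4155169674) (nat_lit 163) (nat_lit 5) (nat_lit 169) (nat_lit 5) (nat_lit 170) (nat_lit 5) (nat_lit 622) (nat_lit 538) (nat_lit 400)) (XT.lf (nat_lit 0) (nat_lit 228223969) (nat_lit 380) (nat_lit 14797633705) (nat_lit 456) (nat_lit 489825979) (nat_lit 158) (nat_lit 5) (nat_lit 163) (nat_lit 5) (nat_lit 164) (nat_lit 5) (nat_lit 623) (nat_lit 538) (nat_lit 399))))) (XT.nd (nat_lit 234) (nat_lit 1140) (nat_lit 0) (XT.nd (nat_lit 78) (nat_lit 380) (nat_lit 0) (XT.lf (nat_lit 0) (nat_lit 3286915099) (nat_lit 456) (nat_lit 5861586710) (nat_lit 76) (nat_lit 6553317443) (nat_lit 157) (nat_lit 5) (nat_lit 163) (nat_lit 5) (nat_lit 158) (nat_lit 5) (nat_lit 624) (nat_lit 538) (nat_lit 398)) (XT.nd (nat_lit 78) (nat_lit 0) (nat_lit 0) (XT.lf (nat_lit 0) (nat_lit 3778022671) (nat_lit 380) (nat_lit 3365248139) (nat_lit 456) (nat_lit 8748130433) (nat_lit 152) (nat_lit 5) (nat_lit 157) (nat_lit 5) (nat_lit 158) (nat_lit 5) (nat_lit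 625) (nat_lit 538) (nat_lit 397)) (XT.lf (nat_lit 0) (nat_lit 11118991567) (nat_lit 456) (nat_lit 2431996981) (nat_lit 76) (nat_lit 2532942753) (nat_lit 152) (nat_lit 5) (nat_lit 158) (nat_lit 5) (nat_lit 153) (nat_lit 5) (nat_lit 626) (nat_lit 538) (nat_lit 396)))) (XT.nd (nat_lit 156) (nat_lit 304) (nat_lit 0) (XT.nd (nat_lit 78) (nat_lit 456) (nat_lit 0) (XT.lf (nat_lit 0) (nat_lit 7498305077) (nat_lit 380) (nat_lit 7733355610) (nat_lit 456) (nat_lit 1047503757) (nat_lit 147) (nat_lit 5) (nat_lit 152) (nat_lit 5) (nat_lit 153) (nat_lit 5) (nat_lit 627) (nat_lit 538) (nat_lit 395)) (XT.lf (nat_lit 0) (nat_lit 1157325710) (nat_lit 380) (nat_lit 1762735351) (nat_lit 456) (nat_lit 13557650514) (nat_lit 141) (nat_lit 5) (nat_lit 146) (nat_lit 5) (nat_lit 147) (nat_lit 5) (nat_lit 628) (nat_lit 538) (nat_lit 394))) (XT.nd (nat_lit 78) (nat_lit 304) (nat_lit 0) (XT.lf (nat_lit 0) (nat_lit 7026962460) (nat_lit 456) (nat_lit 5322063144) (nat_lit 76) (nat_lit 4329586432) (nat_lit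 141) (nat_lit 5) (nat_lit 147) (nat_lit 5) (nat_lit 142) (nat_lit 5) (nat_lit 629) (nat_lit 538) (nat_lit 393)) (XT.lf (nat_lit 0) (nat_lit 4908446756) (nat_lit 304) (nat_lit 6337948892) (nat_lit 380) (nat_lit 5636528057) (nat_lit 137) (nat_lit 5) (nat_lit 141) (nat_lit 5) (nat_lit 142) (nat_lit 5) (nat_lit 630) (nat_lit 538) (nat_lit 392))))))))
noncomputable def xc128 : XT := (XT.nd (nat_lit 74178) (nat_lit 0) (nat_lit 33820) (XT.nd (nat_lit 936) (nat_lit 1976) (nat_lit 0) (XT.nd (nat_lit 468) (nat_lit 1292) (nat_lit 0) (XT.nd (nat_lit 234) (nat_lit 380) (nat_lit 0) (XT.nd (nat_lit 78) (nat_lit 760) (nat_lit 0) (XT.lf (nat_lit 0) (nat_lit 15395362869) (nat_lit 304) (nat_lit 177545323) (nat_lit 380) (nat_lit 1517960654) (nat_lit 137) (nat_lit 5) (nat_lit 141) (nat_lit 5) (nat_lit 142) (nat_lit 5) (nat_lit 631) (nat_lit 538) (nat_lit 391)) (XT.nd (nat_lit 78) (nat_lit 304) (nat_lit 0) (XT.lf (nat_lit 0) (nat_lit 2732606802) (nat_lit 456) (nat_lit 8474016370) (nat_lit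 76) (nat_lit 6094306007) (nat_lit 131) (nat_lit 5) (nat_lit 137) (nat_lit 5) (nat_lit 132) (nat_lit 5) (nat_lit 632) (nat_lit 538) (nat_lit 390)) (XT.lf (nat_lit 0) (nat_lit 2063362357) (nat_lit 304) (nat_lit 4997764142) (nat_lit 380) (nat_lit 10453599209) (nat_lit 127) (nat_lit 5) (nat_lit 131) (nat_lit 5) (nat_lit 132) (nat_lit 5) (nat_lit 633) (nat_lit 538) (nat_lit 389)))) (XT.nd (nat_lit 78) (nat_lit 380) (nat_lit 0) (XT.lf (nat_lit 0) (nat_lit 11529421772) (nat_lit 380) (nat_lit 4834618928) (nat_lit 76) (nat_lit 1367694337) (nat_lit 127) (nat_lit 5) (nat_lit 132) (nat_lit 5) (nat_lit 128) (nat_lit 5) (nat_lit 634) (nat_lit 538) (nat_lit 388)) (XT.nd (nat_lit 78) (nat_lit 76) (nat_lit 0) (XT.lf (nat_lit 0) (nat_lit 6020451143) (nat_lit 304) (nat_lit 10126361489) (nat_lit 380) (nat_lit 1805078279) (nat_lit 123) (nat_lit 5) (nat_lit 127) (nat_lit 5) (nat_lit 128) (nat_lit 5) (nat_lit 635) (nat_lit 538) (nat_lit 387)) (XT.lf (nat_lit 0) (nat_lit 2665185668) (nat_lit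 380) (nat_lit 1055165801) (nat_lit 76) (nat_lit 14455346645) (nat_lit 122) (nat_lit 5) (nat_lit 127) (nat_lit 5) (nat_lit 123) (nat_lit 5) (nat_lit 636) (nat_lit 538) (nat_lit 386))))) (XT.nd (nat_lit 234) (nat_lit 684) (nat_lit 0) (XT.nd (nat_lit 78) (nat_lit 304) (nat_lit 0) (XT.lf (nat_lit 0) (nat_lit 7273100732) (nat_lit 380) (nat_lit 8281252914) (nat_lit 76) (nat_lit 2847941765) (nat_lit 118) (nat_lit 5) (nat_lit 123) (nat_lit 5) (nat_lit 119) (nat_lit 5) (nat_lit 637) (nat_lit 538) (nat_lit 385)) (XT.nd (nat_lit 78) (nat_lit 0) (nat_lit 0) (XT.lf (nat_lit 0) (nat_lit 2895502999) (nat_lit 304) (nat_lit 9116121919) (nat_lit 380) (nat_lit 6621031602) (nat_lit 114) (nat_lit 5) (nat_lit 118) (nat_lit 5) (nat_lit 119) (nat_lit 5) (nat_lit 638) (nat_lit 538) (nat_lit 384)) (XT.lf (nat_lit 0) (nat_lit 14388595389) (nat_lit 304) (nat_lit 2499892592) (nat_lit 380) (nat_lit 1978266363) (nat_lit 114) (nat_lit 5) (nat_lit 118) (nat_lit 5) (nat_lit 119) (nat_lit 5) (nat_lit 639)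 (nat_lit 538) (nat_lit 383)))) (XT.nd (nat_lit 78) (nat_lit 304) (nat_lit 0) (XT.lf (nat_lit 0) (nat_lit 2783151692) (nat_lit 380) (nat_lit 12070960576) (nat_lit 76) (nat_lit 4249825422) (nat_lit 109) (nat_lit 5) (nat_lit 114) (nat_lit 5) (nat_lit 110) (nat_lit 5) (nat_lit 640) (nat_lit 538) (nat_lit 382)) (XT.nd (nat_lit 78) (nat_lit 304) (nat_lit 0) (XT.lf (nat_lit 0) (nat_lit 7648353130) (nat_lit 380) (nat_lit 559372132) (nat_lit 76) (nat_lit 11137177847) (nat_lit 109) (nat_lit 5) (nat_lit 114) (nat_lit 5) (nat_lit 110) (nat_lit 5) (nat_lit 641) (nat_lit 538) (nat_lit 381)) (XT.lf (nat_lit 0) (nat_lit 11311892564) (nat_lit 304) (nat_lit 1360855293) (nat_lit 380) (nat_lit 6916702992) (nat_lit 105) (nat_lit 5) (nat_lit 109) (nat_lit 5) (nat_lit 110) (nat_lit 5) (nat_lit 642) (nat_lit 538) (nat_lit 380)))))) (XT.nd (nat_lit 468) (nat_lit 760) (nat_lit 0) (XT.nd (nat_lit 234) (nat_lit 608) (nat_lit 0) (XT.nd (nat_lit 78) (nat_lit 380) (nat_lit 0) (XT.lf (nat_lit 0) (nat_lit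 3580809953) (nat_lit 228) (nat_lit 14268857885) (nat_lit 304) (nat_lit 1988181742) (nat_lit 102) (nat_lit 5) (nat_lit 105) (nat_lit 5) (nat_lit 106) (nat_lit 5) (nat_lit 643) (nat_lit 538) (nat_lit 379)) (XT.nd (nat_lit 78) (nat_lit 304) (nat_lit 0) (XT.lf (nat_lit 0) (nat_lit 3052509763) (nat_lit 304) (nat_lit 4349665207) (nat_lit 76) (nat_lit 12687578340) (nat_lit 101) (nat_lit 5) (nat_lit 105) (nat_lit 5) (nat_lit 102) (nat_lit 5) (nat_lit 644) (nat_lit 538) (nat_lit 378)) (XT.lf (nat_lit 0) (nat_lit 7867243651) (nat_lit 304) (nat_lit 340007631) (nat_lit 380) (nat_lit 12138384573) (nat_lit 97) (nat_lit 5) (nat_lit 101) (nat_lit 5) (nat_lit 102) (nat_lit 5) (nat_lit 645) (nat_lit 538) (nat_lit 377)))) (XT.nd (nat_lit 78) (nat_lit 608) (nat_lit 0) (XT.lf (nat_lit 0) (nat_lit 13527837532) (nat_lit 380) (nat_lit 282035727) (nat_lit 76) (nat_lit 6795508517) (nat_lit 97) (nat_lit 5) (nat_lit 102) (nat_lit 5) (nat_lit 98) (nat_lit 5) (nat_lit 646) (nat_lit 538) (nat_lit 376))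 (XT.nd (nat_lit 78) (nat_lit 380) (nat_lit 0) (XT.lf (nat_lit 0) (nat_lit 12298985935) (nat_lit 228) (nat_lit 6726980225) (nat_lit 304) (nat_lit 1842934549) (nat_lit 94) (nat_lit 5) (nat_lit 97) (nat_lit 5) (nat_lit 98) (nat_lit 5) (nat_lit 647) (nat_lit 538) (nat_lit 375)) (XT.lf (nat_lit 0) (nat_lit 3471016260) (nat_lit 380) (nat_lit 17131085515) (nat_lit 76) (nat_lit 534724825) (nat_lit 89) (nat_lit 5) (nat_lit 94) (nat_lit 5) (nat_lit 90) (nat_lit 5) (nat_lit 648) (nat_lit 538) (nat_lit 374))))) (XT.nd (nat_lit 234) (nat_lit 532) (nat_lit 0) (XT.nd (nat_lit 78) (nat_lit 228) (nat_lit 0) (XT.lf (nat_lit 0) (nat_lit 8958129997) (nat_lit 380) (nat_lit 4535407205) (nat_lit 76) (nat_lit 7914499622) (nat_lit 89) (nat_lit 5) (nat_lit 94) (nat_lit 5) (nat_lit 90) (nat_lit 5) (nat_lit 649) (nat_lit 538) (nat_lit 373)) (XT.nd (nat_lit 78) (nat_lit 0) (nat_lit 0) (XT.lf (nat_lit 0) (nat_lit 8404381580) (nat_lit 228) (nat_lit 6194483708) (nat_lit 304) (nat_lit 7084929033) (nat_lit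 86) (nat_lit 5) (nat_lit 89) (nat_lit 5) (nat_lit 90) (nat_lit 5) (nat_lit 650) (nat_lit 538) (nat_lit 372)) (XT.lf (nat_lit 0) (nat_lit 20380529462) (nat_lit 304) (nat_lit 326408942) (nat_lit 76) (nat_lit 1257566922) (nat_lit 86) (nat_lit 5) (nat_lit 90) (nat_lit 5) (nat_lit 87) (nat_lit 5) (nat_lit 651) (nat_lit 538) (nat_lit 371)))) (XT.nd (nat_lit 72384) (nat_lit 0) (nat_lit 42788) (XT.nd (nat_lit 78) (nat_lit 228) (nat_lit 0) (XT.lf (nat_lit 0) (nat_lit 4089919958) (nat_lit 304) (nat_lit 9278064321) (nat_lit 76) (nat_lit 8880009202) (nat_lit 82) (nat_lit 5) (nat_lit 86) (nat_lit 5) (nat_lit 83) (nat_lit 5) (nat_lit 652) (nat_lit 538) (nat_lit 370)) (XT.lf (nat_lit 0) (nat_lit 4024040105) (nat_lit 228) (nat_lit 5849983680) (nat_lit 304) (nat_lit 12662560028) (nat_lit 79) (nat_lit 5) (nat_lit 82) (nat_lit 5) (nat_lit 83) (nat_lit 5) (nat_lit 653) (nat_lit 538) (nat_lit 369))) (XT.nd (nat_lit 78) (nat_lit 0) (nat_lit 0) (XT.lf (nat_lit 0) (nat_lit 2497396713) (nat_lit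 1140) (nat_lit 534003425) (nat_lit 1140) (nat_lit 534003425) (nat_lit 642) (nat_lit 3) (nat_lit 657) (nat_lit 3) (nat_lit 657) (nat_lit 5) (nat_lit 539) (nat_lit 539) (nat_lit 482)) (XT.lf (nat_lit 76) (nat_lit 2470136918) (nat_lit 0) (nat_lit 4279767217) (nat_lit 1140) (nat_lit 417760419) (nat_lit 643) (nat_lit 5) (nat_lit 642) (nat_lit 3) (nat_lit 657) (nat_lit 5) (nat_lit 540) (nat_lit 539) (nat_lit 481))))))) (XT.nd (nat_lit 936) (nat_lit 5548) (nat_lit 0) (XT.nd (nat_lit 468) (nat_lit 1140) (nat_lit 0) (XT.nd (nat_lit 234) (nat_lit 1140) (nat_lit 0) (XT.nd (nat_lit 78) (nat_lit 0) (nat_lit 0) (XT.lf (nat_lit 0) (nat_lit 1279806936) (nat_lit 1140) (nat_lit 1143814257) (nat_lit 1216) (nat_lit 4782224412) (nat_lit 627) (nat_lit 5) (nat_lit 642) (nat_lit 3) (nat_lit 643) (nat_lit 5) (nat_lit 541) (nat_lit 539) (nat_lit 480)) (XT.nd (nat_lit 78) (nat_lit 0) (nat_lit 76) (XT.lf (nat_lit 76) (nat_lit 2487790563) (nat_lit 0) (nat_lit 490218053) (nat_lit 1216) (nat_lit 4267289658)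 (nat_lit 628) (nat_lit 5) (nat_lit 627) (nat_lit 5) (nat_lit 643) (nat_lit 5) (nat_lit 542) (nat_lit 539) (nat_lit 479)) (XT.lf (nat_lit 0) (nat_lit 4684484530) (nat_lit 1140) (nat_lit 1111422337) (nat_lit 1216) (nat_lit 1490155511) (nat_lit 628) (nat_lit 5) (nat_lit 643) (nat_lit 5) (nat_lit 644) (nat_lit 5) (nat_lit 543) (nat_lit 539) (nat_lit 478)))) (XT.nd (nat_lit 78) (nat_lit 1216) (nat_lit 0) (XT.lf (nat_lit 76) (nat_lit 2615209731) (nat_lit 0) (nat_lit 3787912853) (nat_lit 1216) (nat_lit 924966946) (nat_lit 629) (nat_lit 5) (nat_lit 628) (nat_lit 5) (nat_lit 644) (nat_lit 5) (nat_lit 544) (nat_lit 539) (nat_lit 477)) (XT.nd (nat_lit 78) (nat_lit 0) (nat_lit 76) (XT.lf (nat_lit 0) (nat_lit 740585660) (nat_lit 1216) (nat_lit 968352225) (nat_lit 1292) (nat_lit 5662611330) (nat_lit 612) (nat_lit 5) (nat_lit 628) (nat_lit 5) (nat_lit 629) (nat_lit 5) (nat_lit 545) (nat_lit 539) (nat_lit 476)) (XT.lf (nat_lit 0) (nat_lit 2407608097) (nat_lit 1216) (nat_lit 4560094282)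 (nat_lit 1292) (nat_lit 448450485) (nat_lit 613) (nat_lit 5) (nat_lit 629) (nat_lit 5) (nat_lit 630) (nat_lit 5) (nat_lit 546) (nat_lit 539) (nat_lit 475))))) (XT.nd (nat_lit 234) (nat_lit 1216) (nat_lit 0) (XT.nd (nat_lit 78) (nat_lit 0) (nat_lit 0) (XT.lf (nat_lit 0) (nat_lit 4085612764) (nat_lit 1216) (nat_lit 726936502) (nat_lit 1292) (nat_lit 2649554262) (nat_lit 613) (nat_lit 5) (nat_lit 629) (nat_lit 5) (nat_lit 630) (nat_lit 5) (nat_lit 547) (nat_lit 539) (nat_lit 474)) (XT.nd (nat_lit 78) (nat_lit 0) (nat_lit 0) (XT.lf (nat_lit 76) (nat_lit 3201200863) (nat_lit 0) (nat_lit 2577332671) (nat_lit 1292) (nat_lit 1730820174) (nat_lit 614) (nat_lit 5) (nat_lit 613) (nat_lit 5) (nat_lit 630) (nat_lit 5) (nat_lit 548) (nat_lit 539) (nat_lit 473)) (XT.lf (nat_lit 76) (nat_lit 7194242608) (nat_lit 0) (nat_lit 277140379) (nat_lit 1292) (nat_lit 86851977) (nat_lit 614) (nat_lit 5) (nat_lit 613) (nat_lit 5) (nat_lit 630) (nat_lit 5) (nat_lit 549) (nat_lit 539) (nat_lit 472))))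 (XT.nd (nat_lit 78) (nat_lit 0) (nat_lit 0) (XT.lf (nat_lit 0) (nat_lit 1568441812) (nat_lit 1292) (nat_lit 3948602278) (nat_lit 1368) (nat_lit 2090864485) (nat_lit 597) (nat_lit 5) (nat_lit 614) (nat_lit 5) (nat_lit 615) (nat_lit 5) (nat_lit 550) (nat_lit 539) (nat_lit 471)) (XT.nd (nat_lit 78) (nat_lit 0) (nat_lit 0) (XT.lf (nat_lit 76) (nat_lit 83885215) (nat_lit 0) (nat_lit 3139018942) (nat_lit 1368) (nat_lit 4436322552) (nat_lit 598) (nat_lit 5) (nat_lit 597) (nat_lit 5) (nat_lit 615) (nat_lit 5) (nat_lit 551) (nat_lit 539) (nat_lit 470)) (XT.lf (nat_lit 76) (nat_lit 4226440088) (nat_lit 0) (nat_lit 673479659) (nat_lit 1368) (nat_lit 2811869084) (nat_lit 598) (nat_lit 5) (nat_lit 597) (nat_lit 5) (nat_lit 615) (nat_lit 5) (nat_lit 552) (nat_lit 539) (nat_lit 469)))))) (XT.nd (nat_lit 468) (nat_lit 4256) (nat_lit 0) (XT.nd (nat_lit 234) (nat_lit 0) (nat_lit 76) (XT.nd (nat_lit 78) (nat_lit 1368) (nat_lit 0) (XT.lf (nat_lit 76) (nat_lit 658677915) (nat_lit 0) (nat_lit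 5931804927) (nat_lit 1368) (nat_lit 1175325982) (nat_lit 599) (nat_lit 5) (nat_lit 598) (nat_lit 5) (nat_lit 616) (nat_lit 5) (nat_lit 553) (nat_lit 539) (nat_lit 468)) (XT.nd (nat_lit 78) (nat_lit 0) (nat_lit 0) (XT.lf (nat_lit 0) (nat_lit 479558335) (nat_lit 1368) (nat_lit 2920205752) (nat_lit 1444) (nat_lit 4421245725) (nat_lit 580) (nat_lit 5) (nat_lit 598) (nat_lit 5) (nat_lit 599) (nat_lit 5) (nat_lit 554) (nat_lit 539) (nat_lit 467)) (XT.lf (nat_lit 76) (nat_lit 1335908526) (nat_lit 0) (nat_lit 789371750) (nat_lit 1444) (nat_lit 5752415992) (nat_lit 581) (nat_lit 5) (nat_lit 580) (nat_lit 5) (nat_lit 599) (nat_lit 5) (nat_lit 555) (nat_lit 539) (nat_lit 466)))) (XT.nd (nat_lit 78) (nat_lit 0) (nat_lit 0) (XT.lf (nat_lit 0) (nat_lit 3801196293) (nat_lit 1368) (nat_lit 2255582264) (nat_lit 1444) (nat_lit 1878798561) (nat_lit 581) (nat_lit 5) (nat_lit 599) (nat_lit 5) (nat_lit 600) (nat_lit 5) (nat_lit 556) (nat_lit 539) (nat_lit 465)) (XT.nd (nat_lit 78) (nat_lit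 0) (nat_lit 0) (XT.lf (nat_lit 76) (nat_lit 2114444187) (nat_lit 0) (nat_lit 3381212540) (nat_lit 1444) (nat_lit 2499264467) (nat_lit 582) (nat_lit 5) (nat_lit 581) (nat_lit 5) (nat_lit 600) (nat_lit 5) (nat_lit 557) (nat_lit 539) (nat_lit 464)) (XT.lf (nat_lit 76) (nat_lit 6578199925) (nat_lit 0) (nat_lit 627520556) (nat_lit 1444) (nat_lit 850103401) (nat_lit 582) (nat_lit 5) (nat_lit 581) (nat_lit 5) (nat_lit 600) (nat_lit 5) (nat_lit 558) (nat_lit 539) (nat_lit 463))))) (XT.nd (nat_lit 234) (nat_lit 2964) (nat_lit 0) (XT.nd (nat_lit 78) (nat_lit 0) (nat_lit 0) (XT.lf (nat_lit 0) (nat_lit 822153240) (nat_lit 1444) (nat_lit 5109174041) (nat_lit 1520) (nat_lit 2186494583) (nat_lit 563) (nat_lit 5) (nat_lit 582) (nat_lit 5) (nat_lit 583) (nat_lit 5) (nat_lit 559) (nat_lit 539) (nat_lit 462)) (XT.nd (nat_lit 78) (nat_lit 0) (nat_lit 0) (XT.lf (nat_lit 0) (nat_lit 2498175809) (nat_lit 1444) (nat_lit 610804307) (nat_lit 1520) (nat_lit 5072338898) (nat_lit 563) (nat_lit 5)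 (nat_lit 582) (nat_lit 5) (nat_lit 583) (nat_lit 5) (nat_lit 560) (nat_lit 539) (nat_lit 461)) (XT.lf (nat_lit 76) (nat_lit 4005788894) (nat_lit 0) (nat_lit 196130303) (nat_lit 1520) (nat_lit 4044288457) (nat_lit 564) (nat_lit 5) (nat_lit 563) (nat_lit 5) (nat_lit 583) (nat_lit 5) (nat_lit 561) (nat_lit 539) (nat_lit 460)))) (XT.nd (nat_lit 156) (nat_lit 1596) (nat_lit 0) (XT.nd (nat_lit 78) (nat_lit 0) (nat_lit 0) (XT.lf (nat_lit 0) (nat_lit 372725747) (nat_lit 1444) (nat_lit 5560280720) (nat_lit 1520) (nat_lit 2379527664) (nat_lit 545) (nat_lit 5) (nat_lit 564) (nat_lit 5) (nat_lit 565) (nat_lit 5) (nat_lit 562) (nat_lit 539) (nat_lit 459)) (XT.lf (nat_lit 0) (nat_lit 5109660193) (nat_lit 1444) (nat_lit 2587960792) (nat_lit 1520) (nat_lit 682593382) (nat_lit 545) (nat_lit 5) (nat_lit 564) (nat_lit 5) (nat_lit 565) (nat_lit 5) (nat_lit 563) (nat_lit 539) (nat_lit 458))) (XT.nd (nat_lit 78) (nat_lit 0) (nat_lit 0) (XT.lf (nat_lit 0) (nat_lit 1016728577) (nat_lit 1596)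 (nat_lit 6972434469) (nat_lit 76) (nat_lit 460310222) (nat_lit 524) (nat_lit 5) (nat_lit 545) (nat_lit 5) (nat_lit 525) (nat_lit 5) (nat_lit 564) (nat_lit 539) (nat_lit 457)) (XT.lf (nat_lit 0) (nat_lit 2750170745) (nat_lit 1596) (nat_lit 2202609445) (nat_lit 76) (nat_lit 3567066475) (nat_lit 524) (nat_lit 5) (nat_lit 545) (nat_lit 5) (nat_lit 525) (nat_lit 5) (nat_lit 565) (nat_lit 539) (nat_lit 456))))))))
noncomputable def xc129 : XT := (XT.nd (nat_lit 1950) (nat_lit 8968) (nat_lit 0) (XT.nd (nat_lit 936) (nat_lit 6460) (nat_lit 0) (XT.nd (nat_lit 468) (nat_lit 2888) (nat_lit 0) (XT.nd (nat_lit 234) (nat_lit 3496) (nat_lit 0) (XT.nd (nat_lit 78) (nat_lit 1672) (nat_lit 0) (XT.lf (nat_lit 0) (nat_lit 2673118297) (nat_lit 1596) (nat_lit 1833140539) (nat_lit 1672) (nat_lit 4085614085) (nat_lit 503) (nat_lit 5) (nat_lit 524) (nat_lit 5) (nat_lit 525) (nat_lit 5) (nat_lit 566) (nat_lit 539) (nat_lit 455)) (XT.nd (nat_lit 78) (nat_lit 1672) (nat_lit 0) (XT.lf (nat_lit 0)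 (nat_lit 6292173932) (nat_lit 1672) (nat_lit 1022686736) (nat_lit 76) (nat_lit 1350589765) (nat_lit 503) (nat_lit 5) (nat_lit 525) (nat_lit 5) (nat_lit 504) (nat_lit 5) (nat_lit 567) (nat_lit 539) (nat_lit 454)) (XT.lf (nat_lit 0) (nat_lit 3986937789) (nat_lit 1672) (nat_lit 4136531453) (nat_lit 1748) (nat_lit 616841755) (nat_lit 481) (nat_lit 5) (nat_lit 503) (nat_lit 5) (nat_lit 504) (nat_lit 5) (nat_lit 568) (nat_lit 539) (nat_lit 453)))) (XT.nd (nat_lit 78) (nat_lit 1672) (nat_lit 0) (XT.lf (nat_lit 0) (nat_lit 265159592) (nat_lit 1748) (nat_lit 874629528) (nat_lit 1824) (nat_lit 7677122184) (nat_lit 457) (nat_lit 5) (nat_lit 480) (nat_lit 5) (nat_lit 481) (nat_lit 5) (nat_lit 569) (nat_lit 539) (nat_lit 452)) (XT.nd (nat_lit 78) (nat_lit 1672) (nat_lit 0) (XT.lf (nat_lit 0) (nat_lit 2943590637) (nat_lit 1824) (nat_lit 3491278341) (nat_lit 76) (nat_lit 2459691610) (nat_lit 457) (nat_lit 5) (nat_lit 481) (nat_lit 5) (nat_lit 458) (nat_lit 5) (nat_lit 570) (nat_lit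 539) (nat_lit 451)) (XT.lf (nat_lit 0) (nat_lit 1661750187) (nat_lit 1672) (nat_lit 3111101006) (nat_lit 1748) (nat_lit 4201128383) (nat_lit 435) (nat_lit 5) (nat_lit 457) (nat_lit 5) (nat_lit 458) (nat_lit 5) (nat_lit 571) (nat_lit 539) (nat_lit 450))))) (XT.nd (nat_lit 234) (nat_lit 1824) (nat_lit 0) (XT.nd (nat_lit 78) (nat_lit 1064) (nat_lit 0) (XT.lf (nat_lit 0) (nat_lit 6637283785) (nat_lit 1748) (nat_lit 2116371334) (nat_lit 76) (nat_lit 301364382) (nat_lit 435) (nat_lit 5) (nat_lit 458) (nat_lit 5) (nat_lit 436) (nat_lit 5) (nat_lit 572) (nat_lit 539) (nat_lit 449)) (XT.nd (nat_lit 78) (nat_lit 76) (nat_lit 0) (XT.lf (nat_lit 0) (nat_lit 3179947413) (nat_lit 988) (nat_lit 5374023906) (nat_lit 1064) (nat_lit 583413790) (nat_lit 422) (nat_lit 5) (nat_lit 435) (nat_lit 5) (nat_lit 436) (nat_lit 5) (nat_lit 573) (nat_lit 539) (nat_lit 448)) (XT.lf (nat_lit 0) (nat_lit 1258901389) (nat_lit 1064) (nat_lit 643435546) (nat_lit 76) (nat_lit 7319134062) (nat_lit 421) (nat_lit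 5) (nat_lit 435) (nat_lit 5) (nat_lit 422) (nat_lit 5) (nat_lit 574) (nat_lit 539) (nat_lit 447)))) (XT.nd (nat_lit 78) (nat_lit 912) (nat_lit 0) (XT.lf (nat_lit 0) (nat_lit 3146790658) (nat_lit 988) (nat_lit 4506105317) (nat_lit 76) (nat_lit 1653938676) (nat_lit 409) (nat_lit 5) (nat_lit 422) (nat_lit 5) (nat_lit 410) (nat_lit 5) (nat_lit 575) (nat_lit 539) (nat_lit 446)) (XT.nd (nat_lit 78) (nat_lit 0) (nat_lit 0) (XT.lf (nat_lit 0) (nat_lit 943812228) (nat_lit 912) (nat_lit 4126460313) (nat_lit 988) (nat_lit 4323680229) (nat_lit 397) (nat_lit 5) (nat_lit 409) (nat_lit 5) (nat_lit 410) (nat_lit 5) (nat_lit 576) (nat_lit 539) (nat_lit 445)) (XT.lf (nat_lit 0) (nat_lit 6539352122) (nat_lit 912) (nat_lit 498208669) (nat_lit 988) (nat_lit 2445149537) (nat_lit 397) (nat_lit 5) (nat_lit 409) (nat_lit 5) (nat_lit 410) (nat_lit 5) (nat_lit 577) (nat_lit 539) (nat_lit 444)))))) (XT.nd (nat_lit 468) (nat_lit 3116) (nat_lit 0) (XT.nd (nat_lit 234) (nat_lit 1596) (nat_lit 0) (XT.nd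 (nat_lit 78) (nat_lit 912) (nat_lit 0) (XT.lf (nat_lit 0) (nat_lit 2663222237) (nat_lit 836) (nat_lit 6394646917) (nat_lit 912) (nat_lit 515104135) (nat_lit 386) (nat_lit 5) (nat_lit 397) (nat_lit 5) (nat_lit 398) (nat_lit 5) (nat_lit 578) (nat_lit 539) (nat_lit 443)) (XT.nd (nat_lit 78) (nat_lit 836) (nat_lit 0) (XT.lf (nat_lit 0) (nat_lit 1433407514) (nat_lit 912) (nat_lit 1280319369) (nat_lit 76) (nat_lit 6951150895) (nat_lit 385) (nat_lit 5) (nat_lit 397) (nat_lit 5) (nat_lit 386) (nat_lit 5) (nat_lit 579) (nat_lit 539) (nat_lit 442)) (XT.lf (nat_lit 0) (nat_lit 3426364187) (nat_lit 912) (nat_lit 5272356277) (nat_lit 76) (nat_lit 1059587878) (nat_lit 374) (nat_lit 5) (nat_lit 386) (nat_lit 5) (nat_lit 375) (nat_lit 5) (nat_lit 580) (nat_lit 539) (nat_lit 441)))) (XT.nd (nat_lit 78) (nat_lit 836) (nat_lit 0) (XT.lf (nat_lit 0) (nat_lit 495472954) (nat_lit 760) (nat_lit 4970073859) (nat_lit 836) (nat_lit 4387936822) (nat_lit 364) (nat_lit 5) (nat_lit 374) (nat_lit 5)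 (nat_lit 375) (nat_lit 5) (nat_lit 581) (nat_lit 539) (nat_lit 440)) (XT.nd (nat_lit 78) (nat_lit 836) (nat_lit 0) (XT.lf (nat_lit 0) (nat_lit 6425822929) (nat_lit 760) (nat_lit 1131902518) (nat_lit 836) (nat_lit 2392596123) (nat_lit 364) (nat_lit 5) (nat_lit 374) (nat_lit 5) (nat_lit 375) (nat_lit 5) (nat_lit 582) (nat_lit 539) (nat_lit 439)) (XT.lf (nat_lit 0) (nat_lit 2415009803) (nat_lit 836) (nat_lit 7287766100) (nat_lit 912) (nat_lit 346103116) (nat_lit 353) (nat_lit 5) (nat_lit 364) (nat_lit 5) (nat_lit 365) (nat_lit 5) (nat_lit 583) (nat_lit 539) (nat_lit 438))))) (XT.nd (nat_lit 234) (nat_lit 1520) (nat_lit 0) (XT.nd (nat_lit 78) (nat_lit 1520) (nat_lit 0) (XT.lf (nat_lit 0) (nat_lit 1727202205) (nat_lit 912) (nat_lit 1671230568) (nat_lit 76) (nat_lit 6750577515) (nat_lit 352) (nat_lit 5) (nat_lit 364) (nat_lit 5) (nat_lit 353) (nat_lit 5) (nat_lit 584) (nat_lit 539) (nat_lit 437)) (XT.nd (nat_lit 78) (nat_lit 760) (nat_lit 0) (XT.lf (nat_lit 0) (nat_lit 3847934435)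 (nat_lit 836) (nat_lit 5812161267) (nat_lit 76) (nat_lit 590793949) (nat_lit 342) (nat_lit 5) (nat_lit 353) (nat_lit 5) (nat_lit 343) (nat_lit 5) (nat_lit 585) (nat_lit 539) (nat_lit 436)) (XT.lf (nat_lit 0) (nat_lit 296047595) (nat_lit 760) (nat_lit 5728877433) (nat_lit 836) (nat_lit 4329607767) (nat_lit 332) (nat_lit 5) (nat_lit 342) (nat_lit 5) (nat_lit 343) (nat_lit 5) (nat_lit 586) (nat_lit 539) (nat_lit 435)))) (XT.nd (nat_lit 156) (nat_lit 836) (nat_lit 0) (XT.nd (nat_lit 78) (nat_lit 684) (nat_lit 0) (XT.lf (nat_lit 0) (nat_lit 6581152451) (nat_lit 760) (nat_lit 1681704664) (nat_lit 836) (nat_lit 2197046659) (nat_lit 332) (nat_lit 5) (nat_lit 342) (nat_lit 5) (nat_lit 343) (nat_lit 5) (nat_lit 587) (nat_lit 539) (nat_lit 434)) (XT.lf (nat_lit 0) (nat_lit 2416392115) (nat_lit 684) (nat_lit 8139535232) (nat_lit 760) (nat_lit 11250181) (nat_lit 323) (nat_lit 5) (nat_lit 332) (nat_lit 5) (nat_lit 333) (nat_lit 5) (nat_lit 588) (nat_lit 539) (nat_lit 433))) (XT.nd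 (nat_lit 78) (nat_lit 760) (nat_lit 0) (XT.lf (nat_lit 0) (nat_lit 2205433550) (nat_lit 760) (nat_lit 1835890043) (nat_lit 76) (nat_lit 6634662666) (nat_lit 322) (nat_lit 5) (nat_lit 332) (nat_lit 5) (nat_lit 323) (nat_lit 5) (nat_lit 589) (nat_lit 539) (nat_lit 432)) (XT.lf (nat_lit 0) (nat_lit 4476864199) (nat_lit 836) (nat_lit 6145394458) (nat_lit 76) (nat_lit 164502519) (nat_lit 312) (nat_lit 5) (nat_lit 323) (nat_lit 5) (nat_lit 313) (nat_lit 5) (nat_lit 590) (nat_lit 539) (nat_lit 431))))))) (XT.nd (nat_lit 936) (nat_lit 4408) (nat_lit 0) (XT.nd (nat_lit 468) (nat_lit 1824) (nat_lit 0) (XT.nd (nat_lit 234) (nat_lit 1292) (nat_lit 0) (XT.nd (nat_lit 78) (nat_lit 760) (nat_lit 0) (XT.lf (nat_lit 0) (nat_lit 327113964) (nat_lit 684) (nat_lit 6487470529) (nat_lit 760) (nat_lit 4084752600) (nat_lit 303) (nat_lit 5) (nat_lit 312) (nat_lit 5) (nat_lit 313) (nat_lit 5) (nat_lit 591) (nat_lit 539) (nat_lit 430)) (XT.nd (nat_lit 78) (nat_lit 760) (nat_lit 0) (XT.lf (nat_lit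 0) (nat_lit 6988651836) (nat_lit 684) (nat_lit 2231464791) (nat_lit 760) (nat_lit 1793629423) (nat_lit 303) (nat_lit 5) (nat_lit 312) (nat_lit 5) (nat_lit 313) (nat_lit 5) (nat_lit 592) (nat_lit 539) (nat_lit 429)) (XT.lf (nat_lit 0) (nat_lit 547358726) (nat_lit 760) (nat_lit 8483418167) (nat_lit 76) (nat_lit 2099374943) (nat_lit 293) (nat_lit 5) (nat_lit 303) (nat_lit 5) (nat_lit 294) (nat_lit 5) (nat_lit 593) (nat_lit 539) (nat_lit 428)))) (XT.nd (nat_lit 78) (nat_lit 1292) (nat_lit 0) (XT.lf (nat_lit 0) (nat_lit 2933435264) (nat_lit 760) (nat_lit 1792364011) (nat_lit 76) (nat_lit 6522406153) (nat_lit 293) (nat_lit 5) (nat_lit 303) (nat_lit 5) (nat_lit 294) (nat_lit 5) (nat_lit 594) (nat_lit 539) (nat_lit 427)) (XT.nd (nat_lit 78) (nat_lit 684) (nat_lit 0) (XT.lf (nat_lit 0) (nat_lit 5075804178) (nat_lit 608) (nat_lit 305066586) (nat_lit 684) (nat_lit 5987479048) (nat_lit 285) (nat_lit 5) (nat_lit 293) (nat_lit 5) (nat_lit 294) (nat_lit 5) (nat_lit 595) (nat_lit 539)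 (nat_lit 426)) (XT.lf (nat_lit 0) (nat_lit 571614658) (nat_lit 684) (nat_lit 7329639054) (nat_lit 760) (nat_lit 3589165812) (nat_lit 276) (nat_lit 5) (nat_lit 285) (nat_lit 5) (nat_lit 286) (nat_lit 5) (nat_lit 596) (nat_lit 539) (nat_lit 425))))) (XT.nd (nat_lit 234) (nat_lit 1140) (nat_lit 0) (XT.nd (nat_lit 78) (nat_lit 684) (nat_lit 0) (XT.lf (nat_lit 0) (nat_lit 7632980592) (nat_lit 684) (nat_lit 2864404792) (nat_lit 760) (nat_lit 1117040796) (nat_lit 276) (nat_lit 5) (nat_lit 285) (nat_lit 5) (nat_lit 286) (nat_lit 5) (nat_lit 597) (nat_lit 539) (nat_lit 424)) (XT.nd (nat_lit 78) (nat_lit 0) (nat_lit 0) (XT.lf (nat_lit 0) (nat_lit 1398745093) (nat_lit 684) (nat_lit 8648721570) (nat_lit 76) (nat_lit 1693013421) (nat_lit 267) (nat_lit 5) (nat_lit 276) (nat_lit 5) (nat_lit 268) (nat_lit 5) (nat_lit 598) (nat_lit 539) (nat_lit 423)) (XT.lf (nat_lit 0) (nat_lit 3977307881) (nat_lit 684) (nat_lit 1557978070) (nat_lit 76) (nat_lit 6333075312) (nat_lit 267) (nat_lit 5)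 (nat_lit 276) (nat_lit 5) (nat_lit 268) (nat_lit 5) (nat_lit 599) (nat_lit 539) (nat_lit 422)))) (XT.nd (nat_lit 78) (nat_lit 532) (nat_lit 0) (XT.lf (nat_lit 0) (nat_lit 5726836368) (nat_lit 608) (nat_lit 899690205) (nat_lit 684) (nat_lit 5371893988) (nat_lit 259) (nat_lit 5) (nat_lit 267) (nat_lit 5) (nat_lit 268) (nat_lit 5) (nat_lit 600) (nat_lit 539) (nat_lit 421)) (XT.nd (nat_lit 78) (nat_lit 0) (nat_lit 0) (XT.lf (nat_lit 0) (nat_lit 1012920636) (nat_lit 532) (nat_lit 8339846018) (nat_lit 608) (nat_lit 2777835796) (nat_lit 252) (nat_lit 5) (nat_lit 259) (nat_lit 5) (nat_lit 260) (nat_lit 5) (nat_lit 601) (nat_lit 539) (nat_lit 420)) (XT.lf (nat_lit 0) (nat_lit 8499211871) (nat_lit 532) (nat_lit 3664605615) (nat_lit 608) (nat_lit 101006878) (nat_lit 252) (nat_lit 5) (nat_lit 259) (nat_lit 5) (nat_lit 260) (nat_lit 5) (nat_lit 602) (nat_lit 539) (nat_lit 419)))))) (XT.nd (nat_lit 468) (nat_lit 2052) (nat_lit 0) (XT.nd (nat_lit 234) (nat_lit 1140) (nat_lit 0) (XT.nd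 (nat_lit 78) (nat_lit 532) (nat_lit 0) (XT.lf (nat_lit 0) (nat_lit 2609096009) (nat_lit 684) (nat_lit 8665814510) (nat_lit 76) (nat_lit 1126196351) (nat_lit 243) (nat_lit 5) (nat_lit 252) (nat_lit 5) (nat_lit 244) (nat_lit 5) (nat_lit 603) (nat_lit 539) (nat_lit 418)) (XT.nd (nat_lit 78) (nat_lit 532) (nat_lit 0) (XT.lf (nat_lit 0) (nat_lit 5404429687) (nat_lit 684) (nat_lit 1150285514) (nat_lit 76) (nat_lit 5984740831) (nat_lit 243) (nat_lit 5) (nat_lit 252) (nat_lit 5) (nat_lit 244) (nat_lit 5) (nat_lit 604) (nat_lit 539) (nat_lit 417)) (XT.lf (nat_lit 0) (nat_lit 6579462667) (nat_lit 532) (nat_lit 1701939775) (nat_lit 608) (nat_lit 4398657032) (nat_lit 236) (nat_lit 5) (nat_lit 243) (nat_lit 5) (nat_lit 244) (nat_lit 5) (nat_lit 605) (nat_lit 539) (nat_lit 416)))) (XT.nd (nat_lit 78) (nat_lit 608) (nat_lit 0) (XT.lf (nat_lit 0) (nat_lit 1633829493) (nat_lit 532) (nat_lit 9604718223) (nat_lit 608) (nat_lit 1584476514) (nat_lit 229) (nat_lit 5) (nat_lit 236) (nat_lit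 5) (nat_lit 237) (nat_lit 5) (nat_lit 606) (nat_lit 539) (nat_lit 415)) (XT.nd (nat_lit 78) (nat_lit 532) (nat_lit 0) (XT.lf (nat_lit 0) (nat_lit 1304842250) (nat_lit 608) (nat_lit 3404895535) (nat_lit 76) (nat_lit 8258230927) (nat_lit 228) (nat_lit 5) (nat_lit 236) (nat_lit 5) (nat_lit 229) (nat_lit 5) (nat_lit 607) (nat_lit 539) (nat_lit 414)) (XT.lf (nat_lit 0) (nat_lit 4246007815) (nat_lit 608) (nat_lit 8555146061) (nat_lit 76) (nat_lit 314145005) (nat_lit 221) (nat_lit 5) (nat_lit 229) (nat_lit 5) (nat_lit 222) (nat_lit 5) (nat_lit 608) (nat_lit 539) (nat_lit 413))))) (XT.nd (nat_lit 234) (nat_lit 988) (nat_lit 0) (XT.nd (nat_lit 78) (nat_lit 1064) (nat_lit 0) (XT.lf (nat_lit 0) (nat_lit 7283897434) (nat_lit 608) (nat_lit 588117782) (nat_lit 76) (nat_lit 5392804183) (nat_lit 221) (nat_lit 5) (nat_lit 229) (nat_lit 5) (nat_lit 222) (nat_lit 5) (nat_lit 609) (nat_lit 539) (nat_lit 412)) (XT.nd (nat_lit 78) (nat_lit 532) (nat_lit 0) (XT.lf (nat_lit 0) (nat_lit 7616263384)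 (nat_lit 532) (nat_lit 2799761167) (nat_lit 608) (nat_lit 3000637909) (nat_lit 214) (nat_lit 5) (nat_lit 221) (nat_lit 5) (nat_lit 222) (nat_lit 5) (nat_lit 610) (nat_lit 539) (nat_lit 411)) (XT.lf (nat_lit 0) (nat_lit 58094834) (nat_lit 532) (nat_lit 11156072369) (nat_lit 76) (nat_lit 2356984587) (nat_lit 207) (nat_lit 5) (nat_lit 214) (nat_lit 5) (nat_lit 208) (nat_lit 5) (nat_lit 611) (nat_lit 539) (nat_lit 410)))) (XT.nd (nat_lit 156) (nat_lit 456) (nat_lit 0) (XT.nd (nat_lit 78) (nat_lit 532) (nat_lit 0) (XT.lf (nat_lit 0) (nat_lit 3179810747) (nat_lit 532) (nat_lit 2915207996) (nat_lit 76) (nat_lit 7632477365) (nat_lit 207) (nat_lit 5) (nat_lit 214) (nat_lit 5) (nat_lit 208) (nat_lit 5) (nat_lit 612) (nat_lit 539) (nat_lit 409)) (XT.lf (nat_lit 0) (nat_lit 5541506442) (nat_lit 532) (nat_lit 842969486) (nat_lit 608) (nat_lit 7502082680) (nat_lit 200) (nat_lit 5) (nat_lit 207) (nat_lit 5) (nat_lit 208) (nat_lit 5) (nat_lit 613) (nat_lit 539) (nat_lit 408))) (XT.nd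 (nat_lit 78) (nat_lit 0) (nat_lit 0) (XT.lf (nat_lit 0) (nat_lit 108677597) (nat_lit 456) (nat_lit 9578922378) (nat_lit 532) (nat_lit 4360516636) (nat_lit 194) (nat_lit 5) (nat_lit 200) (nat_lit 5) (nat_lit 201) (nat_lit 5) (nat_lit 614) (nat_lit 539) (nat_lit 407)) (XT.lf (nat_lit 0) (nat_lit 8817317808) (nat_lit 456) (nat_lit 4285833780) (nat_lit 532) (nat_lit 1108828417) (nat_lit 194) (nat_lit 5) (nat_lit 200) (nat_lit 5) (nat_lit 201) (nat_lit 5) (nat_lit 615) (nat_lit 539) (nat_lit 406))))))))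
noncomputable def xc130 : XT := (XT.nd (nat_lit 1950) (nat_lit 2432) (nat_lit 0) (XT.nd (nat_lit 936) (nat_lit 2888) (nat_lit 0) (XT.nd (nat_lit 468) (nat_lit 1292) (nat_lit 0) (XT.nd (nat_lit 234) (nat_lit 912) (nat_lit 0) (XT.nd (nat_lit 78) (nat_lit 456) (nat_lit 0) (XT.lf (nat_lit 0) (nat_lit 2192990903) (nat_lit 532) (nat_lit 11057195015) (nat_lit 76) (nat_lit 1128368435) (nat_lit 187) (nat_lit 5) (nat_lit 194) (nat_lit 5) (nat_lit 188) (nat_lit 5) (nat_lit 616) (nat_lit 539) (nat_lit 405)) (XT.nd (nat_lit 78) (nat_lit 456) (nat_lit 0) (XT.lf (nat_lit 0) (nat_lit 5595968147) (nat_lit 532) (nat_lit 2320393463) (nat_lit 76) (nat_lit 6630954061) (nat_lit 187) (nat_lit 5) (nat_lit 194) (nat_lit 5) (nat_lit 188) (nat_lit 5) (nat_lit 617) (nat_lit 539) (nat_lit 404)) (XT.lf (nat_lit 0) (nat_lit 6657359840) (nat_lit 456) (nat_lit 2438291740) (nat_lit 532) (nat_lit 5623229120) (nat_lit 181) (nat_lit 5) (nat_lit 187) (nat_lit 5) (nat_lit 188) (nat_lit 5) (nat_lit 618) (nat_lit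 539) (nat_lit 403)))) (XT.nd (nat_lit 78) (nat_lit 456) (nat_lit 0) (XT.lf (nat_lit 0) (nat_lit 922903979) (nat_lit 456) (nat_lit 11770068595) (nat_lit 532) (nat_lit 2200352965) (nat_lit 175) (nat_lit 5) (nat_lit 181) (nat_lit 5) (nat_lit 182) (nat_lit 5) (nat_lit 619) (nat_lit 539) (nat_lit 402)) (XT.nd (nat_lit 78) (nat_lit 380) (nat_lit 0) (XT.lf (nat_lit 0) (nat_lit 1330232960) (nat_lit 532) (nat_lit 4920030718) (nat_lit 76) (nat_lit 8819705620) (nat_lit 174) (nat_lit 5) (nat_lit 181) (nat_lit 5) (nat_lit 175) (nat_lit 5) (nat_lit 620) (nat_lit 539) (nat_lit 401)) (XT.lf (nat_lit 0) (nat_lit 4332779140) (nat_lit 380) (nat_lit 583211043) (nat_lit 456) (nat_lit 10333585725) (nat_lit 169) (nat_lit 5) (nat_lit 174) (nat_lit 5) (nat_lit 175) (nat_lit 5) (nat_lit 621) (nat_lit 539) (nat_lit 400))))) (XT.nd (nat_lit 234) (nat_lit 380) (nat_lit 0) (XT.nd (nat_lit 78) (nat_lit 912) (nat_lit 0) (XT.lf (nat_lit 0) (nat_lit 8626403425) (nat_lit 456) (nat_lit 1649681600) (nat_lit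 76) (nat_lit 5155632091) (nat_lit 169) (nat_lit 5) (nat_lit 175) (nat_lit 5) (nat_lit 170) (nat_lit 5) (nat_lit 622) (nat_lit 539) (nat_lit 399)) (XT.nd (nat_lit 78) (nat_lit 456) (nat_lit 0) (XT.lf (nat_lit 0) (nat_lit 7881752214) (nat_lit 456) (nat_lit 4570546517) (nat_lit 532) (nat_lit 3164378198) (nat_lit 163) (nat_lit 5) (nat_lit 169) (nat_lit 5) (nat_lit 170) (nat_lit 5) (nat_lit 623) (nat_lit 539) (nat_lit 398)) (XT.lf (nat_lit 0) (nat_lit 559660734) (nat_lit 456) (nat_lit 13992601433) (nat_lit 76) (nat_lit 1252653846) (nat_lit 157) (nat_lit 5) (nat_lit 163) (nat_lit 5) (nat_lit 158) (nat_lit 5) (nat_lit 624) (nat_lit 539) (nat_lit 397)))) (XT.nd (nat_lit 78) (nat_lit 380) (nat_lit 0) (XT.lf (nat_lit 0) (nat_lit 4384742219) (nat_lit 456) (nat_lit 4412775733) (nat_lit 76) (nat_lit 7197606123) (nat_lit 157) (nat_lit 5) (nat_lit 163) (nat_lit 5) (nat_lit 158) (nat_lit 5) (nat_lit 625) (nat_lit 539) (nat_lit 396)) (XT.nd (nat_lit 78) (nat_lit 0) (nat_lit 0) (XT.lf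 (nat_lit 0) (nat_lit 5409322923) (nat_lit 380) (nat_lit 2898765980) (nat_lit 456) (nat_lit 7880613287) (nat_lit 152) (nat_lit 5) (nat_lit 157) (nat_lit 5) (nat_lit 158) (nat_lit 5) (nat_lit 626) (nat_lit 539) (nat_lit 395)) (XT.lf (nat_lit 0) (nat_lit 12346683533) (nat_lit 456) (nat_lit 938674983) (nat_lit 76) (nat_lit 3100058870) (nat_lit 152) (nat_lit 5) (nat_lit 158) (nat_lit 5) (nat_lit 153) (nat_lit 5) (nat_lit 627) (nat_lit 539) (nat_lit 394)))))) (XT.nd (nat_lit 468) (nat_lit 1292) (nat_lit 0) (XT.nd (nat_lit 234) (nat_lit 760) (nat_lit 0) (XT.nd (nat_lit 78) (nat_lit 456) (nat_lit 0) (XT.lf (nat_lit 0) (nat_lit 9180088629) (nat_lit 380) (nat_lit 7351750978) (nat_lit 456) (nat_lit 52912605) (nat_lit 147) (nat_lit 5) (nat_lit 152) (nat_lit 5) (nat_lit 153) (nat_lit 5) (nat_lit 628) (nat_lit 539) (nat_lit 393)) (XT.nd (nat_lit 78) (nat_lit 0) (nat_lit 0) (XT.lf (nat_lit 0) (nat_lit 2715525711) (nat_lit 380) (nat_lit 1255473962) (nat_lit 456) (nat_lit 12816334065)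 (nat_lit 141) (nat_lit 5) (nat_lit 146) (nat_lit 5) (nat_lit 147) (nat_lit 5) (nat_lit 629) (nat_lit 539) (nat_lit 392)) (XT.lf (nat_lit 0) (nat_lit 8144030890) (nat_lit 456) (nat_lit 3907462072) (nat_lit 76) (nat_lit 4941081004) (nat_lit 141) (nat_lit 5) (nat_lit 147) (nat_lit 5) (nat_lit 142) (nat_lit 5) (nat_lit 630) (nat_lit 539) (nat_lit 391)))) (XT.nd (nat_lit 78) (nat_lit 456) (nat_lit 0) (XT.lf (nat_lit 0) (nat_lit 6517651168) (nat_lit 304) (nat_lit 5920864588) (nat_lit 380) (nat_lit 4762644417) (nat_lit 137) (nat_lit 5) (nat_lit 141) (nat_lit 5) (nat_lit 142) (nat_lit 5) (nat_lit 631) (nat_lit 539) (nat_lit 390)) (XT.nd (nat_lit 78) (nat_lit 456) (nat_lit 0) (XT.lf (nat_lit 0) (nat_lit 16834879958) (nat_lit 380) (nat_lit 231253543) (nat_lit 76) (nat_lit 347465820) (nat_lit 137) (nat_lit 5) (nat_lit 142) (nat_lit 5) (nat_lit 138) (nat_lit 5) (nat_lit 632) (nat_lit 539) (nat_lit 389)) (XT.lf (nat_lit 0) (nat_lit 3736260332) (nat_lit 456) (nat_lit 7143673153) (nat_lit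 76) (nat_lit 6747960595) (nat_lit 131) (nat_lit 5) (nat_lit 137) (nat_lit 5) (nat_lit 132) (nat_lit 5) (nat_lit 633) (nat_lit 539) (nat_lit 388))))) (XT.nd (nat_lit 234) (nat_lit 684) (nat_lit 0) (XT.nd (nat_lit 78) (nat_lit 304) (nat_lit 0) (XT.lf (nat_lit 0) (nat_lit 3594585888) (nat_lit 304) (nat_lit 4547830450) (nat_lit 380) (nat_lit 9703730328) (nat_lit 127) (nat_lit 5) (nat_lit 131) (nat_lit 5) (nat_lit 132) (nat_lit 5) (nat_lit 634) (nat_lit 539) (nat_lit 387)) (XT.nd (nat_lit 78) (nat_lit 304) (nat_lit 0) (XT.lf (nat_lit 0) (nat_lit 12685145062) (nat_lit 380) (nat_lit 3455566604) (nat_lit 76) (nat_lit 1927084580) (nat_lit 127) (nat_lit 5) (nat_lit 132) (nat_lit 5) (nat_lit 128) (nat_lit 5) (nat_lit 635) (nat_lit 539) (nat_lit 386)) (XT.lf (nat_lit 0) (nat_lit 7606896022) (nat_lit 304) (nat_lit 9779366296) (nat_lit 380) (nat_lit 906266736) (nat_lit 123) (nat_lit 5) (nat_lit 127) (nat_lit 5) (nat_lit 128) (nat_lit 5) (nat_lit 636) (nat_lit 539) (nat_lit 385))))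 (XT.nd (nat_lit 156) (nat_lit 304) (nat_lit 0) (XT.nd (nat_lit 78) (nat_lit 0) (nat_lit 0) (XT.lf (nat_lit 0) (nat_lit 378067198) (nat_lit 304) (nat_lit 3247437193) (nat_lit 380) (nat_lit 14895500673) (nat_lit 118) (nat_lit 5) (nat_lit 122) (nat_lit 5) (nat_lit 123) (nat_lit 5) (nat_lit 637) (nat_lit 539) (nat_lit 384)) (XT.lf (nat_lit 0) (nat_lit 8318264898) (nat_lit 380) (nat_lit 6992576475) (nat_lit 76) (nat_lit 3441440500) (nat_lit 118) (nat_lit 5) (nat_lit 123) (nat_lit 5) (nat_lit 119) (nat_lit 5) (nat_lit 638) (nat_lit 539) (nat_lit 383))) (XT.nd (nat_lit 78) (nat_lit 0) (nat_lit 0) (XT.lf (nat_lit 0) (nat_lit 4398146783) (nat_lit 304) (nat_lit 8745151734) (nat_lit 380) (nat_lit 5844118189) (nat_lit 114) (nat_lit 5) (nat_lit 118) (nat_lit 5) (nat_lit 119) (nat_lit 5) (nat_lit 639) (nat_lit 539) (nat_lit 382)) (XT.lf (nat_lit 0) (nat_lit 16092772909) (nat_lit 304) (nat_lit 2007446696) (nat_lit 380) (nat_lit 1126327725) (nat_lit 114) (nat_lit 5) (nat_lit 118) (nat_lit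 5) (nat_lit 119) (nat_lit 5) (nat_lit 640) (nat_lit 539) (nat_lit 381))))))) (XT.nd (nat_lit 936) (nat_lit 76) (nat_lit 0) (XT.nd (nat_lit 468) (nat_lit 1064) (nat_lit 0) (XT.nd (nat_lit 234) (nat_lit 608) (nat_lit 0) (XT.nd (nat_lit 78) (nat_lit 304) (nat_lit 0) (XT.lf (nat_lit 0) (nat_lit 3714138233) (nat_lit 380) (nat_lit 10879671664) (nat_lit 76) (nat_lit 4874639654) (nat_lit 109) (nat_lit 5) (nat_lit 114) (nat_lit 5) (nat_lit 110) (nat_lit 5) (nat_lit 641) (nat_lit 539) (nat_lit 380)) (XT.nd (nat_lit 78) (nat_lit 0) (nat_lit 0) (XT.lf (nat_lit 0) (nat_lit 845140400) (nat_lit 304) (nat_lit 7819827306) (nat_lit 380) (nat_lit 11049501278) (nat_lit 105) (nat_lit 5) (nat_lit 109) (nat_lit 5) (nat_lit 110) (nat_lit 5) (nat_lit 642) (nat_lit 539) (nat_lit 379)) (XT.lf (nat_lit 0) (nat_lit 12933505330) (nat_lit 304) (nat_lit 843090813) (nat_lit 380) (nat_lit 6187577781) (nat_lit 105) (nat_lit 5) (nat_lit 109) (nat_lit 5) (nat_lit 110) (nat_lit 5) (nat_lit 643) (nat_lit 539)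 (nat_lit 378)))) (XT.nd (nat_lit 78) (nat_lit 380) (nat_lit 0) (XT.lf (nat_lit 0) (nat_lit 5052059532) (nat_lit 228) (nat_lit 14000876962) (nat_lit 304) (nat_lit 1164687634) (nat_lit 102) (nat_lit 5) (nat_lit 105) (nat_lit 5) (nat_lit 106) (nat_lit 5) (nat_lit 644) (nat_lit 539) (nat_lit 377)) (XT.nd (nat_lit 78) (nat_lit 304) (nat_lit 0) (XT.lf (nat_lit 0) (nat_lit 3948791294) (nat_lit 304) (nat_lit 3053314412) (nat_lit 76) (nat_lit 13472683317) (nat_lit 101) (nat_lit 5) (nat_lit 105) (nat_lit 5) (nat_lit 102) (nat_lit 5) (nat_lit 645) (nat_lit 539) (nat_lit 376)) (XT.lf (nat_lit 0) (nat_lit 9200469373) (nat_lit 380) (nat_lit 11338404025) (nat_lit 76) (nat_lit 197040059) (nat_lit 97) (nat_lit 5) (nat_lit 102) (nat_lit 5) (nat_lit 98) (nat_lit 5) (nat_lit 646) (nat_lit 539) (nat_lit 375))))) (XT.nd (nat_lit 234) (nat_lit 456) (nat_lit 0) (XT.nd (nat_lit 78) (nat_lit 380) (nat_lit 0) (XT.lf (nat_lit 0) (nat_lit 1086677804) (nat_lit 228) (nat_lit 13533796196) (nat_lit 304)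 (nat_lit 6380521215) (nat_lit 94) (nat_lit 5) (nat_lit 97) (nat_lit 5) (nat_lit 98) (nat_lit 5) (nat_lit 647) (nat_lit 539) (nat_lit 374)) (XT.nd (nat_lit 78) (nat_lit 380) (nat_lit 0) (XT.lf (nat_lit 0) (nat_lit 13896119885) (nat_lit 228) (nat_lit 6318181605) (nat_lit 304) (nat_lit 1055769344) (nat_lit 94) (nat_lit 5) (nat_lit 97) (nat_lit 5) (nat_lit 98) (nat_lit 5) (nat_lit 648) (nat_lit 539) (nat_lit 373)) (XT.lf (nat_lit 0) (nat_lit 4350044198) (nat_lit 380) (nat_lit 16108036585) (nat_lit 76) (nat_lit 1085240629) (nat_lit 89) (nat_lit 5) (nat_lit 94) (nat_lit 5) (nat_lit 90) (nat_lit 5) (nat_lit 649) (nat_lit 539) (nat_lit 372)))) (XT.nd (nat_lit 78) (nat_lit 456) (nat_lit 0) (XT.lf (nat_lit 0) (nat_lit 9931025551) (nat_lit 380) (nat_lit 3287222564) (nat_lit 76) (nat_lit 8602026191) (nat_lit 89) (nat_lit 5) (nat_lit 94) (nat_lit 5) (nat_lit 90) (nat_lit 5) (nat_lit 650) (nat_lit 539) (nat_lit 371)) (XT.nd (nat_lit 78) (nat_lit 228) (nat_lit 0) (XT.lf (nat_lit 0)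 (nat_lit 9902553492) (nat_lit 228) (nat_lit 5775094454) (nat_lit 304) (nat_lit 6424038512) (nat_lit 86) (nat_lit 5) (nat_lit 89) (nat_lit 5) (nat_lit 90) (nat_lit 5) (nat_lit 651) (nat_lit 539) (nat_lit 370)) (XT.lf (nat_lit 0) (nat_lit 996147832) (nat_lit 228) (nat_lit 20573295831) (nat_lit 304) (nat_lit 818678989) (nat_lit 83) (nat_lit 5) (nat_lit 86) (nat_lit 5) (nat_lit 87) (nat_lit 5) (nat_lit 652) (nat_lit 539) (nat_lit 369)))))) (XT.nd (nat_lit 72774) (nat_lit 0) (nat_lit 39064) (XT.nd (nat_lit 72540) (nat_lit 0) (nat_lit 40280) (XT.nd (nat_lit 72384) (nat_lit 0) (nat_lit 41420) (XT.lf (nat_lit 0) (nat_lit 4944981873) (nat_lit 304) (nat_lit 8145942180) (nat_lit 76) (nat_lit 9586519133) (nat_lit 82) (nat_lit 5) (nat_lit 86) (nat_lit 5) (nat_lit 83) (nat_lit 5) (nat_lit 653) (nat_lit 539) (nat_lit 368)) (XT.nd (nat_lit 78) (nat_lit 0) (nat_lit 0) (XT.lf (nat_lit 0) (nat_lit 309301344) (nat_lit 0) (nat_lit 309301344) (nat_lit 1140) (nat_lit 2984038387) (nat_lit 627)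 (nat_lit 5) (nat_lit 627) (nat_lit 3) (nat_lit 642) (nat_lit 3) (nat_lit 540) (nat_lit 540) (nat_lit 480)) (XT.lf (nat_lit 0) (nat_lit 2903554171) (nat_lit 1140) (nat_lit 3043070015) (nat_lit 1216) (nat_lit 1297303898) (nat_lit 627) (nat_lit 5) (nat_lit 642) (nat_lit 3) (nat_lit 643) (nat_lit 5) (nat_lit 541) (nat_lit 540) (nat_lit 479)))) (XT.nd (nat_lit 78) (nat_lit 1140) (nat_lit 0) (XT.lf (nat_lit 76) (nat_lit 551961817) (nat_lit 0) (nat_lit 4015928113) (nat_lit 1216) (nat_lit 2716172392) (nat_lit 628) (nat_lit 5) (nat_lit 627) (nat_lit 5) (nat_lit 643) (nat_lit 5) (nat_lit 542) (nat_lit 540) (nat_lit 478)) (XT.nd (nat_lit 78) (nat_lit 1140) (nat_lit 0) (XT.lf (nat_lit 76) (nat_lit 4237700359) (nat_lit 0) (nat_lit 2005910049) (nat_lit 1216) (nat_lit 1081835295) (nat_lit 628) (nat_lit 5) (nat_lit 627) (nat_lit 5) (nat_lit 643) (nat_lit 5) (nat_lit 543) (nat_lit 540) (nat_lit 477)) (XT.lf (nat_lit 0) (nat_lit 540169816) (nat_lit 1216) (nat_lit 6757662810) (nat_lit 1292)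 (nat_lit 70503105) (nat_lit 612) (nat_lit 5) (nat_lit 628) (nat_lit 5) (nat_lit 629) (nat_lit 5) (nat_lit 544) (nat_lit 540) (nat_lit 476))))) (XT.nd (nat_lit 234) (nat_lit 1216) (nat_lit 0) (XT.nd (nat_lit 78) (nat_lit 0) (nat_lit 0) (XT.lf (nat_lit 0) (nat_lit 2173303796) (nat_lit 1216) (nat_lit 3030709823) (nat_lit 1292) (nat_lit 2208071365) (nat_lit 612) (nat_lit 5) (nat_lit 628) (nat_lit 5) (nat_lit 629) (nat_lit 5) (nat_lit 545) (nat_lit 540) (nat_lit 475)) (XT.nd (nat_lit 78) (nat_lit 0) (nat_lit 0) (XT.lf (nat_lit 76) (nat_lit 757809701) (nat_lit 0) (nat_lit 3046033711) (nat_lit 1292) (nat_lit 3653578727) (nat_lit 613) (nat_lit 5) (nat_lit 612) (nat_lit 5) (nat_lit 629) (nat_lit 5) (nat_lit 546) (nat_lit 540) (nat_lit 474)) (XT.lf (nat_lit 76) (nat_lit 4640421085) (nat_lit 0) (nat_lit 807373160) (nat_lit 1292) (nat_lit 2056263408) (nat_lit 613) (nat_lit 5) (nat_lit 612) (nat_lit 5) (nat_lit 629) (nat_lit 5) (nat_lit 547) (nat_lit 540) (nat_lit 473)))) (XT.nd (nat_lit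 156) (nat_lit 0) (nat_lit 0) (XT.nd (nat_lit 78) (nat_lit 1292) (nat_lit 0) (XT.lf (nat_lit 76) (nat_lit 1029777147) (nat_lit 0) (nat_lit 6072461304) (nat_lit 1292) (nat_lit 449842615) (nat_lit 614) (nat_lit 5) (nat_lit 613) (nat_lit 5) (nat_lit 630) (nat_lit 5) (nat_lit 548) (nat_lit 540) (nat_lit 472)) (XT.lf (nat_lit 0) (nat_lit 1159500983) (nat_lit 1292) (nat_lit 2597563522) (nat_lit 1368) (nat_lit 3844125580) (nat_lit 596) (nat_lit 5) (nat_lit 613) (nat_lit 5) (nat_lit 614) (nat_lit 5) (nat_lit 549) (nat_lit 540) (nat_lit 471))) (XT.nd (nat_lit 78) (nat_lit 0) (nat_lit 76) (XT.lf (nat_lit 76) (nat_lit 1397921273) (nat_lit 0) (nat_lit 1368613629) (nat_lit 1368) (nat_lit 4885263421) (nat_lit 597) (nat_lit 5) (nat_lit 596) (nat_lit 5) (nat_lit 614) (nat_lit 5) (nat_lit 550) (nat_lit 540) (nat_lit 470)) (XT.lf (nat_lit 0) (nat_lit 4393310877) (nat_lit 1292) (nat_lit 2225381278) (nat_lit 1368) (nat_lit 1084981447) (nat_lit 597) (nat_lit 5) (nat_lit 614) (nat_lit 5) (nat_lit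 615) (nat_lit 5) (nat_lit 551) (nat_lit 540) (nat_lit 469))))))))
noncomputable def xc131 : XT := (XT.nd (nat_lit 1950) (nat_lit 11400) (nat_lit 0) (XT.nd (nat_lit 936) (nat_lit 10336) (nat_lit 0) (XT.nd (nat_lit 468) (nat_lit 2660) (nat_lit 0) (XT.nd (nat_lit 234) (nat_lit 0) (nat_lit 0) (XT.nd (nat_lit 78) (nat_lit 1292) (nat_lit 0) (XT.lf (nat_lit 76) (nat_lit 1875899432) (nat_lit 0) (nat_lit 4161812576) (nat_lit 1368) (nat_lit 1719179358) (nat_lit 598) (nat_lit 5) (nat_lit 597) (nat_lit 5) (nat_lit 615) (nat_lit 5) (nat_lit 552) (nat_lit 540) (nat_lit 468)) (XT.nd (nat_lit 78) (nat_lit 1292) (nat_lit 0) (XT.lf (nat_lit 76) (nat_lit 6066200765) (nat_lit 0) (nat_lit 1628138718) (nat_lit 1368) (nat_lit 117253873) (nat_lit 598) (nat_lit 5) (nat_lit 597) (nat_lit 5) (nat_lit 615) (nat_lit 5) (nat_lit 553) (nat_lit 540) (nat_lit 467)) (XT.lf (nat_lit 0) (nat_lit 1484192719) (nat_lit 1368) (nat_lit 5401731494) (nat_lit 1444) (nat_lit 981527112) (nat_lit 580) (nat_lit 5)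 (nat_lit 598) (nat_lit 5) (nat_lit 599) (nat_lit 5) (nat_lit 554) (nat_lit 540) (nat_lit 466)))) (XT.nd (nat_lit 78) (nat_lit 0) (nat_lit 0) (XT.lf (nat_lit 0) (nat_lit 3104151774) (nat_lit 1368) (nat_lit 1174925144) (nat_lit 1444) (nat_lit 3645579220) (nat_lit 580) (nat_lit 5) (nat_lit 598) (nat_lit 5) (nat_lit 599) (nat_lit 5) (nat_lit 555) (nat_lit 540) (nat_lit 465)) (XT.nd (nat_lit 78) (nat_lit 0) (nat_lit 76) (XT.lf (nat_lit 76) (nat_lit 3154445073) (nat_lit 0) (nat_lit 1588702201) (nat_lit 1444) (nat_lit 3240131159) (nat_lit 581) (nat_lit 5) (nat_lit 580) (nat_lit 5) (nat_lit 599) (nat_lit 5) (nat_lit 556) (nat_lit 540) (nat_lit 464)) (XT.lf (nat_lit 0) (nat_lit 6397096797) (nat_lit 1368) (nat_lit 488068990) (nat_lit 1444) (nat_lit 1158269917) (nat_lit 581) (nat_lit 5) (nat_lit 599) (nat_lit 5) (nat_lit 600) (nat_lit 5) (nat_lit 557) (nat_lit 540) (nat_lit 463))))) (XT.nd (nat_lit 234) (nat_lit 1292) (nat_lit 0) (XT.nd (nat_lit 78) (nat_lit 1444) (nat_lit 0) (XT.lf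 (nat_lit 76) (nat_lit 3957432826) (nat_lit 0) (nat_lit 4130295606) (nat_lit 1444) (nat_lit 17001519) (nat_lit 582) (nat_lit 5) (nat_lit 581) (nat_lit 5) (nat_lit 600) (nat_lit 5) (nat_lit 558) (nat_lit 540) (nat_lit 462)) (XT.nd (nat_lit 78) (nat_lit 0) (nat_lit 76) (XT.lf (nat_lit 76) (nat_lit 300778927) (nat_lit 0) (nat_lit 1295477317) (nat_lit 1520) (nat_lit 6571327765) (nat_lit 563) (nat_lit 5) (nat_lit 562) (nat_lit 5) (nat_lit 582) (nat_lit 5) (nat_lit 559) (nat_lit 540) (nat_lit 461)) (XT.lf (nat_lit 0) (nat_lit 3248121245) (nat_lit 1444) (nat_lit 3372044334) (nat_lit 1520) (nat_lit 1611401481) (nat_lit 563) (nat_lit 5) (nat_lit 582) (nat_lit 5) (nat_lit 583) (nat_lit 5) (nat_lit 560) (nat_lit 540) (nat_lit 460)))) (XT.nd (nat_lit 78) (nat_lit 1368) (nat_lit 0) (XT.lf (nat_lit 76) (nat_lit 1195912436) (nat_lit 0) (nat_lit 3722270899) (nat_lit 1520) (nat_lit 3378948688) (nat_lit 564) (nat_lit 5) (nat_lit 563) (nat_lit 5) (nat_lit 583) (nat_lit 5) (nat_lit 561) (nat_lit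 540) (nat_lit 459)) (XT.nd (nat_lit 78) (nat_lit 1368) (nat_lit 0) (XT.lf (nat_lit 76) (nat_lit 5877289419) (nat_lit 0) (nat_lit 736259169) (nat_lit 1520) (nat_lit 1750626994) (nat_lit 564) (nat_lit 5) (nat_lit 563) (nat_lit 5) (nat_lit 583) (nat_lit 5) (nat_lit 562) (nat_lit 540) (nat_lit 458)) (XT.lf (nat_lit 0) (nat_lit 2209885389) (nat_lit 1444) (nat_lit 6132199692) (nat_lit 1520) (nat_lit 90494889) (nat_lit 545) (nat_lit 5) (nat_lit 564) (nat_lit 5) (nat_lit 565) (nat_lit 5) (nat_lit 563) (nat_lit 540) (nat_lit 457)))))) (XT.nd (nat_lit 468) (nat_lit 5396) (nat_lit 0) (XT.nd (nat_lit 234) (nat_lit 3344) (nat_lit 0) (XT.nd (nat_lit 78) (nat_lit 1520) (nat_lit 0) (XT.lf (nat_lit 0) (nat_lit 1573648967) (nat_lit 1520) (nat_lit 1507190790) (nat_lit 76) (nat_lit 5421472971) (nat_lit 544) (nat_lit 5) (nat_lit 564) (nat_lit 5) (nat_lit 545) (nat_lit 5) (nat_lit 564) (nat_lit 540) (nat_lit 456)) (XT.nd (nat_lit 78) (nat_lit 0) (nat_lit 0) (XT.lf (nat_lit 0) (nat_lit 3262563035)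 (nat_lit 1596) (nat_lit 5251992619) (nat_lit 76) (nat_lit 59023476) (nat_lit 524) (nat_lit 5) (nat_lit 545) (nat_lit 5) (nat_lit 525) (nat_lit 5) (nat_lit 565) (nat_lit 540) (nat_lit 455)) (XT.lf (nat_lit 0) (nat_lit 4987036793) (nat_lit 1596) (nat_lit 423239536) (nat_lit 76) (nat_lit 3235963736) (nat_lit 524) (nat_lit 5) (nat_lit 545) (nat_lit 5) (nat_lit 525) (nat_lit 5) (nat_lit 566) (nat_lit 540) (nat_lit 454)))) (XT.nd (nat_lit 78) (nat_lit 1748) (nat_lit 0) (XT.lf (nat_lit 0) (nat_lit 4538006563) (nat_lit 1596) (nat_lit 2209219442) (nat_lit 1672) (nat_lit 1973108436) (nat_lit 503) (nat_lit 5) (nat_lit 524) (nat_lit 5) (nat_lit 525) (nat_lit 5) (nat_lit 567) (nat_lit 540) (nat_lit 453)) (XT.nd (nat_lit 78) (nat_lit 76) (nat_lit 0) (XT.lf (nat_lit 0) (nat_lit 787785152) (nat_lit 1672) (nat_lit 7741855196) (nat_lit 1748) (nat_lit 266534576) (nat_lit 481) (nat_lit 5) (nat_lit 503) (nat_lit 5) (nat_lit 504) (nat_lit 5) (nat_lit 568) (nat_lit 540) (nat_lit 452)) (XT.lf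 (nat_lit 0) (nat_lit 1470115211) (nat_lit 1748) (nat_lit 3007612303) (nat_lit 76) (nat_lit 4395312176) (nat_lit 480) (nat_lit 5) (nat_lit 503) (nat_lit 5) (nat_lit 481) (nat_lit 5) (nat_lit 569) (nat_lit 540) (nat_lit 451))))) (XT.nd (nat_lit 234) (nat_lit 1976) (nat_lit 0) (XT.nd (nat_lit 78) (nat_lit 1672) (nat_lit 0) (XT.lf (nat_lit 0) (nat_lit 2095122271) (nat_lit 1748) (nat_lit 1129350719) (nat_lit 1824) (nat_lit 5727207025) (nat_lit 457) (nat_lit 5) (nat_lit 480) (nat_lit 5) (nat_lit 481) (nat_lit 5) (nat_lit 570) (nat_lit 540) (nat_lit 450)) (XT.nd (nat_lit 78) (nat_lit 1672) (nat_lit 0) (XT.lf (nat_lit 0) (nat_lit 5022411315) (nat_lit 1824) (nat_lit 1729957587) (nat_lit 76) (nat_lit 2279358673) (nat_lit 457) (nat_lit 5) (nat_lit 481) (nat_lit 5) (nat_lit 458) (nat_lit 5) (nat_lit 571) (nat_lit 540) (nat_lit 449)) (XT.lf (nat_lit 0) (nat_lit 3514084496) (nat_lit 1672) (nat_lit 3346376545) (nat_lit 1748) (nat_lit 2252836200) (nat_lit 435) (nat_lit 5) (nat_lit 457)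 (nat_lit 5) (nat_lit 458) (nat_lit 5) (nat_lit 572) (nat_lit 540) (nat_lit 448)))) (XT.nd (nat_lit 156) (nat_lit 912) (nat_lit 0) (XT.nd (nat_lit 78) (nat_lit 1064) (nat_lit 0) (XT.lf (nat_lit 0) (nat_lit 8722018918) (nat_lit 1748) (nat_lit 334792085) (nat_lit 76) (nat_lit 139956482) (nat_lit 435) (nat_lit 5) (nat_lit 458) (nat_lit 5) (nat_lit 436) (nat_lit 5) (nat_lit 573) (nat_lit 540) (nat_lit 447)) (XT.lf (nat_lit 0) (nat_lit 1351255786) (nat_lit 1064) (nat_lit 4234752928) (nat_lit 76) (nat_lit 3695130227) (nat_lit 421) (nat_lit 5) (nat_lit 435) (nat_lit 5) (nat_lit 422) (nat_lit 5) (nat_lit 574) (nat_lit 540) (nat_lit 446))) (XT.nd (nat_lit 78) (nat_lit 0) (nat_lit 0) (XT.lf (nat_lit 0) (nat_lit 1160851751) (nat_lit 912) (nat_lit 2031287473) (nat_lit 988) (nat_lit 6175305411) (nat_lit 409) (nat_lit 5) (nat_lit 421) (nat_lit 5) (nat_lit 422) (nat_lit 5) (nat_lit 575) (nat_lit 540) (nat_lit 445)) (XT.lf (nat_lit 0) (nat_lit 5084055869) (nat_lit 988) (nat_lit 2767813993)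 (nat_lit 76) (nat_lit 1603326084) (nat_lit 409) (nat_lit 5) (nat_lit 422) (nat_lit 5) (nat_lit 410) (nat_lit 5) (nat_lit 576) (nat_lit 540) (nat_lit 444))))))) (XT.nd (nat_lit 936) (nat_lit 5548) (nat_lit 0) (XT.nd (nat_lit 468) (nat_lit 2432) (nat_lit 0) (XT.nd (nat_lit 234) (nat_lit 1596) (nat_lit 0) (XT.nd (nat_lit 78) (nat_lit 912) (nat_lit 0) (XT.lf (nat_lit 0) (nat_lit 2779072868) (nat_lit 912) (nat_lit 4241976137) (nat_lit 988) (nat_lit 2523512253) (nat_lit 397) (nat_lit 5) (nat_lit 409) (nat_lit 5) (nat_lit 410) (nat_lit 5) (nat_lit 577) (nat_lit 540) (nat_lit 443)) (XT.nd (nat_lit 78) (nat_lit 912) (nat_lit 0) (XT.lf (nat_lit 0) (nat_lit 8450908179) (nat_lit 912) (nat_lit 540512664) (nat_lit 988) (nat_lit 644403919) (nat_lit 397) (nat_lit 5) (nat_lit 409) (nat_lit 5) (nat_lit 410) (nat_lit 5) (nat_lit 578) (nat_lit 540) (nat_lit 442)) (XT.lf (nat_lit 0) (nat_lit 1282676069) (nat_lit 912) (nat_lit 5214769686) (nat_lit 76) (nat_lit 3230764580) (nat_lit 385) (nat_lit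 5) (nat_lit 397) (nat_lit 5) (nat_lit 386) (nat_lit 5) (nat_lit 579) (nat_lit 540) (nat_lit 441)))) (XT.nd (nat_lit 78) (nat_lit 760) (nat_lit 0) (XT.lf (nat_lit 0) (nat_lit 494446350) (nat_lit 836) (nat_lit 2736713598) (nat_lit 912) (nat_lit 6591372116) (nat_lit 374) (nat_lit 5) (nat_lit 385) (nat_lit 5) (nat_lit 386) (nat_lit 5) (nat_lit 580) (nat_lit 540) (nat_lit 440)) (XT.nd (nat_lit 78) (nat_lit 760) (nat_lit 0) (XT.lf (nat_lit 0) (nat_lit 5237965922) (nat_lit 912) (nat_lit 3560860034) (nat_lit 76) (nat_lit 1119530609) (nat_lit 374) (nat_lit 5) (nat_lit 386) (nat_lit 5) (nat_lit 375) (nat_lit 5) (nat_lit 581) (nat_lit 540) (nat_lit 439)) (XT.lf (nat_lit 0) (nat_lit 2310372207) (nat_lit 760) (nat_lit 4985101254) (nat_lit 836) (nat_lit 2720416105) (nat_lit 364) (nat_lit 5) (nat_lit 374) (nat_lit 5) (nat_lit 375) (nat_lit 5) (nat_lit 582) (nat_lit 540) (nat_lit 438))))) (XT.nd (nat_lit 234) (nat_lit 760) (nat_lit 0) (XT.nd (nat_lit 78) (nat_lit 1672) (nat_lit 0) (XT.lf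 (nat_lit 0) (nat_lit 8323937224) (nat_lit 760) (nat_lit 1071820881) (nat_lit 836) (nat_lit 719585837) (nat_lit 364) (nat_lit 5) (nat_lit 374) (nat_lit 5) (nat_lit 375) (nat_lit 5) (nat_lit 583) (nat_lit 540) (nat_lit 437)) (XT.nd (nat_lit 78) (nat_lit 760) (nat_lit 0) (XT.lf (nat_lit 0) (nat_lit 1328834332) (nat_lit 912) (nat_lit 5970545416) (nat_lit 76) (nat_lit 2916741177) (nat_lit 352) (nat_lit 5) (nat_lit 364) (nat_lit 5) (nat_lit 353) (nat_lit 5) (nat_lit 584) (nat_lit 540) (nat_lit 436)) (XT.lf (nat_lit 0) (nat_lit 74467664) (nat_lit 760) (nat_lit 3332104747) (nat_lit 836) (nat_lit 6912289279) (nat_lit 342) (nat_lit 5) (nat_lit 352) (nat_lit 5) (nat_lit 353) (nat_lit 5) (nat_lit 585) (nat_lit 540) (nat_lit 435)))) (XT.nd (nat_lit 78) (nat_lit 760) (nat_lit 0) (XT.lf (nat_lit 0) (nat_lit 5549390392) (nat_lit 836) (nat_lit 4130185178) (nat_lit 76) (nat_lit 743614204) (nat_lit 342) (nat_lit 5) (nat_lit 353) (nat_lit 5) (nat_lit 343) (nat_lit 5) (nat_lit 586) (nat_lit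 540) (nat_lit 434)) (XT.nd (nat_lit 78) (nat_lit 0) (nat_lit 0) (XT.lf (nat_lit 0) (nat_lit 2088357471) (nat_lit 760) (nat_lit 5661308860) (nat_lit 836) (nat_lit 2779649004) (nat_lit 332) (nat_lit 5) (nat_lit 342) (nat_lit 5) (nat_lit 343) (nat_lit 5) (nat_lit 587) (nat_lit 540) (nat_lit 433)) (XT.lf (nat_lit 0) (nat_lit 8464137190) (nat_lit 760) (nat_lit 1536764128) (nat_lit 836) (nat_lit 636525908) (nat_lit 332) (nat_lit 5) (nat_lit 342) (nat_lit 5) (nat_lit 343) (nat_lit 5) (nat_lit 588) (nat_lit 540) (nat_lit 432)))))) (XT.nd (nat_lit 468) (nat_lit 2584) (nat_lit 0) (XT.nd (nat_lit 234) (nat_lit 1444) (nat_lit 0) (XT.nd (nat_lit 78) (nat_lit 760) (nat_lit 0) (XT.lf (nat_lit 0) (nat_lit 1553760110) (nat_lit 760) (nat_lit 6522563068) (nat_lit 76) (nat_lit 2670687313) (nat_lit 322) (nat_lit 5) (nat_lit 332) (nat_lit 5) (nat_lit 323) (nat_lit 5) (nat_lit 589) (nat_lit 540) (nat_lit 431)) (XT.nd (nat_lit 78) (nat_lit 760) (nat_lit 0) (XT.lf (nat_lit 0) (nat_lit 3783939081)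 (nat_lit 760) (nat_lit 116565147) (nat_lit 76) (nat_lit 6958107561) (nat_lit 322) (nat_lit 5) (nat_lit 332) (nat_lit 5) (nat_lit 323) (nat_lit 5) (nat_lit 590) (nat_lit 540) (nat_lit 430)) (XT.lf (nat_lit 0) (nat_lit 6083524379) (nat_lit 836) (nat_lit 4494783473) (nat_lit 76) (nat_lit 393643876) (nat_lit 312) (nat_lit 5) (nat_lit 323) (nat_lit 5) (nat_lit 313) (nat_lit 5) (nat_lit 591) (nat_lit 540) (nat_lit 429)))) (XT.nd (nat_lit 78) (nat_lit 760) (nat_lit 0) (XT.lf (nat_lit 0) (nat_lit 2095507230) (nat_lit 684) (nat_lit 6354183446) (nat_lit 760) (nat_lit 2637458621) (nat_lit 303) (nat_lit 5) (nat_lit 312) (nat_lit 5) (nat_lit 313) (nat_lit 5) (nat_lit 592) (nat_lit 540) (nat_lit 428)) (XT.nd (nat_lit 78) (nat_lit 760) (nat_lit 0) (XT.lf (nat_lit 0) (nat_lit 8855729761) (nat_lit 684) (nat_lit 2018215172) (nat_lit 760) (nat_lit 330493157) (nat_lit 303) (nat_lit 5) (nat_lit 312) (nat_lit 5) (nat_lit 313) (nat_lit 5) (nat_lit 593) (nat_lit 540) (nat_lit 427)) (XT.lf (nat_lit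 0) (nat_lit 2021696511) (nat_lit 760) (nat_lit 6889786034) (nat_lit 76) (nat_lit 2411817701) (nat_lit 293) (nat_lit 5) (nat_lit 303) (nat_lit 5) (nat_lit 294) (nat_lit 5) (nat_lit 594) (nat_lit 540) (nat_lit 426))))) (XT.nd (nat_lit 234) (nat_lit 1292) (nat_lit 0) (XT.nd (nat_lit 78) (nat_lit 1292) (nat_lit 0) (XT.lf (nat_lit 0) (nat_lit 4426800646) (nat_lit 760) (nat_lit 99485315) (nat_lit 76) (nat_lit 6918006492) (nat_lit 293) (nat_lit 5) (nat_lit 303) (nat_lit 5) (nat_lit 294) (nat_lit 5) (nat_lit 595) (nat_lit 540) (nat_lit 425)) (XT.nd (nat_lit 78) (nat_lit 684) (nat_lit 0) (XT.lf (nat_lit 0) (nat_lit 6894673040) (nat_lit 608) (nat_lit 11530701) (nat_lit 684) (nat_lit 4660979195) (nat_lit 285) (nat_lit 5) (nat_lit 293) (nat_lit 5) (nat_lit 294) (nat_lit 5) (nat_lit 596) (nat_lit 540) (nat_lit 424)) (XT.lf (nat_lit 0) (nat_lit 2315514860) (nat_lit 684) (nat_lit 7146836773) (nat_lit 760) (nat_lit 2229638786) (nat_lit 276) (nat_lit 5) (nat_lit 285) (nat_lit 5) (nat_lit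 286) (nat_lit 5) (nat_lit 597) (nat_lit 540) (nat_lit 423)))) (XT.nd (nat_lit 156) (nat_lit 608) (nat_lit 0) (XT.nd (nat_lit 78) (nat_lit 608) (nat_lit 0) (XT.lf (nat_lit 0) (nat_lit 260403200) (nat_lit 760) (nat_lit 2336605909) (nat_lit 76) (nat_lit 9221987511) (nat_lit 275) (nat_lit 5) (nat_lit 285) (nat_lit 5) (nat_lit 276) (nat_lit 5) (nat_lit 598) (nat_lit 540) (nat_lit 422)) (XT.lf (nat_lit 0) (nat_lit 2797670978) (nat_lit 684) (nat_lit 7090568512) (nat_lit 76) (nat_lit 2059465293) (nat_lit 267) (nat_lit 5) (nat_lit 276) (nat_lit 5) (nat_lit 268) (nat_lit 5) (nat_lit 599) (nat_lit 540) (nat_lit 421))) (XT.nd (nat_lit 78) (nat_lit 0) (nat_lit 0) (XT.lf (nat_lit 0) (nat_lit 109482059) (nat_lit 608) (nat_lit 5292152400) (nat_lit 684) (nat_lit 6677035788) (nat_lit 259) (nat_lit 5) (nat_lit 267) (nat_lit 5) (nat_lit 268) (nat_lit 5) (nat_lit 600) (nat_lit 540) (nat_lit 420)) (XT.lf (nat_lit 0) (nat_lit 7527391226) (nat_lit 608) (nat_lit 560327911) (nat_lit 684) (nat_lit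 4123937150) (nat_lit 259) (nat_lit 5) (nat_lit 267) (nat_lit 5) (nat_lit 268) (nat_lit 5) (nat_lit 601) (nat_lit 540) (nat_lit 419))))))))
noncomputable def xc132 : XT := (XT.nd (nat_lit 1950) (nat_lit 5168) (nat_lit 0) (XT.nd (nat_lit 936) (nat_lit 3800) (nat_lit 0) (XT.nd (nat_lit 468) (nat_lit 1672) (nat_lit 0) (XT.nd (nat_lit 234) (nat_lit 1064) (nat_lit 0) (XT.nd (nat_lit 78) (nat_lit 684) (nat_lit 0) (XT.lf (nat_lit 0) (nat_lit 2732356838) (nat_lit 532) (nat_lit 8123381873) (nat_lit 608) (nat_lit 1491001136) (nat_lit 252) (nat_lit 5) (nat_lit 259) (nat_lit 5) (nat_lit 260) (nat_lit 5) (nat_lit 602) (nat_lit 540) (nat_lit 418)) (XT.nd (nat_lit 78) (nat_lit 608) (nat_lit 0) (XT.lf (nat_lit 0) (nat_lit 1197133684) (nat_lit 608) (nat_lit 2156984504) (nat_lit 76) (nat_lit 9129889605) (nat_lit 251) (nat_lit 5) (nat_lit 259) (nat_lit 5) (nat_lit 252) (nat_lit 5) (nat_lit 603) (nat_lit 540) (nat_lit 417)) (XT.lf (nat_lit 0) (nat_lit 3947996709) (nat_lit 684) (nat_lit 7143621478)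 (nat_lit 76) (nat_lit 1531629144) (nat_lit 243) (nat_lit 5) (nat_lit 252) (nat_lit 5) (nat_lit 244) (nat_lit 5) (nat_lit 604) (nat_lit 540) (nat_lit 416)))) (XT.nd (nat_lit 78) (nat_lit 532) (nat_lit 0) (XT.lf (nat_lit 0) (nat_lit 495471008) (nat_lit 532) (nat_lit 6281753198) (nat_lit 608) (nat_lit 5987582415) (nat_lit 236) (nat_lit 5) (nat_lit 243) (nat_lit 5) (nat_lit 244) (nat_lit 5) (nat_lit 605) (nat_lit 540) (nat_lit 415)) (XT.nd (nat_lit 78) (nat_lit 532) (nat_lit 0) (XT.lf (nat_lit 0) (nat_lit 8362380015) (nat_lit 532) (nat_lit 1332125915) (nat_lit 608) (nat_lit 3214063643) (nat_lit 236) (nat_lit 5) (nat_lit 243) (nat_lit 5) (nat_lit 244) (nat_lit 5) (nat_lit 606) (nat_lit 540) (nat_lit 414)) (XT.lf (nat_lit 0) (nat_lit 3329291366) (nat_lit 532) (nat_lit 9370409012) (nat_lit 608) (nat_lit 354917897) (nat_lit 229) (nat_lit 5) (nat_lit 236) (nat_lit 5) (nat_lit 237) (nat_lit 5) (nat_lit 607) (nat_lit 540) (nat_lit 413))))) (XT.nd (nat_lit 234) (nat_lit 532) (nat_lit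 0) (XT.nd (nat_lit 78) (nat_lit 1064) (nat_lit 0) (XT.lf (nat_lit 0) (nat_lit 2551239732) (nat_lit 608) (nat_lit 1826461228) (nat_lit 76) (nat_lit 8825087698) (nat_lit 228) (nat_lit 5) (nat_lit 236) (nat_lit 5) (nat_lit 229) (nat_lit 5) (nat_lit 608) (nat_lit 540) (nat_lit 412)) (XT.nd (nat_lit 78) (nat_lit 532) (nat_lit 0) (XT.lf (nat_lit 0) (nat_lit 5540704640) (nat_lit 608) (nat_lit 7069061997) (nat_lit 76) (nat_lit 743511889) (nat_lit 221) (nat_lit 5) (nat_lit 229) (nat_lit 5) (nat_lit 222) (nat_lit 5) (nat_lit 609) (nat_lit 540) (nat_lit 411)) (XT.lf (nat_lit 0) (nat_lit 1038432210) (nat_lit 532) (nat_lit 7583940921) (nat_lit 608) (nat_lit 4883758467) (nat_lit 214) (nat_lit 5) (nat_lit 221) (nat_lit 5) (nat_lit 222) (nat_lit 5) (nat_lit 610) (nat_lit 540) (nat_lit 410)))) (XT.nd (nat_lit 78) (nat_lit 532) (nat_lit 0) (XT.lf (nat_lit 0) (nat_lit 9382593005) (nat_lit 532) (nat_lit 2415030791) (nat_lit 608) (nat_lit 1863780618) (nat_lit 214) (nat_lit 5) (nat_lit 221)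 (nat_lit 5) (nat_lit 222) (nat_lit 5) (nat_lit 611) (nat_lit 540) (nat_lit 409)) (XT.nd (nat_lit 78) (nat_lit 0) (nat_lit 0) (XT.lf (nat_lit 0) (nat_lit 1230707093) (nat_lit 532) (nat_lit 9739525684) (nat_lit 76) (nat_lit 2848792203) (nat_lit 207) (nat_lit 5) (nat_lit 214) (nat_lit 5) (nat_lit 208) (nat_lit 5) (nat_lit 612) (nat_lit 540) (nat_lit 408)) (XT.lf (nat_lit 0) (nat_lit 4391887710) (nat_lit 532) (nat_lit 1365994379) (nat_lit 76) (nat_lit 8221075857) (nat_lit 207) (nat_lit 5) (nat_lit 214) (nat_lit 5) (nat_lit 208) (nat_lit 5) (nat_lit 613) (nat_lit 540) (nat_lit 407)))))) (XT.nd (nat_lit 468) (nat_lit 1824) (nat_lit 0) (XT.nd (nat_lit 234) (nat_lit 988) (nat_lit 0) (XT.nd (nat_lit 78) (nat_lit 456) (nat_lit 0) (XT.lf (nat_lit 0) (nat_lit 7249278573) (nat_lit 532) (nat_lit 399216798) (nat_lit 608) (nat_lit 6492951665) (nat_lit 200) (nat_lit 5) (nat_lit 207) (nat_lit 5) (nat_lit 208) (nat_lit 5) (nat_lit 614) (nat_lit 540) (nat_lit 406)) (XT.nd (nat_lit 78) (nat_lit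 0) (nat_lit 0) (XT.lf (nat_lit 0) (nat_lit 1717008493) (nat_lit 456) (nat_lit 9291752625) (nat_lit 532) (nat_lit 3297655773) (nat_lit 194) (nat_lit 5) (nat_lit 200) (nat_lit 5) (nat_lit 201) (nat_lit 5) (nat_lit 615) (nat_lit 540) (nat_lit 405)) (XT.lf (nat_lit 0) (nat_lit 10568328227) (nat_lit 456) (nat_lit 3902189476) (nat_lit 532) (nat_lit 3484205) (nat_lit 194) (nat_lit 5) (nat_lit 200) (nat_lit 5) (nat_lit 201) (nat_lit 5) (nat_lit 616) (nat_lit 540) (nat_lit 404)))) (XT.nd (nat_lit 78) (nat_lit 456) (nat_lit 0) (XT.lf (nat_lit 0) (nat_lit 3341121232) (nat_lit 532) (nat_lit 9680207835) (nat_lit 76) (nat_lit 1622603662) (nat_lit 187) (nat_lit 5) (nat_lit 194) (nat_lit 5) (nat_lit 188) (nat_lit 5) (nat_lit 617) (nat_lit 540) (nat_lit 403)) (XT.nd (nat_lit 78) (nat_lit 456) (nat_lit 0) (XT.lf (nat_lit 0) (nat_lit 6790505658) (nat_lit 532) (nat_lit 800006156) (nat_lit 76) (nat_lit 7225992611) (nat_lit 187) (nat_lit 5) (nat_lit 194) (nat_lit 5) (nat_lit 188) (nat_lit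 5) (nat_lit 618) (nat_lit 540) (nat_lit 402)) (XT.lf (nat_lit 0) (nat_lit 8346994350) (nat_lit 456) (nat_lit 2002066350) (nat_lit 532) (nat_lit 4642664557) (nat_lit 181) (nat_lit 5) (nat_lit 187) (nat_lit 5) (nat_lit 188) (nat_lit 5) (nat_lit 619) (nat_lit 540) (nat_lit 401))))) (XT.nd (nat_lit 234) (nat_lit 912) (nat_lit 0) (XT.nd (nat_lit 78) (nat_lit 456) (nat_lit 0) (XT.lf (nat_lit 0) (nat_lit 2505872547) (nat_lit 456) (nat_lit 11504690822) (nat_lit 532) (nat_lit 1159252942) (nat_lit 175) (nat_lit 5) (nat_lit 181) (nat_lit 5) (nat_lit 182) (nat_lit 5) (nat_lit 620) (nat_lit 540) (nat_lit 400)) (XT.nd (nat_lit 78) (nat_lit 380) (nat_lit 0) (XT.lf (nat_lit 0) (nat_lit 2406715764) (nat_lit 532) (nat_lit 3470548006) (nat_lit 76) (nat_lit 9473010165) (nat_lit 174) (nat_lit 5) (nat_lit 181) (nat_lit 5) (nat_lit 175) (nat_lit 5) (nat_lit 621) (nat_lit 540) (nat_lit 399)) (XT.lf (nat_lit 0) (nat_lit 5957134606) (nat_lit 380) (nat_lit 96451448) (nat_lit 456) (nat_lit 9480100571)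 (nat_lit 169) (nat_lit 5) (nat_lit 174) (nat_lit 5) (nat_lit 175) (nat_lit 5) (nat_lit 622) (nat_lit 540) (nat_lit 398)))) (XT.nd (nat_lit 156) (nat_lit 456) (nat_lit 0) (XT.nd (nat_lit 78) (nat_lit 456) (nat_lit 0) (XT.lf (nat_lit 0) (nat_lit 9821002243) (nat_lit 456) (nat_lit 157827598) (nat_lit 76) (nat_lit 5740986791) (nat_lit 169) (nat_lit 5) (nat_lit 175) (nat_lit 5) (nat_lit 170) (nat_lit 5) (nat_lit 623) (nat_lit 540) (nat_lit 397)) (XT.lf (nat_lit 0) (nat_lit 9554203000) (nat_lit 456) (nat_lit 4159007041) (nat_lit 532) (nat_lit 2195471540) (nat_lit 163) (nat_lit 5) (nat_lit 169) (nat_lit 5) (nat_lit 170) (nat_lit 5) (nat_lit 624) (nat_lit 540) (nat_lit 396))) (XT.nd (nat_lit 78) (nat_lit 0) (nat_lit 0) (XT.lf (nat_lit 0) (nat_lit 1582705731) (nat_lit 456) (nat_lit 12737117471) (nat_lit 76) (nat_lit 1780866071) (nat_lit 157) (nat_lit 5) (nat_lit 163) (nat_lit 5) (nat_lit 158) (nat_lit 5) (nat_lit 625) (nat_lit 540) (nat_lit 395)) (XT.lf (nat_lit 0) (nat_lit 5464448615)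 (nat_lit 456) (nat_lit 2995799884) (nat_lit 76) (nat_lit 7834851529) (nat_lit 157) (nat_lit 5) (nat_lit 163) (nat_lit 5) (nat_lit 158) (nat_lit 5) (nat_lit 626) (nat_lit 540) (nat_lit 394))))))) (XT.nd (nat_lit 936) (nat_lit 2204) (nat_lit 0) (XT.nd (nat_lit 468) (nat_lit 1444) (nat_lit 0) (XT.nd (nat_lit 234) (nat_lit 684) (nat_lit 0) (XT.nd (nat_lit 78) (nat_lit 456) (nat_lit 0) (XT.lf (nat_lit 0) (nat_lit 7012837907) (nat_lit 380) (nat_lit 2443681783) (nat_lit 456) (nat_lit 7036226557) (nat_lit 152) (nat_lit 5) (nat_lit 157) (nat_lit 5) (nat_lit 158) (nat_lit 5) (nat_lit 627) (nat_lit 540) (nat_lit 393)) (XT.nd (nat_lit 78) (nat_lit 76) (nat_lit 0) (XT.lf (nat_lit 0) (nat_lit 531609344) (nat_lit 380) (nat_lit 13031734058) (nat_lit 456) (nat_lit 3130304860) (nat_lit 147) (nat_lit 5) (nat_lit 152) (nat_lit 5) (nat_lit 153) (nat_lit 5) (nat_lit 628) (nat_lit 540) (nat_lit 392)) (XT.lf (nat_lit 0) (nat_lit 910041691) (nat_lit 456) (nat_lit 6067189789) (nat_lit 76) (nat_lit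 9919876964) (nat_lit 146) (nat_lit 5) (nat_lit 152) (nat_lit 5) (nat_lit 147) (nat_lit 5) (nat_lit 629) (nat_lit 540) (nat_lit 391)))) (XT.nd (nat_lit 78) (nat_lit 304) (nat_lit 0) (XT.lf (nat_lit 0) (nat_lit 4245281714) (nat_lit 380) (nat_lit 759133906) (nat_lit 456) (nat_lit 12099506710) (nat_lit 141) (nat_lit 5) (nat_lit 146) (nat_lit 5) (nat_lit 147) (nat_lit 5) (nat_lit 630) (nat_lit 540) (nat_lit 390)) (XT.nd (nat_lit 78) (nat_lit 304) (nat_lit 0) (XT.lf (nat_lit 0) (nat_lit 9245520871) (nat_lit 456) (nat_lit 2523632907) (nat_lit 76) (nat_lit 5544422850) (nat_lit 141) (nat_lit 5) (nat_lit 147) (nat_lit 5) (nat_lit 142) (nat_lit 5) (nat_lit 631) (nat_lit 540) (nat_lit 389)) (XT.lf (nat_lit 0) (nat_lit 8100364319) (nat_lit 304) (nat_lit 5516556695) (nat_lit 380) (nat_lit 3909594535) (nat_lit 137) (nat_lit 5) (nat_lit 141) (nat_lit 5) (nat_lit 142) (nat_lit 5) (nat_lit 632) (nat_lit 540) (nat_lit 388))))) (XT.nd (nat_lit 234) (nat_lit 684) (nat_lit 0) (XT.nd (nat_lit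 78) (nat_lit 304) (nat_lit 0) (XT.lf (nat_lit 0) (nat_lit 346279471) (nat_lit 456) (nat_lit 16526657566) (nat_lit 76) (nat_lit 870362083) (nat_lit 131) (nat_lit 5) (nat_lit 137) (nat_lit 5) (nat_lit 132) (nat_lit 5) (nat_lit 633) (nat_lit 540) (nat_lit 387)) (XT.nd (nat_lit 78) (nat_lit 304) (nat_lit 0) (XT.lf (nat_lit 0) (nat_lit 4723136052) (nat_lit 456) (nat_lit 5844963048) (nat_lit 76) (nat_lit 7394039056) (nat_lit 131) (nat_lit 5) (nat_lit 137) (nat_lit 5) (nat_lit 132) (nat_lit 5) (nat_lit 634) (nat_lit 540) (nat_lit 386)) (XT.lf (nat_lit 0) (nat_lit 5098577071) (nat_lit 304) (nat_lit 4110250942) (nat_lit 380) (nat_lit 8976100913) (nat_lit 127) (nat_lit 5) (nat_lit 131) (nat_lit 5) (nat_lit 132) (nat_lit 5) (nat_lit 635) (nat_lit 540) (nat_lit 385)))) (XT.nd (nat_lit 78) (nat_lit 684) (nat_lit 0) (XT.lf (nat_lit 0) (nat_lit 13828058704) (nat_lit 380) (nat_lit 2106238199) (nat_lit 76) (nat_lit 2477003007) (nat_lit 127) (nat_lit 5) (nat_lit 132) (nat_lit 5) (nat_lit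 128) (nat_lit 5) (nat_lit 636) (nat_lit 540) (nat_lit 384)) (XT.nd (nat_lit 78) (nat_lit 380) (nat_lit 0) (XT.lf (nat_lit 0) (nat_lit 9168141839) (nat_lit 304) (nat_lit 9446769825) (nat_lit 380) (nat_lit 25782778) (nat_lit 123) (nat_lit 5) (nat_lit 127) (nat_lit 5) (nat_lit 128) (nat_lit 5) (nat_lit 637) (nat_lit 540) (nat_lit 383)) (XT.lf (nat_lit 0) (nat_lit 1797238852) (nat_lit 304) (nat_lit 2779375905) (nat_lit 380) (nat_lit 14297174283) (nat_lit 118) (nat_lit 5) (nat_lit 122) (nat_lit 5) (nat_lit 123) (nat_lit 5) (nat_lit 638) (nat_lit 540) (nat_lit 382)))))) (XT.nd (nat_lit 468) (nat_lit 1216) (nat_lit 0) (XT.nd (nat_lit 234) (nat_lit 684) (nat_lit 0) (XT.nd (nat_lit 78) (nat_lit 304) (nat_lit 0) (XT.lf (nat_lit 0) (nat_lit 9349395815) (nat_lit 380) (nat_lit 5734598807) (nat_lit 76) (nat_lit 4025974713) (nat_lit 118) (nat_lit 5) (nat_lit 123) (nat_lit 5) (nat_lit 119) (nat_lit 5) (nat_lit 639) (nat_lit 540) (nat_lit 381)) (XT.nd (nat_lit 78) (nat_lit 0) (nat_lit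 0) (XT.lf (nat_lit 0) (nat_lit 5874742672) (nat_lit 304) (nat_lit 8388247173) (nat_lit 380) (nat_lit 5086977058) (nat_lit 114) (nat_lit 5) (nat_lit 118) (nat_lit 5) (nat_lit 119) (nat_lit 5) (nat_lit 640) (nat_lit 540) (nat_lit 380)) (XT.lf (nat_lit 0) (nat_lit 17776033223) (nat_lit 304) (nat_lit 1526215634) (nat_lit 380) (nat_lit 291968500) (nat_lit 114) (nat_lit 5) (nat_lit 118) (nat_lit 5) (nat_lit 119) (nat_lit 5) (nat_lit 641) (nat_lit 540) (nat_lit 379)))) (XT.nd (nat_lit 78) (nat_lit 304) (nat_lit 0) (XT.lf (nat_lit 0) (nat_lit 4629754627) (nat_lit 380) (nat_lit 9720190776) (nat_lit 76) (nat_lit 5490988390) (nat_lit 109) (nat_lit 5) (nat_lit 114) (nat_lit 5) (nat_lit 110) (nat_lit 5) (nat_lit 642) (nat_lit 540) (nat_lit 378)) (XT.nd (nat_lit 78) (nat_lit 0) (nat_lit 0) (XT.lf (nat_lit 0) (nat_lit 2230057829) (nat_lit 304) (nat_lit 7441928179) (nat_lit 380) (nat_lit 10420041038) (nat_lit 105) (nat_lit 5) (nat_lit 109) (nat_lit 5) (nat_lit 110) (nat_lit 5) (nat_lit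 643) (nat_lit 540) (nat_lit 377)) (XT.lf (nat_lit 0) (nat_lit 14533366242) (nat_lit 304) (nat_lit 336133343) (nat_lit 380) (nat_lit 5477554566) (nat_lit 105) (nat_lit 5) (nat_lit 109) (nat_lit 5) (nat_lit 110) (nat_lit 5) (nat_lit 644) (nat_lit 540) (nat_lit 376))))) (XT.nd (nat_lit 234) (nat_lit 608) (nat_lit 0) (XT.nd (nat_lit 78) (nat_lit 380) (nat_lit 0) (XT.lf (nat_lit 0) (nat_lit 6498384632) (nat_lit 228) (nat_lit 13749023990) (nat_lit 304) (nat_lit 358244994) (nat_lit 102) (nat_lit 5) (nat_lit 105) (nat_lit 5) (nat_lit 106) (nat_lit 5) (nat_lit 645) (nat_lit 540) (nat_lit 375)) (XT.nd (nat_lit 78) (nat_lit 304) (nat_lit 0) (XT.lf (nat_lit 0) (nat_lit 4830565405) (nat_lit 304) (nat_lit 1784753538) (nat_lit 76) (nat_lit 14252857293) (nat_lit 101) (nat_lit 5) (nat_lit 105) (nat_lit 5) (nat_lit 102) (nat_lit 5) (nat_lit 646) (nat_lit 540) (nat_lit 374)) (XT.lf (nat_lit 0) (nat_lit 10183522178) (nat_lit 380) (nat_lit 10231738505) (nat_lit 76) (nat_lit 719338605) (nat_lit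 97) (nat_lit 5) (nat_lit 102) (nat_lit 5) (nat_lit 98) (nat_lit 5) (nat_lit 647) (nat_lit 540) (nat_lit 373)))) (XT.nd (nat_lit 156) (nat_lit 380) (nat_lit 0) (XT.nd (nat_lit 78) (nat_lit 0) (nat_lit 0) (XT.lf (nat_lit 0) (nat_lit 2433072371) (nat_lit 228) (nat_lit 13271787586) (nat_lit 304) (nat_lit 5700265074) (nat_lit 94) (nat_lit 5) (nat_lit 97) (nat_lit 5) (nat_lit 98) (nat_lit 5) (nat_lit 648) (nat_lit 540) (nat_lit 372)) (XT.lf (nat_lit 0) (nat_lit 15472729548) (nat_lit 228) (nat_lit 5922305499) (nat_lit 304) (nat_lit 284858686) (nat_lit 94) (nat_lit 5) (nat_lit 97) (nat_lit 5) (nat_lit 98) (nat_lit 5) (nat_lit 649) (nat_lit 540) (nat_lit 371))) (XT.nd (nat_lit 78) (nat_lit 0) (nat_lit 0) (XT.lf (nat_lit 0) (nat_lit 5215214645) (nat_lit 380) (nat_lit 15117557332) (nat_lit 76) (nat_lit 1625804830) (nat_lit 89) (nat_lit 5) (nat_lit 94) (nat_lit 5) (nat_lit 90) (nat_lit 5) (nat_lit 650) (nat_lit 540) (nat_lit 370)) (XT.lf (nat_lit 0) (nat_lit 10892557398) (nat_lit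 380) (nat_lit 2066065069) (nat_lit 76) (nat_lit 9282752389) (nat_lit 89) (nat_lit 5) (nat_lit 94) (nat_lit 5) (nat_lit 90) (nat_lit 5) (nat_lit 651) (nat_lit 540) (nat_lit 369))))))))
noncomputable def xc133 : XT := (XT.nd (nat_lit 74256) (nat_lit 0) (nat_lit 19760) (XT.nd (nat_lit 73242) (nat_lit 0) (nat_lit 36480) (XT.nd (nat_lit 72774) (nat_lit 0) (nat_lit 38988) (XT.nd (nat_lit 72540) (nat_lit 0) (nat_lit 40204) (XT.nd (nat_lit 78) (nat_lit 304) (nat_lit 0) (XT.lf (nat_lit 0) (nat_lit 11379040048) (nat_lit 228) (nat_lit 5368413599) (nat_lit 304) (nat_lit 5781095693) (nat_lit 86) (nat_lit 5) (nat_lit 89) (nat_lit 5) (nat_lit 90) (nat_lit 5) (nat_lit 652) (nat_lit 540) (nat_lit 368)) (XT.nd (nat_lit 78) (nat_lit 76) (nat_lit 0) (XT.lf (nat_lit 0) (nat_lit 2297798503) (nat_lit 228) (nat_lit 20456103995) (nat_lit 304) (nat_lit 66876313) (nat_lit 83) (nat_lit 5) (nat_lit 86) (nat_lit 5) (nat_lit 87) (nat_lit 5) (nat_lit 653) (nat_lit 540) (nat_lit 367)) (XT.lf (nat_lit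 0) (nat_lit 5787118262) (nat_lit 304) (nat_lit 7042344848) (nat_lit 76) (nat_lit 10286621053) (nat_lit 82) (nat_lit 5) (nat_lit 86) (nat_lit 5) (nat_lit 83) (nat_lit 5) (nat_lit 654) (nat_lit 540) (nat_lit 366)))) (XT.nd (nat_lit 78) (nat_lit 1216) (nat_lit 0) (XT.lf (nat_lit 0) (nat_lit 1132866644) (nat_lit 0) (nat_lit 1132866644) (nat_lit 1140) (nat_lit 1375940210) (nat_lit 627) (nat_lit 5) (nat_lit 627) (nat_lit 3) (nat_lit 642) (nat_lit 3) (nat_lit 541) (nat_lit 541) (nat_lit 478)) (XT.nd (nat_lit 78) (nat_lit 1216) (nat_lit 0) (XT.lf (nat_lit 0) (nat_lit 5896459392) (nat_lit 0) (nat_lit 261869183) (nat_lit 1140) (nat_lit 1165906301) (nat_lit 627) (nat_lit 5) (nat_lit 627) (nat_lit 3) (nat_lit 642) (nat_lit 3) (nat_lit 542) (nat_lit 541) (nat_lit 477)) (XT.lf (nat_lit 0) (nat_lit 430450518) (nat_lit 1216) (nat_lit 5139268034) (nat_lit 1292) (nat_lit 1796479618) (nat_lit 611) (nat_lit 5) (nat_lit 627) (nat_lit 5) (nat_lit 628) (nat_lit 5) (nat_lit 543) (nat_lit 541)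 (nat_lit 476))))) (XT.nd (nat_lit 234) (nat_lit 1216) (nat_lit 0) (XT.nd (nat_lit 78) (nat_lit 0) (nat_lit 0) (XT.lf (nat_lit 0) (nat_lit 2013559847) (nat_lit 1216) (nat_lit 1466368538) (nat_lit 1292) (nat_lit 3929517406) (nat_lit 611) (nat_lit 5) (nat_lit 627) (nat_lit 5) (nat_lit 628) (nat_lit 5) (nat_lit 544) (nat_lit 541) (nat_lit 475)) (XT.nd (nat_lit 78) (nat_lit 0) (nat_lit 76) (XT.lf (nat_lit 76) (nat_lit 2288310096) (nat_lit 0) (nat_lit 1314725018) (nat_lit 1292) (nat_lit 3851036953) (nat_lit 612) (nat_lit 5) (nat_lit 611) (nat_lit 5) (nat_lit 628) (nat_lit 5) (nat_lit 545) (nat_lit 541) (nat_lit 474)) (XT.lf (nat_lit 0) (nat_lit 5200618730) (nat_lit 1216) (nat_lit 1389765038) (nat_lit 1292) (nat_lit 909688349) (nat_lit 612) (nat_lit 5) (nat_lit 628) (nat_lit 5) (nat_lit 629) (nat_lit 5) (nat_lit 546) (nat_lit 541) (nat_lit 473)))) (XT.nd (nat_lit 78) (nat_lit 1292) (nat_lit 0) (XT.lf (nat_lit 76) (nat_lit 2463330409) (nat_lit 0) (nat_lit 4352906856) (nat_lit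 1292) (nat_lit 731040713) (nat_lit 613) (nat_lit 5) (nat_lit 612) (nat_lit 5) (nat_lit 629) (nat_lit 5) (nat_lit 547) (nat_lit 541) (nat_lit 472)) (XT.nd (nat_lit 78) (nat_lit 0) (nat_lit 76) (XT.lf (nat_lit 0) (nat_lit 828473492) (nat_lit 1292) (nat_lit 1211009668) (nat_lit 1368) (nat_lit 5556416633) (nat_lit 595) (nat_lit 5) (nat_lit 612) (nat_lit 5) (nat_lit 613) (nat_lit 5) (nat_lit 548) (nat_lit 541) (nat_lit 471)) (XT.lf (nat_lit 0) (nat_lit 2392064120) (nat_lit 1292) (nat_lit 4899486598) (nat_lit 1368) (nat_lit 354200232) (nat_lit 596) (nat_lit 5) (nat_lit 613) (nat_lit 5) (nat_lit 614) (nat_lit 5) (nat_lit 549) (nat_lit 541) (nat_lit 470)))))) (XT.nd (nat_lit 468) (nat_lit 1292) (nat_lit 0) (XT.nd (nat_lit 234) (nat_lit 1292) (nat_lit 0) (XT.nd (nat_lit 78) (nat_lit 0) (nat_lit 0) (XT.lf (nat_lit 0) (nat_lit 3971794753) (nat_lit 1292) (nat_lit 933549783) (nat_lit 1368) (nat_lit 2791564135) (nat_lit 596) (nat_lit 5) (nat_lit 613) (nat_lit 5) (nat_lit 614) (nat_lit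 5) (nat_lit 550) (nat_lit 541) (nat_lit 469)) (XT.nd (nat_lit 78) (nat_lit 0) (nat_lit 76) (XT.lf (nat_lit 76) (nat_lit 3130555464) (nat_lit 0) (nat_lit 2436793464) (nat_lit 1368) (nat_lit 2182062812) (nat_lit 597) (nat_lit 5) (nat_lit 596) (nat_lit 5) (nat_lit 614) (nat_lit 5) (nat_lit 551) (nat_lit 541) (nat_lit 468)) (XT.lf (nat_lit 0) (nat_lit 7166202306) (nat_lit 1292) (nat_lit 537677210) (nat_lit 1368) (nat_lit 99664229) (nat_lit 597) (nat_lit 5) (nat_lit 614) (nat_lit 5) (nat_lit 615) (nat_lit 5) (nat_lit 552) (nat_lit 541) (nat_lit 467)))) (XT.nd (nat_lit 78) (nat_lit 0) (nat_lit 0) (XT.lf (nat_lit 0) (nat_lit 930979138) (nat_lit 1368) (nat_lit 4230557099) (nat_lit 1444) (nat_lit 2697006486) (nat_lit 579) (nat_lit 5) (nat_lit 597) (nat_lit 5) (nat_lit 598) (nat_lit 5) (nat_lit 553) (nat_lit 541) (nat_lit 466)) (XT.nd (nat_lit 78) (nat_lit 0) (nat_lit 76) (XT.lf (nat_lit 0) (nat_lit 2491326268) (nat_lit 1368) (nat_lit 57299044) (nat_lit 1444) (nat_lit 5366554484)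 (nat_lit 579) (nat_lit 5) (nat_lit 597) (nat_lit 5) (nat_lit 598) (nat_lit 5) (nat_lit 554) (nat_lit 541) (nat_lit 465)) (XT.lf (nat_lit 0) (nat_lit 4077604292) (nat_lit 1368) (nat_lit 3741447769) (nat_lit 1444) (nat_lit 154009204) (nat_lit 580) (nat_lit 5) (nat_lit 598) (nat_lit 5) (nat_lit 599) (nat_lit 5) (nat_lit 555) (nat_lit 541) (nat_lit 464))))) (XT.nd (nat_lit 234) (nat_lit 0) (nat_lit 0) (XT.nd (nat_lit 78) (nat_lit 1368) (nat_lit 0) (XT.lf (nat_lit 76) (nat_lit 542334615) (nat_lit 0) (nat_lit 5140879937) (nat_lit 1444) (nat_lit 2349139689) (nat_lit 581) (nat_lit 5) (nat_lit 580) (nat_lit 5) (nat_lit 599) (nat_lit 5) (nat_lit 556) (nat_lit 541) (nat_lit 463)) (XT.nd (nat_lit 78) (nat_lit 1368) (nat_lit 0) (XT.lf (nat_lit 76) (nat_lit 4939773859) (nat_lit 0) (nat_lit 2373593330) (nat_lit 1444) (nat_lit 779623179) (nat_lit 581) (nat_lit 5) (nat_lit 580) (nat_lit 5) (nat_lit 599) (nat_lit 5) (nat_lit 557) (nat_lit 541) (nat_lit 462)) (XT.lf (nat_lit 0) (nat_lit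 789497910) (nat_lit 1444) (nat_lit 6899510828) (nat_lit 1520) (nat_lit 466149787) (nat_lit 562) (nat_lit 5) (nat_lit 581) (nat_lit 5) (nat_lit 582) (nat_lit 5) (nat_lit 558) (nat_lit 541) (nat_lit 461)))) (XT.nd (nat_lit 156) (nat_lit 0) (nat_lit 76) (XT.nd (nat_lit 78) (nat_lit 0) (nat_lit 0) (XT.lf (nat_lit 0) (nat_lit 2384882568) (nat_lit 1444) (nat_lit 2467012073) (nat_lit 1520) (nat_lit 3366471487) (nat_lit 562) (nat_lit 5) (nat_lit 581) (nat_lit 5) (nat_lit 582) (nat_lit 5) (nat_lit 559) (nat_lit 541) (nat_lit 460)) (XT.lf (nat_lit 76) (nat_lit 2058313446) (nat_lit 0) (nat_lit 1936138653) (nat_lit 1520) (nat_lit 4288745684) (nat_lit 563) (nat_lit 5) (nat_lit 562) (nat_lit 5) (nat_lit 582) (nat_lit 5) (nat_lit 560) (nat_lit 541) (nat_lit 459))) (XT.nd (nat_lit 78) (nat_lit 0) (nat_lit 0) (XT.lf (nat_lit 0) (nat_lit 5629043820) (nat_lit 1444) (nat_lit 1671594806) (nat_lit 1520) (nat_lit 1048836169) (nat_lit 563) (nat_lit 5) (nat_lit 582) (nat_lit 5) (nat_lit 583)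 (nat_lit 5) (nat_lit 561) (nat_lit 541) (nat_lit 458)) (XT.lf (nat_lit 76) (nat_lit 2976090241) (nat_lit 0) (nat_lit 4322408728) (nat_lit 1520) (nat_lit 1118540179) (nat_lit 564) (nat_lit 5) (nat_lit 563) (nat_lit 5) (nat_lit 583) (nat_lit 5) (nat_lit 562) (nat_lit 541) (nat_lit 457))))))) (XT.nd (nat_lit 936) (nat_lit 6004) (nat_lit 0) (XT.nd (nat_lit 468) (nat_lit 6156) (nat_lit 0) (XT.nd (nat_lit 234) (nat_lit 1672) (nat_lit 0) (XT.nd (nat_lit 78) (nat_lit 1444) (nat_lit 0) (XT.lf (nat_lit 0) (nat_lit 490186809) (nat_lit 1520) (nat_lit 772892848) (nat_lit 1596) (nat_lit 7223182082) (nat_lit 543) (nat_lit 5) (nat_lit 563) (nat_lit 5) (nat_lit 564) (nat_lit 5) (nat_lit 563) (nat_lit 541) (nat_lit 456)) (XT.nd (nat_lit 78) (nat_lit 1520) (nat_lit 0) (XT.lf (nat_lit 0) (nat_lit 2125339959) (nat_lit 1520) (nat_lit 4558064873) (nat_lit 76) (nat_lit 1873136433) (nat_lit 544) (nat_lit 5) (nat_lit 564) (nat_lit 5) (nat_lit 545) (nat_lit 5) (nat_lit 564) (nat_lit 541) (nat_lit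 455)) (XT.lf (nat_lit 0) (nat_lit 218952978) (nat_lit 1520) (nat_lit 3560565216) (nat_lit 1596) (nat_lit 4848986582) (nat_lit 524) (nat_lit 5) (nat_lit 544) (nat_lit 5) (nat_lit 545) (nat_lit 5) (nat_lit 565) (nat_lit 541) (nat_lit 454)))) (XT.nd (nat_lit 78) (nat_lit 1672) (nat_lit 0) (XT.lf (nat_lit 0) (nat_lit 5130302587) (nat_lit 1520) (nat_lit 338792386) (nat_lit 1596) (nat_lit 3232771026) (nat_lit 524) (nat_lit 5) (nat_lit 544) (nat_lit 5) (nat_lit 545) (nat_lit 5) (nat_lit 566) (nat_lit 541) (nat_lit 453)) (XT.nd (nat_lit 78) (nat_lit 76) (nat_lit 0) (XT.lf (nat_lit 0) (nat_lit 1338466294) (nat_lit 1596) (nat_lit 5854139694) (nat_lit 1672) (nat_lit 1584090252) (nat_lit 503) (nat_lit 5) (nat_lit 524) (nat_lit 5) (nat_lit 525) (nat_lit 5) (nat_lit 567) (nat_lit 541) (nat_lit 452)) (XT.lf (nat_lit 0) (nat_lit 95178298) (nat_lit 1672) (nat_lit 2483822986) (nat_lit 76) (nat_lit 6274035724) (nat_lit 502) (nat_lit 5) (nat_lit 524) (nat_lit 5) (nat_lit 503) (nat_lit 5)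 (nat_lit 568) (nat_lit 541) (nat_lit 451))))) (XT.nd (nat_lit 234) (nat_lit 2736) (nat_lit 0) (XT.nd (nat_lit 78) (nat_lit 1748) (nat_lit 0) (XT.lf (nat_lit 0) (nat_lit 1781741481) (nat_lit 1748) (nat_lit 6366063689) (nat_lit 76) (nat_lit 782995980) (nat_lit 480) (nat_lit 5) (nat_lit 503) (nat_lit 5) (nat_lit 481) (nat_lit 5) (nat_lit 569) (nat_lit 541) (nat_lit 450)) (XT.nd (nat_lit 78) (nat_lit 1748) (nat_lit 0) (XT.lf (nat_lit 0) (nat_lit 3509361817) (nat_lit 1748) (nat_lit 1302344206) (nat_lit 76) (nat_lit 4198272327) (nat_lit 480) (nat_lit 5) (nat_lit 503) (nat_lit 5) (nat_lit 481) (nat_lit 5) (nat_lit 570) (nat_lit 541) (nat_lit 449)) (XT.lf (nat_lit 0) (nat_lit 3890830452) (nat_lit 1748) (nat_lit 1379954458) (nat_lit 1824) (nat_lit 3819973387) (nat_lit 457) (nat_lit 5) (nat_lit 480) (nat_lit 5) (nat_lit 481) (nat_lit 5) (nat_lit 571) (nat_lit 541) (nat_lit 448)))) (XT.nd (nat_lit 78) (nat_lit 2736) (nat_lit 0) (XT.lf (nat_lit 0) (nat_lit 7064371330) (nat_lit 1824)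 (nat_lit 4516062) (nat_lit 76) (nat_lit 2104331881) (nat_lit 457) (nat_lit 5) (nat_lit 481) (nat_lit 5) (nat_lit 458) (nat_lit 5) (nat_lit 572) (nat_lit 541) (nat_lit 447)) (XT.nd (nat_lit 78) (nat_lit 1064) (nat_lit 0) (XT.lf (nat_lit 0) (nat_lit 5332827648) (nat_lit 1672) (nat_lit 3579637716) (nat_lit 1748) (nat_lit 344495433) (nat_lit 435) (nat_lit 5) (nat_lit 457) (nat_lit 5) (nat_lit 458) (nat_lit 5) (nat_lit 573) (nat_lit 541) (nat_lit 446)) (XT.lf (nat_lit 0) (nat_lit 1420368680) (nat_lit 1064) (nat_lit 7921683751) (nat_lit 76) (nat_lit 453472) (nat_lit 421) (nat_lit 5) (nat_lit 435) (nat_lit 5) (nat_lit 422) (nat_lit 5) (nat_lit 574) (nat_lit 541) (nat_lit 445)))))) (XT.nd (nat_lit 468) (nat_lit 3268) (nat_lit 0) (XT.nd (nat_lit 234) (nat_lit 1824) (nat_lit 0) (XT.nd (nat_lit 78) (nat_lit 912) (nat_lit 0) (XT.lf (nat_lit 0) (nat_lit 3241538537) (nat_lit 1064) (nat_lit 2552848741) (nat_lit 76) (nat_lit 3634820479) (nat_lit 421) (nat_lit 5) (nat_lit 435) (nat_lit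 5) (nat_lit 422) (nat_lit 5) (nat_lit 575) (nat_lit 541) (nat_lit 444)) (XT.nd (nat_lit 78) (nat_lit 0) (nat_lit 0) (XT.lf (nat_lit 0) (nat_lit 2939045668) (nat_lit 912) (nat_lit 2155053986) (nat_lit 988) (nat_lit 4423648373) (nat_lit 409) (nat_lit 5) (nat_lit 421) (nat_lit 5) (nat_lit 422) (nat_lit 5) (nat_lit 576) (nat_lit 541) (nat_lit 443)) (XT.lf (nat_lit 0) (nat_lit 6987283889) (nat_lit 988) (nat_lit 1065756364) (nat_lit 76) (nat_lit 1554951079) (nat_lit 409) (nat_lit 5) (nat_lit 422) (nat_lit 5) (nat_lit 410) (nat_lit 5) (nat_lit 577) (nat_lit 541) (nat_lit 442)))) (XT.nd (nat_lit 78) (nat_lit 912) (nat_lit 0) (XT.lf (nat_lit 0) (nat_lit 4580506300) (nat_lit 912) (nat_lit 4358521367) (nat_lit 988) (nat_lit 760601509) (nat_lit 397) (nat_lit 5) (nat_lit 409) (nat_lit 5) (nat_lit 410) (nat_lit 5) (nat_lit 578) (nat_lit 541) (nat_lit 441)) (XT.nd (nat_lit 78) (nat_lit 0) (nat_lit 0) (XT.lf (nat_lit 0) (nat_lit 537905036) (nat_lit 836) (nat_lit 571423914) (nat_lit 912)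 (nat_lit 8683876066) (nat_lit 385) (nat_lit 5) (nat_lit 396) (nat_lit 5) (nat_lit 397) (nat_lit 5) (nat_lit 579) (nat_lit 541) (nat_lit 440)) (XT.lf (nat_lit 0) (nat_lit 3039578620) (nat_lit 912) (nat_lit 3560351988) (nat_lit 76) (nat_lit 3287962498) (nat_lit 385) (nat_lit 5) (nat_lit 397) (nat_lit 5) (nat_lit 386) (nat_lit 5) (nat_lit 580) (nat_lit 541) (nat_lit 439))))) (XT.nd (nat_lit 234) (nat_lit 1672) (nat_lit 0) (XT.nd (nat_lit 78) (nat_lit 760) (nat_lit 0) (XT.lf (nat_lit 0) (nat_lit 2251477888) (nat_lit 836) (nat_lit 2752951838) (nat_lit 912) (nat_lit 4980128621) (nat_lit 374) (nat_lit 5) (nat_lit 385) (nat_lit 5) (nat_lit 386) (nat_lit 5) (nat_lit 581) (nat_lit 541) (nat_lit 438)) (XT.nd (nat_lit 78) (nat_lit 760) (nat_lit 0) (XT.lf (nat_lit 0) (nat_lit 7018113986) (nat_lit 912) (nat_lit 1885687992) (nat_lit 76) (nat_lit 1179167447) (nat_lit 374) (nat_lit 5) (nat_lit 386) (nat_lit 5) (nat_lit 375) (nat_lit 5) (nat_lit 582) (nat_lit 541) (nat_lit 437)) (XT.lf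 (nat_lit 0) (nat_lit 4091479491) (nat_lit 760) (nat_lit 5003705545) (nat_lit 836) (nat_lit 1087704615) (nat_lit 364) (nat_lit 5) (nat_lit 374) (nat_lit 5) (nat_lit 375) (nat_lit 5) (nat_lit 583) (nat_lit 541) (nat_lit 436)))) (XT.nd (nat_lit 156) (nat_lit 760) (nat_lit 0) (XT.nd (nat_lit 78) (nat_lit 836) (nat_lit 0) (XT.lf (nat_lit 0) (nat_lit 907994705) (nat_lit 836) (nat_lit 99661888) (nat_lit 76) (nat_lit 9277210337) (nat_lit 363) (nat_lit 5) (nat_lit 374) (nat_lit 5) (nat_lit 364) (nat_lit 5) (nat_lit 584) (nat_lit 541) (nat_lit 435)) (XT.lf (nat_lit 0) (nat_lit 2967511675) (nat_lit 912) (nat_lit 4346675748) (nat_lit 76) (nat_lit 3073786183) (nat_lit 352) (nat_lit 5) (nat_lit 364) (nat_lit 5) (nat_lit 353) (nat_lit 5) (nat_lit 585) (nat_lit 541) (nat_lit 434))) (XT.nd (nat_lit 78) (nat_lit 0) (nat_lit 0) (XT.lf (nat_lit 0) (nat_lit 1807768642) (nat_lit 760) (nat_lit 3258670127) (nat_lit 836) (nat_lit 5426742198) (nat_lit 342) (nat_lit 5) (nat_lit 352) (nat_lit 5)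 (nat_lit 353) (nat_lit 5) (nat_lit 586) (nat_lit 541) (nat_lit 433)) (XT.lf (nat_lit 0) (nat_lit 7221794259) (nat_lit 836) (nat_lit 2484396615) (nat_lit 76) (nat_lit 894015492) (nat_lit 342) (nat_lit 5) (nat_lit 353) (nat_lit 5) (nat_lit 343) (nat_lit 5) (nat_lit 587) (nat_lit 541) (nat_lit 432))))))))
noncomputable def xc134 : XT := (XT.nd (nat_lit 1950) (nat_lit 6612) (nat_lit 0) (XT.nd (nat_lit 936) (nat_lit 4636) (nat_lit 0) (XT.nd (nat_lit 468) (nat_lit 2128) (nat_lit 0) (XT.nd (nat_lit 234) (nat_lit 1444) (nat_lit 0) (XT.nd (nat_lit 78) (nat_lit 760) (nat_lit 0) (XT.lf (nat_lit 0) (nat_lit 3847145885) (nat_lit 760) (nat_lit 5599461871) (nat_lit 836) (nat_lit 1262240333) (nat_lit 332) (nat_lit 5) (nat_lit 342) (nat_lit 5) (nat_lit 343) (nat_lit 5) (nat_lit 588) (nat_lit 541) (nat_lit 431)) (XT.nd (nat_lit 78) (nat_lit 684) (nat_lit 0) (XT.lf (nat_lit 0) (nat_lit 881191483) (nat_lit 836) (nat_lit 508754309) (nat_lit 76) (nat_lit 9429669372) (nat_lit 331) (nat_lit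 5) (nat_lit 342) (nat_lit 5) (nat_lit 332) (nat_lit 5) (nat_lit 589) (nat_lit 541) (nat_lit 430)) (XT.lf (nat_lit 0) (nat_lit 3089145959) (nat_lit 760) (nat_lit 4931403843) (nat_lit 76) (nat_lit 2911112473) (nat_lit 322) (nat_lit 5) (nat_lit 332) (nat_lit 5) (nat_lit 323) (nat_lit 5) (nat_lit 590) (nat_lit 541) (nat_lit 429)))) (XT.nd (nat_lit 78) (nat_lit 684) (nat_lit 0) (XT.lf (nat_lit 0) (nat_lit 1589807579) (nat_lit 760) (nat_lit 3754946728) (nat_lit 836) (nat_lit 5701128741) (nat_lit 312) (nat_lit 5) (nat_lit 322) (nat_lit 5) (nat_lit 323) (nat_lit 5) (nat_lit 591) (nat_lit 541) (nat_lit 428)) (XT.nd (nat_lit 78) (nat_lit 684) (nat_lit 0) (XT.lf (nat_lit 0) (nat_lit 7663406031) (nat_lit 836) (nat_lit 2880028168) (nat_lit 76) (nat_lit 618597979) (nat_lit 312) (nat_lit 5) (nat_lit 323) (nat_lit 5) (nat_lit 313) (nat_lit 5) (nat_lit 592) (nat_lit 541) (nat_lit 427)) (XT.lf (nat_lit 0) (nat_lit 3830853540) (nat_lit 684) (nat_lit 6228444649) (nat_lit 760) (nat_lit 1220591270)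 (nat_lit 303) (nat_lit 5) (nat_lit 312) (nat_lit 5) (nat_lit 313) (nat_lit 5) (nat_lit 593) (nat_lit 541) (nat_lit 426))))) (XT.nd (nat_lit 234) (nat_lit 760) (nat_lit 0) (XT.nd (nat_lit 78) (nat_lit 1292) (nat_lit 0) (XT.lf (nat_lit 0) (nat_lit 1089222301) (nat_lit 760) (nat_lit 714182757) (nat_lit 76) (nat_lit 9596544334) (nat_lit 302) (nat_lit 5) (nat_lit 312) (nat_lit 5) (nat_lit 303) (nat_lit 5) (nat_lit 594) (nat_lit 541) (nat_lit 425)) (XT.nd (nat_lit 78) (nat_lit 608) (nat_lit 0) (XT.lf (nat_lit 0) (nat_lit 3468695811) (nat_lit 760) (nat_lit 5332752366) (nat_lit 76) (nat_lit 2720007208) (nat_lit 293) (nat_lit 5) (nat_lit 303) (nat_lit 5) (nat_lit 294) (nat_lit 5) (nat_lit 595) (nat_lit 541) (nat_lit 424)) (XT.lf (nat_lit 0) (nat_lit 1580855624) (nat_lit 608) (nat_lit 4323730655) (nat_lit 684) (nat_lit 5740630992) (nat_lit 285) (nat_lit 5) (nat_lit 293) (nat_lit 5) (nat_lit 294) (nat_lit 5) (nat_lit 596) (nat_lit 541) (nat_lit 423)))) (XT.nd (nat_lit 78) (nat_lit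 760) (nat_lit 0) (XT.lf (nat_lit 0) (nat_lit 8408785294) (nat_lit 684) (nat_lit 3089661888) (nat_lit 76) (nat_lit 272617677) (nat_lit 285) (nat_lit 5) (nat_lit 294) (nat_lit 5) (nat_lit 286) (nat_lit 5) (nat_lit 597) (nat_lit 541) (nat_lit 422)) (XT.nd (nat_lit 78) (nat_lit 76) (nat_lit 0) (XT.lf (nat_lit 0) (nat_lit 4027019226) (nat_lit 684) (nat_lit 6973169258) (nat_lit 760) (nat_lit 898500744) (nat_lit 276) (nat_lit 5) (nat_lit 285) (nat_lit 5) (nat_lit 286) (nat_lit 5) (nat_lit 598) (nat_lit 541) (nat_lit 421)) (XT.lf (nat_lit 0) (nat_lit 1596677794) (nat_lit 760) (nat_lit 732943017) (nat_lit 76) (nat_lit 9698971779) (nat_lit 275) (nat_lit 5) (nat_lit 285) (nat_lit 5) (nat_lit 276) (nat_lit 5) (nat_lit 599) (nat_lit 541) (nat_lit 420)))))) (XT.nd (nat_lit 468) (nat_lit 2204) (nat_lit 0) (XT.nd (nat_lit 234) (nat_lit 1216) (nat_lit 0) (XT.nd (nat_lit 78) (nat_lit 608) (nat_lit 0) (XT.lf (nat_lit 0) (nat_lit 4171339682) (nat_lit 684) (nat_lit 5568474182) (nat_lit 76)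 (nat_lit 2420331264) (nat_lit 267) (nat_lit 5) (nat_lit 276) (nat_lit 5) (nat_lit 268) (nat_lit 5) (nat_lit 600) (nat_lit 541) (nat_lit 419)) (XT.nd (nat_lit 78) (nat_lit 0) (nat_lit 0) (XT.lf (nat_lit 0) (nat_lit 1764630651) (nat_lit 608) (nat_lit 5047646332) (nat_lit 684) (nat_lit 5481758154) (nat_lit 259) (nat_lit 5) (nat_lit 267) (nat_lit 5) (nat_lit 268) (nat_lit 5) (nat_lit 601) (nat_lit 541) (nat_lit 418)) (XT.lf (nat_lit 0) (nat_lit 9298487042) (nat_lit 608) (nat_lit 228054944) (nat_lit 684) (nat_lit 2903652805) (nat_lit 259) (nat_lit 5) (nat_lit 267) (nat_lit 5) (nat_lit 268) (nat_lit 5) (nat_lit 602) (nat_lit 541) (nat_lit 417)))) (XT.nd (nat_lit 78) (nat_lit 684) (nat_lit 0) (XT.lf (nat_lit 0) (nat_lit 4420200619) (nat_lit 532) (nat_lit 7917470940) (nat_lit 608) (nat_lit 230556476) (nat_lit 252) (nat_lit 5) (nat_lit 259) (nat_lit 5) (nat_lit 260) (nat_lit 5) (nat_lit 603) (nat_lit 541) (nat_lit 416)) (XT.nd (nat_lit 78) (nat_lit 608) (nat_lit 0) (XT.lf (nat_lit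 0) (nat_lit 2469451485) (nat_lit 608) (nat_lit 582216351) (nat_lit 76) (nat_lit 9656908197) (nat_lit 251) (nat_lit 5) (nat_lit 259) (nat_lit 5) (nat_lit 252) (nat_lit 5) (nat_lit 604) (nat_lit 541) (nat_lit 415)) (XT.lf (nat_lit 0) (nat_lit 5263710565) (nat_lit 684) (nat_lit 5656823277) (nat_lit 76) (nat_lit 1930301775) (nat_lit 243) (nat_lit 5) (nat_lit 252) (nat_lit 5) (nat_lit 244) (nat_lit 5) (nat_lit 605) (nat_lit 541) (nat_lit 414))))) (XT.nd (nat_lit 234) (nat_lit 1064) (nat_lit 0) (XT.nd (nat_lit 78) (nat_lit 608) (nat_lit 0) (XT.lf (nat_lit 0) (nat_lit 2124329541) (nat_lit 532) (nat_lit 6011454286) (nat_lit 608) (nat_lit 4859719819) (nat_lit 236) (nat_lit 5) (nat_lit 243) (nat_lit 5) (nat_lit 244) (nat_lit 5) (nat_lit 606) (nat_lit 541) (nat_lit 413)) (XT.nd (nat_lit 78) (nat_lit 608) (nat_lit 0) (XT.lf (nat_lit 0) (nat_lit 10116832628) (nat_lit 532) (nat_lit 970597868) (nat_lit 608) (nat_lit 2055193696) (nat_lit 236) (nat_lit 5) (nat_lit 243) (nat_lit 5) (nat_lit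 244) (nat_lit 5) (nat_lit 607) (nat_lit 541) (nat_lit 412)) (XT.lf (nat_lit 0) (nat_lit 839104826) (nat_lit 608) (nat_lit 8303235726) (nat_lit 76) (nat_lit 4149358835) (nat_lit 228) (nat_lit 5) (nat_lit 236) (nat_lit 5) (nat_lit 229) (nat_lit 5) (nat_lit 608) (nat_lit 541) (nat_lit 411)))) (XT.nd (nat_lit 156) (nat_lit 532) (nat_lit 0) (XT.nd (nat_lit 78) (nat_lit 532) (nat_lit 0) (XT.lf (nat_lit 0) (nat_lit 3775179404) (nat_lit 608) (nat_lit 280395087) (nat_lit 76) (nat_lit 9387683409) (nat_lit 228) (nat_lit 5) (nat_lit 236) (nat_lit 5) (nat_lit 229) (nat_lit 5) (nat_lit 609) (nat_lit 541) (nat_lit 410)) (XT.lf (nat_lit 0) (nat_lit 6814318300) (nat_lit 608) (nat_lit 5617606841) (nat_lit 76) (nat_lit 1165037244) (nat_lit 221) (nat_lit 5) (nat_lit 229) (nat_lit 5) (nat_lit 222) (nat_lit 5) (nat_lit 610) (nat_lit 541) (nat_lit 409))) (XT.nd (nat_lit 78) (nat_lit 0) (nat_lit 0) (XT.lf (nat_lit 0) (nat_lit 2641558063) (nat_lit 532) (nat_lit 7303535819) (nat_lit 608) (nat_lit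 3808031627) (nat_lit 214) (nat_lit 5) (nat_lit 221) (nat_lit 5) (nat_lit 222) (nat_lit 5) (nat_lit 611) (nat_lit 541) (nat_lit 408)) (XT.lf (nat_lit 0) (nat_lit 11121575462) (nat_lit 532) (nat_lit 2039719720) (nat_lit 608) (nat_lit 750662105) (nat_lit 214) (nat_lit 5) (nat_lit 221) (nat_lit 5) (nat_lit 222) (nat_lit 5) (nat_lit 612) (nat_lit 541) (nat_lit 407))))))) (XT.nd (nat_lit 936) (nat_lit 2736) (nat_lit 0) (XT.nd (nat_lit 468) (nat_lit 1824) (nat_lit 0) (XT.nd (nat_lit 234) (nat_lit 988) (nat_lit 0) (XT.nd (nat_lit 78) (nat_lit 532) (nat_lit 0) (XT.lf (nat_lit 0) (nat_lit 2381282753) (nat_lit 532) (nat_lit 8358318377) (nat_lit 76) (nat_lit 3333168973) (nat_lit 207) (nat_lit 5) (nat_lit 214) (nat_lit 5) (nat_lit 208) (nat_lit 5) (nat_lit 613) (nat_lit 541) (nat_lit 406)) (XT.nd (nat_lit 78) (nat_lit 0) (nat_lit 0) (XT.lf (nat_lit 0) (nat_lit 153798733) (nat_lit 532) (nat_lit 5430809134) (nat_lit 608) (nat_lit 8651717720) (nat_lit 200) (nat_lit 5) (nat_lit 207) (nat_lit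 5) (nat_lit 208) (nat_lit 5) (nat_lit 614) (nat_lit 541) (nat_lit 405)) (XT.lf (nat_lit 0) (nat_lit 8893900777) (nat_lit 608) (nat_lit 5473355952) (nat_lit 76) (nat_lit 35058900) (nat_lit 200) (nat_lit 5) (nat_lit 208) (nat_lit 5) (nat_lit 201) (nat_lit 5) (nat_lit 615) (nat_lit 541) (nat_lit 404)))) (XT.nd (nat_lit 78) (nat_lit 532) (nat_lit 0) (XT.lf (nat_lit 0) (nat_lit 3295136960) (nat_lit 456) (nat_lit 9017429854) (nat_lit 532) (nat_lit 2258196358) (nat_lit 194) (nat_lit 5) (nat_lit 200) (nat_lit 5) (nat_lit 201) (nat_lit 5) (nat_lit 616) (nat_lit 541) (nat_lit 403)) (XT.nd (nat_lit 78) (nat_lit 456) (nat_lit 0) (XT.lf (nat_lit 0) (nat_lit 1066017078) (nat_lit 532) (nat_lit 2455927529) (nat_lit 76) (nat_lit 11220042115) (nat_lit 193) (nat_lit 5) (nat_lit 200) (nat_lit 5) (nat_lit 194) (nat_lit 5) (nat_lit 617) (nat_lit 541) (nat_lit 402)) (XT.lf (nat_lit 0) (nat_lit 4469333998) (nat_lit 532) (nat_lit 8337738289) (nat_lit 76) (nat_lit 2108408156) (nat_lit 187) (nat_lit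 5) (nat_lit 194) (nat_lit 5) (nat_lit 188) (nat_lit 5) (nat_lit 618) (nat_lit 541) (nat_lit 401))))) (XT.nd (nat_lit 234) (nat_lit 912) (nat_lit 0) (XT.nd (nat_lit 78) (nat_lit 456) (nat_lit 0) (XT.lf (nat_lit 0) (nat_lit 699117381) (nat_lit 456) (nat_lit 7272316289) (nat_lit 532) (nat_lit 7120397372) (nat_lit 181) (nat_lit 5) (nat_lit 187) (nat_lit 5) (nat_lit 188) (nat_lit 5) (nat_lit 619) (nat_lit 541) (nat_lit 400)) (XT.nd (nat_lit 78) (nat_lit 456) (nat_lit 0) (XT.lf (nat_lit 0) (nat_lit 10009981251) (nat_lit 456) (nat_lit 1575949253) (nat_lit 532) (nat_lit 3684932357) (nat_lit 181) (nat_lit 5) (nat_lit 187) (nat_lit 5) (nat_lit 188) (nat_lit 5) (nat_lit 620) (nat_lit 541) (nat_lit 399)) (XT.lf (nat_lit 0) (nat_lit 4059748637) (nat_lit 456) (nat_lit 11253451357) (nat_lit 532) (nat_lit 139466949) (nat_lit 175) (nat_lit 5) (nat_lit 181) (nat_lit 5) (nat_lit 182) (nat_lit 5) (nat_lit 621) (nat_lit 541) (nat_lit 398)))) (XT.nd (nat_lit 78) (nat_lit 836) (nat_lit 0) (XT.lf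 (nat_lit 0) (nat_lit 3463960177) (nat_lit 532) (nat_lit 2052181836) (nat_lit 76) (nat_lit 10120861787) (nat_lit 174) (nat_lit 5) (nat_lit 181) (nat_lit 5) (nat_lit 175) (nat_lit 5) (nat_lit 622) (nat_lit 541) (nat_lit 397)) (XT.nd (nat_lit 78) (nat_lit 456) (nat_lit 0) (XT.lf (nat_lit 0) (nat_lit 7176049171) (nat_lit 456) (nat_lit 8272495647) (nat_lit 76) (nat_lit 375696131) (nat_lit 169) (nat_lit 5) (nat_lit 175) (nat_lit 5) (nat_lit 170) (nat_lit 5) (nat_lit 623) (nat_lit 541) (nat_lit 396)) (XT.lf (nat_lit 0) (nat_lit 1321989927) (nat_lit 456) (nat_lit 9686398093) (nat_lit 532) (nat_lit 5005915844) (nat_lit 163) (nat_lit 5) (nat_lit 169) (nat_lit 5) (nat_lit 170) (nat_lit 5) (nat_lit 624) (nat_lit 541) (nat_lit 395)))))) (XT.nd (nat_lit 468) (nat_lit 1444) (nat_lit 0) (XT.nd (nat_lit 234) (nat_lit 836) (nat_lit 0) (XT.nd (nat_lit 78) (nat_lit 456) (nat_lit 0) (XT.lf (nat_lit 0) (nat_lit 11201280661) (nat_lit 456) (nat_lit 3758766953) (nat_lit 532) (nat_lit 1247268108)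 (nat_lit 163) (nat_lit 5) (nat_lit 169) (nat_lit 5) (nat_lit 170) (nat_lit 5) (nat_lit 625) (nat_lit 541) (nat_lit 394)) (XT.nd (nat_lit 78) (nat_lit 0) (nat_lit 0) (XT.lf (nat_lit 0) (nat_lit 2586920190) (nat_lit 456) (nat_lit 11516142797) (nat_lit 76) (nat_lit 2300104258) (nat_lit 157) (nat_lit 5) (nat_lit 163) (nat_lit 5) (nat_lit 158) (nat_lit 5) (nat_lit 626) (nat_lit 541) (nat_lit 393)) (XT.lf (nat_lit 0) (nat_lit 6527228121) (nat_lit 456) (nat_lit 1608934487) (nat_lit 76) (nat_lit 8465686663) (nat_lit 157) (nat_lit 5) (nat_lit 163) (nat_lit 5) (nat_lit 158) (nat_lit 5) (nat_lit 627) (nat_lit 541) (nat_lit 392)))) (XT.nd (nat_lit 78) (nat_lit 456) (nat_lit 0) (XT.lf (nat_lit 0) (nat_lit 8590357762) (nat_lit 380) (nat_lit 1999418629) (nat_lit 456) (nat_lit 6213860935) (nat_lit 152) (nat_lit 5) (nat_lit 157) (nat_lit 5) (nat_lit 158) (nat_lit 5) (nat_lit 628) (nat_lit 541) (nat_lit 391)) (XT.nd (nat_lit 78) (nat_lit 76) (nat_lit 0) (XT.lf (nat_lit 0) (nat_lit 1985707328)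 (nat_lit 380) (nat_lit 12787027898) (nat_lit 456) (nat_lit 2235943777) (nat_lit 147) (nat_lit 5) (nat_lit 152) (nat_lit 5) (nat_lit 153) (nat_lit 5) (nat_lit 629) (nat_lit 541) (nat_lit 390)) (XT.lf (nat_lit 0) (nat_lit 1854140939) (nat_lit 456) (nat_lit 4760989706) (nat_lit 76) (nat_lit 10601325369) (nat_lit 146) (nat_lit 5) (nat_lit 152) (nat_lit 5) (nat_lit 147) (nat_lit 5) (nat_lit 630) (nat_lit 541) (nat_lit 389))))) (XT.nd (nat_lit 234) (nat_lit 760) (nat_lit 0) (XT.nd (nat_lit 78) (nat_lit 304) (nat_lit 0) (XT.lf (nat_lit 0) (nat_lit 5748339491) (nat_lit 380) (nat_lit 273115570) (nat_lit 456) (nat_lit 11406131565) (nat_lit 141) (nat_lit 5) (nat_lit 146) (nat_lit 5) (nat_lit 147) (nat_lit 5) (nat_lit 631) (nat_lit 541) (nat_lit 388)) (XT.nd (nat_lit 78) (nat_lit 304) (nat_lit 0) (XT.lf (nat_lit 0) (nat_lit 10332593306) (nat_lit 456) (nat_lit 1168897562) (nat_lit 76) (nat_lit 6140240398) (nat_lit 141) (nat_lit 5) (nat_lit 147) (nat_lit 5) (nat_lit 142) (nat_lit 5)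 (nat_lit 632) (nat_lit 541) (nat_lit 387)) (XT.lf (nat_lit 0) (nat_lit 9658334819) (nat_lit 304) (nat_lit 5124460700) (nat_lit 380) (nat_lit 3076307408) (nat_lit 137) (nat_lit 5) (nat_lit 141) (nat_lit 5) (nat_lit 142) (nat_lit 5) (nat_lit 633) (nat_lit 541) (nat_lit 386)))) (XT.nd (nat_lit 156) (nat_lit 304) (nat_lit 0) (XT.nd (nat_lit 78) (nat_lit 0) (nat_lit 0) (XT.lf (nat_lit 0) (nat_lit 1247470270) (nat_lit 456) (nat_lit 15443873494) (nat_lit 76) (nat_lit 1388866628) (nat_lit 131) (nat_lit 5) (nat_lit 137) (nat_lit 5) (nat_lit 132) (nat_lit 5) (nat_lit 634) (nat_lit 541) (nat_lit 385)) (XT.lf (nat_lit 0) (nat_lit 5694329370) (nat_lit 456) (nat_lit 4576257188) (nat_lit 76) (nat_lit 8033191704) (nat_lit 131) (nat_lit 5) (nat_lit 137) (nat_lit 5) (nat_lit 132) (nat_lit 5) (nat_lit 635) (nat_lit 541) (nat_lit 384))) (XT.nd (nat_lit 78) (nat_lit 0) (nat_lit 0) (XT.lf (nat_lit 0) (nat_lit 6577037910) (nat_lit 304) (nat_lit 3684443545) (nat_lit 380) (nat_lit 8269709799)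 (nat_lit 127) (nat_lit 5) (nat_lit 131) (nat_lit 5) (nat_lit 132) (nat_lit 5) (nat_lit 636) (nat_lit 541) (nat_lit 383)) (XT.lf (nat_lit 0) (nat_lit 14959301483) (nat_lit 380) (nat_lit 785002969) (nat_lit 76) (nat_lit 3018062421) (nat_lit 127) (nat_lit 5) (nat_lit 132) (nat_lit 5) (nat_lit 128) (nat_lit 5) (nat_lit 637) (nat_lit 541) (nat_lit 382))))))))
noncomputable def xc135 : XT := (XT.nd (nat_lit 74334) (nat_lit 0) (nat_lit 26752) (XT.nd (nat_lit 936) (nat_lit 912) (nat_lit 0) (XT.nd (nat_lit 468) (nat_lit 1140) (nat_lit 0) (XT.nd (nat_lit 234) (nat_lit 684) (nat_lit 0) (XT.nd (nat_lit 78) (nat_lit 304) (nat_lit 0) (XT.lf (nat_lit 0) (nat_lit 826433892) (nat_lit 380) (nat_lit 8296051745) (nat_lit 76) (nat_lit 9873915496) (nat_lit 122) (nat_lit 5) (nat_lit 127) (nat_lit 5) (nat_lit 123) (nat_lit 5) (nat_lit 638) (nat_lit 541) (nat_lit 381)) (XT.nd (nat_lit 78) (nat_lit 0) (nat_lit 0) (XT.lf (nat_lit 0) (nat_lit 3189979391) (nat_lit 304) (nat_lit 2322650819) (nat_lit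 380) (nat_lit 13721683317) (nat_lit 118) (nat_lit 5) (nat_lit 122) (nat_lit 5) (nat_lit 123) (nat_lit 5) (nat_lit 639) (nat_lit 541) (nat_lit 380)) (XT.lf (nat_lit 0) (nat_lit 10367569448) (nat_lit 380) (nat_lit 4505740997) (nat_lit 76) (nat_lit 4602174140) (nat_lit 118) (nat_lit 5) (nat_lit 123) (nat_lit 5) (nat_lit 119) (nat_lit 5) (nat_lit 640) (nat_lit 541) (nat_lit 379)))) (XT.nd (nat_lit 78) (nat_lit 380) (nat_lit 0) (XT.lf (nat_lit 0) (nat_lit 7326948168) (nat_lit 304) (nat_lit 8044855258) (nat_lit 380) (nat_lit 4348632501) (nat_lit 114) (nat_lit 5) (nat_lit 118) (nat_lit 5) (nat_lit 119) (nat_lit 5) (nat_lit 641) (nat_lit 541) (nat_lit 378)) (XT.nd (nat_lit 78) (nat_lit 304) (nat_lit 0) (XT.lf (nat_lit 0) (nat_lit 518907976) (nat_lit 380) (nat_lit 533215649) (nat_lit 76) (nat_lit 18917703612) (nat_lit 113) (nat_lit 5) (nat_lit 118) (nat_lit 5) (nat_lit 114) (nat_lit 5) (nat_lit 642) (nat_lit 541) (nat_lit 377)) (XT.lf (nat_lit 0) (nat_lit 5531013338) (nat_lit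 380) (nat_lit 8590993745) (nat_lit 76) (nat_lit 6099516293) (nat_lit 109) (nat_lit 5) (nat_lit 114) (nat_lit 5) (nat_lit 110) (nat_lit 5) (nat_lit 643) (nat_lit 541) (nat_lit 376))))) (XT.nd (nat_lit 234) (nat_lit 532) (nat_lit 0) (XT.nd (nat_lit 78) (nat_lit 304) (nat_lit 0) (XT.lf (nat_lit 0) (nat_lit 3589551933) (nat_lit 304) (nat_lit 7077218423) (nat_lit 380) (nat_lit 9811015613) (nat_lit 105) (nat_lit 5) (nat_lit 109) (nat_lit 5) (nat_lit 110) (nat_lit 5) (nat_lit 644) (nat_lit 541) (nat_lit 375)) (XT.nd (nat_lit 78) (nat_lit 304) (nat_lit 0) (XT.lf (nat_lit 0) (nat_lit 15953564433) (nat_lit 380) (nat_lit 4626127512) (nat_lit 76) (nat_lit 158516138) (nat_lit 105) (nat_lit 5) (nat_lit 110) (nat_lit 5) (nat_lit 106) (nat_lit 5) (nat_lit 645) (nat_lit 541) (nat_lit 374)) (XT.lf (nat_lit 0) (nat_lit 426439664) (nat_lit 304) (nat_lit 13083485839) (nat_lit 76) (nat_lit 7492095922) (nat_lit 101) (nat_lit 5) (nat_lit 105) (nat_lit 5) (nat_lit 102) (nat_lit 5) (nat_lit 646)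 (nat_lit 541) (nat_lit 373)))) (XT.nd (nat_lit 78) (nat_lit 532) (nat_lit 0) (XT.lf (nat_lit 0) (nat_lit 5698801362) (nat_lit 304) (nat_lit 542452490) (nat_lit 76) (nat_lit 15028802857) (nat_lit 101) (nat_lit 5) (nat_lit 105) (nat_lit 5) (nat_lit 102) (nat_lit 5) (nat_lit 647) (nat_lit 541) (nat_lit 372)) (XT.nd (nat_lit 78) (nat_lit 228) (nat_lit 0) (XT.lf (nat_lit 0) (nat_lit 11155208208) (nat_lit 380) (nat_lit 9154718527) (nat_lit 76) (nat_lit 1231954659) (nat_lit 97) (nat_lit 5) (nat_lit 102) (nat_lit 5) (nat_lit 98) (nat_lit 5) (nat_lit 648) (nat_lit 541) (nat_lit 371)) (XT.lf (nat_lit 0) (nat_lit 3754956627) (nat_lit 228) (nat_lit 13025223594) (nat_lit 304) (nat_lit 5037774253) (nat_lit 94) (nat_lit 5) (nat_lit 97) (nat_lit 5) (nat_lit 98) (nat_lit 5) (nat_lit 649) (nat_lit 541) (nat_lit 370)))))) (XT.nd (nat_lit 72852) (nat_lit 0) (nat_lit 38912) (XT.nd (nat_lit 234) (nat_lit 532) (nat_lit 0) (XT.nd (nat_lit 78) (nat_lit 304) (nat_lit 0) (XT.lf (nat_lit 0) (nat_lit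 464541337) (nat_lit 304) (nat_lit 5071132421) (nat_lit 76) (nat_lit 16562783140) (nat_lit 93) (nat_lit 5) (nat_lit 97) (nat_lit 5) (nat_lit 94) (nat_lit 5) (nat_lit 650) (nat_lit 541) (nat_lit 369)) (XT.nd (nat_lit 78) (nat_lit 0) (nat_lit 0) (XT.lf (nat_lit 0) (nat_lit 6067471228) (nat_lit 380) (nat_lit 14158239903) (nat_lit 76) (nat_lit 2157032373) (nat_lit 89) (nat_lit 5) (nat_lit 94) (nat_lit 5) (nat_lit 90) (nat_lit 5) (nat_lit 651) (nat_lit 541) (nat_lit 368)) (XT.lf (nat_lit 0) (nat_lit 11843695105) (nat_lit 380) (nat_lit 870456395) (nat_lit 76) (nat_lit 9957340227) (nat_lit 89) (nat_lit 5) (nat_lit 94) (nat_lit 5) (nat_lit 90) (nat_lit 5) (nat_lit 652) (nat_lit 541) (nat_lit 367)))) (XT.nd (nat_lit 78) (nat_lit 304) (nat_lit 0) (XT.lf (nat_lit 0) (nat_lit 12835413127) (nat_lit 228) (nat_lit 4973876119) (nat_lit 304) (nat_lit 5155249336) (nat_lit 86) (nat_lit 5) (nat_lit 89) (nat_lit 5) (nat_lit 90) (nat_lit 5) (nat_lit 653) (nat_lit 541) (nat_lit 366)) (XT.nd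 (nat_lit 72462) (nat_lit 0) (nat_lit 40128) (XT.lf (nat_lit 0) (nat_lit 661344279) (nat_lit 304) (nat_lit 19691314501) (nat_lit 76) (nat_lit 2909928890) (nat_lit 82) (nat_lit 5) (nat_lit 86) (nat_lit 5) (nat_lit 83) (nat_lit 5) (nat_lit 654) (nat_lit 541) (nat_lit 365)) (XT.lf (nat_lit 0) (nat_lit 196940802) (nat_lit 1292) (nat_lit 1742901037) (nat_lit 1292) (nat_lit 1742901037) (nat_lit 610) (nat_lit 3) (nat_lit 627) (nat_lit 3) (nat_lit 627) (nat_lit 5) (nat_lit 542) (nat_lit 542) (nat_lit 476))))) (XT.nd (nat_lit 234) (nat_lit 1216) (nat_lit 0) (XT.nd (nat_lit 78) (nat_lit 0) (nat_lit 76) (XT.lf (nat_lit 76) (nat_lit 135460488) (nat_lit 0) (nat_lit 1793738925) (nat_lit 1292) (nat_lit 5479017123) (nat_lit 611) (nat_lit 5) (nat_lit 610) (nat_lit 3) (nat_lit 627) (nat_lit 5) (nat_lit 543) (nat_lit 542) (nat_lit 475)) (XT.nd (nat_lit 78) (nat_lit 0) (nat_lit 0) (XT.lf (nat_lit 0) (nat_lit 3480784641) (nat_lit 1216) (nat_lit 3598948256) (nat_lit 1292) (nat_lit 372365592)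 (nat_lit 611) (nat_lit 5) (nat_lit 627) (nat_lit 5) (nat_lit 628) (nat_lit 5) (nat_lit 544) (nat_lit 542) (nat_lit 474)) (XT.lf (nat_lit 76) (nat_lit 116722314) (nat_lit 0) (nat_lit 4919950012) (nat_lit 1292) (nat_lit 2460727966) (nat_lit 612) (nat_lit 5) (nat_lit 611) (nat_lit 5) (nat_lit 628) (nat_lit 5) (nat_lit 545) (nat_lit 542) (nat_lit 473)))) (XT.nd (nat_lit 156) (nat_lit 0) (nat_lit 76) (XT.nd (nat_lit 78) (nat_lit 1292) (nat_lit 0) (XT.lf (nat_lit 76) (nat_lit 3934365745) (nat_lit 0) (nat_lit 2674731432) (nat_lit 1292) (nat_lit 934810041) (nat_lit 612) (nat_lit 5) (nat_lit 611) (nat_lit 5) (nat_lit 628) (nat_lit 5) (nat_lit 546) (nat_lit 542) (nat_lit 472)) (XT.lf (nat_lit 76) (nat_lit 214569596) (nat_lit 0) (nat_lit 362066344) (nat_lit 1368) (nat_lit 7015371558) (nat_lit 595) (nat_lit 5) (nat_lit 594) (nat_lit 5) (nat_lit 612) (nat_lit 5) (nat_lit 547) (nat_lit 542) (nat_lit 471))) (XT.nd (nat_lit 78) (nat_lit 0) (nat_lit 0) (XT.lf (nat_lit 0) (nat_lit 2105642015)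 (nat_lit 1292) (nat_lit 3517763630) (nat_lit 1368) (nat_lit 2017550636) (nat_lit 595) (nat_lit 5) (nat_lit 612) (nat_lit 5) (nat_lit 613) (nat_lit 5) (nat_lit 548) (nat_lit 542) (nat_lit 470)) (XT.lf (nat_lit 76) (nat_lit 400435213) (nat_lit 0) (nat_lit 3233015539) (nat_lit 1368) (nat_lit 4058075741) (nat_lit 596) (nat_lit 5) (nat_lit 595) (nat_lit 5) (nat_lit 613) (nat_lit 5) (nat_lit 549) (nat_lit 542) (nat_lit 469))))))) (XT.nd (nat_lit 936) (nat_lit 9652) (nat_lit 0) (XT.nd (nat_lit 468) (nat_lit 1292) (nat_lit 0) (XT.nd (nat_lit 234) (nat_lit 0) (nat_lit 0) (XT.nd (nat_lit 78) (nat_lit 1292) (nat_lit 0) (XT.lf (nat_lit 76) (nat_lit 4423300940) (nat_lit 0) (nat_lit 755927890) (nat_lit 1368) (nat_lit 2564137789) (nat_lit 596) (nat_lit 5) (nat_lit 595) (nat_lit 5) (nat_lit 613) (nat_lit 5) (nat_lit 550) (nat_lit 542) (nat_lit 468)) (XT.nd (nat_lit 78) (nat_lit 1368) (nat_lit 0) (XT.lf (nat_lit 76) (nat_lit 706375458) (nat_lit 0) (nat_lit 6030240902) (nat_lit 1368) (nat_lit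 1060019946) (nat_lit 597) (nat_lit 5) (nat_lit 596) (nat_lit 5) (nat_lit 614) (nat_lit 5) (nat_lit 551) (nat_lit 542) (nat_lit 467)) (XT.lf (nat_lit 0) (nat_lit 460321784) (nat_lit 1368) (nat_lit 3022510283) (nat_lit 1444) (nat_lit 4368236915) (nat_lit 578) (nat_lit 5) (nat_lit 596) (nat_lit 5) (nat_lit 597) (nat_lit 5) (nat_lit 552) (nat_lit 542) (nat_lit 466)))) (XT.nd (nat_lit 78) (nat_lit 0) (nat_lit 76) (XT.lf (nat_lit 76) (nat_lit 1112497383) (nat_lit 0) (nat_lit 857230748) (nat_lit 1444) (nat_lit 5937271273) (nat_lit 579) (nat_lit 5) (nat_lit 578) (nat_lit 5) (nat_lit 597) (nat_lit 5) (nat_lit 553) (nat_lit 542) (nat_lit 465)) (XT.nd (nat_lit 78) (nat_lit 0) (nat_lit 0) (XT.lf (nat_lit 0) (nat_lit 3507791522) (nat_lit 1368) (nat_lit 2626712473) (nat_lit 1444) (nat_lit 1829581193) (nat_lit 579) (nat_lit 5) (nat_lit 597) (nat_lit 5) (nat_lit 598) (nat_lit 5) (nat_lit 554) (nat_lit 542) (nat_lit 464)) (XT.lf (nat_lit 76) (nat_lit 1618125776) (nat_lit 0) (nat_lit 3441565121)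 (nat_lit 1444) (nat_lit 2962966309) (nat_lit 580) (nat_lit 5) (nat_lit 579) (nat_lit 5) (nat_lit 598) (nat_lit 5) (nat_lit 555) (nat_lit 542) (nat_lit 463))))) (XT.nd (nat_lit 234) (nat_lit 0) (nat_lit 0) (XT.nd (nat_lit 78) (nat_lit 1368) (nat_lit 0) (XT.lf (nat_lit 76) (nat_lit 5961758258) (nat_lit 0) (nat_lit 665896608) (nat_lit 1444) (nat_lit 1455051160) (nat_lit 580) (nat_lit 5) (nat_lit 579) (nat_lit 5) (nat_lit 598) (nat_lit 5) (nat_lit 556) (nat_lit 542) (nat_lit 462)) (XT.nd (nat_lit 78) (nat_lit 0) (nat_lit 0) (XT.lf (nat_lit 0) (nat_lit 78627310) (nat_lit 1444) (nat_lit 5902892678) (nat_lit 1520) (nat_lit 2162496841) (nat_lit 561) (nat_lit 5) (nat_lit 580) (nat_lit 5) (nat_lit 581) (nat_lit 5) (nat_lit 557) (nat_lit 542) (nat_lit 461)) (XT.lf (nat_lit 0) (nat_lit 1610629652) (nat_lit 1444) (nat_lit 1523500003) (nat_lit 1520) (nat_lit 5072494722) (nat_lit 561) (nat_lit 5) (nat_lit 580) (nat_lit 5) (nat_lit 581) (nat_lit 5) (nat_lit 558) (nat_lit 542) (nat_lit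 460)))) (XT.nd (nat_lit 78) (nat_lit 0) (nat_lit 76) (XT.lf (nat_lit 76) (nat_lit 2960466344) (nat_lit 0) (nat_lit 201025420) (nat_lit 1520) (nat_lit 5109233361) (nat_lit 562) (nat_lit 5) (nat_lit 561) (nat_lit 5) (nat_lit 581) (nat_lit 5) (nat_lit 559) (nat_lit 542) (nat_lit 459)) (XT.nd (nat_lit 78) (nat_lit 0) (nat_lit 0) (XT.lf (nat_lit 0) (nat_lit 4741304441) (nat_lit 1444) (nat_lit 821697947) (nat_lit 1520) (nat_lit 2773152172) (nat_lit 562) (nat_lit 5) (nat_lit 581) (nat_lit 5) (nat_lit 582) (nat_lit 5) (nat_lit 560) (nat_lit 542) (nat_lit 458)) (XT.lf (nat_lit 76) (nat_lit 3782985040) (nat_lit 0) (nat_lit 2565741654) (nat_lit 1520) (nat_lit 2054250859) (nat_lit 563) (nat_lit 5) (nat_lit 562) (nat_lit 5) (nat_lit 582) (nat_lit 5) (nat_lit 561) (nat_lit 542) (nat_lit 457)))))) (XT.nd (nat_lit 468) (nat_lit 6840) (nat_lit 0) (XT.nd (nat_lit 234) (nat_lit 1444) (nat_lit 0) (XT.nd (nat_lit 78) (nat_lit 1520) (nat_lit 0) (XT.lf (nat_lit 0) (nat_lit 7967653291) (nat_lit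 1444) (nat_lit 5785627) (nat_lit 1520) (nat_lit 498116100) (nat_lit 563) (nat_lit 5) (nat_lit 582) (nat_lit 5) (nat_lit 583) (nat_lit 5) (nat_lit 562) (nat_lit 542) (nat_lit 456)) (XT.nd (nat_lit 78) (nat_lit 0) (nat_lit 0) (XT.lf (nat_lit 0) (nat_lit 1082294780) (nat_lit 1520) (nat_lit 3824578490) (nat_lit 1596) (nat_lit 3634116356) (nat_lit 543) (nat_lit 5) (nat_lit 563) (nat_lit 5) (nat_lit 564) (nat_lit 5) (nat_lit 563) (nat_lit 542) (nat_lit 455)) (XT.lf (nat_lit 76) (nat_lit 907653177) (nat_lit 0) (nat_lit 1763174092) (nat_lit 1596) (nat_lit 5941376689) (nat_lit 544) (nat_lit 5) (nat_lit 543) (nat_lit 5) (nat_lit 564) (nat_lit 5) (nat_lit 564) (nat_lit 542) (nat_lit 454)))) (XT.nd (nat_lit 78) (nat_lit 1520) (nat_lit 0) (XT.lf (nat_lit 0) (nat_lit 4298214072) (nat_lit 1520) (nat_lit 2930190898) (nat_lit 76) (nat_lit 1456300674) (nat_lit 544) (nat_lit 5) (nat_lit 564) (nat_lit 5) (nat_lit 545) (nat_lit 5) (nat_lit 565) (nat_lit 542) (nat_lit 453)) (XT.nd (nat_lit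 78) (nat_lit 0) (nat_lit 0) (XT.lf (nat_lit 0) (nat_lit 1931057867) (nat_lit 1520) (nat_lit 4023733786) (nat_lit 1596) (nat_lit 2803937499) (nat_lit 524) (nat_lit 5) (nat_lit 544) (nat_lit 5) (nat_lit 545) (nat_lit 5) (nat_lit 566) (nat_lit 542) (nat_lit 452)) (XT.lf (nat_lit 0) (nat_lit 6907149648) (nat_lit 1520) (nat_lit 729840062) (nat_lit 1596) (nat_lit 1197398197) (nat_lit 524) (nat_lit 5) (nat_lit 544) (nat_lit 5) (nat_lit 545) (nat_lit 5) (nat_lit 567) (nat_lit 542) (nat_lit 451))))) (XT.nd (nat_lit 234) (nat_lit 3496) (nat_lit 0) (XT.nd (nat_lit 78) (nat_lit 1672) (nat_lit 0) (XT.lf (nat_lit 0) (nat_lit 445961906) (nat_lit 1672) (nat_lit 5842107306) (nat_lit 76) (nat_lit 2623228157) (nat_lit 502) (nat_lit 5) (nat_lit 524) (nat_lit 5) (nat_lit 503) (nat_lit 5) (nat_lit 568) (nat_lit 542) (nat_lit 450)) (XT.nd (nat_lit 78) (nat_lit 1672) (nat_lit 0) (XT.lf (nat_lit 0) (nat_lit 2097614043) (nat_lit 1672) (nat_lit 833110646) (nat_lit 76) (nat_lit 6059037167) (nat_lit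 502) (nat_lit 5) (nat_lit 524) (nat_lit 5) (nat_lit 503) (nat_lit 5) (nat_lit 569) (nat_lit 542) (nat_lit 449)) (XT.lf (nat_lit 0) (nat_lit 3787811901) (nat_lit 1748) (nat_lit 4762580705) (nat_lit 76) (nat_lit 519296985) (nat_lit 480) (nat_lit 5) (nat_lit 503) (nat_lit 5) (nat_lit 481) (nat_lit 5) (nat_lit 570) (nat_lit 542) (nat_lit 448)))) (XT.nd (nat_lit 156) (nat_lit 1748) (nat_lit 0) (XT.nd (nat_lit 78) (nat_lit 0) (nat_lit 0) (XT.lf (nat_lit 0) (nat_lit 373372678) (nat_lit 1748) (nat_lit 5140400156) (nat_lit 1824) (nat_lit 3637407990) (nat_lit 457) (nat_lit 5) (nat_lit 480) (nat_lit 5) (nat_lit 481) (nat_lit 5) (nat_lit 571) (nat_lit 542) (nat_lit 447)) (XT.lf (nat_lit 0) (nat_lit 5654350383) (nat_lit 1748) (nat_lit 1626716105) (nat_lit 1824) (nat_lit 1953103170) (nat_lit 457) (nat_lit 5) (nat_lit 480) (nat_lit 5) (nat_lit 481) (nat_lit 5) (nat_lit 572) (nat_lit 542) (nat_lit 446))) (XT.nd (nat_lit 78) (nat_lit 76) (nat_lit 0) (XT.lf (nat_lit 0) (nat_lit 1709510303)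 (nat_lit 1672) (nat_lit 7373368248) (nat_lit 1748) (nat_lit 235960234) (nat_lit 435) (nat_lit 5) (nat_lit 457) (nat_lit 5) (nat_lit 458) (nat_lit 5) (nat_lit 573) (nat_lit 542) (nat_lit 445)) (XT.lf (nat_lit 0) (nat_lit 1506143490) (nat_lit 1748) (nat_lit 2294854666) (nat_lit 76) (nat_lit 5603800267) (nat_lit 434) (nat_lit 5) (nat_lit 457) (nat_lit 5) (nat_lit 435) (nat_lit 5) (nat_lit 574) (nat_lit 542) (nat_lit 444))))))))
noncomputable def xc136 : XT := (XT.nd (nat_lit 1950) (nat_lit 8056) (nat_lit 0) (XT.nd (nat_lit 936) (nat_lit 5852) (nat_lit 0) (XT.nd (nat_lit 468) (nat_lit 2508) (nat_lit 0) (XT.nd (nat_lit 234) (nat_lit 1824) (nat_lit 0) (XT.nd (nat_lit 78) (nat_lit 912) (nat_lit 0) (XT.lf (nat_lit 0) (nat_lit 3143501157) (nat_lit 988) (nat_lit 132860688) (nat_lit 1064) (nat_lit 6216159313) (nat_lit 421) (nat_lit 5) (nat_lit 434) (nat_lit 5) (nat_lit 435) (nat_lit 5) (nat_lit 575) (nat_lit 542) (nat_lit 443)) (XT.nd (nat_lit 78) (nat_lit 912) (nat_lit 0) (XT.lf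 (nat_lit 0) (nat_lit 5097274378) (nat_lit 1064) (nat_lit 905905672) (nat_lit 76) (nat_lit 3578516165) (nat_lit 421) (nat_lit 5) (nat_lit 435) (nat_lit 5) (nat_lit 422) (nat_lit 5) (nat_lit 576) (nat_lit 542) (nat_lit 442)) (XT.lf (nat_lit 0) (nat_lit 4684655572) (nat_lit 912) (nat_lit 2278067373) (nat_lit 988) (nat_lit 2709773065) (nat_lit 409) (nat_lit 5) (nat_lit 421) (nat_lit 5) (nat_lit 422) (nat_lit 5) (nat_lit 577) (nat_lit 542) (nat_lit 441)))) (XT.nd (nat_lit 78) (nat_lit 912) (nat_lit 0) (XT.lf (nat_lit 0) (nat_lit 610101484) (nat_lit 912) (nat_lit 8252479907) (nat_lit 988) (nat_lit 902591915) (nat_lit 397) (nat_lit 5) (nat_lit 409) (nat_lit 5) (nat_lit 410) (nat_lit 5) (nat_lit 578) (nat_lit 542) (nat_lit 440)) (XT.nd (nat_lit 78) (nat_lit 836) (nat_lit 0) (XT.lf (nat_lit 0) (nat_lit 954467286) (nat_lit 988) (nat_lit 3515294066) (nat_lit 76) (nat_lit 5389302577) (nat_lit 396) (nat_lit 5) (nat_lit 409) (nat_lit 5) (nat_lit 397) (nat_lit 5) (nat_lit 579) (nat_lit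 542) (nat_lit 439)) (XT.lf (nat_lit 0) (nat_lit 2238645374) (nat_lit 836) (nat_lit 590220967) (nat_lit 912) (nat_lit 7126004332) (nat_lit 385) (nat_lit 5) (nat_lit 396) (nat_lit 5) (nat_lit 397) (nat_lit 5) (nat_lit 580) (nat_lit 542) (nat_lit 438))))) (XT.nd (nat_lit 234) (nat_lit 1672) (nat_lit 0) (XT.nd (nat_lit 78) (nat_lit 836) (nat_lit 0) (XT.lf (nat_lit 0) (nat_lit 4764392712) (nat_lit 912) (nat_lit 1941138908) (nat_lit 76) (nat_lit 3346592400) (nat_lit 385) (nat_lit 5) (nat_lit 397) (nat_lit 5) (nat_lit 386) (nat_lit 5) (nat_lit 581) (nat_lit 542) (nat_lit 437)) (XT.nd (nat_lit 78) (nat_lit 0) (nat_lit 0) (XT.lf (nat_lit 0) (nat_lit 3975806380) (nat_lit 836) (nat_lit 2771009690) (nat_lit 912) (nat_lit 3404345825) (nat_lit 374) (nat_lit 5) (nat_lit 385) (nat_lit 5) (nat_lit 386) (nat_lit 5) (nat_lit 582) (nat_lit 542) (nat_lit 436)) (XT.lf (nat_lit 0) (nat_lit 8768807625) (nat_lit 912) (nat_lit 244826931) (nat_lit 76) (nat_lit 1238550705) (nat_lit 374) (nat_lit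 5) (nat_lit 386) (nat_lit 5) (nat_lit 375) (nat_lit 5) (nat_lit 583) (nat_lit 542) (nat_lit 435)))) (XT.nd (nat_lit 78) (nat_lit 836) (nat_lit 0) (XT.lf (nat_lit 0) (nat_lit 505431270) (nat_lit 836) (nat_lit 4517008066) (nat_lit 76) (nat_lit 5332017666) (nat_lit 363) (nat_lit 5) (nat_lit 374) (nat_lit 5) (nat_lit 364) (nat_lit 5) (nat_lit 584) (nat_lit 542) (nat_lit 434)) (XT.nd (nat_lit 78) (nat_lit 0) (nat_lit 0) (XT.lf (nat_lit 0) (nat_lit 1574908867) (nat_lit 836) (nat_lit 930431113) (nat_lit 912) (nat_lit 7953417323) (nat_lit 352) (nat_lit 5) (nat_lit 363) (nat_lit 5) (nat_lit 364) (nat_lit 5) (nat_lit 585) (nat_lit 542) (nat_lit 433)) (XT.lf (nat_lit 0) (nat_lit 4576362732) (nat_lit 912) (nat_lit 2758022396) (nat_lit 76) (nat_lit 3230139051) (nat_lit 352) (nat_lit 5) (nat_lit 364) (nat_lit 5) (nat_lit 353) (nat_lit 5) (nat_lit 586) (nat_lit 542) (nat_lit 432)))))) (XT.nd (nat_lit 468) (nat_lit 2812) (nat_lit 0) (XT.nd (nat_lit 234) (nat_lit 1444) (nat_lit 0) (XT.nd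 (nat_lit 78) (nat_lit 836) (nat_lit 0) (XT.lf (nat_lit 0) (nat_lit 3508487284) (nat_lit 760) (nat_lit 3189206163) (nat_lit 836) (nat_lit 3974538030) (nat_lit 342) (nat_lit 5) (nat_lit 352) (nat_lit 5) (nat_lit 353) (nat_lit 5) (nat_lit 587) (nat_lit 542) (nat_lit 431)) (XT.nd (nat_lit 78) (nat_lit 836) (nat_lit 0) (XT.lf (nat_lit 0) (nat_lit 8867014514) (nat_lit 836) (nat_lit 872807859) (nat_lit 76) (nat_lit 1042162050) (nat_lit 342) (nat_lit 5) (nat_lit 353) (nat_lit 5) (nat_lit 343) (nat_lit 5) (nat_lit 588) (nat_lit 542) (nat_lit 430)) (XT.lf (nat_lit 0) (nat_lit 221491434) (nat_lit 836) (nat_lit 5320198488) (nat_lit 76) (nat_lit 5351458280) (nat_lit 331) (nat_lit 5) (nat_lit 342) (nat_lit 5) (nat_lit 332) (nat_lit 5) (nat_lit 589) (nat_lit 542) (nat_lit 429)))) (XT.nd (nat_lit 78) (nat_lit 760) (nat_lit 0) (XT.lf (nat_lit 0) (nat_lit 1133563526) (nat_lit 684) (nat_lit 1235445923) (nat_lit 760) (nat_lit 8637395888) (nat_lit 322) (nat_lit 5) (nat_lit 331) (nat_lit 5)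 (nat_lit 332) (nat_lit 5) (nat_lit 590) (nat_lit 542) (nat_lit 428)) (XT.nd (nat_lit 78) (nat_lit 760) (nat_lit 0) (XT.lf (nat_lit 0) (nat_lit 4596825310) (nat_lit 760) (nat_lit 3375273667) (nat_lit 76) (nat_lit 3149084254) (nat_lit 322) (nat_lit 5) (nat_lit 332) (nat_lit 5) (nat_lit 323) (nat_lit 5) (nat_lit 591) (nat_lit 542) (nat_lit 427)) (XT.lf (nat_lit 0) (nat_lit 3265475416) (nat_lit 760) (nat_lit 3614392603) (nat_lit 836) (nat_lit 4358177767) (nat_lit 312) (nat_lit 5) (nat_lit 322) (nat_lit 5) (nat_lit 323) (nat_lit 5) (nat_lit 592) (nat_lit 542) (nat_lit 426))))) (XT.nd (nat_lit 234) (nat_lit 1368) (nat_lit 0) (XT.nd (nat_lit 78) (nat_lit 1444) (nat_lit 0) (XT.lf (nat_lit 0) (nat_lit 9218261200) (nat_lit 836) (nat_lit 1299171432) (nat_lit 76) (nat_lit 839621636) (nat_lit 312) (nat_lit 5) (nat_lit 323) (nat_lit 5) (nat_lit 313) (nat_lit 5) (nat_lit 593) (nat_lit 542) (nat_lit 425)) (XT.nd (nat_lit 78) (nat_lit 684) (nat_lit 0) (XT.lf (nat_lit 0) (nat_lit 165349025)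 (nat_lit 760) (nat_lit 5943549877) (nat_lit 76) (nat_lit 5368689981) (nat_lit 302) (nat_lit 5) (nat_lit 312) (nat_lit 5) (nat_lit 303) (nat_lit 5) (nat_lit 594) (nat_lit 542) (nat_lit 424)) (XT.lf (nat_lit 0) (nat_lit 897404558) (nat_lit 684) (nat_lit 1586118618) (nat_lit 760) (nat_lit 9116798836) (nat_lit 293) (nat_lit 5) (nat_lit 302) (nat_lit 5) (nat_lit 303) (nat_lit 5) (nat_lit 595) (nat_lit 542) (nat_lit 423)))) (XT.nd (nat_lit 156) (nat_lit 760) (nat_lit 0) (XT.nd (nat_lit 78) (nat_lit 608) (nat_lit 0) (XT.lf (nat_lit 0) (nat_lit 4890016449) (nat_lit 760) (nat_lit 3810390315) (nat_lit 76) (nat_lit 3024266206) (nat_lit 293) (nat_lit 5) (nat_lit 303) (nat_lit 5) (nat_lit 294) (nat_lit 5) (nat_lit 596) (nat_lit 542) (nat_lit 422)) (XT.lf (nat_lit 0) (nat_lit 3230772616) (nat_lit 608) (nat_lit 4127850427) (nat_lit 684) (nat_lit 4492610470) (nat_lit 285) (nat_lit 5) (nat_lit 293) (nat_lit 5) (nat_lit 294) (nat_lit 5) (nat_lit 597) (nat_lit 542) (nat_lit 421))) (XT.nd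 (nat_lit 78) (nat_lit 760) (nat_lit 0) (XT.lf (nat_lit 0) (nat_lit 9888508327) (nat_lit 684) (nat_lit 1540323019) (nat_lit 76) (nat_lit 551257978) (nat_lit 285) (nat_lit 5) (nat_lit 294) (nat_lit 5) (nat_lit 286) (nat_lit 5) (nat_lit 598) (nat_lit 542) (nat_lit 420)) (XT.lf (nat_lit 0) (nat_lit 400516105) (nat_lit 760) (nat_lit 6405118742) (nat_lit 76) (nat_lit 5304888384) (nat_lit 275) (nat_lit 5) (nat_lit 285) (nat_lit 5) (nat_lit 276) (nat_lit 5) (nat_lit 599) (nat_lit 542) (nat_lit 419))))))) (XT.nd (nat_lit 936) (nat_lit 3952) (nat_lit 0) (XT.nd (nat_lit 468) (nat_lit 1672) (nat_lit 0) (XT.nd (nat_lit 234) (nat_lit 1216) (nat_lit 0) (XT.nd (nat_lit 78) (nat_lit 608) (nat_lit 0) (XT.lf (nat_lit 0) (nat_lit 849852248) (nat_lit 608) (nat_lit 2063656500) (nat_lit 684) (nat_lit 9329801428) (nat_lit 267) (nat_lit 5) (nat_lit 275) (nat_lit 5) (nat_lit 276) (nat_lit 5) (nat_lit 600) (nat_lit 542) (nat_lit 418)) (XT.nd (nat_lit 78) (nat_lit 608) (nat_lit 0) (XT.lf (nat_lit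 0) (nat_lit 5521313270) (nat_lit 684) (nat_lit 4080549453) (nat_lit 76) (nat_lit 2776001120) (nat_lit 267) (nat_lit 5) (nat_lit 276) (nat_lit 5) (nat_lit 268) (nat_lit 5) (nat_lit 601) (nat_lit 542) (nat_lit 417)) (XT.lf (nat_lit 0) (nat_lit 3388695806) (nat_lit 608) (nat_lit 4811854627) (nat_lit 684) (nat_lit 4314174603) (nat_lit 259) (nat_lit 5) (nat_lit 267) (nat_lit 5) (nat_lit 268) (nat_lit 5) (nat_lit 602) (nat_lit 542) (nat_lit 416)))) (XT.nd (nat_lit 78) (nat_lit 1216) (nat_lit 0) (XT.lf (nat_lit 0) (nat_lit 10945184370) (nat_lit 684) (nat_lit 1612658100) (nat_lit 76) (nat_lit 96246685) (nat_lit 259) (nat_lit 5) (nat_lit 268) (nat_lit 5) (nat_lit 260) (nat_lit 5) (nat_lit 603) (nat_lit 542) (nat_lit 415)) (XT.nd (nat_lit 78) (nat_lit 608) (nat_lit 0) (XT.lf (nat_lit 0) (nat_lit 991813842) (nat_lit 608) (nat_lit 6723276941) (nat_lit 76) (nat_lit 5079912825) (nat_lit 251) (nat_lit 5) (nat_lit 259) (nat_lit 5) (nat_lit 252) (nat_lit 5) (nat_lit 604) (nat_lit 542)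 (nat_lit 414)) (XT.lf (nat_lit 0) (nat_lit 973995963) (nat_lit 608) (nat_lit 2751067578) (nat_lit 684) (nat_lit 9213420746) (nat_lit 243) (nat_lit 5) (nat_lit 251) (nat_lit 5) (nat_lit 252) (nat_lit 5) (nat_lit 605) (nat_lit 542) (nat_lit 413))))) (XT.nd (nat_lit 234) (nat_lit 1140) (nat_lit 0) (XT.nd (nat_lit 78) (nat_lit 532) (nat_lit 0) (XT.lf (nat_lit 0) (nat_lit 6557714036) (nat_lit 684) (nat_lit 4203571210) (nat_lit 76) (nat_lit 2322656415) (nat_lit 243) (nat_lit 5) (nat_lit 252) (nat_lit 5) (nat_lit 244) (nat_lit 5) (nat_lit 606) (nat_lit 542) (nat_lit 412)) (XT.nd (nat_lit 78) (nat_lit 0) (nat_lit 0) (XT.lf (nat_lit 0) (nat_lit 3722899477) (nat_lit 532) (nat_lit 5751123995) (nat_lit 608) (nat_lit 3757746352) (nat_lit 236) (nat_lit 5) (nat_lit 243) (nat_lit 5) (nat_lit 244) (nat_lit 5) (nat_lit 607) (nat_lit 542) (nat_lit 411)) (XT.lf (nat_lit 0) (nat_lit 11844741188) (nat_lit 532) (nat_lit 616912397) (nat_lit 608) (nat_lit 920642803) (nat_lit 236) (nat_lit 5)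 (nat_lit 243) (nat_lit 5) (nat_lit 244) (nat_lit 5) (nat_lit 608) (nat_lit 542) (nat_lit 410)))) (XT.nd (nat_lit 78) (nat_lit 532) (nat_lit 0) (XT.lf (nat_lit 0) (nat_lit 2005803468) (nat_lit 608) (nat_lit 6917736357) (nat_lit 76) (nat_lit 4610869498) (nat_lit 228) (nat_lit 5) (nat_lit 236) (nat_lit 5) (nat_lit 229) (nat_lit 5) (nat_lit 609) (nat_lit 542) (nat_lit 409)) (XT.nd (nat_lit 78) (nat_lit 0) (nat_lit 0) (XT.lf (nat_lit 0) (nat_lit 1251552607) (nat_lit 532) (nat_lit 3734625457) (nat_lit 608) (nat_lit 8703111837) (nat_lit 221) (nat_lit 5) (nat_lit 228) (nat_lit 5) (nat_lit 229) (nat_lit 5) (nat_lit 610) (nat_lit 542) (nat_lit 408)) (XT.lf (nat_lit 0) (nat_lit 8068251308) (nat_lit 608) (nat_lit 4198974361) (nat_lit 76) (nat_lit 1579202192) (nat_lit 221) (nat_lit 5) (nat_lit 229) (nat_lit 5) (nat_lit 222) (nat_lit 5) (nat_lit 611) (nat_lit 542) (nat_lit 407)))))) (XT.nd (nat_lit 468) (nat_lit 1900) (nat_lit 0) (XT.nd (nat_lit 234) (nat_lit 988) (nat_lit 0) (XT.nd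 (nat_lit 78) (nat_lit 532) (nat_lit 0) (XT.lf (nat_lit 0) (nat_lit 4215301574) (nat_lit 532) (nat_lit 7034300959) (nat_lit 608) (nat_lit 2756354881) (nat_lit 214) (nat_lit 5) (nat_lit 221) (nat_lit 5) (nat_lit 222) (nat_lit 5) (nat_lit 612) (nat_lit 542) (nat_lit 406)) (XT.nd (nat_lit 78) (nat_lit 456) (nat_lit 0) (XT.lf (nat_lit 0) (nat_lit 335587787) (nat_lit 608) (nat_lit 1335512027) (nat_lit 76) (nat_lit 12497257752) (nat_lit 213) (nat_lit 5) (nat_lit 221) (nat_lit 5) (nat_lit 214) (nat_lit 5) (nat_lit 613) (nat_lit 542) (nat_lit 405)) (XT.lf (nat_lit 0) (nat_lit 3511147467) (nat_lit 532) (nat_lit 7010684840) (nat_lit 76) (nat_lit 3810636781) (nat_lit 207) (nat_lit 5) (nat_lit 214) (nat_lit 5) (nat_lit 208) (nat_lit 5) (nat_lit 614) (nat_lit 542) (nat_lit 404)))) (XT.nd (nat_lit 78) (nat_lit 456) (nat_lit 0) (XT.lf (nat_lit 0) (nat_lit 1661708824) (nat_lit 532) (nat_lit 5105380268) (nat_lit 608) (nat_lit 7732437779) (nat_lit 200) (nat_lit 5) (nat_lit 207) (nat_lit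 5) (nat_lit 208) (nat_lit 5) (nat_lit 615) (nat_lit 542) (nat_lit 403)) (XT.nd (nat_lit 78) (nat_lit 456) (nat_lit 0) (XT.lf (nat_lit 0) (nat_lit 10124334847) (nat_lit 608) (nat_lit 4089155193) (nat_lit 76) (nat_lit 455713480) (nat_lit 200) (nat_lit 5) (nat_lit 208) (nat_lit 5) (nat_lit 201) (nat_lit 5) (nat_lit 616) (nat_lit 542) (nat_lit 402)) (XT.lf (nat_lit 0) (nat_lit 4844880815) (nat_lit 456) (nat_lit 8755489116) (nat_lit 532) (nat_lit 1240872272) (nat_lit 194) (nat_lit 5) (nat_lit 200) (nat_lit 5) (nat_lit 201) (nat_lit 5) (nat_lit 617) (nat_lit 542) (nat_lit 401))))) (XT.nd (nat_lit 234) (nat_lit 912) (nat_lit 0) (XT.nd (nat_lit 78) (nat_lit 912) (nat_lit 0) (XT.lf (nat_lit 0) (nat_lit 2115330844) (nat_lit 532) (nat_lit 1036537284) (nat_lit 76) (nat_lit 11864297348) (nat_lit 193) (nat_lit 5) (nat_lit 200) (nat_lit 5) (nat_lit 194) (nat_lit 5) (nat_lit 618) (nat_lit 542) (nat_lit 400)) (XT.nd (nat_lit 78) (nat_lit 456) (nat_lit 0) (XT.lf (nat_lit 0) (nat_lit 5578895938)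 (nat_lit 532) (nat_lit 7028066966) (nat_lit 76) (nat_lit 2586324512) (nat_lit 187) (nat_lit 5) (nat_lit 194) (nat_lit 5) (nat_lit 188) (nat_lit 5) (nat_lit 619) (nat_lit 542) (nat_lit 399)) (XT.lf (nat_lit 0) (nat_lit 2179812488) (nat_lit 456) (nat_lit 6960744552) (nat_lit 532) (nat_lit 6232819544) (nat_lit 181) (nat_lit 5) (nat_lit 187) (nat_lit 5) (nat_lit 188) (nat_lit 5) (nat_lit 620) (nat_lit 542) (nat_lit 398)))) (XT.nd (nat_lit 156) (nat_lit 380) (nat_lit 0) (XT.nd (nat_lit 78) (nat_lit 532) (nat_lit 0) (XT.lf (nat_lit 0) (nat_lit 11648134562) (nat_lit 456) (nat_lit 1159411313) (nat_lit 532) (nat_lit 2748841027) (nat_lit 181) (nat_lit 5) (nat_lit 187) (nat_lit 5) (nat_lit 188) (nat_lit 5) (nat_lit 621) (nat_lit 542) (nat_lit 397)) (XT.lf (nat_lit 0) (nat_lit 848933053) (nat_lit 532) (nat_lit 10161248021) (nat_lit 76) (nat_lit 4731679628) (nat_lit 174) (nat_lit 5) (nat_lit 181) (nat_lit 5) (nat_lit 175) (nat_lit 5) (nat_lit 622) (nat_lit 542) (nat_lit 396))) (XT.nd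 (nat_lit 78) (nat_lit 380) (nat_lit 0) (XT.lf (nat_lit 0) (nat_lit 4503164502) (nat_lit 532) (nat_lit 663220542) (nat_lit 76) (nat_lit 10763870544) (nat_lit 174) (nat_lit 5) (nat_lit 181) (nat_lit 5) (nat_lit 175) (nat_lit 5) (nat_lit 623) (nat_lit 542) (nat_lit 395)) (XT.lf (nat_lit 0) (nat_lit 8282690249) (nat_lit 456) (nat_lit 7001047578) (nat_lit 76) (nat_lit 837637515) (nat_lit 169) (nat_lit 5) (nat_lit 175) (nat_lit 5) (nat_lit 170) (nat_lit 5) (nat_lit 624) (nat_lit 542) (nat_lit 394))))))))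
noncomputable def xc137 : XT := (XT.nd (nat_lit 1950) (nat_lit 836) (nat_lit 0) (XT.nd (nat_lit 936) (nat_lit 2584) (nat_lit 0) (XT.nd (nat_lit 468) (nat_lit 1216) (nat_lit 0) (XT.nd (nat_lit 234) (nat_lit 760) (nat_lit 0) (XT.nd (nat_lit 78) (nat_lit 456) (nat_lit 0) (XT.lf (nat_lit 0) (nat_lit 2775874432) (nat_lit 456) (nat_lit 9406184653) (nat_lit 532) (nat_lit 4133374492) (nat_lit 163) (nat_lit 5) (nat_lit 169) (nat_lit 5) (nat_lit 170) (nat_lit 5) (nat_lit 625) (nat_lit 542) (nat_lit 393)) (XT.nd (nat_lit 78) (nat_lit 456) (nat_lit 0) (XT.lf (nat_lit 0) (nat_lit 12824761868) (nat_lit 456) (nat_lit 3369293859) (nat_lit 532) (nat_lit 318625558) (nat_lit 163) (nat_lit 5) (nat_lit 169) (nat_lit 5) (nat_lit 170) (nat_lit 5) (nat_lit 626) (nat_lit 542) (nat_lit 392)) (XT.lf (nat_lit 0) (nat_lit 3573453235) (nat_lit 456) (nat_lit 10328052520) (nat_lit 76) (nat_lit 2810947622) (nat_lit 157) (nat_lit 5) (nat_lit 163) (nat_lit 5) (nat_lit 158) (nat_lit 5) (nat_lit 627) (nat_lit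 542) (nat_lit 391)))) (XT.nd (nat_lit 78) (nat_lit 760) (nat_lit 0) (XT.lf (nat_lit 0) (nat_lit 7574238018) (nat_lit 456) (nat_lit 250512066) (nat_lit 76) (nat_lit 9090727139) (nat_lit 157) (nat_lit 5) (nat_lit 163) (nat_lit 5) (nat_lit 158) (nat_lit 5) (nat_lit 628) (nat_lit 542) (nat_lit 390)) (XT.nd (nat_lit 78) (nat_lit 380) (nat_lit 0) (XT.lf (nat_lit 0) (nat_lit 10143617336) (nat_lit 380) (nat_lit 1565419313) (nat_lit 456) (nat_lit 5412445965) (nat_lit 152) (nat_lit 5) (nat_lit 157) (nat_lit 5) (nat_lit 158) (nat_lit 5) (nat_lit 629) (nat_lit 542) (nat_lit 389)) (XT.lf (nat_lit 0) (nat_lit 3412835735) (nat_lit 380) (nat_lit 12557050615) (nat_lit 456) (nat_lit 1360855675) (nat_lit 147) (nat_lit 5) (nat_lit 152) (nat_lit 5) (nat_lit 153) (nat_lit 5) (nat_lit 630) (nat_lit 542) (nat_lit 388))))) (XT.nd (nat_lit 234) (nat_lit 456) (nat_lit 0) (XT.nd (nat_lit 78) (nat_lit 684) (nat_lit 0) (XT.lf (nat_lit 0) (nat_lit 2781168409) (nat_lit 456) (nat_lit 3484098891) (nat_lit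 76) (nat_lit 11277645287) (nat_lit 146) (nat_lit 5) (nat_lit 152) (nat_lit 5) (nat_lit 147) (nat_lit 5) (nat_lit 631) (nat_lit 542) (nat_lit 387)) (XT.nd (nat_lit 78) (nat_lit 304) (nat_lit 0) (XT.lf (nat_lit 0) (nat_lit 7024548017) (nat_lit 456) (nat_lit 10533368461) (nat_lit 76) (nat_lit 200496394) (nat_lit 141) (nat_lit 5) (nat_lit 147) (nat_lit 5) (nat_lit 142) (nat_lit 5) (nat_lit 632) (nat_lit 542) (nat_lit 386)) (XT.lf (nat_lit 0) (nat_lit 160471158) (nat_lit 304) (nat_lit 11246945866) (nat_lit 380) (nat_lit 6569714636) (nat_lit 137) (nat_lit 5) (nat_lit 141) (nat_lit 5) (nat_lit 142) (nat_lit 5) (nat_lit 633) (nat_lit 542) (nat_lit 385)))) (XT.nd (nat_lit 78) (nat_lit 456) (nat_lit 0) (XT.lf (nat_lit 0) (nat_lit 11193257776) (nat_lit 304) (nat_lit 4744032643) (nat_lit 380) (nat_lit 2261748380) (nat_lit 137) (nat_lit 5) (nat_lit 141) (nat_lit 5) (nat_lit 142) (nat_lit 5) (nat_lit 634) (nat_lit 542) (nat_lit 384)) (XT.nd (nat_lit 78) (nat_lit 0) (nat_lit 0) (XT.lf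 (nat_lit 0) (nat_lit 2131959476) (nat_lit 456) (nat_lit 14394314571) (nat_lit 76) (nat_lit 1898283045) (nat_lit 131) (nat_lit 5) (nat_lit 137) (nat_lit 5) (nat_lit 132) (nat_lit 5) (nat_lit 635) (nat_lit 542) (nat_lit 383)) (XT.lf (nat_lit 0) (nat_lit 6650902037) (nat_lit 456) (nat_lit 3335981946) (nat_lit 76) (nat_lit 8666050719) (nat_lit 131) (nat_lit 5) (nat_lit 137) (nat_lit 5) (nat_lit 132) (nat_lit 5) (nat_lit 636) (nat_lit 542) (nat_lit 382)))))) (XT.nd (nat_lit 468) (nat_lit 1292) (nat_lit 0) (XT.nd (nat_lit 234) (nat_lit 608) (nat_lit 0) (XT.nd (nat_lit 78) (nat_lit 380) (nat_lit 0) (XT.lf (nat_lit 0) (nat_lit 8031617209) (nat_lit 304) (nat_lit 3269846742) (nat_lit 380) (nat_lit 7583591950) (nat_lit 127) (nat_lit 5) (nat_lit 131) (nat_lit 5) (nat_lit 132) (nat_lit 5) (nat_lit 637) (nat_lit 542) (nat_lit 381)) (XT.nd (nat_lit 78) (nat_lit 76) (nat_lit 0) (XT.lf (nat_lit 0) (nat_lit 516489892) (nat_lit 304) (nat_lit 15566844291) (nat_lit 380) (nat_lit 3037720231)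 (nat_lit 123) (nat_lit 5) (nat_lit 127) (nat_lit 5) (nat_lit 128) (nat_lit 5) (nat_lit 638) (nat_lit 542) (nat_lit 380)) (XT.lf (nat_lit 0) (nat_lit 1662250747) (nat_lit 380) (nat_lit 7149226563) (nat_lit 76) (nat_lit 10548405661) (nat_lit 122) (nat_lit 5) (nat_lit 127) (nat_lit 5) (nat_lit 123) (nat_lit 5) (nat_lit 639) (nat_lit 542) (nat_lit 379)))) (XT.nd (nat_lit 78) (nat_lit 304) (nat_lit 0) (XT.lf (nat_lit 0) (nat_lit 4557888707) (nat_lit 304) (nat_lit 1876684955) (nat_lit 380) (nat_lit 13168133081) (nat_lit 118) (nat_lit 5) (nat_lit 122) (nat_lit 5) (nat_lit 123) (nat_lit 5) (nat_lit 640) (nat_lit 542) (nat_lit 378)) (XT.nd (nat_lit 78) (nat_lit 304) (nat_lit 0) (XT.lf (nat_lit 0) (nat_lit 11373830600) (nat_lit 380) (nat_lit 3304477706) (nat_lit 76) (nat_lit 5170649699) (nat_lit 118) (nat_lit 5) (nat_lit 123) (nat_lit 5) (nat_lit 119) (nat_lit 5) (nat_lit 641) (nat_lit 542) (nat_lit 377)) (XT.lf (nat_lit 0) (nat_lit 8756369334) (nat_lit 304) (nat_lit 7714444348)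 (nat_lit 380) (nat_lit 3628142542) (nat_lit 114) (nat_lit 5) (nat_lit 118) (nat_lit 5) (nat_lit 119) (nat_lit 5) (nat_lit 642) (nat_lit 542) (nat_lit 376))))) (XT.nd (nat_lit 234) (nat_lit 608) (nat_lit 0) (XT.nd (nat_lit 78) (nat_lit 304) (nat_lit 0) (XT.lf (nat_lit 0) (nat_lit 733910146) (nat_lit 304) (nat_lit 581388659) (nat_lit 380) (nat_lit 19038149997) (nat_lit 109) (nat_lit 5) (nat_lit 113) (nat_lit 5) (nat_lit 114) (nat_lit 5) (nat_lit 643) (nat_lit 542) (nat_lit 375)) (XT.nd (nat_lit 78) (nat_lit 304) (nat_lit 0) (XT.lf (nat_lit 0) (nat_lit 6418895829) (nat_lit 380) (nat_lit 7490609807) (nat_lit 76) (nat_lit 6700849309) (nat_lit 109) (nat_lit 5) (nat_lit 114) (nat_lit 5) (nat_lit 110) (nat_lit 5) (nat_lit 644) (nat_lit 542) (nat_lit 374)) (XT.lf (nat_lit 0) (nat_lit 4925177022) (nat_lit 304) (nat_lit 6725156178) (nat_lit 380) (nat_lit 9221551337) (nat_lit 105) (nat_lit 5) (nat_lit 109) (nat_lit 5) (nat_lit 110) (nat_lit 5) (nat_lit 645) (nat_lit 542) (nat_lit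 373)))) (XT.nd (nat_lit 156) (nat_lit 304) (nat_lit 0) (XT.nd (nat_lit 78) (nat_lit 304) (nat_lit 0) (XT.lf (nat_lit 0) (nat_lit 17030902643) (nat_lit 380) (nat_lit 3467584984) (nat_lit 76) (nat_lit 639267710) (nat_lit 105) (nat_lit 5) (nat_lit 110) (nat_lit 5) (nat_lit 106) (nat_lit 5) (nat_lit 646) (nat_lit 542) (nat_lit 372)) (XT.lf (nat_lit 0) (nat_lit 1191463211) (nat_lit 304) (nat_lit 12092218185) (nat_lit 76) (nat_lit 8123200995) (nat_lit 101) (nat_lit 5) (nat_lit 105) (nat_lit 5) (nat_lit 102) (nat_lit 5) (nat_lit 647) (nat_lit 542) (nat_lit 371))) (XT.nd (nat_lit 78) (nat_lit 0) (nat_lit 0) (XT.lf (nat_lit 0) (nat_lit 684039736) (nat_lit 304) (nat_lit 5874840416) (nat_lit 380) (nat_lit 15121607040) (nat_lit 97) (nat_lit 5) (nat_lit 101) (nat_lit 5) (nat_lit 102) (nat_lit 5) (nat_lit 648) (nat_lit 542) (nat_lit 370)) (XT.lf (nat_lit 0) (nat_lit 12116504979) (nat_lit 380) (nat_lit 8105926366) (nat_lit 76) (nat_lit 1735476183) (nat_lit 97) (nat_lit 5) (nat_lit 102)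 (nat_lit 5) (nat_lit 98) (nat_lit 5) (nat_lit 649) (nat_lit 542) (nat_lit 369))))))) (XT.nd (nat_lit 73398) (nat_lit 0) (nat_lit 34656) (XT.nd (nat_lit 72930) (nat_lit 0) (nat_lit 38608) (XT.nd (nat_lit 234) (nat_lit 228) (nat_lit 0) (XT.nd (nat_lit 78) (nat_lit 380) (nat_lit 0) (XT.lf (nat_lit 0) (nat_lit 5053837776) (nat_lit 228) (nat_lit 12793609896) (nat_lit 304) (nat_lit 4392185907) (nat_lit 94) (nat_lit 5) (nat_lit 97) (nat_lit 5) (nat_lit 98) (nat_lit 5) (nat_lit 650) (nat_lit 542) (nat_lit 368)) (XT.nd (nat_lit 78) (nat_lit 304) (nat_lit 0) (XT.lf (nat_lit 0) (nat_lit 1195945299) (nat_lit 304) (nat_lit 3963127381) (nat_lit 76) (nat_lit 17366866198) (nat_lit 93) (nat_lit 5) (nat_lit 97) (nat_lit 5) (nat_lit 94) (nat_lit 5) (nat_lit 651) (nat_lit 542) (nat_lit 367)) (XT.lf (nat_lit 0) (nat_lit 6907729044) (nat_lit 380) (nat_lit 13228728255) (nat_lit 76) (nat_lit 2679518893) (nat_lit 89) (nat_lit 5) (nat_lit 94) (nat_lit 5) (nat_lit 90) (nat_lit 5) (nat_lit 652)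 (nat_lit 542) (nat_lit 366)))) (XT.nd (nat_lit 78) (nat_lit 0) (nat_lit 0) (XT.lf (nat_lit 0) (nat_lit 305033522) (nat_lit 228) (nat_lit 12482328113) (nat_lit 304) (nat_lit 10323380923) (nat_lit 86) (nat_lit 5) (nat_lit 89) (nat_lit 5) (nat_lit 90) (nat_lit 5) (nat_lit 653) (nat_lit 542) (nat_lit 365)) (XT.nd (nat_lit 72540) (nat_lit 0) (nat_lit 39824) (XT.lf (nat_lit 0) (nat_lit 14273198166) (nat_lit 228) (nat_lit 4590937501) (nat_lit 304) (nat_lit 4545678168) (nat_lit 86) (nat_lit 5) (nat_lit 89) (nat_lit 5) (nat_lit 90) (nat_lit 5) (nat_lit 654) (nat_lit 542) (nat_lit 364)) (XT.lf (nat_lit 0) (nat_lit 1721442093) (nat_lit 1292) (nat_lit 1002124910) (nat_lit 1292) (nat_lit 1002124910) (nat_lit 610) (nat_lit 3) (nat_lit 627) (nat_lit 3) (nat_lit 627) (nat_lit 5) (nat_lit 543) (nat_lit 543) (nat_lit 474))))) (XT.nd (nat_lit 234) (nat_lit 0) (nat_lit 0) (XT.nd (nat_lit 78) (nat_lit 1216) (nat_lit 0) (XT.lf (nat_lit 76) (nat_lit 1679232280) (nat_lit 0) (nat_lit 3280051771)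 (nat_lit 1292) (nat_lit 2536689214) (nat_lit 611) (nat_lit 5) (nat_lit 610) (nat_lit 3) (nat_lit 627) (nat_lit 5) (nat_lit 544) (nat_lit 543) (nat_lit 473)) (XT.nd (nat_lit 78) (nat_lit 1216) (nat_lit 0) (XT.lf (nat_lit 76) (nat_lit 5443607653) (nat_lit 0) (nat_lit 1037137687) (nat_lit 1292) (nat_lit 1061221957) (nat_lit 611) (nat_lit 5) (nat_lit 610) (nat_lit 3) (nat_lit 627) (nat_lit 5) (nat_lit 545) (nat_lit 543) (nat_lit 472)) (XT.lf (nat_lit 0) (nat_lit 419045105) (nat_lit 1292) (nat_lit 5904052593) (nat_lit 1368) (nat_lit 1266110864) (nat_lit 594) (nat_lit 5) (nat_lit 611) (nat_lit 5) (nat_lit 612) (nat_lit 5) (nat_lit 546) (nat_lit 543) (nat_lit 471)))) (XT.nd (nat_lit 78) (nat_lit 0) (nat_lit 0) (XT.lf (nat_lit 0) (nat_lit 1898282774) (nat_lit 1292) (nat_lit 2099127064) (nat_lit 1368) (nat_lit 3640180066) (nat_lit 594) (nat_lit 5) (nat_lit 611) (nat_lit 5) (nat_lit 612) (nat_lit 5) (nat_lit 547) (nat_lit 543) (nat_lit 470)) (XT.nd (nat_lit 78) (nat_lit 0) (nat_lit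 76) (XT.lf (nat_lit 76) (nat_lit 1784904285) (nat_lit 0) (nat_lit 1597043550) (nat_lit 1368) (nat_lit 4305501090) (nat_lit 595) (nat_lit 5) (nat_lit 594) (nat_lit 5) (nat_lit 612) (nat_lit 5) (nat_lit 548) (nat_lit 543) (nat_lit 469)) (XT.lf (nat_lit 0) (nat_lit 4878939072) (nat_lit 1292) (nat_lit 1989674494) (nat_lit 1368) (nat_lit 870025274) (nat_lit 595) (nat_lit 5) (nat_lit 612) (nat_lit 5) (nat_lit 613) (nat_lit 5) (nat_lit 549) (nat_lit 543) (nat_lit 468)))))) (XT.nd (nat_lit 468) (nat_lit 2660) (nat_lit 0) (XT.nd (nat_lit 234) (nat_lit 0) (nat_lit 76) (XT.nd (nat_lit 78) (nat_lit 1368) (nat_lit 0) (XT.lf (nat_lit 76) (nat_lit 1996372244) (nat_lit 0) (nat_lit 4397688992) (nat_lit 1368) (nat_lit 1397034133) (nat_lit 596) (nat_lit 5) (nat_lit 595) (nat_lit 5) (nat_lit 613) (nat_lit 5) (nat_lit 550) (nat_lit 543) (nat_lit 467)) (XT.nd (nat_lit 78) (nat_lit 0) (nat_lit 76) (XT.lf (nat_lit 0) (nat_lit 72056299) (nat_lit 1368) (nat_lit 1776950869) (nat_lit 1444) (nat_lit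 5996019600) (nat_lit 577) (nat_lit 5) (nat_lit 595) (nat_lit 5) (nat_lit 596) (nat_lit 5) (nat_lit 551) (nat_lit 543) (nat_lit 466)) (XT.lf (nat_lit 0) (nat_lit 1537700587) (nat_lit 1368) (nat_lit 5583602564) (nat_lit 1444) (nat_lit 778837646) (nat_lit 578) (nat_lit 5) (nat_lit 596) (nat_lit 5) (nat_lit 597) (nat_lit 5) (nat_lit 552) (nat_lit 543) (nat_lit 465)))) (XT.nd (nat_lit 78) (nat_lit 0) (nat_lit 0) (XT.lf (nat_lit 0) (nat_lit 3023195410) (nat_lit 1368) (nat_lit 1473702154) (nat_lit 1444) (nat_lit 3459654921) (nat_lit 578) (nat_lit 5) (nat_lit 596) (nat_lit 5) (nat_lit 597) (nat_lit 5) (nat_lit 553) (nat_lit 543) (nat_lit 464)) (XT.nd (nat_lit 78) (nat_lit 0) (nat_lit 76) (XT.lf (nat_lit 76) (nat_lit 2733418440) (nat_lit 0) (nat_lit 1789679172) (nat_lit 1444) (nat_lit 3491306857) (nat_lit 579) (nat_lit 5) (nat_lit 578) (nat_lit 5) (nat_lit 597) (nat_lit 5) (nat_lit 554) (nat_lit 543) (nat_lit 463)) (XT.lf (nat_lit 0) (nat_lit 6036802410) (nat_lit 1368) (nat_lit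 1056355750) (nat_lit 1444) (nat_lit 980585136) (nat_lit 579) (nat_lit 5) (nat_lit 597) (nat_lit 5) (nat_lit 598) (nat_lit 5) (nat_lit 555) (nat_lit 543) (nat_lit 462))))) (XT.nd (nat_lit 234) (nat_lit 1368) (nat_lit 0) (XT.nd (nat_lit 78) (nat_lit 1444) (nat_lit 0) (XT.lf (nat_lit 76) (nat_lit 3262702349) (nat_lit 0) (nat_lit 4319292141) (nat_lit 1444) (nat_lit 552255924) (nat_lit 580) (nat_lit 5) (nat_lit 579) (nat_lit 5) (nat_lit 598) (nat_lit 5) (nat_lit 556) (nat_lit 543) (nat_lit 461)) (XT.nd (nat_lit 78) (nat_lit 0) (nat_lit 76) (XT.lf (nat_lit 0) (nat_lit 925092753) (nat_lit 1444) (nat_lit 540948945) (nat_lit 1520) (nat_lit 6730294828) (nat_lit 560) (nat_lit 5) (nat_lit 579) (nat_lit 5) (nat_lit 580) (nat_lit 5) (nat_lit 557) (nat_lit 543) (nat_lit 460)) (XT.lf (nat_lit 0) (nat_lit 2428646816) (nat_lit 1444) (nat_lit 4366423307) (nat_lit 1520) (nat_lit 1464445611) (nat_lit 561) (nat_lit 5) (nat_lit 580) (nat_lit 5) (nat_lit 581) (nat_lit 5) (nat_lit 558) (nat_lit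 543) (nat_lit 459)))) (XT.nd (nat_lit 156) (nat_lit 1444) (nat_lit 0) (XT.nd (nat_lit 78) (nat_lit 0) (nat_lit 0) (XT.lf (nat_lit 76) (nat_lit 69020730) (nat_lit 0) (nat_lit 3876668623) (nat_lit 1520) (nat_lit 4378606164) (nat_lit 562) (nat_lit 5) (nat_lit 561) (nat_lit 5) (nat_lit 581) (nat_lit 5) (nat_lit 559) (nat_lit 543) (nat_lit 458)) (XT.lf (nat_lit 76) (nat_lit 4631089570) (nat_lit 0) (nat_lit 861348299) (nat_lit 1520) (nat_lit 2897950958) (nat_lit 562) (nat_lit 5) (nat_lit 561) (nat_lit 5) (nat_lit 581) (nat_lit 5) (nat_lit 560) (nat_lit 543) (nat_lit 457))) (XT.nd (nat_lit 78) (nat_lit 1520) (nat_lit 0) (XT.lf (nat_lit 76) (nat_lit 801225177) (nat_lit 0) (nat_lit 6259181084) (nat_lit 1520) (nat_lit 1397597175) (nat_lit 563) (nat_lit 5) (nat_lit 562) (nat_lit 5) (nat_lit 582) (nat_lit 5) (nat_lit 561) (nat_lit 543) (nat_lit 456)) (XT.lf (nat_lit 0) (nat_lit 133066575) (nat_lit 1520) (nat_lit 3051032594) (nat_lit 1596) (nat_lit 5342817980) (nat_lit 542) (nat_lit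 5) (nat_lit 562) (nat_lit 5) (nat_lit 563) (nat_lit 5) (nat_lit 562) (nat_lit 543) (nat_lit 455))))))))
noncomputable def xc138 : XT := (XT.nd (nat_lit 1950) (nat_lit 9956) (nat_lit 0) (XT.nd (nat_lit 936) (nat_lit 6232) (nat_lit 0) (XT.nd (nat_lit 468) (nat_lit 6764) (nat_lit 0) (XT.nd (nat_lit 234) (nat_lit 1444) (nat_lit 0) (XT.nd (nat_lit 78) (nat_lit 0) (nat_lit 76) (XT.lf (nat_lit 76) (nat_lit 1637726117) (nat_lit 0) (nat_lit 20069920) (nat_lit 1596) (nat_lit 6939589845) (nat_lit 543) (nat_lit 5) (nat_lit 542) (nat_lit 5) (nat_lit 563) (nat_lit 5) (nat_lit 563) (nat_lit 543) (nat_lit 454)) (XT.nd (nat_lit 78) (nat_lit 0) (nat_lit 0) (XT.lf (nat_lit 0) (nat_lit 3226434438) (nat_lit 1520) (nat_lit 2249991777) (nat_lit 1596) (nat_lit 3192574229) (nat_lit 543) (nat_lit 5) (nat_lit 563) (nat_lit 5) (nat_lit 564) (nat_lit 5) (nat_lit 564) (nat_lit 543) (nat_lit 453)) (XT.lf (nat_lit 76) (nat_lit 2566022166) (nat_lit 0) (nat_lit 2249747256) (nat_lit 1596) (nat_lit 3926496045)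 (nat_lit 544) (nat_lit 5) (nat_lit 543) (nat_lit 5) (nat_lit 564) (nat_lit 5) (nat_lit 565) (nat_lit 543) (nat_lit 452)))) (XT.nd (nat_lit 78) (nat_lit 1596) (nat_lit 0) (XT.lf (nat_lit 0) (nat_lit 6431820908) (nat_lit 1520) (nat_lit 1336511679) (nat_lit 76) (nat_lit 1048769164) (nat_lit 544) (nat_lit 5) (nat_lit 564) (nat_lit 5) (nat_lit 545) (nat_lit 5) (nat_lit 566) (nat_lit 543) (nat_lit 451)) (XT.nd (nat_lit 78) (nat_lit 76) (nat_lit 0) (XT.lf (nat_lit 0) (nat_lit 3611091778) (nat_lit 1520) (nat_lit 4480945549) (nat_lit 1596) (nat_lit 801165024) (nat_lit 524) (nat_lit 5) (nat_lit 544) (nat_lit 5) (nat_lit 545) (nat_lit 5) (nat_lit 567) (nat_lit 543) (nat_lit 450)) (XT.lf (nat_lit 0) (nat_lit 786680856) (nat_lit 1596) (nat_lit 321827049) (nat_lit 76) (nat_lit 7862560931) (nat_lit 523) (nat_lit 5) (nat_lit 544) (nat_lit 5) (nat_lit 524) (nat_lit 5) (nat_lit 568) (nat_lit 543) (nat_lit 449))))) (XT.nd (nat_lit 234) (nat_lit 3496) (nat_lit 0) (XT.nd (nat_lit 78) (nat_lit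 1672) (nat_lit 0) (XT.lf (nat_lit 0) (nat_lit 2416187202) (nat_lit 1672) (nat_lit 4291901609) (nat_lit 76) (nat_lit 2341889514) (nat_lit 502) (nat_lit 5) (nat_lit 524) (nat_lit 5) (nat_lit 503) (nat_lit 5) (nat_lit 569) (nat_lit 543) (nat_lit 448)) (XT.nd (nat_lit 78) (nat_lit 0) (nat_lit 0) (XT.lf (nat_lit 0) (nat_lit 795014528) (nat_lit 1672) (nat_lit 3272562634) (nat_lit 1748) (nat_lit 5063107098) (nat_lit 480) (nat_lit 5) (nat_lit 502) (nat_lit 5) (nat_lit 503) (nat_lit 5) (nat_lit 570) (nat_lit 543) (nat_lit 447)) (XT.lf (nat_lit 0) (nat_lit 5757489314) (nat_lit 1748) (nat_lit 3194237300) (nat_lit 76) (nat_lit 261171858) (nat_lit 480) (nat_lit 5) (nat_lit 503) (nat_lit 5) (nat_lit 481) (nat_lit 5) (nat_lit 571) (nat_lit 543) (nat_lit 446)))) (XT.nd (nat_lit 78) (nat_lit 1748) (nat_lit 0) (XT.lf (nat_lit 0) (nat_lit 2033490447) (nat_lit 1748) (nat_lit 5458073412) (nat_lit 1824) (nat_lit 1804989792) (nat_lit 457) (nat_lit 5) (nat_lit 480) (nat_lit 5) (nat_lit 481)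 (nat_lit 5) (nat_lit 572) (nat_lit 543) (nat_lit 445)) (XT.nd (nat_lit 78) (nat_lit 1748) (nat_lit 0) (XT.lf (nat_lit 0) (nat_lit 7387682798) (nat_lit 1748) (nat_lit 1869902636) (nat_lit 1824) (nat_lit 124355079) (nat_lit 457) (nat_lit 5) (nat_lit 480) (nat_lit 5) (nat_lit 481) (nat_lit 5) (nat_lit 573) (nat_lit 543) (nat_lit 444)) (XT.lf (nat_lit 0) (nat_lit 1579065693) (nat_lit 1748) (nat_lit 6087913461) (nat_lit 76) (nat_lit 1801652740) (nat_lit 434) (nat_lit 5) (nat_lit 457) (nat_lit 5) (nat_lit 435) (nat_lit 5) (nat_lit 574) (nat_lit 543) (nat_lit 443)))))) (XT.nd (nat_lit 468) (nat_lit 3344) (nat_lit 0) (XT.nd (nat_lit 234) (nat_lit 988) (nat_lit 0) (XT.nd (nat_lit 78) (nat_lit 1900) (nat_lit 0) (XT.lf (nat_lit 0) (nat_lit 3317235554) (nat_lit 1748) (nat_lit 701497896) (nat_lit 76) (nat_lit 5538263962) (nat_lit 434) (nat_lit 5) (nat_lit 457) (nat_lit 5) (nat_lit 435) (nat_lit 5) (nat_lit 575) (nat_lit 543) (nat_lit 442)) (XT.nd (nat_lit 78) (nat_lit 912) (nat_lit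 0) (XT.lf (nat_lit 0) (nat_lit 4834840478) (nat_lit 988) (nat_lit 263669936) (nat_lit 1064) (nat_lit 4548456587) (nat_lit 421) (nat_lit 5) (nat_lit 434) (nat_lit 5) (nat_lit 435) (nat_lit 5) (nat_lit 576) (nat_lit 543) (nat_lit 441)) (XT.lf (nat_lit 0) (nat_lit 717450336) (nat_lit 912) (nat_lit 6207789737) (nat_lit 988) (nat_lit 2813302847) (nat_lit 409) (nat_lit 5) (nat_lit 421) (nat_lit 5) (nat_lit 422) (nat_lit 5) (nat_lit 577) (nat_lit 543) (nat_lit 440)))) (XT.nd (nat_lit 78) (nat_lit 988) (nat_lit 0) (XT.lf (nat_lit 0) (nat_lit 6399676049) (nat_lit 912) (nat_lit 2400437935) (nat_lit 988) (nat_lit 1031607631) (nat_lit 409) (nat_lit 5) (nat_lit 421) (nat_lit 5) (nat_lit 422) (nat_lit 5) (nat_lit 578) (nat_lit 543) (nat_lit 439)) (XT.nd (nat_lit 78) (nat_lit 0) (nat_lit 0) (XT.lf (nat_lit 0) (nat_lit 777808981) (nat_lit 988) (nat_lit 7664378013) (nat_lit 76) (nat_lit 1484430334) (nat_lit 396) (nat_lit 5) (nat_lit 409) (nat_lit 5) (nat_lit 397) (nat_lit 5) (nat_lit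 579) (nat_lit 543) (nat_lit 438)) (XT.lf (nat_lit 0) (nat_lit 2626868717) (nat_lit 988) (nat_lit 1950484441) (nat_lit 76) (nat_lit 5445579311) (nat_lit 396) (nat_lit 5) (nat_lit 409) (nat_lit 5) (nat_lit 397) (nat_lit 5) (nat_lit 580) (nat_lit 543) (nat_lit 437))))) (XT.nd (nat_lit 234) (nat_lit 1672) (nat_lit 0) (XT.nd (nat_lit 78) (nat_lit 836) (nat_lit 0) (XT.lf (nat_lit 0) (nat_lit 3907776449) (nat_lit 836) (nat_lit 609107831) (nat_lit 912) (nat_lit 5604213332) (nat_lit 385) (nat_lit 5) (nat_lit 396) (nat_lit 5) (nat_lit 397) (nat_lit 5) (nat_lit 581) (nat_lit 543) (nat_lit 436)) (XT.nd (nat_lit 78) (nat_lit 836) (nat_lit 0) (XT.lf (nat_lit 0) (nat_lit 6459087064) (nat_lit 912) (nat_lit 355182640) (nat_lit 76) (nat_lit 3406671742) (nat_lit 385) (nat_lit 5) (nat_lit 397) (nat_lit 5) (nat_lit 386) (nat_lit 5) (nat_lit 582) (nat_lit 543) (nat_lit 435)) (XT.lf (nat_lit 0) (nat_lit 5669412218) (nat_lit 836) (nat_lit 2790865501) (nat_lit 912) (nat_lit 1862104629) (nat_lit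 374) (nat_lit 5) (nat_lit 385) (nat_lit 5) (nat_lit 386) (nat_lit 5) (nat_lit 583) (nat_lit 543) (nat_lit 434)))) (XT.nd (nat_lit 156) (nat_lit 836) (nat_lit 0) (XT.nd (nat_lit 78) (nat_lit 0) (nat_lit 0) (XT.lf (nat_lit 0) (nat_lit 74104899) (nat_lit 836) (nat_lit 9044560636) (nat_lit 76) (nat_lit 1307190521) (nat_lit 363) (nat_lit 5) (nat_lit 374) (nat_lit 5) (nat_lit 364) (nat_lit 5) (nat_lit 584) (nat_lit 543) (nat_lit 433)) (XT.lf (nat_lit 0) (nat_lit 2053736000) (nat_lit 836) (nat_lit 2983908247) (nat_lit 76) (nat_lit 5492919091) (nat_lit 363) (nat_lit 5) (nat_lit 374) (nat_lit 5) (nat_lit 364) (nat_lit 5) (nat_lit 585) (nat_lit 543) (nat_lit 432))) (XT.nd (nat_lit 78) (nat_lit 0) (nat_lit 0) (XT.lf (nat_lit 0) (nat_lit 3219166498) (nat_lit 836) (nat_lit 854786782) (nat_lit 912) (nat_lit 6563394447) (nat_lit 352) (nat_lit 5) (nat_lit 363) (nat_lit 5) (nat_lit 364) (nat_lit 5) (nat_lit 586) (nat_lit 543) (nat_lit 431)) (XT.lf (nat_lit 0) (nat_lit 6157221804) (nat_lit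 912) (nat_lit 1202661058) (nat_lit 76) (nat_lit 3385934782) (nat_lit 352) (nat_lit 5) (nat_lit 364) (nat_lit 5) (nat_lit 353) (nat_lit 5) (nat_lit 587) (nat_lit 543) (nat_lit 430))))))) (XT.nd (nat_lit 936) (nat_lit 4864) (nat_lit 0) (XT.nd (nat_lit 468) (nat_lit 2052) (nat_lit 0) (XT.nd (nat_lit 234) (nat_lit 1444) (nat_lit 0) (XT.nd (nat_lit 78) (nat_lit 836) (nat_lit 0) (XT.lf (nat_lit 0) (nat_lit 5178583278) (nat_lit 760) (nat_lit 3123581053) (nat_lit 836) (nat_lit 2553895178) (nat_lit 342) (nat_lit 5) (nat_lit 352) (nat_lit 5) (nat_lit 353) (nat_lit 5) (nat_lit 588) (nat_lit 543) (nat_lit 429)) (XT.nd (nat_lit 78) (nat_lit 76) (nat_lit 0) (XT.lf (nat_lit 0) (nat_lit 715892329) (nat_lit 760) (nat_lit 9775617608) (nat_lit 836) (nat_lit 476968860) (nat_lit 332) (nat_lit 5) (nat_lit 342) (nat_lit 5) (nat_lit 343) (nat_lit 5) (nat_lit 589) (nat_lit 543) (nat_lit 428)) (XT.lf (nat_lit 0) (nat_lit 1660072528) (nat_lit 836) (nat_lit 3821086740) (nat_lit 76) (nat_lit 5600974513)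 (nat_lit 331) (nat_lit 5) (nat_lit 342) (nat_lit 5) (nat_lit 332) (nat_lit 5) (nat_lit 590) (nat_lit 543) (nat_lit 427)))) (XT.nd (nat_lit 78) (nat_lit 760) (nat_lit 0) (XT.lf (nat_lit 0) (nat_lit 2751187911) (nat_lit 684) (nat_lit 1081587872) (nat_lit 760) (nat_lit 7365239387) (nat_lit 322) (nat_lit 5) (nat_lit 331) (nat_lit 5) (nat_lit 332) (nat_lit 5) (nat_lit 591) (nat_lit 543) (nat_lit 426)) (XT.nd (nat_lit 78) (nat_lit 760) (nat_lit 0) (XT.lf (nat_lit 0) (nat_lit 6078512326) (nat_lit 760) (nat_lit 1852277167) (nat_lit 76) (nat_lit 3384835578) (nat_lit 322) (nat_lit 5) (nat_lit 332) (nat_lit 5) (nat_lit 323) (nat_lit 5) (nat_lit 592) (nat_lit 543) (nat_lit 425)) (XT.lf (nat_lit 0) (nat_lit 4910823069) (nat_lit 760) (nat_lit 3479401467) (nat_lit 836) (nat_lit 3044943833) (nat_lit 312) (nat_lit 5) (nat_lit 322) (nat_lit 5) (nat_lit 323) (nat_lit 5) (nat_lit 593) (nat_lit 543) (nat_lit 424))))) (XT.nd (nat_lit 234) (nat_lit 608) (nat_lit 0) (XT.nd (nat_lit 78) (nat_lit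 760) (nat_lit 0) (XT.lf (nat_lit 0) (nat_lit 252997248) (nat_lit 684) (nat_lit 10498433515) (nat_lit 760) (nat_lit 805608943) (nat_lit 303) (nat_lit 5) (nat_lit 312) (nat_lit 5) (nat_lit 313) (nat_lit 5) (nat_lit 594) (nat_lit 543) (nat_lit 423)) (XT.nd (nat_lit 78) (nat_lit 684) (nat_lit 0) (XT.lf (nat_lit 0) (nat_lit 1508548049) (nat_lit 760) (nat_lit 4479968571) (nat_lit 76) (nat_lit 5691653612) (nat_lit 302) (nat_lit 5) (nat_lit 312) (nat_lit 5) (nat_lit 303) (nat_lit 5) (nat_lit 595) (nat_lit 543) (nat_lit 422)) (XT.lf (nat_lit 0) (nat_lit 2487394081) (nat_lit 684) (nat_lit 1369625944) (nat_lit 760) (nat_lit 7948662696) (nat_lit 293) (nat_lit 5) (nat_lit 302) (nat_lit 5) (nat_lit 303) (nat_lit 5) (nat_lit 596) (nat_lit 543) (nat_lit 421)))) (XT.nd (nat_lit 78) (nat_lit 608) (nat_lit 0) (XT.lf (nat_lit 0) (nat_lit 6287265761) (nat_lit 760) (nat_lit 2320837743) (nat_lit 76) (nat_lit 3324908061) (nat_lit 293) (nat_lit 5) (nat_lit 303) (nat_lit 5) (nat_lit 294) (nat_lit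 5) (nat_lit 597) (nat_lit 543) (nat_lit 420)) (XT.nd (nat_lit 78) (nat_lit 0) (nat_lit 0) (XT.lf (nat_lit 0) (nat_lit 4850847392) (nat_lit 608) (nat_lit 3939016777) (nat_lit 684) (nat_lit 3272550008) (nat_lit 285) (nat_lit 5) (nat_lit 293) (nat_lit 5) (nat_lit 294) (nat_lit 5) (nat_lit 598) (nat_lit 543) (nat_lit 419)) (XT.lf (nat_lit 0) (nat_lit 11346896840) (nat_lit 684) (nat_lit 22559596) (nat_lit 76) (nat_lit 824862864) (nat_lit 285) (nat_lit 5) (nat_lit 294) (nat_lit 5) (nat_lit 286) (nat_lit 5) (nat_lit 599) (nat_lit 543) (nat_lit 418)))))) (XT.nd (nat_lit 468) (nat_lit 2280) (nat_lit 0) (XT.nd (nat_lit 234) (nat_lit 1216) (nat_lit 0) (XT.nd (nat_lit 78) (nat_lit 608) (nat_lit 0) (XT.lf (nat_lit 0) (nat_lit 1662820147) (nat_lit 760) (nat_lit 4978017037) (nat_lit 76) (nat_lit 5686657385) (nat_lit 275) (nat_lit 5) (nat_lit 285) (nat_lit 5) (nat_lit 276) (nat_lit 5) (nat_lit 600) (nat_lit 543) (nat_lit 417)) (XT.nd (nat_lit 78) (nat_lit 0) (nat_lit 0) (XT.lf (nat_lit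 0) (nat_lit 2411821767) (nat_lit 608) (nat_lit 1799687868) (nat_lit 684) (nat_lit 8251721884) (nat_lit 267) (nat_lit 5) (nat_lit 275) (nat_lit 5) (nat_lit 276) (nat_lit 5) (nat_lit 601) (nat_lit 543) (nat_lit 416)) (XT.lf (nat_lit 0) (nat_lit 6849104774) (nat_lit 684) (nat_lit 2624968772) (nat_lit 76) (nat_lit 3126852968) (nat_lit 267) (nat_lit 5) (nat_lit 276) (nat_lit 5) (nat_lit 268) (nat_lit 5) (nat_lit 602) (nat_lit 543) (nat_lit 415)))) (XT.nd (nat_lit 78) (nat_lit 608) (nat_lit 0) (XT.lf (nat_lit 0) (nat_lit 4983548289) (nat_lit 608) (nat_lit 4584423291) (nat_lit 684) (nat_lit 3172835340) (nat_lit 259) (nat_lit 5) (nat_lit 267) (nat_lit 5) (nat_lit 268) (nat_lit 5) (nat_lit 603) (nat_lit 543) (nat_lit 414)) (XT.nd (nat_lit 78) (nat_lit 608) (nat_lit 0) (XT.lf (nat_lit 0) (nat_lit 12345962184) (nat_lit 684) (nat_lit 126097818) (nat_lit 76) (nat_lit 411331872) (nat_lit 259) (nat_lit 5) (nat_lit 268) (nat_lit 5) (nat_lit 260) (nat_lit 5) (nat_lit 604) (nat_lit 543)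 (nat_lit 413)) (XT.lf (nat_lit 0) (nat_lit 2188021883) (nat_lit 608) (nat_lit 5333151785) (nat_lit 76) (nat_lit 5506066494) (nat_lit 251) (nat_lit 5) (nat_lit 259) (nat_lit 5) (nat_lit 252) (nat_lit 5) (nat_lit 605) (nat_lit 543) (nat_lit 412))))) (XT.nd (nat_lit 234) (nat_lit 1140) (nat_lit 0) (XT.nd (nat_lit 78) (nat_lit 532) (nat_lit 0) (XT.lf (nat_lit 0) (nat_lit 2508036375) (nat_lit 608) (nat_lit 2454667619) (nat_lit 684) (nat_lit 8211153780) (nat_lit 243) (nat_lit 5) (nat_lit 251) (nat_lit 5) (nat_lit 252) (nat_lit 5) (nat_lit 606) (nat_lit 543) (nat_lit 411)) (XT.nd (nat_lit 78) (nat_lit 532) (nat_lit 0) (XT.lf (nat_lit 0) (nat_lit 7831437770) (nat_lit 684) (nat_lit 2782078877) (nat_lit 76) (nat_lit 2709121659) (nat_lit 243) (nat_lit 5) (nat_lit 252) (nat_lit 5) (nat_lit 244) (nat_lit 5) (nat_lit 607) (nat_lit 543) (nat_lit 410)) (XT.lf (nat_lit 0) (nat_lit 5293016199) (nat_lit 532) (nat_lit 5500364681) (nat_lit 608) (nat_lit 2680298567) (nat_lit 236) (nat_lit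 5) (nat_lit 243) (nat_lit 5) (nat_lit 244) (nat_lit 5) (nat_lit 608) (nat_lit 543) (nat_lit 409)))) (XT.nd (nat_lit 156) (nat_lit 532) (nat_lit 0) (XT.nd (nat_lit 78) (nat_lit 532) (nat_lit 0) (XT.lf (nat_lit 0) (nat_lit 188442696) (nat_lit 608) (nat_lit 80933798) (nat_lit 76) (nat_lit 13358260856) (nat_lit 235) (nat_lit 5) (nat_lit 243) (nat_lit 5) (nat_lit 236) (nat_lit 5) (nat_lit 609) (nat_lit 543) (nat_lit 408)) (XT.lf (nat_lit 0) (nat_lit 3151183422) (nat_lit 608) (nat_lit 5564776125) (nat_lit 76) (nat_lit 5066911847) (nat_lit 228) (nat_lit 5) (nat_lit 236) (nat_lit 5) (nat_lit 229) (nat_lit 5) (nat_lit 610) (nat_lit 543) (nat_lit 407))) (XT.nd (nat_lit 78) (nat_lit 0) (nat_lit 0) (XT.lf (nat_lit 0) (nat_lit 2758087335) (nat_lit 532) (nat_lit 3421025238) (nat_lit 608) (nat_lit 7761980438) (nat_lit 221) (nat_lit 5) (nat_lit 228) (nat_lit 5) (nat_lit 229) (nat_lit 5) (nat_lit 611) (nat_lit 543) (nat_lit 406)) (XT.lf (nat_lit 0) (nat_lit 9303863395) (nat_lit 608) (nat_lit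 2811419230) (nat_lit 76) (nat_lit 1986472706) (nat_lit 221) (nat_lit 5) (nat_lit 229) (nat_lit 5) (nat_lit 222) (nat_lit 5) (nat_lit 612) (nat_lit 543) (nat_lit 405))))))))
noncomputable def xc139 : XT := (XT.nd (nat_lit 1950) (nat_lit 3420) (nat_lit 0) (XT.nd (nat_lit 936) (nat_lit 2888) (nat_lit 0) (XT.nd (nat_lit 468) (nat_lit 1900) (nat_lit 0) (XT.nd (nat_lit 234) (nat_lit 988) (nat_lit 0) (XT.nd (nat_lit 78) (nat_lit 532) (nat_lit 0) (XT.lf (nat_lit 0) (nat_lit 5761461075) (nat_lit 532) (nat_lit 6775808224) (nat_lit 608) (nat_lit 1727439900) (nat_lit 214) (nat_lit 5) (nat_lit 221) (nat_lit 5) (nat_lit 222) (nat_lit 5) (nat_lit 613) (nat_lit 543) (nat_lit 404)) (XT.nd (nat_lit 78) (nat_lit 0) (nat_lit 0) (XT.lf (nat_lit 0) (nat_lit 86145300) (nat_lit 456) (nat_lit 1305561272) (nat_lit 532) (nat_lit 13038920557) (nat_lit 207) (nat_lit 5) (nat_lit 213) (nat_lit 5) (nat_lit 214) (nat_lit 5) (nat_lit 614) (nat_lit 543) (nat_lit 403)) (XT.lf (nat_lit 0) (nat_lit 4621584815)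 (nat_lit 532) (nat_lit 5694920159) (nat_lit 76) (nat_lit 4281701907) (nat_lit 207) (nat_lit 5) (nat_lit 214) (nat_lit 5) (nat_lit 208) (nat_lit 5) (nat_lit 615) (nat_lit 543) (nat_lit 402)))) (XT.nd (nat_lit 78) (nat_lit 456) (nat_lit 0) (XT.lf (nat_lit 0) (nat_lit 3141342573) (nat_lit 532) (nat_lit 4790297324) (nat_lit 608) (nat_lit 6837188134) (nat_lit 200) (nat_lit 5) (nat_lit 207) (nat_lit 5) (nat_lit 208) (nat_lit 5) (nat_lit 616) (nat_lit 543) (nat_lit 401)) (XT.nd (nat_lit 78) (nat_lit 456) (nat_lit 0) (XT.lf (nat_lit 0) (nat_lit 11338505564) (nat_lit 608) (nat_lit 2735271363) (nat_lit 76) (nat_lit 868473849) (nat_lit 200) (nat_lit 5) (nat_lit 208) (nat_lit 5) (nat_lit 201) (nat_lit 5) (nat_lit 617) (nat_lit 543) (nat_lit 400)) (XT.lf (nat_lit 0) (nat_lit 6368000188) (nat_lit 456) (nat_lit 8505484198) (nat_lit 532) (nat_lit 244459408) (nat_lit 194) (nat_lit 5) (nat_lit 200) (nat_lit 5) (nat_lit 201) (nat_lit 5) (nat_lit 618) (nat_lit 543) (nat_lit 399))))) (XT.nd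 (nat_lit 234) (nat_lit 912) (nat_lit 0) (XT.nd (nat_lit 78) (nat_lit 456) (nat_lit 0) (XT.lf (nat_lit 0) (nat_lit 358924133) (nat_lit 456) (nat_lit 2789118887) (nat_lit 532) (nat_lit 12148540468) (nat_lit 187) (nat_lit 5) (nat_lit 193) (nat_lit 5) (nat_lit 194) (nat_lit 5) (nat_lit 619) (nat_lit 543) (nat_lit 398)) (XT.nd (nat_lit 78) (nat_lit 456) (nat_lit 0) (XT.lf (nat_lit 0) (nat_lit 6671034469) (nat_lit 532) (nat_lit 5749533641) (nat_lit 76) (nat_lit 3056878562) (nat_lit 187) (nat_lit 5) (nat_lit 194) (nat_lit 5) (nat_lit 188) (nat_lit 5) (nat_lit 620) (nat_lit 543) (nat_lit 397)) (XT.lf (nat_lit 0) (nat_lit 3633167253) (nat_lit 456) (nat_lit 6660687949) (nat_lit 532) (nat_lit 5367485762) (nat_lit 181) (nat_lit 5) (nat_lit 187) (nat_lit 5) (nat_lit 188) (nat_lit 5) (nat_lit 621) (nat_lit 543) (nat_lit 396)))) (XT.nd (nat_lit 78) (nat_lit 912) (nat_lit 0) (XT.lf (nat_lit 0) (nat_lit 13263213445) (nat_lit 456) (nat_lit 751941211) (nat_lit 532) (nat_lit 1833239247)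 (nat_lit 181) (nat_lit 5) (nat_lit 187) (nat_lit 5) (nat_lit 188) (nat_lit 5) (nat_lit 622) (nat_lit 543) (nat_lit 395)) (XT.nd (nat_lit 78) (nat_lit 380) (nat_lit 0) (XT.lf (nat_lit 0) (nat_lit 1816818697) (nat_lit 532) (nat_lit 8962507363) (nat_lit 76) (nat_lit 5258265693) (nat_lit 174) (nat_lit 5) (nat_lit 181) (nat_lit 5) (nat_lit 175) (nat_lit 5) (nat_lit 623) (nat_lit 543) (nat_lit 394)) (XT.lf (nat_lit 0) (nat_lit 707267078) (nat_lit 380) (nat_lit 4822814509) (nat_lit 456) (nat_lit 10699955740) (nat_lit 169) (nat_lit 5) (nat_lit 174) (nat_lit 5) (nat_lit 175) (nat_lit 5) (nat_lit 624) (nat_lit 543) (nat_lit 393)))))) (XT.nd (nat_lit 468) (nat_lit 1596) (nat_lit 0) (XT.nd (nat_lit 234) (nat_lit 760) (nat_lit 0) (XT.nd (nat_lit 78) (nat_lit 532) (nat_lit 0) (XT.lf (nat_lit 0) (nat_lit 9374065022) (nat_lit 456) (nat_lit 5759967047) (nat_lit 76) (nat_lit 1291171754) (nat_lit 169) (nat_lit 5) (nat_lit 175) (nat_lit 5) (nat_lit 170) (nat_lit 5) (nat_lit 625) (nat_lit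 543) (nat_lit 392)) (XT.nd (nat_lit 78) (nat_lit 76) (nat_lit 0) (XT.lf (nat_lit 0) (nat_lit 4203407210) (nat_lit 456) (nat_lit 9138770667) (nat_lit 532) (nat_lit 3281151873) (nat_lit 163) (nat_lit 5) (nat_lit 169) (nat_lit 5) (nat_lit 170) (nat_lit 5) (nat_lit 626) (nat_lit 543) (nat_lit 391)) (XT.lf (nat_lit 0) (nat_lit 583802433) (nat_lit 532) (nat_lit 2402354114) (nat_lit 76) (nat_lit 13838650079) (nat_lit 162) (nat_lit 5) (nat_lit 169) (nat_lit 5) (nat_lit 163) (nat_lit 5) (nat_lit 627) (nat_lit 543) (nat_lit 390)))) (XT.nd (nat_lit 78) (nat_lit 380) (nat_lit 0) (XT.lf (nat_lit 0) (nat_lit 4543417725) (nat_lit 456) (nat_lit 9171279148) (nat_lit 76) (nat_lit 3313957499) (nat_lit 157) (nat_lit 5) (nat_lit 163) (nat_lit 5) (nat_lit 158) (nat_lit 5) (nat_lit 628) (nat_lit 543) (nat_lit 389)) (XT.nd (nat_lit 78) (nat_lit 0) (nat_lit 0) (XT.lf (nat_lit 0) (nat_lit 1095447052) (nat_lit 380) (nat_lit 7518265963) (nat_lit 456) (nat_lit 8622237317) (nat_lit 152) (nat_lit 5)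 (nat_lit 157) (nat_lit 5) (nat_lit 158) (nat_lit 5) (nat_lit 629) (nat_lit 543) (nat_lit 388)) (XT.lf (nat_lit 0) (nat_lit 11674298621) (nat_lit 380) (nat_lit 1141145531) (nat_lit 456) (nat_lit 4630948451) (nat_lit 152) (nat_lit 5) (nat_lit 157) (nat_lit 5) (nat_lit 158) (nat_lit 5) (nat_lit 630) (nat_lit 543) (nat_lit 387))))) (XT.nd (nat_lit 234) (nat_lit 760) (nat_lit 0) (XT.nd (nat_lit 78) (nat_lit 456) (nat_lit 0) (XT.lf (nat_lit 0) (nat_lit 4814631723) (nat_lit 380) (nat_lit 12341334802) (nat_lit 456) (nat_lit 503983036) (nat_lit 147) (nat_lit 5) (nat_lit 152) (nat_lit 5) (nat_lit 153) (nat_lit 5) (nat_lit 631) (nat_lit 543) (nat_lit 386)) (XT.nd (nat_lit 78) (nat_lit 380) (nat_lit 0) (XT.lf (nat_lit 0) (nat_lit 3692178793) (nat_lit 456) (nat_lit 2234950986) (nat_lit 76) (nat_lit 11949462525) (nat_lit 146) (nat_lit 5) (nat_lit 152) (nat_lit 5) (nat_lit 147) (nat_lit 5) (nat_lit 632) (nat_lit 543) (nat_lit 385)) (XT.lf (nat_lit 0) (nat_lit 8015166395) (nat_lit 456)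 (nat_lit 9419876944) (nat_lit 76) (nat_lit 661465835) (nat_lit 141) (nat_lit 5) (nat_lit 147) (nat_lit 5) (nat_lit 142) (nat_lit 5) (nat_lit 633) (nat_lit 543) (nat_lit 384)))) (XT.nd (nat_lit 156) (nat_lit 456) (nat_lit 0) (XT.nd (nat_lit 78) (nat_lit 0) (nat_lit 0) (XT.lf (nat_lit 0) (nat_lit 1479127896) (nat_lit 304) (nat_lit 10998436478) (nat_lit 380) (nat_lit 5842201893) (nat_lit 137) (nat_lit 5) (nat_lit 141) (nat_lit 5) (nat_lit 142) (nat_lit 5) (nat_lit 634) (nat_lit 543) (nat_lit 383)) (XT.lf (nat_lit 0) (nat_lit 12706777162) (nat_lit 304) (nat_lit 4374748292) (nat_lit 380) (nat_lit 1464917626) (nat_lit 137) (nat_lit 5) (nat_lit 141) (nat_lit 5) (nat_lit 142) (nat_lit 5) (nat_lit 635) (nat_lit 543) (nat_lit 382))) (XT.nd (nat_lit 78) (nat_lit 0) (nat_lit 0) (XT.lf (nat_lit 0) (nat_lit 3000761489) (nat_lit 456) (nat_lit 13376514210) (nat_lit 76) (nat_lit 2399185158) (nat_lit 131) (nat_lit 5) (nat_lit 137) (nat_lit 5) (nat_lit 132) (nat_lit 5) (nat_lit 636) (nat_lit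 543) (nat_lit 381)) (XT.lf (nat_lit 0) (nat_lit 7593883630) (nat_lit 456) (nat_lit 2122616632) (nat_lit 76) (nat_lit 9293231000) (nat_lit 131) (nat_lit 5) (nat_lit 137) (nat_lit 5) (nat_lit 132) (nat_lit 5) (nat_lit 637) (nat_lit 543) (nat_lit 380))))))) (XT.nd (nat_lit 936) (nat_lit 836) (nat_lit 0) (XT.nd (nat_lit 468) (nat_lit 1292) (nat_lit 0) (XT.nd (nat_lit 234) (nat_lit 608) (nat_lit 0) (XT.nd (nat_lit 78) (nat_lit 380) (nat_lit 0) (XT.lf (nat_lit 0) (nat_lit 9463912895) (nat_lit 304) (nat_lit 2865918731) (nat_lit 380) (nat_lit 6916816994) (nat_lit 127) (nat_lit 5) (nat_lit 131) (nat_lit 5) (nat_lit 132) (nat_lit 5) (nat_lit 638) (nat_lit 543) (nat_lit 379)) (XT.nd (nat_lit 78) (nat_lit 76) (nat_lit 0) (XT.lf (nat_lit 0) (nat_lit 1803092126) (nat_lit 304) (nat_lit 15399788838) (nat_lit 380) (nat_lit 2284576513) (nat_lit 123) (nat_lit 5) (nat_lit 127) (nat_lit 5) (nat_lit 128) (nat_lit 5) (nat_lit 639) (nat_lit 543) (nat_lit 378)) (XT.lf (nat_lit 0) (nat_lit 2482969979)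 (nat_lit 380) (nat_lit 6030440414) (nat_lit 76) (nat_lit 11217862676) (nat_lit 122) (nat_lit 5) (nat_lit 127) (nat_lit 5) (nat_lit 123) (nat_lit 5) (nat_lit 640) (nat_lit 543) (nat_lit 377)))) (XT.nd (nat_lit 78) (nat_lit 304) (nat_lit 0) (XT.lf (nat_lit 0) (nat_lit 5902516039) (nat_lit 304) (nat_lit 1440920999) (nat_lit 380) (nat_lit 12635663464) (nat_lit 118) (nat_lit 5) (nat_lit 122) (nat_lit 5) (nat_lit 123) (nat_lit 5) (nat_lit 641) (nat_lit 543) (nat_lit 376)) (XT.nd (nat_lit 78) (nat_lit 304) (nat_lit 0) (XT.lf (nat_lit 0) (nat_lit 12369194334) (nat_lit 380) (nat_lit 2129334935) (nat_lit 76) (nat_lit 5731994332) (nat_lit 118) (nat_lit 5) (nat_lit 123) (nat_lit 5) (nat_lit 119) (nat_lit 5) (nat_lit 642) (nat_lit 543) (nat_lit 375)) (XT.lf (nat_lit 0) (nat_lit 10164563043) (nat_lit 304) (nat_lit 7396503309) (nat_lit 380) (nat_lit 2924597542) (nat_lit 114) (nat_lit 5) (nat_lit 118) (nat_lit 5) (nat_lit 119) (nat_lit 5) (nat_lit 643) (nat_lit 543) (nat_lit 374)))))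 (XT.nd (nat_lit 234) (nat_lit 608) (nat_lit 0) (XT.nd (nat_lit 78) (nat_lit 304) (nat_lit 0) (XT.lf (nat_lit 0) (nat_lit 1983707522) (nat_lit 304) (nat_lit 116827312) (nat_lit 380) (nat_lit 18644751741) (nat_lit 109) (nat_lit 5) (nat_lit 113) (nat_lit 5) (nat_lit 114) (nat_lit 5) (nat_lit 644) (nat_lit 543) (nat_lit 373)) (XT.nd (nat_lit 78) (nat_lit 304) (nat_lit 0) (XT.lf (nat_lit 0) (nat_lit 7294353931) (nat_lit 380) (nat_lit 6417619415) (nat_lit 76) (nat_lit 7295595524) (nat_lit 109) (nat_lit 5) (nat_lit 114) (nat_lit 5) (nat_lit 110) (nat_lit 5) (nat_lit 645) (nat_lit 543) (nat_lit 372)) (XT.lf (nat_lit 0) (nat_lit 6238438397) (nat_lit 304) (nat_lit 6385220035) (nat_lit 380) (nat_lit 8650806866) (nat_lit 105) (nat_lit 5) (nat_lit 109) (nat_lit 5) (nat_lit 110) (nat_lit 5) (nat_lit 646) (nat_lit 543) (nat_lit 371)))) (XT.nd (nat_lit 78) (nat_lit 608) (nat_lit 0) (XT.lf (nat_lit 0) (nat_lit 18100343188) (nat_lit 380) (nat_lit 2334451988) (nat_lit 76) (nat_lit 1111089250)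 (nat_lit 105) (nat_lit 5) (nat_lit 110) (nat_lit 5) (nat_lit 106) (nat_lit 5) (nat_lit 647) (nat_lit 543) (nat_lit 370)) (XT.nd (nat_lit 78) (nat_lit 304) (nat_lit 0) (XT.lf (nat_lit 0) (nat_lit 1942411616) (nat_lit 304) (nat_lit 11129778262) (nat_lit 76) (nat_lit 8748240134) (nat_lit 101) (nat_lit 5) (nat_lit 105) (nat_lit 5) (nat_lit 102) (nat_lit 5) (nat_lit 648) (nat_lit 543) (nat_lit 369)) (XT.lf (nat_lit 0) (nat_lit 1894081894) (nat_lit 304) (nat_lit 5516605336) (nat_lit 380) (nat_lit 14688950408) (nat_lit 97) (nat_lit 5) (nat_lit 101) (nat_lit 5) (nat_lit 102) (nat_lit 5) (nat_lit 649) (nat_lit 543) (nat_lit 368)))))) (XT.nd (nat_lit 73008) (nat_lit 0) (nat_lit 37316) (XT.nd (nat_lit 234) (nat_lit 532) (nat_lit 0) (XT.nd (nat_lit 78) (nat_lit 304) (nat_lit 0) (XT.lf (nat_lit 0) (nat_lit 13068362766) (nat_lit 380) (nat_lit 7083994016) (nat_lit 76) (nat_lit 2230472550) (nat_lit 97) (nat_lit 5) (nat_lit 102) (nat_lit 5) (nat_lit 98) (nat_lit 5) (nat_lit 650) (nat_lit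 543) (nat_lit 367)) (XT.nd (nat_lit 78) (nat_lit 76) (nat_lit 0) (XT.lf (nat_lit 0) (nat_lit 6331175600) (nat_lit 228) (nat_lit 12576473473) (nat_lit 304) (nat_lit 3762667234) (nat_lit 94) (nat_lit 5) (nat_lit 97) (nat_lit 5) (nat_lit 98) (nat_lit 5) (nat_lit 651) (nat_lit 543) (nat_lit 366)) (XT.lf (nat_lit 0) (nat_lit 1913936807) (nat_lit 304) (nat_lit 2879925791) (nat_lit 76) (nat_lit 18168670454) (nat_lit 93) (nat_lit 5) (nat_lit 97) (nat_lit 5) (nat_lit 94) (nat_lit 5) (nat_lit 652) (nat_lit 543) (nat_lit 365)))) (XT.nd (nat_lit 78) (nat_lit 228) (nat_lit 0) (XT.lf (nat_lit 0) (nat_lit 7736875928) (nat_lit 380) (nat_lit 12327716078) (nat_lit 76) (nat_lit 3193841559) (nat_lit 89) (nat_lit 5) (nat_lit 94) (nat_lit 5) (nat_lit 90) (nat_lit 5) (nat_lit 653) (nat_lit 543) (nat_lit 364)) (XT.nd (nat_lit 72618) (nat_lit 0) (nat_lit 39824) (XT.lf (nat_lit 0) (nat_lit 1469052601) (nat_lit 228) (nat_lit 12259017675) (nat_lit 304) (nat_lit 9831146429) (nat_lit 86) (nat_lit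 5) (nat_lit 89) (nat_lit 5) (nat_lit 90) (nat_lit 5) (nat_lit 654) (nat_lit 543) (nat_lit 363)) (XT.lf (nat_lit 0) (nat_lit 3217388117) (nat_lit 1292) (nat_lit 276652080) (nat_lit 1292) (nat_lit 276652080) (nat_lit 610) (nat_lit 3) (nat_lit 627) (nat_lit 3) (nat_lit 627) (nat_lit 5) (nat_lit 544) (nat_lit 544) (nat_lit 472))))) (XT.nd (nat_lit 234) (nat_lit 1216) (nat_lit 0) (XT.nd (nat_lit 78) (nat_lit 0) (nat_lit 0) (XT.lf (nat_lit 0) (nat_lit 341438399) (nat_lit 1292) (nat_lit 4396038965) (nat_lit 1368) (nat_lit 2850308539) (nat_lit 593) (nat_lit 5) (nat_lit 610) (nat_lit 3) (nat_lit 611) (nat_lit 5) (nat_lit 545) (nat_lit 544) (nat_lit 471)) (XT.nd (nat_lit 78) (nat_lit 0) (nat_lit 0) (XT.lf (nat_lit 0) (nat_lit 1769913690) (nat_lit 1292) (nat_lit 642869883) (nat_lit 1368) (nat_lit 5222866753) (nat_lit 593) (nat_lit 5) (nat_lit 610) (nat_lit 3) (nat_lit 611) (nat_lit 5) (nat_lit 546) (nat_lit 544) (nat_lit 470)) (XT.lf (nat_lit 76) (nat_lit 3208148825) (nat_lit 0)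 (nat_lit 2907443) (nat_lit 1368) (nat_lit 4473740721) (nat_lit 594) (nat_lit 5) (nat_lit 593) (nat_lit 5) (nat_lit 611) (nat_lit 5) (nat_lit 547) (nat_lit 544) (nat_lit 469)))) (XT.nd (nat_lit 156) (nat_lit 1292) (nat_lit 0) (XT.nd (nat_lit 78) (nat_lit 0) (nat_lit 0) (XT.lf (nat_lit 0) (nat_lit 4665279199) (nat_lit 1292) (nat_lit 625909254) (nat_lit 1368) (nat_lit 2444059751) (nat_lit 594) (nat_lit 5) (nat_lit 611) (nat_lit 5) (nat_lit 612) (nat_lit 5) (nat_lit 548) (nat_lit 544) (nat_lit 468)) (XT.lf (nat_lit 76) (nat_lit 3325834298) (nat_lit 0) (nat_lit 2809045819) (nat_lit 1368) (nat_lit 1652109094) (nat_lit 595) (nat_lit 5) (nat_lit 594) (nat_lit 5) (nat_lit 612) (nat_lit 5) (nat_lit 549) (nat_lit 544) (nat_lit 467))) (XT.nd (nat_lit 78) (nat_lit 1292) (nat_lit 0) (XT.lf (nat_lit 76) (nat_lit 7345616303) (nat_lit 0) (nat_lit 257703737) (nat_lit 1368) (nat_lit 237062566) (nat_lit 595) (nat_lit 5) (nat_lit 594) (nat_lit 5) (nat_lit 612) (nat_lit 5) (nat_lit 550) (nat_lit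 544) (nat_lit 466)) (XT.lf (nat_lit 0) (nat_lit 1194866076) (nat_lit 1368) (nat_lit 4340056805) (nat_lit 1444) (nat_lit 2359682566) (nat_lit 577) (nat_lit 5) (nat_lit 595) (nat_lit 5) (nat_lit 596) (nat_lit 5) (nat_lit 551) (nat_lit 544) (nat_lit 465))))))))
noncomputable def xc140 : XT := (XT.nd (nat_lit 1950) (nat_lit 11096) (nat_lit 0) (XT.nd (nat_lit 936) (nat_lit 9196) (nat_lit 0) (XT.nd (nat_lit 468) (nat_lit 1368) (nat_lit 0) (XT.nd (nat_lit 234) (nat_lit 1292) (nat_lit 0) (XT.nd (nat_lit 78) (nat_lit 0) (nat_lit 0) (XT.lf (nat_lit 0) (nat_lit 2623646534) (nat_lit 1368) (nat_lit 281794887) (nat_lit 1444) (nat_lit 5045018368) (nat_lit 577) (nat_lit 5) (nat_lit 595) (nat_lit 5) (nat_lit 596) (nat_lit 5) (nat_lit 552) (nat_lit 544) (nat_lit 464)) (XT.nd (nat_lit 78) (nat_lit 0) (nat_lit 76) (XT.lf (nat_lit 76) (nat_lit 3888824576) (nat_lit 0) (nat_lit 184422702) (nat_lit 1444) (nat_lit 3934345057) (nat_lit 578) (nat_lit 5) (nat_lit 577) (nat_lit 5) (nat_lit 596) (nat_lit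 5) (nat_lit 553) (nat_lit 544) (nat_lit 463)) (XT.lf (nat_lit 76) (nat_lit 44171999) (nat_lit 0) (nat_lit 5494279294) (nat_lit 1444) (nat_lit 2527689908) (nat_lit 579) (nat_lit 5) (nat_lit 578) (nat_lit 5) (nat_lit 597) (nat_lit 5) (nat_lit 554) (nat_lit 544) (nat_lit 462)))) (XT.nd (nat_lit 78) (nat_lit 1368) (nat_lit 0) (XT.lf (nat_lit 76) (nat_lit 4324679570) (nat_lit 0) (nat_lit 2705234201) (nat_lit 1444) (nat_lit 1096013963) (nat_lit 579) (nat_lit 5) (nat_lit 578) (nat_lit 5) (nat_lit 597) (nat_lit 5) (nat_lit 555) (nat_lit 544) (nat_lit 461)) (XT.nd (nat_lit 78) (nat_lit 0) (nat_lit 0) (XT.lf (nat_lit 0) (nat_lit 332213803) (nat_lit 1444) (nat_lit 7700843685) (nat_lit 1520) (nat_lit 154356838) (nat_lit 560) (nat_lit 5) (nat_lit 579) (nat_lit 5) (nat_lit 580) (nat_lit 5) (nat_lit 556) (nat_lit 544) (nat_lit 460)) (XT.lf (nat_lit 0) (nat_lit 1787008334) (nat_lit 1444) (nat_lit 3384163195) (nat_lit 1520) (nat_lit 3078566117) (nat_lit 560) (nat_lit 5) (nat_lit 579)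 (nat_lit 5) (nat_lit 580) (nat_lit 5) (nat_lit 557) (nat_lit 544) (nat_lit 459))))) (XT.nd (nat_lit 234) (nat_lit 1368) (nat_lit 0) (XT.nd (nat_lit 78) (nat_lit 0) (nat_lit 76) (XT.lf (nat_lit 76) (nat_lit 1011655519) (nat_lit 0) (nat_lit 2235489370) (nat_lit 1520) (nat_lit 5066642957) (nat_lit 561) (nat_lit 5) (nat_lit 560) (nat_lit 5) (nat_lit 580) (nat_lit 5) (nat_lit 558) (nat_lit 544) (nat_lit 458)) (XT.nd (nat_lit 78) (nat_lit 0) (nat_lit 0) (XT.lf (nat_lit 0) (nat_lit 4734473654) (nat_lit 1444) (nat_lit 2863471857) (nat_lit 1520) (nat_lit 781218985) (nat_lit 561) (nat_lit 5) (nat_lit 580) (nat_lit 5) (nat_lit 581) (nat_lit 5) (nat_lit 559) (nat_lit 544) (nat_lit 457)) (XT.lf (nat_lit 76) (nat_lit 1650218693) (nat_lit 0) (nat_lit 4597635692) (nat_lit 1520) (nat_lit 2198073317) (nat_lit 562) (nat_lit 5) (nat_lit 561) (nat_lit 5) (nat_lit 581) (nat_lit 5) (nat_lit 560) (nat_lit 544) (nat_lit 456)))) (XT.nd (nat_lit 78) (nat_lit 1444) (nat_lit 0) (XT.lf (nat_lit 76)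 (nat_lit 6272552095) (nat_lit 0) (nat_lit 1509392615) (nat_lit 1520) (nat_lit 732277653) (nat_lit 562) (nat_lit 5) (nat_lit 561) (nat_lit 5) (nat_lit 581) (nat_lit 5) (nat_lit 561) (nat_lit 544) (nat_lit 455)) (XT.nd (nat_lit 78) (nat_lit 0) (nat_lit 0) (XT.lf (nat_lit 0) (nat_lit 750913630) (nat_lit 1520) (nat_lit 6185211686) (nat_lit 1596) (nat_lit 1647701693) (nat_lit 542) (nat_lit 5) (nat_lit 562) (nat_lit 5) (nat_lit 563) (nat_lit 5) (nat_lit 562) (nat_lit 544) (nat_lit 454)) (XT.lf (nat_lit 0) (nat_lit 2251185177) (nat_lit 1520) (nat_lit 1528282139) (nat_lit 1596) (nat_lit 4875319930) (nat_lit 542) (nat_lit 5) (nat_lit 562) (nat_lit 5) (nat_lit 563) (nat_lit 5) (nat_lit 563) (nat_lit 544) (nat_lit 453)))))) (XT.nd (nat_lit 468) (nat_lit 6156) (nat_lit 0) (XT.nd (nat_lit 234) (nat_lit 3040) (nat_lit 0) (XT.nd (nat_lit 78) (nat_lit 0) (nat_lit 76) (XT.lf (nat_lit 76) (nat_lit 3243832199) (nat_lit 0) (nat_lit 531312717) (nat_lit 1596) (nat_lit 4952152766) (nat_lit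 543) (nat_lit 5) (nat_lit 542) (nat_lit 5) (nat_lit 563) (nat_lit 5) (nat_lit 564) (nat_lit 544) (nat_lit 452)) (XT.nd (nat_lit 78) (nat_lit 0) (nat_lit 0) (XT.lf (nat_lit 0) (nat_lit 5331037870) (nat_lit 1520) (nat_lit 708026712) (nat_lit 1596) (nat_lit 2762169221) (nat_lit 543) (nat_lit 5) (nat_lit 563) (nat_lit 5) (nat_lit 564) (nat_lit 5) (nat_lit 565) (nat_lit 544) (nat_lit 451)) (XT.lf (nat_lit 76) (nat_lit 4193866951) (nat_lit 0) (nat_lit 2728526978) (nat_lit 1596) (nat_lit 1954172277) (nat_lit 544) (nat_lit 5) (nat_lit 543) (nat_lit 5) (nat_lit 564) (nat_lit 5) (nat_lit 566) (nat_lit 544) (nat_lit 450)))) (XT.nd (nat_lit 78) (nat_lit 1672) (nat_lit 0) (XT.lf (nat_lit 0) (nat_lit 227869508) (nat_lit 1520) (nat_lit 8302197396) (nat_lit 1596) (nat_lit 423652939) (nat_lit 524) (nat_lit 5) (nat_lit 544) (nat_lit 5) (nat_lit 545) (nat_lit 5) (nat_lit 567) (nat_lit 544) (nat_lit 449)) (XT.nd (nat_lit 78) (nat_lit 1596) (nat_lit 0) (XT.lf (nat_lit 0) (nat_lit 1146479093)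 (nat_lit 1596) (nat_lit 3778499815) (nat_lit 76) (nat_lit 4106815738) (nat_lit 523) (nat_lit 5) (nat_lit 544) (nat_lit 5) (nat_lit 524) (nat_lit 5) (nat_lit 568) (nat_lit 544) (nat_lit 448)) (XT.lf (nat_lit 0) (nat_lit 1260768915) (nat_lit 1596) (nat_lit 1464488018) (nat_lit 1672) (nat_lit 6386463813) (nat_lit 502) (nat_lit 5) (nat_lit 523) (nat_lit 5) (nat_lit 524) (nat_lit 5) (nat_lit 569) (nat_lit 544) (nat_lit 447))))) (XT.nd (nat_lit 234) (nat_lit 4484) (nat_lit 0) (XT.nd (nat_lit 78) (nat_lit 1672) (nat_lit 0) (XT.lf (nat_lit 0) (nat_lit 4349657099) (nat_lit 1672) (nat_lit 2775425299) (nat_lit 76) (nat_lit 2067886083) (nat_lit 502) (nat_lit 5) (nat_lit 524) (nat_lit 5) (nat_lit 503) (nat_lit 5) (nat_lit 570) (nat_lit 544) (nat_lit 446)) (XT.nd (nat_lit 78) (nat_lit 0) (nat_lit 0) (XT.lf (nat_lit 0) (nat_lit 2402687620) (nat_lit 1672) (nat_lit 3604758433) (nat_lit 1748) (nat_lit 3268381067) (nat_lit 480) (nat_lit 5) (nat_lit 502) (nat_lit 5) (nat_lit 503) (nat_lit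 5) (nat_lit 571) (nat_lit 544) (nat_lit 445)) (XT.lf (nat_lit 0) (nat_lit 7693017008) (nat_lit 1748) (nat_lit 1659126449) (nat_lit 76) (nat_lit 8310840) (nat_lit 480) (nat_lit 5) (nat_lit 503) (nat_lit 5) (nat_lit 481) (nat_lit 5) (nat_lit 572) (nat_lit 544) (nat_lit 444)))) (XT.nd (nat_lit 156) (nat_lit 2660) (nat_lit 0) (XT.nd (nat_lit 78) (nat_lit 76) (nat_lit 0) (XT.lf (nat_lit 0) (nat_lit 3662636145) (nat_lit 1748) (nat_lit 5773756653) (nat_lit 1824) (nat_lit 9903163) (nat_lit 457) (nat_lit 5) (nat_lit 480) (nat_lit 5) (nat_lit 481) (nat_lit 5) (nat_lit 573) (nat_lit 544) (nat_lit 443)) (XT.lf (nat_lit 0) (nat_lit 1646556755) (nat_lit 1824) (nat_lit 452166997) (nat_lit 76) (nat_lit 7435159739) (nat_lit 456) (nat_lit 5) (nat_lit 480) (nat_lit 5) (nat_lit 457) (nat_lit 5) (nat_lit 574) (nat_lit 544) (nat_lit 442))) (XT.nd (nat_lit 78) (nat_lit 988) (nat_lit 0) (XT.lf (nat_lit 0) (nat_lit 3356695237) (nat_lit 1748) (nat_lit 4602560099) (nat_lit 76) (nat_lit 1663556078)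 (nat_lit 434) (nat_lit 5) (nat_lit 457) (nat_lit 5) (nat_lit 435) (nat_lit 5) (nat_lit 575) (nat_lit 544) (nat_lit 441)) (XT.lf (nat_lit 0) (nat_lit 871501683) (nat_lit 988) (nat_lit 4229548938) (nat_lit 1064) (nat_lit 4612470516) (nat_lit 421) (nat_lit 5) (nat_lit 434) (nat_lit 5) (nat_lit 435) (nat_lit 5) (nat_lit 576) (nat_lit 544) (nat_lit 440))))))) (XT.nd (nat_lit 936) (nat_lit 5092) (nat_lit 0) (XT.nd (nat_lit 468) (nat_lit 3268) (nat_lit 0) (XT.nd (nat_lit 234) (nat_lit 1748) (nat_lit 0) (XT.nd (nat_lit 78) (nat_lit 988) (nat_lit 0) (XT.lf (nat_lit 0) (nat_lit 6496771138) (nat_lit 988) (nat_lit 392119070) (nat_lit 1064) (nat_lit 2916986357) (nat_lit 421) (nat_lit 5) (nat_lit 434) (nat_lit 5) (nat_lit 435) (nat_lit 5) (nat_lit 577) (nat_lit 544) (nat_lit 439)) (XT.nd (nat_lit 78) (nat_lit 76) (nat_lit 0) (XT.lf (nat_lit 0) (nat_lit 2321335975) (nat_lit 912) (nat_lit 6407248683) (nat_lit 988) (nat_lit 1171175869) (nat_lit 409) (nat_lit 5) (nat_lit 421) (nat_lit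 5) (nat_lit 422) (nat_lit 5) (nat_lit 578) (nat_lit 544) (nat_lit 438)) (XT.lf (nat_lit 0) (nat_lit 604813769) (nat_lit 988) (nat_lit 1913400924) (nat_lit 76) (nat_lit 7477166429) (nat_lit 408) (nat_lit 5) (nat_lit 421) (nat_lit 5) (nat_lit 409) (nat_lit 5) (nat_lit 579) (nat_lit 544) (nat_lit 437)))) (XT.nd (nat_lit 78) (nat_lit 836) (nat_lit 0) (XT.lf (nat_lit 0) (nat_lit 2414259361) (nat_lit 988) (nat_lit 6214611155) (nat_lit 76) (nat_lit 1463619610) (nat_lit 396) (nat_lit 5) (nat_lit 409) (nat_lit 5) (nat_lit 397) (nat_lit 5) (nat_lit 580) (nat_lit 544) (nat_lit 436)) (XT.nd (nat_lit 78) (nat_lit 836) (nat_lit 0) (XT.lf (nat_lit 0) (nat_lit 4268518053) (nat_lit 988) (nat_lit 417872152) (nat_lit 76) (nat_lit 5504981750) (nat_lit 396) (nat_lit 5) (nat_lit 409) (nat_lit 5) (nat_lit 397) (nat_lit 5) (nat_lit 581) (nat_lit 544) (nat_lit 435)) (XT.lf (nat_lit 0) (nat_lit 5547214338) (nat_lit 836) (nat_lit 628097411) (nat_lit 912) (nat_lit 4116613739) (nat_lit 385) (nat_lit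 5) (nat_lit 396) (nat_lit 5) (nat_lit 397) (nat_lit 5) (nat_lit 582) (nat_lit 544) (nat_lit 434))))) (XT.nd (nat_lit 234) (nat_lit 1596) (nat_lit 0) (XT.nd (nat_lit 78) (nat_lit 836) (nat_lit 0) (XT.lf (nat_lit 0) (nat_lit 1215340004) (nat_lit 836) (nat_lit 6918119188) (nat_lit 912) (nat_lit 2260769550) (nat_lit 374) (nat_lit 5) (nat_lit 385) (nat_lit 5) (nat_lit 386) (nat_lit 5) (nat_lit 583) (nat_lit 544) (nat_lit 433)) (XT.nd (nat_lit 78) (nat_lit 836) (nat_lit 0) (XT.lf (nat_lit 0) (nat_lit 7334213102) (nat_lit 836) (nat_lit 2812499435) (nat_lit 912) (nat_lit 351549612) (nat_lit 374) (nat_lit 5) (nat_lit 385) (nat_lit 5) (nat_lit 386) (nat_lit 5) (nat_lit 584) (nat_lit 544) (nat_lit 432)) (XT.lf (nat_lit 0) (nat_lit 1583622394) (nat_lit 836) (nat_lit 7633844024) (nat_lit 76) (nat_lit 1386531460) (nat_lit 363) (nat_lit 5) (nat_lit 374) (nat_lit 5) (nat_lit 364) (nat_lit 5) (nat_lit 585) (nat_lit 544) (nat_lit 431)))) (XT.nd (nat_lit 78) (nat_lit 1596) (nat_lit 0) (XT.lf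 (nat_lit 0) (nat_lit 3573276796) (nat_lit 836) (nat_lit 1483186584) (nat_lit 76) (nat_lit 5654931520) (nat_lit 363) (nat_lit 5) (nat_lit 374) (nat_lit 5) (nat_lit 364) (nat_lit 5) (nat_lit 586) (nat_lit 544) (nat_lit 430)) (XT.nd (nat_lit 78) (nat_lit 760) (nat_lit 0) (XT.lf (nat_lit 0) (nat_lit 4833683868) (nat_lit 836) (nat_lit 781289521) (nat_lit 912) (nat_lit 5205724215) (nat_lit 352) (nat_lit 5) (nat_lit 363) (nat_lit 5) (nat_lit 364) (nat_lit 5) (nat_lit 587) (nat_lit 544) (nat_lit 429)) (XT.lf (nat_lit 0) (nat_lit 325538479) (nat_lit 760) (nat_lit 7388440621) (nat_lit 836) (nat_lit 3217880427) (nat_lit 342) (nat_lit 5) (nat_lit 352) (nat_lit 5) (nat_lit 353) (nat_lit 5) (nat_lit 588) (nat_lit 544) (nat_lit 428)))))) (XT.nd (nat_lit 468) (nat_lit 2812) (nat_lit 0) (XT.nd (nat_lit 234) (nat_lit 1444) (nat_lit 0) (XT.nd (nat_lit 78) (nat_lit 836) (nat_lit 0) (XT.lf (nat_lit 0) (nat_lit 6819954106) (nat_lit 760) (nat_lit 3061668560) (nat_lit 836) (nat_lit 1163091485)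 (nat_lit 342) (nat_lit 5) (nat_lit 352) (nat_lit 5) (nat_lit 353) (nat_lit 5) (nat_lit 589) (nat_lit 544) (nat_lit 427)) (XT.nd (nat_lit 78) (nat_lit 0) (nat_lit 0) (XT.lf (nat_lit 0) (nat_lit 925903057) (nat_lit 836) (nat_lit 8880444445) (nat_lit 76) (nat_lit 1353252882) (nat_lit 331) (nat_lit 5) (nat_lit 342) (nat_lit 5) (nat_lit 332) (nat_lit 5) (nat_lit 590) (nat_lit 544) (nat_lit 426)) (XT.lf (nat_lit 0) (nat_lit 3071735402) (nat_lit 836) (nat_lit 2354336888) (nat_lit 76) (nat_lit 5849948124) (nat_lit 331) (nat_lit 5) (nat_lit 342) (nat_lit 5) (nat_lit 332) (nat_lit 5) (nat_lit 591) (nat_lit 544) (nat_lit 425)))) (XT.nd (nat_lit 78) (nat_lit 760) (nat_lit 0) (XT.lf (nat_lit 0) (nat_lit 4339230811) (nat_lit 684) (nat_lit 931586633) (nat_lit 760) (nat_lit 6123747156) (nat_lit 322) (nat_lit 5) (nat_lit 331) (nat_lit 5) (nat_lit 332) (nat_lit 5) (nat_lit 592) (nat_lit 544) (nat_lit 424)) (XT.nd (nat_lit 78) (nat_lit 760) (nat_lit 0) (XT.lf (nat_lit 0) (nat_lit 7535867377)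 (nat_lit 760) (nat_lit 360581867) (nat_lit 76) (nat_lit 3618593073) (nat_lit 322) (nat_lit 5) (nat_lit 332) (nat_lit 5) (nat_lit 323) (nat_lit 5) (nat_lit 593) (nat_lit 544) (nat_lit 423)) (XT.lf (nat_lit 0) (nat_lit 6527722868) (nat_lit 760) (nat_lit 3349759403) (nat_lit 836) (nat_lit 1759824361) (nat_lit 312) (nat_lit 5) (nat_lit 322) (nat_lit 5) (nat_lit 323) (nat_lit 5) (nat_lit 594) (nat_lit 544) (nat_lit 422))))) (XT.nd (nat_lit 234) (nat_lit 1368) (nat_lit 0) (XT.nd (nat_lit 78) (nat_lit 684) (nat_lit 0) (XT.lf (nat_lit 0) (nat_lit 502675548) (nat_lit 760) (nat_lit 9973364323) (nat_lit 76) (nat_lit 1285805737) (nat_lit 302) (nat_lit 5) (nat_lit 312) (nat_lit 5) (nat_lit 303) (nat_lit 5) (nat_lit 595) (nat_lit 544) (nat_lit 421)) (XT.nd (nat_lit 78) (nat_lit 684) (nat_lit 0) (XT.lf (nat_lit 0) (nat_lit 2826581412) (nat_lit 760) (nat_lit 3048564192) (nat_lit 76) (nat_lit 6012704900) (nat_lit 302) (nat_lit 5) (nat_lit 312) (nat_lit 5) (nat_lit 303) (nat_lit 5) (nat_lit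 596) (nat_lit 544) (nat_lit 420)) (XT.lf (nat_lit 0) (nat_lit 4048139111) (nat_lit 684) (nat_lit 1158441910) (nat_lit 760) (nat_lit 6809604312) (nat_lit 293) (nat_lit 5) (nat_lit 302) (nat_lit 5) (nat_lit 303) (nat_lit 5) (nat_lit 597) (nat_lit 544) (nat_lit 419)))) (XT.nd (nat_lit 156) (nat_lit 760) (nat_lit 0) (XT.nd (nat_lit 78) (nat_lit 608) (nat_lit 0) (XT.lf (nat_lit 0) (nat_lit 7662000872) (nat_lit 760) (nat_lit 862294503) (nat_lit 76) (nat_lit 3622237182) (nat_lit 293) (nat_lit 5) (nat_lit 303) (nat_lit 5) (nat_lit 294) (nat_lit 5) (nat_lit 598) (nat_lit 544) (nat_lit 418)) (XT.lf (nat_lit 0) (nat_lit 6442923282) (nat_lit 608) (nat_lit 3756944884) (nat_lit 684) (nat_lit 2078953843) (nat_lit 285) (nat_lit 5) (nat_lit 293) (nat_lit 5) (nat_lit 294) (nat_lit 5) (nat_lit 599) (nat_lit 544) (nat_lit 417))) (XT.nd (nat_lit 78) (nat_lit 0) (nat_lit 0) (XT.lf (nat_lit 0) (nat_lit 376512805) (nat_lit 760) (nat_lit 10931202350) (nat_lit 76) (nat_lit 1105861578) (nat_lit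 275) (nat_lit 5) (nat_lit 285) (nat_lit 5) (nat_lit 276) (nat_lit 5) (nat_lit 600) (nat_lit 544) (nat_lit 416)) (XT.lf (nat_lit 0) (nat_lit 2901664516) (nat_lit 760) (nat_lit 3582763768) (nat_lit 76) (nat_lit 6065357116) (nat_lit 275) (nat_lit 5) (nat_lit 285) (nat_lit 5) (nat_lit 276) (nat_lit 5) (nat_lit 601) (nat_lit 544) (nat_lit 415))))))))
noncomputable def xc141 : XT := (XT.nd (nat_lit 1950) (nat_lit 5472) (nat_lit 0) (XT.nd (nat_lit 936) (nat_lit 3952) (nat_lit 0) (XT.nd (nat_lit 468) (nat_lit 1672) (nat_lit 0) (XT.nd (nat_lit 234) (nat_lit 1216) (nat_lit 0) (XT.nd (nat_lit 78) (nat_lit 608) (nat_lit 0) (XT.lf (nat_lit 0) (nat_lit 3945037512) (nat_lit 608) (nat_lit 1542292772) (nat_lit 684) (nat_lit 7201189642) (nat_lit 267) (nat_lit 5) (nat_lit 275) (nat_lit 5) (nat_lit 276) (nat_lit 5) (nat_lit 602) (nat_lit 544) (nat_lit 414)) (XT.nd (nat_lit 78) (nat_lit 608) (nat_lit 0) (XT.lf (nat_lit 0) (nat_lit 8156180332) (nat_lit 684) (nat_lit 1199967503) (nat_lit 76)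 (nat_lit 3473253758) (nat_lit 267) (nat_lit 5) (nat_lit 276) (nat_lit 5) (nat_lit 268) (nat_lit 5) (nat_lit 603) (nat_lit 544) (nat_lit 413)) (XT.lf (nat_lit 0) (nat_lit 6550999499) (nat_lit 608) (nat_lit 4365011769) (nat_lit 684) (nat_lit 2056339379) (nat_lit 259) (nat_lit 5) (nat_lit 267) (nat_lit 5) (nat_lit 268) (nat_lit 5) (nat_lit 604) (nat_lit 544) (nat_lit 412)))) (XT.nd (nat_lit 78) (nat_lit 608) (nat_lit 0) (XT.lf (nat_lit 0) (nat_lit 611465036) (nat_lit 608) (nat_lit 11773144198) (nat_lit 76) (nat_lit 733339166) (nat_lit 251) (nat_lit 5) (nat_lit 259) (nat_lit 5) (nat_lit 252) (nat_lit 5) (nat_lit 605) (nat_lit 544) (nat_lit 411)) (XT.nd (nat_lit 78) (nat_lit 608) (nat_lit 0) (XT.lf (nat_lit 0) (nat_lit 3362474136) (nat_lit 608) (nat_lit 3974425840) (nat_lit 76) (nat_lit 5928140354) (nat_lit 251) (nat_lit 5) (nat_lit 259) (nat_lit 5) (nat_lit 252) (nat_lit 5) (nat_lit 606) (nat_lit 544) (nat_lit 410)) (XT.lf (nat_lit 0) (nat_lit 4013945367) (nat_lit 608) (nat_lit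 2165985778) (nat_lit 684) (nat_lit 7234916089) (nat_lit 243) (nat_lit 5) (nat_lit 251) (nat_lit 5) (nat_lit 252) (nat_lit 5) (nat_lit 607) (nat_lit 544) (nat_lit 409))))) (XT.nd (nat_lit 234) (nat_lit 532) (nat_lit 0) (XT.nd (nat_lit 78) (nat_lit 1140) (nat_lit 0) (XT.lf (nat_lit 0) (nat_lit 9086268614) (nat_lit 684) (nat_lit 1390619573) (nat_lit 76) (nat_lit 3090113122) (nat_lit 243) (nat_lit 5) (nat_lit 252) (nat_lit 5) (nat_lit 244) (nat_lit 5) (nat_lit 608) (nat_lit 544) (nat_lit 408)) (XT.nd (nat_lit 78) (nat_lit 608) (nat_lit 0) (XT.lf (nat_lit 0) (nat_lit 6836457004) (nat_lit 532) (nat_lit 5258793935) (nat_lit 608) (nat_lit 1626058793) (nat_lit 236) (nat_lit 5) (nat_lit 243) (nat_lit 5) (nat_lit 244) (nat_lit 5) (nat_lit 609) (nat_lit 544) (nat_lit 407)) (XT.lf (nat_lit 0) (nat_lit 1273472938) (nat_lit 608) (nat_lit 12519989477) (nat_lit 76) (nat_lit 84983985) (nat_lit 228) (nat_lit 5) (nat_lit 236) (nat_lit 5) (nat_lit 229) (nat_lit 5) (nat_lit 610) (nat_lit 544)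 (nat_lit 406)))) (XT.nd (nat_lit 78) (nat_lit 532) (nat_lit 0) (XT.lf (nat_lit 0) (nat_lit 4276552232) (nat_lit 608) (nat_lit 4242666265) (nat_lit 76) (nat_lit 5517947276) (nat_lit 228) (nat_lit 5) (nat_lit 236) (nat_lit 5) (nat_lit 229) (nat_lit 5) (nat_lit 611) (nat_lit 544) (nat_lit 405)) (XT.nd (nat_lit 78) (nat_lit 0) (nat_lit 0) (XT.lf (nat_lit 0) (nat_lit 4237224166) (nat_lit 532) (nat_lit 3116230894) (nat_lit 608) (nat_lit 6845330738) (nat_lit 221) (nat_lit 5) (nat_lit 228) (nat_lit 5) (nat_lit 229) (nat_lit 5) (nat_lit 612) (nat_lit 544) (nat_lit 404)) (XT.lf (nat_lit 0) (nat_lit 10522473402) (nat_lit 608) (nat_lit 1453254478) (nat_lit 76) (nat_lit 2387300267) (nat_lit 221) (nat_lit 5) (nat_lit 229) (nat_lit 5) (nat_lit 222) (nat_lit 5) (nat_lit 613) (nat_lit 544) (nat_lit 403)))))) (XT.nd (nat_lit 468) (nat_lit 1824) (nat_lit 0) (XT.nd (nat_lit 234) (nat_lit 1064) (nat_lit 0) (XT.nd (nat_lit 78) (nat_lit 532) (nat_lit 0) (XT.lf (nat_lit 0) (nat_lit 7281778214)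 (nat_lit 532) (nat_lit 6527646232) (nat_lit 608) (nat_lit 720041295) (nat_lit 214) (nat_lit 5) (nat_lit 221) (nat_lit 5) (nat_lit 222) (nat_lit 5) (nat_lit 614) (nat_lit 544) (nat_lit 402)) (XT.nd (nat_lit 78) (nat_lit 0) (nat_lit 0) (XT.lf (nat_lit 0) (nat_lit 1497394144) (nat_lit 456) (nat_lit 939417820) (nat_lit 532) (nat_lit 12261977086) (nat_lit 207) (nat_lit 5) (nat_lit 213) (nat_lit 5) (nat_lit 214) (nat_lit 5) (nat_lit 615) (nat_lit 544) (nat_lit 401)) (XT.lf (nat_lit 0) (nat_lit 5713838116) (nat_lit 532) (nat_lit 4409377599) (nat_lit 76) (nat_lit 4746855737) (nat_lit 207) (nat_lit 5) (nat_lit 214) (nat_lit 5) (nat_lit 208) (nat_lit 5) (nat_lit 616) (nat_lit 544) (nat_lit 400)))) (XT.nd (nat_lit 78) (nat_lit 532) (nat_lit 0) (XT.lf (nat_lit 0) (nat_lit 4594403539) (nat_lit 532) (nat_lit 4485112737) (nat_lit 608) (nat_lit 5964802331) (nat_lit 200) (nat_lit 5) (nat_lit 207) (nat_lit 5) (nat_lit 208) (nat_lit 5) (nat_lit 617) (nat_lit 544) (nat_lit 399)) (XT.nd (nat_lit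 78) (nat_lit 532) (nat_lit 0) (XT.lf (nat_lit 0) (nat_lit 12537674772) (nat_lit 608) (nat_lit 1410058553) (nat_lit 76) (nat_lit 1273815355) (nat_lit 200) (nat_lit 5) (nat_lit 208) (nat_lit 5) (nat_lit 201) (nat_lit 5) (nat_lit 618) (nat_lit 544) (nat_lit 398)) (XT.lf (nat_lit 0) (nat_lit 722622818) (nat_lit 532) (nat_lit 7539514905) (nat_lit 76) (nat_lit 7138728022) (nat_lit 193) (nat_lit 5) (nat_lit 200) (nat_lit 5) (nat_lit 194) (nat_lit 5) (nat_lit 619) (nat_lit 544) (nat_lit 397))))) (XT.nd (nat_lit 234) (nat_lit 912) (nat_lit 0) (XT.nd (nat_lit 78) (nat_lit 456) (nat_lit 0) (XT.lf (nat_lit 0) (nat_lit 1740807248) (nat_lit 456) (nat_lit 2428829150) (nat_lit 532) (nat_lit 11413612698) (nat_lit 187) (nat_lit 5) (nat_lit 193) (nat_lit 5) (nat_lit 194) (nat_lit 5) (nat_lit 620) (nat_lit 544) (nat_lit 396)) (XT.nd (nat_lit 78) (nat_lit 456) (nat_lit 0) (XT.lf (nat_lit 0) (nat_lit 7746939407) (nat_lit 532) (nat_lit 4500534825) (nat_lit 76) (nat_lit 3520580109) (nat_lit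 187) (nat_lit 5) (nat_lit 194) (nat_lit 5) (nat_lit 188) (nat_lit 5) (nat_lit 621) (nat_lit 544) (nat_lit 395)) (XT.lf (nat_lit 0) (nat_lit 5060846472) (nat_lit 456) (nat_lit 6371687660) (nat_lit 532) (nat_lit 4523287829) (nat_lit 181) (nat_lit 5) (nat_lit 187) (nat_lit 5) (nat_lit 188) (nat_lit 5) (nat_lit 622) (nat_lit 544) (nat_lit 394)))) (XT.nd (nat_lit 156) (nat_lit 380) (nat_lit 0) (XT.nd (nat_lit 78) (nat_lit 532) (nat_lit 0) (XT.lf (nat_lit 0) (nat_lit 14856924649) (nat_lit 456) (nat_lit 353044695) (nat_lit 532) (nat_lit 937014181) (nat_lit 181) (nat_lit 5) (nat_lit 187) (nat_lit 5) (nat_lit 188) (nat_lit 5) (nat_lit 623) (nat_lit 544) (nat_lit 393)) (XT.lf (nat_lit 0) (nat_lit 2767137176) (nat_lit 532) (nat_lit 7794231925) (nat_lit 76) (nat_lit 5778610238) (nat_lit 174) (nat_lit 5) (nat_lit 181) (nat_lit 5) (nat_lit 175) (nat_lit 5) (nat_lit 624) (nat_lit 544) (nat_lit 392))) (XT.nd (nat_lit 78) (nat_lit 0) (nat_lit 0) (XT.lf (nat_lit 0) (nat_lit 2060072704)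 (nat_lit 380) (nat_lit 4485362872) (nat_lit 456) (nat_lit 9991024502) (nat_lit 169) (nat_lit 5) (nat_lit 174) (nat_lit 5) (nat_lit 175) (nat_lit 5) (nat_lit 625) (nat_lit 544) (nat_lit 391)) (XT.lf (nat_lit 0) (nat_lit 10451320417) (nat_lit 456) (nat_lit 4547694759) (nat_lit 76) (nat_lit 1736815921) (nat_lit 169) (nat_lit 5) (nat_lit 175) (nat_lit 5) (nat_lit 170) (nat_lit 5) (nat_lit 626) (nat_lit 544) (nat_lit 390))))))) (XT.nd (nat_lit 936) (nat_lit 2584) (nat_lit 0) (XT.nd (nat_lit 468) (nat_lit 1140) (nat_lit 0) (XT.nd (nat_lit 234) (nat_lit 836) (nat_lit 0) (XT.nd (nat_lit 78) (nat_lit 456) (nat_lit 0) (XT.lf (nat_lit 0) (nat_lit 5606213617) (nat_lit 456) (nat_lit 8883697485) (nat_lit 532) (nat_lit 2448187723) (nat_lit 163) (nat_lit 5) (nat_lit 169) (nat_lit 5) (nat_lit 170) (nat_lit 5) (nat_lit 627) (nat_lit 544) (nat_lit 389)) (XT.nd (nat_lit 78) (nat_lit 380) (nat_lit 0) (XT.lf (nat_lit 0) (nat_lit 1464892260) (nat_lit 532) (nat_lit 1145889865) (nat_lit 76) (nat_lit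 14533055727) (nat_lit 162) (nat_lit 5) (nat_lit 169) (nat_lit 5) (nat_lit 163) (nat_lit 5) (nat_lit 628) (nat_lit 544) (nat_lit 388)) (XT.lf (nat_lit 0) (nat_lit 5497891833) (nat_lit 456) (nat_lit 8044310246) (nat_lit 76) (nat_lit 3809678137) (nat_lit 157) (nat_lit 5) (nat_lit 163) (nat_lit 5) (nat_lit 158) (nat_lit 5) (nat_lit 629) (nat_lit 544) (nat_lit 387)))) (XT.nd (nat_lit 78) (nat_lit 456) (nat_lit 0) (XT.lf (nat_lit 0) (nat_lit 2419129461) (nat_lit 380) (nat_lit 7221982098) (nat_lit 456) (nat_lit 7922381639) (nat_lit 152) (nat_lit 5) (nat_lit 157) (nat_lit 5) (nat_lit 158) (nat_lit 5) (nat_lit 630) (nat_lit 544) (nat_lit 386)) (XT.nd (nat_lit 78) (nat_lit 456) (nat_lit 0) (XT.lf (nat_lit 0) (nat_lit 13184033092) (nat_lit 380) (nat_lit 726077085) (nat_lit 456) (nat_lit 3868370926) (nat_lit 152) (nat_lit 5) (nat_lit 157) (nat_lit 5) (nat_lit 158) (nat_lit 5) (nat_lit 631) (nat_lit 544) (nat_lit 385)) (XT.lf (nat_lit 0) (nat_lit 331294048) (nat_lit 456) (nat_lit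 11805916086) (nat_lit 76) (nat_lit 5859163470) (nat_lit 146) (nat_lit 5) (nat_lit 152) (nat_lit 5) (nat_lit 147) (nat_lit 5) (nat_lit 632) (nat_lit 544) (nat_lit 384))))) (XT.nd (nat_lit 234) (nat_lit 456) (nat_lit 0) (XT.nd (nat_lit 78) (nat_lit 684) (nat_lit 0) (XT.lf (nat_lit 0) (nat_lit 4588193664) (nat_lit 456) (nat_lit 1012031895) (nat_lit 76) (nat_lit 12617387119) (nat_lit 146) (nat_lit 5) (nat_lit 152) (nat_lit 5) (nat_lit 147) (nat_lit 5) (nat_lit 633) (nat_lit 544) (nat_lit 383)) (XT.nd (nat_lit 78) (nat_lit 304) (nat_lit 0) (XT.lf (nat_lit 0) (nat_lit 8992585658) (nat_lit 456) (nat_lit 8335534299) (nat_lit 76) (nat_lit 1113910370) (nat_lit 141) (nat_lit 5) (nat_lit 147) (nat_lit 5) (nat_lit 142) (nat_lit 5) (nat_lit 634) (nat_lit 544) (nat_lit 382)) (XT.lf (nat_lit 0) (nat_lit 2773077346) (nat_lit 304) (nat_lit 10763341478) (nat_lit 380) (nat_lit 5133491302) (nat_lit 137) (nat_lit 5) (nat_lit 141) (nat_lit 5) (nat_lit 142) (nat_lit 5) (nat_lit 635) (nat_lit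 544) (nat_lit 381)))) (XT.nd (nat_lit 78) (nat_lit 456) (nat_lit 0) (XT.lf (nat_lit 0) (nat_lit 14200488090) (nat_lit 304) (nat_lit 4016102346) (nat_lit 380) (nat_lit 684848696) (nat_lit 137) (nat_lit 5) (nat_lit 141) (nat_lit 5) (nat_lit 142) (nat_lit 5) (nat_lit 636) (nat_lit 544) (nat_lit 380)) (XT.nd (nat_lit 78) (nat_lit 0) (nat_lit 0) (XT.lf (nat_lit 0) (nat_lit 3854858632) (nat_lit 456) (nat_lit 12389059245) (nat_lit 76) (nat_lit 2892128926) (nat_lit 131) (nat_lit 5) (nat_lit 137) (nat_lit 5) (nat_lit 132) (nat_lit 5) (nat_lit 637) (nat_lit 544) (nat_lit 379)) (XT.lf (nat_lit 0) (nat_lit 8524272983) (nat_lit 456) (nat_lit 934691270) (nat_lit 76) (nat_lit 9915330978) (nat_lit 131) (nat_lit 5) (nat_lit 137) (nat_lit 5) (nat_lit 132) (nat_lit 5) (nat_lit 638) (nat_lit 544) (nat_lit 378)))))) (XT.nd (nat_lit 468) (nat_lit 1292) (nat_lit 0) (XT.nd (nat_lit 234) (nat_lit 608) (nat_lit 0) (XT.nd (nat_lit 78) (nat_lit 380) (nat_lit 0) (XT.lf (nat_lit 0) (nat_lit 10875474258)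 (nat_lit 304) (nat_lit 2472136619) (nat_lit 380) (nat_lit 6268487826) (nat_lit 127) (nat_lit 5) (nat_lit 131) (nat_lit 5) (nat_lit 132) (nat_lit 5) (nat_lit 639) (nat_lit 544) (nat_lit 377)) (XT.nd (nat_lit 78) (nat_lit 76) (nat_lit 0) (XT.lf (nat_lit 0) (nat_lit 3065867191) (nat_lit 304) (nat_lit 15247968834) (nat_lit 380) (nat_lit 1547974577) (nat_lit 123) (nat_lit 5) (nat_lit 127) (nat_lit 5) (nat_lit 128) (nat_lit 5) (nat_lit 640) (nat_lit 544) (nat_lit 376)) (XT.lf (nat_lit 0) (nat_lit 3289525013) (nat_lit 380) (nat_lit 4938274634) (nat_lit 76) (nat_lit 11882905149) (nat_lit 122) (nat_lit 5) (nat_lit 127) (nat_lit 5) (nat_lit 123) (nat_lit 5) (nat_lit 641) (nat_lit 544) (nat_lit 375)))) (XT.nd (nat_lit 78) (nat_lit 304) (nat_lit 0) (XT.lf (nat_lit 0) (nat_lit 7225362167) (nat_lit 304) (nat_lit 1014820488) (nat_lit 380) (nat_lit 12123447592) (nat_lit 118) (nat_lit 5) (nat_lit 122) (nat_lit 5) (nat_lit 123) (nat_lit 5) (nat_lit 642) (nat_lit 544) (nat_lit 374)) (XT.nd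 (nat_lit 78) (nat_lit 304) (nat_lit 0) (XT.lf (nat_lit 0) (nat_lit 13354647351) (nat_lit 380) (nat_lit 978887873) (nat_lit 76) (nat_lit 6286783814) (nat_lit 118) (nat_lit 5) (nat_lit 123) (nat_lit 5) (nat_lit 119) (nat_lit 5) (nat_lit 643) (nat_lit 544) (nat_lit 373)) (XT.lf (nat_lit 0) (nat_lit 11553039159) (nat_lit 304) (nat_lit 7090540713) (nat_lit 380) (nat_lit 2237118855) (nat_lit 114) (nat_lit 5) (nat_lit 118) (nat_lit 5) (nat_lit 119) (nat_lit 5) (nat_lit 644) (nat_lit 544) (nat_lit 372))))) (XT.nd (nat_lit 234) (nat_lit 608) (nat_lit 0) (XT.nd (nat_lit 78) (nat_lit 304) (nat_lit 0) (XT.lf (nat_lit 0) (nat_lit 2874203395) (nat_lit 380) (nat_lit 17937210878) (nat_lit 76) (nat_lit 334094319) (nat_lit 109) (nat_lit 5) (nat_lit 114) (nat_lit 5) (nat_lit 110) (nat_lit 5) (nat_lit 645) (nat_lit 544) (nat_lit 371)) (XT.nd (nat_lit 78) (nat_lit 304) (nat_lit 0) (XT.lf (nat_lit 0) (nat_lit 8158311161) (nat_lit 380) (nat_lit 5370652130) (nat_lit 76) (nat_lit 7884345987)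 (nat_lit 109) (nat_lit 5) (nat_lit 114) (nat_lit 5) (nat_lit 110) (nat_lit 5) (nat_lit 646) (nat_lit 544) (nat_lit 370)) (XT.lf (nat_lit 0) (nat_lit 7530794472) (nat_lit 304) (nat_lit 6056908224) (nat_lit 380) (nat_lit 8097971890) (nat_lit 105) (nat_lit 5) (nat_lit 109) (nat_lit 5) (nat_lit 110) (nat_lit 5) (nat_lit 647) (nat_lit 544) (nat_lit 369)))) (XT.nd (nat_lit 156) (nat_lit 304) (nat_lit 0) (XT.nd (nat_lit 78) (nat_lit 304) (nat_lit 0) (XT.lf (nat_lit 0) (nat_lit 19162871478) (nat_lit 380) (nat_lit 1225350277) (nat_lit 76) (nat_lit 1574522287) (nat_lit 105) (nat_lit 5) (nat_lit 110) (nat_lit 5) (nat_lit 106) (nat_lit 5) (nat_lit 648) (nat_lit 544) (nat_lit 368)) (XT.lf (nat_lit 0) (nat_lit 2680144067) (nat_lit 304) (nat_lit 10194853368) (nat_lit 76) (nat_lit 9367817701) (nat_lit 101) (nat_lit 5) (nat_lit 105) (nat_lit 5) (nat_lit 102) (nat_lit 5) (nat_lit 649) (nat_lit 544) (nat_lit 367))) (XT.nd (nat_lit 78) (nat_lit 0) (nat_lit 0) (XT.lf (nat_lit 0) (nat_lit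 3081868725) (nat_lit 304) (nat_lit 5169678802) (nat_lit 380) (nat_lit 14276185037) (nat_lit 97) (nat_lit 5) (nat_lit 101) (nat_lit 5) (nat_lit 102) (nat_lit 5) (nat_lit 650) (nat_lit 544) (nat_lit 366)) (XT.lf (nat_lit 0) (nat_lit 14011705884) (nat_lit 380) (nat_lit 6087601158) (nat_lit 76) (nat_lit 2717495344) (nat_lit 97) (nat_lit 5) (nat_lit 102) (nat_lit 5) (nat_lit 98) (nat_lit 5) (nat_lit 651) (nat_lit 544) (nat_lit 365))))))))
noncomputable def xc142 : XT := (XT.nd (nat_lit 74568) (nat_lit 0) (nat_lit 18392) (XT.nd (nat_lit 73554) (nat_lit 0) (nat_lit 34352) (XT.nd (nat_lit 73086) (nat_lit 0) (nat_lit 37012) (XT.nd (nat_lit 72852) (nat_lit 0) (nat_lit 38304) (XT.nd (nat_lit 78) (nat_lit 380) (nat_lit 0) (XT.lf (nat_lit 0) (nat_lit 7588384529) (nat_lit 228) (nat_lit 12373361822) (nat_lit 304) (nat_lit 3148414244) (nat_lit 94) (nat_lit 5) (nat_lit 97) (nat_lit 5) (nat_lit 98) (nat_lit 5) (nat_lit 652) (nat_lit 544) (nat_lit 364)) (XT.nd (nat_lit 78) (nat_lit 304)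 (nat_lit 0) (XT.lf (nat_lit 0) (nat_lit 2619336460) (nat_lit 304) (nat_lit 1820200069) (nat_lit 76) (nat_lit 18968863290) (nat_lit 93) (nat_lit 5) (nat_lit 97) (nat_lit 5) (nat_lit 94) (nat_lit 5) (nat_lit 653) (nat_lit 544) (nat_lit 363)) (XT.lf (nat_lit 0) (nat_lit 8555773675) (nat_lit 380) (nat_lit 11453944812) (nat_lit 76) (nat_lit 3700559882) (nat_lit 89) (nat_lit 5) (nat_lit 94) (nat_lit 5) (nat_lit 90) (nat_lit 5) (nat_lit 654) (nat_lit 544) (nat_lit 362)))) (XT.nd (nat_lit 78) (nat_lit 0) (nat_lit 0) (XT.lf (nat_lit 0) (nat_lit 431523167) (nat_lit 0) (nat_lit 431523167) (nat_lit 1292) (nat_lit 2954465976) (nat_lit 593) (nat_lit 5) (nat_lit 593) (nat_lit 3) (nat_lit 610) (nat_lit 3) (nat_lit 545) (nat_lit 545) (nat_lit 470)) (XT.nd (nat_lit 78) (nat_lit 0) (nat_lit 0) (XT.lf (nat_lit 0) (nat_lit 3130780508) (nat_lit 1292) (nat_lit 3022754848) (nat_lit 1368) (nat_lit 1529832858) (nat_lit 593) (nat_lit 5) (nat_lit 610) (nat_lit 3) (nat_lit 611) (nat_lit 5) (nat_lit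 546) (nat_lit 545) (nat_lit 469)) (XT.lf (nat_lit 76) (nat_lit 787150154) (nat_lit 0) (nat_lit 3751226767) (nat_lit 1368) (nat_lit 3194812231) (nat_lit 594) (nat_lit 5) (nat_lit 593) (nat_lit 5) (nat_lit 611) (nat_lit 5) (nat_lit 547) (nat_lit 545) (nat_lit 468))))) (XT.nd (nat_lit 234) (nat_lit 0) (nat_lit 0) (XT.nd (nat_lit 78) (nat_lit 1292) (nat_lit 0) (XT.lf (nat_lit 76) (nat_lit 4695440925) (nat_lit 0) (nat_lit 1263541324) (nat_lit 1368) (nat_lit 1825333757) (nat_lit 594) (nat_lit 5) (nat_lit 593) (nat_lit 5) (nat_lit 611) (nat_lit 5) (nat_lit 548) (nat_lit 545) (nat_lit 467)) (XT.nd (nat_lit 78) (nat_lit 1368) (nat_lit 0) (XT.lf (nat_lit 76) (nat_lit 828805771) (nat_lit 0) (nat_lit 6558219346) (nat_lit 1368) (nat_lit 449866278) (nat_lit 595) (nat_lit 5) (nat_lit 594) (nat_lit 5) (nat_lit 612) (nat_lit 5) (nat_lit 549) (nat_lit 545) (nat_lit 466)) (XT.lf (nat_lit 0) (nat_lit 935539708) (nat_lit 1368) (nat_lit 3057647239) (nat_lit 1444) (nat_lit 3897315248) (nat_lit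 576) (nat_lit 5) (nat_lit 594) (nat_lit 5) (nat_lit 595) (nat_lit 5) (nat_lit 550) (nat_lit 545) (nat_lit 465)))) (XT.nd (nat_lit 78) (nat_lit 0) (nat_lit 76) (XT.lf (nat_lit 76) (nat_lit 962263533) (nat_lit 0) (nat_lit 1352988781) (nat_lit 1444) (nat_lit 5630427113) (nat_lit 577) (nat_lit 5) (nat_lit 576) (nat_lit 5) (nat_lit 595) (nat_lit 5) (nat_lit 551) (nat_lit 545) (nat_lit 464)) (XT.nd (nat_lit 78) (nat_lit 0) (nat_lit 0) (XT.lf (nat_lit 0) (nat_lit 3718909583) (nat_lit 1368) (nat_lit 2926176569) (nat_lit 1444) (nat_lit 1356953057) (nat_lit 577) (nat_lit 5) (nat_lit 595) (nat_lit 5) (nat_lit 596) (nat_lit 5) (nat_lit 552) (nat_lit 545) (nat_lit 463)) (XT.lf (nat_lit 76) (nat_lit 1199557880) (nat_lit 0) (nat_lit 3935473621) (nat_lit 1444) (nat_lit 2924812748) (nat_lit 578) (nat_lit 5) (nat_lit 577) (nat_lit 5) (nat_lit 596) (nat_lit 5) (nat_lit 553) (nat_lit 545) (nat_lit 462)))))) (XT.nd (nat_lit 468) (nat_lit 1368) (nat_lit 0) (XT.nd (nat_lit 234) (nat_lit 0)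 (nat_lit 0) (XT.nd (nat_lit 78) (nat_lit 1368) (nat_lit 0) (XT.lf (nat_lit 76) (nat_lit 5428177998) (nat_lit 0) (nat_lit 1139086215) (nat_lit 1444) (nat_lit 1551791189) (nat_lit 578) (nat_lit 5) (nat_lit 577) (nat_lit 5) (nat_lit 596) (nat_lit 5) (nat_lit 554) (nat_lit 545) (nat_lit 461)) (XT.nd (nat_lit 78) (nat_lit 1444) (nat_lit 0) (XT.lf (nat_lit 76) (nat_lit 1551518930) (nat_lit 0) (nat_lit 6466676102) (nat_lit 1444) (nat_lit 161460341) (nat_lit 579) (nat_lit 5) (nat_lit 578) (nat_lit 5) (nat_lit 597) (nat_lit 5) (nat_lit 555) (nat_lit 545) (nat_lit 460)) (XT.lf (nat_lit 0) (nat_lit 1235048074) (nat_lit 1444) (nat_lit 2361602226) (nat_lit 1520) (nat_lit 4644762257) (nat_lit 559) (nat_lit 5) (nat_lit 578) (nat_lit 5) (nat_lit 579) (nat_lit 5) (nat_lit 556) (nat_lit 545) (nat_lit 459)))) (XT.nd (nat_lit 78) (nat_lit 0) (nat_lit 76) (XT.lf (nat_lit 76) (nat_lit 1995847351) (nat_lit 0) (nat_lit 644175083) (nat_lit 1520) (nat_lit 5664712487) (nat_lit 560) (nat_lit 5)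 (nat_lit 559) (nat_lit 5) (nat_lit 579) (nat_lit 5) (nat_lit 557) (nat_lit 545) (nat_lit 458)) (XT.nd (nat_lit 78) (nat_lit 0) (nat_lit 0) (XT.lf (nat_lit 0) (nat_lit 4074691582) (nat_lit 1444) (nat_lit 1932086262) (nat_lit 1520) (nat_lit 2362519217) (nat_lit 560) (nat_lit 5) (nat_lit 579) (nat_lit 5) (nat_lit 580) (nat_lit 5) (nat_lit 558) (nat_lit 545) (nat_lit 457)) (XT.lf (nat_lit 76) (nat_lit 2541650404) (nat_lit 0) (nat_lit 2988027094) (nat_lit 1520) (nat_lit 2905645611) (nat_lit 561) (nat_lit 5) (nat_lit 560) (nat_lit 5) (nat_lit 580) (nat_lit 5) (nat_lit 559) (nat_lit 545) (nat_lit 456))))) (XT.nd (nat_lit 234) (nat_lit 0) (nat_lit 76) (XT.nd (nat_lit 78) (nat_lit 1520) (nat_lit 0) (XT.lf (nat_lit 0) (nat_lit 6998765110) (nat_lit 1444) (nat_lit 1392213885) (nat_lit 1520) (nat_lit 111995673) (nat_lit 561) (nat_lit 5) (nat_lit 580) (nat_lit 5) (nat_lit 581) (nat_lit 5) (nat_lit 560) (nat_lit 545) (nat_lit 455)) (XT.nd (nat_lit 78) (nat_lit 1520) (nat_lit 0) (XT.lf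 (nat_lit 76) (nat_lit 3201694374) (nat_lit 0) (nat_lit 5308036788) (nat_lit 1520) (nat_lit 62003093) (nat_lit 562) (nat_lit 5) (nat_lit 561) (nat_lit 5) (nat_lit 581) (nat_lit 5) (nat_lit 561) (nat_lit 545) (nat_lit 454)) (XT.lf (nat_lit 0) (nat_lit 1372127906) (nat_lit 1520) (nat_lit 764566803) (nat_lit 1596) (nat_lit 6505364891) (nat_lit 541) (nat_lit 5) (nat_lit 561) (nat_lit 5) (nat_lit 562) (nat_lit 5) (nat_lit 562) (nat_lit 545) (nat_lit 453)))) (XT.nd (nat_lit 156) (nat_lit 0) (nat_lit 0) (XT.nd (nat_lit 78) (nat_lit 0) (nat_lit 0) (XT.lf (nat_lit 0) (nat_lit 2839909620) (nat_lit 1520) (nat_lit 4756199148) (nat_lit 1596) (nat_lit 1117563168) (nat_lit 542) (nat_lit 5) (nat_lit 562) (nat_lit 5) (nat_lit 563) (nat_lit 5) (nat_lit 563) (nat_lit 545) (nat_lit 452)) (XT.lf (nat_lit 0) (nat_lit 4329520368) (nat_lit 1520) (nat_lit 36576437) (nat_lit 1596) (nat_lit 4420774802) (nat_lit 542) (nat_lit 5) (nat_lit 562) (nat_lit 5) (nat_lit 563) (nat_lit 5) (nat_lit 564) (nat_lit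 545) (nat_lit 451))) (XT.nd (nat_lit 78) (nat_lit 0) (nat_lit 76) (XT.lf (nat_lit 76) (nat_lit 4820965245) (nat_lit 0) (nat_lit 1032943776) (nat_lit 1596) (nat_lit 3007531003) (nat_lit 543) (nat_lit 5) (nat_lit 542) (nat_lit 5) (nat_lit 563) (nat_lit 5) (nat_lit 565) (nat_lit 545) (nat_lit 450)) (XT.lf (nat_lit 76) (nat_lit 813827365) (nat_lit 0) (nat_lit 6589971323) (nat_lit 1596) (nat_lit 1533805237) (nat_lit 544) (nat_lit 5) (nat_lit 543) (nat_lit 5) (nat_lit 564) (nat_lit 5) (nat_lit 566) (nat_lit 545) (nat_lit 449))))))) (XT.nd (nat_lit 936) (nat_lit 6840) (nat_lit 0) (XT.nd (nat_lit 468) (nat_lit 4484) (nat_lit 0) (XT.nd (nat_lit 234) (nat_lit 3268) (nat_lit 0) (XT.nd (nat_lit 78) (nat_lit 1520) (nat_lit 0) (XT.lf (nat_lit 76) (nat_lit 5793050271) (nat_lit 0) (nat_lit 3200037903) (nat_lit 1596) (nat_lit 22039182) (nat_lit 544) (nat_lit 5) (nat_lit 543) (nat_lit 5) (nat_lit 564) (nat_lit 5) (nat_lit 567) (nat_lit 545) (nat_lit 448)) (XT.nd (nat_lit 78) (nat_lit 0)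 (nat_lit 0) (XT.lf (nat_lit 0) (nat_lit 1488198125) (nat_lit 1596) (nat_lit 7325064398) (nat_lit 76) (nat_lit 280982079) (nat_lit 523) (nat_lit 5) (nat_lit 544) (nat_lit 5) (nat_lit 524) (nat_lit 5) (nat_lit 568) (nat_lit 545) (nat_lit 447)) (XT.lf (nat_lit 0) (nat_lit 3046523099) (nat_lit 1596) (nat_lit 2312405796) (nat_lit 76) (nat_lit 3815652867) (nat_lit 523) (nat_lit 5) (nat_lit 544) (nat_lit 5) (nat_lit 524) (nat_lit 5) (nat_lit 569) (nat_lit 545) (nat_lit 446)))) (XT.nd (nat_lit 78) (nat_lit 1672) (nat_lit 0) (XT.lf (nat_lit 0) (nat_lit 2817505782) (nat_lit 1596) (nat_lit 1812508202) (nat_lit 1672) (nat_lit 4626635661) (nat_lit 502) (nat_lit 5) (nat_lit 523) (nat_lit 5) (nat_lit 524) (nat_lit 5) (nat_lit 570) (nat_lit 545) (nat_lit 445)) (XT.nd (nat_lit 78) (nat_lit 1672) (nat_lit 0) (XT.lf (nat_lit 0) (nat_lit 6248593872) (nat_lit 1672) (nat_lit 1290839280) (nat_lit 76) (nat_lit 1800861239) (nat_lit 502) (nat_lit 5) (nat_lit 524) (nat_lit 5) (nat_lit 503) (nat_lit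 5) (nat_lit 571) (nat_lit 545) (nat_lit 444)) (XT.lf (nat_lit 0) (nat_lit 3980703696) (nat_lit 1672) (nat_lit 3933240133) (nat_lit 1748) (nat_lit 1511384047) (nat_lit 480) (nat_lit 5) (nat_lit 502) (nat_lit 5) (nat_lit 503) (nat_lit 5) (nat_lit 572) (nat_lit 545) (nat_lit 443))))) (XT.nd (nat_lit 234) (nat_lit 988) (nat_lit 0) (XT.nd (nat_lit 78) (nat_lit 3420) (nat_lit 0) (XT.lf (nat_lit 0) (nat_lit 84663941) (nat_lit 1748) (nat_lit 157537550) (nat_lit 76) (nat_lit 9270142272) (nat_lit 479) (nat_lit 5) (nat_lit 502) (nat_lit 5) (nat_lit 480) (nat_lit 5) (nat_lit 573) (nat_lit 545) (nat_lit 442)) (XT.nd (nat_lit 78) (nat_lit 1672) (nat_lit 0) (XT.lf (nat_lit 0) (nat_lit 1727026722) (nat_lit 1824) (nat_lit 4349118086) (nat_lit 76) (nat_lit 3524066322) (nat_lit 456) (nat_lit 5) (nat_lit 480) (nat_lit 5) (nat_lit 457) (nat_lit 5) (nat_lit 574) (nat_lit 545) (nat_lit 441)) (XT.lf (nat_lit 0) (nat_lit 1072611411) (nat_lit 1672) (nat_lit 2316777318) (nat_lit 1748) (nat_lit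 6300707599) (nat_lit 434) (nat_lit 5) (nat_lit 456) (nat_lit 5) (nat_lit 457) (nat_lit 5) (nat_lit 575) (nat_lit 545) (nat_lit 440)))) (XT.nd (nat_lit 78) (nat_lit 988) (nat_lit 0) (XT.lf (nat_lit 0) (nat_lit 5102076191) (nat_lit 1748) (nat_lit 3149905774) (nat_lit 76) (nat_lit 1529459153) (nat_lit 434) (nat_lit 5) (nat_lit 457) (nat_lit 5) (nat_lit 435) (nat_lit 5) (nat_lit 576) (nat_lit 545) (nat_lit 439)) (XT.nd (nat_lit 78) (nat_lit 0) (nat_lit 0) (XT.lf (nat_lit 0) (nat_lit 2423474708) (nat_lit 988) (nat_lit 4434900442) (nat_lit 1064) (nat_lit 3016053885) (nat_lit 421) (nat_lit 5) (nat_lit 434) (nat_lit 5) (nat_lit 435) (nat_lit 5) (nat_lit 577) (nat_lit 545) (nat_lit 438)) (XT.lf (nat_lit 0) (nat_lit 8131160474) (nat_lit 988) (nat_lit 518354122) (nat_lit 1064) (nat_lit 1319771143) (nat_lit 421) (nat_lit 5) (nat_lit 434) (nat_lit 5) (nat_lit 435) (nat_lit 5) (nat_lit 578) (nat_lit 545) (nat_lit 437)))))) (XT.nd (nat_lit 468) (nat_lit 3268) (nat_lit 0) (XT.nd (nat_lit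 234) (nat_lit 1672) (nat_lit 0) (XT.nd (nat_lit 78) (nat_lit 912) (nat_lit 0) (XT.lf (nat_lit 0) (nat_lit 432100587) (nat_lit 988) (nat_lit 6172772485) (nat_lit 76) (nat_lit 3460575472) (nat_lit 408) (nat_lit 5) (nat_lit 421) (nat_lit 5) (nat_lit 409) (nat_lit 5) (nat_lit 579) (nat_lit 545) (nat_lit 436)) (XT.nd (nat_lit 78) (nat_lit 912) (nat_lit 0) (XT.lf (nat_lit 0) (nat_lit 2196353759) (nat_lit 988) (nat_lit 432586171) (nat_lit 76) (nat_lit 7534523015) (nat_lit 408) (nat_lit 5) (nat_lit 421) (nat_lit 5) (nat_lit 409) (nat_lit 5) (nat_lit 580) (nat_lit 545) (nat_lit 435)) (XT.lf (nat_lit 0) (nat_lit 4020497452) (nat_lit 988) (nat_lit 4798097517) (nat_lit 76) (nat_lit 1444353622) (nat_lit 396) (nat_lit 5) (nat_lit 409) (nat_lit 5) (nat_lit 397) (nat_lit 5) (nat_lit 581) (nat_lit 545) (nat_lit 434)))) (XT.nd (nat_lit 78) (nat_lit 836) (nat_lit 0) (XT.lf (nat_lit 0) (nat_lit 1098775018) (nat_lit 836) (nat_lit 4789652179) (nat_lit 912) (nat_lit 4475853696) (nat_lit 385)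 (nat_lit 5) (nat_lit 396) (nat_lit 5) (nat_lit 397) (nat_lit 5) (nat_lit 582) (nat_lit 545) (nat_lit 433)) (XT.nd (nat_lit 78) (nat_lit 836) (nat_lit 0) (XT.lf (nat_lit 0) (nat_lit 7158814488) (nat_lit 836) (nat_lit 647202443) (nat_lit 912) (nat_lit 2661379829) (nat_lit 385) (nat_lit 5) (nat_lit 396) (nat_lit 5) (nat_lit 397) (nat_lit 5) (nat_lit 583) (nat_lit 545) (nat_lit 432)) (XT.lf (nat_lit 0) (nat_lit 2760639588) (nat_lit 836) (nat_lit 7022968459) (nat_lit 912) (nat_lit 788536795) (nat_lit 374) (nat_lit 5) (nat_lit 385) (nat_lit 5) (nat_lit 386) (nat_lit 5) (nat_lit 584) (nat_lit 545) (nat_lit 431))))) (XT.nd (nat_lit 234) (nat_lit 2432) (nat_lit 0) (XT.nd (nat_lit 78) (nat_lit 760) (nat_lit 0) (XT.lf (nat_lit 0) (nat_lit 1114305128) (nat_lit 912) (nat_lit 1714110729) (nat_lit 76) (nat_lit 7850284058) (nat_lit 373) (nat_lit 5) (nat_lit 385) (nat_lit 5) (nat_lit 374) (nat_lit 5) (nat_lit 585) (nat_lit 545) (nat_lit 430)) (XT.nd (nat_lit 78) (nat_lit 0) (nat_lit 0)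 (XT.lf (nat_lit 0) (nat_lit 3064771387) (nat_lit 836) (nat_lit 6256717152) (nat_lit 76) (nat_lit 1465393509) (nat_lit 363) (nat_lit 5) (nat_lit 374) (nat_lit 5) (nat_lit 364) (nat_lit 5) (nat_lit 586) (nat_lit 545) (nat_lit 429)) (XT.lf (nat_lit 0) (nat_lit 5065797768) (nat_lit 836) (nat_lit 13042715) (nat_lit 76) (nat_lit 5818158993) (nat_lit 363) (nat_lit 5) (nat_lit 374) (nat_lit 5) (nat_lit 364) (nat_lit 5) (nat_lit 587) (nat_lit 545) (nat_lit 428)))) (XT.nd (nat_lit 156) (nat_lit 836) (nat_lit 0) (XT.nd (nat_lit 78) (nat_lit 760) (nat_lit 0) (XT.lf (nat_lit 0) (nat_lit 6420297991) (nat_lit 836) (nat_lit 709840152) (nat_lit 912) (nat_lit 3878717860) (nat_lit 352) (nat_lit 5) (nat_lit 363) (nat_lit 5) (nat_lit 364) (nat_lit 5) (nat_lit 588) (nat_lit 545) (nat_lit 427)) (XT.lf (nat_lit 0) (nat_lit 1839695486) (nat_lit 760) (nat_lit 7414264223) (nat_lit 836) (nat_lit 1868628627) (nat_lit 342) (nat_lit 5) (nat_lit 352) (nat_lit 5) (nat_lit 353) (nat_lit 5) (nat_lit 589)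 (nat_lit 545) (nat_lit 426))) (XT.nd (nat_lit 78) (nat_lit 760) (nat_lit 0) (XT.lf (nat_lit 0) (nat_lit 196921281) (nat_lit 836) (nat_lit 2805105075) (nat_lit 76) (nat_lit 8236195007) (nat_lit 341) (nat_lit 5) (nat_lit 352) (nat_lit 5) (nat_lit 342) (nat_lit 5) (nat_lit 590) (nat_lit 545) (nat_lit 425)) (XT.lf (nat_lit 0) (nat_lit 2295853886) (nat_lit 836) (nat_lit 7545140014) (nat_lit 76) (nat_lit 1514586685) (nat_lit 331) (nat_lit 5) (nat_lit 342) (nat_lit 5) (nat_lit 332) (nat_lit 5) (nat_lit 591) (nat_lit 545) (nat_lit 424))))))))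
noncomputable def xc143 : XT := (XT.nd (nat_lit 1950) (nat_lit 6384) (nat_lit 0) (XT.nd (nat_lit 936) (nat_lit 4560) (nat_lit 0) (XT.nd (nat_lit 468) (nat_lit 2660) (nat_lit 0) (XT.nd (nat_lit 234) (nat_lit 760) (nat_lit 0) (XT.nd (nat_lit 78) (nat_lit 1444) (nat_lit 0) (XT.lf (nat_lit 0) (nat_lit 4458104196) (nat_lit 836) (nat_lit 918175273) (nat_lit 76) (nat_lit 6098583111) (nat_lit 331) (nat_lit 5) (nat_lit 342) (nat_lit 5) (nat_lit 332) (nat_lit 5) (nat_lit 592) (nat_lit 545) (nat_lit 423)) (XT.nd (nat_lit 78) (nat_lit 760) (nat_lit 0) (XT.lf (nat_lit 0) (nat_lit 5899505568) (nat_lit 684) (nat_lit 785250088) (nat_lit 760) (nat_lit 4911353761) (nat_lit 322) (nat_lit 5) (nat_lit 331) (nat_lit 5) (nat_lit 332) (nat_lit 5) (nat_lit 593) (nat_lit 545) (nat_lit 422)) (XT.lf (nat_lit 0) (nat_lit 1116223946) (nat_lit 760) (nat_lit 7861522697) (nat_lit 836) (nat_lit 2741600695) (nat_lit 312) (nat_lit 5) (nat_lit 322) (nat_lit 5) (nat_lit 323) (nat_lit 5) (nat_lit 594) (nat_lit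 545) (nat_lit 421)))) (XT.nd (nat_lit 78) (nat_lit 760) (nat_lit 0) (XT.lf (nat_lit 0) (nat_lit 8117988338) (nat_lit 760) (nat_lit 3225260846) (nat_lit 836) (nat_lit 501270032) (nat_lit 312) (nat_lit 5) (nat_lit 322) (nat_lit 5) (nat_lit 323) (nat_lit 5) (nat_lit 595) (nat_lit 545) (nat_lit 420)) (XT.nd (nat_lit 78) (nat_lit 0) (nat_lit 0) (XT.lf (nat_lit 0) (nat_lit 1775339257) (nat_lit 760) (nat_lit 8681651462) (nat_lit 76) (nat_lit 1514676965) (nat_lit 302) (nat_lit 5) (nat_lit 312) (nat_lit 5) (nat_lit 303) (nat_lit 5) (nat_lit 596) (nat_lit 545) (nat_lit 419)) (XT.lf (nat_lit 0) (nat_lit 4120966176) (nat_lit 760) (nat_lit 1647594154) (nat_lit 76) (nat_lit 6332130678) (nat_lit 302) (nat_lit 5) (nat_lit 312) (nat_lit 5) (nat_lit 303) (nat_lit 5) (nat_lit 597) (nat_lit 545) (nat_lit 418))))) (XT.nd (nat_lit 234) (nat_lit 1368) (nat_lit 0) (XT.nd (nat_lit 78) (nat_lit 608) (nat_lit 0) (XT.lf (nat_lit 0) (nat_lit 5581425179) (nat_lit 684) (nat_lit 952298413) (nat_lit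 760) (nat_lit 5698168910) (nat_lit 293) (nat_lit 5) (nat_lit 302) (nat_lit 5) (nat_lit 303) (nat_lit 5) (nat_lit 598) (nat_lit 545) (nat_lit 417)) (XT.nd (nat_lit 78) (nat_lit 0) (nat_lit 0) (XT.lf (nat_lit 0) (nat_lit 574515038) (nat_lit 608) (nat_lit 8444945983) (nat_lit 684) (nat_lit 3345764532) (nat_lit 285) (nat_lit 5) (nat_lit 293) (nat_lit 5) (nat_lit 294) (nat_lit 5) (nat_lit 599) (nat_lit 545) (nat_lit 416)) (XT.lf (nat_lit 0) (nat_lit 8008785729) (nat_lit 608) (nat_lit 3581360763) (nat_lit 684) (nat_lit 910376090) (nat_lit 285) (nat_lit 5) (nat_lit 293) (nat_lit 5) (nat_lit 294) (nat_lit 5) (nat_lit 600) (nat_lit 545) (nat_lit 415)))) (XT.nd (nat_lit 78) (nat_lit 608) (nat_lit 0) (XT.lf (nat_lit 0) (nat_lit 1565992048) (nat_lit 760) (nat_lit 9684322858) (nat_lit 76) (nat_lit 1387749969) (nat_lit 275) (nat_lit 5) (nat_lit 285) (nat_lit 5) (nat_lit 276) (nat_lit 5) (nat_lit 601) (nat_lit 545) (nat_lit 414)) (XT.nd (nat_lit 78) (nat_lit 608) (nat_lit 0) (XT.lf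 (nat_lit 0) (nat_lit 4118471323) (nat_lit 760) (nat_lit 2217650868) (nat_lit 76) (nat_lit 6441341866) (nat_lit 275) (nat_lit 5) (nat_lit 285) (nat_lit 5) (nat_lit 276) (nat_lit 5) (nat_lit 602) (nat_lit 545) (nat_lit 413)) (XT.lf (nat_lit 0) (nat_lit 5451254016) (nat_lit 608) (nat_lit 1291142422) (nat_lit 684) (nat_lit 6176848691) (nat_lit 267) (nat_lit 5) (nat_lit 275) (nat_lit 5) (nat_lit 276) (nat_lit 5) (nat_lit 603) (nat_lit 545) (nat_lit 412)))))) (XT.nd (nat_lit 468) (nat_lit 2736) (nat_lit 0) (XT.nd (nat_lit 234) (nat_lit 608) (nat_lit 0) (XT.nd (nat_lit 78) (nat_lit 608) (nat_lit 0) (XT.lf (nat_lit 0) (nat_lit 198767511) (nat_lit 608) (nat_lit 9246484266) (nat_lit 684) (nat_lit 3618082808) (nat_lit 259) (nat_lit 5) (nat_lit 267) (nat_lit 5) (nat_lit 268) (nat_lit 5) (nat_lit 604) (nat_lit 545) (nat_lit 411)) (XT.nd (nat_lit 78) (nat_lit 608) (nat_lit 0) (XT.lf (nat_lit 0) (nat_lit 8092804039) (nat_lit 608) (nat_lit 4153292407) (nat_lit 684) (nat_lit 963332500)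 (nat_lit 259) (nat_lit 5) (nat_lit 267) (nat_lit 5) (nat_lit 268) (nat_lit 5) (nat_lit 605) (nat_lit 545) (nat_lit 410)) (XT.lf (nat_lit 0) (nat_lit 1732215724) (nat_lit 608) (nat_lit 10571951219) (nat_lit 76) (nat_lit 1053841764) (nat_lit 251) (nat_lit 5) (nat_lit 259) (nat_lit 5) (nat_lit 252) (nat_lit 5) (nat_lit 606) (nat_lit 545) (nat_lit 409)))) (XT.nd (nat_lit 78) (nat_lit 608) (nat_lit 0) (XT.lf (nat_lit 0) (nat_lit 4516509292) (nat_lit 608) (nat_lit 2645428216) (nat_lit 76) (nat_lit 6346542194) (nat_lit 251) (nat_lit 5) (nat_lit 259) (nat_lit 5) (nat_lit 252) (nat_lit 5) (nat_lit 607) (nat_lit 545) (nat_lit 408)) (XT.nd (nat_lit 78) (nat_lit 0) (nat_lit 0) (XT.lf (nat_lit 0) (nat_lit 5493444058) (nat_lit 608) (nat_lit 1884646523) (nat_lit 684) (nat_lit 6283439126) (nat_lit 243) (nat_lit 5) (nat_lit 251) (nat_lit 5) (nat_lit 252) (nat_lit 5) (nat_lit 608) (nat_lit 545) (nat_lit 407)) (XT.lf (nat_lit 0) (nat_lit 10323551550) (nat_lit 684) (nat_lit 27523774) (nat_lit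 76) (nat_lit 3466034022) (nat_lit 243) (nat_lit 5) (nat_lit 252) (nat_lit 5) (nat_lit 244) (nat_lit 5) (nat_lit 609) (nat_lit 545) (nat_lit 406))))) (XT.nd (nat_lit 234) (nat_lit 1596) (nat_lit 0) (XT.nd (nat_lit 78) (nat_lit 608) (nat_lit 0) (XT.lf (nat_lit 0) (nat_lit 8354943623) (nat_lit 532) (nat_lit 5026043977) (nat_lit 608) (nat_lit 593753224) (nat_lit 236) (nat_lit 5) (nat_lit 243) (nat_lit 5) (nat_lit 244) (nat_lit 5) (nat_lit 610) (nat_lit 545) (nat_lit 405)) (XT.nd (nat_lit 78) (nat_lit 0) (nat_lit 0) (XT.lf (nat_lit 0) (nat_lit 2340457241) (nat_lit 608) (nat_lit 11365089873) (nat_lit 76) (nat_lit 429524049) (nat_lit 228) (nat_lit 5) (nat_lit 236) (nat_lit 5) (nat_lit 229) (nat_lit 5) (nat_lit 611) (nat_lit 545) (nat_lit 404)) (XT.lf (nat_lit 0) (nat_lit 5383176261) (nat_lit 608) (nat_lit 2949775087) (nat_lit 76) (nat_lit 5964424245) (nat_lit 228) (nat_lit 5) (nat_lit 236) (nat_lit 5) (nat_lit 229) (nat_lit 5) (nat_lit 612) (nat_lit 545) (nat_lit 403)))) (XT.nd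 (nat_lit 156) (nat_lit 1064) (nat_lit 0) (XT.nd (nat_lit 78) (nat_lit 0) (nat_lit 0) (XT.lf (nat_lit 0) (nat_lit 5690649044) (nat_lit 532) (nat_lit 2819833051) (nat_lit 608) (nat_lit 5951970813) (nat_lit 221) (nat_lit 5) (nat_lit 228) (nat_lit 5) (nat_lit 229) (nat_lit 5) (nat_lit 613) (nat_lit 545) (nat_lit 402)) (XT.lf (nat_lit 0) (nat_lit 11725361104) (nat_lit 608) (nat_lit 122849042) (nat_lit 76) (nat_lit 2782122499) (nat_lit 221) (nat_lit 5) (nat_lit 229) (nat_lit 5) (nat_lit 222) (nat_lit 5) (nat_lit 614) (nat_lit 545) (nat_lit 401))) (XT.nd (nat_lit 78) (nat_lit 456) (nat_lit 0) (XT.lf (nat_lit 0) (nat_lit 263542849) (nat_lit 608) (nat_lit 6024108331) (nat_lit 76) (nat_lit 8512629060) (nat_lit 213) (nat_lit 5) (nat_lit 221) (nat_lit 5) (nat_lit 214) (nat_lit 5) (nat_lit 615) (nat_lit 545) (nat_lit 400)) (XT.lf (nat_lit 0) (nat_lit 2882134354) (nat_lit 456) (nat_lit 581183226) (nat_lit 532) (nat_lit 11509790751) (nat_lit 207) (nat_lit 5) (nat_lit 213) (nat_lit 5)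 (nat_lit 214) (nat_lit 5) (nat_lit 616) (nat_lit 545) (nat_lit 399))))))) (XT.nd (nat_lit 936) (nat_lit 3040) (nat_lit 0) (XT.nd (nat_lit 468) (nat_lit 1824) (nat_lit 0) (XT.nd (nat_lit 234) (nat_lit 988) (nat_lit 0) (XT.nd (nat_lit 78) (nat_lit 532) (nat_lit 0) (XT.lf (nat_lit 0) (nat_lit 6789112192) (nat_lit 532) (nat_lit 3152466187) (nat_lit 76) (nat_lit 5206575427) (nat_lit 207) (nat_lit 5) (nat_lit 214) (nat_lit 5) (nat_lit 208) (nat_lit 5) (nat_lit 617) (nat_lit 545) (nat_lit 398)) (XT.nd (nat_lit 78) (nat_lit 0) (nat_lit 0) (XT.lf (nat_lit 0) (nat_lit 6022541240) (nat_lit 532) (nat_lit 4189395410) (nat_lit 608) (nat_lit 5114154543) (nat_lit 200) (nat_lit 5) (nat_lit 207) (nat_lit 5) (nat_lit 208) (nat_lit 5) (nat_lit 618) (nat_lit 545) (nat_lit 397)) (XT.lf (nat_lit 0) (nat_lit 13723067922) (nat_lit 608) (nat_lit 111925394) (nat_lit 76) (nat_lit 1672198264) (nat_lit 200) (nat_lit 5) (nat_lit 208) (nat_lit 5) (nat_lit 201) (nat_lit 5) (nat_lit 619) (nat_lit 545)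 (nat_lit 396)))) (XT.nd (nat_lit 78) (nat_lit 456) (nat_lit 0) (XT.lf (nat_lit 0) (nat_lit 1668160591) (nat_lit 532) (nat_lit 6360231543) (nat_lit 76) (nat_lit 7661777640) (nat_lit 193) (nat_lit 5) (nat_lit 200) (nat_lit 5) (nat_lit 194) (nat_lit 5) (nat_lit 620) (nat_lit 545) (nat_lit 395)) (XT.nd (nat_lit 78) (nat_lit 0) (nat_lit 0) (XT.lf (nat_lit 0) (nat_lit 3096946569) (nat_lit 456) (nat_lit 2077490204) (nat_lit 532) (nat_lit 10701959367) (nat_lit 187) (nat_lit 5) (nat_lit 193) (nat_lit 5) (nat_lit 194) (nat_lit 5) (nat_lit 621) (nat_lit 545) (nat_lit 394)) (XT.lf (nat_lit 0) (nat_lit 8807764631) (nat_lit 532) (nat_lit 3279521406) (nat_lit 76) (nat_lit 3977923636) (nat_lit 187) (nat_lit 5) (nat_lit 194) (nat_lit 5) (nat_lit 188) (nat_lit 5) (nat_lit 622) (nat_lit 545) (nat_lit 393))))) (XT.nd (nat_lit 234) (nat_lit 836) (nat_lit 0) (XT.nd (nat_lit 78) (nat_lit 532) (nat_lit 0) (XT.lf (nat_lit 0) (nat_lit 6464462357) (nat_lit 456) (nat_lit 6093302453) (nat_lit 532)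 (nat_lit 3699155693) (nat_lit 181) (nat_lit 5) (nat_lit 187) (nat_lit 5) (nat_lit 188) (nat_lit 5) (nat_lit 623) (nat_lit 545) (nat_lit 392)) (XT.nd (nat_lit 78) (nat_lit 532) (nat_lit 0) (XT.lf (nat_lit 0) (nat_lit 16393413864) (nat_lit 532) (nat_lit 21578864) (nat_lit 76) (nat_lit 37260958) (nat_lit 181) (nat_lit 5) (nat_lit 188) (nat_lit 5) (nat_lit 182) (nat_lit 5) (nat_lit 624) (nat_lit 545) (nat_lit 391)) (XT.lf (nat_lit 0) (nat_lit 3700970986) (nat_lit 532) (nat_lit 6654917040) (nat_lit 76) (nat_lit 6293239758) (nat_lit 174) (nat_lit 5) (nat_lit 181) (nat_lit 5) (nat_lit 175) (nat_lit 5) (nat_lit 625) (nat_lit 545) (nat_lit 390)))) (XT.nd (nat_lit 78) (nat_lit 456) (nat_lit 0) (XT.lf (nat_lit 0) (nat_lit 3387952633) (nat_lit 380) (nat_lit 4158011377) (nat_lit 456) (nat_lit 9303753149) (nat_lit 169) (nat_lit 5) (nat_lit 174) (nat_lit 5) (nat_lit 175) (nat_lit 5) (nat_lit 626) (nat_lit 545) (nat_lit 389)) (XT.nd (nat_lit 78) (nat_lit 456) (nat_lit 0) (XT.lf (nat_lit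 0) (nat_lit 11515569908) (nat_lit 456) (nat_lit 3362724367) (nat_lit 76) (nat_lit 2175070820) (nat_lit 169) (nat_lit 5) (nat_lit 175) (nat_lit 5) (nat_lit 170) (nat_lit 5) (nat_lit 627) (nat_lit 545) (nat_lit 388)) (XT.lf (nat_lit 0) (nat_lit 6985867938) (nat_lit 456) (nat_lit 8640525034) (nat_lit 532) (nat_lit 1633457526) (nat_lit 163) (nat_lit 5) (nat_lit 169) (nat_lit 5) (nat_lit 170) (nat_lit 5) (nat_lit 628) (nat_lit 545) (nat_lit 387)))))) (XT.nd (nat_lit 468) (nat_lit 1368) (nat_lit 0) (XT.nd (nat_lit 234) (nat_lit 836) (nat_lit 0) (XT.nd (nat_lit 78) (nat_lit 380) (nat_lit 0) (XT.lf (nat_lit 0) (nat_lit 86178146) (nat_lit 380) (nat_lit 2244224867) (nat_lit 456) (nat_lit 15139513684) (nat_lit 157) (nat_lit 5) (nat_lit 162) (nat_lit 5) (nat_lit 163) (nat_lit 5) (nat_lit 629) (nat_lit 545) (nat_lit 386)) (XT.nd (nat_lit 78) (nat_lit 380) (nat_lit 0) (XT.lf (nat_lit 0) (nat_lit 6437920559) (nat_lit 456) (nat_lit 6945686181) (nat_lit 76) (nat_lit 4298637452) (nat_lit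 157) (nat_lit 5) (nat_lit 163) (nat_lit 5) (nat_lit 158) (nat_lit 5) (nat_lit 630) (nat_lit 545) (nat_lit 385)) (XT.lf (nat_lit 0) (nat_lit 3718736069) (nat_lit 380) (nat_lit 6937116488) (nat_lit 456) (nat_lit 7242401336) (nat_lit 152) (nat_lit 5) (nat_lit 157) (nat_lit 5) (nat_lit 158) (nat_lit 5) (nat_lit 631) (nat_lit 545) (nat_lit 384)))) (XT.nd (nat_lit 78) (nat_lit 836) (nat_lit 0) (XT.lf (nat_lit 0) (nat_lit 14674403968) (nat_lit 380) (nat_lit 319711124) (nat_lit 456) (nat_lit 3123750172) (nat_lit 152) (nat_lit 5) (nat_lit 157) (nat_lit 5) (nat_lit 158) (nat_lit 5) (nat_lit 632) (nat_lit 545) (nat_lit 383)) (XT.nd (nat_lit 78) (nat_lit 380) (nat_lit 0) (XT.lf (nat_lit 0) (nat_lit 1143970218) (nat_lit 456) (nat_lit 10799271554) (nat_lit 76) (nat_lit 6396871586) (nat_lit 146) (nat_lit 5) (nat_lit 152) (nat_lit 5) (nat_lit 147) (nat_lit 5) (nat_lit 633) (nat_lit 545) (nat_lit 382)) (XT.lf (nat_lit 0) (nat_lit 188595890) (nat_lit 380) (nat_lit 5282831518) (nat_lit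 456) (nat_lit 13094642723) (nat_lit 141) (nat_lit 5) (nat_lit 146) (nat_lit 5) (nat_lit 147) (nat_lit 5) (nat_lit 634) (nat_lit 545) (nat_lit 381))))) (XT.nd (nat_lit 234) (nat_lit 988) (nat_lit 0) (XT.nd (nat_lit 78) (nat_lit 380) (nat_lit 0) (XT.lf (nat_lit 0) (nat_lit 9957823698) (nat_lit 456) (nat_lit 7278926855) (nat_lit 76) (nat_lit 1558348533) (nat_lit 141) (nat_lit 5) (nat_lit 147) (nat_lit 5) (nat_lit 142) (nat_lit 5) (nat_lit 635) (nat_lit 545) (nat_lit 380)) (XT.nd (nat_lit 78) (nat_lit 76) (nat_lit 0) (XT.lf (nat_lit 0) (nat_lit 4043808878) (nat_lit 304) (nat_lit 10541215257) (nat_lit 380) (nat_lit 4442663792) (nat_lit 137) (nat_lit 5) (nat_lit 141) (nat_lit 5) (nat_lit 142) (nat_lit 5) (nat_lit 636) (nat_lit 545) (nat_lit 379)) (XT.lf (nat_lit 0) (nat_lit 78351642) (nat_lit 380) (nat_lit 3588730253) (nat_lit 76) (nat_lit 15597061590) (nat_lit 136) (nat_lit 5) (nat_lit 141) (nat_lit 5) (nat_lit 137) (nat_lit 5) (nat_lit 637) (nat_lit 545) (nat_lit 378))))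 (XT.nd (nat_lit 156) (nat_lit 304) (nat_lit 0) (XT.nd (nat_lit 78) (nat_lit 304) (nat_lit 0) (XT.lf (nat_lit 0) (nat_lit 4695202550) (nat_lit 456) (nat_lit 11430587789) (nat_lit 76) (nat_lit 3377653228) (nat_lit 131) (nat_lit 5) (nat_lit 137) (nat_lit 5) (nat_lit 132) (nat_lit 5) (nat_lit 638) (nat_lit 545) (nat_lit 377)) (XT.lf (nat_lit 0) (nat_lit 232261686) (nat_lit 304) (nat_lit 9212285875) (nat_lit 380) (nat_lit 10302179715) (nat_lit 127) (nat_lit 5) (nat_lit 131) (nat_lit 5) (nat_lit 132) (nat_lit 5) (nat_lit 639) (nat_lit 545) (nat_lit 376))) (XT.nd (nat_lit 78) (nat_lit 304) (nat_lit 0) (XT.lf (nat_lit 0) (nat_lit 12267804105) (nat_lit 304) (nat_lit 2087995647) (nat_lit 380) (nat_lit 5637739255) (nat_lit 127) (nat_lit 5) (nat_lit 131) (nat_lit 5) (nat_lit 132) (nat_lit 5) (nat_lit 640) (nat_lit 545) (nat_lit 375)) (XT.lf (nat_lit 0) (nat_lit 4306262988) (nat_lit 304) (nat_lit 15110967637) (nat_lit 380) (nat_lit 827018011) (nat_lit 123) (nat_lit 5) (nat_lit 127)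 (nat_lit 5) (nat_lit 128) (nat_lit 5) (nat_lit 641) (nat_lit 545) (nat_lit 374))))))))
noncomputable def xc144 : XT := (XT.nd (nat_lit 74568) (nat_lit 0) (nat_lit 23332) (XT.nd (nat_lit 936) (nat_lit 380) (nat_lit 0) (XT.nd (nat_lit 468) (nat_lit 1140) (nat_lit 0) (XT.nd (nat_lit 234) (nat_lit 380) (nat_lit 0) (XT.nd (nat_lit 78) (nat_lit 608) (nat_lit 0) (XT.lf (nat_lit 0) (nat_lit 4082819968) (nat_lit 380) (nat_lit 3871359055) (nat_lit 76) (nat_lit 12544136128) (nat_lit 122) (nat_lit 5) (nat_lit 127) (nat_lit 5) (nat_lit 123) (nat_lit 5) (nat_lit 642) (nat_lit 545) (nat_lit 373)) (XT.nd (nat_lit 78) (nat_lit 304) (nat_lit 0) (XT.lf (nat_lit 0) (nat_lit 8527881529) (nat_lit 304) (nat_lit 597863024) (nat_lit 380) (nat_lit 11630690534) (nat_lit 118) (nat_lit 5) (nat_lit 122) (nat_lit 5) (nat_lit 123) (nat_lit 5) (nat_lit 643) (nat_lit 545) (nat_lit 372)) (XT.lf (nat_lit 0) (nat_lit 150211222) (nat_lit 304) (nat_lit 14181913352) (nat_lit 380) (nat_lit 6686341589) (nat_lit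 114) (nat_lit 5) (nat_lit 118) (nat_lit 5) (nat_lit 119) (nat_lit 5) (nat_lit 644) (nat_lit 545) (nat_lit 371)))) (XT.nd (nat_lit 78) (nat_lit 380) (nat_lit 0) (XT.lf (nat_lit 0) (nat_lit 12923262624) (nat_lit 304) (nat_lit 6796084070) (nat_lit 380) (nat_lit 1564857544) (nat_lit 114) (nat_lit 5) (nat_lit 118) (nat_lit 5) (nat_lit 119) (nat_lit 5) (nat_lit 645) (nat_lit 545) (nat_lit 370)) (XT.nd (nat_lit 78) (nat_lit 0) (nat_lit 0) (XT.lf (nat_lit 0) (nat_lit 3635677807) (nat_lit 380) (nat_lit 17143680905) (nat_lit 76) (nat_lit 774931648) (nat_lit 109) (nat_lit 5) (nat_lit 114) (nat_lit 5) (nat_lit 110) (nat_lit 5) (nat_lit 646) (nat_lit 545) (nat_lit 369)) (XT.lf (nat_lit 0) (nat_lit 9011663996) (nat_lit 380) (nat_lit 4348384594) (nat_lit 76) (nat_lit 8467675497) (nat_lit 109) (nat_lit 5) (nat_lit 114) (nat_lit 5) (nat_lit 110) (nat_lit 5) (nat_lit 647) (nat_lit 545) (nat_lit 368))))) (XT.nd (nat_lit 234) (nat_lit 532) (nat_lit 0) (XT.nd (nat_lit 78) (nat_lit 304) (nat_lit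 0) (XT.lf (nat_lit 0) (nat_lit 8803658831) (nat_lit 304) (nat_lit 5739737842) (nat_lit 380) (nat_lit 7562265899) (nat_lit 105) (nat_lit 5) (nat_lit 109) (nat_lit 5) (nat_lit 110) (nat_lit 5) (nat_lit 648) (nat_lit 545) (nat_lit 367)) (XT.nd (nat_lit 78) (nat_lit 304) (nat_lit 0) (XT.lf (nat_lit 0) (nat_lit 20219448234) (nat_lit 380) (nat_lit 138947296) (nat_lit 76) (nat_lit 2030091214) (nat_lit 105) (nat_lit 5) (nat_lit 110) (nat_lit 5) (nat_lit 106) (nat_lit 5) (nat_lit 649) (nat_lit 545) (nat_lit 366)) (XT.lf (nat_lit 0) (nat_lit 3405492641) (nat_lit 304) (nat_lit 9286177906) (nat_lit 76) (nat_lit 9982521964) (nat_lit 101) (nat_lit 5) (nat_lit 105) (nat_lit 5) (nat_lit 102) (nat_lit 5) (nat_lit 650) (nat_lit 545) (nat_lit 365)))) (XT.nd (nat_lit 78) (nat_lit 228) (nat_lit 0) (XT.lf (nat_lit 0) (nat_lit 4248759073) (nat_lit 304) (nat_lit 4833569649) (nat_lit 380) (nat_lit 13882600338) (nat_lit 97) (nat_lit 5) (nat_lit 101) (nat_lit 5) (nat_lit 102) (nat_lit 5) (nat_lit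 651) (nat_lit 545) (nat_lit 364)) (XT.nd (nat_lit 78) (nat_lit 228) (nat_lit 0) (XT.lf (nat_lit 0) (nat_lit 14947433910) (nat_lit 380) (nat_lit 5115473195) (nat_lit 76) (nat_lit 3197079146) (nat_lit 97) (nat_lit 5) (nat_lit 102) (nat_lit 5) (nat_lit 98) (nat_lit 5) (nat_lit 652) (nat_lit 545) (nat_lit 363)) (XT.lf (nat_lit 0) (nat_lit 8826835628) (nat_lit 228) (nat_lit 12183842207) (nat_lit 304) (nat_lit 2548650566) (nat_lit 94) (nat_lit 5) (nat_lit 97) (nat_lit 5) (nat_lit 98) (nat_lit 5) (nat_lit 653) (nat_lit 545) (nat_lit 362)))))) (XT.nd (nat_lit 73086) (nat_lit 0) (nat_lit 35644) (XT.nd (nat_lit 72852) (nat_lit 0) (nat_lit 36936) (XT.nd (nat_lit 78) (nat_lit 304) (nat_lit 0) (XT.lf (nat_lit 0) (nat_lit 3312938988) (nat_lit 304) (nat_lit 782666895) (nat_lit 76) (nat_lit 19768097751) (nat_lit 93) (nat_lit 5) (nat_lit 97) (nat_lit 5) (nat_lit 94) (nat_lit 5) (nat_lit 654) (nat_lit 545) (nat_lit 361)) (XT.nd (nat_lit 72696) (nat_lit 0) (nat_lit 38304) (XT.lf (nat_lit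 0) (nat_lit 9365259227) (nat_lit 380) (nat_lit 10606201728) (nat_lit 76) (nat_lit 4200216496) (nat_lit 89) (nat_lit 5) (nat_lit 94) (nat_lit 5) (nat_lit 90) (nat_lit 5) (nat_lit 655) (nat_lit 545) (nat_lit 360)) (XT.lf (nat_lit 0) (nat_lit 1124363367) (nat_lit 0) (nat_lit 1124363367) (nat_lit 1292) (nat_lit 1617510994) (nat_lit 593) (nat_lit 5) (nat_lit 593) (nat_lit 3) (nat_lit 610) (nat_lit 3) (nat_lit 546) (nat_lit 546) (nat_lit 468)))) (XT.nd (nat_lit 78) (nat_lit 1368) (nat_lit 0) (XT.lf (nat_lit 0) (nat_lit 5867861076) (nat_lit 1292) (nat_lit 1678745416) (nat_lit 1368) (nat_lit 236436962) (nat_lit 593) (nat_lit 5) (nat_lit 610) (nat_lit 3) (nat_lit 611) (nat_lit 5) (nat_lit 547) (nat_lit 546) (nat_lit 467)) (XT.nd (nat_lit 78) (nat_lit 1368) (nat_lit 0) (XT.lf (nat_lit 76) (nat_lit 2198117787) (nat_lit 0) (nat_lit 5062109863) (nat_lit 1368) (nat_lit 574510654) (nat_lit 594) (nat_lit 5) (nat_lit 593) (nat_lit 5) (nat_lit 611) (nat_lit 5) (nat_lit 548) (nat_lit 546)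 (nat_lit 466)) (XT.lf (nat_lit 0) (nat_lit 759630963) (nat_lit 1368) (nat_lit 1735709703) (nat_lit 1444) (nat_lit 5392488541) (nat_lit 575) (nat_lit 5) (nat_lit 593) (nat_lit 5) (nat_lit 594) (nat_lit 5) (nat_lit 549) (nat_lit 546) (nat_lit 465))))) (XT.nd (nat_lit 234) (nat_lit 1368) (nat_lit 0) (XT.nd (nat_lit 78) (nat_lit 0) (nat_lit 0) (XT.lf (nat_lit 0) (nat_lit 2094791653) (nat_lit 1368) (nat_lit 5692533136) (nat_lit 1444) (nat_lit 154946742) (nat_lit 576) (nat_lit 5) (nat_lit 594) (nat_lit 5) (nat_lit 595) (nat_lit 5) (nat_lit 550) (nat_lit 546) (nat_lit 464)) (XT.nd (nat_lit 78) (nat_lit 0) (nat_lit 0) (XT.lf (nat_lit 0) (nat_lit 3451934012) (nat_lit 1368) (nat_lit 1694550229) (nat_lit 1444) (nat_lit 2851418904) (nat_lit 576) (nat_lit 5) (nat_lit 594) (nat_lit 5) (nat_lit 595) (nat_lit 5) (nat_lit 551) (nat_lit 546) (nat_lit 463)) (XT.lf (nat_lit 76) (nat_lit 2396388693) (nat_lit 0) (nat_lit 2423064329) (nat_lit 1444) (nat_lit 3235535586) (nat_lit 577) (nat_lit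 5) (nat_lit 576) (nat_lit 5) (nat_lit 595) (nat_lit 5) (nat_lit 552) (nat_lit 546) (nat_lit 462)))) (XT.nd (nat_lit 156) (nat_lit 1444) (nat_lit 0) (XT.nd (nat_lit 78) (nat_lit 0) (nat_lit 0) (XT.lf (nat_lit 0) (nat_lit 6196350237) (nat_lit 1368) (nat_lit 1542292014) (nat_lit 1444) (nat_lit 374938752) (nat_lit 577) (nat_lit 5) (nat_lit 595) (nat_lit 5) (nat_lit 596) (nat_lit 5) (nat_lit 553) (nat_lit 546) (nat_lit 461)) (XT.lf (nat_lit 76) (nat_lit 2656467597) (nat_lit 0) (nat_lit 4946511582) (nat_lit 1444) (nat_lit 570327857) (nat_lit 578) (nat_lit 5) (nat_lit 577) (nat_lit 5) (nat_lit 596) (nat_lit 5) (nat_lit 554) (nat_lit 546) (nat_lit 460))) (XT.nd (nat_lit 78) (nat_lit 0) (nat_lit 76) (XT.lf (nat_lit 0) (nat_lit 772573679) (nat_lit 1444) (nat_lit 1298157422) (nat_lit 1520) (nat_lit 6163805619) (nat_lit 558) (nat_lit 5) (nat_lit 577) (nat_lit 5) (nat_lit 578) (nat_lit 5) (nat_lit 555) (nat_lit 546) (nat_lit 459)) (XT.lf (nat_lit 0) (nat_lit 2129941372) (nat_lit 1444)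 (nat_lit 5280794083) (nat_lit 1520) (nat_lit 886280587) (nat_lit 559) (nat_lit 5) (nat_lit 578) (nat_lit 5) (nat_lit 579) (nat_lit 5) (nat_lit 556) (nat_lit 546) (nat_lit 458))))))) (XT.nd (nat_lit 936) (nat_lit 9576) (nat_lit 0) (XT.nd (nat_lit 468) (nat_lit 1368) (nat_lit 0) (XT.nd (nat_lit 234) (nat_lit 1444) (nat_lit 0) (XT.nd (nat_lit 78) (nat_lit 0) (nat_lit 0) (XT.lf (nat_lit 0) (nat_lit 3507269612) (nat_lit 1444) (nat_lit 958995235) (nat_lit 1520) (nat_lit 3894629074) (nat_lit 559) (nat_lit 5) (nat_lit 578) (nat_lit 5) (nat_lit 579) (nat_lit 5) (nat_lit 557) (nat_lit 546) (nat_lit 457)) (XT.nd (nat_lit 78) (nat_lit 0) (nat_lit 76) (XT.lf (nat_lit 76) (nat_lit 3476064918) (nat_lit 0) (nat_lit 1429560898) (nat_lit 1520) (nat_lit 3520559045) (nat_lit 560) (nat_lit 5) (nat_lit 559) (nat_lit 5) (nat_lit 579) (nat_lit 5) (nat_lit 558) (nat_lit 546) (nat_lit 456)) (XT.lf (nat_lit 0) (nat_lit 6320682802) (nat_lit 1444) (nat_lit 509981932) (nat_lit 1520) (nat_lit 1662347243)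 (nat_lit 560) (nat_lit 5) (nat_lit 579) (nat_lit 5) (nat_lit 580) (nat_lit 5) (nat_lit 559) (nat_lit 546) (nat_lit 455)))) (XT.nd (nat_lit 78) (nat_lit 1520) (nat_lit 0) (XT.lf (nat_lit 76) (nat_lit 4043619296) (nat_lit 0) (nat_lit 3728129751) (nat_lit 1520) (nat_lit 789277357) (nat_lit 561) (nat_lit 5) (nat_lit 560) (nat_lit 5) (nat_lit 580) (nat_lit 5) (nat_lit 560) (nat_lit 546) (nat_lit 454)) (XT.nd (nat_lit 78) (nat_lit 0) (nat_lit 76) (XT.lf (nat_lit 76) (nat_lit 42214527) (nat_lit 0) (nat_lit 547016577) (nat_lit 1596) (nat_lit 8041575144) (nat_lit 541) (nat_lit 5) (nat_lit 540) (nat_lit 5) (nat_lit 561) (nat_lit 5) (nat_lit 561) (nat_lit 546) (nat_lit 453)) (XT.lf (nat_lit 0) (nat_lit 2005483428) (nat_lit 1520) (nat_lit 3989689524) (nat_lit 1596) (nat_lit 2706294201) (nat_lit 541) (nat_lit 5) (nat_lit 561) (nat_lit 5) (nat_lit 562) (nat_lit 5) (nat_lit 562) (nat_lit 546) (nat_lit 452))))) (XT.nd (nat_lit 234) (nat_lit 1444) (nat_lit 0) (XT.nd (nat_lit 78) (nat_lit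 0) (nat_lit 76) (XT.lf (nat_lit 76) (nat_lit 687333359) (nat_lit 0) (nat_lit 2744049864) (nat_lit 1596) (nat_lit 5342536159) (nat_lit 542) (nat_lit 5) (nat_lit 541) (nat_lit 5) (nat_lit 562) (nat_lit 5) (nat_lit 563) (nat_lit 546) (nat_lit 451)) (XT.nd (nat_lit 78) (nat_lit 0) (nat_lit 0) (XT.lf (nat_lit 0) (nat_lit 4890150447) (nat_lit 1520) (nat_lit 3358900244) (nat_lit 1596) (nat_lit 598687444) (nat_lit 542) (nat_lit 5) (nat_lit 562) (nat_lit 5) (nat_lit 563) (nat_lit 5) (nat_lit 564) (nat_lit 546) (nat_lit 450)) (XT.lf (nat_lit 76) (nat_lit 1444800545) (nat_lit 0) (nat_lit 4935046357) (nat_lit 1596) (nat_lit 2543155662) (nat_lit 543) (nat_lit 5) (nat_lit 542) (nat_lit 5) (nat_lit 563) (nat_lit 5) (nat_lit 565) (nat_lit 546) (nat_lit 449)))) (XT.nd (nat_lit 78) (nat_lit 1520) (nat_lit 0) (XT.lf (nat_lit 76) (nat_lit 6370918192) (nat_lit 0) (nat_lit 1525541141) (nat_lit 1596) (nat_lit 1103374801) (nat_lit 543) (nat_lit 5) (nat_lit 542) (nat_lit 5) (nat_lit 563) (nat_lit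 5) (nat_lit 566) (nat_lit 546) (nat_lit 448)) (XT.nd (nat_lit 78) (nat_lit 0) (nat_lit 0) (XT.lf (nat_lit 0) (nat_lit 363256407) (nat_lit 1596) (nat_lit 6764841784) (nat_lit 1672) (nat_lit 1950003962) (nat_lit 522) (nat_lit 5) (nat_lit 543) (nat_lit 5) (nat_lit 544) (nat_lit 5) (nat_lit 567) (nat_lit 546) (nat_lit 447)) (XT.lf (nat_lit 0) (nat_lit 1847637700) (nat_lit 1596) (nat_lit 1804752421) (nat_lit 1672) (nat_lit 5505339757) (nat_lit 522) (nat_lit 5) (nat_lit 543) (nat_lit 5) (nat_lit 544) (nat_lit 5) (nat_lit 568) (nat_lit 546) (nat_lit 446)))))) (XT.nd (nat_lit 468) (nat_lit 4560) (nat_lit 0) (XT.nd (nat_lit 234) (nat_lit 3496) (nat_lit 0) (XT.nd (nat_lit 78) (nat_lit 1520) (nat_lit 0) (XT.lf (nat_lit 76) (nat_lit 3278359807) (nat_lit 0) (nat_lit 80432762) (nat_lit 1672) (nat_lit 5880219837) (nat_lit 523) (nat_lit 5) (nat_lit 522) (nat_lit 5) (nat_lit 544) (nat_lit 5) (nat_lit 569) (nat_lit 546) (nat_lit 445)) (XT.nd (nat_lit 78) (nat_lit 1596) (nat_lit 0) (XT.lf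 (nat_lit 0) (nat_lit 4911677345) (nat_lit 1596) (nat_lit 876854589) (nat_lit 76) (nat_lit 3533162402) (nat_lit 523) (nat_lit 5) (nat_lit 544) (nat_lit 5) (nat_lit 524) (nat_lit 5) (nat_lit 570) (nat_lit 546) (nat_lit 444)) (XT.lf (nat_lit 0) (nat_lit 4345906541) (nat_lit 1596) (nat_lit 2155112099) (nat_lit 1672) (nat_lit 2904907100) (nat_lit 502) (nat_lit 5) (nat_lit 523) (nat_lit 5) (nat_lit 524) (nat_lit 5) (nat_lit 571) (nat_lit 546) (nat_lit 443)))) (XT.nd (nat_lit 78) (nat_lit 1824) (nat_lit 0) (XT.lf (nat_lit 0) (nat_lit 165809329) (nat_lit 1672) (nat_lit 7950416615) (nat_lit 1748) (nat_lit 1375737984) (nat_lit 480) (nat_lit 5) (nat_lit 502) (nat_lit 5) (nat_lit 503) (nat_lit 5) (nat_lit 572) (nat_lit 546) (nat_lit 442)) (XT.nd (nat_lit 78) (nat_lit 1748) (nat_lit 0) (XT.lf (nat_lit 0) (nat_lit 207234239) (nat_lit 1748) (nat_lit 4049710774) (nat_lit 76) (nat_lit 5322244901) (nat_lit 479) (nat_lit 5) (nat_lit 502) (nat_lit 5) (nat_lit 480) (nat_lit 5) (nat_lit 573)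 (nat_lit 546) (nat_lit 441)) (XT.lf (nat_lit 0) (nat_lit 1321145349) (nat_lit 1748) (nat_lit 468522419) (nat_lit 1824) (nat_lit 7878589843) (nat_lit 456) (nat_lit 5) (nat_lit 479) (nat_lit 5) (nat_lit 480) (nat_lit 5) (nat_lit 574) (nat_lit 546) (nat_lit 440))))) (XT.nd (nat_lit 234) (nat_lit 2888) (nat_lit 0) (XT.nd (nat_lit 78) (nat_lit 1672) (nat_lit 0) (XT.lf (nat_lit 0) (nat_lit 3431113074) (nat_lit 1824) (nat_lit 2946145294) (nat_lit 76) (nat_lit 3381304484) (nat_lit 456) (nat_lit 5) (nat_lit 480) (nat_lit 5) (nat_lit 457) (nat_lit 5) (nat_lit 575) (nat_lit 546) (nat_lit 439)) (XT.nd (nat_lit 78) (nat_lit 0) (nat_lit 0) (XT.lf (nat_lit 0) (nat_lit 2574216457) (nat_lit 1672) (nat_lit 2529379806) (nat_lit 1748) (nat_lit 4747117141) (nat_lit 434) (nat_lit 5) (nat_lit 456) (nat_lit 5) (nat_lit 457) (nat_lit 5) (nat_lit 576) (nat_lit 546) (nat_lit 438)) (XT.lf (nat_lit 0) (nat_lit 6817196386) (nat_lit 1748) (nat_lit 1728181161) (nat_lit 76) (nat_lit 1399179393) (nat_lit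 434) (nat_lit 5) (nat_lit 457) (nat_lit 5) (nat_lit 435) (nat_lit 5) (nat_lit 577) (nat_lit 546) (nat_lit 437)))) (XT.nd (nat_lit 156) (nat_lit 1824) (nat_lit 0) (XT.nd (nat_lit 78) (nat_lit 76) (nat_lit 0) (XT.lf (nat_lit 0) (nat_lit 3946899018) (nat_lit 988) (nat_lit 4639669697) (nat_lit 1064) (nat_lit 1453281883) (nat_lit 421) (nat_lit 5) (nat_lit 434) (nat_lit 5) (nat_lit 435) (nat_lit 5) (nat_lit 578) (nat_lit 546) (nat_lit 436)) (XT.lf (nat_lit 0) (nat_lit 241886614) (nat_lit 1064) (nat_lit 399006744) (nat_lit 76) (nat_lit 9496308016) (nat_lit 420) (nat_lit 5) (nat_lit 434) (nat_lit 5) (nat_lit 421) (nat_lit 5) (nat_lit 579) (nat_lit 546) (nat_lit 435))) (XT.nd (nat_lit 78) (nat_lit 912) (nat_lit 0) (XT.lf (nat_lit 0) (nat_lit 1989216828) (nat_lit 988) (nat_lit 4806931100) (nat_lit 76) (nat_lit 3439407823) (nat_lit 408) (nat_lit 5) (nat_lit 421) (nat_lit 5) (nat_lit 409) (nat_lit 5) (nat_lit 580) (nat_lit 546) (nat_lit 434)) (XT.lf (nat_lit 0) (nat_lit 1032397114)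 (nat_lit 912) (nat_lit 2732698716) (nat_lit 988) (nat_lit 6570912350) (nat_lit 396) (nat_lit 5) (nat_lit 408) (nat_lit 5) (nat_lit 409) (nat_lit 5) (nat_lit 581) (nat_lit 546) (nat_lit 433))))))))
noncomputable def xc145 : XT := (XT.nd (nat_lit 1950) (nat_lit 7676) (nat_lit 0) (XT.nd (nat_lit 936) (nat_lit 4864) (nat_lit 0) (XT.nd (nat_lit 468) (nat_lit 3116) (nat_lit 0) (XT.nd (nat_lit 234) (nat_lit 1672) (nat_lit 0) (XT.nd (nat_lit 78) (nat_lit 836) (nat_lit 0) (XT.lf (nat_lit 0) (nat_lit 5598363094) (nat_lit 988) (nat_lit 3413084976) (nat_lit 76) (nat_lit 1426587119) (nat_lit 396) (nat_lit 5) (nat_lit 409) (nat_lit 5) (nat_lit 397) (nat_lit 5) (nat_lit 582) (nat_lit 546) (nat_lit 432)) (XT.nd (nat_lit 78) (nat_lit 0) (nat_lit 0) (XT.lf (nat_lit 0) (nat_lit 2591981756) (nat_lit 836) (nat_lit 4891860010) (nat_lit 912) (nat_lit 3057952941) (nat_lit 385) (nat_lit 5) (nat_lit 396) (nat_lit 5) (nat_lit 397) (nat_lit 5) (nat_lit 583) (nat_lit 546) (nat_lit 431)) (XT.lf (nat_lit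 0) (nat_lit 8744374345) (nat_lit 836) (nat_lit 666435500) (nat_lit 912) (nat_lit 1236746809) (nat_lit 385) (nat_lit 5) (nat_lit 396) (nat_lit 5) (nat_lit 397) (nat_lit 5) (nat_lit 584) (nat_lit 546) (nat_lit 430)))) (XT.nd (nat_lit 78) (nat_lit 760) (nat_lit 0) (XT.lf (nat_lit 0) (nat_lit 645636090) (nat_lit 912) (nat_lit 6481247422) (nat_lit 76) (nat_lit 3627814512) (nat_lit 373) (nat_lit 5) (nat_lit 385) (nat_lit 5) (nat_lit 374) (nat_lit 5) (nat_lit 585) (nat_lit 546) (nat_lit 429)) (XT.nd (nat_lit 78) (nat_lit 760) (nat_lit 0) (XT.lf (nat_lit 0) (nat_lit 2547762783) (nat_lit 912) (nat_lit 296171532) (nat_lit 76) (nat_lit 8019913954) (nat_lit 373) (nat_lit 5) (nat_lit 385) (nat_lit 5) (nat_lit 374) (nat_lit 5) (nat_lit 586) (nat_lit 546) (nat_lit 428)) (XT.lf (nat_lit 0) (nat_lit 4519258418) (nat_lit 836) (nat_lit 4911451887) (nat_lit 76) (nat_lit 1543847303) (nat_lit 363) (nat_lit 5) (nat_lit 374) (nat_lit 5) (nat_lit 364) (nat_lit 5) (nat_lit 587) (nat_lit 546) (nat_lit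 427))))) (XT.nd (nat_lit 234) (nat_lit 1520) (nat_lit 0) (XT.nd (nat_lit 78) (nat_lit 760) (nat_lit 0) (XT.lf (nat_lit 0) (nat_lit 1447245559) (nat_lit 836) (nat_lit 5095138764) (nat_lit 912) (nat_lit 4544855371) (nat_lit 352) (nat_lit 5) (nat_lit 363) (nat_lit 5) (nat_lit 364) (nat_lit 5) (nat_lit 588) (nat_lit 546) (nat_lit 426)) (XT.nd (nat_lit 78) (nat_lit 760) (nat_lit 0) (XT.lf (nat_lit 0) (nat_lit 7980788192) (nat_lit 836) (nat_lit 640343030) (nat_lit 912) (nat_lit 2580743544) (nat_lit 352) (nat_lit 5) (nat_lit 363) (nat_lit 5) (nat_lit 364) (nat_lit 5) (nat_lit 589) (nat_lit 546) (nat_lit 425)) (XT.lf (nat_lit 0) (nat_lit 3325591892) (nat_lit 760) (nat_lit 7445339578) (nat_lit 836) (nat_lit 547283967) (nat_lit 342) (nat_lit 5) (nat_lit 352) (nat_lit 5) (nat_lit 353) (nat_lit 5) (nat_lit 590) (nat_lit 546) (nat_lit 424)))) (XT.nd (nat_lit 78) (nat_lit 1444) (nat_lit 0) (XT.lf (nat_lit 0) (nat_lit 1515465012) (nat_lit 836) (nat_lit 1422868483) (nat_lit 76) (nat_lit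 8498180631) (nat_lit 341) (nat_lit 5) (nat_lit 352) (nat_lit 5) (nat_lit 342) (nat_lit 5) (nat_lit 591) (nat_lit 546) (nat_lit 423)) (XT.nd (nat_lit 78) (nat_lit 684) (nat_lit 0) (XT.lf (nat_lit 0) (nat_lit 3640725951) (nat_lit 836) (nat_lit 6241877763) (nat_lit 76) (nat_lit 1673933346) (nat_lit 331) (nat_lit 5) (nat_lit 342) (nat_lit 5) (nat_lit 332) (nat_lit 5) (nat_lit 592) (nat_lit 546) (nat_lit 422)) (XT.lf (nat_lit 0) (nat_lit 495613290) (nat_lit 684) (nat_lit 5328356122) (nat_lit 760) (nat_lit 5854683772) (nat_lit 322) (nat_lit 5) (nat_lit 331) (nat_lit 5) (nat_lit 332) (nat_lit 5) (nat_lit 593) (nat_lit 546) (nat_lit 421)))))) (XT.nd (nat_lit 468) (nat_lit 2660) (nat_lit 0) (XT.nd (nat_lit 234) (nat_lit 1368) (nat_lit 0) (XT.nd (nat_lit 78) (nat_lit 836) (nat_lit 0) (XT.lf (nat_lit 0) (nat_lit 7433768401) (nat_lit 684) (nat_lit 642392731) (nat_lit 760) (nat_lit 3726547063) (nat_lit 322) (nat_lit 5) (nat_lit 331) (nat_lit 5) (nat_lit 332) (nat_lit 5) (nat_lit 594)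 (nat_lit 546) (nat_lit 420)) (XT.nd (nat_lit 78) (nat_lit 76) (nat_lit 0) (XT.lf (nat_lit 0) (nat_lit 2569637653) (nat_lit 760) (nat_lit 7831014185) (nat_lit 836) (nat_lit 1528049556) (nat_lit 312) (nat_lit 5) (nat_lit 322) (nat_lit 5) (nat_lit 323) (nat_lit 5) (nat_lit 595) (nat_lit 546) (nat_lit 419)) (XT.lf (nat_lit 0) (nat_lit 722614298) (nat_lit 836) (nat_lit 2378244833) (nat_lit 76) (nat_lit 8955913340) (nat_lit 311) (nat_lit 5) (nat_lit 322) (nat_lit 5) (nat_lit 312) (nat_lit 5) (nat_lit 596) (nat_lit 546) (nat_lit 418)))) (XT.nd (nat_lit 78) (nat_lit 684) (nat_lit 0) (XT.lf (nat_lit 0) (nat_lit 3024427548) (nat_lit 760) (nat_lit 7422008685) (nat_lit 76) (nat_lit 1740236857) (nat_lit 302) (nat_lit 5) (nat_lit 312) (nat_lit 5) (nat_lit 303) (nat_lit 5) (nat_lit 597) (nat_lit 546) (nat_lit 417)) (XT.nd (nat_lit 78) (nat_lit 684) (nat_lit 0) (XT.lf (nat_lit 0) (nat_lit 5393171289) (nat_lit 760) (nat_lit 275373679) (nat_lit 76) (nat_lit 6650210892) (nat_lit 302) (nat_lit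 5) (nat_lit 312) (nat_lit 5) (nat_lit 303) (nat_lit 5) (nat_lit 598) (nat_lit 546) (nat_lit 416)) (XT.lf (nat_lit 0) (nat_lit 7088981486) (nat_lit 684) (nat_lit 750936524) (nat_lit 760) (nat_lit 4612951696) (nat_lit 293) (nat_lit 5) (nat_lit 302) (nat_lit 5) (nat_lit 303) (nat_lit 5) (nat_lit 599) (nat_lit 546) (nat_lit 415))))) (XT.nd (nat_lit 234) (nat_lit 1292) (nat_lit 0) (XT.nd (nat_lit 78) (nat_lit 760) (nat_lit 0) (XT.lf (nat_lit 0) (nat_lit 1994832772) (nat_lit 608) (nat_lit 8368038022) (nat_lit 684) (nat_lit 2226251559) (nat_lit 285) (nat_lit 5) (nat_lit 293) (nat_lit 5) (nat_lit 294) (nat_lit 5) (nat_lit 600) (nat_lit 546) (nat_lit 414)) (XT.nd (nat_lit 78) (nat_lit 684) (nat_lit 0) (XT.lf (nat_lit 0) (nat_lit 231504775) (nat_lit 684) (nat_lit 3178942545) (nat_lit 76) (nat_lit 9317106515) (nat_lit 284) (nat_lit 5) (nat_lit 293) (nat_lit 5) (nat_lit 285) (nat_lit 5) (nat_lit 601) (nat_lit 546) (nat_lit 413)) (XT.lf (nat_lit 0) (nat_lit 2733364355) (nat_lit 760)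 (nat_lit 8469413065) (nat_lit 76) (nat_lit 1665188897) (nat_lit 275) (nat_lit 5) (nat_lit 285) (nat_lit 5) (nat_lit 276) (nat_lit 5) (nat_lit 602) (nat_lit 546) (nat_lit 412)))) (XT.nd (nat_lit 156) (nat_lit 684) (nat_lit 0) (XT.nd (nat_lit 78) (nat_lit 608) (nat_lit 0) (XT.lf (nat_lit 0) (nat_lit 5314617677) (nat_lit 760) (nat_lit 881027169) (nat_lit 76) (nat_lit 6814956869) (nat_lit 275) (nat_lit 5) (nat_lit 285) (nat_lit 5) (nat_lit 276) (nat_lit 5) (nat_lit 603) (nat_lit 546) (nat_lit 411)) (XT.lf (nat_lit 0) (nat_lit 6932170439) (nat_lit 608) (nat_lit 1045919321) (nat_lit 684) (nat_lit 5177389948) (nat_lit 267) (nat_lit 5) (nat_lit 275) (nat_lit 5) (nat_lit 276) (nat_lit 5) (nat_lit 604) (nat_lit 546) (nat_lit 410))) (XT.nd (nat_lit 78) (nat_lit 76) (nat_lit 0) (XT.lf (nat_lit 0) (nat_lit 1585864968) (nat_lit 608) (nat_lit 9138257484) (nat_lit 684) (nat_lit 2578548712) (nat_lit 259) (nat_lit 5) (nat_lit 267) (nat_lit 5) (nat_lit 268) (nat_lit 5) (nat_lit 605) (nat_lit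 546) (nat_lit 409)) (XT.lf (nat_lit 0) (nat_lit 106084911) (nat_lit 684) (nat_lit 3842153157) (nat_lit 76) (nat_lit 9503865388) (nat_lit 258) (nat_lit 5) (nat_lit 267) (nat_lit 5) (nat_lit 259) (nat_lit 5) (nat_lit 606) (nat_lit 546) (nat_lit 408))))))) (XT.nd (nat_lit 936) (nat_lit 3800) (nat_lit 0) (XT.nd (nat_lit 468) (nat_lit 1596) (nat_lit 0) (XT.nd (nat_lit 234) (nat_lit 1140) (nat_lit 0) (XT.nd (nat_lit 78) (nat_lit 608) (nat_lit 0) (XT.lf (nat_lit 0) (nat_lit 2832336189) (nat_lit 608) (nat_lit 9402521478) (nat_lit 76) (nat_lit 1368878435) (nat_lit 251) (nat_lit 5) (nat_lit 259) (nat_lit 5) (nat_lit 252) (nat_lit 5) (nat_lit 607) (nat_lit 546) (nat_lit 407)) (XT.nd (nat_lit 78) (nat_lit 608) (nat_lit 0) (XT.lf (nat_lit 0) (nat_lit 5651423939) (nat_lit 608) (nat_lit 1344543873) (nat_lit 76) (nat_lit 6761668956) (nat_lit 251) (nat_lit 5) (nat_lit 259) (nat_lit 5) (nat_lit 252) (nat_lit 5) (nat_lit 608) (nat_lit 546) (nat_lit 406)) (XT.lf (nat_lit 0) (nat_lit 6948199314)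 (nat_lit 608) (nat_lit 1610287386) (nat_lit 684) (nat_lit 5355498446) (nat_lit 243) (nat_lit 5) (nat_lit 251) (nat_lit 5) (nat_lit 252) (nat_lit 5) (nat_lit 609) (nat_lit 546) (nat_lit 405)))) (XT.nd (nat_lit 78) (nat_lit 608) (nat_lit 0) (XT.lf (nat_lit 0) (nat_lit 1326216853) (nat_lit 532) (nat_lit 10226985385) (nat_lit 608) (nat_lit 2519669557) (nat_lit 236) (nat_lit 5) (nat_lit 243) (nat_lit 5) (nat_lit 244) (nat_lit 5) (nat_lit 610) (nat_lit 546) (nat_lit 404)) (XT.nd (nat_lit 78) (nat_lit 532) (nat_lit 0) (XT.lf (nat_lit 0) (nat_lit 412369757) (nat_lit 608) (nat_lit 4386624117) (nat_lit 76) (nat_lit 9435007672) (nat_lit 235) (nat_lit 5) (nat_lit 243) (nat_lit 5) (nat_lit 236) (nat_lit 5) (nat_lit 611) (nat_lit 546) (nat_lit 403)) (XT.lf (nat_lit 0) (nat_lit 3388337939) (nat_lit 608) (nat_lit 10241661764) (nat_lit 76) (nat_lit 767642004) (nat_lit 228) (nat_lit 5) (nat_lit 236) (nat_lit 5) (nat_lit 229) (nat_lit 5) (nat_lit 612) (nat_lit 546) (nat_lit 402))))) (XT.nd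 (nat_lit 234) (nat_lit 532) (nat_lit 0) (XT.nd (nat_lit 78) (nat_lit 1064) (nat_lit 0) (XT.lf (nat_lit 0) (nat_lit 6472282486) (nat_lit 608) (nat_lit 1684525583) (nat_lit 76) (nat_lit 6406778881) (nat_lit 228) (nat_lit 5) (nat_lit 236) (nat_lit 5) (nat_lit 229) (nat_lit 5) (nat_lit 613) (nat_lit 546) (nat_lit 401)) (XT.nd (nat_lit 78) (nat_lit 532) (nat_lit 0) (XT.lf (nat_lit 0) (nat_lit 7119994893) (nat_lit 532) (nat_lit 2531436881) (nat_lit 608) (nat_lit 5080750194) (nat_lit 221) (nat_lit 5) (nat_lit 228) (nat_lit 5) (nat_lit 229) (nat_lit 5) (nat_lit 614) (nat_lit 546) (nat_lit 400)) (XT.lf (nat_lit 0) (nat_lit 1197074452) (nat_lit 532) (nat_lit 11724466722) (nat_lit 608) (nat_lit 1982061531) (nat_lit 214) (nat_lit 5) (nat_lit 221) (nat_lit 5) (nat_lit 222) (nat_lit 5) (nat_lit 615) (nat_lit 546) (nat_lit 399)))) (XT.nd (nat_lit 78) (nat_lit 456) (nat_lit 0) (XT.lf (nat_lit 0) (nat_lit 1218787398) (nat_lit 608) (nat_lit 4833782671) (nat_lit 76) (nat_lit 9024617171)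 (nat_lit 213) (nat_lit 5) (nat_lit 221) (nat_lit 5) (nat_lit 214) (nat_lit 5) (nat_lit 616) (nat_lit 546) (nat_lit 398)) (XT.nd (nat_lit 78) (nat_lit 0) (nat_lit 0) (XT.lf (nat_lit 0) (nat_lit 4241961132) (nat_lit 456) (nat_lit 230424200) (nat_lit 532) (nat_lit 10781291952) (nat_lit 207) (nat_lit 5) (nat_lit 213) (nat_lit 5) (nat_lit 214) (nat_lit 5) (nat_lit 617) (nat_lit 546) (nat_lit 397)) (XT.lf (nat_lit 0) (nat_lit 7848575052) (nat_lit 532) (nat_lit 1922648378) (nat_lit 76) (nat_lit 5661324559) (nat_lit 207) (nat_lit 5) (nat_lit 214) (nat_lit 5) (nat_lit 208) (nat_lit 5) (nat_lit 618) (nat_lit 546) (nat_lit 396)))))) (XT.nd (nat_lit 468) (nat_lit 1824) (nat_lit 0) (XT.nd (nat_lit 234) (nat_lit 912) (nat_lit 0) (XT.nd (nat_lit 78) (nat_lit 532) (nat_lit 0) (XT.lf (nat_lit 0) (nat_lit 7427353492) (nat_lit 532) (nat_lit 3902730049) (nat_lit 608) (nat_lit 4284157901) (nat_lit 200) (nat_lit 5) (nat_lit 207) (nat_lit 5) (nat_lit 208) (nat_lit 5) (nat_lit 619) (nat_lit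 546) (nat_lit 395)) (XT.nd (nat_lit 78) (nat_lit 76) (nat_lit 0) (XT.lf (nat_lit 0) (nat_lit 1176091906) (nat_lit 456) (nat_lit 13727419800) (nat_lit 532) (nat_lit 895612477) (nat_lit 194) (nat_lit 5) (nat_lit 200) (nat_lit 5) (nat_lit 201) (nat_lit 5) (nat_lit 620) (nat_lit 546) (nat_lit 394)) (XT.lf (nat_lit 0) (nat_lit 2596453941) (nat_lit 532) (nat_lit 5209010894) (nat_lit 76) (nat_lit 8180521706) (nat_lit 193) (nat_lit 5) (nat_lit 200) (nat_lit 5) (nat_lit 194) (nat_lit 5) (nat_lit 621) (nat_lit 546) (nat_lit 393)))) (XT.nd (nat_lit 78) (nat_lit 456) (nat_lit 0) (XT.lf (nat_lit 0) (nat_lit 4428900088) (nat_lit 456) (nat_lit 1734653688) (nat_lit 532) (nat_lit 10012571424) (nat_lit 187) (nat_lit 5) (nat_lit 193) (nat_lit 5) (nat_lit 194) (nat_lit 5) (nat_lit 622) (nat_lit 546) (nat_lit 392)) (XT.nd (nat_lit 78) (nat_lit 456) (nat_lit 0) (XT.lf (nat_lit 0) (nat_lit 9854629686) (nat_lit 532) (nat_lit 2084996384) (nat_lit 76) (nat_lit 4429388996) (nat_lit 187) (nat_lit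 5) (nat_lit 194) (nat_lit 5) (nat_lit 188) (nat_lit 5) (nat_lit 623) (nat_lit 546) (nat_lit 391)) (XT.lf (nat_lit 0) (nat_lit 7845576822) (nat_lit 456) (nat_lit 5825107985) (nat_lit 532) (nat_lit 2894055864) (nat_lit 181) (nat_lit 5) (nat_lit 187) (nat_lit 5) (nat_lit 188) (nat_lit 5) (nat_lit 624) (nat_lit 546) (nat_lit 390))))) (XT.nd (nat_lit 234) (nat_lit 912) (nat_lit 0) (XT.nd (nat_lit 78) (nat_lit 380) (nat_lit 0) (XT.lf (nat_lit 0) (nat_lit 801890496) (nat_lit 532) (nat_lit 15533410525) (nat_lit 76) (nat_lit 428703407) (nat_lit 174) (nat_lit 5) (nat_lit 181) (nat_lit 5) (nat_lit 175) (nat_lit 5) (nat_lit 625) (nat_lit 546) (nat_lit 389)) (XT.nd (nat_lit 78) (nat_lit 380) (nat_lit 0) (XT.lf (nat_lit 0) (nat_lit 4619368594) (nat_lit 532) (nat_lit 5543110032) (nat_lit 76) (nat_lit 6802665987) (nat_lit 174) (nat_lit 5) (nat_lit 181) (nat_lit 5) (nat_lit 175) (nat_lit 5) (nat_lit 626) (nat_lit 546) (nat_lit 388)) (XT.lf (nat_lit 0) (nat_lit 4692426867) (nat_lit 380)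 (nat_lit 3840307751) (nat_lit 456) (nat_lit 8637183227) (nat_lit 169) (nat_lit 5) (nat_lit 174) (nat_lit 5) (nat_lit 175) (nat_lit 5) (nat_lit 627) (nat_lit 546) (nat_lit 387)))) (XT.nd (nat_lit 156) (nat_lit 456) (nat_lit 0) (XT.nd (nat_lit 78) (nat_lit 456) (nat_lit 0) (XT.lf (nat_lit 0) (nat_lit 12567895033) (nat_lit 456) (nat_lit 2203600261) (nat_lit 76) (nat_lit 2606421699) (nat_lit 169) (nat_lit 5) (nat_lit 175) (nat_lit 5) (nat_lit 170) (nat_lit 5) (nat_lit 628) (nat_lit 546) (nat_lit 386)) (XT.lf (nat_lit 0) (nat_lit 8343895609) (nat_lit 456) (nat_lit 8408831112) (nat_lit 532) (nat_lit 835971015) (nat_lit 163) (nat_lit 5) (nat_lit 169) (nat_lit 5) (nat_lit 170) (nat_lit 5) (nat_lit 629) (nat_lit 546) (nat_lit 385))) (XT.nd (nat_lit 78) (nat_lit 0) (nat_lit 0) (XT.lf (nat_lit 0) (nat_lit 1309084569) (nat_lit 380) (nat_lit 1879059176) (nat_lit 456) (nat_lit 14614877838) (nat_lit 157) (nat_lit 5) (nat_lit 162) (nat_lit 5) (nat_lit 163) (nat_lit 5) (nat_lit 630) (nat_lit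 546) (nat_lit 384)) (XT.lf (nat_lit 0) (nat_lit 7364517196) (nat_lit 456) (nat_lit 5873997954) (nat_lit 76) (nat_lit 4781347756) (nat_lit 157) (nat_lit 5) (nat_lit 163) (nat_lit 5) (nat_lit 158) (nat_lit 5) (nat_lit 631) (nat_lit 546) (nat_lit 383))))))))
noncomputable def xc146 : XT := (XT.nd (nat_lit 74646) (nat_lit 0) (nat_lit 31388) (XT.nd (nat_lit 936) (nat_lit 2508) (nat_lit 0) (XT.nd (nat_lit 468) (nat_lit 1140) (nat_lit 0) (XT.nd (nat_lit 234) (nat_lit 684) (nat_lit 0) (XT.nd (nat_lit 78) (nat_lit 456) (nat_lit 0) (XT.lf (nat_lit 0) (nat_lit 4995748255) (nat_lit 380) (nat_lit 6663224011) (nat_lit 456) (nat_lit 6581378605) (nat_lit 152) (nat_lit 5) (nat_lit 157) (nat_lit 5) (nat_lit 158) (nat_lit 5) (nat_lit 632) (nat_lit 546) (nat_lit 382)) (XT.nd (nat_lit 78) (nat_lit 456) (nat_lit 0) (XT.lf (nat_lit 0) (nat_lit 16069019080) (nat_lit 456) (nat_lit 2318226500) (nat_lit 76) (nat_lit 77409844) (nat_lit 152) (nat_lit 5) (nat_lit 158) (nat_lit 5) (nat_lit 153) (nat_lit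 5) (nat_lit 633) (nat_lit 546) (nat_lit 381)) (XT.lf (nat_lit 0) (nat_lit 1941599997) (nat_lit 456) (nat_lit 9820752127) (nat_lit 76) (nat_lit 6929004373) (nat_lit 146) (nat_lit 5) (nat_lit 152) (nat_lit 5) (nat_lit 147) (nat_lit 5) (nat_lit 634) (nat_lit 546) (nat_lit 380)))) (XT.nd (nat_lit 78) (nat_lit 304) (nat_lit 0) (XT.lf (nat_lit 0) (nat_lit 1379014081) (nat_lit 380) (nat_lit 4969105561) (nat_lit 456) (nat_lit 12573863755) (nat_lit 141) (nat_lit 5) (nat_lit 146) (nat_lit 5) (nat_lit 147) (nat_lit 5) (nat_lit 635) (nat_lit 546) (nat_lit 379)) (XT.nd (nat_lit 78) (nat_lit 304) (nat_lit 0) (XT.lf (nat_lit 0) (nat_lit 10911868991) (nat_lit 456) (nat_lit 6248690196) (nat_lit 76) (nat_lit 1995282474) (nat_lit 141) (nat_lit 5) (nat_lit 147) (nat_lit 5) (nat_lit 142) (nat_lit 5) (nat_lit 636) (nat_lit 546) (nat_lit 378)) (XT.lf (nat_lit 0) (nat_lit 5292764626) (nat_lit 304) (nat_lit 10331631016) (nat_lit 380) (nat_lit 3768832200) (nat_lit 137) (nat_lit 5) (nat_lit 141)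 (nat_lit 5) (nat_lit 142) (nat_lit 5) (nat_lit 637) (nat_lit 546) (nat_lit 377))))) (XT.nd (nat_lit 234) (nat_lit 380) (nat_lit 0) (XT.nd (nat_lit 78) (nat_lit 684) (nat_lit 0) (XT.lf (nat_lit 0) (nat_lit 817842321) (nat_lit 380) (nat_lit 2505464115) (nat_lit 76) (nat_lit 16311303369) (nat_lit 136) (nat_lit 5) (nat_lit 141) (nat_lit 5) (nat_lit 137) (nat_lit 5) (nat_lit 638) (nat_lit 546) (nat_lit 376)) (XT.nd (nat_lit 78) (nat_lit 304) (nat_lit 0) (XT.lf (nat_lit 0) (nat_lit 5522715545) (nat_lit 456) (nat_lit 10499787163) (nat_lit 76) (nat_lit 3856280614) (nat_lit 131) (nat_lit 5) (nat_lit 137) (nat_lit 5) (nat_lit 132) (nat_lit 5) (nat_lit 639) (nat_lit 546) (nat_lit 375)) (XT.lf (nat_lit 0) (nat_lit 1388691589) (nat_lit 304) (nat_lit 8971449529) (nat_lit 380) (nat_lit 9766930831) (nat_lit 127) (nat_lit 5) (nat_lit 131) (nat_lit 5) (nat_lit 132) (nat_lit 5) (nat_lit 640) (nat_lit 546) (nat_lit 374)))) (XT.nd (nat_lit 78) (nat_lit 380) (nat_lit 0) (XT.lf (nat_lit 0)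 (nat_lit 13642360842) (nat_lit 304) (nat_lit 1713008439) (nat_lit 380) (nat_lit 5023736709) (nat_lit 127) (nat_lit 5) (nat_lit 131) (nat_lit 5) (nat_lit 132) (nat_lit 5) (nat_lit 641) (nat_lit 546) (nat_lit 373)) (XT.nd (nat_lit 78) (nat_lit 76) (nat_lit 0) (XT.lf (nat_lit 0) (nat_lit 5525681647) (nat_lit 304) (nat_lit 14988388283) (nat_lit 380) (nat_lit 120840130) (nat_lit 123) (nat_lit 5) (nat_lit 127) (nat_lit 5) (nat_lit 128) (nat_lit 5) (nat_lit 642) (nat_lit 546) (nat_lit 372)) (XT.lf (nat_lit 0) (nat_lit 4863730937) (nat_lit 380) (nat_lit 2828369980) (nat_lit 76) (nat_lit 13202143875) (nat_lit 122) (nat_lit 5) (nat_lit 127) (nat_lit 5) (nat_lit 123) (nat_lit 5) (nat_lit 643) (nat_lit 546) (nat_lit 371)))))) (XT.nd (nat_lit 468) (nat_lit 1216) (nat_lit 0) (XT.nd (nat_lit 234) (nat_lit 684) (nat_lit 0) (XT.nd (nat_lit 78) (nat_lit 304) (nat_lit 0) (XT.lf (nat_lit 0) (nat_lit 9811484255) (nat_lit 304) (nat_lit 189545511) (nat_lit 380) (nat_lit 11156628056) (nat_lit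 118) (nat_lit 5) (nat_lit 122) (nat_lit 5) (nat_lit 123) (nat_lit 5) (nat_lit 644) (nat_lit 546) (nat_lit 370)) (XT.nd (nat_lit 78) (nat_lit 0) (nat_lit 0) (XT.lf (nat_lit 0) (nat_lit 1270041605) (nat_lit 304) (nat_lit 14037838426) (nat_lit 380) (nat_lit 6117123628) (nat_lit 114) (nat_lit 5) (nat_lit 118) (nat_lit 5) (nat_lit 119) (nat_lit 5) (nat_lit 645) (nat_lit 546) (nat_lit 369)) (XT.lf (nat_lit 0) (nat_lit 14276655484) (nat_lit 304) (nat_lit 6512679091) (nat_lit 380) (nat_lit 906993133) (nat_lit 114) (nat_lit 5) (nat_lit 118) (nat_lit 5) (nat_lit 119) (nat_lit 5) (nat_lit 646) (nat_lit 546) (nat_lit 368)))) (XT.nd (nat_lit 78) (nat_lit 304) (nat_lit 0) (XT.lf (nat_lit 0) (nat_lit 4385044904) (nat_lit 380) (nat_lit 16379024545) (nat_lit 76) (nat_lit 1207726939) (nat_lit 109) (nat_lit 5) (nat_lit 114) (nat_lit 5) (nat_lit 110) (nat_lit 5) (nat_lit 647) (nat_lit 546) (nat_lit 367)) (XT.nd (nat_lit 78) (nat_lit 304) (nat_lit 0) (XT.lf (nat_lit 0) (nat_lit 9855283101)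 (nat_lit 380) (nat_lit 3349538582) (nat_lit 76) (nat_lit 9046143378) (nat_lit 109) (nat_lit 5) (nat_lit 114) (nat_lit 5) (nat_lit 110) (nat_lit 5) (nat_lit 648) (nat_lit 546) (nat_lit 366)) (XT.lf (nat_lit 0) (nat_lit 10058402200) (nat_lit 304) (nat_lit 5433244108) (nat_lit 380) (nat_lit 7042936986) (nat_lit 105) (nat_lit 5) (nat_lit 109) (nat_lit 5) (nat_lit 110) (nat_lit 5) (nat_lit 649) (nat_lit 546) (nat_lit 365))))) (XT.nd (nat_lit 234) (nat_lit 608) (nat_lit 0) (XT.nd (nat_lit 78) (nat_lit 380) (nat_lit 0) (XT.lf (nat_lit 0) (nat_lit 938352415) (nat_lit 228) (nat_lit 20338750705) (nat_lit 304) (nat_lit 1546044027) (nat_lit 102) (nat_lit 5) (nat_lit 105) (nat_lit 5) (nat_lit 106) (nat_lit 5) (nat_lit 650) (nat_lit 546) (nat_lit 364)) (XT.nd (nat_lit 78) (nat_lit 304) (nat_lit 0) (XT.lf (nat_lit 0) (nat_lit 4119263482) (nat_lit 304) (nat_lit 8402531482) (nat_lit 76) (nat_lit 10592925872) (nat_lit 101) (nat_lit 5) (nat_lit 105) (nat_lit 5) (nat_lit 102) (nat_lit 5)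 (nat_lit 651) (nat_lit 546) (nat_lit 363)) (XT.lf (nat_lit 0) (nat_lit 5396068908) (nat_lit 304) (nat_lit 4507804739) (nat_lit 380) (nat_lit 13507514552) (nat_lit 97) (nat_lit 5) (nat_lit 101) (nat_lit 5) (nat_lit 102) (nat_lit 5) (nat_lit 652) (nat_lit 546) (nat_lit 362)))) (XT.nd (nat_lit 156) (nat_lit 380) (nat_lit 0) (XT.nd (nat_lit 78) (nat_lit 228) (nat_lit 0) (XT.lf (nat_lit 0) (nat_lit 15876422870) (nat_lit 380) (nat_lit 4166379365) (nat_lit 76) (nat_lit 3669742273) (nat_lit 97) (nat_lit 5) (nat_lit 102) (nat_lit 5) (nat_lit 98) (nat_lit 5) (nat_lit 653) (nat_lit 546) (nat_lit 361)) (XT.lf (nat_lit 0) (nat_lit 10047858507) (nat_lit 228) (nat_lit 12007500932) (nat_lit 304) (nat_lit 1962626303) (nat_lit 94) (nat_lit 5) (nat_lit 97) (nat_lit 5) (nat_lit 98) (nat_lit 5) (nat_lit 654) (nat_lit 546) (nat_lit 360))) (XT.nd (nat_lit 72774) (nat_lit 0) (nat_lit 38304) (XT.lf (nat_lit 0) (nat_lit 237023255) (nat_lit 304) (nat_lit 3760030032) (nat_lit 380) (nat_lit 20331528992)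 (nat_lit 89) (nat_lit 5) (nat_lit 93) (nat_lit 5) (nat_lit 94) (nat_lit 5) (nat_lit 655) (nat_lit 546) (nat_lit 359)) (XT.lf (nat_lit 0) (nat_lit 1804491672) (nat_lit 0) (nat_lit 1804491672) (nat_lit 1292) (nat_lit 308027013) (nat_lit 593) (nat_lit 5) (nat_lit 593) (nat_lit 3) (nat_lit 610) (nat_lit 3) (nat_lit 547) (nat_lit 547) (nat_lit 466))))))) (XT.nd (nat_lit 936) (nat_lit 4180) (nat_lit 0) (XT.nd (nat_lit 468) (nat_lit 1292) (nat_lit 0) (XT.nd (nat_lit 234) (nat_lit 0) (nat_lit 76) (XT.nd (nat_lit 78) (nat_lit 0) (nat_lit 76) (XT.lf (nat_lit 0) (nat_lit 667077960) (nat_lit 1444) (nat_lit 373567158) (nat_lit 1444) (nat_lit 6845940174) (nat_lit 574) (nat_lit 3) (nat_lit 593) (nat_lit 3) (nat_lit 593) (nat_lit 5) (nat_lit 548) (nat_lit 547) (nat_lit 465)) (XT.nd (nat_lit 78) (nat_lit 0) (nat_lit 0) (XT.lf (nat_lit 0) (nat_lit 1967815054) (nat_lit 1368) (nat_lit 4370200598) (nat_lit 1444) (nat_lit 1602106371) (nat_lit 575) (nat_lit 5) (nat_lit 593) (nat_lit 5) (nat_lit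 594) (nat_lit 5) (nat_lit 549) (nat_lit 547) (nat_lit 464)) (XT.lf (nat_lit 0) (nat_lit 3271029872) (nat_lit 1368) (nat_lit 422043874) (nat_lit 1444) (nat_lit 4302132495) (nat_lit 575) (nat_lit 5) (nat_lit 593) (nat_lit 5) (nat_lit 594) (nat_lit 5) (nat_lit 550) (nat_lit 547) (nat_lit 463)))) (XT.nd (nat_lit 78) (nat_lit 0) (nat_lit 76) (XT.lf (nat_lit 76) (nat_lit 3635302835) (nat_lit 0) (nat_lit 956302926) (nat_lit 1444) (nat_lit 3459966340) (nat_lit 576) (nat_lit 5) (nat_lit 575) (nat_lit 5) (nat_lit 594) (nat_lit 5) (nat_lit 551) (nat_lit 547) (nat_lit 462)) (XT.nd (nat_lit 78) (nat_lit 0) (nat_lit 0) (XT.lf (nat_lit 0) (nat_lit 5921668107) (nat_lit 1368) (nat_lit 359496640) (nat_lit 1444) (nat_lit 1828244813) (nat_lit 576) (nat_lit 5) (nat_lit 594) (nat_lit 5) (nat_lit 595) (nat_lit 5) (nat_lit 552) (nat_lit 547) (nat_lit 461)) (XT.lf (nat_lit 76) (nat_lit 3804254846) (nat_lit 0) (nat_lit 3474039814) (nat_lit 1444) (nat_lit 890115512) (nat_lit 577) (nat_lit 5) (nat_lit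 576) (nat_lit 5) (nat_lit 595) (nat_lit 5) (nat_lit 553) (nat_lit 547) (nat_lit 460))))) (XT.nd (nat_lit 234) (nat_lit 0) (nat_lit 152) (XT.nd (nat_lit 78) (nat_lit 0) (nat_lit 76) (XT.lf (nat_lit 0) (nat_lit 399423452) (nat_lit 1444) (nat_lit 193233341) (nat_lit 1520) (nat_lit 7636450254) (nat_lit 557) (nat_lit 5) (nat_lit 576) (nat_lit 5) (nat_lit 577) (nat_lit 5) (nat_lit 554) (nat_lit 547) (nat_lit 459)) (XT.nd (nat_lit 78) (nat_lit 0) (nat_lit 0) (XT.lf (nat_lit 0) (nat_lit 1714759482) (nat_lit 1444) (nat_lit 4215300431) (nat_lit 1520) (nat_lit 2360607113) (nat_lit 558) (nat_lit 5) (nat_lit 577) (nat_lit 5) (nat_lit 578) (nat_lit 5) (nat_lit 555) (nat_lit 547) (nat_lit 458)) (XT.lf (nat_lit 76) (nat_lit 57117547) (nat_lit 0) (nat_lit 2975263101) (nat_lit 1520) (nat_lit 5321563221) (nat_lit 559) (nat_lit 5) (nat_lit 558) (nat_lit 5) (nat_lit 578) (nat_lit 5) (nat_lit 556) (nat_lit 547) (nat_lit 457)))) (XT.nd (nat_lit 78) (nat_lit 0) (nat_lit 0) (XT.lf (nat_lit 0)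 (nat_lit 4375991745) (nat_lit 1444) (nat_lit 3964999146) (nat_lit 1520) (nat_lit 77507740) (nat_lit 559) (nat_lit 5) (nat_lit 578) (nat_lit 5) (nat_lit 579) (nat_lit 5) (nat_lit 557) (nat_lit 547) (nat_lit 456)) (XT.nd (nat_lit 78) (nat_lit 0) (nat_lit 0) (XT.lf (nat_lit 76) (nat_lit 420884857) (nat_lit 0) (nat_lit 5319509423) (nat_lit 1520) (nat_lit 2744076854) (nat_lit 560) (nat_lit 5) (nat_lit 559) (nat_lit 5) (nat_lit 579) (nat_lit 5) (nat_lit 558) (nat_lit 547) (nat_lit 455)) (XT.lf (nat_lit 76) (nat_lit 4929958208) (nat_lit 0) (nat_lit 2200657222) (nat_lit 1520) (nat_lit 1421181979) (nat_lit 560) (nat_lit 5) (nat_lit 559) (nat_lit 5) (nat_lit 579) (nat_lit 5) (nat_lit 559) (nat_lit 547) (nat_lit 454)))))) (XT.nd (nat_lit 468) (nat_lit 2888) (nat_lit 0) (XT.nd (nat_lit 234) (nat_lit 0) (nat_lit 76) (XT.nd (nat_lit 78) (nat_lit 1520) (nat_lit 0) (XT.lf (nat_lit 76) (nat_lit 895587728) (nat_lit 0) (nat_lit 7637770795) (nat_lit 1520) (nat_lit 87422171) (nat_lit 561)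 (nat_lit 5) (nat_lit 560) (nat_lit 5) (nat_lit 580) (nat_lit 5) (nat_lit 560) (nat_lit 547) (nat_lit 453)) (XT.nd (nat_lit 78) (nat_lit 0) (nat_lit 0) (XT.lf (nat_lit 0) (nat_lit 1268127756) (nat_lit 1520) (nat_lit 3179978386) (nat_lit 1596) (nat_lit 4242640630) (nat_lit 540) (nat_lit 5) (nat_lit 560) (nat_lit 5) (nat_lit 561) (nat_lit 5) (nat_lit 561) (nat_lit 547) (nat_lit 452)) (XT.lf (nat_lit 76) (nat_lit 1456249799) (nat_lit 0) (nat_lit 1176129650) (nat_lit 1596) (nat_lit 6130070495) (nat_lit 541) (nat_lit 5) (nat_lit 540) (nat_lit 5) (nat_lit 561) (nat_lit 5) (nat_lit 562) (nat_lit 547) (nat_lit 451)))) (XT.nd (nat_lit 78) (nat_lit 0) (nat_lit 0) (XT.lf (nat_lit 0) (nat_lit 4033191268) (nat_lit 1520) (nat_lit 2639898022) (nat_lit 1596) (nat_lit 2162316855) (nat_lit 541) (nat_lit 5) (nat_lit 561) (nat_lit 5) (nat_lit 562) (nat_lit 5) (nat_lit 563) (nat_lit 547) (nat_lit 450)) (XT.nd (nat_lit 78) (nat_lit 0) (nat_lit 76) (XT.lf (nat_lit 76) (nat_lit 2121260153) (nat_lit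 0) (nat_lit 3336597145) (nat_lit 1596) (nat_lit 3452051791) (nat_lit 542) (nat_lit 5) (nat_lit 541) (nat_lit 5) (nat_lit 562) (nat_lit 5) (nat_lit 564) (nat_lit 547) (nat_lit 449)) (XT.lf (nat_lit 0) (nat_lit 6903988283) (nat_lit 1520) (nat_lit 1991607962) (nat_lit 1596) (nat_lit 90450709) (nat_lit 542) (nat_lit 5) (nat_lit 562) (nat_lit 5) (nat_lit 563) (nat_lit 5) (nat_lit 565) (nat_lit 547) (nat_lit 448))))) (XT.nd (nat_lit 234) (nat_lit 1444) (nat_lit 0) (XT.nd (nat_lit 78) (nat_lit 1596) (nat_lit 0) (XT.lf (nat_lit 76) (nat_lit 2898729539) (nat_lit 0) (nat_lit 5496432078) (nat_lit 1596) (nat_lit 668227773) (nat_lit 543) (nat_lit 5) (nat_lit 542) (nat_lit 5) (nat_lit 563) (nat_lit 5) (nat_lit 566) (nat_lit 547) (nat_lit 447)) (XT.nd (nat_lit 78) (nat_lit 0) (nat_lit 76) (XT.lf (nat_lit 0) (nat_lit 752586616) (nat_lit 1596) (nat_lit 1252027639) (nat_lit 1672) (nat_lit 7137790847) (nat_lit 521) (nat_lit 5) (nat_lit 542) (nat_lit 5) (nat_lit 543) (nat_lit 5) (nat_lit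 567) (nat_lit 547) (nat_lit 446)) (XT.lf (nat_lit 0) (nat_lit 2203681180) (nat_lit 1596) (nat_lit 5447569746) (nat_lit 1672) (nat_lit 1571449599) (nat_lit 522) (nat_lit 5) (nat_lit 543) (nat_lit 5) (nat_lit 544) (nat_lit 5) (nat_lit 568) (nat_lit 547) (nat_lit 445)))) (XT.nd (nat_lit 156) (nat_lit 1520) (nat_lit 0) (XT.nd (nat_lit 78) (nat_lit 0) (nat_lit 0) (XT.lf (nat_lit 0) (nat_lit 3681805793) (nat_lit 1596) (nat_lit 416760338) (nat_lit 1672) (nat_lit 5206079452) (nat_lit 522) (nat_lit 5) (nat_lit 543) (nat_lit 5) (nat_lit 544) (nat_lit 5) (nat_lit 569) (nat_lit 547) (nat_lit 444)) (XT.lf (nat_lit 76) (nat_lit 4758645140) (nat_lit 0) (nat_lit 438484391) (nat_lit 1672) (nat_lit 4190951090) (nat_lit 523) (nat_lit 5) (nat_lit 522) (nat_lit 5) (nat_lit 544) (nat_lit 5) (nat_lit 570) (nat_lit 547) (nat_lit 443))) (XT.nd (nat_lit 78) (nat_lit 0) (nat_lit 0) (XT.lf (nat_lit 0) (nat_lit 536909228) (nat_lit 1596) (nat_lit 6210651209) (nat_lit 1672) (nat_lit 2725531647) (nat_lit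 502) (nat_lit 5) (nat_lit 523) (nat_lit 5) (nat_lit 524) (nat_lit 5) (nat_lit 571) (nat_lit 547) (nat_lit 442)) (XT.lf (nat_lit 0) (nat_lit 5847713794) (nat_lit 1596) (nat_lit 2492671985) (nat_lit 1672) (nat_lit 1219193945) (nat_lit 502) (nat_lit 5) (nat_lit 523) (nat_lit 5) (nat_lit 524) (nat_lit 5) (nat_lit 572) (nat_lit 547) (nat_lit 441))))))))
noncomputable def xc147 : XT := (XT.nd (nat_lit 1950) (nat_lit 8968) (nat_lit 0) (XT.nd (nat_lit 936) (nat_lit 5624) (nat_lit 0) (XT.nd (nat_lit 468) (nat_lit 3724) (nat_lit 0) (XT.nd (nat_lit 234) (nat_lit 1672) (nat_lit 0) (XT.nd (nat_lit 78) (nat_lit 1748) (nat_lit 0) (XT.lf (nat_lit 0) (nat_lit 309883964) (nat_lit 1748) (nat_lit 8039060253) (nat_lit 76) (nat_lit 1298879735) (nat_lit 479) (nat_lit 5) (nat_lit 502) (nat_lit 5) (nat_lit 480) (nat_lit 5) (nat_lit 573) (nat_lit 547) (nat_lit 440)) (XT.nd (nat_lit 78) (nat_lit 1748) (nat_lit 0) (XT.lf (nat_lit 0) (nat_lit 1872881666) (nat_lit 1748) (nat_lit 2694914214) (nat_lit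 76) (nat_lit 5169486194) (nat_lit 479) (nat_lit 5) (nat_lit 502) (nat_lit 5) (nat_lit 480) (nat_lit 5) (nat_lit 574) (nat_lit 547) (nat_lit 439)) (XT.lf (nat_lit 0) (nat_lit 2773913039) (nat_lit 1748) (nat_lit 689733117) (nat_lit 1824) (nat_lit 6364956451) (nat_lit 456) (nat_lit 5) (nat_lit 479) (nat_lit 5) (nat_lit 480) (nat_lit 5) (nat_lit 575) (nat_lit 547) (nat_lit 438)))) (XT.nd (nat_lit 78) (nat_lit 1672) (nat_lit 0) (XT.lf (nat_lit 0) (nat_lit 5104450655) (nat_lit 1824) (nat_lit 1572969820) (nat_lit 76) (nat_lit 3243967900) (nat_lit 456) (nat_lit 5) (nat_lit 480) (nat_lit 5) (nat_lit 457) (nat_lit 5) (nat_lit 576) (nat_lit 547) (nat_lit 437)) (XT.nd (nat_lit 78) (nat_lit 0) (nat_lit 0) (XT.lf (nat_lit 0) (nat_lit 4048377466) (nat_lit 1672) (nat_lit 2739777996) (nat_lit 1748) (nat_lit 3227675968) (nat_lit 434) (nat_lit 5) (nat_lit 456) (nat_lit 5) (nat_lit 457) (nat_lit 5) (nat_lit 577) (nat_lit 547) (nat_lit 436)) (XT.lf (nat_lit 0) (nat_lit 8503981174) (nat_lit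 1748) (nat_lit 335675649) (nat_lit 76) (nat_lit 1272540776) (nat_lit 434) (nat_lit 5) (nat_lit 457) (nat_lit 5) (nat_lit 435) (nat_lit 5) (nat_lit 578) (nat_lit 547) (nat_lit 435))))) (XT.nd (nat_lit 234) (nat_lit 1748) (nat_lit 0) (XT.nd (nat_lit 78) (nat_lit 912) (nat_lit 0) (XT.lf (nat_lit 0) (nat_lit 76699580) (nat_lit 1064) (nat_lit 4766812874) (nat_lit 76) (nat_lit 5366303247) (nat_lit 420) (nat_lit 5) (nat_lit 434) (nat_lit 5) (nat_lit 421) (nat_lit 5) (nat_lit 579) (nat_lit 547) (nat_lit 434)) (XT.nd (nat_lit 78) (nat_lit 0) (nat_lit 0) (XT.lf (nat_lit 0) (nat_lit 1016514850) (nat_lit 912) (nat_lit 746226880) (nat_lit 988) (nat_lit 8546655598) (nat_lit 408) (nat_lit 5) (nat_lit 420) (nat_lit 5) (nat_lit 421) (nat_lit 5) (nat_lit 580) (nat_lit 547) (nat_lit 433)) (XT.lf (nat_lit 0) (nat_lit 3517346252) (nat_lit 988) (nat_lit 3471604099) (nat_lit 76) (nat_lit 3421326353) (nat_lit 408) (nat_lit 5) (nat_lit 421) (nat_lit 5) (nat_lit 409) (nat_lit 5) (nat_lit 581)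 (nat_lit 547) (nat_lit 432)))) (XT.nd (nat_lit 78) (nat_lit 836) (nat_lit 0) (XT.lf (nat_lit 0) (nat_lit 2475093142) (nat_lit 912) (nat_lit 2833699335) (nat_lit 988) (nat_lit 5204349090) (nat_lit 396) (nat_lit 5) (nat_lit 408) (nat_lit 5) (nat_lit 409) (nat_lit 5) (nat_lit 582) (nat_lit 547) (nat_lit 431)) (XT.nd (nat_lit 78) (nat_lit 836) (nat_lit 0) (XT.lf (nat_lit 0) (nat_lit 7149638020) (nat_lit 988) (nat_lit 2057880229) (nat_lit 76) (nat_lit 1410276901) (nat_lit 396) (nat_lit 5) (nat_lit 409) (nat_lit 5) (nat_lit 397) (nat_lit 5) (nat_lit 583) (nat_lit 547) (nat_lit 430)) (XT.lf (nat_lit 0) (nat_lit 4057922928) (nat_lit 836) (nat_lit 4995862904) (nat_lit 912) (nat_lit 1670229043) (nat_lit 385) (nat_lit 5) (nat_lit 396) (nat_lit 5) (nat_lit 397) (nat_lit 5) (nat_lit 584) (nat_lit 547) (nat_lit 429)))))) (XT.nd (nat_lit 468) (nat_lit 3116) (nat_lit 0) (XT.nd (nat_lit 234) (nat_lit 836) (nat_lit 0) (XT.nd (nat_lit 78) (nat_lit 1596) (nat_lit 0) (XT.lf (nat_lit 0) (nat_lit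 156906536) (nat_lit 912) (nat_lit 527849545) (nat_lit 76) (nat_lit 10147676425) (nat_lit 384) (nat_lit 5) (nat_lit 396) (nat_lit 5) (nat_lit 385) (nat_lit 5) (nat_lit 585) (nat_lit 547) (nat_lit 428)) (XT.nd (nat_lit 78) (nat_lit 760) (nat_lit 0) (XT.lf (nat_lit 0) (nat_lit 2042050334) (nat_lit 912) (nat_lit 5187125888) (nat_lit 76) (nat_lit 3712747483) (nat_lit 373) (nat_lit 5) (nat_lit 385) (nat_lit 5) (nat_lit 374) (nat_lit 5) (nat_lit 586) (nat_lit 547) (nat_lit 427)) (XT.lf (nat_lit 0) (nat_lit 1108270081) (nat_lit 760) (nat_lit 2854017623) (nat_lit 836) (nat_lit 7091371776) (nat_lit 363) (nat_lit 5) (nat_lit 373) (nat_lit 5) (nat_lit 374) (nat_lit 5) (nat_lit 587) (nat_lit 547) (nat_lit 426)))) (XT.nd (nat_lit 78) (nat_lit 836) (nat_lit 0) (XT.lf (nat_lit 0) (nat_lit 5948735863) (nat_lit 836) (nat_lit 3596378725) (nat_lit 76) (nat_lit 1621961778) (nat_lit 363) (nat_lit 5) (nat_lit 374) (nat_lit 5) (nat_lit 364) (nat_lit 5) (nat_lit 588) (nat_lit 547) (nat_lit 425))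 (XT.nd (nat_lit 78) (nat_lit 0) (nat_lit 0) (XT.lf (nat_lit 0) (nat_lit 2880194629) (nat_lit 836) (nat_lit 5114988671) (nat_lit 912) (nat_lit 3287175347) (nat_lit 352) (nat_lit 5) (nat_lit 363) (nat_lit 5) (nat_lit 364) (nat_lit 5) (nat_lit 589) (nat_lit 547) (nat_lit 424)) (XT.lf (nat_lit 0) (nat_lit 9516878622) (nat_lit 836) (nat_lit 572705902) (nat_lit 912) (nat_lit 1310223973) (nat_lit 352) (nat_lit 5) (nat_lit 363) (nat_lit 5) (nat_lit 364) (nat_lit 5) (nat_lit 590) (nat_lit 547) (nat_lit 423))))) (XT.nd (nat_lit 234) (nat_lit 1520) (nat_lit 0) (XT.nd (nat_lit 78) (nat_lit 760) (nat_lit 0) (XT.lf (nat_lit 0) (nat_lit 737920365) (nat_lit 836) (nat_lit 6738715645) (nat_lit 76) (nat_lit 4042063611) (nat_lit 341) (nat_lit 5) (nat_lit 352) (nat_lit 5) (nat_lit 342) (nat_lit 5) (nat_lit 591) (nat_lit 547) (nat_lit 422)) (XT.nd (nat_lit 78) (nat_lit 760) (nat_lit 0) (XT.lf (nat_lit 0) (nat_lit 2809331892) (nat_lit 836) (nat_lit 68839602) (nat_lit 76) (nat_lit 8761629175)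 (nat_lit 341) (nat_lit 5) (nat_lit 352) (nat_lit 5) (nat_lit 342) (nat_lit 5) (nat_lit 592) (nat_lit 547) (nat_lit 421)) (XT.lf (nat_lit 0) (nat_lit 4962055451) (nat_lit 836) (nat_lit 4969017267) (nat_lit 76) (nat_lit 1831455579) (nat_lit 331) (nat_lit 5) (nat_lit 342) (nat_lit 5) (nat_lit 332) (nat_lit 5) (nat_lit 593) (nat_lit 547) (nat_lit 420)))) (XT.nd (nat_lit 156) (nat_lit 836) (nat_lit 0) (XT.nd (nat_lit 78) (nat_lit 0) (nat_lit 0) (XT.lf (nat_lit 0) (nat_lit 1894028224) (nat_lit 684) (nat_lit 5279469951) (nat_lit 760) (nat_lit 4713901198) (nat_lit 322) (nat_lit 5) (nat_lit 331) (nat_lit 5) (nat_lit 332) (nat_lit 5) (nat_lit 594) (nat_lit 547) (nat_lit 419)) (XT.lf (nat_lit 0) (nat_lit 8943720895) (nat_lit 684) (nat_lit 502835396) (nat_lit 760) (nat_lit 2567865996) (nat_lit 322) (nat_lit 5) (nat_lit 331) (nat_lit 5) (nat_lit 332) (nat_lit 5) (nat_lit 595) (nat_lit 547) (nat_lit 418))) (XT.nd (nat_lit 78) (nat_lit 76) (nat_lit 0) (XT.lf (nat_lit 0) (nat_lit 3996548695)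 (nat_lit 760) (nat_lit 7807185636) (nat_lit 836) (nat_lit 339480258) (nat_lit 312) (nat_lit 5) (nat_lit 322) (nat_lit 5) (nat_lit 323) (nat_lit 5) (nat_lit 596) (nat_lit 547) (nat_lit 417)) (XT.lf (nat_lit 0) (nat_lit 1916616756) (nat_lit 836) (nat_lit 1061433534) (nat_lit 76) (nat_lit 9296113374) (nat_lit 311) (nat_lit 5) (nat_lit 322) (nat_lit 5) (nat_lit 312) (nat_lit 5) (nat_lit 597) (nat_lit 547) (nat_lit 416))))))) (XT.nd (nat_lit 936) (nat_lit 4408) (nat_lit 0) (XT.nd (nat_lit 468) (nat_lit 1824) (nat_lit 0) (XT.nd (nat_lit 234) (nat_lit 1368) (nat_lit 0) (XT.nd (nat_lit 78) (nat_lit 684) (nat_lit 0) (XT.lf (nat_lit 0) (nat_lit 4251372755) (nat_lit 760) (nat_lit 6192828900) (nat_lit 76) (nat_lit 1962725516) (nat_lit 302) (nat_lit 5) (nat_lit 312) (nat_lit 5) (nat_lit 303) (nat_lit 5) (nat_lit 598) (nat_lit 547) (nat_lit 415)) (XT.nd (nat_lit 78) (nat_lit 0) (nat_lit 0) (XT.lf (nat_lit 0) (nat_lit 1083942754) (nat_lit 684) (nat_lit 5567714593) (nat_lit 760) (nat_lit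 5890313876) (nat_lit 293) (nat_lit 5) (nat_lit 302) (nat_lit 5) (nat_lit 303) (nat_lit 5) (nat_lit 599) (nat_lit 547) (nat_lit 414)) (XT.lf (nat_lit 0) (nat_lit 8572483342) (nat_lit 684) (nat_lit 554106102) (nat_lit 760) (nat_lit 3552595782) (nat_lit 293) (nat_lit 5) (nat_lit 302) (nat_lit 5) (nat_lit 303) (nat_lit 5) (nat_lit 600) (nat_lit 547) (nat_lit 413)))) (XT.nd (nat_lit 78) (nat_lit 760) (nat_lit 0) (XT.lf (nat_lit 0) (nat_lit 3388850374) (nat_lit 608) (nat_lit 8299136882) (nat_lit 684) (nat_lit 1130418781) (nat_lit 285) (nat_lit 5) (nat_lit 293) (nat_lit 5) (nat_lit 294) (nat_lit 5) (nat_lit 601) (nat_lit 547) (nat_lit 412)) (XT.nd (nat_lit 78) (nat_lit 684) (nat_lit 0) (XT.lf (nat_lit 0) (nat_lit 1339469979) (nat_lit 684) (nat_lit 1900153014) (nat_lit 76) (nat_lit 9720279133) (nat_lit 284) (nat_lit 5) (nat_lit 293) (nat_lit 5) (nat_lit 285) (nat_lit 5) (nat_lit 602) (nat_lit 547) (nat_lit 411)) (XT.lf (nat_lit 0) (nat_lit 3879969807) (nat_lit 760) (nat_lit 7284902585)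 (nat_lit 76) (nat_lit 1938481073) (nat_lit 275) (nat_lit 5) (nat_lit 285) (nat_lit 5) (nat_lit 276) (nat_lit 5) (nat_lit 603) (nat_lit 547) (nat_lit 410))))) (XT.nd (nat_lit 234) (nat_lit 608) (nat_lit 0) (XT.nd (nat_lit 78) (nat_lit 608) (nat_lit 0) (XT.lf (nat_lit 0) (nat_lit 434401244) (nat_lit 608) (nat_lit 6059856820) (nat_lit 684) (nat_lit 6754957925) (nat_lit 267) (nat_lit 5) (nat_lit 275) (nat_lit 5) (nat_lit 276) (nat_lit 5) (nat_lit 604) (nat_lit 547) (nat_lit 409)) (XT.nd (nat_lit 78) (nat_lit 608) (nat_lit 0) (XT.lf (nat_lit 0) (nat_lit 8389432978) (nat_lit 608) (nat_lit 806316802) (nat_lit 684) (nat_lit 4201549323) (nat_lit 267) (nat_lit 5) (nat_lit 275) (nat_lit 5) (nat_lit 276) (nat_lit 5) (nat_lit 605) (nat_lit 547) (nat_lit 408)) (XT.lf (nat_lit 0) (nat_lit 2946996058) (nat_lit 608) (nat_lit 9039249789) (nat_lit 684) (nat_lit 1561400201) (nat_lit 259) (nat_lit 5) (nat_lit 267) (nat_lit 5) (nat_lit 268) (nat_lit 5) (nat_lit 606) (nat_lit 547) (nat_lit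 407)))) (XT.nd (nat_lit 78) (nat_lit 532) (nat_lit 0) (XT.lf (nat_lit 0) (nat_lit 1142229194) (nat_lit 684) (nat_lit 2601786913) (nat_lit 76) (nat_lit 9956328129) (nat_lit 258) (nat_lit 5) (nat_lit 267) (nat_lit 5) (nat_lit 259) (nat_lit 5) (nat_lit 607) (nat_lit 547) (nat_lit 406)) (XT.nd (nat_lit 78) (nat_lit 0) (nat_lit 0) (XT.lf (nat_lit 0) (nat_lit 3913085326) (nat_lit 608) (nat_lit 8263323960) (nat_lit 76) (nat_lit 1678801022) (nat_lit 251) (nat_lit 5) (nat_lit 259) (nat_lit 5) (nat_lit 252) (nat_lit 5) (nat_lit 608) (nat_lit 547) (nat_lit 405)) (XT.lf (nat_lit 0) (nat_lit 6768474391) (nat_lit 608) (nat_lit 70211272) (nat_lit 76) (nat_lit 7173907255) (nat_lit 251) (nat_lit 5) (nat_lit 259) (nat_lit 5) (nat_lit 252) (nat_lit 5) (nat_lit 609) (nat_lit 547) (nat_lit 404)))))) (XT.nd (nat_lit 468) (nat_lit 2128) (nat_lit 0) (XT.nd (nat_lit 234) (nat_lit 1064) (nat_lit 0) (XT.nd (nat_lit 78) (nat_lit 608) (nat_lit 0) (XT.lf (nat_lit 0) (nat_lit 8379826098) (nat_lit 608)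 (nat_lit 1342558428) (nat_lit 684) (nat_lit 4449911892) (nat_lit 243) (nat_lit 5) (nat_lit 251) (nat_lit 5) (nat_lit 252) (nat_lit 5) (nat_lit 610) (nat_lit 547) (nat_lit 403)) (XT.nd (nat_lit 78) (nat_lit 76) (nat_lit 0) (XT.lf (nat_lit 0) (nat_lit 2654802123) (nat_lit 532) (nat_lit 10113090029) (nat_lit 608) (nat_lit 1566652924) (nat_lit 236) (nat_lit 5) (nat_lit 243) (nat_lit 5) (nat_lit 244) (nat_lit 5) (nat_lit 611) (nat_lit 547) (nat_lit 402)) (XT.lf (nat_lit 0) (nat_lit 1391450604) (nat_lit 608) (nat_lit 3184817106) (nat_lit 76) (nat_lit 9922889897) (nat_lit 235) (nat_lit 5) (nat_lit 243) (nat_lit 5) (nat_lit 236) (nat_lit 5) (nat_lit 612) (nat_lit 547) (nat_lit 401)))) (XT.nd (nat_lit 78) (nat_lit 532) (nat_lit 0) (XT.lf (nat_lit 0) (nat_lit 4418303423) (nat_lit 608) (nat_lit 9148215582) (nat_lit 76) (nat_lit 1099726365) (nat_lit 228) (nat_lit 5) (nat_lit 236) (nat_lit 5) (nat_lit 229) (nat_lit 5) (nat_lit 613) (nat_lit 547) (nat_lit 400)) (XT.nd (nat_lit 78)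 (nat_lit 532) (nat_lit 0) (XT.lf (nat_lit 0) (nat_lit 7545060219) (nat_lit 608) (nat_lit 445393136) (nat_lit 76) (nat_lit 6845435558) (nat_lit 228) (nat_lit 5) (nat_lit 236) (nat_lit 5) (nat_lit 229) (nat_lit 5) (nat_lit 614) (nat_lit 547) (nat_lit 399)) (XT.lf (nat_lit 0) (nat_lit 8526843913) (nat_lit 532) (nat_lit 2250661514) (nat_lit 608) (nat_lit 4230558167) (nat_lit 221) (nat_lit 5) (nat_lit 228) (nat_lit 5) (nat_lit 229) (nat_lit 5) (nat_lit 615) (nat_lit 547) (nat_lit 398))))) (XT.nd (nat_lit 234) (nat_lit 1064) (nat_lit 0) (XT.nd (nat_lit 78) (nat_lit 532) (nat_lit 0) (XT.lf (nat_lit 0) (nat_lit 2493647359) (nat_lit 532) (nat_lit 11611446929) (nat_lit 608) (nat_lit 1077978896) (nat_lit 214) (nat_lit 5) (nat_lit 221) (nat_lit 5) (nat_lit 222) (nat_lit 5) (nat_lit 616) (nat_lit 547) (nat_lit 397)) (XT.nd (nat_lit 78) (nat_lit 456) (nat_lit 0) (XT.lf (nat_lit 0) (nat_lit 2156248202) (nat_lit 608) (nat_lit 3670550764) (nat_lit 76) (nat_lit 9533575037) (nat_lit 213)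 (nat_lit 5) (nat_lit 221) (nat_lit 5) (nat_lit 214) (nat_lit 5) (nat_lit 617) (nat_lit 547) (nat_lit 396)) (XT.lf (nat_lit 0) (nat_lit 5465876283) (nat_lit 532) (nat_lit 9962907691) (nat_lit 76) (nat_lit 111792579) (nat_lit 207) (nat_lit 5) (nat_lit 214) (nat_lit 5) (nat_lit 208) (nat_lit 5) (nat_lit 618) (nat_lit 547) (nat_lit 395)))) (XT.nd (nat_lit 156) (nat_lit 532) (nat_lit 0) (XT.nd (nat_lit 78) (nat_lit 532) (nat_lit 0) (XT.lf (nat_lit 0) (nat_lit 8893359526) (nat_lit 532) (nat_lit 718437819) (nat_lit 76) (nat_lit 6111553764) (nat_lit 207) (nat_lit 5) (nat_lit 214) (nat_lit 5) (nat_lit 208) (nat_lit 5) (nat_lit 619) (nat_lit 547) (nat_lit 394)) (XT.lf (nat_lit 0) (nat_lit 8810388670) (nat_lit 532) (nat_lit 3624716532) (nat_lit 608) (nat_lit 3473762883) (nat_lit 200) (nat_lit 5) (nat_lit 207) (nat_lit 5) (nat_lit 208) (nat_lit 5) (nat_lit 620) (nat_lit 547) (nat_lit 393))) (XT.nd (nat_lit 78) (nat_lit 76) (nat_lit 0) (XT.lf (nat_lit 0) (nat_lit 2441225611) (nat_lit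 456) (nat_lit 13631880267) (nat_lit 532) (nat_lit 24482286) (nat_lit 194) (nat_lit 5) (nat_lit 200) (nat_lit 5) (nat_lit 201) (nat_lit 5) (nat_lit 621) (nat_lit 547) (nat_lit 392)) (XT.lf (nat_lit 0) (nat_lit 3508561931) (nat_lit 532) (nat_lit 4084408644) (nat_lit 76) (nat_lit 8695447513) (nat_lit 193) (nat_lit 5) (nat_lit 200) (nat_lit 5) (nat_lit 194) (nat_lit 5) (nat_lit 622) (nat_lit 547) (nat_lit 391))))))))
noncomputable def xc148 : XT := (XT.nd (nat_lit 1950) (nat_lit 1520) (nat_lit 0) (XT.nd (nat_lit 936) (nat_lit 2888) (nat_lit 0) (XT.nd (nat_lit 468) (nat_lit 1292) (nat_lit 0) (XT.nd (nat_lit 234) (nat_lit 912) (nat_lit 0) (XT.nd (nat_lit 78) (nat_lit 456) (nat_lit 0) (XT.lf (nat_lit 0) (nat_lit 5738176462) (nat_lit 456) (nat_lit 1399886630) (nat_lit 532) (nat_lit 9344476899) (nat_lit 187) (nat_lit 5) (nat_lit 193) (nat_lit 5) (nat_lit 194) (nat_lit 5) (nat_lit 623) (nat_lit 547) (nat_lit 390)) (XT.nd (nat_lit 78) (nat_lit 456) (nat_lit 0) (XT.lf (nat_lit 0)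 (nat_lit 10888621320) (nat_lit 532) (nat_lit 915512680) (nat_lit 76) (nat_lit 4875442066) (nat_lit 187) (nat_lit 5) (nat_lit 194) (nat_lit 5) (nat_lit 188) (nat_lit 5) (nat_lit 624) (nat_lit 547) (nat_lit 389)) (XT.lf (nat_lit 0) (nat_lit 9205703676) (nat_lit 456) (nat_lit 5566696154) (nat_lit 532) (nat_lit 2106989901) (nat_lit 181) (nat_lit 5) (nat_lit 187) (nat_lit 5) (nat_lit 188) (nat_lit 5) (nat_lit 625) (nat_lit 547) (nat_lit 388)))) (XT.nd (nat_lit 78) (nat_lit 380) (nat_lit 0) (XT.lf (nat_lit 0) (nat_lit 1645750058) (nat_lit 532) (nat_lit 14623583296) (nat_lit 76) (nat_lit 813318096) (nat_lit 174) (nat_lit 5) (nat_lit 181) (nat_lit 5) (nat_lit 175) (nat_lit 5) (nat_lit 626) (nat_lit 547) (nat_lit 387)) (XT.nd (nat_lit 78) (nat_lit 380) (nat_lit 0) (XT.lf (nat_lit 0) (nat_lit 5523345919) (nat_lit 532) (nat_lit 4457408077) (nat_lit 76) (nat_lit 7307386582) (nat_lit 174) (nat_lit 5) (nat_lit 181) (nat_lit 5) (nat_lit 175) (nat_lit 5) (nat_lit 627) (nat_lit 547) (nat_lit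 386)) (XT.lf (nat_lit 0) (nat_lit 5974967428) (nat_lit 380) (nat_lit 3531816084) (nat_lit 456) (nat_lit 7990391151) (nat_lit 169) (nat_lit 5) (nat_lit 174) (nat_lit 5) (nat_lit 175) (nat_lit 5) (nat_lit 628) (nat_lit 547) (nat_lit 385))))) (XT.nd (nat_lit 234) (nat_lit 380) (nat_lit 0) (XT.nd (nat_lit 78) (nat_lit 912) (nat_lit 0) (XT.lf (nat_lit 0) (nat_lit 13609346866) (nat_lit 456) (nat_lit 1068915450) (nat_lit 76) (nat_lit 3031338928) (nat_lit 169) (nat_lit 5) (nat_lit 175) (nat_lit 5) (nat_lit 170) (nat_lit 5) (nat_lit 629) (nat_lit 547) (nat_lit 384)) (XT.nd (nat_lit 78) (nat_lit 456) (nat_lit 0) (XT.lf (nat_lit 0) (nat_lit 9681775359) (nat_lit 456) (nat_lit 8188210712) (nat_lit 532) (nat_lit 54770729) (nat_lit 163) (nat_lit 5) (nat_lit 169) (nat_lit 5) (nat_lit 170) (nat_lit 5) (nat_lit 630) (nat_lit 547) (nat_lit 383)) (XT.lf (nat_lit 0) (nat_lit 2509029101) (nat_lit 380) (nat_lit 1522512920) (nat_lit 456) (nat_lit 14111879239) (nat_lit 157) (nat_lit 5) (nat_lit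 162) (nat_lit 5) (nat_lit 163) (nat_lit 5) (nat_lit 631) (nat_lit 547) (nat_lit 382)))) (XT.nd (nat_lit 78) (nat_lit 380) (nat_lit 0) (XT.lf (nat_lit 0) (nat_lit 8278664734) (nat_lit 456) (nat_lit 4827885111) (nat_lit 76) (nat_lit 5258306464) (nat_lit 157) (nat_lit 5) (nat_lit 163) (nat_lit 5) (nat_lit 158) (nat_lit 5) (nat_lit 632) (nat_lit 547) (nat_lit 381)) (XT.nd (nat_lit 78) (nat_lit 0) (nat_lit 0) (XT.lf (nat_lit 0) (nat_lit 6251600806) (nat_lit 380) (nat_lit 6399876798) (nat_lit 456) (nat_lit 5938428364) (nat_lit 152) (nat_lit 5) (nat_lit 157) (nat_lit 5) (nat_lit 158) (nat_lit 5) (nat_lit 633) (nat_lit 547) (nat_lit 380)) (XT.lf (nat_lit 0) (nat_lit 17137361186) (nat_lit 456) (nat_lit 1218890598) (nat_lit 76) (nat_lit 462693394) (nat_lit 152) (nat_lit 5) (nat_lit 158) (nat_lit 5) (nat_lit 153) (nat_lit 5) (nat_lit 634) (nat_lit 547) (nat_lit 379)))))) (XT.nd (nat_lit 468) (nat_lit 1292) (nat_lit 0) (XT.nd (nat_lit 234) (nat_lit 760) (nat_lit 0) (XT.nd (nat_lit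 78) (nat_lit 380) (nat_lit 0) (XT.lf (nat_lit 0) (nat_lit 2725097870) (nat_lit 456) (nat_lit 8869046392) (nat_lit 76) (nat_lit 7456084417) (nat_lit 146) (nat_lit 5) (nat_lit 152) (nat_lit 5) (nat_lit 147) (nat_lit 5) (nat_lit 635) (nat_lit 547) (nat_lit 378)) (XT.nd (nat_lit 78) (nat_lit 0) (nat_lit 0) (XT.lf (nat_lit 0) (nat_lit 2547161715) (nat_lit 380) (nat_lit 4665390221) (nat_lit 456) (nat_lit 12073061308) (nat_lit 141) (nat_lit 5) (nat_lit 146) (nat_lit 5) (nat_lit 147) (nat_lit 5) (nat_lit 636) (nat_lit 547) (nat_lit 377)) (XT.lf (nat_lit 0) (nat_lit 11855681937) (nat_lit 456) (nat_lit 5243507140) (nat_lit 76) (nat_lit 2425198668) (nat_lit 141) (nat_lit 5) (nat_lit 147) (nat_lit 5) (nat_lit 142) (nat_lit 5) (nat_lit 637) (nat_lit 547) (nat_lit 376)))) (XT.nd (nat_lit 78) (nat_lit 456) (nat_lit 0) (XT.lf (nat_lit 0) (nat_lit 6521341535) (nat_lit 304) (nat_lit 10134180067) (nat_lit 380) (nat_lit 3111139959) (nat_lit 137) (nat_lit 5) (nat_lit 141) (nat_lit 5) (nat_lit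 142) (nat_lit 5) (nat_lit 638) (nat_lit 547) (nat_lit 375)) (XT.nd (nat_lit 78) (nat_lit 380) (nat_lit 0) (XT.lf (nat_lit 0) (nat_lit 1543468338) (nat_lit 380) (nat_lit 1445384295) (nat_lit 76) (nat_lit 17024208164) (nat_lit 136) (nat_lit 5) (nat_lit 141) (nat_lit 5) (nat_lit 137) (nat_lit 5) (nat_lit 639) (nat_lit 547) (nat_lit 374)) (XT.lf (nat_lit 0) (nat_lit 6338291871) (nat_lit 456) (nat_lit 9595391921) (nat_lit 76) (nat_lit 4328518031) (nat_lit 131) (nat_lit 5) (nat_lit 137) (nat_lit 5) (nat_lit 132) (nat_lit 5) (nat_lit 640) (nat_lit 547) (nat_lit 373))))) (XT.nd (nat_lit 234) (nat_lit 608) (nat_lit 0) (XT.nd (nat_lit 78) (nat_lit 380) (nat_lit 0) (XT.lf (nat_lit 0) (nat_lit 2523524886) (nat_lit 304) (nat_lit 8742302911) (nat_lit 380) (nat_lit 9249762260) (nat_lit 127) (nat_lit 5) (nat_lit 131) (nat_lit 5) (nat_lit 132) (nat_lit 5) (nat_lit 641) (nat_lit 547) (nat_lit 372)) (XT.nd (nat_lit 78) (nat_lit 380) (nat_lit 0) (XT.lf (nat_lit 0) (nat_lit 15000560476) (nat_lit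 304) (nat_lit 1346704285) (nat_lit 380) (nat_lit 4425674984) (nat_lit 127) (nat_lit 5) (nat_lit 131) (nat_lit 5) (nat_lit 132) (nat_lit 5) (nat_lit 642) (nat_lit 547) (nat_lit 371)) (XT.lf (nat_lit 0) (nat_lit 563903299) (nat_lit 380) (nat_lit 14312165407) (nat_lit 76) (nat_lit 6157794128) (nat_lit 122) (nat_lit 5) (nat_lit 127) (nat_lit 5) (nat_lit 123) (nat_lit 5) (nat_lit 643) (nat_lit 547) (nat_lit 370)))) (XT.nd (nat_lit 156) (nat_lit 304) (nat_lit 0) (XT.nd (nat_lit 78) (nat_lit 304) (nat_lit 0) (XT.lf (nat_lit 0) (nat_lit 5633107218) (nat_lit 380) (nat_lit 1808028253) (nat_lit 76) (nat_lit 13857502616) (nat_lit 122) (nat_lit 5) (nat_lit 127) (nat_lit 5) (nat_lit 123) (nat_lit 5) (nat_lit 644) (nat_lit 547) (nat_lit 369)) (XT.lf (nat_lit 0) (nat_lit 10868287044) (nat_lit 380) (nat_lit 10491274337) (nat_lit 76) (nat_lit 207856269) (nat_lit 118) (nat_lit 5) (nat_lit 123) (nat_lit 5) (nat_lit 119) (nat_lit 5) (nat_lit 645) (nat_lit 547) (nat_lit 368))) (XT.nd (nat_lit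 78) (nat_lit 0) (nat_lit 0) (XT.lf (nat_lit 0) (nat_lit 2368900875) (nat_lit 304) (nat_lit 13907490626) (nat_lit 380) (nat_lit 5563817511) (nat_lit 114) (nat_lit 5) (nat_lit 118) (nat_lit 5) (nat_lit 119) (nat_lit 5) (nat_lit 646) (nat_lit 547) (nat_lit 367)) (XT.lf (nat_lit 0) (nat_lit 15614598827) (nat_lit 304) (nat_lit 6239888978) (nat_lit 380) (nat_lit 262732418) (nat_lit 114) (nat_lit 5) (nat_lit 118) (nat_lit 5) (nat_lit 119) (nat_lit 5) (nat_lit 647) (nat_lit 547) (nat_lit 366))))))) (XT.nd (nat_lit 73710) (nat_lit 0) (nat_lit 33820) (XT.nd (nat_lit 468) (nat_lit 228) (nat_lit 0) (XT.nd (nat_lit 234) (nat_lit 608) (nat_lit 0) (XT.nd (nat_lit 78) (nat_lit 304) (nat_lit 0) (XT.lf (nat_lit 0) (nat_lit 5123124062) (nat_lit 380) (nat_lit 15642081796) (nat_lit 76) (nat_lit 1632973998) (nat_lit 109) (nat_lit 5) (nat_lit 114) (nat_lit 5) (nat_lit 110) (nat_lit 5) (nat_lit 648) (nat_lit 547) (nat_lit 365)) (XT.nd (nat_lit 78) (nat_lit 304) (nat_lit 0) (XT.lf (nat_lit 0)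 (nat_lit 10690014507) (nat_lit 380) (nat_lit 2372879119) (nat_lit 76) (nat_lit 9620294206) (nat_lit 109) (nat_lit 5) (nat_lit 114) (nat_lit 5) (nat_lit 110) (nat_lit 5) (nat_lit 649) (nat_lit 547) (nat_lit 364)) (XT.lf (nat_lit 0) (nat_lit 11296354359) (nat_lit 304) (nat_lit 5136979644) (nat_lit 380) (nat_lit 6539260709) (nat_lit 105) (nat_lit 5) (nat_lit 109) (nat_lit 5) (nat_lit 110) (nat_lit 5) (nat_lit 650) (nat_lit 547) (nat_lit 363)))) (XT.nd (nat_lit 78) (nat_lit 380) (nat_lit 0) (XT.lf (nat_lit 0) (nat_lit 1997067681) (nat_lit 228) (nat_lit 20334372515) (nat_lit 304) (nat_lit 935551688) (nat_lit 102) (nat_lit 5) (nat_lit 105) (nat_lit 5) (nat_lit 106) (nat_lit 5) (nat_lit 651) (nat_lit 547) (nat_lit 362)) (XT.nd (nat_lit 78) (nat_lit 304) (nat_lit 0) (XT.lf (nat_lit 0) (nat_lit 4822237937) (nat_lit 304) (nat_lit 7542737069) (nat_lit 76) (nat_lit 11199587800) (nat_lit 101) (nat_lit 5) (nat_lit 105) (nat_lit 5) (nat_lit 102) (nat_lit 5) (nat_lit 652) (nat_lit 547)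 (nat_lit 361)) (XT.lf (nat_lit 0) (nat_lit 6525073190) (nat_lit 304) (nat_lit 4191928247) (nat_lit 380) (nat_lit 13150273653) (nat_lit 97) (nat_lit 5) (nat_lit 101) (nat_lit 5) (nat_lit 102) (nat_lit 5) (nat_lit 653) (nat_lit 547) (nat_lit 360))))) (XT.nd (nat_lit 73008) (nat_lit 0) (nat_lit 36480) (XT.nd (nat_lit 78) (nat_lit 228) (nat_lit 0) (XT.lf (nat_lit 0) (nat_lit 16799526376) (nat_lit 380) (nat_lit 3239130930) (nat_lit 76) (nat_lit 4135987507) (nat_lit 97) (nat_lit 5) (nat_lit 102) (nat_lit 5) (nat_lit 98) (nat_lit 5) (nat_lit 654) (nat_lit 547) (nat_lit 359)) (XT.nd (nat_lit 72852) (nat_lit 0) (nat_lit 36480) (XT.lf (nat_lit 0) (nat_lit 11252743173) (nat_lit 228) (nat_lit 11843942646) (nat_lit 304) (nat_lit 1389616936) (nat_lit 94) (nat_lit 5) (nat_lit 97) (nat_lit 5) (nat_lit 98) (nat_lit 5) (nat_lit 655) (nat_lit 547) (nat_lit 358)) (XT.lf (nat_lit 0) (nat_lit 962747185) (nat_lit 1444) (nat_lit 1503477814) (nat_lit 1444) (nat_lit 1503477814) (nat_lit 574) (nat_lit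 3) (nat_lit 593) (nat_lit 3) (nat_lit 593) (nat_lit 5) (nat_lit 548) (nat_lit 548) (nat_lit 464)))) (XT.nd (nat_lit 78) (nat_lit 0) (nat_lit 76) (XT.lf (nat_lit 76) (nat_lit 903857578) (nat_lit 0) (nat_lit 2278144332) (nat_lit 1444) (nat_lit 4811828016) (nat_lit 575) (nat_lit 5) (nat_lit 574) (nat_lit 3) (nat_lit 593) (nat_lit 5) (nat_lit 549) (nat_lit 548) (nat_lit 463)) (XT.nd (nat_lit 78) (nat_lit 0) (nat_lit 0) (XT.lf (nat_lit 0) (nat_lit 4454432424) (nat_lit 1368) (nat_lit 3135663410) (nat_lit 1444) (nat_lit 459436914) (nat_lit 575) (nat_lit 5) (nat_lit 593) (nat_lit 5) (nat_lit 594) (nat_lit 5) (nat_lit 550) (nat_lit 548) (nat_lit 462)) (XT.lf (nat_lit 76) (nat_lit 877038550) (nat_lit 0) (nat_lit 4864381792) (nat_lit 1444) (nat_lit 2365152886) (nat_lit 576) (nat_lit 5) (nat_lit 575) (nat_lit 5) (nat_lit 594) (nat_lit 5) (nat_lit 551) (nat_lit 548) (nat_lit 461)))))) (XT.nd (nat_lit 468) (nat_lit 1368) (nat_lit 0) (XT.nd (nat_lit 234) (nat_lit 0) (nat_lit 0) (XT.nd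 (nat_lit 78) (nat_lit 1368) (nat_lit 0) (XT.lf (nat_lit 76) (nat_lit 4995503224) (nat_lit 0) (nat_lit 2048524859) (nat_lit 1444) (nat_lit 1120934500) (nat_lit 576) (nat_lit 5) (nat_lit 575) (nat_lit 5) (nat_lit 594) (nat_lit 5) (nat_lit 552) (nat_lit 548) (nat_lit 460)) (XT.nd (nat_lit 78) (nat_lit 0) (nat_lit 0) (XT.lf (nat_lit 0) (nat_lit 127225615) (nat_lit 1444) (nat_lit 7264026393) (nat_lit 1520) (nat_lit 833633909) (nat_lit 557) (nat_lit 5) (nat_lit 576) (nat_lit 5) (nat_lit 577) (nat_lit 5) (nat_lit 553) (nat_lit 548) (nat_lit 459)) (XT.lf (nat_lit 0) (nat_lit 1390150282) (nat_lit 1444) (nat_lit 3107627038) (nat_lit 1520) (nat_lit 3787991336) (nat_lit 557) (nat_lit 5) (nat_lit 576) (nat_lit 5) (nat_lit 577) (nat_lit 5) (nat_lit 554) (nat_lit 548) (nat_lit 458)))) (XT.nd (nat_lit 78) (nat_lit 0) (nat_lit 76) (XT.lf (nat_lit 76) (nat_lit 1129397169) (nat_lit 0) (nat_lit 1526681468) (nat_lit 1520) (nat_lit 5692240742) (nat_lit 558) (nat_lit 5) (nat_lit 557) (nat_lit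 5) (nat_lit 577) (nat_lit 5) (nat_lit 555) (nat_lit 548) (nat_lit 457)) (XT.nd (nat_lit 78) (nat_lit 0) (nat_lit 0) (XT.lf (nat_lit 0) (nat_lit 3949039624) (nat_lit 1444) (nat_lit 2946185840) (nat_lit 1520) (nat_lit 1516866503) (nat_lit 558) (nat_lit 5) (nat_lit 577) (nat_lit 5) (nat_lit 578) (nat_lit 5) (nat_lit 556) (nat_lit 548) (nat_lit 456)) (XT.lf (nat_lit 76) (nat_lit 1402776415) (nat_lit 0) (nat_lit 3855829332) (nat_lit 1520) (nat_lit 3218724371) (nat_lit 559) (nat_lit 5) (nat_lit 558) (nat_lit 5) (nat_lit 578) (nat_lit 5) (nat_lit 557) (nat_lit 548) (nat_lit 455))))) (XT.nd (nat_lit 234) (nat_lit 0) (nat_lit 76) (XT.nd (nat_lit 78) (nat_lit 1444) (nat_lit 0) (XT.lf (nat_lit 76) (nat_lit 5861253443) (nat_lit 0) (nat_lit 724853201) (nat_lit 1520) (nat_lit 1957936452) (nat_lit 559) (nat_lit 5) (nat_lit 558) (nat_lit 5) (nat_lit 578) (nat_lit 5) (nat_lit 558) (nat_lit 548) (nat_lit 454)) (XT.nd (nat_lit 78) (nat_lit 1520) (nat_lit 0) (XT.lf (nat_lit 76) (nat_lit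 1786529997) (nat_lit 0) (nat_lit 6153845795) (nat_lit 1520) (nat_lit 671715012) (nat_lit 560) (nat_lit 5) (nat_lit 559) (nat_lit 5) (nat_lit 579) (nat_lit 5) (nat_lit 559) (nat_lit 548) (nat_lit 453)) (XT.lf (nat_lit 0) (nat_lit 627586807) (nat_lit 1520) (nat_lit 2326544849) (nat_lit 1596) (nat_lit 5727374267) (nat_lit 539) (nat_lit 5) (nat_lit 559) (nat_lit 5) (nat_lit 560) (nat_lit 5) (nat_lit 560) (nat_lit 548) (nat_lit 452)))) (XT.nd (nat_lit 156) (nat_lit 0) (nat_lit 0) (XT.nd (nat_lit 78) (nat_lit 0) (nat_lit 0) (XT.lf (nat_lit 0) (nat_lit 1934187223) (nat_lit 1520) (nat_lit 6484461142) (nat_lit 1596) (nat_lit 333770599) (nat_lit 540) (nat_lit 5) (nat_lit 560) (nat_lit 5) (nat_lit 561) (nat_lit 5) (nat_lit 561) (nat_lit 548) (nat_lit 451)) (XT.lf (nat_lit 0) (nat_lit 3276027909) (nat_lit 1520) (nat_lit 1876267436) (nat_lit 1596) (nat_lit 3672277223) (nat_lit 540) (nat_lit 5) (nat_lit 560) (nat_lit 5) (nat_lit 561) (nat_lit 5) (nat_lit 562) (nat_lit 548) (nat_lit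 450))) (XT.nd (nat_lit 78) (nat_lit 0) (nat_lit 76) (XT.lf (nat_lit 76) (nat_lit 2843689849) (nat_lit 0) (nat_lit 1793820583) (nat_lit 1596) (nat_lit 4260807091) (nat_lit 541) (nat_lit 5) (nat_lit 540) (nat_lit 5) (nat_lit 561) (nat_lit 5) (nat_lit 563) (nat_lit 548) (nat_lit 449)) (XT.lf (nat_lit 0) (nat_lit 6024272406) (nat_lit 1520) (nat_lit 1318623228) (nat_lit 1596) (nat_lit 1630685039) (nat_lit 541) (nat_lit 5) (nat_lit 561) (nat_lit 5) (nat_lit 562) (nat_lit 5) (nat_lit 564) (nat_lit 548) (nat_lit 448))))))))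
noncomputable def xc149 : XT := (XT.nd (nat_lit 1950) (nat_lit 10260) (nat_lit 0) (XT.nd (nat_lit 936) (nat_lit 7068) (nat_lit 0) (XT.nd (nat_lit 468) (nat_lit 4940) (nat_lit 0) (XT.nd (nat_lit 234) (nat_lit 0) (nat_lit 0) (XT.nd (nat_lit 78) (nat_lit 1520) (nat_lit 0) (XT.lf (nat_lit 76) (nat_lit 3528718157) (nat_lit 0) (nat_lit 3920117135) (nat_lit 1596) (nat_lit 1601316692) (nat_lit 542) (nat_lit 5) (nat_lit 541) (nat_lit 5) (nat_lit 562) (nat_lit 5) (nat_lit 565) (nat_lit 548) (nat_lit 447)) (XT.nd (nat_lit 78) (nat_lit 1520) (nat_lit 0) (XT.lf (nat_lit 76) (nat_lit 8473214336) (nat_lit 0) (nat_lit 413169140) (nat_lit 1596) (nat_lit 242185490) (nat_lit 542) (nat_lit 5) (nat_lit 541) (nat_lit 5) (nat_lit 562) (nat_lit 5) (nat_lit 566) (nat_lit 548) (nat_lit 446)) (XT.lf (nat_lit 0) (nat_lit 1154080735) (nat_lit 1596) (nat_lit 4889253674) (nat_lit 1672) (nat_lit 3164576120) (nat_lit 521) (nat_lit 5) (nat_lit 542) (nat_lit 5) (nat_lit 543) (nat_lit 5) (nat_lit 567) (nat_lit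 548) (nat_lit 445)))) (XT.nd (nat_lit 78) (nat_lit 0) (nat_lit 76) (XT.lf (nat_lit 76) (nat_lit 91061413) (nat_lit 0) (nat_lit 2468083713) (nat_lit 1672) (nat_lit 6729983355) (nat_lit 522) (nat_lit 5) (nat_lit 521) (nat_lit 5) (nat_lit 543) (nat_lit 5) (nat_lit 568) (nat_lit 548) (nat_lit 444)) (XT.nd (nat_lit 78) (nat_lit 0) (nat_lit 0) (XT.lf (nat_lit 0) (nat_lit 4009730626) (nat_lit 1596) (nat_lit 4160357286) (nat_lit 1672) (nat_lit 1201538296) (nat_lit 522) (nat_lit 5) (nat_lit 543) (nat_lit 5) (nat_lit 544) (nat_lit 5) (nat_lit 569) (nat_lit 548) (nat_lit 443)) (XT.lf (nat_lit 76) (nat_lit 956233724) (nat_lit 0) (nat_lit 4532843964) (nat_lit 1672) (nat_lit 3966704943) (nat_lit 523) (nat_lit 5) (nat_lit 522) (nat_lit 5) (nat_lit 544) (nat_lit 5) (nat_lit 570) (nat_lit 548) (nat_lit 442))))) (XT.nd (nat_lit 234) (nat_lit 3420) (nat_lit 0) (XT.nd (nat_lit 78) (nat_lit 1596) (nat_lit 0) (XT.lf (nat_lit 76) (nat_lit 6213600951) (nat_lit 0) (nat_lit 789855937) (nat_lit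 1672) (nat_lit 2538060055) (nat_lit 523) (nat_lit 5) (nat_lit 522) (nat_lit 5) (nat_lit 544) (nat_lit 5) (nat_lit 571) (nat_lit 548) (nat_lit 441)) (XT.nd (nat_lit 78) (nat_lit 76) (nat_lit 0) (XT.lf (nat_lit 0) (nat_lit 1934793611) (nat_lit 1596) (nat_lit 6623548198) (nat_lit 1672) (nat_lit 1070423361) (nat_lit 502) (nat_lit 5) (nat_lit 523) (nat_lit 5) (nat_lit 524) (nat_lit 5) (nat_lit 572) (nat_lit 548) (nat_lit 440)) (XT.lf (nat_lit 0) (nat_lit 426846588) (nat_lit 1672) (nat_lit 2395837966) (nat_lit 76) (nat_lit 6894904370) (nat_lit 501) (nat_lit 5) (nat_lit 523) (nat_lit 5) (nat_lit 502) (nat_lit 5) (nat_lit 573) (nat_lit 548) (nat_lit 439)))) (XT.nd (nat_lit 78) (nat_lit 1748) (nat_lit 0) (XT.lf (nat_lit 0) (nat_lit 1945005900) (nat_lit 1748) (nat_lit 6792203442) (nat_lit 76) (nat_lit 1070736148) (nat_lit 479) (nat_lit 5) (nat_lit 502) (nat_lit 5) (nat_lit 480) (nat_lit 5) (nat_lit 574) (nat_lit 548) (nat_lit 438)) (XT.nd (nat_lit 78) (nat_lit 1748) (nat_lit 0)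 (XT.lf (nat_lit 0) (nat_lit 3507323864) (nat_lit 1748) (nat_lit 1368775228) (nat_lit 76) (nat_lit 5023737505) (nat_lit 479) (nat_lit 5) (nat_lit 502) (nat_lit 5) (nat_lit 480) (nat_lit 5) (nat_lit 575) (nat_lit 548) (nat_lit 437)) (XT.lf (nat_lit 0) (nat_lit 4200349378) (nat_lit 1748) (nat_lit 907142013) (nat_lit 1824) (nat_lit 4885945325) (nat_lit 456) (nat_lit 5) (nat_lit 479) (nat_lit 5) (nat_lit 480) (nat_lit 5) (nat_lit 576) (nat_lit 548) (nat_lit 436)))))) (XT.nd (nat_lit 468) (nat_lit 3420) (nat_lit 0) (XT.nd (nat_lit 234) (nat_lit 988) (nat_lit 0) (XT.nd (nat_lit 78) (nat_lit 2660) (nat_lit 0) (XT.lf (nat_lit 0) (nat_lit 6748941936) (nat_lit 1824) (nat_lit 227940962) (nat_lit 76) (nat_lit 3111843536) (nat_lit 456) (nat_lit 5) (nat_lit 480) (nat_lit 5) (nat_lit 457) (nat_lit 5) (nat_lit 577) (nat_lit 548) (nat_lit 435)) (XT.nd (nat_lit 78) (nat_lit 988) (nat_lit 0) (XT.lf (nat_lit 0) (nat_lit 5496777425) (nat_lit 1672) (nat_lit 2948178510) (nat_lit 1748) (nat_lit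 1740534451) (nat_lit 434) (nat_lit 5) (nat_lit 456) (nat_lit 5) (nat_lit 457) (nat_lit 5) (nat_lit 578) (nat_lit 548) (nat_lit 434)) (XT.lf (nat_lit 0) (nat_lit 1042943531) (nat_lit 988) (nat_lit 9128124098) (nat_lit 1064) (nat_lit 113201505) (nat_lit 421) (nat_lit 5) (nat_lit 434) (nat_lit 5) (nat_lit 435) (nat_lit 5) (nat_lit 579) (nat_lit 548) (nat_lit 433)))) (XT.nd (nat_lit 78) (nat_lit 912) (nat_lit 0) (XT.lf (nat_lit 0) (nat_lit 1558054646) (nat_lit 1064) (nat_lit 3479629569) (nat_lit 76) (nat_lit 5346508119) (nat_lit 420) (nat_lit 5) (nat_lit 434) (nat_lit 5) (nat_lit 421) (nat_lit 5) (nat_lit 580) (nat_lit 548) (nat_lit 432)) (XT.nd (nat_lit 78) (nat_lit 0) (nat_lit 0) (XT.lf (nat_lit 0) (nat_lit 2410269187) (nat_lit 912) (nat_lit 847449534) (nat_lit 988) (nat_lit 7228453229) (nat_lit 408) (nat_lit 5) (nat_lit 420) (nat_lit 5) (nat_lit 421) (nat_lit 5) (nat_lit 581) (nat_lit 548) (nat_lit 431)) (XT.lf (nat_lit 0) (nat_lit 5018244012) (nat_lit 988) (nat_lit 2165156113)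 (nat_lit 76) (nat_lit 3406256508) (nat_lit 408) (nat_lit 5) (nat_lit 421) (nat_lit 5) (nat_lit 409) (nat_lit 5) (nat_lit 582) (nat_lit 548) (nat_lit 430))))) (XT.nd (nat_lit 234) (nat_lit 1672) (nat_lit 0) (XT.nd (nat_lit 78) (nat_lit 836) (nat_lit 0) (XT.lf (nat_lit 0) (nat_lit 3891423231) (nat_lit 912) (nat_lit 2934920269) (nat_lit 988) (nat_lit 3868623012) (nat_lit 396) (nat_lit 5) (nat_lit 408) (nat_lit 5) (nat_lit 409) (nat_lit 5) (nat_lit 583) (nat_lit 548) (nat_lit 429)) (XT.nd (nat_lit 78) (nat_lit 836) (nat_lit 0) (XT.lf (nat_lit 0) (nat_lit 8676048373) (nat_lit 988) (nat_lit 730846323) (nat_lit 76) (nat_lit 1395381747) (nat_lit 396) (nat_lit 5) (nat_lit 409) (nat_lit 5) (nat_lit 397) (nat_lit 5) (nat_lit 584) (nat_lit 548) (nat_lit 428)) (XT.lf (nat_lit 0) (nat_lit 5498271637) (nat_lit 836) (nat_lit 5101706435) (nat_lit 912) (nat_lit 311012558) (nat_lit 385) (nat_lit 5) (nat_lit 396) (nat_lit 5) (nat_lit 397) (nat_lit 5) (nat_lit 585) (nat_lit 548) (nat_lit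 427)))) (XT.nd (nat_lit 156) (nat_lit 760) (nat_lit 0) (XT.nd (nat_lit 78) (nat_lit 0) (nat_lit 0) (XT.lf (nat_lit 0) (nat_lit 823027791) (nat_lit 836) (nat_lit 689768940) (nat_lit 912) (nat_lit 9509035023) (nat_lit 373) (nat_lit 5) (nat_lit 384) (nat_lit 5) (nat_lit 385) (nat_lit 5) (nat_lit 586) (nat_lit 548) (nat_lit 426)) (XT.lf (nat_lit 0) (nat_lit 3412669813) (nat_lit 912) (nat_lit 3922407735) (nat_lit 76) (nat_lit 3798898512) (nat_lit 373) (nat_lit 5) (nat_lit 385) (nat_lit 5) (nat_lit 374) (nat_lit 5) (nat_lit 587) (nat_lit 548) (nat_lit 425))) (XT.nd (nat_lit 78) (nat_lit 0) (nat_lit 0) (XT.lf (nat_lit 0) (nat_lit 2489893123) (nat_lit 760) (nat_lit 2864171220) (nat_lit 836) (nat_lit 5894230895) (nat_lit 363) (nat_lit 5) (nat_lit 373) (nat_lit 5) (nat_lit 374) (nat_lit 5) (nat_lit 588) (nat_lit 548) (nat_lit 424)) (XT.lf (nat_lit 0) (nat_lit 7354804271) (nat_lit 836) (nat_lit 2309884347) (nat_lit 76) (nat_lit 1699804250) (nat_lit 363) (nat_lit 5) (nat_lit 374)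 (nat_lit 5) (nat_lit 364) (nat_lit 5) (nat_lit 589) (nat_lit 548) (nat_lit 423))))))) (XT.nd (nat_lit 936) (nat_lit 4940) (nat_lit 0) (XT.nd (nat_lit 468) (nat_lit 2204) (nat_lit 0) (XT.nd (nat_lit 234) (nat_lit 1444) (nat_lit 0) (XT.nd (nat_lit 78) (nat_lit 836) (nat_lit 0) (XT.lf (nat_lit 0) (nat_lit 4287283488) (nat_lit 836) (nat_lit 5138421790) (nat_lit 912) (nat_lit 2056708617) (nat_lit 352) (nat_lit 5) (nat_lit 363) (nat_lit 5) (nat_lit 364) (nat_lit 5) (nat_lit 590) (nat_lit 548) (nat_lit 422)) (XT.nd (nat_lit 78) (nat_lit 836) (nat_lit 0) (XT.lf (nat_lit 0) (nat_lit 11030240671) (nat_lit 836) (nat_lit 506839770) (nat_lit 912) (nat_lit 65634102) (nat_lit 352) (nat_lit 5) (nat_lit 363) (nat_lit 5) (nat_lit 364) (nat_lit 5) (nat_lit 591) (nat_lit 548) (nat_lit 421)) (XT.lf (nat_lit 0) (nat_lit 1991460713) (nat_lit 836) (nat_lit 5518111281) (nat_lit 76) (nat_lit 4214556777) (nat_lit 341) (nat_lit 5) (nat_lit 352) (nat_lit 5) (nat_lit 342) (nat_lit 5) (nat_lit 592)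 (nat_lit 548) (nat_lit 420)))) (XT.nd (nat_lit 78) (nat_lit 684) (nat_lit 0) (XT.lf (nat_lit 0) (nat_lit 1275312177) (nat_lit 760) (nat_lit 2812978623) (nat_lit 836) (nat_lit 7759684552) (nat_lit 331) (nat_lit 5) (nat_lit 341) (nat_lit 5) (nat_lit 342) (nat_lit 5) (nat_lit 593) (nat_lit 548) (nat_lit 419)) (XT.nd (nat_lit 78) (nat_lit 684) (nat_lit 0) (XT.lf (nat_lit 0) (nat_lit 6261330183) (nat_lit 836) (nat_lit 3724973881) (nat_lit 76) (nat_lit 1987311494) (nat_lit 331) (nat_lit 5) (nat_lit 342) (nat_lit 5) (nat_lit 332) (nat_lit 5) (nat_lit 594) (nat_lit 548) (nat_lit 418)) (XT.lf (nat_lit 0) (nat_lit 3266494206) (nat_lit 684) (nat_lit 5235642498) (nat_lit 760) (nat_lit 3599147841) (nat_lit 322) (nat_lit 5) (nat_lit 331) (nat_lit 5) (nat_lit 332) (nat_lit 5) (nat_lit 595) (nat_lit 548) (nat_lit 417))))) (XT.nd (nat_lit 234) (nat_lit 684) (nat_lit 0) (XT.nd (nat_lit 78) (nat_lit 1520) (nat_lit 0) (XT.lf (nat_lit 0) (nat_lit 10431012389) (nat_lit 684) (nat_lit 366404995)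 (nat_lit 760) (nat_lit 1433898433) (nat_lit 322) (nat_lit 5) (nat_lit 331) (nat_lit 5) (nat_lit 332) (nat_lit 5) (nat_lit 596) (nat_lit 548) (nat_lit 416)) (XT.nd (nat_lit 78) (nat_lit 684) (nat_lit 0) (XT.lf (nat_lit 0) (nat_lit 814693265) (nat_lit 836) (nat_lit 6969727277) (nat_lit 76) (nat_lit 4578424621) (nat_lit 311) (nat_lit 5) (nat_lit 322) (nat_lit 5) (nat_lit 312) (nat_lit 5) (nat_lit 597) (nat_lit 548) (nat_lit 415)) (XT.lf (nat_lit 0) (nat_lit 231773349) (nat_lit 684) (nat_lit 2858427370) (nat_lit 760) (nat_lit 9406593885) (nat_lit 302) (nat_lit 5) (nat_lit 311) (nat_lit 5) (nat_lit 312) (nat_lit 5) (nat_lit 598) (nat_lit 548) (nat_lit 414)))) (XT.nd (nat_lit 78) (nat_lit 684) (nat_lit 0) (XT.lf (nat_lit 0) (nat_lit 5457561933) (nat_lit 760) (nat_lit 4992560180) (nat_lit 76) (nat_lit 2182375953) (nat_lit 302) (nat_lit 5) (nat_lit 312) (nat_lit 5) (nat_lit 303) (nat_lit 5) (nat_lit 599) (nat_lit 548) (nat_lit 413)) (XT.nd (nat_lit 78) (nat_lit 0) (nat_lit 0)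 (XT.lf (nat_lit 0) (nat_lit 2421035556) (nat_lit 684) (nat_lit 5471373638) (nat_lit 760) (nat_lit 4878105498) (nat_lit 293) (nat_lit 5) (nat_lit 302) (nat_lit 5) (nat_lit 303) (nat_lit 5) (nat_lit 600) (nat_lit 548) (nat_lit 412)) (XT.lf (nat_lit 0) (nat_lit 10033554525) (nat_lit 684) (nat_lit 361565433) (nat_lit 760) (nat_lit 2515790193) (nat_lit 293) (nat_lit 5) (nat_lit 302) (nat_lit 5) (nat_lit 303) (nat_lit 5) (nat_lit 601) (nat_lit 548) (nat_lit 411)))))) (XT.nd (nat_lit 468) (nat_lit 2356) (nat_lit 0) (XT.nd (nat_lit 234) (nat_lit 1216) (nat_lit 0) (XT.nd (nat_lit 78) (nat_lit 760) (nat_lit 0) (XT.lf (nat_lit 0) (nat_lit 4758166161) (nat_lit 608) (nat_lit 8238032057) (nat_lit 684) (nat_lit 56950832) (nat_lit 285) (nat_lit 5) (nat_lit 293) (nat_lit 5) (nat_lit 294) (nat_lit 5) (nat_lit 602) (nat_lit 548) (nat_lit 410)) (XT.nd (nat_lit 78) (nat_lit 684) (nat_lit 0) (XT.lf (nat_lit 0) (nat_lit 2426750641) (nat_lit 684) (nat_lit 647913493) (nat_lit 76) (nat_lit 10123095411)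 (nat_lit 284) (nat_lit 5) (nat_lit 293) (nat_lit 5) (nat_lit 285) (nat_lit 5) (nat_lit 603) (nat_lit 548) (nat_lit 409)) (XT.lf (nat_lit 0) (nat_lit 5007106079) (nat_lit 760) (nat_lit 6129275434) (nat_lit 76) (nat_lit 2207920050) (nat_lit 275) (nat_lit 5) (nat_lit 285) (nat_lit 5) (nat_lit 276) (nat_lit 5) (nat_lit 604) (nat_lit 548) (nat_lit 408)))) (XT.nd (nat_lit 78) (nat_lit 608) (nat_lit 0) (XT.lf (nat_lit 0) (nat_lit 1735853122) (nat_lit 608) (nat_lit 5925641304) (nat_lit 684) (nat_lit 5831833139) (nat_lit 267) (nat_lit 5) (nat_lit 275) (nat_lit 5) (nat_lit 276) (nat_lit 5) (nat_lit 605) (nat_lit 548) (nat_lit 407)) (XT.nd (nat_lit 78) (nat_lit 608) (nat_lit 0) (XT.lf (nat_lit 0) (nat_lit 9824637180) (nat_lit 608) (nat_lit 572038577) (nat_lit 684) (nat_lit 3248105853) (nat_lit 267) (nat_lit 5) (nat_lit 275) (nat_lit 5) (nat_lit 276) (nat_lit 5) (nat_lit 606) (nat_lit 548) (nat_lit 406)) (XT.lf (nat_lit 0) (nat_lit 4283727011) (nat_lit 608) (nat_lit 8949203523) (nat_lit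 684) (nat_lit 565408401) (nat_lit 259) (nat_lit 5) (nat_lit 267) (nat_lit 5) (nat_lit 268) (nat_lit 5) (nat_lit 607) (nat_lit 548) (nat_lit 405))))) (XT.nd (nat_lit 234) (nat_lit 1140) (nat_lit 0) (XT.nd (nat_lit 78) (nat_lit 1140) (nat_lit 0) (XT.lf (nat_lit 0) (nat_lit 2158944005) (nat_lit 684) (nat_lit 1387762187) (nat_lit 76) (nat_lit 10407651377) (nat_lit 258) (nat_lit 5) (nat_lit 267) (nat_lit 5) (nat_lit 259) (nat_lit 5) (nat_lit 608) (nat_lit 548) (nat_lit 404)) (XT.nd (nat_lit 78) (nat_lit 608) (nat_lit 0) (XT.lf (nat_lit 0) (nat_lit 4975682301) (nat_lit 608) (nat_lit 7152881146) (nat_lit 76) (nat_lit 1983950493) (nat_lit 251) (nat_lit 5) (nat_lit 259) (nat_lit 5) (nat_lit 252) (nat_lit 5) (nat_lit 609) (nat_lit 548) (nat_lit 403)) (XT.lf (nat_lit 0) (nat_lit 1194749238) (nat_lit 608) (nat_lit 6681886322) (nat_lit 684) (nat_lit 6396641747) (nat_lit 243) (nat_lit 5) (nat_lit 251) (nat_lit 5) (nat_lit 252) (nat_lit 5) (nat_lit 610) (nat_lit 548) (nat_lit 402))))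 (XT.nd (nat_lit 156) (nat_lit 608) (nat_lit 0) (XT.nd (nat_lit 78) (nat_lit 532) (nat_lit 0) (XT.lf (nat_lit 0) (nat_lit 9789889746) (nat_lit 608) (nat_lit 1081121722) (nat_lit 684) (nat_lit 3565537847) (nat_lit 243) (nat_lit 5) (nat_lit 251) (nat_lit 5) (nat_lit 252) (nat_lit 5) (nat_lit 611) (nat_lit 548) (nat_lit 401)) (XT.lf (nat_lit 0) (nat_lit 3959398486) (nat_lit 532) (nat_lit 10009281988) (nat_lit 608) (nat_lit 633539593) (nat_lit 236) (nat_lit 5) (nat_lit 243) (nat_lit 5) (nat_lit 244) (nat_lit 5) (nat_lit 612) (nat_lit 548) (nat_lit 400))) (XT.nd (nat_lit 78) (nat_lit 532) (nat_lit 0) (XT.lf (nat_lit 0) (nat_lit 2352414422) (nat_lit 608) (nat_lit 2009048345) (nat_lit 76) (nat_lit 10408912162) (nat_lit 235) (nat_lit 5) (nat_lit 243) (nat_lit 5) (nat_lit 236) (nat_lit 5) (nat_lit 613) (nat_lit 548) (nat_lit 399)) (XT.lf (nat_lit 0) (nat_lit 5431504867) (nat_lit 608) (nat_lit 8083314248) (nat_lit 76) (nat_lit 1426153343) (nat_lit 228) (nat_lit 5) (nat_lit 236)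 (nat_lit 5) (nat_lit 229) (nat_lit 5) (nat_lit 614) (nat_lit 548) (nat_lit 398))))))))
noncomputable def xc150 : XT := (XT.nd (nat_lit 1950) (nat_lit 3040) (nat_lit 0) (XT.nd (nat_lit 936) (nat_lit 3344) (nat_lit 0) (XT.nd (nat_lit 468) (nat_lit 1444) (nat_lit 0) (XT.nd (nat_lit 234) (nat_lit 1064) (nat_lit 0) (XT.nd (nat_lit 78) (nat_lit 532) (nat_lit 0) (XT.lf (nat_lit 0) (nat_lit 779317582) (nat_lit 532) (nat_lit 7828405036) (nat_lit 608) (nat_lit 6506549719) (nat_lit 221) (nat_lit 5) (nat_lit 228) (nat_lit 5) (nat_lit 229) (nat_lit 5) (nat_lit 615) (nat_lit 548) (nat_lit 397)) (XT.nd (nat_lit 78) (nat_lit 532) (nat_lit 0) (XT.lf (nat_lit 0) (nat_lit 9912729814) (nat_lit 532) (nat_lit 1977139465) (nat_lit 608) (nat_lit 3400322127) (nat_lit 221) (nat_lit 5) (nat_lit 228) (nat_lit 5) (nat_lit 229) (nat_lit 5) (nat_lit 616) (nat_lit 548) (nat_lit 396)) (XT.lf (nat_lit 0) (nat_lit 3766733895) (nat_lit 532) (nat_lit 11509660943) (nat_lit 608) (nat_lit 192460557) (nat_lit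 214) (nat_lit 5) (nat_lit 221) (nat_lit 5) (nat_lit 222) (nat_lit 5) (nat_lit 617) (nat_lit 548) (nat_lit 395)))) (XT.nd (nat_lit 78) (nat_lit 988) (nat_lit 0) (XT.lf (nat_lit 0) (nat_lit 3077002017) (nat_lit 608) (nat_lit 2532977965) (nat_lit 76) (nat_lit 10039957344) (nat_lit 213) (nat_lit 5) (nat_lit 221) (nat_lit 5) (nat_lit 214) (nat_lit 5) (nat_lit 618) (nat_lit 548) (nat_lit 394)) (XT.nd (nat_lit 78) (nat_lit 532) (nat_lit 0) (XT.lf (nat_lit 0) (nat_lit 6445598684) (nat_lit 532) (nat_lit 8943868270) (nat_lit 76) (nat_lit 444423248) (nat_lit 207) (nat_lit 5) (nat_lit 214) (nat_lit 5) (nat_lit 208) (nat_lit 5) (nat_lit 619) (nat_lit 548) (nat_lit 393)) (XT.lf (nat_lit 0) (nat_lit 467737269) (nat_lit 532) (nat_lit 9459864420) (nat_lit 608) (nat_lit 6093000918) (nat_lit 200) (nat_lit 5) (nat_lit 207) (nat_lit 5) (nat_lit 208) (nat_lit 5) (nat_lit 620) (nat_lit 548) (nat_lit 392))))) (XT.nd (nat_lit 234) (nat_lit 912) (nat_lit 0) (XT.nd (nat_lit 78) (nat_lit 532) (nat_lit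 0) (XT.lf (nat_lit 0) (nat_lit 10173147874) (nat_lit 532) (nat_lit 3354969304) (nat_lit 608) (nat_lit 2681955773) (nat_lit 200) (nat_lit 5) (nat_lit 207) (nat_lit 5) (nat_lit 208) (nat_lit 5) (nat_lit 621) (nat_lit 548) (nat_lit 391)) (XT.nd (nat_lit 78) (nat_lit 0) (nat_lit 0) (XT.lf (nat_lit 0) (nat_lit 818668237) (nat_lit 532) (nat_lit 12724638976) (nat_lit 76) (nat_lit 2859286757) (nat_lit 193) (nat_lit 5) (nat_lit 200) (nat_lit 5) (nat_lit 194) (nat_lit 5) (nat_lit 622) (nat_lit 548) (nat_lit 390)) (XT.lf (nat_lit 0) (nat_lit 4405510285) (nat_lit 532) (nat_lit 2985029470) (nat_lit 76) (nat_lit 9207029831) (nat_lit 193) (nat_lit 5) (nat_lit 200) (nat_lit 5) (nat_lit 194) (nat_lit 5) (nat_lit 623) (nat_lit 548) (nat_lit 389)))) (XT.nd (nat_lit 78) (nat_lit 456) (nat_lit 0) (XT.lf (nat_lit 0) (nat_lit 7026237158) (nat_lit 456) (nat_lit 1072770819) (nat_lit 532) (nat_lit 8696739416) (nat_lit 187) (nat_lit 5) (nat_lit 193) (nat_lit 5) (nat_lit 194) (nat_lit 5) (nat_lit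 624) (nat_lit 548) (nat_lit 388)) (XT.nd (nat_lit 78) (nat_lit 0) (nat_lit 0) (XT.lf (nat_lit 0) (nat_lit 233389911) (nat_lit 456) (nat_lit 11678920388) (nat_lit 532) (nat_lit 5084660794) (nat_lit 181) (nat_lit 5) (nat_lit 187) (nat_lit 5) (nat_lit 188) (nat_lit 5) (nat_lit 625) (nat_lit 548) (nat_lit 387)) (XT.lf (nat_lit 0) (nat_lit 10546310751) (nat_lit 456) (nat_lit 5317674453) (nat_lit 532) (nat_lit 1336992944) (nat_lit 181) (nat_lit 5) (nat_lit 187) (nat_lit 5) (nat_lit 188) (nat_lit 5) (nat_lit 626) (nat_lit 548) (nat_lit 386)))))) (XT.nd (nat_lit 468) (nat_lit 1520) (nat_lit 0) (XT.nd (nat_lit 234) (nat_lit 912) (nat_lit 0) (XT.nd (nat_lit 78) (nat_lit 380) (nat_lit 0) (XT.lf (nat_lit 0) (nat_lit 2474341485) (nat_lit 532) (nat_lit 13742952848) (nat_lit 76) (nat_lit 1191022964) (nat_lit 174) (nat_lit 5) (nat_lit 181) (nat_lit 5) (nat_lit 175) (nat_lit 5) (nat_lit 627) (nat_lit 548) (nat_lit 385)) (XT.nd (nat_lit 78) (nat_lit 380) (nat_lit 0) (XT.lf (nat_lit 0)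 (nat_lit 6413887764) (nat_lit 532) (nat_lit 3396456126) (nat_lit 76) (nat_lit 7807885790) (nat_lit 174) (nat_lit 5) (nat_lit 181) (nat_lit 5) (nat_lit 175) (nat_lit 5) (nat_lit 628) (nat_lit 548) (nat_lit 384)) (XT.lf (nat_lit 0) (nat_lit 7237000440) (nat_lit 380) (nat_lit 3232116169) (nat_lit 456) (nat_lit 7362486805) (nat_lit 169) (nat_lit 5) (nat_lit 174) (nat_lit 5) (nat_lit 175) (nat_lit 5) (nat_lit 629) (nat_lit 548) (nat_lit 383)))) (XT.nd (nat_lit 78) (nat_lit 456) (nat_lit 0) (XT.lf (nat_lit 0) (nat_lit 43257828) (nat_lit 456) (nat_lit 14597970456) (nat_lit 532) (nat_lit 3407301689) (nat_lit 163) (nat_lit 5) (nat_lit 169) (nat_lit 5) (nat_lit 170) (nat_lit 5) (nat_lit 630) (nat_lit 548) (nat_lit 382)) (XT.nd (nat_lit 78) (nat_lit 380) (nat_lit 0) (XT.lf (nat_lit 0) (nat_lit 701743565) (nat_lit 532) (nat_lit 7271822732) (nat_lit 76) (nat_lit 10294488642) (nat_lit 162) (nat_lit 5) (nat_lit 169) (nat_lit 5) (nat_lit 163) (nat_lit 5) (nat_lit 631) (nat_lit 548) (nat_lit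 381)) (XT.lf (nat_lit 0) (nat_lit 3687393883) (nat_lit 380) (nat_lit 1174140188) (nat_lit 456) (nat_lit 13629702988) (nat_lit 157) (nat_lit 5) (nat_lit 162) (nat_lit 5) (nat_lit 163) (nat_lit 5) (nat_lit 632) (nat_lit 548) (nat_lit 380))))) (XT.nd (nat_lit 234) (nat_lit 1140) (nat_lit 0) (XT.nd (nat_lit 78) (nat_lit 380) (nat_lit 0) (XT.lf (nat_lit 0) (nat_lit 9181317224) (nat_lit 456) (nat_lit 3806033738) (nat_lit 76) (nat_lit 5729996768) (nat_lit 157) (nat_lit 5) (nat_lit 163) (nat_lit 5) (nat_lit 158) (nat_lit 5) (nat_lit 633) (nat_lit 548) (nat_lit 379)) (XT.nd (nat_lit 78) (nat_lit 0) (nat_lit 0) (XT.lf (nat_lit 0) (nat_lit 7487683943) (nat_lit 380) (nat_lit 6146663556) (nat_lit 456) (nat_lit 5312696918) (nat_lit 152) (nat_lit 5) (nat_lit 157) (nat_lit 5) (nat_lit 158) (nat_lit 5) (nat_lit 634) (nat_lit 548) (nat_lit 378)) (XT.lf (nat_lit 0) (nat_lit 18198064699) (nat_lit 456) (nat_lit 142056922) (nat_lit 76) (nat_lit 840781703) (nat_lit 152) (nat_lit 5) (nat_lit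 158) (nat_lit 5) (nat_lit 153) (nat_lit 5) (nat_lit 635) (nat_lit 548) (nat_lit 377)))) (XT.nd (nat_lit 156) (nat_lit 304) (nat_lit 0) (XT.nd (nat_lit 78) (nat_lit 380) (nat_lit 0) (XT.lf (nat_lit 0) (nat_lit 3495349417) (nat_lit 456) (nat_lit 7942889470) (nat_lit 76) (nat_lit 7978620135) (nat_lit 146) (nat_lit 5) (nat_lit 152) (nat_lit 5) (nat_lit 147) (nat_lit 5) (nat_lit 636) (nat_lit 548) (nat_lit 376)) (XT.lf (nat_lit 0) (nat_lit 3694382681) (nat_lit 380) (nat_lit 4371253340) (nat_lit 456) (nat_lit 11591454751) (nat_lit 141) (nat_lit 5) (nat_lit 146) (nat_lit 5) (nat_lit 147) (nat_lit 5) (nat_lit 637) (nat_lit 548) (nat_lit 375))) (XT.nd (nat_lit 78) (nat_lit 304) (nat_lit 0) (XT.lf (nat_lit 0) (nat_lit 12790196158) (nat_lit 456) (nat_lit 4262105792) (nat_lit 76) (nat_lit 2848568601) (nat_lit 141) (nat_lit 5) (nat_lit 147) (nat_lit 5) (nat_lit 142) (nat_lit 5) (nat_lit 638) (nat_lit 548) (nat_lit 374)) (XT.lf (nat_lit 0) (nat_lit 7730893334) (nat_lit 304) (nat_lit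 9948471156) (nat_lit 380) (nat_lit 2468759832) (nat_lit 137) (nat_lit 5) (nat_lit 141) (nat_lit 5) (nat_lit 142) (nat_lit 5) (nat_lit 639) (nat_lit 548) (nat_lit 373))))))) (XT.nd (nat_lit 936) (nat_lit 608) (nat_lit 0) (XT.nd (nat_lit 468) (nat_lit 1292) (nat_lit 0) (XT.nd (nat_lit 234) (nat_lit 380) (nat_lit 0) (XT.nd (nat_lit 78) (nat_lit 684) (nat_lit 0) (XT.lf (nat_lit 0) (nat_lit 2256065090) (nat_lit 380) (nat_lit 407212874) (nat_lit 76) (nat_lit 17736355848) (nat_lit 136) (nat_lit 5) (nat_lit 141) (nat_lit 5) (nat_lit 137) (nat_lit 5) (nat_lit 640) (nat_lit 548) (nat_lit 372)) (XT.nd (nat_lit 78) (nat_lit 304) (nat_lit 0) (XT.lf (nat_lit 0) (nat_lit 7142798976) (nat_lit 456) (nat_lit 8716181933) (nat_lit 76) (nat_lit 4794857522) (nat_lit 131) (nat_lit 5) (nat_lit 137) (nat_lit 5) (nat_lit 132) (nat_lit 5) (nat_lit 641) (nat_lit 548) (nat_lit 371)) (XT.lf (nat_lit 0) (nat_lit 3638066382) (nat_lit 304) (nat_lit 8524438849) (nat_lit 380) (nat_lit 8749917840) (nat_lit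 127) (nat_lit 5) (nat_lit 131) (nat_lit 5) (nat_lit 132) (nat_lit 5) (nat_lit 642) (nat_lit 548) (nat_lit 370)))) (XT.nd (nat_lit 78) (nat_lit 380) (nat_lit 0) (XT.lf (nat_lit 0) (nat_lit 16343778547) (nat_lit 304) (nat_lit 988628449) (nat_lit 380) (nat_lit 3842777047) (nat_lit 127) (nat_lit 5) (nat_lit 131) (nat_lit 5) (nat_lit 132) (nat_lit 5) (nat_lit 643) (nat_lit 548) (nat_lit 369)) (XT.nd (nat_lit 78) (nat_lit 0) (nat_lit 0) (XT.lf (nat_lit 0) (nat_lit 1234104564) (nat_lit 380) (nat_lit 13542615453) (nat_lit 76) (nat_lit 6664593014) (nat_lit 122) (nat_lit 5) (nat_lit 127) (nat_lit 5) (nat_lit 123) (nat_lit 5) (nat_lit 644) (nat_lit 548) (nat_lit 368)) (XT.lf (nat_lit 0) (nat_lit 6391772498) (nat_lit 380) (nat_lit 809097385) (nat_lit 76) (nat_lit 14510773260) (nat_lit 122) (nat_lit 5) (nat_lit 127) (nat_lit 5) (nat_lit 123) (nat_lit 5) (nat_lit 645) (nat_lit 548) (nat_lit 367))))) (XT.nd (nat_lit 234) (nat_lit 608) (nat_lit 0) (XT.nd (nat_lit 78) (nat_lit 380) (nat_lit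 0) (XT.lf (nat_lit 0) (nat_lit 11728186379) (nat_lit 380) (nat_lit 9662492139) (nat_lit 76) (nat_lit 595190104) (nat_lit 118) (nat_lit 5) (nat_lit 123) (nat_lit 5) (nat_lit 119) (nat_lit 5) (nat_lit 646) (nat_lit 548) (nat_lit 366)) (XT.nd (nat_lit 78) (nat_lit 76) (nat_lit 0) (XT.lf (nat_lit 0) (nat_lit 3448053632) (nat_lit 304) (nat_lit 13790499561) (nat_lit 380) (nat_lit 5025681530) (nat_lit 114) (nat_lit 5) (nat_lit 118) (nat_lit 5) (nat_lit 119) (nat_lit 5) (nat_lit 647) (nat_lit 548) (nat_lit 365)) (XT.lf (nat_lit 0) (nat_lit 363856231) (nat_lit 380) (nat_lit 5610995843) (nat_lit 76) (nat_lit 16572136766) (nat_lit 113) (nat_lit 5) (nat_lit 118) (nat_lit 5) (nat_lit 114) (nat_lit 5) (nat_lit 648) (nat_lit 548) (nat_lit 364)))) (XT.nd (nat_lit 78) (nat_lit 304) (nat_lit 0) (XT.lf (nat_lit 0) (nat_lit 5850709822) (nat_lit 380) (nat_lit 14931736927) (nat_lit 76) (nat_lit 2051151086) (nat_lit 109) (nat_lit 5) (nat_lit 114) (nat_lit 5) (nat_lit 110) (nat_lit 5) (nat_lit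 649) (nat_lit 548) (nat_lit 363)) (XT.nd (nat_lit 78) (nat_lit 304) (nat_lit 0) (XT.lf (nat_lit 0) (nat_lit 11516680757) (nat_lit 380) (nat_lit 1417212677) (nat_lit 76) (nat_lit 10190658530) (nat_lit 109) (nat_lit 5) (nat_lit 114) (nat_lit 5) (nat_lit 110) (nat_lit 5) (nat_lit 650) (nat_lit 548) (nat_lit 362)) (XT.lf (nat_lit 0) (nat_lit 12518805971) (nat_lit 304) (nat_lit 4850513791) (nat_lit 380) (nat_lit 6050538988) (nat_lit 105) (nat_lit 5) (nat_lit 109) (nat_lit 5) (nat_lit 110) (nat_lit 5) (nat_lit 651) (nat_lit 548) (nat_lit 361)))))) (XT.nd (nat_lit 73320) (nat_lit 0) (nat_lit 34884) (XT.nd (nat_lit 234) (nat_lit 0) (nat_lit 0) (XT.nd (nat_lit 78) (nat_lit 380) (nat_lit 0) (XT.lf (nat_lit 0) (nat_lit 3036574796) (nat_lit 228) (nat_lit 20345872340) (nat_lit 304) (nat_lit 337756360) (nat_lit 102) (nat_lit 5) (nat_lit 105) (nat_lit 5) (nat_lit 106) (nat_lit 5) (nat_lit 652) (nat_lit 548) (nat_lit 360)) (XT.nd (nat_lit 78) (nat_lit 304) (nat_lit 0) (XT.lf (nat_lit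 0) (nat_lit 5515173647) (nat_lit 304) (nat_lit 6705659243) (nat_lit 76) (nat_lit 11803052269) (nat_lit 101) (nat_lit 5) (nat_lit 105) (nat_lit 5) (nat_lit 102) (nat_lit 5) (nat_lit 653) (nat_lit 548) (nat_lit 359)) (XT.lf (nat_lit 0) (nat_lit 7637007664) (nat_lit 304) (nat_lit 3885500966) (nat_lit 380) (nat_lit 12810250302) (nat_lit 97) (nat_lit 5) (nat_lit 101) (nat_lit 5) (nat_lit 102) (nat_lit 5) (nat_lit 654) (nat_lit 548) (nat_lit 358)))) (XT.nd (nat_lit 72930) (nat_lit 0) (nat_lit 36252) (XT.lf (nat_lit 0) (nat_lit 17717576736) (nat_lit 380) (nat_lit 2332579424) (nat_lit 76) (nat_lit 4596302786) (nat_lit 97) (nat_lit 5) (nat_lit 102) (nat_lit 5) (nat_lit 98) (nat_lit 5) (nat_lit 655) (nat_lit 548) (nat_lit 357)) (XT.nd (nat_lit 78) (nat_lit 0) (nat_lit 0) (XT.lf (nat_lit 0) (nat_lit 2205391319) (nat_lit 1444) (nat_lit 909507260) (nat_lit 1444) (nat_lit 909507260) (nat_lit 574) (nat_lit 3) (nat_lit 593) (nat_lit 3) (nat_lit 593) (nat_lit 5) (nat_lit 549) (nat_lit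 549) (nat_lit 462)) (XT.lf (nat_lit 76) (nat_lit 2161803897) (nat_lit 0) (nat_lit 3490690438) (nat_lit 1444) (nat_lit 2452637402) (nat_lit 575) (nat_lit 5) (nat_lit 574) (nat_lit 3) (nat_lit 593) (nat_lit 5) (nat_lit 550) (nat_lit 549) (nat_lit 461))))) (XT.nd (nat_lit 234) (nat_lit 0) (nat_lit 0) (XT.nd (nat_lit 78) (nat_lit 1368) (nat_lit 0) (XT.lf (nat_lit 76) (nat_lit 6230849457) (nat_lit 0) (nat_lit 669247754) (nat_lit 1444) (nat_lit 1262865512) (nat_lit 575) (nat_lit 5) (nat_lit 574) (nat_lit 3) (nat_lit 593) (nat_lit 5) (nat_lit 551) (nat_lit 549) (nat_lit 460)) (XT.nd (nat_lit 78) (nat_lit 1444) (nat_lit 0) (XT.lf (nat_lit 76) (nat_lit 2156828666) (nat_lit 0) (nat_lit 6013724207) (nat_lit 1444) (nat_lit 51444996) (nat_lit 576) (nat_lit 5) (nat_lit 575) (nat_lit 5) (nat_lit 594) (nat_lit 5) (nat_lit 552) (nat_lit 549) (nat_lit 459)) (XT.lf (nat_lit 0) (nat_lit 1156000783) (nat_lit 1444) (nat_lit 1957163453) (nat_lit 1520) (nat_lit 5169154489) (nat_lit 556) (nat_lit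 5) (nat_lit 575) (nat_lit 5) (nat_lit 576) (nat_lit 5) (nat_lit 553) (nat_lit 549) (nat_lit 458)))) (XT.nd (nat_lit 156) (nat_lit 0) (nat_lit 76) (XT.nd (nat_lit 78) (nat_lit 0) (nat_lit 76) (XT.lf (nat_lit 76) (nat_lit 2245700579) (nat_lit 0) (nat_lit 126222992) (nat_lit 1520) (nat_lit 5972220521) (nat_lit 557) (nat_lit 5) (nat_lit 556) (nat_lit 5) (nat_lit 576) (nat_lit 5) (nat_lit 554) (nat_lit 549) (nat_lit 457)) (XT.lf (nat_lit 0) (nat_lit 3615339484) (nat_lit 1444) (nat_lit 1883815921) (nat_lit 1520) (nat_lit 2907992199) (nat_lit 557) (nat_lit 5) (nat_lit 576) (nat_lit 5) (nat_lit 577) (nat_lit 5) (nat_lit 555) (nat_lit 549) (nat_lit 456))) (XT.nd (nat_lit 78) (nat_lit 0) (nat_lit 76) (XT.lf (nat_lit 76) (nat_lit 2429488483) (nat_lit 0) (nat_lit 2442306319) (nat_lit 1520) (nat_lit 3599857994) (nat_lit 558) (nat_lit 5) (nat_lit 557) (nat_lit 5) (nat_lit 577) (nat_lit 5) (nat_lit 556) (nat_lit 549) (nat_lit 455)) (XT.lf (nat_lit 0) (nat_lit 6142577272) (nat_lit 1444)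 (nat_lit 1704243928) (nat_lit 1520) (nat_lit 690847862) (nat_lit 558) (nat_lit 5) (nat_lit 577) (nat_lit 5) (nat_lit 578) (nat_lit 5) (nat_lit 557) (nat_lit 549) (nat_lit 454))))))))
noncomputable def xc151 : XT := (XT.nd (nat_lit 1950) (nat_lit 10716) (nat_lit 0) (XT.nd (nat_lit 936) (nat_lit 8512) (nat_lit 0) (XT.nd (nat_lit 468) (nat_lit 1368) (nat_lit 0) (XT.nd (nat_lit 234) (nat_lit 0) (nat_lit 76) (XT.nd (nat_lit 78) (nat_lit 1520) (nat_lit 0) (XT.lf (nat_lit 76) (nat_lit 2723139245) (nat_lit 0) (nat_lit 4722124090) (nat_lit 1520) (nat_lit 1159617395) (nat_lit 559) (nat_lit 5) (nat_lit 558) (nat_lit 5) (nat_lit 578) (nat_lit 5) (nat_lit 558) (nat_lit 549) (nat_lit 453)) (XT.nd (nat_lit 78) (nat_lit 0) (nat_lit 76) (XT.lf (nat_lit 0) (nat_lit 83637887) (nat_lit 1520) (nat_lit 1428855213) (nat_lit 1596) (nat_lit 7161247314) (nat_lit 538) (nat_lit 5) (nat_lit 558) (nat_lit 5) (nat_lit 559) (nat_lit 5) (nat_lit 559) (nat_lit 549) (nat_lit 452)) (XT.lf (nat_lit 0) (nat_lit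 1341660649) (nat_lit 1520) (nat_lit 5625937957) (nat_lit 1596) (nat_lit 1776121345) (nat_lit 539) (nat_lit 5) (nat_lit 559) (nat_lit 5) (nat_lit 560) (nat_lit 5) (nat_lit 560) (nat_lit 549) (nat_lit 451)))) (XT.nd (nat_lit 78) (nat_lit 0) (nat_lit 0) (XT.lf (nat_lit 0) (nat_lit 2618397470) (nat_lit 1520) (nat_lit 1067501607) (nat_lit 1596) (nat_lit 5129333399) (nat_lit 539) (nat_lit 5) (nat_lit 559) (nat_lit 5) (nat_lit 560) (nat_lit 5) (nat_lit 561) (nat_lit 549) (nat_lit 450)) (XT.nd (nat_lit 78) (nat_lit 0) (nat_lit 76) (XT.lf (nat_lit 76) (nat_lit 3612586387) (nat_lit 0) (nat_lit 305935226) (nat_lit 1596) (nat_lit 4969700965) (nat_lit 540) (nat_lit 5) (nat_lit 539) (nat_lit 5) (nat_lit 560) (nat_lit 5) (nat_lit 562) (nat_lit 549) (nat_lit 449)) (XT.lf (nat_lit 0) (nat_lit 5247101714) (nat_lit 1520) (nat_lit 599576601) (nat_lit 1596) (nat_lit 3115949392) (nat_lit 540) (nat_lit 5) (nat_lit 560) (nat_lit 5) (nat_lit 561) (nat_lit 5) (nat_lit 563) (nat_lit 549) (nat_lit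 448))))) (XT.nd (nat_lit 234) (nat_lit 0) (nat_lit 0) (XT.nd (nat_lit 78) (nat_lit 1520) (nat_lit 0) (XT.lf (nat_lit 76) (nat_lit 4206133670) (nat_lit 0) (nat_lit 2400793054) (nat_lit 1596) (nat_lit 2431504957) (nat_lit 541) (nat_lit 5) (nat_lit 540) (nat_lit 5) (nat_lit 561) (nat_lit 5) (nat_lit 564) (nat_lit 549) (nat_lit 447)) (XT.nd (nat_lit 78) (nat_lit 1596) (nat_lit 0) (XT.lf (nat_lit 0) (nat_lit 7980991334) (nat_lit 1520) (nat_lit 24279859) (nat_lit 1596) (nat_lit 1110743807) (nat_lit 541) (nat_lit 5) (nat_lit 561) (nat_lit 5) (nat_lit 562) (nat_lit 5) (nat_lit 565) (nat_lit 549) (nat_lit 446)) (XT.lf (nat_lit 0) (nat_lit 209106940) (nat_lit 1596) (nat_lit 4284729857) (nat_lit 1672) (nat_lit 4700809276) (nat_lit 520) (nat_lit 5) (nat_lit 541) (nat_lit 5) (nat_lit 542) (nat_lit 5) (nat_lit 566) (nat_lit 549) (nat_lit 445)))) (XT.nd (nat_lit 78) (nat_lit 0) (nat_lit 76) (XT.lf (nat_lit 76) (nat_lit 652014917) (nat_lit 0) (nat_lit 893750967) (nat_lit 1672) (nat_lit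 7729320848) (nat_lit 521) (nat_lit 5) (nat_lit 520) (nat_lit 5) (nat_lit 542) (nat_lit 5) (nat_lit 567) (nat_lit 549) (nat_lit 444)) (XT.nd (nat_lit 78) (nat_lit 0) (nat_lit 0) (XT.lf (nat_lit 0) (nat_lit 2932961907) (nat_lit 1596) (nat_lit 3646906082) (nat_lit 1672) (nat_lit 2776795950) (nat_lit 521) (nat_lit 5) (nat_lit 542) (nat_lit 5) (nat_lit 543) (nat_lit 5) (nat_lit 568) (nat_lit 549) (nat_lit 443)) (XT.lf (nat_lit 76) (nat_lit 1424198644) (nat_lit 0) (nat_lit 2916145285) (nat_lit 1672) (nat_lit 5099683656) (nat_lit 522) (nat_lit 5) (nat_lit 521) (nat_lit 5) (nat_lit 543) (nat_lit 5) (nat_lit 569) (nat_lit 549) (nat_lit 442)))))) (XT.nd (nat_lit 468) (nat_lit 5396) (nat_lit 0) (XT.nd (nat_lit 234) (nat_lit 3268) (nat_lit 0) (XT.nd (nat_lit 78) (nat_lit 0) (nat_lit 0) (XT.lf (nat_lit 0) (nat_lit 5783481392) (nat_lit 1596) (nat_lit 2901615321) (nat_lit 1672) (nat_lit 839813301) (nat_lit 522) (nat_lit 5) (nat_lit 543) (nat_lit 5) (nat_lit 544) (nat_lit 5) (nat_lit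 570) (nat_lit 549) (nat_lit 441)) (XT.nd (nat_lit 78) (nat_lit 0) (nat_lit 0) (XT.lf (nat_lit 76) (nat_lit 2308478897) (nat_lit 0) (nat_lit 4959385018) (nat_lit 1672) (nat_lit 2343382123) (nat_lit 523) (nat_lit 5) (nat_lit 522) (nat_lit 5) (nat_lit 544) (nat_lit 5) (nat_lit 571) (nat_lit 549) (nat_lit 440)) (XT.lf (nat_lit 76) (nat_lit 7644853850) (nat_lit 0) (nat_lit 1134951266) (nat_lit 1672) (nat_lit 919549767) (nat_lit 523) (nat_lit 5) (nat_lit 522) (nat_lit 5) (nat_lit 544) (nat_lit 5) (nat_lit 572) (nat_lit 549) (nat_lit 439)))) (XT.nd (nat_lit 78) (nat_lit 1672) (nat_lit 0) (XT.lf (nat_lit 0) (nat_lit 544168786) (nat_lit 1672) (nat_lit 6485672730) (nat_lit 76) (nat_lit 2758950659) (nat_lit 501) (nat_lit 5) (nat_lit 523) (nat_lit 5) (nat_lit 502) (nat_lit 5) (nat_lit 573) (nat_lit 549) (nat_lit 438)) (XT.nd (nat_lit 78) (nat_lit 1672) (nat_lit 0) (XT.lf (nat_lit 0) (nat_lit 2025266897) (nat_lit 1672) (nat_lit 1115235742) (nat_lit 76) (nat_lit 6739388970) (nat_lit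 501) (nat_lit 5) (nat_lit 523) (nat_lit 5) (nat_lit 502) (nat_lit 5) (nat_lit 574) (nat_lit 549) (nat_lit 437)) (XT.lf (nat_lit 0) (nat_lit 3549577160) (nat_lit 1748) (nat_lit 5575069795) (nat_lit 76) (nat_lit 847897525) (nat_lit 479) (nat_lit 5) (nat_lit 502) (nat_lit 5) (nat_lit 480) (nat_lit 5) (nat_lit 575) (nat_lit 549) (nat_lit 436))))) (XT.nd (nat_lit 234) (nat_lit 1976) (nat_lit 0) (XT.nd (nat_lit 78) (nat_lit 3420) (nat_lit 0) (XT.lf (nat_lit 0) (nat_lit 5112442050) (nat_lit 1748) (nat_lit 69701992) (nat_lit 76) (nat_lit 4884748190) (nat_lit 479) (nat_lit 5) (nat_lit 502) (nat_lit 5) (nat_lit 480) (nat_lit 5) (nat_lit 576) (nat_lit 549) (nat_lit 435)) (XT.nd (nat_lit 78) (nat_lit 1672) (nat_lit 0) (XT.lf (nat_lit 0) (nat_lit 5602078470) (nat_lit 1748) (nat_lit 1120992499) (nat_lit 1824) (nat_lit 3439728962) (nat_lit 456) (nat_lit 5) (nat_lit 479) (nat_lit 5) (nat_lit 480) (nat_lit 5) (nat_lit 577) (nat_lit 549) (nat_lit 434)) (XT.lf (nat_lit 0) (nat_lit 1105030428)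 (nat_lit 1672) (nat_lit 7268573845) (nat_lit 1748) (nat_lit 1886870741) (nat_lit 434) (nat_lit 5) (nat_lit 456) (nat_lit 5) (nat_lit 457) (nat_lit 5) (nat_lit 578) (nat_lit 549) (nat_lit 433)))) (XT.nd (nat_lit 156) (nat_lit 912) (nat_lit 0) (XT.nd (nat_lit 78) (nat_lit 1064) (nat_lit 0) (XT.lf (nat_lit 0) (nat_lit 6921046317) (nat_lit 1672) (nat_lit 3154782366) (nat_lit 1748) (nat_lit 283904313) (nat_lit 434) (nat_lit 5) (nat_lit 456) (nat_lit 5) (nat_lit 457) (nat_lit 5) (nat_lit 579) (nat_lit 549) (nat_lit 432)) (XT.lf (nat_lit 0) (nat_lit 1336853791) (nat_lit 1064) (nat_lit 8069991100) (nat_lit 76) (nat_lit 1053889638) (nat_lit 420) (nat_lit 5) (nat_lit 434) (nat_lit 5) (nat_lit 421) (nat_lit 5) (nat_lit 580) (nat_lit 549) (nat_lit 431))) (XT.nd (nat_lit 78) (nat_lit 912) (nat_lit 0) (XT.lf (nat_lit 0) (nat_lit 3011573558) (nat_lit 1064) (nat_lit 2220387516) (nat_lit 76) (nat_lit 5331253359) (nat_lit 420) (nat_lit 5) (nat_lit 434) (nat_lit 5) (nat_lit 421) (nat_lit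 5) (nat_lit 581) (nat_lit 549) (nat_lit 430)) (XT.lf (nat_lit 0) (nat_lit 3778566881) (nat_lit 912) (nat_lit 947345579) (nat_lit 988) (nat_lit 5941711759) (nat_lit 408) (nat_lit 5) (nat_lit 420) (nat_lit 5) (nat_lit 421) (nat_lit 5) (nat_lit 582) (nat_lit 549) (nat_lit 429))))))) (XT.nd (nat_lit 936) (nat_lit 4864) (nat_lit 0) (XT.nd (nat_lit 468) (nat_lit 3192) (nat_lit 0) (XT.nd (nat_lit 234) (nat_lit 912) (nat_lit 0) (XT.nd (nat_lit 78) (nat_lit 1748) (nat_lit 0) (XT.lf (nat_lit 0) (nat_lit 6493609694) (nat_lit 988) (nat_lit 886006267) (nat_lit 76) (nat_lit 3394127531) (nat_lit 408) (nat_lit 5) (nat_lit 421) (nat_lit 5) (nat_lit 409) (nat_lit 5) (nat_lit 583) (nat_lit 549) (nat_lit 428)) (XT.nd (nat_lit 78) (nat_lit 836) (nat_lit 0) (XT.lf (nat_lit 0) (nat_lit 5283004315) (nat_lit 912) (nat_lit 3036435809) (nat_lit 988) (nat_lit 2562092109) (nat_lit 396) (nat_lit 5) (nat_lit 408) (nat_lit 5) (nat_lit 409) (nat_lit 5) (nat_lit 584) (nat_lit 549) (nat_lit 427)) (XT.lf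 (nat_lit 0) (nat_lit 577169396) (nat_lit 836) (nat_lit 9605845112) (nat_lit 912) (nat_lit 808440312) (nat_lit 385) (nat_lit 5) (nat_lit 396) (nat_lit 5) (nat_lit 397) (nat_lit 5) (nat_lit 585) (nat_lit 549) (nat_lit 426)))) (XT.nd (nat_lit 78) (nat_lit 836) (nat_lit 0) (XT.lf (nat_lit 0) (nat_lit 1007916405) (nat_lit 912) (nat_lit 4194756657) (nat_lit 76) (nat_lit 5899968251) (nat_lit 384) (nat_lit 5) (nat_lit 396) (nat_lit 5) (nat_lit 385) (nat_lit 5) (nat_lit 586) (nat_lit 549) (nat_lit 425)) (XT.nd (nat_lit 78) (nat_lit 0) (nat_lit 0) (XT.lf (nat_lit 0) (nat_lit 2154933817) (nat_lit 836) (nat_lit 691746503) (nat_lit 912) (nat_lit 8369328702) (nat_lit 373) (nat_lit 5) (nat_lit 384) (nat_lit 5) (nat_lit 385) (nat_lit 5) (nat_lit 587) (nat_lit 549) (nat_lit 424)) (XT.lf (nat_lit 0) (nat_lit 4759064763) (nat_lit 912) (nat_lit 2685534215) (nat_lit 76) (nat_lit 3886310622) (nat_lit 373) (nat_lit 5) (nat_lit 385) (nat_lit 5) (nat_lit 374) (nat_lit 5) (nat_lit 588) (nat_lit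 549) (nat_lit 423))))) (XT.nd (nat_lit 234) (nat_lit 1596) (nat_lit 0) (XT.nd (nat_lit 78) (nat_lit 836) (nat_lit 0) (XT.lf (nat_lit 0) (nat_lit 3846359228) (nat_lit 760) (nat_lit 2876350113) (nat_lit 836) (nat_lit 4725140968) (nat_lit 363) (nat_lit 5) (nat_lit 373) (nat_lit 5) (nat_lit 374) (nat_lit 5) (nat_lit 589) (nat_lit 549) (nat_lit 422)) (XT.nd (nat_lit 78) (nat_lit 836) (nat_lit 0) (XT.lf (nat_lit 0) (nat_lit 8739014631) (nat_lit 836) (nat_lit 1050409261) (nat_lit 76) (nat_lit 1777440510) (nat_lit 363) (nat_lit 5) (nat_lit 374) (nat_lit 5) (nat_lit 364) (nat_lit 5) (nat_lit 590) (nat_lit 549) (nat_lit 421)) (XT.lf (nat_lit 0) (nat_lit 5670111978) (nat_lit 836) (nat_lit 5165386059) (nat_lit 912) (nat_lit 851965976) (nat_lit 352) (nat_lit 5) (nat_lit 363) (nat_lit 5) (nat_lit 364) (nat_lit 5) (nat_lit 591) (nat_lit 549) (nat_lit 420)))) (XT.nd (nat_lit 78) (nat_lit 760) (nat_lit 0) (XT.lf (nat_lit 0) (nat_lit 713706924) (nat_lit 760) (nat_lit 430286517) (nat_lit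 836) (nat_lit 10666416957) (nat_lit 341) (nat_lit 5) (nat_lit 351) (nat_lit 5) (nat_lit 352) (nat_lit 5) (nat_lit 592) (nat_lit 549) (nat_lit 419)) (XT.nd (nat_lit 78) (nat_lit 760) (nat_lit 0) (XT.lf (nat_lit 0) (nat_lit 3221968455) (nat_lit 836) (nat_lit 4325725836) (nat_lit 76) (nat_lit 4386940852) (nat_lit 341) (nat_lit 5) (nat_lit 352) (nat_lit 5) (nat_lit 342) (nat_lit 5) (nat_lit 593) (nat_lit 549) (nat_lit 418)) (XT.lf (nat_lit 0) (nat_lit 2594995383) (nat_lit 760) (nat_lit 2750795779) (nat_lit 836) (nat_lit 6715469563) (nat_lit 331) (nat_lit 5) (nat_lit 341) (nat_lit 5) (nat_lit 342) (nat_lit 5) (nat_lit 594) (nat_lit 549) (nat_lit 417)))))) (XT.nd (nat_lit 468) (nat_lit 2660) (nat_lit 0) (XT.nd (nat_lit 234) (nat_lit 1520) (nat_lit 0) (XT.nd (nat_lit 78) (nat_lit 684) (nat_lit 0) (XT.lf (nat_lit 0) (nat_lit 7539991642) (nat_lit 836) (nat_lit 2508216407) (nat_lit 76) (nat_lit 2141654806) (nat_lit 331) (nat_lit 5) (nat_lit 342) (nat_lit 5) (nat_lit 332) (nat_lit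 5) (nat_lit 595) (nat_lit 549) (nat_lit 416)) (XT.nd (nat_lit 78) (nat_lit 0) (nat_lit 0) (XT.lf (nat_lit 0) (nat_lit 4614585930) (nat_lit 684) (nat_lit 5196740535) (nat_lit 760) (nat_lit 2509047580) (nat_lit 322) (nat_lit 5) (nat_lit 331) (nat_lit 5) (nat_lit 332) (nat_lit 5) (nat_lit 596) (nat_lit 549) (nat_lit 415)) (XT.lf (nat_lit 0) (nat_lit 11897242284) (nat_lit 684) (nat_lit 232934258) (nat_lit 760) (nat_lit 323279128) (nat_lit 322) (nat_lit 5) (nat_lit 331) (nat_lit 5) (nat_lit 332) (nat_lit 5) (nat_lit 597) (nat_lit 549) (nat_lit 414)))) (XT.nd (nat_lit 78) (nat_lit 684) (nat_lit 0) (XT.lf (nat_lit 0) (nat_lit 1942503603) (nat_lit 836) (nat_lit 5823439661) (nat_lit 76) (nat_lit 4821784060) (nat_lit 311) (nat_lit 5) (nat_lit 322) (nat_lit 5) (nat_lit 312) (nat_lit 5) (nat_lit 598) (nat_lit 549) (nat_lit 413)) (XT.nd (nat_lit 78) (nat_lit 0) (nat_lit 0) (XT.lf (nat_lit 0) (nat_lit 1513632543) (nat_lit 684) (nat_lit 2736386806) (nat_lit 760) (nat_lit 8474609273)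 (nat_lit 302) (nat_lit 5) (nat_lit 311) (nat_lit 5) (nat_lit 312) (nat_lit 5) (nat_lit 599) (nat_lit 549) (nat_lit 412)) (XT.lf (nat_lit 0) (nat_lit 6644338819) (nat_lit 760) (nat_lit 3819703486) (nat_lit 76) (nat_lit 2399414405) (nat_lit 302) (nat_lit 5) (nat_lit 312) (nat_lit 5) (nat_lit 303) (nat_lit 5) (nat_lit 600) (nat_lit 549) (nat_lit 411))))) (XT.nd (nat_lit 234) (nat_lit 1292) (nat_lit 0) (XT.nd (nat_lit 78) (nat_lit 684) (nat_lit 0) (XT.lf (nat_lit 0) (nat_lit 3733791087) (nat_lit 684) (nat_lit 5381170923) (nat_lit 760) (nat_lit 3889532799) (nat_lit 293) (nat_lit 5) (nat_lit 302) (nat_lit 5) (nat_lit 303) (nat_lit 5) (nat_lit 601) (nat_lit 549) (nat_lit 410)) (XT.nd (nat_lit 78) (nat_lit 684) (nat_lit 0) (XT.lf (nat_lit 0) (nat_lit 11473769556) (nat_lit 684) (nat_lit 173080872) (nat_lit 760) (nat_lit 1501267949) (nat_lit 293) (nat_lit 5) (nat_lit 302) (nat_lit 5) (nat_lit 303) (nat_lit 5) (nat_lit 602) (nat_lit 549) (nat_lit 409)) (XT.lf (nat_lit 0) (nat_lit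 982369325) (nat_lit 684) (nat_lit 7195561681) (nat_lit 76) (nat_lit 5115366386) (nat_lit 284) (nat_lit 5) (nat_lit 293) (nat_lit 5) (nat_lit 285) (nat_lit 5) (nat_lit 603) (nat_lit 549) (nat_lit 408)))) (XT.nd (nat_lit 156) (nat_lit 608) (nat_lit 0) (XT.nd (nat_lit 78) (nat_lit 0) (nat_lit 0) (XT.lf (nat_lit 0) (nat_lit 586967308) (nat_lit 684) (nat_lit 2911440420) (nat_lit 760) (nat_lit 9942718845) (nat_lit 275) (nat_lit 5) (nat_lit 284) (nat_lit 5) (nat_lit 285) (nat_lit 5) (nat_lit 604) (nat_lit 549) (nat_lit 407)) (XT.lf (nat_lit 0) (nat_lit 6116030279) (nat_lit 760) (nat_lit 5001067783) (nat_lit 76) (nat_lit 2473790635) (nat_lit 275) (nat_lit 5) (nat_lit 285) (nat_lit 5) (nat_lit 276) (nat_lit 5) (nat_lit 605) (nat_lit 549) (nat_lit 406))) (XT.nd (nat_lit 78) (nat_lit 0) (nat_lit 0) (XT.lf (nat_lit 0) (nat_lit 3013134442) (nat_lit 608) (nat_lit 5798659463) (nat_lit 684) (nat_lit 4931337981) (nat_lit 267) (nat_lit 5) (nat_lit 275) (nat_lit 5) (nat_lit 276) (nat_lit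 5) (nat_lit 606) (nat_lit 549) (nat_lit 405)) (XT.lf (nat_lit 0) (nat_lit 11239330175) (nat_lit 608) (nat_lit 342798302) (nat_lit 684) (nat_lit 2315879912) (nat_lit 267) (nat_lit 5) (nat_lit 275) (nat_lit 5) (nat_lit 276) (nat_lit 5) (nat_lit 607) (nat_lit 549) (nat_lit 404))))))))
noncomputable def xc152 : XT := (XT.nd (nat_lit 1950) (nat_lit 4940) (nat_lit 0) (XT.nd (nat_lit 936) (nat_lit 3876) (nat_lit 0) (XT.nd (nat_lit 468) (nat_lit 1672) (nat_lit 0) (XT.nd (nat_lit 234) (nat_lit 1216) (nat_lit 0) (XT.nd (nat_lit 78) (nat_lit 532) (nat_lit 0) (XT.lf (nat_lit 0) (nat_lit 405229748) (nat_lit 684) (nat_lit 8459923987) (nat_lit 76) (nat_lit 5189625347) (nat_lit 258) (nat_lit 5) (nat_lit 267) (nat_lit 5) (nat_lit 259) (nat_lit 5) (nat_lit 608) (nat_lit 549) (nat_lit 403)) (XT.nd (nat_lit 78) (nat_lit 532) (nat_lit 0) (XT.lf (nat_lit 0) (nat_lit 3157399921) (nat_lit 684) (nat_lit 198619637) (nat_lit 76) (nat_lit 10858207986) (nat_lit 258) (nat_lit 5) (nat_lit 267) (nat_lit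 5) (nat_lit 259) (nat_lit 5) (nat_lit 609) (nat_lit 549) (nat_lit 402)) (XT.lf (nat_lit 0) (nat_lit 6021308277) (nat_lit 608) (nat_lit 6069766823) (nat_lit 76) (nat_lit 2284657425) (nat_lit 251) (nat_lit 5) (nat_lit 259) (nat_lit 5) (nat_lit 252) (nat_lit 5) (nat_lit 610) (nat_lit 549) (nat_lit 401)))) (XT.nd (nat_lit 78) (nat_lit 608) (nat_lit 0) (XT.lf (nat_lit 0) (nat_lit 2436749248) (nat_lit 608) (nat_lit 6532888877) (nat_lit 684) (nat_lit 5570288030) (nat_lit 243) (nat_lit 5) (nat_lit 251) (nat_lit 5) (nat_lit 252) (nat_lit 5) (nat_lit 611) (nat_lit 549) (nat_lit 400)) (XT.nd (nat_lit 78) (nat_lit 608) (nat_lit 0) (XT.lf (nat_lit 0) (nat_lit 11179908154) (nat_lit 608) (nat_lit 825650850) (nat_lit 684) (nat_lit 2701273553) (nat_lit 243) (nat_lit 5) (nat_lit 251) (nat_lit 5) (nat_lit 252) (nat_lit 5) (nat_lit 612) (nat_lit 549) (nat_lit 399)) (XT.lf (nat_lit 0) (nat_lit 277102824) (nat_lit 608) (nat_lit 9636320521) (nat_lit 76) (nat_lit 4962527162) (nat_lit 235) (nat_lit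 5) (nat_lit 243) (nat_lit 5) (nat_lit 236) (nat_lit 5) (nat_lit 613) (nat_lit 549) (nat_lit 398))))) (XT.nd (nat_lit 234) (nat_lit 608) (nat_lit 0) (XT.nd (nat_lit 78) (nat_lit 1064) (nat_lit 0) (XT.lf (nat_lit 0) (nat_lit 3296362754) (nat_lit 608) (nat_lit 857894149) (nat_lit 76) (nat_lit 10893488393) (nat_lit 235) (nat_lit 5) (nat_lit 243) (nat_lit 5) (nat_lit 236) (nat_lit 5) (nat_lit 614) (nat_lit 549) (nat_lit 397)) (XT.nd (nat_lit 78) (nat_lit 532) (nat_lit 0) (XT.lf (nat_lit 0) (nat_lit 6429057855) (nat_lit 608) (nat_lit 7045571032) (nat_lit 76) (nat_lit 1747287376) (nat_lit 228) (nat_lit 5) (nat_lit 236) (nat_lit 5) (nat_lit 229) (nat_lit 5) (nat_lit 615) (nat_lit 549) (nat_lit 396)) (XT.lf (nat_lit 0) (nat_lit 1986422583) (nat_lit 532) (nat_lit 7672683647) (nat_lit 608) (nat_lit 5739771691) (nat_lit 221) (nat_lit 5) (nat_lit 228) (nat_lit 5) (nat_lit 229) (nat_lit 5) (nat_lit 616) (nat_lit 549) (nat_lit 395)))) (XT.nd (nat_lit 78) (nat_lit 608) (nat_lit 0) (XT.lf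 (nat_lit 0) (nat_lit 11279139949) (nat_lit 532) (nat_lit 1710516087) (nat_lit 608) (nat_lit 2589005998) (nat_lit 221) (nat_lit 5) (nat_lit 228) (nat_lit 5) (nat_lit 229) (nat_lit 5) (nat_lit 617) (nat_lit 549) (nat_lit 394)) (XT.nd (nat_lit 78) (nat_lit 0) (nat_lit 0) (XT.lf (nat_lit 0) (nat_lit 666685311) (nat_lit 608) (nat_lit 10747650323) (nat_lit 76) (nat_lit 4346624166) (nat_lit 213) (nat_lit 5) (nat_lit 221) (nat_lit 5) (nat_lit 214) (nat_lit 5) (nat_lit 618) (nat_lit 549) (nat_lit 393)) (XT.lf (nat_lit 0) (nat_lit 3982091510) (nat_lit 608) (nat_lit 1419677688) (nat_lit 76) (nat_lit 10544207862) (nat_lit 213) (nat_lit 5) (nat_lit 221) (nat_lit 5) (nat_lit 214) (nat_lit 5) (nat_lit 619) (nat_lit 549) (nat_lit 392)))))) (XT.nd (nat_lit 468) (nat_lit 1900) (nat_lit 0) (XT.nd (nat_lit 234) (nat_lit 988) (nat_lit 0) (XT.nd (nat_lit 78) (nat_lit 532) (nat_lit 0) (XT.lf (nat_lit 0) (nat_lit 7411116650) (nat_lit 532) (nat_lit 7951756040) (nat_lit 76) (nat_lit 770876897)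 (nat_lit 207) (nat_lit 5) (nat_lit 214) (nat_lit 5) (nat_lit 208) (nat_lit 5) (nat_lit 620) (nat_lit 549) (nat_lit 391)) (XT.nd (nat_lit 78) (nat_lit 0) (nat_lit 0) (XT.lf (nat_lit 0) (nat_lit 1640377731) (nat_lit 532) (nat_lit 9313530769) (nat_lit 608) (nat_lit 5370466458) (nat_lit 200) (nat_lit 5) (nat_lit 207) (nat_lit 5) (nat_lit 208) (nat_lit 5) (nat_lit 621) (nat_lit 549) (nat_lit 390)) (XT.lf (nat_lit 0) (nat_lit 11517087024) (nat_lit 532) (nat_lit 3093116789) (nat_lit 608) (nat_lit 1907757165) (nat_lit 200) (nat_lit 5) (nat_lit 207) (nat_lit 5) (nat_lit 208) (nat_lit 5) (nat_lit 622) (nat_lit 549) (nat_lit 389)))) (XT.nd (nat_lit 78) (nat_lit 456) (nat_lit 0) (XT.lf (nat_lit 0) (nat_lit 1645607401) (nat_lit 532) (nat_lit 11821222591) (nat_lit 76) (nat_lit 3247524814) (nat_lit 193) (nat_lit 5) (nat_lit 200) (nat_lit 5) (nat_lit 194) (nat_lit 5) (nat_lit 623) (nat_lit 549) (nat_lit 388)) (XT.nd (nat_lit 78) (nat_lit 456) (nat_lit 0) (XT.lf (nat_lit 0) (nat_lit 5288292843)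 (nat_lit 532) (nat_lit 1909524997) (nat_lit 76) (nat_lit 9715731528) (nat_lit 193) (nat_lit 5) (nat_lit 200) (nat_lit 5) (nat_lit 194) (nat_lit 5) (nat_lit 624) (nat_lit 549) (nat_lit 387)) (XT.lf (nat_lit 0) (nat_lit 8294498509) (nat_lit 456) (nat_lit 752902182) (nat_lit 532) (nat_lit 8068456767) (nat_lit 187) (nat_lit 5) (nat_lit 193) (nat_lit 5) (nat_lit 194) (nat_lit 5) (nat_lit 625) (nat_lit 549) (nat_lit 386))))) (XT.nd (nat_lit 234) (nat_lit 912) (nat_lit 0) (XT.nd (nat_lit 78) (nat_lit 532) (nat_lit 0) (XT.lf (nat_lit 0) (nat_lit 1371874377) (nat_lit 456) (nat_lit 11559208968) (nat_lit 532) (nat_lit 4390141505) (nat_lit 181) (nat_lit 5) (nat_lit 187) (nat_lit 5) (nat_lit 188) (nat_lit 5) (nat_lit 626) (nat_lit 549) (nat_lit 385)) (XT.nd (nat_lit 78) (nat_lit 532) (nat_lit 0) (XT.lf (nat_lit 0) (nat_lit 11868821935) (nat_lit 456) (nat_lit 5077665367) (nat_lit 532) (nat_lit 583132307) (nat_lit 181) (nat_lit 5) (nat_lit 187) (nat_lit 5) (nat_lit 188) (nat_lit 5)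 (nat_lit 627) (nat_lit 549) (nat_lit 384)) (XT.lf (nat_lit 0) (nat_lit 3288607654) (nat_lit 532) (nat_lit 12890262776) (nat_lit 76) (nat_lit 1562246831) (nat_lit 174) (nat_lit 5) (nat_lit 181) (nat_lit 5) (nat_lit 175) (nat_lit 5) (nat_lit 628) (nat_lit 549) (nat_lit 383)))) (XT.nd (nat_lit 156) (nat_lit 532) (nat_lit 0) (XT.nd (nat_lit 78) (nat_lit 380) (nat_lit 0) (XT.lf (nat_lit 0) (nat_lit 7291949186) (nat_lit 532) (nat_lit 2358944926) (nat_lit 76) (nat_lit 8304635082) (nat_lit 174) (nat_lit 5) (nat_lit 181) (nat_lit 5) (nat_lit 175) (nat_lit 5) (nat_lit 629) (nat_lit 549) (nat_lit 382)) (XT.lf (nat_lit 0) (nat_lit 8479908138) (nat_lit 380) (nat_lit 2940802862) (nat_lit 456) (nat_lit 6752612195) (nat_lit 169) (nat_lit 5) (nat_lit 174) (nat_lit 5) (nat_lit 175) (nat_lit 5) (nat_lit 630) (nat_lit 549) (nat_lit 381))) (XT.nd (nat_lit 78) (nat_lit 76) (nat_lit 0) (XT.lf (nat_lit 0) (nat_lit 1147584170) (nat_lit 456) (nat_lit 14523557747) (nat_lit 532) (nat_lit 2723550162)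 (nat_lit 163) (nat_lit 5) (nat_lit 169) (nat_lit 5) (nat_lit 170) (nat_lit 5) (nat_lit 631) (nat_lit 549) (nat_lit 380)) (XT.lf (nat_lit 0) (nat_lit 1443264994) (nat_lit 532) (nat_lit 6325702460) (nat_lit 76) (nat_lit 10849834731) (nat_lit 162) (nat_lit 5) (nat_lit 169) (nat_lit 5) (nat_lit 163) (nat_lit 5) (nat_lit 632) (nat_lit 549) (nat_lit 379))))))) (XT.nd (nat_lit 936) (nat_lit 2280) (nat_lit 0) (XT.nd (nat_lit 468) (nat_lit 1064) (nat_lit 0) (XT.nd (nat_lit 234) (nat_lit 836) (nat_lit 0) (XT.nd (nat_lit 78) (nat_lit 380) (nat_lit 0) (XT.lf (nat_lit 0) (nat_lit 4845517192) (nat_lit 380) (nat_lit 833510160) (nat_lit 456) (nat_lit 13167566332) (nat_lit 157) (nat_lit 5) (nat_lit 162) (nat_lit 5) (nat_lit 163) (nat_lit 5) (nat_lit 633) (nat_lit 549) (nat_lit 378)) (XT.nd (nat_lit 78) (nat_lit 380) (nat_lit 0) (XT.lf (nat_lit 0) (nat_lit 10073401080) (nat_lit 456) (nat_lit 2807174525) (nat_lit 76) (nat_lit 6196888299) (nat_lit 157) (nat_lit 5) (nat_lit 163) (nat_lit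 5) (nat_lit 158) (nat_lit 5) (nat_lit 634) (nat_lit 549) (nat_lit 377)) (XT.lf (nat_lit 0) (nat_lit 8705345274) (nat_lit 380) (nat_lit 5903188928) (nat_lit 456) (nat_lit 4703360686) (nat_lit 152) (nat_lit 5) (nat_lit 157) (nat_lit 5) (nat_lit 158) (nat_lit 5) (nat_lit 635) (nat_lit 549) (nat_lit 376)))) (XT.nd (nat_lit 78) (nat_lit 456) (nat_lit 0) (XT.lf (nat_lit 0) (nat_lit 925692669) (nat_lit 380) (nat_lit 18332420707) (nat_lit 456) (nat_lit 292427029) (nat_lit 147) (nat_lit 5) (nat_lit 152) (nat_lit 5) (nat_lit 153) (nat_lit 5) (nat_lit 636) (nat_lit 549) (nat_lit 375)) (XT.nd (nat_lit 78) (nat_lit 380) (nat_lit 0) (XT.lf (nat_lit 0) (nat_lit 4253212567) (nat_lit 456) (nat_lit 7041061130) (nat_lit 76) (nat_lit 8497106446) (nat_lit 146) (nat_lit 5) (nat_lit 152) (nat_lit 5) (nat_lit 147) (nat_lit 5) (nat_lit 637) (nat_lit 549) (nat_lit 374)) (XT.lf (nat_lit 0) (nat_lit 4821978265) (nat_lit 380) (nat_lit 4086278671) (nat_lit 456) (nat_lit 11128293665) (nat_lit 141)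 (nat_lit 5) (nat_lit 146) (nat_lit 5) (nat_lit 147) (nat_lit 5) (nat_lit 638) (nat_lit 549) (nat_lit 373))))) (XT.nd (nat_lit 234) (nat_lit 304) (nat_lit 0) (XT.nd (nat_lit 78) (nat_lit 760) (nat_lit 0) (XT.lf (nat_lit 0) (nat_lit 13716319749) (nat_lit 456) (nat_lit 3303257663) (nat_lit 76) (nat_lit 3265849430) (nat_lit 141) (nat_lit 5) (nat_lit 147) (nat_lit 5) (nat_lit 142) (nat_lit 5) (nat_lit 639) (nat_lit 549) (nat_lit 372)) (XT.nd (nat_lit 78) (nat_lit 456) (nat_lit 0) (XT.lf (nat_lit 0) (nat_lit 8922732431) (nat_lit 304) (nat_lit 9774129822) (nat_lit 380) (nat_lit 1840892692) (nat_lit 137) (nat_lit 5) (nat_lit 141) (nat_lit 5) (nat_lit 142) (nat_lit 5) (nat_lit 640) (nat_lit 549) (nat_lit 371)) (XT.lf (nat_lit 0) (nat_lit 618396371) (nat_lit 380) (nat_lit 2342060138) (nat_lit 456) (nat_lit 17833933005) (nat_lit 131) (nat_lit 5) (nat_lit 136) (nat_lit 5) (nat_lit 137) (nat_lit 5) (nat_lit 641) (nat_lit 549) (nat_lit 370)))) (XT.nd (nat_lit 78) (nat_lit 304) (nat_lit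 0) (XT.lf (nat_lit 0) (nat_lit 7937078703) (nat_lit 456) (nat_lit 7860980557) (nat_lit 76) (nat_lit 5255776906) (nat_lit 131) (nat_lit 5) (nat_lit 137) (nat_lit 5) (nat_lit 132) (nat_lit 5) (nat_lit 642) (nat_lit 549) (nat_lit 369)) (XT.nd (nat_lit 78) (nat_lit 0) (nat_lit 0) (XT.lf (nat_lit 0) (nat_lit 4733579533) (nat_lit 304) (nat_lit 8317466919) (nat_lit 380) (nat_lit 8266669690) (nat_lit 127) (nat_lit 5) (nat_lit 131) (nat_lit 5) (nat_lit 132) (nat_lit 5) (nat_lit 643) (nat_lit 549) (nat_lit 368)) (XT.lf (nat_lit 0) (nat_lit 17673351984) (nat_lit 304) (nat_lit 638341501) (nat_lit 380) (nat_lit 3274292876) (nat_lit 127) (nat_lit 5) (nat_lit 131) (nat_lit 5) (nat_lit 132) (nat_lit 5) (nat_lit 644) (nat_lit 549) (nat_lit 367)))))) (XT.nd (nat_lit 468) (nat_lit 912) (nat_lit 0) (XT.nd (nat_lit 234) (nat_lit 684) (nat_lit 0) (XT.nd (nat_lit 78) (nat_lit 304) (nat_lit 0) (XT.lf (nat_lit 0) (nat_lit 1892123062) (nat_lit 380) (nat_lit 12798672240) (nat_lit 76) (nat_lit 7166630553)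 (nat_lit 122) (nat_lit 5) (nat_lit 127) (nat_lit 5) (nat_lit 123) (nat_lit 5) (nat_lit 645) (nat_lit 549) (nat_lit 366)) (XT.nd (nat_lit 78) (nat_lit 0) (nat_lit 0) (XT.lf (nat_lit 0) (nat_lit 171872374) (nat_lit 304) (nat_lit 6969769529) (nat_lit 380) (nat_lit 14991747630) (nat_lit 118) (nat_lit 5) (nat_lit 122) (nat_lit 5) (nat_lit 123) (nat_lit 5) (nat_lit 646) (nat_lit 549) (nat_lit 365)) (XT.lf (nat_lit 0) (nat_lit 12580333337) (nat_lit 380) (nat_lit 8857464700) (nat_lit 76) (nat_lit 975391398) (nat_lit 118) (nat_lit 5) (nat_lit 123) (nat_lit 5) (nat_lit 119) (nat_lit 5) (nat_lit 647) (nat_lit 549) (nat_lit 364)))) (XT.nd (nat_lit 78) (nat_lit 380) (nat_lit 0) (XT.lf (nat_lit 0) (nat_lit 4508724372) (nat_lit 304) (nat_lit 13686512477) (nat_lit 380) (nat_lit 4502000301) (nat_lit 114) (nat_lit 5) (nat_lit 118) (nat_lit 5) (nat_lit 119) (nat_lit 5) (nat_lit 648) (nat_lit 549) (nat_lit 363)) (XT.nd (nat_lit 78) (nat_lit 304) (nat_lit 0) (XT.lf (nat_lit 0) (nat_lit 975063190)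 (nat_lit 380) (nat_lit 4742883164) (nat_lit 76) (nat_lit 17267861361) (nat_lit 113) (nat_lit 5) (nat_lit 118) (nat_lit 5) (nat_lit 114) (nat_lit 5) (nat_lit 649) (nat_lit 549) (nat_lit 362)) (XT.lf (nat_lit 0) (nat_lit 6568572999) (nat_lit 380) (nat_lit 14246916740) (nat_lit 76) (nat_lit 2462721598) (nat_lit 109) (nat_lit 5) (nat_lit 114) (nat_lit 5) (nat_lit 110) (nat_lit 5) (nat_lit 650) (nat_lit 549) (nat_lit 361))))) (XT.nd (nat_lit 234) (nat_lit 304) (nat_lit 0) (XT.nd (nat_lit 78) (nat_lit 608) (nat_lit 0) (XT.lf (nat_lit 0) (nat_lit 12336082000) (nat_lit 380) (nat_lit 481385434) (nat_lit 76) (nat_lit 10757753554) (nat_lit 109) (nat_lit 5) (nat_lit 114) (nat_lit 5) (nat_lit 110) (nat_lit 5) (nat_lit 651) (nat_lit 549) (nat_lit 360)) (XT.nd (nat_lit 78) (nat_lit 304) (nat_lit 0) (XT.lf (nat_lit 0) (nat_lit 13727010353) (nat_lit 304) (nat_lit 4573431943) (nat_lit 380) (nat_lit 5576099041) (nat_lit 105) (nat_lit 5) (nat_lit 109) (nat_lit 5) (nat_lit 110) (nat_lit 5)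 (nat_lit 652) (nat_lit 549) (nat_lit 359)) (XT.lf (nat_lit 0) (nat_lit 244801892) (nat_lit 304) (nat_lit 20126503138) (nat_lit 76) (nat_lit 3811613054) (nat_lit 101) (nat_lit 5) (nat_lit 105) (nat_lit 5) (nat_lit 102) (nat_lit 5) (nat_lit 653) (nat_lit 549) (nat_lit 358)))) (XT.nd (nat_lit 73086) (nat_lit 0) (nat_lit 36252) (XT.nd (nat_lit 78) (nat_lit 304) (nat_lit 0) (XT.lf (nat_lit 0) (nat_lit 6198805600) (nat_lit 304) (nat_lit 5890202487) (nat_lit 76) (nat_lit 12403850640) (nat_lit 101) (nat_lit 5) (nat_lit 105) (nat_lit 5) (nat_lit 102) (nat_lit 5) (nat_lit 654) (nat_lit 549) (nat_lit 357)) (XT.lf (nat_lit 0) (nat_lit 8733070588) (nat_lit 304) (nat_lit 3588099637) (nat_lit 380) (nat_lit 12486842828) (nat_lit 97) (nat_lit 5) (nat_lit 101) (nat_lit 5) (nat_lit 102) (nat_lit 5) (nat_lit 655) (nat_lit 549) (nat_lit 356))) (XT.nd (nat_lit 78) (nat_lit 0) (nat_lit 0) (XT.lf (nat_lit 0) (nat_lit 3425382642) (nat_lit 1444) (nat_lit 327889532) (nat_lit 1444) (nat_lit 327889532)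 (nat_lit 574) (nat_lit 3) (nat_lit 593) (nat_lit 3) (nat_lit 593) (nat_lit 5) (nat_lit 550) (nat_lit 550) (nat_lit 460)) (XT.lf (nat_lit 76) (nat_lit 3396763511) (nat_lit 0) (nat_lit 4682172085) (nat_lit 1444) (nat_lit 141610206) (nat_lit 575) (nat_lit 5) (nat_lit 574) (nat_lit 3) (nat_lit 593) (nat_lit 5) (nat_lit 551) (nat_lit 550) (nat_lit 459))))))))
noncomputable def xc153 : XT := (XT.nd (nat_lit 1950) (nat_lit 13452) (nat_lit 0) (XT.nd (nat_lit 936) (nat_lit 4484) (nat_lit 0) (XT.nd (nat_lit 468) (nat_lit 1292) (nat_lit 0) (XT.nd (nat_lit 234) (nat_lit 0) (nat_lit 76) (XT.nd (nat_lit 78) (nat_lit 0) (nat_lit 76) (XT.lf (nat_lit 0) (nat_lit 1012229053) (nat_lit 1444) (nat_lit 763285418) (nat_lit 1520) (nat_lit 6504801211) (nat_lit 555) (nat_lit 5) (nat_lit 574) (nat_lit 3) (nat_lit 575) (nat_lit 5) (nat_lit 552) (nat_lit 550) (nat_lit 458)) (XT.nd (nat_lit 78) (nat_lit 0) (nat_lit 0) (XT.lf (nat_lit 0) (nat_lit 2187781652) (nat_lit 1444) (nat_lit 4942738082) (nat_lit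 1520) (nat_lit 1210737085) (nat_lit 556) (nat_lit 5) (nat_lit 575) (nat_lit 5) (nat_lit 576) (nat_lit 5) (nat_lit 553) (nat_lit 550) (nat_lit 457)) (XT.lf (nat_lit 0) (nat_lit 3374775057) (nat_lit 1444) (nat_lit 777293183) (nat_lit 1520) (nat_lit 4251595073) (nat_lit 556) (nat_lit 5) (nat_lit 575) (nat_lit 5) (nat_lit 576) (nat_lit 5) (nat_lit 554) (nat_lit 550) (nat_lit 456)))) (XT.nd (nat_lit 78) (nat_lit 0) (nat_lit 76) (XT.lf (nat_lit 76) (nat_lit 3501608304) (nat_lit 0) (nat_lit 1078218527) (nat_lit 1520) (nat_lit 3887609768) (nat_lit 557) (nat_lit 5) (nat_lit 556) (nat_lit 5) (nat_lit 576) (nat_lit 5) (nat_lit 555) (nat_lit 550) (nat_lit 455)) (XT.nd (nat_lit 78) (nat_lit 0) (nat_lit 0) (XT.lf (nat_lit 0) (nat_lit 5799705286) (nat_lit 1444) (nat_lit 685464118) (nat_lit 1520) (nat_lit 2047506365) (nat_lit 557) (nat_lit 5) (nat_lit 576) (nat_lit 5) (nat_lit 577) (nat_lit 5) (nat_lit 556) (nat_lit 550) (nat_lit 454)) (XT.lf (nat_lit 76) (nat_lit 3705974610) (nat_lit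 0) (nat_lit 3341874496) (nat_lit 1520) (nat_lit 1551298096) (nat_lit 558) (nat_lit 5) (nat_lit 557) (nat_lit 5) (nat_lit 577) (nat_lit 5) (nat_lit 557) (nat_lit 550) (nat_lit 453))))) (XT.nd (nat_lit 234) (nat_lit 0) (nat_lit 76) (XT.nd (nat_lit 78) (nat_lit 1444) (nat_lit 0) (XT.lf (nat_lit 76) (nat_lit 8178642267) (nat_lit 0) (nat_lit 120011782) (nat_lit 1520) (nat_lit 368744790) (nat_lit 558) (nat_lit 5) (nat_lit 557) (nat_lit 5) (nat_lit 577) (nat_lit 5) (nat_lit 558) (nat_lit 550) (nat_lit 452)) (XT.nd (nat_lit 78) (nat_lit 0) (nat_lit 0) (XT.lf (nat_lit 0) (nat_lit 846958711) (nat_lit 1520) (nat_lit 4722457742) (nat_lit 1596) (nat_lit 3167085214) (nat_lit 538) (nat_lit 5) (nat_lit 558) (nat_lit 5) (nat_lit 559) (nat_lit 5) (nat_lit 559) (nat_lit 550) (nat_lit 451)) (XT.lf (nat_lit 0) (nat_lit 2060071127) (nat_lit 1520) (nat_lit 213080369) (nat_lit 1596) (nat_lit 6534230129) (nat_lit 538) (nat_lit 5) (nat_lit 558) (nat_lit 5) (nat_lit 559) (nat_lit 5) (nat_lit 560)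 (nat_lit 550) (nat_lit 450)))) (XT.nd (nat_lit 78) (nat_lit 0) (nat_lit 0) (XT.lf (nat_lit 0) (nat_lit 3307963398) (nat_lit 1520) (nat_lit 4458482070) (nat_lit 1596) (nat_lit 1113027739) (nat_lit 539) (nat_lit 5) (nat_lit 559) (nat_lit 5) (nat_lit 560) (nat_lit 5) (nat_lit 561) (nat_lit 550) (nat_lit 449)) (XT.nd (nat_lit 78) (nat_lit 0) (nat_lit 0) (XT.lf (nat_lit 76) (nat_lit 168231856) (nat_lit 0) (nat_lit 4405066559) (nat_lit 1596) (nat_lit 4379862804) (nat_lit 540) (nat_lit 5) (nat_lit 539) (nat_lit 5) (nat_lit 560) (nat_lit 5) (nat_lit 562) (nat_lit 550) (nat_lit 448)) (XT.lf (nat_lit 76) (nat_lit 4931459449) (nat_lit 0) (nat_lit 937684060) (nat_lit 1596) (nat_lit 3159079622) (nat_lit 540) (nat_lit 5) (nat_lit 539) (nat_lit 5) (nat_lit 560) (nat_lit 5) (nat_lit 563) (nat_lit 550) (nat_lit 447)))))) (XT.nd (nat_lit 468) (nat_lit 3116) (nat_lit 0) (XT.nd (nat_lit 234) (nat_lit 0) (nat_lit 0) (XT.nd (nat_lit 78) (nat_lit 1520) (nat_lit 0) (XT.lf (nat_lit 76) (nat_lit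 660275060) (nat_lit 0) (nat_lit 6527613923) (nat_lit 1596) (nat_lit 1916961756) (nat_lit 541) (nat_lit 5) (nat_lit 540) (nat_lit 5) (nat_lit 561) (nat_lit 5) (nat_lit 564) (nat_lit 550) (nat_lit 446)) (XT.nd (nat_lit 78) (nat_lit 1520) (nat_lit 0) (XT.lf (nat_lit 76) (nat_lit 5545129493) (nat_lit 0) (nat_lit 2997728619) (nat_lit 1596) (nat_lit 639959858) (nat_lit 541) (nat_lit 5) (nat_lit 540) (nat_lit 5) (nat_lit 561) (nat_lit 5) (nat_lit 565) (nat_lit 550) (nat_lit 445)) (XT.lf (nat_lit 0) (nat_lit 642617550) (nat_lit 1596) (nat_lit 8005593873) (nat_lit 1672) (nat_lit 614276466) (nat_lit 520) (nat_lit 5) (nat_lit 541) (nat_lit 5) (nat_lit 542) (nat_lit 5) (nat_lit 566) (nat_lit 550) (nat_lit 444)))) (XT.nd (nat_lit 78) (nat_lit 0) (nat_lit 0) (XT.lf (nat_lit 0) (nat_lit 1963604706) (nat_lit 1596) (nat_lit 3085795561) (nat_lit 1672) (nat_lit 4293843605) (nat_lit 520) (nat_lit 5) (nat_lit 541) (nat_lit 5) (nat_lit 542) (nat_lit 5) (nat_lit 567) (nat_lit 550) (nat_lit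 443)) (XT.nd (nat_lit 78) (nat_lit 0) (nat_lit 76) (XT.lf (nat_lit 76) (nat_lit 1941232603) (nat_lit 0) (nat_lit 1359730102) (nat_lit 1672) (nat_lit 6124856984) (nat_lit 521) (nat_lit 5) (nat_lit 520) (nat_lit 5) (nat_lit 542) (nat_lit 5) (nat_lit 568) (nat_lit 550) (nat_lit 442)) (XT.lf (nat_lit 0) (nat_lit 4679240865) (nat_lit 1596) (nat_lit 2431750523) (nat_lit 1672) (nat_lit 2398775840) (nat_lit 521) (nat_lit 5) (nat_lit 542) (nat_lit 5) (nat_lit 543) (nat_lit 5) (nat_lit 569) (nat_lit 550) (nat_lit 441))))) (XT.nd (nat_lit 234) (nat_lit 3192) (nat_lit 0) (XT.nd (nat_lit 78) (nat_lit 0) (nat_lit 76) (XT.lf (nat_lit 76) (nat_lit 2732301997) (nat_lit 0) (nat_lit 3357686086) (nat_lit 1672) (nat_lit 3505311156) (nat_lit 522) (nat_lit 5) (nat_lit 521) (nat_lit 5) (nat_lit 543) (nat_lit 5) (nat_lit 570) (nat_lit 550) (nat_lit 440)) (XT.nd (nat_lit 78) (nat_lit 0) (nat_lit 0) (XT.lf (nat_lit 0) (nat_lit 7526944324) (nat_lit 1596) (nat_lit 1669808037) (nat_lit 1672) (nat_lit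 485833171) (nat_lit 522) (nat_lit 5) (nat_lit 543) (nat_lit 5) (nat_lit 544) (nat_lit 5) (nat_lit 571) (nat_lit 550) (nat_lit 439)) (XT.lf (nat_lit 76) (nat_lit 3636002279) (nat_lit 0) (nat_lit 5381414102) (nat_lit 1672) (nat_lit 753709090) (nat_lit 523) (nat_lit 5) (nat_lit 522) (nat_lit 5) (nat_lit 544) (nat_lit 5) (nat_lit 572) (nat_lit 550) (nat_lit 438)))) (XT.nd (nat_lit 156) (nat_lit 1596) (nat_lit 0) (XT.nd (nat_lit 78) (nat_lit 0) (nat_lit 76) (XT.lf (nat_lit 0) (nat_lit 657769469) (nat_lit 1672) (nat_lit 811978003) (nat_lit 1748) (nat_lit 8391796698) (nat_lit 500) (nat_lit 5) (nat_lit 522) (nat_lit 5) (nat_lit 523) (nat_lit 5) (nat_lit 573) (nat_lit 550) (nat_lit 437)) (XT.lf (nat_lit 0) (nat_lit 2113761356) (nat_lit 1672) (nat_lit 5312916593) (nat_lit 76) (nat_lit 2526469390) (nat_lit 501) (nat_lit 5) (nat_lit 523) (nat_lit 5) (nat_lit 502) (nat_lit 5) (nat_lit 574) (nat_lit 550) (nat_lit 436))) (XT.nd (nat_lit 78) (nat_lit 0) (nat_lit 0) (XT.lf (nat_lit 0)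 (nat_lit 141242942) (nat_lit 1672) (nat_lit 3453592603) (nat_lit 1748) (nat_lit 6451830966) (nat_lit 479) (nat_lit 5) (nat_lit 501) (nat_lit 5) (nat_lit 502) (nat_lit 5) (nat_lit 575) (nat_lit 550) (nat_lit 435)) (XT.lf (nat_lit 0) (nat_lit 5125442928) (nat_lit 1748) (nat_lit 4386131249) (nat_lit 76) (nat_lit 630086784) (nat_lit 479) (nat_lit 5) (nat_lit 502) (nat_lit 5) (nat_lit 480) (nat_lit 5) (nat_lit 576) (nat_lit 550) (nat_lit 434))))))) (XT.nd (nat_lit 936) (nat_lit 5396) (nat_lit 0) (XT.nd (nat_lit 468) (nat_lit 3572) (nat_lit 0) (XT.nd (nat_lit 234) (nat_lit 1064) (nat_lit 0) (XT.nd (nat_lit 78) (nat_lit 1672) (nat_lit 0) (XT.lf (nat_lit 0) (nat_lit 1219843555) (nat_lit 1748) (nat_lit 5478134255) (nat_lit 1824) (nat_lit 3540354248) (nat_lit 456) (nat_lit 5) (nat_lit 479) (nat_lit 5) (nat_lit 480) (nat_lit 5) (nat_lit 577) (nat_lit 550) (nat_lit 433)) (XT.nd (nat_lit 78) (nat_lit 1672) (nat_lit 0) (XT.lf (nat_lit 0) (nat_lit 6980673388) (nat_lit 1748) (nat_lit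 1331520428) (nat_lit 1824) (nat_lit 2024541160) (nat_lit 456) (nat_lit 5) (nat_lit 479) (nat_lit 5) (nat_lit 480) (nat_lit 5) (nat_lit 578) (nat_lit 550) (nat_lit 432)) (XT.lf (nat_lit 0) (nat_lit 2415693138) (nat_lit 1672) (nat_lit 7558690700) (nat_lit 1748) (nat_lit 462411267) (nat_lit 434) (nat_lit 5) (nat_lit 456) (nat_lit 5) (nat_lit 457) (nat_lit 5) (nat_lit 579) (nat_lit 550) (nat_lit 431)))) (XT.nd (nat_lit 78) (nat_lit 988) (nat_lit 0) (XT.lf (nat_lit 0) (nat_lit 1128940931) (nat_lit 1748) (nat_lit 2223268528) (nat_lit 76) (nat_lit 7186246702) (nat_lit 433) (nat_lit 5) (nat_lit 456) (nat_lit 5) (nat_lit 434) (nat_lit 5) (nat_lit 580) (nat_lit 550) (nat_lit 430)) (XT.nd (nat_lit 78) (nat_lit 0) (nat_lit 0) (XT.lf (nat_lit 0) (nat_lit 2758059317) (nat_lit 1064) (nat_lit 6928611860) (nat_lit 76) (nat_lit 955178291) (nat_lit 420) (nat_lit 5) (nat_lit 434) (nat_lit 5) (nat_lit 421) (nat_lit 5) (nat_lit 581) (nat_lit 550) (nat_lit 429)) (XT.lf (nat_lit 0) (nat_lit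 4438930961) (nat_lit 1064) (nat_lit 987560891) (nat_lit 76) (nat_lit 5320438094) (nat_lit 420) (nat_lit 5) (nat_lit 434) (nat_lit 5) (nat_lit 421) (nat_lit 5) (nat_lit 582) (nat_lit 550) (nat_lit 428))))) (XT.nd (nat_lit 234) (nat_lit 1748) (nat_lit 0) (XT.nd (nat_lit 78) (nat_lit 912) (nat_lit 0) (XT.lf (nat_lit 0) (nat_lit 5122969736) (nat_lit 912) (nat_lit 1046018609) (nat_lit 988) (nat_lit 4684814991) (nat_lit 408) (nat_lit 5) (nat_lit 420) (nat_lit 5) (nat_lit 421) (nat_lit 5) (nat_lit 583) (nat_lit 550) (nat_lit 427)) (XT.nd (nat_lit 78) (nat_lit 0) (nat_lit 0) (XT.lf (nat_lit 0) (nat_lit 372256324) (nat_lit 912) (nat_lit 7575250343) (nat_lit 988) (nat_lit 3015032950) (nat_lit 396) (nat_lit 5) (nat_lit 408) (nat_lit 5) (nat_lit 409) (nat_lit 5) (nat_lit 584) (nat_lit 550) (nat_lit 426)) (XT.lf (nat_lit 0) (nat_lit 6651402406) (nat_lit 912) (nat_lit 3138319019) (nat_lit 988) (nat_lit 1283169242) (nat_lit 396) (nat_lit 5) (nat_lit 408) (nat_lit 5) (nat_lit 409) (nat_lit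 5) (nat_lit 585) (nat_lit 550) (nat_lit 425)))) (XT.nd (nat_lit 78) (nat_lit 836) (nat_lit 0) (XT.lf (nat_lit 0) (nat_lit 481292688) (nat_lit 912) (nat_lit 9319024058) (nat_lit 76) (nat_lit 1384985698) (nat_lit 384) (nat_lit 5) (nat_lit 396) (nat_lit 5) (nat_lit 385) (nat_lit 5) (nat_lit 586) (nat_lit 550) (nat_lit 424)) (XT.nd (nat_lit 78) (nat_lit 836) (nat_lit 0) (XT.lf (nat_lit 0) (nat_lit 2297767782) (nat_lit 912) (nat_lit 3005913391) (nat_lit 76) (nat_lit 5995435953) (nat_lit 384) (nat_lit 5) (nat_lit 396) (nat_lit 5) (nat_lit 385) (nat_lit 5) (nat_lit 587) (nat_lit 550) (nat_lit 423)) (XT.lf (nat_lit 0) (nat_lit 3462397614) (nat_lit 836) (nat_lit 694222518) (nat_lit 912) (nat_lit 7258469387) (nat_lit 373) (nat_lit 5) (nat_lit 384) (nat_lit 5) (nat_lit 385) (nat_lit 5) (nat_lit 588) (nat_lit 550) (nat_lit 422)))))) (XT.nd (nat_lit 468) (nat_lit 2964) (nat_lit 0) (XT.nd (nat_lit 234) (nat_lit 836) (nat_lit 0) (XT.nd (nat_lit 78) (nat_lit 1596) (nat_lit 0) (XT.lf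 (nat_lit 0) (nat_lit 6082755817) (nat_lit 912) (nat_lit 1474998768) (nat_lit 76) (nat_lit 3975026972) (nat_lit 373) (nat_lit 5) (nat_lit 385) (nat_lit 5) (nat_lit 374) (nat_lit 5) (nat_lit 589) (nat_lit 550) (nat_lit 421)) (XT.nd (nat_lit 78) (nat_lit 836) (nat_lit 0) (XT.lf (nat_lit 0) (nat_lit 5179215136) (nat_lit 760) (nat_lit 2890524047) (nat_lit 836) (nat_lit 3582644032) (nat_lit 363) (nat_lit 5) (nat_lit 373) (nat_lit 5) (nat_lit 374) (nat_lit 5) (nat_lit 590) (nat_lit 550) (nat_lit 420)) (XT.lf (nat_lit 0) (nat_lit 185993803) (nat_lit 836) (nat_lit 9918084334) (nat_lit 912) (nat_lit 1670148685) (nat_lit 352) (nat_lit 5) (nat_lit 363) (nat_lit 5) (nat_lit 364) (nat_lit 5) (nat_lit 591) (nat_lit 550) (nat_lit 419)))) (XT.nd (nat_lit 78) (nat_lit 760) (nat_lit 0) (XT.lf (nat_lit 0) (nat_lit 324184363) (nat_lit 912) (nat_lit 4869473371) (nat_lit 76) (nat_lit 6703869920) (nat_lit 351) (nat_lit 5) (nat_lit 363) (nat_lit 5) (nat_lit 352) (nat_lit 5) (nat_lit 592) (nat_lit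 550) (nat_lit 418)) (XT.nd (nat_lit 78) (nat_lit 0) (nat_lit 0) (XT.lf (nat_lit 0) (nat_lit 1982258138) (nat_lit 760) (nat_lit 351378866) (nat_lit 836) (nat_lit 9689486884) (nat_lit 341) (nat_lit 5) (nat_lit 351) (nat_lit 5) (nat_lit 352) (nat_lit 5) (nat_lit 593) (nat_lit 550) (nat_lit 417)) (XT.lf (nat_lit 0) (nat_lit 4430850854) (nat_lit 836) (nat_lit 3160079962) (nat_lit 76) (nat_lit 4559351852) (nat_lit 341) (nat_lit 5) (nat_lit 352) (nat_lit 5) (nat_lit 342) (nat_lit 5) (nat_lit 594) (nat_lit 550) (nat_lit 416))))) (XT.nd (nat_lit 234) (nat_lit 1520) (nat_lit 0) (XT.nd (nat_lit 78) (nat_lit 684) (nat_lit 0) (XT.lf (nat_lit 0) (nat_lit 3890817784) (nat_lit 760) (nat_lit 2691968541) (nat_lit 836) (nat_lit 5696944775) (nat_lit 331) (nat_lit 5) (nat_lit 341) (nat_lit 5) (nat_lit 342) (nat_lit 5) (nat_lit 595) (nat_lit 550) (nat_lit 415)) (XT.nd (nat_lit 78) (nat_lit 684) (nat_lit 0) (XT.lf (nat_lit 0) (nat_lit 8799437048) (nat_lit 836) (nat_lit 1317264866) (nat_lit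 76) (nat_lit 2294635039) (nat_lit 331) (nat_lit 5) (nat_lit 342) (nat_lit 5) (nat_lit 332) (nat_lit 5) (nat_lit 596) (nat_lit 550) (nat_lit 414)) (XT.lf (nat_lit 0) (nat_lit 5939828283) (nat_lit 684) (nat_lit 5162637270) (nat_lit 760) (nat_lit 1442270420) (nat_lit 322) (nat_lit 5) (nat_lit 331) (nat_lit 5) (nat_lit 332) (nat_lit 5) (nat_lit 597) (nat_lit 550) (nat_lit 413)))) (XT.nd (nat_lit 156) (nat_lit 684) (nat_lit 0) (XT.nd (nat_lit 78) (nat_lit 0) (nat_lit 0) (XT.lf (nat_lit 0) (nat_lit 666827410) (nat_lit 760) (nat_lit 92777128) (nat_lit 836) (nat_lit 11921120990) (nat_lit 311) (nat_lit 5) (nat_lit 321) (nat_lit 5) (nat_lit 322) (nat_lit 5) (nat_lit 598) (nat_lit 550) (nat_lit 412)) (XT.lf (nat_lit 0) (nat_lit 3049708608) (nat_lit 836) (nat_lit 4704150897) (nat_lit 76) (nat_lit 5064116461) (nat_lit 311) (nat_lit 5) (nat_lit 322) (nat_lit 5) (nat_lit 312) (nat_lit 5) (nat_lit 599) (nat_lit 550) (nat_lit 411))) (XT.nd (nat_lit 78) (nat_lit 0) (nat_lit 0) (XT.lf (nat_lit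 0) (nat_lit 2771532766) (nat_lit 684) (nat_lit 2618864339) (nat_lit 760) (nat_lit 7567480458) (nat_lit 302) (nat_lit 5) (nat_lit 311) (nat_lit 5) (nat_lit 312) (nat_lit 5) (nat_lit 600) (nat_lit 550) (nat_lit 410)) (XT.lf (nat_lit 0) (nat_lit 7813005725) (nat_lit 760) (nat_lit 2672810456) (nat_lit 76) (nat_lit 2614060645) (nat_lit 302) (nat_lit 5) (nat_lit 312) (nat_lit 5) (nat_lit 303) (nat_lit 5) (nat_lit 601) (nat_lit 550) (nat_lit 409))))))))
noncomputable def xc154 : XT := (XT.nd (nat_lit 1950) (nat_lit 5928) (nat_lit 0) (XT.nd (nat_lit 936) (nat_lit 4256) (nat_lit 0) (XT.nd (nat_lit 468) (nat_lit 1824) (nat_lit 0) (XT.nd (nat_lit 234) (nat_lit 1292) (nat_lit 0) (XT.nd (nat_lit 78) (nat_lit 684) (nat_lit 0) (XT.lf (nat_lit 0) (nat_lit 5023706067) (nat_lit 684) (nat_lit 5296916038) (nat_lit 760) (nat_lit 2923364585) (nat_lit 293) (nat_lit 5) (nat_lit 302) (nat_lit 5) (nat_lit 303) (nat_lit 5) (nat_lit 602) (nat_lit 550) (nat_lit 408)) (XT.nd (nat_lit 78) (nat_lit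 684) (nat_lit 0) (XT.lf (nat_lit 0) (nat_lit 12883157535) (nat_lit 760) (nat_lit 496305867) (nat_lit 76) (nat_lit 11421706) (nat_lit 293) (nat_lit 5) (nat_lit 303) (nat_lit 5) (nat_lit 294) (nat_lit 5) (nat_lit 603) (nat_lit 550) (nat_lit 407)) (XT.lf (nat_lit 0) (nat_lit 2001341313) (nat_lit 684) (nat_lit 6123648513) (nat_lit 76) (nat_lit 5414063767) (nat_lit 284) (nat_lit 5) (nat_lit 293) (nat_lit 5) (nat_lit 285) (nat_lit 5) (nat_lit 604) (nat_lit 550) (nat_lit 406)))) (XT.nd (nat_lit 78) (nat_lit 608) (nat_lit 0) (XT.lf (nat_lit 0) (nat_lit 1806532211) (nat_lit 684) (nat_lit 2749415677) (nat_lit 760) (nat_lit 9134128938) (nat_lit 275) (nat_lit 5) (nat_lit 284) (nat_lit 5) (nat_lit 285) (nat_lit 5) (nat_lit 605) (nat_lit 550) (nat_lit 405)) (XT.nd (nat_lit 78) (nat_lit 608) (nat_lit 0) (XT.lf (nat_lit 0) (nat_lit 7207960726) (nat_lit 760) (nat_lit 3898865802) (nat_lit 76) (nat_lit 2736369277) (nat_lit 275) (nat_lit 5) (nat_lit 285) (nat_lit 5) (nat_lit 276) (nat_lit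 5) (nat_lit 606) (nat_lit 550) (nat_lit 404)) (XT.lf (nat_lit 0) (nat_lit 4267711103) (nat_lit 608) (nat_lit 5678670842) (nat_lit 684) (nat_lit 4052329389) (nat_lit 267) (nat_lit 5) (nat_lit 275) (nat_lit 5) (nat_lit 276) (nat_lit 5) (nat_lit 607) (nat_lit 550) (nat_lit 403))))) (XT.nd (nat_lit 234) (nat_lit 608) (nat_lit 0) (XT.nd (nat_lit 78) (nat_lit 1216) (nat_lit 0) (XT.lf (nat_lit 0) (nat_lit 12635012830) (nat_lit 608) (nat_lit 118319160) (nat_lit 684) (nat_lit 1403731479) (nat_lit 267) (nat_lit 5) (nat_lit 275) (nat_lit 5) (nat_lit 276) (nat_lit 5) (nat_lit 608) (nat_lit 550) (nat_lit 402)) (XT.nd (nat_lit 78) (nat_lit 532) (nat_lit 0) (XT.lf (nat_lit 0) (nat_lit 1349880456) (nat_lit 684) (nat_lit 7436085414) (nat_lit 76) (nat_lit 5531068425) (nat_lit 258) (nat_lit 5) (nat_lit 267) (nat_lit 5) (nat_lit 259) (nat_lit 5) (nat_lit 609) (nat_lit 550) (nat_lit 401)) (XT.lf (nat_lit 0) (nat_lit 979903753) (nat_lit 532) (nat_lit 3165188815) (nat_lit 608) (nat_lit 10334821333)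 (nat_lit 251) (nat_lit 5) (nat_lit 258) (nat_lit 5) (nat_lit 259) (nat_lit 5) (nat_lit 610) (nat_lit 550) (nat_lit 400)))) (XT.nd (nat_lit 78) (nat_lit 608) (nat_lit 0) (XT.lf (nat_lit 0) (nat_lit 7051108078) (nat_lit 608) (nat_lit 5012603964) (nat_lit 76) (nat_lit 2581242463) (nat_lit 251) (nat_lit 5) (nat_lit 259) (nat_lit 5) (nat_lit 252) (nat_lit 5) (nat_lit 611) (nat_lit 550) (nat_lit 399)) (XT.nd (nat_lit 78) (nat_lit 0) (nat_lit 0) (XT.lf (nat_lit 0) (nat_lit 3656288756) (nat_lit 608) (nat_lit 6391886551) (nat_lit 684) (nat_lit 4764463349) (nat_lit 243) (nat_lit 5) (nat_lit 251) (nat_lit 5) (nat_lit 252) (nat_lit 5) (nat_lit 612) (nat_lit 550) (nat_lit 398)) (XT.lf (nat_lit 0) (nat_lit 12551353889) (nat_lit 608) (nat_lit 575830433) (nat_lit 684) (nat_lit 1856053492) (nat_lit 243) (nat_lit 5) (nat_lit 251) (nat_lit 5) (nat_lit 252) (nat_lit 5) (nat_lit 613) (nat_lit 550) (nat_lit 397)))))) (XT.nd (nat_lit 468) (nat_lit 1976) (nat_lit 0) (XT.nd (nat_lit 234) (nat_lit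 1140) (nat_lit 0) (XT.nd (nat_lit 78) (nat_lit 532) (nat_lit 0) (XT.lf (nat_lit 0) (nat_lit 1161958649) (nat_lit 608) (nat_lit 8661071282) (nat_lit 76) (nat_lit 5332756126) (nat_lit 235) (nat_lit 5) (nat_lit 243) (nat_lit 5) (nat_lit 236) (nat_lit 5) (nat_lit 614) (nat_lit 550) (nat_lit 396)) (XT.nd (nat_lit 78) (nat_lit 0) (nat_lit 0) (XT.lf (nat_lit 0) (nat_lit 273610586) (nat_lit 532) (nat_lit 3952528206) (nat_lit 608) (nat_lit 11105189154) (nat_lit 228) (nat_lit 5) (nat_lit 235) (nat_lit 5) (nat_lit 236) (nat_lit 5) (nat_lit 615) (nat_lit 550) (nat_lit 395)) (XT.lf (nat_lit 0) (nat_lit 7412043944) (nat_lit 608) (nat_lit 6033647484) (nat_lit 76) (nat_lit 2063481650) (nat_lit 228) (nat_lit 5) (nat_lit 236) (nat_lit 5) (nat_lit 229) (nat_lit 5) (nat_lit 616) (nat_lit 550) (nat_lit 394)))) (XT.nd (nat_lit 78) (nat_lit 608) (nat_lit 0) (XT.lf (nat_lit 0) (nat_lit 3171401563) (nat_lit 532) (nat_lit 7525974412) (nat_lit 608) (nat_lit 4992486172) (nat_lit 221) (nat_lit 5)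 (nat_lit 228) (nat_lit 5) (nat_lit 229) (nat_lit 5) (nat_lit 617) (nat_lit 550) (nat_lit 393)) (XT.nd (nat_lit 78) (nat_lit 608) (nat_lit 0) (XT.lf (nat_lit 0) (nat_lit 12627517384) (nat_lit 532) (nat_lit 1450449048) (nat_lit 608) (nat_lit 1795608713) (nat_lit 221) (nat_lit 5) (nat_lit 228) (nat_lit 5) (nat_lit 229) (nat_lit 5) (nat_lit 618) (nat_lit 550) (nat_lit 392)) (XT.lf (nat_lit 0) (nat_lit 1507028285) (nat_lit 608) (nat_lit 9821466234) (nat_lit 76) (nat_lit 4731057994) (nat_lit 213) (nat_lit 5) (nat_lit 221) (nat_lit 5) (nat_lit 214) (nat_lit 5) (nat_lit 619) (nat_lit 550) (nat_lit 391))))) (XT.nd (nat_lit 234) (nat_lit 988) (nat_lit 0) (XT.nd (nat_lit 78) (nat_lit 988) (nat_lit 0) (XT.lf (nat_lit 0) (nat_lit 4872526740) (nat_lit 608) (nat_lit 329309383) (nat_lit 76) (nat_lit 11046760003) (nat_lit 213) (nat_lit 5) (nat_lit 221) (nat_lit 5) (nat_lit 214) (nat_lit 5) (nat_lit 620) (nat_lit 550) (nat_lit 390)) (XT.nd (nat_lit 78) (nat_lit 532) (nat_lit 0) (XT.lf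 (nat_lit 0) (nat_lit 8363458546) (nat_lit 532) (nat_lit 6985272519) (nat_lit 76) (nat_lit 1091528176) (nat_lit 207) (nat_lit 5) (nat_lit 214) (nat_lit 5) (nat_lit 208) (nat_lit 5) (nat_lit 621) (nat_lit 550) (nat_lit 389)) (XT.lf (nat_lit 0) (nat_lit 2791299200) (nat_lit 532) (nat_lit 9177299520) (nat_lit 608) (nat_lit 4666270176) (nat_lit 200) (nat_lit 5) (nat_lit 207) (nat_lit 5) (nat_lit 208) (nat_lit 5) (nat_lit 622) (nat_lit 550) (nat_lit 388)))) (XT.nd (nat_lit 156) (nat_lit 456) (nat_lit 0) (XT.nd (nat_lit 78) (nat_lit 532) (nat_lit 0) (XT.lf (nat_lit 0) (nat_lit 12843618877) (nat_lit 532) (nat_lit 2838800826) (nat_lit 608) (nat_lit 1150220533) (nat_lit 200) (nat_lit 5) (nat_lit 207) (nat_lit 5) (nat_lit 208) (nat_lit 5) (nat_lit 623) (nat_lit 550) (nat_lit 387)) (XT.lf (nat_lit 0) (nat_lit 2457610090) (nat_lit 532) (nat_lit 10944700904) (nat_lit 76) (nat_lit 3630672467) (nat_lit 193) (nat_lit 5) (nat_lit 200) (nat_lit 5) (nat_lit 194) (nat_lit 5) (nat_lit 624)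 (nat_lit 550) (nat_lit 386))) (XT.nd (nat_lit 78) (nat_lit 456) (nat_lit 0) (XT.lf (nat_lit 0) (nat_lit 6157872956) (nat_lit 532) (nat_lit 856591831) (nat_lit 76) (nat_lit 10222004156) (nat_lit 193) (nat_lit 5) (nat_lit 200) (nat_lit 5) (nat_lit 194) (nat_lit 5) (nat_lit 625) (nat_lit 550) (nat_lit 385)) (XT.lf (nat_lit 0) (nat_lit 9544333701) (nat_lit 456) (nat_lit 439890202) (nat_lit 532) (nat_lit 7458759546) (nat_lit 187) (nat_lit 5) (nat_lit 193) (nat_lit 5) (nat_lit 194) (nat_lit 5) (nat_lit 626) (nat_lit 550) (nat_lit 384))))))) (XT.nd (nat_lit 936) (nat_lit 2812) (nat_lit 0) (XT.nd (nat_lit 468) (nat_lit 1292) (nat_lit 0) (XT.nd (nat_lit 234) (nat_lit 836) (nat_lit 0) (XT.nd (nat_lit 78) (nat_lit 532) (nat_lit 0) (XT.lf (nat_lit 0) (nat_lit 2489101049) (nat_lit 456) (nat_lit 11450821995) (nat_lit 532) (nat_lit 3712649732) (nat_lit 181) (nat_lit 5) (nat_lit 187) (nat_lit 5) (nat_lit 188) (nat_lit 5) (nat_lit 627) (nat_lit 550) (nat_lit 383)) (XT.nd (nat_lit 78)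 (nat_lit 456) (nat_lit 0) (XT.lf (nat_lit 0) (nat_lit 153454542) (nat_lit 532) (nat_lit 4691821476) (nat_lit 76) (nat_lit 13020134839) (nat_lit 180) (nat_lit 5) (nat_lit 187) (nat_lit 5) (nat_lit 181) (nat_lit 5) (nat_lit 628) (nat_lit 550) (nat_lit 382)) (XT.lf (nat_lit 0) (nat_lit 4089461833) (nat_lit 532) (nat_lit 12064303009) (nat_lit 76) (nat_lit 1927405078) (nat_lit 174) (nat_lit 5) (nat_lit 181) (nat_lit 5) (nat_lit 175) (nat_lit 5) (nat_lit 629) (nat_lit 550) (nat_lit 381)))) (XT.nd (nat_lit 78) (nat_lit 836) (nat_lit 0) (XT.lf (nat_lit 0) (nat_lit 8158456823) (nat_lit 532) (nat_lit 1343609097) (nat_lit 76) (nat_lit 8798093774) (nat_lit 174) (nat_lit 5) (nat_lit 181) (nat_lit 5) (nat_lit 175) (nat_lit 5) (nat_lit 630) (nat_lit 550) (nat_lit 380)) (XT.nd (nat_lit 78) (nat_lit 456) (nat_lit 0) (XT.lf (nat_lit 0) (nat_lit 9705030800) (nat_lit 380) (nat_lit 2657485480) (nat_lit 456) (nat_lit 6159940154) (nat_lit 169) (nat_lit 5) (nat_lit 174) (nat_lit 5) (nat_lit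 175) (nat_lit 5) (nat_lit 631) (nat_lit 550) (nat_lit 379)) (XT.lf (nat_lit 0) (nat_lit 2231148297) (nat_lit 456) (nat_lit 14461883460) (nat_lit 532) (nat_lit 2055320704) (nat_lit 163) (nat_lit 5) (nat_lit 169) (nat_lit 5) (nat_lit 170) (nat_lit 5) (nat_lit 632) (nat_lit 550) (nat_lit 378))))) (XT.nd (nat_lit 234) (nat_lit 836) (nat_lit 0) (XT.nd (nat_lit 78) (nat_lit 380) (nat_lit 0) (XT.lf (nat_lit 0) (nat_lit 2171367661) (nat_lit 532) (nat_lit 5403046261) (nat_lit 76) (nat_lit 11402717928) (nat_lit 162) (nat_lit 5) (nat_lit 169) (nat_lit 5) (nat_lit 163) (nat_lit 5) (nat_lit 633) (nat_lit 550) (nat_lit 377)) (XT.nd (nat_lit 78) (nat_lit 0) (nat_lit 0) (XT.lf (nat_lit 0) (nat_lit 5984695348) (nat_lit 380) (nat_lit 500206476) (nat_lit 456) (nat_lit 12724717432) (nat_lit 157) (nat_lit 5) (nat_lit 162) (nat_lit 5) (nat_lit 163) (nat_lit 5) (nat_lit 634) (nat_lit 550) (nat_lit 376)) (XT.lf (nat_lit 0) (nat_lit 10955816344) (nat_lit 456) (nat_lit 1830080907) (nat_lit 76)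 (nat_lit 6659437748) (nat_lit 157) (nat_lit 5) (nat_lit 163) (nat_lit 5) (nat_lit 158) (nat_lit 5) (nat_lit 635) (nat_lit 550) (nat_lit 375)))) (XT.nd (nat_lit 78) (nat_lit 456) (nat_lit 0) (XT.lf (nat_lit 0) (nat_lit 9905891675) (nat_lit 380) (nat_lit 5669072872) (nat_lit 456) (nat_lit 4109624968) (nat_lit 152) (nat_lit 5) (nat_lit 157) (nat_lit 5) (nat_lit 158) (nat_lit 5) (nat_lit 636) (nat_lit 550) (nat_lit 374)) (XT.nd (nat_lit 78) (nat_lit 0) (nat_lit 0) (XT.lf (nat_lit 0) (nat_lit 380103191) (nat_lit 456) (nat_lit 17955519726) (nat_lit 76) (nat_lit 1592421870) (nat_lit 146) (nat_lit 5) (nat_lit 152) (nat_lit 5) (nat_lit 147) (nat_lit 5) (nat_lit 637) (nat_lit 550) (nat_lit 373)) (XT.lf (nat_lit 0) (nat_lit 4999518803) (nat_lit 456) (nat_lit 6162383959) (nat_lit 76) (nat_lit 9012025418) (nat_lit 146) (nat_lit 5) (nat_lit 152) (nat_lit 5) (nat_lit 147) (nat_lit 5) (nat_lit 638) (nat_lit 550) (nat_lit 372)))))) (XT.nd (nat_lit 468) (nat_lit 1368) (nat_lit 0) (XT.nd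 (nat_lit 234) (nat_lit 760) (nat_lit 0) (XT.nd (nat_lit 78) (nat_lit 304) (nat_lit 0) (XT.lf (nat_lit 0) (nat_lit 5931208999) (nat_lit 380) (nat_lit 3810065244) (nat_lit 456) (nat_lit 10682856674) (nat_lit 141) (nat_lit 5) (nat_lit 146) (nat_lit 5) (nat_lit 147) (nat_lit 5) (nat_lit 639) (nat_lit 550) (nat_lit 371)) (XT.nd (nat_lit 78) (nat_lit 304) (nat_lit 0) (XT.lf (nat_lit 0) (nat_lit 14634936482) (nat_lit 456) (nat_lit 2365775867) (nat_lit 76) (nat_lit 3677484621) (nat_lit 141) (nat_lit 5) (nat_lit 147) (nat_lit 5) (nat_lit 142) (nat_lit 5) (nat_lit 640) (nat_lit 550) (nat_lit 370)) (XT.lf (nat_lit 0) (nat_lit 10098131746) (nat_lit 304) (nat_lit 9610797773) (nat_lit 380) (nat_lit 1226766355) (nat_lit 137) (nat_lit 5) (nat_lit 141) (nat_lit 5) (nat_lit 142) (nat_lit 5) (nat_lit 641) (nat_lit 550) (nat_lit 369)))) (XT.nd (nat_lit 78) (nat_lit 304) (nat_lit 0) (XT.lf (nat_lit 0) (nat_lit 1629681429) (nat_lit 380) (nat_lit 2026280570) (nat_lit 456) (nat_lit 17541539812)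 (nat_lit 131) (nat_lit 5) (nat_lit 136) (nat_lit 5) (nat_lit 137) (nat_lit 5) (nat_lit 642) (nat_lit 550) (nat_lit 368)) (XT.nd (nat_lit 78) (nat_lit 304) (nat_lit 0) (XT.lf (nat_lit 0) (nat_lit 8721948447) (nat_lit 456) (nat_lit 7028652865) (nat_lit 76) (nat_lit 5711740419) (nat_lit 131) (nat_lit 5) (nat_lit 137) (nat_lit 5) (nat_lit 132) (nat_lit 5) (nat_lit 643) (nat_lit 550) (nat_lit 367)) (XT.lf (nat_lit 0) (nat_lit 5811288248) (nat_lit 304) (nat_lit 8121012809) (nat_lit 380) (nat_lit 7799317092) (nat_lit 127) (nat_lit 5) (nat_lit 131) (nat_lit 5) (nat_lit 132) (nat_lit 5) (nat_lit 644) (nat_lit 550) (nat_lit 366))))) (XT.nd (nat_lit 234) (nat_lit 684) (nat_lit 0) (XT.nd (nat_lit 78) (nat_lit 684) (nat_lit 0) (XT.lf (nat_lit 0) (nat_lit 18990580910) (nat_lit 304) (nat_lit 295418676) (nat_lit 380) (nat_lit 2719498349) (nat_lit 127) (nat_lit 5) (nat_lit 131) (nat_lit 5) (nat_lit 132) (nat_lit 5) (nat_lit 645) (nat_lit 550) (nat_lit 365)) (XT.nd (nat_lit 78) (nat_lit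 304) (nat_lit 0) (XT.lf (nat_lit 0) (nat_lit 2538708707) (nat_lit 380) (nat_lit 12079255909) (nat_lit 76) (nat_lit 7664389998) (nat_lit 122) (nat_lit 5) (nat_lit 127) (nat_lit 5) (nat_lit 123) (nat_lit 5) (nat_lit 646) (nat_lit 550) (nat_lit 364)) (XT.lf (nat_lit 0) (nat_lit 1144282560) (nat_lit 304) (nat_lit 6743290438) (nat_lit 380) (nat_lit 14676378347) (nat_lit 118) (nat_lit 5) (nat_lit 122) (nat_lit 5) (nat_lit 123) (nat_lit 5) (nat_lit 647) (nat_lit 550) (nat_lit 363)))) (XT.nd (nat_lit 156) (nat_lit 380) (nat_lit 0) (XT.nd (nat_lit 78) (nat_lit 304) (nat_lit 0) (XT.lf (nat_lit 0) (nat_lit 13425541725) (nat_lit 380) (nat_lit 8075101036) (nat_lit 76) (nat_lit 1348895277) (nat_lit 118) (nat_lit 5) (nat_lit 123) (nat_lit 5) (nat_lit 119) (nat_lit 5) (nat_lit 648) (nat_lit 550) (nat_lit 362)) (XT.lf (nat_lit 0) (nat_lit 5552099233) (nat_lit 304) (nat_lit 13595193635) (nat_lit 380) (nat_lit 3992083695) (nat_lit 114) (nat_lit 5) (nat_lit 118) (nat_lit 5) (nat_lit 119)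 (nat_lit 5) (nat_lit 649) (nat_lit 550) (nat_lit 361))) (XT.nd (nat_lit 78) (nat_lit 304) (nat_lit 0) (XT.lf (nat_lit 0) (nat_lit 1575042957) (nat_lit 380) (nat_lit 3895475741) (nat_lit 76) (nat_lit 17963354938) (nat_lit 113) (nat_lit 5) (nat_lit 118) (nat_lit 5) (nat_lit 114) (nat_lit 5) (nat_lit 650) (nat_lit 550) (nat_lit 360)) (XT.lf (nat_lit 0) (nat_lit 7277461741) (nat_lit 380) (nat_lit 13586588903) (nat_lit 76) (nat_lit 2868134710) (nat_lit 109) (nat_lit 5) (nat_lit 114) (nat_lit 5) (nat_lit 110) (nat_lit 5) (nat_lit 651) (nat_lit 550) (nat_lit 359))))))))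
noncomputable def xc155 : XT := (XT.nd (nat_lit 74958) (nat_lit 0) (nat_lit 17480) (XT.nd (nat_lit 73944) (nat_lit 0) (nat_lit 31768) (XT.nd (nat_lit 73476) (nat_lit 0) (nat_lit 33136) (XT.nd (nat_lit 234) (nat_lit 0) (nat_lit 0) (XT.nd (nat_lit 78) (nat_lit 304) (nat_lit 0) (XT.lf (nat_lit 0) (nat_lit 441508866) (nat_lit 304) (nat_lit 12710354756) (nat_lit 380) (nat_lit 10883441503) (nat_lit 105) (nat_lit 5) (nat_lit 109) (nat_lit 5) (nat_lit 110) (nat_lit 5) (nat_lit 652) (nat_lit 550) (nat_lit 358)) (XT.nd (nat_lit 78) (nat_lit 304) (nat_lit 0) (XT.lf (nat_lit 0) (nat_lit 14922185183) (nat_lit 304) (nat_lit 4305334911) (nat_lit 380) (nat_lit 5115292373) (nat_lit 105) (nat_lit 5) (nat_lit 109) (nat_lit 5) (nat_lit 110) (nat_lit 5) (nat_lit 653) (nat_lit 550) (nat_lit 357)) (XT.lf (nat_lit 0) (nat_lit 811784675) (nat_lit 304) (nat_lit 19598082278) (nat_lit 76) (nat_lit 4245430928) (nat_lit 101) (nat_lit 5) (nat_lit 105) (nat_lit 5) (nat_lit 102) (nat_lit 5) (nat_lit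 654) (nat_lit 550) (nat_lit 356)))) (XT.nd (nat_lit 73086) (nat_lit 0) (nat_lit 34504) (XT.lf (nat_lit 0) (nat_lit 6873847149) (nat_lit 304) (nat_lit 5095309554) (nat_lit 76) (nat_lit 13002501783) (nat_lit 101) (nat_lit 5) (nat_lit 105) (nat_lit 5) (nat_lit 102) (nat_lit 5) (nat_lit 655) (nat_lit 550) (nat_lit 355)) (XT.nd (nat_lit 78) (nat_lit 0) (nat_lit 0) (XT.lf (nat_lit 0) (nat_lit 240476717) (nat_lit 0) (nat_lit 240476717) (nat_lit 1444) (nat_lit 3658894655) (nat_lit 555) (nat_lit 5) (nat_lit 555) (nat_lit 3) (nat_lit 574) (nat_lit 3) (nat_lit 551) (nat_lit 551) (nat_lit 458)) (XT.lf (nat_lit 0) (nat_lit 2096136206) (nat_lit 1444) (nat_lit 3743725253) (nat_lit 1520) (nat_lit 2499943857) (nat_lit 555) (nat_lit 5) (nat_lit 574) (nat_lit 3) (nat_lit 575) (nat_lit 5) (nat_lit 552) (nat_lit 551) (nat_lit 457))))) (XT.nd (nat_lit 234) (nat_lit 1368) (nat_lit 0) (XT.nd (nat_lit 78) (nat_lit 0) (nat_lit 76) (XT.lf (nat_lit 76) (nat_lit 378963030) (nat_lit 0) (nat_lit 2850759542)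 (nat_lit 1520) (nat_lit 5171865744) (nat_lit 556) (nat_lit 5) (nat_lit 555) (nat_lit 5) (nat_lit 575) (nat_lit 5) (nat_lit 553) (nat_lit 551) (nat_lit 456)) (XT.nd (nat_lit 78) (nat_lit 0) (nat_lit 0) (XT.lf (nat_lit 0) (nat_lit 4384139499) (nat_lit 1444) (nat_lit 3846481530) (nat_lit 1520) (nat_lit 234027802) (nat_lit 556) (nat_lit 5) (nat_lit 575) (nat_lit 5) (nat_lit 576) (nat_lit 5) (nat_lit 554) (nat_lit 551) (nat_lit 455)) (XT.lf (nat_lit 76) (nat_lit 383873278) (nat_lit 0) (nat_lit 5171283968) (nat_lit 1520) (nat_lit 2973947993) (nat_lit 557) (nat_lit 5) (nat_lit 556) (nat_lit 5) (nat_lit 576) (nat_lit 5) (nat_lit 555) (nat_lit 551) (nat_lit 454)))) (XT.nd (nat_lit 78) (nat_lit 1444) (nat_lit 0) (XT.lf (nat_lit 76) (nat_lit 4735609822) (nat_lit 0) (nat_lit 2012384854) (nat_lit 1520) (nat_lit 1846892947) (nat_lit 557) (nat_lit 5) (nat_lit 556) (nat_lit 5) (nat_lit 576) (nat_lit 5) (nat_lit 556) (nat_lit 551) (nat_lit 453)) (XT.nd (nat_lit 78) (nat_lit 1520) (nat_lit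 0) (XT.lf (nat_lit 76) (nat_lit 495354911) (nat_lit 0) (nat_lit 7453605840) (nat_lit 1520) (nat_lit 713344207) (nat_lit 558) (nat_lit 5) (nat_lit 557) (nat_lit 5) (nat_lit 577) (nat_lit 5) (nat_lit 557) (nat_lit 551) (nat_lit 452)) (XT.lf (nat_lit 0) (nat_lit 449910115) (nat_lit 1520) (nat_lit 3773470213) (nat_lit 1596) (nat_lit 4507380499) (nat_lit 537) (nat_lit 5) (nat_lit 557) (nat_lit 5) (nat_lit 558) (nat_lit 5) (nat_lit 558) (nat_lit 551) (nat_lit 451)))))) (XT.nd (nat_lit 468) (nat_lit 1368) (nat_lit 0) (XT.nd (nat_lit 234) (nat_lit 0) (nat_lit 152) (XT.nd (nat_lit 78) (nat_lit 0) (nat_lit 76) (XT.lf (nat_lit 76) (nat_lit 696667164) (nat_lit 0) (nat_lit 908710143) (nat_lit 1596) (nat_lit 7195548680) (nat_lit 538) (nat_lit 5) (nat_lit 537) (nat_lit 5) (nat_lit 558) (nat_lit 5) (nat_lit 559) (nat_lit 551) (nat_lit 450)) (XT.nd (nat_lit 78) (nat_lit 0) (nat_lit 0) (XT.lf (nat_lit 0) (nat_lit 2799937574) (nat_lit 1520) (nat_lit 3596954007) (nat_lit 1596) (nat_lit 2475287574)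 (nat_lit 538) (nat_lit 5) (nat_lit 558) (nat_lit 5) (nat_lit 559) (nat_lit 5) (nat_lit 560) (nat_lit 551) (nat_lit 449)) (XT.lf (nat_lit 76) (nat_lit 991696547) (nat_lit 0) (nat_lit 3014092880) (nat_lit 1596) (nat_lit 4939324245) (nat_lit 539) (nat_lit 5) (nat_lit 538) (nat_lit 5) (nat_lit 559) (nat_lit 5) (nat_lit 561) (nat_lit 551) (nat_lit 448)))) (XT.nd (nat_lit 78) (nat_lit 0) (nat_lit 0) (XT.lf (nat_lit 0) (nat_lit 5238280237) (nat_lit 1520) (nat_lit 3317380040) (nat_lit 1596) (nat_lit 463800373) (nat_lit 539) (nat_lit 5) (nat_lit 559) (nat_lit 5) (nat_lit 560) (nat_lit 5) (nat_lit 562) (nat_lit 551) (nat_lit 447)) (XT.nd (nat_lit 78) (nat_lit 0) (nat_lit 0) (XT.lf (nat_lit 76) (nat_lit 1393774271) (nat_lit 0) (nat_lit 5106530762) (nat_lit 1596) (nat_lit 2594895979) (nat_lit 540) (nat_lit 5) (nat_lit 539) (nat_lit 5) (nat_lit 560) (nat_lit 5) (nat_lit 563) (nat_lit 551) (nat_lit 446)) (XT.lf (nat_lit 76) (nat_lit 6228302146) (nat_lit 0) (nat_lit 1557773890) (nat_lit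 1596) (nat_lit 1386414076) (nat_lit 540) (nat_lit 5) (nat_lit 539) (nat_lit 5) (nat_lit 560) (nat_lit 5) (nat_lit 564) (nat_lit 551) (nat_lit 445))))) (XT.nd (nat_lit 234) (nat_lit 0) (nat_lit 76) (XT.nd (nat_lit 78) (nat_lit 1596) (nat_lit 0) (XT.lf (nat_lit 76) (nat_lit 1903748354) (nat_lit 0) (nat_lit 7196322774) (nat_lit 1596) (nat_lit 151207660) (nat_lit 541) (nat_lit 5) (nat_lit 540) (nat_lit 5) (nat_lit 561) (nat_lit 5) (nat_lit 565) (nat_lit 551) (nat_lit 444)) (XT.nd (nat_lit 78) (nat_lit 0) (nat_lit 76) (XT.lf (nat_lit 0) (nat_lit 1101323881) (nat_lit 1596) (nat_lit 2476573329) (nat_lit 1672) (nat_lit 5753462635) (nat_lit 519) (nat_lit 5) (nat_lit 540) (nat_lit 5) (nat_lit 541) (nat_lit 5) (nat_lit 566) (nat_lit 551) (nat_lit 443)) (XT.lf (nat_lit 0) (nat_lit 2371465615) (nat_lit 1596) (nat_lit 6906265659) (nat_lit 1672) (nat_lit 135403312) (nat_lit 520) (nat_lit 5) (nat_lit 541) (nat_lit 5) (nat_lit 542) (nat_lit 5) (nat_lit 567) (nat_lit 551) (nat_lit 442))))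 (XT.nd (nat_lit 156) (nat_lit 0) (nat_lit 76) (XT.nd (nat_lit 78) (nat_lit 0) (nat_lit 0) (XT.lf (nat_lit 0) (nat_lit 3685225539) (nat_lit 1596) (nat_lit 1912766284) (nat_lit 1672) (nat_lit 3898192356) (nat_lit 520) (nat_lit 5) (nat_lit 541) (nat_lit 5) (nat_lit 542) (nat_lit 5) (nat_lit 568) (nat_lit 551) (nat_lit 441)) (XT.lf (nat_lit 76) (nat_lit 3206679120) (nat_lit 0) (nat_lit 1817628391) (nat_lit 1672) (nat_lit 4556609909) (nat_lit 521) (nat_lit 5) (nat_lit 520) (nat_lit 5) (nat_lit 542) (nat_lit 5) (nat_lit 569) (nat_lit 551) (nat_lit 440))) (XT.nd (nat_lit 78) (nat_lit 0) (nat_lit 0) (XT.lf (nat_lit 0) (nat_lit 6394913072) (nat_lit 1596) (nat_lit 1242310100) (nat_lit 1672) (nat_lit 2030030836) (nat_lit 521) (nat_lit 5) (nat_lit 542) (nat_lit 5) (nat_lit 543) (nat_lit 5) (nat_lit 570) (nat_lit 551) (nat_lit 439)) (XT.lf (nat_lit 76) (nat_lit 4016878237) (nat_lit 0) (nat_lit 3793176885) (nat_lit 1672) (nat_lit 1944923173) (nat_lit 522) (nat_lit 5) (nat_lit 521)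 (nat_lit 5) (nat_lit 543) (nat_lit 5) (nat_lit 571) (nat_lit 551) (nat_lit 438))))))) (XT.nd (nat_lit 936) (nat_lit 5852) (nat_lit 0) (XT.nd (nat_lit 468) (nat_lit 5396) (nat_lit 0) (XT.nd (nat_lit 234) (nat_lit 1596) (nat_lit 0) (XT.nd (nat_lit 78) (nat_lit 1672) (nat_lit 0) (XT.lf (nat_lit 0) (nat_lit 9242067317) (nat_lit 1596) (nat_lit 463450650) (nat_lit 1672) (nat_lit 139171139) (nat_lit 522) (nat_lit 5) (nat_lit 543) (nat_lit 5) (nat_lit 544) (nat_lit 5) (nat_lit 572) (nat_lit 551) (nat_lit 437)) (XT.nd (nat_lit 78) (nat_lit 0) (nat_lit 0) (XT.lf (nat_lit 0) (nat_lit 793661194) (nat_lit 1672) (nat_lit 5000360364) (nat_lit 1748) (nat_lit 4141332520) (nat_lit 500) (nat_lit 5) (nat_lit 522) (nat_lit 5) (nat_lit 523) (nat_lit 5) (nat_lit 573) (nat_lit 551) (nat_lit 436)) (XT.lf (nat_lit 76) (nat_lit 405009743) (nat_lit 0) (nat_lit 1790467978) (nat_lit 1748) (nat_lit 7832564612) (nat_lit 501) (nat_lit 5) (nat_lit 500) (nat_lit 5) (nat_lit 523) (nat_lit 5) (nat_lit 574)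 (nat_lit 551) (nat_lit 435)))) (XT.nd (nat_lit 78) (nat_lit 1672) (nat_lit 0) (XT.lf (nat_lit 0) (nat_lit 3654219199) (nat_lit 1672) (nat_lit 4167281814) (nat_lit 76) (nat_lit 2300508695) (nat_lit 501) (nat_lit 5) (nat_lit 523) (nat_lit 5) (nat_lit 502) (nat_lit 5) (nat_lit 575) (nat_lit 551) (nat_lit 434)) (XT.nd (nat_lit 78) (nat_lit 0) (nat_lit 0) (XT.lf (nat_lit 0) (nat_lit 1387724773) (nat_lit 1672) (nat_lit 3755888616) (nat_lit 1748) (nat_lit 5074216551) (nat_lit 479) (nat_lit 5) (nat_lit 501) (nat_lit 5) (nat_lit 502) (nat_lit 5) (nat_lit 576) (nat_lit 551) (nat_lit 433)) (XT.lf (nat_lit 0) (nat_lit 6674389910) (nat_lit 1748) (nat_lit 3223911600) (nat_lit 76) (nat_lit 417036183) (nat_lit 479) (nat_lit 5) (nat_lit 502) (nat_lit 5) (nat_lit 480) (nat_lit 5) (nat_lit 577) (nat_lit 551) (nat_lit 432))))) (XT.nd (nat_lit 234) (nat_lit 1900) (nat_lit 0) (XT.nd (nat_lit 78) (nat_lit 1748) (nat_lit 0) (XT.lf (nat_lit 0) (nat_lit 2485959395) (nat_lit 1748) (nat_lit 5772116626)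 (nat_lit 1824) (nat_lit 2156276645) (nat_lit 456) (nat_lit 5) (nat_lit 479) (nat_lit 5) (nat_lit 480) (nat_lit 5) (nat_lit 578) (nat_lit 551) (nat_lit 431)) (XT.nd (nat_lit 78) (nat_lit 1748) (nat_lit 0) (XT.lf (nat_lit 0) (nat_lit 8337658395) (nat_lit 1748) (nat_lit 1538954449) (nat_lit 1824) (nat_lit 638674446) (nat_lit 456) (nat_lit 5) (nat_lit 479) (nat_lit 5) (nat_lit 480) (nat_lit 5) (nat_lit 579) (nat_lit 551) (nat_lit 430)) (XT.lf (nat_lit 0) (nat_lit 921512098) (nat_lit 1748) (nat_lit 6921293324) (nat_lit 76) (nat_lit 2774836735) (nat_lit 433) (nat_lit 5) (nat_lit 456) (nat_lit 5) (nat_lit 434) (nat_lit 5) (nat_lit 580) (nat_lit 551) (nat_lit 429)))) (XT.nd (nat_lit 78) (nat_lit 1900) (nat_lit 0) (XT.lf (nat_lit 0) (nat_lit 2511309644) (nat_lit 1748) (nat_lit 1035215902) (nat_lit 76) (nat_lit 7175297683) (nat_lit 433) (nat_lit 5) (nat_lit 456) (nat_lit 5) (nat_lit 434) (nat_lit 5) (nat_lit 581) (nat_lit 551) (nat_lit 428)) (XT.nd (nat_lit 78) (nat_lit 912) (nat_lit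 0) (XT.lf (nat_lit 0) (nat_lit 4153540044) (nat_lit 1064) (nat_lit 5814993533) (nat_lit 76) (nat_lit 859144276) (nat_lit 420) (nat_lit 5) (nat_lit 434) (nat_lit 5) (nat_lit 421) (nat_lit 5) (nat_lit 582) (nat_lit 551) (nat_lit 427)) (XT.lf (nat_lit 0) (nat_lit 223253710) (nat_lit 912) (nat_lit 5619944146) (nat_lit 988) (nat_lit 5092162675) (nat_lit 408) (nat_lit 5) (nat_lit 420) (nat_lit 5) (nat_lit 421) (nat_lit 5) (nat_lit 583) (nat_lit 551) (nat_lit 426)))))) (XT.nd (nat_lit 468) (nat_lit 3192) (nat_lit 0) (XT.nd (nat_lit 234) (nat_lit 1748) (nat_lit 0) (XT.nd (nat_lit 78) (nat_lit 912) (nat_lit 0) (XT.lf (nat_lit 0) (nat_lit 6444990374) (nat_lit 912) (nat_lit 1143569238) (nat_lit 988) (nat_lit 3456201600) (nat_lit 408) (nat_lit 5) (nat_lit 420) (nat_lit 5) (nat_lit 421) (nat_lit 5) (nat_lit 584) (nat_lit 551) (nat_lit 425)) (XT.nd (nat_lit 78) (nat_lit 0) (nat_lit 0) (XT.lf (nat_lit 0) (nat_lit 1617679886) (nat_lit 912) (nat_lit 7767102893) (nat_lit 988) (nat_lit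 1771250561) (nat_lit 396) (nat_lit 5) (nat_lit 408) (nat_lit 5) (nat_lit 409) (nat_lit 5) (nat_lit 585) (nat_lit 551) (nat_lit 424)) (XT.lf (nat_lit 0) (nat_lit 7998134803) (nat_lit 912) (nat_lit 3240641814) (nat_lit 988) (nat_lit 30319834) (nat_lit 396) (nat_lit 5) (nat_lit 408) (nat_lit 5) (nat_lit 409) (nat_lit 5) (nat_lit 586) (nat_lit 551) (nat_lit 423)))) (XT.nd (nat_lit 78) (nat_lit 836) (nat_lit 0) (XT.lf (nat_lit 0) (nat_lit 1735715650) (nat_lit 912) (nat_lit 8257621795) (nat_lit 76) (nat_lit 1390595546) (nat_lit 384) (nat_lit 5) (nat_lit 396) (nat_lit 5) (nat_lit 385) (nat_lit 5) (nat_lit 587) (nat_lit 551) (nat_lit 422)) (XT.nd (nat_lit 78) (nat_lit 836) (nat_lit 0) (XT.lf (nat_lit 0) (nat_lit 3564112459) (nat_lit 912) (nat_lit 1842715243) (nat_lit 76) (nat_lit 6093687941) (nat_lit 384) (nat_lit 5) (nat_lit 396) (nat_lit 5) (nat_lit 385) (nat_lit 5) (nat_lit 588) (nat_lit 551) (nat_lit 421)) (XT.lf (nat_lit 0) (nat_lit 4746913847) (nat_lit 836) (nat_lit 697189134)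 (nat_lit 912) (nat_lit 6175028733) (nat_lit 373) (nat_lit 5) (nat_lit 384) (nat_lit 5) (nat_lit 385) (nat_lit 5) (nat_lit 589) (nat_lit 551) (nat_lit 420))))) (XT.nd (nat_lit 234) (nat_lit 1596) (nat_lit 0) (XT.nd (nat_lit 78) (nat_lit 1596) (nat_lit 0) (XT.lf (nat_lit 0) (nat_lit 7385216161) (nat_lit 912) (nat_lit 289344830) (nat_lit 76) (nat_lit 4065090890) (nat_lit 373) (nat_lit 5) (nat_lit 385) (nat_lit 5) (nat_lit 374) (nat_lit 5) (nat_lit 590) (nat_lit 551) (nat_lit 419)) (XT.nd (nat_lit 78) (nat_lit 836) (nat_lit 0) (XT.lf (nat_lit 0) (nat_lit 6489958918) (nat_lit 760) (nat_lit 2906664913) (nat_lit 836) (nat_lit 2465331366) (nat_lit 363) (nat_lit 5) (nat_lit 373) (nat_lit 5) (nat_lit 374) (nat_lit 5) (nat_lit 591) (nat_lit 551) (nat_lit 418)) (XT.lf (nat_lit 0) (nat_lit 1411983790) (nat_lit 836) (nat_lit 10045014062) (nat_lit 912) (nat_lit 529534111) (nat_lit 352) (nat_lit 5) (nat_lit 363) (nat_lit 5) (nat_lit 364) (nat_lit 5) (nat_lit 592) (nat_lit 551) (nat_lit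 417)))) (XT.nd (nat_lit 156) (nat_lit 760) (nat_lit 0) (XT.nd (nat_lit 78) (nat_lit 760) (nat_lit 0) (XT.lf (nat_lit 0) (nat_lit 1466570105) (nat_lit 912) (nat_lit 3753306950) (nat_lit 76) (nat_lit 6892726793) (nat_lit 351) (nat_lit 5) (nat_lit 363) (nat_lit 5) (nat_lit 352) (nat_lit 5) (nat_lit 593) (nat_lit 551) (nat_lit 416)) (XT.lf (nat_lit 0) (nat_lit 3227475269) (nat_lit 760) (nat_lit 274291314) (nat_lit 836) (nat_lit 8739237394) (nat_lit 341) (nat_lit 5) (nat_lit 351) (nat_lit 5) (nat_lit 352) (nat_lit 5) (nat_lit 594) (nat_lit 551) (nat_lit 415))) (XT.nd (nat_lit 78) (nat_lit 760) (nat_lit 0) (XT.lf (nat_lit 0) (nat_lit 5619470783) (nat_lit 836) (nat_lit 2019744085) (nat_lit 76) (nat_lit 4731923148) (nat_lit 341) (nat_lit 5) (nat_lit 352) (nat_lit 5) (nat_lit 342) (nat_lit 5) (nat_lit 595) (nat_lit 551) (nat_lit 414)) (XT.lf (nat_lit 0) (nat_lit 5164253606) (nat_lit 760) (nat_lit 2636385427) (nat_lit 836) (nat_lit 4702815448) (nat_lit 331) (nat_lit 5) (nat_lit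 341) (nat_lit 5) (nat_lit 342) (nat_lit 5) (nat_lit 596) (nat_lit 551) (nat_lit 413))))))))
noncomputable def xc156 : XT := (XT.nd (nat_lit 1950) (nat_lit 6080) (nat_lit 0) (XT.nd (nat_lit 936) (nat_lit 4560) (nat_lit 0) (XT.nd (nat_lit 468) (nat_lit 2660) (nat_lit 0) (XT.nd (nat_lit 234) (nat_lit 684) (nat_lit 0) (XT.nd (nat_lit 78) (nat_lit 1520) (nat_lit 0) (XT.lf (nat_lit 0) (nat_lit 10041021304) (nat_lit 836) (nat_lit 150688335) (nat_lit 76) (nat_lit 2446397730) (nat_lit 331) (nat_lit 5) (nat_lit 342) (nat_lit 5) (nat_lit 332) (nat_lit 5) (nat_lit 597) (nat_lit 551) (nat_lit 412)) (XT.nd (nat_lit 78) (nat_lit 836) (nat_lit 0) (XT.lf (nat_lit 0) (nat_lit 7243698506) (nat_lit 684) (nat_lit 5133212127) (nat_lit 760) (nat_lit 397530562) (nat_lit 322) (nat_lit 5) (nat_lit 331) (nat_lit 5) (nat_lit 332) (nat_lit 5) (nat_lit 598) (nat_lit 551) (nat_lit 411)) (XT.lf (nat_lit 0) (nat_lit 1821589008) (nat_lit 836) (nat_lit 11042034646) (nat_lit 76) (nat_lit 49644453) (nat_lit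 311) (nat_lit 5) (nat_lit 322) (nat_lit 5) (nat_lit 312) (nat_lit 5) (nat_lit 599) (nat_lit 551) (nat_lit 410)))) (XT.nd (nat_lit 78) (nat_lit 684) (nat_lit 0) (XT.lf (nat_lit 0) (nat_lit 4137572189) (nat_lit 836) (nat_lit 3610462331) (nat_lit 76) (nat_lit 5305630162) (nat_lit 311) (nat_lit 5) (nat_lit 322) (nat_lit 5) (nat_lit 312) (nat_lit 5) (nat_lit 600) (nat_lit 551) (nat_lit 409)) (XT.nd (nat_lit 78) (nat_lit 0) (nat_lit 0) (XT.lf (nat_lit 0) (nat_lit 4006920720) (nat_lit 684) (nat_lit 2505680108) (nat_lit 760) (nat_lit 6684015572) (nat_lit 302) (nat_lit 5) (nat_lit 311) (nat_lit 5) (nat_lit 312) (nat_lit 5) (nat_lit 601) (nat_lit 551) (nat_lit 408)) (XT.lf (nat_lit 0) (nat_lit 8964825364) (nat_lit 760) (nat_lit 1550481295) (nat_lit 76) (nat_lit 2826528278) (nat_lit 302) (nat_lit 5) (nat_lit 312) (nat_lit 5) (nat_lit 303) (nat_lit 5) (nat_lit 602) (nat_lit 551) (nat_lit 407))))) (XT.nd (nat_lit 234) (nat_lit 1292) (nat_lit 0) (XT.nd (nat_lit 78) (nat_lit 684) (nat_lit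 0) (XT.lf (nat_lit 0) (nat_lit 6292230128) (nat_lit 684) (nat_lit 5218426923) (nat_lit 760) (nat_lit 1978411201) (nat_lit 293) (nat_lit 5) (nat_lit 302) (nat_lit 5) (nat_lit 303) (nat_lit 5) (nat_lit 603) (nat_lit 551) (nat_lit 406)) (XT.nd (nat_lit 78) (nat_lit 0) (nat_lit 0) (XT.lf (nat_lit 0) (nat_lit 465287463) (nat_lit 684) (nat_lit 12976359764) (nat_lit 76) (nat_lit 197474443) (nat_lit 284) (nat_lit 5) (nat_lit 293) (nat_lit 5) (nat_lit 285) (nat_lit 5) (nat_lit 604) (nat_lit 551) (nat_lit 405)) (XT.lf (nat_lit 0) (nat_lit 3001887749) (nat_lit 684) (nat_lit 5077509025) (nat_lit 76) (nat_lit 5711109030) (nat_lit 284) (nat_lit 5) (nat_lit 293) (nat_lit 5) (nat_lit 285) (nat_lit 5) (nat_lit 605) (nat_lit 551) (nat_lit 404)))) (XT.nd (nat_lit 78) (nat_lit 608) (nat_lit 0) (XT.lf (nat_lit 0) (nat_lit 3003587074) (nat_lit 684) (nat_lit 2592703154) (nat_lit 760) (nat_lit 8348487521) (nat_lit 275) (nat_lit 5) (nat_lit 284) (nat_lit 5) (nat_lit 285) (nat_lit 5) (nat_lit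 606) (nat_lit 551) (nat_lit 403)) (XT.nd (nat_lit 78) (nat_lit 608) (nat_lit 0) (XT.lf (nat_lit 0) (nat_lit 8284078650) (nat_lit 760) (nat_lit 2821303579) (nat_lit 76) (nat_lit 2995924449) (nat_lit 275) (nat_lit 5) (nat_lit 285) (nat_lit 5) (nat_lit 276) (nat_lit 5) (nat_lit 607) (nat_lit 551) (nat_lit 402)) (XT.lf (nat_lit 0) (nat_lit 5501002631) (nat_lit 608) (nat_lit 5565445133) (nat_lit 684) (nat_lit 3193703398) (nat_lit 267) (nat_lit 5) (nat_lit 275) (nat_lit 5) (nat_lit 276) (nat_lit 5) (nat_lit 608) (nat_lit 551) (nat_lit 401)))))) (XT.nd (nat_lit 468) (nat_lit 2736) (nat_lit 0) (XT.nd (nat_lit 234) (nat_lit 608) (nat_lit 0) (XT.nd (nat_lit 78) (nat_lit 1216) (nat_lit 0) (XT.lf (nat_lit 0) (nat_lit 13912135365) (nat_lit 684) (nat_lit 409552028) (nat_lit 76) (nat_lit 100333164) (nat_lit 267) (nat_lit 5) (nat_lit 276) (nat_lit 5) (nat_lit 268) (nat_lit 5) (nat_lit 609) (nat_lit 551) (nat_lit 400)) (XT.nd (nat_lit 78) (nat_lit 532) (nat_lit 0) (XT.lf (nat_lit 0) (nat_lit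 2277056951) (nat_lit 684) (nat_lit 6438097152) (nat_lit 76) (nat_lit 5870112102) (nat_lit 258) (nat_lit 5) (nat_lit 267) (nat_lit 5) (nat_lit 259) (nat_lit 5) (nat_lit 610) (nat_lit 551) (nat_lit 399)) (XT.lf (nat_lit 0) (nat_lit 2138667653) (nat_lit 532) (nat_lit 2979251306) (nat_lit 608) (nat_lit 9633691595) (nat_lit 251) (nat_lit 5) (nat_lit 258) (nat_lit 5) (nat_lit 259) (nat_lit 5) (nat_lit 611) (nat_lit 551) (nat_lit 398)))) (XT.nd (nat_lit 78) (nat_lit 608) (nat_lit 0) (XT.lf (nat_lit 0) (nat_lit 8066191788) (nat_lit 608) (nat_lit 3980062700) (nat_lit 76) (nat_lit 2874016765) (nat_lit 251) (nat_lit 5) (nat_lit 259) (nat_lit 5) (nat_lit 252) (nat_lit 5) (nat_lit 612) (nat_lit 551) (nat_lit 397)) (XT.nd (nat_lit 78) (nat_lit 0) (nat_lit 0) (XT.lf (nat_lit 0) (nat_lit 4854755287) (nat_lit 608) (nat_lit 6258613071) (nat_lit 684) (nat_lit 3978139349) (nat_lit 243) (nat_lit 5) (nat_lit 251) (nat_lit 5) (nat_lit 252) (nat_lit 5) (nat_lit 613) (nat_lit 551) (nat_lit 396))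 (XT.lf (nat_lit 0) (nat_lit 13905656218) (nat_lit 608) (nat_lit 331355658) (nat_lit 684) (nat_lit 1028847831) (nat_lit 243) (nat_lit 5) (nat_lit 251) (nat_lit 5) (nat_lit 252) (nat_lit 5) (nat_lit 614) (nat_lit 551) (nat_lit 395))))) (XT.nd (nat_lit 234) (nat_lit 1596) (nat_lit 0) (XT.nd (nat_lit 78) (nat_lit 532) (nat_lit 0) (XT.lf (nat_lit 0) (nat_lit 2030366765) (nat_lit 608) (nat_lit 7711670976) (nat_lit 76) (nat_lit 5699867246) (nat_lit 235) (nat_lit 5) (nat_lit 243) (nat_lit 5) (nat_lit 236) (nat_lit 5) (nat_lit 615) (nat_lit 551) (nat_lit 394)) (XT.nd (nat_lit 78) (nat_lit 0) (nat_lit 0) (XT.lf (nat_lit 0) (nat_lit 1394318860) (nat_lit 532) (nat_lit 3752180563) (nat_lit 608) (nat_lit 10474646744) (nat_lit 228) (nat_lit 5) (nat_lit 235) (nat_lit 5) (nat_lit 236) (nat_lit 5) (nat_lit 616) (nat_lit 551) (nat_lit 393)) (XT.lf (nat_lit 0) (nat_lit 8381512170) (nat_lit 608) (nat_lit 5046251452) (nat_lit 76) (nat_lit 2375078587) (nat_lit 228) (nat_lit 5) (nat_lit 236)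 (nat_lit 5) (nat_lit 229) (nat_lit 5) (nat_lit 617) (nat_lit 551) (nat_lit 392)))) (XT.nd (nat_lit 156) (nat_lit 1064) (nat_lit 0) (XT.nd (nat_lit 78) (nat_lit 0) (nat_lit 0) (XT.lf (nat_lit 0) (nat_lit 4335608648) (nat_lit 532) (nat_lit 7387986683) (nat_lit 608) (nat_lit 4263730597) (nat_lit 221) (nat_lit 5) (nat_lit 228) (nat_lit 5) (nat_lit 229) (nat_lit 5) (nat_lit 618) (nat_lit 551) (nat_lit 391)) (XT.lf (nat_lit 0) (nat_lit 13959262883) (nat_lit 532) (nat_lit 1196607817) (nat_lit 608) (nat_lit 1019162752) (nat_lit 221) (nat_lit 5) (nat_lit 228) (nat_lit 5) (nat_lit 229) (nat_lit 5) (nat_lit 619) (nat_lit 551) (nat_lit 390))) (XT.nd (nat_lit 78) (nat_lit 456) (nat_lit 0) (XT.lf (nat_lit 0) (nat_lit 2332064340) (nat_lit 608) (nat_lit 8921070208) (nat_lit 76) (nat_lit 5111628158) (nat_lit 213) (nat_lit 5) (nat_lit 221) (nat_lit 5) (nat_lit 214) (nat_lit 5) (nat_lit 620) (nat_lit 551) (nat_lit 389)) (XT.lf (nat_lit 0) (nat_lit 749249947) (nat_lit 456) (nat_lit 5004901258)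 (nat_lit 532) (nat_lit 10803652044) (nat_lit 207) (nat_lit 5) (nat_lit 213) (nat_lit 5) (nat_lit 214) (nat_lit 5) (nat_lit 621) (nat_lit 551) (nat_lit 388))))))) (XT.nd (nat_lit 936) (nat_lit 2736) (nat_lit 0) (XT.nd (nat_lit 468) (nat_lit 1824) (nat_lit 0) (XT.nd (nat_lit 234) (nat_lit 988) (nat_lit 0) (XT.nd (nat_lit 78) (nat_lit 532) (nat_lit 0) (XT.lf (nat_lit 0) (nat_lit 9303622337) (nat_lit 532) (nat_lit 6043164588) (nat_lit 76) (nat_lit 1406739882) (nat_lit 207) (nat_lit 5) (nat_lit 214) (nat_lit 5) (nat_lit 208) (nat_lit 5) (nat_lit 622) (nat_lit 551) (nat_lit 387)) (XT.nd (nat_lit 78) (nat_lit 0) (nat_lit 0) (XT.lf (nat_lit 0) (nat_lit 3921821372) (nat_lit 532) (nat_lit 9050866786) (nat_lit 608) (nat_lit 3979505603) (nat_lit 200) (nat_lit 5) (nat_lit 207) (nat_lit 5) (nat_lit 208) (nat_lit 5) (nat_lit 623) (nat_lit 551) (nat_lit 386)) (XT.lf (nat_lit 0) (nat_lit 14154114968) (nat_lit 532) (nat_lit 2591676133) (nat_lit 608) (nat_lit 408430849) (nat_lit 200) (nat_lit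 5) (nat_lit 207) (nat_lit 5) (nat_lit 208) (nat_lit 5) (nat_lit 624) (nat_lit 551) (nat_lit 385)))) (XT.nd (nat_lit 78) (nat_lit 456) (nat_lit 0) (XT.lf (nat_lit 0) (nat_lit 3255599798) (nat_lit 532) (nat_lit 10093865837) (nat_lit 76) (nat_lit 4009127090) (nat_lit 193) (nat_lit 5) (nat_lit 200) (nat_lit 5) (nat_lit 194) (nat_lit 5) (nat_lit 625) (nat_lit 551) (nat_lit 384)) (XT.nd (nat_lit 78) (nat_lit 0) (nat_lit 0) (XT.lf (nat_lit 0) (nat_lit 177356397) (nat_lit 456) (nat_lit 6838979951) (nat_lit 532) (nat_lit 10550083644) (nat_lit 187) (nat_lit 5) (nat_lit 193) (nat_lit 5) (nat_lit 194) (nat_lit 5) (nat_lit 626) (nat_lit 551) (nat_lit 383)) (XT.lf (nat_lit 0) (nat_lit 10777074682) (nat_lit 456) (nat_lit 133357342) (nat_lit 532) (nat_lit 6866809827) (nat_lit 187) (nat_lit 5) (nat_lit 193) (nat_lit 5) (nat_lit 194) (nat_lit 5) (nat_lit 627) (nat_lit 551) (nat_lit 382))))) (XT.nd (nat_lit 234) (nat_lit 836) (nat_lit 0) (XT.nd (nat_lit 78) (nat_lit 532) (nat_lit 0) (XT.lf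 (nat_lit 0) (nat_lit 3586354413) (nat_lit 456) (nat_lit 11353453244) (nat_lit 532) (nat_lit 3051325445) (nat_lit 181) (nat_lit 5) (nat_lit 187) (nat_lit 5) (nat_lit 188) (nat_lit 5) (nat_lit 628) (nat_lit 551) (nat_lit 381)) (XT.nd (nat_lit 78) (nat_lit 456) (nat_lit 0) (XT.lf (nat_lit 0) (nat_lit 868219763) (nat_lit 532) (nat_lit 3749200439) (nat_lit 76) (nat_lit 13590998239) (nat_lit 180) (nat_lit 5) (nat_lit 187) (nat_lit 5) (nat_lit 181) (nat_lit 5) (nat_lit 629) (nat_lit 551) (nat_lit 380)) (XT.lf (nat_lit 0) (nat_lit 4877788965) (nat_lit 532) (nat_lit 11263907964) (nat_lit 76) (nat_lit 2286900229) (nat_lit 174) (nat_lit 5) (nat_lit 181) (nat_lit 5) (nat_lit 175) (nat_lit 5) (nat_lit 630) (nat_lit 551) (nat_lit 379)))) (XT.nd (nat_lit 78) (nat_lit 836) (nat_lit 0) (XT.lf (nat_lit 0) (nat_lit 9014310170) (nat_lit 532) (nat_lit 349225293) (nat_lit 76) (nat_lit 9288709619) (nat_lit 174) (nat_lit 5) (nat_lit 181) (nat_lit 5) (nat_lit 175) (nat_lit 5) (nat_lit 631) (nat_lit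 551) (nat_lit 378)) (XT.nd (nat_lit 78) (nat_lit 456) (nat_lit 0) (XT.lf (nat_lit 0) (nat_lit 10913668613) (nat_lit 380) (nat_lit 2381787209) (nat_lit 456) (nat_lit 5583673093) (nat_lit 169) (nat_lit 5) (nat_lit 174) (nat_lit 5) (nat_lit 175) (nat_lit 5) (nat_lit 632) (nat_lit 551) (nat_lit 377)) (XT.lf (nat_lit 0) (nat_lit 3295198832) (nat_lit 456) (nat_lit 14412649924) (nat_lit 532) (nat_lit 1401789996) (nat_lit 163) (nat_lit 5) (nat_lit 169) (nat_lit 5) (nat_lit 170) (nat_lit 5) (nat_lit 633) (nat_lit 551) (nat_lit 376)))))) (XT.nd (nat_lit 468) (nat_lit 1444) (nat_lit 0) (XT.nd (nat_lit 234) (nat_lit 836) (nat_lit 0) (XT.nd (nat_lit 78) (nat_lit 380) (nat_lit 0) (XT.lf (nat_lit 0) (nat_lit 2886880143) (nat_lit 532) (nat_lit 4502677497) (nat_lit 76) (nat_lit 11953615906) (nat_lit 162) (nat_lit 5) (nat_lit 169) (nat_lit 5) (nat_lit 163) (nat_lit 5) (nat_lit 634) (nat_lit 551) (nat_lit 375)) (XT.nd (nat_lit 78) (nat_lit 0) (nat_lit 0) (XT.lf (nat_lit 0) (nat_lit 7106184538)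 (nat_lit 380) (nat_lit 173826630) (nat_lit 456) (nat_lit 12300434170) (nat_lit 157) (nat_lit 5) (nat_lit 162) (nat_lit 5) (nat_lit 163) (nat_lit 5) (nat_lit 635) (nat_lit 551) (nat_lit 374)) (XT.lf (nat_lit 0) (nat_lit 11829437903) (nat_lit 456) (nat_lit 873567272) (nat_lit 76) (nat_lit 7118089482) (nat_lit 157) (nat_lit 5) (nat_lit 163) (nat_lit 5) (nat_lit 158) (nat_lit 5) (nat_lit 636) (nat_lit 551) (nat_lit 373)))) (XT.nd (nat_lit 78) (nat_lit 456) (nat_lit 0) (XT.lf (nat_lit 0) (nat_lit 11090591108) (nat_lit 380) (nat_lit 5443950068) (nat_lit 456) (nat_lit 3530722762) (nat_lit 152) (nat_lit 5) (nat_lit 157) (nat_lit 5) (nat_lit 158) (nat_lit 5) (nat_lit 637) (nat_lit 551) (nat_lit 372)) (XT.nd (nat_lit 78) (nat_lit 0) (nat_lit 0) (XT.lf (nat_lit 0) (nat_lit 1035981711) (nat_lit 456) (nat_lit 17315121891) (nat_lit 76) (nat_lit 1962482899) (nat_lit 146) (nat_lit 5) (nat_lit 152) (nat_lit 5) (nat_lit 147) (nat_lit 5) (nat_lit 638) (nat_lit 551) (nat_lit 371)) (XT.lf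 (nat_lit 0) (nat_lit 5735074331) (nat_lit 456) (nat_lit 5305721609) (nat_lit 76) (nat_lit 9523846899) (nat_lit 146) (nat_lit 5) (nat_lit 152) (nat_lit 5) (nat_lit 147) (nat_lit 5) (nat_lit 639) (nat_lit 551) (nat_lit 370))))) (XT.nd (nat_lit 234) (nat_lit 760) (nat_lit 0) (XT.nd (nat_lit 78) (nat_lit 304) (nat_lit 0) (XT.lf (nat_lit 0) (nat_lit 7023296431) (nat_lit 380) (nat_lit 3542226756) (nat_lit 456) (nat_lit 10254450309) (nat_lit 141) (nat_lit 5) (nat_lit 146) (nat_lit 5) (nat_lit 147) (nat_lit 5) (nat_lit 640) (nat_lit 551) (nat_lit 369)) (XT.nd (nat_lit 78) (nat_lit 304) (nat_lit 0) (XT.lf (nat_lit 0) (nat_lit 15546906971) (nat_lit 456) (nat_lit 1448513387) (nat_lit 76) (nat_lit 4083904557) (nat_lit 141) (nat_lit 5) (nat_lit 147) (nat_lit 5) (nat_lit 142) (nat_lit 5) (nat_lit 641) (nat_lit 551) (nat_lit 368)) (XT.lf (nat_lit 0) (nat_lit 11258326470) (nat_lit 304) (nat_lit 9458132293) (nat_lit 380) (nat_lit 625634448) (nat_lit 137) (nat_lit 5) (nat_lit 141) (nat_lit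 5) (nat_lit 142) (nat_lit 5) (nat_lit 642) (nat_lit 551) (nat_lit 367)))) (XT.nd (nat_lit 156) (nat_lit 304) (nat_lit 0) (XT.nd (nat_lit 78) (nat_lit 0) (nat_lit 0) (XT.lf (nat_lit 0) (nat_lit 2622403017) (nat_lit 380) (nat_lit 1718266417) (nat_lit 456) (nat_lit 17268503006) (nat_lit 131) (nat_lit 5) (nat_lit 136) (nat_lit 5) (nat_lit 137) (nat_lit 5) (nat_lit 643) (nat_lit 551) (nat_lit 366)) (XT.lf (nat_lit 0) (nat_lit 9498202266) (nat_lit 456) (nat_lit 6218103946) (nat_lit 76) (nat_lit 6163199348) (nat_lit 131) (nat_lit 5) (nat_lit 137) (nat_lit 5) (nat_lit 132) (nat_lit 5) (nat_lit 644) (nat_lit 551) (nat_lit 365))) (XT.nd (nat_lit 78) (nat_lit 0) (nat_lit 0) (XT.lf (nat_lit 0) (nat_lit 6872378608) (nat_lit 304) (nat_lit 7934717717) (nat_lit 380) (nat_lit 7347185410) (nat_lit 127) (nat_lit 5) (nat_lit 131) (nat_lit 5) (nat_lit 132) (nat_lit 5) (nat_lit 645) (nat_lit 551) (nat_lit 364)) (XT.lf (nat_lit 0) (nat_lit 20256442907) (nat_lit 380) (nat_lit 2137406715) (nat_lit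 76) (nat_lit 40018911) (nat_lit 127) (nat_lit 5) (nat_lit 132) (nat_lit 5) (nat_lit 128) (nat_lit 5) (nat_lit 646) (nat_lit 551) (nat_lit 363))))))))
noncomputable def xc157 : XT := (XT.nd (nat_lit 75036) (nat_lit 0) (nat_lit 19912) (XT.nd (nat_lit 74022) (nat_lit 0) (nat_lit 31692) (XT.nd (nat_lit 468) (nat_lit 608) (nat_lit 0) (XT.nd (nat_lit 234) (nat_lit 684) (nat_lit 0) (XT.nd (nat_lit 78) (nat_lit 304) (nat_lit 0) (XT.lf (nat_lit 0) (nat_lit 3174587824) (nat_lit 380) (nat_lit 11383326826) (nat_lit 76) (nat_lit 8158341806) (nat_lit 122) (nat_lit 5) (nat_lit 127) (nat_lit 5) (nat_lit 123) (nat_lit 5) (nat_lit 647) (nat_lit 551) (nat_lit 362)) (XT.nd (nat_lit 78) (nat_lit 0) (nat_lit 0) (XT.lf (nat_lit 0) (nat_lit 2098514556) (nat_lit 304) (nat_lit 6526489118) (nat_lit 380) (nat_lit 14378590809) (nat_lit 118) (nat_lit 5) (nat_lit 122) (nat_lit 5) (nat_lit 123) (nat_lit 5) (nat_lit 648) (nat_lit 551) (nat_lit 361)) (XT.lf (nat_lit 0) (nat_lit 14264604003) (nat_lit 380)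 (nat_lit 7314349156) (nat_lit 76) (nat_lit 1716123135) (nat_lit 118) (nat_lit 5) (nat_lit 123) (nat_lit 5) (nat_lit 119) (nat_lit 5) (nat_lit 649) (nat_lit 551) (nat_lit 360)))) (XT.nd (nat_lit 78) (nat_lit 380) (nat_lit 0) (XT.lf (nat_lit 0) (nat_lit 6579327658) (nat_lit 304) (nat_lit 13516223716) (nat_lit 380) (nat_lit 3495265803) (nat_lit 114) (nat_lit 5) (nat_lit 118) (nat_lit 5) (nat_lit 119) (nat_lit 5) (nat_lit 650) (nat_lit 551) (nat_lit 359)) (XT.nd (nat_lit 78) (nat_lit 304) (nat_lit 0) (XT.lf (nat_lit 0) (nat_lit 2164481632) (nat_lit 380) (nat_lit 3067709472) (nat_lit 76) (nat_lit 18659162166) (nat_lit 113) (nat_lit 5) (nat_lit 118) (nat_lit 5) (nat_lit 114) (nat_lit 5) (nat_lit 651) (nat_lit 551) (nat_lit 358)) (XT.lf (nat_lit 0) (nat_lit 7978102558) (nat_lit 380) (nat_lit 12949760346) (nat_lit 76) (nat_lit 3267826008) (nat_lit 109) (nat_lit 5) (nat_lit 114) (nat_lit 5) (nat_lit 110) (nat_lit 5) (nat_lit 652) (nat_lit 551) (nat_lit 357))))) (XT.nd (nat_lit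 73320) (nat_lit 0) (nat_lit 34504) (XT.nd (nat_lit 78) (nat_lit 304) (nat_lit 0) (XT.lf (nat_lit 0) (nat_lit 1352922007) (nat_lit 304) (nat_lit 12612046488) (nat_lit 380) (nat_lit 10540003815) (nat_lit 105) (nat_lit 5) (nat_lit 109) (nat_lit 5) (nat_lit 110) (nat_lit 5) (nat_lit 653) (nat_lit 551) (nat_lit 356)) (XT.nd (nat_lit 78) (nat_lit 304) (nat_lit 0) (XT.lf (nat_lit 0) (nat_lit 16105514146) (nat_lit 304) (nat_lit 4045838312) (nat_lit 380) (nat_lit 4667493790) (nat_lit 105) (nat_lit 5) (nat_lit 109) (nat_lit 5) (nat_lit 110) (nat_lit 5) (nat_lit 654) (nat_lit 551) (nat_lit 355)) (XT.lf (nat_lit 0) (nat_lit 1368280600) (nat_lit 304) (nat_lit 19095242960) (nat_lit 76) (nat_lit 4674039675) (nat_lit 101) (nat_lit 5) (nat_lit 105) (nat_lit 5) (nat_lit 102) (nat_lit 5) (nat_lit 655) (nat_lit 551) (nat_lit 354)))) (XT.nd (nat_lit 78) (nat_lit 0) (nat_lit 0) (XT.lf (nat_lit 0) (nat_lit 795770420) (nat_lit 0) (nat_lit 795770420) (nat_lit 1444) (nat_lit 2608890493) (nat_lit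 555) (nat_lit 5) (nat_lit 555) (nat_lit 3) (nat_lit 574) (nat_lit 3) (nat_lit 552) (nat_lit 552) (nat_lit 456)) (XT.nd (nat_lit 78) (nat_lit 0) (nat_lit 0) (XT.lf (nat_lit 0) (nat_lit 4289812322) (nat_lit 1444) (nat_lit 2688654671) (nat_lit 1520) (nat_lit 1484718282) (nat_lit 555) (nat_lit 5) (nat_lit 574) (nat_lit 3) (nat_lit 575) (nat_lit 5) (nat_lit 553) (nat_lit 552) (nat_lit 455)) (XT.lf (nat_lit 76) (nat_lit 1509053528) (nat_lit 0) (nat_lit 3902113731) (nat_lit 1520) (nat_lit 3115742211) (nat_lit 556) (nat_lit 5) (nat_lit 555) (nat_lit 5) (nat_lit 575) (nat_lit 5) (nat_lit 554) (nat_lit 552) (nat_lit 454)))))) (XT.nd (nat_lit 468) (nat_lit 1368) (nat_lit 0) (XT.nd (nat_lit 234) (nat_lit 0) (nat_lit 76) (XT.nd (nat_lit 78) (nat_lit 1444) (nat_lit 0) (XT.lf (nat_lit 76) (nat_lit 5812633720) (nat_lit 0) (nat_lit 732961488) (nat_lit 1520) (nat_lit 2046504860) (nat_lit 556) (nat_lit 5) (nat_lit 555) (nat_lit 5) (nat_lit 575) (nat_lit 5) (nat_lit 555) (nat_lit 552) (nat_lit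 453)) (XT.nd (nat_lit 78) (nat_lit 1520) (nat_lit 0) (XT.lf (nat_lit 76) (nat_lit 1532697166) (nat_lit 0) (nat_lit 6169417448) (nat_lit 1520) (nat_lit 956496546) (nat_lit 557) (nat_lit 5) (nat_lit 556) (nat_lit 5) (nat_lit 576) (nat_lit 5) (nat_lit 556) (nat_lit 552) (nat_lit 452)) (XT.lf (nat_lit 0) (nat_lit 150377043) (nat_lit 1520) (nat_lit 2778410909) (nat_lit 1596) (nat_lit 5797706869) (nat_lit 536) (nat_lit 5) (nat_lit 556) (nat_lit 5) (nat_lit 557) (nat_lit 5) (nat_lit 557) (nat_lit 552) (nat_lit 451)))) (XT.nd (nat_lit 78) (nat_lit 0) (nat_lit 0) (XT.lf (nat_lit 0) (nat_lit 1253972550) (nat_lit 1520) (nat_lit 7141944979) (nat_lit 1596) (nat_lit 399948805) (nat_lit 537) (nat_lit 5) (nat_lit 557) (nat_lit 5) (nat_lit 558) (nat_lit 5) (nat_lit 558) (nat_lit 552) (nat_lit 450)) (XT.nd (nat_lit 78) (nat_lit 0) (nat_lit 0) (XT.lf (nat_lit 0) (nat_lit 2392281741) (nat_lit 1520) (nat_lit 2688527916) (nat_lit 1596) (nat_lit 3785567166) (nat_lit 537) (nat_lit 5) (nat_lit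 557) (nat_lit 5) (nat_lit 558) (nat_lit 5) (nat_lit 559) (nat_lit 552) (nat_lit 449)) (XT.lf (nat_lit 76) (nat_lit 1863377921) (nat_lit 0) (nat_lit 1677055668) (nat_lit 1596) (nat_lit 5398126696) (nat_lit 538) (nat_lit 5) (nat_lit 537) (nat_lit 5) (nat_lit 558) (nat_lit 5) (nat_lit 560) (nat_lit 552) (nat_lit 448))))) (XT.nd (nat_lit 234) (nat_lit 1520) (nat_lit 0) (XT.nd (nat_lit 78) (nat_lit 0) (nat_lit 0) (XT.lf (nat_lit 0) (nat_lit 4716797234) (nat_lit 1520) (nat_lit 2496312454) (nat_lit 1596) (nat_lit 1798976962) (nat_lit 538) (nat_lit 5) (nat_lit 558) (nat_lit 5) (nat_lit 559) (nat_lit 5) (nat_lit 561) (nat_lit 552) (nat_lit 447)) (XT.nd (nat_lit 78) (nat_lit 0) (nat_lit 0) (XT.lf (nat_lit 76) (nat_lit 2176396765) (nat_lit 0) (nat_lit 3741444975) (nat_lit 1596) (nat_lit 3169222858) (nat_lit 539) (nat_lit 5) (nat_lit 538) (nat_lit 5) (nat_lit 559) (nat_lit 5) (nat_lit 562) (nat_lit 552) (nat_lit 446)) (XT.lf (nat_lit 76) (nat_lit 6961322586) (nat_lit 0) (nat_lit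 174627111) (nat_lit 1596) (nat_lit 2027735602) (nat_lit 539) (nat_lit 5) (nat_lit 538) (nat_lit 5) (nat_lit 559) (nat_lit 5) (nat_lit 563) (nat_lit 552) (nat_lit 445)))) (XT.nd (nat_lit 156) (nat_lit 0) (nat_lit 76) (XT.nd (nat_lit 78) (nat_lit 1596) (nat_lit 0) (XT.lf (nat_lit 76) (nat_lit 2596368882) (nat_lit 0) (nat_lit 5798206621) (nat_lit 1596) (nat_lit 846943764) (nat_lit 540) (nat_lit 5) (nat_lit 539) (nat_lit 5) (nat_lit 560) (nat_lit 5) (nat_lit 564) (nat_lit 552) (nat_lit 444)) (XT.lf (nat_lit 0) (nat_lit 345820821) (nat_lit 1596) (nat_lit 1818773441) (nat_lit 1672) (nat_lit 7156412146) (nat_lit 518) (nat_lit 5) (nat_lit 539) (nat_lit 5) (nat_lit 540) (nat_lit 5) (nat_lit 565) (nat_lit 552) (nat_lit 443))) (XT.nd (nat_lit 78) (nat_lit 0) (nat_lit 0) (XT.lf (nat_lit 0) (nat_lit 1559086929) (nat_lit 1596) (nat_lit 6287959302) (nat_lit 1672) (nat_lit 1554769094) (nat_lit 519) (nat_lit 5) (nat_lit 540) (nat_lit 5) (nat_lit 541) (nat_lit 5) (nat_lit 566) (nat_lit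 552) (nat_lit 442)) (XT.lf (nat_lit 0) (nat_lit 2801091501) (nat_lit 1596) (nat_lit 1344222084) (nat_lit 1672) (nat_lit 5338841038) (nat_lit 519) (nat_lit 5) (nat_lit 540) (nat_lit 5) (nat_lit 541) (nat_lit 5) (nat_lit 567) (nat_lit 552) (nat_lit 441))))))) (XT.nd (nat_lit 936) (nat_lit 7068) (nat_lit 0) (XT.nd (nat_lit 468) (nat_lit 3268) (nat_lit 0) (XT.nd (nat_lit 234) (nat_lit 1520) (nat_lit 0) (XT.nd (nat_lit 78) (nat_lit 0) (nat_lit 76) (XT.lf (nat_lit 76) (nat_lit 3732040273) (nat_lit 0) (nat_lit 338413365) (nat_lit 1672) (nat_lit 5497640312) (nat_lit 520) (nat_lit 5) (nat_lit 519) (nat_lit 5) (nat_lit 541) (nat_lit 5) (nat_lit 568) (nat_lit 552) (nat_lit 440)) (XT.nd (nat_lit 78) (nat_lit 0) (nat_lit 0) (XT.lf (nat_lit 0) (nat_lit 5375951136) (nat_lit 1596) (nat_lit 764223082) (nat_lit 1672) (nat_lit 3513326406) (nat_lit 520) (nat_lit 5) (nat_lit 541) (nat_lit 5) (nat_lit 542) (nat_lit 5) (nat_lit 569) (nat_lit 552) (nat_lit 439)) (XT.lf (nat_lit 76) (nat_lit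 4449803345) (nat_lit 0) (nat_lit 2267959897) (nat_lit 1672) (nat_lit 3022651551) (nat_lit 521) (nat_lit 5) (nat_lit 520) (nat_lit 5) (nat_lit 542) (nat_lit 5) (nat_lit 570) (nat_lit 552) (nat_lit 438)))) (XT.nd (nat_lit 78) (nat_lit 1672) (nat_lit 0) (XT.lf (nat_lit 0) (nat_lit 8081911092) (nat_lit 1596) (nat_lit 77156847) (nat_lit 1672) (nat_lit 1670092699) (nat_lit 521) (nat_lit 5) (nat_lit 542) (nat_lit 5) (nat_lit 543) (nat_lit 5) (nat_lit 571) (nat_lit 552) (nat_lit 437)) (XT.nd (nat_lit 78) (nat_lit 1672) (nat_lit 0) (XT.lf (nat_lit 76) (nat_lit 5279386314) (nat_lit 0) (nat_lit 4223074522) (nat_lit 1672) (nat_lit 416641506) (nat_lit 522) (nat_lit 5) (nat_lit 521) (nat_lit 5) (nat_lit 543) (nat_lit 5) (nat_lit 572) (nat_lit 552) (nat_lit 436)) (XT.lf (nat_lit 76) (nat_lit 721051215) (nat_lit 0) (nat_lit 192377842) (nat_lit 1748) (nat_lit 9097591150) (nat_lit 500) (nat_lit 5) (nat_lit 499) (nat_lit 5) (nat_lit 522) (nat_lit 5) (nat_lit 573) (nat_lit 552) (nat_lit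 435))))) (XT.nd (nat_lit 234) (nat_lit 3344) (nat_lit 0) (XT.nd (nat_lit 78) (nat_lit 0) (nat_lit 0) (XT.lf (nat_lit 0) (nat_lit 2301616056) (nat_lit 1672) (nat_lit 3896528815) (nat_lit 1748) (nat_lit 3905837731) (nat_lit 500) (nat_lit 5) (nat_lit 522) (nat_lit 5) (nat_lit 523) (nat_lit 5) (nat_lit 574) (nat_lit 552) (nat_lit 434)) (XT.nd (nat_lit 78) (nat_lit 0) (nat_lit 76) (XT.lf (nat_lit 76) (nat_lit 1609028701) (nat_lit 0) (nat_lit 2100948406) (nat_lit 1748) (nat_lit 6488981996) (nat_lit 501) (nat_lit 5) (nat_lit 500) (nat_lit 5) (nat_lit 523) (nat_lit 5) (nat_lit 575) (nat_lit 552) (nat_lit 433)) (XT.lf (nat_lit 0) (nat_lit 5167309942) (nat_lit 1672) (nat_lit 3047346875) (nat_lit 76) (nat_lit 2080765233) (nat_lit 501) (nat_lit 5) (nat_lit 523) (nat_lit 5) (nat_lit 502) (nat_lit 5) (nat_lit 576) (nat_lit 552) (nat_lit 432)))) (XT.nd (nat_lit 78) (nat_lit 1748) (nat_lit 0) (XT.lf (nat_lit 0) (nat_lit 2610843524) (nat_lit 1672) (nat_lit 4055174170) (nat_lit 1748) (nat_lit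 3727554944) (nat_lit 479) (nat_lit 5) (nat_lit 501) (nat_lit 5) (nat_lit 502) (nat_lit 5) (nat_lit 577) (nat_lit 552) (nat_lit 431)) (XT.nd (nat_lit 78) (nat_lit 1748) (nat_lit 0) (XT.lf (nat_lit 0) (nat_lit 8198148876) (nat_lit 1748) (nat_lit 2086984339) (nat_lit 76) (nat_lit 208486925) (nat_lit 479) (nat_lit 5) (nat_lit 502) (nat_lit 5) (nat_lit 480) (nat_lit 5) (nat_lit 578) (nat_lit 552) (nat_lit 430)) (XT.lf (nat_lit 0) (nat_lit 3729180092) (nat_lit 1748) (nat_lit 6064817402) (nat_lit 1824) (nat_lit 801012436) (nat_lit 456) (nat_lit 5) (nat_lit 479) (nat_lit 5) (nat_lit 480) (nat_lit 5) (nat_lit 579) (nat_lit 552) (nat_lit 429)))))) (XT.nd (nat_lit 468) (nat_lit 3420) (nat_lit 0) (XT.nd (nat_lit 234) (nat_lit 912) (nat_lit 0) (XT.nd (nat_lit 78) (nat_lit 2660) (nat_lit 0) (XT.lf (nat_lit 0) (nat_lit 710085734) (nat_lit 1824) (nat_lit 1028665543) (nat_lit 76) (nat_lit 8959660298) (nat_lit 455) (nat_lit 5) (nat_lit 479) (nat_lit 5) (nat_lit 456) (nat_lit 5) (nat_lit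 580) (nat_lit 552) (nat_lit 428)) (XT.nd (nat_lit 78) (nat_lit 988) (nat_lit 0) (XT.lf (nat_lit 0) (nat_lit 2273069687) (nat_lit 1748) (nat_lit 5851368213) (nat_lit 76) (nat_lit 2678692340) (nat_lit 433) (nat_lit 5) (nat_lit 456) (nat_lit 5) (nat_lit 434) (nat_lit 5) (nat_lit 581) (nat_lit 552) (nat_lit 427)) (XT.lf (nat_lit 0) (nat_lit 130448455) (nat_lit 988) (nat_lit 3738921934) (nat_lit 1064) (nat_lit 7040534364) (nat_lit 420) (nat_lit 5) (nat_lit 433) (nat_lit 5) (nat_lit 434) (nat_lit 5) (nat_lit 582) (nat_lit 552) (nat_lit 426)))) (XT.nd (nat_lit 78) (nat_lit 912) (nat_lit 0) (XT.lf (nat_lit 0) (nat_lit 5524884144) (nat_lit 1064) (nat_lit 4727726926) (nat_lit 76) (nat_lit 765660513) (nat_lit 420) (nat_lit 5) (nat_lit 434) (nat_lit 5) (nat_lit 421) (nat_lit 5) (nat_lit 583) (nat_lit 552) (nat_lit 425)) (XT.nd (nat_lit 78) (nat_lit 0) (nat_lit 0) (XT.lf (nat_lit 0) (nat_lit 1423367062) (nat_lit 912) (nat_lit 5807470732) (nat_lit 988) (nat_lit 3897623878) (nat_lit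 408) (nat_lit 5) (nat_lit 420) (nat_lit 5) (nat_lit 421) (nat_lit 5) (nat_lit 584) (nat_lit 552) (nat_lit 424)) (XT.lf (nat_lit 0) (nat_lit 7746094375) (nat_lit 912) (nat_lit 1240095234) (nat_lit 988) (nat_lit 2254362838) (nat_lit 408) (nat_lit 5) (nat_lit 420) (nat_lit 5) (nat_lit 421) (nat_lit 5) (nat_lit 585) (nat_lit 552) (nat_lit 423))))) (XT.nd (nat_lit 234) (nat_lit 1596) (nat_lit 0) (XT.nd (nat_lit 78) (nat_lit 912) (nat_lit 0) (XT.lf (nat_lit 0) (nat_lit 2839939708) (nat_lit 912) (nat_lit 7961225749) (nat_lit 988) (nat_lit 553231658) (nat_lit 396) (nat_lit 5) (nat_lit 408) (nat_lit 5) (nat_lit 409) (nat_lit 5) (nat_lit 586) (nat_lit 552) (nat_lit 422)) (XT.nd (nat_lit 78) (nat_lit 836) (nat_lit 0) (XT.lf (nat_lit 0) (nat_lit 1182229147) (nat_lit 988) (nat_lit 2153312513) (nat_lit 76) (nat_lit 8134509702) (nat_lit 395) (nat_lit 5) (nat_lit 408) (nat_lit 5) (nat_lit 396) (nat_lit 5) (nat_lit 587) (nat_lit 552) (nat_lit 421)) (XT.lf (nat_lit 0) (nat_lit 2966890081)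 (nat_lit 912) (nat_lit 7223444411) (nat_lit 76) (nat_lit 1397175368) (nat_lit 384) (nat_lit 5) (nat_lit 396) (nat_lit 5) (nat_lit 385) (nat_lit 5) (nat_lit 588) (nat_lit 552) (nat_lit 420)))) (XT.nd (nat_lit 156) (nat_lit 760) (nat_lit 0) (XT.nd (nat_lit 78) (nat_lit 836) (nat_lit 0) (XT.lf (nat_lit 0) (nat_lit 4808394825) (nat_lit 912) (nat_lit 703756000) (nat_lit 76) (nat_lit 6194745927) (nat_lit 384) (nat_lit 5) (nat_lit 396) (nat_lit 5) (nat_lit 385) (nat_lit 5) (nat_lit 589) (nat_lit 552) (nat_lit 419)) (XT.lf (nat_lit 0) (nat_lit 6009930057) (nat_lit 836) (nat_lit 700639034) (nat_lit 912) (nat_lit 5117627690) (nat_lit 373) (nat_lit 5) (nat_lit 384) (nat_lit 5) (nat_lit 385) (nat_lit 5) (nat_lit 590) (nat_lit 552) (nat_lit 418))) (XT.nd (nat_lit 78) (nat_lit 0) (nat_lit 0) (XT.lf (nat_lit 0) (nat_lit 884435813) (nat_lit 760) (nat_lit 7789180137) (nat_lit 836) (nat_lit 3277852427) (nat_lit 363) (nat_lit 5) (nat_lit 373) (nat_lit 5) (nat_lit 374) (nat_lit 5) (nat_lit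 591) (nat_lit 552) (nat_lit 417)) (XT.lf (nat_lit 0) (nat_lit 7780042102) (nat_lit 760) (nat_lit 2924746678) (nat_lit 836) (nat_lit 1371841428) (nat_lit 363) (nat_lit 5) (nat_lit 373) (nat_lit 5) (nat_lit 374) (nat_lit 5) (nat_lit 592) (nat_lit 552) (nat_lit 416))))))))
noncomputable def xc158 : XT := (XT.nd (nat_lit 1950) (nat_lit 6612) (nat_lit 0) (XT.nd (nat_lit 936) (nat_lit 4940) (nat_lit 0) (XT.nd (nat_lit 468) (nat_lit 2204) (nat_lit 0) (XT.nd (nat_lit 234) (nat_lit 1444) (nat_lit 0) (XT.nd (nat_lit 78) (nat_lit 760) (nat_lit 0) (XT.lf (nat_lit 0) (nat_lit 580588506) (nat_lit 912) (nat_lit 9592771613) (nat_lit 76) (nat_lit 2030546778) (nat_lit 351) (nat_lit 5) (nat_lit 363) (nat_lit 5) (nat_lit 352) (nat_lit 5) (nat_lit 593) (nat_lit 552) (nat_lit 415)) (XT.nd (nat_lit 78) (nat_lit 760) (nat_lit 0) (XT.lf (nat_lit 0) (nat_lit 2587695101) (nat_lit 912) (nat_lit 2661941054) (nat_lit 76) (nat_lit 7083233650) (nat_lit 351) (nat_lit 5) (nat_lit 363) (nat_lit 5) (nat_lit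 352) (nat_lit 5) (nat_lit 594) (nat_lit 552) (nat_lit 414)) (XT.lf (nat_lit 0) (nat_lit 4450782914) (nat_lit 760) (nat_lit 198928304) (nat_lit 836) (nat_lit 7814407351) (nat_lit 341) (nat_lit 5) (nat_lit 351) (nat_lit 5) (nat_lit 352) (nat_lit 5) (nat_lit 595) (nat_lit 552) (nat_lit 413)))) (XT.nd (nat_lit 78) (nat_lit 1444) (nat_lit 0) (XT.lf (nat_lit 0) (nat_lit 6789148656) (nat_lit 836) (nat_lit 903336317) (nat_lit 76) (nat_lit 4904785621) (nat_lit 341) (nat_lit 5) (nat_lit 352) (nat_lit 5) (nat_lit 342) (nat_lit 5) (nat_lit 596) (nat_lit 552) (nat_lit 412)) (XT.nd (nat_lit 78) (nat_lit 684) (nat_lit 0) (XT.lf (nat_lit 0) (nat_lit 6416730784) (nat_lit 760) (nat_lit 2583939659) (nat_lit 836) (nat_lit 3731831174) (nat_lit 331) (nat_lit 5) (nat_lit 341) (nat_lit 5) (nat_lit 342) (nat_lit 5) (nat_lit 597) (nat_lit 552) (nat_lit 411)) (XT.lf (nat_lit 0) (nat_lit 1006092197) (nat_lit 684) (nat_lit 10266498893) (nat_lit 760) (nat_lit 1597524634) (nat_lit 322) (nat_lit 5)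 (nat_lit 331) (nat_lit 5) (nat_lit 332) (nat_lit 5) (nat_lit 598) (nat_lit 552) (nat_lit 410))))) (XT.nd (nat_lit 234) (nat_lit 1368) (nat_lit 0) (XT.nd (nat_lit 78) (nat_lit 760) (nat_lit 0) (XT.lf (nat_lit 0) (nat_lit 618199916) (nat_lit 760) (nat_lit 4486002161) (nat_lit 76) (nat_lit 7905279917) (nat_lit 321) (nat_lit 5) (nat_lit 331) (nat_lit 5) (nat_lit 322) (nat_lit 5) (nat_lit 599) (nat_lit 552) (nat_lit 409)) (XT.nd (nat_lit 78) (nat_lit 0) (nat_lit 0) (XT.lf (nat_lit 0) (nat_lit 2864755503) (nat_lit 836) (nat_lit 10098393394) (nat_lit 76) (nat_lit 188119079) (nat_lit 311) (nat_lit 5) (nat_lit 322) (nat_lit 5) (nat_lit 312) (nat_lit 5) (nat_lit 600) (nat_lit 552) (nat_lit 408)) (XT.lf (nat_lit 0) (nat_lit 5207318451) (nat_lit 836) (nat_lit 2541022611) (nat_lit 76) (nat_lit 5546528783) (nat_lit 311) (nat_lit 5) (nat_lit 322) (nat_lit 5) (nat_lit 312) (nat_lit 5) (nat_lit 601) (nat_lit 552) (nat_lit 407)))) (XT.nd (nat_lit 78) (nat_lit 684) (nat_lit 0) (XT.lf (nat_lit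 0) (nat_lit 5221197252) (nat_lit 684) (nat_lit 2396661148) (nat_lit 760) (nat_lit 5823064496) (nat_lit 302) (nat_lit 5) (nat_lit 311) (nat_lit 5) (nat_lit 312) (nat_lit 5) (nat_lit 602) (nat_lit 552) (nat_lit 406)) (XT.nd (nat_lit 78) (nat_lit 684) (nat_lit 0) (XT.lf (nat_lit 0) (nat_lit 10101022606) (nat_lit 760) (nat_lit 451362730) (nat_lit 76) (nat_lit 3037025030) (nat_lit 302) (nat_lit 5) (nat_lit 312) (nat_lit 5) (nat_lit 303) (nat_lit 5) (nat_lit 603) (nat_lit 552) (nat_lit 405)) (XT.lf (nat_lit 0) (nat_lit 7540767868) (nat_lit 684) (nat_lit 5145529568) (nat_lit 760) (nat_lit 1053522798) (nat_lit 293) (nat_lit 5) (nat_lit 302) (nat_lit 5) (nat_lit 303) (nat_lit 5) (nat_lit 604) (nat_lit 552) (nat_lit 404)))))) (XT.nd (nat_lit 468) (nat_lit 2280) (nat_lit 0) (XT.nd (nat_lit 234) (nat_lit 1292) (nat_lit 0) (XT.nd (nat_lit 78) (nat_lit 684) (nat_lit 0) (XT.lf (nat_lit 0) (nat_lit 1416279104) (nat_lit 684) (nat_lit 12090188471) (nat_lit 76) (nat_lit 386486665) (nat_lit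 284) (nat_lit 5) (nat_lit 293) (nat_lit 5) (nat_lit 285) (nat_lit 5) (nat_lit 605) (nat_lit 552) (nat_lit 403)) (XT.nd (nat_lit 78) (nat_lit 684) (nat_lit 0) (XT.lf (nat_lit 0) (nat_lit 3985146966) (nat_lit 684) (nat_lit 4055825393) (nat_lit 76) (nat_lit 6006765263) (nat_lit 284) (nat_lit 5) (nat_lit 293) (nat_lit 5) (nat_lit 285) (nat_lit 5) (nat_lit 606) (nat_lit 552) (nat_lit 402)) (XT.lf (nat_lit 0) (nat_lit 4179502932) (nat_lit 684) (nat_lit 2441076982) (nat_lit 760) (nat_lit 7584734477) (nat_lit 275) (nat_lit 5) (nat_lit 284) (nat_lit 5) (nat_lit 285) (nat_lit 5) (nat_lit 607) (nat_lit 552) (nat_lit 401)))) (XT.nd (nat_lit 78) (nat_lit 1292) (nat_lit 0) (XT.lf (nat_lit 0) (nat_lit 9345529841) (nat_lit 760) (nat_lit 1767061120) (nat_lit 76) (nat_lit 3252717012) (nat_lit 275) (nat_lit 5) (nat_lit 285) (nat_lit 5) (nat_lit 276) (nat_lit 5) (nat_lit 608) (nat_lit 552) (nat_lit 400)) (XT.nd (nat_lit 78) (nat_lit 684) (nat_lit 0) (XT.lf (nat_lit 0) (nat_lit 6714384184)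 (nat_lit 608) (nat_lit 5458761797) (nat_lit 684) (nat_lit 2354393518) (nat_lit 267) (nat_lit 5) (nat_lit 275) (nat_lit 5) (nat_lit 276) (nat_lit 5) (nat_lit 609) (nat_lit 552) (nat_lit 399)) (XT.lf (nat_lit 0) (nat_lit 366499892) (nat_lit 684) (nat_lit 14006190206) (nat_lit 76) (nat_lit 320140034) (nat_lit 258) (nat_lit 5) (nat_lit 267) (nat_lit 5) (nat_lit 259) (nat_lit 5) (nat_lit 610) (nat_lit 552) (nat_lit 398))))) (XT.nd (nat_lit 234) (nat_lit 1748) (nat_lit 0) (XT.nd (nat_lit 78) (nat_lit 532) (nat_lit 0) (XT.lf (nat_lit 0) (nat_lit 3187821933) (nat_lit 684) (nat_lit 5464677271) (nat_lit 76) (nat_lit 6207066736) (nat_lit 258) (nat_lit 5) (nat_lit 267) (nat_lit 5) (nat_lit 259) (nat_lit 5) (nat_lit 611) (nat_lit 552) (nat_lit 397)) (XT.nd (nat_lit 78) (nat_lit 0) (nat_lit 0) (XT.lf (nat_lit 0) (nat_lit 3276371634) (nat_lit 532) (nat_lit 2799273390) (nat_lit 608) (nat_lit 8953791258) (nat_lit 251) (nat_lit 5) (nat_lit 258) (nat_lit 5) (nat_lit 259) (nat_lit 5) (nat_lit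 612) (nat_lit 552) (nat_lit 396)) (XT.lf (nat_lit 0) (nat_lit 9067636297) (nat_lit 608) (nat_lit 2970858356) (nat_lit 76) (nat_lit 3163282425) (nat_lit 251) (nat_lit 5) (nat_lit 259) (nat_lit 5) (nat_lit 252) (nat_lit 5) (nat_lit 613) (nat_lit 552) (nat_lit 395)))) (XT.nd (nat_lit 156) (nat_lit 1140) (nat_lit 0) (XT.nd (nat_lit 78) (nat_lit 0) (nat_lit 0) (XT.lf (nat_lit 0) (nat_lit 6033492796) (nat_lit 608) (nat_lit 6132813389) (nat_lit 684) (nat_lit 3210322988) (nat_lit 243) (nat_lit 5) (nat_lit 251) (nat_lit 5) (nat_lit 252) (nat_lit 5) (nat_lit 614) (nat_lit 552) (nat_lit 394)) (XT.lf (nat_lit 0) (nat_lit 15244203070) (nat_lit 608) (nat_lit 91931846) (nat_lit 684) (nat_lit 218660916) (nat_lit 243) (nat_lit 5) (nat_lit 251) (nat_lit 5) (nat_lit 252) (nat_lit 5) (nat_lit 615) (nat_lit 552) (nat_lit 393))) (XT.nd (nat_lit 78) (nat_lit 532) (nat_lit 0) (XT.lf (nat_lit 0) (nat_lit 2883324104) (nat_lit 608) (nat_lit 6786875434) (nat_lit 76) (nat_lit 6064206765) (nat_lit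 235) (nat_lit 5) (nat_lit 243) (nat_lit 5) (nat_lit 236) (nat_lit 5) (nat_lit 616) (nat_lit 552) (nat_lit 392)) (XT.lf (nat_lit 0) (nat_lit 2494135324) (nat_lit 532) (nat_lit 3558675341) (nat_lit 608) (nat_lit 9864602777) (nat_lit 228) (nat_lit 5) (nat_lit 235) (nat_lit 5) (nat_lit 236) (nat_lit 5) (nat_lit 617) (nat_lit 552) (nat_lit 391))))))) (XT.nd (nat_lit 936) (nat_lit 3040) (nat_lit 0) (XT.nd (nat_lit 468) (nat_lit 1976) (nat_lit 0) (XT.nd (nat_lit 234) (nat_lit 1064) (nat_lit 0) (XT.nd (nat_lit 78) (nat_lit 532) (nat_lit 0) (XT.lf (nat_lit 0) (nat_lit 9338480501) (nat_lit 608) (nat_lit 4082135168) (nat_lit 76) (nat_lit 2682410323) (nat_lit 228) (nat_lit 5) (nat_lit 236) (nat_lit 5) (nat_lit 229) (nat_lit 5) (nat_lit 618) (nat_lit 552) (nat_lit 390)) (XT.nd (nat_lit 78) (nat_lit 0) (nat_lit 0) (XT.lf (nat_lit 0) (nat_lit 5480355283) (nat_lit 532) (nat_lit 7258442287) (nat_lit 608) (nat_lit 3552575663) (nat_lit 221) (nat_lit 5) (nat_lit 228) (nat_lit 5) (nat_lit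 229) (nat_lit 5) (nat_lit 619) (nat_lit 552) (nat_lit 389)) (XT.lf (nat_lit 0) (nat_lit 15275736829) (nat_lit 532) (nat_lit 948673179) (nat_lit 608) (nat_lit 258732727) (nat_lit 221) (nat_lit 5) (nat_lit 228) (nat_lit 5) (nat_lit 229) (nat_lit 5) (nat_lit 620) (nat_lit 552) (nat_lit 388)))) (XT.nd (nat_lit 78) (nat_lit 456) (nat_lit 0) (XT.lf (nat_lit 0) (nat_lit 3142734356) (nat_lit 608) (nat_lit 8045257327) (nat_lit 76) (nat_lit 5488705977) (nat_lit 213) (nat_lit 5) (nat_lit 221) (nat_lit 5) (nat_lit 214) (nat_lit 5) (nat_lit 621) (nat_lit 552) (nat_lit 387)) (XT.nd (nat_lit 78) (nat_lit 0) (nat_lit 0) (XT.lf (nat_lit 0) (nat_lit 1811533480) (nat_lit 456) (nat_lit 4813548280) (nat_lit 532) (nat_lit 10248682441) (nat_lit 207) (nat_lit 5) (nat_lit 213) (nat_lit 5) (nat_lit 214) (nat_lit 5) (nat_lit 622) (nat_lit 552) (nat_lit 386)) (XT.lf (nat_lit 0) (nat_lit 10232576963) (nat_lit 532) (nat_lit 5124222630) (nat_lit 76) (nat_lit 1716863475) (nat_lit 207) (nat_lit 5) (nat_lit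 214) (nat_lit 5) (nat_lit 208) (nat_lit 5) (nat_lit 623) (nat_lit 552) (nat_lit 385))))) (XT.nd (nat_lit 234) (nat_lit 912) (nat_lit 0) (XT.nd (nat_lit 78) (nat_lit 532) (nat_lit 0) (XT.lf (nat_lit 0) (nat_lit 5033222224) (nat_lit 532) (nat_lit 8933942249) (nat_lit 608) (nat_lit 3309297583) (nat_lit 200) (nat_lit 5) (nat_lit 207) (nat_lit 5) (nat_lit 208) (nat_lit 5) (nat_lit 624) (nat_lit 552) (nat_lit 384)) (XT.nd (nat_lit 78) (nat_lit 456) (nat_lit 0) (XT.lf (nat_lit 0) (nat_lit 314319599) (nat_lit 608) (nat_lit 2034980931) (nat_lit 76) (nat_lit 15133478639) (nat_lit 199) (nat_lit 5) (nat_lit 207) (nat_lit 5) (nat_lit 200) (nat_lit 5) (nat_lit 625) (nat_lit 552) (nat_lit 383)) (XT.lf (nat_lit 0) (nat_lit 4040471027) (nat_lit 532) (nat_lit 9267552953) (nat_lit 76) (nat_lit 4383274620) (nat_lit 193) (nat_lit 5) (nat_lit 200) (nat_lit 5) (nat_lit 194) (nat_lit 5) (nat_lit 626) (nat_lit 552) (nat_lit 382)))) (XT.nd (nat_lit 78) (nat_lit 456) (nat_lit 0) (XT.lf (nat_lit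 0) (nat_lit 1202329316) (nat_lit 456) (nat_lit 6666611839) (nat_lit 532) (nat_lit 10034492268) (nat_lit 187) (nat_lit 5) (nat_lit 193) (nat_lit 5) (nat_lit 194) (nat_lit 5) (nat_lit 627) (nat_lit 552) (nat_lit 381)) (XT.nd (nat_lit 78) (nat_lit 456) (nat_lit 0) (XT.lf (nat_lit 0) (nat_lit 11828037183) (nat_lit 532) (nat_lit 6125823070) (nat_lit 76) (nat_lit 164870459) (nat_lit 187) (nat_lit 5) (nat_lit 194) (nat_lit 5) (nat_lit 188) (nat_lit 5) (nat_lit 628) (nat_lit 552) (nat_lit 380)) (XT.lf (nat_lit 0) (nat_lit 4664878255) (nat_lit 456) (nat_lit 11266811052) (nat_lit 532) (nat_lit 2405338036) (nat_lit 181) (nat_lit 5) (nat_lit 187) (nat_lit 5) (nat_lit 188) (nat_lit 5) (nat_lit 629) (nat_lit 552) (nat_lit 379)))))) (XT.nd (nat_lit 468) (nat_lit 1596) (nat_lit 0) (XT.nd (nat_lit 234) (nat_lit 532) (nat_lit 0) (XT.nd (nat_lit 78) (nat_lit 836) (nat_lit 0) (XT.lf (nat_lit 0) (nat_lit 1569644260) (nat_lit 532) (nat_lit 2827973887) (nat_lit 76) (nat_lit 14161223339) (nat_lit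 180) (nat_lit 5) (nat_lit 187) (nat_lit 5) (nat_lit 181) (nat_lit 5) (nat_lit 630) (nat_lit 552) (nat_lit 378)) (XT.nd (nat_lit 78) (nat_lit 380) (nat_lit 0) (XT.lf (nat_lit 0) (nat_lit 5654446911) (nat_lit 532) (nat_lit 10487954765) (nat_lit 76) (nat_lit 2641122517) (nat_lit 174) (nat_lit 5) (nat_lit 181) (nat_lit 5) (nat_lit 175) (nat_lit 5) (nat_lit 631) (nat_lit 552) (nat_lit 377)) (XT.lf (nat_lit 0) (nat_lit 633700669) (nat_lit 380) (nat_lit 9230796547) (nat_lit 456) (nat_lit 9147333120) (nat_lit 169) (nat_lit 5) (nat_lit 174) (nat_lit 5) (nat_lit 175) (nat_lit 5) (nat_lit 632) (nat_lit 552) (nat_lit 376)))) (XT.nd (nat_lit 78) (nat_lit 532) (nat_lit 0) (XT.lf (nat_lit 0) (nat_lit 12107083466) (nat_lit 380) (nat_lit 2113344541) (nat_lit 456) (nat_lit 5023041804) (nat_lit 169) (nat_lit 5) (nat_lit 174) (nat_lit 5) (nat_lit 175) (nat_lit 5) (nat_lit 633) (nat_lit 552) (nat_lit 375)) (XT.nd (nat_lit 78) (nat_lit 76) (nat_lit 0) (XT.lf (nat_lit 0) (nat_lit 4340944763)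 (nat_lit 456) (nat_lit 14375574966) (nat_lit 532) (nat_lit 762162280) (nat_lit 163) (nat_lit 5) (nat_lit 169) (nat_lit 5) (nat_lit 170) (nat_lit 5) (nat_lit 634) (nat_lit 552) (nat_lit 374)) (XT.lf (nat_lit 0) (nat_lit 3590604990) (nat_lit 532) (nat_lit 3623459912) (nat_lit 76) (nat_lit 12502995433) (nat_lit 162) (nat_lit 5) (nat_lit 169) (nat_lit 5) (nat_lit 163) (nat_lit 5) (nat_lit 635) (nat_lit 552) (nat_lit 373))))) (XT.nd (nat_lit 234) (nat_lit 836) (nat_lit 0) (XT.nd (nat_lit 78) (nat_lit 380) (nat_lit 0) (XT.lf (nat_lit 0) (nat_lit 8066132019) (nat_lit 456) (nat_lit 11748952443) (nat_lit 76) (nat_lit 144103551) (nat_lit 157) (nat_lit 5) (nat_lit 163) (nat_lit 5) (nat_lit 158) (nat_lit 5) (nat_lit 636) (nat_lit 552) (nat_lit 372)) (XT.nd (nat_lit 78) (nat_lit 0) (nat_lit 0) (XT.lf (nat_lit 0) (nat_lit 64356809) (nat_lit 380) (nat_lit 12631177694) (nat_lit 456) (nat_lit 7509337163) (nat_lit 152) (nat_lit 5) (nat_lit 157) (nat_lit 5) (nat_lit 158) (nat_lit 5) (nat_lit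 637) (nat_lit 552) (nat_lit 371)) (XT.lf (nat_lit 0) (nat_lit 12260674364) (nat_lit 380) (nat_lit 5227469341) (nat_lit 456) (nat_lit 2965913625) (nat_lit 152) (nat_lit 5) (nat_lit 157) (nat_lit 5) (nat_lit 158) (nat_lit 5) (nat_lit 638) (nat_lit 552) (nat_lit 370)))) (XT.nd (nat_lit 156) (nat_lit 380) (nat_lit 0) (XT.nd (nat_lit 78) (nat_lit 0) (nat_lit 0) (XT.lf (nat_lit 0) (nat_lit 1679804436) (nat_lit 456) (nat_lit 16700728222) (nat_lit 76) (nat_lit 2326811941) (nat_lit 146) (nat_lit 5) (nat_lit 152) (nat_lit 5) (nat_lit 147) (nat_lit 5) (nat_lit 639) (nat_lit 552) (nat_lit 369)) (XT.lf (nat_lit 0) (nat_lit 6460661201) (nat_lit 456) (nat_lit 4469977112) (nat_lit 76) (nat_lit 10033029116) (nat_lit 146) (nat_lit 5) (nat_lit 152) (nat_lit 5) (nat_lit 147) (nat_lit 5) (nat_lit 640) (nat_lit 552) (nat_lit 368))) (XT.nd (nat_lit 78) (nat_lit 0) (nat_lit 0) (XT.lf (nat_lit 0) (nat_lit 8099424848) (nat_lit 380) (nat_lit 3282390983) (nat_lit 456) (nat_lit 9842407924) (nat_lit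 141) (nat_lit 5) (nat_lit 146) (nat_lit 5) (nat_lit 147) (nat_lit 5) (nat_lit 641) (nat_lit 552) (nat_lit 367)) (XT.lf (nat_lit 0) (nat_lit 16453069793) (nat_lit 456) (nat_lit 550361397) (nat_lit 76) (nat_lit 4485527135) (nat_lit 141) (nat_lit 5) (nat_lit 147) (nat_lit 5) (nat_lit 142) (nat_lit 5) (nat_lit 642) (nat_lit 552) (nat_lit 366))))))))
noncomputable def xc159 : XT := (XT.nd (nat_lit 75114) (nat_lit 0) (nat_lit 20368) (XT.nd (nat_lit 936) (nat_lit 0) (nat_lit 0) (XT.nd (nat_lit 468) (nat_lit 1292) (nat_lit 0) (XT.nd (nat_lit 234) (nat_lit 684) (nat_lit 0) (XT.nd (nat_lit 78) (nat_lit 456) (nat_lit 0) (XT.lf (nat_lit 0) (nat_lit 12404515769) (nat_lit 304) (nat_lit 9315805670) (nat_lit 380) (nat_lit 36775324) (nat_lit 137) (nat_lit 5) (nat_lit 141) (nat_lit 5) (nat_lit 142) (nat_lit 5) (nat_lit 643) (nat_lit 552) (nat_lit 365)) (XT.nd (nat_lit 78) (nat_lit 0) (nat_lit 0) (XT.lf (nat_lit 0) (nat_lit 3597696099) (nat_lit 380) (nat_lit 1417626205) (nat_lit 456) (nat_lit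 17014231003) (nat_lit 131) (nat_lit 5) (nat_lit 136) (nat_lit 5) (nat_lit 137) (nat_lit 5) (nat_lit 644) (nat_lit 552) (nat_lit 364)) (XT.lf (nat_lit 0) (nat_lit 10266611957) (nat_lit 456) (nat_lit 5428277274) (nat_lit 76) (nat_lit 6610592632) (nat_lit 131) (nat_lit 5) (nat_lit 137) (nat_lit 5) (nat_lit 132) (nat_lit 5) (nat_lit 645) (nat_lit 552) (nat_lit 363)))) (XT.nd (nat_lit 78) (nat_lit 380) (nat_lit 0) (XT.lf (nat_lit 0) (nat_lit 7918000531) (nat_lit 304) (nat_lit 7758237765) (nat_lit 380) (nat_lit 6909625058) (nat_lit 127) (nat_lit 5) (nat_lit 131) (nat_lit 5) (nat_lit 132) (nat_lit 5) (nat_lit 646) (nat_lit 552) (nat_lit 362)) (XT.nd (nat_lit 78) (nat_lit 380) (nat_lit 0) (XT.lf (nat_lit 0) (nat_lit 21225470018) (nat_lit 380) (nat_lit 1280642896) (nat_lit 76) (nat_lit 365111873) (nat_lit 127) (nat_lit 5) (nat_lit 132) (nat_lit 5) (nat_lit 128) (nat_lit 5) (nat_lit 647) (nat_lit 552) (nat_lit 361)) (XT.lf (nat_lit 0) (nat_lit 3800464186) (nat_lit 380) (nat_lit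 10709883979) (nat_lit 76) (nat_lit 8648944251) (nat_lit 122) (nat_lit 5) (nat_lit 127) (nat_lit 5) (nat_lit 123) (nat_lit 5) (nat_lit 648) (nat_lit 552) (nat_lit 360))))) (XT.nd (nat_lit 234) (nat_lit 684) (nat_lit 0) (XT.nd (nat_lit 78) (nat_lit 304) (nat_lit 0) (XT.lf (nat_lit 0) (nat_lit 3035665879) (nat_lit 304) (nat_lit 6319007433) (nat_lit 380) (nat_lit 14097809006) (nat_lit 118) (nat_lit 5) (nat_lit 122) (nat_lit 5) (nat_lit 123) (nat_lit 5) (nat_lit 649) (nat_lit 552) (nat_lit 359)) (XT.nd (nat_lit 78) (nat_lit 304) (nat_lit 0) (XT.lf (nat_lit 0) (nat_lit 15098292318) (nat_lit 380) (nat_lit 6574194482) (nat_lit 76) (nat_lit 2077483231) (nat_lit 118) (nat_lit 5) (nat_lit 123) (nat_lit 5) (nat_lit 119) (nat_lit 5) (nat_lit 650) (nat_lit 552) (nat_lit 358)) (XT.lf (nat_lit 0) (nat_lit 7591524016) (nat_lit 304) (nat_lit 13449299257) (nat_lit 380) (nat_lit 3010903948) (nat_lit 114) (nat_lit 5) (nat_lit 118) (nat_lit 5) (nat_lit 119) (nat_lit 5) (nat_lit 651) (nat_lit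 552) (nat_lit 357)))) (XT.nd (nat_lit 78) (nat_lit 608) (nat_lit 0) (XT.lf (nat_lit 0) (nat_lit 2744043674) (nat_lit 380) (nat_lit 2258556371) (nat_lit 76) (nat_lit 19355817275) (nat_lit 113) (nat_lit 5) (nat_lit 118) (nat_lit 5) (nat_lit 114) (nat_lit 5) (nat_lit 652) (nat_lit 552) (nat_lit 356)) (XT.nd (nat_lit 78) (nat_lit 304) (nat_lit 0) (XT.lf (nat_lit 0) (nat_lit 8671201308) (nat_lit 380) (nat_lit 12335475723) (nat_lit 76) (nat_lit 3662218095) (nat_lit 109) (nat_lit 5) (nat_lit 114) (nat_lit 5) (nat_lit 110) (nat_lit 5) (nat_lit 653) (nat_lit 552) (nat_lit 355)) (XT.lf (nat_lit 0) (nat_lit 2247515015) (nat_lit 304) (nat_lit 12525460655) (nat_lit 380) (nat_lit 10211485822) (nat_lit 105) (nat_lit 5) (nat_lit 109) (nat_lit 5) (nat_lit 110) (nat_lit 5) (nat_lit 654) (nat_lit 552) (nat_lit 354)))))) (XT.nd (nat_lit 73632) (nat_lit 0) (nat_lit 32756) (XT.nd (nat_lit 73398) (nat_lit 0) (nat_lit 32756) (XT.nd (nat_lit 73242) (nat_lit 0) (nat_lit 34200) (XT.lf (nat_lit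 0) (nat_lit 17278148515) (nat_lit 304) (nat_lit 3794571978) (nat_lit 380) (nat_lit 4232100461) (nat_lit 105) (nat_lit 5) (nat_lit 109) (nat_lit 5) (nat_lit 110) (nat_lit 5) (nat_lit 655) (nat_lit 552) (nat_lit 353)) (XT.nd (nat_lit 78) (nat_lit 0) (nat_lit 0) (XT.lf (nat_lit 0) (nat_lit 1340794027) (nat_lit 0) (nat_lit 1340794027) (nat_lit 1444) (nat_lit 1581500776) (nat_lit 555) (nat_lit 5) (nat_lit 555) (nat_lit 3) (nat_lit 574) (nat_lit 3) (nat_lit 553) (nat_lit 553) (nat_lit 454)) (XT.lf (nat_lit 0) (nat_lit 6443806753) (nat_lit 1444) (nat_lit 1656359822) (nat_lit 1520) (nat_lit 490552160) (nat_lit 555) (nat_lit 5) (nat_lit 574) (nat_lit 3) (nat_lit 575) (nat_lit 5) (nat_lit 554) (nat_lit 553) (nat_lit 453)))) (XT.nd (nat_lit 78) (nat_lit 1444) (nat_lit 0) (XT.lf (nat_lit 76) (nat_lit 2618157357) (nat_lit 0) (nat_lit 4935883609) (nat_lit 1520) (nat_lit 1102354587) (nat_lit 556) (nat_lit 5) (nat_lit 555) (nat_lit 5) (nat_lit 575) (nat_lit 5) (nat_lit 555) (nat_lit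 553) (nat_lit 452)) (XT.nd (nat_lit 78) (nat_lit 1444) (nat_lit 0) (XT.lf (nat_lit 76) (nat_lit 6986653805) (nat_lit 0) (nat_lit 1684608564) (nat_lit 1520) (nat_lit 52432538) (nat_lit 556) (nat_lit 5) (nat_lit 555) (nat_lit 5) (nat_lit 575) (nat_lit 5) (nat_lit 556) (nat_lit 553) (nat_lit 451)) (XT.lf (nat_lit 0) (nat_lit 1007268127) (nat_lit 1520) (nat_lit 6138743576) (nat_lit 1596) (nat_lit 1646157999) (nat_lit 536) (nat_lit 5) (nat_lit 556) (nat_lit 5) (nat_lit 557) (nat_lit 5) (nat_lit 557) (nat_lit 553) (nat_lit 450))))) (XT.nd (nat_lit 234) (nat_lit 0) (nat_lit 76) (XT.nd (nat_lit 78) (nat_lit 0) (nat_lit 0) (XT.lf (nat_lit 0) (nat_lit 2084854278) (nat_lit 1520) (nat_lit 1732651398) (nat_lit 1596) (nat_lit 5044557896) (nat_lit 536) (nat_lit 5) (nat_lit 556) (nat_lit 5) (nat_lit 557) (nat_lit 5) (nat_lit 558) (nat_lit 553) (nat_lit 449)) (XT.nd (nat_lit 78) (nat_lit 0) (nat_lit 76) (XT.lf (nat_lit 76) (nat_lit 2783819480) (nat_lit 0) (nat_lit 393249901) (nat_lit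 1596) (nat_lit 5756428686) (nat_lit 537) (nat_lit 5) (nat_lit 536) (nat_lit 5) (nat_lit 557) (nat_lit 5) (nat_lit 559) (nat_lit 553) (nat_lit 448)) (XT.lf (nat_lit 0) (nat_lit 4298425553) (nat_lit 1520) (nat_lit 1626946973) (nat_lit 1596) (nat_lit 3080847000) (nat_lit 537) (nat_lit 5) (nat_lit 557) (nat_lit 5) (nat_lit 558) (nat_lit 5) (nat_lit 560) (nat_lit 553) (nat_lit 447)))) (XT.nd (nat_lit 156) (nat_lit 0) (nat_lit 76) (XT.nd (nat_lit 78) (nat_lit 0) (nat_lit 76) (XT.lf (nat_lit 76) (nat_lit 3008659141) (nat_lit 0) (nat_lit 2431638037) (nat_lit 1596) (nat_lit 3640140596) (nat_lit 538) (nat_lit 5) (nat_lit 537) (nat_lit 5) (nat_lit 558) (nat_lit 5) (nat_lit 561) (nat_lit 553) (nat_lit 446)) (XT.lf (nat_lit 0) (nat_lit 6599734589) (nat_lit 1520) (nat_lit 1419190805) (nat_lit 1596) (nat_lit 1137324472) (nat_lit 538) (nat_lit 5) (nat_lit 558) (nat_lit 5) (nat_lit 559) (nat_lit 5) (nat_lit 562) (nat_lit 553) (nat_lit 445))) (XT.nd (nat_lit 78) (nat_lit 0) (nat_lit 0)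 (XT.lf (nat_lit 76) (nat_lit 3339557809) (nat_lit 0) (nat_lit 4457440962) (nat_lit 1596) (nat_lit 1436290637) (nat_lit 539) (nat_lit 5) (nat_lit 538) (nat_lit 5) (nat_lit 559) (nat_lit 5) (nat_lit 563) (nat_lit 553) (nat_lit 444)) (XT.lf (nat_lit 76) (nat_lit 8198228556) (nat_lit 0) (nat_lit 806714836) (nat_lit 1596) (nat_lit 307195532) (nat_lit 539) (nat_lit 5) (nat_lit 538) (nat_lit 5) (nat_lit 559) (nat_lit 5) (nat_lit 564) (nat_lit 553) (nat_lit 443))))))) (XT.nd (nat_lit 1014) (nat_lit 9576) (nat_lit 0) (XT.nd (nat_lit 468) (nat_lit 1444) (nat_lit 0) (XT.nd (nat_lit 234) (nat_lit 0) (nat_lit 76) (XT.nd (nat_lit 78) (nat_lit 0) (nat_lit 0) (XT.lf (nat_lit 0) (nat_lit 854718364) (nat_lit 1596) (nat_lit 5620369262) (nat_lit 1672) (nat_lit 2916945636) (nat_lit 518) (nat_lit 5) (nat_lit 539) (nat_lit 5) (nat_lit 540) (nat_lit 5) (nat_lit 565) (nat_lit 553) (nat_lit 442)) (XT.nd (nat_lit 78) (nat_lit 0) (nat_lit 76) (XT.lf (nat_lit 0) (nat_lit 2026532362) (nat_lit 1596)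 (nat_lit 725663389) (nat_lit 1672) (nat_lit 6721477286) (nat_lit 518) (nat_lit 5) (nat_lit 539) (nat_lit 5) (nat_lit 540) (nat_lit 5) (nat_lit 566) (nat_lit 553) (nat_lit 441)) (XT.lf (nat_lit 0) (nat_lit 3235112925) (nat_lit 1596) (nat_lit 5255009948) (nat_lit 1672) (nat_lit 1066559721) (nat_lit 519) (nat_lit 5) (nat_lit 540) (nat_lit 5) (nat_lit 541) (nat_lit 5) (nat_lit 567) (nat_lit 553) (nat_lit 440)))) (XT.nd (nat_lit 78) (nat_lit 0) (nat_lit 0) (XT.lf (nat_lit 0) (nat_lit 4469705740) (nat_lit 1596) (nat_lit 235117761) (nat_lit 1672) (nat_lit 4936495550) (nat_lit 519) (nat_lit 5) (nat_lit 540) (nat_lit 5) (nat_lit 541) (nat_lit 5) (nat_lit 568) (nat_lit 553) (nat_lit 439)) (XT.nd (nat_lit 78) (nat_lit 0) (nat_lit 76) (XT.lf (nat_lit 76) (nat_lit 4935196234) (nat_lit 0) (nat_lit 804966497) (nat_lit 1672) (nat_lit 3987265514) (nat_lit 520) (nat_lit 5) (nat_lit 519) (nat_lit 5) (nat_lit 541) (nat_lit 5) (nat_lit 569) (nat_lit 553) (nat_lit 438)) (XT.lf (nat_lit 76)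 (nat_lit 366006389) (nat_lit 0) (nat_lit 6674070313) (nat_lit 1672) (nat_lit 2775105349) (nat_lit 521) (nat_lit 5) (nat_lit 520) (nat_lit 5) (nat_lit 542) (nat_lit 5) (nat_lit 570) (nat_lit 553) (nat_lit 437))))) (XT.nd (nat_lit 234) (nat_lit 0) (nat_lit 0) (XT.nd (nat_lit 78) (nat_lit 1596) (nat_lit 0) (XT.lf (nat_lit 76) (nat_lit 5672008410) (nat_lit 0) (nat_lit 2711222726) (nat_lit 1672) (nat_lit 1521118272) (nat_lit 521) (nat_lit 5) (nat_lit 520) (nat_lit 5) (nat_lit 542) (nat_lit 5) (nat_lit 571) (nat_lit 553) (nat_lit 436)) (XT.nd (nat_lit 78) (nat_lit 1672) (nat_lit 0) (XT.lf (nat_lit 76) (nat_lit 1079244831) (nat_lit 0) (nat_lit 8669869672) (nat_lit 1672) (nat_lit 246271548) (nat_lit 522) (nat_lit 5) (nat_lit 521) (nat_lit 5) (nat_lit 543) (nat_lit 5) (nat_lit 572) (nat_lit 553) (nat_lit 435)) (XT.lf (nat_lit 0) (nat_lit 1067168174) (nat_lit 1672) (nat_lit 3573493101) (nat_lit 1748) (nat_lit 5446909995) (nat_lit 499) (nat_lit 5) (nat_lit 521) (nat_lit 5) (nat_lit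 522) (nat_lit 5) (nat_lit 573) (nat_lit 553) (nat_lit 434)))) (XT.nd (nat_lit 156) (nat_lit 0) (nat_lit 76) (XT.nd (nat_lit 78) (nat_lit 0) (nat_lit 76) (XT.lf (nat_lit 76) (nat_lit 1884123312) (nat_lit 0) (nat_lit 512452619) (nat_lit 1748) (nat_lit 7785134836) (nat_lit 500) (nat_lit 5) (nat_lit 499) (nat_lit 5) (nat_lit 522) (nat_lit 5) (nat_lit 574) (nat_lit 553) (nat_lit 433)) (XT.lf (nat_lit 0) (nat_lit 3781790666) (nat_lit 1672) (nat_lit 2817367162) (nat_lit 1748) (nat_lit 3677993855) (nat_lit 500) (nat_lit 5) (nat_lit 522) (nat_lit 5) (nat_lit 523) (nat_lit 5) (nat_lit 575) (nat_lit 553) (nat_lit 432))) (XT.nd (nat_lit 78) (nat_lit 0) (nat_lit 76) (XT.lf (nat_lit 76) (nat_lit 2790689056) (nat_lit 0) (nat_lit 2406972631) (nat_lit 1748) (nat_lit 5176783638) (nat_lit 501) (nat_lit 5) (nat_lit 500) (nat_lit 5) (nat_lit 523) (nat_lit 5) (nat_lit 576) (nat_lit 553) (nat_lit 431)) (XT.lf (nat_lit 0) (nat_lit 6654745297) (nat_lit 1672) (nat_lit 1951738088) (nat_lit 76)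 (nat_lit 1866946440) (nat_lit 501) (nat_lit 5) (nat_lit 523) (nat_lit 5) (nat_lit 502) (nat_lit 5) (nat_lit 577) (nat_lit 553) (nat_lit 430)))))) (XT.nd (nat_lit 468) (nat_lit 3572) (nat_lit 0) (XT.nd (nat_lit 234) (nat_lit 2660) (nat_lit 0) (XT.nd (nat_lit 78) (nat_lit 1824) (nat_lit 0) (XT.lf (nat_lit 0) (nat_lit 3812007199) (nat_lit 1672) (nat_lit 4351740727) (nat_lit 1748) (nat_lit 2410193376) (nat_lit 479) (nat_lit 5) (nat_lit 501) (nat_lit 5) (nat_lit 502) (nat_lit 5) (nat_lit 578) (nat_lit 553) (nat_lit 429)) (XT.nd (nat_lit 78) (nat_lit 1824) (nat_lit 0) (XT.lf (nat_lit 0) (nat_lit 9698397099) (nat_lit 1748) (nat_lit 973970573) (nat_lit 76) (nat_lit 4188784) (nat_lit 479) (nat_lit 5) (nat_lit 502) (nat_lit 5) (nat_lit 480) (nat_lit 5) (nat_lit 579) (nat_lit 553) (nat_lit 428)) (XT.lf (nat_lit 0) (nat_lit 520143446) (nat_lit 1824) (nat_lit 5832855150) (nat_lit 76) (nat_lit 4427286202) (nat_lit 455) (nat_lit 5) (nat_lit 479) (nat_lit 5) (nat_lit 456) (nat_lit 5)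 (nat_lit 580) (nat_lit 553) (nat_lit 427)))) (XT.nd (nat_lit 78) (nat_lit 988) (nat_lit 0) (XT.lf (nat_lit 0) (nat_lit 94139495) (nat_lit 1672) (nat_lit 1931210739) (nat_lit 1748) (nat_lit 8860810068) (nat_lit 433) (nat_lit 5) (nat_lit 455) (nat_lit 5) (nat_lit 456) (nat_lit 5) (nat_lit 581) (nat_lit 553) (nat_lit 426)) (XT.nd (nat_lit 78) (nat_lit 988) (nat_lit 0) (XT.lf (nat_lit 0) (nat_lit 3599891469) (nat_lit 1748) (nat_lit 4806966341) (nat_lit 76) (nat_lit 2586513466) (nat_lit 433) (nat_lit 5) (nat_lit 456) (nat_lit 5) (nat_lit 434) (nat_lit 5) (nat_lit 582) (nat_lit 553) (nat_lit 425)) (XT.lf (nat_lit 0) (nat_lit 1286845679) (nat_lit 988) (nat_lit 3923638951) (nat_lit 1064) (nat_lit 5892153132) (nat_lit 420) (nat_lit 5) (nat_lit 433) (nat_lit 5) (nat_lit 434) (nat_lit 5) (nat_lit 583) (nat_lit 553) (nat_lit 424))))) (XT.nd (nat_lit 234) (nat_lit 2660) (nat_lit 0) (XT.nd (nat_lit 78) (nat_lit 912) (nat_lit 0) (XT.lf (nat_lit 0) (nat_lit 6873629904) (nat_lit 1064)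 (nat_lit 3665450939) (nat_lit 76) (nat_lit 674604396) (nat_lit 420) (nat_lit 5) (nat_lit 434) (nat_lit 5) (nat_lit 421) (nat_lit 5) (nat_lit 584) (nat_lit 553) (nat_lit 423)) (XT.nd (nat_lit 78) (nat_lit 0) (nat_lit 0) (XT.lf (nat_lit 0) (nat_lit 2601054201) (nat_lit 912) (nat_lit 5995830549) (nat_lit 988) (nat_lit 2729534401) (nat_lit 408) (nat_lit 5) (nat_lit 420) (nat_lit 5) (nat_lit 421) (nat_lit 5) (nat_lit 585) (nat_lit 553) (nat_lit 422)) (XT.lf (nat_lit 0) (nat_lit 9027702339) (nat_lit 912) (nat_lit 1335691651) (nat_lit 988) (nat_lit 1077840335) (nat_lit 408) (nat_lit 5) (nat_lit 420) (nat_lit 5) (nat_lit 421) (nat_lit 5) (nat_lit 586) (nat_lit 553) (nat_lit 421)))) (XT.nd (nat_lit 156) (nat_lit 1672) (nat_lit 0) (XT.nd (nat_lit 78) (nat_lit 0) (nat_lit 0) (XT.lf (nat_lit 0) (nat_lit 632074924) (nat_lit 988) (nat_lit 7521408677) (nat_lit 76) (nat_lit 3404122738) (nat_lit 395) (nat_lit 5) (nat_lit 408) (nat_lit 5) (nat_lit 396) (nat_lit 5) (nat_lit 587) (nat_lit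 553) (nat_lit 420)) (XT.lf (nat_lit 0) (nat_lit 2371530954) (nat_lit 988) (nat_lit 1059443378) (nat_lit 76) (nat_lit 8244995709) (nat_lit 395) (nat_lit 5) (nat_lit 408) (nat_lit 5) (nat_lit 396) (nat_lit 5) (nat_lit 588) (nat_lit 553) (nat_lit 419))) (XT.nd (nat_lit 78) (nat_lit 836) (nat_lit 0) (XT.lf (nat_lit 0) (nat_lit 4176227997) (nat_lit 912) (nat_lit 6215154919) (nat_lit 76) (nat_lit 1404711254) (nat_lit 384) (nat_lit 5) (nat_lit 396) (nat_lit 5) (nat_lit 385) (nat_lit 5) (nat_lit 589) (nat_lit 553) (nat_lit 418)) (XT.lf (nat_lit 0) (nat_lit 417803725) (nat_lit 836) (nat_lit 5616922747) (nat_lit 912) (nat_lit 5883542307) (nat_lit 373) (nat_lit 5) (nat_lit 384) (nat_lit 5) (nat_lit 385) (nat_lit 5) (nat_lit 590) (nat_lit 553) (nat_lit 417))))))))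
noncomputable def xc160 : XT := (XT.nd (nat_lit 1950) (nat_lit 7372) (nat_lit 0) (XT.nd (nat_lit 936) (nat_lit 5168) (nat_lit 0) (XT.nd (nat_lit 468) (nat_lit 2280) (nat_lit 0) (XT.nd (nat_lit 234) (nat_lit 1672) (nat_lit 0) (XT.nd (nat_lit 78) (nat_lit 760) (nat_lit 0) (XT.lf (nat_lit 0) (nat_lit 7252848701) (nat_lit 836) (nat_lit 704565423) (nat_lit 912) (nat_lit 4084934476) (nat_lit 373) (nat_lit 5) (nat_lit 384) (nat_lit 5) (nat_lit 385) (nat_lit 5) (nat_lit 591) (nat_lit 553) (nat_lit 416)) (XT.nd (nat_lit 78) (nat_lit 0) (nat_lit 0) (XT.lf (nat_lit 0) (nat_lit 2039657868) (nat_lit 760) (nat_lit 7905697530) (nat_lit 836) (nat_lit 2223020686) (nat_lit 363) (nat_lit 5) (nat_lit 373) (nat_lit 5) (nat_lit 374) (nat_lit 5) (nat_lit 592) (nat_lit 553) (nat_lit 415)) (XT.lf (nat_lit 0) (nat_lit 9050871708) (nat_lit 760) (nat_lit 2944745328) (nat_lit 836) (nat_lit 300857874) (nat_lit 363) (nat_lit 5) (nat_lit 373) (nat_lit 5) (nat_lit 374) (nat_lit 5) (nat_lit 593) (nat_lit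 553) (nat_lit 414)))) (XT.nd (nat_lit 78) (nat_lit 760) (nat_lit 0) (XT.lf (nat_lit 0) (nat_lit 1662586153) (nat_lit 912) (nat_lit 8641066227) (nat_lit 76) (nat_lit 2122777636) (nat_lit 351) (nat_lit 5) (nat_lit 363) (nat_lit 5) (nat_lit 352) (nat_lit 5) (nat_lit 594) (nat_lit 553) (nat_lit 413)) (XT.nd (nat_lit 78) (nat_lit 760) (nat_lit 0) (XT.lf (nat_lit 0) (nat_lit 3688846922) (nat_lit 912) (nat_lit 1594041818) (nat_lit 76) (nat_lit 7275506090) (nat_lit 351) (nat_lit 5) (nat_lit 363) (nat_lit 5) (nat_lit 352) (nat_lit 5) (nat_lit 595) (nat_lit 553) (nat_lit 412)) (XT.lf (nat_lit 0) (nat_lit 5653560721) (nat_lit 760) (nat_lit 125197493) (nat_lit 836) (nat_lit 6913780090) (nat_lit 341) (nat_lit 5) (nat_lit 351) (nat_lit 5) (nat_lit 352) (nat_lit 5) (nat_lit 596) (nat_lit 553) (nat_lit 411))))) (XT.nd (nat_lit 234) (nat_lit 836) (nat_lit 0) (XT.nd (nat_lit 78) (nat_lit 684) (nat_lit 0) (XT.lf (nat_lit 0) (nat_lit 193010921) (nat_lit 760) (nat_lit 7749406521) (nat_lit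 836) (nat_lit 4886310042) (nat_lit 331) (nat_lit 5) (nat_lit 341) (nat_lit 5) (nat_lit 342) (nat_lit 5) (nat_lit 597) (nat_lit 553) (nat_lit 410)) (XT.nd (nat_lit 78) (nat_lit 684) (nat_lit 0) (XT.lf (nat_lit 0) (nat_lit 7649632976) (nat_lit 760) (nat_lit 2534528990) (nat_lit 836) (nat_lit 2782784038) (nat_lit 331) (nat_lit 5) (nat_lit 341) (nat_lit 5) (nat_lit 342) (nat_lit 5) (nat_lit 598) (nat_lit 553) (nat_lit 409)) (XT.lf (nat_lit 0) (nat_lit 2142935417) (nat_lit 684) (nat_lit 10346803533) (nat_lit 760) (nat_lit 617811752) (nat_lit 322) (nat_lit 5) (nat_lit 331) (nat_lit 5) (nat_lit 332) (nat_lit 5) (nat_lit 599) (nat_lit 553) (nat_lit 408)))) (XT.nd (nat_lit 78) (nat_lit 760) (nat_lit 0) (XT.lf (nat_lit 0) (nat_lit 1609382765) (nat_lit 760) (nat_lit 3467761104) (nat_lit 76) (nat_lit 8172823153) (nat_lit 321) (nat_lit 5) (nat_lit 331) (nat_lit 5) (nat_lit 322) (nat_lit 5) (nat_lit 600) (nat_lit 553) (nat_lit 407)) (XT.nd (nat_lit 78) (nat_lit 0) (nat_lit 0) (XT.lf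 (nat_lit 0) (nat_lit 3889692592) (nat_lit 836) (nat_lit 9181097569) (nat_lit 76) (nat_lit 324024615) (nat_lit 311) (nat_lit 5) (nat_lit 322) (nat_lit 5) (nat_lit 312) (nat_lit 5) (nat_lit 601) (nat_lit 553) (nat_lit 406)) (XT.lf (nat_lit 0) (nat_lit 6260133427) (nat_lit 836) (nat_lit 1494525717) (nat_lit 76) (nat_lit 5787011470) (nat_lit 311) (nat_lit 5) (nat_lit 322) (nat_lit 5) (nat_lit 312) (nat_lit 5) (nat_lit 602) (nat_lit 553) (nat_lit 405)))))) (XT.nd (nat_lit 468) (nat_lit 2432) (nat_lit 0) (XT.nd (nat_lit 234) (nat_lit 1368) (nat_lit 0) (XT.nd (nat_lit 78) (nat_lit 684) (nat_lit 0) (XT.lf (nat_lit 0) (nat_lit 6415719350) (nat_lit 684) (nat_lit 2291641120) (nat_lit 760) (nat_lit 4983517148) (nat_lit 302) (nat_lit 5) (nat_lit 311) (nat_lit 5) (nat_lit 312) (nat_lit 5) (nat_lit 603) (nat_lit 553) (nat_lit 404)) (XT.nd (nat_lit 78) (nat_lit 0) (nat_lit 0) (XT.lf (nat_lit 0) (nat_lit 634171221) (nat_lit 684) (nat_lit 10592732411) (nat_lit 760) (nat_lit 2615699261)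 (nat_lit 293) (nat_lit 5) (nat_lit 302) (nat_lit 5) (nat_lit 303) (nat_lit 5) (nat_lit 604) (nat_lit 553) (nat_lit 403)) (XT.lf (nat_lit 0) (nat_lit 8770680820) (nat_lit 684) (nat_lit 5078057717) (nat_lit 760) (nat_lit 147587653) (nat_lit 293) (nat_lit 5) (nat_lit 302) (nat_lit 5) (nat_lit 303) (nat_lit 5) (nat_lit 605) (nat_lit 553) (nat_lit 402)))) (XT.nd (nat_lit 78) (nat_lit 684) (nat_lit 0) (XT.lf (nat_lit 0) (nat_lit 2349723767) (nat_lit 684) (nat_lit 11230782620) (nat_lit 76) (nat_lit 572092920) (nat_lit 284) (nat_lit 5) (nat_lit 293) (nat_lit 5) (nat_lit 285) (nat_lit 5) (nat_lit 606) (nat_lit 553) (nat_lit 401)) (XT.nd (nat_lit 78) (nat_lit 684) (nat_lit 0) (XT.lf (nat_lit 0) (nat_lit 4952221553) (nat_lit 684) (nat_lit 3057324627) (nat_lit 76) (nat_lit 6301289315) (nat_lit 284) (nat_lit 5) (nat_lit 293) (nat_lit 5) (nat_lit 285) (nat_lit 5) (nat_lit 607) (nat_lit 553) (nat_lit 400)) (XT.lf (nat_lit 0) (nat_lit 5335607519) (nat_lit 684) (nat_lit 2294319671) (nat_lit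 760) (nat_lit 6841847473) (nat_lit 275) (nat_lit 5) (nat_lit 284) (nat_lit 5) (nat_lit 285) (nat_lit 5) (nat_lit 608) (nat_lit 553) (nat_lit 399))))) (XT.nd (nat_lit 234) (nat_lit 1140) (nat_lit 0) (XT.nd (nat_lit 78) (nat_lit 1292) (nat_lit 0) (XT.lf (nat_lit 0) (nat_lit 10393426229) (nat_lit 760) (nat_lit 734862424) (nat_lit 76) (nat_lit 3507000566) (nat_lit 275) (nat_lit 5) (nat_lit 285) (nat_lit 5) (nat_lit 276) (nat_lit 5) (nat_lit 609) (nat_lit 553) (nat_lit 398)) (XT.nd (nat_lit 78) (nat_lit 684) (nat_lit 0) (XT.lf (nat_lit 0) (nat_lit 7909188497) (nat_lit 608) (nat_lit 5358409698) (nat_lit 684) (nat_lit 1533369174) (nat_lit 267) (nat_lit 5) (nat_lit 275) (nat_lit 5) (nat_lit 276) (nat_lit 5) (nat_lit 610) (nat_lit 553) (nat_lit 397)) (XT.lf (nat_lit 0) (nat_lit 1222088560) (nat_lit 684) (nat_lit 13205743594) (nat_lit 76) (nat_lit 541790278) (nat_lit 258) (nat_lit 5) (nat_lit 267) (nat_lit 5) (nat_lit 259) (nat_lit 5) (nat_lit 611) (nat_lit 553) (nat_lit 396))))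 (XT.nd (nat_lit 156) (nat_lit 608) (nat_lit 0) (XT.nd (nat_lit 78) (nat_lit 532) (nat_lit 0) (XT.lf (nat_lit 0) (nat_lit 4083204518) (nat_lit 684) (nat_lit 4514588056) (nat_lit 76) (nat_lit 6542234976) (nat_lit 258) (nat_lit 5) (nat_lit 267) (nat_lit 5) (nat_lit 259) (nat_lit 5) (nat_lit 612) (nat_lit 553) (nat_lit 395)) (XT.lf (nat_lit 0) (nat_lit 4394312204) (nat_lit 532) (nat_lit 2624998436) (nat_lit 608) (nat_lit 8294176033) (nat_lit 251) (nat_lit 5) (nat_lit 258) (nat_lit 5) (nat_lit 259) (nat_lit 5) (nat_lit 613) (nat_lit 553) (nat_lit 394))) (XT.nd (nat_lit 78) (nat_lit 608) (nat_lit 0) (XT.lf (nat_lit 0) (nat_lit 10056486787) (nat_lit 608) (nat_lit 1983749574) (nat_lit 76) (nat_lit 3449332892) (nat_lit 251) (nat_lit 5) (nat_lit 259) (nat_lit 5) (nat_lit 252) (nat_lit 5) (nat_lit 614) (nat_lit 553) (nat_lit 393)) (XT.lf (nat_lit 0) (nat_lit 7193803562) (nat_lit 608) (nat_lit 6014243259) (nat_lit 684) (nat_lit 2460055064) (nat_lit 243) (nat_lit 5) (nat_lit 251)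 (nat_lit 5) (nat_lit 252) (nat_lit 5) (nat_lit 615) (nat_lit 553) (nat_lit 392))))))) (XT.nd (nat_lit 936) (nat_lit 3572) (nat_lit 0) (XT.nd (nat_lit 468) (nat_lit 2052) (nat_lit 0) (XT.nd (nat_lit 234) (nat_lit 608) (nat_lit 0) (XT.nd (nat_lit 78) (nat_lit 532) (nat_lit 0) (XT.lf (nat_lit 0) (nat_lit 573605705) (nat_lit 608) (nat_lit 15127005981) (nat_lit 76) (nat_lit 149346707) (nat_lit 235) (nat_lit 5) (nat_lit 243) (nat_lit 5) (nat_lit 236) (nat_lit 5) (nat_lit 616) (nat_lit 553) (nat_lit 391)) (XT.nd (nat_lit 78) (nat_lit 532) (nat_lit 0) (XT.lf (nat_lit 0) (nat_lit 3721796048) (nat_lit 608) (nat_lit 5885483990) (nat_lit 76) (nat_lit 6426111982) (nat_lit 235) (nat_lit 5) (nat_lit 243) (nat_lit 5) (nat_lit 236) (nat_lit 5) (nat_lit 617) (nat_lit 553) (nat_lit 390)) (XT.lf (nat_lit 0) (nat_lit 3574323766) (nat_lit 532) (nat_lit 3371728092) (nat_lit 608) (nat_lit 9274181547) (nat_lit 228) (nat_lit 5) (nat_lit 235) (nat_lit 5) (nat_lit 236) (nat_lit 5) (nat_lit 618)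 (nat_lit 553) (nat_lit 389)))) (XT.nd (nat_lit 78) (nat_lit 608) (nat_lit 0) (XT.lf (nat_lit 0) (nat_lit 10283937239) (nat_lit 608) (nat_lit 3140093411) (nat_lit 76) (nat_lit 2985799172) (nat_lit 228) (nat_lit 5) (nat_lit 236) (nat_lit 5) (nat_lit 229) (nat_lit 5) (nat_lit 619) (nat_lit 553) (nat_lit 388)) (XT.nd (nat_lit 78) (nat_lit 76) (nat_lit 0) (XT.lf (nat_lit 0) (nat_lit 6606912083) (nat_lit 532) (nat_lit 7137075060) (nat_lit 608) (nat_lit 2858123962) (nat_lit 221) (nat_lit 5) (nat_lit 228) (nat_lit 5) (nat_lit 229) (nat_lit 5) (nat_lit 620) (nat_lit 553) (nat_lit 387)) (XT.lf (nat_lit 0) (nat_lit 480204303) (nat_lit 608) (nat_lit 222910041) (nat_lit 76) (nat_lit 16094834342) (nat_lit 220) (nat_lit 5) (nat_lit 228) (nat_lit 5) (nat_lit 221) (nat_lit 5) (nat_lit 621) (nat_lit 553) (nat_lit 386))))) (XT.nd (nat_lit 234) (nat_lit 1064) (nat_lit 0) (XT.nd (nat_lit 78) (nat_lit 456) (nat_lit 0) (XT.lf (nat_lit 0) (nat_lit 3939949605) (nat_lit 608) (nat_lit 7192865390)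 (nat_lit 76) (nat_lit 5862652776) (nat_lit 213) (nat_lit 5) (nat_lit 221) (nat_lit 5) (nat_lit 214) (nat_lit 5) (nat_lit 622) (nat_lit 553) (nat_lit 385)) (XT.nd (nat_lit 78) (nat_lit 0) (nat_lit 0) (XT.lf (nat_lit 0) (nat_lit 2854394805) (nat_lit 456) (nat_lit 4629685639) (nat_lit 532) (nat_lit 9712553972) (nat_lit 207) (nat_lit 5) (nat_lit 213) (nat_lit 5) (nat_lit 214) (nat_lit 5) (nat_lit 623) (nat_lit 553) (nat_lit 384)) (XT.lf (nat_lit 0) (nat_lit 11151263662) (nat_lit 532) (nat_lit 4227278739) (nat_lit 76) (nat_lit 2022239571) (nat_lit 207) (nat_lit 5) (nat_lit 214) (nat_lit 5) (nat_lit 208) (nat_lit 5) (nat_lit 624) (nat_lit 553) (nat_lit 383)))) (XT.nd (nat_lit 78) (nat_lit 532) (nat_lit 0) (XT.lf (nat_lit 0) (nat_lit 6126739827) (nat_lit 532) (nat_lit 8826248668) (nat_lit 608) (nat_lit 2654800978) (nat_lit 200) (nat_lit 5) (nat_lit 207) (nat_lit 5) (nat_lit 208) (nat_lit 5) (nat_lit 625) (nat_lit 553) (nat_lit 382)) (XT.nd (nat_lit 78) (nat_lit 456) (nat_lit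 0) (XT.lf (nat_lit 0) (nat_lit 1017890966) (nat_lit 608) (nat_lit 1092959144) (nat_lit 76) (nat_lit 15707569536) (nat_lit 199) (nat_lit 5) (nat_lit 207) (nat_lit 5) (nat_lit 200) (nat_lit 5) (nat_lit 626) (nat_lit 553) (nat_lit 381)) (XT.lf (nat_lit 0) (nat_lit 4813090553) (nat_lit 532) (nat_lit 8464639691) (nat_lit 76) (nat_lit 4753490082) (nat_lit 193) (nat_lit 5) (nat_lit 200) (nat_lit 5) (nat_lit 194) (nat_lit 5) (nat_lit 627) (nat_lit 553) (nat_lit 380)))))) (XT.nd (nat_lit 468) (nat_lit 1748) (nat_lit 0) (XT.nd (nat_lit 234) (nat_lit 912) (nat_lit 0) (XT.nd (nat_lit 78) (nat_lit 456) (nat_lit 0) (XT.lf (nat_lit 0) (nat_lit 2208138486) (nat_lit 456) (nat_lit 6502800948) (nat_lit 532) (nat_lit 9536803558) (nat_lit 187) (nat_lit 5) (nat_lit 193) (nat_lit 5) (nat_lit 194) (nat_lit 5) (nat_lit 628) (nat_lit 553) (nat_lit 379)) (XT.nd (nat_lit 78) (nat_lit 456) (nat_lit 0) (XT.lf (nat_lit 0) (nat_lit 12737684892) (nat_lit 532) (nat_lit 5274229303) (nat_lit 76) (nat_lit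 455663989) (nat_lit 187) (nat_lit 5) (nat_lit 194) (nat_lit 5) (nat_lit 188) (nat_lit 5) (nat_lit 629) (nat_lit 553) (nat_lit 378)) (XT.lf (nat_lit 0) (nat_lit 5725877429) (nat_lit 456) (nat_lit 11190617808) (nat_lit 532) (nat_lit 1773885090) (nat_lit 181) (nat_lit 5) (nat_lit 187) (nat_lit 5) (nat_lit 188) (nat_lit 5) (nat_lit 630) (nat_lit 553) (nat_lit 377)))) (XT.nd (nat_lit 78) (nat_lit 836) (nat_lit 0) (XT.lf (nat_lit 0) (nat_lit 2258534360) (nat_lit 532) (nat_lit 1927006874) (nat_lit 76) (nat_lit 14731265507) (nat_lit 180) (nat_lit 5) (nat_lit 187) (nat_lit 5) (nat_lit 181) (nat_lit 5) (nat_lit 631) (nat_lit 553) (nat_lit 376)) (XT.nd (nat_lit 78) (nat_lit 380) (nat_lit 0) (XT.lf (nat_lit 0) (nat_lit 6420267652) (nat_lit 532) (nat_lit 9735361535) (nat_lit 76) (nat_lit 2990450431) (nat_lit 174) (nat_lit 5) (nat_lit 181) (nat_lit 5) (nat_lit 175) (nat_lit 5) (nat_lit 632) (nat_lit 553) (nat_lit 375)) (XT.lf (nat_lit 0) (nat_lit 1602395742) (nat_lit 380) (nat_lit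 9105531681) (nat_lit 456) (nat_lit 8671157476) (nat_lit 169) (nat_lit 5) (nat_lit 174) (nat_lit 5) (nat_lit 175) (nat_lit 5) (nat_lit 633) (nat_lit 553) (nat_lit 374))))) (XT.nd (nat_lit 234) (nat_lit 1216) (nat_lit 0) (XT.nd (nat_lit 78) (nat_lit 532) (nat_lit 0) (XT.lf (nat_lit 0) (nat_lit 13286500683) (nat_lit 380) (nat_lit 1851806729) (nat_lit 456) (nat_lit 4477304301) (nat_lit 169) (nat_lit 5) (nat_lit 174) (nat_lit 5) (nat_lit 175) (nat_lit 5) (nat_lit 634) (nat_lit 553) (nat_lit 373)) (XT.nd (nat_lit 78) (nat_lit 76) (nat_lit 0) (XT.lf (nat_lit 0) (nat_lit 5369557155) (nat_lit 456) (nat_lit 14350391390) (nat_lit 532) (nat_lit 135668198) (nat_lit 163) (nat_lit 5) (nat_lit 169) (nat_lit 5) (nat_lit 170) (nat_lit 5) (nat_lit 635) (nat_lit 553) (nat_lit 372)) (XT.lf (nat_lit 0) (nat_lit 4283319862) (nat_lit 532) (nat_lit 2764295955) (nat_lit 76) (nat_lit 13051312943) (nat_lit 162) (nat_lit 5) (nat_lit 169) (nat_lit 5) (nat_lit 163) (nat_lit 5) (nat_lit 636) (nat_lit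 553) (nat_lit 371)))) (XT.nd (nat_lit 156) (nat_lit 456) (nat_lit 0) (XT.nd (nat_lit 78) (nat_lit 380) (nat_lit 0) (XT.lf (nat_lit 0) (nat_lit 8844209557) (nat_lit 456) (nat_lit 11048096809) (nat_lit 76) (nat_lit 453676655) (nat_lit 157) (nat_lit 5) (nat_lit 163) (nat_lit 5) (nat_lit 158) (nat_lit 5) (nat_lit 637) (nat_lit 553) (nat_lit 370)) (XT.lf (nat_lit 0) (nat_lit 995321821) (nat_lit 380) (nat_lit 12564821122) (nat_lit 456) (nat_lit 7036559600) (nat_lit 152) (nat_lit 5) (nat_lit 157) (nat_lit 5) (nat_lit 158) (nat_lit 5) (nat_lit 638) (nat_lit 553) (nat_lit 369))) (XT.nd (nat_lit 78) (nat_lit 456) (nat_lit 0) (XT.lf (nat_lit 0) (nat_lit 13417336749) (nat_lit 380) (nat_lit 5019293114) (nat_lit 456) (nat_lit 2414482577) (nat_lit 152) (nat_lit 5) (nat_lit 157) (nat_lit 5) (nat_lit 158) (nat_lit 5) (nat_lit 639) (nat_lit 553) (nat_lit 368)) (XT.lf (nat_lit 0) (nat_lit 2312307763) (nat_lit 456) (nat_lit 16111351680) (nat_lit 76) (nat_lit 2685804336) (nat_lit 146) (nat_lit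 5) (nat_lit 152) (nat_lit 5) (nat_lit 147) (nat_lit 5) (nat_lit 640) (nat_lit 553) (nat_lit 367))))))))
noncomputable def xc161 : XT := (XT.nd (nat_lit 75114) (nat_lit 0) (nat_lit 22952) (XT.nd (nat_lit 936) (nat_lit 684) (nat_lit 0) (XT.nd (nat_lit 468) (nat_lit 1292) (nat_lit 0) (XT.nd (nat_lit 234) (nat_lit 456) (nat_lit 0) (XT.nd (nat_lit 78) (nat_lit 684) (nat_lit 0) (XT.lf (nat_lit 0) (nat_lit 7177038384) (nat_lit 456) (nat_lit 3654091256) (nat_lit 76) (nat_lit 10540019262) (nat_lit 146) (nat_lit 5) (nat_lit 152) (nat_lit 5) (nat_lit 147) (nat_lit 5) (nat_lit 641) (nat_lit 553) (nat_lit 366)) (XT.nd (nat_lit 78) (nat_lit 304) (nat_lit 0) (XT.lf (nat_lit 0) (nat_lit 9160742918) (nat_lit 380) (nat_lit 3030199213) (nat_lit 456) (nat_lit 9446088656) (nat_lit 141) (nat_lit 5) (nat_lit 146) (nat_lit 5) (nat_lit 147) (nat_lit 5) (nat_lit 642) (nat_lit 553) (nat_lit 365)) (XT.lf (nat_lit 0) (nat_lit 334134580) (nat_lit 304) (nat_lit 17022277413) (nat_lit 380) (nat_lit 4550793173)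 (nat_lit 137) (nat_lit 5) (nat_lit 141) (nat_lit 5) (nat_lit 142) (nat_lit 5) (nat_lit 643) (nat_lit 553) (nat_lit 364)))) (XT.nd (nat_lit 78) (nat_lit 380) (nat_lit 0) (XT.lf (nat_lit 0) (nat_lit 533420109) (nat_lit 380) (nat_lit 8646505007) (nat_lit 76) (nat_lit 13000864778) (nat_lit 136) (nat_lit 5) (nat_lit 141) (nat_lit 5) (nat_lit 137) (nat_lit 5) (nat_lit 644) (nat_lit 553) (nat_lit 363)) (XT.nd (nat_lit 78) (nat_lit 0) (nat_lit 0) (XT.lf (nat_lit 0) (nat_lit 4556659845) (nat_lit 380) (nat_lit 1123981862) (nat_lit 456) (nat_lit 16778158393) (nat_lit 131) (nat_lit 5) (nat_lit 136) (nat_lit 5) (nat_lit 137) (nat_lit 5) (nat_lit 645) (nat_lit 553) (nat_lit 362)) (XT.lf (nat_lit 0) (nat_lit 11027928093) (nat_lit 456) (nat_lit 4658153133) (nat_lit 76) (nat_lit 7054347445) (nat_lit 131) (nat_lit 5) (nat_lit 137) (nat_lit 5) (nat_lit 132) (nat_lit 5) (nat_lit 646) (nat_lit 553) (nat_lit 361))))) (XT.nd (nat_lit 234) (nat_lit 608) (nat_lit 0) (XT.nd (nat_lit 78) (nat_lit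 380) (nat_lit 0) (XT.lf (nat_lit 0) (nat_lit 8949269375) (nat_lit 304) (nat_lit 7591243441) (nat_lit 380) (nat_lit 6486010504) (nat_lit 127) (nat_lit 5) (nat_lit 131) (nat_lit 5) (nat_lit 132) (nat_lit 5) (nat_lit 647) (nat_lit 553) (nat_lit 360)) (XT.nd (nat_lit 78) (nat_lit 380) (nat_lit 0) (XT.lf (nat_lit 0) (nat_lit 22191980816) (nat_lit 380) (nat_lit 441672946) (nat_lit 76) (nat_lit 684114017) (nat_lit 127) (nat_lit 5) (nat_lit 132) (nat_lit 5) (nat_lit 128) (nat_lit 5) (nat_lit 648) (nat_lit 553) (nat_lit 359)) (XT.lf (nat_lit 0) (nat_lit 4417019995) (nat_lit 380) (nat_lit 10057963452) (nat_lit 76) (nat_lit 9136644022) (nat_lit 122) (nat_lit 5) (nat_lit 127) (nat_lit 5) (nat_lit 123) (nat_lit 5) (nat_lit 649) (nat_lit 553) (nat_lit 358)))) (XT.nd (nat_lit 78) (nat_lit 304) (nat_lit 0) (XT.lf (nat_lit 0) (nat_lit 3956799257) (nat_lit 304) (nat_lit 6120501513) (nat_lit 380) (nat_lit 13833481431) (nat_lit 118) (nat_lit 5) (nat_lit 122) (nat_lit 5) (nat_lit 123) (nat_lit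 5) (nat_lit 650) (nat_lit 553) (nat_lit 357)) (XT.nd (nat_lit 78) (nat_lit 304) (nat_lit 0) (XT.lf (nat_lit 0) (nat_lit 15927359505) (nat_lit 380) (nat_lit 5853658323) (nat_lit 76) (nat_lit 2433371258) (nat_lit 118) (nat_lit 5) (nat_lit 123) (nat_lit 5) (nat_lit 119) (nat_lit 5) (nat_lit 651) (nat_lit 553) (nat_lit 356)) (XT.lf (nat_lit 0) (nat_lit 8589769149) (nat_lit 304) (nat_lit 13394132095) (nat_lit 380) (nat_lit 2538377725) (nat_lit 114) (nat_lit 5) (nat_lit 118) (nat_lit 5) (nat_lit 119) (nat_lit 5) (nat_lit 652) (nat_lit 553) (nat_lit 355)))))) (XT.nd (nat_lit 73632) (nat_lit 0) (nat_lit 32680) (XT.nd (nat_lit 234) (nat_lit 0) (nat_lit 0) (XT.nd (nat_lit 78) (nat_lit 608) (nat_lit 0) (XT.lf (nat_lit 0) (nat_lit 3314372846) (nat_lit 380) (nat_lit 1467023068) (nat_lit 76) (nat_lit 20053844679) (nat_lit 113) (nat_lit 5) (nat_lit 118) (nat_lit 5) (nat_lit 114) (nat_lit 5) (nat_lit 653) (nat_lit 553) (nat_lit 354)) (XT.nd (nat_lit 78) (nat_lit 304) (nat_lit 0) (XT.lf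 (nat_lit 0) (nat_lit 9357444154) (nat_lit 380) (nat_lit 11742815928) (nat_lit 76) (nat_lit 4051721172) (nat_lit 109) (nat_lit 5) (nat_lit 114) (nat_lit 5) (nat_lit 110) (nat_lit 5) (nat_lit 654) (nat_lit 553) (nat_lit 353)) (XT.lf (nat_lit 0) (nat_lit 3126312459) (nat_lit 304) (nat_lit 12450300162) (nat_lit 380) (nat_lit 9897339848) (nat_lit 105) (nat_lit 5) (nat_lit 109) (nat_lit 5) (nat_lit 110) (nat_lit 5) (nat_lit 655) (nat_lit 553) (nat_lit 352)))) (XT.nd (nat_lit 73242) (nat_lit 0) (nat_lit 34200) (XT.lf (nat_lit 0) (nat_lit 18441208685) (nat_lit 304) (nat_lit 3551179392) (nat_lit 380) (nat_lit 3808531009) (nat_lit 105) (nat_lit 5) (nat_lit 109) (nat_lit 5) (nat_lit 110) (nat_lit 5) (nat_lit 656) (nat_lit 553) (nat_lit 351)) (XT.nd (nat_lit 78) (nat_lit 0) (nat_lit 0) (XT.lf (nat_lit 0) (nat_lit 1876172189) (nat_lit 0) (nat_lit 1876172189) (nat_lit 1444) (nat_lit 575484187) (nat_lit 555) (nat_lit 5) (nat_lit 555) (nat_lit 3) (nat_lit 574) (nat_lit 3) (nat_lit 554)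 (nat_lit 554) (nat_lit 452)) (XT.lf (nat_lit 0) (nat_lit 8073584737) (nat_lit 0) (nat_lit 490168176) (nat_lit 1444) (nat_lit 158606738) (nat_lit 555) (nat_lit 5) (nat_lit 555) (nat_lit 3) (nat_lit 574) (nat_lit 3) (nat_lit 555) (nat_lit 554) (nat_lit 451))))) (XT.nd (nat_lit 234) (nat_lit 0) (nat_lit 76) (XT.nd (nat_lit 78) (nat_lit 0) (nat_lit 0) (XT.lf (nat_lit 0) (nat_lit 859279361) (nat_lit 1520) (nat_lit 5088171239) (nat_lit 1596) (nat_lit 2842501799) (nat_lit 535) (nat_lit 5) (nat_lit 555) (nat_lit 5) (nat_lit 556) (nat_lit 5) (nat_lit 556) (nat_lit 554) (nat_lit 450)) (XT.nd (nat_lit 78) (nat_lit 0) (nat_lit 76) (XT.lf (nat_lit 0) (nat_lit 1877547981) (nat_lit 1520) (nat_lit 728756884) (nat_lit 1596) (nat_lit 6252932576) (nat_lit 535) (nat_lit 5) (nat_lit 555) (nat_lit 5) (nat_lit 556) (nat_lit 5) (nat_lit 557) (nat_lit 554) (nat_lit 449)) (XT.lf (nat_lit 0) (nat_lit 2921011229) (nat_lit 1520) (nat_lit 5181785379) (nat_lit 1596) (nat_lit 827019286) (nat_lit 536)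 (nat_lit 5) (nat_lit 556) (nat_lit 5) (nat_lit 557) (nat_lit 5) (nat_lit 558) (nat_lit 554) (nat_lit 448)))) (XT.nd (nat_lit 156) (nat_lit 0) (nat_lit 76) (XT.nd (nat_lit 78) (nat_lit 0) (nat_lit 0) (XT.lf (nat_lit 0) (nat_lit 3983019736) (nat_lit 1520) (nat_lit 708742595) (nat_lit 1596) (nat_lit 4310094275) (nat_lit 536) (nat_lit 5) (nat_lit 556) (nat_lit 5) (nat_lit 557) (nat_lit 5) (nat_lit 559) (nat_lit 554) (nat_lit 447)) (XT.lf (nat_lit 76) (nat_lit 3891093478) (nat_lit 0) (nat_lit 1176411991) (nat_lit 1596) (nat_lit 4007812048) (nat_lit 537) (nat_lit 5) (nat_lit 536) (nat_lit 5) (nat_lit 557) (nat_lit 5) (nat_lit 560) (nat_lit 554) (nat_lit 446))) (XT.nd (nat_lit 78) (nat_lit 0) (nat_lit 0) (XT.lf (nat_lit 0) (nat_lit 6170532258) (nat_lit 1520) (nat_lit 587444870) (nat_lit 1596) (nat_lit 2392337537) (nat_lit 537) (nat_lit 5) (nat_lit 557) (nat_lit 5) (nat_lit 558) (nat_lit 5) (nat_lit 561) (nat_lit 554) (nat_lit 445)) (XT.lf (nat_lit 76) (nat_lit 4133820465) (nat_lit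 0) (nat_lit 3173313143) (nat_lit 1596) (nat_lit 1919451834) (nat_lit 538) (nat_lit 5) (nat_lit 537) (nat_lit 5) (nat_lit 558) (nat_lit 5) (nat_lit 562) (nat_lit 554) (nat_lit 444))))))) (XT.nd (nat_lit 936) (nat_lit 6992) (nat_lit 0) (XT.nd (nat_lit 468) (nat_lit 1368) (nat_lit 0) (XT.nd (nat_lit 234) (nat_lit 0) (nat_lit 76) (XT.nd (nat_lit 78) (nat_lit 1596) (nat_lit 0) (XT.lf (nat_lit 0) (nat_lit 8450877120) (nat_lit 1520) (nat_lit 364291367) (nat_lit 1596) (nat_lit 489528834) (nat_lit 538) (nat_lit 5) (nat_lit 558) (nat_lit 5) (nat_lit 559) (nat_lit 5) (nat_lit 563) (nat_lit 554) (nat_lit 443)) (XT.nd (nat_lit 78) (nat_lit 0) (nat_lit 0) (XT.lf (nat_lit 0) (nat_lit 258116825) (nat_lit 1596) (nat_lit 4903010643) (nat_lit 1672) (nat_lit 4222656431) (nat_lit 517) (nat_lit 5) (nat_lit 538) (nat_lit 5) (nat_lit 539) (nat_lit 5) (nat_lit 564) (nat_lit 554) (nat_lit 442)) (XT.lf (nat_lit 0) (nat_lit 1361279198) (nat_lit 1596) (nat_lit 56621101) (nat_lit 1672) (nat_lit 8046834314)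 (nat_lit 517) (nat_lit 5) (nat_lit 538) (nat_lit 5) (nat_lit 539) (nat_lit 5) (nat_lit 565) (nat_lit 554) (nat_lit 441)))) (XT.nd (nat_lit 78) (nat_lit 0) (nat_lit 0) (XT.lf (nat_lit 0) (nat_lit 2512788344) (nat_lit 1596) (nat_lit 4625437902) (nat_lit 1672) (nat_lit 2408556017) (nat_lit 518) (nat_lit 5) (nat_lit 539) (nat_lit 5) (nat_lit 540) (nat_lit 5) (nat_lit 566) (nat_lit 554) (nat_lit 440)) (XT.nd (nat_lit 78) (nat_lit 0) (nat_lit 76) (XT.lf (nat_lit 76) (nat_lit 350040407) (nat_lit 0) (nat_lit 3328094917) (nat_lit 1672) (nat_lit 5952522912) (nat_lit 519) (nat_lit 5) (nat_lit 518) (nat_lit 5) (nat_lit 540) (nat_lit 5) (nat_lit 567) (nat_lit 554) (nat_lit 439)) (XT.lf (nat_lit 0) (nat_lit 4880788134) (nat_lit 1596) (nat_lit 4246395671) (nat_lit 1672) (nat_lit 588751398) (nat_lit 519) (nat_lit 5) (nat_lit 540) (nat_lit 5) (nat_lit 541) (nat_lit 5) (nat_lit 568) (nat_lit 554) (nat_lit 438))))) (XT.nd (nat_lit 234) (nat_lit 1520) (nat_lit 0) (XT.nd (nat_lit 78) (nat_lit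 0) (nat_lit 0) (XT.lf (nat_lit 76) (nat_lit 863380207) (nat_lit 0) (nat_lit 5251298766) (nat_lit 1672) (nat_lit 3688098423) (nat_lit 520) (nat_lit 5) (nat_lit 519) (nat_lit 5) (nat_lit 541) (nat_lit 5) (nat_lit 569) (nat_lit 554) (nat_lit 437)) (XT.nd (nat_lit 78) (nat_lit 0) (nat_lit 76) (XT.lf (nat_lit 76) (nat_lit 6118593695) (nat_lit 0) (nat_lit 1262996684) (nat_lit 1672) (nat_lit 2509602516) (nat_lit 520) (nat_lit 5) (nat_lit 519) (nat_lit 5) (nat_lit 541) (nat_lit 5) (nat_lit 570) (nat_lit 554) (nat_lit 436)) (XT.lf (nat_lit 76) (nat_lit 1484315732) (nat_lit 0) (nat_lit 7197653318) (nat_lit 1672) (nat_lit 1299248329) (nat_lit 521) (nat_lit 5) (nat_lit 520) (nat_lit 5) (nat_lit 542) (nat_lit 5) (nat_lit 571) (nat_lit 554) (nat_lit 435)))) (XT.nd (nat_lit 78) (nat_lit 1596) (nat_lit 0) (XT.lf (nat_lit 76) (nat_lit 6874653691) (nat_lit 0) (nat_lit 3147899729) (nat_lit 1672) (nat_lit 50208161) (nat_lit 521) (nat_lit 5) (nat_lit 520) (nat_lit 5) (nat_lit 542) (nat_lit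 5) (nat_lit 572) (nat_lit 554) (nat_lit 434)) (XT.nd (nat_lit 78) (nat_lit 0) (nat_lit 0) (XT.lf (nat_lit 0) (nat_lit 1209518001) (nat_lit 1672) (nat_lit 7959246800) (nat_lit 1748) (nat_lit 997180900) (nat_lit 499) (nat_lit 5) (nat_lit 521) (nat_lit 5) (nat_lit 522) (nat_lit 5) (nat_lit 573) (nat_lit 554) (nat_lit 433)) (XT.lf (nat_lit 0) (nat_lit 2517355153) (nat_lit 1672) (nat_lit 2533603839) (nat_lit 1748) (nat_lit 5209559107) (nat_lit 499) (nat_lit 5) (nat_lit 521) (nat_lit 5) (nat_lit 522) (nat_lit 5) (nat_lit 574) (nat_lit 554) (nat_lit 432)))))) (XT.nd (nat_lit 468) (nat_lit 3648) (nat_lit 0) (XT.nd (nat_lit 234) (nat_lit 3344) (nat_lit 0) (XT.nd (nat_lit 78) (nat_lit 0) (nat_lit 76) (XT.lf (nat_lit 76) (nat_lit 3025853329) (nat_lit 0) (nat_lit 826649403) (nat_lit 1748) (nat_lit 6504459084) (nat_lit 500) (nat_lit 5) (nat_lit 499) (nat_lit 5) (nat_lit 522) (nat_lit 5) (nat_lit 575) (nat_lit 554) (nat_lit 431)) (XT.nd (nat_lit 78) (nat_lit 0) (nat_lit 0) (XT.lf (nat_lit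 0) (nat_lit 5235879276) (nat_lit 1672) (nat_lit 1761553577) (nat_lit 1748) (nat_lit 3457473926) (nat_lit 500) (nat_lit 5) (nat_lit 522) (nat_lit 5) (nat_lit 523) (nat_lit 5) (nat_lit 576) (nat_lit 554) (nat_lit 430)) (XT.lf (nat_lit 76) (nat_lit 3951346918) (nat_lit 0) (nat_lit 2708865694) (nat_lit 1748) (nat_lit 3894335076) (nat_lit 501) (nat_lit 5) (nat_lit 500) (nat_lit 5) (nat_lit 523) (nat_lit 5) (nat_lit 577) (nat_lit 554) (nat_lit 429)))) (XT.nd (nat_lit 78) (nat_lit 3496) (nat_lit 0) (XT.lf (nat_lit 0) (nat_lit 8118183492) (nat_lit 1672) (nat_lit 879127594) (nat_lit 76) (nat_lit 1658770088) (nat_lit 501) (nat_lit 5) (nat_lit 523) (nat_lit 5) (nat_lit 502) (nat_lit 5) (nat_lit 578) (nat_lit 554) (nat_lit 428)) (XT.nd (nat_lit 78) (nat_lit 1824) (nat_lit 0) (XT.lf (nat_lit 0) (nat_lit 4992579143) (nat_lit 1672) (nat_lit 4645871922) (nat_lit 1748) (nat_lit 1120534242) (nat_lit 479) (nat_lit 5) (nat_lit 501) (nat_lit 5) (nat_lit 502) (nat_lit 5) (nat_lit 579) (nat_lit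 554) (nat_lit 427)) (XT.lf (nat_lit 0) (nat_lit 114638442) (nat_lit 1748) (nat_lit 195868461) (nat_lit 1824) (nat_lit 10553609109) (nat_lit 455) (nat_lit 5) (nat_lit 478) (nat_lit 5) (nat_lit 479) (nat_lit 5) (nat_lit 580) (nat_lit 554) (nat_lit 426))))) (XT.nd (nat_lit 234) (nat_lit 1976) (nat_lit 0) (XT.nd (nat_lit 78) (nat_lit 1672) (nat_lit 0) (XT.lf (nat_lit 0) (nat_lit 1805498834) (nat_lit 1824) (nat_lit 4829763535) (nat_lit 76) (nat_lit 4334934714) (nat_lit 455) (nat_lit 5) (nat_lit 479) (nat_lit 5) (nat_lit 456) (nat_lit 5) (nat_lit 581) (nat_lit 554) (nat_lit 425)) (XT.nd (nat_lit 78) (nat_lit 0) (nat_lit 0) (XT.lf (nat_lit 0) (nat_lit 1208404236) (nat_lit 1672) (nat_lit 2114628774) (nat_lit 1748) (nat_lit 7755516433) (nat_lit 433) (nat_lit 5) (nat_lit 455) (nat_lit 5) (nat_lit 456) (nat_lit 5) (nat_lit 582) (nat_lit 554) (nat_lit 424)) (XT.lf (nat_lit 0) (nat_lit 4903492900) (nat_lit 1748) (nat_lit 3786776144) (nat_lit 76) (nat_lit 2498150771) (nat_lit 433)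 (nat_lit 5) (nat_lit 456) (nat_lit 5) (nat_lit 434) (nat_lit 5) (nat_lit 583) (nat_lit 554) (nat_lit 423)))) (XT.nd (nat_lit 156) (nat_lit 988) (nat_lit 0) (XT.nd (nat_lit 78) (nat_lit 0) (nat_lit 0) (XT.lf (nat_lit 0) (nat_lit 2421567843) (nat_lit 988) (nat_lit 4107781260) (nat_lit 1064) (nat_lit 4770865168) (nat_lit 420) (nat_lit 5) (nat_lit 433) (nat_lit 5) (nat_lit 434) (nat_lit 5) (nat_lit 584) (nat_lit 554) (nat_lit 422)) (XT.lf (nat_lit 0) (nat_lit 8201267898) (nat_lit 1064) (nat_lit 2626850573) (nat_lit 76) (nat_lit 585857607) (nat_lit 420) (nat_lit 5) (nat_lit 434) (nat_lit 5) (nat_lit 421) (nat_lit 5) (nat_lit 585) (nat_lit 554) (nat_lit 421))) (XT.nd (nat_lit 78) (nat_lit 76) (nat_lit 0) (XT.lf (nat_lit 0) (nat_lit 3757669477) (nat_lit 912) (nat_lit 6185153545) (nat_lit 988) (nat_lit 1586468462) (nat_lit 408) (nat_lit 5) (nat_lit 420) (nat_lit 5) (nat_lit 421) (nat_lit 5) (nat_lit 586) (nat_lit 554) (nat_lit 420)) (XT.lf (nat_lit 0) (nat_lit 73795320) (nat_lit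 988) (nat_lit 1356160433) (nat_lit 76) (nat_lit 10216901342) (nat_lit 407) (nat_lit 5) (nat_lit 420) (nat_lit 5) (nat_lit 408) (nat_lit 5) (nat_lit 587) (nat_lit 554) (nat_lit 419))))))))
noncomputable def xc162 : XT := (XT.nd (nat_lit 1950) (nat_lit 7296) (nat_lit 0) (XT.nd (nat_lit 936) (nat_lit 5548) (nat_lit 0) (XT.nd (nat_lit 468) (nat_lit 2432) (nat_lit 0) (XT.nd (nat_lit 234) (nat_lit 1596) (nat_lit 0) (XT.nd (nat_lit 78) (nat_lit 836) (nat_lit 0) (XT.lf (nat_lit 0) (nat_lit 1787517622) (nat_lit 988) (nat_lit 6557194316) (nat_lit 76) (nat_lit 3421024618) (nat_lit 395) (nat_lit 5) (nat_lit 408) (nat_lit 5) (nat_lit 396) (nat_lit 5) (nat_lit 588) (nat_lit 554) (nat_lit 418)) (XT.nd (nat_lit 78) (nat_lit 0) (nat_lit 0) (XT.lf (nat_lit 0) (nat_lit 12316080) (nat_lit 836) (nat_lit 3527118791) (nat_lit 912) (nat_lit 8347482473) (nat_lit 384) (nat_lit 5) (nat_lit 395) (nat_lit 5) (nat_lit 396) (nat_lit 5) (nat_lit 589) (nat_lit 554) (nat_lit 417)) (XT.lf (nat_lit 0) (nat_lit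 5365096765) (nat_lit 912) (nat_lit 5231462650) (nat_lit 76) (nat_lit 1413190311) (nat_lit 384) (nat_lit 5) (nat_lit 396) (nat_lit 5) (nat_lit 385) (nat_lit 5) (nat_lit 590) (nat_lit 554) (nat_lit 416)))) (XT.nd (nat_lit 78) (nat_lit 760) (nat_lit 0) (XT.lf (nat_lit 0) (nat_lit 1526865724) (nat_lit 836) (nat_lit 5719372583) (nat_lit 912) (nat_lit 4888423184) (nat_lit 373) (nat_lit 5) (nat_lit 384) (nat_lit 5) (nat_lit 385) (nat_lit 5) (nat_lit 591) (nat_lit 554) (nat_lit 415)) (XT.nd (nat_lit 78) (nat_lit 760) (nat_lit 0) (XT.lf (nat_lit 0) (nat_lit 8477029131) (nat_lit 836) (nat_lit 708962007) (nat_lit 912) (nat_lit 3075662607) (nat_lit 373) (nat_lit 5) (nat_lit 384) (nat_lit 5) (nat_lit 385) (nat_lit 5) (nat_lit 592) (nat_lit 554) (nat_lit 414)) (XT.lf (nat_lit 0) (nat_lit 3173812558) (nat_lit 760) (nat_lit 8026070027) (nat_lit 836) (nat_lit 1190598372) (nat_lit 363) (nat_lit 5) (nat_lit 373) (nat_lit 5) (nat_lit 374) (nat_lit 5) (nat_lit 593) (nat_lit 554) (nat_lit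 413))))) (XT.nd (nat_lit 234) (nat_lit 1520) (nat_lit 0) (XT.nd (nat_lit 78) (nat_lit 836) (nat_lit 0) (XT.lf (nat_lit 0) (nat_lit 739070489) (nat_lit 836) (nat_lit 2222608767) (nat_lit 76) (nat_lit 9559782172) (nat_lit 362) (nat_lit 5) (nat_lit 373) (nat_lit 5) (nat_lit 363) (nat_lit 5) (nat_lit 594) (nat_lit 554) (nat_lit 412)) (XT.nd (nat_lit 78) (nat_lit 0) (nat_lit 0) (XT.lf (nat_lit 0) (nat_lit 2724659364) (nat_lit 912) (nat_lit 7714732594) (nat_lit 76) (nat_lit 2214848647) (nat_lit 351) (nat_lit 5) (nat_lit 363) (nat_lit 5) (nat_lit 352) (nat_lit 5) (nat_lit 595) (nat_lit 554) (nat_lit 411)) (XT.lf (nat_lit 0) (nat_lit 4771272378) (nat_lit 912) (nat_lit 548319755) (nat_lit 76) (nat_lit 7469658818) (nat_lit 351) (nat_lit 5) (nat_lit 363) (nat_lit 5) (nat_lit 352) (nat_lit 5) (nat_lit 596) (nat_lit 554) (nat_lit 410)))) (XT.nd (nat_lit 78) (nat_lit 760) (nat_lit 0) (XT.lf (nat_lit 0) (nat_lit 6837145342) (nat_lit 760) (nat_lit 53009615) (nat_lit 836) (nat_lit 6036181597)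 (nat_lit 341) (nat_lit 5) (nat_lit 351) (nat_lit 5) (nat_lit 352) (nat_lit 5) (nat_lit 597) (nat_lit 554) (nat_lit 409)) (XT.nd (nat_lit 78) (nat_lit 0) (nat_lit 0) (XT.lf (nat_lit 0) (nat_lit 1279780528) (nat_lit 760) (nat_lit 7805287336) (nat_lit 836) (nat_lit 3980424714) (nat_lit 331) (nat_lit 5) (nat_lit 341) (nat_lit 5) (nat_lit 342) (nat_lit 5) (nat_lit 598) (nat_lit 554) (nat_lit 408)) (XT.lf (nat_lit 0) (nat_lit 8864301506) (nat_lit 760) (nat_lit 2488055534) (nat_lit 836) (nat_lit 1854506847) (nat_lit 331) (nat_lit 5) (nat_lit 341) (nat_lit 5) (nat_lit 342) (nat_lit 5) (nat_lit 599) (nat_lit 554) (nat_lit 407)))))) (XT.nd (nat_lit 468) (nat_lit 2660) (nat_lit 0) (XT.nd (nat_lit 234) (nat_lit 1368) (nat_lit 0) (XT.nd (nat_lit 78) (nat_lit 760) (nat_lit 0) (XT.lf (nat_lit 0) (nat_lit 337723103) (nat_lit 760) (nat_lit 10093579750) (nat_lit 76) (nat_lit 2919162447) (nat_lit 321) (nat_lit 5) (nat_lit 331) (nat_lit 5) (nat_lit 322) (nat_lit 5) (nat_lit 600) (nat_lit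 554) (nat_lit 406)) (XT.nd (nat_lit 78) (nat_lit 760) (nat_lit 0) (XT.lf (nat_lit 0) (nat_lit 2582380542) (nat_lit 760) (nat_lit 2472178705) (nat_lit 76) (nat_lit 8441467658) (nat_lit 321) (nat_lit 5) (nat_lit 331) (nat_lit 5) (nat_lit 322) (nat_lit 5) (nat_lit 601) (nat_lit 554) (nat_lit 405)) (XT.lf (nat_lit 0) (nat_lit 4897553705) (nat_lit 836) (nat_lit 8288918201) (nat_lit 76) (nat_lit 457516981) (nat_lit 311) (nat_lit 5) (nat_lit 322) (nat_lit 5) (nat_lit 312) (nat_lit 5) (nat_lit 602) (nat_lit 554) (nat_lit 404)))) (XT.nd (nat_lit 78) (nat_lit 1368) (nat_lit 0) (XT.lf (nat_lit 0) (nat_lit 7297166744) (nat_lit 836) (nat_lit 469709056) (nat_lit 76) (nat_lit 6027273145) (nat_lit 311) (nat_lit 5) (nat_lit 322) (nat_lit 5) (nat_lit 312) (nat_lit 5) (nat_lit 603) (nat_lit 554) (nat_lit 403)) (XT.nd (nat_lit 78) (nat_lit 684) (nat_lit 0) (XT.lf (nat_lit 0) (nat_lit 7591802049) (nat_lit 684) (nat_lit 2190460052) (nat_lit 760) (nat_lit 4164301834) (nat_lit 302) (nat_lit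 5) (nat_lit 311) (nat_lit 5) (nat_lit 312) (nat_lit 5) (nat_lit 604) (nat_lit 554) (nat_lit 402)) (XT.lf (nat_lit 0) (nat_lit 1704793464) (nat_lit 684) (nat_lit 10637545448) (nat_lit 760) (nat_lit 1759184226) (nat_lit 293) (nat_lit 5) (nat_lit 302) (nat_lit 5) (nat_lit 303) (nat_lit 5) (nat_lit 605) (nat_lit 554) (nat_lit 401))))) (XT.nd (nat_lit 234) (nat_lit 1976) (nat_lit 0) (XT.nd (nat_lit 78) (nat_lit 608) (nat_lit 0) (XT.lf (nat_lit 0) (nat_lit 730758047) (nat_lit 760) (nat_lit 4280190767) (nat_lit 76) (nat_lit 9247627538) (nat_lit 292) (nat_lit 5) (nat_lit 302) (nat_lit 5) (nat_lit 293) (nat_lit 5) (nat_lit 606) (nat_lit 554) (nat_lit 400)) (XT.nd (nat_lit 78) (nat_lit 0) (nat_lit 0) (XT.lf (nat_lit 0) (nat_lit 3266690446) (nat_lit 684) (nat_lit 10396949964) (nat_lit 76) (nat_lit 754504138) (nat_lit 284) (nat_lit 5) (nat_lit 293) (nat_lit 5) (nat_lit 285) (nat_lit 5) (nat_lit 607) (nat_lit 554) (nat_lit 399)) (XT.lf (nat_lit 0) (nat_lit 5904179909) (nat_lit 684)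 (nat_lit 2080776699) (nat_lit 76) (nat_lit 6594932120) (nat_lit 284) (nat_lit 5) (nat_lit 293) (nat_lit 5) (nat_lit 285) (nat_lit 5) (nat_lit 608) (nat_lit 554) (nat_lit 398)))) (XT.nd (nat_lit 156) (nat_lit 684) (nat_lit 0) (XT.nd (nat_lit 78) (nat_lit 608) (nat_lit 0) (XT.lf (nat_lit 0) (nat_lit 6473187153) (nat_lit 684) (nat_lit 2152221780) (nat_lit 760) (nat_lit 6118840426) (nat_lit 275) (nat_lit 5) (nat_lit 284) (nat_lit 5) (nat_lit 285) (nat_lit 5) (nat_lit 609) (nat_lit 554) (nat_lit 397)) (XT.lf (nat_lit 0) (nat_lit 280201258) (nat_lit 608) (nat_lit 11150465410) (nat_lit 684) (nat_lit 3480639784) (nat_lit 267) (nat_lit 5) (nat_lit 275) (nat_lit 5) (nat_lit 276) (nat_lit 5) (nat_lit 610) (nat_lit 554) (nat_lit 396))) (XT.nd (nat_lit 78) (nat_lit 684) (nat_lit 0) (XT.lf (nat_lit 0) (nat_lit 9086707742) (nat_lit 608) (nat_lit 5264186759) (nat_lit 684) (nat_lit 729634198) (nat_lit 267) (nat_lit 5) (nat_lit 275) (nat_lit 5) (nat_lit 276) (nat_lit 5) (nat_lit 611) (nat_lit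 554) (nat_lit 395)) (XT.lf (nat_lit 0) (nat_lit 2061850082) (nat_lit 684) (nat_lit 12431247916) (nat_lit 76) (nat_lit 759515207) (nat_lit 258) (nat_lit 5) (nat_lit 267) (nat_lit 5) (nat_lit 259) (nat_lit 5) (nat_lit 612) (nat_lit 554) (nat_lit 394))))))) (XT.nd (nat_lit 936) (nat_lit 3420) (nat_lit 0) (XT.nd (nat_lit 468) (nat_lit 2128) (nat_lit 0) (XT.nd (nat_lit 234) (nat_lit 1216) (nat_lit 0) (XT.nd (nat_lit 78) (nat_lit 532) (nat_lit 0) (XT.lf (nat_lit 0) (nat_lit 4964201698) (nat_lit 684) (nat_lit 3586634180) (nat_lit 76) (nat_lit 6875912149) (nat_lit 258) (nat_lit 5) (nat_lit 267) (nat_lit 5) (nat_lit 259) (nat_lit 5) (nat_lit 613) (nat_lit 554) (nat_lit 393)) (XT.nd (nat_lit 78) (nat_lit 0) (nat_lit 0) (XT.lf (nat_lit 0) (nat_lit 5493745100) (nat_lit 532) (nat_lit 2456179276) (nat_lit 608) (nat_lit 7653935899) (nat_lit 251) (nat_lit 5) (nat_lit 258) (nat_lit 5) (nat_lit 259) (nat_lit 5) (nat_lit 614) (nat_lit 554) (nat_lit 392)) (XT.lf (nat_lit 0) (nat_lit 11033758164)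 (nat_lit 608) (nat_lit 1017536494) (nat_lit 76) (nat_lit 3732453362) (nat_lit 251) (nat_lit 5) (nat_lit 259) (nat_lit 5) (nat_lit 252) (nat_lit 5) (nat_lit 615) (nat_lit 554) (nat_lit 391)))) (XT.nd (nat_lit 78) (nat_lit 608) (nat_lit 0) (XT.lf (nat_lit 0) (nat_lit 8336950020) (nat_lit 608) (nat_lit 5902668841) (nat_lit 684) (nat_lit 1726408815) (nat_lit 243) (nat_lit 5) (nat_lit 251) (nat_lit 5) (nat_lit 252) (nat_lit 5) (nat_lit 616) (nat_lit 554) (nat_lit 390)) (XT.nd (nat_lit 78) (nat_lit 0) (nat_lit 0) (XT.lf (nat_lit 0) (nat_lit 1350573370) (nat_lit 608) (nat_lit 14412753010) (nat_lit 76) (nat_lit 388236663) (nat_lit 235) (nat_lit 5) (nat_lit 243) (nat_lit 5) (nat_lit 236) (nat_lit 5) (nat_lit 617) (nat_lit 554) (nat_lit 389)) (XT.lf (nat_lit 0) (nat_lit 4546717804) (nat_lit 608) (nat_lit 5006337699) (nat_lit 76) (nat_lit 6785911694) (nat_lit 235) (nat_lit 5) (nat_lit 243) (nat_lit 5) (nat_lit 236) (nat_lit 5) (nat_lit 618) (nat_lit 554) (nat_lit 388))))) (XT.nd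 (nat_lit 234) (nat_lit 1064) (nat_lit 0) (XT.nd (nat_lit 78) (nat_lit 532) (nat_lit 0) (XT.lf (nat_lit 0) (nat_lit 4636107949) (nat_lit 532) (nat_lit 3191065041) (nat_lit 608) (nat_lit 8702539760) (nat_lit 228) (nat_lit 5) (nat_lit 235) (nat_lit 5) (nat_lit 236) (nat_lit 5) (nat_lit 619) (nat_lit 554) (nat_lit 387)) (XT.nd (nat_lit 78) (nat_lit 532) (nat_lit 0) (XT.lf (nat_lit 0) (nat_lit 11218842366) (nat_lit 608) (nat_lit 2218961734) (nat_lit 76) (nat_lit 3285558065) (nat_lit 228) (nat_lit 5) (nat_lit 236) (nat_lit 5) (nat_lit 229) (nat_lit 5) (nat_lit 620) (nat_lit 554) (nat_lit 386)) (XT.lf (nat_lit 0) (nat_lit 7716510623) (nat_lit 532) (nat_lit 7023630409) (nat_lit 608) (nat_lit 2179508649) (nat_lit 221) (nat_lit 5) (nat_lit 228) (nat_lit 5) (nat_lit 229) (nat_lit 5) (nat_lit 621) (nat_lit 554) (nat_lit 385)))) (XT.nd (nat_lit 78) (nat_lit 456) (nat_lit 0) (XT.lf (nat_lit 0) (nat_lit 750302290) (nat_lit 532) (nat_lit 456267690) (nat_lit 608) (nat_lit 15912927320)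 (nat_lit 213) (nat_lit 5) (nat_lit 220) (nat_lit 5) (nat_lit 221) (nat_lit 5) (nat_lit 622) (nat_lit 554) (nat_lit 384)) (XT.nd (nat_lit 78) (nat_lit 456) (nat_lit 0) (XT.lf (nat_lit 0) (nat_lit 4724593044) (nat_lit 608) (nat_lit 6362773174) (nat_lit 76) (nat_lit 6233820364) (nat_lit 213) (nat_lit 5) (nat_lit 221) (nat_lit 5) (nat_lit 214) (nat_lit 5) (nat_lit 623) (nat_lit 554) (nat_lit 383)) (XT.lf (nat_lit 0) (nat_lit 3879024661) (nat_lit 456) (nat_lit 4453023676) (nat_lit 532) (nat_lit 9194480831) (nat_lit 207) (nat_lit 5) (nat_lit 213) (nat_lit 5) (nat_lit 214) (nat_lit 5) (nat_lit 624) (nat_lit 554) (nat_lit 382)))))) (XT.nd (nat_lit 468) (nat_lit 1900) (nat_lit 0) (XT.nd (nat_lit 234) (nat_lit 912) (nat_lit 0) (XT.nd (nat_lit 78) (nat_lit 608) (nat_lit 0) (XT.lf (nat_lit 0) (nat_lit 12060597240) (nat_lit 532) (nat_lit 3351204990) (nat_lit 76) (nat_lit 2323198421) (nat_lit 207) (nat_lit 5) (nat_lit 214) (nat_lit 5) (nat_lit 208) (nat_lit 5) (nat_lit 625) (nat_lit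 554) (nat_lit 381)) (XT.nd (nat_lit 78) (nat_lit 76) (nat_lit 0) (XT.lf (nat_lit 0) (nat_lit 7203574083) (nat_lit 532) (nat_lit 8727521405) (nat_lit 608) (nat_lit 2015199424) (nat_lit 200) (nat_lit 5) (nat_lit 207) (nat_lit 5) (nat_lit 208) (nat_lit 5) (nat_lit 626) (nat_lit 554) (nat_lit 380)) (XT.lf (nat_lit 0) (nat_lit 1708457336) (nat_lit 608) (nat_lit 170257192) (nat_lit 76) (nat_lit 16282602630) (nat_lit 199) (nat_lit 5) (nat_lit 207) (nat_lit 5) (nat_lit 200) (nat_lit 5) (nat_lit 627) (nat_lit 554) (nat_lit 379)))) (XT.nd (nat_lit 78) (nat_lit 456) (nat_lit 0) (XT.lf (nat_lit 0) (nat_lit 5574298639) (nat_lit 532) (nat_lit 7684043670) (nat_lit 76) (nat_lit 5120138093) (nat_lit 193) (nat_lit 5) (nat_lit 200) (nat_lit 5) (nat_lit 194) (nat_lit 5) (nat_lit 628) (nat_lit 554) (nat_lit 378)) (XT.nd (nat_lit 78) (nat_lit 0) (nat_lit 0) (XT.lf (nat_lit 0) (nat_lit 3195940801) (nat_lit 456) (nat_lit 6347252269) (nat_lit 532) (nat_lit 9056279965) (nat_lit 187) (nat_lit 5)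 (nat_lit 193) (nat_lit 5) (nat_lit 194) (nat_lit 5) (nat_lit 629) (nat_lit 554) (nat_lit 377)) (XT.lf (nat_lit 0) (nat_lit 13639388769) (nat_lit 532) (nat_lit 4443429548) (nat_lit 76) (nat_lit 741109564) (nat_lit 187) (nat_lit 5) (nat_lit 194) (nat_lit 5) (nat_lit 188) (nat_lit 5) (nat_lit 630) (nat_lit 554) (nat_lit 376))))) (XT.nd (nat_lit 234) (nat_lit 912) (nat_lit 0) (XT.nd (nat_lit 78) (nat_lit 532) (nat_lit 0) (XT.lf (nat_lit 0) (nat_lit 6770519553) (nat_lit 456) (nat_lit 11124609455) (nat_lit 532) (nat_lit 1156191217) (nat_lit 181) (nat_lit 5) (nat_lit 187) (nat_lit 5) (nat_lit 188) (nat_lit 5) (nat_lit 631) (nat_lit 554) (nat_lit 375)) (XT.nd (nat_lit 78) (nat_lit 456) (nat_lit 0) (XT.lf (nat_lit 0) (nat_lit 2935670844) (nat_lit 532) (nat_lit 1045202442) (nat_lit 76) (nat_lit 15301571036) (nat_lit 180) (nat_lit 5) (nat_lit 187) (nat_lit 5) (nat_lit 181) (nat_lit 5) (nat_lit 632) (nat_lit 554) (nat_lit 374)) (XT.lf (nat_lit 0) (nat_lit 7176058437) (nat_lit 532)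 (nat_lit 9005085755) (nat_lit 76) (nat_lit 3335251235) (nat_lit 174) (nat_lit 5) (nat_lit 181) (nat_lit 5) (nat_lit 175) (nat_lit 5) (nat_lit 633) (nat_lit 554) (nat_lit 373)))) (XT.nd (nat_lit 156) (nat_lit 532) (nat_lit 0) (XT.nd (nat_lit 78) (nat_lit 0) (nat_lit 0) (XT.lf (nat_lit 0) (nat_lit 2553341254) (nat_lit 380) (nat_lit 8989794567) (nat_lit 456) (nat_lit 8211052843) (nat_lit 169) (nat_lit 5) (nat_lit 174) (nat_lit 5) (nat_lit 175) (nat_lit 5) (nat_lit 634) (nat_lit 554) (nat_lit 372)) (XT.lf (nat_lit 0) (nat_lit 14453110694) (nat_lit 380) (nat_lit 1596835268) (nat_lit 456) (nat_lit 3945744717) (nat_lit 169) (nat_lit 5) (nat_lit 174) (nat_lit 5) (nat_lit 175) (nat_lit 5) (nat_lit 635) (nat_lit 554) (nat_lit 371))) (XT.nd (nat_lit 78) (nat_lit 0) (nat_lit 0) (XT.lf (nat_lit 0) (nat_lit 472161544) (nat_lit 532) (nat_lit 13861516477) (nat_lit 76) (nat_lit 5906840808) (nat_lit 162) (nat_lit 5) (nat_lit 169) (nat_lit 5) (nat_lit 163) (nat_lit 5) (nat_lit 636) (nat_lit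 554) (nat_lit 370)) (XT.lf (nat_lit 0) (nat_lit 4965778620) (nat_lit 532) (nat_lit 1924125170) (nat_lit 76) (nat_lit 13599015097) (nat_lit 162) (nat_lit 5) (nat_lit 169) (nat_lit 5) (nat_lit 163) (nat_lit 5) (nat_lit 637) (nat_lit 554) (nat_lit 369))))))))
noncomputable def xc163 : XT := (XT.nd (nat_lit 75192) (nat_lit 0) (nat_lit 23940) (XT.nd (nat_lit 936) (nat_lit 1368) (nat_lit 0) (XT.nd (nat_lit 468) (nat_lit 1368) (nat_lit 0) (XT.nd (nat_lit 234) (nat_lit 836) (nat_lit 0) (XT.nd (nat_lit 78) (nat_lit 380) (nat_lit 0) (XT.lf (nat_lit 0) (nat_lit 9613899301) (nat_lit 456) (nat_lit 10369563663) (nat_lit 76) (nat_lit 757532036) (nat_lit 157) (nat_lit 5) (nat_lit 163) (nat_lit 5) (nat_lit 158) (nat_lit 5) (nat_lit 638) (nat_lit 554) (nat_lit 368)) (XT.nd (nat_lit 78) (nat_lit 0) (nat_lit 0) (XT.lf (nat_lit 0) (nat_lit 1908805609) (nat_lit 380) (nat_lit 12509523805) (nat_lit 456) (nat_lit 6578516949) (nat_lit 152) (nat_lit 5) (nat_lit 157) (nat_lit 5) (nat_lit 158) (nat_lit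 5) (nat_lit 639) (nat_lit 554) (nat_lit 367)) (XT.lf (nat_lit 0) (nat_lit 14561739711) (nat_lit 380) (nat_lit 4819096879) (nat_lit 456) (nat_lit 1875739049) (nat_lit 152) (nat_lit 5) (nat_lit 157) (nat_lit 5) (nat_lit 158) (nat_lit 5) (nat_lit 640) (nat_lit 554) (nat_lit 366)))) (XT.nd (nat_lit 78) (nat_lit 380) (nat_lit 0) (XT.lf (nat_lit 0) (nat_lit 2934204858) (nat_lit 456) (nat_lit 15546044009) (nat_lit 76) (nat_lit 3039843525) (nat_lit 146) (nat_lit 5) (nat_lit 152) (nat_lit 5) (nat_lit 147) (nat_lit 5) (nat_lit 641) (nat_lit 554) (nat_lit 365)) (XT.nd (nat_lit 78) (nat_lit 380) (nat_lit 0) (XT.lf (nat_lit 0) (nat_lit 7884942818) (nat_lit 456) (nat_lit 2857041019) (nat_lit 76) (nat_lit 11045254062) (nat_lit 146) (nat_lit 5) (nat_lit 152) (nat_lit 5) (nat_lit 147) (nat_lit 5) (nat_lit 642) (nat_lit 554) (nat_lit 364)) (XT.lf (nat_lit 0) (nat_lit 10208365287) (nat_lit 380) (nat_lit 2785305707) (nat_lit 456) (nat_lit 9064876416) (nat_lit 141) (nat_lit 5) (nat_lit 146)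 (nat_lit 5) (nat_lit 147) (nat_lit 5) (nat_lit 643) (nat_lit 554) (nat_lit 363))))) (XT.nd (nat_lit 234) (nat_lit 608) (nat_lit 0) (XT.nd (nat_lit 78) (nat_lit 456) (nat_lit 0) (XT.lf (nat_lit 0) (nat_lit 1208717598) (nat_lit 304) (nat_lit 17050353219) (nat_lit 380) (nat_lit 4075122946) (nat_lit 137) (nat_lit 5) (nat_lit 141) (nat_lit 5) (nat_lit 142) (nat_lit 5) (nat_lit 644) (nat_lit 554) (nat_lit 362)) (XT.nd (nat_lit 78) (nat_lit 380) (nat_lit 0) (XT.lf (nat_lit 0) (nat_lit 1092376650) (nat_lit 380) (nat_lit 7961222822) (nat_lit 76) (nat_lit 13559797307) (nat_lit 136) (nat_lit 5) (nat_lit 141) (nat_lit 5) (nat_lit 137) (nat_lit 5) (nat_lit 645) (nat_lit 554) (nat_lit 361)) (XT.lf (nat_lit 0) (nat_lit 5500359194) (nat_lit 380) (nat_lit 836968162) (nat_lit 456) (nat_lit 16559744983) (nat_lit 131) (nat_lit 5) (nat_lit 136) (nat_lit 5) (nat_lit 137) (nat_lit 5) (nat_lit 646) (nat_lit 554) (nat_lit 360)))) (XT.nd (nat_lit 78) (nat_lit 608) (nat_lit 0) (XT.lf (nat_lit 0)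 (nat_lit 11782881019) (nat_lit 456) (nat_lit 3906747100) (nat_lit 76) (nat_lit 7494879763) (nat_lit 131) (nat_lit 5) (nat_lit 137) (nat_lit 5) (nat_lit 132) (nat_lit 5) (nat_lit 647) (nat_lit 554) (nat_lit 359)) (XT.nd (nat_lit 78) (nat_lit 304) (nat_lit 0) (XT.lf (nat_lit 0) (nat_lit 9967267483) (nat_lit 304) (nat_lit 7433419061) (nat_lit 380) (nat_lit 6075739312) (nat_lit 127) (nat_lit 5) (nat_lit 131) (nat_lit 5) (nat_lit 132) (nat_lit 5) (nat_lit 648) (nat_lit 554) (nat_lit 358)) (XT.lf (nat_lit 0) (nat_lit 385560290) (nat_lit 304) (nat_lit 22773718277) (nat_lit 380) (nat_lit 614335540) (nat_lit 123) (nat_lit 5) (nat_lit 127) (nat_lit 5) (nat_lit 128) (nat_lit 5) (nat_lit 649) (nat_lit 554) (nat_lit 357)))))) (XT.nd (nat_lit 468) (nat_lit 304) (nat_lit 0) (XT.nd (nat_lit 234) (nat_lit 684) (nat_lit 0) (XT.nd (nat_lit 78) (nat_lit 304) (nat_lit 0) (XT.lf (nat_lit 0) (nat_lit 5024916841) (nat_lit 380) (nat_lit 9426636939) (nat_lit 76) (nat_lit 9621876793) (nat_lit 122)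 (nat_lit 5) (nat_lit 127) (nat_lit 5) (nat_lit 123) (nat_lit 5) (nat_lit 650) (nat_lit 554) (nat_lit 356)) (XT.nd (nat_lit 78) (nat_lit 0) (nat_lit 0) (XT.lf (nat_lit 0) (nat_lit 4862944144) (nat_lit 304) (nat_lit 5930641196) (nat_lit 380) (nat_lit 13585080168) (nat_lit 118) (nat_lit 5) (nat_lit 122) (nat_lit 5) (nat_lit 123) (nat_lit 5) (nat_lit 651) (nat_lit 554) (nat_lit 355)) (XT.lf (nat_lit 0) (nat_lit 16752540049) (nat_lit 380) (nat_lit 5151796419) (nat_lit 76) (nat_lit 2784170904) (nat_lit 118) (nat_lit 5) (nat_lit 123) (nat_lit 5) (nat_lit 119) (nat_lit 5) (nat_lit 652) (nat_lit 554) (nat_lit 354)))) (XT.nd (nat_lit 78) (nat_lit 380) (nat_lit 0) (XT.lf (nat_lit 0) (nat_lit 9575111873) (nat_lit 304) (nat_lit 13350448852) (nat_lit 380) (nat_lit 2077088088) (nat_lit 114) (nat_lit 5) (nat_lit 118) (nat_lit 5) (nat_lit 119) (nat_lit 5) (nat_lit 653) (nat_lit 554) (nat_lit 353)) (XT.nd (nat_lit 78) (nat_lit 304) (nat_lit 0) (XT.lf (nat_lit 0) (nat_lit 3876093116) (nat_lit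 380) (nat_lit 692149351) (nat_lit 76) (nat_lit 20753759577) (nat_lit 113) (nat_lit 5) (nat_lit 118) (nat_lit 5) (nat_lit 114) (nat_lit 5) (nat_lit 654) (nat_lit 554) (nat_lit 352)) (XT.lf (nat_lit 0) (nat_lit 10037498476) (nat_lit 380) (nat_lit 11170896670) (nat_lit 76) (nat_lit 4436733599) (nat_lit 109) (nat_lit 5) (nat_lit 114) (nat_lit 5) (nat_lit 110) (nat_lit 5) (nat_lit 655) (nat_lit 554) (nat_lit 351))))) (XT.nd (nat_lit 73476) (nat_lit 0) (nat_lit 32680) (XT.nd (nat_lit 73320) (nat_lit 0) (nat_lit 32604) (XT.lf (nat_lit 0) (nat_lit 3990306550) (nat_lit 304) (nat_lit 12386282610) (nat_lit 380) (nat_lit 9597040114) (nat_lit 105) (nat_lit 5) (nat_lit 109) (nat_lit 5) (nat_lit 110) (nat_lit 5) (nat_lit 656) (nat_lit 554) (nat_lit 350)) (XT.nd (nat_lit 78) (nat_lit 0) (nat_lit 0) (XT.lf (nat_lit 0) (nat_lit 404977710) (nat_lit 1596) (nat_lit 1994814497) (nat_lit 1596) (nat_lit 1994814497) (nat_lit 534) (nat_lit 3) (nat_lit 555) (nat_lit 3) (nat_lit 555) (nat_lit 5)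 (nat_lit 555) (nat_lit 555) (nat_lit 450)) (XT.lf (nat_lit 76) (nat_lit 328041209) (nat_lit 0) (nat_lit 1444378697) (nat_lit 1596) (nat_lit 7085434654) (nat_lit 535) (nat_lit 5) (nat_lit 534) (nat_lit 3) (nat_lit 555) (nat_lit 5) (nat_lit 556) (nat_lit 555) (nat_lit 449)))) (XT.nd (nat_lit 156) (nat_lit 0) (nat_lit 76) (XT.nd (nat_lit 78) (nat_lit 0) (nat_lit 0) (XT.lf (nat_lit 0) (nat_lit 2768943140) (nat_lit 1520) (nat_lit 4167701521) (nat_lit 1596) (nat_lit 1990931974) (nat_lit 535) (nat_lit 5) (nat_lit 555) (nat_lit 5) (nat_lit 556) (nat_lit 5) (nat_lit 557) (nat_lit 555) (nat_lit 448)) (XT.lf (nat_lit 76) (nat_lit 262297410) (nat_lit 0) (nat_lit 3509875316) (nat_lit 1596) (nat_lit 5226789120) (nat_lit 536) (nat_lit 5) (nat_lit 535) (nat_lit 5) (nat_lit 556) (nat_lit 5) (nat_lit 558) (nat_lit 555) (nat_lit 447))) (XT.nd (nat_lit 78) (nat_lit 0) (nat_lit 0) (XT.lf (nat_lit 0) (nat_lit 4799498486) (nat_lit 1520) (nat_lit 4247615370) (nat_lit 1596) (nat_lit 24584399)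 (nat_lit 536) (nat_lit 5) (nat_lit 556) (nat_lit 5) (nat_lit 557) (nat_lit 5) (nat_lit 559) (nat_lit 555) (nat_lit 446)) (XT.lf (nat_lit 76) (nat_lit 298453408) (nat_lit 0) (nat_lit 5550543922) (nat_lit 1596) (nat_lit 3296863576) (nat_lit 537) (nat_lit 5) (nat_lit 536) (nat_lit 5) (nat_lit 557) (nat_lit 5) (nat_lit 560) (nat_lit 555) (nat_lit 445))))))) (XT.nd (nat_lit 936) (nat_lit 5928) (nat_lit 0) (XT.nd (nat_lit 468) (nat_lit 1368) (nat_lit 0) (XT.nd (nat_lit 234) (nat_lit 1520) (nat_lit 0) (XT.nd (nat_lit 78) (nat_lit 0) (nat_lit 76) (XT.lf (nat_lit 76) (nat_lit 4979678140) (nat_lit 0) (nat_lit 1945131592) (nat_lit 1596) (nat_lit 2296594574) (nat_lit 537) (nat_lit 5) (nat_lit 536) (nat_lit 5) (nat_lit 557) (nat_lit 5) (nat_lit 561) (nat_lit 555) (nat_lit 444)) (XT.nd (nat_lit 78) (nat_lit 0) (nat_lit 0) (XT.lf (nat_lit 76) (nat_lit 436949282) (nat_lit 0) (nat_lit 7576610856) (nat_lit 1596) (nat_lit 1285073889) (nat_lit 538) (nat_lit 5) (nat_lit 537) (nat_lit 5) (nat_lit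 558) (nat_lit 5) (nat_lit 562) (nat_lit 555) (nat_lit 443)) (XT.lf (nat_lit 76) (nat_lit 5240130228) (nat_lit 0) (nat_lit 3902910071) (nat_lit 1596) (nat_lit 233992761) (nat_lit 538) (nat_lit 5) (nat_lit 537) (nat_lit 5) (nat_lit 558) (nat_lit 5) (nat_lit 563) (nat_lit 555) (nat_lit 442)))) (XT.nd (nat_lit 78) (nat_lit 0) (nat_lit 76) (XT.lf (nat_lit 76) (nat_lit 672205064) (nat_lit 0) (nat_lit 137259839) (nat_lit 1672) (nat_lit 8647783067) (nat_lit 517) (nat_lit 5) (nat_lit 516) (nat_lit 5) (nat_lit 538) (nat_lit 5) (nat_lit 564) (nat_lit 555) (nat_lit 441)) (XT.nd (nat_lit 78) (nat_lit 0) (nat_lit 0) (XT.lf (nat_lit 0) (nat_lit 1901033219) (nat_lit 1596) (nat_lit 3944665888) (nat_lit 1672) (nat_lit 3692733237) (nat_lit 517) (nat_lit 5) (nat_lit 538) (nat_lit 5) (nat_lit 539) (nat_lit 5) (nat_lit 565) (nat_lit 555) (nat_lit 440)) (XT.lf (nat_lit 76) (nat_lit 990933898) (nat_lit 0) (nat_lit 2009645916) (nat_lit 1672) (nat_lit 6620941174) (nat_lit 518) (nat_lit 5) (nat_lit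 517) (nat_lit 5) (nat_lit 539) (nat_lit 5) (nat_lit 566) (nat_lit 555) (nat_lit 439))))) (XT.nd (nat_lit 234) (nat_lit 1520) (nat_lit 0) (XT.nd (nat_lit 78) (nat_lit 0) (nat_lit 0) (XT.lf (nat_lit 0) (nat_lit 4140298641) (nat_lit 1596) (nat_lit 3653607227) (nat_lit 1672) (nat_lit 1912005365) (nat_lit 518) (nat_lit 5) (nat_lit 539) (nat_lit 5) (nat_lit 540) (nat_lit 5) (nat_lit 567) (nat_lit 555) (nat_lit 438)) (XT.nd (nat_lit 78) (nat_lit 0) (nat_lit 76) (XT.lf (nat_lit 76) (nat_lit 1414378415) (nat_lit 0) (nat_lit 3890512520) (nat_lit 1672) (nat_lit 4487060152) (nat_lit 519) (nat_lit 5) (nat_lit 518) (nat_lit 5) (nat_lit 540) (nat_lit 5) (nat_lit 568) (nat_lit 555) (nat_lit 437)) (XT.lf (nat_lit 0) (nat_lit 6497985740) (nat_lit 1596) (nat_lit 3260855999) (nat_lit 1672) (nat_lit 120769104) (nat_lit 519) (nat_lit 5) (nat_lit 540) (nat_lit 5) (nat_lit 541) (nat_lit 5) (nat_lit 569) (nat_lit 555) (nat_lit 436)))) (XT.nd (nat_lit 78) (nat_lit 1596) (nat_lit 0) (XT.lf (nat_lit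 76) (nat_lit 1944072846) (nat_lit 0) (nat_lit 5789590288) (nat_lit 1672) (nat_lit 2234989501) (nat_lit 520) (nat_lit 5) (nat_lit 519) (nat_lit 5) (nat_lit 541) (nat_lit 5) (nat_lit 570) (nat_lit 555) (nat_lit 435)) (XT.nd (nat_lit 78) (nat_lit 1596) (nat_lit 0) (XT.lf (nat_lit 76) (nat_lit 7283539133) (nat_lit 0) (nat_lit 1713026762) (nat_lit 1672) (nat_lit 1062862321) (nat_lit 520) (nat_lit 5) (nat_lit 519) (nat_lit 5) (nat_lit 541) (nat_lit 5) (nat_lit 571) (nat_lit 555) (nat_lit 434)) (XT.lf (nat_lit 0) (nat_lit 144737799) (nat_lit 1672) (nat_lit 7570850796) (nat_lit 1748) (nat_lit 2436141129) (nat_lit 498) (nat_lit 5) (nat_lit 520) (nat_lit 5) (nat_lit 521) (nat_lit 5) (nat_lit 572) (nat_lit 555) (nat_lit 433)))))) (XT.nd (nat_lit 468) (nat_lit 5928) (nat_lit 0) (XT.nd (nat_lit 234) (nat_lit 0) (nat_lit 76) (XT.nd (nat_lit 78) (nat_lit 0) (nat_lit 76) (XT.lf (nat_lit 0) (nat_lit 1373567592) (nat_lit 1672) (nat_lit 2195674218) (nat_lit 1748) (nat_lit 6676271761) (nat_lit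 498) (nat_lit 5) (nat_lit 520) (nat_lit 5) (nat_lit 521) (nat_lit 5) (nat_lit 573) (nat_lit 555) (nat_lit 432)) (XT.nd (nat_lit 78) (nat_lit 0) (nat_lit 0) (XT.lf (nat_lit 0) (nat_lit 2634535434) (nat_lit 1672) (nat_lit 7028863967) (nat_lit 1748) (nat_lit 677625412) (nat_lit 499) (nat_lit 5) (nat_lit 521) (nat_lit 5) (nat_lit 522) (nat_lit 5) (nat_lit 574) (nat_lit 555) (nat_lit 431)) (XT.lf (nat_lit 0) (nat_lit 3941062132) (nat_lit 1672) (nat_lit 1516072220) (nat_lit 1748) (nat_lit 4980908028) (nat_lit 499) (nat_lit 5) (nat_lit 521) (nat_lit 5) (nat_lit 522) (nat_lit 5) (nat_lit 575) (nat_lit 555) (nat_lit 430)))) (XT.nd (nat_lit 78) (nat_lit 0) (nat_lit 76) (XT.lf (nat_lit 76) (nat_lit 4147546435) (nat_lit 0) (nat_lit 1135327461) (nat_lit 1748) (nat_lit 5253946144) (nat_lit 500) (nat_lit 5) (nat_lit 499) (nat_lit 5) (nat_lit 522) (nat_lit 5) (nat_lit 576) (nat_lit 555) (nat_lit 429)) (XT.nd (nat_lit 78) (nat_lit 0) (nat_lit 0) (XT.lf (nat_lit 0) (nat_lit 6665522655)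 (nat_lit 1672) (nat_lit 727810284) (nat_lit 1748) (nat_lit 3243963076) (nat_lit 500) (nat_lit 5) (nat_lit 522) (nat_lit 5) (nat_lit 523) (nat_lit 5) (nat_lit 577) (nat_lit 555) (nat_lit 428)) (XT.lf (nat_lit 76) (nat_lit 5092315494) (nat_lit 0) (nat_lit 3006943057) (nat_lit 1748) (nat_lit 2640056999) (nat_lit 501) (nat_lit 5) (nat_lit 500) (nat_lit 5) (nat_lit 523) (nat_lit 5) (nat_lit 578) (nat_lit 555) (nat_lit 427))))) (XT.nd (nat_lit 234) (nat_lit 2660) (nat_lit 0) (XT.nd (nat_lit 78) (nat_lit 1824) (nat_lit 0) (XT.lf (nat_lit 0) (nat_lit 174051282) (nat_lit 1672) (nat_lit 9386310372) (nat_lit 1748) (nat_lit 1283042640) (nat_lit 479) (nat_lit 5) (nat_lit 501) (nat_lit 5) (nat_lit 502) (nat_lit 5) (nat_lit 579) (nat_lit 555) (nat_lit 426)) (XT.nd (nat_lit 78) (nat_lit 1748) (nat_lit 0) (XT.lf (nat_lit 0) (nat_lit 141092182) (nat_lit 1748) (nat_lit 4795804951) (nat_lit 76) (nat_lit 6011840992) (nat_lit 478) (nat_lit 5) (nat_lit 501) (nat_lit 5) (nat_lit 479) (nat_lit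 5) (nat_lit 580) (nat_lit 555) (nat_lit 425)) (XT.lf (nat_lit 0) (nat_lit 1188344340) (nat_lit 1748) (nat_lit 379492928) (nat_lit 1824) (nat_lit 9488348109) (nat_lit 455) (nat_lit 5) (nat_lit 478) (nat_lit 5) (nat_lit 479) (nat_lit 5) (nat_lit 581) (nat_lit 555) (nat_lit 424)))) (XT.nd (nat_lit 156) (nat_lit 988) (nat_lit 0) (XT.nd (nat_lit 78) (nat_lit 1672) (nat_lit 0) (XT.lf (nat_lit 0) (nat_lit 3067053370) (nat_lit 1824) (nat_lit 3850091294) (nat_lit 76) (nat_lit 4247760656) (nat_lit 455) (nat_lit 5) (nat_lit 479) (nat_lit 5) (nat_lit 456) (nat_lit 5) (nat_lit 582) (nat_lit 555) (nat_lit 423)) (XT.lf (nat_lit 0) (nat_lit 2301759125) (nat_lit 1672) (nat_lit 2296092650) (nat_lit 1748) (nat_lit 6677918344) (nat_lit 433) (nat_lit 5) (nat_lit 455) (nat_lit 5) (nat_lit 456) (nat_lit 5) (nat_lit 583) (nat_lit 555) (nat_lit 422))) (XT.nd (nat_lit 78) (nat_lit 988) (nat_lit 0) (XT.lf (nat_lit 0) (nat_lit 6185341692) (nat_lit 1748) (nat_lit 2789530579) (nat_lit 76) (nat_lit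 2413460803) (nat_lit 433) (nat_lit 5) (nat_lit 456) (nat_lit 5) (nat_lit 434) (nat_lit 5) (nat_lit 584) (nat_lit 555) (nat_lit 421)) (XT.lf (nat_lit 0) (nat_lit 3535921201) (nat_lit 988) (nat_lit 4291503138) (nat_lit 1064) (nat_lit 3675268414) (nat_lit 420) (nat_lit 5) (nat_lit 433) (nat_lit 5) (nat_lit 434) (nat_lit 5) (nat_lit 585) (nat_lit 555) (nat_lit 420))))))))
noncomputable def xc164 : XT := (XT.nd (nat_lit 1950) (nat_lit 8056) (nat_lit 0) (XT.nd (nat_lit 936) (nat_lit 5016) (nat_lit 0) (XT.nd (nat_lit 468) (nat_lit 3268) (nat_lit 0) (XT.nd (nat_lit 234) (nat_lit 1748) (nat_lit 0) (XT.nd (nat_lit 78) (nat_lit 988) (nat_lit 0) (XT.lf (nat_lit 0) (nat_lit 9509243078) (nat_lit 1064) (nat_lit 1610654995) (nat_lit 76) (nat_lit 499305942) (nat_lit 420) (nat_lit 5) (nat_lit 434) (nat_lit 5) (nat_lit 421) (nat_lit 5) (nat_lit 586) (nat_lit 555) (nat_lit 419)) (XT.nd (nat_lit 78) (nat_lit 76) (nat_lit 0) (XT.lf (nat_lit 0) (nat_lit 4894524320) (nat_lit 912) (nat_lit 6375567866)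 (nat_lit 988) (nat_lit 467047670) (nat_lit 408) (nat_lit 5) (nat_lit 420) (nat_lit 5) (nat_lit 421) (nat_lit 5) (nat_lit 587) (nat_lit 555) (nat_lit 418)) (XT.lf (nat_lit 0) (nat_lit 1189048304) (nat_lit 988) (nat_lit 327435720) (nat_lit 76) (nat_lit 10340872039) (nat_lit 407) (nat_lit 5) (nat_lit 420) (nat_lit 5) (nat_lit 408) (nat_lit 5) (nat_lit 588) (nat_lit 555) (nat_lit 417)))) (XT.nd (nat_lit 78) (nat_lit 836) (nat_lit 0) (XT.lf (nat_lit 0) (nat_lit 2921692812) (nat_lit 988) (nat_lit 5616978596) (nat_lit 76) (nat_lit 3440251940) (nat_lit 395) (nat_lit 5) (nat_lit 408) (nat_lit 5) (nat_lit 396) (nat_lit 5) (nat_lit 589) (nat_lit 555) (nat_lit 416)) (XT.nd (nat_lit 78) (nat_lit 0) (nat_lit 0) (XT.lf (nat_lit 0) (nat_lit 1076873589) (nat_lit 836) (nat_lit 3617147288) (nat_lit 912) (nat_lit 7408802550) (nat_lit 384) (nat_lit 5) (nat_lit 395) (nat_lit 5) (nat_lit 396) (nat_lit 5) (nat_lit 590) (nat_lit 555) (nat_lit 415)) (XT.lf (nat_lit 0) (nat_lit 6534821046) (nat_lit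 912) (nat_lit 4271121345) (nat_lit 76) (nat_lit 1422600630) (nat_lit 384) (nat_lit 5) (nat_lit 396) (nat_lit 5) (nat_lit 385) (nat_lit 5) (nat_lit 591) (nat_lit 555) (nat_lit 414))))) (XT.nd (nat_lit 234) (nat_lit 1672) (nat_lit 0) (XT.nd (nat_lit 78) (nat_lit 760) (nat_lit 0) (XT.lf (nat_lit 0) (nat_lit 2615367211) (nat_lit 836) (nat_lit 5824255402) (nat_lit 912) (nat_lit 3916612670) (nat_lit 373) (nat_lit 5) (nat_lit 384) (nat_lit 5) (nat_lit 385) (nat_lit 5) (nat_lit 592) (nat_lit 555) (nat_lit 413)) (XT.nd (nat_lit 78) (nat_lit 760) (nat_lit 0) (XT.lf (nat_lit 0) (nat_lit 9683789490) (nat_lit 836) (nat_lit 713822981) (nat_lit 912) (nat_lit 2088569018) (nat_lit 373) (nat_lit 5) (nat_lit 384) (nat_lit 5) (nat_lit 385) (nat_lit 5) (nat_lit 593) (nat_lit 555) (nat_lit 412)) (XT.lf (nat_lit 0) (nat_lit 4288193782) (nat_lit 760) (nat_lit 8150315519) (nat_lit 836) (nat_lit 179344281) (nat_lit 363) (nat_lit 5) (nat_lit 373) (nat_lit 5) (nat_lit 374) (nat_lit 5) (nat_lit 594)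 (nat_lit 555) (nat_lit 411)))) (XT.nd (nat_lit 78) (nat_lit 1596) (nat_lit 0) (XT.lf (nat_lit 0) (nat_lit 1755313645) (nat_lit 836) (nat_lit 1223314245) (nat_lit 76) (nat_lit 9773094726) (nat_lit 362) (nat_lit 5) (nat_lit 373) (nat_lit 5) (nat_lit 363) (nat_lit 5) (nat_lit 595) (nat_lit 555) (nat_lit 410)) (XT.nd (nat_lit 78) (nat_lit 760) (nat_lit 0) (XT.lf (nat_lit 0) (nat_lit 3768023647) (nat_lit 912) (nat_lit 6812553815) (nat_lit 76) (nat_lit 2306834450) (nat_lit 351) (nat_lit 5) (nat_lit 363) (nat_lit 5) (nat_lit 352) (nat_lit 5) (nat_lit 596) (nat_lit 555) (nat_lit 409)) (XT.lf (nat_lit 0) (nat_lit 482804178) (nat_lit 760) (nat_lit 5356509799) (nat_lit 836) (nat_lit 7186136255) (nat_lit 341) (nat_lit 5) (nat_lit 351) (nat_lit 5) (nat_lit 352) (nat_lit 5) (nat_lit 597) (nat_lit 555) (nat_lit 408)))))) (XT.nd (nat_lit 468) (nat_lit 2736) (nat_lit 0) (XT.nd (nat_lit 234) (nat_lit 1520) (nat_lit 0) (XT.nd (nat_lit 78) (nat_lit 760) (nat_lit 0) (XT.lf (nat_lit 0) (nat_lit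 7985225731) (nat_lit 836) (nat_lit 5162872179) (nat_lit 76) (nat_lit 17489222) (nat_lit 341) (nat_lit 5) (nat_lit 352) (nat_lit 5) (nat_lit 342) (nat_lit 5) (nat_lit 598) (nat_lit 555) (nat_lit 407)) (XT.nd (nat_lit 78) (nat_lit 0) (nat_lit 0) (XT.lf (nat_lit 0) (nat_lit 2346234835) (nat_lit 760) (nat_lit 7866134224) (nat_lit 836) (nat_lit 3095393138) (nat_lit 331) (nat_lit 5) (nat_lit 341) (nat_lit 5) (nat_lit 342) (nat_lit 5) (nat_lit 599) (nat_lit 555) (nat_lit 406)) (XT.lf (nat_lit 0) (nat_lit 10062037239) (nat_lit 760) (nat_lit 2444425608) (nat_lit 836) (nat_lit 945871425) (nat_lit 331) (nat_lit 5) (nat_lit 341) (nat_lit 5) (nat_lit 342) (nat_lit 5) (nat_lit 600) (nat_lit 555) (nat_lit 405)))) (XT.nd (nat_lit 78) (nat_lit 760) (nat_lit 0) (XT.lf (nat_lit 0) (nat_lit 1266840429) (nat_lit 760) (nat_lit 9251394854) (nat_lit 76) (nat_lit 3080671226) (nat_lit 321) (nat_lit 5) (nat_lit 331) (nat_lit 5) (nat_lit 322) (nat_lit 5) (nat_lit 601) (nat_lit 555) (nat_lit 404))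 (XT.nd (nat_lit 78) (nat_lit 760) (nat_lit 0) (XT.lf (nat_lit 0) (nat_lit 3538305470) (nat_lit 760) (nat_lit 1498037484) (nat_lit 76) (nat_lit 8711400473) (nat_lit 321) (nat_lit 5) (nat_lit 331) (nat_lit 5) (nat_lit 322) (nat_lit 5) (nat_lit 602) (nat_lit 555) (nat_lit 403)) (XT.lf (nat_lit 0) (nat_lit 5889456395) (nat_lit 836) (nat_lit 7420669922) (nat_lit 76) (nat_lit 588747170) (nat_lit 311) (nat_lit 5) (nat_lit 322) (nat_lit 5) (nat_lit 312) (nat_lit 5) (nat_lit 603) (nat_lit 555) (nat_lit 402))))) (XT.nd (nat_lit 234) (nat_lit 1368) (nat_lit 0) (XT.nd (nat_lit 78) (nat_lit 684) (nat_lit 0) (XT.lf (nat_lit 0) (nat_lit 541753568) (nat_lit 684) (nat_lit 7781297087) (nat_lit 760) (nat_lit 5729268589) (nat_lit 302) (nat_lit 5) (nat_lit 311) (nat_lit 5) (nat_lit 312) (nat_lit 5) (nat_lit 604) (nat_lit 555) (nat_lit 401)) (XT.nd (nat_lit 78) (nat_lit 684) (nat_lit 0) (XT.lf (nat_lit 0) (nat_lit 8750720283) (nat_lit 684) (nat_lit 2092964092) (nat_lit 760) (nat_lit 3364383663)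 (nat_lit 302) (nat_lit 5) (nat_lit 311) (nat_lit 5) (nat_lit 312) (nat_lit 5) (nat_lit 605) (nat_lit 555) (nat_lit 400)) (XT.lf (nat_lit 0) (nat_lit 2755747098) (nat_lit 684) (nat_lit 10689741176) (nat_lit 760) (nat_lit 920829828) (nat_lit 293) (nat_lit 5) (nat_lit 302) (nat_lit 5) (nat_lit 303) (nat_lit 5) (nat_lit 606) (nat_lit 555) (nat_lit 399)))) (XT.nd (nat_lit 156) (nat_lit 684) (nat_lit 0) (XT.nd (nat_lit 78) (nat_lit 608) (nat_lit 0) (XT.lf (nat_lit 0) (nat_lit 1590551123) (nat_lit 760) (nat_lit 3357538039) (nat_lit 76) (nat_lit 9578649962) (nat_lit 292) (nat_lit 5) (nat_lit 302) (nat_lit 5) (nat_lit 293) (nat_lit 5) (nat_lit 607) (nat_lit 555) (nat_lit 398)) (XT.lf (nat_lit 0) (nat_lit 4168214377) (nat_lit 684) (nat_lit 9587541493) (nat_lit 76) (nat_lit 933924632) (nat_lit 284) (nat_lit 5) (nat_lit 293) (nat_lit 5) (nat_lit 285) (nat_lit 5) (nat_lit 608) (nat_lit 555) (nat_lit 397))) (XT.nd (nat_lit 78) (nat_lit 684) (nat_lit 0) (XT.lf (nat_lit 0) (nat_lit 6842057745)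 (nat_lit 684) (nat_lit 1124992752) (nat_lit 76) (nat_lit 6887939009) (nat_lit 284) (nat_lit 5) (nat_lit 293) (nat_lit 5) (nat_lit 285) (nat_lit 5) (nat_lit 609) (nat_lit 555) (nat_lit 396)) (XT.lf (nat_lit 0) (nat_lit 7593488538) (nat_lit 684) (nat_lit 2014581590) (nat_lit 760) (nat_lit 5414762028) (nat_lit 275) (nat_lit 5) (nat_lit 284) (nat_lit 5) (nat_lit 285) (nat_lit 5) (nat_lit 610) (nat_lit 555) (nat_lit 395))))))) (XT.nd (nat_lit 936) (nat_lit 3952) (nat_lit 0) (XT.nd (nat_lit 468) (nat_lit 2280) (nat_lit 0) (XT.nd (nat_lit 234) (nat_lit 532) (nat_lit 0) (XT.nd (nat_lit 78) (nat_lit 684) (nat_lit 0) (XT.lf (nat_lit 0) (nat_lit 1285153789) (nat_lit 608) (nat_lit 11176032431) (nat_lit 684) (nat_lit 2732211051) (nat_lit 267) (nat_lit 5) (nat_lit 275) (nat_lit 5) (nat_lit 276) (nat_lit 5) (nat_lit 611) (nat_lit 555) (nat_lit 394)) (XT.nd (nat_lit 78) (nat_lit 608) (nat_lit 0) (XT.lf (nat_lit 0) (nat_lit 57016891) (nat_lit 684) (nat_lit 5118500119) (nat_lit 76) (nat_lit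 10190795829) (nat_lit 266) (nat_lit 5) (nat_lit 275) (nat_lit 5) (nat_lit 267) (nat_lit 5) (nat_lit 612) (nat_lit 555) (nat_lit 393)) (XT.lf (nat_lit 0) (nat_lit 2886746976) (nat_lit 684) (nat_lit 11681592838) (nat_lit 76) (nat_lit 973560877) (nat_lit 258) (nat_lit 5) (nat_lit 267) (nat_lit 5) (nat_lit 259) (nat_lit 5) (nat_lit 613) (nat_lit 555) (nat_lit 392)))) (XT.nd (nat_lit 78) (nat_lit 532) (nat_lit 0) (XT.lf (nat_lit 0) (nat_lit 5831779744) (nat_lit 684) (nat_lit 2679660946) (nat_lit 76) (nat_lit 7208386633) (nat_lit 258) (nat_lit 5) (nat_lit 267) (nat_lit 5) (nat_lit 259) (nat_lit 5) (nat_lit 614) (nat_lit 555) (nat_lit 391)) (XT.nd (nat_lit 78) (nat_lit 0) (nat_lit 0) (XT.lf (nat_lit 0) (nat_lit 6575887066) (nat_lit 532) (nat_lit 2292577824) (nat_lit 608) (nat_lit 7032193726) (nat_lit 251) (nat_lit 5) (nat_lit 258) (nat_lit 5) (nat_lit 259) (nat_lit 5) (nat_lit 615) (nat_lit 555) (nat_lit 390)) (XT.lf (nat_lit 0) (nat_lit 12000436443) (nat_lit 608) (nat_lit 71059012)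 (nat_lit 76) (nat_lit 4012921165) (nat_lit 251) (nat_lit 5) (nat_lit 259) (nat_lit 5) (nat_lit 252) (nat_lit 5) (nat_lit 616) (nat_lit 555) (nat_lit 389))))) (XT.nd (nat_lit 234) (nat_lit 1064) (nat_lit 0) (XT.nd (nat_lit 78) (nat_lit 608) (nat_lit 0) (XT.lf (nat_lit 0) (nat_lit 9464156520) (nat_lit 608) (nat_lit 5797866314) (nat_lit 684) (nat_lit 1008488558) (nat_lit 243) (nat_lit 5) (nat_lit 251) (nat_lit 5) (nat_lit 252) (nat_lit 5) (nat_lit 617) (nat_lit 555) (nat_lit 388)) (XT.nd (nat_lit 78) (nat_lit 0) (nat_lit 0) (XT.lf (nat_lit 0) (nat_lit 2113355264) (nat_lit 608) (nat_lit 13723698295) (nat_lit 76) (nat_lit 622744016) (nat_lit 235) (nat_lit 5) (nat_lit 243) (nat_lit 5) (nat_lit 236) (nat_lit 5) (nat_lit 618) (nat_lit 555) (nat_lit 387)) (XT.lf (nat_lit 0) (nat_lit 5358995715) (nat_lit 608) (nat_lit 4148317615) (nat_lit 76) (nat_lit 7143926614) (nat_lit 235) (nat_lit 5) (nat_lit 243) (nat_lit 5) (nat_lit 236) (nat_lit 5) (nat_lit 619) (nat_lit 555) (nat_lit 386))))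 (XT.nd (nat_lit 78) (nat_lit 532) (nat_lit 0) (XT.lf (nat_lit 0) (nat_lit 5680673349) (nat_lit 532) (nat_lit 3016422663) (nat_lit 608) (nat_lit 8148865240) (nat_lit 228) (nat_lit 5) (nat_lit 235) (nat_lit 5) (nat_lit 236) (nat_lit 5) (nat_lit 620) (nat_lit 555) (nat_lit 385)) (XT.nd (nat_lit 78) (nat_lit 532) (nat_lit 0) (XT.lf (nat_lit 0) (nat_lit 12144128847) (nat_lit 608) (nat_lit 1317614762) (nat_lit 76) (nat_lit 3581990976) (nat_lit 228) (nat_lit 5) (nat_lit 236) (nat_lit 5) (nat_lit 229) (nat_lit 5) (nat_lit 621) (nat_lit 555) (nat_lit 384)) (XT.lf (nat_lit 0) (nat_lit 8810345160) (nat_lit 532) (nat_lit 6917864886) (nat_lit 608) (nat_lit 1515892178) (nat_lit 221) (nat_lit 5) (nat_lit 228) (nat_lit 5) (nat_lit 229) (nat_lit 5) (nat_lit 622) (nat_lit 555) (nat_lit 383)))))) (XT.nd (nat_lit 468) (nat_lit 1824) (nat_lit 0) (XT.nd (nat_lit 234) (nat_lit 1064) (nat_lit 0) (XT.nd (nat_lit 78) (nat_lit 456) (nat_lit 0) (XT.lf (nat_lit 0) (nat_lit 1707919002) (nat_lit 532)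 (nat_lit 213149002) (nat_lit 608) (nat_lit 15526939699) (nat_lit 213) (nat_lit 5) (nat_lit 220) (nat_lit 5) (nat_lit 221) (nat_lit 5) (nat_lit 623) (nat_lit 555) (nat_lit 382)) (XT.nd (nat_lit 78) (nat_lit 456) (nat_lit 0) (XT.lf (nat_lit 0) (nat_lit 5497520552) (nat_lit 608) (nat_lit 5553898762) (nat_lit 76) (nat_lit 6602551493) (nat_lit 213) (nat_lit 5) (nat_lit 221) (nat_lit 5) (nat_lit 214) (nat_lit 5) (nat_lit 624) (nat_lit 555) (nat_lit 381)) (XT.lf (nat_lit 0) (nat_lit 4886576281) (nat_lit 456) (nat_lit 4283283999) (nat_lit 532) (nat_lit 8693706646) (nat_lit 207) (nat_lit 5) (nat_lit 213) (nat_lit 5) (nat_lit 214) (nat_lit 5) (nat_lit 625) (nat_lit 555) (nat_lit 380)))) (XT.nd (nat_lit 78) (nat_lit 1064) (nat_lit 0) (XT.lf (nat_lit 0) (nat_lit 12961467300) (nat_lit 532) (nat_lit 2494911785) (nat_lit 76) (nat_lit 2620060370) (nat_lit 207) (nat_lit 5) (nat_lit 214) (nat_lit 5) (nat_lit 208) (nat_lit 5) (nat_lit 626) (nat_lit 555) (nat_lit 379)) (XT.nd (nat_lit 78)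 (nat_lit 532) (nat_lit 0) (XT.lf (nat_lit 0) (nat_lit 8264888413) (nat_lit 532) (nat_lit 8637507977) (nat_lit 608) (nat_lit 1389704129) (nat_lit 200) (nat_lit 5) (nat_lit 207) (nat_lit 5) (nat_lit 208) (nat_lit 5) (nat_lit 627) (nat_lit 555) (nat_lit 378)) (XT.lf (nat_lit 0) (nat_lit 743977741) (nat_lit 456) (nat_lit 1647662673) (nat_lit 532) (nat_lit 16119858686) (nat_lit 193) (nat_lit 5) (nat_lit 199) (nat_lit 5) (nat_lit 200) (nat_lit 5) (nat_lit 628) (nat_lit 555) (nat_lit 377))))) (XT.nd (nat_lit 234) (nat_lit 1368) (nat_lit 0) (XT.nd (nat_lit 78) (nat_lit 456) (nat_lit 0) (XT.lf (nat_lit 0) (nat_lit 6324910213) (nat_lit 532) (nat_lit 6924721070) (nat_lit 76) (nat_lit 5483573352) (nat_lit 193) (nat_lit 5) (nat_lit 200) (nat_lit 5) (nat_lit 194) (nat_lit 5) (nat_lit 629) (nat_lit 555) (nat_lit 376)) (XT.nd (nat_lit 78) (nat_lit 0) (nat_lit 0) (XT.lf (nat_lit 0) (nat_lit 4166856488) (nat_lit 456) (nat_lit 6199682994) (nat_lit 532) (nat_lit 8592211730) (nat_lit 187)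 (nat_lit 5) (nat_lit 193) (nat_lit 5) (nat_lit 194) (nat_lit 5) (nat_lit 630) (nat_lit 555) (nat_lit 375)) (XT.lf (nat_lit 0) (nat_lit 14534004859) (nat_lit 532) (nat_lit 3632370860) (nat_lit 76) (nat_lit 1021533731) (nat_lit 187) (nat_lit 5) (nat_lit 194) (nat_lit 5) (nat_lit 188) (nat_lit 5) (nat_lit 631) (nat_lit 555) (nat_lit 374)))) (XT.nd (nat_lit 156) (nat_lit 836) (nat_lit 0) (XT.nd (nat_lit 78) (nat_lit 76) (nat_lit 0) (XT.lf (nat_lit 0) (nat_lit 7799936649) (nat_lit 456) (nat_lit 11068535026) (nat_lit 532) (nat_lit 551506914) (nat_lit 181) (nat_lit 5) (nat_lit 187) (nat_lit 5) (nat_lit 188) (nat_lit 5) (nat_lit 632) (nat_lit 555) (nat_lit 373)) (XT.lf (nat_lit 0) (nat_lit 3601810055) (nat_lit 532) (nat_lit 181500023) (nat_lit 76) (nat_lit 15872577678) (nat_lit 180) (nat_lit 5) (nat_lit 187) (nat_lit 5) (nat_lit 181) (nat_lit 5) (nat_lit 633) (nat_lit 555) (nat_lit 372))) (XT.nd (nat_lit 78) (nat_lit 380) (nat_lit 0) (XT.lf (nat_lit 0) (nat_lit 7922602896) (nat_lit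 532) (nat_lit 8296122677) (nat_lit 76) (nat_lit 3675881476) (nat_lit 174) (nat_lit 5) (nat_lit 181) (nat_lit 5) (nat_lit 175) (nat_lit 5) (nat_lit 634) (nat_lit 555) (nat_lit 371)) (XT.lf (nat_lit 0) (nat_lit 3487623762) (nat_lit 380) (nat_lit 8883308502) (nat_lit 456) (nat_lit 7766346772) (nat_lit 169) (nat_lit 5) (nat_lit 174) (nat_lit 5) (nat_lit 175) (nat_lit 5) (nat_lit 635) (nat_lit 555) (nat_lit 370))))))))
noncomputable def xc165 : XT := (XT.nd (nat_lit 75270) (nat_lit 0) (nat_lit 24624) (XT.nd (nat_lit 936) (nat_lit 1672) (nat_lit 0) (XT.nd (nat_lit 468) (nat_lit 1596) (nat_lit 0) (XT.nd (nat_lit 234) (nat_lit 760) (nat_lit 0) (XT.nd (nat_lit 78) (nat_lit 532) (nat_lit 0) (XT.lf (nat_lit 0) (nat_lit 15608070636) (nat_lit 380) (nat_lit 1348103388) (nat_lit 456) (nat_lit 3427672231) (nat_lit 169) (nat_lit 5) (nat_lit 174) (nat_lit 5) (nat_lit 175) (nat_lit 5) (nat_lit 636) (nat_lit 555) (nat_lit 369)) (XT.nd (nat_lit 78) (nat_lit 0) (nat_lit 0) (XT.lf (nat_lit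 0) (nat_lit 1066695325) (nat_lit 532) (nat_lit 13260848076) (nat_lit 76) (nat_lit 6306032424) (nat_lit 162) (nat_lit 5) (nat_lit 169) (nat_lit 5) (nat_lit 163) (nat_lit 5) (nat_lit 637) (nat_lit 555) (nat_lit 368)) (XT.lf (nat_lit 0) (nat_lit 5638712378) (nat_lit 532) (nat_lit 1101922644) (nat_lit 76) (nat_lit 14146539320) (nat_lit 162) (nat_lit 5) (nat_lit 169) (nat_lit 5) (nat_lit 163) (nat_lit 5) (nat_lit 638) (nat_lit 555) (nat_lit 367)))) (XT.nd (nat_lit 78) (nat_lit 380) (nat_lit 0) (XT.lf (nat_lit 0) (nat_lit 10375963479) (nat_lit 456) (nat_lit 9712388345) (nat_lit 76) (nat_lit 1056017785) (nat_lit 157) (nat_lit 5) (nat_lit 163) (nat_lit 5) (nat_lit 158) (nat_lit 5) (nat_lit 639) (nat_lit 555) (nat_lit 366)) (XT.nd (nat_lit 78) (nat_lit 0) (nat_lit 0) (XT.lf (nat_lit 0) (nat_lit 2805860375) (nat_lit 380) (nat_lit 12465025951) (nat_lit 456) (nat_lit 6134564563) (nat_lit 152) (nat_lit 5) (nat_lit 157) (nat_lit 5) (nat_lit 158) (nat_lit 5) (nat_lit 640) (nat_lit 555)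 (nat_lit 365)) (XT.lf (nat_lit 0) (nat_lit 15695012401) (nat_lit 380) (nat_lit 4626568689) (nat_lit 456) (nat_lit 1349015864) (nat_lit 152) (nat_lit 5) (nat_lit 157) (nat_lit 5) (nat_lit 158) (nat_lit 5) (nat_lit 641) (nat_lit 555) (nat_lit 364))))) (XT.nd (nat_lit 234) (nat_lit 760) (nat_lit 0) (XT.nd (nat_lit 78) (nat_lit 380) (nat_lit 0) (XT.lf (nat_lit 0) (nat_lit 3546186668) (nat_lit 456) (nat_lit 15003894239) (nat_lit 76) (nat_lit 3389301586) (nat_lit 146) (nat_lit 5) (nat_lit 152) (nat_lit 5) (nat_lit 147) (nat_lit 5) (nat_lit 642) (nat_lit 555) (nat_lit 363)) (XT.nd (nat_lit 78) (nat_lit 380) (nat_lit 0) (XT.lf (nat_lit 0) (nat_lit 8585090413) (nat_lit 456) (nat_lit 2077838064) (nat_lit 76) (nat_lit 11549160310) (nat_lit 146) (nat_lit 5) (nat_lit 152) (nat_lit 5) (nat_lit 147) (nat_lit 5) (nat_lit 643) (nat_lit 555) (nat_lit 362)) (XT.lf (nat_lit 0) (nat_lit 11243374105) (nat_lit 380) (nat_lit 2547377171) (nat_lit 456) (nat_lit 8698178931) (nat_lit 141) (nat_lit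 5) (nat_lit 146) (nat_lit 5) (nat_lit 147) (nat_lit 5) (nat_lit 644) (nat_lit 555) (nat_lit 361)))) (XT.nd (nat_lit 78) (nat_lit 456) (nat_lit 0) (XT.lf (nat_lit 0) (nat_lit 2067090649) (nat_lit 304) (nat_lit 17091120240) (nat_lit 380) (nat_lit 3611944425) (nat_lit 137) (nat_lit 5) (nat_lit 141) (nat_lit 5) (nat_lit 142) (nat_lit 5) (nat_lit 645) (nat_lit 555) (nat_lit 360)) (XT.nd (nat_lit 78) (nat_lit 380) (nat_lit 0) (XT.lf (nat_lit 0) (nat_lit 1641221624) (nat_lit 380) (nat_lit 7295560422) (nat_lit 76) (nat_lit 14118301243) (nat_lit 136) (nat_lit 5) (nat_lit 141) (nat_lit 5) (nat_lit 137) (nat_lit 5) (nat_lit 646) (nat_lit 555) (nat_lit 359)) (XT.lf (nat_lit 0) (nat_lit 6429826347) (nat_lit 380) (nat_lit 556232193) (nat_lit 456) (nat_lit 16358474891) (nat_lit 131) (nat_lit 5) (nat_lit 136) (nat_lit 5) (nat_lit 137) (nat_lit 5) (nat_lit 647) (nat_lit 555) (nat_lit 358)))))) (XT.nd (nat_lit 468) (nat_lit 684) (nat_lit 0) (XT.nd (nat_lit 234) (nat_lit 380) (nat_lit 0)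 (XT.nd (nat_lit 78) (nat_lit 608) (nat_lit 0) (XT.lf (nat_lit 0) (nat_lit 12532181819) (nat_lit 456) (nat_lit 3173108593) (nat_lit 76) (nat_lit 7932594898) (nat_lit 131) (nat_lit 5) (nat_lit 137) (nat_lit 5) (nat_lit 132) (nat_lit 5) (nat_lit 648) (nat_lit 555) (nat_lit 357)) (XT.nd (nat_lit 78) (nat_lit 304) (nat_lit 0) (XT.lf (nat_lit 0) (nat_lit 10973045666) (nat_lit 304) (nat_lit 7284462250) (nat_lit 380) (nat_lit 5678231220) (nat_lit 127) (nat_lit 5) (nat_lit 131) (nat_lit 5) (nat_lit 132) (nat_lit 5) (nat_lit 649) (nat_lit 555) (nat_lit 356)) (XT.lf (nat_lit 0) (nat_lit 1202627214) (nat_lit 304) (nat_lit 22925817310) (nat_lit 380) (nat_lit 110483940) (nat_lit 123) (nat_lit 5) (nat_lit 127) (nat_lit 5) (nat_lit 128) (nat_lit 5) (nat_lit 650) (nat_lit 555) (nat_lit 355)))) (XT.nd (nat_lit 78) (nat_lit 304) (nat_lit 0) (XT.lf (nat_lit 0) (nat_lit 5624796613) (nat_lit 380) (nat_lit 8815010334) (nat_lit 76) (nat_lit 10105067779) (nat_lit 122) (nat_lit 5) (nat_lit 127)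 (nat_lit 5) (nat_lit 123) (nat_lit 5) (nat_lit 651) (nat_lit 555) (nat_lit 354)) (XT.nd (nat_lit 78) (nat_lit 0) (nat_lit 0) (XT.lf (nat_lit 0) (nat_lit 5755098165) (nat_lit 304) (nat_lit 5749109511) (nat_lit 380) (nat_lit 13352100023) (nat_lit 118) (nat_lit 5) (nat_lit 122) (nat_lit 5) (nat_lit 123) (nat_lit 5) (nat_lit 652) (nat_lit 555) (nat_lit 353)) (XT.lf (nat_lit 0) (nat_lit 17574551013) (nat_lit 380) (nat_lit 4467697523) (nat_lit 76) (nat_lit 3130254381) (nat_lit 118) (nat_lit 5) (nat_lit 123) (nat_lit 5) (nat_lit 119) (nat_lit 5) (nat_lit 653) (nat_lit 555) (nat_lit 352))))) (XT.nd (nat_lit 73554) (nat_lit 0) (nat_lit 32300) (XT.nd (nat_lit 78) (nat_lit 380) (nat_lit 0) (XT.lf (nat_lit 0) (nat_lit 10548570415) (nat_lit 304) (nat_lit 13317990427) (nat_lit 380) (nat_lit 1626456463) (nat_lit 114) (nat_lit 5) (nat_lit 118) (nat_lit 5) (nat_lit 119) (nat_lit 5) (nat_lit 654) (nat_lit 555) (nat_lit 351)) (XT.nd (nat_lit 78) (nat_lit 0) (nat_lit 0) (XT.lf (nat_lit 0)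 (nat_lit 67883527) (nat_lit 304) (nat_lit 4362366749) (nat_lit 380) (nat_lit 21388625745) (nat_lit 109) (nat_lit 5) (nat_lit 113) (nat_lit 5) (nat_lit 114) (nat_lit 5) (nat_lit 655) (nat_lit 555) (nat_lit 350)) (XT.lf (nat_lit 0) (nat_lit 10712013766) (nat_lit 380) (nat_lit 10618867106) (nat_lit 76) (nat_lit 4817642438) (nat_lit 109) (nat_lit 5) (nat_lit 114) (nat_lit 5) (nat_lit 110) (nat_lit 5) (nat_lit 656) (nat_lit 555) (nat_lit 349)))) (XT.nd (nat_lit 156) (nat_lit 0) (nat_lit 76) (XT.nd (nat_lit 78) (nat_lit 0) (nat_lit 0) (XT.lf (nat_lit 0) (nat_lit 1359129793) (nat_lit 1596) (nat_lit 1552142686) (nat_lit 1596) (nat_lit 1552142686) (nat_lit 534) (nat_lit 3) (nat_lit 555) (nat_lit 3) (nat_lit 555) (nat_lit 5) (nat_lit 556) (nat_lit 556) (nat_lit 448)) (XT.lf (nat_lit 76) (nat_lit 1293388656) (nat_lit 0) (nat_lit 2375709685) (nat_lit 1596) (nat_lit 5328369839) (nat_lit 535) (nat_lit 5) (nat_lit 534) (nat_lit 3) (nat_lit 555) (nat_lit 5) (nat_lit 557) (nat_lit 556)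 (nat_lit 447))) (XT.nd (nat_lit 78) (nat_lit 0) (nat_lit 0) (XT.lf (nat_lit 0) (nat_lit 4643312960) (nat_lit 1520) (nat_lit 3268516969) (nat_lit 1596) (nat_lit 1157605803) (nat_lit 535) (nat_lit 5) (nat_lit 555) (nat_lit 5) (nat_lit 556) (nat_lit 5) (nat_lit 558) (nat_lit 556) (nat_lit 446)) (XT.lf (nat_lit 76) (nat_lit 1243617871) (nat_lit 0) (nat_lit 4393660100) (nat_lit 1596) (nat_lit 3505563387) (nat_lit 536) (nat_lit 5) (nat_lit 535) (nat_lit 5) (nat_lit 556) (nat_lit 5) (nat_lit 559) (nat_lit 556) (nat_lit 445))))))) (XT.nd (nat_lit 936) (nat_lit 6308) (nat_lit 0) (XT.nd (nat_lit 468) (nat_lit 0) (nat_lit 76) (XT.nd (nat_lit 234) (nat_lit 1444) (nat_lit 0) (XT.nd (nat_lit 78) (nat_lit 0) (nat_lit 76) (XT.lf (nat_lit 76) (nat_lit 5877668614) (nat_lit 0) (nat_lit 772225250) (nat_lit 1596) (nat_lit 2567849769) (nat_lit 536) (nat_lit 5) (nat_lit 535) (nat_lit 5) (nat_lit 556) (nat_lit 5) (nat_lit 560) (nat_lit 556) (nat_lit 444)) (XT.nd (nat_lit 78) (nat_lit 0) (nat_lit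 0) (XT.lf (nat_lit 76) (nat_lit 1295366390) (nat_lit 0) (nat_lit 6392134566) (nat_lit 1596) (nat_lit 1606552108) (nat_lit 537) (nat_lit 5) (nat_lit 536) (nat_lit 5) (nat_lit 557) (nat_lit 5) (nat_lit 561) (nat_lit 556) (nat_lit 443)) (XT.lf (nat_lit 76) (nat_lit 6050785343) (nat_lit 0) (nat_lit 2700288896) (nat_lit 1596) (nat_lit 620713976) (nat_lit 537) (nat_lit 5) (nat_lit 536) (nat_lit 5) (nat_lit 557) (nat_lit 5) (nat_lit 562) (nat_lit 556) (nat_lit 442)))) (XT.nd (nat_lit 78) (nat_lit 0) (nat_lit 0) (XT.lf (nat_lit 0) (nat_lit 374297581) (nat_lit 1596) (nat_lit 8004403038) (nat_lit 1672) (nat_lit 1072441063) (nat_lit 516) (nat_lit 5) (nat_lit 537) (nat_lit 5) (nat_lit 538) (nat_lit 5) (nat_lit 563) (nat_lit 556) (nat_lit 441)) (XT.nd (nat_lit 78) (nat_lit 0) (nat_lit 0) (XT.lf (nat_lit 0) (nat_lit 1399635945) (nat_lit 1596) (nat_lit 3212204034) (nat_lit 1672) (nat_lit 4919789016) (nat_lit 516) (nat_lit 5) (nat_lit 537) (nat_lit 5) (nat_lit 538) (nat_lit 5) (nat_lit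 564) (nat_lit 556) (nat_lit 440)) (XT.lf (nat_lit 76) (nat_lit 1684918720) (nat_lit 0) (nat_lit 750339409) (nat_lit 1672) (nat_lit 7178675906) (nat_lit 517) (nat_lit 5) (nat_lit 516) (nat_lit 5) (nat_lit 538) (nat_lit 5) (nat_lit 565) (nat_lit 556) (nat_lit 439))))) (XT.nd (nat_lit 234) (nat_lit 0) (nat_lit 76) (XT.nd (nat_lit 78) (nat_lit 0) (nat_lit 0) (XT.lf (nat_lit 0) (nat_lit 3513211954) (nat_lit 1596) (nat_lit 3008175729) (nat_lit 1672) (nat_lit 3176068561) (nat_lit 517) (nat_lit 5) (nat_lit 538) (nat_lit 5) (nat_lit 539) (nat_lit 5) (nat_lit 566) (nat_lit 556) (nat_lit 438)) (XT.nd (nat_lit 78) (nat_lit 0) (nat_lit 76) (XT.lf (nat_lit 76) (nat_lit 2019455898) (nat_lit 0) (nat_lit 2590976911) (nat_lit 1672) (nat_lit 5172265316) (nat_lit 518) (nat_lit 5) (nat_lit 517) (nat_lit 5) (nat_lit 539) (nat_lit 5) (nat_lit 567) (nat_lit 556) (nat_lit 437)) (XT.lf (nat_lit 0) (nat_lit 5739112428) (nat_lit 1596) (nat_lit 2703669536) (nat_lit 1672) (nat_lit 1426675911) (nat_lit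 518) (nat_lit 5) (nat_lit 539) (nat_lit 5) (nat_lit 540) (nat_lit 5) (nat_lit 568) (nat_lit 556) (nat_lit 436)))) (XT.nd (nat_lit 78) (nat_lit 0) (nat_lit 0) (XT.lf (nat_lit 76) (nat_lit 2458945490) (nat_lit 0) (nat_lit 4444923795) (nat_lit 1672) (nat_lit 3053816716) (nat_lit 519) (nat_lit 5) (nat_lit 518) (nat_lit 5) (nat_lit 540) (nat_lit 5) (nat_lit 569) (nat_lit 556) (nat_lit 435)) (XT.nd (nat_lit 78) (nat_lit 0) (nat_lit 76) (XT.lf (nat_lit 76) (nat_lit 7748309033) (nat_lit 0) (nat_lit 342434362) (nat_lit 1672) (nat_lit 1956962043) (nat_lit 519) (nat_lit 5) (nat_lit 518) (nat_lit 5) (nat_lit 540) (nat_lit 5) (nat_lit 570) (nat_lit 556) (nat_lit 434)) (XT.lf (nat_lit 76) (nat_lit 3005085249) (nat_lit 0) (nat_lit 6321823411) (nat_lit 1672) (nat_lit 812108658) (nat_lit 520) (nat_lit 5) (nat_lit 519) (nat_lit 5) (nat_lit 541) (nat_lit 5) (nat_lit 571) (nat_lit 556) (nat_lit 433)))))) (XT.nd (nat_lit 468) (nat_lit 4864) (nat_lit 0) (XT.nd (nat_lit 234) (nat_lit 0) (nat_lit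 152) (XT.nd (nat_lit 78) (nat_lit 0) (nat_lit 76) (XT.lf (nat_lit 0) (nat_lit 350033217) (nat_lit 1672) (nat_lit 1803180974) (nat_lit 1748) (nat_lit 8078916954) (nat_lit 497) (nat_lit 5) (nat_lit 519) (nat_lit 5) (nat_lit 520) (nat_lit 5) (nat_lit 572) (nat_lit 556) (nat_lit 432)) (XT.nd (nat_lit 78) (nat_lit 0) (nat_lit 0) (XT.lf (nat_lit 0) (nat_lit 1543817122) (nat_lit 1672) (nat_lit 6677107690) (nat_lit 1748) (nat_lit 2105692556) (nat_lit 498) (nat_lit 5) (nat_lit 520) (nat_lit 5) (nat_lit 521) (nat_lit 5) (nat_lit 573) (nat_lit 556) (nat_lit 431)) (XT.lf (nat_lit 0) (nat_lit 2769847343) (nat_lit 1672) (nat_lit 1214920917) (nat_lit 1748) (nat_lit 6438060534) (nat_lit 498) (nat_lit 5) (nat_lit 520) (nat_lit 5) (nat_lit 521) (nat_lit 5) (nat_lit 574) (nat_lit 556) (nat_lit 430)))) (XT.nd (nat_lit 78) (nat_lit 0) (nat_lit 0) (XT.lf (nat_lit 0) (nat_lit 4033657394) (nat_lit 1672) (nat_lit 6122182722) (nat_lit 1748) (nat_lit 364861979) (nat_lit 499) (nat_lit 5) (nat_lit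 521) (nat_lit 5) (nat_lit 522) (nat_lit 5) (nat_lit 575) (nat_lit 556) (nat_lit 429)) (XT.nd (nat_lit 78) (nat_lit 0) (nat_lit 0) (XT.lf (nat_lit 0) (nat_lit 5339914013) (nat_lit 1672) (nat_lit 519669621) (nat_lit 1748) (nat_lit 4760608599) (nat_lit 499) (nat_lit 5) (nat_lit 521) (nat_lit 5) (nat_lit 522) (nat_lit 5) (nat_lit 576) (nat_lit 556) (nat_lit 428)) (XT.lf (nat_lit 76) (nat_lit 5250466644) (nat_lit 0) (nat_lit 1438834732) (nat_lit 1748) (nat_lit 4032033408) (nat_lit 500) (nat_lit 5) (nat_lit 499) (nat_lit 5) (nat_lit 522) (nat_lit 5) (nat_lit 577) (nat_lit 556) (nat_lit 427))))) (XT.nd (nat_lit 234) (nat_lit 3496) (nat_lit 0) (XT.nd (nat_lit 78) (nat_lit 1596) (nat_lit 0) (XT.lf (nat_lit 76) (nat_lit 288887102) (nat_lit 0) (nat_lit 7785298964) (nat_lit 1748) (nat_lit 2750146598) (nat_lit 501) (nat_lit 5) (nat_lit 500) (nat_lit 5) (nat_lit 523) (nat_lit 5) (nat_lit 578) (nat_lit 556) (nat_lit 426)) (XT.nd (nat_lit 78) (nat_lit 1596) (nat_lit 0) (XT.lf (nat_lit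 76) (nat_lit 6214866953) (nat_lit 0) (nat_lit 3301511030) (nat_lit 1748) (nat_lit 1412422943) (nat_lit 501) (nat_lit 5) (nat_lit 500) (nat_lit 5) (nat_lit 523) (nat_lit 5) (nat_lit 579) (nat_lit 556) (nat_lit 425)) (XT.lf (nat_lit 0) (nat_lit 1218168828) (nat_lit 1672) (nat_lit 9769188124) (nat_lit 1748) (nat_lit 48005306) (nat_lit 479) (nat_lit 5) (nat_lit 501) (nat_lit 5) (nat_lit 502) (nat_lit 5) (nat_lit 580) (nat_lit 556) (nat_lit 424)))) (XT.nd (nat_lit 156) (nat_lit 1672) (nat_lit 0) (XT.nd (nat_lit 78) (nat_lit 1748) (nat_lit 0) (XT.lf (nat_lit 0) (nat_lit 1363682558) (nat_lit 1748) (nat_lit 3855092272) (nat_lit 76) (nat_lit 5924355872) (nat_lit 478) (nat_lit 5) (nat_lit 501) (nat_lit 5) (nat_lit 479) (nat_lit 5) (nat_lit 581) (nat_lit 556) (nat_lit 423)) (XT.lf (nat_lit 0) (nat_lit 2241920079) (nat_lit 1748) (nat_lit 559811640) (nat_lit 1824) (nat_lit 8451343461) (nat_lit 455) (nat_lit 5) (nat_lit 478) (nat_lit 5) (nat_lit 479) (nat_lit 5) (nat_lit 582) (nat_lit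 556) (nat_lit 422))) (XT.nd (nat_lit 78) (nat_lit 1672) (nat_lit 0) (XT.lf (nat_lit 0) (nat_lit 4306253490) (nat_lit 1824) (nat_lit 2892618387) (nat_lit 76) (nat_lit 4165594808) (nat_lit 455) (nat_lit 5) (nat_lit 479) (nat_lit 5) (nat_lit 456) (nat_lit 5) (nat_lit 583) (nat_lit 556) (nat_lit 421)) (XT.lf (nat_lit 0) (nat_lit 3375463285) (nat_lit 1672) (nat_lit 2475781612) (nat_lit 1748) (nat_lit 5626635864) (nat_lit 433) (nat_lit 5) (nat_lit 455) (nat_lit 5) (nat_lit 456) (nat_lit 5) (nat_lit 584) (nat_lit 556) (nat_lit 420))))))))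
noncomputable def xc166 : XT := (XT.nd (nat_lit 1950) (nat_lit 8360) (nat_lit 0) (XT.nd (nat_lit 936) (nat_lit 5928) (nat_lit 0) (XT.nd (nat_lit 468) (nat_lit 2508) (nat_lit 0) (XT.nd (nat_lit 234) (nat_lit 1900) (nat_lit 0) (XT.nd (nat_lit 78) (nat_lit 988) (nat_lit 0) (XT.lf (nat_lit 0) (nat_lit 7446859880) (nat_lit 1748) (nat_lit 1814005267) (nat_lit 76) (nat_lit 2332305775) (nat_lit 433) (nat_lit 5) (nat_lit 456) (nat_lit 5) (nat_lit 434) (nat_lit 5) (nat_lit 585) (nat_lit 556) (nat_lit 419)) (XT.nd (nat_lit 78) (nat_lit 0) (nat_lit 0) (XT.lf (nat_lit 0) (nat_lit 4631170576) (nat_lit 988) (nat_lit 4474955512) (nat_lit 1064) (nat_lit 2604008251) (nat_lit 420) (nat_lit 5) (nat_lit 433) (nat_lit 5) (nat_lit 434) (nat_lit 5) (nat_lit 586) (nat_lit 556) (nat_lit 418)) (XT.lf (nat_lit 0) (nat_lit 10798956796) (nat_lit 1064) (nat_lit 615635695) (nat_lit 76) (nat_lit 414839142) (nat_lit 420) (nat_lit 5) (nat_lit 434) (nat_lit 5) (nat_lit 421) (nat_lit 5) (nat_lit 587) (nat_lit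 556) (nat_lit 417)))) (XT.nd (nat_lit 78) (nat_lit 912) (nat_lit 0) (XT.lf (nat_lit 0) (nat_lit 621797609) (nat_lit 988) (nat_lit 5941229795) (nat_lit 76) (nat_lit 5386918900) (nat_lit 407) (nat_lit 5) (nat_lit 420) (nat_lit 5) (nat_lit 408) (nat_lit 5) (nat_lit 588) (nat_lit 556) (nat_lit 416)) (XT.nd (nat_lit 78) (nat_lit 0) (nat_lit 0) (XT.lf (nat_lit 0) (nat_lit 689911945) (nat_lit 912) (nat_lit 1597924448) (nat_lit 988) (nat_lit 9785010332) (nat_lit 395) (nat_lit 5) (nat_lit 407) (nat_lit 5) (nat_lit 408) (nat_lit 5) (nat_lit 589) (nat_lit 556) (nat_lit 415)) (XT.lf (nat_lit 0) (nat_lit 4035898330) (nat_lit 988) (nat_lit 4699560761) (nat_lit 76) (nat_lit 3461774038) (nat_lit 395) (nat_lit 5) (nat_lit 408) (nat_lit 5) (nat_lit 396) (nat_lit 5) (nat_lit 590) (nat_lit 556) (nat_lit 414))))) (XT.nd (nat_lit 234) (nat_lit 836) (nat_lit 0) (XT.nd (nat_lit 78) (nat_lit 836) (nat_lit 0) (XT.lf (nat_lit 0) (nat_lit 2121393748) (nat_lit 836) (nat_lit 3708219685) (nat_lit 912)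 (nat_lit 6494281972) (nat_lit 384) (nat_lit 5) (nat_lit 395) (nat_lit 5) (nat_lit 396) (nat_lit 5) (nat_lit 591) (nat_lit 556) (nat_lit 413)) (XT.nd (nat_lit 78) (nat_lit 836) (nat_lit 0) (XT.lf (nat_lit 0) (nat_lit 7686684658) (nat_lit 912) (nat_lit 3332927320) (nat_lit 76) (nat_lit 1432931259) (nat_lit 384) (nat_lit 5) (nat_lit 396) (nat_lit 5) (nat_lit 385) (nat_lit 5) (nat_lit 592) (nat_lit 556) (nat_lit 412)) (XT.lf (nat_lit 0) (nat_lit 3684556689) (nat_lit 836) (nat_lit 5931604955) (nat_lit 912) (nat_lit 2966899000) (nat_lit 373) (nat_lit 5) (nat_lit 384) (nat_lit 5) (nat_lit 385) (nat_lit 5) (nat_lit 593) (nat_lit 556) (nat_lit 411)))) (XT.nd (nat_lit 78) (nat_lit 836) (nat_lit 0) (XT.lf (nat_lit 0) (nat_lit 10874408548) (nat_lit 836) (nat_lit 719143013) (nat_lit 912) (nat_lit 1122452239) (nat_lit 373) (nat_lit 5) (nat_lit 384) (nat_lit 5) (nat_lit 385) (nat_lit 5) (nat_lit 594) (nat_lit 556) (nat_lit 410)) (XT.nd (nat_lit 78) (nat_lit 0) (nat_lit 0) (XT.lf (nat_lit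 0) (nat_lit 801293249) (nat_lit 836) (nat_lit 7471784210) (nat_lit 76) (nat_lit 4577384359) (nat_lit 362) (nat_lit 5) (nat_lit 373) (nat_lit 5) (nat_lit 363) (nat_lit 5) (nat_lit 595) (nat_lit 556) (nat_lit 409)) (XT.lf (nat_lit 0) (nat_lit 2752993684) (nat_lit 836) (nat_lit 244563789) (nat_lit 76) (nat_lit 9989814704) (nat_lit 362) (nat_lit 5) (nat_lit 373) (nat_lit 5) (nat_lit 363) (nat_lit 5) (nat_lit 596) (nat_lit 556) (nat_lit 408)))))) (XT.nd (nat_lit 468) (nat_lit 2812) (nat_lit 0) (XT.nd (nat_lit 234) (nat_lit 1520) (nat_lit 0) (XT.nd (nat_lit 78) (nat_lit 760) (nat_lit 0) (XT.lf (nat_lit 0) (nat_lit 4793856147) (nat_lit 912) (nat_lit 5933355611) (nat_lit 76) (nat_lit 2398808153) (nat_lit 351) (nat_lit 5) (nat_lit 363) (nat_lit 5) (nat_lit 352) (nat_lit 5) (nat_lit 597) (nat_lit 556) (nat_lit 407)) (XT.nd (nat_lit 78) (nat_lit 0) (nat_lit 0) (XT.lf (nat_lit 0) (nat_lit 1501228955) (nat_lit 760) (nat_lit 5393256217) (nat_lit 836) (nat_lit 6372578132) (nat_lit 341)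 (nat_lit 5) (nat_lit 351) (nat_lit 5) (nat_lit 352) (nat_lit 5) (nat_lit 598) (nat_lit 556) (nat_lit 406)) (XT.lf (nat_lit 0) (nat_lit 9065363475) (nat_lit 836) (nat_lit 4259063302) (nat_lit 76) (nat_lit 85937714) (nat_lit 341) (nat_lit 5) (nat_lit 352) (nat_lit 5) (nat_lit 342) (nat_lit 5) (nat_lit 599) (nat_lit 556) (nat_lit 405)))) (XT.nd (nat_lit 78) (nat_lit 760) (nat_lit 0) (XT.lf (nat_lit 0) (nat_lit 3393600417) (nat_lit 760) (nat_lit 7931897068) (nat_lit 836) (nat_lit 2230119080) (nat_lit 331) (nat_lit 5) (nat_lit 341) (nat_lit 5) (nat_lit 342) (nat_lit 5) (nat_lit 600) (nat_lit 556) (nat_lit 404)) (XT.nd (nat_lit 78) (nat_lit 760) (nat_lit 0) (XT.lf (nat_lit 0) (nat_lit 11244102380) (nat_lit 760) (nat_lit 2403549570) (nat_lit 836) (nat_lit 55786971) (nat_lit 331) (nat_lit 5) (nat_lit 341) (nat_lit 5) (nat_lit 342) (nat_lit 5) (nat_lit 601) (nat_lit 556) (nat_lit 403)) (XT.lf (nat_lit 0) (nat_lit 2178723627) (nat_lit 760) (nat_lit 8432908246) (nat_lit 76) (nat_lit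 3241405692) (nat_lit 321) (nat_lit 5) (nat_lit 331) (nat_lit 5) (nat_lit 322) (nat_lit 5) (nat_lit 602) (nat_lit 556) (nat_lit 402))))) (XT.nd (nat_lit 234) (nat_lit 1368) (nat_lit 0) (XT.nd (nat_lit 78) (nat_lit 1444) (nat_lit 0) (XT.lf (nat_lit 0) (nat_lit 4478234707) (nat_lit 760) (nat_lit 544160484) (nat_lit 76) (nat_lit 8982805974) (nat_lit 321) (nat_lit 5) (nat_lit 331) (nat_lit 5) (nat_lit 322) (nat_lit 5) (nat_lit 603) (nat_lit 556) (nat_lit 401)) (XT.nd (nat_lit 78) (nat_lit 684) (nat_lit 0) (XT.lf (nat_lit 0) (nat_lit 6866483908) (nat_lit 836) (nat_lit 6575209192) (nat_lit 76) (nat_lit 717861452) (nat_lit 311) (nat_lit 5) (nat_lit 322) (nat_lit 5) (nat_lit 312) (nat_lit 5) (nat_lit 604) (nat_lit 556) (nat_lit 400)) (XT.lf (nat_lit 0) (nat_lit 1539924122) (nat_lit 684) (nat_lit 7798388556) (nat_lit 760) (nat_lit 4977967482) (nat_lit 302) (nat_lit 5) (nat_lit 311) (nat_lit 5) (nat_lit 312) (nat_lit 5) (nat_lit 605) (nat_lit 556) (nat_lit 399)))) (XT.nd (nat_lit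 156) (nat_lit 684) (nat_lit 0) (XT.nd (nat_lit 78) (nat_lit 684) (nat_lit 0) (XT.lf (nat_lit 0) (nat_lit 9893710652) (nat_lit 684) (nat_lit 1999005264) (nat_lit 760) (nat_lit 2582763024) (nat_lit 302) (nat_lit 5) (nat_lit 311) (nat_lit 5) (nat_lit 312) (nat_lit 5) (nat_lit 606) (nat_lit 556) (nat_lit 398)) (XT.lf (nat_lit 0) (nat_lit 3788233978) (nat_lit 684) (nat_lit 10749215372) (nat_lit 760) (nat_lit 99628891) (nat_lit 293) (nat_lit 5) (nat_lit 302) (nat_lit 5) (nat_lit 303) (nat_lit 5) (nat_lit 607) (nat_lit 556) (nat_lit 397))) (XT.nd (nat_lit 78) (nat_lit 608) (nat_lit 0) (XT.lf (nat_lit 0) (nat_lit 2434720772) (nat_lit 760) (nat_lit 2455584086) (nat_lit 76) (nat_lit 9910620764) (nat_lit 292) (nat_lit 5) (nat_lit 302) (nat_lit 5) (nat_lit 293) (nat_lit 5) (nat_lit 608) (nat_lit 556) (nat_lit 396)) (XT.lf (nat_lit 0) (nat_lit 5055298506) (nat_lit 684) (nat_lit 8801449694) (nat_lit 76) (nat_lit 1110552386) (nat_lit 284) (nat_lit 5) (nat_lit 293) (nat_lit 5) (nat_lit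 285) (nat_lit 5) (nat_lit 609) (nat_lit 556) (nat_lit 395))))))) (XT.nd (nat_lit 936) (nat_lit 4104) (nat_lit 0) (XT.nd (nat_lit 468) (nat_lit 2280) (nat_lit 0) (XT.nd (nat_lit 234) (nat_lit 684) (nat_lit 0) (XT.nd (nat_lit 78) (nat_lit 1292) (nat_lit 0) (XT.lf (nat_lit 0) (nat_lit 7766859529) (nat_lit 684) (nat_lit 188823364) (nat_lit 76) (nat_lit 7180550005) (nat_lit 284) (nat_lit 5) (nat_lit 293) (nat_lit 5) (nat_lit 285) (nat_lit 5) (nat_lit 610) (nat_lit 556) (nat_lit 394)) (XT.nd (nat_lit 78) (nat_lit 608) (nat_lit 0) (XT.lf (nat_lit 0) (nat_lit 8697720518) (nat_lit 684) (nat_lit 1881204800) (nat_lit 760) (nat_lit 4728694325) (nat_lit 275) (nat_lit 5) (nat_lit 284) (nat_lit 5) (nat_lit 285) (nat_lit 5) (nat_lit 611) (nat_lit 556) (nat_lit 393)) (XT.lf (nat_lit 0) (nat_lit 2271399450) (nat_lit 608) (nat_lit 11209777717) (nat_lit 684) (nat_lit 2000579293) (nat_lit 267) (nat_lit 5) (nat_lit 275) (nat_lit 5) (nat_lit 276) (nat_lit 5) (nat_lit 612) (nat_lit 556) (nat_lit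 392)))) (XT.nd (nat_lit 78) (nat_lit 608) (nat_lit 0) (XT.lf (nat_lit 0) (nat_lit 818906080) (nat_lit 684) (nat_lit 4268961968) (nat_lit 76) (nat_lit 10570466286) (nat_lit 266) (nat_lit 5) (nat_lit 275) (nat_lit 5) (nat_lit 267) (nat_lit 5) (nat_lit 613) (nat_lit 556) (nat_lit 391)) (XT.nd (nat_lit 78) (nat_lit 0) (nat_lit 0) (XT.lf (nat_lit 0) (nat_lit 3697711339) (nat_lit 684) (nat_lit 10955709089) (nat_lit 76) (nat_lit 1184165664) (nat_lit 258) (nat_lit 5) (nat_lit 267) (nat_lit 5) (nat_lit 259) (nat_lit 5) (nat_lit 614) (nat_lit 556) (nat_lit 390)) (XT.lf (nat_lit 0) (nat_lit 6686875558) (nat_lit 684) (nat_lit 1792552591) (nat_lit 76) (nat_lit 7539940219) (nat_lit 258) (nat_lit 5) (nat_lit 267) (nat_lit 5) (nat_lit 259) (nat_lit 5) (nat_lit 615) (nat_lit 556) (nat_lit 389))))) (XT.nd (nat_lit 234) (nat_lit 1140) (nat_lit 0) (XT.nd (nat_lit 78) (nat_lit 608) (nat_lit 0) (XT.lf (nat_lit 0) (nat_lit 7641917555) (nat_lit 532) (nat_lit 2133964716) (nat_lit 608) (nat_lit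 6428103950) (nat_lit 251) (nat_lit 5) (nat_lit 258) (nat_lit 5) (nat_lit 259) (nat_lit 5) (nat_lit 616) (nat_lit 556) (nat_lit 388)) (XT.nd (nat_lit 78) (nat_lit 0) (nat_lit 0) (XT.lf (nat_lit 0) (nat_lit 868191387) (nat_lit 608) (nat_lit 12094925564) (nat_lit 684) (nat_lit 3428451618) (nat_lit 243) (nat_lit 5) (nat_lit 251) (nat_lit 5) (nat_lit 252) (nat_lit 5) (nat_lit 617) (nat_lit 556) (nat_lit 387)) (XT.lf (nat_lit 0) (nat_lit 10576611026) (nat_lit 608) (nat_lit 5699621503) (nat_lit 684) (nat_lit 305428385) (nat_lit 243) (nat_lit 5) (nat_lit 251) (nat_lit 5) (nat_lit 252) (nat_lit 5) (nat_lit 618) (nat_lit 556) (nat_lit 386)))) (XT.nd (nat_lit 78) (nat_lit 532) (nat_lit 0) (XT.lf (nat_lit 0) (nat_lit 2862821933) (nat_lit 608) (nat_lit 13058812616) (nat_lit 76) (nat_lit 853136824) (nat_lit 235) (nat_lit 5) (nat_lit 243) (nat_lit 5) (nat_lit 236) (nat_lit 5) (nat_lit 619) (nat_lit 556) (nat_lit 385)) (XT.nd (nat_lit 78) (nat_lit 532) (nat_lit 0) (XT.lf (nat_lit 0)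 (nat_lit 6159508535) (nat_lit 608) (nat_lit 3310343138) (nat_lit 76) (nat_lit 7500469781) (nat_lit 235) (nat_lit 5) (nat_lit 243) (nat_lit 5) (nat_lit 236) (nat_lit 5) (nat_lit 620) (nat_lit 556) (nat_lit 384)) (XT.lf (nat_lit 0) (nat_lit 6709168823) (nat_lit 532) (nat_lit 2847547272) (nat_lit 608) (nat_lit 7612375690) (nat_lit 228) (nat_lit 5) (nat_lit 235) (nat_lit 5) (nat_lit 236) (nat_lit 5) (nat_lit 621) (nat_lit 556) (nat_lit 383)))))) (XT.nd (nat_lit 468) (nat_lit 2508) (nat_lit 0) (XT.nd (nat_lit 234) (nat_lit 456) (nat_lit 0) (XT.nd (nat_lit 78) (nat_lit 1140) (nat_lit 0) (XT.lf (nat_lit 0) (nat_lit 13060703882) (nat_lit 608) (nat_lit 434964552) (nat_lit 76) (nat_lit 3875393340) (nat_lit 228) (nat_lit 5) (nat_lit 236) (nat_lit 5) (nat_lit 229) (nat_lit 5) (nat_lit 622) (nat_lit 556) (nat_lit 382)) (XT.nd (nat_lit 78) (nat_lit 608) (nat_lit 0) (XT.lf (nat_lit 0) (nat_lit 9889574289) (nat_lit 532) (nat_lit 6819545779) (nat_lit 608) (nat_lit 866465073) (nat_lit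 221) (nat_lit 5) (nat_lit 228) (nat_lit 5) (nat_lit 229) (nat_lit 5) (nat_lit 623) (nat_lit 556) (nat_lit 381)) (XT.lf (nat_lit 0) (nat_lit 2623210768) (nat_lit 608) (nat_lit 15135704505) (nat_lit 76) (nat_lit 24708750) (nat_lit 213) (nat_lit 5) (nat_lit 221) (nat_lit 5) (nat_lit 214) (nat_lit 5) (nat_lit 624) (nat_lit 556) (nat_lit 380)))) (XT.nd (nat_lit 78) (nat_lit 456) (nat_lit 0) (XT.lf (nat_lit 0) (nat_lit 6259562126) (nat_lit 608) (nat_lit 4765197925) (nat_lit 76) (nat_lit 6969180302) (nat_lit 213) (nat_lit 5) (nat_lit 221) (nat_lit 5) (nat_lit 214) (nat_lit 5) (nat_lit 625) (nat_lit 556) (nat_lit 379)) (XT.nd (nat_lit 78) (nat_lit 0) (nat_lit 0) (XT.lf (nat_lit 0) (nat_lit 5878167022) (nat_lit 456) (nat_lit 4120199053) (nat_lit 532) (nat_lit 8209503306) (nat_lit 207) (nat_lit 5) (nat_lit 213) (nat_lit 5) (nat_lit 214) (nat_lit 5) (nat_lit 626) (nat_lit 556) (nat_lit 378)) (XT.lf (nat_lit 0) (nat_lit 13854739434) (nat_lit 532) (nat_lit 1657346253) (nat_lit 76)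 (nat_lit 2913136299) (nat_lit 207) (nat_lit 5) (nat_lit 214) (nat_lit 5) (nat_lit 208) (nat_lit 5) (nat_lit 627) (nat_lit 556) (nat_lit 377))))) (XT.nd (nat_lit 234) (nat_lit 1444) (nat_lit 0) (XT.nd (nat_lit 78) (nat_lit 532) (nat_lit 0) (XT.lf (nat_lit 0) (nat_lit 9311811372) (nat_lit 532) (nat_lit 8555967618) (nat_lit 608) (nat_lit 777552725) (nat_lit 200) (nat_lit 5) (nat_lit 207) (nat_lit 5) (nat_lit 208) (nat_lit 5) (nat_lit 628) (nat_lit 556) (nat_lit 376)) (XT.nd (nat_lit 78) (nat_lit 0) (nat_lit 0) (XT.lf (nat_lit 0) (nat_lit 1643082554) (nat_lit 456) (nat_lit 1421300749) (nat_lit 532) (nat_lit 15804785947) (nat_lit 193) (nat_lit 5) (nat_lit 199) (nat_lit 5) (nat_lit 200) (nat_lit 5) (nat_lit 629) (nat_lit 556) (nat_lit 375)) (XT.lf (nat_lit 0) (nat_lit 7065715993) (nat_lit 532) (nat_lit 6185665056) (nat_lit 76) (nat_lit 5844141105) (nat_lit 193) (nat_lit 5) (nat_lit 200) (nat_lit 5) (nat_lit 194) (nat_lit 5) (nat_lit 630) (nat_lit 556) (nat_lit 374)))) (XT.nd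 (nat_lit 156) (nat_lit 988) (nat_lit 0) (XT.nd (nat_lit 78) (nat_lit 0) (nat_lit 0) (XT.lf (nat_lit 0) (nat_lit 5121970696) (nat_lit 456) (nat_lit 6059822060) (nat_lit 532) (nat_lit 8143915794) (nat_lit 187) (nat_lit 5) (nat_lit 193) (nat_lit 5) (nat_lit 194) (nat_lit 5) (nat_lit 631) (nat_lit 556) (nat_lit 373)) (XT.lf (nat_lit 0) (nat_lit 15422366919) (nat_lit 532) (nat_lit 2840036271) (nat_lit 76) (nat_lit 1297252733) (nat_lit 187) (nat_lit 5) (nat_lit 194) (nat_lit 5) (nat_lit 188) (nat_lit 5) (nat_lit 632) (nat_lit 556) (nat_lit 372))) (XT.nd (nat_lit 78) (nat_lit 456) (nat_lit 0) (XT.lf (nat_lit 0) (nat_lit 40356206) (nat_lit 532) (nat_lit 10981529172) (nat_lit 76) (nat_lit 8774599699) (nat_lit 180) (nat_lit 5) (nat_lit 187) (nat_lit 5) (nat_lit 181) (nat_lit 5) (nat_lit 633) (nat_lit 556) (nat_lit 371)) (XT.lf (nat_lit 0) (nat_lit 673965272) (nat_lit 456) (nat_lit 3588095523) (nat_lit 532) (nat_lit 15775125698) (nat_lit 174) (nat_lit 5) (nat_lit 180) (nat_lit 5)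 (nat_lit 181) (nat_lit 5) (nat_lit 634) (nat_lit 556) (nat_lit 370))))))))
noncomputable def xc167 : XT := (XT.nd (nat_lit 75348) (nat_lit 0) (nat_lit 26296) (XT.nd (nat_lit 936) (nat_lit 2128) (nat_lit 0) (XT.nd (nat_lit 468) (nat_lit 1520) (nat_lit 0) (XT.nd (nat_lit 234) (nat_lit 912) (nat_lit 0) (XT.nd (nat_lit 78) (nat_lit 380) (nat_lit 0) (XT.lf (nat_lit 0) (nat_lit 8660662114) (nat_lit 532) (nat_lit 7607503806) (nat_lit 76) (nat_lit 4012687472) (nat_lit 174) (nat_lit 5) (nat_lit 181) (nat_lit 5) (nat_lit 175) (nat_lit 5) (nat_lit 635) (nat_lit 556) (nat_lit 369)) (XT.nd (nat_lit 78) (nat_lit 0) (nat_lit 0) (XT.lf (nat_lit 0) (nat_lit 4406295578) (nat_lit 380) (nat_lit 8785809392) (nat_lit 456) (nat_lit 7336391963) (nat_lit 169) (nat_lit 5) (nat_lit 174) (nat_lit 5) (nat_lit 175) (nat_lit 5) (nat_lit 636) (nat_lit 556) (nat_lit 368)) (XT.lf (nat_lit 0) (nat_lit 16752505913) (nat_lit 380) (nat_lit 1105295574) (nat_lit 456) (nat_lit 2922420044) (nat_lit 169) (nat_lit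 5) (nat_lit 174) (nat_lit 5) (nat_lit 175) (nat_lit 5) (nat_lit 637) (nat_lit 556) (nat_lit 367)))) (XT.nd (nat_lit 78) (nat_lit 380) (nat_lit 0) (XT.lf (nat_lit 0) (nat_lit 1650400002) (nat_lit 532) (nat_lit 12682256185) (nat_lit 76) (nat_lit 6702294171) (nat_lit 162) (nat_lit 5) (nat_lit 169) (nat_lit 5) (nat_lit 163) (nat_lit 5) (nat_lit 638) (nat_lit 556) (nat_lit 366)) (XT.nd (nat_lit 78) (nat_lit 380) (nat_lit 0) (XT.lf (nat_lit 0) (nat_lit 6302830518) (nat_lit 532) (nat_lit 296697516) (nat_lit 76) (nat_lit 14694314321) (nat_lit 162) (nat_lit 5) (nat_lit 169) (nat_lit 5) (nat_lit 163) (nat_lit 5) (nat_lit 639) (nat_lit 556) (nat_lit 365)) (XT.lf (nat_lit 0) (nat_lit 11131143447) (nat_lit 456) (nat_lit 9075641695) (nat_lit 76) (nat_lit 1349471002) (nat_lit 157) (nat_lit 5) (nat_lit 163) (nat_lit 5) (nat_lit 158) (nat_lit 5) (nat_lit 640) (nat_lit 556) (nat_lit 364))))) (XT.nd (nat_lit 234) (nat_lit 684) (nat_lit 0) (XT.nd (nat_lit 78) (nat_lit 456) (nat_lit 0) (XT.lf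 (nat_lit 0) (nat_lit 3687504931) (nat_lit 380) (nat_lit 12431081247) (nat_lit 456) (nat_lit 5704081378) (nat_lit 152) (nat_lit 5) (nat_lit 157) (nat_lit 5) (nat_lit 158) (nat_lit 5) (nat_lit 641) (nat_lit 556) (nat_lit 363)) (XT.nd (nat_lit 78) (nat_lit 456) (nat_lit 0) (XT.lf (nat_lit 0) (nat_lit 16818253186) (nat_lit 380) (nat_lit 4441408667) (nat_lit 456) (nat_lit 833668264) (nat_lit 152) (nat_lit 5) (nat_lit 157) (nat_lit 5) (nat_lit 158) (nat_lit 5) (nat_lit 642) (nat_lit 556) (nat_lit 362)) (XT.lf (nat_lit 0) (nat_lit 4148922889) (nat_lit 456) (nat_lit 14484027247) (nat_lit 76) (nat_lit 3734539742) (nat_lit 146) (nat_lit 5) (nat_lit 152) (nat_lit 5) (nat_lit 147) (nat_lit 5) (nat_lit 643) (nat_lit 556) (nat_lit 361)))) (XT.nd (nat_lit 78) (nat_lit 684) (nat_lit 0) (XT.lf (nat_lit 0) (nat_lit 9278177013) (nat_lit 456) (nat_lit 1315527299) (nat_lit 76) (nat_lit 12052155403) (nat_lit 146) (nat_lit 5) (nat_lit 152) (nat_lit 5) (nat_lit 147) (nat_lit 5) (nat_lit 644)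 (nat_lit 556) (nat_lit 360)) (XT.nd (nat_lit 78) (nat_lit 304) (nat_lit 0) (XT.lf (nat_lit 0) (nat_lit 12266820512) (nat_lit 380) (nat_lit 2316092255) (nat_lit 456) (nat_lit 8345426809) (nat_lit 141) (nat_lit 5) (nat_lit 146) (nat_lit 5) (nat_lit 147) (nat_lit 5) (nat_lit 645) (nat_lit 556) (nat_lit 359)) (XT.lf (nat_lit 0) (nat_lit 2910238209) (nat_lit 304) (nat_lit 17144361287) (nat_lit 380) (nat_lit 3160652960) (nat_lit 137) (nat_lit 5) (nat_lit 141) (nat_lit 5) (nat_lit 142) (nat_lit 5) (nat_lit 646) (nat_lit 556) (nat_lit 358)))))) (XT.nd (nat_lit 468) (nat_lit 988) (nat_lit 0) (XT.nd (nat_lit 234) (nat_lit 684) (nat_lit 0) (XT.nd (nat_lit 78) (nat_lit 380) (nat_lit 0) (XT.lf (nat_lit 0) (nat_lit 2180579545) (nat_lit 380) (nat_lit 6648616136) (nat_lit 76) (nat_lit 14676818738) (nat_lit 136) (nat_lit 5) (nat_lit 141) (nat_lit 5) (nat_lit 137) (nat_lit 5) (nat_lit 647) (nat_lit 556) (nat_lit 357)) (XT.nd (nat_lit 78) (nat_lit 0) (nat_lit 0) (XT.lf (nat_lit 0) (nat_lit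 7346062214) (nat_lit 380) (nat_lit 281432833) (nat_lit 456) (nat_lit 16173855662) (nat_lit 131) (nat_lit 5) (nat_lit 136) (nat_lit 5) (nat_lit 137) (nat_lit 5) (nat_lit 648) (nat_lit 556) (nat_lit 356)) (XT.lf (nat_lit 0) (nat_lit 13276523244) (nat_lit 456) (nat_lit 2456319469) (nat_lit 76) (nat_lit 8367888029) (nat_lit 131) (nat_lit 5) (nat_lit 137) (nat_lit 5) (nat_lit 132) (nat_lit 5) (nat_lit 649) (nat_lit 556) (nat_lit 355)))) (XT.nd (nat_lit 78) (nat_lit 380) (nat_lit 0) (XT.lf (nat_lit 0) (nat_lit 11967624643) (nat_lit 304) (nat_lit 7144083452) (nat_lit 380) (nat_lit 5292927257) (nat_lit 127) (nat_lit 5) (nat_lit 131) (nat_lit 5) (nat_lit 132) (nat_lit 5) (nat_lit 650) (nat_lit 556) (nat_lit 354)) (XT.nd (nat_lit 78) (nat_lit 0) (nat_lit 0) (XT.lf (nat_lit 0) (nat_lit 378374020) (nat_lit 380) (nat_lit 22711825648) (nat_lit 76) (nat_lit 1623694098) (nat_lit 122) (nat_lit 5) (nat_lit 127) (nat_lit 5) (nat_lit 123) (nat_lit 5) (nat_lit 651) (nat_lit 556) (nat_lit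 353)) (XT.lf (nat_lit 0) (nat_lit 6217282391) (nat_lit 380) (nat_lit 8222222359) (nat_lit 76) (nat_lit 10586632275) (nat_lit 122) (nat_lit 5) (nat_lit 127) (nat_lit 5) (nat_lit 123) (nat_lit 5) (nat_lit 652) (nat_lit 556) (nat_lit 352))))) (XT.nd (nat_lit 234) (nat_lit 380) (nat_lit 0) (XT.nd (nat_lit 78) (nat_lit 304) (nat_lit 0) (XT.lf (nat_lit 0) (nat_lit 6634228519) (nat_lit 304) (nat_lit 5575602169) (nat_lit 380) (nat_lit 13134057682) (nat_lit 118) (nat_lit 5) (nat_lit 122) (nat_lit 5) (nat_lit 123) (nat_lit 5) (nat_lit 653) (nat_lit 556) (nat_lit 351)) (XT.nd (nat_lit 78) (nat_lit 304) (nat_lit 0) (XT.lf (nat_lit 0) (nat_lit 18394092939) (nat_lit 380) (nat_lit 3800482054) (nat_lit 76) (nat_lit 3471982939) (nat_lit 118) (nat_lit 5) (nat_lit 123) (nat_lit 5) (nat_lit 119) (nat_lit 5) (nat_lit 654) (nat_lit 556) (nat_lit 350)) (XT.lf (nat_lit 0) (nat_lit 11511133813) (nat_lit 304) (nat_lit 13296511517) (nat_lit 380) (nat_lit 1185923898) (nat_lit 114) (nat_lit 5) (nat_lit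 118) (nat_lit 5) (nat_lit 119) (nat_lit 5) (nat_lit 655) (nat_lit 556) (nat_lit 349)))) (XT.nd (nat_lit 73554) (nat_lit 0) (nat_lit 32300) (XT.nd (nat_lit 73476) (nat_lit 0) (nat_lit 32300) (XT.lf (nat_lit 0) (nat_lit 822084462) (nat_lit 304) (nat_lit 4159362116) (nat_lit 380) (nat_lit 21344523076) (nat_lit 109) (nat_lit 5) (nat_lit 113) (nat_lit 5) (nat_lit 114) (nat_lit 5) (nat_lit 656) (nat_lit 556) (nat_lit 348)) (XT.lf (nat_lit 0) (nat_lit 2295628545) (nat_lit 1596) (nat_lit 1119356145) (nat_lit 1596) (nat_lit 1119356145) (nat_lit 534) (nat_lit 3) (nat_lit 555) (nat_lit 3) (nat_lit 555) (nat_lit 5) (nat_lit 557) (nat_lit 557) (nat_lit 446))) (XT.nd (nat_lit 78) (nat_lit 0) (nat_lit 76) (XT.lf (nat_lit 76) (nat_lit 2240812199) (nat_lit 0) (nat_lit 3290624316) (nat_lit 1596) (nat_lit 3609895417) (nat_lit 535) (nat_lit 5) (nat_lit 534) (nat_lit 3) (nat_lit 555) (nat_lit 5) (nat_lit 558) (nat_lit 557) (nat_lit 445)) (XT.lf (nat_lit 0) (nat_lit 6484536540) (nat_lit 1520)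 (nat_lit 2389501896) (nat_lit 1596) (nat_lit 341518386) (nat_lit 535) (nat_lit 5) (nat_lit 555) (nat_lit 5) (nat_lit 556) (nat_lit 5) (nat_lit 559) (nat_lit 557) (nat_lit 444))))))) (XT.nd (nat_lit 936) (nat_lit 4560) (nat_lit 0) (XT.nd (nat_lit 468) (nat_lit 0) (nat_lit 76) (XT.nd (nat_lit 234) (nat_lit 0) (nat_lit 0) (XT.nd (nat_lit 78) (nat_lit 1520) (nat_lit 0) (XT.lf (nat_lit 76) (nat_lit 2206662579) (nat_lit 0) (nat_lit 5263527994) (nat_lit 1596) (nat_lit 1820809685) (nat_lit 536) (nat_lit 5) (nat_lit 535) (nat_lit 5) (nat_lit 556) (nat_lit 5) (nat_lit 560) (nat_lit 557) (nat_lit 443)) (XT.nd (nat_lit 78) (nat_lit 1520) (nat_lit 0) (XT.lf (nat_lit 76) (nat_lit 6914998800) (nat_lit 0) (nat_lit 1554331218) (nat_lit 1596) (nat_lit 898750912) (nat_lit 536) (nat_lit 5) (nat_lit 535) (nat_lit 5) (nat_lit 556) (nat_lit 5) (nat_lit 561) (nat_lit 557) (nat_lit 442)) (XT.lf (nat_lit 0) (nat_lit 48720835) (nat_lit 1596) (nat_lit 7173139942) (nat_lit 1672) (nat_lit 2224690294)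 (nat_lit 515) (nat_lit 5) (nat_lit 536) (nat_lit 5) (nat_lit 537) (nat_lit 5) (nat_lit 562) (nat_lit 557) (nat_lit 441)))) (XT.nd (nat_lit 78) (nat_lit 0) (nat_lit 76) (XT.lf (nat_lit 0) (nat_lit 1008422748) (nat_lit 1596) (nat_lit 2427546508) (nat_lit 1672) (nat_lit 6090399837) (nat_lit 515) (nat_lit 5) (nat_lit 536) (nat_lit 5) (nat_lit 537) (nat_lit 5) (nat_lit 563) (nat_lit 557) (nat_lit 440)) (XT.nd (nat_lit 78) (nat_lit 0) (nat_lit 0) (XT.lf (nat_lit 0) (nat_lit 1984899540) (nat_lit 1596) (nat_lit 7178327143) (nat_lit 1672) (nat_lit 444608696) (nat_lit 516) (nat_lit 5) (nat_lit 537) (nat_lit 5) (nat_lit 538) (nat_lit 5) (nat_lit 564) (nat_lit 557) (nat_lit 439)) (XT.lf (nat_lit 0) (nat_lit 2999311024) (nat_lit 1596) (nat_lit 2309620708) (nat_lit 1672) (nat_lit 4381634612) (nat_lit 516) (nat_lit 5) (nat_lit 537) (nat_lit 5) (nat_lit 538) (nat_lit 5) (nat_lit 565) (nat_lit 557) (nat_lit 438))))) (XT.nd (nat_lit 234) (nat_lit 0) (nat_lit 152) (XT.nd (nat_lit 78) (nat_lit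 0) (nat_lit 76) (XT.lf (nat_lit 76) (nat_lit 2679083795) (nat_lit 0) (nat_lit 1351980542) (nat_lit 1672) (nat_lit 5743949902) (nat_lit 517) (nat_lit 5) (nat_lit 516) (nat_lit 5) (nat_lit 538) (nat_lit 5) (nat_lit 566) (nat_lit 557) (nat_lit 437)) (XT.nd (nat_lit 78) (nat_lit 0) (nat_lit 0) (XT.lf (nat_lit 0) (nat_lit 5096507788) (nat_lit 1596) (nat_lit 2092384346) (nat_lit 1672) (nat_lit 2672001177) (nat_lit 517) (nat_lit 5) (nat_lit 538) (nat_lit 5) (nat_lit 539) (nat_lit 5) (nat_lit 567) (nat_lit 557) (nat_lit 436)) (XT.lf (nat_lit 76) (nat_lit 3029379158) (nat_lit 0) (nat_lit 3162921474) (nat_lit 1672) (nat_lit 3756011775) (nat_lit 518) (nat_lit 5) (nat_lit 517) (nat_lit 5) (nat_lit 539) (nat_lit 5) (nat_lit 568) (nat_lit 557) (nat_lit 435)))) (XT.nd (nat_lit 78) (nat_lit 0) (nat_lit 0) (XT.lf (nat_lit 0) (nat_lit 7311034059) (nat_lit 1596) (nat_lit 1774457810) (nat_lit 1672) (nat_lit 951970711) (nat_lit 518) (nat_lit 5) (nat_lit 539) (nat_lit 5) (nat_lit 540) (nat_lit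 5) (nat_lit 569) (nat_lit 557) (nat_lit 434)) (XT.nd (nat_lit 78) (nat_lit 0) (nat_lit 0) (XT.lf (nat_lit 76) (nat_lit 3484940536) (nat_lit 0) (nat_lit 4991916296) (nat_lit 1672) (nat_lit 1651047761) (nat_lit 519) (nat_lit 5) (nat_lit 518) (nat_lit 5) (nat_lit 540) (nat_lit 5) (nat_lit 570) (nat_lit 557) (nat_lit 433)) (XT.lf (nat_lit 76) (nat_lit 8860938092) (nat_lit 0) (nat_lit 798394838) (nat_lit 1672) (nat_lit 560958844) (nat_lit 519) (nat_lit 5) (nat_lit 518) (nat_lit 5) (nat_lit 540) (nat_lit 5) (nat_lit 571) (nat_lit 557) (nat_lit 432)))))) (XT.nd (nat_lit 468) (nat_lit 3192) (nat_lit 0) (XT.nd (nat_lit 234) (nat_lit 0) (nat_lit 76) (XT.nd (nat_lit 78) (nat_lit 0) (nat_lit 0) (XT.lf (nat_lit 0) (nat_lit 574605650) (nat_lit 1672) (nat_lit 6270068716) (nat_lit 1748) (nat_lit 3469165752) (nat_lit 497) (nat_lit 5) (nat_lit 519) (nat_lit 5) (nat_lit 520) (nat_lit 5) (nat_lit 572) (nat_lit 557) (nat_lit 431)) (XT.nd (nat_lit 78) (nat_lit 0) (nat_lit 76) (XT.lf (nat_lit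 0) (nat_lit 1721830461) (nat_lit 1672) (nat_lit 857711465) (nat_lit 1748) (nat_lit 7829717028) (nat_lit 497) (nat_lit 5) (nat_lit 519) (nat_lit 5) (nat_lit 520) (nat_lit 5) (nat_lit 573) (nat_lit 557) (nat_lit 430)) (XT.lf (nat_lit 0) (nat_lit 2916662483) (nat_lit 1672) (nat_lit 5806074563) (nat_lit 1748) (nat_lit 1783358699) (nat_lit 498) (nat_lit 5) (nat_lit 520) (nat_lit 5) (nat_lit 521) (nat_lit 5) (nat_lit 574) (nat_lit 557) (nat_lit 429)))) (XT.nd (nat_lit 78) (nat_lit 0) (nat_lit 76) (XT.lf (nat_lit 0) (nat_lit 4140900190) (nat_lit 1672) (nat_lit 254341609) (nat_lit 1748) (nat_lit 6209520070) (nat_lit 498) (nat_lit 5) (nat_lit 520) (nat_lit 5) (nat_lit 521) (nat_lit 5) (nat_lit 575) (nat_lit 557) (nat_lit 428)) (XT.nd (nat_lit 78) (nat_lit 0) (nat_lit 0) (XT.lf (nat_lit 0) (nat_lit 5408478226) (nat_lit 1672) (nat_lit 5238034177) (nat_lit 1748) (nat_lit 58514522) (nat_lit 499) (nat_lit 5) (nat_lit 521) (nat_lit 5) (nat_lit 522) (nat_lit 5) (nat_lit 576) (nat_lit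 557) (nat_lit 427)) (XT.lf (nat_lit 76) (nat_lit 462862610) (nat_lit 0) (nat_lit 6255627134) (nat_lit 1748) (nat_lit 4088468572) (nat_lit 500) (nat_lit 5) (nat_lit 499) (nat_lit 5) (nat_lit 522) (nat_lit 5) (nat_lit 577) (nat_lit 557) (nat_lit 426))))) (XT.nd (nat_lit 234) (nat_lit 3344) (nat_lit 0) (XT.nd (nat_lit 78) (nat_lit 0) (nat_lit 76) (XT.lf (nat_lit 76) (nat_lit 6335838607) (nat_lit 0) (nat_lit 1737508314) (nat_lit 1748) (nat_lit 2837211120) (nat_lit 500) (nat_lit 5) (nat_lit 499) (nat_lit 5) (nat_lit 522) (nat_lit 5) (nat_lit 578) (nat_lit 557) (nat_lit 425)) (XT.nd (nat_lit 78) (nat_lit 0) (nat_lit 0) (XT.lf (nat_lit 76) (nat_lit 1295356167) (nat_lit 0) (nat_lit 8170837406) (nat_lit 1748) (nat_lit 1549820907) (nat_lit 501) (nat_lit 5) (nat_lit 500) (nat_lit 5) (nat_lit 523) (nat_lit 5) (nat_lit 579) (nat_lit 557) (nat_lit 424)) (XT.lf (nat_lit 76) (nat_lit 7320234217) (nat_lit 0) (nat_lit 3592867195) (nat_lit 1748) (nat_lit 209957066) (nat_lit 501) (nat_lit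 5) (nat_lit 500) (nat_lit 5) (nat_lit 523) (nat_lit 5) (nat_lit 580) (nat_lit 557) (nat_lit 423)))) (XT.nd (nat_lit 156) (nat_lit 1748) (nat_lit 0) (XT.nd (nat_lit 78) (nat_lit 0) (nat_lit 0) (XT.lf (nat_lit 0) (nat_lit 1147528280) (nat_lit 1748) (nat_lit 8996916659) (nat_lit 76) (nat_lit 1087530741) (nat_lit 478) (nat_lit 5) (nat_lit 501) (nat_lit 5) (nat_lit 479) (nat_lit 5) (nat_lit 581) (nat_lit 557) (nat_lit 422)) (XT.lf (nat_lit 0) (nat_lit 2563359643) (nat_lit 1748) (nat_lit 2935818898) (nat_lit 76) (nat_lit 5843187147) (nat_lit 478) (nat_lit 5) (nat_lit 501) (nat_lit 5) (nat_lit 479) (nat_lit 5) (nat_lit 582) (nat_lit 557) (nat_lit 421))) (XT.nd (nat_lit 78) (nat_lit 0) (nat_lit 0) (XT.lf (nat_lit 0) (nat_lit 3276578599) (nat_lit 1748) (nat_lit 737029454) (nat_lit 1824) (nat_lit 7441235758) (nat_lit 455) (nat_lit 5) (nat_lit 478) (nat_lit 5) (nat_lit 479) (nat_lit 5) (nat_lit 583) (nat_lit 557) (nat_lit 420)) (XT.lf (nat_lit 0) (nat_lit 5524499911) (nat_lit 1824)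 (nat_lit 1956165938) (nat_lit 76) (nat_lit 4088275157) (nat_lit 455) (nat_lit 5) (nat_lit 479) (nat_lit 5) (nat_lit 456) (nat_lit 5) (nat_lit 584) (nat_lit 557) (nat_lit 419))))))))
noncomputable def xc168 : XT := (XT.nd (nat_lit 1950) (nat_lit 8512) (nat_lit 0) (XT.nd (nat_lit 936) (nat_lit 5320) (nat_lit 0) (XT.nd (nat_lit 468) (nat_lit 2508) (nat_lit 0) (XT.nd (nat_lit 234) (nat_lit 1900) (nat_lit 0) (XT.nd (nat_lit 78) (nat_lit 988) (nat_lit 0) (XT.lf (nat_lit 0) (nat_lit 4430735889) (nat_lit 1672) (nat_lit 2653870013) (nat_lit 1748) (nat_lit 4600336549) (nat_lit 433) (nat_lit 5) (nat_lit 455) (nat_lit 5) (nat_lit 456) (nat_lit 5) (nat_lit 585) (nat_lit 557) (nat_lit 418)) (XT.nd (nat_lit 78) (nat_lit 988) (nat_lit 0) (XT.lf (nat_lit 0) (nat_lit 8689425830) (nat_lit 1748) (nat_lit 859016702) (nat_lit 76) (nat_lit 2254553347) (nat_lit 433) (nat_lit 5) (nat_lit 456) (nat_lit 5) (nat_lit 434) (nat_lit 5) (nat_lit 586) (nat_lit 557) (nat_lit 417)) (XT.lf (nat_lit 0) (nat_lit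 5708541154) (nat_lit 988) (nat_lit 4658286140) (nat_lit 1064) (nat_lit 1555775526) (nat_lit 420) (nat_lit 5) (nat_lit 433) (nat_lit 5) (nat_lit 434) (nat_lit 5) (nat_lit 587) (nat_lit 557) (nat_lit 416)))) (XT.nd (nat_lit 78) (nat_lit 912) (nat_lit 0) (XT.lf (nat_lit 0) (nat_lit 29069982) (nat_lit 988) (nat_lit 11680696648) (nat_lit 76) (nat_lit 334906421) (nat_lit 407) (nat_lit 5) (nat_lit 420) (nat_lit 5) (nat_lit 408) (nat_lit 5) (nat_lit 588) (nat_lit 557) (nat_lit 415)) (XT.nd (nat_lit 78) (nat_lit 912) (nat_lit 0) (XT.lf (nat_lit 0) (nat_lit 1683770578) (nat_lit 988) (nat_lit 5065105312) (nat_lit 76) (nat_lit 5418925348) (nat_lit 407) (nat_lit 5) (nat_lit 420) (nat_lit 5) (nat_lit 408) (nat_lit 5) (nat_lit 589) (nat_lit 557) (nat_lit 414)) (XT.lf (nat_lit 0) (nat_lit 1692113544) (nat_lit 912) (nat_lit 1676854805) (nat_lit 988) (nat_lit 8924477557) (nat_lit 395) (nat_lit 5) (nat_lit 407) (nat_lit 5) (nat_lit 408) (nat_lit 5) (nat_lit 590) (nat_lit 557) (nat_lit 413)))))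 (XT.nd (nat_lit 234) (nat_lit 1672) (nat_lit 0) (XT.nd (nat_lit 78) (nat_lit 836) (nat_lit 0) (XT.lf (nat_lit 0) (nat_lit 5131391058) (nat_lit 988) (nat_lit 3803781304) (nat_lit 76) (nat_lit 3485562633) (nat_lit 395) (nat_lit 5) (nat_lit 408) (nat_lit 5) (nat_lit 396) (nat_lit 5) (nat_lit 591) (nat_lit 557) (nat_lit 412)) (XT.nd (nat_lit 78) (nat_lit 0) (nat_lit 0) (XT.lf (nat_lit 0) (nat_lit 3147080646) (nat_lit 836) (nat_lit 3800386243) (nat_lit 912) (nat_lit 5602736788) (nat_lit 384) (nat_lit 5) (nat_lit 395) (nat_lit 5) (nat_lit 396) (nat_lit 5) (nat_lit 592) (nat_lit 557) (nat_lit 411)) (XT.lf (nat_lit 0) (nat_lit 8821932376) (nat_lit 912) (nat_lit 2415717688) (nat_lit 76) (nat_lit 1444172176) (nat_lit 384) (nat_lit 5) (nat_lit 396) (nat_lit 5) (nat_lit 385) (nat_lit 5) (nat_lit 593) (nat_lit 557) (nat_lit 410)))) (XT.nd (nat_lit 78) (nat_lit 836) (nat_lit 0) (XT.lf (nat_lit 0) (nat_lit 4735643184) (nat_lit 836) (nat_lit 6041456243) (nat_lit 912) (nat_lit 2038111334)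 (nat_lit 373) (nat_lit 5) (nat_lit 384) (nat_lit 5) (nat_lit 385) (nat_lit 5) (nat_lit 594) (nat_lit 557) (nat_lit 409)) (XT.nd (nat_lit 78) (nat_lit 836) (nat_lit 0) (XT.lf (nat_lit 0) (nat_lit 12050127466) (nat_lit 836) (nat_lit 724917235) (nat_lit 912) (nat_lit 176150650) (nat_lit 373) (nat_lit 5) (nat_lit 384) (nat_lit 5) (nat_lit 385) (nat_lit 5) (nat_lit 595) (nat_lit 557) (nat_lit 408)) (XT.lf (nat_lit 0) (nat_lit 1761018885) (nat_lit 836) (nat_lit 6637674070) (nat_lit 76) (nat_lit 4689773305) (nat_lit 362) (nat_lit 5) (nat_lit 373) (nat_lit 5) (nat_lit 363) (nat_lit 5) (nat_lit 596) (nat_lit 557) (nat_lit 407)))))) (XT.nd (nat_lit 468) (nat_lit 2888) (nat_lit 0) (XT.nd (nat_lit 234) (nat_lit 836) (nat_lit 0) (XT.nd (nat_lit 78) (nat_lit 760) (nat_lit 0) (XT.lf (nat_lit 0) (nat_lit 724304936) (nat_lit 836) (nat_lit 3013647144) (nat_lit 912) (nat_lit 9490441337) (nat_lit 351) (nat_lit 5) (nat_lit 362) (nat_lit 5) (nat_lit 363) (nat_lit 5) (nat_lit 597) (nat_lit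 557) (nat_lit 406)) (XT.nd (nat_lit 78) (nat_lit 760) (nat_lit 0) (XT.lf (nat_lit 0) (nat_lit 5803297309) (nat_lit 912) (nat_lit 5076004576) (nat_lit 76) (nat_lit 2490841422) (nat_lit 351) (nat_lit 5) (nat_lit 363) (nat_lit 5) (nat_lit 352) (nat_lit 5) (nat_lit 598) (nat_lit 557) (nat_lit 405)) (XT.lf (nat_lit 0) (nat_lit 2500850509) (nat_lit 760) (nat_lit 5433470652) (nat_lit 836) (nat_lit 5579921228) (nat_lit 341) (nat_lit 5) (nat_lit 351) (nat_lit 5) (nat_lit 352) (nat_lit 5) (nat_lit 599) (nat_lit 557) (nat_lit 404)))) (XT.nd (nat_lit 78) (nat_lit 836) (nat_lit 0) (XT.lf (nat_lit 0) (nat_lit 10131362429) (nat_lit 836) (nat_lit 3376283859) (nat_lit 76) (nat_lit 153110820) (nat_lit 341) (nat_lit 5) (nat_lit 352) (nat_lit 5) (nat_lit 342) (nat_lit 5) (nat_lit 600) (nat_lit 557) (nat_lit 403)) (XT.nd (nat_lit 78) (nat_lit 76) (nat_lit 0) (XT.lf (nat_lit 0) (nat_lit 4423064971) (nat_lit 760) (nat_lit 8002530549) (nat_lit 836) (nat_lit 1383543145) (nat_lit 331) (nat_lit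 5) (nat_lit 341) (nat_lit 5) (nat_lit 342) (nat_lit 5) (nat_lit 601) (nat_lit 557) (nat_lit 402)) (XT.lf (nat_lit 0) (nat_lit 806089022) (nat_lit 836) (nat_lit 1553843375) (nat_lit 76) (nat_lit 11600223914) (nat_lit 330) (nat_lit 5) (nat_lit 341) (nat_lit 5) (nat_lit 331) (nat_lit 5) (nat_lit 602) (nat_lit 557) (nat_lit 401))))) (XT.nd (nat_lit 234) (nat_lit 1444) (nat_lit 0) (XT.nd (nat_lit 78) (nat_lit 760) (nat_lit 0) (XT.lf (nat_lit 0) (nat_lit 3074418813) (nat_lit 760) (nat_lit 7637019597) (nat_lit 76) (nat_lit 3401505856) (nat_lit 321) (nat_lit 5) (nat_lit 331) (nat_lit 5) (nat_lit 322) (nat_lit 5) (nat_lit 603) (nat_lit 557) (nat_lit 400)) (XT.nd (nat_lit 78) (nat_lit 0) (nat_lit 0) (XT.lf (nat_lit 0) (nat_lit 395781177) (nat_lit 760) (nat_lit 5010000361) (nat_lit 836) (nat_lit 8862654560) (nat_lit 311) (nat_lit 5) (nat_lit 321) (nat_lit 5) (nat_lit 322) (nat_lit 5) (nat_lit 604) (nat_lit 557) (nat_lit 399)) (XT.lf (nat_lit 0) (nat_lit 7829686698) (nat_lit 836)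 (nat_lit 5751432592) (nat_lit 76) (nat_lit 845001591) (nat_lit 311) (nat_lit 5) (nat_lit 322) (nat_lit 5) (nat_lit 312) (nat_lit 5) (nat_lit 605) (nat_lit 557) (nat_lit 398)))) (XT.nd (nat_lit 156) (nat_lit 760) (nat_lit 0) (XT.nd (nat_lit 78) (nat_lit 0) (nat_lit 0) (XT.lf (nat_lit 0) (nat_lit 2519718647) (nat_lit 684) (nat_lit 7821201318) (nat_lit 760) (nat_lit 4245263781) (nat_lit 302) (nat_lit 5) (nat_lit 311) (nat_lit 5) (nat_lit 312) (nat_lit 5) (nat_lit 606) (nat_lit 557) (nat_lit 397)) (XT.lf (nat_lit 0) (nat_lit 11021973142) (nat_lit 684) (nat_lit 1908441242) (nat_lit 760) (nat_lit 1818474117) (nat_lit 302) (nat_lit 5) (nat_lit 311) (nat_lit 5) (nat_lit 312) (nat_lit 5) (nat_lit 607) (nat_lit 557) (nat_lit 396))) (XT.nd (nat_lit 78) (nat_lit 0) (nat_lit 0) (XT.lf (nat_lit 0) (nat_lit 696141340) (nat_lit 760) (nat_lit 10115058694) (nat_lit 76) (nat_lit 4102605237) (nat_lit 292) (nat_lit 5) (nat_lit 302) (nat_lit 5) (nat_lit 293) (nat_lit 5) (nat_lit 608) (nat_lit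 557) (nat_lit 395)) (XT.lf (nat_lit 0) (nat_lit 3264228938) (nat_lit 760) (nat_lit 1573222571) (nat_lit 76) (nat_lit 10243779164) (nat_lit 292) (nat_lit 5) (nat_lit 302) (nat_lit 5) (nat_lit 293) (nat_lit 5) (nat_lit 609) (nat_lit 557) (nat_lit 394))))))) (XT.nd (nat_lit 936) (nat_lit 4180) (nat_lit 0) (XT.nd (nat_lit 468) (nat_lit 1748) (nat_lit 0) (XT.nd (nat_lit 234) (nat_lit 1292) (nat_lit 0) (XT.nd (nat_lit 78) (nat_lit 684) (nat_lit 0) (XT.lf (nat_lit 0) (nat_lit 5928914896) (nat_lit 684) (nat_lit 8037606881) (nat_lit 76) (nat_lit 1284579332) (nat_lit 284) (nat_lit 5) (nat_lit 293) (nat_lit 5) (nat_lit 285) (nat_lit 5) (nat_lit 610) (nat_lit 557) (nat_lit 393)) (XT.nd (nat_lit 78) (nat_lit 0) (nat_lit 0) (XT.lf (nat_lit 0) (nat_lit 738529058) (nat_lit 684) (nat_lit 7945825839) (nat_lit 760) (nat_lit 6739266084) (nat_lit 275) (nat_lit 5) (nat_lit 284) (nat_lit 5) (nat_lit 285) (nat_lit 5) (nat_lit 611) (nat_lit 557) (nat_lit 392)) (XT.lf (nat_lit 0) (nat_lit 9787055752)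 (nat_lit 684) (nat_lit 1751904231) (nat_lit 760) (nat_lit 4059751350) (nat_lit 275) (nat_lit 5) (nat_lit 284) (nat_lit 5) (nat_lit 285) (nat_lit 5) (nat_lit 612) (nat_lit 557) (nat_lit 391)))) (XT.nd (nat_lit 78) (nat_lit 684) (nat_lit 0) (XT.lf (nat_lit 0) (nat_lit 3240070985) (nat_lit 608) (nat_lit 11251567118) (nat_lit 684) (nat_lit 1284846955) (nat_lit 267) (nat_lit 5) (nat_lit 275) (nat_lit 5) (nat_lit 276) (nat_lit 5) (nat_lit 613) (nat_lit 557) (nat_lit 390)) (XT.nd (nat_lit 78) (nat_lit 608) (nat_lit 0) (XT.lf (nat_lit 0) (nat_lit 1566492248) (nat_lit 684) (nat_lit 3439396807) (nat_lit 76) (nat_lit 10950901506) (nat_lit 266) (nat_lit 5) (nat_lit 275) (nat_lit 5) (nat_lit 267) (nat_lit 5) (nat_lit 614) (nat_lit 557) (nat_lit 389)) (XT.lf (nat_lit 0) (nat_lit 4495646172) (nat_lit 684) (nat_lit 10252566826) (nat_lit 76) (nat_lit 1391560598) (nat_lit 258) (nat_lit 5) (nat_lit 267) (nat_lit 5) (nat_lit 259) (nat_lit 5) (nat_lit 615) (nat_lit 557) (nat_lit 388)))))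 (XT.nd (nat_lit 234) (nat_lit 608) (nat_lit 0) (XT.nd (nat_lit 78) (nat_lit 1140) (nat_lit 0) (XT.lf (nat_lit 0) (nat_lit 7530397977) (nat_lit 684) (nat_lit 924230657) (nat_lit 76) (nat_lit 7870848455) (nat_lit 258) (nat_lit 5) (nat_lit 267) (nat_lit 5) (nat_lit 259) (nat_lit 5) (nat_lit 616) (nat_lit 557) (nat_lit 387)) (XT.nd (nat_lit 78) (nat_lit 608) (nat_lit 0) (XT.lf (nat_lit 0) (nat_lit 8692980385) (nat_lit 532) (nat_lit 1980118958) (nat_lit 608) (nat_lit 5840851293) (nat_lit 251) (nat_lit 5) (nat_lit 258) (nat_lit 5) (nat_lit 259) (nat_lit 5) (nat_lit 617) (nat_lit 557) (nat_lit 386)) (XT.lf (nat_lit 0) (nat_lit 1790625191) (nat_lit 608) (nat_lit 12126821980) (nat_lit 684) (nat_lit 2787971686) (nat_lit 243) (nat_lit 5) (nat_lit 251) (nat_lit 5) (nat_lit 252) (nat_lit 5) (nat_lit 618) (nat_lit 557) (nat_lit 385)))) (XT.nd (nat_lit 78) (nat_lit 532) (nat_lit 0) (XT.lf (nat_lit 0) (nat_lit 378577988) (nat_lit 684) (nat_lit 5226611080) (nat_lit 76) (nat_lit 11294348308)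 (nat_lit 242) (nat_lit 5) (nat_lit 251) (nat_lit 5) (nat_lit 243) (nat_lit 5) (nat_lit 619) (nat_lit 557) (nat_lit 384)) (XT.nd (nat_lit 78) (nat_lit 0) (nat_lit 0) (XT.lf (nat_lit 0) (nat_lit 3599816514) (nat_lit 608) (nat_lit 12417105702) (nat_lit 76) (nat_lit 1079674693) (nat_lit 235) (nat_lit 5) (nat_lit 243) (nat_lit 5) (nat_lit 236) (nat_lit 5) (nat_lit 620) (nat_lit 557) (nat_lit 383)) (XT.lf (nat_lit 0) (nat_lit 6949108649) (nat_lit 608) (nat_lit 2491370427) (nat_lit 76) (nat_lit 7855846953) (nat_lit 235) (nat_lit 5) (nat_lit 243) (nat_lit 5) (nat_lit 236) (nat_lit 5) (nat_lit 621) (nat_lit 557) (nat_lit 382)))))) (XT.nd (nat_lit 468) (nat_lit 2052) (nat_lit 0) (XT.nd (nat_lit 234) (nat_lit 1064) (nat_lit 0) (XT.nd (nat_lit 78) (nat_lit 532) (nat_lit 0) (XT.lf (nat_lit 0) (nat_lit 7722708224) (nat_lit 532) (nat_lit 2684194638) (nat_lit 608) (nat_lit 7092317499) (nat_lit 228) (nat_lit 5) (nat_lit 235) (nat_lit 5) (nat_lit 236) (nat_lit 5) (nat_lit 622) (nat_lit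 557) (nat_lit 381)) (XT.nd (nat_lit 78) (nat_lit 0) (nat_lit 0) (XT.lf (nat_lit 0) (nat_lit 435756005) (nat_lit 532) (nat_lit 13536523329) (nat_lit 608) (nat_lit 3733125652) (nat_lit 221) (nat_lit 5) (nat_lit 228) (nat_lit 5) (nat_lit 229) (nat_lit 5) (nat_lit 623) (nat_lit 557) (nat_lit 380)) (XT.lf (nat_lit 0) (nat_lit 10955322547) (nat_lit 532) (nat_lit 6728450723) (nat_lit 608) (nat_lit 230444751) (nat_lit 221) (nat_lit 5) (nat_lit 228) (nat_lit 5) (nat_lit 229) (nat_lit 5) (nat_lit 624) (nat_lit 557) (nat_lit 379)))) (XT.nd (nat_lit 78) (nat_lit 456) (nat_lit 0) (XT.lf (nat_lit 0) (nat_lit 3314980046) (nat_lit 608) (nat_lit 14556282505) (nat_lit 76) (nat_lit 255181140) (nat_lit 213) (nat_lit 5) (nat_lit 221) (nat_lit 5) (nat_lit 214) (nat_lit 5) (nat_lit 625) (nat_lit 557) (nat_lit 378)) (XT.nd (nat_lit 78) (nat_lit 456) (nat_lit 0) (XT.lf (nat_lit 0) (nat_lit 7011523038) (nat_lit 608) (nat_lit 3995662580) (nat_lit 76) (nat_lit 7334032747) (nat_lit 213) (nat_lit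 5) (nat_lit 221) (nat_lit 5) (nat_lit 214) (nat_lit 5) (nat_lit 626) (nat_lit 557) (nat_lit 377)) (XT.lf (nat_lit 0) (nat_lit 6854879934) (nat_lit 456) (nat_lit 3963511699) (nat_lit 532) (nat_lit 7741169850) (nat_lit 207) (nat_lit 5) (nat_lit 213) (nat_lit 5) (nat_lit 214) (nat_lit 5) (nat_lit 627) (nat_lit 557) (nat_lit 376))))) (XT.nd (nat_lit 234) (nat_lit 988) (nat_lit 0) (XT.nd (nat_lit 78) (nat_lit 1064) (nat_lit 0) (XT.lf (nat_lit 0) (nat_lit 14741256356) (nat_lit 532) (nat_lit 837490709) (nat_lit 76) (nat_lit 3202728054) (nat_lit 207) (nat_lit 5) (nat_lit 214) (nat_lit 5) (nat_lit 208) (nat_lit 5) (nat_lit 628) (nat_lit 557) (nat_lit 375)) (XT.nd (nat_lit 78) (nat_lit 532) (nat_lit 0) (XT.lf (nat_lit 0) (nat_lit 10345438209) (nat_lit 532) (nat_lit 8482670861) (nat_lit 608) (nat_lit 178008157) (nat_lit 200) (nat_lit 5) (nat_lit 207) (nat_lit 5) (nat_lit 208) (nat_lit 5) (nat_lit 629) (nat_lit 557) (nat_lit 374)) (XT.lf (nat_lit 0) (nat_lit 2525833919) (nat_lit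 456) (nat_lit 1200481111) (nat_lit 532) (nat_lit 15508165486) (nat_lit 193) (nat_lit 5) (nat_lit 199) (nat_lit 5) (nat_lit 200) (nat_lit 5) (nat_lit 630) (nat_lit 557) (nat_lit 373)))) (XT.nd (nat_lit 156) (nat_lit 532) (nat_lit 0) (XT.nd (nat_lit 78) (nat_lit 456) (nat_lit 0) (XT.lf (nat_lit 0) (nat_lit 7797483576) (nat_lit 532) (nat_lit 5465904274) (nat_lit 76) (nat_lit 6202177606) (nat_lit 193) (nat_lit 5) (nat_lit 200) (nat_lit 5) (nat_lit 194) (nat_lit 5) (nat_lit 631) (nat_lit 557) (nat_lit 372)) (XT.lf (nat_lit 0) (nat_lit 6062335021) (nat_lit 456) (nat_lit 5927409703) (nat_lit 532) (nat_lit 7710734737) (nat_lit 187) (nat_lit 5) (nat_lit 193) (nat_lit 5) (nat_lit 194) (nat_lit 5) (nat_lit 632) (nat_lit 557) (nat_lit 371))) (XT.nd (nat_lit 78) (nat_lit 532) (nat_lit 0) (XT.lf (nat_lit 0) (nat_lit 16305287502) (nat_lit 532) (nat_lit 2065443295) (nat_lit 76) (nat_lit 1568572958) (nat_lit 187) (nat_lit 5) (nat_lit 194) (nat_lit 5) (nat_lit 188) (nat_lit 5) (nat_lit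 633) (nat_lit 557) (nat_lit 370)) (XT.lf (nat_lit 0) (nat_lit 613554222) (nat_lit 532) (nat_lit 10367575324) (nat_lit 76) (nat_lit 9199783762) (nat_lit 180) (nat_lit 5) (nat_lit 187) (nat_lit 5) (nat_lit 181) (nat_lit 5) (nat_lit 634) (nat_lit 557) (nat_lit 369))))))))
noncomputable def xc169 : XT := (XT.nd (nat_lit 75426) (nat_lit 0) (nat_lit 25916) (XT.nd (nat_lit 936) (nat_lit 2052) (nat_lit 0) (XT.nd (nat_lit 468) (nat_lit 1216) (nat_lit 0) (XT.nd (nat_lit 234) (nat_lit 912) (nat_lit 0) (XT.nd (nat_lit 78) (nat_lit 380) (nat_lit 0) (XT.lf (nat_lit 0) (nat_lit 1515544902) (nat_lit 456) (nat_lit 3398301227) (nat_lit 532) (nat_lit 15512700609) (nat_lit 174) (nat_lit 5) (nat_lit 180) (nat_lit 5) (nat_lit 181) (nat_lit 5) (nat_lit 635) (nat_lit 557) (nat_lit 368)) (XT.nd (nat_lit 78) (nat_lit 380) (nat_lit 0) (XT.lf (nat_lit 0) (nat_lit 9390975665) (nat_lit 532) (nat_lit 6938295439) (nat_lit 76) (nat_lit 4346005779) (nat_lit 174) (nat_lit 5) (nat_lit 181) (nat_lit 5) (nat_lit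 175) (nat_lit 5) (nat_lit 636) (nat_lit 557) (nat_lit 367)) (XT.lf (nat_lit 0) (nat_lit 5310376259) (nat_lit 380) (nat_lit 8697045304) (nat_lit 456) (nat_lit 6920565261) (nat_lit 169) (nat_lit 5) (nat_lit 174) (nat_lit 5) (nat_lit 175) (nat_lit 5) (nat_lit 637) (nat_lit 557) (nat_lit 366)))) (XT.nd (nat_lit 78) (nat_lit 912) (nat_lit 0) (XT.lf (nat_lit 0) (nat_lit 17887511687) (nat_lit 380) (nat_lit 868107097) (nat_lit 456) (nat_lit 2429344385) (nat_lit 169) (nat_lit 5) (nat_lit 174) (nat_lit 5) (nat_lit 175) (nat_lit 5) (nat_lit 638) (nat_lit 557) (nat_lit 365)) (XT.nd (nat_lit 78) (nat_lit 380) (nat_lit 0) (XT.lf (nat_lit 0) (nat_lit 2223941230) (nat_lit 532) (nat_lit 12124858583) (nat_lit 76) (nat_lit 7095991246) (nat_lit 162) (nat_lit 5) (nat_lit 169) (nat_lit 5) (nat_lit 163) (nat_lit 5) (nat_lit 639) (nat_lit 557) (nat_lit 364)) (XT.lf (nat_lit 0) (nat_lit 499053639) (nat_lit 380) (nat_lit 6463008214) (nat_lit 456) (nat_lit 14746947146) (nat_lit 157) (nat_lit 5)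 (nat_lit 162) (nat_lit 5) (nat_lit 163) (nat_lit 5) (nat_lit 640) (nat_lit 557) (nat_lit 363))))) (XT.nd (nat_lit 234) (nat_lit 836) (nat_lit 0) (XT.nd (nat_lit 78) (nat_lit 380) (nat_lit 0) (XT.lf (nat_lit 0) (nat_lit 11880160683) (nat_lit 456) (nat_lit 8458428637) (nat_lit 76) (nat_lit 1638218267) (nat_lit 157) (nat_lit 5) (nat_lit 163) (nat_lit 5) (nat_lit 158) (nat_lit 5) (nat_lit 641) (nat_lit 557) (nat_lit 362)) (XT.nd (nat_lit 78) (nat_lit 0) (nat_lit 0) (XT.lf (nat_lit 0) (nat_lit 4554726145) (nat_lit 380) (nat_lit 12407456405) (nat_lit 456) (nat_lit 5286468969) (nat_lit 152) (nat_lit 5) (nat_lit 157) (nat_lit 5) (nat_lit 158) (nat_lit 5) (nat_lit 642) (nat_lit 557) (nat_lit 361)) (XT.lf (nat_lit 0) (nat_lit 17932531108) (nat_lit 380) (nat_lit 4263328540) (nat_lit 456) (nat_lit 329072965) (nat_lit 152) (nat_lit 5) (nat_lit 157) (nat_lit 5) (nat_lit 158) (nat_lit 5) (nat_lit 643) (nat_lit 557) (nat_lit 360)))) (XT.nd (nat_lit 78) (nat_lit 380) (nat_lit 0) (XT.lf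 (nat_lit 0) (nat_lit 4743062908) (nat_lit 456) (nat_lit 13985602374) (nat_lit 76) (nat_lit 4075908858) (nat_lit 146) (nat_lit 5) (nat_lit 152) (nat_lit 5) (nat_lit 147) (nat_lit 5) (nat_lit 644) (nat_lit 557) (nat_lit 359)) (XT.nd (nat_lit 78) (nat_lit 380) (nat_lit 0) (XT.lf (nat_lit 0) (nat_lit 9964879339) (nat_lit 456) (nat_lit 569185475) (nat_lit 76) (nat_lit 12554647845) (nat_lit 146) (nat_lit 5) (nat_lit 152) (nat_lit 5) (nat_lit 147) (nat_lit 5) (nat_lit 645) (nat_lit 557) (nat_lit 358)) (XT.lf (nat_lit 0) (nat_lit 13279726053) (nat_lit 380) (nat_lit 2091141072) (nat_lit 456) (nat_lit 8006072658) (nat_lit 141) (nat_lit 5) (nat_lit 146) (nat_lit 5) (nat_lit 147) (nat_lit 5) (nat_lit 646) (nat_lit 557) (nat_lit 357)))))) (XT.nd (nat_lit 468) (nat_lit 608) (nat_lit 0) (XT.nd (nat_lit 234) (nat_lit 684) (nat_lit 0) (XT.nd (nat_lit 78) (nat_lit 456) (nat_lit 0) (XT.lf (nat_lit 0) (nat_lit 3739113626) (nat_lit 304) (nat_lit 17209873121) (nat_lit 380) (nat_lit 2720664988)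 (nat_lit 137) (nat_lit 5) (nat_lit 141) (nat_lit 5) (nat_lit 142) (nat_lit 5) (nat_lit 647) (nat_lit 557) (nat_lit 356)) (XT.nd (nat_lit 78) (nat_lit 380) (nat_lit 0) (XT.lf (nat_lit 0) (nat_lit 2711055312) (nat_lit 380) (nat_lit 6019520510) (nat_lit 76) (nat_lit 15235783285) (nat_lit 136) (nat_lit 5) (nat_lit 141) (nat_lit 5) (nat_lit 137) (nat_lit 5) (nat_lit 648) (nat_lit 557) (nat_lit 355)) (XT.lf (nat_lit 0) (nat_lit 8250037802) (nat_lit 380) (nat_lit 12240264) (nat_lit 456) (nat_lit 16005417429) (nat_lit 131) (nat_lit 5) (nat_lit 136) (nat_lit 5) (nat_lit 137) (nat_lit 5) (nat_lit 649) (nat_lit 557) (nat_lit 354)))) (XT.nd (nat_lit 78) (nat_lit 684) (nat_lit 0) (XT.lf (nat_lit 0) (nat_lit 14016580611) (nat_lit 456) (nat_lit 1755492672) (nat_lit 76) (nat_lit 8801144708) (nat_lit 131) (nat_lit 5) (nat_lit 137) (nat_lit 5) (nat_lit 132) (nat_lit 5) (nat_lit 650) (nat_lit 557) (nat_lit 353)) (XT.nd (nat_lit 78) (nat_lit 380) (nat_lit 0) (XT.lf (nat_lit 0) (nat_lit 12951996421)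 (nat_lit 304) (nat_lit 7012005449) (nat_lit 380) (nat_lit 4919288890) (nat_lit 127) (nat_lit 5) (nat_lit 131) (nat_lit 5) (nat_lit 132) (nat_lit 5) (nat_lit 651) (nat_lit 557) (nat_lit 352)) (XT.lf (nat_lit 0) (nat_lit 856519780) (nat_lit 380) (nat_lit 22412054140) (nat_lit 76) (nat_lit 1930151451) (nat_lit 122) (nat_lit 5) (nat_lit 127) (nat_lit 5) (nat_lit 123) (nat_lit 5) (nat_lit 652) (nat_lit 557) (nat_lit 351))))) (XT.nd (nat_lit 234) (nat_lit 304) (nat_lit 0) (XT.nd (nat_lit 78) (nat_lit 304) (nat_lit 0) (XT.lf (nat_lit 0) (nat_lit 6802979293) (nat_lit 380) (nat_lit 7647443256) (nat_lit 76) (nat_lit 11066976166) (nat_lit 122) (nat_lit 5) (nat_lit 127) (nat_lit 5) (nat_lit 123) (nat_lit 5) (nat_lit 653) (nat_lit 557) (nat_lit 350)) (XT.nd (nat_lit 78) (nat_lit 0) (nat_lit 0) (XT.lf (nat_lit 0) (nat_lit 7501273327) (nat_lit 304) (nat_lit 5409827081) (nat_lit 380) (nat_lit 12930490910) (nat_lit 118) (nat_lit 5) (nat_lit 122) (nat_lit 5) (nat_lit 123) (nat_lit 5) (nat_lit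 654) (nat_lit 557) (nat_lit 349)) (XT.lf (nat_lit 0) (nat_lit 19211850717) (nat_lit 380) (nat_lit 3149300788) (nat_lit 76) (nat_lit 3809707364) (nat_lit 118) (nat_lit 5) (nat_lit 123) (nat_lit 5) (nat_lit 119) (nat_lit 5) (nat_lit 655) (nat_lit 557) (nat_lit 348)))) (XT.nd (nat_lit 73632) (nat_lit 0) (nat_lit 31920) (XT.nd (nat_lit 73554) (nat_lit 0) (nat_lit 31920) (XT.lf (nat_lit 0) (nat_lit 12463763245) (nat_lit 304) (nat_lit 13285780158) (nat_lit 380) (nat_lit 754950244) (nat_lit 114) (nat_lit 5) (nat_lit 118) (nat_lit 5) (nat_lit 119) (nat_lit 5) (nat_lit 656) (nat_lit 557) (nat_lit 347)) (XT.lf (nat_lit 0) (nat_lit 3215547417) (nat_lit 1596) (nat_lit 695924935) (nat_lit 1596) (nat_lit 695924935) (nat_lit 534) (nat_lit 3) (nat_lit 555) (nat_lit 3) (nat_lit 555) (nat_lit 5) (nat_lit 558) (nat_lit 558) (nat_lit 444))) (XT.nd (nat_lit 78) (nat_lit 0) (nat_lit 0) (XT.lf (nat_lit 76) (nat_lit 3171399079) (nat_lit 0) (nat_lit 4190155023) (nat_lit 1596) (nat_lit 1927920105)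 (nat_lit 535) (nat_lit 5) (nat_lit 534) (nat_lit 3) (nat_lit 555) (nat_lit 5) (nat_lit 559) (nat_lit 558) (nat_lit 443)) (XT.lf (nat_lit 76) (nat_lit 7833316213) (nat_lit 0) (nat_lit 464392679) (nat_lit 1596) (nat_lit 1068200624) (nat_lit 535) (nat_lit 5) (nat_lit 534) (nat_lit 3) (nat_lit 555) (nat_lit 5) (nat_lit 560) (nat_lit 558) (nat_lit 442))))))) (XT.nd (nat_lit 936) (nat_lit 3116) (nat_lit 0) (XT.nd (nat_lit 468) (nat_lit 1368) (nat_lit 0) (XT.nd (nat_lit 234) (nat_lit 0) (nat_lit 76) (XT.nd (nat_lit 78) (nat_lit 1596) (nat_lit 0) (XT.lf (nat_lit 76) (nat_lit 3152537806) (nat_lit 0) (nat_lit 6120427439) (nat_lit 1596) (nat_lit 170504455) (nat_lit 536) (nat_lit 5) (nat_lit 535) (nat_lit 5) (nat_lit 556) (nat_lit 5) (nat_lit 561) (nat_lit 558) (nat_lit 441)) (XT.nd (nat_lit 78) (nat_lit 0) (nat_lit 76) (XT.lf (nat_lit 0) (nat_lit 727257653) (nat_lit 1596) (nat_lit 1590170971) (nat_lit 1672) (nat_lit 7205221601) (nat_lit 514) (nat_lit 5) (nat_lit 535) (nat_lit 5)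 (nat_lit 536) (nat_lit 5) (nat_lit 562) (nat_lit 558) (nat_lit 440)) (XT.lf (nat_lit 0) (nat_lit 1650918206) (nat_lit 1596) (nat_lit 6379577512) (nat_lit 1672) (nat_lit 1572695098) (nat_lit 515) (nat_lit 5) (nat_lit 536) (nat_lit 5) (nat_lit 537) (nat_lit 5) (nat_lit 563) (nat_lit 558) (nat_lit 439)))) (XT.nd (nat_lit 78) (nat_lit 0) (nat_lit 0) (XT.lf (nat_lit 0) (nat_lit 2598417629) (nat_lit 1596) (nat_lit 1557445253) (nat_lit 1672) (nat_lit 5529375479) (nat_lit 515) (nat_lit 5) (nat_lit 536) (nat_lit 5) (nat_lit 537) (nat_lit 5) (nat_lit 564) (nat_lit 558) (nat_lit 438)) (XT.nd (nat_lit 78) (nat_lit 0) (nat_lit 76) (XT.lf (nat_lit 76) (nat_lit 3393750052) (nat_lit 0) (nat_lit 172834695) (nat_lit 1672) (nat_lit 6202311141) (nat_lit 516) (nat_lit 5) (nat_lit 515) (nat_lit 5) (nat_lit 537) (nat_lit 5) (nat_lit 565) (nat_lit 558) (nat_lit 437)) (XT.lf (nat_lit 0) (nat_lit 4569949263) (nat_lit 1596) (nat_lit 1426528801) (nat_lit 1672) (nat_lit 3857435139) (nat_lit 516)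 (nat_lit 5) (nat_lit 537) (nat_lit 5) (nat_lit 538) (nat_lit 5) (nat_lit 566) (nat_lit 558) (nat_lit 436))))) (XT.nd (nat_lit 234) (nat_lit 1520) (nat_lit 0) (XT.nd (nat_lit 78) (nat_lit 0) (nat_lit 76) (XT.lf (nat_lit 76) (nat_lit 3655836079) (nat_lit 0) (nat_lit 1942874772) (nat_lit 1672) (nat_lit 4341816672) (nat_lit 517) (nat_lit 5) (nat_lit 516) (nat_lit 5) (nat_lit 538) (nat_lit 5) (nat_lit 567) (nat_lit 558) (nat_lit 435)) (XT.nd (nat_lit 78) (nat_lit 0) (nat_lit 0) (XT.lf (nat_lit 0) (nat_lit 6652716678) (nat_lit 1596) (nat_lit 1196174653) (nat_lit 1672) (nat_lit 2179892608) (nat_lit 517) (nat_lit 5) (nat_lit 538) (nat_lit 5) (nat_lit 539) (nat_lit 5) (nat_lit 568) (nat_lit 558) (nat_lit 434)) (XT.lf (nat_lit 76) (nat_lit 4021852691) (nat_lit 0) (nat_lit 3726107840) (nat_lit 1672) (nat_lit 2370444921) (nat_lit 518) (nat_lit 5) (nat_lit 517) (nat_lit 5) (nat_lit 539) (nat_lit 5) (nat_lit 569) (nat_lit 558) (nat_lit 433)))) (XT.nd (nat_lit 78) (nat_lit 1672) (nat_lit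 0) (XT.lf (nat_lit 0) (nat_lit 8857811625) (nat_lit 1596) (nat_lit 864844009) (nat_lit 1672) (nat_lit 487312781) (nat_lit 518) (nat_lit 5) (nat_lit 539) (nat_lit 5) (nat_lit 540) (nat_lit 5) (nat_lit 570) (nat_lit 558) (nat_lit 432)) (XT.nd (nat_lit 78) (nat_lit 1672) (nat_lit 0) (XT.lf (nat_lit 76) (nat_lit 4493524521) (nat_lit 0) (nat_lit 5532060298) (nat_lit 1672) (nat_lit 277066324) (nat_lit 519) (nat_lit 5) (nat_lit 518) (nat_lit 5) (nat_lit 540) (nat_lit 5) (nat_lit 571) (nat_lit 558) (nat_lit 431)) (XT.lf (nat_lit 0) (nat_lit 796649042) (nat_lit 1672) (nat_lit 444039989) (nat_lit 1748) (nat_lit 9156637538) (nat_lit 496) (nat_lit 5) (nat_lit 518) (nat_lit 5) (nat_lit 519) (nat_lit 5) (nat_lit 572) (nat_lit 558) (nat_lit 430)))))) (XT.nd (nat_lit 468) (nat_lit 3192) (nat_lit 0) (XT.nd (nat_lit 234) (nat_lit 0) (nat_lit 76) (XT.nd (nat_lit 78) (nat_lit 0) (nat_lit 0) (XT.lf (nat_lit 0) (nat_lit 1924133626) (nat_lit 1672) (nat_lit 5433182709) (nat_lit 1748) (nat_lit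 3135825278) (nat_lit 497) (nat_lit 5) (nat_lit 519) (nat_lit 5) (nat_lit 520) (nat_lit 5) (nat_lit 573) (nat_lit 558) (nat_lit 429)) (XT.nd (nat_lit 78) (nat_lit 0) (nat_lit 76) (XT.lf (nat_lit 76) (nat_lit 69464344) (nat_lit 0) (nat_lit 2999053600) (nat_lit 1748) (nat_lit 7522470789) (nat_lit 498) (nat_lit 5) (nat_lit 497) (nat_lit 5) (nat_lit 520) (nat_lit 5) (nat_lit 574) (nat_lit 558) (nat_lit 428)) (XT.lf (nat_lit 0) (nat_lit 4264854459) (nat_lit 1672) (nat_lit 4956629656) (nat_lit 1748) (nat_lit 1468730113) (nat_lit 498) (nat_lit 5) (nat_lit 520) (nat_lit 5) (nat_lit 521) (nat_lit 5) (nat_lit 575) (nat_lit 558) (nat_lit 427)))) (XT.nd (nat_lit 78) (nat_lit 0) (nat_lit 0) (XT.lf (nat_lit 76) (nat_lit 696337879) (nat_lit 0) (nat_lit 4796468781) (nat_lit 1748) (nat_lit 5298466464) (nat_lit 499) (nat_lit 5) (nat_lit 498) (nat_lit 5) (nat_lit 521) (nat_lit 5) (nat_lit 576) (nat_lit 558) (nat_lit 426)) (XT.nd (nat_lit 78) (nat_lit 0) (nat_lit 76) (XT.lf (nat_lit 76) (nat_lit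 6517138991) (nat_lit 0) (nat_lit 244993814) (nat_lit 1748) (nat_lit 4131886710) (nat_lit 499) (nat_lit 5) (nat_lit 498) (nat_lit 5) (nat_lit 521) (nat_lit 5) (nat_lit 577) (nat_lit 558) (nat_lit 425)) (XT.lf (nat_lit 76) (nat_lit 1433259695) (nat_lit 0) (nat_lit 6645344468) (nat_lit 1748) (nat_lit 2919784065) (nat_lit 500) (nat_lit 5) (nat_lit 499) (nat_lit 5) (nat_lit 522) (nat_lit 5) (nat_lit 578) (nat_lit 558) (nat_lit 424))))) (XT.nd (nat_lit 234) (nat_lit 1672) (nat_lit 0) (XT.nd (nat_lit 78) (nat_lit 1672) (nat_lit 0) (XT.lf (nat_lit 76) (nat_lit 7404849333) (nat_lit 0) (nat_lit 2031674942) (nat_lit 1748) (nat_lit 1668020168) (nat_lit 500) (nat_lit 5) (nat_lit 499) (nat_lit 5) (nat_lit 522) (nat_lit 5) (nat_lit 579) (nat_lit 558) (nat_lit 423)) (XT.nd (nat_lit 78) (nat_lit 1748) (nat_lit 0) (XT.lf (nat_lit 76) (nat_lit 2283096550) (nat_lit 0) (nat_lit 8555161943) (nat_lit 1748) (nat_lit 374234642) (nat_lit 501) (nat_lit 5) (nat_lit 500) (nat_lit 5) (nat_lit 523)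 (nat_lit 5) (nat_lit 580) (nat_lit 558) (nat_lit 422)) (XT.lf (nat_lit 0) (nat_lit 956062425) (nat_lit 1748) (nat_lit 2918822695) (nat_lit 1824) (nat_lit 7447134579) (nat_lit 477) (nat_lit 5) (nat_lit 500) (nat_lit 5) (nat_lit 501) (nat_lit 5) (nat_lit 581) (nat_lit 558) (nat_lit 421)))) (XT.nd (nat_lit 156) (nat_lit 1748) (nat_lit 0) (XT.nd (nat_lit 78) (nat_lit 0) (nat_lit 0) (XT.lf (nat_lit 0) (nat_lit 2319893976) (nat_lit 1748) (nat_lit 8200016543) (nat_lit 76) (nat_lit 913540334) (nat_lit 478) (nat_lit 5) (nat_lit 501) (nat_lit 5) (nat_lit 479) (nat_lit 5) (nat_lit 582) (nat_lit 558) (nat_lit 420)) (XT.lf (nat_lit 0) (nat_lit 3741504415) (nat_lit 1748) (nat_lit 2036850521) (nat_lit 76) (nat_lit 5768147927) (nat_lit 478) (nat_lit 5) (nat_lit 501) (nat_lit 5) (nat_lit 479) (nat_lit 5) (nat_lit 583) (nat_lit 558) (nat_lit 419))) (XT.nd (nat_lit 78) (nat_lit 0) (nat_lit 0) (XT.lf (nat_lit 0) (nat_lit 4293494369) (nat_lit 1748) (nat_lit 911344804) (nat_lit 1824) (nat_lit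 6456713133) (nat_lit 455) (nat_lit 5) (nat_lit 478) (nat_lit 5) (nat_lit 479) (nat_lit 5) (nat_lit 584) (nat_lit 558) (nat_lit 418)) (XT.lf (nat_lit 0) (nat_lit 6723149608) (nat_lit 1824) (nat_lit 1039594507) (nat_lit 76) (nat_lit 4015646631) (nat_lit 455) (nat_lit 5) (nat_lit 479) (nat_lit 5) (nat_lit 456) (nat_lit 5) (nat_lit 585) (nat_lit 558) (nat_lit 417))))))))
noncomputable def xc170 : XT := (XT.nd (nat_lit 1950) (nat_lit 8512) (nat_lit 0) (XT.nd (nat_lit 936) (nat_lit 5320) (nat_lit 0) (XT.nd (nat_lit 468) (nat_lit 2508) (nat_lit 0) (XT.nd (nat_lit 234) (nat_lit 1900) (nat_lit 0) (XT.nd (nat_lit 78) (nat_lit 988) (nat_lit 0) (XT.lf (nat_lit 0) (nat_lit 5468757891) (nat_lit 1672) (nat_lit 2830527545) (nat_lit 1748) (nat_lit 3597733483) (nat_lit 433) (nat_lit 5) (nat_lit 455) (nat_lit 5) (nat_lit 456) (nat_lit 5) (nat_lit 586) (nat_lit 558) (nat_lit 416)) (XT.nd (nat_lit 78) (nat_lit 0) (nat_lit 0) (XT.lf (nat_lit 0) (nat_lit 77597163) (nat_lit 988) (nat_lit 9837282811)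 (nat_lit 1064) (nat_lit 2102983066) (nat_lit 420) (nat_lit 5) (nat_lit 433) (nat_lit 5) (nat_lit 434) (nat_lit 5) (nat_lit 587) (nat_lit 558) (nat_lit 415)) (XT.lf (nat_lit 0) (nat_lit 6769220210) (nat_lit 988) (nat_lit 4841639789) (nat_lit 1064) (nat_lit 529304638) (nat_lit 420) (nat_lit 5) (nat_lit 433) (nat_lit 5) (nat_lit 434) (nat_lit 5) (nat_lit 588) (nat_lit 558) (nat_lit 414)))) (XT.nd (nat_lit 78) (nat_lit 912) (nat_lit 0) (XT.lf (nat_lit 0) (nat_lit 1058609241) (nat_lit 988) (nat_lit 10938870308) (nat_lit 76) (nat_lit 267357559) (nat_lit 407) (nat_lit 5) (nat_lit 420) (nat_lit 5) (nat_lit 408) (nat_lit 5) (nat_lit 589) (nat_lit 558) (nat_lit 413)) (XT.nd (nat_lit 78) (nat_lit 912) (nat_lit 0) (XT.lf (nat_lit 0) (nat_lit 2726228204) (nat_lit 988) (nat_lit 4210093425) (nat_lit 76) (nat_lit 5454512688) (nat_lit 407) (nat_lit 5) (nat_lit 420) (nat_lit 5) (nat_lit 408) (nat_lit 5) (nat_lit 590) (nat_lit 558) (nat_lit 412)) (XT.lf (nat_lit 0) (nat_lit 2675978269)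 (nat_lit 912) (nat_lit 1755539794) (nat_lit 988) (nat_lit 8087748941) (nat_lit 395) (nat_lit 5) (nat_lit 407) (nat_lit 5) (nat_lit 408) (nat_lit 5) (nat_lit 591) (nat_lit 558) (nat_lit 411))))) (XT.nd (nat_lit 234) (nat_lit 1672) (nat_lit 0) (XT.nd (nat_lit 78) (nat_lit 836) (nat_lit 0) (XT.lf (nat_lit 0) (nat_lit 6209388700) (nat_lit 988) (nat_lit 2928520259) (nat_lit 76) (nat_lit 3511591758) (nat_lit 395) (nat_lit 5) (nat_lit 408) (nat_lit 5) (nat_lit 396) (nat_lit 5) (nat_lit 592) (nat_lit 558) (nat_lit 410)) (XT.nd (nat_lit 78) (nat_lit 0) (nat_lit 0) (XT.lf (nat_lit 0) (nat_lit 4155100136) (nat_lit 836) (nat_lit 3893697086) (nat_lit 912) (nat_lit 4733024104) (nat_lit 384) (nat_lit 5) (nat_lit 395) (nat_lit 5) (nat_lit 396) (nat_lit 5) (nat_lit 593) (nat_lit 558) (nat_lit 409)) (XT.lf (nat_lit 0) (nat_lit 9941771662) (nat_lit 912) (nat_lit 1518368664) (nat_lit 76) (nat_lit 1456314262) (nat_lit 384) (nat_lit 5) (nat_lit 396) (nat_lit 5) (nat_lit 385) (nat_lit 5) (nat_lit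 594) (nat_lit 558) (nat_lit 408)))) (XT.nd (nat_lit 78) (nat_lit 836) (nat_lit 0) (XT.lf (nat_lit 0) (nat_lit 5769797956) (nat_lit 836) (nat_lit 6153845526) (nat_lit 912) (nat_lit 1129118037) (nat_lit 373) (nat_lit 5) (nat_lit 384) (nat_lit 5) (nat_lit 385) (nat_lit 5) (nat_lit 595) (nat_lit 558) (nat_lit 407)) (XT.nd (nat_lit 78) (nat_lit 0) (nat_lit 0) (XT.lf (nat_lit 0) (nat_lit 15644181) (nat_lit 760) (nat_lit 726061071) (nat_lit 836) (nat_lit 12450028653) (nat_lit 362) (nat_lit 5) (nat_lit 372) (nat_lit 5) (nat_lit 373) (nat_lit 5) (nat_lit 596) (nat_lit 558) (nat_lit 406)) (XT.lf (nat_lit 0) (nat_lit 2703294021) (nat_lit 836) (nat_lit 5825074010) (nat_lit 76) (nat_lit 4803600739) (nat_lit 362) (nat_lit 5) (nat_lit 373) (nat_lit 5) (nat_lit 363) (nat_lit 5) (nat_lit 597) (nat_lit 558) (nat_lit 405)))))) (XT.nd (nat_lit 468) (nat_lit 2888) (nat_lit 0) (XT.nd (nat_lit 234) (nat_lit 836) (nat_lit 0) (XT.nd (nat_lit 78) (nat_lit 760) (nat_lit 0) (XT.lf (nat_lit 0) (nat_lit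 1677925145) (nat_lit 836) (nat_lit 3030152829) (nat_lit 912) (nat_lit 8766852719) (nat_lit 351) (nat_lit 5) (nat_lit 362) (nat_lit 5) (nat_lit 363) (nat_lit 5) (nat_lit 598) (nat_lit 558) (nat_lit 404)) (XT.nd (nat_lit 78) (nat_lit 760) (nat_lit 0) (XT.lf (nat_lit 0) (nat_lit 6797452489) (nat_lit 912) (nat_lit 4239406495) (nat_lit 76) (nat_lit 2583004567) (nat_lit 351) (nat_lit 5) (nat_lit 363) (nat_lit 5) (nat_lit 352) (nat_lit 5) (nat_lit 599) (nat_lit 558) (nat_lit 403)) (XT.lf (nat_lit 0) (nat_lit 3482813862) (nat_lit 760) (nat_lit 5477116334) (nat_lit 836) (nat_lit 4807140119) (nat_lit 341) (nat_lit 5) (nat_lit 351) (nat_lit 5) (nat_lit 352) (nat_lit 5) (nat_lit 600) (nat_lit 558) (nat_lit 402)))) (XT.nd (nat_lit 78) (nat_lit 836) (nat_lit 0) (XT.lf (nat_lit 0) (nat_lit 11184327706) (nat_lit 836) (nat_lit 2513435922) (nat_lit 76) (nat_lit 219085716) (nat_lit 341) (nat_lit 5) (nat_lit 352) (nat_lit 5) (nat_lit 342) (nat_lit 5) (nat_lit 601) (nat_lit 558) (nat_lit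 401)) (XT.nd (nat_lit 78) (nat_lit 76) (nat_lit 0) (XT.lf (nat_lit 0) (nat_lit 5435779006) (nat_lit 760) (nat_lit 8077994021) (nat_lit 836) (nat_lit 554641232) (nat_lit 331) (nat_lit 5) (nat_lit 341) (nat_lit 5) (nat_lit 342) (nat_lit 5) (nat_lit 602) (nat_lit 558) (nat_lit 400)) (XT.lf (nat_lit 0) (nat_lit 1650974204) (nat_lit 836) (nat_lit 667666833) (nat_lit 76) (nat_lit 11904033685) (nat_lit 330) (nat_lit 5) (nat_lit 341) (nat_lit 5) (nat_lit 331) (nat_lit 5) (nat_lit 603) (nat_lit 558) (nat_lit 399))))) (XT.nd (nat_lit 234) (nat_lit 1444) (nat_lit 0) (XT.nd (nat_lit 78) (nat_lit 760) (nat_lit 0) (XT.lf (nat_lit 0) (nat_lit 3954939017) (nat_lit 760) (nat_lit 6862667704) (nat_lit 76) (nat_lit 3561108493) (nat_lit 321) (nat_lit 5) (nat_lit 331) (nat_lit 5) (nat_lit 322) (nat_lit 5) (nat_lit 604) (nat_lit 558) (nat_lit 398)) (XT.nd (nat_lit 78) (nat_lit 0) (nat_lit 0) (XT.lf (nat_lit 0) (nat_lit 1324689795) (nat_lit 760) (nat_lit 4998159452) (nat_lit 836) (nat_lit 8214671335)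 (nat_lit 311) (nat_lit 5) (nat_lit 321) (nat_lit 5) (nat_lit 322) (nat_lit 5) (nat_lit 605) (nat_lit 558) (nat_lit 397)) (XT.lf (nat_lit 0) (nat_lit 8780083884) (nat_lit 836) (nat_lit 4948275176) (nat_lit 76) (nat_lit 970305034) (nat_lit 311) (nat_lit 5) (nat_lit 322) (nat_lit 5) (nat_lit 312) (nat_lit 5) (nat_lit 606) (nat_lit 558) (nat_lit 396)))) (XT.nd (nat_lit 156) (nat_lit 760) (nat_lit 0) (XT.nd (nat_lit 78) (nat_lit 0) (nat_lit 0) (XT.lf (nat_lit 0) (nat_lit 3482258389) (nat_lit 684) (nat_lit 7849640906) (nat_lit 760) (nat_lit 3530223795) (nat_lit 302) (nat_lit 5) (nat_lit 311) (nat_lit 5) (nat_lit 312) (nat_lit 5) (nat_lit 607) (nat_lit 558) (nat_lit 395)) (XT.lf (nat_lit 0) (nat_lit 12136672771) (nat_lit 684) (nat_lit 1821135128) (nat_lit 760) (nat_lit 1070583539) (nat_lit 302) (nat_lit 5) (nat_lit 311) (nat_lit 5) (nat_lit 312) (nat_lit 5) (nat_lit 608) (nat_lit 558) (nat_lit 394))) (XT.nd (nat_lit 78) (nat_lit 0) (nat_lit 0) (XT.lf (nat_lit 0) (nat_lit 1475567844)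 (nat_lit 760) (nat_lit 9404150852) (nat_lit 76) (nat_lit 4316957327) (nat_lit 292) (nat_lit 5) (nat_lit 302) (nat_lit 5) (nat_lit 293) (nat_lit 5) (nat_lit 609) (nat_lit 558) (nat_lit 393)) (XT.lf (nat_lit 0) (nat_lit 4080007318) (nat_lit 760) (nat_lit 709384066) (nat_lit 76) (nat_lit 10578360615) (nat_lit 292) (nat_lit 5) (nat_lit 302) (nat_lit 5) (nat_lit 293) (nat_lit 5) (nat_lit 610) (nat_lit 558) (nat_lit 392))))))) (XT.nd (nat_lit 936) (nat_lit 4180) (nat_lit 0) (XT.nd (nat_lit 468) (nat_lit 1748) (nat_lit 0) (XT.nd (nat_lit 234) (nat_lit 1292) (nat_lit 0) (XT.nd (nat_lit 78) (nat_lit 684) (nat_lit 0) (XT.lf (nat_lit 0) (nat_lit 6790006093) (nat_lit 684) (nat_lit 7294983579) (nat_lit 76) (nat_lit 1456191621) (nat_lit 284) (nat_lit 5) (nat_lit 293) (nat_lit 5) (nat_lit 285) (nat_lit 5) (nat_lit 611) (nat_lit 558) (nat_lit 391)) (XT.nd (nat_lit 78) (nat_lit 0) (nat_lit 0) (XT.lf (nat_lit 0) (nat_lit 1650731819) (nat_lit 684) (nat_lit 7941090723) (nat_lit 760) (nat_lit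 6125505463) (nat_lit 275) (nat_lit 5) (nat_lit 284) (nat_lit 5) (nat_lit 285) (nat_lit 5) (nat_lit 612) (nat_lit 558) (nat_lit 390)) (XT.lf (nat_lit 0) (nat_lit 10862632338) (nat_lit 684) (nat_lit 1626499538) (nat_lit 760) (nat_lit 3407077805) (nat_lit 275) (nat_lit 5) (nat_lit 284) (nat_lit 5) (nat_lit 285) (nat_lit 5) (nat_lit 613) (nat_lit 558) (nat_lit 389)))) (XT.nd (nat_lit 78) (nat_lit 684) (nat_lit 0) (XT.lf (nat_lit 0) (nat_lit 4192265279) (nat_lit 608) (nat_lit 11301275359) (nat_lit 684) (nat_lit 584146427) (nat_lit 267) (nat_lit 5) (nat_lit 275) (nat_lit 5) (nat_lit 276) (nat_lit 5) (nat_lit 614) (nat_lit 558) (nat_lit 388)) (XT.nd (nat_lit 78) (nat_lit 608) (nat_lit 0) (XT.lf (nat_lit 0) (nat_lit 2300636440) (nat_lit 684) (nat_lit 2628768750) (nat_lit 76) (nat_lit 11332381949) (nat_lit 266) (nat_lit 5) (nat_lit 275) (nat_lit 5) (nat_lit 267) (nat_lit 5) (nat_lit 615) (nat_lit 558) (nat_lit 387)) (XT.lf (nat_lit 0) (nat_lit 5281426653) (nat_lit 684) (nat_lit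 9571174059) (nat_lit 76) (nat_lit 1595969684) (nat_lit 258) (nat_lit 5) (nat_lit 267) (nat_lit 5) (nat_lit 259) (nat_lit 5) (nat_lit 616) (nat_lit 558) (nat_lit 386))))) (XT.nd (nat_lit 234) (nat_lit 608) (nat_lit 0) (XT.nd (nat_lit 78) (nat_lit 1140) (nat_lit 0) (XT.lf (nat_lit 0) (nat_lit 8363229032) (nat_lit 684) (nat_lit 73652424) (nat_lit 76) (nat_lit 8201380987) (nat_lit 258) (nat_lit 5) (nat_lit 267) (nat_lit 5) (nat_lit 259) (nat_lit 5) (nat_lit 617) (nat_lit 558) (nat_lit 385)) (XT.nd (nat_lit 78) (nat_lit 608) (nat_lit 0) (XT.lf (nat_lit 0) (nat_lit 9730185321) (nat_lit 532) (nat_lit 1830827592) (nat_lit 608) (nat_lit 5269649541) (nat_lit 251) (nat_lit 5) (nat_lit 258) (nat_lit 5) (nat_lit 259) (nat_lit 5) (nat_lit 618) (nat_lit 558) (nat_lit 384)) (XT.lf (nat_lit 0) (nat_lit 2696362701) (nat_lit 608) (nat_lit 12167510961) (nat_lit 684) (nat_lit 2162215391) (nat_lit 243) (nat_lit 5) (nat_lit 251) (nat_lit 5) (nat_lit 252) (nat_lit 5) (nat_lit 619) (nat_lit 558)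 (nat_lit 383)))) (XT.nd (nat_lit 78) (nat_lit 532) (nat_lit 0) (XT.lf (nat_lit 0) (nat_lit 1045539281) (nat_lit 684) (nat_lit 4469439051) (nat_lit 76) (nat_lit 11709288342) (nat_lit 242) (nat_lit 5) (nat_lit 251) (nat_lit 5) (nat_lit 243) (nat_lit 5) (nat_lit 620) (nat_lit 558) (nat_lit 382)) (XT.nd (nat_lit 78) (nat_lit 0) (nat_lit 0) (XT.lf (nat_lit 0) (nat_lit 4325155926) (nat_lit 608) (nat_lit 11797624704) (nat_lit 76) (nat_lit 1302609144) (nat_lit 235) (nat_lit 5) (nat_lit 243) (nat_lit 5) (nat_lit 236) (nat_lit 5) (nat_lit 621) (nat_lit 558) (nat_lit 381)) (XT.lf (nat_lit 0) (nat_lit 7728623256) (nat_lit 608) (nat_lit 1690390863) (nat_lit 76) (nat_lit 8210356988) (nat_lit 235) (nat_lit 5) (nat_lit 243) (nat_lit 5) (nat_lit 236) (nat_lit 5) (nat_lit 622) (nat_lit 558) (nat_lit 380)))))) (XT.nd (nat_lit 468) (nat_lit 2052) (nat_lit 0) (XT.nd (nat_lit 234) (nat_lit 988) (nat_lit 0) (XT.nd (nat_lit 78) (nat_lit 608) (nat_lit 0) (XT.lf (nat_lit 0) (nat_lit 8722371947)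 (nat_lit 532) (nat_lit 2526129607) (nat_lit 608) (nat_lit 6587964595) (nat_lit 228) (nat_lit 5) (nat_lit 235) (nat_lit 5) (nat_lit 236) (nat_lit 5) (nat_lit 623) (nat_lit 558) (nat_lit 379)) (XT.nd (nat_lit 78) (nat_lit 76) (nat_lit 0) (XT.lf (nat_lit 0) (nat_lit 1295409137) (nat_lit 532) (nat_lit 13584228334) (nat_lit 608) (nat_lit 3167249318) (nat_lit 221) (nat_lit 5) (nat_lit 228) (nat_lit 5) (nat_lit 229) (nat_lit 5) (nat_lit 624) (nat_lit 558) (nat_lit 378)) (XT.lf (nat_lit 0) (nat_lit 387772323) (nat_lit 608) (nat_lit 6253992843) (nat_lit 76) (nat_lit 11618307470) (nat_lit 220) (nat_lit 5) (nat_lit 228) (nat_lit 5) (nat_lit 221) (nat_lit 5) (nat_lit 625) (nat_lit 558) (nat_lit 377)))) (XT.nd (nat_lit 78) (nat_lit 456) (nat_lit 0) (XT.lf (nat_lit 0) (nat_lit 3995759714) (nat_lit 608) (nat_lit 13999526484) (nat_lit 76) (nat_lit 481332643) (nat_lit 213) (nat_lit 5) (nat_lit 221) (nat_lit 5) (nat_lit 214) (nat_lit 5) (nat_lit 626) (nat_lit 558) (nat_lit 376)) (XT.nd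 (nat_lit 78) (nat_lit 456) (nat_lit 0) (XT.lf (nat_lit 0) (nat_lit 7754184937) (nat_lit 608) (nat_lit 3244319292) (nat_lit 76) (nat_lit 7697427010) (nat_lit 213) (nat_lit 5) (nat_lit 221) (nat_lit 5) (nat_lit 214) (nat_lit 5) (nat_lit 627) (nat_lit 558) (nat_lit 375)) (XT.lf (nat_lit 0) (nat_lit 7817765279) (nat_lit 456) (nat_lit 3812974806) (nat_lit 532) (nat_lit 7288031385) (nat_lit 207) (nat_lit 5) (nat_lit 213) (nat_lit 5) (nat_lit 214) (nat_lit 5) (nat_lit 628) (nat_lit 558) (nat_lit 374))))) (XT.nd (nat_lit 234) (nat_lit 988) (nat_lit 0) (XT.nd (nat_lit 78) (nat_lit 1064) (nat_lit 0) (XT.lf (nat_lit 0) (nat_lit 15621839012) (nat_lit 532) (nat_lit 34361181) (nat_lit 76) (nat_lit 3489128856) (nat_lit 207) (nat_lit 5) (nat_lit 214) (nat_lit 5) (nat_lit 208) (nat_lit 5) (nat_lit 629) (nat_lit 558) (nat_lit 373)) (XT.nd (nat_lit 78) (nat_lit 456) (nat_lit 0) (XT.lf (nat_lit 0) (nat_lit 404269855) (nat_lit 608) (nat_lit 8010416427) (nat_lit 76) (nat_lit 10959849655) (nat_lit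 199) (nat_lit 5) (nat_lit 207) (nat_lit 5) (nat_lit 200) (nat_lit 5) (nat_lit 630) (nat_lit 558) (nat_lit 372)) (XT.lf (nat_lit 0) (nat_lit 3393238058) (nat_lit 456) (nat_lit 984923592) (nat_lit 532) (nat_lit 15229405133) (nat_lit 193) (nat_lit 5) (nat_lit 199) (nat_lit 5) (nat_lit 200) (nat_lit 5) (nat_lit 631) (nat_lit 558) (nat_lit 371)))) (XT.nd (nat_lit 156) (nat_lit 532) (nat_lit 0) (XT.nd (nat_lit 78) (nat_lit 456) (nat_lit 0) (XT.lf (nat_lit 0) (nat_lit 8520958491) (nat_lit 532) (nat_lit 4764501403) (nat_lit 76) (nat_lit 6558010545) (nat_lit 193) (nat_lit 5) (nat_lit 200) (nat_lit 5) (nat_lit 194) (nat_lit 5) (nat_lit 632) (nat_lit 558) (nat_lit 370)) (XT.lf (nat_lit 0) (nat_lit 6988968987) (nat_lit 456) (nat_lit 5802197037) (nat_lit 532) (nat_lit 7292035771) (nat_lit 187) (nat_lit 5) (nat_lit 193) (nat_lit 5) (nat_lit 194) (nat_lit 5) (nat_lit 633) (nat_lit 558) (nat_lit 369))) (XT.nd (nat_lit 78) (nat_lit 532) (nat_lit 0) (XT.lf (nat_lit 0) (nat_lit 17183559000)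 (nat_lit 532) (nat_lit 1307642492) (nat_lit 76) (nat_lit 1835791370) (nat_lit 187) (nat_lit 5) (nat_lit 194) (nat_lit 5) (nat_lit 188) (nat_lit 5) (nat_lit 634) (nat_lit 558) (nat_lit 368)) (XT.lf (nat_lit 0) (nat_lit 1175989563) (nat_lit 532) (nat_lit 9773711497) (nat_lit 76) (nat_lit 9623775658) (nat_lit 180) (nat_lit 5) (nat_lit 187) (nat_lit 5) (nat_lit 181) (nat_lit 5) (nat_lit 635) (nat_lit 558) (nat_lit 367))))))))
noncomputable def xc171 : XT := (XT.nd (nat_lit 75504) (nat_lit 0) (nat_lit 23940) (XT.nd (nat_lit 936) (nat_lit 1748) (nat_lit 0) (XT.nd (nat_lit 468) (nat_lit 1216) (nat_lit 0) (XT.nd (nat_lit 234) (nat_lit 912) (nat_lit 0) (XT.nd (nat_lit 78) (nat_lit 380) (nat_lit 0) (XT.lf (nat_lit 0) (nat_lit 2341799980) (nat_lit 456) (nat_lit 3214867592) (nat_lit 532) (nat_lit 15267468653) (nat_lit 174) (nat_lit 5) (nat_lit 180) (nat_lit 5) (nat_lit 181) (nat_lit 5) (nat_lit 636) (nat_lit 558) (nat_lit 366)) (XT.nd (nat_lit 78) (nat_lit 380) (nat_lit 0) (XT.lf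 (nat_lit 0) (nat_lit 10114262603) (nat_lit 532) (nat_lit 6287597255) (nat_lit 76) (nat_lit 4676163648) (nat_lit 174) (nat_lit 5) (nat_lit 181) (nat_lit 5) (nat_lit 175) (nat_lit 5) (nat_lit 637) (nat_lit 558) (nat_lit 365)) (XT.lf (nat_lit 0) (nat_lit 6200854035) (nat_lit 380) (nat_lit 8616776025) (nat_lit 456) (nat_lit 6518266703) (nat_lit 169) (nat_lit 5) (nat_lit 174) (nat_lit 5) (nat_lit 175) (nat_lit 5) (nat_lit 638) (nat_lit 558) (nat_lit 364)))) (XT.nd (nat_lit 78) (nat_lit 912) (nat_lit 0) (XT.lf (nat_lit 0) (nat_lit 19014154324) (nat_lit 380) (nat_lit 636243567) (nat_lit 456) (nat_lit 1947823564) (nat_lit 169) (nat_lit 5) (nat_lit 174) (nat_lit 5) (nat_lit 175) (nat_lit 5) (nat_lit 639) (nat_lit 558) (nat_lit 363)) (XT.nd (nat_lit 78) (nat_lit 380) (nat_lit 0) (XT.lf (nat_lit 0) (nat_lit 2787963719) (nat_lit 532) (nat_lit 11587806806) (nat_lit 76) (nat_lit 7487479689) (nat_lit 162) (nat_lit 5) (nat_lit 169) (nat_lit 5) (nat_lit 163) (nat_lit 5) (nat_lit 640)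 (nat_lit 558) (nat_lit 362)) (XT.lf (nat_lit 0) (nat_lit 1283455049) (nat_lit 380) (nat_lit 6332232625) (nat_lit 456) (nat_lit 14517168919) (nat_lit 157) (nat_lit 5) (nat_lit 162) (nat_lit 5) (nat_lit 163) (nat_lit 5) (nat_lit 641) (nat_lit 558) (nat_lit 361))))) (XT.nd (nat_lit 234) (nat_lit 760) (nat_lit 0) (XT.nd (nat_lit 78) (nat_lit 456) (nat_lit 0) (XT.lf (nat_lit 0) (nat_lit 12623717729) (nat_lit 456) (nat_lit 7859886819) (nat_lit 76) (nat_lit 1922576100) (nat_lit 157) (nat_lit 5) (nat_lit 163) (nat_lit 5) (nat_lit 158) (nat_lit 5) (nat_lit 642) (nat_lit 558) (nat_lit 360)) (XT.nd (nat_lit 78) (nat_lit 76) (nat_lit 0) (XT.lf (nat_lit 0) (nat_lit 5408480333) (nat_lit 380) (nat_lit 12393930729) (nat_lit 456) (nat_lit 4881150638) (nat_lit 152) (nat_lit 5) (nat_lit 157) (nat_lit 5) (nat_lit 158) (nat_lit 5) (nat_lit 643) (nat_lit 558) (nat_lit 359)) (XT.lf (nat_lit 0) (nat_lit 163203848) (nat_lit 456) (nat_lit 3927752153) (nat_lit 76) (nat_lit 18874588253) (nat_lit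 151) (nat_lit 5) (nat_lit 157) (nat_lit 5) (nat_lit 152) (nat_lit 5) (nat_lit 644) (nat_lit 558) (nat_lit 358)))) (XT.nd (nat_lit 78) (nat_lit 380) (nat_lit 0) (XT.lf (nat_lit 0) (nat_lit 5329236701) (nat_lit 456) (nat_lit 13507812097) (nat_lit 76) (nat_lit 4413749911) (nat_lit 146) (nat_lit 5) (nat_lit 152) (nat_lit 5) (nat_lit 147) (nat_lit 5) (nat_lit 645) (nat_lit 558) (nat_lit 357)) (XT.nd (nat_lit 78) (nat_lit 0) (nat_lit 0) (XT.lf (nat_lit 0) (nat_lit 164234112) (nat_lit 380) (nat_lit 10482688085) (nat_lit 456) (nat_lit 12893869943) (nat_lit 141) (nat_lit 5) (nat_lit 146) (nat_lit 5) (nat_lit 147) (nat_lit 5) (nat_lit 646) (nat_lit 558) (nat_lit 356)) (XT.lf (nat_lit 0) (nat_lit 14283084061) (nat_lit 380) (nat_lit 1872224727) (nat_lit 456) (nat_lit 7679590221) (nat_lit 141) (nat_lit 5) (nat_lit 146) (nat_lit 5) (nat_lit 147) (nat_lit 5) (nat_lit 647) (nat_lit 558) (nat_lit 355)))))) (XT.nd (nat_lit 468) (nat_lit 304) (nat_lit 0) (XT.nd (nat_lit 234) (nat_lit 684)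 (nat_lit 0) (XT.nd (nat_lit 78) (nat_lit 456) (nat_lit 0) (XT.lf (nat_lit 0) (nat_lit 4554640470) (nat_lit 304) (nat_lit 17287466017) (nat_lit 380) (nat_lit 2291417166) (nat_lit 137) (nat_lit 5) (nat_lit 141) (nat_lit 5) (nat_lit 142) (nat_lit 5) (nat_lit 648) (nat_lit 558) (nat_lit 354)) (XT.nd (nat_lit 78) (nat_lit 380) (nat_lit 0) (XT.lf (nat_lit 0) (nat_lit 3233235065) (nat_lit 380) (nat_lit 5407434998) (nat_lit 76) (nat_lit 15795620224) (nat_lit 136) (nat_lit 5) (nat_lit 141) (nat_lit 5) (nat_lit 137) (nat_lit 5) (nat_lit 649) (nat_lit 558) (nat_lit 353)) (XT.lf (nat_lit 0) (nat_lit 8892665020) (nat_lit 456) (nat_lit 15602681563) (nat_lit 76) (nat_lit 248363887) (nat_lit 131) (nat_lit 5) (nat_lit 137) (nat_lit 5) (nat_lit 132) (nat_lit 5) (nat_lit 650) (nat_lit 558) (nat_lit 352)))) (XT.nd (nat_lit 78) (nat_lit 684) (nat_lit 0) (XT.lf (nat_lit 0) (nat_lit 14753012668) (nat_lit 456) (nat_lit 1069770934) (nat_lit 76) (nat_lit 9232741340) (nat_lit 131) (nat_lit 5) (nat_lit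 137) (nat_lit 5) (nat_lit 132) (nat_lit 5) (nat_lit 651) (nat_lit 558) (nat_lit 351)) (XT.nd (nat_lit 78) (nat_lit 380) (nat_lit 0) (XT.lf (nat_lit 0) (nat_lit 13927125627) (nat_lit 304) (nat_lit 6887962905) (nat_lit 380) (nat_lit 4556797205) (nat_lit 127) (nat_lit 5) (nat_lit 131) (nat_lit 5) (nat_lit 132) (nat_lit 5) (nat_lit 652) (nat_lit 558) (nat_lit 350)) (XT.lf (nat_lit 0) (nat_lit 1325955328) (nat_lit 380) (nat_lit 22135566252) (nat_lit 76) (nat_lit 2232098838) (nat_lit 122) (nat_lit 5) (nat_lit 127) (nat_lit 5) (nat_lit 123) (nat_lit 5) (nat_lit 653) (nat_lit 558) (nat_lit 349))))) (XT.nd (nat_lit 73788) (nat_lit 0) (nat_lit 30020) (XT.nd (nat_lit 78) (nat_lit 304) (nat_lit 0) (XT.lf (nat_lit 0) (nat_lit 7382475302) (nat_lit 380) (nat_lit 7089873522) (nat_lit 76) (nat_lit 11546496433) (nat_lit 122) (nat_lit 5) (nat_lit 127) (nat_lit 5) (nat_lit 123) (nat_lit 5) (nat_lit 654) (nat_lit 558) (nat_lit 348)) (XT.nd (nat_lit 78) (nat_lit 0) (nat_lit 0) (XT.lf (nat_lit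 0) (nat_lit 8357142928) (nat_lit 304) (nat_lit 5251503888) (nat_lit 380) (nat_lit 12740957778) (nat_lit 118) (nat_lit 5) (nat_lit 122) (nat_lit 5) (nat_lit 123) (nat_lit 5) (nat_lit 655) (nat_lit 558) (nat_lit 347)) (XT.lf (nat_lit 0) (nat_lit 20028494420) (nat_lit 380) (nat_lit 2513333607) (nat_lit 76) (nat_lit 4143768452) (nat_lit 118) (nat_lit 5) (nat_lit 123) (nat_lit 5) (nat_lit 119) (nat_lit 5) (nat_lit 656) (nat_lit 558) (nat_lit 346)))) (XT.nd (nat_lit 156) (nat_lit 1596) (nat_lit 0) (XT.nd (nat_lit 78) (nat_lit 0) (nat_lit 0) (XT.lf (nat_lit 0) (nat_lit 4119925938) (nat_lit 1596) (nat_lit 281336769) (nat_lit 1596) (nat_lit 281336769) (nat_lit 534) (nat_lit 3) (nat_lit 555) (nat_lit 3) (nat_lit 555) (nat_lit 5) (nat_lit 559) (nat_lit 559) (nat_lit 442)) (XT.lf (nat_lit 76) (nat_lit 4086202143) (nat_lit 0) (nat_lit 5075302050) (nat_lit 1596) (nat_lit 280421970) (nat_lit 535) (nat_lit 5) (nat_lit 534) (nat_lit 3) (nat_lit 555) (nat_lit 5) (nat_lit 560) (nat_lit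 559) (nat_lit 441))) (XT.nd (nat_lit 78) (nat_lit 0) (nat_lit 76) (XT.lf (nat_lit 0) (nat_lit 556042456) (nat_lit 1596) (nat_lit 699538039) (nat_lit 1672) (nat_lit 8264890197) (nat_lit 513) (nat_lit 5) (nat_lit 534) (nat_lit 3) (nat_lit 535) (nat_lit 5) (nat_lit 561) (nat_lit 559) (nat_lit 440)) (XT.lf (nat_lit 0) (nat_lit 1428327707) (nat_lit 1596) (nat_lit 5527365668) (nat_lit 1672) (nat_lit 2644402258) (nat_lit 514) (nat_lit 5) (nat_lit 535) (nat_lit 5) (nat_lit 536) (nat_lit 5) (nat_lit 562) (nat_lit 559) (nat_lit 439))))))) (XT.nd (nat_lit 936) (nat_lit 4788) (nat_lit 0) (XT.nd (nat_lit 468) (nat_lit 1368) (nat_lit 0) (XT.nd (nat_lit 234) (nat_lit 0) (nat_lit 76) (XT.nd (nat_lit 78) (nat_lit 0) (nat_lit 76) (XT.lf (nat_lit 0) (nat_lit 2310392347) (nat_lit 1596) (nat_lit 751135474) (nat_lit 1672) (nat_lit 6619942034) (nat_lit 514) (nat_lit 5) (nat_lit 535) (nat_lit 5) (nat_lit 536) (nat_lit 5) (nat_lit 563) (nat_lit 559) (nat_lit 438)) (XT.nd (nat_lit 78) (nat_lit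 0) (nat_lit 0) (XT.lf (nat_lit 0) (nat_lit 3222982086) (nat_lit 1596) (nat_lit 5606529666) (nat_lit 1672) (nat_lit 934705516) (nat_lit 515) (nat_lit 5) (nat_lit 536) (nat_lit 5) (nat_lit 537) (nat_lit 5) (nat_lit 564) (nat_lit 559) (nat_lit 437)) (XT.lf (nat_lit 0) (nat_lit 4159254134) (nat_lit 1596) (nat_lit 705614357) (nat_lit 1672) (nat_lit 4983645847) (nat_lit 515) (nat_lit 5) (nat_lit 536) (nat_lit 5) (nat_lit 537) (nat_lit 5) (nat_lit 565) (nat_lit 559) (nat_lit 436)))) (XT.nd (nat_lit 78) (nat_lit 0) (nat_lit 76) (XT.lf (nat_lit 76) (nat_lit 4338795776) (nat_lit 0) (nat_lit 784098343) (nat_lit 1672) (nat_lit 4811433637) (nat_lit 516) (nat_lit 5) (nat_lit 515) (nat_lit 5) (nat_lit 537) (nat_lit 5) (nat_lit 566) (nat_lit 559) (nat_lit 435)) (XT.nd (nat_lit 78) (nat_lit 0) (nat_lit 0) (XT.lf (nat_lit 0) (nat_lit 6113339808) (nat_lit 1596) (nat_lit 561860299) (nat_lit 1672) (nat_lit 3346509865) (nat_lit 516) (nat_lit 5) (nat_lit 537) (nat_lit 5) (nat_lit 538) (nat_lit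 5) (nat_lit 567) (nat_lit 559) (nat_lit 434)) (XT.lf (nat_lit 76) (nat_lit 4616275569) (nat_lit 0) (nat_lit 2523691724) (nat_lit 1672) (nat_lit 2970548211) (nat_lit 517) (nat_lit 5) (nat_lit 516) (nat_lit 5) (nat_lit 538) (nat_lit 5) (nat_lit 568) (nat_lit 559) (nat_lit 433))))) (XT.nd (nat_lit 234) (nat_lit 1596) (nat_lit 0) (XT.nd (nat_lit 78) (nat_lit 0) (nat_lit 0) (XT.lf (nat_lit 0) (nat_lit 8183578330) (nat_lit 1596) (nat_lit 318466677) (nat_lit 1672) (nat_lit 1699126185) (nat_lit 517) (nat_lit 5) (nat_lit 538) (nat_lit 5) (nat_lit 539) (nat_lit 5) (nat_lit 569) (nat_lit 559) (nat_lit 432)) (XT.nd (nat_lit 78) (nat_lit 0) (nat_lit 76) (XT.lf (nat_lit 76) (nat_lit 4997989427) (nat_lit 0) (nat_lit 4281145123) (nat_lit 1672) (nat_lit 1013886991) (nat_lit 518) (nat_lit 5) (nat_lit 517) (nat_lit 5) (nat_lit 539) (nat_lit 5) (nat_lit 570) (nat_lit 559) (nat_lit 431)) (XT.lf (nat_lit 76) (nat_lit 26611583) (nat_lit 0) (nat_lit 10354700609) (nat_lit 1672) (nat_lit 5705446)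 (nat_lit 519) (nat_lit 5) (nat_lit 518) (nat_lit 5) (nat_lit 540) (nat_lit 5) (nat_lit 571) (nat_lit 559) (nat_lit 430)))) (XT.nd (nat_lit 78) (nat_lit 0) (nat_lit 0) (XT.lf (nat_lit 0) (nat_lit 1055729040) (nat_lit 1672) (nat_lit 5003096035) (nat_lit 1748) (nat_lit 4423008592) (nat_lit 496) (nat_lit 5) (nat_lit 518) (nat_lit 5) (nat_lit 519) (nat_lit 5) (nat_lit 572) (nat_lit 559) (nat_lit 429)) (XT.nd (nat_lit 78) (nat_lit 0) (nat_lit 76) (XT.lf (nat_lit 76) (nat_lit 455383254) (nat_lit 0) (nat_lit 1668616440) (nat_lit 1748) (nat_lit 8454834671) (nat_lit 497) (nat_lit 5) (nat_lit 496) (nat_lit 5) (nat_lit 519) (nat_lit 5) (nat_lit 573) (nat_lit 559) (nat_lit 428)) (XT.lf (nat_lit 0) (nat_lit 3248694598) (nat_lit 1672) (nat_lit 4616925773) (nat_lit 1748) (nat_lit 2811456250) (nat_lit 497) (nat_lit 5) (nat_lit 519) (nat_lit 5) (nat_lit 520) (nat_lit 5) (nat_lit 574) (nat_lit 559) (nat_lit 427)))))) (XT.nd (nat_lit 468) (nat_lit 4864) (nat_lit 0) (XT.nd (nat_lit 234) (nat_lit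 0) (nat_lit 76) (XT.nd (nat_lit 78) (nat_lit 0) (nat_lit 76) (XT.lf (nat_lit 76) (nat_lit 989689216) (nat_lit 0) (nat_lit 3407025854) (nat_lit 1748) (nat_lit 6380554688) (nat_lit 498) (nat_lit 5) (nat_lit 497) (nat_lit 5) (nat_lit 520) (nat_lit 5) (nat_lit 575) (nat_lit 559) (nat_lit 426)) (XT.nd (nat_lit 78) (nat_lit 0) (nat_lit 0) (XT.lf (nat_lit 0) (nat_lit 5589923487) (nat_lit 1672) (nat_lit 4127689971) (nat_lit 1748) (nat_lit 1161411367) (nat_lit 498) (nat_lit 5) (nat_lit 520) (nat_lit 5) (nat_lit 521) (nat_lit 5) (nat_lit 576) (nat_lit 559) (nat_lit 425)) (XT.lf (nat_lit 76) (nat_lit 1632231176) (nat_lit 0) (nat_lit 5191880321) (nat_lit 1748) (nat_lit 4158363754) (nat_lit 499) (nat_lit 5) (nat_lit 498) (nat_lit 5) (nat_lit 521) (nat_lit 5) (nat_lit 577) (nat_lit 559) (nat_lit 424)))) (XT.nd (nat_lit 78) (nat_lit 0) (nat_lit 76) (XT.lf (nat_lit 76) (nat_lit 7551370535) (nat_lit 0) (nat_lit 543503656) (nat_lit 1748) (nat_lit 2992885190) (nat_lit 499) (nat_lit 5) (nat_lit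 498) (nat_lit 5) (nat_lit 521) (nat_lit 5) (nat_lit 578) (nat_lit 559) (nat_lit 423)) (XT.nd (nat_lit 78) (nat_lit 0) (nat_lit 0) (XT.lf (nat_lit 76) (nat_lit 2385742491) (nat_lit 0) (nat_lit 7032581222) (nat_lit 1748) (nat_lit 1776282516) (nat_lit 500) (nat_lit 5) (nat_lit 499) (nat_lit 5) (nat_lit 522) (nat_lit 5) (nat_lit 579) (nat_lit 559) (nat_lit 422)) (XT.lf (nat_lit 76) (nat_lit 8458649851) (nat_lit 0) (nat_lit 2321651446) (nat_lit 1748) (nat_lit 523049954) (nat_lit 500) (nat_lit 5) (nat_lit 499) (nat_lit 5) (nat_lit 522) (nat_lit 5) (nat_lit 580) (nat_lit 559) (nat_lit 421))))) (XT.nd (nat_lit 234) (nat_lit 3344) (nat_lit 0) (XT.nd (nat_lit 78) (nat_lit 0) (nat_lit 0) (XT.lf (nat_lit 0) (nat_lit 767806527) (nat_lit 1748) (nat_lit 8165635939) (nat_lit 1824) (nat_lit 2480283670) (nat_lit 477) (nat_lit 5) (nat_lit 500) (nat_lit 5) (nat_lit 501) (nat_lit 5) (nat_lit 581) (nat_lit 559) (nat_lit 420)) (XT.nd (nat_lit 78) (nat_lit 0) (nat_lit 76) (XT.lf (nat_lit 0)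 (nat_lit 2097261658) (nat_lit 1748) (nat_lit 2055757774) (nat_lit 1824) (nat_lit 7372826514) (nat_lit 477) (nat_lit 5) (nat_lit 500) (nat_lit 5) (nat_lit 501) (nat_lit 5) (nat_lit 582) (nat_lit 559) (nat_lit 419)) (XT.lf (nat_lit 0) (nat_lit 3471073797) (nat_lit 1748) (nat_lit 7425110251) (nat_lit 76) (nat_lit 743670980) (nat_lit 478) (nat_lit 5) (nat_lit 501) (nat_lit 5) (nat_lit 479) (nat_lit 5) (nat_lit 583) (nat_lit 559) (nat_lit 418)))) (XT.nd (nat_lit 156) (nat_lit 1672) (nat_lit 0) (XT.nd (nat_lit 78) (nat_lit 1748) (nat_lit 0) (XT.lf (nat_lit 0) (nat_lit 4899454053) (nat_lit 1748) (nat_lit 1157090843) (nat_lit 76) (nat_lit 5699059748) (nat_lit 478) (nat_lit 5) (nat_lit 501) (nat_lit 5) (nat_lit 479) (nat_lit 5) (nat_lit 584) (nat_lit 559) (nat_lit 417)) (XT.lf (nat_lit 0) (nat_lit 5293805046) (nat_lit 1748) (nat_lit 1082949978) (nat_lit 1824) (nat_lit 5496509314) (nat_lit 455) (nat_lit 5) (nat_lit 478) (nat_lit 5) (nat_lit 479) (nat_lit 5) (nat_lit 585) (nat_lit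 559) (nat_lit 416))) (XT.nd (nat_lit 78) (nat_lit 1672) (nat_lit 0) (XT.lf (nat_lit 0) (nat_lit 7903517732) (nat_lit 1824) (nat_lit 141802439) (nat_lit 76) (nat_lit 3947560844) (nat_lit 455) (nat_lit 5) (nat_lit 479) (nat_lit 5) (nat_lit 456) (nat_lit 5) (nat_lit 586) (nat_lit 559) (nat_lit 415)) (XT.lf (nat_lit 0) (nat_lit 6490673691) (nat_lit 1672) (nat_lit 3005919461) (nat_lit 1748) (nat_lit 2617583388) (nat_lit 433) (nat_lit 5) (nat_lit 455) (nat_lit 5) (nat_lit 456) (nat_lit 5) (nat_lit 587) (nat_lit 559) (nat_lit 414))))))))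
noncomputable def xc172 : XT := (XT.nd (nat_lit 1950) (nat_lit 8360) (nat_lit 0) (XT.nd (nat_lit 936) (nat_lit 5092) (nat_lit 0) (XT.nd (nat_lit 468) (nat_lit 3344) (nat_lit 0) (XT.nd (nat_lit 234) (nat_lit 912) (nat_lit 0) (XT.nd (nat_lit 78) (nat_lit 988) (nat_lit 0) (XT.lf (nat_lit 0) (nat_lit 1007098354) (nat_lit 988) (nat_lit 10122448003) (nat_lit 1064) (nat_lit 1108193317) (nat_lit 420) (nat_lit 5) (nat_lit 433) (nat_lit 5) (nat_lit 434) (nat_lit 5) (nat_lit 588) (nat_lit 559) (nat_lit 413)) (XT.nd (nat_lit 78) (nat_lit 912) (nat_lit 0) (XT.lf (nat_lit 0) (nat_lit 470377233) (nat_lit 1064) (nat_lit 4551624691) (nat_lit 76) (nat_lit 7340825066) (nat_lit 419) (nat_lit 5) (nat_lit 433) (nat_lit 5) (nat_lit 420) (nat_lit 5) (nat_lit 589) (nat_lit 559) (nat_lit 412)) (XT.lf (nat_lit 0) (nat_lit 2068783597) (nat_lit 988) (nat_lit 10220084976) (nat_lit 76) (nat_lit 201340821) (nat_lit 407) (nat_lit 5) (nat_lit 420) (nat_lit 5) (nat_lit 408) (nat_lit 5) (nat_lit 590) (nat_lit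 559) (nat_lit 411)))) (XT.nd (nat_lit 78) (nat_lit 912) (nat_lit 0) (XT.lf (nat_lit 0) (nat_lit 3750362740) (nat_lit 988) (nat_lit 3375116138) (nat_lit 76) (nat_lit 5493638344) (nat_lit 407) (nat_lit 5) (nat_lit 420) (nat_lit 5) (nat_lit 408) (nat_lit 5) (nat_lit 591) (nat_lit 559) (nat_lit 410)) (XT.nd (nat_lit 78) (nat_lit 0) (nat_lit 0) (XT.lf (nat_lit 0) (nat_lit 3642629759) (nat_lit 912) (nat_lit 1834045336) (nat_lit 988) (nat_lit 7273707912) (nat_lit 395) (nat_lit 5) (nat_lit 407) (nat_lit 5) (nat_lit 408) (nat_lit 5) (nat_lit 592) (nat_lit 559) (nat_lit 409)) (XT.lf (nat_lit 0) (nat_lit 7271071495) (nat_lit 988) (nat_lit 2072695556) (nat_lit 76) (nat_lit 3539837695) (nat_lit 395) (nat_lit 5) (nat_lit 408) (nat_lit 5) (nat_lit 396) (nat_lit 5) (nat_lit 593) (nat_lit 559) (nat_lit 408))))) (XT.nd (nat_lit 234) (nat_lit 1672) (nat_lit 0) (XT.nd (nat_lit 78) (nat_lit 836) (nat_lit 0) (XT.lf (nat_lit 0) (nat_lit 5146581490) (nat_lit 836) (nat_lit 3988202244) (nat_lit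 912) (nat_lit 3884040391) (nat_lit 384) (nat_lit 5) (nat_lit 395) (nat_lit 5) (nat_lit 396) (nat_lit 5) (nat_lit 594) (nat_lit 559) (nat_lit 407)) (XT.nd (nat_lit 78) (nat_lit 836) (nat_lit 0) (XT.lf (nat_lit 0) (nat_lit 11047374337) (nat_lit 912) (nat_lit 639793921) (nat_lit 76) (nat_lit 1469349278) (nat_lit 384) (nat_lit 5) (nat_lit 396) (nat_lit 5) (nat_lit 385) (nat_lit 5) (nat_lit 595) (nat_lit 559) (nat_lit 406)) (XT.lf (nat_lit 0) (nat_lit 6788156149) (nat_lit 836) (nat_lit 6268810325) (nat_lit 912) (nat_lit 238825038) (nat_lit 373) (nat_lit 5) (nat_lit 384) (nat_lit 5) (nat_lit 385) (nat_lit 5) (nat_lit 596) (nat_lit 559) (nat_lit 405)))) (XT.nd (nat_lit 78) (nat_lit 836) (nat_lit 0) (XT.lf (nat_lit 0) (nat_lit 924997409) (nat_lit 760) (nat_lit 720682114) (nat_lit 836) (nat_lit 11791983002) (nat_lit 362) (nat_lit 5) (nat_lit 372) (nat_lit 5) (nat_lit 373) (nat_lit 5) (nat_lit 597) (nat_lit 559) (nat_lit 404)) (XT.nd (nat_lit 78) (nat_lit 836) (nat_lit 0) (XT.lf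 (nat_lit 0) (nat_lit 3629192619) (nat_lit 836) (nat_lit 5032931179) (nat_lit 76) (nat_lit 4918926855) (nat_lit 362) (nat_lit 5) (nat_lit 373) (nat_lit 5) (nat_lit 363) (nat_lit 5) (nat_lit 598) (nat_lit 559) (nat_lit 403)) (XT.lf (nat_lit 0) (nat_lit 2614150035) (nat_lit 836) (nat_lit 3048688164) (nat_lit 912) (nat_lit 8064260664) (nat_lit 351) (nat_lit 5) (nat_lit 362) (nat_lit 5) (nat_lit 363) (nat_lit 5) (nat_lit 599) (nat_lit 559) (nat_lit 402)))))) (XT.nd (nat_lit 468) (nat_lit 2812) (nat_lit 0) (XT.nd (nat_lit 234) (nat_lit 1520) (nat_lit 0) (XT.nd (nat_lit 78) (nat_lit 760) (nat_lit 0) (XT.lf (nat_lit 0) (nat_lit 7777393498) (nat_lit 912) (nat_lit 3422504724) (nat_lit 76) (nat_lit 2675366615) (nat_lit 351) (nat_lit 5) (nat_lit 363) (nat_lit 5) (nat_lit 352) (nat_lit 5) (nat_lit 600) (nat_lit 559) (nat_lit 401)) (XT.nd (nat_lit 78) (nat_lit 0) (nat_lit 0) (XT.lf (nat_lit 0) (nat_lit 4448227869) (nat_lit 760) (nat_lit 5524159881) (nat_lit 836) (nat_lit 4053244924)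 (nat_lit 341) (nat_lit 5) (nat_lit 351) (nat_lit 5) (nat_lit 352) (nat_lit 5) (nat_lit 601) (nat_lit 559) (nat_lit 400)) (XT.lf (nat_lit 0) (nat_lit 12225332627) (nat_lit 836) (nat_lit 1669458567) (nat_lit 76) (nat_lit 283937133) (nat_lit 341) (nat_lit 5) (nat_lit 352) (nat_lit 5) (nat_lit 342) (nat_lit 5) (nat_lit 602) (nat_lit 559) (nat_lit 399)))) (XT.nd (nat_lit 78) (nat_lit 684) (nat_lit 0) (XT.lf (nat_lit 0) (nat_lit 254198786) (nat_lit 836) (nat_lit 7902346789) (nat_lit 76) (nat_lit 6176952868) (nat_lit 330) (nat_lit 5) (nat_lit 341) (nat_lit 5) (nat_lit 331) (nat_lit 5) (nat_lit 603) (nat_lit 559) (nat_lit 398)) (XT.nd (nat_lit 78) (nat_lit 0) (nat_lit 0) (XT.lf (nat_lit 0) (nat_lit 203281241) (nat_lit 684) (nat_lit 2278613793) (nat_lit 760) (nat_lit 12009169959) (nat_lit 321) (nat_lit 5) (nat_lit 330) (nat_lit 5) (nat_lit 331) (nat_lit 5) (nat_lit 604) (nat_lit 559) (nat_lit 397)) (XT.lf (nat_lit 0) (nat_lit 4821265621) (nat_lit 760) (nat_lit 6108828896) (nat_lit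 76) (nat_lit 3720347311) (nat_lit 321) (nat_lit 5) (nat_lit 331) (nat_lit 5) (nat_lit 322) (nat_lit 5) (nat_lit 605) (nat_lit 559) (nat_lit 396))))) (XT.nd (nat_lit 234) (nat_lit 1368) (nat_lit 0) (XT.nd (nat_lit 78) (nat_lit 684) (nat_lit 0) (XT.lf (nat_lit 0) (nat_lit 2236413304) (nat_lit 760) (nat_lit 4990432410) (nat_lit 836) (nat_lit 7585773378) (nat_lit 311) (nat_lit 5) (nat_lit 321) (nat_lit 5) (nat_lit 322) (nat_lit 5) (nat_lit 606) (nat_lit 559) (nat_lit 395)) (XT.nd (nat_lit 78) (nat_lit 684) (nat_lit 0) (XT.lf (nat_lit 0) (nat_lit 9718664658) (nat_lit 836) (nat_lit 4164708896) (nat_lit 76) (nat_lit 1093905110) (nat_lit 311) (nat_lit 5) (nat_lit 322) (nat_lit 5) (nat_lit 312) (nat_lit 5) (nat_lit 607) (nat_lit 559) (nat_lit 394)) (XT.lf (nat_lit 0) (nat_lit 4428629210) (nat_lit 684) (nat_lit 7883619078) (nat_lit 760) (nat_lit 2831945858) (nat_lit 302) (nat_lit 5) (nat_lit 311) (nat_lit 5) (nat_lit 312) (nat_lit 5) (nat_lit 608) (nat_lit 559) (nat_lit 393))))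 (XT.nd (nat_lit 156) (nat_lit 608) (nat_lit 0) (XT.nd (nat_lit 78) (nat_lit 760) (nat_lit 0) (XT.lf (nat_lit 0) (nat_lit 13238941180) (nat_lit 684) (nat_lit 1736955236) (nat_lit 760) (nat_lit 338188923) (nat_lit 302) (nat_lit 5) (nat_lit 311) (nat_lit 5) (nat_lit 312) (nat_lit 5) (nat_lit 609) (nat_lit 559) (nat_lit 392)) (XT.lf (nat_lit 0) (nat_lit 2240857437) (nat_lit 760) (nat_lit 8714485872) (nat_lit 76) (nat_lit 4530459089) (nat_lit 292) (nat_lit 5) (nat_lit 302) (nat_lit 5) (nat_lit 293) (nat_lit 5) (nat_lit 610) (nat_lit 559) (nat_lit 391))) (XT.nd (nat_lit 78) (nat_lit 0) (nat_lit 0) (XT.lf (nat_lit 0) (nat_lit 138785703) (nat_lit 608) (nat_lit 4745074062) (nat_lit 684) (nat_lit 10776712443) (nat_lit 284) (nat_lit 5) (nat_lit 292) (nat_lit 5) (nat_lit 293) (nat_lit 5) (nat_lit 611) (nat_lit 559) (nat_lit 390)) (XT.lf (nat_lit 0) (nat_lit 7639486433) (nat_lit 684) (nat_lit 6572586980) (nat_lit 76) (nat_lit 1625569877) (nat_lit 284) (nat_lit 5) (nat_lit 293) (nat_lit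 5) (nat_lit 285) (nat_lit 5) (nat_lit 612) (nat_lit 559) (nat_lit 389))))))) (XT.nd (nat_lit 936) (nat_lit 4104) (nat_lit 0) (XT.nd (nat_lit 468) (nat_lit 1748) (nat_lit 0) (XT.nd (nat_lit 234) (nat_lit 1140) (nat_lit 0) (XT.nd (nat_lit 78) (nat_lit 684) (nat_lit 0) (XT.lf (nat_lit 0) (nat_lit 2546330250) (nat_lit 684) (nat_lit 7942615697) (nat_lit 760) (nat_lit 5528536580) (nat_lit 275) (nat_lit 5) (nat_lit 284) (nat_lit 5) (nat_lit 285) (nat_lit 5) (nat_lit 613) (nat_lit 559) (nat_lit 388)) (XT.nd (nat_lit 78) (nat_lit 684) (nat_lit 0) (XT.lf (nat_lit 0) (nat_lit 11925555371) (nat_lit 684) (nat_lit 1504816940) (nat_lit 760) (nat_lit 2769847800) (nat_lit 275) (nat_lit 5) (nat_lit 284) (nat_lit 5) (nat_lit 285) (nat_lit 5) (nat_lit 614) (nat_lit 559) (nat_lit 387)) (XT.lf (nat_lit 0) (nat_lit 101018726) (nat_lit 684) (nat_lit 11257089160) (nat_lit 76) (nat_lit 5027348296) (nat_lit 266) (nat_lit 5) (nat_lit 275) (nat_lit 5) (nat_lit 267) (nat_lit 5) (nat_lit 615) (nat_lit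 559) (nat_lit 386)))) (XT.nd (nat_lit 78) (nat_lit 1140) (nat_lit 0) (XT.lf (nat_lit 0) (nat_lit 3022172377) (nat_lit 684) (nat_lit 1836076926) (nat_lit 76) (nat_lit 11715183388) (nat_lit 266) (nat_lit 5) (nat_lit 275) (nat_lit 5) (nat_lit 267) (nat_lit 5) (nat_lit 616) (nat_lit 559) (nat_lit 385)) (XT.nd (nat_lit 78) (nat_lit 532) (nat_lit 0) (XT.lf (nat_lit 0) (nat_lit 6055901358) (nat_lit 684) (nat_lit 8910575142) (nat_lit 76) (nat_lit 1797610218) (nat_lit 258) (nat_lit 5) (nat_lit 267) (nat_lit 5) (nat_lit 259) (nat_lit 5) (nat_lit 617) (nat_lit 559) (nat_lit 384)) (XT.lf (nat_lit 0) (nat_lit 770293137) (nat_lit 532) (nat_lit 8420933271) (nat_lit 608) (nat_lit 7766509998) (nat_lit 251) (nat_lit 5) (nat_lit 258) (nat_lit 5) (nat_lit 259) (nat_lit 5) (nat_lit 618) (nat_lit 559) (nat_lit 383))))) (XT.nd (nat_lit 234) (nat_lit 1064) (nat_lit 0) (XT.nd (nat_lit 78) (nat_lit 684) (nat_lit 0) (XT.lf (nat_lit 0) (nat_lit 10754609604) (nat_lit 532) (nat_lit 1685885372) (nat_lit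 608) (nat_lit 4713740363) (nat_lit 251) (nat_lit 5) (nat_lit 258) (nat_lit 5) (nat_lit 259) (nat_lit 5) (nat_lit 619) (nat_lit 559) (nat_lit 382)) (XT.nd (nat_lit 78) (nat_lit 76) (nat_lit 0) (XT.lf (nat_lit 0) (nat_lit 3586434713) (nat_lit 608) (nat_lit 12216851705) (nat_lit 684) (nat_lit 1550408056) (nat_lit 243) (nat_lit 5) (nat_lit 251) (nat_lit 5) (nat_lit 252) (nat_lit 5) (nat_lit 620) (nat_lit 559) (nat_lit 381)) (XT.lf (nat_lit 0) (nat_lit 1700234892) (nat_lit 684) (nat_lit 3730584607) (nat_lit 76) (nat_lit 12125186015) (nat_lit 242) (nat_lit 5) (nat_lit 251) (nat_lit 5) (nat_lit 243) (nat_lit 5) (nat_lit 621) (nat_lit 559) (nat_lit 380)))) (XT.nd (nat_lit 78) (nat_lit 532) (nat_lit 0) (XT.lf (nat_lit 0) (nat_lit 5039632019) (nat_lit 608) (nat_lit 11199452715) (nat_lit 76) (nat_lit 1522183970) (nat_lit 235) (nat_lit 5) (nat_lit 243) (nat_lit 5) (nat_lit 236) (nat_lit 5) (nat_lit 622) (nat_lit 559) (nat_lit 379)) (XT.nd (nat_lit 78) (nat_lit 532) (nat_lit 0) (XT.lf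 (nat_lit 0) (nat_lit 8498855500) (nat_lit 608) (nat_lit 906429579) (nat_lit 76) (nat_lit 8564292209) (nat_lit 235) (nat_lit 5) (nat_lit 243) (nat_lit 5) (nat_lit 236) (nat_lit 5) (nat_lit 623) (nat_lit 559) (nat_lit 378)) (XT.lf (nat_lit 0) (nat_lit 9709208427) (nat_lit 532) (nat_lit 2373125745) (nat_lit 608) (nat_lit 6098617337) (nat_lit 228) (nat_lit 5) (nat_lit 235) (nat_lit 5) (nat_lit 236) (nat_lit 5) (nat_lit 624) (nat_lit 559) (nat_lit 377)))))) (XT.nd (nat_lit 468) (nat_lit 1976) (nat_lit 0) (XT.nd (nat_lit 234) (nat_lit 988) (nat_lit 0) (XT.nd (nat_lit 78) (nat_lit 608) (nat_lit 0) (XT.lf (nat_lit 0) (nat_lit 2139212372) (nat_lit 532) (nat_lit 13641547789) (nat_lit 608) (nat_lit 2614928363) (nat_lit 221) (nat_lit 5) (nat_lit 228) (nat_lit 5) (nat_lit 229) (nat_lit 5) (nat_lit 625) (nat_lit 559) (nat_lit 376)) (XT.nd (nat_lit 78) (nat_lit 532) (nat_lit 0) (XT.lf (nat_lit 0) (nat_lit 991205586) (nat_lit 608) (nat_lit 5569235698) (nat_lit 76) (nat_lit 12052856385)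 (nat_lit 220) (nat_lit 5) (nat_lit 228) (nat_lit 5) (nat_lit 221) (nat_lit 5) (nat_lit 626) (nat_lit 559) (nat_lit 375)) (XT.lf (nat_lit 0) (nat_lit 4666293966) (nat_lit 608) (nat_lit 13464559622) (nat_lit 76) (nat_lit 703423619) (nat_lit 213) (nat_lit 5) (nat_lit 221) (nat_lit 5) (nat_lit 214) (nat_lit 5) (nat_lit 627) (nat_lit 559) (nat_lit 374)))) (XT.nd (nat_lit 78) (nat_lit 988) (nat_lit 0) (XT.lf (nat_lit 0) (nat_lit 8488306928) (nat_lit 608) (nat_lit 2510227842) (nat_lit 76) (nat_lit 8059673906) (nat_lit 213) (nat_lit 5) (nat_lit 221) (nat_lit 5) (nat_lit 214) (nat_lit 5) (nat_lit 628) (nat_lit 559) (nat_lit 373)) (XT.nd (nat_lit 78) (nat_lit 532) (nat_lit 0) (XT.lf (nat_lit 0) (nat_lit 8767841987) (nat_lit 456) (nat_lit 3668350865) (nat_lit 532) (nat_lit 6849438050) (nat_lit 207) (nat_lit 5) (nat_lit 213) (nat_lit 5) (nat_lit 214) (nat_lit 5) (nat_lit 629) (nat_lit 559) (nat_lit 372)) (XT.lf (nat_lit 0) (nat_lit 763000918) (nat_lit 532) (nat_lit 15739240632) (nat_lit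 608) (nat_lit 3014576688) (nat_lit 200) (nat_lit 5) (nat_lit 207) (nat_lit 5) (nat_lit 208) (nat_lit 5) (nat_lit 630) (nat_lit 559) (nat_lit 371))))) (XT.nd (nat_lit 234) (nat_lit 1444) (nat_lit 0) (XT.nd (nat_lit 78) (nat_lit 456) (nat_lit 0) (XT.lf (nat_lit 0) (nat_lit 973155786) (nat_lit 608) (nat_lit 7380258251) (nat_lit 76) (nat_lit 11397340786) (nat_lit 199) (nat_lit 5) (nat_lit 207) (nat_lit 5) (nat_lit 200) (nat_lit 5) (nat_lit 631) (nat_lit 559) (nat_lit 370)) (XT.nd (nat_lit 78) (nat_lit 0) (nat_lit 0) (XT.lf (nat_lit 0) (nat_lit 4246269543) (nat_lit 456) (nat_lit 774357608) (nat_lit 532) (nat_lit 14967938196) (nat_lit 193) (nat_lit 5) (nat_lit 199) (nat_lit 5) (nat_lit 200) (nat_lit 5) (nat_lit 632) (nat_lit 559) (nat_lit 369)) (XT.lf (nat_lit 0) (nat_lit 9236865207) (nat_lit 532) (nat_lit 4080551758) (nat_lit 76) (nat_lit 6911959478) (nat_lit 193) (nat_lit 5) (nat_lit 200) (nat_lit 5) (nat_lit 194) (nat_lit 5) (nat_lit 633) (nat_lit 559) (nat_lit 368)))) (XT.nd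 (nat_lit 156) (nat_lit 988) (nat_lit 0) (XT.nd (nat_lit 78) (nat_lit 0) (nat_lit 0) (XT.lf (nat_lit 0) (nat_lit 7902861464) (nat_lit 456) (nat_lit 5683945649) (nat_lit 532) (nat_lit 6887209762) (nat_lit 187) (nat_lit 5) (nat_lit 193) (nat_lit 5) (nat_lit 194) (nat_lit 5) (nat_lit 634) (nat_lit 559) (nat_lit 367)) (XT.lf (nat_lit 0) (nat_lit 18057954659) (nat_lit 532) (nat_lit 565716074) (nat_lit 76) (nat_lit 2099195926) (nat_lit 187) (nat_lit 5) (nat_lit 194) (nat_lit 5) (nat_lit 188) (nat_lit 5) (nat_lit 635) (nat_lit 559) (nat_lit 366))) (XT.nd (nat_lit 78) (nat_lit 456) (nat_lit 0) (XT.lf (nat_lit 0) (nat_lit 1728310063) (nat_lit 532) (nat_lit 9199082562) (nat_lit 76) (nat_lit 10046928047) (nat_lit 180) (nat_lit 5) (nat_lit 187) (nat_lit 5) (nat_lit 181) (nat_lit 5) (nat_lit 636) (nat_lit 559) (nat_lit 365)) (XT.lf (nat_lit 0) (nat_lit 3153672676) (nat_lit 456) (nat_lit 3037527440) (nat_lit 532) (nat_lit 15038902254) (nat_lit 174) (nat_lit 5) (nat_lit 180) (nat_lit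 5) (nat_lit 181) (nat_lit 5) (nat_lit 637) (nat_lit 559) (nat_lit 364))))))))
noncomputable def xc173 : XT := (XT.nd (nat_lit 75582) (nat_lit 0) (nat_lit 22876) (XT.nd (nat_lit 936) (nat_lit 1444) (nat_lit 0) (XT.nd (nat_lit 468) (nat_lit 1520) (nat_lit 0) (XT.nd (nat_lit 234) (nat_lit 912) (nat_lit 0) (XT.nd (nat_lit 78) (nat_lit 380) (nat_lit 0) (XT.lf (nat_lit 0) (nat_lit 10831222427) (nat_lit 532) (nat_lit 5654540959) (nat_lit 76) (nat_lit 5003479455) (nat_lit 174) (nat_lit 5) (nat_lit 181) (nat_lit 5) (nat_lit 175) (nat_lit 5) (nat_lit 638) (nat_lit 559) (nat_lit 363)) (XT.nd (nat_lit 78) (nat_lit 0) (nat_lit 0) (XT.lf (nat_lit 0) (nat_lit 7078687197) (nat_lit 380) (nat_lit 8544772652) (nat_lit 456) (nat_lit 6128918597) (nat_lit 169) (nat_lit 5) (nat_lit 174) (nat_lit 5) (nat_lit 175) (nat_lit 5) (nat_lit 639) (nat_lit 559) (nat_lit 362)) (XT.lf (nat_lit 0) (nat_lit 20133472784) (nat_lit 380) (nat_lit 409420504) (nat_lit 456) (nat_lit 1477257055) (nat_lit 169) (nat_lit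 5) (nat_lit 174) (nat_lit 5) (nat_lit 175) (nat_lit 5) (nat_lit 640) (nat_lit 559) (nat_lit 361)))) (XT.nd (nat_lit 78) (nat_lit 380) (nat_lit 0) (XT.lf (nat_lit 0) (nat_lit 3343092144) (nat_lit 532) (nat_lit 11070284829) (nat_lit 76) (nat_lit 7877106848) (nat_lit 162) (nat_lit 5) (nat_lit 169) (nat_lit 5) (nat_lit 163) (nat_lit 5) (nat_lit 641) (nat_lit 559) (nat_lit 360)) (XT.nd (nat_lit 78) (nat_lit 0) (nat_lit 0) (XT.lf (nat_lit 0) (nat_lit 2053472801) (nat_lit 380) (nat_lit 6208939030) (nat_lit 456) (nat_lit 14303170534) (nat_lit 157) (nat_lit 5) (nat_lit 162) (nat_lit 5) (nat_lit 163) (nat_lit 5) (nat_lit 642) (nat_lit 559) (nat_lit 359)) (XT.lf (nat_lit 0) (nat_lit 13362499111) (nat_lit 456) (nat_lit 7279185294) (nat_lit 76) (nat_lit 2202851410) (nat_lit 157) (nat_lit 5) (nat_lit 163) (nat_lit 5) (nat_lit 158) (nat_lit 5) (nat_lit 643) (nat_lit 559) (nat_lit 358))))) (XT.nd (nat_lit 234) (nat_lit 684) (nat_lit 0) (XT.nd (nat_lit 78) (nat_lit 456) (nat_lit 0) (XT.lf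 (nat_lit 0) (nat_lit 6249694600) (nat_lit 380) (nat_lit 12390295691) (nat_lit 456) (nat_lit 4487570547) (nat_lit 152) (nat_lit 5) (nat_lit 157) (nat_lit 5) (nat_lit 158) (nat_lit 5) (nat_lit 644) (nat_lit 559) (nat_lit 357)) (XT.nd (nat_lit 78) (nat_lit 380) (nat_lit 0) (XT.lf (nat_lit 0) (nat_lit 641723696) (nat_lit 456) (nat_lit 3281280196) (nat_lit 76) (nat_lit 19492306266) (nat_lit 151) (nat_lit 5) (nat_lit 157) (nat_lit 5) (nat_lit 152) (nat_lit 5) (nat_lit 645) (nat_lit 559) (nat_lit 356)) (XT.lf (nat_lit 0) (nat_lit 5908055705) (nat_lit 456) (nat_lit 13049880754) (nat_lit 76) (nat_lit 4748394456) (nat_lit 146) (nat_lit 5) (nat_lit 152) (nat_lit 5) (nat_lit 147) (nat_lit 5) (nat_lit 646) (nat_lit 559) (nat_lit 355)))) (XT.nd (nat_lit 78) (nat_lit 304) (nat_lit 0) (XT.lf (nat_lit 0) (nat_lit 890816330) (nat_lit 380) (nat_lit 10436715213) (nat_lit 456) (nat_lit 12674684705) (nat_lit 141) (nat_lit 5) (nat_lit 146) (nat_lit 5) (nat_lit 147) (nat_lit 5) (nat_lit 647)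 (nat_lit 559) (nat_lit 354)) (XT.nd (nat_lit 78) (nat_lit 304) (nat_lit 0) (XT.lf (nat_lit 0) (nat_lit 15277860973) (nat_lit 380) (nat_lit 1659054874) (nat_lit 456) (nat_lit 7365473558) (nat_lit 141) (nat_lit 5) (nat_lit 146) (nat_lit 5) (nat_lit 147) (nat_lit 5) (nat_lit 648) (nat_lit 559) (nat_lit 353)) (XT.lf (nat_lit 0) (nat_lit 5357713837) (nat_lit 304) (nat_lit 17376963350) (nat_lit 380) (nat_lit 1872365538) (nat_lit 137) (nat_lit 5) (nat_lit 141) (nat_lit 5) (nat_lit 142) (nat_lit 5) (nat_lit 649) (nat_lit 559) (nat_lit 352)))))) (XT.nd (nat_lit 468) (nat_lit 304) (nat_lit 0) (XT.nd (nat_lit 234) (nat_lit 684) (nat_lit 0) (XT.nd (nat_lit 78) (nat_lit 380) (nat_lit 0) (XT.lf (nat_lit 0) (nat_lit 3747687009) (nat_lit 380) (nat_lit 4811550709) (nat_lit 76) (nat_lit 16356747231) (nat_lit 136) (nat_lit 5) (nat_lit 141) (nat_lit 5) (nat_lit 137) (nat_lit 5) (nat_lit 650) (nat_lit 559) (nat_lit 351)) (XT.nd (nat_lit 78) (nat_lit 0) (nat_lit 0) (XT.lf (nat_lit 0) (nat_lit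 9517675619) (nat_lit 456) (nat_lit 15208037556) (nat_lit 76) (nat_lit 503893653) (nat_lit 131) (nat_lit 5) (nat_lit 137) (nat_lit 5) (nat_lit 132) (nat_lit 5) (nat_lit 651) (nat_lit 559) (nat_lit 350)) (XT.lf (nat_lit 0) (nat_lit 15486462429) (nat_lit 456) (nat_lit 398325531) (nat_lit 76) (nat_lit 9663045666) (nat_lit 131) (nat_lit 5) (nat_lit 137) (nat_lit 5) (nat_lit 132) (nat_lit 5) (nat_lit 652) (nat_lit 559) (nat_lit 349)))) (XT.nd (nat_lit 78) (nat_lit 380) (nat_lit 0) (XT.lf (nat_lit 0) (nat_lit 14893950798) (nat_lit 304) (nat_lit 6771701927) (nat_lit 380) (nat_lit 4204952121) (nat_lit 127) (nat_lit 5) (nat_lit 131) (nat_lit 5) (nat_lit 132) (nat_lit 5) (nat_lit 653) (nat_lit 559) (nat_lit 348)) (XT.nd (nat_lit 78) (nat_lit 0) (nat_lit 0) (XT.lf (nat_lit 0) (nat_lit 1787216026) (nat_lit 380) (nat_lit 21881690715) (nat_lit 76) (nat_lit 2529859191) (nat_lit 122) (nat_lit 5) (nat_lit 127) (nat_lit 5) (nat_lit 123) (nat_lit 5) (nat_lit 654) (nat_lit 559) (nat_lit 347))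 (XT.lf (nat_lit 0) (nat_lit 7956342055) (nat_lit 380) (nat_lit 6548742697) (nat_lit 76) (nat_lit 12025581632) (nat_lit 122) (nat_lit 5) (nat_lit 127) (nat_lit 5) (nat_lit 123) (nat_lit 5) (nat_lit 655) (nat_lit 559) (nat_lit 346))))) (XT.nd (nat_lit 73866) (nat_lit 0) (nat_lit 30020) (XT.nd (nat_lit 73710) (nat_lit 0) (nat_lit 30020) (XT.lf (nat_lit 0) (nat_lit 9202721133) (nat_lit 304) (nat_lit 5100363517) (nat_lit 380) (nat_lit 12565035921) (nat_lit 118) (nat_lit 5) (nat_lit 122) (nat_lit 5) (nat_lit 123) (nat_lit 5) (nat_lit 656) (nat_lit 559) (nat_lit 345)) (XT.nd (nat_lit 78) (nat_lit 0) (nat_lit 0) (XT.lf (nat_lit 0) (nat_lit 124081987) (nat_lit 0) (nat_lit 124081987) (nat_lit 1596) (nat_lit 4511734665) (nat_lit 513) (nat_lit 5) (nat_lit 513) (nat_lit 3) (nat_lit 534) (nat_lit 3) (nat_lit 560) (nat_lit 560) (nat_lit 440)) (XT.lf (nat_lit 0) (nat_lit 1317051573) (nat_lit 1596) (nat_lit 4621145172) (nat_lit 1672) (nat_lit 3660351654) (nat_lit 513) (nat_lit 5) (nat_lit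 534) (nat_lit 3) (nat_lit 535) (nat_lit 5) (nat_lit 561) (nat_lit 560) (nat_lit 439)))) (XT.nd (nat_lit 156) (nat_lit 0) (nat_lit 76) (XT.nd (nat_lit 78) (nat_lit 0) (nat_lit 76) (XT.lf (nat_lit 76) (nat_lit 111299768) (nat_lit 0) (nat_lit 2024557387) (nat_lit 1672) (nat_lit 7543387489) (nat_lit 514) (nat_lit 5) (nat_lit 513) (nat_lit 5) (nat_lit 535) (nat_lit 5) (nat_lit 562) (nat_lit 560) (nat_lit 438)) (XT.lf (nat_lit 0) (nat_lit 2994727144) (nat_lit 1596) (nat_lit 4784149338) (nat_lit 1672) (nat_lit 1982207951) (nat_lit 514) (nat_lit 5) (nat_lit 535) (nat_lit 5) (nat_lit 536) (nat_lit 5) (nat_lit 563) (nat_lit 560) (nat_lit 437))) (XT.nd (nat_lit 78) (nat_lit 0) (nat_lit 76) (XT.lf (nat_lit 76) (nat_lit 71806754) (nat_lit 0) (nat_lit 3792938953) (nat_lit 1672) (nat_lit 5979939207) (nat_lit 515) (nat_lit 5) (nat_lit 514) (nat_lit 5) (nat_lit 536) (nat_lit 5) (nat_lit 564) (nat_lit 560) (nat_lit 436)) (XT.lf (nat_lit 0) (nat_lit 4766724231) (nat_lit 1596) (nat_lit 4852993788)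 (nat_lit 1672) (nat_lit 309951448) (nat_lit 515) (nat_lit 5) (nat_lit 536) (nat_lit 5) (nat_lit 537) (nat_lit 5) (nat_lit 565) (nat_lit 560) (nat_lit 435))))))) (XT.nd (nat_lit 936) (nat_lit 5776) (nat_lit 0) (XT.nd (nat_lit 468) (nat_lit 0) (nat_lit 0) (XT.nd (nat_lit 234) (nat_lit 1520) (nat_lit 0) (XT.nd (nat_lit 78) (nat_lit 0) (nat_lit 0) (XT.lf (nat_lit 76) (nat_lit 130679863) (nat_lit 0) (nat_lit 5562884777) (nat_lit 1672) (nat_lit 4322655814) (nat_lit 516) (nat_lit 5) (nat_lit 515) (nat_lit 5) (nat_lit 537) (nat_lit 5) (nat_lit 566) (nat_lit 560) (nat_lit 434)) (XT.nd (nat_lit 78) (nat_lit 0) (nat_lit 76) (XT.lf (nat_lit 76) (nat_lit 5268680807) (nat_lit 0) (nat_lit 1383985378) (nat_lit 1672) (nat_lit 3451564917) (nat_lit 516) (nat_lit 5) (nat_lit 515) (nat_lit 5) (nat_lit 537) (nat_lit 5) (nat_lit 567) (nat_lit 560) (nat_lit 433)) (XT.lf (nat_lit 76) (nat_lit 289210612) (nat_lit 0) (nat_lit 7343882697) (nat_lit 1672) (nat_lit 2560868850) (nat_lit 517) (nat_lit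 5) (nat_lit 516) (nat_lit 5) (nat_lit 538) (nat_lit 5) (nat_lit 568) (nat_lit 560) (nat_lit 432)))) (XT.nd (nat_lit 78) (nat_lit 1596) (nat_lit 0) (XT.lf (nat_lit 76) (nat_lit 5561468024) (nat_lit 0) (nat_lit 3095080069) (nat_lit 1672) (nat_lit 1628474367) (nat_lit 517) (nat_lit 5) (nat_lit 516) (nat_lit 5) (nat_lit 538) (nat_lit 5) (nat_lit 569) (nat_lit 560) (nat_lit 431)) (XT.nd (nat_lit 78) (nat_lit 1672) (nat_lit 0) (XT.lf (nat_lit 76) (nat_lit 548984032) (nat_lit 0) (nat_lit 9145358989) (nat_lit 1672) (nat_lit 683686472) (nat_lit 518) (nat_lit 5) (nat_lit 517) (nat_lit 5) (nat_lit 539) (nat_lit 5) (nat_lit 570) (nat_lit 560) (nat_lit 430)) (XT.lf (nat_lit 0) (nat_lit 311149344) (nat_lit 1672) (nat_lit 4515386843) (nat_lit 1748) (nat_lit 5645630468) (nat_lit 495) (nat_lit 5) (nat_lit 517) (nat_lit 5) (nat_lit 518) (nat_lit 5) (nat_lit 571) (nat_lit 560) (nat_lit 429))))) (XT.nd (nat_lit 234) (nat_lit 0) (nat_lit 152) (XT.nd (nat_lit 78) (nat_lit 0) (nat_lit 76) (XT.lf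 (nat_lit 76) (nat_lit 900452947) (nat_lit 0) (nat_lit 404893681) (nat_lit 1748) (nat_lit 9262979939) (nat_lit 496) (nat_lit 5) (nat_lit 495) (nat_lit 5) (nat_lit 518) (nat_lit 5) (nat_lit 572) (nat_lit 560) (nat_lit 428)) (XT.nd (nat_lit 78) (nat_lit 0) (nat_lit 0) (XT.lf (nat_lit 0) (nat_lit 2359648543) (nat_lit 1672) (nat_lit 4218519122) (nat_lit 1748) (nat_lit 4087440320) (nat_lit 496) (nat_lit 5) (nat_lit 518) (nat_lit 5) (nat_lit 519) (nat_lit 5) (nat_lit 573) (nat_lit 560) (nat_lit 427)) (XT.lf (nat_lit 76) (nat_lit 1343309760) (nat_lit 0) (nat_lit 2086527687) (nat_lit 1748) (nat_lit 7335104236) (nat_lit 497) (nat_lit 5) (nat_lit 496) (nat_lit 5) (nat_lit 519) (nat_lit 5) (nat_lit 574) (nat_lit 560) (nat_lit 426)))) (XT.nd (nat_lit 78) (nat_lit 0) (nat_lit 0) (XT.lf (nat_lit 0) (nat_lit 4549806801) (nat_lit 1672) (nat_lit 3820259493) (nat_lit 1748) (nat_lit 2495630845) (nat_lit 497) (nat_lit 5) (nat_lit 519) (nat_lit 5) (nat_lit 520) (nat_lit 5) (nat_lit 575) (nat_lit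 560) (nat_lit 425)) (XT.nd (nat_lit 78) (nat_lit 0) (nat_lit 76) (XT.lf (nat_lit 76) (nat_lit 1892639081) (nat_lit 0) (nat_lit 3809644632) (nat_lit 1748) (nat_lit 5265984393) (nat_lit 498) (nat_lit 5) (nat_lit 497) (nat_lit 5) (nat_lit 520) (nat_lit 5) (nat_lit 576) (nat_lit 560) (nat_lit 424)) (XT.lf (nat_lit 0) (nat_lit 6893352041) (nat_lit 1672) (nat_lit 3318209670) (nat_lit 1748) (nat_lit 861020459) (nat_lit 498) (nat_lit 5) (nat_lit 520) (nat_lit 5) (nat_lit 521) (nat_lit 5) (nat_lit 577) (nat_lit 560) (nat_lit 423)))))) (XT.nd (nat_lit 468) (nat_lit 4332) (nat_lit 0) (XT.nd (nat_lit 234) (nat_lit 1672) (nat_lit 0) (XT.nd (nat_lit 78) (nat_lit 0) (nat_lit 0) (XT.lf (nat_lit 76) (nat_lit 2551041254) (nat_lit 0) (nat_lit 5583570834) (nat_lit 1748) (nat_lit 3043845486) (nat_lit 499) (nat_lit 5) (nat_lit 498) (nat_lit 5) (nat_lit 521) (nat_lit 5) (nat_lit 578) (nat_lit 560) (nat_lit 422)) (XT.nd (nat_lit 78) (nat_lit 0) (nat_lit 76) (XT.lf (nat_lit 76) (nat_lit 8571187608)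 (nat_lit 0) (nat_lit 836582462) (nat_lit 1748) (nat_lit 1878541381) (nat_lit 499) (nat_lit 5) (nat_lit 498) (nat_lit 5) (nat_lit 521) (nat_lit 5) (nat_lit 579) (nat_lit 560) (nat_lit 421)) (XT.lf (nat_lit 76) (nat_lit 3321401980) (nat_lit 0) (nat_lit 7417686772) (nat_lit 1748) (nat_lit 656582071) (nat_lit 500) (nat_lit 5) (nat_lit 499) (nat_lit 5) (nat_lit 522) (nat_lit 5) (nat_lit 580) (nat_lit 560) (nat_lit 420)))) (XT.nd (nat_lit 78) (nat_lit 0) (nat_lit 76) (XT.lf (nat_lit 0) (nat_lit 591206822) (nat_lit 1748) (nat_lit 2012571055) (nat_lit 1824) (nat_lit 8903182676) (nat_lit 476) (nat_lit 5) (nat_lit 499) (nat_lit 5) (nat_lit 500) (nat_lit 5) (nat_lit 581) (nat_lit 560) (nat_lit 419)) (XT.nd (nat_lit 78) (nat_lit 0) (nat_lit 0) (XT.lf (nat_lit 0) (nat_lit 1883239113) (nat_lit 1748) (nat_lit 7425574760) (nat_lit 1824) (nat_lit 2311016053) (nat_lit 477) (nat_lit 5) (nat_lit 500) (nat_lit 5) (nat_lit 501) (nat_lit 5) (nat_lit 582) (nat_lit 560) (nat_lit 418)) (XT.lf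 (nat_lit 0) (nat_lit 3217713220) (nat_lit 1748) (nat_lit 1211212245) (nat_lit 1824) (nat_lit 7305701387) (nat_lit 477) (nat_lit 5) (nat_lit 500) (nat_lit 5) (nat_lit 501) (nat_lit 5) (nat_lit 583) (nat_lit 560) (nat_lit 417))))) (XT.nd (nat_lit 234) (nat_lit 2736) (nat_lit 0) (XT.nd (nat_lit 78) (nat_lit 1748) (nat_lit 0) (XT.lf (nat_lit 0) (nat_lit 4602377184) (nat_lit 1748) (nat_lit 6671164722) (nat_lit 76) (nat_lit 577709951) (nat_lit 478) (nat_lit 5) (nat_lit 501) (nat_lit 5) (nat_lit 479) (nat_lit 5) (nat_lit 584) (nat_lit 560) (nat_lit 416)) (XT.nd (nat_lit 78) (nat_lit 1748) (nat_lit 0) (XT.lf (nat_lit 0) (nat_lit 6038503832) (nat_lit 1748) (nat_lit 295479979) (nat_lit 76) (nat_lit 5635752268) (nat_lit 478) (nat_lit 5) (nat_lit 501) (nat_lit 5) (nat_lit 479) (nat_lit 5) (nat_lit 585) (nat_lit 560) (nat_lit 415)) (XT.lf (nat_lit 0) (nat_lit 6278613086) (nat_lit 1748) (nat_lit 1252031390) (nat_lit 1824) (nat_lit 4559401744) (nat_lit 455) (nat_lit 5) (nat_lit 478)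 (nat_lit 5) (nat_lit 479) (nat_lit 5) (nat_lit 586) (nat_lit 560) (nat_lit 414)))) (XT.nd (nat_lit 156) (nat_lit 1064) (nat_lit 0) (XT.nd (nat_lit 78) (nat_lit 0) (nat_lit 0) (XT.lf (nat_lit 0) (nat_lit 748087030) (nat_lit 1672) (nat_lit 8323649493) (nat_lit 1748) (nat_lit 3140645890) (nat_lit 433) (nat_lit 5) (nat_lit 455) (nat_lit 5) (nat_lit 456) (nat_lit 5) (nat_lit 587) (nat_lit 560) (nat_lit 413)) (XT.lf (nat_lit 0) (nat_lit 7497592742) (nat_lit 1672) (nat_lit 3180206790) (nat_lit 1748) (nat_lit 1658684801) (nat_lit 433) (nat_lit 5) (nat_lit 455) (nat_lit 5) (nat_lit 456) (nat_lit 5) (nat_lit 588) (nat_lit 560) (nat_lit 412))) (XT.nd (nat_lit 78) (nat_lit 76) (nat_lit 0) (XT.lf (nat_lit 0) (nat_lit 1919156169) (nat_lit 988) (nat_lit 10409883059) (nat_lit 1064) (nat_lit 133769898) (nat_lit 420) (nat_lit 5) (nat_lit 433) (nat_lit 5) (nat_lit 434) (nat_lit 5) (nat_lit 589) (nat_lit 560) (nat_lit 411)) (XT.lf (nat_lit 0) (nat_lit 1444016997) (nat_lit 1064) (nat_lit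 3755274163) (nat_lit 76) (nat_lit 7391366144) (nat_lit 419) (nat_lit 5) (nat_lit 433) (nat_lit 5) (nat_lit 420) (nat_lit 5) (nat_lit 590) (nat_lit 560) (nat_lit 410))))))))
noncomputable def xc174 : XT := (XT.nd (nat_lit 1950) (nat_lit 8056) (nat_lit 0) (XT.nd (nat_lit 936) (nat_lit 5016) (nat_lit 0) (XT.nd (nat_lit 468) (nat_lit 2432) (nat_lit 0) (XT.nd (nat_lit 234) (nat_lit 1672) (nat_lit 0) (XT.nd (nat_lit 78) (nat_lit 912) (nat_lit 0) (XT.lf (nat_lit 0) (nat_lit 3060757281) (nat_lit 988) (nat_lit 9523330641) (nat_lit 76) (nat_lit 136774895) (nat_lit 407) (nat_lit 5) (nat_lit 420) (nat_lit 5) (nat_lit 408) (nat_lit 5) (nat_lit 591) (nat_lit 560) (nat_lit 409)) (XT.nd (nat_lit 78) (nat_lit 912) (nat_lit 0) (XT.lf (nat_lit 0) (nat_lit 4757328829) (nat_lit 988) (nat_lit 2559132153) (nat_lit 76) (nat_lit 5536263324) (nat_lit 407) (nat_lit 5) (nat_lit 420) (nat_lit 5) (nat_lit 408) (nat_lit 5) (nat_lit 592) (nat_lit 560) (nat_lit 408)) (XT.lf (nat_lit 0) (nat_lit 4593156253)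 (nat_lit 912) (nat_lit 1912435917) (nat_lit 988) (nat_lit 6481277410) (nat_lit 395) (nat_lit 5) (nat_lit 407) (nat_lit 5) (nat_lit 408) (nat_lit 5) (nat_lit 593) (nat_lit 560) (nat_lit 407)))) (XT.nd (nat_lit 78) (nat_lit 1672) (nat_lit 0) (XT.lf (nat_lit 0) (nat_lit 8317583873) (nat_lit 988) (nat_lit 1235261436) (nat_lit 76) (nat_lit 3570278915) (nat_lit 395) (nat_lit 5) (nat_lit 408) (nat_lit 5) (nat_lit 396) (nat_lit 5) (nat_lit 594) (nat_lit 560) (nat_lit 406)) (XT.nd (nat_lit 78) (nat_lit 836) (nat_lit 0) (XT.lf (nat_lit 0) (nat_lit 6122618993) (nat_lit 836) (nat_lit 4083951696) (nat_lit 912) (nat_lit 3054719859) (nat_lit 384) (nat_lit 5) (nat_lit 395) (nat_lit 5) (nat_lit 396) (nat_lit 5) (nat_lit 595) (nat_lit 560) (nat_lit 405)) (XT.lf (nat_lit 0) (nat_lit 223994717) (nat_lit 836) (nat_lit 11917337794) (nat_lit 912) (nat_lit 1260729442) (nat_lit 373) (nat_lit 5) (nat_lit 384) (nat_lit 5) (nat_lit 385) (nat_lit 5) (nat_lit 596) (nat_lit 560) (nat_lit 404))))) (XT.nd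 (nat_lit 234) (nat_lit 1596) (nat_lit 0) (XT.nd (nat_lit 78) (nat_lit 760) (nat_lit 0) (XT.lf (nat_lit 0) (nat_lit 625513017) (nat_lit 912) (nat_lit 5756678883) (nat_lit 76) (nat_lit 7162107842) (nat_lit 372) (nat_lit 5) (nat_lit 384) (nat_lit 5) (nat_lit 373) (nat_lit 5) (nat_lit 597) (nat_lit 560) (nat_lit 403)) (XT.nd (nat_lit 78) (nat_lit 0) (nat_lit 0) (XT.lf (nat_lit 0) (nat_lit 1817238556) (nat_lit 760) (nat_lit 715968326) (nat_lit 836) (nat_lit 11155998148) (nat_lit 362) (nat_lit 5) (nat_lit 372) (nat_lit 5) (nat_lit 373) (nat_lit 5) (nat_lit 598) (nat_lit 560) (nat_lit 402)) (XT.lf (nat_lit 0) (nat_lit 4539754861) (nat_lit 836) (nat_lit 4260229258) (nat_lit 76) (nat_lit 5035811834) (nat_lit 362) (nat_lit 5) (nat_lit 373) (nat_lit 5) (nat_lit 363) (nat_lit 5) (nat_lit 599) (nat_lit 560) (nat_lit 401)))) (XT.nd (nat_lit 78) (nat_lit 760) (nat_lit 0) (XT.lf (nat_lit 0) (nat_lit 3534047788) (nat_lit 836) (nat_lit 3069227747) (nat_lit 912) (nat_lit 7381707826) (nat_lit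 351) (nat_lit 5) (nat_lit 362) (nat_lit 5) (nat_lit 363) (nat_lit 5) (nat_lit 600) (nat_lit 560) (nat_lit 400)) (XT.nd (nat_lit 78) (nat_lit 760) (nat_lit 0) (XT.lf (nat_lit 0) (nat_lit 8744160090) (nat_lit 912) (nat_lit 2624278635) (nat_lit 76) (nat_lit 2767995397) (nat_lit 351) (nat_lit 5) (nat_lit 363) (nat_lit 5) (nat_lit 352) (nat_lit 5) (nat_lit 601) (nat_lit 560) (nat_lit 399)) (XT.lf (nat_lit 0) (nat_lit 5398166793) (nat_lit 760) (nat_lit 5574571202) (nat_lit 836) (nat_lit 3317279836) (nat_lit 341) (nat_lit 5) (nat_lit 351) (nat_lit 5) (nat_lit 352) (nat_lit 5) (nat_lit 602) (nat_lit 560) (nat_lit 398)))))) (XT.nd (nat_lit 468) (nat_lit 2736) (nat_lit 0) (XT.nd (nat_lit 234) (nat_lit 760) (nat_lit 0) (XT.nd (nat_lit 78) (nat_lit 1520) (nat_lit 0) (XT.lf (nat_lit 0) (nat_lit 13255420177) (nat_lit 836) (nat_lit 843326330) (nat_lit 76) (nat_lit 347737467) (nat_lit 341) (nat_lit 5) (nat_lit 352) (nat_lit 5) (nat_lit 342) (nat_lit 5) (nat_lit 603) (nat_lit 560) (nat_lit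 397)) (XT.nd (nat_lit 78) (nat_lit 684) (nat_lit 0) (XT.lf (nat_lit 0) (nat_lit 1040245025) (nat_lit 836) (nat_lit 7196045351) (nat_lit 76) (nat_lit 6368155655) (nat_lit 330) (nat_lit 5) (nat_lit 341) (nat_lit 5) (nat_lit 331) (nat_lit 5) (nat_lit 604) (nat_lit 560) (nat_lit 396)) (XT.lf (nat_lit 0) (nat_lit 1066008737) (nat_lit 684) (nat_lit 2236748478) (nat_lit 760) (nat_lit 11462603479) (nat_lit 321) (nat_lit 5) (nat_lit 330) (nat_lit 5) (nat_lit 331) (nat_lit 5) (nat_lit 605) (nat_lit 560) (nat_lit 395)))) (XT.nd (nat_lit 78) (nat_lit 760) (nat_lit 0) (XT.lf (nat_lit 0) (nat_lit 5674349741) (nat_lit 760) (nat_lit 5374515507) (nat_lit 76) (nat_lit 3879353111) (nat_lit 321) (nat_lit 5) (nat_lit 331) (nat_lit 5) (nat_lit 322) (nat_lit 5) (nat_lit 606) (nat_lit 560) (nat_lit 394)) (XT.nd (nat_lit 78) (nat_lit 0) (nat_lit 0) (XT.lf (nat_lit 0) (nat_lit 3131996735) (nat_lit 760) (nat_lit 4986732569) (nat_lit 836) (nat_lit 6975098049) (nat_lit 311) (nat_lit 5) (nat_lit 321)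 (nat_lit 5) (nat_lit 322) (nat_lit 5) (nat_lit 607) (nat_lit 560) (nat_lit 393)) (XT.lf (nat_lit 0) (nat_lit 10646389640) (nat_lit 836) (nat_lit 3399741076) (nat_lit 76) (nat_lit 1215931208) (nat_lit 311) (nat_lit 5) (nat_lit 322) (nat_lit 5) (nat_lit 312) (nat_lit 5) (nat_lit 608) (nat_lit 560) (nat_lit 392))))) (XT.nd (nat_lit 234) (nat_lit 1292) (nat_lit 0) (XT.nd (nat_lit 78) (nat_lit 760) (nat_lit 0) (XT.lf (nat_lit 0) (nat_lit 5359883122) (nat_lit 684) (nat_lit 7923053621) (nat_lit 760) (nat_lit 2149559004) (nat_lit 302) (nat_lit 5) (nat_lit 311) (nat_lit 5) (nat_lit 312) (nat_lit 5) (nat_lit 609) (nat_lit 560) (nat_lit 391)) (XT.nd (nat_lit 78) (nat_lit 684) (nat_lit 0) (XT.lf (nat_lit 0) (nat_lit 374604077) (nat_lit 760) (nat_lit 1278657024) (nat_lit 76) (nat_lit 13952760300) (nat_lit 301) (nat_lit 5) (nat_lit 311) (nat_lit 5) (nat_lit 302) (nat_lit 5) (nat_lit 610) (nat_lit 560) (nat_lit 390)) (XT.lf (nat_lit 0) (nat_lit 2992881657) (nat_lit 760) (nat_lit 8045111617)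 (nat_lit 76) (nat_lit 4743293006) (nat_lit 292) (nat_lit 5) (nat_lit 302) (nat_lit 5) (nat_lit 293) (nat_lit 5) (nat_lit 611) (nat_lit 560) (nat_lit 389)))) (XT.nd (nat_lit 156) (nat_lit 684) (nat_lit 0) (XT.nd (nat_lit 78) (nat_lit 0) (nat_lit 0) (XT.lf (nat_lit 0) (nat_lit 979674969) (nat_lit 608) (nat_lit 4700643846) (nat_lit 684) (nat_lit 10279402902) (nat_lit 284) (nat_lit 5) (nat_lit 292) (nat_lit 5) (nat_lit 293) (nat_lit 5) (nat_lit 612) (nat_lit 560) (nat_lit 388)) (XT.lf (nat_lit 0) (nat_lit 8478243308) (nat_lit 684) (nat_lit 5869459452) (nat_lit 76) (nat_lit 1792889447) (nat_lit 284) (nat_lit 5) (nat_lit 293) (nat_lit 5) (nat_lit 285) (nat_lit 5) (nat_lit 613) (nat_lit 560) (nat_lit 387))) (XT.nd (nat_lit 78) (nat_lit 0) (nat_lit 0) (XT.lf (nat_lit 0) (nat_lit 3426345470) (nat_lit 684) (nat_lit 7950279199) (nat_lit 760) (nat_lit 4947566566) (nat_lit 275) (nat_lit 5) (nat_lit 284) (nat_lit 5) (nat_lit 285) (nat_lit 5) (nat_lit 614) (nat_lit 560) (nat_lit 386))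 (XT.lf (nat_lit 0) (nat_lit 12976898454) (nat_lit 684) (nat_lit 1386688954) (nat_lit 760) (nat_lit 2147263633) (nat_lit 275) (nat_lit 5) (nat_lit 284) (nat_lit 5) (nat_lit 285) (nat_lit 5) (nat_lit 615) (nat_lit 560) (nat_lit 385))))))) (XT.nd (nat_lit 936) (nat_lit 3876) (nat_lit 0) (XT.nd (nat_lit 468) (nat_lit 1748) (nat_lit 0) (XT.nd (nat_lit 234) (nat_lit 1140) (nat_lit 0) (XT.nd (nat_lit 78) (nat_lit 608) (nat_lit 0) (XT.lf (nat_lit 0) (nat_lit 765316756) (nat_lit 684) (nat_lit 10653537611) (nat_lit 76) (nat_lit 5280987222) (nat_lit 266) (nat_lit 5) (nat_lit 275) (nat_lit 5) (nat_lit 267) (nat_lit 5) (nat_lit 616) (nat_lit 560) (nat_lit 384)) (XT.nd (nat_lit 78) (nat_lit 608) (nat_lit 0) (XT.lf (nat_lit 0) (nat_lit 3731907644) (nat_lit 684) (nat_lit 1060354022) (nat_lit 76) (nat_lit 12099577213) (nat_lit 266) (nat_lit 5) (nat_lit 275) (nat_lit 5) (nat_lit 267) (nat_lit 5) (nat_lit 617) (nat_lit 560) (nat_lit 383)) (XT.lf (nat_lit 0) (nat_lit 6819893445) (nat_lit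 684) (nat_lit 8269849314) (nat_lit 76) (nat_lit 1996693084) (nat_lit 258) (nat_lit 5) (nat_lit 267) (nat_lit 5) (nat_lit 259) (nat_lit 5) (nat_lit 618) (nat_lit 560) (nat_lit 382)))) (XT.nd (nat_lit 78) (nat_lit 608) (nat_lit 0) (XT.lf (nat_lit 0) (nat_lit 1599248585) (nat_lit 532) (nat_lit 8411353141) (nat_lit 608) (nat_lit 7273504737) (nat_lit 251) (nat_lit 5) (nat_lit 258) (nat_lit 5) (nat_lit 259) (nat_lit 5) (nat_lit 619) (nat_lit 560) (nat_lit 381)) (XT.nd (nat_lit 78) (nat_lit 608) (nat_lit 0) (XT.lf (nat_lit 0) (nat_lit 11767299428) (nat_lit 532) (nat_lit 1545094457) (nat_lit 608) (nat_lit 4172392170) (nat_lit 251) (nat_lit 5) (nat_lit 258) (nat_lit 5) (nat_lit 259) (nat_lit 5) (nat_lit 620) (nat_lit 560) (nat_lit 380)) (XT.lf (nat_lit 0) (nat_lit 4461839645) (nat_lit 608) (nat_lit 12274712887) (nat_lit 684) (nat_lit 951801027) (nat_lit 243) (nat_lit 5) (nat_lit 251) (nat_lit 5) (nat_lit 252) (nat_lit 5) (nat_lit 621) (nat_lit 560) (nat_lit 379))))) (XT.nd (nat_lit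 234) (nat_lit 1140) (nat_lit 0) (XT.nd (nat_lit 78) (nat_lit 532) (nat_lit 0) (XT.lf (nat_lit 0) (nat_lit 2343413779) (nat_lit 684) (nat_lit 3009114769) (nat_lit 76) (nat_lit 12542345548) (nat_lit 242) (nat_lit 5) (nat_lit 251) (nat_lit 5) (nat_lit 243) (nat_lit 5) (nat_lit 622) (nat_lit 560) (nat_lit 378)) (XT.nd (nat_lit 78) (nat_lit 0) (nat_lit 0) (XT.lf (nat_lit 0) (nat_lit 5744012678) (nat_lit 608) (nat_lit 10621707357) (nat_lit 76) (nat_lit 1738635572) (nat_lit 235) (nat_lit 5) (nat_lit 243) (nat_lit 5) (nat_lit 236) (nat_lit 5) (nat_lit 623) (nat_lit 560) (nat_lit 377)) (XT.lf (nat_lit 0) (nat_lit 9260585569) (nat_lit 608) (nat_lit 138544041) (nat_lit 76) (nat_lit 8917938762) (nat_lit 235) (nat_lit 5) (nat_lit 243) (nat_lit 5) (nat_lit 236) (nat_lit 5) (nat_lit 624) (nat_lit 560) (nat_lit 376)))) (XT.nd (nat_lit 78) (nat_lit 608) (nat_lit 0) (XT.lf (nat_lit 0) (nat_lit 10684235580) (nat_lit 532) (nat_lit 2224964986) (nat_lit 608) (nat_lit 5623601458) (nat_lit 228)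 (nat_lit 5) (nat_lit 235) (nat_lit 5) (nat_lit 236) (nat_lit 5) (nat_lit 625) (nat_lit 560) (nat_lit 375)) (XT.nd (nat_lit 78) (nat_lit 76) (nat_lit 0) (XT.lf (nat_lit 0) (nat_lit 2968131809) (nat_lit 532) (nat_lit 13708337691) (nat_lit 608) (nat_lit 2075468047) (nat_lit 221) (nat_lit 5) (nat_lit 228) (nat_lit 5) (nat_lit 229) (nat_lit 5) (nat_lit 626) (nat_lit 560) (nat_lit 374)) (XT.lf (nat_lit 0) (nat_lit 1583576619) (nat_lit 608) (nat_lit 4902230368) (nat_lit 76) (nat_lit 12488245276) (nat_lit 220) (nat_lit 5) (nat_lit 228) (nat_lit 5) (nat_lit 221) (nat_lit 5) (nat_lit 627) (nat_lit 560) (nat_lit 373)))))) (XT.nd (nat_lit 468) (nat_lit 1824) (nat_lit 0) (XT.nd (nat_lit 234) (nat_lit 1064) (nat_lit 0) (XT.nd (nat_lit 78) (nat_lit 456) (nat_lit 0) (XT.lf (nat_lit 0) (nat_lit 5327304446) (nat_lit 608) (nat_lit 12950539211) (nat_lit 76) (nat_lit 921706164) (nat_lit 213) (nat_lit 5) (nat_lit 221) (nat_lit 5) (nat_lit 214) (nat_lit 5) (nat_lit 628) (nat_lit 560) (nat_lit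 372)) (XT.nd (nat_lit 78) (nat_lit 456) (nat_lit 0) (XT.lf (nat_lit 0) (nat_lit 9214626596) (nat_lit 608) (nat_lit 1792479847) (nat_lit 76) (nat_lit 8421077260) (nat_lit 213) (nat_lit 5) (nat_lit 221) (nat_lit 5) (nat_lit 214) (nat_lit 5) (nat_lit 629) (nat_lit 560) (nat_lit 371)) (XT.lf (nat_lit 0) (nat_lit 9706099059) (nat_lit 456) (nat_lit 3529411619) (nat_lit 532) (nat_lit 6424764024) (nat_lit 207) (nat_lit 5) (nat_lit 213) (nat_lit 5) (nat_lit 214) (nat_lit 5) (nat_lit 630) (nat_lit 560) (nat_lit 370)))) (XT.nd (nat_lit 78) (nat_lit 532) (nat_lit 0) (XT.lf (nat_lit 0) (nat_lit 1545768720) (nat_lit 532) (nat_lit 15832650245) (nat_lit 608) (nat_lit 2517757165) (nat_lit 200) (nat_lit 5) (nat_lit 207) (nat_lit 5) (nat_lit 208) (nat_lit 5) (nat_lit 631) (nat_lit 560) (nat_lit 369)) (XT.nd (nat_lit 78) (nat_lit 456) (nat_lit 0) (XT.lf (nat_lit 0) (nat_lit 1531642867) (nat_lit 608) (nat_lit 6768187806) (nat_lit 76) (nat_lit 11835105114) (nat_lit 199) (nat_lit 5) (nat_lit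 207) (nat_lit 5) (nat_lit 200) (nat_lit 5) (nat_lit 632) (nat_lit 560) (nat_lit 368)) (XT.lf (nat_lit 0) (nat_lit 5085872678) (nat_lit 456) (nat_lit 568521752) (nat_lit 532) (nat_lit 14723222527) (nat_lit 193) (nat_lit 5) (nat_lit 199) (nat_lit 5) (nat_lit 200) (nat_lit 5) (nat_lit 633) (nat_lit 560) (nat_lit 367))))) (XT.nd (nat_lit 234) (nat_lit 912) (nat_lit 0) (XT.nd (nat_lit 78) (nat_lit 912) (nat_lit 0) (XT.lf (nat_lit 0) (nat_lit 9945908112) (nat_lit 532) (nat_lit 3413181946) (nat_lit 76) (nat_lit 7264336232) (nat_lit 193) (nat_lit 5) (nat_lit 200) (nat_lit 5) (nat_lit 194) (nat_lit 5) (nat_lit 634) (nat_lit 560) (nat_lit 366)) (XT.nd (nat_lit 78) (nat_lit 456) (nat_lit 0) (XT.lf (nat_lit 0) (nat_lit 8804972035) (nat_lit 456) (nat_lit 5572427206) (nat_lit 532) (nat_lit 6495670292) (nat_lit 187) (nat_lit 5) (nat_lit 193) (nat_lit 5) (nat_lit 194) (nat_lit 5) (nat_lit 635) (nat_lit 560) (nat_lit 365)) (XT.lf (nat_lit 0) (nat_lit 163365991) (nat_lit 456) (nat_lit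 18766924241) (nat_lit 532) (nat_lit 2196760662) (nat_lit 181) (nat_lit 5) (nat_lit 187) (nat_lit 5) (nat_lit 188) (nat_lit 5) (nat_lit 636) (nat_lit 560) (nat_lit 364)))) (XT.nd (nat_lit 156) (nat_lit 380) (nat_lit 0) (XT.nd (nat_lit 78) (nat_lit 456) (nat_lit 0) (XT.lf (nat_lit 0) (nat_lit 2271142996) (nat_lit 532) (nat_lit 8642865093) (nat_lit 76) (nat_lit 10469586019) (nat_lit 180) (nat_lit 5) (nat_lit 187) (nat_lit 5) (nat_lit 181) (nat_lit 5) (nat_lit 637) (nat_lit 560) (nat_lit 363)) (XT.lf (nat_lit 0) (nat_lit 3952075519) (nat_lit 456) (nat_lit 2866023563) (nat_lit 532) (nat_lit 14826497127) (nat_lit 174) (nat_lit 5) (nat_lit 180) (nat_lit 5) (nat_lit 181) (nat_lit 5) (nat_lit 638) (nat_lit 560) (nat_lit 362))) (XT.nd (nat_lit 78) (nat_lit 380) (nat_lit 0) (XT.lf (nat_lit 0) (nat_lit 11542536007) (nat_lit 532) (nat_lit 5038288987) (nat_lit 76) (nat_lit 5328263130) (nat_lit 174) (nat_lit 5) (nat_lit 181) (nat_lit 5) (nat_lit 175) (nat_lit 5) (nat_lit 639) (nat_lit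 560) (nat_lit 361)) (XT.lf (nat_lit 0) (nat_lit 7944805425) (nat_lit 380) (nat_lit 8480817189) (nat_lit 456) (nat_lit 5751964636) (nat_lit 169) (nat_lit 5) (nat_lit 174) (nat_lit 5) (nat_lit 175) (nat_lit 5) (nat_lit 640) (nat_lit 560) (nat_lit 360))))))))
noncomputable def xc175 : XT := (XT.nd (nat_lit 75660) (nat_lit 0) (nat_lit 20748) (XT.nd (nat_lit 936) (nat_lit 684) (nat_lit 0) (XT.nd (nat_lit 468) (nat_lit 1520) (nat_lit 0) (XT.nd (nat_lit 234) (nat_lit 456) (nat_lit 0) (XT.nd (nat_lit 78) (nat_lit 912) (nat_lit 0) (XT.lf (nat_lit 0) (nat_lit 21246479969) (nat_lit 380) (nat_lit 187362917) (nat_lit 456) (nat_lit 1017064614) (nat_lit 169) (nat_lit 5) (nat_lit 174) (nat_lit 5) (nat_lit 175) (nat_lit 5) (nat_lit 641) (nat_lit 560) (nat_lit 359)) (XT.nd (nat_lit 78) (nat_lit 380) (nat_lit 0) (XT.lf (nat_lit 0) (nat_lit 3889932024) (nat_lit 532) (nat_lit 10571507795) (nat_lit 76) (nat_lit 8265211812) (nat_lit 162) (nat_lit 5) (nat_lit 169) (nat_lit 5) (nat_lit 163) (nat_lit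 5) (nat_lit 642) (nat_lit 560) (nat_lit 358)) (XT.lf (nat_lit 0) (nat_lit 2809986944) (nat_lit 380) (nat_lit 6092884969) (nat_lit 456) (nat_lit 14104476387) (nat_lit 157) (nat_lit 5) (nat_lit 162) (nat_lit 5) (nat_lit 163) (nat_lit 5) (nat_lit 643) (nat_lit 560) (nat_lit 357)))) (XT.nd (nat_lit 78) (nat_lit 456) (nat_lit 0) (XT.lf (nat_lit 0) (nat_lit 14097172227) (nat_lit 456) (nat_lit 6715523266) (nat_lit 76) (nat_lit 2479341913) (nat_lit 157) (nat_lit 5) (nat_lit 163) (nat_lit 5) (nat_lit 158) (nat_lit 5) (nat_lit 644) (nat_lit 560) (nat_lit 356)) (XT.nd (nat_lit 78) (nat_lit 76) (nat_lit 0) (XT.lf (nat_lit 0) (nat_lit 7079268135) (nat_lit 380) (nat_lit 12396354534) (nat_lit 456) (nat_lit 4105192869) (nat_lit 152) (nat_lit 5) (nat_lit 157) (nat_lit 5) (nat_lit 158) (nat_lit 5) (nat_lit 645) (nat_lit 560) (nat_lit 355)) (XT.lf (nat_lit 0) (nat_lit 1111359181) (nat_lit 456) (nat_lit 2650032482) (nat_lit 76) (nat_lit 20113050361) (nat_lit 151) (nat_lit 5) (nat_lit 157)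 (nat_lit 5) (nat_lit 152) (nat_lit 5) (nat_lit 646) (nat_lit 560) (nat_lit 354))))) (XT.nd (nat_lit 234) (nat_lit 760) (nat_lit 0) (XT.nd (nat_lit 78) (nat_lit 380) (nat_lit 0) (XT.lf (nat_lit 0) (nat_lit 6480113657) (nat_lit 456) (nat_lit 12611063311) (nat_lit 76) (nat_lit 5080165062) (nat_lit 146) (nat_lit 5) (nat_lit 152) (nat_lit 5) (nat_lit 147) (nat_lit 5) (nat_lit 647) (nat_lit 560) (nat_lit 353)) (XT.nd (nat_lit 78) (nat_lit 0) (nat_lit 0) (XT.lf (nat_lit 0) (nat_lit 1603843668) (nat_lit 380) (nat_lit 10399749177) (nat_lit 456) (nat_lit 12469640685) (nat_lit 141) (nat_lit 5) (nat_lit 146) (nat_lit 5) (nat_lit 147) (nat_lit 5) (nat_lit 648) (nat_lit 560) (nat_lit 352)) (XT.lf (nat_lit 0) (nat_lit 16264997615) (nat_lit 380) (nat_lit 1451353285) (nat_lit 456) (nat_lit 7063236251) (nat_lit 141) (nat_lit 5) (nat_lit 146) (nat_lit 5) (nat_lit 147) (nat_lit 5) (nat_lit 649) (nat_lit 560) (nat_lit 351)))) (XT.nd (nat_lit 78) (nat_lit 456) (nat_lit 0) (XT.lf (nat_lit 0)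 (nat_lit 6149201598) (nat_lit 304) (nat_lit 17478201207) (nat_lit 380) (nat_lit 1462984733) (nat_lit 137) (nat_lit 5) (nat_lit 141) (nat_lit 5) (nat_lit 142) (nat_lit 5) (nat_lit 650) (nat_lit 560) (nat_lit 350)) (XT.nd (nat_lit 78) (nat_lit 380) (nat_lit 0) (XT.lf (nat_lit 0) (nat_lit 4254962204) (nat_lit 380) (nat_lit 4231087193) (nat_lit 76) (nat_lit 16919574797) (nat_lit 136) (nat_lit 5) (nat_lit 141) (nat_lit 5) (nat_lit 137) (nat_lit 5) (nat_lit 651) (nat_lit 560) (nat_lit 349)) (XT.lf (nat_lit 0) (nat_lit 10137822767) (nat_lit 456) (nat_lit 14832942600) (nat_lit 76) (nat_lit 754804368) (nat_lit 131) (nat_lit 5) (nat_lit 137) (nat_lit 5) (nat_lit 132) (nat_lit 5) (nat_lit 652) (nat_lit 560) (nat_lit 348)))))) (XT.nd (nat_lit 74178) (nat_lit 0) (nat_lit 29716) (XT.nd (nat_lit 234) (nat_lit 0) (nat_lit 0) (XT.nd (nat_lit 78) (nat_lit 380) (nat_lit 0) (XT.lf (nat_lit 0) (nat_lit 263095470) (nat_lit 304) (nat_lit 15956170707) (nat_lit 380) (nat_lit 9831029929) (nat_lit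 127) (nat_lit 5) (nat_lit 131) (nat_lit 5) (nat_lit 132) (nat_lit 5) (nat_lit 653) (nat_lit 560) (nat_lit 347)) (XT.nd (nat_lit 78) (nat_lit 380) (nat_lit 0) (XT.lf (nat_lit 0) (nat_lit 15853385618) (nat_lit 304) (nat_lit 6662979646) (nat_lit 380) (nat_lit 3863271627) (nat_lit 127) (nat_lit 5) (nat_lit 131) (nat_lit 5) (nat_lit 132) (nat_lit 5) (nat_lit 654) (nat_lit 560) (nat_lit 346)) (XT.lf (nat_lit 0) (nat_lit 2240820392) (nat_lit 380) (nat_lit 21649786985) (nat_lit 76) (nat_lit 2823745856) (nat_lit 122) (nat_lit 5) (nat_lit 127) (nat_lit 5) (nat_lit 123) (nat_lit 5) (nat_lit 655) (nat_lit 560) (nat_lit 345)))) (XT.nd (nat_lit 73788) (nat_lit 0) (nat_lit 29716) (XT.lf (nat_lit 0) (nat_lit 8525135608) (nat_lit 380) (nat_lit 6023308193) (nat_lit 76) (nat_lit 12504612363) (nat_lit 122) (nat_lit 5) (nat_lit 127) (nat_lit 5) (nat_lit 123) (nat_lit 5) (nat_lit 656) (nat_lit 560) (nat_lit 344)) (XT.nd (nat_lit 78) (nat_lit 0) (nat_lit 0) (XT.lf (nat_lit 0) (nat_lit 519833115)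 (nat_lit 0) (nat_lit 519833115) (nat_lit 1596) (nat_lit 3799568810) (nat_lit 513) (nat_lit 5) (nat_lit 513) (nat_lit 3) (nat_lit 534) (nat_lit 3) (nat_lit 561) (nat_lit 561) (nat_lit 438)) (XT.lf (nat_lit 0) (nat_lit 2880619290) (nat_lit 1596) (nat_lit 3906343711) (nat_lit 1672) (nat_lit 2972555377) (nat_lit 513) (nat_lit 5) (nat_lit 534) (nat_lit 3) (nat_lit 535) (nat_lit 5) (nat_lit 562) (nat_lit 561) (nat_lit 437))))) (XT.nd (nat_lit 234) (nat_lit 0) (nat_lit 76) (XT.nd (nat_lit 78) (nat_lit 0) (nat_lit 76) (XT.lf (nat_lit 76) (nat_lit 915439442) (nat_lit 0) (nat_lit 2775426398) (nat_lit 1672) (nat_lit 6151466439) (nat_lit 514) (nat_lit 5) (nat_lit 513) (nat_lit 5) (nat_lit 535) (nat_lit 5) (nat_lit 563) (nat_lit 561) (nat_lit 436)) (XT.nd (nat_lit 78) (nat_lit 0) (nat_lit 0) (XT.lf (nat_lit 0) (nat_lit 4532738645) (nat_lit 1596) (nat_lit 4059221364) (nat_lit 1672) (nat_lit 1334537277) (nat_lit 514) (nat_lit 5) (nat_lit 535) (nat_lit 5) (nat_lit 536) (nat_lit 5) (nat_lit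 564) (nat_lit 561) (nat_lit 435)) (XT.lf (nat_lit 76) (nat_lit 888455094) (nat_lit 0) (nat_lit 4508012698) (nat_lit 1672) (nat_lit 4615780613) (nat_lit 515) (nat_lit 5) (nat_lit 514) (nat_lit 5) (nat_lit 536) (nat_lit 5) (nat_lit 565) (nat_lit 561) (nat_lit 434)))) (XT.nd (nat_lit 156) (nat_lit 0) (nat_lit 76) (XT.nd (nat_lit 78) (nat_lit 0) (nat_lit 76) (XT.lf (nat_lit 76) (nat_lit 5979558381) (nat_lit 0) (nat_lit 306329388) (nat_lit 1672) (nat_lit 3813661581) (nat_lit 515) (nat_lit 5) (nat_lit 514) (nat_lit 5) (nat_lit 536) (nat_lit 5) (nat_lit 566) (nat_lit 561) (nat_lit 433)) (XT.lf (nat_lit 76) (nat_lit 959871024) (nat_lit 0) (nat_lit 6246892540) (nat_lit 1672) (nat_lit 2981562467) (nat_lit 516) (nat_lit 5) (nat_lit 515) (nat_lit 5) (nat_lit 537) (nat_lit 5) (nat_lit 567) (nat_lit 561) (nat_lit 432))) (XT.nd (nat_lit 78) (nat_lit 0) (nat_lit 76) (XT.lf (nat_lit 76) (nat_lit 6184424583) (nat_lit 0) (nat_lit 1973184760) (nat_lit 1672) (nat_lit 2121040859) (nat_lit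 516) (nat_lit 5) (nat_lit 515) (nat_lit 5) (nat_lit 537) (nat_lit 5) (nat_lit 568) (nat_lit 561) (nat_lit 431)) (XT.lf (nat_lit 76) (nat_lit 1131138887) (nat_lit 0) (nat_lit 8001460851) (nat_lit 1672) (nat_lit 1238081513) (nat_lit 517) (nat_lit 5) (nat_lit 516) (nat_lit 5) (nat_lit 538) (nat_lit 5) (nat_lit 569) (nat_lit 561) (nat_lit 430))))))) (XT.nd (nat_lit 1014) (nat_lit 6156) (nat_lit 0) (XT.nd (nat_lit 468) (nat_lit 1444) (nat_lit 0) (XT.nd (nat_lit 234) (nat_lit 0) (nat_lit 0) (XT.nd (nat_lit 78) (nat_lit 1596) (nat_lit 0) (XT.lf (nat_lit 76) (nat_lit 6492446465) (nat_lit 0) (nat_lit 3657668436) (nat_lit 1672) (nat_lit 313980409) (nat_lit 517) (nat_lit 5) (nat_lit 516) (nat_lit 5) (nat_lit 538) (nat_lit 5) (nat_lit 570) (nat_lit 561) (nat_lit 429)) (XT.nd (nat_lit 78) (nat_lit 0) (nat_lit 0) (XT.lf (nat_lit 0) (nat_lit 617423859) (nat_lit 1672) (nat_lit 9159499205) (nat_lit 1748) (nat_lit 782434430) (nat_lit 495) (nat_lit 5) (nat_lit 517) (nat_lit 5) (nat_lit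 518) (nat_lit 5) (nat_lit 571) (nat_lit 561) (nat_lit 428)) (XT.lf (nat_lit 0) (nat_lit 1597409642) (nat_lit 1672) (nat_lit 3760989245) (nat_lit 1748) (nat_lit 5297404097) (nat_lit 495) (nat_lit 5) (nat_lit 517) (nat_lit 5) (nat_lit 518) (nat_lit 5) (nat_lit 572) (nat_lit 561) (nat_lit 427)))) (XT.nd (nat_lit 78) (nat_lit 0) (nat_lit 76) (XT.lf (nat_lit 76) (nat_lit 1757610068) (nat_lit 0) (nat_lit 834230338) (nat_lit 1748) (nat_lit 8162442741) (nat_lit 496) (nat_lit 5) (nat_lit 495) (nat_lit 5) (nat_lit 518) (nat_lit 5) (nat_lit 573) (nat_lit 561) (nat_lit 426)) (XT.nd (nat_lit 78) (nat_lit 0) (nat_lit 0) (XT.lf (nat_lit 0) (nat_lit 3639833558) (nat_lit 1672) (nat_lit 3452602275) (nat_lit 1748) (nat_lit 3761626223) (nat_lit 496) (nat_lit 5) (nat_lit 518) (nat_lit 5) (nat_lit 519) (nat_lit 5) (nat_lit 574) (nat_lit 561) (nat_lit 425)) (XT.lf (nat_lit 76) (nat_lit 2214869190) (nat_lit 0) (nat_lit 2497865044) (nat_lit 1748) (nat_lit 6243025921) (nat_lit 497) (nat_lit 5)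 (nat_lit 496) (nat_lit 5) (nat_lit 519) (nat_lit 5) (nat_lit 575) (nat_lit 561) (nat_lit 424))))) (XT.nd (nat_lit 234) (nat_lit 1596) (nat_lit 0) (XT.nd (nat_lit 78) (nat_lit 0) (nat_lit 0) (XT.lf (nat_lit 0) (nat_lit 5828940492) (nat_lit 1672) (nat_lit 3042181027) (nat_lit 1748) (nat_lit 2187936262) (nat_lit 497) (nat_lit 5) (nat_lit 519) (nat_lit 5) (nat_lit 520) (nat_lit 5) (nat_lit 576) (nat_lit 561) (nat_lit 423)) (XT.nd (nat_lit 78) (nat_lit 0) (nat_lit 76) (XT.lf (nat_lit 76) (nat_lit 2779353915) (nat_lit 0) (nat_lit 4207327587) (nat_lit 1748) (nat_lit 4177358110) (nat_lit 498) (nat_lit 5) (nat_lit 497) (nat_lit 5) (nat_lit 520) (nat_lit 5) (nat_lit 577) (nat_lit 561) (nat_lit 422)) (XT.lf (nat_lit 0) (nat_lit 8176576718) (nat_lit 1672) (nat_lit 2527178534) (nat_lit 1748) (nat_lit 567188258) (nat_lit 498) (nat_lit 5) (nat_lit 520) (nat_lit 5) (nat_lit 521) (nat_lit 5) (nat_lit 578) (nat_lit 561) (nat_lit 421)))) (XT.nd (nat_lit 156) (nat_lit 1672) (nat_lit 0) (XT.nd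 (nat_lit 78) (nat_lit 0) (nat_lit 0) (XT.lf (nat_lit 76) (nat_lit 3453816650) (nat_lit 0) (nat_lit 5971917479) (nat_lit 1748) (nat_lit 1953544442) (nat_lit 499) (nat_lit 5) (nat_lit 498) (nat_lit 5) (nat_lit 521) (nat_lit 5) (nat_lit 579) (nat_lit 561) (nat_lit 420)) (XT.lf (nat_lit 76) (nat_lit 9577664860) (nat_lit 0) (nat_lit 1124564334) (nat_lit 1748) (nat_lit 787506371) (nat_lit 499) (nat_lit 5) (nat_lit 498) (nat_lit 5) (nat_lit 521) (nat_lit 5) (nat_lit 580) (nat_lit 561) (nat_lit 419))) (XT.nd (nat_lit 78) (nat_lit 0) (nat_lit 0) (XT.lf (nat_lit 0) (nat_lit 434874295) (nat_lit 1748) (nat_lit 7363209459) (nat_lit 1824) (nat_lit 3803502155) (nat_lit 476) (nat_lit 5) (nat_lit 499) (nat_lit 5) (nat_lit 500) (nat_lit 5) (nat_lit 581) (nat_lit 561) (nat_lit 418)) (XT.lf (nat_lit 0) (nat_lit 1677349187) (nat_lit 1748) (nat_lit 1201649402) (nat_lit 1824) (nat_lit 8836448926) (nat_lit 476) (nat_lit 5) (nat_lit 499) (nat_lit 5) (nat_lit 500) (nat_lit 5) (nat_lit 582) (nat_lit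 561) (nat_lit 417)))))) (XT.nd (nat_lit 468) (nat_lit 2888) (nat_lit 0) (XT.nd (nat_lit 234) (nat_lit 3344) (nat_lit 0) (XT.nd (nat_lit 78) (nat_lit 0) (nat_lit 0) (XT.lf (nat_lit 0) (nat_lit 2978263041) (nat_lit 1748) (nat_lit 6705791467) (nat_lit 1824) (nat_lit 2146862201) (nat_lit 477) (nat_lit 5) (nat_lit 500) (nat_lit 5) (nat_lit 501) (nat_lit 5) (nat_lit 583) (nat_lit 561) (nat_lit 416)) (XT.nd (nat_lit 78) (nat_lit 0) (nat_lit 76) (XT.lf (nat_lit 0) (nat_lit 4318694098) (nat_lit 1748) (nat_lit 384167090) (nat_lit 1824) (nat_lit 7245566225) (nat_lit 477) (nat_lit 5) (nat_lit 500) (nat_lit 5) (nat_lit 501) (nat_lit 5) (nat_lit 584) (nat_lit 561) (nat_lit 415)) (XT.lf (nat_lit 0) (nat_lit 5715072471) (nat_lit 1748) (nat_lit 5937183428) (nat_lit 76) (nat_lit 415451724) (nat_lit 478) (nat_lit 5) (nat_lit 501) (nat_lit 5) (nat_lit 479) (nat_lit 5) (nat_lit 585) (nat_lit 561) (nat_lit 414)))) (XT.nd (nat_lit 78) (nat_lit 1672) (nat_lit 0) (XT.lf (nat_lit 0) (nat_lit 556303091)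 (nat_lit 1748) (nat_lit 6607217748) (nat_lit 1824) (nat_lit 5025371771) (nat_lit 455) (nat_lit 5) (nat_lit 478) (nat_lit 5) (nat_lit 479) (nat_lit 5) (nat_lit 586) (nat_lit 561) (nat_lit 413)) (XT.nd (nat_lit 78) (nat_lit 1672) (nat_lit 0) (XT.lf (nat_lit 0) (nat_lit 7248987288) (nat_lit 1748) (nat_lit 1418769839) (nat_lit 1824) (nat_lit 3644209774) (nat_lit 455) (nat_lit 5) (nat_lit 478) (nat_lit 5) (nat_lit 479) (nat_lit 5) (nat_lit 587) (nat_lit 561) (nat_lit 412)) (XT.lf (nat_lit 0) (nat_lit 1622956200) (nat_lit 1672) (nat_lit 8602052816) (nat_lit 1748) (nat_lit 2212036990) (nat_lit 433) (nat_lit 5) (nat_lit 455) (nat_lit 5) (nat_lit 456) (nat_lit 5) (nat_lit 588) (nat_lit 561) (nat_lit 411))))) (XT.nd (nat_lit 234) (nat_lit 1824) (nat_lit 0) (XT.nd (nat_lit 78) (nat_lit 1064) (nat_lit 0) (XT.lf (nat_lit 0) (nat_lit 8490591096) (nat_lit 1672) (nat_lit 3353546546) (nat_lit 1748) (nat_lit 719876323) (nat_lit 433) (nat_lit 5) (nat_lit 455) (nat_lit 5) (nat_lit 456) (nat_lit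 5) (nat_lit 589) (nat_lit 561) (nat_lit 410)) (XT.nd (nat_lit 78) (nat_lit 0) (nat_lit 0) (XT.lf (nat_lit 0) (nat_lit 810669912) (nat_lit 1064) (nat_lit 9883656769) (nat_lit 76) (nat_lit 1998711026) (nat_lit 419) (nat_lit 5) (nat_lit 433) (nat_lit 5) (nat_lit 420) (nat_lit 5) (nat_lit 590) (nat_lit 561) (nat_lit 409)) (XT.lf (nat_lit 0) (nat_lit 2399687244) (nat_lit 1064) (nat_lit 2977454788) (nat_lit 76) (nat_lit 7446656536) (nat_lit 419) (nat_lit 5) (nat_lit 433) (nat_lit 5) (nat_lit 420) (nat_lit 5) (nat_lit 591) (nat_lit 561) (nat_lit 408)))) (XT.nd (nat_lit 156) (nat_lit 912) (nat_lit 0) (XT.nd (nat_lit 78) (nat_lit 0) (nat_lit 0) (XT.lf (nat_lit 0) (nat_lit 4035657558) (nat_lit 988) (nat_lit 8847634206) (nat_lit 76) (nat_lit 73581190) (nat_lit 407) (nat_lit 5) (nat_lit 420) (nat_lit 5) (nat_lit 408) (nat_lit 5) (nat_lit 592) (nat_lit 561) (nat_lit 407)) (XT.lf (nat_lit 0) (nat_lit 5748245144) (nat_lit 988) (nat_lit 1761135337) (nat_lit 76) (nat_lit 5582352117) (nat_lit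 407) (nat_lit 5) (nat_lit 420) (nat_lit 5) (nat_lit 408) (nat_lit 5) (nat_lit 593) (nat_lit 561) (nat_lit 406))) (XT.nd (nat_lit 78) (nat_lit 0) (nat_lit 0) (XT.lf (nat_lit 0) (nat_lit 5528612129) (nat_lit 912) (nat_lit 1990774673) (nat_lit 988) (nat_lit 5709418279) (nat_lit 395) (nat_lit 5) (nat_lit 407) (nat_lit 5) (nat_lit 408) (nat_lit 5) (nat_lit 594) (nat_lit 561) (nat_lit 405)) (XT.lf (nat_lit 0) (nat_lit 9350036038) (nat_lit 988) (nat_lit 415206926) (nat_lit 76) (nat_lit 3602896014) (nat_lit 395) (nat_lit 5) (nat_lit 408) (nat_lit 5) (nat_lit 396) (nat_lit 5) (nat_lit 595) (nat_lit 561) (nat_lit 404))))))))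
noncomputable def xc176 : XT := (XT.nd (nat_lit 1950) (nat_lit 7144) (nat_lit 0) (XT.nd (nat_lit 936) (nat_lit 5320) (nat_lit 0) (XT.nd (nat_lit 468) (nat_lit 2280) (nat_lit 0) (XT.nd (nat_lit 234) (nat_lit 1596) (nat_lit 0) (XT.nd (nat_lit 78) (nat_lit 912) (nat_lit 0) (XT.lf (nat_lit 0) (nat_lit 7084273481) (nat_lit 836) (nat_lit 4180995403) (nat_lit 912) (nat_lit 2244032883) (nat_lit 384) (nat_lit 5) (nat_lit 395) (nat_lit 5) (nat_lit 396) (nat_lit 5) (nat_lit 596) (nat_lit 561) (nat_lit 403)) (XT.nd (nat_lit 78) (nat_lit 76) (nat_lit 0) (XT.lf (nat_lit 0) (nat_lit 1079356091) (nat_lit 836) (nat_lit 12148040325) (nat_lit 912) (nat_lit 425721191) (nat_lit 373) (nat_lit 5) (nat_lit 384) (nat_lit 5) (nat_lit 385) (nat_lit 5) (nat_lit 597) (nat_lit 561) (nat_lit 402)) (XT.lf (nat_lit 0) (nat_lit 1470318241) (nat_lit 912) (nat_lit 5026438023) (nat_lit 76) (nat_lit 7301667429) (nat_lit 372) (nat_lit 5) (nat_lit 384) (nat_lit 5) (nat_lit 373) (nat_lit 5) (nat_lit 598) (nat_lit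 561) (nat_lit 401)))) (XT.nd (nat_lit 78) (nat_lit 836) (nat_lit 0) (XT.lf (nat_lit 0) (nat_lit 2693396091) (nat_lit 760) (nat_lit 711903005) (nat_lit 836) (nat_lit 10541147605) (nat_lit 362) (nat_lit 5) (nat_lit 372) (nat_lit 5) (nat_lit 373) (nat_lit 5) (nat_lit 599) (nat_lit 561) (nat_lit 400)) (XT.nd (nat_lit 78) (nat_lit 836) (nat_lit 0) (XT.lf (nat_lit 0) (nat_lit 5435988626) (nat_lit 836) (nat_lit 3505986952) (nat_lit 76) (nat_lit 5154315884) (nat_lit 362) (nat_lit 5) (nat_lit 373) (nat_lit 5) (nat_lit 363) (nat_lit 5) (nat_lit 600) (nat_lit 561) (nat_lit 399)) (XT.lf (nat_lit 0) (nat_lit 4438652958) (nat_lit 836) (nat_lit 3091748230) (nat_lit 912) (nat_lit 6718271191) (nat_lit 351) (nat_lit 5) (nat_lit 362) (nat_lit 5) (nat_lit 363) (nat_lit 5) (nat_lit 601) (nat_lit 561) (nat_lit 398))))) (XT.nd (nat_lit 234) (nat_lit 1520) (nat_lit 0) (XT.nd (nat_lit 78) (nat_lit 760) (nat_lit 0) (XT.lf (nat_lit 0) (nat_lit 9698761403) (nat_lit 912) (nat_lit 1843742117) (nat_lit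 76) (nat_lit 2860957621) (nat_lit 351) (nat_lit 5) (nat_lit 363) (nat_lit 5) (nat_lit 352) (nat_lit 5) (nat_lit 602) (nat_lit 561) (nat_lit 397)) (XT.nd (nat_lit 78) (nat_lit 0) (nat_lit 0) (XT.lf (nat_lit 0) (nat_lit 6333671811) (nat_lit 760) (nat_lit 5628323414) (nat_lit 836) (nat_lit 2598321716) (nat_lit 341) (nat_lit 5) (nat_lit 351) (nat_lit 5) (nat_lit 352) (nat_lit 5) (nat_lit 603) (nat_lit 561) (nat_lit 396)) (XT.lf (nat_lit 0) (nat_lit 14275604415) (nat_lit 836) (nat_lit 34047712) (nat_lit 76) (nat_lit 410556875) (nat_lit 341) (nat_lit 5) (nat_lit 352) (nat_lit 5) (nat_lit 342) (nat_lit 5) (nat_lit 604) (nat_lit 561) (nat_lit 395)))) (XT.nd (nat_lit 78) (nat_lit 684) (nat_lit 0) (XT.lf (nat_lit 0) (nat_lit 1811686473) (nat_lit 836) (nat_lit 6509181584) (nat_lit 76) (nat_lit 6560555034) (nat_lit 330) (nat_lit 5) (nat_lit 341) (nat_lit 5) (nat_lit 331) (nat_lit 5) (nat_lit 605) (nat_lit 561) (nat_lit 394)) (XT.nd (nat_lit 78) (nat_lit 0) (nat_lit 0) (XT.lf (nat_lit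 0) (nat_lit 1912647897) (nat_lit 684) (nat_lit 2197441165) (nat_lit 760) (nat_lit 10935656127) (nat_lit 321) (nat_lit 5) (nat_lit 330) (nat_lit 5) (nat_lit 331) (nat_lit 5) (nat_lit 606) (nat_lit 561) (nat_lit 393)) (XT.lf (nat_lit 0) (nat_lit 6515113559) (nat_lit 760) (nat_lit 4658774399) (nat_lit 76) (nat_lit 4038253951) (nat_lit 321) (nat_lit 5) (nat_lit 331) (nat_lit 5) (nat_lit 322) (nat_lit 5) (nat_lit 607) (nat_lit 561) (nat_lit 392)))))) (XT.nd (nat_lit 468) (nat_lit 2508) (nat_lit 0) (XT.nd (nat_lit 234) (nat_lit 1368) (nat_lit 0) (XT.nd (nat_lit 78) (nat_lit 684) (nat_lit 0) (XT.lf (nat_lit 0) (nat_lit 4012452092) (nat_lit 760) (nat_lit 4986978093) (nat_lit 836) (nat_lit 6381813778) (nat_lit 311) (nat_lit 5) (nat_lit 321) (nat_lit 5) (nat_lit 322) (nat_lit 5) (nat_lit 608) (nat_lit 561) (nat_lit 391)) (XT.nd (nat_lit 78) (nat_lit 684) (nat_lit 0) (XT.lf (nat_lit 0) (nat_lit 11564192181) (nat_lit 836) (nat_lit 2652412946) (nat_lit 76) (nat_lit 1336508960) (nat_lit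 311) (nat_lit 5) (nat_lit 322) (nat_lit 5) (nat_lit 312) (nat_lit 5) (nat_lit 609) (nat_lit 561) (nat_lit 390)) (XT.lf (nat_lit 0) (nat_lit 6277039769) (nat_lit 684) (nat_lit 7967868175) (nat_lit 760) (nat_lit 1482221684) (nat_lit 302) (nat_lit 5) (nat_lit 311) (nat_lit 5) (nat_lit 312) (nat_lit 5) (nat_lit 610) (nat_lit 561) (nat_lit 389)))) (XT.nd (nat_lit 78) (nat_lit 1292) (nat_lit 0) (XT.lf (nat_lit 0) (nat_lit 1069363231) (nat_lit 760) (nat_lit 500933012) (nat_lit 76) (nat_lit 14334013946) (nat_lit 301) (nat_lit 5) (nat_lit 311) (nat_lit 5) (nat_lit 302) (nat_lit 5) (nat_lit 611) (nat_lit 561) (nat_lit 388)) (XT.nd (nat_lit 78) (nat_lit 608) (nat_lit 0) (XT.lf (nat_lit 0) (nat_lit 3732484648) (nat_lit 760) (nat_lit 7395110377) (nat_lit 76) (nat_lit 4955637467) (nat_lit 292) (nat_lit 5) (nat_lit 302) (nat_lit 5) (nat_lit 293) (nat_lit 5) (nat_lit 612) (nat_lit 561) (nat_lit 387)) (XT.lf (nat_lit 0) (nat_lit 1804837049) (nat_lit 608) (nat_lit 4660735446) (nat_lit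 684) (nat_lit 9799827763) (nat_lit 284) (nat_lit 5) (nat_lit 292) (nat_lit 5) (nat_lit 293) (nat_lit 5) (nat_lit 613) (nat_lit 561) (nat_lit 386))))) (XT.nd (nat_lit 234) (nat_lit 1824) (nat_lit 0) (XT.nd (nat_lit 78) (nat_lit 684) (nat_lit 0) (XT.lf (nat_lit 0) (nat_lit 9307138379) (nat_lit 684) (nat_lit 5184677104) (nat_lit 76) (nat_lit 1958320644) (nat_lit 284) (nat_lit 5) (nat_lit 293) (nat_lit 5) (nat_lit 285) (nat_lit 5) (nat_lit 614) (nat_lit 561) (nat_lit 385)) (XT.nd (nat_lit 78) (nat_lit 0) (nat_lit 0) (XT.lf (nat_lit 0) (nat_lit 4291766473) (nat_lit 684) (nat_lit 7963966816) (nat_lit 760) (nat_lit 4381830521) (nat_lit 275) (nat_lit 5) (nat_lit 284) (nat_lit 5) (nat_lit 285) (nat_lit 5) (nat_lit 615) (nat_lit 561) (nat_lit 384)) (XT.lf (nat_lit 0) (nat_lit 14017705142) (nat_lit 684) (nat_lit 1271954138) (nat_lit 760) (nat_lit 1538554616) (nat_lit 275) (nat_lit 5) (nat_lit 284) (nat_lit 5) (nat_lit 285) (nat_lit 5) (nat_lit 616) (nat_lit 561) (nat_lit 383))))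 (XT.nd (nat_lit 156) (nat_lit 1140) (nat_lit 0) (XT.nd (nat_lit 78) (nat_lit 0) (nat_lit 0) (XT.lf (nat_lit 0) (nat_lit 1417183698) (nat_lit 684) (nat_lit 10070094204) (nat_lit 76) (nat_lit 5533754180) (nat_lit 266) (nat_lit 5) (nat_lit 275) (nat_lit 5) (nat_lit 267) (nat_lit 5) (nat_lit 617) (nat_lit 561) (nat_lit 382)) (XT.lf (nat_lit 0) (nat_lit 4430624824) (nat_lit 684) (nat_lit 300664867) (nat_lit 76) (nat_lit 12485830730) (nat_lit 266) (nat_lit 5) (nat_lit 275) (nat_lit 5) (nat_lit 267) (nat_lit 5) (nat_lit 618) (nat_lit 561) (nat_lit 381))) (XT.nd (nat_lit 78) (nat_lit 532) (nat_lit 0) (XT.lf (nat_lit 0) (nat_lit 7574201791) (nat_lit 684) (nat_lit 7648109304) (nat_lit 76) (nat_lit 2193423044) (nat_lit 258) (nat_lit 5) (nat_lit 267) (nat_lit 5) (nat_lit 259) (nat_lit 5) (nat_lit 619) (nat_lit 561) (nat_lit 380)) (XT.lf (nat_lit 0) (nat_lit 2413192019) (nat_lit 532) (nat_lit 8408493319) (nat_lit 608) (nat_lit 6795815028) (nat_lit 251) (nat_lit 5) (nat_lit 258) (nat_lit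 5) (nat_lit 259) (nat_lit 5) (nat_lit 620) (nat_lit 561) (nat_lit 379))))))) (XT.nd (nat_lit 936) (nat_lit 3268) (nat_lit 0) (XT.nd (nat_lit 468) (nat_lit 2128) (nat_lit 0) (XT.nd (nat_lit 234) (nat_lit 1064) (nat_lit 0) (XT.nd (nat_lit 78) (nat_lit 684) (nat_lit 0) (XT.lf (nat_lit 0) (nat_lit 12769271361) (nat_lit 532) (nat_lit 1408264106) (nat_lit 608) (nat_lit 3644899028) (nat_lit 251) (nat_lit 5) (nat_lit 258) (nat_lit 5) (nat_lit 259) (nat_lit 5) (nat_lit 621) (nat_lit 561) (nat_lit 378)) (XT.nd (nat_lit 78) (nat_lit 76) (nat_lit 0) (XT.lf (nat_lit 0) (nat_lit 5323544949) (nat_lit 608) (nat_lit 12340972379) (nat_lit 684) (nat_lit 365670584) (nat_lit 243) (nat_lit 5) (nat_lit 251) (nat_lit 5) (nat_lit 252) (nat_lit 5) (nat_lit 622) (nat_lit 561) (nat_lit 377)) (XT.lf (nat_lit 0) (nat_lit 2975801268) (nat_lit 684) (nat_lit 2304128350) (nat_lit 76) (nat_lit 12961066173) (nat_lit 242) (nat_lit 5) (nat_lit 251) (nat_lit 5) (nat_lit 243) (nat_lit 5) (nat_lit 623) (nat_lit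 561) (nat_lit 376)))) (XT.nd (nat_lit 78) (nat_lit 532) (nat_lit 0) (XT.lf (nat_lit 0) (nat_lit 6439042891) (nat_lit 608) (nat_lit 10063539416) (nat_lit 76) (nat_lit 1952193292) (nat_lit 235) (nat_lit 5) (nat_lit 243) (nat_lit 5) (nat_lit 236) (nat_lit 5) (nat_lit 624) (nat_lit 561) (nat_lit 375)) (XT.nd (nat_lit 78) (nat_lit 0) (nat_lit 0) (XT.lf (nat_lit 0) (nat_lit 622339414) (nat_lit 532) (nat_lit 9396272976) (nat_lit 608) (nat_lit 8653278183) (nat_lit 228) (nat_lit 5) (nat_lit 235) (nat_lit 5) (nat_lit 236) (nat_lit 5) (nat_lit 625) (nat_lit 561) (nat_lit 374)) (XT.lf (nat_lit 0) (nat_lit 11648442191) (nat_lit 532) (nat_lit 2081437302) (nat_lit 608) (nat_lit 5162267042) (nat_lit 228) (nat_lit 5) (nat_lit 235) (nat_lit 5) (nat_lit 236) (nat_lit 5) (nat_lit 626) (nat_lit 561) (nat_lit 373))))) (XT.nd (nat_lit 234) (nat_lit 988) (nat_lit 0) (XT.nd (nat_lit 78) (nat_lit 608) (nat_lit 0) (XT.lf (nat_lit 0) (nat_lit 3783103048) (nat_lit 532) (nat_lit 13784464217) (nat_lit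 608) (nat_lit 1548197243) (nat_lit 221) (nat_lit 5) (nat_lit 228) (nat_lit 5) (nat_lit 229) (nat_lit 5) (nat_lit 627) (nat_lit 561) (nat_lit 372)) (XT.nd (nat_lit 78) (nat_lit 532) (nat_lit 0) (XT.lf (nat_lit 0) (nat_lit 2165562377) (nat_lit 608) (nat_lit 4252110765) (nat_lit 76) (nat_lit 12924795805) (nat_lit 220) (nat_lit 5) (nat_lit 228) (nat_lit 5) (nat_lit 221) (nat_lit 5) (nat_lit 628) (nat_lit 561) (nat_lit 371)) (XT.lf (nat_lit 0) (nat_lit 5979491249) (nat_lit 608) (nat_lit 12456655336) (nat_lit 76) (nat_lit 1136424480) (nat_lit 213) (nat_lit 5) (nat_lit 221) (nat_lit 5) (nat_lit 214) (nat_lit 5) (nat_lit 629) (nat_lit 561) (nat_lit 370)))) (XT.nd (nat_lit 78) (nat_lit 988) (nat_lit 0) (XT.lf (nat_lit 0) (nat_lit 9933861005) (nat_lit 608) (nat_lit 1090197425) (nat_lit 76) (nat_lit 8781934288) (nat_lit 213) (nat_lit 5) (nat_lit 221) (nat_lit 5) (nat_lit 214) (nat_lit 5) (nat_lit 630) (nat_lit 561) (nat_lit 369)) (XT.nd (nat_lit 78) (nat_lit 532) (nat_lit 0) (XT.lf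 (nat_lit 0) (nat_lit 10633496927) (nat_lit 456) (nat_lit 3395937699) (nat_lit 532) (nat_lit 6013406569) (nat_lit 207) (nat_lit 5) (nat_lit 213) (nat_lit 5) (nat_lit 214) (nat_lit 5) (nat_lit 631) (nat_lit 561) (nat_lit 368)) (XT.lf (nat_lit 0) (nat_lit 2314388615) (nat_lit 532) (nat_lit 15936524319) (nat_lit 608) (nat_lit 2032634553) (nat_lit 200) (nat_lit 5) (nat_lit 207) (nat_lit 5) (nat_lit 208) (nat_lit 5) (nat_lit 632) (nat_lit 561) (nat_lit 367)))))) (XT.nd (nat_lit 468) (nat_lit 1748) (nat_lit 0) (XT.nd (nat_lit 234) (nat_lit 988) (nat_lit 0) (XT.nd (nat_lit 78) (nat_lit 456) (nat_lit 0) (XT.lf (nat_lit 0) (nat_lit 2080368732) (nat_lit 608) (nat_lit 6173375082) (nat_lit 76) (nat_lit 12273477258) (nat_lit 199) (nat_lit 5) (nat_lit 207) (nat_lit 5) (nat_lit 200) (nat_lit 5) (nat_lit 633) (nat_lit 561) (nat_lit 366)) (XT.nd (nat_lit 78) (nat_lit 0) (nat_lit 0) (XT.lf (nat_lit 0) (nat_lit 5912962819) (nat_lit 456) (nat_lit 367163422) (nat_lit 532) (nat_lit 14494739618)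 (nat_lit 193) (nat_lit 5) (nat_lit 199) (nat_lit 5) (nat_lit 200) (nat_lit 5) (nat_lit 634) (nat_lit 561) (nat_lit 365)) (XT.lf (nat_lit 0) (nat_lit 10648772449) (nat_lit 532) (nat_lit 2761548577) (nat_lit 76) (nat_lit 7615445299) (nat_lit 193) (nat_lit 5) (nat_lit 200) (nat_lit 5) (nat_lit 194) (nat_lit 5) (nat_lit 635) (nat_lit 561) (nat_lit 364)))) (XT.nd (nat_lit 78) (nat_lit 532) (nat_lit 0) (XT.lf (nat_lit 0) (nat_lit 9696232319) (nat_lit 456) (nat_lit 5467423083) (nat_lit 532) (nat_lit 6116852763) (nat_lit 187) (nat_lit 5) (nat_lit 193) (nat_lit 5) (nat_lit 194) (nat_lit 5) (nat_lit 636) (nat_lit 561) (nat_lit 363)) (XT.nd (nat_lit 78) (nat_lit 76) (nat_lit 0) (XT.lf (nat_lit 0) (nat_lit 885649861) (nat_lit 456) (nat_lit 18918221892) (nat_lit 532) (nat_lit 1735773004) (nat_lit 181) (nat_lit 5) (nat_lit 187) (nat_lit 5) (nat_lit 188) (nat_lit 5) (nat_lit 637) (nat_lit 561) (nat_lit 362)) (XT.lf (nat_lit 0) (nat_lit 2805095971) (nat_lit 532) (nat_lit 8104266108)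 (nat_lit 76) (nat_lit 10892087515) (nat_lit 180) (nat_lit 5) (nat_lit 187) (nat_lit 5) (nat_lit 181) (nat_lit 5) (nat_lit 638) (nat_lit 561) (nat_lit 361))))) (XT.nd (nat_lit 234) (nat_lit 912) (nat_lit 0) (XT.nd (nat_lit 78) (nat_lit 380) (nat_lit 0) (XT.lf (nat_lit 0) (nat_lit 4737892683) (nat_lit 456) (nat_lit 2700108331) (nat_lit 532) (nat_lit 14629771426) (nat_lit 174) (nat_lit 5) (nat_lit 180) (nat_lit 5) (nat_lit 181) (nat_lit 5) (nat_lit 639) (nat_lit 561) (nat_lit 360)) (XT.nd (nat_lit 78) (nat_lit 380) (nat_lit 0) (XT.lf (nat_lit 0) (nat_lit 12248866476) (nat_lit 532) (nat_lit 4438033244) (nat_lit 76) (nat_lit 5650816556) (nat_lit 174) (nat_lit 5) (nat_lit 181) (nat_lit 5) (nat_lit 175) (nat_lit 5) (nat_lit 640) (nat_lit 561) (nat_lit 359)) (XT.lf (nat_lit 0) (nat_lit 8800111072) (nat_lit 380) (nat_lit 8424702163) (nat_lit 456) (nat_lit 5386869044) (nat_lit 169) (nat_lit 5) (nat_lit 174) (nat_lit 5) (nat_lit 175) (nat_lit 5) (nat_lit 641) (nat_lit 561) (nat_lit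 358)))) (XT.nd (nat_lit 156) (nat_lit 380) (nat_lit 0) (XT.nd (nat_lit 78) (nat_lit 532) (nat_lit 0) (XT.lf (nat_lit 0) (nat_lit 22324164977) (nat_lit 456) (nat_lit 536686390) (nat_lit 76) (nat_lit 29799073) (nat_lit 169) (nat_lit 5) (nat_lit 175) (nat_lit 5) (nat_lit 170) (nat_lit 5) (nat_lit 642) (nat_lit 561) (nat_lit 357)) (XT.lf (nat_lit 0) (nat_lit 4429070570) (nat_lit 532) (nat_lit 10090720794) (nat_lit 76) (nat_lit 8652125839) (nat_lit 162) (nat_lit 5) (nat_lit 169) (nat_lit 5) (nat_lit 163) (nat_lit 5) (nat_lit 643) (nat_lit 561) (nat_lit 356))) (XT.nd (nat_lit 78) (nat_lit 0) (nat_lit 0) (XT.lf (nat_lit 0) (nat_lit 3553849780) (nat_lit 380) (nat_lit 5983838361) (nat_lit 456) (nat_lit 13920632084) (nat_lit 157) (nat_lit 5) (nat_lit 162) (nat_lit 5) (nat_lit 163) (nat_lit 5) (nat_lit 644) (nat_lit 561) (nat_lit 355)) (XT.lf (nat_lit 0) (nat_lit 14828388195) (nat_lit 456) (nat_lit 6168128874) (nat_lit 76) (nat_lit 2752336551) (nat_lit 157) (nat_lit 5) (nat_lit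 163) (nat_lit 5) (nat_lit 158) (nat_lit 5) (nat_lit 645) (nat_lit 561) (nat_lit 354))))))))
noncomputable def xc177 : XT := (XT.nd (nat_lit 75738) (nat_lit 0) (nat_lit 18240) (XT.nd (nat_lit 74724) (nat_lit 0) (nat_lit 28272) (XT.nd (nat_lit 468) (nat_lit 1140) (nat_lit 0) (XT.nd (nat_lit 234) (nat_lit 684) (nat_lit 0) (XT.nd (nat_lit 78) (nat_lit 456) (nat_lit 0) (XT.lf (nat_lit 0) (nat_lit 7898073455) (nat_lit 380) (nat_lit 12411921887) (nat_lit 456) (nat_lit 3733500985) (nat_lit 152) (nat_lit 5) (nat_lit 157) (nat_lit 5) (nat_lit 158) (nat_lit 5) (nat_lit 646) (nat_lit 561) (nat_lit 353)) (XT.nd (nat_lit 78) (nat_lit 380) (nat_lit 0) (XT.lf (nat_lit 0) (nat_lit 1572649236) (nat_lit 456) (nat_lit 2033220253) (nat_lit 76) (nat_lit 20737243289) (nat_lit 151) (nat_lit 5) (nat_lit 157) (nat_lit 5) (nat_lit 152) (nat_lit 5) (nat_lit 647) (nat_lit 561) (nat_lit 352)) (XT.lf (nat_lit 0) (nat_lit 7045987401) (nat_lit 456) (nat_lit 12190644192) (nat_lit 76) (nat_lit 5409375741)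 (nat_lit 146) (nat_lit 5) (nat_lit 152) (nat_lit 5) (nat_lit 147) (nat_lit 5) (nat_lit 648) (nat_lit 561) (nat_lit 351)))) (XT.nd (nat_lit 78) (nat_lit 304) (nat_lit 0) (XT.lf (nat_lit 0) (nat_lit 2304135661) (nat_lit 380) (nat_lit 10371584664) (nat_lit 456) (nat_lit 12278301364) (nat_lit 141) (nat_lit 5) (nat_lit 146) (nat_lit 5) (nat_lit 147) (nat_lit 5) (nat_lit 649) (nat_lit 561) (nat_lit 350)) (XT.nd (nat_lit 78) (nat_lit 304) (nat_lit 0) (XT.lf (nat_lit 0) (nat_lit 17245410431) (nat_lit 380) (nat_lit 1248851433) (nat_lit 456) (nat_lit 6772410647) (nat_lit 141) (nat_lit 5) (nat_lit 146) (nat_lit 5) (nat_lit 147) (nat_lit 5) (nat_lit 650) (nat_lit 561) (nat_lit 349)) (XT.lf (nat_lit 0) (nat_lit 6929945611) (nat_lit 304) (nat_lit 17591028006) (nat_lit 380) (nat_lit 1062767193) (nat_lit 137) (nat_lit 5) (nat_lit 141) (nat_lit 5) (nat_lit 142) (nat_lit 5) (nat_lit 651) (nat_lit 561) (nat_lit 348))))) (XT.nd (nat_lit 234) (nat_lit 380) (nat_lit 0) (XT.nd (nat_lit 78)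 (nat_lit 684) (nat_lit 0) (XT.lf (nat_lit 0) (nat_lit 4755595334) (nat_lit 380) (nat_lit 3665291280) (nat_lit 76) (nat_lit 17484506682) (nat_lit 136) (nat_lit 5) (nat_lit 141) (nat_lit 5) (nat_lit 137) (nat_lit 5) (nat_lit 652) (nat_lit 561) (nat_lit 347)) (XT.nd (nat_lit 78) (nat_lit 304) (nat_lit 0) (XT.lf (nat_lit 0) (nat_lit 10753683447) (nat_lit 456) (nat_lit 14476722071) (nat_lit 76) (nat_lit 1001381465) (nat_lit 131) (nat_lit 5) (nat_lit 137) (nat_lit 5) (nat_lit 132) (nat_lit 5) (nat_lit 653) (nat_lit 561) (nat_lit 346)) (XT.lf (nat_lit 0) (nat_lit 916941501) (nat_lit 304) (nat_lit 16035925180) (nat_lit 380) (nat_lit 9610219610) (nat_lit 127) (nat_lit 5) (nat_lit 131) (nat_lit 5) (nat_lit 132) (nat_lit 5) (nat_lit 654) (nat_lit 561) (nat_lit 345)))) (XT.nd (nat_lit 78) (nat_lit 380) (nat_lit 0) (XT.lf (nat_lit 0) (nat_lit 16806320116) (nat_lit 304) (nat_lit 6561563806) (nat_lit 380) (nat_lit 3531291062) (nat_lit 127) (nat_lit 5) (nat_lit 131) (nat_lit 5) (nat_lit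 132) (nat_lit 5) (nat_lit 655) (nat_lit 561) (nat_lit 344)) (XT.nd (nat_lit 73866) (nat_lit 0) (nat_lit 29716) (XT.lf (nat_lit 0) (nat_lit 2687270831) (nat_lit 380) (nat_lit 21439244139) (nat_lit 76) (nat_lit 3114063027) (nat_lit 122) (nat_lit 5) (nat_lit 127) (nat_lit 5) (nat_lit 123) (nat_lit 5) (nat_lit 656) (nat_lit 561) (nat_lit 343)) (XT.lf (nat_lit 0) (nat_lit 908228132) (nat_lit 0) (nat_lit 908228132) (nat_lit 1596) (nat_lit 3104317830) (nat_lit 513) (nat_lit 5) (nat_lit 513) (nat_lit 3) (nat_lit 534) (nat_lit 3) (nat_lit 562) (nat_lit 562) (nat_lit 436)))))) (XT.nd (nat_lit 468) (nat_lit 1444) (nat_lit 0) (XT.nd (nat_lit 234) (nat_lit 0) (nat_lit 76) (XT.nd (nat_lit 78) (nat_lit 0) (nat_lit 0) (XT.lf (nat_lit 0) (nat_lit 4415765976) (nat_lit 1596) (nat_lit 3208591726) (nat_lit 1672) (nat_lit 2300553861) (nat_lit 513) (nat_lit 5) (nat_lit 534) (nat_lit 3) (nat_lit 535) (nat_lit 5) (nat_lit 563) (nat_lit 562) (nat_lit 435)) (XT.nd (nat_lit 78) (nat_lit 0) (nat_lit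 76) (XT.lf (nat_lit 76) (nat_lit 1704522624) (nat_lit 0) (nat_lit 3513727951) (nat_lit 1672) (nat_lit 4791615339) (nat_lit 514) (nat_lit 5) (nat_lit 513) (nat_lit 5) (nat_lit 535) (nat_lit 5) (nat_lit 564) (nat_lit 562) (nat_lit 434)) (XT.lf (nat_lit 0) (nat_lit 6044113293) (nat_lit 1596) (nat_lit 3351660154) (nat_lit 1672) (nat_lit 700602462) (nat_lit 514) (nat_lit 5) (nat_lit 535) (nat_lit 5) (nat_lit 536) (nat_lit 5) (nat_lit 565) (nat_lit 562) (nat_lit 433)))) (XT.nd (nat_lit 78) (nat_lit 0) (nat_lit 0) (XT.lf (nat_lit 76) (nat_lit 1689780717) (nat_lit 0) (nat_lit 5212566422) (nat_lit 1672) (nat_lit 3281954955) (nat_lit 515) (nat_lit 5) (nat_lit 514) (nat_lit 5) (nat_lit 536) (nat_lit 5) (nat_lit 566) (nat_lit 562) (nat_lit 432)) (XT.nd (nat_lit 78) (nat_lit 0) (nat_lit 76) (XT.lf (nat_lit 76) (nat_lit 6867342216) (nat_lit 0) (nat_lit 914802515) (nat_lit 1672) (nat_lit 2491757096) (nat_lit 515) (nat_lit 5) (nat_lit 514) (nat_lit 5) (nat_lit 536) (nat_lit 5) (nat_lit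 567) (nat_lit 562) (nat_lit 431)) (XT.lf (nat_lit 76) (nat_lit 1773548994) (nat_lit 0) (nat_lit 6922339875) (nat_lit 1672) (nat_lit 1669080622) (nat_lit 516) (nat_lit 5) (nat_lit 515) (nat_lit 5) (nat_lit 537) (nat_lit 5) (nat_lit 568) (nat_lit 562) (nat_lit 430))))) (XT.nd (nat_lit 234) (nat_lit 0) (nat_lit 76) (XT.nd (nat_lit 78) (nat_lit 1596) (nat_lit 0) (XT.lf (nat_lit 76) (nat_lit 7087015575) (nat_lit 0) (nat_lit 2552363636) (nat_lit 1672) (nat_lit 818252760) (nat_lit 516) (nat_lit 5) (nat_lit 515) (nat_lit 5) (nat_lit 537) (nat_lit 5) (nat_lit 569) (nat_lit 562) (nat_lit 429)) (XT.nd (nat_lit 78) (nat_lit 0) (nat_lit 0) (XT.lf (nat_lit 0) (nat_lit 57049139) (nat_lit 1672) (nat_lit 8594927476) (nat_lit 1748) (nat_lit 1900005265) (nat_lit 494) (nat_lit 5) (nat_lit 516) (nat_lit 5) (nat_lit 517) (nat_lit 5) (nat_lit 570) (nat_lit 562) (nat_lit 428)) (XT.lf (nat_lit 0) (nat_lit 961714630) (nat_lit 1672) (nat_lit 3243898050) (nat_lit 1748) (nat_lit 6442044378) (nat_lit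 494) (nat_lit 5) (nat_lit 516) (nat_lit 5) (nat_lit 517) (nat_lit 5) (nat_lit 571) (nat_lit 562) (nat_lit 427)))) (XT.nd (nat_lit 156) (nat_lit 0) (nat_lit 0) (XT.nd (nat_lit 78) (nat_lit 0) (nat_lit 0) (XT.lf (nat_lit 0) (nat_lit 1884710877) (nat_lit 1672) (nat_lit 8514546704) (nat_lit 1748) (nat_lit 345986079) (nat_lit 495) (nat_lit 5) (nat_lit 517) (nat_lit 5) (nat_lit 518) (nat_lit 5) (nat_lit 572) (nat_lit 562) (nat_lit 426)) (XT.lf (nat_lit 0) (nat_lit 2859689737) (nat_lit 1672) (nat_lit 3024304633) (nat_lit 1748) (nat_lit 4960119787) (nat_lit 495) (nat_lit 5) (nat_lit 517) (nat_lit 5) (nat_lit 518) (nat_lit 5) (nat_lit 573) (nat_lit 562) (nat_lit 425))) (XT.nd (nat_lit 78) (nat_lit 0) (nat_lit 76) (XT.lf (nat_lit 76) (nat_lit 2599325190) (nat_lit 0) (nat_lit 1255796513) (nat_lit 1748) (nat_lit 7089823856) (nat_lit 496) (nat_lit 5) (nat_lit 495) (nat_lit 5) (nat_lit 518) (nat_lit 5) (nat_lit 574) (nat_lit 562) (nat_lit 424)) (XT.lf (nat_lit 0) (nat_lit 4897743689)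 (nat_lit 1672) (nat_lit 2704384780) (nat_lit 1748) (nat_lit 3445122009) (nat_lit 496) (nat_lit 5) (nat_lit 518) (nat_lit 5) (nat_lit 519) (nat_lit 5) (nat_lit 575) (nat_lit 562) (nat_lit 423))))))) (XT.nd (nat_lit 936) (nat_lit 7068) (nat_lit 0) (XT.nd (nat_lit 468) (nat_lit 1520) (nat_lit 0) (XT.nd (nat_lit 234) (nat_lit 1596) (nat_lit 0) (XT.nd (nat_lit 78) (nat_lit 0) (nat_lit 76) (XT.lf (nat_lit 76) (nat_lit 3071059341) (nat_lit 0) (nat_lit 2903076865) (nat_lit 1748) (nat_lit 5177209392) (nat_lit 497) (nat_lit 5) (nat_lit 496) (nat_lit 5) (nat_lit 519) (nat_lit 5) (nat_lit 576) (nat_lit 562) (nat_lit 422)) (XT.nd (nat_lit 78) (nat_lit 0) (nat_lit 0) (XT.lf (nat_lit 0) (nat_lit 7087520027) (nat_lit 1672) (nat_lit 2281721633) (nat_lit 1748) (nat_lit 1887974111) (nat_lit 497) (nat_lit 5) (nat_lit 519) (nat_lit 5) (nat_lit 520) (nat_lit 5) (nat_lit 577) (nat_lit 562) (nat_lit 421)) (XT.lf (nat_lit 76) (nat_lit 3650840699) (nat_lit 0) (nat_lit 4600480350) (nat_lit 1748)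 (nat_lit 3113321678) (nat_lit 498) (nat_lit 5) (nat_lit 497) (nat_lit 5) (nat_lit 520) (nat_lit 5) (nat_lit 578) (nat_lit 562) (nat_lit 420)))) (XT.nd (nat_lit 78) (nat_lit 1748) (nat_lit 0) (XT.lf (nat_lit 0) (nat_lit 9440990255) (nat_lit 1672) (nat_lit 1753620481) (nat_lit 1748) (nat_lit 279557965) (nat_lit 498) (nat_lit 5) (nat_lit 520) (nat_lit 5) (nat_lit 521) (nat_lit 5) (nat_lit 579) (nat_lit 562) (nat_lit 419)) (XT.nd (nat_lit 78) (nat_lit 1748) (nat_lit 0) (XT.lf (nat_lit 76) (nat_lit 4341572885) (nat_lit 0) (nat_lit 6357287420) (nat_lit 1748) (nat_lit 886139019) (nat_lit 499) (nat_lit 5) (nat_lit 498) (nat_lit 5) (nat_lit 521) (nat_lit 5) (nat_lit 580) (nat_lit 562) (nat_lit 418)) (XT.lf (nat_lit 0) (nat_lit 277831957) (nat_lit 1748) (nat_lit 1128076512) (nat_lit 1824) (nat_lit 10292149157) (nat_lit 475) (nat_lit 5) (nat_lit 498) (nat_lit 5) (nat_lit 499) (nat_lit 5) (nat_lit 581) (nat_lit 562) (nat_lit 417))))) (XT.nd (nat_lit 234) (nat_lit 1596) (nat_lit 0)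 (XT.nd (nat_lit 78) (nat_lit 0) (nat_lit 0) (XT.lf (nat_lit 0) (nat_lit 1496824945) (nat_lit 1748) (nat_lit 6675990243) (nat_lit 1824) (nat_lit 3639574744) (nat_lit 476) (nat_lit 5) (nat_lit 499) (nat_lit 5) (nat_lit 500) (nat_lit 5) (nat_lit 582) (nat_lit 562) (nat_lit 416)) (XT.nd (nat_lit 78) (nat_lit 0) (nat_lit 76) (XT.lf (nat_lit 0) (nat_lit 2743497312) (nat_lit 1748) (nat_lit 407561403) (nat_lit 1824) (nat_lit 8777886283) (nat_lit 476) (nat_lit 5) (nat_lit 499) (nat_lit 5) (nat_lit 500) (nat_lit 5) (nat_lit 583) (nat_lit 562) (nat_lit 415)) (XT.lf (nat_lit 0) (nat_lit 4054128904) (nat_lit 1748) (nat_lit 6005329453) (nat_lit 1824) (nat_lit 1987594357) (nat_lit 477) (nat_lit 5) (nat_lit 500) (nat_lit 5) (nat_lit 501) (nat_lit 5) (nat_lit 584) (nat_lit 562) (nat_lit 414)))) (XT.nd (nat_lit 78) (nat_lit 1672) (nat_lit 0) (XT.lf (nat_lit 76) (nat_lit 432029281) (nat_lit 0) (nat_lit 4972216859) (nat_lit 1824) (nat_lit 6763013007) (nat_lit 478) (nat_lit 5) (nat_lit 477)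 (nat_lit 5) (nat_lit 501) (nat_lit 5) (nat_lit 585) (nat_lit 562) (nat_lit 413)) (XT.nd (nat_lit 78) (nat_lit 1748) (nat_lit 0) (XT.lf (nat_lit 0) (nat_lit 6810388667) (nat_lit 1748) (nat_lit 5222204885) (nat_lit 76) (nat_lit 256697681) (nat_lit 478) (nat_lit 5) (nat_lit 501) (nat_lit 5) (nat_lit 479) (nat_lit 5) (nat_lit 586) (nat_lit 562) (nat_lit 412)) (XT.lf (nat_lit 0) (nat_lit 1395666350) (nat_lit 1748) (nat_lit 6878281535) (nat_lit 1824) (nat_lit 4139232144) (nat_lit 455) (nat_lit 5) (nat_lit 478) (nat_lit 5) (nat_lit 479) (nat_lit 5) (nat_lit 587) (nat_lit 562) (nat_lit 411)))))) (XT.nd (nat_lit 468) (nat_lit 3420) (nat_lit 0) (XT.nd (nat_lit 234) (nat_lit 1900) (nat_lit 0) (XT.nd (nat_lit 78) (nat_lit 1748) (nat_lit 0) (XT.lf (nat_lit 0) (nat_lit 8205964286) (nat_lit 1748) (nat_lit 1583340757) (nat_lit 1824) (nat_lit 2749792928) (nat_lit 455) (nat_lit 5) (nat_lit 478) (nat_lit 5) (nat_lit 479) (nat_lit 5) (nat_lit 588) (nat_lit 562) (nat_lit 410)) (XT.nd (nat_lit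 78) (nat_lit 76) (nat_lit 0) (XT.lf (nat_lit 0) (nat_lit 2481931498) (nat_lit 1672) (nat_lit 8881677814) (nat_lit 1748) (nat_lit 1303354029) (nat_lit 433) (nat_lit 5) (nat_lit 455) (nat_lit 5) (nat_lit 456) (nat_lit 5) (nat_lit 589) (nat_lit 562) (nat_lit 409)) (XT.lf (nat_lit 0) (nat_lit 197342494) (nat_lit 1748) (nat_lit 3327425163) (nat_lit 76) (nat_lit 9272046127) (nat_lit 432) (nat_lit 5) (nat_lit 455) (nat_lit 5) (nat_lit 433) (nat_lit 5) (nat_lit 590) (nat_lit 562) (nat_lit 408)))) (XT.nd (nat_lit 78) (nat_lit 912) (nat_lit 0) (XT.lf (nat_lit 0) (nat_lit 1735500866) (nat_lit 1064) (nat_lit 9245129064) (nat_lit 76) (nat_lit 1947962765) (nat_lit 419) (nat_lit 5) (nat_lit 433) (nat_lit 5) (nat_lit 420) (nat_lit 5) (nat_lit 591) (nat_lit 562) (nat_lit 407)) (XT.nd (nat_lit 78) (nat_lit 912) (nat_lit 0) (XT.lf (nat_lit 0) (nat_lit 3338482514) (nat_lit 1064) (nat_lit 2217199138) (nat_lit 76) (nat_lit 7506646058) (nat_lit 419) (nat_lit 5) (nat_lit 433) (nat_lit 5) (nat_lit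 420) (nat_lit 5) (nat_lit 592) (nat_lit 562) (nat_lit 406)) (XT.lf (nat_lit 0) (nat_lit 4994576335) (nat_lit 988) (nat_lit 8192058009) (nat_lit 76) (nat_lit 11683723) (nat_lit 407) (nat_lit 5) (nat_lit 420) (nat_lit 5) (nat_lit 408) (nat_lit 5) (nat_lit 593) (nat_lit 562) (nat_lit 405))))) (XT.nd (nat_lit 234) (nat_lit 1672) (nat_lit 0) (XT.nd (nat_lit 78) (nat_lit 1748) (nat_lit 0) (XT.lf (nat_lit 0) (nat_lit 6724195953) (nat_lit 988) (nat_lit 980153259) (nat_lit 76) (nat_lit 5631872600) (nat_lit 407) (nat_lit 5) (nat_lit 420) (nat_lit 5) (nat_lit 408) (nat_lit 5) (nat_lit 594) (nat_lit 562) (nat_lit 404)) (XT.nd (nat_lit 78) (nat_lit 836) (nat_lit 0) (XT.lf (nat_lit 0) (nat_lit 6450019389) (nat_lit 912) (nat_lit 2069123459) (nat_lit 988) (nat_lit 4957127714) (nat_lit 395) (nat_lit 5) (nat_lit 407) (nat_lit 5) (nat_lit 408) (nat_lit 5) (nat_lit 595) (nat_lit 562) (nat_lit 403)) (XT.lf (nat_lit 0) (nat_lit 393607860) (nat_lit 836) (nat_lit 9978453211) (nat_lit 912) (nat_lit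 3246619361) (nat_lit 384) (nat_lit 5) (nat_lit 395) (nat_lit 5) (nat_lit 396) (nat_lit 5) (nat_lit 596) (nat_lit 562) (nat_lit 402)))) (XT.nd (nat_lit 156) (nat_lit 760) (nat_lit 0) (XT.nd (nat_lit 78) (nat_lit 912) (nat_lit 0) (XT.lf (nat_lit 0) (nat_lit 8032573819) (nat_lit 836) (nat_lit 4279383356) (nat_lit 912) (nat_lit 1450984501) (nat_lit 384) (nat_lit 5) (nat_lit 395) (nat_lit 5) (nat_lit 396) (nat_lit 5) (nat_lit 597) (nat_lit 562) (nat_lit 401)) (XT.lf (nat_lit 0) (nat_lit 387434916) (nat_lit 912) (nat_lit 11993618933) (nat_lit 76) (nat_lit 1528749120) (nat_lit 372) (nat_lit 5) (nat_lit 384) (nat_lit 5) (nat_lit 373) (nat_lit 5) (nat_lit 598) (nat_lit 562) (nat_lit 400))) (XT.nd (nat_lit 78) (nat_lit 760) (nat_lit 0) (XT.lf (nat_lit 0) (nat_lit 2299700541) (nat_lit 912) (nat_lit 4314419266) (nat_lit 76) (nat_lit 7444161205) (nat_lit 372) (nat_lit 5) (nat_lit 384) (nat_lit 5) (nat_lit 373) (nat_lit 5) (nat_lit 599) (nat_lit 562) (nat_lit 399)) (XT.lf (nat_lit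 0) (nat_lit 3554465824) (nat_lit 760) (nat_lit 708470276) (nat_lit 836) (nat_lit 9946539467) (nat_lit 362) (nat_lit 5) (nat_lit 372) (nat_lit 5) (nat_lit 373) (nat_lit 5) (nat_lit 600) (nat_lit 562) (nat_lit 398))))))))
noncomputable def xc178 : XT := (XT.nd (nat_lit 1950) (nat_lit 7144) (nat_lit 0) (XT.nd (nat_lit 936) (nat_lit 4332) (nat_lit 0) (XT.nd (nat_lit 468) (nat_lit 2888) (nat_lit 0) (XT.nd (nat_lit 234) (nat_lit 1596) (nat_lit 0) (XT.nd (nat_lit 78) (nat_lit 836) (nat_lit 0) (XT.lf (nat_lit 0) (nat_lit 6318870901) (nat_lit 836) (nat_lit 2769256547) (nat_lit 76) (nat_lit 5274499293) (nat_lit 362) (nat_lit 5) (nat_lit 373) (nat_lit 5) (nat_lit 363) (nat_lit 5) (nat_lit 601) (nat_lit 562) (nat_lit 397)) (XT.nd (nat_lit 78) (nat_lit 0) (nat_lit 0) (XT.lf (nat_lit 0) (nat_lit 5328967937) (nat_lit 836) (nat_lit 3116228262) (nat_lit 912) (nat_lit 6073060690) (nat_lit 351) (nat_lit 5) (nat_lit 362) (nat_lit 5) (nat_lit 363) (nat_lit 5) (nat_lit 602) (nat_lit 562) (nat_lit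 396)) (XT.lf (nat_lit 0) (nat_lit 10642177337) (nat_lit 912) (nat_lit 1079942132) (nat_lit 76) (nat_lit 2954318946) (nat_lit 351) (nat_lit 5) (nat_lit 363) (nat_lit 5) (nat_lit 352) (nat_lit 5) (nat_lit 603) (nat_lit 562) (nat_lit 395)))) (XT.nd (nat_lit 78) (nat_lit 836) (nat_lit 0) (XT.lf (nat_lit 0) (nat_lit 7255752477) (nat_lit 760) (nat_lit 5685392754) (nat_lit 836) (nat_lit 1895478734) (nat_lit 341) (nat_lit 5) (nat_lit 351) (nat_lit 5) (nat_lit 352) (nat_lit 5) (nat_lit 604) (nat_lit 562) (nat_lit 394)) (XT.nd (nat_lit 78) (nat_lit 0) (nat_lit 0) (XT.lf (nat_lit 0) (nat_lit 288139202) (nat_lit 836) (nat_lit 14232367254) (nat_lit 76) (nat_lit 479354665) (nat_lit 330) (nat_lit 5) (nat_lit 341) (nat_lit 5) (nat_lit 331) (nat_lit 5) (nat_lit 605) (nat_lit 562) (nat_lit 393)) (XT.lf (nat_lit 0) (nat_lit 2569408618) (nat_lit 836) (nat_lit 5840840924) (nat_lit 76) (nat_lit 6754276962) (nat_lit 330) (nat_lit 5) (nat_lit 341) (nat_lit 5) (nat_lit 331) (nat_lit 5) (nat_lit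 606) (nat_lit 562) (nat_lit 392))))) (XT.nd (nat_lit 234) (nat_lit 1444) (nat_lit 0) (XT.nd (nat_lit 78) (nat_lit 760) (nat_lit 0) (XT.lf (nat_lit 0) (nat_lit 2744171697) (nat_lit 684) (nat_lit 2160611170) (nat_lit 760) (nat_lit 10427533973) (nat_lit 321) (nat_lit 5) (nat_lit 330) (nat_lit 5) (nat_lit 331) (nat_lit 5) (nat_lit 607) (nat_lit 562) (nat_lit 391)) (XT.nd (nat_lit 78) (nat_lit 760) (nat_lit 0) (XT.lf (nat_lit 0) (nat_lit 7344451609) (nat_lit 760) (nat_lit 3960685548) (nat_lit 76) (nat_lit 4197175294) (nat_lit 321) (nat_lit 5) (nat_lit 331) (nat_lit 5) (nat_lit 322) (nat_lit 5) (nat_lit 608) (nat_lit 562) (nat_lit 390)) (XT.lf (nat_lit 0) (nat_lit 4878759786) (nat_lit 760) (nat_lit 4991091811) (nat_lit 836) (nat_lit 5805118804) (nat_lit 311) (nat_lit 5) (nat_lit 321) (nat_lit 5) (nat_lit 322) (nat_lit 5) (nat_lit 609) (nat_lit 562) (nat_lit 389)))) (XT.nd (nat_lit 78) (nat_lit 1444) (nat_lit 0) (XT.lf (nat_lit 0) (nat_lit 12472979628) (nat_lit 836) (nat_lit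 1921798238) (nat_lit 76) (nat_lit 1455760407) (nat_lit 311) (nat_lit 5) (nat_lit 322) (nat_lit 5) (nat_lit 312) (nat_lit 5) (nat_lit 610) (nat_lit 562) (nat_lit 388)) (XT.nd (nat_lit 78) (nat_lit 760) (nat_lit 0) (XT.lf (nat_lit 0) (nat_lit 7181087854) (nat_lit 684) (nat_lit 8017992053) (nat_lit 760) (nat_lit 829120539) (nat_lit 302) (nat_lit 5) (nat_lit 311) (nat_lit 5) (nat_lit 312) (nat_lit 5) (nat_lit 611) (nat_lit 562) (nat_lit 387)) (XT.lf (nat_lit 0) (nat_lit 264623050) (nat_lit 684) (nat_lit 1488425208) (nat_lit 760) (nat_lit 14456019232) (nat_lit 292) (nat_lit 5) (nat_lit 301) (nat_lit 5) (nat_lit 302) (nat_lit 5) (nat_lit 612) (nat_lit 562) (nat_lit 386)))))) (XT.nd (nat_lit 468) (nat_lit 2356) (nat_lit 0) (XT.nd (nat_lit 234) (nat_lit 1368) (nat_lit 0) (XT.nd (nat_lit 78) (nat_lit 608) (nat_lit 0) (XT.lf (nat_lit 0) (nat_lit 4460484359) (nat_lit 760) (nat_lit 6763597483) (nat_lit 76) (nat_lit 5167666980) (nat_lit 292) (nat_lit 5) (nat_lit 302) (nat_lit 5) (nat_lit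 293) (nat_lit 5) (nat_lit 613) (nat_lit 562) (nat_lit 385)) (XT.nd (nat_lit 78) (nat_lit 0) (nat_lit 0) (XT.lf (nat_lit 0) (nat_lit 2615221161) (nat_lit 608) (nat_lit 4625229204) (nat_lit 684) (nat_lit 9337266844) (nat_lit 284) (nat_lit 5) (nat_lit 292) (nat_lit 5) (nat_lit 293) (nat_lit 5) (nat_lit 614) (nat_lit 562) (nat_lit 384)) (XT.lf (nat_lit 0) (nat_lit 10127008756) (nat_lit 684) (nat_lit 4517348406) (nat_lit 76) (nat_lit 2122028971) (nat_lit 284) (nat_lit 5) (nat_lit 293) (nat_lit 5) (nat_lit 285) (nat_lit 5) (nat_lit 615) (nat_lit 562) (nat_lit 383)))) (XT.nd (nat_lit 78) (nat_lit 684) (nat_lit 0) (XT.lf (nat_lit 0) (nat_lit 5143551526) (nat_lit 684) (nat_lit 7983571060) (nat_lit 760) (nat_lit 3830590377) (nat_lit 275) (nat_lit 5) (nat_lit 284) (nat_lit 5) (nat_lit 285) (nat_lit 5) (nat_lit 616) (nat_lit 562) (nat_lit 382)) (XT.nd (nat_lit 78) (nat_lit 684) (nat_lit 0) (XT.lf (nat_lit 0) (nat_lit 15048990347) (nat_lit 684) (nat_lit 1160456856) (nat_lit 760) (nat_lit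 942975948) (nat_lit 275) (nat_lit 5) (nat_lit 284) (nat_lit 5) (nat_lit 285) (nat_lit 5) (nat_lit 617) (nat_lit 562) (nat_lit 381)) (XT.lf (nat_lit 0) (nat_lit 2057369555) (nat_lit 684) (nat_lit 9505911543) (nat_lit 76) (nat_lit 5785862570) (nat_lit 266) (nat_lit 5) (nat_lit 275) (nat_lit 5) (nat_lit 267) (nat_lit 5) (nat_lit 618) (nat_lit 562) (nat_lit 380))))) (XT.nd (nat_lit 234) (nat_lit 1216) (nat_lit 0) (XT.nd (nat_lit 78) (nat_lit 532) (nat_lit 0) (XT.lf (nat_lit 0) (nat_lit 449794048) (nat_lit 608) (nat_lit 4672208911) (nat_lit 684) (nat_lit 12427333763) (nat_lit 258) (nat_lit 5) (nat_lit 266) (nat_lit 5) (nat_lit 267) (nat_lit 5) (nat_lit 619) (nat_lit 562) (nat_lit 379)) (XT.nd (nat_lit 78) (nat_lit 532) (nat_lit 0) (XT.lf (nat_lit 0) (nat_lit 8319602086) (nat_lit 684) (nat_lit 7044499984) (nat_lit 76) (nat_lit 2387999021) (nat_lit 258) (nat_lit 5) (nat_lit 267) (nat_lit 5) (nat_lit 259) (nat_lit 5) (nat_lit 620) (nat_lit 562) (nat_lit 378)) (XT.lf (nat_lit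 0) (nat_lit 3213049922) (nat_lit 532) (nat_lit 8412219813) (nat_lit 608) (nat_lit 6332769579) (nat_lit 251) (nat_lit 5) (nat_lit 258) (nat_lit 5) (nat_lit 259) (nat_lit 5) (nat_lit 621) (nat_lit 562) (nat_lit 377)))) (XT.nd (nat_lit 156) (nat_lit 532) (nat_lit 0) (XT.nd (nat_lit 78) (nat_lit 684) (nat_lit 0) (XT.lf (nat_lit 0) (nat_lit 13761513712) (nat_lit 532) (nat_lit 1275210396) (nat_lit 608) (nat_lit 3130579607) (nat_lit 251) (nat_lit 5) (nat_lit 258) (nat_lit 5) (nat_lit 259) (nat_lit 5) (nat_lit 622) (nat_lit 562) (nat_lit 376)) (XT.lf (nat_lit 0) (nat_lit 205946199) (nat_lit 684) (nat_lit 12208188757) (nat_lit 76) (nat_lit 5965160257) (nat_lit 242) (nat_lit 5) (nat_lit 251) (nat_lit 5) (nat_lit 243) (nat_lit 5) (nat_lit 623) (nat_lit 562) (nat_lit 375))) (XT.nd (nat_lit 78) (nat_lit 532) (nat_lit 0) (XT.lf (nat_lit 0) (nat_lit 3598100081) (nat_lit 684) (nat_lit 1614754637) (nat_lit 76) (nat_lit 13381642469) (nat_lit 242) (nat_lit 5) (nat_lit 251) (nat_lit 5) (nat_lit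 243) (nat_lit 5) (nat_lit 624) (nat_lit 562) (nat_lit 374)) (XT.lf (nat_lit 0) (nat_lit 7125445779) (nat_lit 608) (nat_lit 9524131534) (nat_lit 76) (nat_lit 2163079726) (nat_lit 235) (nat_lit 5) (nat_lit 243) (nat_lit 5) (nat_lit 236) (nat_lit 5) (nat_lit 625) (nat_lit 562) (nat_lit 373))))))) (XT.nd (nat_lit 936) (nat_lit 3496) (nat_lit 0) (XT.nd (nat_lit 468) (nat_lit 1976) (nat_lit 0) (XT.nd (nat_lit 234) (nat_lit 608) (nat_lit 0) (XT.nd (nat_lit 78) (nat_lit 532) (nat_lit 0) (XT.lf (nat_lit 0) (nat_lit 1370591986) (nat_lit 532) (nat_lit 9399858255) (nat_lit 608) (nat_lit 8263788408) (nat_lit 228) (nat_lit 5) (nat_lit 235) (nat_lit 5) (nat_lit 236) (nat_lit 5) (nat_lit 626) (nat_lit 562) (nat_lit 372)) (XT.nd (nat_lit 78) (nat_lit 532) (nat_lit 0) (XT.lf (nat_lit 0) (nat_lit 12602789254) (nat_lit 532) (nat_lit 1942340381) (nat_lit 608) (nat_lit 4713987542) (nat_lit 228) (nat_lit 5) (nat_lit 235) (nat_lit 5) (nat_lit 236) (nat_lit 5) (nat_lit 627) (nat_lit 562) (nat_lit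 371)) (XT.lf (nat_lit 0) (nat_lit 4585032509) (nat_lit 532) (nat_lit 13869803417) (nat_lit 608) (nat_lit 1032467450) (nat_lit 221) (nat_lit 5) (nat_lit 228) (nat_lit 5) (nat_lit 229) (nat_lit 5) (nat_lit 628) (nat_lit 562) (nat_lit 370)))) (XT.nd (nat_lit 78) (nat_lit 532) (nat_lit 0) (XT.lf (nat_lit 0) (nat_lit 2737818479) (nat_lit 608) (nat_lit 3618040898) (nat_lit 76) (nat_lit 13362824231) (nat_lit 220) (nat_lit 5) (nat_lit 228) (nat_lit 5) (nat_lit 221) (nat_lit 5) (nat_lit 629) (nat_lit 562) (nat_lit 369)) (XT.nd (nat_lit 78) (nat_lit 0) (nat_lit 0) (XT.lf (nat_lit 0) (nat_lit 6623533895) (nat_lit 608) (nat_lit 11982129601) (nat_lit 76) (nat_lit 1347815207) (nat_lit 213) (nat_lit 5) (nat_lit 221) (nat_lit 5) (nat_lit 214) (nat_lit 5) (nat_lit 630) (nat_lit 562) (nat_lit 368)) (XT.lf (nat_lit 0) (nat_lit 10646707657) (nat_lit 608) (nat_lit 402531921) (nat_lit 76) (nat_lit 9142535952) (nat_lit 213) (nat_lit 5) (nat_lit 221) (nat_lit 5) (nat_lit 214) (nat_lit 5) (nat_lit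 631) (nat_lit 562) (nat_lit 367))))) (XT.nd (nat_lit 234) (nat_lit 912) (nat_lit 0) (XT.nd (nat_lit 78) (nat_lit 608) (nat_lit 0) (XT.lf (nat_lit 0) (nat_lit 11550968757) (nat_lit 456) (nat_lit 3267718283) (nat_lit 532) (nat_lit 5614785105) (nat_lit 207) (nat_lit 5) (nat_lit 213) (nat_lit 5) (nat_lit 214) (nat_lit 5) (nat_lit 632) (nat_lit 562) (nat_lit 366)) (XT.nd (nat_lit 78) (nat_lit 76) (nat_lit 0) (XT.lf (nat_lit 0) (nat_lit 3069734943) (nat_lit 532) (nat_lit 16050738340) (nat_lit 608) (nat_lit 1558602743) (nat_lit 200) (nat_lit 5) (nat_lit 207) (nat_lit 5) (nat_lit 208) (nat_lit 5) (nat_lit 633) (nat_lit 562) (nat_lit 365)) (XT.lf (nat_lit 0) (nat_lit 2619950932) (nat_lit 608) (nat_lit 5595019747) (nat_lit 76) (nat_lit 12712785751) (nat_lit 199) (nat_lit 5) (nat_lit 207) (nat_lit 5) (nat_lit 200) (nat_lit 5) (nat_lit 634) (nat_lit 562) (nat_lit 364)))) (XT.nd (nat_lit 78) (nat_lit 456) (nat_lit 0) (XT.lf (nat_lit 0) (nat_lit 6728427657) (nat_lit 456) (nat_lit 170038443)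 (nat_lit 532) (nat_lit 14281993734) (nat_lit 193) (nat_lit 5) (nat_lit 199) (nat_lit 5) (nat_lit 200) (nat_lit 5) (nat_lit 635) (nat_lit 562) (nat_lit 363)) (XT.nd (nat_lit 78) (nat_lit 456) (nat_lit 0) (XT.lf (nat_lit 0) (nat_lit 11346125229) (nat_lit 532) (nat_lit 2124837018) (nat_lit 76) (nat_lit 7965584215) (nat_lit 193) (nat_lit 5) (nat_lit 200) (nat_lit 5) (nat_lit 194) (nat_lit 5) (nat_lit 636) (nat_lit 562) (nat_lit 362)) (XT.lf (nat_lit 0) (nat_lit 10577547242) (nat_lit 456) (nat_lit 5368723997) (nat_lit 532) (nat_lit 5750213526) (nat_lit 187) (nat_lit 5) (nat_lit 193) (nat_lit 5) (nat_lit 194) (nat_lit 5) (nat_lit 637) (nat_lit 562) (nat_lit 361)))))) (XT.nd (nat_lit 468) (nat_lit 1672) (nat_lit 0) (XT.nd (nat_lit 234) (nat_lit 836) (nat_lit 0) (XT.nd (nat_lit 78) (nat_lit 532) (nat_lit 0) (XT.lf (nat_lit 0) (nat_lit 1594459119) (nat_lit 456) (nat_lit 19081245274) (nat_lit 532) (nat_lit 1285172362) (nat_lit 181) (nat_lit 5) (nat_lit 187) (nat_lit 5) (nat_lit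 188) (nat_lit 5) (nat_lit 638) (nat_lit 562) (nat_lit 360)) (XT.nd (nat_lit 78) (nat_lit 456) (nat_lit 0) (XT.lf (nat_lit 0) (nat_lit 3330757786) (nat_lit 532) (nat_lit 7582521858) (nat_lit 76) (nat_lit 11314763730) (nat_lit 180) (nat_lit 5) (nat_lit 187) (nat_lit 5) (nat_lit 181) (nat_lit 5) (nat_lit 639) (nat_lit 562) (nat_lit 359)) (XT.lf (nat_lit 0) (nat_lit 5511981230) (nat_lit 456) (nat_lit 2539543308) (nat_lit 532) (nat_lit 14448264929) (nat_lit 174) (nat_lit 5) (nat_lit 180) (nat_lit 5) (nat_lit 181) (nat_lit 5) (nat_lit 640) (nat_lit 562) (nat_lit 358)))) (XT.nd (nat_lit 78) (nat_lit 836) (nat_lit 0) (XT.lf (nat_lit 0) (nat_lit 12950860096) (nat_lit 532) (nat_lit 3852993907) (nat_lit 76) (nat_lit 5971433967) (nat_lit 174) (nat_lit 5) (nat_lit 181) (nat_lit 5) (nat_lit 175) (nat_lit 5) (nat_lit 641) (nat_lit 562) (nat_lit 357)) (XT.nd (nat_lit 78) (nat_lit 456) (nat_lit 0) (XT.lf (nat_lit 0) (nat_lit 9645480401) (nat_lit 380) (nat_lit 8376230262) (nat_lit 456)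 (nat_lit 5033115763) (nat_lit 169) (nat_lit 5) (nat_lit 174) (nat_lit 5) (nat_lit 175) (nat_lit 5) (nat_lit 642) (nat_lit 562) (nat_lit 356)) (XT.lf (nat_lit 0) (nat_lit 117898613) (nat_lit 456) (nat_lit 23098426756) (nat_lit 532) (nat_lit 123183876) (nat_lit 163) (nat_lit 5) (nat_lit 169) (nat_lit 5) (nat_lit 170) (nat_lit 5) (nat_lit 643) (nat_lit 562) (nat_lit 355))))) (XT.nd (nat_lit 234) (nat_lit 1216) (nat_lit 0) (XT.nd (nat_lit 78) (nat_lit 380) (nat_lit 0) (XT.lf (nat_lit 0) (nat_lit 4961077496) (nat_lit 532) (nat_lit 9627197688) (nat_lit 76) (nat_lit 9038172769) (nat_lit 162) (nat_lit 5) (nat_lit 169) (nat_lit 5) (nat_lit 163) (nat_lit 5) (nat_lit 644) (nat_lit 562) (nat_lit 354)) (XT.nd (nat_lit 78) (nat_lit 0) (nat_lit 0) (XT.lf (nat_lit 0) (nat_lit 4285887077) (nat_lit 380) (nat_lit 5881577117) (nat_lit 456) (nat_lit 13751203673) (nat_lit 157) (nat_lit 5) (nat_lit 162) (nat_lit 5) (nat_lit 163) (nat_lit 5) (nat_lit 645) (nat_lit 562) (nat_lit 353)) (XT.lf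 (nat_lit 0) (nat_lit 15556782682) (nat_lit 456) (nat_lit 5636258025) (nat_lit 76) (nat_lit 3022115884) (nat_lit 157) (nat_lit 5) (nat_lit 163) (nat_lit 5) (nat_lit 158) (nat_lit 5) (nat_lit 646) (nat_lit 562) (nat_lit 352)))) (XT.nd (nat_lit 156) (nat_lit 760) (nat_lit 0) (XT.nd (nat_lit 78) (nat_lit 76) (nat_lit 0) (XT.lf (nat_lit 0) (nat_lit 8706957605) (nat_lit 380) (nat_lit 12436823399) (nat_lit 456) (nat_lit 3371996705) (nat_lit 152) (nat_lit 5) (nat_lit 157) (nat_lit 5) (nat_lit 158) (nat_lit 5) (nat_lit 647) (nat_lit 562) (nat_lit 351)) (XT.lf (nat_lit 0) (nat_lit 2026115745) (nat_lit 456) (nat_lit 1430081431) (nat_lit 76) (nat_lit 21365302188) (nat_lit 151) (nat_lit 5) (nat_lit 157) (nat_lit 5) (nat_lit 152) (nat_lit 5) (nat_lit 648) (nat_lit 562) (nat_lit 350))) (XT.nd (nat_lit 78) (nat_lit 380) (nat_lit 0) (XT.lf (nat_lit 0) (nat_lit 7606237667) (nat_lit 456) (nat_lit 11787936136) (nat_lit 76) (nat_lit 5736332363) (nat_lit 146) (nat_lit 5) (nat_lit 152) (nat_lit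 5) (nat_lit 147) (nat_lit 5) (nat_lit 649) (nat_lit 562) (nat_lit 349)) (XT.lf (nat_lit 0) (nat_lit 2992485887) (nat_lit 380) (nat_lit 10352027222) (nat_lit 456) (nat_lit 12100249421) (nat_lit 141) (nat_lit 5) (nat_lit 146) (nat_lit 5) (nat_lit 147) (nat_lit 5) (nat_lit 650) (nat_lit 562) (nat_lit 348))))))))
noncomputable def xc179 : XT := (XT.nd (nat_lit 75816) (nat_lit 0) (nat_lit 15428) (XT.nd (nat_lit 74802) (nat_lit 0) (nat_lit 26448) (XT.nd (nat_lit 74334) (nat_lit 0) (nat_lit 29336) (XT.nd (nat_lit 234) (nat_lit 684) (nat_lit 0) (XT.nd (nat_lit 78) (nat_lit 380) (nat_lit 0) (XT.lf (nat_lit 0) (nat_lit 18219992671) (nat_lit 380) (nat_lit 1051290094) (nat_lit 456) (nat_lit 6492547125) (nat_lit 141) (nat_lit 5) (nat_lit 146) (nat_lit 5) (nat_lit 147) (nat_lit 5) (nat_lit 651) (nat_lit 562) (nat_lit 347)) (XT.nd (nat_lit 78) (nat_lit 76) (nat_lit 0) (XT.lf (nat_lit 0) (nat_lit 7700762883) (nat_lit 304) (nat_lit 17715304135) (nat_lit 380) (nat_lit 671222426) (nat_lit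 137) (nat_lit 5) (nat_lit 141) (nat_lit 5) (nat_lit 142) (nat_lit 5) (nat_lit 652) (nat_lit 562) (nat_lit 346)) (XT.lf (nat_lit 0) (nat_lit 5250105440) (nat_lit 380) (nat_lit 3113435959) (nat_lit 76) (nat_lit 18051940366) (nat_lit 136) (nat_lit 5) (nat_lit 141) (nat_lit 5) (nat_lit 137) (nat_lit 5) (nat_lit 653) (nat_lit 562) (nat_lit 345)))) (XT.nd (nat_lit 78) (nat_lit 304) (nat_lit 0) (XT.lf (nat_lit 0) (nat_lit 11365820000) (nat_lit 456) (nat_lit 14138729234) (nat_lit 76) (nat_lit 1243901414) (nat_lit 131) (nat_lit 5) (nat_lit 137) (nat_lit 5) (nat_lit 132) (nat_lit 5) (nat_lit 654) (nat_lit 562) (nat_lit 344)) (XT.nd (nat_lit 78) (nat_lit 0) (nat_lit 0) (XT.lf (nat_lit 0) (nat_lit 1558679141) (nat_lit 304) (nat_lit 16126569730) (nat_lit 380) (nat_lit 9401202436) (nat_lit 127) (nat_lit 5) (nat_lit 131) (nat_lit 5) (nat_lit 132) (nat_lit 5) (nat_lit 655) (nat_lit 562) (nat_lit 343)) (XT.lf (nat_lit 0) (nat_lit 17753621822) (nat_lit 304) (nat_lit 6467232382) (nat_lit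 380) (nat_lit 3208562407) (nat_lit 127) (nat_lit 5) (nat_lit 131) (nat_lit 5) (nat_lit 132) (nat_lit 5) (nat_lit 656) (nat_lit 562) (nat_lit 342))))) (XT.nd (nat_lit 234) (nat_lit 0) (nat_lit 76) (XT.nd (nat_lit 78) (nat_lit 0) (nat_lit 0) (XT.lf (nat_lit 0) (nat_lit 1289712912) (nat_lit 0) (nat_lit 1289712912) (nat_lit 1596) (nat_lit 2425110111) (nat_lit 513) (nat_lit 5) (nat_lit 513) (nat_lit 3) (nat_lit 534) (nat_lit 3) (nat_lit 563) (nat_lit 563) (nat_lit 434)) (XT.nd (nat_lit 78) (nat_lit 0) (nat_lit 0) (XT.lf (nat_lit 0) (nat_lit 5924241138) (nat_lit 1596) (nat_lit 2527013023) (nat_lit 1672) (nat_lit 1643515511) (nat_lit 513) (nat_lit 5) (nat_lit 534) (nat_lit 3) (nat_lit 535) (nat_lit 5) (nat_lit 564) (nat_lit 563) (nat_lit 433)) (XT.lf (nat_lit 76) (nat_lit 2479457360) (nat_lit 0) (nat_lit 4240281850) (nat_lit 1672) (nat_lit 3462149270) (nat_lit 514) (nat_lit 5) (nat_lit 513) (nat_lit 5) (nat_lit 535) (nat_lit 5) (nat_lit 565) (nat_lit 563) (nat_lit 432)))) (XT.nd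 (nat_lit 78) (nat_lit 0) (nat_lit 0) (XT.lf (nat_lit 0) (nat_lit 7530547150) (nat_lit 1596) (nat_lit 2660575674) (nat_lit 1672) (nat_lit 79641847) (nat_lit 514) (nat_lit 5) (nat_lit 535) (nat_lit 5) (nat_lit 536) (nat_lit 5) (nat_lit 566) (nat_lit 563) (nat_lit 431)) (XT.nd (nat_lit 78) (nat_lit 0) (nat_lit 0) (XT.lf (nat_lit 76) (nat_lit 2476706398) (nat_lit 0) (nat_lit 5907353574) (nat_lit 1672) (nat_lit 1976831587) (nat_lit 515) (nat_lit 5) (nat_lit 514) (nat_lit 5) (nat_lit 536) (nat_lit 5) (nat_lit 567) (nat_lit 563) (nat_lit 430)) (XT.lf (nat_lit 76) (nat_lit 7743051871) (nat_lit 0) (nat_lit 1512055255) (nat_lit 1672) (nat_lit 1197707467) (nat_lit 515) (nat_lit 5) (nat_lit 514) (nat_lit 5) (nat_lit 536) (nat_lit 5) (nat_lit 568) (nat_lit 563) (nat_lit 429)))))) (XT.nd (nat_lit 468) (nat_lit 1368) (nat_lit 0) (XT.nd (nat_lit 234) (nat_lit 0) (nat_lit 76) (XT.nd (nat_lit 78) (nat_lit 1672) (nat_lit 0) (XT.lf (nat_lit 76) (nat_lit 2572649876) (nat_lit 0) (nat_lit 7589919202)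 (nat_lit 1672) (nat_lit 383629964) (nat_lit 516) (nat_lit 5) (nat_lit 515) (nat_lit 5) (nat_lit 537) (nat_lit 5) (nat_lit 569) (nat_lit 563) (nat_lit 428)) (XT.nd (nat_lit 78) (nat_lit 0) (nat_lit 76) (XT.lf (nat_lit 0) (nat_lit 452343589) (nat_lit 1672) (nat_lit 2666789237) (nat_lit 1748) (nat_lit 7522033599) (nat_lit 493) (nat_lit 5) (nat_lit 515) (nat_lit 5) (nat_lit 516) (nat_lit 5) (nat_lit 570) (nat_lit 563) (nat_lit 427)) (XT.lf (nat_lit 0) (nat_lit 1310910103) (nat_lit 1672) (nat_lit 7977507956) (nat_lit 1748) (nat_lit 1449346846) (nat_lit 494) (nat_lit 5) (nat_lit 516) (nat_lit 5) (nat_lit 517) (nat_lit 5) (nat_lit 571) (nat_lit 563) (nat_lit 426)))) (XT.nd (nat_lit 78) (nat_lit 0) (nat_lit 0) (XT.lf (nat_lit 0) (nat_lit 2209105767) (nat_lit 1672) (nat_lit 2534934766) (nat_lit 1748) (nat_lit 6091808281) (nat_lit 494) (nat_lit 5) (nat_lit 516) (nat_lit 5) (nat_lit 517) (nat_lit 5) (nat_lit 572) (nat_lit 563) (nat_lit 425)) (XT.nd (nat_lit 78) (nat_lit 0) (nat_lit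 76) (XT.lf (nat_lit 76) (nat_lit 3046429264) (nat_lit 0) (nat_lit 82720655) (nat_lit 1748) (nat_lit 7806669357) (nat_lit 495) (nat_lit 5) (nat_lit 494) (nat_lit 5) (nat_lit 517) (nat_lit 5) (nat_lit 573) (nat_lit 563) (nat_lit 424)) (XT.lf (nat_lit 0) (nat_lit 4099440147) (nat_lit 1672) (nat_lit 2304413566) (nat_lit 1748) (nat_lit 4633301045) (nat_lit 495) (nat_lit 5) (nat_lit 517) (nat_lit 5) (nat_lit 518) (nat_lit 5) (nat_lit 574) (nat_lit 563) (nat_lit 423))))) (XT.nd (nat_lit 234) (nat_lit 1520) (nat_lit 0) (XT.nd (nat_lit 78) (nat_lit 0) (nat_lit 76) (XT.lf (nat_lit 76) (nat_lit 3426554794) (nat_lit 0) (nat_lit 1670071967) (nat_lit 1748) (nat_lit 6043742844) (nat_lit 496) (nat_lit 5) (nat_lit 495) (nat_lit 5) (nat_lit 518) (nat_lit 5) (nat_lit 575) (nat_lit 563) (nat_lit 422)) (XT.nd (nat_lit 78) (nat_lit 0) (nat_lit 0) (XT.lf (nat_lit 0) (nat_lit 6134792623) (nat_lit 1672) (nat_lit 1972938508) (nat_lit 1748) (nat_lit 3137499325) (nat_lit 496) (nat_lit 5) (nat_lit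 518) (nat_lit 5) (nat_lit 519) (nat_lit 5) (nat_lit 576) (nat_lit 563) (nat_lit 421)) (XT.lf (nat_lit 76) (nat_lit 3912846510) (nat_lit 0) (nat_lit 3302597957) (nat_lit 1748) (nat_lit 4136311974) (nat_lit 497) (nat_lit 5) (nat_lit 496) (nat_lit 5) (nat_lit 519) (nat_lit 5) (nat_lit 577) (nat_lit 563) (nat_lit 420)))) (XT.nd (nat_lit 156) (nat_lit 1672) (nat_lit 0) (XT.nd (nat_lit 78) (nat_lit 0) (nat_lit 0) (XT.lf (nat_lit 0) (nat_lit 8326925872) (nat_lit 1672) (nat_lit 1537945248) (nat_lit 1748) (nat_lit 1595359818) (nat_lit 497) (nat_lit 5) (nat_lit 519) (nat_lit 5) (nat_lit 520) (nat_lit 5) (nat_lit 578) (nat_lit 563) (nat_lit 419)) (XT.lf (nat_lit 76) (nat_lit 4508074838) (nat_lit 0) (nat_lit 4989497080) (nat_lit 1748) (nat_lit 2072566588) (nat_lit 498) (nat_lit 5) (nat_lit 497) (nat_lit 5) (nat_lit 520) (nat_lit 5) (nat_lit 579) (nat_lit 563) (nat_lit 418))) (XT.nd (nat_lit 78) (nat_lit 1672) (nat_lit 0) (XT.lf (nat_lit 76) (nat_lit 10685713201) (nat_lit 0) (nat_lit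 2244847) (nat_lit 1748) (nat_lit 994361865) (nat_lit 498) (nat_lit 5) (nat_lit 497) (nat_lit 5) (nat_lit 520) (nat_lit 5) (nat_lit 580) (nat_lit 563) (nat_lit 417)) (XT.lf (nat_lit 0) (nat_lit 157554865) (nat_lit 1748) (nat_lit 6581426171) (nat_lit 1824) (nat_lit 5056681765) (nat_lit 475) (nat_lit 5) (nat_lit 498) (nat_lit 5) (nat_lit 499) (nat_lit 5) (nat_lit 581) (nat_lit 563) (nat_lit 416))))))) (XT.nd (nat_lit 936) (nat_lit 6764) (nat_lit 0) (XT.nd (nat_lit 468) (nat_lit 4256) (nat_lit 0) (XT.nd (nat_lit 234) (nat_lit 0) (nat_lit 152) (XT.nd (nat_lit 78) (nat_lit 0) (nat_lit 76) (XT.lf (nat_lit 0) (nat_lit 1312371298) (nat_lit 1748) (nat_lit 365343603) (nat_lit 1824) (nat_lit 10233564780) (nat_lit 475) (nat_lit 5) (nat_lit 498) (nat_lit 5) (nat_lit 499) (nat_lit 5) (nat_lit 582) (nat_lit 563) (nat_lit 415)) (XT.nd (nat_lit 78) (nat_lit 0) (nat_lit 0) (XT.lf (nat_lit 0) (nat_lit 2539115504) (nat_lit 1748) (nat_lit 6007430649) (nat_lit 1824) (nat_lit 3481688178) (nat_lit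 476) (nat_lit 5) (nat_lit 499) (nat_lit 5) (nat_lit 500) (nat_lit 5) (nat_lit 583) (nat_lit 563) (nat_lit 414)) (XT.lf (nat_lit 76) (nat_lit 375565325) (nat_lit 0) (nat_lit 3417744332) (nat_lit 1824) (nat_lit 8354162140) (nat_lit 477) (nat_lit 5) (nat_lit 476) (nat_lit 5) (nat_lit 500) (nat_lit 5) (nat_lit 584) (nat_lit 563) (nat_lit 413)))) (XT.nd (nat_lit 78) (nat_lit 0) (nat_lit 0) (XT.lf (nat_lit 0) (nat_lit 5112047893) (nat_lit 1748) (nat_lit 5323265874) (nat_lit 1824) (nat_lit 1832993026) (nat_lit 477) (nat_lit 5) (nat_lit 500) (nat_lit 5) (nat_lit 501) (nat_lit 5) (nat_lit 585) (nat_lit 563) (nat_lit 412)) (XT.nd (nat_lit 78) (nat_lit 0) (nat_lit 76) (XT.lf (nat_lit 76) (nat_lit 1237562599) (nat_lit 0) (nat_lit 5237625175) (nat_lit 1824) (nat_lit 5916012120) (nat_lit 478) (nat_lit 5) (nat_lit 477) (nat_lit 5) (nat_lit 501) (nat_lit 5) (nat_lit 586) (nat_lit 563) (nat_lit 411)) (XT.lf (nat_lit 0) (nat_lit 7889517189) (nat_lit 1748) (nat_lit 4525301221) (nat_lit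 76) (nat_lit 101255819) (nat_lit 478) (nat_lit 5) (nat_lit 501) (nat_lit 5) (nat_lit 479) (nat_lit 5) (nat_lit 587) (nat_lit 563) (nat_lit 410))))) (XT.nd (nat_lit 234) (nat_lit 1064) (nat_lit 0) (XT.nd (nat_lit 78) (nat_lit 1672) (nat_lit 0) (XT.lf (nat_lit 0) (nat_lit 2219655414) (nat_lit 1748) (nat_lit 7149372187) (nat_lit 1824) (nat_lit 3273682431) (nat_lit 455) (nat_lit 5) (nat_lit 478) (nat_lit 5) (nat_lit 479) (nat_lit 5) (nat_lit 588) (nat_lit 563) (nat_lit 409)) (XT.nd (nat_lit 78) (nat_lit 1672) (nat_lit 0) (XT.lf (nat_lit 0) (nat_lit 9150549980) (nat_lit 1748) (nat_lit 1745914456) (nat_lit 1824) (nat_lit 1875049223) (nat_lit 455) (nat_lit 5) (nat_lit 478) (nat_lit 5) (nat_lit 479) (nat_lit 5) (nat_lit 589) (nat_lit 563) (nat_lit 408)) (XT.lf (nat_lit 0) (nat_lit 3325991673) (nat_lit 1672) (nat_lit 9162717696) (nat_lit 1748) (nat_lit 413500598) (nat_lit 433) (nat_lit 5) (nat_lit 455) (nat_lit 5) (nat_lit 456) (nat_lit 5) (nat_lit 590) (nat_lit 563) (nat_lit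 407)))) (XT.nd (nat_lit 78) (nat_lit 988) (nat_lit 0) (XT.lf (nat_lit 0) (nat_lit 1087473706) (nat_lit 1748) (nat_lit 2603221292) (nat_lit 76) (nat_lit 9344200575) (nat_lit 432) (nat_lit 5) (nat_lit 455) (nat_lit 5) (nat_lit 433) (nat_lit 5) (nat_lit 591) (nat_lit 563) (nat_lit 406)) (XT.nd (nat_lit 78) (nat_lit 0) (nat_lit 0) (XT.lf (nat_lit 0) (nat_lit 2643545712) (nat_lit 1064) (nat_lit 8626301502) (nat_lit 76) (nat_lit 1899722404) (nat_lit 419) (nat_lit 5) (nat_lit 433) (nat_lit 5) (nat_lit 420) (nat_lit 5) (nat_lit 592) (nat_lit 563) (nat_lit 405)) (XT.lf (nat_lit 0) (nat_lit 4261462780) (nat_lit 1064) (nat_lit 1473572392) (nat_lit 76) (nat_lit 7571289159) (nat_lit 419) (nat_lit 5) (nat_lit 433) (nat_lit 5) (nat_lit 420) (nat_lit 5) (nat_lit 593) (nat_lit 563) (nat_lit 404)))))) (XT.nd (nat_lit 468) (nat_lit 3192) (nat_lit 0) (XT.nd (nat_lit 234) (nat_lit 1748) (nat_lit 0) (XT.nd (nat_lit 78) (nat_lit 912) (nat_lit 0) (XT.lf (nat_lit 0) (nat_lit 5889251942) (nat_lit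 912) (nat_lit 49642059) (nat_lit 988) (nat_lit 7506378650) (nat_lit 407) (nat_lit 5) (nat_lit 419) (nat_lit 5) (nat_lit 420) (nat_lit 5) (nat_lit 594) (nat_lit 563) (nat_lit 403)) (XT.nd (nat_lit 78) (nat_lit 912) (nat_lit 0) (XT.lf (nat_lit 0) (nat_lit 7686232647) (nat_lit 988) (nat_lit 215245765) (nat_lit 76) (nat_lit 5684795942) (nat_lit 407) (nat_lit 5) (nat_lit 420) (nat_lit 5) (nat_lit 408) (nat_lit 5) (nat_lit 595) (nat_lit 563) (nat_lit 402)) (XT.lf (nat_lit 0) (nat_lit 7358369081) (nat_lit 912) (nat_lit 2147542925) (nat_lit 988) (nat_lit 4223437771) (nat_lit 395) (nat_lit 5) (nat_lit 407) (nat_lit 5) (nat_lit 408) (nat_lit 5) (nat_lit 596) (nat_lit 563) (nat_lit 401)))) (XT.nd (nat_lit 78) (nat_lit 912) (nat_lit 0) (XT.lf (nat_lit 0) (nat_lit 1192278908) (nat_lit 836) (nat_lit 10192500751) (nat_lit 912) (nat_lit 2490052690) (nat_lit 384) (nat_lit 5) (nat_lit 395) (nat_lit 5) (nat_lit 396) (nat_lit 5) (nat_lit 597) (nat_lit 563) (nat_lit 400)) (XT.nd (nat_lit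 78) (nat_lit 912) (nat_lit 0) (XT.lf (nat_lit 0) (nat_lit 8968518325) (nat_lit 836) (nat_lit 4379165606) (nat_lit 912) (nat_lit 674612957) (nat_lit 384) (nat_lit 5) (nat_lit 395) (nat_lit 5) (nat_lit 396) (nat_lit 5) (nat_lit 598) (nat_lit 563) (nat_lit 399)) (XT.lf (nat_lit 0) (nat_lit 1179473747) (nat_lit 912) (nat_lit 11436876098) (nat_lit 76) (nat_lit 1555853934) (nat_lit 372) (nat_lit 5) (nat_lit 384) (nat_lit 5) (nat_lit 373) (nat_lit 5) (nat_lit 599) (nat_lit 563) (nat_lit 398))))) (XT.nd (nat_lit 234) (nat_lit 2432) (nat_lit 0) (XT.nd (nat_lit 78) (nat_lit 760) (nat_lit 0) (XT.lf (nat_lit 0) (nat_lit 3114606446) (nat_lit 912) (nat_lit 3619712343) (nat_lit 76) (nat_lit 7589642304) (nat_lit 372) (nat_lit 5) (nat_lit 384) (nat_lit 5) (nat_lit 373) (nat_lit 5) (nat_lit 600) (nat_lit 563) (nat_lit 397)) (XT.nd (nat_lit 78) (nat_lit 0) (nat_lit 0) (XT.lf (nat_lit 0) (nat_lit 4401412321) (nat_lit 760) (nat_lit 705655071) (nat_lit 836) (nat_lit 9371315038) (nat_lit 362)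 (nat_lit 5) (nat_lit 372) (nat_lit 5) (nat_lit 373) (nat_lit 5) (nat_lit 601) (nat_lit 563) (nat_lit 396)) (XT.lf (nat_lit 0) (nat_lit 7189349148) (nat_lit 836) (nat_lit 2049122507) (nat_lit 76) (nat_lit 5396422469) (nat_lit 362) (nat_lit 5) (nat_lit 373) (nat_lit 5) (nat_lit 363) (nat_lit 5) (nat_lit 602) (nat_lit 563) (nat_lit 395)))) (XT.nd (nat_lit 156) (nat_lit 1596) (nat_lit 0) (XT.nd (nat_lit 78) (nat_lit 0) (nat_lit 0) (XT.lf (nat_lit 0) (nat_lit 6205964367) (nat_lit 836) (nat_lit 3142648432) (nat_lit 912) (nat_lit 5445217863) (nat_lit 351) (nat_lit 5) (nat_lit 362) (nat_lit 5) (nat_lit 363) (nat_lit 5) (nat_lit 603) (nat_lit 563) (nat_lit 394)) (XT.lf (nat_lit 0) (nat_lit 11575359894) (nat_lit 912) (nat_lit 331957326) (nat_lit 76) (nat_lit 3048144054) (nat_lit 351) (nat_lit 5) (nat_lit 363) (nat_lit 5) (nat_lit 352) (nat_lit 5) (nat_lit 604) (nat_lit 563) (nat_lit 393))) (XT.nd (nat_lit 78) (nat_lit 836) (nat_lit 0) (XT.lf (nat_lit 0) (nat_lit 8165388125) (nat_lit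 760) (nat_lit 5745758502) (nat_lit 836) (nat_lit 1207889062) (nat_lit 341) (nat_lit 5) (nat_lit 351) (nat_lit 5) (nat_lit 352) (nat_lit 5) (nat_lit 605) (nat_lit 563) (nat_lit 392)) (XT.lf (nat_lit 0) (nat_lit 1001243570) (nat_lit 836) (nat_lit 13734147646) (nat_lit 76) (nat_lit 550226884) (nat_lit 330) (nat_lit 5) (nat_lit 341) (nat_lit 5) (nat_lit 331) (nat_lit 5) (nat_lit 606) (nat_lit 563) (nat_lit 391))))))))
noncomputable def xc180 : XT := (XT.nd (nat_lit 1950) (nat_lit 6536) (nat_lit 0) (XT.nd (nat_lit 936) (nat_lit 4712) (nat_lit 0) (XT.nd (nat_lit 468) (nat_lit 2052) (nat_lit 0) (XT.nd (nat_lit 234) (nat_lit 1444) (nat_lit 0) (XT.nd (nat_lit 78) (nat_lit 684) (nat_lit 0) (XT.lf (nat_lit 0) (nat_lit 3314268932) (nat_lit 836) (nat_lit 5190141122) (nat_lit 76) (nat_lit 6949445958) (nat_lit 330) (nat_lit 5) (nat_lit 341) (nat_lit 5) (nat_lit 331) (nat_lit 5) (nat_lit 607) (nat_lit 563) (nat_lit 390)) (XT.nd (nat_lit 78) (nat_lit 0) (nat_lit 0) (XT.lf (nat_lit 0)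 (nat_lit 3561522300) (nat_lit 684) (nat_lit 2126181315) (nat_lit 760) (nat_lit 9937473275) (nat_lit 321) (nat_lit 5) (nat_lit 330) (nat_lit 5) (nat_lit 331) (nat_lit 5) (nat_lit 608) (nat_lit 563) (nat_lit 389)) (XT.lf (nat_lit 0) (nat_lit 8163232008) (nat_lit 760) (nat_lit 3279360679) (nat_lit 76) (nat_lit 4356240161) (nat_lit 321) (nat_lit 5) (nat_lit 331) (nat_lit 5) (nat_lit 322) (nat_lit 5) (nat_lit 609) (nat_lit 563) (nat_lit 388)))) (XT.nd (nat_lit 78) (nat_lit 684) (nat_lit 0) (XT.lf (nat_lit 0) (nat_lit 5731870019) (nat_lit 760) (nat_lit 4999001072) (nat_lit 836) (nat_lit 5244239972) (nat_lit 311) (nat_lit 5) (nat_lit 321) (nat_lit 5) (nat_lit 322) (nat_lit 5) (nat_lit 610) (nat_lit 563) (nat_lit 387)) (XT.nd (nat_lit 78) (nat_lit 684) (nat_lit 0) (XT.lf (nat_lit 0) (nat_lit 13373634533) (nat_lit 836) (nat_lit 1207001823) (nat_lit 76) (nat_lit 1573804170) (nat_lit 311) (nat_lit 5) (nat_lit 322) (nat_lit 5) (nat_lit 312) (nat_lit 5) (nat_lit 611) (nat_lit 563)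 (nat_lit 386)) (XT.lf (nat_lit 0) (nat_lit 8072986515) (nat_lit 684) (nat_lit 8073360078) (nat_lit 760) (nat_lit 189469214) (nat_lit 302) (nat_lit 5) (nat_lit 311) (nat_lit 5) (nat_lit 312) (nat_lit 5) (nat_lit 612) (nat_lit 563) (nat_lit 385))))) (XT.nd (nat_lit 234) (nat_lit 684) (nat_lit 0) (XT.nd (nat_lit 78) (nat_lit 608) (nat_lit 0) (XT.lf (nat_lit 0) (nat_lit 1021900326) (nat_lit 684) (nat_lit 1406019823) (nat_lit 760) (nat_lit 14092452746) (nat_lit 292) (nat_lit 5) (nat_lit 301) (nat_lit 5) (nat_lit 302) (nat_lit 5) (nat_lit 613) (nat_lit 563) (nat_lit 384)) (XT.nd (nat_lit 78) (nat_lit 608) (nat_lit 0) (XT.lf (nat_lit 0) (nat_lit 5177673686) (nat_lit 760) (nat_lit 6149719969) (nat_lit 76) (nat_lit 5379552387) (nat_lit 292) (nat_lit 5) (nat_lit 302) (nat_lit 5) (nat_lit 293) (nat_lit 5) (nat_lit 614) (nat_lit 563) (nat_lit 383)) (XT.lf (nat_lit 0) (nat_lit 3411746433) (nat_lit 608) (nat_lit 4594011228) (nat_lit 684) (nat_lit 8891027295) (nat_lit 284) (nat_lit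 5) (nat_lit 292) (nat_lit 5) (nat_lit 293) (nat_lit 5) (nat_lit 615) (nat_lit 563) (nat_lit 382)))) (XT.nd (nat_lit 78) (nat_lit 684) (nat_lit 0) (XT.lf (nat_lit 0) (nat_lit 10938668126) (nat_lit 684) (nat_lit 3866612869) (nat_lit 76) (nat_lit 2284175350) (nat_lit 284) (nat_lit 5) (nat_lit 293) (nat_lit 5) (nat_lit 285) (nat_lit 5) (nat_lit 616) (nat_lit 563) (nat_lit 381)) (XT.nd (nat_lit 78) (nat_lit 0) (nat_lit 0) (XT.lf (nat_lit 0) (nat_lit 5982629520) (nat_lit 684) (nat_lit 8008991143) (nat_lit 760) (nat_lit 3293133792) (nat_lit 275) (nat_lit 5) (nat_lit 284) (nat_lit 5) (nat_lit 285) (nat_lit 5) (nat_lit 617) (nat_lit 563) (nat_lit 380)) (XT.lf (nat_lit 0) (nat_lit 16071741687) (nat_lit 684) (nat_lit 1052047033) (nat_lit 760) (nat_lit 359807632) (nat_lit 275) (nat_lit 5) (nat_lit 284) (nat_lit 5) (nat_lit 285) (nat_lit 5) (nat_lit 618) (nat_lit 563) (nat_lit 379)))))) (XT.nd (nat_lit 468) (nat_lit 2204) (nat_lit 0) (XT.nd (nat_lit 234) (nat_lit 1216) (nat_lit 0)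 (XT.nd (nat_lit 78) (nat_lit 608) (nat_lit 0) (XT.lf (nat_lit 0) (nat_lit 2686600552) (nat_lit 684) (nat_lit 8960173810) (nat_lit 76) (nat_lit 6037521101) (nat_lit 266) (nat_lit 5) (nat_lit 275) (nat_lit 5) (nat_lit 267) (nat_lit 5) (nat_lit 619) (nat_lit 563) (nat_lit 378)) (XT.nd (nat_lit 78) (nat_lit 0) (nat_lit 0) (XT.lf (nat_lit 0) (nat_lit 1189804734) (nat_lit 608) (nat_lit 4615937071) (nat_lit 684) (nat_lit 12082887630) (nat_lit 258) (nat_lit 5) (nat_lit 266) (nat_lit 5) (nat_lit 267) (nat_lit 5) (nat_lit 620) (nat_lit 563) (nat_lit 377)) (XT.lf (nat_lit 0) (nat_lit 9056847896) (nat_lit 684) (nat_lit 6458197070) (nat_lit 76) (nat_lit 2580614360) (nat_lit 258) (nat_lit 5) (nat_lit 267) (nat_lit 5) (nat_lit 259) (nat_lit 5) (nat_lit 621) (nat_lit 563) (nat_lit 376)))) (XT.nd (nat_lit 78) (nat_lit 684) (nat_lit 0) (XT.lf (nat_lit 0) (nat_lit 3999719670) (nat_lit 532) (nat_lit 8422406373) (nat_lit 608) (nat_lit 5883721635) (nat_lit 251) (nat_lit 5) (nat_lit 258) (nat_lit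 5) (nat_lit 259) (nat_lit 5) (nat_lit 622) (nat_lit 563) (nat_lit 375)) (XT.nd (nat_lit 78) (nat_lit 684) (nat_lit 0) (XT.lf (nat_lit 0) (nat_lit 14744987859) (nat_lit 532) (nat_lit 1145755941) (nat_lit 608) (nat_lit 2628776165) (nat_lit 251) (nat_lit 5) (nat_lit 258) (nat_lit 5) (nat_lit 259) (nat_lit 5) (nat_lit 623) (nat_lit 563) (nat_lit 374)) (XT.lf (nat_lit 0) (nat_lit 761812955) (nat_lit 684) (nat_lit 11731316963) (nat_lit 76) (nat_lit 6242654612) (nat_lit 242) (nat_lit 5) (nat_lit 251) (nat_lit 5) (nat_lit 243) (nat_lit 5) (nat_lit 624) (nat_lit 563) (nat_lit 373))))) (XT.nd (nat_lit 234) (nat_lit 1140) (nat_lit 0) (XT.nd (nat_lit 78) (nat_lit 1064) (nat_lit 0) (XT.lf (nat_lit 0) (nat_lit 4210991329) (nat_lit 684) (nat_lit 940152113) (nat_lit 76) (nat_lit 13804364681) (nat_lit 242) (nat_lit 5) (nat_lit 251) (nat_lit 5) (nat_lit 243) (nat_lit 5) (nat_lit 625) (nat_lit 563) (nat_lit 372)) (XT.nd (nat_lit 78) (nat_lit 532) (nat_lit 0) (XT.lf (nat_lit 0) (nat_lit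 7803923581) (nat_lit 608) (nat_lit 9002696951) (nat_lit 76) (nat_lit 2371511033) (nat_lit 235) (nat_lit 5) (nat_lit 243) (nat_lit 5) (nat_lit 236) (nat_lit 5) (nat_lit 626) (nat_lit 563) (nat_lit 371)) (XT.lf (nat_lit 0) (nat_lit 2105237375) (nat_lit 532) (nat_lit 9410673394) (nat_lit 608) (nat_lit 7888353547) (nat_lit 228) (nat_lit 5) (nat_lit 235) (nat_lit 5) (nat_lit 236) (nat_lit 5) (nat_lit 627) (nat_lit 563) (nat_lit 370)))) (XT.nd (nat_lit 156) (nat_lit 608) (nat_lit 0) (XT.nd (nat_lit 78) (nat_lit 532) (nat_lit 0) (XT.lf (nat_lit 0) (nat_lit 13548211264) (nat_lit 532) (nat_lit 1807479320) (nat_lit 608) (nat_lit 4278158833) (nat_lit 228) (nat_lit 5) (nat_lit 235) (nat_lit 5) (nat_lit 236) (nat_lit 5) (nat_lit 628) (nat_lit 563) (nat_lit 369)) (XT.lf (nat_lit 0) (nat_lit 5374798710) (nat_lit 532) (nat_lit 13964240927) (nat_lit 608) (nat_lit 527651845) (nat_lit 221) (nat_lit 5) (nat_lit 228) (nat_lit 5) (nat_lit 229) (nat_lit 5) (nat_lit 629) (nat_lit 563) (nat_lit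 368))) (XT.nd (nat_lit 78) (nat_lit 532) (nat_lit 0) (XT.lf (nat_lit 0) (nat_lit 3300980129) (nat_lit 608) (nat_lit 2999213632) (nat_lit 76) (nat_lit 13802641760) (nat_lit 220) (nat_lit 5) (nat_lit 228) (nat_lit 5) (nat_lit 221) (nat_lit 5) (nat_lit 630) (nat_lit 563) (nat_lit 367)) (XT.lf (nat_lit 0) (nat_lit 7260092252) (nat_lit 608) (nat_lit 11526213906) (nat_lit 76) (nat_lit 1556107765) (nat_lit 213) (nat_lit 5) (nat_lit 221) (nat_lit 5) (nat_lit 214) (nat_lit 5) (nat_lit 631) (nat_lit 563) (nat_lit 366))))))) (XT.nd (nat_lit 936) (nat_lit 3192) (nat_lit 0) (XT.nd (nat_lit 468) (nat_lit 1824) (nat_lit 0) (XT.nd (nat_lit 234) (nat_lit 532) (nat_lit 0) (XT.nd (nat_lit 78) (nat_lit 532) (nat_lit 0) (XT.lf (nat_lit 0) (nat_lit 274943259) (nat_lit 456) (nat_lit 11080687272) (nat_lit 532) (nat_lit 9230009166) (nat_lit 207) (nat_lit 5) (nat_lit 213) (nat_lit 5) (nat_lit 214) (nat_lit 5) (nat_lit 632) (nat_lit 563) (nat_lit 365)) (XT.nd (nat_lit 78) (nat_lit 532) (nat_lit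 0) (XT.lf (nat_lit 0) (nat_lit 12459421706) (nat_lit 456) (nat_lit 3144550762) (nat_lit 532) (nat_lit 5228340326) (nat_lit 207) (nat_lit 5) (nat_lit 213) (nat_lit 5) (nat_lit 214) (nat_lit 5) (nat_lit 633) (nat_lit 563) (nat_lit 364)) (XT.lf (nat_lit 0) (nat_lit 3812654589) (nat_lit 532) (nat_lit 16175178264) (nat_lit 608) (nat_lit 1095076123) (nat_lit 200) (nat_lit 5) (nat_lit 207) (nat_lit 5) (nat_lit 208) (nat_lit 5) (nat_lit 634) (nat_lit 563) (nat_lit 363)))) (XT.nd (nat_lit 78) (nat_lit 456) (nat_lit 0) (XT.lf (nat_lit 0) (nat_lit 3150987806) (nat_lit 608) (nat_lit 5032349941) (nat_lit 76) (nat_lit 13153353412) (nat_lit 199) (nat_lit 5) (nat_lit 207) (nat_lit 5) (nat_lit 200) (nat_lit 5) (nat_lit 635) (nat_lit 563) (nat_lit 362)) (XT.nd (nat_lit 78) (nat_lit 0) (nat_lit 0) (XT.lf (nat_lit 0) (nat_lit 7510189076) (nat_lit 532) (nat_lit 14061571709) (nat_lit 76) (nat_lit 22786464) (nat_lit 193) (nat_lit 5) (nat_lit 200) (nat_lit 5) (nat_lit 194) (nat_lit 5) (nat_lit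 636) (nat_lit 563) (nat_lit 361)) (XT.lf (nat_lit 0) (nat_lit 12038616102) (nat_lit 532) (nat_lit 1502260200) (nat_lit 76) (nat_lit 8315043929) (nat_lit 193) (nat_lit 5) (nat_lit 200) (nat_lit 5) (nat_lit 194) (nat_lit 5) (nat_lit 637) (nat_lit 563) (nat_lit 360))))) (XT.nd (nat_lit 234) (nat_lit 836) (nat_lit 0) (XT.nd (nat_lit 78) (nat_lit 532) (nat_lit 0) (XT.lf (nat_lit 0) (nat_lit 11449796261) (nat_lit 456) (nat_lit 5276129670) (nat_lit 532) (nat_lit 5395229049) (nat_lit 187) (nat_lit 5) (nat_lit 193) (nat_lit 5) (nat_lit 194) (nat_lit 5) (nat_lit 638) (nat_lit 563) (nat_lit 359)) (XT.nd (nat_lit 78) (nat_lit 76) (nat_lit 0) (XT.lf (nat_lit 0) (nat_lit 2290608451) (nat_lit 456) (nat_lit 19255891079) (nat_lit 532) (nat_lit 844405124) (nat_lit 181) (nat_lit 5) (nat_lit 187) (nat_lit 5) (nat_lit 188) (nat_lit 5) (nat_lit 639) (nat_lit 563) (nat_lit 358)) (XT.lf (nat_lit 0) (nat_lit 3848699254) (nat_lit 532) (nat_lit 7076896659) (nat_lit 76) (nat_lit 11737939496) (nat_lit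 180) (nat_lit 5) (nat_lit 187) (nat_lit 5) (nat_lit 181) (nat_lit 5) (nat_lit 640) (nat_lit 563) (nat_lit 357)))) (XT.nd (nat_lit 78) (nat_lit 380) (nat_lit 0) (XT.lf (nat_lit 0) (nat_lit 6275172308) (nat_lit 456) (nat_lit 2384098891) (nat_lit 532) (nat_lit 14281538257) (nat_lit 174) (nat_lit 5) (nat_lit 180) (nat_lit 5) (nat_lit 181) (nat_lit 5) (nat_lit 641) (nat_lit 563) (nat_lit 356)) (XT.nd (nat_lit 78) (nat_lit 380) (nat_lit 0) (XT.lf (nat_lit 0) (nat_lit 13649147089) (nat_lit 532) (nat_lit 3282418258) (nat_lit 76) (nat_lit 6290402324) (nat_lit 174) (nat_lit 5) (nat_lit 181) (nat_lit 5) (nat_lit 175) (nat_lit 5) (nat_lit 642) (nat_lit 563) (nat_lit 355)) (XT.lf (nat_lit 0) (nat_lit 10481764775) (nat_lit 380) (nat_lit 8335213974) (nat_lit 456) (nat_lit 4690207662) (nat_lit 169) (nat_lit 5) (nat_lit 174) (nat_lit 5) (nat_lit 175) (nat_lit 5) (nat_lit 643) (nat_lit 563) (nat_lit 354)))))) (XT.nd (nat_lit 468) (nat_lit 1824) (nat_lit 0) (XT.nd (nat_lit 234) (nat_lit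 456) (nat_lit 0) (XT.nd (nat_lit 78) (nat_lit 380) (nat_lit 0) (XT.lf (nat_lit 0) (nat_lit 310731233) (nat_lit 532) (nat_lit 23032935369) (nat_lit 76) (nat_lit 453916207) (nat_lit 162) (nat_lit 5) (nat_lit 169) (nat_lit 5) (nat_lit 163) (nat_lit 5) (nat_lit 644) (nat_lit 563) (nat_lit 353)) (XT.nd (nat_lit 78) (nat_lit 380) (nat_lit 0) (XT.lf (nat_lit 0) (nat_lit 5486505808) (nat_lit 532) (nat_lit 9180239987) (nat_lit 76) (nat_lit 9423669416) (nat_lit 162) (nat_lit 5) (nat_lit 169) (nat_lit 5) (nat_lit 163) (nat_lit 5) (nat_lit 645) (nat_lit 563) (nat_lit 352)) (XT.lf (nat_lit 0) (nat_lit 5006899225) (nat_lit 380) (nat_lit 5785888771) (nat_lit 456) (nat_lit 13595776907) (nat_lit 157) (nat_lit 5) (nat_lit 162) (nat_lit 5) (nat_lit 163) (nat_lit 5) (nat_lit 646) (nat_lit 563) (nat_lit 351)))) (XT.nd (nat_lit 78) (nat_lit 456) (nat_lit 0) (XT.lf (nat_lit 0) (nat_lit 16282976702) (nat_lit 456) (nat_lit 5119193271) (nat_lit 76) (nat_lit 3288952476) (nat_lit 157) (nat_lit 5)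 (nat_lit 163) (nat_lit 5) (nat_lit 158) (nat_lit 5) (nat_lit 647) (nat_lit 563) (nat_lit 350)) (XT.nd (nat_lit 78) (nat_lit 76) (nat_lit 0) (XT.lf (nat_lit 0) (nat_lit 9506743316) (nat_lit 380) (nat_lit 12470895387) (nat_lit 456) (nat_lit 3020199520) (nat_lit 152) (nat_lit 5) (nat_lit 157) (nat_lit 5) (nat_lit 158) (nat_lit 5) (nat_lit 648) (nat_lit 563) (nat_lit 349)) (XT.lf (nat_lit 0) (nat_lit 2472264285) (nat_lit 456) (nat_lit 839879495) (nat_lit 76) (nat_lit 21997639021) (nat_lit 151) (nat_lit 5) (nat_lit 157) (nat_lit 5) (nat_lit 152) (nat_lit 5) (nat_lit 649) (nat_lit 563) (nat_lit 348))))) (XT.nd (nat_lit 234) (nat_lit 1064) (nat_lit 0) (XT.nd (nat_lit 78) (nat_lit 380) (nat_lit 0) (XT.lf (nat_lit 0) (nat_lit 8161409822) (nat_lit 456) (nat_lit 11402279115) (nat_lit 76) (nat_lit 6061333046) (nat_lit 146) (nat_lit 5) (nat_lit 152) (nat_lit 5) (nat_lit 147) (nat_lit 5) (nat_lit 650) (nat_lit 563) (nat_lit 347)) (XT.nd (nat_lit 78) (nat_lit 0) (nat_lit 0) (XT.lf (nat_lit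 0) (nat_lit 3669663087) (nat_lit 380) (nat_lit 10340892896) (nat_lit 456) (nat_lit 11935086042) (nat_lit 141) (nat_lit 5) (nat_lit 146) (nat_lit 5) (nat_lit 147) (nat_lit 5) (nat_lit 651) (nat_lit 563) (nat_lit 346)) (XT.lf (nat_lit 0) (nat_lit 19189615546) (nat_lit 380) (nat_lit 858418964) (nat_lit 456) (nat_lit 6223213394) (nat_lit 141) (nat_lit 5) (nat_lit 146) (nat_lit 5) (nat_lit 147) (nat_lit 5) (nat_lit 652) (nat_lit 563) (nat_lit 345)))) (XT.nd (nat_lit 156) (nat_lit 684) (nat_lit 0) (XT.nd (nat_lit 78) (nat_lit 76) (nat_lit 0) (XT.lf (nat_lit 0) (nat_lit 8462446691) (nat_lit 304) (nat_lit 17850901614) (nat_lit 380) (nat_lit 287876295) (nat_lit 137) (nat_lit 5) (nat_lit 141) (nat_lit 5) (nat_lit 142) (nat_lit 5) (nat_lit 653) (nat_lit 563) (nat_lit 344)) (XT.lf (nat_lit 0) (nat_lit 5738996629) (nat_lit 380) (nat_lit 2574819301) (nat_lit 76) (nat_lit 18622267476) (nat_lit 136) (nat_lit 5) (nat_lit 141) (nat_lit 5) (nat_lit 137) (nat_lit 5) (nat_lit 654) (nat_lit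 563) (nat_lit 343))) (XT.nd (nat_lit 78) (nat_lit 304) (nat_lit 0) (XT.lf (nat_lit 0) (nat_lit 11974780848) (nat_lit 456) (nat_lit 13818344189) (nat_lit 76) (nat_lit 1482632114) (nat_lit 131) (nat_lit 5) (nat_lit 137) (nat_lit 5) (nat_lit 132) (nat_lit 5) (nat_lit 655) (nat_lit 563) (nat_lit 342)) (XT.lf (nat_lit 0) (nat_lit 2189044197) (nat_lit 304) (nat_lit 16227961223) (nat_lit 380) (nat_lit 9203584841) (nat_lit 127) (nat_lit 5) (nat_lit 131) (nat_lit 5) (nat_lit 132) (nat_lit 5) (nat_lit 656) (nat_lit 563) (nat_lit 341))))))))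
noncomputable def xc181 : XT := (XT.nd (nat_lit 1950) (nat_lit 13148) (nat_lit 0) (XT.nd (nat_lit 936) (nat_lit 1368) (nat_lit 0) (XT.nd (nat_lit 468) (nat_lit 0) (nat_lit 76) (XT.nd (nat_lit 234) (nat_lit 1596) (nat_lit 0) (XT.nd (nat_lit 78) (nat_lit 0) (nat_lit 0) (XT.lf (nat_lit 0) (nat_lit 1664719221) (nat_lit 0) (nat_lit 1664719221) (nat_lit 1596) (nat_lit 1761103589) (nat_lit 513) (nat_lit 5) (nat_lit 513) (nat_lit 3) (nat_lit 534) (nat_lit 3) (nat_lit 564) (nat_lit 564) (nat_lit 432)) (XT.nd (nat_lit 78) (nat_lit 0) (nat_lit 0) (XT.lf (nat_lit 0) (nat_lit 7407739266) (nat_lit 1596) (nat_lit 1860761149) (nat_lit 1672) (nat_lit 1000636661) (nat_lit 513) (nat_lit 5) (nat_lit 534) (nat_lit 3) (nat_lit 535) (nat_lit 5) (nat_lit 565) (nat_lit 564) (nat_lit 431)) (XT.lf (nat_lit 76) (nat_lit 3241122904) (nat_lit 0) (nat_lit 4955882700) (nat_lit 1672) (nat_lit 2161439953) (nat_lit 514) (nat_lit 5) (nat_lit 513) (nat_lit 5) (nat_lit 535) (nat_lit 5) (nat_lit 566) (nat_lit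 564) (nat_lit 430)))) (XT.nd (nat_lit 78) (nat_lit 1596) (nat_lit 0) (XT.lf (nat_lit 76) (nat_lit 8461052020) (nat_lit 0) (nat_lit 536112429) (nat_lit 1672) (nat_lit 1452476507) (nat_lit 514) (nat_lit 5) (nat_lit 513) (nat_lit 5) (nat_lit 535) (nat_lit 5) (nat_lit 567) (nat_lit 564) (nat_lit 429)) (XT.nd (nat_lit 78) (nat_lit 1672) (nat_lit 0) (XT.lf (nat_lit 76) (nat_lit 3250125634) (nat_lit 0) (nat_lit 6593105242) (nat_lit 1672) (nat_lit 698834129) (nat_lit 515) (nat_lit 5) (nat_lit 514) (nat_lit 5) (nat_lit 536) (nat_lit 5) (nat_lit 568) (nat_lit 564) (nat_lit 428)) (XT.lf (nat_lit 0) (nat_lit 69119903) (nat_lit 1672) (nat_lit 2029187720) (nat_lit 1748) (nat_lit 8538020456) (nat_lit 492) (nat_lit 5) (nat_lit 514) (nat_lit 5) (nat_lit 515) (nat_lit 5) (nat_lit 569) (nat_lit 564) (nat_lit 427))))) (XT.nd (nat_lit 234) (nat_lit 0) (nat_lit 76) (XT.nd (nat_lit 78) (nat_lit 0) (nat_lit 0) (XT.lf (nat_lit 0) (nat_lit 864824776) (nat_lit 1672) (nat_lit 7379675050) (nat_lit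 1748) (nat_lit 2487451889) (nat_lit 493) (nat_lit 5) (nat_lit 515) (nat_lit 5) (nat_lit 516) (nat_lit 5) (nat_lit 570) (nat_lit 564) (nat_lit 426)) (XT.nd (nat_lit 78) (nat_lit 0) (nat_lit 76) (XT.lf (nat_lit 0) (nat_lit 1687856477) (nat_lit 1672) (nat_lit 1984042175) (nat_lit 1748) (nat_lit 7157363534) (nat_lit 493) (nat_lit 5) (nat_lit 515) (nat_lit 5) (nat_lit 516) (nat_lit 5) (nat_lit 571) (nat_lit 564) (nat_lit 425)) (XT.lf (nat_lit 0) (nat_lit 2541203643) (nat_lit 1672) (nat_lit 7378390227) (nat_lit 1748) (nat_lit 1008650465) (nat_lit 494) (nat_lit 5) (nat_lit 516) (nat_lit 5) (nat_lit 517) (nat_lit 5) (nat_lit 572) (nat_lit 564) (nat_lit 424)))) (XT.nd (nat_lit 78) (nat_lit 0) (nat_lit 0) (XT.lf (nat_lit 0) (nat_lit 3433753900) (nat_lit 1672) (nat_lit 1841841415) (nat_lit 1748) (nat_lit 5753170605) (nat_lit 494) (nat_lit 5) (nat_lit 516) (nat_lit 5) (nat_lit 517) (nat_lit 5) (nat_lit 573) (nat_lit 564) (nat_lit 423)) (XT.nd (nat_lit 78) (nat_lit 0) (nat_lit 76)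 (XT.lf (nat_lit 76) (nat_lit 3846256527) (nat_lit 0) (nat_lit 507593435) (nat_lit 1748) (nat_lit 6777256544) (nat_lit 495) (nat_lit 5) (nat_lit 494) (nat_lit 5) (nat_lit 517) (nat_lit 5) (nat_lit 574) (nat_lit 564) (nat_lit 422)) (XT.lf (nat_lit 0) (nat_lit 5318065451) (nat_lit 1672) (nat_lit 1600427674) (nat_lit 1748) (nat_lit 4316488848) (nat_lit 495) (nat_lit 5) (nat_lit 517) (nat_lit 5) (nat_lit 518) (nat_lit 5) (nat_lit 575) (nat_lit 564) (nat_lit 421)))))) (XT.nd (nat_lit 468) (nat_lit 0) (nat_lit 76) (XT.nd (nat_lit 234) (nat_lit 1596) (nat_lit 0) (XT.nd (nat_lit 78) (nat_lit 0) (nat_lit 76) (XT.lf (nat_lit 76) (nat_lit 4240225354) (nat_lit 0) (nat_lit 2077521391) (nat_lit 1748) (nat_lit 5022866943) (nat_lit 496) (nat_lit 5) (nat_lit 495) (nat_lit 5) (nat_lit 518) (nat_lit 5) (nat_lit 576) (nat_lit 564) (nat_lit 420)) (XT.nd (nat_lit 78) (nat_lit 0) (nat_lit 0) (XT.lf (nat_lit 0) (nat_lit 7352350125) (nat_lit 1672) (nat_lit 1257366551) (nat_lit 1748) (nat_lit 2838345117)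 (nat_lit 496) (nat_lit 5) (nat_lit 518) (nat_lit 5) (nat_lit 519) (nat_lit 5) (nat_lit 577) (nat_lit 564) (nat_lit 419)) (XT.lf (nat_lit 76) (nat_lit 4741166859) (nat_lit 0) (nat_lit 3696850180) (nat_lit 1748) (nat_lit 3119036670) (nat_lit 497) (nat_lit 5) (nat_lit 496) (nat_lit 5) (nat_lit 519) (nat_lit 5) (nat_lit 578) (nat_lit 564) (nat_lit 418)))) (XT.nd (nat_lit 78) (nat_lit 1748) (nat_lit 0) (XT.lf (nat_lit 0) (nat_lit 9548496536) (nat_lit 1672) (nat_lit 809947120) (nat_lit 1748) (nat_lit 1309722055) (nat_lit 497) (nat_lit 5) (nat_lit 519) (nat_lit 5) (nat_lit 520) (nat_lit 5) (nat_lit 579) (nat_lit 564) (nat_lit 417)) (XT.nd (nat_lit 78) (nat_lit 1748) (nat_lit 0) (XT.lf (nat_lit 76) (nat_lit 5352001545) (nat_lit 0) (nat_lit 5374760996) (nat_lit 1748) (nat_lit 1053828065) (nat_lit 498) (nat_lit 5) (nat_lit 497) (nat_lit 5) (nat_lit 520) (nat_lit 5) (nat_lit 580) (nat_lit 564) (nat_lit 416)) (XT.lf (nat_lit 0) (nat_lit 24822832) (nat_lit 1748) (nat_lit 257176783)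 (nat_lit 1824) (nat_lit 11613423559) (nat_lit 474) (nat_lit 5) (nat_lit 497) (nat_lit 5) (nat_lit 498) (nat_lit 5) (nat_lit 581) (nat_lit 564) (nat_lit 415))))) (XT.nd (nat_lit 234) (nat_lit 0) (nat_lit 76) (XT.nd (nat_lit 78) (nat_lit 0) (nat_lit 0) (XT.lf (nat_lit 0) (nat_lit 1169512533) (nat_lit 1748) (nat_lit 5943158185) (nat_lit 1824) (nat_lit 4898572890) (nat_lit 475) (nat_lit 5) (nat_lit 498) (nat_lit 5) (nat_lit 499) (nat_lit 5) (nat_lit 582) (nat_lit 564) (nat_lit 414)) (XT.nd (nat_lit 78) (nat_lit 0) (nat_lit 76) (XT.lf (nat_lit 76) (nat_lit 387228596) (nat_lit 0) (nat_lit 1942930322) (nat_lit 1824) (nat_lit 9799362300) (nat_lit 476) (nat_lit 5) (nat_lit 475) (nat_lit 5) (nat_lit 499) (nat_lit 5) (nat_lit 583) (nat_lit 564) (nat_lit 413)) (XT.lf (nat_lit 0) (nat_lit 3562940933) (nat_lit 1748) (nat_lit 5356645585) (nat_lit 1824) (nat_lit 3329601391) (nat_lit 476) (nat_lit 5) (nat_lit 499) (nat_lit 5) (nat_lit 500) (nat_lit 5) (nat_lit 584) (nat_lit 564) (nat_lit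 412)))) (XT.nd (nat_lit 156) (nat_lit 0) (nat_lit 76) (XT.nd (nat_lit 78) (nat_lit 0) (nat_lit 76) (XT.lf (nat_lit 76) (nat_lit 1148938378) (nat_lit 0) (nat_lit 3679173797) (nat_lit 1824) (nat_lit 7542983031) (nat_lit 477) (nat_lit 5) (nat_lit 476) (nat_lit 5) (nat_lit 500) (nat_lit 5) (nat_lit 585) (nat_lit 564) (nat_lit 411)) (XT.lf (nat_lit 0) (nat_lit 6153193513) (nat_lit 1748) (nat_lit 4658710268) (nat_lit 1824) (nat_lit 1682846641) (nat_lit 477) (nat_lit 5) (nat_lit 500) (nat_lit 5) (nat_lit 501) (nat_lit 5) (nat_lit 586) (nat_lit 564) (nat_lit 410))) (XT.nd (nat_lit 78) (nat_lit 0) (nat_lit 0) (XT.lf (nat_lit 76) (nat_lit 2028262269) (nat_lit 0) (nat_lit 5501897074) (nat_lit 1824) (nat_lit 5090213612) (nat_lit 478) (nat_lit 5) (nat_lit 477) (nat_lit 5) (nat_lit 501) (nat_lit 5) (nat_lit 587) (nat_lit 564) (nat_lit 409)) (XT.lf (nat_lit 76) (nat_lit 8902211359) (nat_lit 0) (nat_lit 51738078) (nat_lit 1824) (nat_lit 3794174633) (nat_lit 478) (nat_lit 5) (nat_lit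 477) (nat_lit 5) (nat_lit 501) (nat_lit 5) (nat_lit 588) (nat_lit 564) (nat_lit 408))))))) (XT.nd (nat_lit 936) (nat_lit 5396) (nat_lit 0) (XT.nd (nat_lit 468) (nat_lit 3572) (nat_lit 0) (XT.nd (nat_lit 234) (nat_lit 988) (nat_lit 0) (XT.nd (nat_lit 78) (nat_lit 1748) (nat_lit 0) (XT.lf (nat_lit 0) (nat_lit 3029211668) (nat_lit 1748) (nat_lit 7420699713) (nat_lit 1824) (nat_lit 2427646704) (nat_lit 455) (nat_lit 5) (nat_lit 478) (nat_lit 5) (nat_lit 479) (nat_lit 5) (nat_lit 589) (nat_lit 564) (nat_lit 407)) (XT.nd (nat_lit 78) (nat_lit 1748) (nat_lit 0) (XT.lf (nat_lit 0) (nat_lit 10083720927) (nat_lit 1748) (nat_lit 1906656355) (nat_lit 1824) (nat_lit 1018913564) (nat_lit 455) (nat_lit 5) (nat_lit 478) (nat_lit 5) (nat_lit 479) (nat_lit 5) (nat_lit 590) (nat_lit 564) (nat_lit 406)) (XT.lf (nat_lit 0) (nat_lit 452569184) (nat_lit 1748) (nat_lit 8989756820) (nat_lit 76) (nat_lit 3700478532) (nat_lit 432) (nat_lit 5) (nat_lit 455) (nat_lit 5) (nat_lit 433) (nat_lit 5)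 (nat_lit 591) (nat_lit 564) (nat_lit 405)))) (XT.nd (nat_lit 78) (nat_lit 988) (nat_lit 0) (XT.lf (nat_lit 0) (nat_lit 1960995923) (nat_lit 1748) (nat_lit 1895239221) (nat_lit 76) (nat_lit 9422197164) (nat_lit 432) (nat_lit 5) (nat_lit 455) (nat_lit 5) (nat_lit 433) (nat_lit 5) (nat_lit 592) (nat_lit 564) (nat_lit 404)) (XT.nd (nat_lit 78) (nat_lit 0) (nat_lit 0) (XT.lf (nat_lit 0) (nat_lit 3535838799) (nat_lit 1064) (nat_lit 8026307210) (nat_lit 76) (nat_lit 1853903303) (nat_lit 419) (nat_lit 5) (nat_lit 433) (nat_lit 5) (nat_lit 420) (nat_lit 5) (nat_lit 593) (nat_lit 564) (nat_lit 403)) (XT.lf (nat_lit 0) (nat_lit 5169654950) (nat_lit 1064) (nat_lit 745670976) (nat_lit 76) (nat_lit 7640544795) (nat_lit 419) (nat_lit 5) (nat_lit 433) (nat_lit 5) (nat_lit 420) (nat_lit 5) (nat_lit 594) (nat_lit 564) (nat_lit 402))))) (XT.nd (nat_lit 234) (nat_lit 1748) (nat_lit 0) (XT.nd (nat_lit 78) (nat_lit 912) (nat_lit 0) (XT.lf (nat_lit 0) (nat_lit 6759427129) (nat_lit 912) (nat_lit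 109956154) (nat_lit 988) (nat_lit 6828442123) (nat_lit 407) (nat_lit 5) (nat_lit 419) (nat_lit 5) (nat_lit 420) (nat_lit 5) (nat_lit 595) (nat_lit 564) (nat_lit 401)) (XT.nd (nat_lit 78) (nat_lit 0) (nat_lit 0) (XT.lf (nat_lit 0) (nat_lit 541599551) (nat_lit 912) (nat_lit 8097292064) (nat_lit 988) (nat_lit 5203013394) (nat_lit 395) (nat_lit 5) (nat_lit 407) (nat_lit 5) (nat_lit 408) (nat_lit 5) (nat_lit 596) (nat_lit 564) (nat_lit 400)) (XT.lf (nat_lit 0) (nat_lit 8254622684) (nat_lit 912) (nat_lit 2226092589) (nat_lit 988) (nat_lit 3507413930) (nat_lit 395) (nat_lit 5) (nat_lit 407) (nat_lit 5) (nat_lit 408) (nat_lit 5) (nat_lit 597) (nat_lit 564) (nat_lit 399)))) (XT.nd (nat_lit 78) (nat_lit 912) (nat_lit 0) (XT.lf (nat_lit 0) (nat_lit 1976215691) (nat_lit 836) (nat_lit 10410267024) (nat_lit 912) (nat_lit 1750254495) (nat_lit 384) (nat_lit 5) (nat_lit 395) (nat_lit 5) (nat_lit 396) (nat_lit 5) (nat_lit 598) (nat_lit 564) (nat_lit 398)) (XT.nd (nat_lit 78) (nat_lit 836)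 (nat_lit 0) (XT.lf (nat_lit 0) (nat_lit 84883634) (nat_lit 912) (nat_lit 4394939060) (nat_lit 76) (nat_lit 9807622899) (nat_lit 383) (nat_lit 5) (nat_lit 395) (nat_lit 5) (nat_lit 384) (nat_lit 5) (nat_lit 599) (nat_lit 564) (nat_lit 397)) (XT.lf (nat_lit 0) (nat_lit 1956898413) (nat_lit 912) (nat_lit 10899931946) (nat_lit 76) (nat_lit 1583635595) (nat_lit 372) (nat_lit 5) (nat_lit 384) (nat_lit 5) (nat_lit 373) (nat_lit 5) (nat_lit 600) (nat_lit 564) (nat_lit 396)))))) (XT.nd (nat_lit 468) (nat_lit 3040) (nat_lit 0) (XT.nd (nat_lit 234) (nat_lit 1596) (nat_lit 0) (XT.nd (nat_lit 78) (nat_lit 760) (nat_lit 0) (XT.lf (nat_lit 0) (nat_lit 3915952684) (nat_lit 912) (nat_lit 2941438282) (nat_lit 76) (nat_lit 7738165132) (nat_lit 372) (nat_lit 5) (nat_lit 384) (nat_lit 5) (nat_lit 373) (nat_lit 5) (nat_lit 601) (nat_lit 564) (nat_lit 395)) (XT.nd (nat_lit 78) (nat_lit 0) (nat_lit 0) (XT.lf (nat_lit 0) (nat_lit 5235170268) (nat_lit 760) (nat_lit 703443095) (nat_lit 836) (nat_lit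 8814647511) (nat_lit 362) (nat_lit 5) (nat_lit 372) (nat_lit 5) (nat_lit 373) (nat_lit 5) (nat_lit 602) (nat_lit 564) (nat_lit 394)) (XT.lf (nat_lit 0) (nat_lit 8048342618) (nat_lit 836) (nat_lit 1344700141) (nat_lit 76) (nat_lit 5520145988) (nat_lit 362) (nat_lit 5) (nat_lit 373) (nat_lit 5) (nat_lit 363) (nat_lit 5) (nat_lit 603) (nat_lit 564) (nat_lit 393)))) (XT.nd (nat_lit 78) (nat_lit 760) (nat_lit 0) (XT.lf (nat_lit 0) (nat_lit 7070584491) (nat_lit 836) (nat_lit 3170991216) (nat_lit 912) (nat_lit 4833914568) (nat_lit 351) (nat_lit 5) (nat_lit 362) (nat_lit 5) (nat_lit 363) (nat_lit 5) (nat_lit 604) (nat_lit 564) (nat_lit 392)) (XT.nd (nat_lit 78) (nat_lit 0) (nat_lit 0) (XT.lf (nat_lit 0) (nat_lit 406433755) (nat_lit 760) (nat_lit 12095439543) (nat_lit 836) (nat_lit 2738701798) (nat_lit 341) (nat_lit 5) (nat_lit 351) (nat_lit 5) (nat_lit 352) (nat_lit 5) (nat_lit 605) (nat_lit 564) (nat_lit 391)) (XT.lf (nat_lit 0) (nat_lit 9063529218) (nat_lit 760) (nat_lit 5809402904)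 (nat_lit 836) (nat_lit 534719617) (nat_lit 341) (nat_lit 5) (nat_lit 351) (nat_lit 5) (nat_lit 352) (nat_lit 5) (nat_lit 606) (nat_lit 564) (nat_lit 390))))) (XT.nd (nat_lit 234) (nat_lit 1520) (nat_lit 0) (XT.nd (nat_lit 78) (nat_lit 684) (nat_lit 0) (XT.lf (nat_lit 0) (nat_lit 1701143090) (nat_lit 836) (nat_lit 13256363324) (nat_lit 76) (nat_lit 620136770) (nat_lit 330) (nat_lit 5) (nat_lit 341) (nat_lit 5) (nat_lit 331) (nat_lit 5) (nat_lit 607) (nat_lit 564) (nat_lit 389)) (XT.nd (nat_lit 78) (nat_lit 684) (nat_lit 0) (XT.lf (nat_lit 0) (nat_lit 4047098083) (nat_lit 836) (nat_lit 4556230930) (nat_lit 76) (nat_lit 7146185219) (nat_lit 330) (nat_lit 5) (nat_lit 341) (nat_lit 5) (nat_lit 331) (nat_lit 5) (nat_lit 608) (nat_lit 564) (nat_lit 388)) (XT.lf (nat_lit 0) (nat_lit 4365612386) (nat_lit 684) (nat_lit 2094077800) (nat_lit 760) (nat_lit 9464739294) (nat_lit 321) (nat_lit 5) (nat_lit 330) (nat_lit 5) (nat_lit 331) (nat_lit 5) (nat_lit 609) (nat_lit 564) (nat_lit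 387)))) (XT.nd (nat_lit 156) (nat_lit 760) (nat_lit 0) (XT.nd (nat_lit 78) (nat_lit 760) (nat_lit 0) (XT.lf (nat_lit 0) (nat_lit 8972297655) (nat_lit 760) (nat_lit 2613941952) (nat_lit 76) (nat_lit 4515569272) (nat_lit 321) (nat_lit 5) (nat_lit 331) (nat_lit 5) (nat_lit 322) (nat_lit 5) (nat_lit 610) (nat_lit 564) (nat_lit 386)) (XT.lf (nat_lit 0) (nat_lit 6572704109) (nat_lit 760) (nat_lit 5010637595) (nat_lit 836) (nat_lit 4698431568) (nat_lit 311) (nat_lit 5) (nat_lit 321) (nat_lit 5) (nat_lit 322) (nat_lit 5) (nat_lit 611) (nat_lit 564) (nat_lit 385))) (XT.nd (nat_lit 78) (nat_lit 760) (nat_lit 0) (XT.lf (nat_lit 0) (nat_lit 14267015828) (nat_lit 836) (nat_lit 507158411) (nat_lit 76) (nat_lit 1690755604) (nat_lit 311) (nat_lit 5) (nat_lit 322) (nat_lit 5) (nat_lit 312) (nat_lit 5) (nat_lit 612) (nat_lit 564) (nat_lit 384)) (XT.lf (nat_lit 0) (nat_lit 431754984) (nat_lit 760) (nat_lit 7699260135) (nat_lit 76) (nat_lit 8519014356) (nat_lit 301) (nat_lit 5) (nat_lit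 311) (nat_lit 5) (nat_lit 302) (nat_lit 5) (nat_lit 613) (nat_lit 564) (nat_lit 383))))))))
noncomputable def xc182 : XT := (XT.nd (nat_lit 1950) (nat_lit 4712) (nat_lit 0) (XT.nd (nat_lit 936) (nat_lit 3724) (nat_lit 0) (XT.nd (nat_lit 468) (nat_lit 2432) (nat_lit 0) (XT.nd (nat_lit 234) (nat_lit 760) (nat_lit 0) (XT.nd (nat_lit 78) (nat_lit 608) (nat_lit 0) (XT.lf (nat_lit 0) (nat_lit 1765122661) (nat_lit 684) (nat_lit 1326322178) (nat_lit 760) (nat_lit 13746959558) (nat_lit 292) (nat_lit 5) (nat_lit 301) (nat_lit 5) (nat_lit 302) (nat_lit 5) (nat_lit 614) (nat_lit 564) (nat_lit 382)) (XT.nd (nat_lit 78) (nat_lit 608) (nat_lit 0) (XT.lf (nat_lit 0) (nat_lit 5884821586) (nat_lit 760) (nat_lit 5552655291) (nat_lit 76) (nat_lit 5591461070) (nat_lit 292) (nat_lit 5) (nat_lit 302) (nat_lit 5) (nat_lit 293) (nat_lit 5) (nat_lit 615) (nat_lit 564) (nat_lit 381)) (XT.lf (nat_lit 0) (nat_lit 4195303208) (nat_lit 608) (nat_lit 4566973191) (nat_lit 684) (nat_lit 8460442530) (nat_lit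 284) (nat_lit 5) (nat_lit 292) (nat_lit 5) (nat_lit 293) (nat_lit 5) (nat_lit 616) (nat_lit 564) (nat_lit 380)))) (XT.nd (nat_lit 78) (nat_lit 760) (nat_lit 0) (XT.lf (nat_lit 0) (nat_lit 11742907842) (nat_lit 684) (nat_lit 3231639757) (nat_lit 76) (nat_lit 2444916335) (nat_lit 284) (nat_lit 5) (nat_lit 293) (nat_lit 5) (nat_lit 285) (nat_lit 5) (nat_lit 617) (nat_lit 564) (nat_lit 379)) (XT.nd (nat_lit 78) (nat_lit 76) (nat_lit 0) (XT.lf (nat_lit 0) (nat_lit 6809901260) (nat_lit 684) (nat_lit 8040132770) (nat_lit 760) (nat_lit 2768773100) (nat_lit 275) (nat_lit 5) (nat_lit 284) (nat_lit 5) (nat_lit 285) (nat_lit 5) (nat_lit 618) (nat_lit 564) (nat_lit 378)) (XT.lf (nat_lit 0) (nat_lit 208870792) (nat_lit 760) (nat_lit 736307514) (nat_lit 76) (nat_lit 16876648359) (nat_lit 274) (nat_lit 5) (nat_lit 284) (nat_lit 5) (nat_lit 275) (nat_lit 5) (nat_lit 619) (nat_lit 564) (nat_lit 377))))) (XT.nd (nat_lit 234) (nat_lit 1216) (nat_lit 0) (XT.nd (nat_lit 78) (nat_lit 608) (nat_lit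 0) (XT.lf (nat_lit 0) (nat_lit 3305580165) (nat_lit 684) (nat_lit 8432095507) (nat_lit 76) (nat_lit 6288934037) (nat_lit 266) (nat_lit 5) (nat_lit 275) (nat_lit 5) (nat_lit 267) (nat_lit 5) (nat_lit 620) (nat_lit 564) (nat_lit 376)) (XT.nd (nat_lit 78) (nat_lit 0) (nat_lit 0) (XT.lf (nat_lit 0) (nat_lit 1916229439) (nat_lit 608) (nat_lit 4564353449) (nat_lit 684) (nat_lit 11754579207) (nat_lit 258) (nat_lit 5) (nat_lit 266) (nat_lit 5) (nat_lit 267) (nat_lit 5) (nat_lit 621) (nat_lit 564) (nat_lit 375)) (XT.lf (nat_lit 0) (nat_lit 9786671674) (nat_lit 684) (nat_lit 5888405885) (nat_lit 76) (nat_lit 2771457096) (nat_lit 258) (nat_lit 5) (nat_lit 267) (nat_lit 5) (nat_lit 259) (nat_lit 5) (nat_lit 622) (nat_lit 564) (nat_lit 374)))) (XT.nd (nat_lit 78) (nat_lit 684) (nat_lit 0) (XT.lf (nat_lit 0) (nat_lit 4774070801) (nat_lit 532) (nat_lit 8438934243) (nat_lit 608) (nat_lit 5448047995) (nat_lit 251) (nat_lit 5) (nat_lit 258) (nat_lit 5) (nat_lit 259) (nat_lit 5) (nat_lit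 623) (nat_lit 564) (nat_lit 373)) (XT.nd (nat_lit 78) (nat_lit 684) (nat_lit 0) (XT.lf (nat_lit 0) (nat_lit 15720629515) (nat_lit 532) (nat_lit 1019729630) (nat_lit 608) (nat_lit 2138853578) (nat_lit 251) (nat_lit 5) (nat_lit 258) (nat_lit 5) (nat_lit 259) (nat_lit 5) (nat_lit 624) (nat_lit 564) (nat_lit 372)) (XT.lf (nat_lit 0) (nat_lit 1307372005) (nat_lit 684) (nat_lit 11272906422) (nat_lit 76) (nat_lit 6519556099) (nat_lit 242) (nat_lit 5) (nat_lit 251) (nat_lit 5) (nat_lit 243) (nat_lit 5) (nat_lit 625) (nat_lit 564) (nat_lit 371)))))) (XT.nd (nat_lit 468) (nat_lit 2052) (nat_lit 0) (XT.nd (nat_lit 234) (nat_lit 608) (nat_lit 0) (XT.nd (nat_lit 78) (nat_lit 1064) (nat_lit 0) (XT.lf (nat_lit 0) (nat_lit 4815135461) (nat_lit 684) (nat_lit 279507234) (nat_lit 76) (nat_lit 14229519029) (nat_lit 242) (nat_lit 5) (nat_lit 251) (nat_lit 5) (nat_lit 243) (nat_lit 5) (nat_lit 626) (nat_lit 564) (nat_lit 370)) (XT.nd (nat_lit 78) (nat_lit 532) (nat_lit 0) (XT.lf (nat_lit 0)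 (nat_lit 8475158614) (nat_lit 608) (nat_lit 8498478288) (nat_lit 76) (nat_lit 2577697225) (nat_lit 235) (nat_lit 5) (nat_lit 243) (nat_lit 5) (nat_lit 236) (nat_lit 5) (nat_lit 627) (nat_lit 564) (nat_lit 369)) (XT.lf (nat_lit 0) (nat_lit 2827112930) (nat_lit 532) (nat_lit 9428585029) (nat_lit 608) (nat_lit 7526406442) (nat_lit 228) (nat_lit 5) (nat_lit 235) (nat_lit 5) (nat_lit 236) (nat_lit 5) (nat_lit 628) (nat_lit 564) (nat_lit 368)))) (XT.nd (nat_lit 78) (nat_lit 608) (nat_lit 0) (XT.lf (nat_lit 0) (nat_lit 14485617458) (nat_lit 532) (nat_lit 1676666325) (nat_lit 608) (nat_lit 3854198307) (nat_lit 228) (nat_lit 5) (nat_lit 235) (nat_lit 5) (nat_lit 236) (nat_lit 5) (nat_lit 629) (nat_lit 564) (nat_lit 367)) (XT.nd (nat_lit 78) (nat_lit 76) (nat_lit 0) (XT.lf (nat_lit 0) (nat_lit 6153253500) (nat_lit 532) (nat_lit 14067671690) (nat_lit 608) (nat_lit 33144373) (nat_lit 221) (nat_lit 5) (nat_lit 228) (nat_lit 5) (nat_lit 229) (nat_lit 5) (nat_lit 630) (nat_lit 564)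 (nat_lit 366)) (XT.lf (nat_lit 0) (nat_lit 3855663015) (nat_lit 608) (nat_lit 2394849497) (nat_lit 76) (nat_lit 14244554883) (nat_lit 220) (nat_lit 5) (nat_lit 228) (nat_lit 5) (nat_lit 221) (nat_lit 5) (nat_lit 631) (nat_lit 564) (nat_lit 365))))) (XT.nd (nat_lit 234) (nat_lit 1064) (nat_lit 0) (XT.nd (nat_lit 78) (nat_lit 456) (nat_lit 0) (XT.lf (nat_lit 0) (nat_lit 7889807437) (nat_lit 608) (nat_lit 11088189273) (nat_lit 76) (nat_lit 1761524666) (nat_lit 213) (nat_lit 5) (nat_lit 221) (nat_lit 5) (nat_lit 214) (nat_lit 5) (nat_lit 632) (nat_lit 564) (nat_lit 364)) (XT.nd (nat_lit 78) (nat_lit 0) (nat_lit 0) (XT.lf (nat_lit 0) (nat_lit 944592687) (nat_lit 456) (nat_lit 11117475638) (nat_lit 532) (nat_lit 8925648094) (nat_lit 207) (nat_lit 5) (nat_lit 213) (nat_lit 5) (nat_lit 214) (nat_lit 5) (nat_lit 633) (nat_lit 564) (nat_lit 363)) (XT.lf (nat_lit 0) (nat_lit 13359738143) (nat_lit 456) (nat_lit 3026240426) (nat_lit 532) (nat_lit 4853533353) (nat_lit 207) (nat_lit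 5) (nat_lit 213) (nat_lit 5) (nat_lit 214) (nat_lit 5) (nat_lit 634) (nat_lit 564) (nat_lit 362)))) (XT.nd (nat_lit 156) (nat_lit 456) (nat_lit 0) (XT.nd (nat_lit 78) (nat_lit 76) (nat_lit 0) (XT.lf (nat_lit 0) (nat_lit 4543968184) (nat_lit 532) (nat_lit 16309740228) (nat_lit 608) (nat_lit 641488723) (nat_lit 200) (nat_lit 5) (nat_lit 207) (nat_lit 5) (nat_lit 208) (nat_lit 5) (nat_lit 635) (nat_lit 564) (nat_lit 361)) (XT.lf (nat_lit 0) (nat_lit 3674059327) (nat_lit 608) (nat_lit 4484621122) (nat_lit 76) (nat_lit 13595497705) (nat_lit 199) (nat_lit 5) (nat_lit 207) (nat_lit 5) (nat_lit 200) (nat_lit 5) (nat_lit 636) (nat_lit 564) (nat_lit 360))) (XT.nd (nat_lit 78) (nat_lit 0) (nat_lit 0) (XT.lf (nat_lit 0) (nat_lit 8116832434) (nat_lit 532) (nat_lit 13690770243) (nat_lit 76) (nat_lit 209661830) (nat_lit 193) (nat_lit 5) (nat_lit 200) (nat_lit 5) (nat_lit 194) (nat_lit 5) (nat_lit 637) (nat_lit 564) (nat_lit 359)) (XT.lf (nat_lit 0) (nat_lit 12726878205) (nat_lit 532)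 (nat_lit 893057463) (nat_lit 76) (nat_lit 8664109157) (nat_lit 193) (nat_lit 5) (nat_lit 200) (nat_lit 5) (nat_lit 194) (nat_lit 5) (nat_lit 638) (nat_lit 564) (nat_lit 358))))))) (XT.nd (nat_lit 936) (nat_lit 1520) (nat_lit 0) (XT.nd (nat_lit 468) (nat_lit 1368) (nat_lit 0) (XT.nd (nat_lit 234) (nat_lit 836) (nat_lit 0) (XT.nd (nat_lit 78) (nat_lit 532) (nat_lit 0) (XT.lf (nat_lit 0) (nat_lit 12313834549) (nat_lit 456) (nat_lit 5189448489) (nat_lit 532) (nat_lit 5051395118) (nat_lit 187) (nat_lit 5) (nat_lit 193) (nat_lit 5) (nat_lit 194) (nat_lit 5) (nat_lit 639) (nat_lit 564) (nat_lit 357)) (XT.nd (nat_lit 78) (nat_lit 76) (nat_lit 0) (XT.lf (nat_lit 0) (nat_lit 2974886740) (nat_lit 456) (nat_lit 19442067051) (nat_lit 532) (nat_lit 412936166) (nat_lit 181) (nat_lit 5) (nat_lit 187) (nat_lit 5) (nat_lit 188) (nat_lit 5) (nat_lit 640) (nat_lit 564) (nat_lit 356)) (XT.lf (nat_lit 0) (nat_lit 4359474001) (nat_lit 532) (nat_lit 6586681770) (nat_lit 76) (nat_lit 12161933669)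 (nat_lit 180) (nat_lit 5) (nat_lit 187) (nat_lit 5) (nat_lit 181) (nat_lit 5) (nat_lit 641) (nat_lit 564) (nat_lit 355)))) (XT.nd (nat_lit 78) (nat_lit 380) (nat_lit 0) (XT.lf (nat_lit 0) (nat_lit 7028272308) (nat_lit 456) (nat_lit 2233553953) (nat_lit 532) (nat_lit 14129172127) (nat_lit 174) (nat_lit 5) (nat_lit 180) (nat_lit 5) (nat_lit 181) (nat_lit 5) (nat_lit 642) (nat_lit 564) (nat_lit 354)) (XT.nd (nat_lit 78) (nat_lit 380) (nat_lit 0) (XT.lf (nat_lit 0) (nat_lit 14344342441) (nat_lit 532) (nat_lit 2725579573) (nat_lit 76) (nat_lit 6608001678) (nat_lit 174) (nat_lit 5) (nat_lit 181) (nat_lit 5) (nat_lit 175) (nat_lit 5) (nat_lit 643) (nat_lit 564) (nat_lit 353)) (XT.lf (nat_lit 0) (nat_lit 11309791811) (nat_lit 380) (nat_lit 8301475258) (nat_lit 456) (nat_lit 4357665778) (nat_lit 169) (nat_lit 5) (nat_lit 174) (nat_lit 5) (nat_lit 175) (nat_lit 5) (nat_lit 644) (nat_lit 564) (nat_lit 352))))) (XT.nd (nat_lit 234) (nat_lit 456) (nat_lit 0) (XT.nd (nat_lit 78) (nat_lit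 380) (nat_lit 0) (XT.lf (nat_lit 0) (nat_lit 734795624) (nat_lit 532) (nat_lit 22866631670) (nat_lit 76) (nat_lit 663713347) (nat_lit 162) (nat_lit 5) (nat_lit 169) (nat_lit 5) (nat_lit 163) (nat_lit 5) (nat_lit 645) (nat_lit 564) (nat_lit 351)) (XT.nd (nat_lit 78) (nat_lit 380) (nat_lit 0) (XT.lf (nat_lit 0) (nat_lit 6005892557) (nat_lit 532) (nat_lit 8749175761) (nat_lit 76) (nat_lit 9808925957) (nat_lit 162) (nat_lit 5) (nat_lit 169) (nat_lit 5) (nat_lit 163) (nat_lit 5) (nat_lit 646) (nat_lit 564) (nat_lit 350)) (XT.lf (nat_lit 0) (nat_lit 5717662360) (nat_lit 380) (nat_lit 5696570129) (nat_lit 456) (nat_lit 13453956538) (nat_lit 157) (nat_lit 5) (nat_lit 162) (nat_lit 5) (nat_lit 163) (nat_lit 5) (nat_lit 647) (nat_lit 564) (nat_lit 349)))) (XT.nd (nat_lit 78) (nat_lit 456) (nat_lit 0) (XT.lf (nat_lit 0) (nat_lit 17007577379) (nat_lit 456) (nat_lit 4616242732) (nat_lit 76) (nat_lit 3553111258) (nat_lit 157) (nat_lit 5) (nat_lit 163) (nat_lit 5) (nat_lit 158) (nat_lit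 5) (nat_lit 648) (nat_lit 564) (nat_lit 348)) (XT.nd (nat_lit 78) (nat_lit 76) (nat_lit 0) (XT.lf (nat_lit 0) (nat_lit 10298230124) (nat_lit 380) (nat_lit 12513984497) (nat_lit 456) (nat_lit 2677645879) (nat_lit 152) (nat_lit 5) (nat_lit 157) (nat_lit 5) (nat_lit 158) (nat_lit 5) (nat_lit 649) (nat_lit 564) (nat_lit 347)) (XT.lf (nat_lit 0) (nat_lit 2911584835) (nat_lit 456) (nat_lit 261902418) (nat_lit 76) (nat_lit 22634660996) (nat_lit 151) (nat_lit 5) (nat_lit 157) (nat_lit 5) (nat_lit 152) (nat_lit 5) (nat_lit 650) (nat_lit 564) (nat_lit 346)))))) (XT.nd (nat_lit 74490) (nat_lit 0) (nat_lit 27436) (XT.nd (nat_lit 234) (nat_lit 760) (nat_lit 0) (XT.nd (nat_lit 78) (nat_lit 380) (nat_lit 0) (XT.lf (nat_lit 0) (nat_lit 8712034599) (nat_lit 456) (nat_lit 11033039284) (nat_lit 76) (nat_lit 6384668546) (nat_lit 146) (nat_lit 5) (nat_lit 152) (nat_lit 5) (nat_lit 147) (nat_lit 5) (nat_lit 651) (nat_lit 564) (nat_lit 345)) (XT.nd (nat_lit 78) (nat_lit 0) (nat_lit 0) (XT.lf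 (nat_lit 0) (nat_lit 4336412253) (nat_lit 380) (nat_lit 10338007880) (nat_lit 456) (nat_lit 11782430240) (nat_lit 141) (nat_lit 5) (nat_lit 146) (nat_lit 5) (nat_lit 147) (nat_lit 5) (nat_lit 652) (nat_lit 564) (nat_lit 344)) (XT.lf (nat_lit 0) (nat_lit 20155129332) (nat_lit 380) (nat_lit 669996290) (nat_lit 456) (nat_lit 5963993815) (nat_lit 141) (nat_lit 5) (nat_lit 146) (nat_lit 5) (nat_lit 147) (nat_lit 5) (nat_lit 653) (nat_lit 564) (nat_lit 343)))) (XT.nd (nat_lit 78) (nat_lit 380) (nat_lit 0) (XT.lf (nat_lit 0) (nat_lit 86579082) (nat_lit 380) (nat_lit 17910543691) (nat_lit 76) (nat_lit 9128607591) (nat_lit 136) (nat_lit 5) (nat_lit 141) (nat_lit 5) (nat_lit 137) (nat_lit 5) (nat_lit 654) (nat_lit 564) (nat_lit 342)) (XT.nd (nat_lit 78) (nat_lit 380) (nat_lit 0) (XT.lf (nat_lit 0) (nat_lit 6222758761) (nat_lit 380) (nat_lit 2048763421) (nat_lit 76) (nat_lit 19195874208) (nat_lit 136) (nat_lit 5) (nat_lit 141) (nat_lit 5) (nat_lit 137) (nat_lit 5) (nat_lit 655)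 (nat_lit 564) (nat_lit 341)) (XT.lf (nat_lit 0) (nat_lit 12581101195) (nat_lit 456) (nat_lit 13514972867) (nat_lit 76) (nat_lit 1717833268) (nat_lit 131) (nat_lit 5) (nat_lit 137) (nat_lit 5) (nat_lit 132) (nat_lit 5) (nat_lit 656) (nat_lit 564) (nat_lit 340))))) (XT.nd (nat_lit 234) (nat_lit 1596) (nat_lit 0) (XT.nd (nat_lit 78) (nat_lit 0) (nat_lit 0) (XT.lf (nat_lit 0) (nat_lit 2033665327) (nat_lit 0) (nat_lit 2033665327) (nat_lit 1596) (nat_lit 1111484520) (nat_lit 513) (nat_lit 5) (nat_lit 513) (nat_lit 3) (nat_lit 534) (nat_lit 3) (nat_lit 565) (nat_lit 565) (nat_lit 430)) (XT.nd (nat_lit 78) (nat_lit 0) (nat_lit 0) (XT.lf (nat_lit 0) (nat_lit 8867902226) (nat_lit 1596) (nat_lit 1209018149) (nat_lit 1672) (nat_lit 371140397) (nat_lit 513) (nat_lit 5) (nat_lit 534) (nat_lit 3) (nat_lit 535) (nat_lit 5) (nat_lit 566) (nat_lit 565) (nat_lit 429)) (XT.lf (nat_lit 76) (nat_lit 3990370965) (nat_lit 0) (nat_lit 5661301020) (nat_lit 1672) (nat_lit 887913367) (nat_lit 514)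 (nat_lit 5) (nat_lit 513) (nat_lit 5) (nat_lit 535) (nat_lit 5) (nat_lit 567) (nat_lit 565) (nat_lit 428)))) (XT.nd (nat_lit 156) (nat_lit 0) (nat_lit 0) (XT.nd (nat_lit 78) (nat_lit 1596) (nat_lit 0) (XT.lf (nat_lit 76) (nat_lit 9301278553) (nat_lit 0) (nat_lit 1141247095) (nat_lit 1672) (nat_lit 190589385) (nat_lit 514) (nat_lit 5) (nat_lit 513) (nat_lit 5) (nat_lit 535) (nat_lit 5) (nat_lit 568) (nat_lit 565) (nat_lit 427)) (XT.lf (nat_lit 0) (nat_lit 546301760) (nat_lit 1672) (nat_lit 6720563434) (nat_lit 1748) (nat_lit 3460936181) (nat_lit 492) (nat_lit 5) (nat_lit 514) (nat_lit 5) (nat_lit 515) (nat_lit 5) (nat_lit 569) (nat_lit 565) (nat_lit 426))) (XT.nd (nat_lit 78) (nat_lit 0) (nat_lit 76) (XT.lf (nat_lit 0) (nat_lit 1295761057) (nat_lit 1672) (nat_lit 1371157077) (nat_lit 1748) (nat_lit 8157433083) (nat_lit 492) (nat_lit 5) (nat_lit 514) (nat_lit 5) (nat_lit 515) (nat_lit 5) (nat_lit 570) (nat_lit 565) (nat_lit 425)) (XT.lf (nat_lit 0) (nat_lit 2084538934)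 (nat_lit 1672) (nat_lit 6805618700) (nat_lit 1748) (nat_lit 2032190401) (nat_lit 493) (nat_lit 5) (nat_lit 515) (nat_lit 5) (nat_lit 516) (nat_lit 5) (nat_lit 571) (nat_lit 565) (nat_lit 424))))))))
noncomputable def xc183 : XT := (XT.nd (nat_lit 1950) (nat_lit 10716) (nat_lit 0) (XT.nd (nat_lit 936) (nat_lit 5092) (nat_lit 0) (XT.nd (nat_lit 468) (nat_lit 1444) (nat_lit 0) (XT.nd (nat_lit 234) (nat_lit 0) (nat_lit 76) (XT.nd (nat_lit 78) (nat_lit 0) (nat_lit 76) (XT.lf (nat_lit 0) (nat_lit 2900454453) (nat_lit 1672) (nat_lit 1316223165) (nat_lit 1748) (nat_lit 6805402445) (nat_lit 493) (nat_lit 5) (nat_lit 515) (nat_lit 5) (nat_lit 516) (nat_lit 5) (nat_lit 572) (nat_lit 565) (nat_lit 423)) (XT.nd (nat_lit 78) (nat_lit 0) (nat_lit 0) (XT.lf (nat_lit 0) (nat_lit 3749347340) (nat_lit 1672) (nat_lit 6796750143) (nat_lit 1748) (nat_lit 577378532) (nat_lit 494) (nat_lit 5) (nat_lit 516) (nat_lit 5) (nat_lit 517) (nat_lit 5) (nat_lit 573) (nat_lit 565) (nat_lit 422)) (XT.lf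 (nat_lit 0) (nat_lit 4637056061) (nat_lit 1672) (nat_lit 1163768548) (nat_lit 1748) (nat_lit 5425640937) (nat_lit 494) (nat_lit 5) (nat_lit 516) (nat_lit 5) (nat_lit 517) (nat_lit 5) (nat_lit 574) (nat_lit 565) (nat_lit 421)))) (XT.nd (nat_lit 78) (nat_lit 0) (nat_lit 76) (XT.lf (nat_lit 76) (nat_lit 4633387999) (nat_lit 0) (nat_lit 924529586) (nat_lit 1748) (nat_lit 5773291680) (nat_lit 495) (nat_lit 5) (nat_lit 494) (nat_lit 5) (nat_lit 517) (nat_lit 5) (nat_lit 575) (nat_lit 565) (nat_lit 420)) (XT.nd (nat_lit 78) (nat_lit 0) (nat_lit 0) (XT.lf (nat_lit 0) (nat_lit 6516926280) (nat_lit 1672) (nat_lit 911488358) (nat_lit 1748) (nat_lit 4009240946) (nat_lit 495) (nat_lit 5) (nat_lit 517) (nat_lit 5) (nat_lit 518) (nat_lit 5) (nat_lit 576) (nat_lit 565) (nat_lit 419)) (XT.lf (nat_lit 76) (nat_lit 5041234653) (nat_lit 0) (nat_lit 2478595065) (nat_lit 1748) (nat_lit 4025909096) (nat_lit 496) (nat_lit 5) (nat_lit 495) (nat_lit 5) (nat_lit 518) (nat_lit 5) (nat_lit 577) (nat_lit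 565) (nat_lit 418))))) (XT.nd (nat_lit 234) (nat_lit 1672) (nat_lit 0) (XT.nd (nat_lit 78) (nat_lit 0) (nat_lit 0) (XT.lf (nat_lit 0) (nat_lit 8551743965) (nat_lit 1672) (nat_lit 556801919) (nat_lit 1748) (nat_lit 2547261006) (nat_lit 496) (nat_lit 5) (nat_lit 518) (nat_lit 5) (nat_lit 519) (nat_lit 5) (nat_lit 578) (nat_lit 565) (nat_lit 417)) (XT.nd (nat_lit 78) (nat_lit 0) (nat_lit 76) (XT.lf (nat_lit 76) (nat_lit 5556927739) (nat_lit 0) (nat_lit 4086243031) (nat_lit 1748) (nat_lit 2124130260) (nat_lit 497) (nat_lit 5) (nat_lit 496) (nat_lit 5) (nat_lit 519) (nat_lit 5) (nat_lit 579) (nat_lit 565) (nat_lit 416)) (XT.lf (nat_lit 0) (nat_lit 10753530429) (nat_lit 1672) (nat_lit 96852490) (nat_lit 1748) (nat_lit 1030702195) (nat_lit 497) (nat_lit 5) (nat_lit 519) (nat_lit 5) (nat_lit 520) (nat_lit 5) (nat_lit 580) (nat_lit 565) (nat_lit 415)))) (XT.nd (nat_lit 78) (nat_lit 1748) (nat_lit 0) (XT.lf (nat_lit 76) (nat_lit 6183537164) (nat_lit 0) (nat_lit 5756644889) (nat_lit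 1748) (nat_lit 55883236) (nat_lit 498) (nat_lit 5) (nat_lit 497) (nat_lit 5) (nat_lit 520) (nat_lit 5) (nat_lit 581) (nat_lit 565) (nat_lit 414)) (XT.nd (nat_lit 78) (nat_lit 0) (nat_lit 76) (XT.lf (nat_lit 76) (nat_lit 467354764) (nat_lit 0) (nat_lit 546936883) (nat_lit 1824) (nat_lit 11099107290) (nat_lit 475) (nat_lit 5) (nat_lit 474) (nat_lit 5) (nat_lit 498) (nat_lit 5) (nat_lit 582) (nat_lit 565) (nat_lit 413)) (XT.lf (nat_lit 0) (nat_lit 2162536166) (nat_lit 1748) (nat_lit 5322020860) (nat_lit 1824) (nat_lit 4747368540) (nat_lit 475) (nat_lit 5) (nat_lit 498) (nat_lit 5) (nat_lit 499) (nat_lit 5) (nat_lit 583) (nat_lit 565) (nat_lit 412)))))) (XT.nd (nat_lit 468) (nat_lit 5168) (nat_lit 0) (XT.nd (nat_lit 234) (nat_lit 0) (nat_lit 152) (XT.nd (nat_lit 78) (nat_lit 0) (nat_lit 76) (XT.lf (nat_lit 76) (nat_lit 1130105233) (nat_lit 0) (nat_lit 2202050791) (nat_lit 1824) (nat_lit 9020700438) (nat_lit 476) (nat_lit 5) (nat_lit 475) (nat_lit 5) (nat_lit 499) (nat_lit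 5) (nat_lit 584) (nat_lit 565) (nat_lit 411)) (XT.nd (nat_lit 78) (nat_lit 0) (nat_lit 0) (XT.lf (nat_lit 0) (nat_lit 4569458420) (nat_lit 1748) (nat_lit 4722781113) (nat_lit 1824) (nat_lit 3183082548) (nat_lit 476) (nat_lit 5) (nat_lit 499) (nat_lit 5) (nat_lit 500) (nat_lit 5) (nat_lit 585) (nat_lit 565) (nat_lit 410)) (XT.lf (nat_lit 76) (nat_lit 1908039546) (nat_lit 0) (nat_lit 3938334530) (nat_lit 1824) (nat_lit 6753567459) (nat_lit 477) (nat_lit 5) (nat_lit 476) (nat_lit 5) (nat_lit 500) (nat_lit 5) (nat_lit 586) (nat_lit 565) (nat_lit 409)))) (XT.nd (nat_lit 78) (nat_lit 0) (nat_lit 0) (XT.lf (nat_lit 0) (nat_lit 7178703234) (nat_lit 1748) (nat_lit 4010803232) (nat_lit 1824) (nat_lit 1536951242) (nat_lit 477) (nat_lit 5) (nat_lit 500) (nat_lit 5) (nat_lit 501) (nat_lit 5) (nat_lit 587) (nat_lit 565) (nat_lit 408)) (XT.nd (nat_lit 78) (nat_lit 0) (nat_lit 0) (XT.lf (nat_lit 76) (nat_lit 2805033221) (nat_lit 0) (nat_lit 5765260078) (nat_lit 1824) (nat_lit 4284560416)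 (nat_lit 478) (nat_lit 5) (nat_lit 477) (nat_lit 5) (nat_lit 501) (nat_lit 5) (nat_lit 588) (nat_lit 565) (nat_lit 407)) (XT.lf (nat_lit 76) (nat_lit 9802025887) (nat_lit 0) (nat_lit 203091528) (nat_lit 1824) (nat_lit 2980393941) (nat_lit 478) (nat_lit 5) (nat_lit 477) (nat_lit 5) (nat_lit 501) (nat_lit 5) (nat_lit 589) (nat_lit 565) (nat_lit 406))))) (XT.nd (nat_lit 234) (nat_lit 1900) (nat_lit 0) (XT.nd (nat_lit 78) (nat_lit 1748) (nat_lit 0) (XT.lf (nat_lit 0) (nat_lit 3825246830) (nat_lit 1748) (nat_lit 7692470187) (nat_lit 1824) (nat_lit 1600085282) (nat_lit 455) (nat_lit 5) (nat_lit 478) (nat_lit 5) (nat_lit 479) (nat_lit 5) (nat_lit 590) (nat_lit 565) (nat_lit 405)) (XT.nd (nat_lit 78) (nat_lit 1748) (nat_lit 0) (XT.lf (nat_lit 0) (nat_lit 11006425667) (nat_lit 1748) (nat_lit 2065727208) (nat_lit 1824) (nat_lit 180356192) (nat_lit 455) (nat_lit 5) (nat_lit 478) (nat_lit 5) (nat_lit 479) (nat_lit 5) (nat_lit 591) (nat_lit 565) (nat_lit 404)) (XT.lf (nat_lit 0) (nat_lit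 1296691885) (nat_lit 1748) (nat_lit 8424408333) (nat_lit 76) (nat_lit 3667735728) (nat_lit 432) (nat_lit 5) (nat_lit 455) (nat_lit 5) (nat_lit 433) (nat_lit 5) (nat_lit 592) (nat_lit 565) (nat_lit 403)))) (XT.nd (nat_lit 156) (nat_lit 912) (nat_lit 0) (XT.nd (nat_lit 78) (nat_lit 988) (nat_lit 0) (XT.lf (nat_lit 0) (nat_lit 2818913211) (nat_lit 1748) (nat_lit 1202611041) (nat_lit 76) (nat_lit 9505981917) (nat_lit 432) (nat_lit 5) (nat_lit 455) (nat_lit 5) (nat_lit 433) (nat_lit 5) (nat_lit 593) (nat_lit 565) (nat_lit 402)) (XT.lf (nat_lit 0) (nat_lit 4413381962) (nat_lit 1064) (nat_lit 7444310938) (nat_lit 76) (nat_lit 1810422402) (nat_lit 419) (nat_lit 5) (nat_lit 433) (nat_lit 5) (nat_lit 420) (nat_lit 5) (nat_lit 594) (nat_lit 565) (nat_lit 401))) (XT.nd (nat_lit 78) (nat_lit 912) (nat_lit 0) (XT.lf (nat_lit 0) (nat_lit 6064054311) (nat_lit 1064) (nat_lit 32621242) (nat_lit 76) (nat_lit 7714376312) (nat_lit 419) (nat_lit 5) (nat_lit 433) (nat_lit 5) (nat_lit 420) (nat_lit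 5) (nat_lit 595) (nat_lit 565) (nat_lit 400)) (XT.lf (nat_lit 0) (nat_lit 7617789594) (nat_lit 912) (nat_lit 169173015) (nat_lit 988) (nat_lit 6169101604) (nat_lit 407) (nat_lit 5) (nat_lit 419) (nat_lit 5) (nat_lit 420) (nat_lit 5) (nat_lit 596) (nat_lit 565) (nat_lit 399))))))) (XT.nd (nat_lit 936) (nat_lit 4864) (nat_lit 0) (XT.nd (nat_lit 468) (nat_lit 3192) (nat_lit 0) (XT.nd (nat_lit 234) (nat_lit 912) (nat_lit 0) (XT.nd (nat_lit 78) (nat_lit 836) (nat_lit 0) (XT.lf (nat_lit 0) (nat_lit 1286829799) (nat_lit 912) (nat_lit 8294138695) (nat_lit 988) (nat_lit 4522276998) (nat_lit 395) (nat_lit 5) (nat_lit 407) (nat_lit 5) (nat_lit 408) (nat_lit 5) (nat_lit 597) (nat_lit 565) (nat_lit 398)) (XT.nd (nat_lit 78) (nat_lit 836) (nat_lit 0) (XT.lf (nat_lit 0) (nat_lit 9139713429) (nat_lit 912) (nat_lit 2304830902) (nat_lit 988) (nat_lit 2808153715) (nat_lit 395) (nat_lit 5) (nat_lit 407) (nat_lit 5) (nat_lit 408) (nat_lit 5) (nat_lit 598) (nat_lit 565) (nat_lit 397)) (XT.lf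 (nat_lit 0) (nat_lit 2746315942) (nat_lit 836) (nat_lit 10631848237) (nat_lit 912) (nat_lit 1026321437) (nat_lit 384) (nat_lit 5) (nat_lit 395) (nat_lit 5) (nat_lit 396) (nat_lit 5) (nat_lit 599) (nat_lit 565) (nat_lit 396)))) (XT.nd (nat_lit 78) (nat_lit 836) (nat_lit 0) (XT.lf (nat_lit 0) (nat_lit 820879873) (nat_lit 912) (nat_lit 3756725346) (nat_lit 76) (nat_lit 9980800180) (nat_lit 383) (nat_lit 5) (nat_lit 395) (nat_lit 5) (nat_lit 384) (nat_lit 5) (nat_lit 600) (nat_lit 565) (nat_lit 395)) (XT.nd (nat_lit 78) (nat_lit 0) (nat_lit 0) (XT.lf (nat_lit 0) (nat_lit 2720599233) (nat_lit 912) (nat_lit 10381981263) (nat_lit 76) (nat_lit 1612102407) (nat_lit 372) (nat_lit 5) (nat_lit 384) (nat_lit 5) (nat_lit 373) (nat_lit 5) (nat_lit 601) (nat_lit 565) (nat_lit 394)) (XT.lf (nat_lit 0) (nat_lit 4704627474) (nat_lit 912) (nat_lit 2278748105) (nat_lit 76) (nat_lit 7889785397) (nat_lit 372) (nat_lit 5) (nat_lit 384) (nat_lit 5) (nat_lit 373) (nat_lit 5) (nat_lit 602) (nat_lit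 565) (nat_lit 393))))) (XT.nd (nat_lit 234) (nat_lit 1596) (nat_lit 0) (XT.nd (nat_lit 78) (nat_lit 836) (nat_lit 0) (XT.lf (nat_lit 0) (nat_lit 6056645781) (nat_lit 760) (nat_lit 701820803) (nat_lit 836) (nat_lit 8275740703) (nat_lit 362) (nat_lit 5) (nat_lit 372) (nat_lit 5) (nat_lit 373) (nat_lit 5) (nat_lit 603) (nat_lit 565) (nat_lit 392)) (XT.nd (nat_lit 78) (nat_lit 836) (nat_lit 0) (XT.lf (nat_lit 0) (nat_lit 8896743617) (nat_lit 836) (nat_lit 655134306) (nat_lit 76) (nat_lit 5645730636) (nat_lit 362) (nat_lit 5) (nat_lit 373) (nat_lit 5) (nat_lit 363) (nat_lit 5) (nat_lit 604) (nat_lit 565) (nat_lit 391)) (XT.lf (nat_lit 0) (nat_lit 7923742467) (nat_lit 836) (nat_lit 3201240929) (nat_lit 912) (nat_lit 4238351749) (nat_lit 351) (nat_lit 5) (nat_lit 362) (nat_lit 5) (nat_lit 363) (nat_lit 5) (nat_lit 605) (nat_lit 565) (nat_lit 390)))) (XT.nd (nat_lit 78) (nat_lit 836) (nat_lit 0) (XT.lf (nat_lit 0) (nat_lit 1134987265) (nat_lit 760) (nat_lit 12287082875) (nat_lit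 836) (nat_lit 2109821690) (nat_lit 341) (nat_lit 5) (nat_lit 351) (nat_lit 5) (nat_lit 352) (nat_lit 5) (nat_lit 606) (nat_lit 565) (nat_lit 389)) (XT.nd (nat_lit 78) (nat_lit 760) (nat_lit 0) (XT.lf (nat_lit 0) (nat_lit 123197915) (nat_lit 836) (nat_lit 5752286462) (nat_lit 76) (nat_lit 9827074022) (nat_lit 340) (nat_lit 5) (nat_lit 351) (nat_lit 5) (nat_lit 341) (nat_lit 5) (nat_lit 607) (nat_lit 565) (nat_lit 388)) (XT.lf (nat_lit 0) (nat_lit 2388640238) (nat_lit 836) (nat_lit 12798242537) (nat_lit 76) (nat_lit 689157489) (nat_lit 330) (nat_lit 5) (nat_lit 341) (nat_lit 5) (nat_lit 331) (nat_lit 5) (nat_lit 608) (nat_lit 565) (nat_lit 387)))))) (XT.nd (nat_lit 468) (nat_lit 2660) (nat_lit 0) (XT.nd (nat_lit 234) (nat_lit 1520) (nat_lit 0) (XT.nd (nat_lit 78) (nat_lit 684) (nat_lit 0) (XT.lf (nat_lit 0) (nat_lit 4768701110) (nat_lit 836) (nat_lit 3938288829) (nat_lit 76) (nat_lit 7344616750) (nat_lit 330) (nat_lit 5) (nat_lit 341) (nat_lit 5) (nat_lit 331) (nat_lit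 5) (nat_lit 609) (nat_lit 565) (nat_lit 386)) (XT.nd (nat_lit 78) (nat_lit 0) (nat_lit 0) (XT.lf (nat_lit 0) (nat_lit 5157326440) (nat_lit 684) (nat_lit 2064230077) (nat_lit 760) (nat_lit 9008625155) (nat_lit 321) (nat_lit 5) (nat_lit 330) (nat_lit 5) (nat_lit 331) (nat_lit 5) (nat_lit 610) (nat_lit 565) (nat_lit 385)) (XT.lf (nat_lit 0) (nat_lit 9772467374) (nat_lit 760) (nat_lit 1963600703) (nat_lit 76) (nat_lit 4675281183) (nat_lit 321) (nat_lit 5) (nat_lit 331) (nat_lit 5) (nat_lit 322) (nat_lit 5) (nat_lit 611) (nat_lit 565) (nat_lit 384)))) (XT.nd (nat_lit 78) (nat_lit 760) (nat_lit 0) (XT.lf (nat_lit 0) (nat_lit 7402155780) (nat_lit 760) (nat_lit 5025937335) (nat_lit 836) (nat_lit 4166974206) (nat_lit 311) (nat_lit 5) (nat_lit 321) (nat_lit 5) (nat_lit 322) (nat_lit 5) (nat_lit 612) (nat_lit 565) (nat_lit 383)) (XT.nd (nat_lit 78) (nat_lit 76) (nat_lit 0) (XT.lf (nat_lit 0) (nat_lit 180941792) (nat_lit 684) (nat_lit 14974192958) (nat_lit 760) (nat_lit 1626959956)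 (nat_lit 302) (nat_lit 5) (nat_lit 311) (nat_lit 5) (nat_lit 312) (nat_lit 5) (nat_lit 613) (nat_lit 565) (nat_lit 382)) (XT.lf (nat_lit 0) (nat_lit 1038697430) (nat_lit 760) (nat_lit 7153926826) (nat_lit 76) (nat_lit 8778364535) (nat_lit 301) (nat_lit 5) (nat_lit 311) (nat_lit 5) (nat_lit 302) (nat_lit 5) (nat_lit 614) (nat_lit 565) (nat_lit 381))))) (XT.nd (nat_lit 234) (nat_lit 1368) (nat_lit 0) (XT.nd (nat_lit 78) (nat_lit 608) (nat_lit 0) (XT.lf (nat_lit 0) (nat_lit 2495142847) (nat_lit 684) (nat_lit 1249217287) (nat_lit 760) (nat_lit 13418916969) (nat_lit 292) (nat_lit 5) (nat_lit 301) (nat_lit 5) (nat_lit 302) (nat_lit 5) (nat_lit 615) (nat_lit 565) (nat_lit 380)) (XT.nd (nat_lit 78) (nat_lit 608) (nat_lit 0) (XT.lf (nat_lit 0) (nat_lit 6582674136) (nat_lit 760) (nat_lit 4971610092) (nat_lit 76) (nat_lit 5803557146) (nat_lit 292) (nat_lit 5) (nat_lit 302) (nat_lit 5) (nat_lit 293) (nat_lit 5) (nat_lit 616) (nat_lit 565) (nat_lit 379)) (XT.lf (nat_lit 0) (nat_lit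 4966754300) (nat_lit 608) (nat_lit 4544012134) (nat_lit 684) (nat_lit 8044871189) (nat_lit 284) (nat_lit 5) (nat_lit 292) (nat_lit 5) (nat_lit 293) (nat_lit 5) (nat_lit 617) (nat_lit 565) (nat_lit 378)))) (XT.nd (nat_lit 156) (nat_lit 684) (nat_lit 0) (XT.nd (nat_lit 78) (nat_lit 684) (nat_lit 0) (XT.lf (nat_lit 0) (nat_lit 12540497980) (nat_lit 684) (nat_lit 2611626868) (nat_lit 76) (nat_lit 2604404318) (nat_lit 284) (nat_lit 5) (nat_lit 293) (nat_lit 5) (nat_lit 285) (nat_lit 5) (nat_lit 618) (nat_lit 565) (nat_lit 377)) (XT.lf (nat_lit 0) (nat_lit 7626240721) (nat_lit 684) (nat_lit 8076907940) (nat_lit 760) (nat_lit 2256844287) (nat_lit 275) (nat_lit 5) (nat_lit 284) (nat_lit 5) (nat_lit 285) (nat_lit 5) (nat_lit 619) (nat_lit 565) (nat_lit 376))) (XT.nd (nat_lit 78) (nat_lit 608) (nat_lit 0) (XT.lf (nat_lit 0) (nat_lit 761934461) (nat_lit 760) (nat_lit 76868522) (nat_lit 76) (nat_lit 17328417087) (nat_lit 274) (nat_lit 5) (nat_lit 284) (nat_lit 5) (nat_lit 275) (nat_lit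 5) (nat_lit 620) (nat_lit 565) (nat_lit 375)) (XT.lf (nat_lit 0) (nat_lit 3914990117) (nat_lit 684) (nat_lit 7920920251) (nat_lit 76) (nat_lit 6540301447) (nat_lit 266) (nat_lit 5) (nat_lit 275) (nat_lit 5) (nat_lit 267) (nat_lit 5) (nat_lit 621) (nat_lit 565) (nat_lit 374))))))))
noncomputable def xc184 : XT := (XT.nd (nat_lit 1950) (nat_lit 1976) (nat_lit 0) (XT.nd (nat_lit 936) (nat_lit 3876) (nat_lit 0) (XT.nd (nat_lit 468) (nat_lit 1672) (nat_lit 0) (XT.nd (nat_lit 234) (nat_lit 1216) (nat_lit 0) (XT.nd (nat_lit 78) (nat_lit 532) (nat_lit 0) (XT.lf (nat_lit 0) (nat_lit 2629898713) (nat_lit 608) (nat_lit 4517326059) (nat_lit 684) (nat_lit 11441837097) (nat_lit 258) (nat_lit 5) (nat_lit 266) (nat_lit 5) (nat_lit 267) (nat_lit 5) (nat_lit 622) (nat_lit 565) (nat_lit 373)) (XT.nd (nat_lit 78) (nat_lit 532) (nat_lit 0) (XT.lf (nat_lit 0) (nat_lit 10509785749) (nat_lit 684) (nat_lit 5334360156) (nat_lit 76) (nat_lit 2960710198) (nat_lit 258) (nat_lit 5) (nat_lit 267) (nat_lit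 5) (nat_lit 259) (nat_lit 5) (nat_lit 623) (nat_lit 565) (nat_lit 372)) (XT.lf (nat_lit 0) (nat_lit 5536946236) (nat_lit 532) (nat_lit 8461691919) (nat_lit 608) (nat_lit 5025148063) (nat_lit 251) (nat_lit 5) (nat_lit 258) (nat_lit 5) (nat_lit 259) (nat_lit 5) (nat_lit 624) (nat_lit 565) (nat_lit 371)))) (XT.nd (nat_lit 78) (nat_lit 1216) (nat_lit 0) (XT.lf (nat_lit 0) (nat_lit 16689349967) (nat_lit 532) (nat_lit 896966371) (nat_lit 608) (nat_lit 1660198402) (nat_lit 251) (nat_lit 5) (nat_lit 258) (nat_lit 5) (nat_lit 259) (nat_lit 5) (nat_lit 625) (nat_lit 565) (nat_lit 370)) (XT.nd (nat_lit 78) (nat_lit 532) (nat_lit 0) (XT.lf (nat_lit 0) (nat_lit 1843249155) (nat_lit 684) (nat_lit 10832239138) (nat_lit 76) (nat_lit 6796091392) (nat_lit 242) (nat_lit 5) (nat_lit 251) (nat_lit 5) (nat_lit 243) (nat_lit 5) (nat_lit 626) (nat_lit 565) (nat_lit 369)) (XT.lf (nat_lit 0) (nat_lit 372856835) (nat_lit 532) (nat_lit 5040737179) (nat_lit 608) (nat_lit 14286952007) (nat_lit 235)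 (nat_lit 5) (nat_lit 242) (nat_lit 5) (nat_lit 243) (nat_lit 5) (nat_lit 627) (nat_lit 565) (nat_lit 368))))) (XT.nd (nat_lit 234) (nat_lit 1140) (nat_lit 0) (XT.nd (nat_lit 78) (nat_lit 532) (nat_lit 0) (XT.lf (nat_lit 0) (nat_lit 9139814191) (nat_lit 608) (nat_lit 8010746392) (nat_lit 76) (nat_lit 2781842452) (nat_lit 235) (nat_lit 5) (nat_lit 243) (nat_lit 5) (nat_lit 236) (nat_lit 5) (nat_lit 628) (nat_lit 565) (nat_lit 367)) (XT.nd (nat_lit 78) (nat_lit 0) (nat_lit 0) (XT.lf (nat_lit 0) (nat_lit 3537029668) (nat_lit 532) (nat_lit 9453467925) (nat_lit 608) (nat_lit 7177401530) (nat_lit 228) (nat_lit 5) (nat_lit 235) (nat_lit 5) (nat_lit 236) (nat_lit 5) (nat_lit 629) (nat_lit 565) (nat_lit 366)) (XT.lf (nat_lit 0) (nat_lit 15415893022) (nat_lit 532) (nat_lit 1549720431) (nat_lit 608) (nat_lit 3441543998) (nat_lit 228) (nat_lit 5) (nat_lit 235) (nat_lit 5) (nat_lit 236) (nat_lit 5) (nat_lit 630) (nat_lit 565) (nat_lit 365)))) (XT.nd (nat_lit 78) (nat_lit 532) (nat_lit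 0) (XT.lf (nat_lit 0) (nat_lit 445717777) (nat_lit 608) (nat_lit 13731290917) (nat_lit 76) (nat_lit 6472514458) (nat_lit 220) (nat_lit 5) (nat_lit 228) (nat_lit 5) (nat_lit 221) (nat_lit 5) (nat_lit 631) (nat_lit 565) (nat_lit 364)) (XT.nd (nat_lit 78) (nat_lit 532) (nat_lit 0) (XT.lf (nat_lit 0) (nat_lit 4402464169) (nat_lit 608) (nat_lit 1804195537) (nat_lit 76) (nat_lit 14688865712) (nat_lit 220) (nat_lit 5) (nat_lit 228) (nat_lit 5) (nat_lit 221) (nat_lit 5) (nat_lit 632) (nat_lit 565) (nat_lit 363)) (XT.lf (nat_lit 0) (nat_lit 8513302682) (nat_lit 608) (nat_lit 10667364717) (nat_lit 76) (nat_lit 1964281827) (nat_lit 213) (nat_lit 5) (nat_lit 221) (nat_lit 5) (nat_lit 214) (nat_lit 5) (nat_lit 633) (nat_lit 565) (nat_lit 362)))))) (XT.nd (nat_lit 468) (nat_lit 2356) (nat_lit 0) (XT.nd (nat_lit 234) (nat_lit 532) (nat_lit 0) (XT.nd (nat_lit 78) (nat_lit 532) (nat_lit 0) (XT.lf (nat_lit 0) (nat_lit 1601845328) (nat_lit 456) (nat_lit 11162176767) (nat_lit 532) (nat_lit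 8634186761) (nat_lit 207) (nat_lit 5) (nat_lit 213) (nat_lit 5) (nat_lit 214) (nat_lit 5) (nat_lit 634) (nat_lit 565) (nat_lit 361)) (XT.nd (nat_lit 78) (nat_lit 532) (nat_lit 0) (XT.lf (nat_lit 0) (nat_lit 14252776815) (nat_lit 456) (nat_lit 2912600152) (nat_lit 532) (nat_lit 4489844908) (nat_lit 207) (nat_lit 5) (nat_lit 213) (nat_lit 5) (nat_lit 214) (nat_lit 5) (nat_lit 635) (nat_lit 565) (nat_lit 360)) (XT.lf (nat_lit 0) (nat_lit 5264471253) (nat_lit 532) (nat_lit 16454330264) (nat_lit 608) (nat_lit 197293390) (nat_lit 200) (nat_lit 5) (nat_lit 207) (nat_lit 5) (nat_lit 208) (nat_lit 5) (nat_lit 636) (nat_lit 565) (nat_lit 359)))) (XT.nd (nat_lit 78) (nat_lit 456) (nat_lit 0) (XT.lf (nat_lit 0) (nat_lit 4189727907) (nat_lit 608) (nat_lit 3951114949) (nat_lit 76) (nat_lit 14039531098) (nat_lit 199) (nat_lit 5) (nat_lit 207) (nat_lit 5) (nat_lit 200) (nat_lit 5) (nat_lit 637) (nat_lit 565) (nat_lit 358)) (XT.nd (nat_lit 78) (nat_lit 0) (nat_lit 0) (XT.lf (nat_lit 0)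 (nat_lit 8717884555) (nat_lit 532) (nat_lit 13337871980) (nat_lit 76) (nat_lit 393035801) (nat_lit 193) (nat_lit 5) (nat_lit 200) (nat_lit 5) (nat_lit 194) (nat_lit 5) (nat_lit 638) (nat_lit 565) (nat_lit 357)) (XT.lf (nat_lit 0) (nat_lit 13411528977) (nat_lit 532) (nat_lit 296493448) (nat_lit 76) (nat_lit 9013058728) (nat_lit 193) (nat_lit 5) (nat_lit 200) (nat_lit 5) (nat_lit 194) (nat_lit 5) (nat_lit 639) (nat_lit 565) (nat_lit 356))))) (XT.nd (nat_lit 234) (nat_lit 1368) (nat_lit 0) (XT.nd (nat_lit 78) (nat_lit 532) (nat_lit 0) (XT.lf (nat_lit 0) (nat_lit 13170494134) (nat_lit 456) (nat_lit 5108497191) (nat_lit 532) (nat_lit 4718226066) (nat_lit 187) (nat_lit 5) (nat_lit 193) (nat_lit 5) (nat_lit 194) (nat_lit 5) (nat_lit 640) (nat_lit 565) (nat_lit 355)) (XT.nd (nat_lit 78) (nat_lit 0) (nat_lit 0) (XT.lf (nat_lit 0) (nat_lit 9624021) (nat_lit 532) (nat_lit 19630003093) (nat_lit 76) (nat_lit 3638369572) (nat_lit 180) (nat_lit 5) (nat_lit 187) (nat_lit 5) (nat_lit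 181) (nat_lit 5) (nat_lit 641) (nat_lit 565) (nat_lit 354)) (XT.lf (nat_lit 0) (nat_lit 4863619231) (nat_lit 532) (nat_lit 6111194315) (nat_lit 76) (nat_lit 12587059484) (nat_lit 180) (nat_lit 5) (nat_lit 187) (nat_lit 5) (nat_lit 181) (nat_lit 5) (nat_lit 642) (nat_lit 565) (nat_lit 353)))) (XT.nd (nat_lit 156) (nat_lit 912) (nat_lit 0) (XT.nd (nat_lit 78) (nat_lit 0) (nat_lit 0) (XT.lf (nat_lit 0) (nat_lit 7772063969) (nat_lit 456) (nat_lit 2087695509) (nat_lit 532) (nat_lit 13990766627) (nat_lit 174) (nat_lit 5) (nat_lit 180) (nat_lit 5) (nat_lit 181) (nat_lit 5) (nat_lit 643) (nat_lit 565) (nat_lit 352)) (XT.lf (nat_lit 0) (nat_lit 15037046678) (nat_lit 532) (nat_lit 2181776045) (nat_lit 76) (nat_lit 6924505530) (nat_lit 174) (nat_lit 5) (nat_lit 181) (nat_lit 5) (nat_lit 175) (nat_lit 5) (nat_lit 644) (nat_lit 565) (nat_lit 351))) (XT.nd (nat_lit 78) (nat_lit 532) (nat_lit 0) (XT.lf (nat_lit 0) (nat_lit 12130366483) (nat_lit 380) (nat_lit 8274845213) (nat_lit 456)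 (nat_lit 4035028593) (nat_lit 169) (nat_lit 5) (nat_lit 174) (nat_lit 5) (nat_lit 175) (nat_lit 5) (nat_lit 645) (nat_lit 565) (nat_lit 350)) (XT.lf (nat_lit 0) (nat_lit 1151115687) (nat_lit 532) (nat_lit 22721347611) (nat_lit 76) (nat_lit 869912274) (nat_lit 162) (nat_lit 5) (nat_lit 169) (nat_lit 5) (nat_lit 163) (nat_lit 5) (nat_lit 646) (nat_lit 565) (nat_lit 349))))))) (XT.nd (nat_lit 75036) (nat_lit 0) (nat_lit 26980) (XT.nd (nat_lit 468) (nat_lit 760) (nat_lit 0) (XT.nd (nat_lit 234) (nat_lit 836) (nat_lit 0) (XT.nd (nat_lit 78) (nat_lit 380) (nat_lit 0) (XT.lf (nat_lit 0) (nat_lit 6519759576) (nat_lit 532) (nat_lit 8333358597) (nat_lit 76) (nat_lit 10194246299) (nat_lit 162) (nat_lit 5) (nat_lit 169) (nat_lit 5) (nat_lit 163) (nat_lit 5) (nat_lit 647) (nat_lit 565) (nat_lit 348)) (XT.nd (nat_lit 78) (nat_lit 0) (nat_lit 0) (XT.lf (nat_lit 0) (nat_lit 6418929440) (nat_lit 380) (nat_lit 5613426929) (nat_lit 456) (nat_lit 13325365630) (nat_lit 157) (nat_lit 5) (nat_lit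 162) (nat_lit 5) (nat_lit 163) (nat_lit 5) (nat_lit 648) (nat_lit 565) (nat_lit 347)) (XT.lf (nat_lit 0) (nat_lit 17731178700) (nat_lit 456) (nat_lit 4126739055) (nat_lit 76) (nat_lit 3814849890) (nat_lit 157) (nat_lit 5) (nat_lit 163) (nat_lit 5) (nat_lit 158) (nat_lit 5) (nat_lit 649) (nat_lit 565) (nat_lit 346)))) (XT.nd (nat_lit 78) (nat_lit 456) (nat_lit 0) (XT.lf (nat_lit 0) (nat_lit 11082195439) (nat_lit 380) (nat_lit 12565947388) (nat_lit 456) (nat_lit 2343888501) (nat_lit 152) (nat_lit 5) (nat_lit 157) (nat_lit 5) (nat_lit 158) (nat_lit 5) (nat_lit 650) (nat_lit 565) (nat_lit 345)) (XT.nd (nat_lit 78) (nat_lit 0) (nat_lit 0) (XT.lf (nat_lit 0) (nat_lit 308585529) (nat_lit 380) (nat_lit 3037970477) (nat_lit 456) (nat_lit 22970188985) (nat_lit 146) (nat_lit 5) (nat_lit 151) (nat_lit 5) (nat_lit 152) (nat_lit 5) (nat_lit 651) (nat_lit 565) (nat_lit 344)) (XT.lf (nat_lit 0) (nat_lit 9258628791) (nat_lit 456) (nat_lit 10679607977) (nat_lit 76) (nat_lit 6706622623)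 (nat_lit 146) (nat_lit 5) (nat_lit 152) (nat_lit 5) (nat_lit 147) (nat_lit 5) (nat_lit 652) (nat_lit 565) (nat_lit 343))))) (XT.nd (nat_lit 234) (nat_lit 0) (nat_lit 0) (XT.nd (nat_lit 78) (nat_lit 380) (nat_lit 0) (XT.lf (nat_lit 0) (nat_lit 4993455669) (nat_lit 380) (nat_lit 10343208181) (nat_lit 456) (nat_lit 11641918211) (nat_lit 141) (nat_lit 5) (nat_lit 146) (nat_lit 5) (nat_lit 147) (nat_lit 5) (nat_lit 653) (nat_lit 565) (nat_lit 342)) (XT.nd (nat_lit 78) (nat_lit 380) (nat_lit 0) (XT.lf (nat_lit 0) (nat_lit 21117364439) (nat_lit 380) (nat_lit 485788513) (nat_lit 456) (nat_lit 5714488756) (nat_lit 141) (nat_lit 5) (nat_lit 146) (nat_lit 5) (nat_lit 147) (nat_lit 5) (nat_lit 654) (nat_lit 565) (nat_lit 341)) (XT.lf (nat_lit 0) (nat_lit 450057918) (nat_lit 380) (nat_lit 17702526854) (nat_lit 76) (nat_lit 9508396785) (nat_lit 136) (nat_lit 5) (nat_lit 141) (nat_lit 5) (nat_lit 137) (nat_lit 5) (nat_lit 655) (nat_lit 565) (nat_lit 340)))) (XT.nd (nat_lit 74178) (nat_lit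 0) (nat_lit 28652) (XT.lf (nat_lit 0) (nat_lit 6701868107) (nat_lit 380) (nat_lit 1534613482) (nat_lit 76) (nat_lit 19773141733) (nat_lit 136) (nat_lit 5) (nat_lit 141) (nat_lit 5) (nat_lit 137) (nat_lit 5) (nat_lit 656) (nat_lit 565) (nat_lit 339)) (XT.nd (nat_lit 78) (nat_lit 0) (nat_lit 0) (XT.lf (nat_lit 0) (nat_lit 2396956590) (nat_lit 0) (nat_lit 2396956590) (nat_lit 1596) (nat_lit 475466285) (nat_lit 513) (nat_lit 5) (nat_lit 513) (nat_lit 3) (nat_lit 534) (nat_lit 3) (nat_lit 566) (nat_lit 566) (nat_lit 428)) (XT.lf (nat_lit 0) (nat_lit 10058948061) (nat_lit 0) (nat_lit 248990116) (nat_lit 1596) (nat_lit 323619869) (nat_lit 513) (nat_lit 5) (nat_lit 513) (nat_lit 3) (nat_lit 534) (nat_lit 3) (nat_lit 567) (nat_lit 566) (nat_lit 427)))))) (XT.nd (nat_lit 468) (nat_lit 0) (nat_lit 228) (XT.nd (nat_lit 234) (nat_lit 0) (nat_lit 76) (XT.nd (nat_lit 78) (nat_lit 0) (nat_lit 0) (XT.lf (nat_lit 0) (nat_lit 355231690) (nat_lit 1672) (nat_lit 5999668830) (nat_lit 1748)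 (nat_lit 4370411425) (nat_lit 491) (nat_lit 5) (nat_lit 513) (nat_lit 5) (nat_lit 514) (nat_lit 5) (nat_lit 568) (nat_lit 566) (nat_lit 426)) (XT.nd (nat_lit 78) (nat_lit 0) (nat_lit 76) (XT.lf (nat_lit 0) (nat_lit 1032683020) (nat_lit 1672) (nat_lit 695789828) (nat_lit 1748) (nat_lit 9092640789) (nat_lit 491) (nat_lit 5) (nat_lit 513) (nat_lit 5) (nat_lit 514) (nat_lit 5) (nat_lit 569) (nat_lit 566) (nat_lit 425)) (XT.lf (nat_lit 0) (nat_lit 1758461869) (nat_lit 1672) (nat_lit 6170058627) (nat_lit 1748) (nat_lit 2989617864) (nat_lit 492) (nat_lit 5) (nat_lit 514) (nat_lit 5) (nat_lit 515) (nat_lit 5) (nat_lit 570) (nat_lit 566) (nat_lit 424)))) (XT.nd (nat_lit 78) (nat_lit 0) (nat_lit 76) (XT.lf (nat_lit 0) (nat_lit 2499356742) (nat_lit 1672) (nat_lit 727093870) (nat_lit 1748) (nat_lit 7790643470) (nat_lit 492) (nat_lit 5) (nat_lit 514) (nat_lit 5) (nat_lit 515) (nat_lit 5) (nat_lit 571) (nat_lit 566) (nat_lit 423)) (XT.nd (nat_lit 78) (nat_lit 0) (nat_lit 0) (XT.lf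 (nat_lit 0) (nat_lit 3281956033) (nat_lit 1672) (nat_lit 6248103767) (nat_lit 1748) (nat_lit 1587433856) (nat_lit 493) (nat_lit 5) (nat_lit 515) (nat_lit 5) (nat_lit 516) (nat_lit 5) (nat_lit 572) (nat_lit 566) (nat_lit 422)) (XT.lf (nat_lit 0) (nat_lit 4091528561) (nat_lit 1672) (nat_lit 662520856) (nat_lit 1748) (nat_lit 6465627796) (nat_lit 493) (nat_lit 5) (nat_lit 515) (nat_lit 5) (nat_lit 516) (nat_lit 5) (nat_lit 573) (nat_lit 566) (nat_lit 421))))) (XT.nd (nat_lit 234) (nat_lit 0) (nat_lit 76) (XT.nd (nat_lit 78) (nat_lit 0) (nat_lit 0) (XT.lf (nat_lit 0) (nat_lit 4936713780) (nat_lit 1672) (nat_lit 6231793289) (nat_lit 1748) (nat_lit 155011318) (nat_lit 494) (nat_lit 5) (nat_lit 516) (nat_lit 5) (nat_lit 517) (nat_lit 5) (nat_lit 574) (nat_lit 566) (nat_lit 420)) (XT.nd (nat_lit 78) (nat_lit 0) (nat_lit 0) (XT.lf (nat_lit 0) (nat_lit 5820365312) (nat_lit 1672) (nat_lit 499895039) (nat_lit 1748) (nat_lit 5108747104) (nat_lit 494) (nat_lit 5) (nat_lit 516) (nat_lit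 5) (nat_lit 517) (nat_lit 5) (nat_lit 575) (nat_lit 566) (nat_lit 419)) (XT.lf (nat_lit 76) (nat_lit 5408683923) (nat_lit 0) (nat_lit 1334008531) (nat_lit 1748) (nat_lit 4793496079) (nat_lit 495) (nat_lit 5) (nat_lit 494) (nat_lit 5) (nat_lit 517) (nat_lit 5) (nat_lit 576) (nat_lit 566) (nat_lit 418)))) (XT.nd (nat_lit 156) (nat_lit 0) (nat_lit 76) (XT.nd (nat_lit 78) (nat_lit 0) (nat_lit 0) (XT.lf (nat_lit 0) (nat_lit 7697341237) (nat_lit 1672) (nat_lit 236765540) (nat_lit 1748) (nat_lit 3711131186) (nat_lit 495) (nat_lit 5) (nat_lit 517) (nat_lit 5) (nat_lit 518) (nat_lit 5) (nat_lit 577) (nat_lit 566) (nat_lit 417)) (XT.lf (nat_lit 76) (nat_lit 5830453033) (nat_lit 0) (nat_lit 2873729486) (nat_lit 1748) (nat_lit 3051626062) (nat_lit 496) (nat_lit 5) (nat_lit 495) (nat_lit 5) (nat_lit 518) (nat_lit 5) (nat_lit 578) (nat_lit 566) (nat_lit 416))) (XT.nd (nat_lit 78) (nat_lit 0) (nat_lit 0) (XT.lf (nat_lit 76) (nat_lit 131315957) (nat_lit 0) (nat_lit 9603798403) (nat_lit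 1748) (nat_lit 2133399323) (nat_lit 497) (nat_lit 5) (nat_lit 496) (nat_lit 5) (nat_lit 519) (nat_lit 5) (nat_lit 579) (nat_lit 566) (nat_lit 415)) (XT.lf (nat_lit 76) (nat_lit 6361008953) (nat_lit 0) (nat_lit 4471174205) (nat_lit 1748) (nat_lit 1150381470) (nat_lit 497) (nat_lit 5) (nat_lit 496) (nat_lit 5) (nat_lit 519) (nat_lit 5) (nat_lit 580) (nat_lit 566) (nat_lit 414))))))))
noncomputable def xc185 : XT := (XT.nd (nat_lit 1950) (nat_lit 9348) (nat_lit 0) (XT.nd (nat_lit 936) (nat_lit 7828) (nat_lit 0) (XT.nd (nat_lit 468) (nat_lit 1520) (nat_lit 0) (XT.nd (nat_lit 234) (nat_lit 0) (nat_lit 76) (XT.nd (nat_lit 78) (nat_lit 1748) (nat_lit 0) (XT.lf (nat_lit 76) (nat_lit 610187391) (nat_lit 0) (nat_lit 11337062010) (nat_lit 1748) (nat_lit 151728130) (nat_lit 498) (nat_lit 5) (nat_lit 497) (nat_lit 5) (nat_lit 520) (nat_lit 5) (nat_lit 581) (nat_lit 566) (nat_lit 413)) (XT.nd (nat_lit 78) (nat_lit 0) (nat_lit 0) (XT.lf (nat_lit 0) (nat_lit 910352540) (nat_lit 1748)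 (nat_lit 5219050128) (nat_lit 1824) (nat_lit 6087108965) (nat_lit 474) (nat_lit 5) (nat_lit 497) (nat_lit 5) (nat_lit 498) (nat_lit 5) (nat_lit 582) (nat_lit 566) (nat_lit 412)) (XT.lf (nat_lit 76) (nat_lit 1181393500) (nat_lit 0) (nat_lit 805412113) (nat_lit 1824) (nat_lit 10349669438) (nat_lit 475) (nat_lit 5) (nat_lit 474) (nat_lit 5) (nat_lit 498) (nat_lit 5) (nat_lit 583) (nat_lit 566) (nat_lit 411)))) (XT.nd (nat_lit 78) (nat_lit 0) (nat_lit 0) (XT.lf (nat_lit 0) (nat_lit 3137768225) (nat_lit 1748) (nat_lit 4717195908) (nat_lit 1824) (nat_lit 4602815904) (nat_lit 475) (nat_lit 5) (nat_lit 498) (nat_lit 5) (nat_lit 499) (nat_lit 5) (nat_lit 584) (nat_lit 566) (nat_lit 410)) (XT.nd (nat_lit 78) (nat_lit 0) (nat_lit 76) (XT.lf (nat_lit 76) (nat_lit 1859293328) (nat_lit 0) (nat_lit 2457800633) (nat_lit 1824) (nat_lit 8264312152) (nat_lit 476) (nat_lit 5) (nat_lit 475) (nat_lit 5) (nat_lit 499) (nat_lit 5) (nat_lit 585) (nat_lit 566) (nat_lit 409)) (XT.lf (nat_lit 0)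 (nat_lit 5559789022) (nat_lit 1748) (nat_lit 4105013183) (nat_lit 1824) (nat_lit 3041908682) (nat_lit 476) (nat_lit 5) (nat_lit 499) (nat_lit 5) (nat_lit 500) (nat_lit 5) (nat_lit 586) (nat_lit 566) (nat_lit 408))))) (XT.nd (nat_lit 234) (nat_lit 1672) (nat_lit 0) (XT.nd (nat_lit 78) (nat_lit 0) (nat_lit 76) (XT.lf (nat_lit 76) (nat_lit 2653738207) (nat_lit 0) (nat_lit 4195472287) (nat_lit 1824) (nat_lit 5984875609) (nat_lit 477) (nat_lit 5) (nat_lit 476) (nat_lit 5) (nat_lit 500) (nat_lit 5) (nat_lit 587) (nat_lit 566) (nat_lit 407)) (XT.nd (nat_lit 78) (nat_lit 0) (nat_lit 0) (XT.lf (nat_lit 0) (nat_lit 8189680077) (nat_lit 1748) (nat_lit 3378715144) (nat_lit 1824) (nat_lit 1395110171) (nat_lit 477) (nat_lit 5) (nat_lit 500) (nat_lit 5) (nat_lit 501) (nat_lit 5) (nat_lit 588) (nat_lit 566) (nat_lit 406)) (XT.lf (nat_lit 76) (nat_lit 3568751827) (nat_lit 0) (nat_lit 6027936543) (nat_lit 1824) (nat_lit 3498031835) (nat_lit 478) (nat_lit 5) (nat_lit 477) (nat_lit 5) (nat_lit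 501) (nat_lit 5) (nat_lit 589) (nat_lit 566) (nat_lit 405)))) (XT.nd (nat_lit 78) (nat_lit 1748) (nat_lit 0) (XT.lf (nat_lit 76) (nat_lit 10691809485) (nat_lit 0) (nat_lit 351634990) (nat_lit 1824) (nat_lit 2184884380) (nat_lit 478) (nat_lit 5) (nat_lit 477) (nat_lit 5) (nat_lit 501) (nat_lit 5) (nat_lit 590) (nat_lit 566) (nat_lit 404)) (XT.nd (nat_lit 78) (nat_lit 76) (nat_lit 0) (XT.lf (nat_lit 0) (nat_lit 4608644239) (nat_lit 1748) (nat_lit 7964885989) (nat_lit 1824) (nat_lit 789993219) (nat_lit 455) (nat_lit 5) (nat_lit 478) (nat_lit 5) (nat_lit 479) (nat_lit 5) (nat_lit 591) (nat_lit 566) (nat_lit 403)) (XT.lf (nat_lit 0) (nat_lit 633203863) (nat_lit 1824) (nat_lit 1585830324) (nat_lit 76) (nat_lit 11282133022) (nat_lit 454) (nat_lit 5) (nat_lit 478) (nat_lit 5) (nat_lit 455) (nat_lit 5) (nat_lit 592) (nat_lit 566) (nat_lit 402)))))) (XT.nd (nat_lit 468) (nat_lit 3344) (nat_lit 0) (XT.nd (nat_lit 234) (nat_lit 1824) (nat_lit 0) (XT.nd (nat_lit 78) (nat_lit 988)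 (nat_lit 0) (XT.lf (nat_lit 0) (nat_lit 2125270203) (nat_lit 1748) (nat_lit 7876687711) (nat_lit 76) (nat_lit 3638483392) (nat_lit 432) (nat_lit 5) (nat_lit 455) (nat_lit 5) (nat_lit 433) (nat_lit 5) (nat_lit 593) (nat_lit 566) (nat_lit 401)) (XT.nd (nat_lit 78) (nat_lit 988) (nat_lit 0) (XT.lf (nat_lit 0) (nat_lit 3662197829) (nat_lit 1748) (nat_lit 524497783) (nat_lit 76) (nat_lit 9595506408) (nat_lit 432) (nat_lit 5) (nat_lit 455) (nat_lit 5) (nat_lit 433) (nat_lit 5) (nat_lit 594) (nat_lit 566) (nat_lit 400)) (XT.lf (nat_lit 0) (nat_lit 5277145936) (nat_lit 1064) (nat_lit 6879507790) (nat_lit 76) (nat_lit 1769200085) (nat_lit 419) (nat_lit 5) (nat_lit 433) (nat_lit 5) (nat_lit 420) (nat_lit 5) (nat_lit 595) (nat_lit 566) (nat_lit 399)))) (XT.nd (nat_lit 78) (nat_lit 912) (nat_lit 0) (XT.lf (nat_lit 0) (nat_lit 675278184) (nat_lit 912) (nat_lit 6274732091) (nat_lit 988) (nat_lit 7121857493) (nat_lit 407) (nat_lit 5) (nat_lit 419) (nat_lit 5) (nat_lit 420) (nat_lit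 5) (nat_lit 596) (nat_lit 566) (nat_lit 398)) (XT.nd (nat_lit 78) (nat_lit 912) (nat_lit 0) (XT.lf (nat_lit 0) (nat_lit 8465237583) (nat_lit 912) (nat_lit 227360144) (nat_lit 988) (nat_lit 5527480405) (nat_lit 407) (nat_lit 5) (nat_lit 419) (nat_lit 5) (nat_lit 420) (nat_lit 5) (nat_lit 597) (nat_lit 566) (nat_lit 397)) (XT.lf (nat_lit 0) (nat_lit 2018447072) (nat_lit 912) (nat_lit 8493567019) (nat_lit 988) (nat_lit 3858400486) (nat_lit 395) (nat_lit 5) (nat_lit 407) (nat_lit 5) (nat_lit 408) (nat_lit 5) (nat_lit 598) (nat_lit 566) (nat_lit 396))))) (XT.nd (nat_lit 234) (nat_lit 2432) (nat_lit 0) (XT.nd (nat_lit 78) (nat_lit 912) (nat_lit 0) (XT.lf (nat_lit 0) (nat_lit 10014547577) (nat_lit 912) (nat_lit 2383815314) (nat_lit 988) (nat_lit 2124785365) (nat_lit 395) (nat_lit 5) (nat_lit 407) (nat_lit 5) (nat_lit 408) (nat_lit 5) (nat_lit 599) (nat_lit 566) (nat_lit 395)) (XT.nd (nat_lit 78) (nat_lit 76) (nat_lit 0) (XT.lf (nat_lit 0) (nat_lit 3503449045) (nat_lit 836) (nat_lit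 10857341674) (nat_lit 912) (nat_lit 317380211) (nat_lit 384) (nat_lit 5) (nat_lit 395) (nat_lit 5) (nat_lit 396) (nat_lit 5) (nat_lit 600) (nat_lit 566) (nat_lit 394)) (XT.lf (nat_lit 0) (nat_lit 1543082328) (nat_lit 912) (nat_lit 3133943192) (nat_lit 76) (nat_lit 10158333161) (nat_lit 383) (nat_lit 5) (nat_lit 395) (nat_lit 5) (nat_lit 384) (nat_lit 5) (nat_lit 601) (nat_lit 566) (nat_lit 393)))) (XT.nd (nat_lit 156) (nat_lit 1596) (nat_lit 0) (XT.nd (nat_lit 78) (nat_lit 0) (nat_lit 0) (XT.lf (nat_lit 0) (nat_lit 3471438410) (nat_lit 912) (nat_lit 9882249376) (nat_lit 76) (nat_lit 1641263045) (nat_lit 372) (nat_lit 5) (nat_lit 384) (nat_lit 5) (nat_lit 373) (nat_lit 5) (nat_lit 602) (nat_lit 566) (nat_lit 392)) (XT.lf (nat_lit 0) (nat_lit 5481491782) (nat_lit 912) (nat_lit 1630821584) (nat_lit 76) (nat_lit 8044560114) (nat_lit 372) (nat_lit 5) (nat_lit 384) (nat_lit 5) (nat_lit 373) (nat_lit 5) (nat_lit 603) (nat_lit 566) (nat_lit 391))) (XT.nd (nat_lit 78) (nat_lit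 836) (nat_lit 0) (XT.lf (nat_lit 0) (nat_lit 6866717670) (nat_lit 760) (nat_lit 700775371) (nat_lit 836) (nat_lit 7753827837) (nat_lit 362) (nat_lit 5) (nat_lit 372) (nat_lit 5) (nat_lit 373) (nat_lit 5) (nat_lit 604) (nat_lit 566) (nat_lit 390)) (XT.lf (nat_lit 0) (nat_lit 20672966) (nat_lit 836) (nat_lit 9714879987) (nat_lit 912) (nat_lit 5752698707) (nat_lit 351) (nat_lit 5) (nat_lit 362) (nat_lit 5) (nat_lit 363) (nat_lit 5) (nat_lit 605) (nat_lit 566) (nat_lit 389))))))) (XT.nd (nat_lit 936) (nat_lit 4864) (nat_lit 0) (XT.nd (nat_lit 468) (nat_lit 2204) (nat_lit 0) (XT.nd (nat_lit 234) (nat_lit 1444) (nat_lit 0) (XT.nd (nat_lit 78) (nat_lit 836) (nat_lit 0) (XT.lf (nat_lit 0) (nat_lit 8766325628) (nat_lit 836) (nat_lit 3233383672) (nat_lit 912) (nat_lit 3657758239) (nat_lit 351) (nat_lit 5) (nat_lit 362) (nat_lit 5) (nat_lit 363) (nat_lit 5) (nat_lit 606) (nat_lit 566) (nat_lit 388)) (XT.nd (nat_lit 78) (nat_lit 76) (nat_lit 0) (XT.lf (nat_lit 0) (nat_lit 1850136870)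 (nat_lit 760) (nat_lit 12484510942) (nat_lit 836) (nat_lit 1494911104) (nat_lit 341) (nat_lit 5) (nat_lit 351) (nat_lit 5) (nat_lit 352) (nat_lit 5) (nat_lit 607) (nat_lit 566) (nat_lit 387)) (XT.lf (nat_lit 0) (nat_lit 761435347) (nat_lit 836) (nat_lit 5179926079) (nat_lit 76) (nat_lit 10062448066) (nat_lit 340) (nat_lit 5) (nat_lit 351) (nat_lit 5) (nat_lit 341) (nat_lit 5) (nat_lit 608) (nat_lit 566) (nat_lit 386)))) (XT.nd (nat_lit 78) (nat_lit 684) (nat_lit 0) (XT.lf (nat_lit 0) (nat_lit 3064512127) (nat_lit 836) (nat_lit 12359043938) (nat_lit 76) (nat_lit 757360076) (nat_lit 330) (nat_lit 5) (nat_lit 341) (nat_lit 5) (nat_lit 331) (nat_lit 5) (nat_lit 609) (nat_lit 566) (nat_lit 385)) (XT.nd (nat_lit 78) (nat_lit 684) (nat_lit 0) (XT.lf (nat_lit 0) (nat_lit 5479858548) (nat_lit 836) (nat_lit 3335521812) (nat_lit 76) (nat_lit 7544861475) (nat_lit 330) (nat_lit 5) (nat_lit 341) (nat_lit 5) (nat_lit 331) (nat_lit 5) (nat_lit 610) (nat_lit 566) (nat_lit 384)) (XT.lf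 (nat_lit 0) (nat_lit 5937521995) (nat_lit 684) (nat_lit 2036570735) (nat_lit 760) (nat_lit 8568450748) (nat_lit 321) (nat_lit 5) (nat_lit 330) (nat_lit 5) (nat_lit 331) (nat_lit 5) (nat_lit 611) (nat_lit 566) (nat_lit 383))))) (XT.nd (nat_lit 234) (nat_lit 760) (nat_lit 0) (XT.nd (nat_lit 78) (nat_lit 1444) (nat_lit 0) (XT.lf (nat_lit 0) (nat_lit 10564537028) (nat_lit 760) (nat_lit 1327536223) (nat_lit 76) (nat_lit 4835492426) (nat_lit 321) (nat_lit 5) (nat_lit 331) (nat_lit 5) (nat_lit 322) (nat_lit 5) (nat_lit 612) (nat_lit 566) (nat_lit 382)) (XT.nd (nat_lit 78) (nat_lit 684) (nat_lit 0) (XT.lf (nat_lit 0) (nat_lit 8221092386) (nat_lit 760) (nat_lit 5044840345) (nat_lit 836) (nat_lit 3649173750) (nat_lit 311) (nat_lit 5) (nat_lit 321) (nat_lit 5) (nat_lit 322) (nat_lit 5) (nat_lit 613) (nat_lit 566) (nat_lit 381)) (XT.lf (nat_lit 0) (nat_lit 862298073) (nat_lit 684) (nat_lit 15178582494) (nat_lit 760) (nat_lit 1065128042) (nat_lit 302) (nat_lit 5) (nat_lit 311) (nat_lit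 5) (nat_lit 312) (nat_lit 5) (nat_lit 614) (nat_lit 566) (nat_lit 380)))) (XT.nd (nat_lit 78) (nat_lit 684) (nat_lit 0) (XT.lf (nat_lit 0) (nat_lit 1634545720) (nat_lit 760) (nat_lit 6624842241) (nat_lit 76) (nat_lit 9039446908) (nat_lit 301) (nat_lit 5) (nat_lit 311) (nat_lit 5) (nat_lit 302) (nat_lit 5) (nat_lit 615) (nat_lit 566) (nat_lit 379)) (XT.nd (nat_lit 78) (nat_lit 0) (nat_lit 0) (XT.lf (nat_lit 0) (nat_lit 3212786700) (nat_lit 684) (nat_lit 1174594429) (nat_lit 760) (nat_lit 13107728046) (nat_lit 292) (nat_lit 5) (nat_lit 301) (nat_lit 5) (nat_lit 302) (nat_lit 5) (nat_lit 616) (nat_lit 566) (nat_lit 378)) (XT.lf (nat_lit 0) (nat_lit 7271955567) (nat_lit 760) (nat_lit 4405819009) (nat_lit 76) (nat_lit 6016001659) (nat_lit 292) (nat_lit 5) (nat_lit 302) (nat_lit 5) (nat_lit 293) (nat_lit 5) (nat_lit 617) (nat_lit 566) (nat_lit 377)))))) (XT.nd (nat_lit 468) (nat_lit 2280) (nat_lit 0) (XT.nd (nat_lit 234) (nat_lit 1292) (nat_lit 0) (XT.nd (nat_lit 78) (nat_lit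 684) (nat_lit 0) (XT.lf (nat_lit 0) (nat_lit 5726936201) (nat_lit 608) (nat_lit 4525030285) (nat_lit 684) (nat_lit 7643696149) (nat_lit 284) (nat_lit 5) (nat_lit 292) (nat_lit 5) (nat_lit 293) (nat_lit 5) (nat_lit 618) (nat_lit 566) (nat_lit 376)) (XT.nd (nat_lit 78) (nat_lit 684) (nat_lit 0) (XT.lf (nat_lit 0) (nat_lit 13332188353) (nat_lit 684) (nat_lit 2005799349) (nat_lit 76) (nat_lit 2762787729) (nat_lit 284) (nat_lit 5) (nat_lit 293) (nat_lit 5) (nat_lit 285) (nat_lit 5) (nat_lit 619) (nat_lit 566) (nat_lit 375)) (XT.lf (nat_lit 0) (nat_lit 8432496250) (nat_lit 684) (nat_lit 8119234753) (nat_lit 760) (nat_lit 1756706014) (nat_lit 275) (nat_lit 5) (nat_lit 284) (nat_lit 5) (nat_lit 285) (nat_lit 5) (nat_lit 620) (nat_lit 566) (nat_lit 374)))) (XT.nd (nat_lit 78) (nat_lit 608) (nat_lit 0) (XT.lf (nat_lit 0) (nat_lit 577150020) (nat_lit 608) (nat_lit 731342700) (nat_lit 684) (nat_lit 17211382496) (nat_lit 266) (nat_lit 5) (nat_lit 274) (nat_lit 5) (nat_lit 275) (nat_lit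 5) (nat_lit 621) (nat_lit 566) (nat_lit 373)) (XT.nd (nat_lit 78) (nat_lit 608) (nat_lit 0) (XT.lf (nat_lit 0) (nat_lit 4515491332) (nat_lit 684) (nat_lit 7425919619) (nat_lit 76) (nat_lit 6791819442) (nat_lit 266) (nat_lit 5) (nat_lit 275) (nat_lit 5) (nat_lit 267) (nat_lit 5) (nat_lit 622) (nat_lit 566) (nat_lit 372)) (XT.lf (nat_lit 0) (nat_lit 3331616915) (nat_lit 608) (nat_lit 4474729040) (nat_lit 684) (nat_lit 11144113195) (nat_lit 258) (nat_lit 5) (nat_lit 266) (nat_lit 5) (nat_lit 267) (nat_lit 5) (nat_lit 623) (nat_lit 566) (nat_lit 371))))) (XT.nd (nat_lit 234) (nat_lit 1748) (nat_lit 0) (XT.nd (nat_lit 78) (nat_lit 532) (nat_lit 0) (XT.lf (nat_lit 0) (nat_lit 11226883274) (nat_lit 684) (nat_lit 4795320863) (nat_lit 76) (nat_lit 3148551816) (nat_lit 258) (nat_lit 5) (nat_lit 267) (nat_lit 5) (nat_lit 259) (nat_lit 5) (nat_lit 624) (nat_lit 566) (nat_lit 370)) (XT.nd (nat_lit 78) (nat_lit 0) (nat_lit 0) (XT.lf (nat_lit 0) (nat_lit 6289163456) (nat_lit 532) (nat_lit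 8490574922) (nat_lit 608) (nat_lit 4614442938) (nat_lit 251) (nat_lit 5) (nat_lit 258) (nat_lit 5) (nat_lit 259) (nat_lit 5) (nat_lit 625) (nat_lit 566) (nat_lit 369)) (XT.lf (nat_lit 0) (nat_lit 17652037256) (nat_lit 532) (nat_lit 777306841) (nat_lit 608) (nat_lit 1192217972) (nat_lit 251) (nat_lit 5) (nat_lit 258) (nat_lit 5) (nat_lit 259) (nat_lit 5) (nat_lit 626) (nat_lit 566) (nat_lit 368)))) (XT.nd (nat_lit 156) (nat_lit 532) (nat_lit 0) (XT.nd (nat_lit 78) (nat_lit 532) (nat_lit 0) (XT.lf (nat_lit 0) (nat_lit 2370050423) (nat_lit 684) (nat_lit 10408624970) (nat_lit 76) (nat_lit 7072482434) (nat_lit 242) (nat_lit 5) (nat_lit 251) (nat_lit 5) (nat_lit 243) (nat_lit 5) (nat_lit 627) (nat_lit 566) (nat_lit 367)) (XT.lf (nat_lit 0) (nat_lit 1016360693) (nat_lit 532) (nat_lit 4989964529) (nat_lit 608) (nat_lit 14078488879) (nat_lit 235) (nat_lit 5) (nat_lit 242) (nat_lit 5) (nat_lit 243) (nat_lit 5) (nat_lit 628) (nat_lit 566) (nat_lit 366))) (XT.nd (nat_lit 78) (nat_lit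 532) (nat_lit 0) (XT.lf (nat_lit 0) (nat_lit 9798535508) (nat_lit 608) (nat_lit 7538799207) (nat_lit 76) (nat_lit 2984145279) (nat_lit 235) (nat_lit 5) (nat_lit 243) (nat_lit 5) (nat_lit 236) (nat_lit 5) (nat_lit 629) (nat_lit 566) (nat_lit 365)) (XT.lf (nat_lit 0) (nat_lit 4235773413) (nat_lit 532) (nat_lit 9485204715) (nat_lit 608) (nat_lit 6840813996) (nat_lit 228) (nat_lit 5) (nat_lit 235) (nat_lit 5) (nat_lit 236) (nat_lit 5) (nat_lit 630) (nat_lit 566) (nat_lit 364))))))))
noncomputable def xc186 : XT := (XT.nd (nat_lit 1950) (nat_lit 380) (nat_lit 0) (XT.nd (nat_lit 936) (nat_lit 2964) (nat_lit 0) (XT.nd (nat_lit 468) (nat_lit 2052) (nat_lit 0) (XT.nd (nat_lit 234) (nat_lit 988) (nat_lit 0) (XT.nd (nat_lit 78) (nat_lit 608) (nat_lit 0) (XT.lf (nat_lit 0) (nat_lit 16339900246) (nat_lit 532) (nat_lit 1426467223) (nat_lit 608) (nat_lit 3039653736) (nat_lit 228) (nat_lit 5) (nat_lit 235) (nat_lit 5) (nat_lit 236) (nat_lit 5) (nat_lit 631) (nat_lit 566) (nat_lit 363))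 (XT.nd (nat_lit 78) (nat_lit 0) (nat_lit 0) (XT.lf (nat_lit 0) (nat_lit 915110459) (nat_lit 608) (nat_lit 13379886393) (nat_lit 76) (nat_lit 6758258601) (nat_lit 220) (nat_lit 5) (nat_lit 228) (nat_lit 5) (nat_lit 221) (nat_lit 5) (nat_lit 632) (nat_lit 566) (nat_lit 362)) (XT.lf (nat_lit 0) (nat_lit 4941962792) (nat_lit 608) (nat_lit 1226524210) (nat_lit 76) (nat_lit 15135872295) (nat_lit 220) (nat_lit 5) (nat_lit 228) (nat_lit 5) (nat_lit 221) (nat_lit 5) (nat_lit 633) (nat_lit 566) (nat_lit 361)))) (XT.nd (nat_lit 78) (nat_lit 456) (nat_lit 0) (XT.lf (nat_lit 0) (nat_lit 9131184168) (nat_lit 608) (nat_lit 10263076158) (nat_lit 76) (nat_lit 2164588867) (nat_lit 213) (nat_lit 5) (nat_lit 221) (nat_lit 5) (nat_lit 214) (nat_lit 5) (nat_lit 634) (nat_lit 566) (nat_lit 360)) (XT.nd (nat_lit 78) (nat_lit 0) (nat_lit 0) (XT.lf (nat_lit 0) (nat_lit 2247454694) (nat_lit 456) (nat_lit 11214670222) (nat_lit 532) (nat_lit 8355145877) (nat_lit 207) (nat_lit 5) (nat_lit 213) (nat_lit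 5) (nat_lit 214) (nat_lit 5) (nat_lit 635) (nat_lit 566) (nat_lit 359)) (XT.lf (nat_lit 0) (nat_lit 15139373978) (nat_lit 456) (nat_lit 2803450115) (nat_lit 532) (nat_lit 4136774533) (nat_lit 207) (nat_lit 5) (nat_lit 213) (nat_lit 5) (nat_lit 214) (nat_lit 5) (nat_lit 636) (nat_lit 566) (nat_lit 358))))) (XT.nd (nat_lit 234) (nat_lit 988) (nat_lit 0) (XT.nd (nat_lit 78) (nat_lit 456) (nat_lit 0) (XT.lf (nat_lit 0) (nat_lit 234917083) (nat_lit 608) (nat_lit 16372370534) (nat_lit 76) (nat_lit 5738441827) (nat_lit 199) (nat_lit 5) (nat_lit 207) (nat_lit 5) (nat_lit 200) (nat_lit 5) (nat_lit 637) (nat_lit 566) (nat_lit 357)) (XT.nd (nat_lit 78) (nat_lit 456) (nat_lit 0) (XT.lf (nat_lit 0) (nat_lit 4698539183) (nat_lit 608) (nat_lit 3431138214) (nat_lit 76) (nat_lit 14485761396) (nat_lit 199) (nat_lit 5) (nat_lit 207) (nat_lit 5) (nat_lit 200) (nat_lit 5) (nat_lit 638) (nat_lit 566) (nat_lit 356)) (XT.lf (nat_lit 0) (nat_lit 9313921862) (nat_lit 532) (nat_lit 13002251807)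 (nat_lit 76) (nat_lit 573119446) (nat_lit 193) (nat_lit 5) (nat_lit 200) (nat_lit 5) (nat_lit 194) (nat_lit 5) (nat_lit 639) (nat_lit 566) (nat_lit 355)))) (XT.nd (nat_lit 78) (nat_lit 532) (nat_lit 0) (XT.lf (nat_lit 0) (nat_lit 291972238) (nat_lit 456) (nat_lit 13803094384) (nat_lit 532) (nat_lit 9072089350) (nat_lit 187) (nat_lit 5) (nat_lit 193) (nat_lit 5) (nat_lit 194) (nat_lit 5) (nat_lit 640) (nat_lit 566) (nat_lit 354)) (XT.nd (nat_lit 78) (nat_lit 532) (nat_lit 0) (XT.lf (nat_lit 0) (nat_lit 14020584999) (nat_lit 456) (nat_lit 5033100557) (nat_lit 532) (nat_lit 4395254030) (nat_lit 187) (nat_lit 5) (nat_lit 193) (nat_lit 5) (nat_lit 194) (nat_lit 5) (nat_lit 641) (nat_lit 566) (nat_lit 353)) (XT.lf (nat_lit 0) (nat_lit 418596648) (nat_lit 532) (nat_lit 19427288361) (nat_lit 76) (nat_lit 3889457691) (nat_lit 180) (nat_lit 5) (nat_lit 187) (nat_lit 5) (nat_lit 181) (nat_lit 5) (nat_lit 642) (nat_lit 566) (nat_lit 352)))))) (XT.nd (nat_lit 468) (nat_lit 1596) (nat_lit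 0) (XT.nd (nat_lit 234) (nat_lit 912) (nat_lit 0) (XT.nd (nat_lit 78) (nat_lit 456) (nat_lit 0) (XT.lf (nat_lit 0) (nat_lit 5361656465) (nat_lit 532) (nat_lit 5649776247) (nat_lit 76) (nat_lit 13013624916) (nat_lit 180) (nat_lit 5) (nat_lit 187) (nat_lit 5) (nat_lit 181) (nat_lit 5) (nat_lit 643) (nat_lit 566) (nat_lit 351)) (XT.nd (nat_lit 78) (nat_lit 0) (nat_lit 0) (XT.lf (nat_lit 0) (nat_lit 8507307454) (nat_lit 456) (nat_lit 1946318389) (nat_lit 532) (nat_lit 13865940531) (nat_lit 174) (nat_lit 5) (nat_lit 180) (nat_lit 5) (nat_lit 181) (nat_lit 5) (nat_lit 644) (nat_lit 566) (nat_lit 350)) (XT.lf (nat_lit 0) (nat_lit 15727846615) (nat_lit 532) (nat_lit 1650329752) (nat_lit 76) (nat_lit 7240181164) (nat_lit 174) (nat_lit 5) (nat_lit 181) (nat_lit 5) (nat_lit 175) (nat_lit 5) (nat_lit 645) (nat_lit 566) (nat_lit 349)))) (XT.nd (nat_lit 78) (nat_lit 532) (nat_lit 0) (XT.lf (nat_lit 0) (nat_lit 12944272194) (nat_lit 380) (nat_lit 8255163772) (nat_lit 456) (nat_lit 3721851329)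 (nat_lit 169) (nat_lit 5) (nat_lit 174) (nat_lit 5) (nat_lit 175) (nat_lit 5) (nat_lit 646) (nat_lit 566) (nat_lit 348)) (XT.nd (nat_lit 78) (nat_lit 0) (nat_lit 0) (XT.lf (nat_lit 0) (nat_lit 1560166596) (nat_lit 532) (nat_lit 22596558212) (nat_lit 76) (nat_lit 1072743679) (nat_lit 162) (nat_lit 5) (nat_lit 169) (nat_lit 5) (nat_lit 163) (nat_lit 5) (nat_lit 647) (nat_lit 566) (nat_lit 347)) (XT.lf (nat_lit 0) (nat_lit 7028614174) (nat_lit 532) (nat_lit 7932166601) (nat_lit 76) (nat_lit 10579928441) (nat_lit 162) (nat_lit 5) (nat_lit 169) (nat_lit 5) (nat_lit 163) (nat_lit 5) (nat_lit 648) (nat_lit 566) (nat_lit 346))))) (XT.nd (nat_lit 234) (nat_lit 836) (nat_lit 0) (XT.nd (nat_lit 78) (nat_lit 380) (nat_lit 0) (XT.lf (nat_lit 0) (nat_lit 7111431281) (nat_lit 380) (nat_lit 5536273512) (nat_lit 456) (nat_lit 13209644916) (nat_lit 157) (nat_lit 5) (nat_lit 162) (nat_lit 5) (nat_lit 163) (nat_lit 5) (nat_lit 649) (nat_lit 566) (nat_lit 345)) (XT.nd (nat_lit 78) (nat_lit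 380) (nat_lit 0) (XT.lf (nat_lit 0) (nat_lit 18454362224) (nat_lit 456) (nat_lit 3650038416) (nat_lit 76) (nat_lit 4074419096) (nat_lit 157) (nat_lit 5) (nat_lit 163) (nat_lit 5) (nat_lit 158) (nat_lit 5) (nat_lit 650) (nat_lit 566) (nat_lit 344)) (XT.lf (nat_lit 0) (nat_lit 11859395588) (nat_lit 380) (nat_lit 12626650421) (nat_lit 456) (nat_lit 2018495706) (nat_lit 152) (nat_lit 5) (nat_lit 157) (nat_lit 5) (nat_lit 158) (nat_lit 5) (nat_lit 651) (nat_lit 566) (nat_lit 343)))) (XT.nd (nat_lit 156) (nat_lit 380) (nat_lit 0) (XT.nd (nat_lit 78) (nat_lit 0) (nat_lit 0) (XT.lf (nat_lit 0) (nat_lit 871539394) (nat_lit 380) (nat_lit 2905747211) (nat_lit 456) (nat_lit 23058487083) (nat_lit 146) (nat_lit 5) (nat_lit 151) (nat_lit 5) (nat_lit 152) (nat_lit 5) (nat_lit 652) (nat_lit 566) (nat_lit 342)) (XT.lf (nat_lit 0) (nat_lit 9801695926) (nat_lit 456) (nat_lit 10341400740) (nat_lit 76) (nat_lit 7027472401) (nat_lit 146) (nat_lit 5) (nat_lit 152) (nat_lit 5) (nat_lit 147) (nat_lit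 5) (nat_lit 653) (nat_lit 566) (nat_lit 341))) (XT.nd (nat_lit 78) (nat_lit 0) (nat_lit 0) (XT.lf (nat_lit 0) (nat_lit 5641493920) (nat_lit 380) (nat_lit 10356339303) (nat_lit 456) (nat_lit 11513202717) (nat_lit 141) (nat_lit 5) (nat_lit 146) (nat_lit 5) (nat_lit 147) (nat_lit 5) (nat_lit 654) (nat_lit 566) (nat_lit 340)) (XT.lf (nat_lit 0) (nat_lit 22077132451) (nat_lit 380) (nat_lit 305569929) (nat_lit 456) (nat_lit 5474313964) (nat_lit 141) (nat_lit 5) (nat_lit 146) (nat_lit 5) (nat_lit 147) (nat_lit 5) (nat_lit 655) (nat_lit 566) (nat_lit 339))))))) (XT.nd (nat_lit 75114) (nat_lit 0) (nat_lit 25688) (XT.nd (nat_lit 74646) (nat_lit 0) (nat_lit 27056) (XT.nd (nat_lit 74412) (nat_lit 0) (nat_lit 26980) (XT.nd (nat_lit 74256) (nat_lit 0) (nat_lit 26904) (XT.lf (nat_lit 0) (nat_lit 806759243) (nat_lit 380) (nat_lit 17512336992) (nat_lit 76) (nat_lit 9888123584) (nat_lit 136) (nat_lit 5) (nat_lit 141) (nat_lit 5) (nat_lit 137) (nat_lit 5) (nat_lit 656) (nat_lit 566) (nat_lit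 338)) (XT.nd (nat_lit 78) (nat_lit 0) (nat_lit 0) (XT.lf (nat_lit 0) (nat_lit 145774478) (nat_lit 1748) (nat_lit 2608233327) (nat_lit 1748) (nat_lit 2608233327) (nat_lit 490) (nat_lit 3) (nat_lit 513) (nat_lit 3) (nat_lit 513) (nat_lit 5) (nat_lit 567) (nat_lit 567) (nat_lit 426)) (XT.lf (nat_lit 76) (nat_lit 43135392) (nat_lit 0) (nat_lit 855674854) (nat_lit 1748) (nat_lit 9920732111) (nat_lit 491) (nat_lit 5) (nat_lit 490) (nat_lit 3) (nat_lit 513) (nat_lit 5) (nat_lit 568) (nat_lit 567) (nat_lit 425)))) (XT.nd (nat_lit 78) (nat_lit 0) (nat_lit 0) (XT.lf (nat_lit 0) (nat_lit 1562860430) (nat_lit 1672) (nat_lit 5471210050) (nat_lit 1748) (nat_lit 3881542862) (nat_lit 491) (nat_lit 5) (nat_lit 513) (nat_lit 5) (nat_lit 514) (nat_lit 5) (nat_lit 569) (nat_lit 567) (nat_lit 424)) (XT.nd (nat_lit 78) (nat_lit 0) (nat_lit 76) (XT.lf (nat_lit 0) (nat_lit 2230321098) (nat_lit 1672) (nat_lit 73968216) (nat_lit 1748) (nat_lit 8709516358) (nat_lit 491) (nat_lit 5) (nat_lit 513)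 (nat_lit 5) (nat_lit 514) (nat_lit 5) (nat_lit 570) (nat_lit 567) (nat_lit 423)) (XT.lf (nat_lit 0) (nat_lit 2948219797) (nat_lit 1672) (nat_lit 5635139849) (nat_lit 1748) (nat_lit 2529862893) (nat_lit 492) (nat_lit 5) (nat_lit 514) (nat_lit 5) (nat_lit 515) (nat_lit 5) (nat_lit 571) (nat_lit 567) (nat_lit 422))))) (XT.nd (nat_lit 234) (nat_lit 0) (nat_lit 76) (XT.nd (nat_lit 78) (nat_lit 0) (nat_lit 76) (XT.lf (nat_lit 0) (nat_lit 3681293574) (nat_lit 1672) (nat_lit 96224032) (nat_lit 1748) (nat_lit 7437096214) (nat_lit 492) (nat_lit 5) (nat_lit 514) (nat_lit 5) (nat_lit 515) (nat_lit 5) (nat_lit 572) (nat_lit 567) (nat_lit 421)) (XT.nd (nat_lit 78) (nat_lit 0) (nat_lit 0) (XT.lf (nat_lit 0) (nat_lit 4458443211) (nat_lit 1672) (nat_lit 5706372928) (nat_lit 1748) (nat_lit 1152630868) (nat_lit 493) (nat_lit 5) (nat_lit 515) (nat_lit 5) (nat_lit 516) (nat_lit 5) (nat_lit 573) (nat_lit 567) (nat_lit 420)) (XT.lf (nat_lit 0) (nat_lit 5262425856) (nat_lit 1672) (nat_lit 22150769)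 (nat_lit 1748) (nat_lit 6137536758) (nat_lit 493) (nat_lit 5) (nat_lit 515) (nat_lit 5) (nat_lit 516) (nat_lit 5) (nat_lit 574) (nat_lit 567) (nat_lit 419)))) (XT.nd (nat_lit 78) (nat_lit 0) (nat_lit 76) (XT.lf (nat_lit 76) (nat_lit 5843940981) (nat_lit 0) (nat_lit 262395159) (nat_lit 1748) (nat_lit 5422062265) (nat_lit 494) (nat_lit 5) (nat_lit 493) (nat_lit 5) (nat_lit 516) (nat_lit 5) (nat_lit 575) (nat_lit 567) (nat_lit 418)) (XT.nd (nat_lit 78) (nat_lit 0) (nat_lit 0) (XT.lf (nat_lit 76) (nat_lit 152574148) (nat_lit 0) (nat_lit 6833409124) (nat_lit 1748) (nat_lit 4650450917) (nat_lit 495) (nat_lit 5) (nat_lit 494) (nat_lit 5) (nat_lit 517) (nat_lit 5) (nat_lit 576) (nat_lit 567) (nat_lit 417)) (XT.lf (nat_lit 76) (nat_lit 6172978481) (nat_lit 0) (nat_lit 1736494500) (nat_lit 1748) (nat_lit 3836634903) (nat_lit 495) (nat_lit 5) (nat_lit 494) (nat_lit 5) (nat_lit 517) (nat_lit 5) (nat_lit 577) (nat_lit 567) (nat_lit 416)))))) (XT.nd (nat_lit 468) (nat_lit 0) (nat_lit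 0) (XT.nd (nat_lit 234) (nat_lit 1596) (nat_lit 0) (XT.nd (nat_lit 78) (nat_lit 0) (nat_lit 0) (XT.lf (nat_lit 76) (nat_lit 430185500) (nat_lit 0) (nat_lit 8433196295) (nat_lit 1748) (nat_lit 2994356419) (nat_lit 496) (nat_lit 5) (nat_lit 495) (nat_lit 5) (nat_lit 518) (nat_lit 5) (nat_lit 578) (nat_lit 567) (nat_lit 415)) (XT.nd (nat_lit 78) (nat_lit 0) (nat_lit 76) (XT.lf (nat_lit 76) (nat_lit 6608724614) (nat_lit 0) (nat_lit 3263347982) (nat_lit 1748) (nat_lit 2098816584) (nat_lit 496) (nat_lit 5) (nat_lit 495) (nat_lit 5) (nat_lit 518) (nat_lit 5) (nat_lit 579) (nat_lit 567) (nat_lit 414)) (XT.lf (nat_lit 76) (nat_lit 813297825) (nat_lit 0) (nat_lit 10093135462) (nat_lit 1748) (nat_lit 1179762021) (nat_lit 497) (nat_lit 5) (nat_lit 496) (nat_lit 5) (nat_lit 519) (nat_lit 5) (nat_lit 580) (nat_lit 567) (nat_lit 413)))) (XT.nd (nat_lit 78) (nat_lit 1672) (nat_lit 0) (XT.lf (nat_lit 76) (nat_lit 7154263983) (nat_lit 0) (nat_lit 4852030131) (nat_lit 1748) (nat_lit 196619208)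 (nat_lit 497) (nat_lit 5) (nat_lit 496) (nat_lit 5) (nat_lit 519) (nat_lit 5) (nat_lit 581) (nat_lit 567) (nat_lit 412)) (XT.nd (nat_lit 78) (nat_lit 0) (nat_lit 0) (XT.lf (nat_lit 0) (nat_lit 794919855) (nat_lit 1748) (nat_lit 11022111639) (nat_lit 1824) (nat_lit 504845328) (nat_lit 474) (nat_lit 5) (nat_lit 497) (nat_lit 5) (nat_lit 498) (nat_lit 5) (nat_lit 582) (nat_lit 567) (nat_lit 411)) (XT.lf (nat_lit 0) (nat_lit 1857630971) (nat_lit 1748) (nat_lit 4641617911) (nat_lit 1824) (nat_lit 5942867142) (nat_lit 474) (nat_lit 5) (nat_lit 497) (nat_lit 5) (nat_lit 498) (nat_lit 5) (nat_lit 583) (nat_lit 567) (nat_lit 410))))) (XT.nd (nat_lit 234) (nat_lit 0) (nat_lit 152) (XT.nd (nat_lit 78) (nat_lit 0) (nat_lit 76) (XT.lf (nat_lit 76) (nat_lit 1882348976) (nat_lit 0) (nat_lit 1059444705) (nat_lit 1824) (nat_lit 9622964252) (nat_lit 475) (nat_lit 5) (nat_lit 474) (nat_lit 5) (nat_lit 498) (nat_lit 5) (nat_lit 584) (nat_lit 567) (nat_lit 409)) (XT.nd (nat_lit 78) (nat_lit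 0) (nat_lit 0) (XT.lf (nat_lit 0) (nat_lit 4096314954) (nat_lit 1748) (nat_lit 4127893759) (nat_lit 1824) (nat_lit 4464672292) (nat_lit 475) (nat_lit 5) (nat_lit 498) (nat_lit 5) (nat_lit 499) (nat_lit 5) (nat_lit 585) (nat_lit 567) (nat_lit 408)) (XT.lf (nat_lit 76) (nat_lit 2575627591) (nat_lit 0) (nat_lit 2710444560) (nat_lit 1824) (nat_lit 7529173275) (nat_lit 476) (nat_lit 5) (nat_lit 475) (nat_lit 5) (nat_lit 499) (nat_lit 5) (nat_lit 586) (nat_lit 567) (nat_lit 407)))) (XT.nd (nat_lit 156) (nat_lit 0) (nat_lit 76) (XT.nd (nat_lit 78) (nat_lit 0) (nat_lit 0) (XT.lf (nat_lit 0) (nat_lit 6535019245) (nat_lit 1748) (nat_lit 3502546404) (nat_lit 1824) (nat_lit 2905865352) (nat_lit 476) (nat_lit 5) (nat_lit 499) (nat_lit 5) (nat_lit 500) (nat_lit 5) (nat_lit 587) (nat_lit 567) (nat_lit 406)) (XT.lf (nat_lit 76) (nat_lit 3386876284) (nat_lit 0) (nat_lit 4450826433) (nat_lit 1824) (nat_lit 5235904149) (nat_lit 477) (nat_lit 5) (nat_lit 476) (nat_lit 5) (nat_lit 500) (nat_lit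 5) (nat_lit 588) (nat_lit 567) (nat_lit 405))) (XT.nd (nat_lit 78) (nat_lit 0) (nat_lit 0) (XT.lf (nat_lit 0) (nat_lit 9187194149) (nat_lit 1748) (nat_lit 2761644932) (nat_lit 1824) (nat_lit 1257133774) (nat_lit 477) (nat_lit 5) (nat_lit 500) (nat_lit 5) (nat_lit 501) (nat_lit 5) (nat_lit 589) (nat_lit 567) (nat_lit 404)) (XT.lf (nat_lit 76) (nat_lit 4320267138) (nat_lit 0) (nat_lit 6290143932) (nat_lit 1824) (nat_lit 2729642040) (nat_lit 478) (nat_lit 5) (nat_lit 477) (nat_lit 5) (nat_lit 501) (nat_lit 5) (nat_lit 590) (nat_lit 567) (nat_lit 403))))))))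
noncomputable def xc187 : XT := (XT.nd (nat_lit 1950) (nat_lit 8284) (nat_lit 0) (XT.nd (nat_lit 936) (nat_lit 6156) (nat_lit 0) (XT.nd (nat_lit 468) (nat_lit 2736) (nat_lit 0) (XT.nd (nat_lit 234) (nat_lit 2660) (nat_lit 0) (XT.nd (nat_lit 78) (nat_lit 1748) (nat_lit 0) (XT.lf (nat_lit 76) (nat_lit 11572449866) (nat_lit 0) (nat_lit 497538923) (nat_lit 1824) (nat_lit 1406669880) (nat_lit 478) (nat_lit 5) (nat_lit 477) (nat_lit 5) (nat_lit 501) (nat_lit 5) (nat_lit 591) (nat_lit 567) (nat_lit 402)) (XT.nd (nat_lit 78) (nat_lit 0) (nat_lit 0) (XT.lf (nat_lit 0) (nat_lit 3553926) (nat_lit 1824) (nat_lit 8234568253) (nat_lit 76) (nat_lit 5376682325) (nat_lit 454) (nat_lit 5) (nat_lit 478) (nat_lit 5) (nat_lit 455) (nat_lit 5) (nat_lit 592) (nat_lit 567) (nat_lit 401)) (XT.lf (nat_lit 0) (nat_lit 1428984498) (nat_lit 1824) (nat_lit 940903012) (nat_lit 76) (nat_lit 11385524565) (nat_lit 454) (nat_lit 5) (nat_lit 478) (nat_lit 5) (nat_lit 455) (nat_lit 5) (nat_lit 593) (nat_lit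 567) (nat_lit 400)))) (XT.nd (nat_lit 78) (nat_lit 988) (nat_lit 0) (XT.lf (nat_lit 0) (nat_lit 2939252424) (nat_lit 1748) (nat_lit 7345823936) (nat_lit 76) (nat_lit 3612630367) (nat_lit 432) (nat_lit 5) (nat_lit 455) (nat_lit 5) (nat_lit 433) (nat_lit 5) (nat_lit 594) (nat_lit 567) (nat_lit 399)) (XT.nd (nat_lit 78) (nat_lit 0) (nat_lit 0) (XT.lf (nat_lit 0) (nat_lit 141771153) (nat_lit 988) (nat_lit 4350940925) (nat_lit 1064) (nat_lit 9549876941) (nat_lit 419) (nat_lit 5) (nat_lit 432) (nat_lit 5) (nat_lit 433) (nat_lit 5) (nat_lit 595) (nat_lit 567) (nat_lit 398)) (XT.lf (nat_lit 0) (nat_lit 6128071722) (nat_lit 1064) (nat_lit 6331122008) (nat_lit 76) (nat_lit 1730160054) (nat_lit 419) (nat_lit 5) (nat_lit 433) (nat_lit 5) (nat_lit 420) (nat_lit 5) (nat_lit 596) (nat_lit 567) (nat_lit 397))))) (XT.nd (nat_lit 234) (nat_lit 912) (nat_lit 0) (XT.nd (nat_lit 78) (nat_lit 912) (nat_lit 0) (XT.lf (nat_lit 0) (nat_lit 1370246686) (nat_lit 912) (nat_lit 6453955820) (nat_lit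 988) (nat_lit 6514291475) (nat_lit 407) (nat_lit 5) (nat_lit 419) (nat_lit 5) (nat_lit 420) (nat_lit 5) (nat_lit 597) (nat_lit 567) (nat_lit 396)) (XT.nd (nat_lit 78) (nat_lit 912) (nat_lit 0) (XT.lf (nat_lit 0) (nat_lit 9302643255) (nat_lit 912) (nat_lit 284582923) (nat_lit 988) (nat_lit 4902732790) (nat_lit 407) (nat_lit 5) (nat_lit 419) (nat_lit 5) (nat_lit 420) (nat_lit 5) (nat_lit 598) (nat_lit 567) (nat_lit 395)) (XT.lf (nat_lit 0) (nat_lit 2737286483) (nat_lit 912) (nat_lit 8695681294) (nat_lit 988) (nat_lit 3210537688) (nat_lit 395) (nat_lit 5) (nat_lit 407) (nat_lit 5) (nat_lit 408) (nat_lit 5) (nat_lit 599) (nat_lit 567) (nat_lit 394)))) (XT.nd (nat_lit 78) (nat_lit 912) (nat_lit 0) (XT.lf (nat_lit 0) (nat_lit 10880005656) (nat_lit 912) (nat_lit 2463102341) (nat_lit 988) (nat_lit 1456466555) (nat_lit 395) (nat_lit 5) (nat_lit 407) (nat_lit 5) (nat_lit 408) (nat_lit 5) (nat_lit 600) (nat_lit 567) (nat_lit 393)) (XT.nd (nat_lit 78) (nat_lit 0) (nat_lit 0) (XT.lf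 (nat_lit 0) (nat_lit 372463871) (nat_lit 912) (nat_lit 10711882446) (nat_lit 76) (nat_lit 3873493964) (nat_lit 383) (nat_lit 5) (nat_lit 395) (nat_lit 5) (nat_lit 384) (nat_lit 5) (nat_lit 601) (nat_lit 567) (nat_lit 392)) (XT.lf (nat_lit 0) (nat_lit 2252322346) (nat_lit 912) (nat_lit 2525806348) (nat_lit 76) (nat_lit 10340274312) (nat_lit 383) (nat_lit 5) (nat_lit 395) (nat_lit 5) (nat_lit 384) (nat_lit 5) (nat_lit 602) (nat_lit 567) (nat_lit 391)))))) (XT.nd (nat_lit 468) (nat_lit 2964) (nat_lit 0) (XT.nd (nat_lit 234) (nat_lit 1596) (nat_lit 0) (XT.nd (nat_lit 78) (nat_lit 760) (nat_lit 0) (XT.lf (nat_lit 0) (nat_lit 4210251255) (nat_lit 912) (nat_lit 9399990949) (nat_lit 76) (nat_lit 1671126551) (nat_lit 372) (nat_lit 5) (nat_lit 384) (nat_lit 5) (nat_lit 373) (nat_lit 5) (nat_lit 603) (nat_lit 567) (nat_lit 390)) (XT.nd (nat_lit 78) (nat_lit 760) (nat_lit 0) (XT.lf (nat_lit 0) (nat_lit 6247380516) (nat_lit 912) (nat_lit 996866041) (nat_lit 76) (nat_lit 8202547635)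 (nat_lit 372) (nat_lit 5) (nat_lit 384) (nat_lit 5) (nat_lit 373) (nat_lit 5) (nat_lit 604) (nat_lit 567) (nat_lit 389)) (XT.lf (nat_lit 0) (nat_lit 7666238656) (nat_lit 760) (nat_lit 700294677) (nat_lit 836) (nat_lit 7248170369) (nat_lit 362) (nat_lit 5) (nat_lit 372) (nat_lit 5) (nat_lit 373) (nat_lit 5) (nat_lit 605) (nat_lit 567) (nat_lit 388)))) (XT.nd (nat_lit 78) (nat_lit 760) (nat_lit 0) (XT.lf (nat_lit 0) (nat_lit 691780848) (nat_lit 836) (nat_lit 9877920650) (nat_lit 912) (nat_lit 5215438421) (nat_lit 351) (nat_lit 5) (nat_lit 362) (nat_lit 5) (nat_lit 363) (nat_lit 5) (nat_lit 606) (nat_lit 567) (nat_lit 387)) (XT.nd (nat_lit 78) (nat_lit 760) (nat_lit 0) (XT.lf (nat_lit 0) (nat_lit 9599195692) (nat_lit 836) (nat_lit 3267407290) (nat_lit 912) (nat_lit 3091389619) (nat_lit 351) (nat_lit 5) (nat_lit 362) (nat_lit 5) (nat_lit 363) (nat_lit 5) (nat_lit 607) (nat_lit 567) (nat_lit 386)) (XT.lf (nat_lit 0) (nat_lit 2552700796) (nat_lit 760) (nat_lit 12687763647)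 (nat_lit 836) (nat_lit 893218572) (nat_lit 341) (nat_lit 5) (nat_lit 351) (nat_lit 5) (nat_lit 352) (nat_lit 5) (nat_lit 608) (nat_lit 567) (nat_lit 385))))) (XT.nd (nat_lit 234) (nat_lit 2128) (nat_lit 0) (XT.nd (nat_lit 78) (nat_lit 760) (nat_lit 0) (XT.lf (nat_lit 0) (nat_lit 1387749669) (nat_lit 836) (nat_lit 4622811304) (nat_lit 76) (nat_lit 10301021675) (nat_lit 340) (nat_lit 5) (nat_lit 351) (nat_lit 5) (nat_lit 341) (nat_lit 5) (nat_lit 609) (nat_lit 567) (nat_lit 384)) (XT.nd (nat_lit 78) (nat_lit 0) (nat_lit 0) (XT.lf (nat_lit 0) (nat_lit 3729511600) (nat_lit 836) (nat_lit 11938055410) (nat_lit 76) (nat_lit 824813542) (nat_lit 330) (nat_lit 5) (nat_lit 341) (nat_lit 5) (nat_lit 331) (nat_lit 5) (nat_lit 610) (nat_lit 567) (nat_lit 383)) (XT.lf (nat_lit 0) (nat_lit 6181327514) (nat_lit 836) (nat_lit 2747164203) (nat_lit 76) (nat_lit 7747039355) (nat_lit 330) (nat_lit 5) (nat_lit 341) (nat_lit 5) (nat_lit 331) (nat_lit 5) (nat_lit 611) (nat_lit 567) (nat_lit 382))))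 (XT.nd (nat_lit 156) (nat_lit 1444) (nat_lit 0) (XT.nd (nat_lit 78) (nat_lit 0) (nat_lit 0) (XT.lf (nat_lit 0) (nat_lit 6707030822) (nat_lit 684) (nat_lit 2011035383) (nat_lit 760) (nat_lit 8143561679) (nat_lit 321) (nat_lit 5) (nat_lit 330) (nat_lit 5) (nat_lit 331) (nat_lit 5) (nat_lit 612) (nat_lit 567) (nat_lit 381)) (XT.lf (nat_lit 0) (nat_lit 11349280581) (nat_lit 760) (nat_lit 704974592) (nat_lit 76) (nat_lit 4996317633) (nat_lit 321) (nat_lit 5) (nat_lit 331) (nat_lit 5) (nat_lit 322) (nat_lit 5) (nat_lit 613) (nat_lit 567) (nat_lit 380))) (XT.nd (nat_lit 78) (nat_lit 684) (nat_lit 0) (XT.lf (nat_lit 0) (nat_lit 9030356113) (nat_lit 760) (nat_lit 5067290653) (nat_lit 836) (nat_lit 3144360282) (nat_lit 311) (nat_lit 5) (nat_lit 321) (nat_lit 5) (nat_lit 322) (nat_lit 5) (nat_lit 614) (nat_lit 567) (nat_lit 379)) (XT.lf (nat_lit 0) (nat_lit 1530964109) (nat_lit 684) (nat_lit 15390752449) (nat_lit 760) (nat_lit 515139645) (nat_lit 302) (nat_lit 5) (nat_lit 311) (nat_lit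 5) (nat_lit 312) (nat_lit 5) (nat_lit 615) (nat_lit 567) (nat_lit 378))))))) (XT.nd (nat_lit 936) (nat_lit 4408) (nat_lit 0) (XT.nd (nat_lit 468) (nat_lit 1824) (nat_lit 0) (XT.nd (nat_lit 234) (nat_lit 1292) (nat_lit 0) (XT.nd (nat_lit 78) (nat_lit 684) (nat_lit 0) (XT.lf (nat_lit 0) (nat_lit 2219980139) (nat_lit 760) (nat_lit 6111276877) (nat_lit 76) (nat_lit 9302430273) (nat_lit 301) (nat_lit 5) (nat_lit 311) (nat_lit 5) (nat_lit 302) (nat_lit 5) (nat_lit 616) (nat_lit 567) (nat_lit 377)) (XT.nd (nat_lit 78) (nat_lit 0) (nat_lit 0) (XT.lf (nat_lit 0) (nat_lit 3918854233) (nat_lit 684) (nat_lit 1102346982) (nat_lit 760) (nat_lit 12812820647) (nat_lit 292) (nat_lit 5) (nat_lit 301) (nat_lit 5) (nat_lit 302) (nat_lit 5) (nat_lit 617) (nat_lit 567) (nat_lit 376)) (XT.lf (nat_lit 0) (nat_lit 7953369255) (nat_lit 760) (nat_lit 3854543535) (nat_lit 76) (nat_lit 6228952767) (nat_lit 292) (nat_lit 5) (nat_lit 302) (nat_lit 5) (nat_lit 293) (nat_lit 5) (nat_lit 618) (nat_lit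 567) (nat_lit 375)))) (XT.nd (nat_lit 78) (nat_lit 684) (nat_lit 0) (XT.lf (nat_lit 0) (nat_lit 6476660254) (nat_lit 608) (nat_lit 4509934877) (nat_lit 684) (nat_lit 7256323568) (nat_lit 284) (nat_lit 5) (nat_lit 292) (nat_lit 5) (nat_lit 293) (nat_lit 5) (nat_lit 619) (nat_lit 567) (nat_lit 374)) (XT.nd (nat_lit 78) (nat_lit 684) (nat_lit 0) (XT.lf (nat_lit 0) (nat_lit 14118709487) (nat_lit 684) (nat_lit 1413408553) (nat_lit 76) (nat_lit 2920211231) (nat_lit 284) (nat_lit 5) (nat_lit 293) (nat_lit 5) (nat_lit 285) (nat_lit 5) (nat_lit 620) (nat_lit 567) (nat_lit 373)) (XT.lf (nat_lit 0) (nat_lit 9229491729) (nat_lit 684) (nat_lit 8167037223) (nat_lit 760) (nat_lit 1267738675) (nat_lit 275) (nat_lit 5) (nat_lit 284) (nat_lit 5) (nat_lit 285) (nat_lit 5) (nat_lit 621) (nat_lit 567) (nat_lit 372))))) (XT.nd (nat_lit 234) (nat_lit 532) (nat_lit 0) (XT.nd (nat_lit 78) (nat_lit 608) (nat_lit 0) (XT.lf (nat_lit 0) (nat_lit 1219794411) (nat_lit 608) (nat_lit 626051746) (nat_lit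 684) (nat_lit 17034142469) (nat_lit 266) (nat_lit 5) (nat_lit 274) (nat_lit 5) (nat_lit 275) (nat_lit 5) (nat_lit 622) (nat_lit 567) (nat_lit 371)) (XT.nd (nat_lit 78) (nat_lit 608) (nat_lit 0) (XT.lf (nat_lit 0) (nat_lit 5107724853) (nat_lit 684) (nat_lit 6946392032) (nat_lit 76) (nat_lit 7043680404) (nat_lit 266) (nat_lit 5) (nat_lit 275) (nat_lit 5) (nat_lit 267) (nat_lit 5) (nat_lit 623) (nat_lit 567) (nat_lit 370)) (XT.lf (nat_lit 0) (nat_lit 4022163351) (nat_lit 608) (nat_lit 4436442441) (nat_lit 684) (nat_lit 10860881807) (nat_lit 258) (nat_lit 5) (nat_lit 266) (nat_lit 5) (nat_lit 267) (nat_lit 5) (nat_lit 624) (nat_lit 567) (nat_lit 369)))) (XT.nd (nat_lit 78) (nat_lit 532) (nat_lit 0) (XT.lf (nat_lit 0) (nat_lit 11938639133) (nat_lit 684) (nat_lit 4270575131) (nat_lit 76) (nat_lit 3335155506) (nat_lit 258) (nat_lit 5) (nat_lit 267) (nat_lit 5) (nat_lit 259) (nat_lit 5) (nat_lit 625) (nat_lit 567) (nat_lit 368)) (XT.nd (nat_lit 78) (nat_lit 0) (nat_lit 0) (XT.lf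 (nat_lit 0) (nat_lit 7031515637) (nat_lit 532) (nat_lit 8525485579) (nat_lit 608) (nat_lit 4215374544) (nat_lit 251) (nat_lit 5) (nat_lit 258) (nat_lit 5) (nat_lit 259) (nat_lit 5) (nat_lit 626) (nat_lit 567) (nat_lit 367)) (XT.lf (nat_lit 0) (nat_lit 18609557326) (nat_lit 532) (nat_lit 660597251) (nat_lit 608) (nat_lit 734339535) (nat_lit 251) (nat_lit 5) (nat_lit 258) (nat_lit 5) (nat_lit 259) (nat_lit 5) (nat_lit 627) (nat_lit 567) (nat_lit 366)))))) (XT.nd (nat_lit 468) (nat_lit 2052) (nat_lit 0) (XT.nd (nat_lit 234) (nat_lit 1140) (nat_lit 0) (XT.nd (nat_lit 78) (nat_lit 532) (nat_lit 0) (XT.lf (nat_lit 0) (nat_lit 2888362893) (nat_lit 684) (nat_lit 10001400554) (nat_lit 76) (nat_lit 7348946706) (nat_lit 242) (nat_lit 5) (nat_lit 251) (nat_lit 5) (nat_lit 243) (nat_lit 5) (nat_lit 628) (nat_lit 567) (nat_lit 365)) (XT.nd (nat_lit 78) (nat_lit 0) (nat_lit 0) (XT.lf (nat_lit 0) (nat_lit 1648036158) (nat_lit 532) (nat_lit 4944062750) (nat_lit 608) (nat_lit 13885046961)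 (nat_lit 235) (nat_lit 5) (nat_lit 242) (nat_lit 5) (nat_lit 243) (nat_lit 5) (nat_lit 629) (nat_lit 567) (nat_lit 364)) (XT.lf (nat_lit 0) (nat_lit 10451950502) (nat_lit 608) (nat_lit 7081960703) (nat_lit 76) (nat_lit 3184798944) (nat_lit 235) (nat_lit 5) (nat_lit 243) (nat_lit 5) (nat_lit 236) (nat_lit 5) (nat_lit 630) (nat_lit 567) (nat_lit 363)))) (XT.nd (nat_lit 78) (nat_lit 608) (nat_lit 0) (XT.lf (nat_lit 0) (nat_lit 4924105905) (nat_lit 532) (nat_lit 9523685656) (nat_lit 608) (nat_lit 6516138960) (nat_lit 228) (nat_lit 5) (nat_lit 235) (nat_lit 5) (nat_lit 236) (nat_lit 5) (nat_lit 631) (nat_lit 567) (nat_lit 362)) (XT.nd (nat_lit 78) (nat_lit 608) (nat_lit 0) (XT.lf (nat_lit 0) (nat_lit 17258479647) (nat_lit 532) (nat_lit 1306738574) (nat_lit 608) (nat_lit 2648004345) (nat_lit 228) (nat_lit 5) (nat_lit 235) (nat_lit 5) (nat_lit 236) (nat_lit 5) (nat_lit 632) (nat_lit 567) (nat_lit 361)) (XT.lf (nat_lit 0) (nat_lit 1376010061) (nat_lit 608) (nat_lit 13045763299)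 (nat_lit 76) (nat_lit 7043648546) (nat_lit 220) (nat_lit 5) (nat_lit 228) (nat_lit 5) (nat_lit 221) (nat_lit 5) (nat_lit 633) (nat_lit 567) (nat_lit 360))))) (XT.nd (nat_lit 234) (nat_lit 1064) (nat_lit 0) (XT.nd (nat_lit 78) (nat_lit 988) (nat_lit 0) (XT.lf (nat_lit 0) (nat_lit 5474721059) (nat_lit 608) (nat_lit 661132320) (nat_lit 76) (nat_lit 15585868930) (nat_lit 220) (nat_lit 5) (nat_lit 228) (nat_lit 5) (nat_lit 221) (nat_lit 5) (nat_lit 634) (nat_lit 567) (nat_lit 359)) (XT.nd (nat_lit 78) (nat_lit 456) (nat_lit 0) (XT.lf (nat_lit 0) (nat_lit 9744041832) (nat_lit 608) (nat_lit 9874685380) (nat_lit 76) (nat_lit 2362649390) (nat_lit 213) (nat_lit 5) (nat_lit 221) (nat_lit 5) (nat_lit 214) (nat_lit 5) (nat_lit 635) (nat_lit 567) (nat_lit 358)) (XT.lf (nat_lit 0) (nat_lit 2882150481) (nat_lit 456) (nat_lit 11274843979) (nat_lit 532) (nat_lit 8088065193) (nat_lit 207) (nat_lit 5) (nat_lit 213) (nat_lit 5) (nat_lit 214) (nat_lit 5) (nat_lit 636) (nat_lit 567) (nat_lit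 357)))) (XT.nd (nat_lit 156) (nat_lit 456) (nat_lit 0) (XT.nd (nat_lit 78) (nat_lit 608) (nat_lit 0) (XT.lf (nat_lit 0) (nat_lit 16020344490) (nat_lit 456) (nat_lit 2698617503) (nat_lit 532) (nat_lit 3793839825) (nat_lit 207) (nat_lit 5) (nat_lit 213) (nat_lit 5) (nat_lit 214) (nat_lit 5) (nat_lit 637) (nat_lit 567) (nat_lit 356)) (XT.lf (nat_lit 0) (nat_lit 656298482) (nat_lit 608) (nat_lit 16112563990) (nat_lit 76) (nat_lit 6015406424) (nat_lit 199) (nat_lit 5) (nat_lit 207) (nat_lit 5) (nat_lit 200) (nat_lit 5) (nat_lit 638) (nat_lit 567) (nat_lit 355))) (XT.nd (nat_lit 78) (nat_lit 456) (nat_lit 0) (XT.lf (nat_lit 0) (nat_lit 5201022768) (nat_lit 608) (nat_lit 2924021807) (nat_lit 76) (nat_lit 14934492076) (nat_lit 199) (nat_lit 5) (nat_lit 207) (nat_lit 5) (nat_lit 200) (nat_lit 5) (nat_lit 639) (nat_lit 567) (nat_lit 354)) (XT.lf (nat_lit 0) (nat_lit 9905505581) (nat_lit 532) (nat_lit 12683310288) (nat_lit 76) (nat_lit 750117137) (nat_lit 193) (nat_lit 5) (nat_lit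 200) (nat_lit 5) (nat_lit 194) (nat_lit 5) (nat_lit 640) (nat_lit 567) (nat_lit 353))))))))
noncomputable def xc188 : XT := (XT.nd (nat_lit 76206) (nat_lit 0) (nat_lit 19304) (XT.nd (nat_lit 936) (nat_lit 836) (nat_lit 0) (XT.nd (nat_lit 468) (nat_lit 1672) (nat_lit 0) (XT.nd (nat_lit 234) (nat_lit 456) (nat_lit 0) (XT.nd (nat_lit 78) (nat_lit 532) (nat_lit 0) (XT.lf (nat_lit 0) (nat_lit 872989116) (nat_lit 456) (nat_lit 13905071391) (nat_lit 532) (nat_lit 8844377649) (nat_lit 187) (nat_lit 5) (nat_lit 193) (nat_lit 5) (nat_lit 194) (nat_lit 5) (nat_lit 641) (nat_lit 567) (nat_lit 352)) (XT.nd (nat_lit 78) (nat_lit 532) (nat_lit 0) (XT.lf (nat_lit 0) (nat_lit 14864896144) (nat_lit 456) (nat_lit 4963091117) (nat_lit 532) (nat_lit 4082028240) (nat_lit 187) (nat_lit 5) (nat_lit 193) (nat_lit 5) (nat_lit 194) (nat_lit 5) (nat_lit 642) (nat_lit 567) (nat_lit 351)) (XT.lf (nat_lit 0) (nat_lit 819875296) (nat_lit 532) (nat_lit 19243636133) (nat_lit 76) (nat_lit 4138643161) (nat_lit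 180) (nat_lit 5) (nat_lit 187) (nat_lit 5) (nat_lit 181) (nat_lit 5) (nat_lit 643) (nat_lit 567) (nat_lit 350)))) (XT.nd (nat_lit 78) (nat_lit 456) (nat_lit 0) (XT.lf (nat_lit 0) (nat_lit 5854092256) (nat_lit 532) (nat_lit 5201793345) (nat_lit 76) (nat_lit 13441933019) (nat_lit 180) (nat_lit 5) (nat_lit 187) (nat_lit 5) (nat_lit 181) (nat_lit 5) (nat_lit 644) (nat_lit 567) (nat_lit 349)) (XT.nd (nat_lit 78) (nat_lit 0) (nat_lit 0) (XT.lf (nat_lit 0) (nat_lit 9234741382) (nat_lit 456) (nat_lit 1809224928) (nat_lit 532) (nat_lit 13754330633) (nat_lit 174) (nat_lit 5) (nat_lit 180) (nat_lit 5) (nat_lit 181) (nat_lit 5) (nat_lit 645) (nat_lit 567) (nat_lit 348)) (XT.lf (nat_lit 0) (nat_lit 16417316085) (nat_lit 532) (nat_lit 1130585661) (nat_lit 76) (nat_lit 7555289980) (nat_lit 174) (nat_lit 5) (nat_lit 181) (nat_lit 5) (nat_lit 175) (nat_lit 5) (nat_lit 646) (nat_lit 567) (nat_lit 347))))) (XT.nd (nat_lit 234) (nat_lit 760) (nat_lit 0) (XT.nd (nat_lit 78) (nat_lit 532)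 (nat_lit 0) (XT.lf (nat_lit 0) (nat_lit 13752271806) (nat_lit 380) (nat_lit 8242279403) (nat_lit 456) (nat_lit 3417705276) (nat_lit 169) (nat_lit 5) (nat_lit 174) (nat_lit 5) (nat_lit 175) (nat_lit 5) (nat_lit 647) (nat_lit 567) (nat_lit 346)) (XT.nd (nat_lit 78) (nat_lit 0) (nat_lit 0) (XT.lf (nat_lit 0) (nat_lit 1962408562) (nat_lit 532) (nat_lit 22491764701) (nat_lit 76) (nat_lit 1272431117) (nat_lit 162) (nat_lit 5) (nat_lit 169) (nat_lit 5) (nat_lit 163) (nat_lit 5) (nat_lit 648) (nat_lit 567) (nat_lit 345)) (XT.lf (nat_lit 0) (nat_lit 7532949825) (nat_lit 532) (nat_lit 7545001428) (nat_lit 76) (nat_lit 10966264817) (nat_lit 162) (nat_lit 5) (nat_lit 169) (nat_lit 5) (nat_lit 163) (nat_lit 5) (nat_lit 649) (nat_lit 567) (nat_lit 344)))) (XT.nd (nat_lit 78) (nat_lit 380) (nat_lit 0) (XT.lf (nat_lit 0) (nat_lit 7795877566) (nat_lit 380) (nat_lit 5464932511) (nat_lit 456) (nat_lit 13106452169) (nat_lit 157) (nat_lit 5) (nat_lit 162) (nat_lit 5) (nat_lit 163) (nat_lit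 5) (nat_lit 650) (nat_lit 567) (nat_lit 343)) (XT.nd (nat_lit 78) (nat_lit 380) (nat_lit 0) (XT.lf (nat_lit 0) (nat_lit 19177697788) (nat_lit 456) (nat_lit 3185519556) (nat_lit 76) (nat_lit 4332063003) (nat_lit 157) (nat_lit 5) (nat_lit 163) (nat_lit 5) (nat_lit 158) (nat_lit 5) (nat_lit 651) (nat_lit 567) (nat_lit 342)) (XT.lf (nat_lit 0) (nat_lit 12630566814) (nat_lit 380) (nat_lit 12695969362) (nat_lit 456) (nat_lit 1701050775) (nat_lit 152) (nat_lit 5) (nat_lit 157) (nat_lit 5) (nat_lit 158) (nat_lit 5) (nat_lit 652) (nat_lit 567) (nat_lit 341)))))) (XT.nd (nat_lit 74724) (nat_lit 0) (nat_lit 26600) (XT.nd (nat_lit 234) (nat_lit 0) (nat_lit 0) (XT.nd (nat_lit 78) (nat_lit 380) (nat_lit 0) (XT.lf (nat_lit 0) (nat_lit 1424131806) (nat_lit 380) (nat_lit 2778373233) (nat_lit 456) (nat_lit 23162961630) (nat_lit 146) (nat_lit 5) (nat_lit 151) (nat_lit 5) (nat_lit 152) (nat_lit 5) (nat_lit 653) (nat_lit 567) (nat_lit 340)) (XT.nd (nat_lit 78) (nat_lit 380) (nat_lit 0) (XT.lf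 (nat_lit 0) (nat_lit 10341726921) (nat_lit 456) (nat_lit 10017856401) (nat_lit 76) (nat_lit 7347488714) (nat_lit 146) (nat_lit 5) (nat_lit 152) (nat_lit 5) (nat_lit 147) (nat_lit 5) (nat_lit 654) (nat_lit 567) (nat_lit 339)) (XT.lf (nat_lit 0) (nat_lit 6281206860) (nat_lit 380) (nat_lit 10377255938) (nat_lit 456) (nat_lit 11395952490) (nat_lit 141) (nat_lit 5) (nat_lit 146) (nat_lit 5) (nat_lit 147) (nat_lit 5) (nat_lit 655) (nat_lit 567) (nat_lit 338)))) (XT.nd (nat_lit 74334) (nat_lit 0) (nat_lit 26524) (XT.lf (nat_lit 0) (nat_lit 23035227121) (nat_lit 380) (nat_lit 129122356) (nat_lit 456) (nat_lit 5243099968) (nat_lit 141) (nat_lit 5) (nat_lit 146) (nat_lit 5) (nat_lit 147) (nat_lit 5) (nat_lit 656) (nat_lit 567) (nat_lit 337)) (XT.nd (nat_lit 78) (nat_lit 0) (nat_lit 0) (XT.lf (nat_lit 0) (nat_lit 748833708) (nat_lit 1748) (nat_lit 2354276095) (nat_lit 1748) (nat_lit 2354276095) (nat_lit 490) (nat_lit 3) (nat_lit 513) (nat_lit 3) (nat_lit 513) (nat_lit 5) (nat_lit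 568) (nat_lit 568) (nat_lit 424)) (XT.lf (nat_lit 76) (nat_lit 652213976) (nat_lit 0) (nat_lit 1445273848) (nat_lit 1748) (nat_lit 8914640802) (nat_lit 491) (nat_lit 5) (nat_lit 490) (nat_lit 3) (nat_lit 513) (nat_lit 5) (nat_lit 569) (nat_lit 568) (nat_lit 423))))) (XT.nd (nat_lit 234) (nat_lit 0) (nat_lit 76) (XT.nd (nat_lit 78) (nat_lit 0) (nat_lit 0) (XT.lf (nat_lit 0) (nat_lit 2748023930) (nat_lit 1672) (nat_lit 4957362281) (nat_lit 1748) (nat_lit 3405274457) (nat_lit 491) (nat_lit 5) (nat_lit 513) (nat_lit 5) (nat_lit 514) (nat_lit 5) (nat_lit 570) (nat_lit 568) (nat_lit 422)) (XT.nd (nat_lit 78) (nat_lit 0) (nat_lit 76) (XT.lf (nat_lit 76) (nat_lit 542721256) (nat_lit 0) (nat_lit 2867010648) (nat_lit 1748) (nat_lit 7801470643) (nat_lit 492) (nat_lit 5) (nat_lit 491) (nat_lit 5) (nat_lit 514) (nat_lit 5) (nat_lit 571) (nat_lit 568) (nat_lit 421)) (XT.lf (nat_lit 0) (nat_lit 4116938797) (nat_lit 1672) (nat_lit 5115086063) (nat_lit 1748) (nat_lit 2081087479) (nat_lit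 492) (nat_lit 5) (nat_lit 514) (nat_lit 5) (nat_lit 515) (nat_lit 5) (nat_lit 572) (nat_lit 568) (nat_lit 420)))) (XT.nd (nat_lit 156) (nat_lit 0) (nat_lit 76) (XT.nd (nat_lit 78) (nat_lit 0) (nat_lit 76) (XT.lf (nat_lit 76) (nat_lit 529140856) (nat_lit 0) (nat_lit 4317208833) (nat_lit 1748) (nat_lit 6570551763) (nat_lit 493) (nat_lit 5) (nat_lit 492) (nat_lit 5) (nat_lit 515) (nat_lit 5) (nat_lit 573) (nat_lit 568) (nat_lit 419)) (XT.lf (nat_lit 0) (nat_lit 5615324550) (nat_lit 1672) (nat_lit 5179695971) (nat_lit 1748) (nat_lit 727248590) (nat_lit 493) (nat_lit 5) (nat_lit 515) (nat_lit 5) (nat_lit 516) (nat_lit 5) (nat_lit 574) (nat_lit 568) (nat_lit 418))) (XT.nd (nat_lit 78) (nat_lit 0) (nat_lit 0) (XT.lf (nat_lit 76) (nat_lit 613694552) (nat_lit 0) (nat_lit 5804741268) (nat_lit 1748) (nat_lit 5210935399) (nat_lit 494) (nat_lit 5) (nat_lit 493) (nat_lit 5) (nat_lit 516) (nat_lit 5) (nat_lit 575) (nat_lit 568) (nat_lit 417)) (XT.lf (nat_lit 76) (nat_lit 6584926268)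 (nat_lit 0) (nat_lit 673840606) (nat_lit 1748) (nat_lit 4479427534) (nat_lit 494) (nat_lit 5) (nat_lit 493) (nat_lit 5) (nat_lit 516) (nat_lit 5) (nat_lit 576) (nat_lit 568) (nat_lit 416))))))) (XT.nd (nat_lit 936) (nat_lit 5928) (nat_lit 0) (XT.nd (nat_lit 468) (nat_lit 0) (nat_lit 76) (XT.nd (nat_lit 234) (nat_lit 1596) (nat_lit 0) (XT.nd (nat_lit 78) (nat_lit 0) (nat_lit 0) (XT.lf (nat_lit 76) (nat_lit 798881396) (nat_lit 0) (nat_lit 7338514363) (nat_lit 1748) (nat_lit 3711370624) (nat_lit 495) (nat_lit 5) (nat_lit 494) (nat_lit 5) (nat_lit 517) (nat_lit 5) (nat_lit 577) (nat_lit 568) (nat_lit 415)) (XT.nd (nat_lit 78) (nat_lit 0) (nat_lit 76) (XT.lf (nat_lit 76) (nat_lit 6927080958) (nat_lit 0) (nat_lit 2132437191) (nat_lit 1748) (nat_lit 2901515335) (nat_lit 495) (nat_lit 5) (nat_lit 494) (nat_lit 5) (nat_lit 517) (nat_lit 5) (nat_lit 578) (nat_lit 568) (nat_lit 414)) (XT.lf (nat_lit 76) (nat_lit 1087477956) (nat_lit 0) (nat_lit 8927491502) (nat_lit 1748) (nat_lit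 2060280803) (nat_lit 496) (nat_lit 5) (nat_lit 495) (nat_lit 5) (nat_lit 518) (nat_lit 5) (nat_lit 579) (nat_lit 568) (nat_lit 413)))) (XT.nd (nat_lit 78) (nat_lit 1672) (nat_lit 0) (XT.lf (nat_lit 76) (nat_lit 7376868465) (nat_lit 0) (nat_lit 3647861295) (nat_lit 1748) (nat_lit 1166319637) (nat_lit 496) (nat_lit 5) (nat_lit 495) (nat_lit 5) (nat_lit 518) (nat_lit 5) (nat_lit 580) (nat_lit 568) (nat_lit 412)) (XT.nd (nat_lit 78) (nat_lit 1748) (nat_lit 0) (XT.lf (nat_lit 76) (nat_lit 1482539126) (nat_lit 0) (nat_lit 10580716252) (nat_lit 1748) (nat_lit 245739721) (nat_lit 497) (nat_lit 5) (nat_lit 496) (nat_lit 5) (nat_lit 519) (nat_lit 5) (nat_lit 581) (nat_lit 568) (nat_lit 411)) (XT.lf (nat_lit 0) (nat_lit 728606338) (nat_lit 1748) (nat_lit 4495690828) (nat_lit 1824) (nat_lit 7204025498) (nat_lit 473) (nat_lit 5) (nat_lit 496) (nat_lit 5) (nat_lit 497) (nat_lit 5) (nat_lit 582) (nat_lit 568) (nat_lit 410))))) (XT.nd (nat_lit 234) (nat_lit 0) (nat_lit 76) (XT.nd (nat_lit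 78) (nat_lit 0) (nat_lit 0) (XT.lf (nat_lit 0) (nat_lit 1721672547) (nat_lit 1748) (nat_lit 10574109540) (nat_lit 1824) (nat_lit 254173604) (nat_lit 474) (nat_lit 5) (nat_lit 497) (nat_lit 5) (nat_lit 498) (nat_lit 5) (nat_lit 583) (nat_lit 568) (nat_lit 409)) (XT.nd (nat_lit 78) (nat_lit 0) (nat_lit 0) (XT.lf (nat_lit 0) (nat_lit 2787777997) (nat_lit 1748) (nat_lit 4079112689) (nat_lit 1824) (nat_lit 5806068965) (nat_lit 474) (nat_lit 5) (nat_lit 497) (nat_lit 5) (nat_lit 498) (nat_lit 5) (nat_lit 584) (nat_lit 568) (nat_lit 408)) (XT.lf (nat_lit 76) (nat_lit 2571022104) (nat_lit 0) (nat_lit 1309319056) (nat_lit 1824) (nat_lit 8917981615) (nat_lit 475) (nat_lit 5) (nat_lit 474) (nat_lit 5) (nat_lit 498) (nat_lit 5) (nat_lit 585) (nat_lit 568) (nat_lit 407)))) (XT.nd (nat_lit 78) (nat_lit 0) (nat_lit 0) (XT.lf (nat_lit 0) (nat_lit 5039247948) (nat_lit 1748) (nat_lit 3553352377) (nat_lit 1824) (nat_lit 4332704751) (nat_lit 475) (nat_lit 5) (nat_lit 498) (nat_lit 5) (nat_lit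 499) (nat_lit 5) (nat_lit 586) (nat_lit 568) (nat_lit 406)) (XT.nd (nat_lit 78) (nat_lit 0) (nat_lit 76) (XT.lf (nat_lit 76) (nat_lit 3279916378) (nat_lit 0) (nat_lit 2960239682) (nat_lit 1824) (nat_lit 6814296226) (nat_lit 476) (nat_lit 5) (nat_lit 475) (nat_lit 5) (nat_lit 499) (nat_lit 5) (nat_lit 587) (nat_lit 568) (nat_lit 405)) (XT.lf (nat_lit 0) (nat_lit 7496202563) (nat_lit 1748) (nat_lit 2914612861) (nat_lit 1824) (nat_lit 2774746304) (nat_lit 476) (nat_lit 5) (nat_lit 499) (nat_lit 5) (nat_lit 500) (nat_lit 5) (nat_lit 588) (nat_lit 568) (nat_lit 404)))))) (XT.nd (nat_lit 468) (nat_lit 4484) (nat_lit 0) (XT.nd (nat_lit 234) (nat_lit 1672) (nat_lit 0) (XT.nd (nat_lit 78) (nat_lit 0) (nat_lit 76) (XT.lf (nat_lit 76) (nat_lit 4108269435) (nat_lit 0) (nat_lit 4704630255) (nat_lit 1824) (nat_lit 4505684734) (nat_lit 477) (nat_lit 5) (nat_lit 476) (nat_lit 5) (nat_lit 500) (nat_lit 5) (nat_lit 589) (nat_lit 568) (nat_lit 403)) (XT.nd (nat_lit 78) (nat_lit 0) (nat_lit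 0) (XT.lf (nat_lit 0) (nat_lit 10172284121) (nat_lit 1748) (nat_lit 2158818896) (nat_lit 1824) (nat_lit 1122839118) (nat_lit 477) (nat_lit 5) (nat_lit 500) (nat_lit 5) (nat_lit 501) (nat_lit 5) (nat_lit 590) (nat_lit 568) (nat_lit 402)) (XT.lf (nat_lit 76) (nat_lit 5060402080) (nat_lit 0) (nat_lit 6552095078) (nat_lit 1824) (nat_lit 1978438619) (nat_lit 478) (nat_lit 5) (nat_lit 477) (nat_lit 5) (nat_lit 501) (nat_lit 5) (nat_lit 591) (nat_lit 568) (nat_lit 401)))) (XT.nd (nat_lit 78) (nat_lit 1748) (nat_lit 0) (XT.lf (nat_lit 76) (nat_lit 12444810234) (nat_lit 0) (nat_lit 640968395) (nat_lit 1824) (nat_lit 644806942) (nat_lit 478) (nat_lit 5) (nat_lit 477) (nat_lit 5) (nat_lit 501) (nat_lit 5) (nat_lit 592) (nat_lit 568) (nat_lit 400)) (XT.nd (nat_lit 78) (nat_lit 0) (nat_lit 0) (XT.lf (nat_lit 0) (nat_lit 771386336) (nat_lit 1824) (nat_lit 7735883228) (nat_lit 76) (nat_lit 5364361934) (nat_lit 454) (nat_lit 5) (nat_lit 478) (nat_lit 5) (nat_lit 455) (nat_lit 5) (nat_lit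 593) (nat_lit 568) (nat_lit 399)) (XT.lf (nat_lit 0) (nat_lit 2210271376) (nat_lit 1824) (nat_lit 309352063) (nat_lit 76) (nat_lit 11495731098) (nat_lit 454) (nat_lit 5) (nat_lit 478) (nat_lit 5) (nat_lit 455) (nat_lit 5) (nat_lit 594) (nat_lit 568) (nat_lit 398))))) (XT.nd (nat_lit 234) (nat_lit 1824) (nat_lit 0) (XT.nd (nat_lit 78) (nat_lit 988) (nat_lit 0) (XT.lf (nat_lit 0) (nat_lit 3739556904) (nat_lit 1748) (nat_lit 6831074202) (nat_lit 76) (nat_lit 3590089921) (nat_lit 432) (nat_lit 5) (nat_lit 455) (nat_lit 5) (nat_lit 433) (nat_lit 5) (nat_lit 595) (nat_lit 568) (nat_lit 397)) (XT.nd (nat_lit 78) (nat_lit 0) (nat_lit 0) (XT.lf (nat_lit 0) (nat_lit 801919722) (nat_lit 988) (nat_lit 4511894145) (nat_lit 1064) (nat_lit 8994894680) (nat_lit 419) (nat_lit 5) (nat_lit 432) (nat_lit 5) (nat_lit 433) (nat_lit 5) (nat_lit 596) (nat_lit 568) (nat_lit 396)) (XT.lf (nat_lit 0) (nat_lit 6967071898) (nat_lit 1064) (nat_lit 5798405792) (nat_lit 76) (nat_lit 1693229197) (nat_lit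 419) (nat_lit 5) (nat_lit 433) (nat_lit 5) (nat_lit 420) (nat_lit 5) (nat_lit 597) (nat_lit 568) (nat_lit 395)))) (XT.nd (nat_lit 156) (nat_lit 912) (nat_lit 0) (XT.nd (nat_lit 78) (nat_lit 0) (nat_lit 0) (XT.lf (nat_lit 0) (nat_lit 2052652522) (nat_lit 912) (nat_lit 6634677658) (nat_lit 988) (nat_lit 5923697674) (nat_lit 407) (nat_lit 5) (nat_lit 419) (nat_lit 5) (nat_lit 420) (nat_lit 5) (nat_lit 598) (nat_lit 568) (nat_lit 394)) (XT.lf (nat_lit 0) (nat_lit 10130853867) (nat_lit 912) (nat_lit 340904701) (nat_lit 988) (nat_lit 4294042710) (nat_lit 407) (nat_lit 5) (nat_lit 419) (nat_lit 5) (nat_lit 420) (nat_lit 5) (nat_lit 599) (nat_lit 568) (nat_lit 393))) (XT.nd (nat_lit 78) (nat_lit 0) (nat_lit 0) (XT.lf (nat_lit 0) (nat_lit 3444156848) (nat_lit 912) (nat_lit 8900585823) (nat_lit 988) (nat_lit 2577871464) (nat_lit 395) (nat_lit 5) (nat_lit 407) (nat_lit 5) (nat_lit 408) (nat_lit 5) (nat_lit 600) (nat_lit 568) (nat_lit 392)) (XT.lf (nat_lit 0) (nat_lit 11736943646)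 (nat_lit 912) (nat_lit 2542747626) (nat_lit 988) (nat_lit 802383163) (nat_lit 395) (nat_lit 5) (nat_lit 407) (nat_lit 5) (nat_lit 408) (nat_lit 5) (nat_lit 601) (nat_lit 568) (nat_lit 391))))))))
noncomputable def xc189 : XT := (XT.nd (nat_lit 1950) (nat_lit 7676) (nat_lit 0) (XT.nd (nat_lit 936) (nat_lit 4788) (nat_lit 0) (XT.nd (nat_lit 468) (nat_lit 2280) (nat_lit 0) (XT.nd (nat_lit 234) (nat_lit 1596) (nat_lit 0) (XT.nd (nat_lit 78) (nat_lit 836) (nat_lit 0) (XT.lf (nat_lit 0) (nat_lit 1044989983) (nat_lit 912) (nat_lit 10268457637) (nat_lit 76) (nat_lit 3930154517) (nat_lit 383) (nat_lit 5) (nat_lit 395) (nat_lit 5) (nat_lit 384) (nat_lit 5) (nat_lit 602) (nat_lit 568) (nat_lit 390)) (XT.nd (nat_lit 78) (nat_lit 836) (nat_lit 0) (XT.lf (nat_lit 0) (nat_lit 2949404906) (nat_lit 912) (nat_lit 1931555359) (nat_lit 76) (nat_lit 10526678499) (nat_lit 383) (nat_lit 5) (nat_lit 395) (nat_lit 5) (nat_lit 384) (nat_lit 5) (nat_lit 603) (nat_lit 568) (nat_lit 389)) (XT.lf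 (nat_lit 0) (nat_lit 4937847357) (nat_lit 912) (nat_lit 8934488831) (nat_lit 76) (nat_lit 1701702335) (nat_lit 372) (nat_lit 5) (nat_lit 384) (nat_lit 5) (nat_lit 373) (nat_lit 5) (nat_lit 604) (nat_lit 568) (nat_lit 388)))) (XT.nd (nat_lit 78) (nat_lit 1596) (nat_lit 0) (XT.lf (nat_lit 0) (nat_lit 7003103691) (nat_lit 912) (nat_lit 376115189) (nat_lit 76) (nat_lit 8363807659) (nat_lit 372) (nat_lit 5) (nat_lit 384) (nat_lit 5) (nat_lit 373) (nat_lit 5) (nat_lit 605) (nat_lit 568) (nat_lit 387)) (XT.nd (nat_lit 78) (nat_lit 836) (nat_lit 0) (XT.lf (nat_lit 0) (nat_lit 8456036549) (nat_lit 760) (nat_lit 700367274) (nat_lit 836) (nat_lit 6758056859) (nat_lit 362) (nat_lit 5) (nat_lit 372) (nat_lit 5) (nat_lit 373) (nat_lit 5) (nat_lit 606) (nat_lit 568) (nat_lit 386)) (XT.lf (nat_lit 0) (nat_lit 1350267006) (nat_lit 836) (nat_lit 10045435871) (nat_lit 912) (nat_lit 4692763087) (nat_lit 351) (nat_lit 5) (nat_lit 362) (nat_lit 5) (nat_lit 363) (nat_lit 5) (nat_lit 607) (nat_lit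 568) (nat_lit 385))))) (XT.nd (nat_lit 234) (nat_lit 1444) (nat_lit 0) (XT.nd (nat_lit 78) (nat_lit 836) (nat_lit 0) (XT.lf (nat_lit 0) (nat_lit 10423189940) (nat_lit 836) (nat_lit 3303301326) (nat_lit 912) (nat_lit 2538527116) (nat_lit 351) (nat_lit 5) (nat_lit 362) (nat_lit 5) (nat_lit 363) (nat_lit 5) (nat_lit 608) (nat_lit 568) (nat_lit 384)) (XT.nd (nat_lit 78) (nat_lit 76) (nat_lit 0) (XT.lf (nat_lit 0) (nat_lit 3243471448) (nat_lit 760) (nat_lit 12896884631) (nat_lit 836) (nat_lit 304017629) (nat_lit 341) (nat_lit 5) (nat_lit 351) (nat_lit 5) (nat_lit 352) (nat_lit 5) (nat_lit 609) (nat_lit 568) (nat_lit 383)) (XT.lf (nat_lit 0) (nat_lit 2002861078) (nat_lit 836) (nat_lit 4080210537) (nat_lit 76) (nat_lit 10542917395) (nat_lit 340) (nat_lit 5) (nat_lit 351) (nat_lit 5) (nat_lit 341) (nat_lit 5) (nat_lit 610) (nat_lit 568) (nat_lit 382)))) (XT.nd (nat_lit 78) (nat_lit 684) (nat_lit 0) (XT.lf (nat_lit 0) (nat_lit 4384368298) (nat_lit 836) (nat_lit 11534592945) (nat_lit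 76) (nat_lit 891584961) (nat_lit 330) (nat_lit 5) (nat_lit 341) (nat_lit 5) (nat_lit 331) (nat_lit 5) (nat_lit 611) (nat_lit 568) (nat_lit 381)) (XT.nd (nat_lit 78) (nat_lit 684) (nat_lit 0) (XT.lf (nat_lit 0) (nat_lit 6873842756) (nat_lit 836) (nat_lit 2172476532) (nat_lit 76) (nat_lit 7951269504) (nat_lit 330) (nat_lit 5) (nat_lit 341) (nat_lit 5) (nat_lit 331) (nat_lit 5) (nat_lit 612) (nat_lit 568) (nat_lit 380)) (XT.lf (nat_lit 0) (nat_lit 7466660084) (nat_lit 684) (nat_lit 1987562544) (nat_lit 760) (nat_lit 7733328257) (nat_lit 321) (nat_lit 5) (nat_lit 330) (nat_lit 5) (nat_lit 331) (nat_lit 5) (nat_lit 613) (nat_lit 568) (nat_lit 379)))))) (XT.nd (nat_lit 468) (nat_lit 2584) (nat_lit 0) (XT.nd (nat_lit 234) (nat_lit 684) (nat_lit 0) (XT.nd (nat_lit 78) (nat_lit 1520) (nat_lit 0) (XT.lf (nat_lit 0) (nat_lit 12127451133) (nat_lit 760) (nat_lit 95167553) (nat_lit 76) (nat_lit 5157869667) (nat_lit 321) (nat_lit 5) (nat_lit 331) (nat_lit 5) (nat_lit 322) (nat_lit 5)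 (nat_lit 614) (nat_lit 568) (nat_lit 378)) (XT.nd (nat_lit 78) (nat_lit 760) (nat_lit 0) (XT.lf (nat_lit 0) (nat_lit 9830765118) (nat_lit 760) (nat_lit 5093236141) (nat_lit 836) (nat_lit 2651887104) (nat_lit 311) (nat_lit 5) (nat_lit 321) (nat_lit 5) (nat_lit 322) (nat_lit 5) (nat_lit 615) (nat_lit 568) (nat_lit 377)) (XT.lf (nat_lit 0) (nat_lit 23354230) (nat_lit 760) (nat_lit 15587204094) (nat_lit 76) (nat_lit 2164197080) (nat_lit 301) (nat_lit 5) (nat_lit 311) (nat_lit 5) (nat_lit 302) (nat_lit 5) (nat_lit 616) (nat_lit 568) (nat_lit 376)))) (XT.nd (nat_lit 78) (nat_lit 684) (nat_lit 0) (XT.lf (nat_lit 0) (nat_lit 2795659543) (nat_lit 760) (nat_lit 5612527589) (nat_lit 76) (nat_lit 9567481597) (nat_lit 301) (nat_lit 5) (nat_lit 311) (nat_lit 5) (nat_lit 302) (nat_lit 5) (nat_lit 617) (nat_lit 568) (nat_lit 375)) (XT.nd (nat_lit 78) (nat_lit 0) (nat_lit 0) (XT.lf (nat_lit 0) (nat_lit 4614120783) (nat_lit 684) (nat_lit 1032372262) (nat_lit 760) (nat_lit 12533646496)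 (nat_lit 292) (nat_lit 5) (nat_lit 301) (nat_lit 5) (nat_lit 302) (nat_lit 5) (nat_lit 618) (nat_lit 568) (nat_lit 374)) (XT.lf (nat_lit 0) (nat_lit 8627598670) (nat_lit 760) (nat_lit 3317070917) (nat_lit 76) (nat_lit 6442565919) (nat_lit 292) (nat_lit 5) (nat_lit 302) (nat_lit 5) (nat_lit 293) (nat_lit 5) (nat_lit 619) (nat_lit 568) (nat_lit 373))))) (XT.nd (nat_lit 234) (nat_lit 1292) (nat_lit 0) (XT.nd (nat_lit 78) (nat_lit 684) (nat_lit 0) (XT.lf (nat_lit 0) (nat_lit 7216713767) (nat_lit 608) (nat_lit 4498637983) (nat_lit 684) (nat_lit 6882181964) (nat_lit 284) (nat_lit 5) (nat_lit 292) (nat_lit 5) (nat_lit 293) (nat_lit 5) (nat_lit 620) (nat_lit 568) (nat_lit 372)) (XT.nd (nat_lit 78) (nat_lit 684) (nat_lit 0) (XT.lf (nat_lit 0) (nat_lit 14900773572) (nat_lit 684) (nat_lit 833730950) (nat_lit 76) (nat_lit 3076815905) (nat_lit 284) (nat_lit 5) (nat_lit 293) (nat_lit 5) (nat_lit 285) (nat_lit 5) (nat_lit 621) (nat_lit 568) (nat_lit 371)) (XT.lf (nat_lit 0) (nat_lit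 10018027695) (nat_lit 684) (nat_lit 8220245110) (nat_lit 760) (nat_lit 789343487) (nat_lit 275) (nat_lit 5) (nat_lit 284) (nat_lit 5) (nat_lit 285) (nat_lit 5) (nat_lit 622) (nat_lit 568) (nat_lit 370)))) (XT.nd (nat_lit 156) (nat_lit 608) (nat_lit 0) (XT.nd (nat_lit 78) (nat_lit 0) (nat_lit 0) (XT.lf (nat_lit 0) (nat_lit 1850785254) (nat_lit 608) (nat_lit 523311527) (nat_lit 684) (nat_lit 16873606867) (nat_lit 266) (nat_lit 5) (nat_lit 274) (nat_lit 5) (nat_lit 275) (nat_lit 5) (nat_lit 623) (nat_lit 568) (nat_lit 369)) (XT.lf (nat_lit 0) (nat_lit 5692312736) (nat_lit 684) (nat_lit 6481661684) (nat_lit 76) (nat_lit 7296073210) (nat_lit 266) (nat_lit 5) (nat_lit 275) (nat_lit 5) (nat_lit 267) (nat_lit 5) (nat_lit 624) (nat_lit 568) (nat_lit 368))) (XT.nd (nat_lit 78) (nat_lit 0) (nat_lit 0) (XT.lf (nat_lit 0) (nat_lit 4702293371) (nat_lit 608) (nat_lit 4402352008) (nat_lit 684) (nat_lit 10591638801) (nat_lit 258) (nat_lit 5) (nat_lit 266) (nat_lit 5) (nat_lit 267) (nat_lit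 5) (nat_lit 625) (nat_lit 568) (nat_lit 367)) (XT.lf (nat_lit 0) (nat_lit 12645710833) (nat_lit 684) (nat_lit 3759435163) (nat_lit 76) (nat_lit 3520690464) (nat_lit 258) (nat_lit 5) (nat_lit 267) (nat_lit 5) (nat_lit 259) (nat_lit 5) (nat_lit 626) (nat_lit 568) (nat_lit 366))))))) (XT.nd (nat_lit 936) (nat_lit 3800) (nat_lit 0) (XT.nd (nat_lit 468) (nat_lit 1596) (nat_lit 0) (XT.nd (nat_lit 234) (nat_lit 1064) (nat_lit 0) (XT.nd (nat_lit 78) (nat_lit 684) (nat_lit 0) (XT.lf (nat_lit 0) (nat_lit 7764772739) (nat_lit 532) (nat_lit 8566332814) (nat_lit 608) (nat_lit 3827404783) (nat_lit 251) (nat_lit 5) (nat_lit 258) (nat_lit 5) (nat_lit 259) (nat_lit 5) (nat_lit 627) (nat_lit 568) (nat_lit 365)) (XT.nd (nat_lit 78) (nat_lit 684) (nat_lit 0) (XT.lf (nat_lit 0) (nat_lit 19562755129) (nat_lit 532) (nat_lit 546689120) (nat_lit 608) (nat_lit 286009412) (nat_lit 251) (nat_lit 5) (nat_lit 258) (nat_lit 5) (nat_lit 259) (nat_lit 5) (nat_lit 628) (nat_lit 568) (nat_lit 364)) (XT.lf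 (nat_lit 0) (nat_lit 3398755546) (nat_lit 684) (nat_lit 9609928262) (nat_lit 76) (nat_lit 7625697481) (nat_lit 242) (nat_lit 5) (nat_lit 251) (nat_lit 5) (nat_lit 243) (nat_lit 5) (nat_lit 629) (nat_lit 568) (nat_lit 363)))) (XT.nd (nat_lit 78) (nat_lit 532) (nat_lit 0) (XT.lf (nat_lit 0) (nat_lit 2268605735) (nat_lit 532) (nat_lit 4902900685) (nat_lit 608) (nat_lit 13706181488) (nat_lit 235) (nat_lit 5) (nat_lit 242) (nat_lit 5) (nat_lit 243) (nat_lit 5) (nat_lit 630) (nat_lit 568) (nat_lit 362)) (XT.nd (nat_lit 78) (nat_lit 532) (nat_lit 0) (XT.lf (nat_lit 0) (nat_lit 11100670677) (nat_lit 608) (nat_lit 6639579841) (nat_lit 76) (nat_lit 3383991615) (nat_lit 235) (nat_lit 5) (nat_lit 243) (nat_lit 5) (nat_lit 236) (nat_lit 5) (nat_lit 631) (nat_lit 568) (nat_lit 361)) (XT.lf (nat_lit 0) (nat_lit 5602765863) (nat_lit 532) (nat_lit 9568808395) (nat_lit 608) (nat_lit 6202890694) (nat_lit 228) (nat_lit 5) (nat_lit 235) (nat_lit 5) (nat_lit 236) (nat_lit 5) (nat_lit 632)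 (nat_lit 568) (nat_lit 360))))) (XT.nd (nat_lit 234) (nat_lit 988) (nat_lit 0) (XT.nd (nat_lit 78) (nat_lit 608) (nat_lit 0) (XT.lf (nat_lit 0) (nat_lit 18172451043) (nat_lit 532) (nat_lit 1190372391) (nat_lit 608) (nat_lit 2266090858) (nat_lit 228) (nat_lit 5) (nat_lit 235) (nat_lit 5) (nat_lit 236) (nat_lit 5) (nat_lit 633) (nat_lit 568) (nat_lit 359)) (XT.nd (nat_lit 78) (nat_lit 0) (nat_lit 0) (XT.lf (nat_lit 0) (nat_lit 1828941058) (nat_lit 608) (nat_lit 12728323297) (nat_lit 76) (nat_lit 7328912879) (nat_lit 220) (nat_lit 5) (nat_lit 228) (nat_lit 5) (nat_lit 221) (nat_lit 5) (nat_lit 634) (nat_lit 568) (nat_lit 358)) (XT.lf (nat_lit 0) (nat_lit 6001284888) (nat_lit 608) (nat_lit 107339997) (nat_lit 76) (nat_lit 16039146468) (nat_lit 220) (nat_lit 5) (nat_lit 228) (nat_lit 5) (nat_lit 221) (nat_lit 5) (nat_lit 635) (nat_lit 568) (nat_lit 357)))) (XT.nd (nat_lit 78) (nat_lit 456) (nat_lit 0) (XT.lf (nat_lit 0) (nat_lit 10352450139) (nat_lit 608) (nat_lit 9501579030)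 (nat_lit 76) (nat_lit 2558661265) (nat_lit 213) (nat_lit 5) (nat_lit 221) (nat_lit 5) (nat_lit 214) (nat_lit 5) (nat_lit 636) (nat_lit 568) (nat_lit 356)) (XT.nd (nat_lit 78) (nat_lit 0) (nat_lit 0) (XT.lf (nat_lit 0) (nat_lit 3506639601) (nat_lit 456) (nat_lit 11342594178) (nat_lit 532) (nat_lit 7832502774) (nat_lit 207) (nat_lit 5) (nat_lit 213) (nat_lit 5) (nat_lit 214) (nat_lit 5) (nat_lit 637) (nat_lit 568) (nat_lit 355)) (XT.lf (nat_lit 0) (nat_lit 16896482861) (nat_lit 456) (nat_lit 2597936244) (nat_lit 532) (nat_lit 3460575717) (nat_lit 207) (nat_lit 5) (nat_lit 213) (nat_lit 5) (nat_lit 214) (nat_lit 5) (nat_lit 638) (nat_lit 568) (nat_lit 354)))))) (XT.nd (nat_lit 468) (nat_lit 1748) (nat_lit 0) (XT.nd (nat_lit 234) (nat_lit 988) (nat_lit 0) (XT.nd (nat_lit 78) (nat_lit 456) (nat_lit 0) (XT.lf (nat_lit 0) (nat_lit 1069927197) (nat_lit 608) (nat_lit 15870365102) (nat_lit 76) (nat_lit 6291612054) (nat_lit 199) (nat_lit 5) (nat_lit 207) (nat_lit 5) (nat_lit 200)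 (nat_lit 5) (nat_lit 639) (nat_lit 568) (nat_lit 353)) (XT.nd (nat_lit 78) (nat_lit 456) (nat_lit 0) (XT.lf (nat_lit 0) (nat_lit 5697692974) (nat_lit 608) (nat_lit 2429119726) (nat_lit 76) (nat_lit 15386022605) (nat_lit 199) (nat_lit 5) (nat_lit 207) (nat_lit 5) (nat_lit 200) (nat_lit 5) (nat_lit 640) (nat_lit 568) (nat_lit 352)) (XT.lf (nat_lit 0) (nat_lit 10493182477) (nat_lit 532) (nat_lit 12380472692) (nat_lit 76) (nat_lit 924226845) (nat_lit 193) (nat_lit 5) (nat_lit 200) (nat_lit 5) (nat_lit 194) (nat_lit 5) (nat_lit 641) (nat_lit 568) (nat_lit 351)))) (XT.nd (nat_lit 78) (nat_lit 532) (nat_lit 0) (XT.lf (nat_lit 0) (nat_lit 1443291491) (nat_lit 456) (nat_lit 14015847867) (nat_lit 532) (nat_lit 8627999643) (nat_lit 187) (nat_lit 5) (nat_lit 193) (nat_lit 5) (nat_lit 194) (nat_lit 5) (nat_lit 642) (nat_lit 568) (nat_lit 350)) (XT.nd (nat_lit 78) (nat_lit 532) (nat_lit 0) (XT.lf (nat_lit 0) (nat_lit 15704196608) (nat_lit 456) (nat_lit 4898308868) (nat_lit 532) (nat_lit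 3778114335) (nat_lit 187) (nat_lit 5) (nat_lit 193) (nat_lit 5) (nat_lit 194) (nat_lit 5) (nat_lit 643) (nat_lit 568) (nat_lit 349)) (XT.lf (nat_lit 0) (nat_lit 1213922471) (nat_lit 532) (nat_lit 19078530006) (nat_lit 76) (nat_lit 4386156813) (nat_lit 180) (nat_lit 5) (nat_lit 187) (nat_lit 5) (nat_lit 181) (nat_lit 5) (nat_lit 644) (nat_lit 568) (nat_lit 348))))) (XT.nd (nat_lit 234) (nat_lit 1292) (nat_lit 0) (XT.nd (nat_lit 78) (nat_lit 456) (nat_lit 0) (XT.lf (nat_lit 0) (nat_lit 6341418875) (nat_lit 532) (nat_lit 4766634261) (nat_lit 76) (nat_lit 13872282256) (nat_lit 180) (nat_lit 5) (nat_lit 187) (nat_lit 5) (nat_lit 181) (nat_lit 5) (nat_lit 645) (nat_lit 568) (nat_lit 347)) (XT.nd (nat_lit 78) (nat_lit 0) (nat_lit 0) (XT.lf (nat_lit 0) (nat_lit 9955083825) (nat_lit 456) (nat_lit 1676224663) (nat_lit 532) (nat_lit 13655591112) (nat_lit 174) (nat_lit 5) (nat_lit 180) (nat_lit 5) (nat_lit 181) (nat_lit 5) (nat_lit 646) (nat_lit 568) (nat_lit 346)) (XT.lf (nat_lit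 0) (nat_lit 17106016633) (nat_lit 532) (nat_lit 621910671) (nat_lit 76) (nat_lit 7870087814) (nat_lit 174) (nat_lit 5) (nat_lit 181) (nat_lit 5) (nat_lit 175) (nat_lit 5) (nat_lit 647) (nat_lit 568) (nat_lit 345)))) (XT.nd (nat_lit 156) (nat_lit 380) (nat_lit 0) (XT.nd (nat_lit 78) (nat_lit 532) (nat_lit 0) (XT.lf (nat_lit 0) (nat_lit 14555108639) (nat_lit 380) (nat_lit 8236048824) (nat_lit 456) (nat_lit 3122177144) (nat_lit 169) (nat_lit 5) (nat_lit 174) (nat_lit 5) (nat_lit 175) (nat_lit 5) (nat_lit 648) (nat_lit 568) (nat_lit 344)) (XT.lf (nat_lit 0) (nat_lit 2358287486) (nat_lit 532) (nat_lit 22406493618) (nat_lit 76) (nat_lit 1469191315) (nat_lit 162) (nat_lit 5) (nat_lit 169) (nat_lit 5) (nat_lit 163) (nat_lit 5) (nat_lit 649) (nat_lit 568) (nat_lit 343))) (XT.nd (nat_lit 78) (nat_lit 380) (nat_lit 0) (XT.lf (nat_lit 0) (nat_lit 8033246814) (nat_lit 532) (nat_lit 7171287361) (nat_lit 76) (nat_lit 11353542640) (nat_lit 162) (nat_lit 5) (nat_lit 169) (nat_lit 5) (nat_lit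 163) (nat_lit 5) (nat_lit 650) (nat_lit 568) (nat_lit 342)) (XT.lf (nat_lit 0) (nat_lit 8472957804) (nat_lit 380) (nat_lit 5399234554) (nat_lit 456) (nat_lit 13015461598) (nat_lit 157) (nat_lit 5) (nat_lit 162) (nat_lit 5) (nat_lit 163) (nat_lit 5) (nat_lit 651) (nat_lit 568) (nat_lit 341))))))))
noncomputable def xc190 : XT := (XT.nd (nat_lit 76284) (nat_lit 0) (nat_lit 14364) (XT.nd (nat_lit 75270) (nat_lit 0) (nat_lit 25232) (XT.nd (nat_lit 74802) (nat_lit 0) (nat_lit 26524) (XT.nd (nat_lit 234) (nat_lit 380) (nat_lit 0) (XT.nd (nat_lit 78) (nat_lit 836) (nat_lit 0) (XT.lf (nat_lit 0) (nat_lit 19901744168) (nat_lit 456) (nat_lit 2732582862) (nat_lit 76) (nat_lit 4588019455) (nat_lit 157) (nat_lit 5) (nat_lit 163) (nat_lit 5) (nat_lit 158) (nat_lit 5) (nat_lit 652) (nat_lit 568) (nat_lit 340)) (XT.nd (nat_lit 78) (nat_lit 456) (nat_lit 0) (XT.lf (nat_lit 0) (nat_lit 13396426242) (nat_lit 380) (nat_lit 12773789107) (nat_lit 456) (nat_lit 1391151332) (nat_lit 152) (nat_lit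 5) (nat_lit 157) (nat_lit 5) (nat_lit 158) (nat_lit 5) (nat_lit 653) (nat_lit 568) (nat_lit 339)) (XT.lf (nat_lit 0) (nat_lit 1966995088) (nat_lit 380) (nat_lit 2655654535) (nat_lit 456) (nat_lit 23283376576) (nat_lit 146) (nat_lit 5) (nat_lit 151) (nat_lit 5) (nat_lit 152) (nat_lit 5) (nat_lit 654) (nat_lit 568) (nat_lit 338)))) (XT.nd (nat_lit 78) (nat_lit 380) (nat_lit 0) (XT.lf (nat_lit 0) (nat_lit 10879200711) (nat_lit 456) (nat_lit 9708436180) (nat_lit 76) (nat_lit 7666936436) (nat_lit 146) (nat_lit 5) (nat_lit 152) (nat_lit 5) (nat_lit 147) (nat_lit 5) (nat_lit 655) (nat_lit 568) (nat_lit 337)) (XT.nd (nat_lit 74412) (nat_lit 0) (nat_lit 26524) (XT.lf (nat_lit 0) (nat_lit 6913254548) (nat_lit 380) (nat_lit 10405821673) (nat_lit 456) (nat_lit 11289851662) (nat_lit 141) (nat_lit 5) (nat_lit 146) (nat_lit 5) (nat_lit 147) (nat_lit 5) (nat_lit 656) (nat_lit 568) (nat_lit 336)) (XT.lf (nat_lit 0) (nat_lit 1340649810) (nat_lit 1748) (nat_lit 2107126806) (nat_lit 1748)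 (nat_lit 2107126806) (nat_lit 490) (nat_lit 3) (nat_lit 513) (nat_lit 3) (nat_lit 513) (nat_lit 5) (nat_lit 569) (nat_lit 569) (nat_lit 422))))) (XT.nd (nat_lit 234) (nat_lit 0) (nat_lit 152) (XT.nd (nat_lit 78) (nat_lit 0) (nat_lit 76) (XT.lf (nat_lit 76) (nat_lit 1249856367) (nat_lit 0) (nat_lit 2024434512) (nat_lit 1748) (nat_lit 7935200102) (nat_lit 491) (nat_lit 5) (nat_lit 490) (nat_lit 3) (nat_lit 513) (nat_lit 5) (nat_lit 570) (nat_lit 569) (nat_lit 421)) (XT.nd (nat_lit 78) (nat_lit 0) (nat_lit 0) (XT.lf (nat_lit 0) (nat_lit 3912083113) (nat_lit 1672) (nat_lit 4457439967) (nat_lit 1748) (nat_lit 2940989268) (nat_lit 491) (nat_lit 5) (nat_lit 513) (nat_lit 5) (nat_lit 514) (nat_lit 5) (nat_lit 571) (nat_lit 569) (nat_lit 420)) (XT.lf (nat_lit 76) (nat_lit 1148703994) (nat_lit 0) (nat_lit 3420438187) (nat_lit 1748) (nat_lit 6844284066) (nat_lit 492) (nat_lit 5) (nat_lit 491) (nat_lit 5) (nat_lit 514) (nat_lit 5) (nat_lit 572) (nat_lit 569) (nat_lit 419)))) (XT.nd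 (nat_lit 78) (nat_lit 0) (nat_lit 0) (XT.lf (nat_lit 0) (nat_lit 5265939054) (nat_lit 1672) (nat_lit 4609201909) (nat_lit 1748) (nat_lit 1642727805) (nat_lit 492) (nat_lit 5) (nat_lit 514) (nat_lit 5) (nat_lit 515) (nat_lit 5) (nat_lit 573) (nat_lit 569) (nat_lit 418)) (XT.nd (nat_lit 78) (nat_lit 0) (nat_lit 76) (XT.lf (nat_lit 76) (nat_lit 1143908325) (nat_lit 0) (nat_lit 4849037675) (nat_lit 1748) (nat_lit 5631130892) (nat_lit 493) (nat_lit 5) (nat_lit 492) (nat_lit 5) (nat_lit 515) (nat_lit 5) (nat_lit 574) (nat_lit 569) (nat_lit 417)) (XT.lf (nat_lit 0) (nat_lit 6753882938) (nat_lit 1672) (nat_lit 4667368692) (nat_lit 1748) (nat_lit 310771940) (nat_lit 493) (nat_lit 5) (nat_lit 515) (nat_lit 5) (nat_lit 516) (nat_lit 5) (nat_lit 575) (nat_lit 569) (nat_lit 416)))))) (XT.nd (nat_lit 468) (nat_lit 1520) (nat_lit 0) (XT.nd (nat_lit 234) (nat_lit 0) (nat_lit 76) (XT.nd (nat_lit 78) (nat_lit 0) (nat_lit 0) (XT.lf (nat_lit 76) (nat_lit 1237837528) (nat_lit 0) (nat_lit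 6319068979) (nat_lit 1748) (nat_lit 4284687464) (nat_lit 494) (nat_lit 5) (nat_lit 493) (nat_lit 5) (nat_lit 516) (nat_lit 5) (nat_lit 576) (nat_lit 569) (nat_lit 415)) (XT.nd (nat_lit 78) (nat_lit 0) (nat_lit 76) (XT.lf (nat_lit 76) (nat_lit 7316496446) (nat_lit 0) (nat_lit 1077741815) (nat_lit 1748) (nat_lit 3558754670) (nat_lit 494) (nat_lit 5) (nat_lit 493) (nat_lit 5) (nat_lit 516) (nat_lit 5) (nat_lit 577) (nat_lit 569) (nat_lit 414)) (XT.lf (nat_lit 76) (nat_lit 1433136383) (nat_lit 0) (nat_lit 7839414848) (nat_lit 1748) (nat_lit 2793586011) (nat_lit 495) (nat_lit 5) (nat_lit 494) (nat_lit 5) (nat_lit 517) (nat_lit 5) (nat_lit 578) (nat_lit 569) (nat_lit 413)))) (XT.nd (nat_lit 78) (nat_lit 0) (nat_lit 76) (XT.lf (nat_lit 76) (nat_lit 7671776851) (nat_lit 0) (nat_lit 2522272403) (nat_lit 1748) (nat_lit 1986984833) (nat_lit 495) (nat_lit 5) (nat_lit 494) (nat_lit 5) (nat_lit 517) (nat_lit 5) (nat_lit 579) (nat_lit 569) (nat_lit 412)) (XT.nd (nat_lit 78) (nat_lit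 0) (nat_lit 0) (XT.lf (nat_lit 76) (nat_lit 1732726887) (nat_lit 0) (nat_lit 9419027953) (nat_lit 1748) (nat_lit 1146120460) (nat_lit 496) (nat_lit 5) (nat_lit 495) (nat_lit 5) (nat_lit 518) (nat_lit 5) (nat_lit 580) (nat_lit 569) (nat_lit 411)) (XT.lf (nat_lit 76) (nat_lit 8135679728) (nat_lit 0) (nat_lit 4027668150) (nat_lit 1748) (nat_lit 253012736) (nat_lit 496) (nat_lit 5) (nat_lit 495) (nat_lit 5) (nat_lit 518) (nat_lit 5) (nat_lit 581) (nat_lit 569) (nat_lit 410))))) (XT.nd (nat_lit 234) (nat_lit 0) (nat_lit 76) (XT.nd (nat_lit 78) (nat_lit 0) (nat_lit 0) (XT.lf (nat_lit 0) (nat_lit 660993315) (nat_lit 1748) (nat_lit 10401524947) (nat_lit 1824) (nat_lit 1474380495) (nat_lit 473) (nat_lit 5) (nat_lit 496) (nat_lit 5) (nat_lit 497) (nat_lit 5) (nat_lit 582) (nat_lit 569) (nat_lit 409)) (XT.nd (nat_lit 78) (nat_lit 0) (nat_lit 76) (XT.lf (nat_lit 0) (nat_lit 1633727927) (nat_lit 1748) (nat_lit 3958317655) (nat_lit 1824) (nat_lit 7066893741) (nat_lit 473) (nat_lit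 5) (nat_lit 496) (nat_lit 5) (nat_lit 497) (nat_lit 5) (nat_lit 583) (nat_lit 569) (nat_lit 408)) (XT.lf (nat_lit 0) (nat_lit 2631590710) (nat_lit 1748) (nat_lit 10143103907) (nat_lit 1824) (nat_lit 8614410) (nat_lit 474) (nat_lit 5) (nat_lit 497) (nat_lit 5) (nat_lit 498) (nat_lit 5) (nat_lit 584) (nat_lit 569) (nat_lit 407)))) (XT.nd (nat_lit 156) (nat_lit 0) (nat_lit 76) (XT.nd (nat_lit 78) (nat_lit 0) (nat_lit 0) (XT.lf (nat_lit 0) (nat_lit 3701851902) (nat_lit 1748) (nat_lit 3530804920) (nat_lit 1824) (nat_lit 5676462240) (nat_lit 474) (nat_lit 5) (nat_lit 497) (nat_lit 5) (nat_lit 498) (nat_lit 5) (nat_lit 585) (nat_lit 569) (nat_lit 406)) (XT.lf (nat_lit 76) (nat_lit 3248188556) (nat_lit 0) (nat_lit 1555310759) (nat_lit 1824) (nat_lit 8233748089) (nat_lit 475) (nat_lit 5) (nat_lit 474) (nat_lit 5) (nat_lit 498) (nat_lit 5) (nat_lit 586) (nat_lit 569) (nat_lit 405))) (XT.nd (nat_lit 78) (nat_lit 0) (nat_lit 0) (XT.lf (nat_lit 0) (nat_lit 5967605662) (nat_lit 1748)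 (nat_lit 2992836132) (nat_lit 1824) (nat_lit 4206689694) (nat_lit 475) (nat_lit 5) (nat_lit 498) (nat_lit 5) (nat_lit 499) (nat_lit 5) (nat_lit 587) (nat_lit 569) (nat_lit 404)) (XT.lf (nat_lit 76) (nat_lit 3972942845) (nat_lit 0) (nat_lit 3207435854) (nat_lit 1824) (nat_lit 6118728522) (nat_lit 476) (nat_lit 5) (nat_lit 475) (nat_lit 5) (nat_lit 499) (nat_lit 5) (nat_lit 588) (nat_lit 569) (nat_lit 403))))))) (XT.nd (nat_lit 936) (nat_lit 5852) (nat_lit 0) (XT.nd (nat_lit 468) (nat_lit 3496) (nat_lit 0) (XT.nd (nat_lit 234) (nat_lit 1748) (nat_lit 0) (XT.nd (nat_lit 78) (nat_lit 0) (nat_lit 0) (XT.lf (nat_lit 0) (nat_lit 8444360882) (nat_lit 1748) (nat_lit 2340470987) (nat_lit 1824) (nat_lit 2648353154) (nat_lit 476) (nat_lit 5) (nat_lit 499) (nat_lit 5) (nat_lit 500) (nat_lit 5) (nat_lit 589) (nat_lit 569) (nat_lit 402)) (XT.nd (nat_lit 78) (nat_lit 0) (nat_lit 76) (XT.lf (nat_lit 76) (nat_lit 4818708205) (nat_lit 0) (nat_lit 4957111263) (nat_lit 1824) (nat_lit 3793282571)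 (nat_lit 477) (nat_lit 5) (nat_lit 476) (nat_lit 5) (nat_lit 500) (nat_lit 5) (nat_lit 590) (nat_lit 569) (nat_lit 401)) (XT.lf (nat_lit 0) (nat_lit 11145958647) (nat_lit 1748) (nat_lit 1569489571) (nat_lit 1824) (nat_lit 992049714) (nat_lit 477) (nat_lit 5) (nat_lit 500) (nat_lit 5) (nat_lit 501) (nat_lit 5) (nat_lit 591) (nat_lit 569) (nat_lit 400)))) (XT.nd (nat_lit 78) (nat_lit 1824) (nat_lit 0) (XT.lf (nat_lit 76) (nat_lit 5789954603) (nat_lit 0) (nat_lit 6813998445) (nat_lit 1824) (nat_lit 1243501180) (nat_lit 478) (nat_lit 5) (nat_lit 477) (nat_lit 5) (nat_lit 501) (nat_lit 5) (nat_lit 592) (nat_lit 569) (nat_lit 399)) (XT.nd (nat_lit 78) (nat_lit 0) (nat_lit 76) (XT.lf (nat_lit 0) (nat_lit 100284012) (nat_lit 1824) (nat_lit 681126346) (nat_lit 1900) (nat_lit 13208773470) (nat_lit 453) (nat_lit 5) (nat_lit 477) (nat_lit 5) (nat_lit 478) (nat_lit 5) (nat_lit 593) (nat_lit 569) (nat_lit 398)) (XT.lf (nat_lit 0) (nat_lit 1524762287) (nat_lit 1824) (nat_lit 7252984216)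 (nat_lit 76) (nat_lit 5356449214) (nat_lit 454) (nat_lit 5) (nat_lit 478) (nat_lit 5) (nat_lit 455) (nat_lit 5) (nat_lit 594) (nat_lit 569) (nat_lit 397))))) (XT.nd (nat_lit 234) (nat_lit 912) (nat_lit 0) (XT.nd (nat_lit 78) (nat_lit 988) (nat_lit 0) (XT.lf (nat_lit 0) (nat_lit 313689376) (nat_lit 1672) (nat_lit 2666302757) (nat_lit 1748) (nat_lit 11301051887) (nat_lit 432) (nat_lit 5) (nat_lit 454) (nat_lit 5) (nat_lit 455) (nat_lit 5) (nat_lit 595) (nat_lit 569) (nat_lit 396)) (XT.nd (nat_lit 78) (nat_lit 988) (nat_lit 0) (XT.lf (nat_lit 0) (nat_lit 4527073370) (nat_lit 1748) (nat_lit 6331722778) (nat_lit 76) (nat_lit 3570779595) (nat_lit 432) (nat_lit 5) (nat_lit 455) (nat_lit 5) (nat_lit 433) (nat_lit 5) (nat_lit 596) (nat_lit 569) (nat_lit 395)) (XT.lf (nat_lit 0) (nat_lit 1449746992) (nat_lit 988) (nat_lit 4673195466) (nat_lit 1064) (nat_lit 8457780078) (nat_lit 419) (nat_lit 5) (nat_lit 432) (nat_lit 5) (nat_lit 433) (nat_lit 5) (nat_lit 597) (nat_lit 569) (nat_lit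 394)))) (XT.nd (nat_lit 78) (nat_lit 912) (nat_lit 0) (XT.lf (nat_lit 0) (nat_lit 7795031889) (nat_lit 1064) (nat_lit 5280638175) (nat_lit 76) (nat_lit 1658337479) (nat_lit 419) (nat_lit 5) (nat_lit 433) (nat_lit 5) (nat_lit 420) (nat_lit 5) (nat_lit 598) (nat_lit 569) (nat_lit 393)) (XT.nd (nat_lit 78) (nat_lit 0) (nat_lit 0) (XT.lf (nat_lit 0) (nat_lit 2723271992) (nat_lit 912) (nat_lit 6817008583) (nat_lit 988) (nat_lit 5349284632) (nat_lit 407) (nat_lit 5) (nat_lit 419) (nat_lit 5) (nat_lit 420) (nat_lit 5) (nat_lit 599) (nat_lit 569) (nat_lit 392)) (XT.lf (nat_lit 0) (nat_lit 10950692924) (nat_lit 912) (nat_lit 396386885) (nat_lit 988) (nat_lit 3700622588) (nat_lit 407) (nat_lit 5) (nat_lit 419) (nat_lit 5) (nat_lit 420) (nat_lit 5) (nat_lit 600) (nat_lit 569) (nat_lit 391)))))) (XT.nd (nat_lit 468) (nat_lit 2432) (nat_lit 0) (XT.nd (nat_lit 234) (nat_lit 1596) (nat_lit 0) (XT.nd (nat_lit 78) (nat_lit 912) (nat_lit 0) (XT.lf (nat_lit 0) (nat_lit 4139841825) (nat_lit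 912) (nat_lit 9108385027) (nat_lit 988) (nat_lit 1959612498) (nat_lit 395) (nat_lit 5) (nat_lit 407) (nat_lit 5) (nat_lit 408) (nat_lit 5) (nat_lit 601) (nat_lit 569) (nat_lit 390)) (XT.nd (nat_lit 78) (nat_lit 912) (nat_lit 0) (XT.lf (nat_lit 0) (nat_lit 12586194127) (nat_lit 912) (nat_lit 2622805998) (nat_lit 988) (nat_lit 161748086) (nat_lit 395) (nat_lit 5) (nat_lit 407) (nat_lit 5) (nat_lit 408) (nat_lit 5) (nat_lit 602) (nat_lit 569) (nat_lit 389)) (XT.lf (nat_lit 0) (nat_lit 1705140874) (nat_lit 912) (nat_lit 9841702166) (nat_lit 76) (nat_lit 3988756334) (nat_lit 383) (nat_lit 5) (nat_lit 395) (nat_lit 5) (nat_lit 384) (nat_lit 5) (nat_lit 603) (nat_lit 569) (nat_lit 388)))) (XT.nd (nat_lit 78) (nat_lit 1596) (nat_lit 0) (XT.lf (nat_lit 0) (nat_lit 3635109760) (nat_lit 912) (nat_lit 1350456444) (nat_lit 76) (nat_lit 10717602976) (nat_lit 383) (nat_lit 5) (nat_lit 395) (nat_lit 5) (nat_lit 384) (nat_lit 5) (nat_lit 604) (nat_lit 569) (nat_lit 387)) (XT.nd (nat_lit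 78) (nat_lit 760) (nat_lit 0) (XT.lf (nat_lit 0) (nat_lit 5655011721) (nat_lit 912) (nat_lit 8485052948) (nat_lit 76) (nat_lit 1733000178) (nat_lit 372) (nat_lit 5) (nat_lit 384) (nat_lit 5) (nat_lit 373) (nat_lit 5) (nat_lit 605) (nat_lit 569) (nat_lit 386)) (XT.lf (nat_lit 0) (nat_lit 235257420) (nat_lit 760) (nat_lit 7515717574) (nat_lit 836) (nat_lit 8294671286) (nat_lit 362) (nat_lit 5) (nat_lit 372) (nat_lit 5) (nat_lit 373) (nat_lit 5) (nat_lit 606) (nat_lit 569) (nat_lit 385))))) (XT.nd (nat_lit 234) (nat_lit 1596) (nat_lit 0) (XT.nd (nat_lit 78) (nat_lit 836) (nat_lit 0) (XT.lf (nat_lit 0) (nat_lit 9236915372) (nat_lit 760) (nat_lit 700982370) (nat_lit 836) (nat_lit 6282801889) (nat_lit 362) (nat_lit 5) (nat_lit 372) (nat_lit 5) (nat_lit 373) (nat_lit 5) (nat_lit 607) (nat_lit 569) (nat_lit 384)) (XT.nd (nat_lit 78) (nat_lit 0) (nat_lit 0) (XT.lf (nat_lit 0) (nat_lit 1996890321) (nat_lit 836) (nat_lit 10217468011) (nat_lit 912) (nat_lit 4183980804) (nat_lit 351)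 (nat_lit 5) (nat_lit 362) (nat_lit 5) (nat_lit 363) (nat_lit 5) (nat_lit 608) (nat_lit 569) (nat_lit 383)) (XT.lf (nat_lit 0) (nat_lit 11239122341) (nat_lit 836) (nat_lit 3341056982) (nat_lit 912) (nat_lit 1998476535) (nat_lit 351) (nat_lit 5) (nat_lit 362) (nat_lit 5) (nat_lit 363) (nat_lit 5) (nat_lit 609) (nat_lit 569) (nat_lit 382)))) (XT.nd (nat_lit 156) (nat_lit 760) (nat_lit 0) (XT.nd (nat_lit 78) (nat_lit 0) (nat_lit 0) (XT.lf (nat_lit 0) (nat_lit 269808632) (nat_lit 836) (nat_lit 12840302048) (nat_lit 76) (nat_lit 3651597346) (nat_lit 340) (nat_lit 5) (nat_lit 351) (nat_lit 5) (nat_lit 341) (nat_lit 5) (nat_lit 610) (nat_lit 569) (nat_lit 381)) (XT.lf (nat_lit 0) (nat_lit 2607466950) (nat_lit 836) (nat_lit 3551417791) (nat_lit 76) (nat_lit 10788257948) (nat_lit 340) (nat_lit 5) (nat_lit 351) (nat_lit 5) (nat_lit 341) (nat_lit 5) (nat_lit 611) (nat_lit 569) (nat_lit 380))) (XT.nd (nat_lit 78) (nat_lit 0) (nat_lit 0) (XT.lf (nat_lit 0) (nat_lit 5029789676) (nat_lit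 836) (nat_lit 11147999554) (nat_lit 76) (nat_lit 957739563) (nat_lit 330) (nat_lit 5) (nat_lit 341) (nat_lit 5) (nat_lit 331) (nat_lit 5) (nat_lit 612) (nat_lit 569) (nat_lit 379)) (XT.lf (nat_lit 0) (nat_lit 7558117662) (nat_lit 836) (nat_lit 1610744445) (nat_lit 76) (nat_lit 8157670289) (nat_lit 330) (nat_lit 5) (nat_lit 341) (nat_lit 5) (nat_lit 331) (nat_lit 5) (nat_lit 613) (nat_lit 569) (nat_lit 378))))))))
noncomputable def xc191 : XT := (XT.nd (nat_lit 1950) (nat_lit 4636) (nat_lit 0) (XT.nd (nat_lit 936) (nat_lit 4484) (nat_lit 0) (XT.nd (nat_lit 468) (nat_lit 1976) (nat_lit 0) (XT.nd (nat_lit 234) (nat_lit 1444) (nat_lit 0) (XT.nd (nat_lit 78) (nat_lit 760) (nat_lit 0) (XT.lf (nat_lit 0) (nat_lit 8217193445) (nat_lit 684) (nat_lit 1966093546) (nat_lit 760) (nat_lit 7337144519) (nat_lit 321) (nat_lit 5) (nat_lit 330) (nat_lit 5) (nat_lit 331) (nat_lit 5) (nat_lit 614) (nat_lit 569) (nat_lit 377)) (XT.nd (nat_lit 78) (nat_lit 0) (nat_lit 0) (XT.lf (nat_lit 0)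 (nat_lit 509287979) (nat_lit 760) (nat_lit 12393800570) (nat_lit 836) (nat_lit 4814278397) (nat_lit 311) (nat_lit 5) (nat_lit 321) (nat_lit 5) (nat_lit 322) (nat_lit 5) (nat_lit 615) (nat_lit 569) (nat_lit 376)) (XT.lf (nat_lit 0) (nat_lit 10623114641) (nat_lit 760) (nat_lit 5122628425) (nat_lit 836) (nat_lit 2171129783) (nat_lit 311) (nat_lit 5) (nat_lit 321) (nat_lit 5) (nat_lit 322) (nat_lit 5) (nat_lit 616) (nat_lit 569) (nat_lit 375)))) (XT.nd (nat_lit 78) (nat_lit 684) (nat_lit 0) (XT.lf (nat_lit 0) (nat_lit 544683864) (nat_lit 760) (nat_lit 15290149327) (nat_lit 76) (nat_lit 2284934667) (nat_lit 301) (nat_lit 5) (nat_lit 311) (nat_lit 5) (nat_lit 302) (nat_lit 5) (nat_lit 617) (nat_lit 569) (nat_lit 374)) (XT.nd (nat_lit 78) (nat_lit 684) (nat_lit 0) (XT.lf (nat_lit 0) (nat_lit 3362222292) (nat_lit 760) (nat_lit 5127916524) (nat_lit 76) (nat_lit 9834766174) (nat_lit 301) (nat_lit 5) (nat_lit 311) (nat_lit 5) (nat_lit 302) (nat_lit 5) (nat_lit 618) (nat_lit 569)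 (nat_lit 373)) (XT.lf (nat_lit 0) (nat_lit 5299338093) (nat_lit 684) (nat_lit 964571361) (nat_lit 760) (nat_lit 12269680282) (nat_lit 292) (nat_lit 5) (nat_lit 301) (nat_lit 5) (nat_lit 302) (nat_lit 5) (nat_lit 619) (nat_lit 569) (nat_lit 372))))) (XT.nd (nat_lit 234) (nat_lit 1368) (nat_lit 0) (XT.nd (nat_lit 78) (nat_lit 608) (nat_lit 0) (XT.lf (nat_lit 0) (nat_lit 9295308304) (nat_lit 760) (nat_lit 2792713095) (nat_lit 76) (nat_lit 6656994033) (nat_lit 292) (nat_lit 5) (nat_lit 302) (nat_lit 5) (nat_lit 293) (nat_lit 5) (nat_lit 620) (nat_lit 569) (nat_lit 371)) (XT.nd (nat_lit 78) (nat_lit 0) (nat_lit 0) (XT.lf (nat_lit 0) (nat_lit 7947861103) (nat_lit 608) (nat_lit 4491056349) (nat_lit 684) (nat_lit 6520721341) (nat_lit 284) (nat_lit 5) (nat_lit 292) (nat_lit 5) (nat_lit 293) (nat_lit 5) (nat_lit 621) (nat_lit 569) (nat_lit 370)) (XT.lf (nat_lit 0) (nat_lit 15679075372) (nat_lit 684) (nat_lit 266067070) (nat_lit 76) (nat_lit 3232739429) (nat_lit 284) (nat_lit 5)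 (nat_lit 293) (nat_lit 5) (nat_lit 285) (nat_lit 5) (nat_lit 622) (nat_lit 569) (nat_lit 369)))) (XT.nd (nat_lit 78) (nat_lit 684) (nat_lit 0) (XT.lf (nat_lit 0) (nat_lit 10798882415) (nat_lit 684) (nat_lit 8278793748) (nat_lit 760) (nat_lit 320941621) (nat_lit 275) (nat_lit 5) (nat_lit 284) (nat_lit 5) (nat_lit 285) (nat_lit 5) (nat_lit 623) (nat_lit 569) (nat_lit 368)) (XT.nd (nat_lit 78) (nat_lit 0) (nat_lit 0) (XT.lf (nat_lit 0) (nat_lit 2470841093) (nat_lit 608) (nat_lit 422992239) (nat_lit 684) (nat_lit 16729323477) (nat_lit 266) (nat_lit 5) (nat_lit 274) (nat_lit 5) (nat_lit 275) (nat_lit 5) (nat_lit 624) (nat_lit 569) (nat_lit 367)) (XT.lf (nat_lit 0) (nat_lit 6269858900) (nat_lit 684) (nat_lit 6031077512) (nat_lit 76) (nat_lit 7549183445) (nat_lit 266) (nat_lit 5) (nat_lit 275) (nat_lit 5) (nat_lit 267) (nat_lit 5) (nat_lit 625) (nat_lit 569) (nat_lit 366)))))) (XT.nd (nat_lit 468) (nat_lit 2128) (nat_lit 0) (XT.nd (nat_lit 234) (nat_lit 1216) (nat_lit 0) (XT.nd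 (nat_lit 78) (nat_lit 532) (nat_lit 0) (XT.lf (nat_lit 0) (nat_lit 5372739424) (nat_lit 608) (nat_lit 4372348989) (nat_lit 684) (nat_lit 10335900794) (nat_lit 258) (nat_lit 5) (nat_lit 266) (nat_lit 5) (nat_lit 267) (nat_lit 5) (nat_lit 626) (nat_lit 569) (nat_lit 365)) (XT.nd (nat_lit 78) (nat_lit 532) (nat_lit 0) (XT.lf (nat_lit 0) (nat_lit 13348739350) (nat_lit 684) (nat_lit 3261237217) (nat_lit 76) (nat_lit 3705321735) (nat_lit 258) (nat_lit 5) (nat_lit 267) (nat_lit 5) (nat_lit 259) (nat_lit 5) (nat_lit 627) (nat_lit 569) (nat_lit 364)) (XT.lf (nat_lit 0) (nat_lit 8489682563) (nat_lit 532) (nat_lit 8613031945) (nat_lit 608) (nat_lit 3450014728) (nat_lit 251) (nat_lit 5) (nat_lit 258) (nat_lit 5) (nat_lit 259) (nat_lit 5) (nat_lit 628) (nat_lit 569) (nat_lit 363)))) (XT.nd (nat_lit 78) (nat_lit 1140) (nat_lit 0) (XT.lf (nat_lit 0) (nat_lit 151297142) (nat_lit 608) (nat_lit 283126628) (nat_lit 76) (nat_lit 20360143265) (nat_lit 250) (nat_lit 5) (nat_lit 258) (nat_lit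 5) (nat_lit 251) (nat_lit 5) (nat_lit 629) (nat_lit 569) (nat_lit 362)) (XT.nd (nat_lit 78) (nat_lit 532) (nat_lit 0) (XT.lf (nat_lit 0) (nat_lit 3901780057) (nat_lit 684) (nat_lit 9233595201) (nat_lit 76) (nat_lit 7902944073) (nat_lit 242) (nat_lit 5) (nat_lit 251) (nat_lit 5) (nat_lit 243) (nat_lit 5) (nat_lit 630) (nat_lit 569) (nat_lit 361)) (XT.lf (nat_lit 0) (nat_lit 2878769136) (nat_lit 532) (nat_lit 4866353432) (nat_lit 608) (nat_lit 13541467735) (nat_lit 235) (nat_lit 5) (nat_lit 242) (nat_lit 5) (nat_lit 243) (nat_lit 5) (nat_lit 631) (nat_lit 569) (nat_lit 360))))) (XT.nd (nat_lit 234) (nat_lit 1596) (nat_lit 0) (XT.nd (nat_lit 78) (nat_lit 532) (nat_lit 0) (XT.lf (nat_lit 0) (nat_lit 11745291900) (nat_lit 608) (nat_lit 6211029572) (nat_lit 76) (nat_lit 3581906639) (nat_lit 235) (nat_lit 5) (nat_lit 243) (nat_lit 5) (nat_lit 236) (nat_lit 5) (nat_lit 632) (nat_lit 569) (nat_lit 359)) (XT.nd (nat_lit 78) (nat_lit 0) (nat_lit 0) (XT.lf (nat_lit 0) (nat_lit 6272470006)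 (nat_lit 532) (nat_lit 9620477744) (nat_lit 608) (nat_lit 5900601867) (nat_lit 228) (nat_lit 5) (nat_lit 235) (nat_lit 5) (nat_lit 236) (nat_lit 5) (nat_lit 633) (nat_lit 569) (nat_lit 358)) (XT.lf (nat_lit 0) (nat_lit 19082614600) (nat_lit 532) (nat_lit 1077212369) (nat_lit 608) (nat_lit 1893425772) (nat_lit 228) (nat_lit 5) (nat_lit 235) (nat_lit 5) (nat_lit 236) (nat_lit 5) (nat_lit 634) (nat_lit 569) (nat_lit 357)))) (XT.nd (nat_lit 156) (nat_lit 456) (nat_lit 0) (XT.nd (nat_lit 78) (nat_lit 532) (nat_lit 0) (XT.lf (nat_lit 0) (nat_lit 2274411455) (nat_lit 608) (nat_lit 12426992734) (nat_lit 76) (nat_lit 7614275607) (nat_lit 220) (nat_lit 5) (nat_lit 228) (nat_lit 5) (nat_lit 221) (nat_lit 5) (nat_lit 635) (nat_lit 569) (nat_lit 356)) (XT.lf (nat_lit 0) (nat_lit 441297992) (nat_lit 532) (nat_lit 6083751887) (nat_lit 608) (nat_lit 16057559810) (nat_lit 213) (nat_lit 5) (nat_lit 220) (nat_lit 5) (nat_lit 221) (nat_lit 5) (nat_lit 636) (nat_lit 569) (nat_lit 355))) (XT.nd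 (nat_lit 78) (nat_lit 456) (nat_lit 0) (XT.lf (nat_lit 0) (nat_lit 10956968836) (nat_lit 608) (nat_lit 9143167648) (nat_lit 76) (nat_lit 2752816889) (nat_lit 213) (nat_lit 5) (nat_lit 221) (nat_lit 5) (nat_lit 214) (nat_lit 5) (nat_lit 637) (nat_lit 569) (nat_lit 354)) (XT.lf (nat_lit 0) (nat_lit 4121607178) (nat_lit 456) (nat_lit 11417824876) (nat_lit 532) (nat_lit 7588034294) (nat_lit 207) (nat_lit 5) (nat_lit 213) (nat_lit 5) (nat_lit 214) (nat_lit 5) (nat_lit 638) (nat_lit 569) (nat_lit 353))))))) (XT.nd (nat_lit 1014) (nat_lit 1216) (nat_lit 0) (XT.nd (nat_lit 468) (nat_lit 1900) (nat_lit 0) (XT.nd (nat_lit 234) (nat_lit 912) (nat_lit 0) (XT.nd (nat_lit 78) (nat_lit 608) (nat_lit 0) (XT.lf (nat_lit 0) (nat_lit 17768564268) (nat_lit 456) (nat_lit 2501246748) (nat_lit 532) (nat_lit 3136533766) (nat_lit 207) (nat_lit 5) (nat_lit 213) (nat_lit 5) (nat_lit 214) (nat_lit 5) (nat_lit 639) (nat_lit 569) (nat_lit 352)) (XT.nd (nat_lit 78) (nat_lit 0) (nat_lit 0) (XT.lf (nat_lit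 0) (nat_lit 1476276478) (nat_lit 608) (nat_lit 15645240524) (nat_lit 76) (nat_lit 6567288107) (nat_lit 199) (nat_lit 5) (nat_lit 207) (nat_lit 5) (nat_lit 200) (nat_lit 5) (nat_lit 640) (nat_lit 569) (nat_lit 351)) (XT.lf (nat_lit 0) (nat_lit 6189049517) (nat_lit 608) (nat_lit 1945808120) (nat_lit 76) (nat_lit 15840648755) (nat_lit 199) (nat_lit 5) (nat_lit 207) (nat_lit 5) (nat_lit 200) (nat_lit 5) (nat_lit 641) (nat_lit 569) (nat_lit 350)))) (XT.nd (nat_lit 78) (nat_lit 456) (nat_lit 0) (XT.lf (nat_lit 0) (nat_lit 11077485557) (nat_lit 532) (nat_lit 12093188065) (nat_lit 76) (nat_lit 1095640414) (nat_lit 193) (nat_lit 5) (nat_lit 200) (nat_lit 5) (nat_lit 194) (nat_lit 5) (nat_lit 642) (nat_lit 569) (nat_lit 349)) (XT.nd (nat_lit 78) (nat_lit 0) (nat_lit 0) (XT.lf (nat_lit 0) (nat_lit 2003532362) (nat_lit 456) (nat_lit 14135337304) (nat_lit 532) (nat_lit 8422565058) (nat_lit 187) (nat_lit 5) (nat_lit 193) (nat_lit 5) (nat_lit 194) (nat_lit 5) (nat_lit 643) (nat_lit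 569) (nat_lit 348)) (XT.lf (nat_lit 0) (nat_lit 16539236463) (nat_lit 456) (nat_lit 4838601006) (nat_lit 532) (nat_lit 3483093702) (nat_lit 187) (nat_lit 5) (nat_lit 193) (nat_lit 5) (nat_lit 194) (nat_lit 5) (nat_lit 644) (nat_lit 569) (nat_lit 347))))) (XT.nd (nat_lit 234) (nat_lit 912) (nat_lit 0) (XT.nd (nat_lit 78) (nat_lit 456) (nat_lit 0) (XT.lf (nat_lit 0) (nat_lit 1601185992) (nat_lit 532) (nat_lit 18931478105) (nat_lit 76) (nat_lit 4632223652) (nat_lit 180) (nat_lit 5) (nat_lit 187) (nat_lit 5) (nat_lit 181) (nat_lit 5) (nat_lit 645) (nat_lit 569) (nat_lit 346)) (XT.nd (nat_lit 78) (nat_lit 456) (nat_lit 0) (XT.lf (nat_lit 0) (nat_lit 6824114970) (nat_lit 532) (nat_lit 4343709593) (nat_lit 76) (nat_lit 14304966826) (nat_lit 180) (nat_lit 5) (nat_lit 187) (nat_lit 5) (nat_lit 181) (nat_lit 5) (nat_lit 646) (nat_lit 569) (nat_lit 345)) (XT.lf (nat_lit 0) (nat_lit 10669033268) (nat_lit 456) (nat_lit 1547134042) (nat_lit 532) (nat_lit 13569392926) (nat_lit 174)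 (nat_lit 5) (nat_lit 180) (nat_lit 5) (nat_lit 181) (nat_lit 5) (nat_lit 647) (nat_lit 569) (nat_lit 344)))) (XT.nd (nat_lit 156) (nat_lit 532) (nat_lit 0) (XT.nd (nat_lit 78) (nat_lit 380) (nat_lit 0) (XT.lf (nat_lit 0) (nat_lit 17794498198) (nat_lit 532) (nat_lit 123692691) (nat_lit 76) (nat_lit 8184825244) (nat_lit 174) (nat_lit 5) (nat_lit 181) (nat_lit 5) (nat_lit 175) (nat_lit 5) (nat_lit 648) (nat_lit 569) (nat_lit 343)) (XT.lf (nat_lit 0) (nat_lit 15353507425) (nat_lit 380) (nat_lit 8236336730) (nat_lit 456) (nat_lit 2834868441) (nat_lit 169) (nat_lit 5) (nat_lit 174) (nat_lit 5) (nat_lit 175) (nat_lit 5) (nat_lit 649) (nat_lit 569) (nat_lit 342))) (XT.nd (nat_lit 78) (nat_lit 0) (nat_lit 0) (XT.lf (nat_lit 0) (nat_lit 2748235581) (nat_lit 532) (nat_lit 22340295946) (nat_lit 76) (nat_lit 1663234481) (nat_lit 162) (nat_lit 5) (nat_lit 169) (nat_lit 5) (nat_lit 163) (nat_lit 5) (nat_lit 650) (nat_lit 569) (nat_lit 341)) (XT.lf (nat_lit 0) (nat_lit 8529972873) (nat_lit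 532) (nat_lit 6810470418) (nat_lit 76) (nat_lit 11742044217) (nat_lit 162) (nat_lit 5) (nat_lit 169) (nat_lit 5) (nat_lit 163) (nat_lit 5) (nat_lit 651) (nat_lit 569) (nat_lit 340)))))) (XT.nd (nat_lit 74880) (nat_lit 0) (nat_lit 26144) (XT.nd (nat_lit 234) (nat_lit 456) (nat_lit 0) (XT.nd (nat_lit 78) (nat_lit 380) (nat_lit 0) (XT.lf (nat_lit 0) (nat_lit 9143342265) (nat_lit 380) (nat_lit 5339017969) (nat_lit 456) (nat_lit 12936363282) (nat_lit 157) (nat_lit 5) (nat_lit 162) (nat_lit 5) (nat_lit 163) (nat_lit 5) (nat_lit 652) (nat_lit 569) (nat_lit 339)) (XT.nd (nat_lit 78) (nat_lit 380) (nat_lit 0) (XT.lf (nat_lit 0) (nat_lit 20627049740) (nat_lit 456) (nat_lit 2290649470) (nat_lit 76) (nat_lit 4842520321) (nat_lit 157) (nat_lit 5) (nat_lit 163) (nat_lit 5) (nat_lit 158) (nat_lit 5) (nat_lit 653) (nat_lit 569) (nat_lit 338)) (XT.lf (nat_lit 0) (nat_lit 14157672809) (nat_lit 380) (nat_lit 12860003411) (nat_lit 456) (nat_lit 1088408751) (nat_lit 152) (nat_lit 5) (nat_lit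 157) (nat_lit 5) (nat_lit 158) (nat_lit 5) (nat_lit 654) (nat_lit 569) (nat_lit 337)))) (XT.nd (nat_lit 78) (nat_lit 0) (nat_lit 0) (XT.lf (nat_lit 0) (nat_lit 2500741609) (nat_lit 380) (nat_lit 2537404533) (nat_lit 456) (nat_lit 23419512883) (nat_lit 146) (nat_lit 5) (nat_lit 151) (nat_lit 5) (nat_lit 152) (nat_lit 5) (nat_lit 655) (nat_lit 569) (nat_lit 336)) (XT.nd (nat_lit 74490) (nat_lit 0) (nat_lit 26144) (XT.lf (nat_lit 0) (nat_lit 11414584852) (nat_lit 456) (nat_lit 9412622830) (nat_lit 76) (nat_lit 7986074807) (nat_lit 146) (nat_lit 5) (nat_lit 152) (nat_lit 5) (nat_lit 147) (nat_lit 5) (nat_lit 656) (nat_lit 569) (nat_lit 335)) (XT.lf (nat_lit 0) (nat_lit 1921902856) (nat_lit 1748) (nat_lit 1866460027) (nat_lit 1748) (nat_lit 1866460027) (nat_lit 490) (nat_lit 3) (nat_lit 513) (nat_lit 3) (nat_lit 513) (nat_lit 5) (nat_lit 570) (nat_lit 570) (nat_lit 420))))) (XT.nd (nat_lit 234) (nat_lit 0) (nat_lit 152) (XT.nd (nat_lit 78) (nat_lit 0) (nat_lit 76) (XT.lf (nat_lit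 76) (nat_lit 1836750950) (nat_lit 0) (nat_lit 2593811311) (nat_lit 1748) (nat_lit 6981126791) (nat_lit 491) (nat_lit 5) (nat_lit 490) (nat_lit 3) (nat_lit 513) (nat_lit 5) (nat_lit 571) (nat_lit 570) (nat_lit 419)) (XT.nd (nat_lit 78) (nat_lit 0) (nat_lit 0) (XT.lf (nat_lit 0) (nat_lit 5056355825) (nat_lit 1672) (nat_lit 3970781808) (nat_lit 1748) (nat_lit 2488091754) (nat_lit 491) (nat_lit 5) (nat_lit 513) (nat_lit 5) (nat_lit 514) (nat_lit 5) (nat_lit 572) (nat_lit 570) (nat_lit 418)) (XT.lf (nat_lit 76) (nat_lit 1743696829) (nat_lit 0) (nat_lit 3965670601) (nat_lit 1748) (nat_lit 5911181291) (nat_lit 492) (nat_lit 5) (nat_lit 491) (nat_lit 5) (nat_lit 514) (nat_lit 5) (nat_lit 573) (nat_lit 570) (nat_lit 417)))) (XT.nd (nat_lit 156) (nat_lit 0) (nat_lit 0) (XT.nd (nat_lit 78) (nat_lit 0) (nat_lit 0) (XT.lf (nat_lit 0) (nat_lit 6396499551) (nat_lit 1672) (nat_lit 4116816672) (nat_lit 1748) (nat_lit 1214239202) (nat_lit 492) (nat_lit 5) (nat_lit 514) (nat_lit 5) (nat_lit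 515) (nat_lit 5) (nat_lit 574) (nat_lit 570) (nat_lit 416)) (XT.lf (nat_lit 76) (nat_lit 1747509916) (nat_lit 0) (nat_lit 5374204382) (nat_lit 1748) (nat_lit 4714503311) (nat_lit 493) (nat_lit 5) (nat_lit 492) (nat_lit 5) (nat_lit 515) (nat_lit 5) (nat_lit 575) (nat_lit 570) (nat_lit 415))) (XT.nd (nat_lit 78) (nat_lit 0) (nat_lit 76) (XT.lf (nat_lit 76) (nat_lit 7777411820) (nat_lit 0) (nat_lit 98590175) (nat_lit 1748) (nat_lit 4070761776) (nat_lit 493) (nat_lit 5) (nat_lit 492) (nat_lit 5) (nat_lit 515) (nat_lit 5) (nat_lit 576) (nat_lit 570) (nat_lit 414)) (XT.lf (nat_lit 76) (nat_lit 1850703742) (nat_lit 0) (nat_lit 6828219376) (nat_lit 1748) (nat_lit 3379928846) (nat_lit 494) (nat_lit 5) (nat_lit 493) (nat_lit 5) (nat_lit 516) (nat_lit 5) (nat_lit 577) (nat_lit 570) (nat_lit 413))))))))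
noncomputable def xc192 : XT := (XT.nd (nat_lit 1950) (nat_lit 10412) (nat_lit 0) (XT.nd (nat_lit 936) (nat_lit 5852) (nat_lit 0) (XT.nd (nat_lit 468) (nat_lit 0) (nat_lit 76) (XT.nd (nat_lit 234) (nat_lit 1596) (nat_lit 0) (XT.nd (nat_lit 78) (nat_lit 0) (nat_lit 76) (XT.lf (nat_lit 76) (nat_lit 8039404280) (nat_lit 0) (nat_lit 1474560394) (nat_lit 1748) (nat_lit 2658898031) (nat_lit 494) (nat_lit 5) (nat_lit 493) (nat_lit 5) (nat_lit 516) (nat_lit 5) (nat_lit 578) (nat_lit 570) (nat_lit 412)) (XT.nd (nat_lit 78) (nat_lit 0) (nat_lit 0) (XT.lf (nat_lit 76) (nat_lit 2056068007) (nat_lit 0) (nat_lit 8336582035) (nat_lit 1748) (nat_lit 1895966742) (nat_lit 495) (nat_lit 5) (nat_lit 494) (nat_lit 5) (nat_lit 517) (nat_lit 5) (nat_lit 579) (nat_lit 570) (nat_lit 411)) (XT.lf (nat_lit 76) (nat_lit 8407828953) (nat_lit 0) (nat_lit 2906422645) (nat_lit 1748) (nat_lit 1091929442) (nat_lit 495) (nat_lit 5) (nat_lit 494) (nat_lit 5) (nat_lit 517) (nat_lit 5) (nat_lit 580) (nat_lit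 570) (nat_lit 410)))) (XT.nd (nat_lit 78) (nat_lit 1748) (nat_lit 0) (XT.lf (nat_lit 76) (nat_lit 2366669555) (nat_lit 0) (nat_lit 9908241481) (nat_lit 1748) (nat_lit 250774934) (nat_lit 496) (nat_lit 5) (nat_lit 495) (nat_lit 5) (nat_lit 518) (nat_lit 5) (nat_lit 581) (nat_lit 570) (nat_lit 409)) (XT.nd (nat_lit 78) (nat_lit 0) (nat_lit 76) (XT.lf (nat_lit 0) (nat_lit 633767256) (nat_lit 1748) (nat_lit 3765135628) (nat_lit 1824) (nat_lit 8247910537) (nat_lit 472) (nat_lit 5) (nat_lit 495) (nat_lit 5) (nat_lit 496) (nat_lit 5) (nat_lit 582) (nat_lit 570) (nat_lit 408)) (XT.lf (nat_lit 0) (nat_lit 1547300890) (nat_lit 1748) (nat_lit 9994568201) (nat_lit 1824) (nat_lit 1228169804) (nat_lit 473) (nat_lit 5) (nat_lit 496) (nat_lit 5) (nat_lit 497) (nat_lit 5) (nat_lit 583) (nat_lit 570) (nat_lit 407))))) (XT.nd (nat_lit 234) (nat_lit 0) (nat_lit 76) (XT.nd (nat_lit 78) (nat_lit 0) (nat_lit 0) (XT.lf (nat_lit 0) (nat_lit 2522370828) (nat_lit 1748) (nat_lit 3434555336) (nat_lit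 1824) (nat_lit 6937939163) (nat_lit 473) (nat_lit 5) (nat_lit 496) (nat_lit 5) (nat_lit 497) (nat_lit 5) (nat_lit 584) (nat_lit 570) (nat_lit 406)) (XT.nd (nat_lit 78) (nat_lit 0) (nat_lit 76) (XT.lf (nat_lit 76) (nat_lit 3292030221) (nat_lit 0) (nat_lit 235208003) (nat_lit 1824) (nat_lit 9494745869) (nat_lit 474) (nat_lit 5) (nat_lit 473) (nat_lit 5) (nat_lit 497) (nat_lit 5) (nat_lit 585) (nat_lit 570) (nat_lit 405)) (XT.lf (nat_lit 0) (nat_lit 4600877738) (nat_lit 1748) (nat_lit 2995990392) (nat_lit 1824) (nat_lit 5553805302) (nat_lit 474) (nat_lit 5) (nat_lit 497) (nat_lit 5) (nat_lit 498) (nat_lit 5) (nat_lit 586) (nat_lit 570) (nat_lit 404)))) (XT.nd (nat_lit 78) (nat_lit 0) (nat_lit 76) (XT.lf (nat_lit 76) (nat_lit 3914599857) (nat_lit 0) (nat_lit 1797686988) (nat_lit 1824) (nat_lit 7569325436) (nat_lit 475) (nat_lit 5) (nat_lit 474) (nat_lit 5) (nat_lit 498) (nat_lit 5) (nat_lit 587) (nat_lit 570) (nat_lit 403)) (XT.nd (nat_lit 78) (nat_lit 0) (nat_lit 0) (XT.lf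 (nat_lit 0) (nat_lit 6882394872) (nat_lit 1748) (nat_lit 2445634712) (nat_lit 1824) (nat_lit 4086412537) (nat_lit 475) (nat_lit 5) (nat_lit 498) (nat_lit 5) (nat_lit 499) (nat_lit 5) (nat_lit 588) (nat_lit 570) (nat_lit 402)) (XT.lf (nat_lit 76) (nat_lit 4655466042) (nat_lit 0) (nat_lit 3452276016) (nat_lit 1824) (nat_lit 5441551354) (nat_lit 476) (nat_lit 5) (nat_lit 475) (nat_lit 5) (nat_lit 499) (nat_lit 5) (nat_lit 589) (nat_lit 570) (nat_lit 401)))))) (XT.nd (nat_lit 468) (nat_lit 4408) (nat_lit 0) (XT.nd (nat_lit 234) (nat_lit 1748) (nat_lit 0) (XT.nd (nat_lit 78) (nat_lit 0) (nat_lit 0) (XT.lf (nat_lit 0) (nat_lit 9380485958) (nat_lit 1748) (nat_lit 1779404463) (nat_lit 1824) (nat_lit 2526495076) (nat_lit 476) (nat_lit 5) (nat_lit 499) (nat_lit 5) (nat_lit 500) (nat_lit 5) (nat_lit 590) (nat_lit 570) (nat_lit 400)) (XT.nd (nat_lit 78) (nat_lit 0) (nat_lit 76) (XT.lf (nat_lit 76) (nat_lit 5518959129) (nat_lit 0) (nat_lit 5208491475) (nat_lit 1824) (nat_lit 3097795034)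 (nat_lit 477) (nat_lit 5) (nat_lit 476) (nat_lit 5) (nat_lit 500) (nat_lit 5) (nat_lit 591) (nat_lit 570) (nat_lit 399)) (XT.lf (nat_lit 0) (nat_lit 12109197739) (nat_lit 1748) (nat_lit 992934626) (nat_lit 1824) (nat_lit 864595259) (nat_lit 477) (nat_lit 5) (nat_lit 500) (nat_lit 5) (nat_lit 501) (nat_lit 5) (nat_lit 592) (nat_lit 570) (nat_lit 398)))) (XT.nd (nat_lit 78) (nat_lit 1824) (nat_lit 0) (XT.lf (nat_lit 76) (nat_lit 6509698795) (nat_lit 0) (nat_lit 7076058368) (nat_lit 1824) (nat_lit 523940012) (nat_lit 478) (nat_lit 5) (nat_lit 477) (nat_lit 5) (nat_lit 501) (nat_lit 5) (nat_lit 593) (nat_lit 570) (nat_lit 397)) (XT.nd (nat_lit 78) (nat_lit 0) (nat_lit 76) (XT.lf (nat_lit 0) (nat_lit 822552283) (nat_lit 1824) (nat_lit 92966622) (nat_lit 1900) (nat_lit 13339956046) (nat_lit 453) (nat_lit 5) (nat_lit 477) (nat_lit 5) (nat_lit 478) (nat_lit 5) (nat_lit 594) (nat_lit 570) (nat_lit 396)) (XT.lf (nat_lit 0) (nat_lit 2264550327) (nat_lit 1824) (nat_lit 6785186657)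 (nat_lit 76) (nat_lit 5352851595) (nat_lit 454) (nat_lit 5) (nat_lit 478) (nat_lit 5) (nat_lit 455) (nat_lit 5) (nat_lit 595) (nat_lit 570) (nat_lit 395))))) (XT.nd (nat_lit 234) (nat_lit 1824) (nat_lit 0) (XT.nd (nat_lit 78) (nat_lit 988) (nat_lit 0) (XT.lf (nat_lit 0) (nat_lit 928788452) (nat_lit 1672) (nat_lit 2810141514) (nat_lit 1748) (nat_lit 10813645040) (nat_lit 432) (nat_lit 5) (nat_lit 454) (nat_lit 5) (nat_lit 455) (nat_lit 5) (nat_lit 596) (nat_lit 570) (nat_lit 394)) (XT.nd (nat_lit 78) (nat_lit 988) (nat_lit 0) (XT.lf (nat_lit 0) (nat_lit 5302664173) (nat_lit 1748) (nat_lit 5847079928) (nat_lit 76) (nat_lit 3554621058) (nat_lit 432) (nat_lit 5) (nat_lit 455) (nat_lit 5) (nat_lit 433) (nat_lit 5) (nat_lit 597) (nat_lit 570) (nat_lit 393)) (XT.lf (nat_lit 0) (nat_lit 2085997676) (nat_lit 988) (nat_lit 4834963334) (nat_lit 1064) (nat_lit 7937765654) (nat_lit 419) (nat_lit 5) (nat_lit 432) (nat_lit 5) (nat_lit 433) (nat_lit 5) (nat_lit 598) (nat_lit 570) (nat_lit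 392)))) (XT.nd (nat_lit 156) (nat_lit 912) (nat_lit 0) (XT.nd (nat_lit 78) (nat_lit 912) (nat_lit 0) (XT.lf (nat_lit 0) (nat_lit 8612811181) (nat_lit 1064) (nat_lit 4777123936) (nat_lit 76) (nat_lit 1625417816) (nat_lit 419) (nat_lit 5) (nat_lit 433) (nat_lit 5) (nat_lit 420) (nat_lit 5) (nat_lit 599) (nat_lit 570) (nat_lit 391)) (XT.lf (nat_lit 0) (nat_lit 3382857019) (nat_lit 912) (nat_lit 7001058647) (nat_lit 988) (nat_lit 4790288975) (nat_lit 407) (nat_lit 5) (nat_lit 419) (nat_lit 5) (nat_lit 420) (nat_lit 5) (nat_lit 600) (nat_lit 570) (nat_lit 390))) (XT.nd (nat_lit 78) (nat_lit 912) (nat_lit 0) (XT.lf (nat_lit 0) (nat_lit 11762961280) (nat_lit 912) (nat_lit 451089026) (nat_lit 988) (nat_lit 3121712148) (nat_lit 407) (nat_lit 5) (nat_lit 419) (nat_lit 5) (nat_lit 420) (nat_lit 5) (nat_lit 601) (nat_lit 570) (nat_lit 389)) (XT.lf (nat_lit 0) (nat_lit 4825101023) (nat_lit 912) (nat_lit 9319183532) (nat_lit 988) (nat_lit 1354998139) (nat_lit 395) (nat_lit 5) (nat_lit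 407) (nat_lit 5) (nat_lit 408) (nat_lit 5) (nat_lit 602) (nat_lit 570) (nat_lit 388))))))) (XT.nd (nat_lit 936) (nat_lit 5472) (nat_lit 0) (XT.nd (nat_lit 468) (nat_lit 2432) (nat_lit 0) (XT.nd (nat_lit 234) (nat_lit 1596) (nat_lit 0) (XT.nd (nat_lit 78) (nat_lit 836) (nat_lit 0) (XT.lf (nat_lit 0) (nat_lit 460085606) (nat_lit 988) (nat_lit 2240158511) (nat_lit 76) (nat_lit 12965394361) (nat_lit 394) (nat_lit 5) (nat_lit 407) (nat_lit 5) (nat_lit 395) (nat_lit 5) (nat_lit 603) (nat_lit 570) (nat_lit 387)) (XT.nd (nat_lit 78) (nat_lit 0) (nat_lit 0) (XT.lf (nat_lit 0) (nat_lit 2353671883) (nat_lit 912) (nat_lit 9430957756) (nat_lit 76) (nat_lit 4049306860) (nat_lit 383) (nat_lit 5) (nat_lit 395) (nat_lit 5) (nat_lit 384) (nat_lit 5) (nat_lit 604) (nat_lit 570) (nat_lit 386)) (XT.lf (nat_lit 0) (nat_lit 4310192535) (nat_lit 912) (nat_lit 781800422) (nat_lit 76) (nat_lit 10913107389) (nat_lit 383) (nat_lit 5) (nat_lit 395) (nat_lit 5) (nat_lit 384) (nat_lit 5) (nat_lit 605)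 (nat_lit 570) (nat_lit 385)))) (XT.nd (nat_lit 78) (nat_lit 760) (nat_lit 0) (XT.lf (nat_lit 0) (nat_lit 6362505859) (nat_lit 912) (nat_lit 8051019233) (nat_lit 76) (nat_lit 1765030227) (nat_lit 372) (nat_lit 5) (nat_lit 384) (nat_lit 5) (nat_lit 373) (nat_lit 5) (nat_lit 606) (nat_lit 570) (nat_lit 384)) (XT.nd (nat_lit 78) (nat_lit 0) (nat_lit 0) (XT.lf (nat_lit 0) (nat_lit 839725404) (nat_lit 760) (nat_lit 7652902269) (nat_lit 836) (nat_lit 7862117548) (nat_lit 362) (nat_lit 5) (nat_lit 372) (nat_lit 5) (nat_lit 373) (nat_lit 5) (nat_lit 607) (nat_lit 570) (nat_lit 383)) (XT.lf (nat_lit 0) (nat_lit 10009656459) (nat_lit 760) (nat_lit 702129806) (nat_lit 836) (nat_lit 5821745021) (nat_lit 362) (nat_lit 5) (nat_lit 372) (nat_lit 5) (nat_lit 373) (nat_lit 5) (nat_lit 608) (nat_lit 570) (nat_lit 382))))) (XT.nd (nat_lit 234) (nat_lit 760) (nat_lit 0) (XT.nd (nat_lit 78) (nat_lit 836) (nat_lit 0) (XT.lf (nat_lit 0) (nat_lit 2632385580) (nat_lit 836) (nat_lit 10394062106)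 (nat_lit 912) (nat_lit 3688424025) (nat_lit 351) (nat_lit 5) (nat_lit 362) (nat_lit 5) (nat_lit 363) (nat_lit 5) (nat_lit 609) (nat_lit 570) (nat_lit 381)) (XT.nd (nat_lit 78) (nat_lit 836) (nat_lit 0) (XT.lf (nat_lit 0) (nat_lit 12047784644) (nat_lit 836) (nat_lit 3380667078) (nat_lit 912) (nat_lit 1470567247) (nat_lit 351) (nat_lit 5) (nat_lit 362) (nat_lit 5) (nat_lit 363) (nat_lit 5) (nat_lit 610) (nat_lit 570) (nat_lit 380)) (XT.lf (nat_lit 0) (nat_lit 828683873) (nat_lit 836) (nat_lit 12498679701) (nat_lit 76) (nat_lit 3758435376) (nat_lit 340) (nat_lit 5) (nat_lit 351) (nat_lit 5) (nat_lit 341) (nat_lit 5) (nat_lit 611) (nat_lit 570) (nat_lit 379)))) (XT.nd (nat_lit 78) (nat_lit 760) (nat_lit 0) (XT.lf (nat_lit 0) (nat_lit 3202242827) (nat_lit 836) (nat_lit 3035751649) (nat_lit 76) (nat_lit 11037166326) (nat_lit 340) (nat_lit 5) (nat_lit 351) (nat_lit 5) (nat_lit 341) (nat_lit 5) (nat_lit 612) (nat_lit 570) (nat_lit 378)) (XT.nd (nat_lit 78) (nat_lit 0) (nat_lit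 0) (XT.lf (nat_lit 0) (nat_lit 5666461990) (nat_lit 836) (nat_lit 10777644234) (nat_lit 76) (nat_lit 1023340820) (nat_lit 330) (nat_lit 5) (nat_lit 341) (nat_lit 5) (nat_lit 331) (nat_lit 5) (nat_lit 613) (nat_lit 570) (nat_lit 377)) (XT.lf (nat_lit 0) (nat_lit 8234845231) (nat_lit 836) (nat_lit 1061277657) (nat_lit 76) (nat_lit 8366359446) (nat_lit 330) (nat_lit 5) (nat_lit 341) (nat_lit 5) (nat_lit 331) (nat_lit 5) (nat_lit 614) (nat_lit 570) (nat_lit 376)))))) (XT.nd (nat_lit 468) (nat_lit 2584) (nat_lit 0) (XT.nd (nat_lit 234) (nat_lit 1444) (nat_lit 0) (XT.nd (nat_lit 78) (nat_lit 760) (nat_lit 0) (XT.lf (nat_lit 0) (nat_lit 8959392138) (nat_lit 684) (nat_lit 1946572425) (nat_lit 760) (nat_lit 6954427295) (nat_lit 321) (nat_lit 5) (nat_lit 330) (nat_lit 5) (nat_lit 331) (nat_lit 5) (nat_lit 615) (nat_lit 570) (nat_lit 375)) (XT.nd (nat_lit 78) (nat_lit 0) (nat_lit 0) (XT.lf (nat_lit 0) (nat_lit 1103526895) (nat_lit 760) (nat_lit 12570625171) (nat_lit 836) (nat_lit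 4387235472) (nat_lit 311) (nat_lit 5) (nat_lit 321) (nat_lit 5) (nat_lit 322) (nat_lit 5) (nat_lit 616) (nat_lit 570) (nat_lit 374)) (XT.lf (nat_lit 0) (nat_lit 11408178068) (nat_lit 760) (nat_lit 5155422748) (nat_lit 836) (nat_lit 1701485229) (nat_lit 311) (nat_lit 5) (nat_lit 321) (nat_lit 5) (nat_lit 322) (nat_lit 5) (nat_lit 617) (nat_lit 570) (nat_lit 373)))) (XT.nd (nat_lit 78) (nat_lit 684) (nat_lit 0) (XT.lf (nat_lit 0) (nat_lit 1056214363) (nat_lit 760) (nat_lit 15010793866) (nat_lit 76) (nat_lit 2405079386) (nat_lit 301) (nat_lit 5) (nat_lit 311) (nat_lit 5) (nat_lit 302) (nat_lit 5) (nat_lit 618) (nat_lit 570) (nat_lit 372)) (XT.nd (nat_lit 78) (nat_lit 684) (nat_lit 0) (XT.lf (nat_lit 0) (nat_lit 3920287151) (nat_lit 760) (nat_lit 4656790103) (nat_lit 76) (nat_lit 10104447797) (nat_lit 301) (nat_lit 5) (nat_lit 311) (nat_lit 5) (nat_lit 302) (nat_lit 5) (nat_lit 619) (nat_lit 570) (nat_lit 371)) (XT.lf (nat_lit 0) (nat_lit 5975235366) (nat_lit 684) (nat_lit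 898848999) (nat_lit 760) (nat_lit 12020418810) (nat_lit 292) (nat_lit 5) (nat_lit 301) (nat_lit 5) (nat_lit 302) (nat_lit 5) (nat_lit 620) (nat_lit 570) (nat_lit 370))))) (XT.nd (nat_lit 234) (nat_lit 1292) (nat_lit 0) (XT.nd (nat_lit 78) (nat_lit 1292) (nat_lit 0) (XT.lf (nat_lit 0) (nat_lit 9957144556) (nat_lit 760) (nat_lit 2280805689) (nat_lit 76) (nat_lit 6872387657) (nat_lit 292) (nat_lit 5) (nat_lit 302) (nat_lit 5) (nat_lit 293) (nat_lit 5) (nat_lit 621) (nat_lit 570) (nat_lit 369)) (XT.nd (nat_lit 78) (nat_lit 684) (nat_lit 0) (XT.lf (nat_lit 0) (nat_lit 8670844719) (nat_lit 608) (nat_lit 4487111238) (nat_lit 684) (nat_lit 6171412332) (nat_lit 284) (nat_lit 5) (nat_lit 292) (nat_lit 5) (nat_lit 293) (nat_lit 5) (nat_lit 622) (nat_lit 570) (nat_lit 368)) (XT.lf (nat_lit 0) (nat_lit 294116906) (nat_lit 684) (nat_lit 16162085799) (nat_lit 760) (nat_lit 3095908950) (nat_lit 275) (nat_lit 5) (nat_lit 284) (nat_lit 5) (nat_lit 285) (nat_lit 5) (nat_lit 623) (nat_lit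 570) (nat_lit 367)))) (XT.nd (nat_lit 156) (nat_lit 608) (nat_lit 0) (XT.nd (nat_lit 78) (nat_lit 608) (nat_lit 0) (XT.lf (nat_lit 0) (nat_lit 136216399) (nat_lit 760) (nat_lit 8205493403) (nat_lit 76) (nat_lit 11435682450) (nat_lit 274) (nat_lit 5) (nat_lit 284) (nat_lit 5) (nat_lit 275) (nat_lit 5) (nat_lit 624) (nat_lit 570) (nat_lit 366)) (XT.lf (nat_lit 0) (nat_lit 3080657889) (nat_lit 608) (nat_lit 324968502) (nat_lit 684) (nat_lit 16600861573) (nat_lit 266) (nat_lit 5) (nat_lit 274) (nat_lit 5) (nat_lit 275) (nat_lit 5) (nat_lit 625) (nat_lit 570) (nat_lit 365))) (XT.nd (nat_lit 78) (nat_lit 608) (nat_lit 0) (XT.lf (nat_lit 0) (nat_lit 6840949955) (nat_lit 684) (nat_lit 5594012206) (nat_lit 76) (nat_lit 7803193615) (nat_lit 266) (nat_lit 5) (nat_lit 275) (nat_lit 5) (nat_lit 267) (nat_lit 5) (nat_lit 626) (nat_lit 570) (nat_lit 364)) (XT.lf (nat_lit 0) (nat_lit 6034212077) (nat_lit 608) (nat_lit 4346329938) (nat_lit 684) (nat_lit 10093204370) (nat_lit 258) (nat_lit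 5) (nat_lit 266) (nat_lit 5) (nat_lit 267) (nat_lit 5) (nat_lit 627) (nat_lit 570) (nat_lit 363))))))))
noncomputable def xc193 : XT := (XT.nd (nat_lit 1950) (nat_lit 1216) (nat_lit 0) (XT.nd (nat_lit 936) (nat_lit 3420) (nat_lit 0) (XT.nd (nat_lit 468) (nat_lit 2128) (nat_lit 0) (XT.nd (nat_lit 234) (nat_lit 532) (nat_lit 0) (XT.nd (nat_lit 78) (nat_lit 1216) (nat_lit 0) (XT.lf (nat_lit 0) (nat_lit 14048349950) (nat_lit 684) (nat_lit 2775340614) (nat_lit 76) (nat_lit 3889210428) (nat_lit 258) (nat_lit 5) (nat_lit 267) (nat_lit 5) (nat_lit 259) (nat_lit 5) (nat_lit 628) (nat_lit 570) (nat_lit 362)) (XT.nd (nat_lit 78) (nat_lit 684) (nat_lit 0) (XT.lf (nat_lit 0) (nat_lit 9206971763) (nat_lit 532) (nat_lit 8665504497) (nat_lit 608) (nat_lit 3082703843) (nat_lit 251) (nat_lit 5) (nat_lit 258) (nat_lit 5) (nat_lit 259) (nat_lit 5) (nat_lit 629) (nat_lit 570) (nat_lit 361)) (XT.lf (nat_lit 0) (nat_lit 256999515) (nat_lit 608) (nat_lit 321138141) (nat_lit 684) (nat_lit 20623796786)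 (nat_lit 242) (nat_lit 5) (nat_lit 250) (nat_lit 5) (nat_lit 251) (nat_lit 5) (nat_lit 630) (nat_lit 570) (nat_lit 360)))) (XT.nd (nat_lit 78) (nat_lit 532) (nat_lit 0) (XT.lf (nat_lit 0) (nat_lit 4397971560) (nat_lit 684) (nat_lit 8871812255) (nat_lit 76) (nat_lit 8180892076) (nat_lit 242) (nat_lit 5) (nat_lit 251) (nat_lit 5) (nat_lit 243) (nat_lit 5) (nat_lit 631) (nat_lit 570) (nat_lit 359)) (XT.nd (nat_lit 78) (nat_lit 0) (nat_lit 0) (XT.lf (nat_lit 0) (nat_lit 3479204271) (nat_lit 532) (nat_lit 4834302120) (nat_lit 608) (nat_lit 13390500298) (nat_lit 235) (nat_lit 5) (nat_lit 242) (nat_lit 5) (nat_lit 243) (nat_lit 5) (nat_lit 632) (nat_lit 570) (nat_lit 358)) (XT.lf (nat_lit 0) (nat_lit 12386395172) (nat_lit 608) (nat_lit 5795705887) (nat_lit 76) (nat_lit 3778722771) (nat_lit 235) (nat_lit 5) (nat_lit 243) (nat_lit 5) (nat_lit 236) (nat_lit 5) (nat_lit 633) (nat_lit 570) (nat_lit 357))))) (XT.nd (nat_lit 234) (nat_lit 988) (nat_lit 0) (XT.nd (nat_lit 78) (nat_lit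 608) (nat_lit 0) (XT.lf (nat_lit 0) (nat_lit 6933914050) (nat_lit 532) (nat_lit 9678605466) (nat_lit 608) (nat_lit 5608822824) (nat_lit 228) (nat_lit 5) (nat_lit 235) (nat_lit 5) (nat_lit 236) (nat_lit 5) (nat_lit 634) (nat_lit 570) (nat_lit 356)) (XT.nd (nat_lit 78) (nat_lit 608) (nat_lit 0) (XT.lf (nat_lit 0) (nat_lit 19989751836) (nat_lit 532) (nat_lit 967107761) (nat_lit 608) (nat_lit 1529538326) (nat_lit 228) (nat_lit 5) (nat_lit 235) (nat_lit 5) (nat_lit 236) (nat_lit 5) (nat_lit 635) (nat_lit 570) (nat_lit 355)) (XT.lf (nat_lit 0) (nat_lit 2712913502) (nat_lit 608) (nat_lit 12141221719) (nat_lit 76) (nat_lit 7899956418) (nat_lit 220) (nat_lit 5) (nat_lit 228) (nat_lit 5) (nat_lit 221) (nat_lit 5) (nat_lit 636) (nat_lit 570) (nat_lit 354)))) (XT.nd (nat_lit 78) (nat_lit 456) (nat_lit 0) (XT.lf (nat_lit 0) (nat_lit 980919618) (nat_lit 532) (nat_lit 6063385200) (nat_lit 608) (nat_lit 15982141323) (nat_lit 213) (nat_lit 5) (nat_lit 220) (nat_lit 5) (nat_lit 221) (nat_lit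 5) (nat_lit 637) (nat_lit 570) (nat_lit 353)) (XT.nd (nat_lit 78) (nat_lit 456) (nat_lit 0) (XT.lf (nat_lit 0) (nat_lit 11558143675) (nat_lit 608) (nat_lit 8798884747) (nat_lit 76) (nat_lit 2945303444) (nat_lit 213) (nat_lit 5) (nat_lit 221) (nat_lit 5) (nat_lit 214) (nat_lit 5) (nat_lit 638) (nat_lit 570) (nat_lit 352)) (XT.lf (nat_lit 0) (nat_lit 4727717508) (nat_lit 456) (nat_lit 11500447824) (nat_lit 532) (nat_lit 7354252367) (nat_lit 207) (nat_lit 5) (nat_lit 213) (nat_lit 5) (nat_lit 214) (nat_lit 5) (nat_lit 639) (nat_lit 570) (nat_lit 351)))))) (XT.nd (nat_lit 468) (nat_lit 1900) (nat_lit 0) (XT.nd (nat_lit 234) (nat_lit 912) (nat_lit 0) (XT.nd (nat_lit 78) (nat_lit 608) (nat_lit 0) (XT.lf (nat_lit 0) (nat_lit 18637345540) (nat_lit 456) (nat_lit 2408395654) (nat_lit 532) (nat_lit 2821281487) (nat_lit 207) (nat_lit 5) (nat_lit 213) (nat_lit 5) (nat_lit 214) (nat_lit 5) (nat_lit 640) (nat_lit 570) (nat_lit 350)) (XT.nd (nat_lit 78) (nat_lit 0) (nat_lit 0) (XT.lf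 (nat_lit 0) (nat_lit 1875804637) (nat_lit 608) (nat_lit 15436680628) (nat_lit 76) (nat_lit 6842659063) (nat_lit 199) (nat_lit 5) (nat_lit 207) (nat_lit 5) (nat_lit 200) (nat_lit 5) (nat_lit 641) (nat_lit 570) (nat_lit 349)) (XT.lf (nat_lit 0) (nat_lit 6675578183) (nat_lit 608) (nat_lit 1473484375) (nat_lit 76) (nat_lit 16298662900) (nat_lit 199) (nat_lit 5) (nat_lit 207) (nat_lit 5) (nat_lit 200) (nat_lit 5) (nat_lit 642) (nat_lit 570) (nat_lit 348)))) (XT.nd (nat_lit 78) (nat_lit 456) (nat_lit 0) (XT.lf (nat_lit 0) (nat_lit 11658934760) (nat_lit 532) (nat_lit 11820928334) (nat_lit 76) (nat_lit 1264543834) (nat_lit 193) (nat_lit 5) (nat_lit 200) (nat_lit 5) (nat_lit 194) (nat_lit 5) (nat_lit 643) (nat_lit 570) (nat_lit 347)) (XT.nd (nat_lit 78) (nat_lit 0) (nat_lit 0) (XT.lf (nat_lit 0) (nat_lit 2554344110) (nat_lit 456) (nat_lit 14263461658) (nat_lit 532) (nat_lit 8227699771) (nat_lit 187) (nat_lit 5) (nat_lit 193) (nat_lit 5) (nat_lit 194) (nat_lit 5) (nat_lit 644)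 (nat_lit 570) (nat_lit 346)) (XT.lf (nat_lit 0) (nat_lit 17370747762) (nat_lit 456) (nat_lit 4783821661) (nat_lit 532) (nat_lit 3196562842) (nat_lit 187) (nat_lit 5) (nat_lit 193) (nat_lit 5) (nat_lit 194) (nat_lit 5) (nat_lit 645) (nat_lit 570) (nat_lit 345))))) (XT.nd (nat_lit 234) (nat_lit 912) (nat_lit 0) (XT.nd (nat_lit 78) (nat_lit 456) (nat_lit 0) (XT.lf (nat_lit 0) (nat_lit 1982099631) (nat_lit 532) (nat_lit 18802012222) (nat_lit 76) (nat_lit 4877063149) (nat_lit 180) (nat_lit 5) (nat_lit 187) (nat_lit 5) (nat_lit 181) (nat_lit 5) (nat_lit 646) (nat_lit 570) (nat_lit 344)) (XT.nd (nat_lit 78) (nat_lit 456) (nat_lit 0) (XT.lf (nat_lit 0) (nat_lit 7302646209) (nat_lit 532) (nat_lit 3932450996) (nat_lit 76) (nat_lit 14740276970) (nat_lit 180) (nat_lit 5) (nat_lit 187) (nat_lit 5) (nat_lit 181) (nat_lit 5) (nat_lit 647) (nat_lit 570) (nat_lit 343)) (XT.lf (nat_lit 0) (nat_lit 11377269532) (nat_lit 456) (nat_lit 1421776153) (nat_lit 532) (nat_lit 13495423221) (nat_lit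 174) (nat_lit 5) (nat_lit 180) (nat_lit 5) (nat_lit 181) (nat_lit 5) (nat_lit 648) (nat_lit 570) (nat_lit 342)))) (XT.nd (nat_lit 156) (nat_lit 532) (nat_lit 0) (XT.nd (nat_lit 78) (nat_lit 0) (nat_lit 0) (XT.lf (nat_lit 0) (nat_lit 369506388) (nat_lit 380) (nat_lit 18116192458) (nat_lit 456) (nat_lit 8132640579) (nat_lit 169) (nat_lit 5) (nat_lit 174) (nat_lit 5) (nat_lit 175) (nat_lit 5) (nat_lit 649) (nat_lit 570) (nat_lit 341)) (XT.lf (nat_lit 0) (nat_lit 16148175240) (nat_lit 380) (nat_lit 8243015530) (nat_lit 456) (nat_lit 2555394869) (nat_lit 169) (nat_lit 5) (nat_lit 174) (nat_lit 5) (nat_lit 175) (nat_lit 5) (nat_lit 650) (nat_lit 570) (nat_lit 340))) (XT.nd (nat_lit 78) (nat_lit 0) (nat_lit 0) (XT.lf (nat_lit 0) (nat_lit 3132671981) (nat_lit 532) (nat_lit 22292746286) (nat_lit 76) (nat_lit 1854764587) (nat_lit 162) (nat_lit 5) (nat_lit 169) (nat_lit 5) (nat_lit 163) (nat_lit 5) (nat_lit 651) (nat_lit 570) (nat_lit 339)) (XT.lf (nat_lit 0) (nat_lit 9023583790)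 (nat_lit 532) (nat_lit 6462017494) (nat_lit 76) (nat_lit 12132047274) (nat_lit 162) (nat_lit 5) (nat_lit 169) (nat_lit 5) (nat_lit 163) (nat_lit 5) (nat_lit 652) (nat_lit 570) (nat_lit 338))))))) (XT.nd (nat_lit 75426) (nat_lit 0) (nat_lit 24776) (XT.nd (nat_lit 74958) (nat_lit 0) (nat_lit 26220) (XT.nd (nat_lit 234) (nat_lit 456) (nat_lit 0) (XT.nd (nat_lit 78) (nat_lit 380) (nat_lit 0) (XT.lf (nat_lit 0) (nat_lit 9807682874) (nat_lit 380) (nat_lit 5284128513) (nat_lit 456) (nat_lit 12868862607) (nat_lit 157) (nat_lit 5) (nat_lit 162) (nat_lit 5) (nat_lit 163) (nat_lit 5) (nat_lit 653) (nat_lit 570) (nat_lit 337)) (XT.nd (nat_lit 78) (nat_lit 380) (nat_lit 0) (XT.lf (nat_lit 0) (nat_lit 21354153104) (nat_lit 456) (nat_lit 1859160412) (nat_lit 76) (nat_lit 5095791793) (nat_lit 157) (nat_lit 5) (nat_lit 163) (nat_lit 5) (nat_lit 158) (nat_lit 5) (nat_lit 654) (nat_lit 570) (nat_lit 336)) (XT.lf (nat_lit 0) (nat_lit 14914988167) (nat_lit 380) (nat_lit 12954514631) (nat_lit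 456) (nat_lit 792447584) (nat_lit 152) (nat_lit 5) (nat_lit 157) (nat_lit 5) (nat_lit 158) (nat_lit 5) (nat_lit 655) (nat_lit 570) (nat_lit 335)))) (XT.nd (nat_lit 74568) (nat_lit 0) (nat_lit 26144) (XT.lf (nat_lit 0) (nat_lit 3025964648) (nat_lit 380) (nat_lit 2423443769) (nat_lit 456) (nat_lit 23571168015) (nat_lit 146) (nat_lit 5) (nat_lit 151) (nat_lit 5) (nat_lit 152) (nat_lit 5) (nat_lit 656) (nat_lit 570) (nat_lit 334)) (XT.nd (nat_lit 78) (nat_lit 0) (nat_lit 0) (XT.lf (nat_lit 0) (nat_lit 2493251380) (nat_lit 1748) (nat_lit 1631961743) (nat_lit 1748) (nat_lit 1631961743) (nat_lit 490) (nat_lit 3) (nat_lit 513) (nat_lit 3) (nat_lit 513) (nat_lit 5) (nat_lit 571) (nat_lit 571) (nat_lit 418)) (XT.lf (nat_lit 76) (nat_lit 2413564261) (nat_lit 0) (nat_lit 3154038275) (nat_lit 1748) (nat_lit 6051182513) (nat_lit 491) (nat_lit 5) (nat_lit 490) (nat_lit 3) (nat_lit 513) (nat_lit 5) (nat_lit 572) (nat_lit 571) (nat_lit 417))))) (XT.nd (nat_lit 234) (nat_lit 0) (nat_lit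 76) (XT.nd (nat_lit 78) (nat_lit 0) (nat_lit 0) (XT.lf (nat_lit 0) (nat_lit 6182118706) (nat_lit 1672) (nat_lit 3496749772) (nat_lit 1748) (nat_lit 2046006897) (nat_lit 491) (nat_lit 5) (nat_lit 513) (nat_lit 5) (nat_lit 514) (nat_lit 5) (nat_lit 573) (nat_lit 571) (nat_lit 416)) (XT.nd (nat_lit 78) (nat_lit 0) (nat_lit 76) (XT.lf (nat_lit 76) (nat_lit 2328377335) (nat_lit 0) (nat_lit 4503292020) (nat_lit 1748) (nat_lit 5000965416) (nat_lit 492) (nat_lit 5) (nat_lit 491) (nat_lit 5) (nat_lit 514) (nat_lit 5) (nat_lit 574) (nat_lit 571) (nat_lit 415)) (XT.lf (nat_lit 0) (nat_lit 7509859872) (nat_lit 1672) (nat_lit 3637283267) (nat_lit 1748) (nat_lit 795095344) (nat_lit 492) (nat_lit 5) (nat_lit 514) (nat_lit 5) (nat_lit 515) (nat_lit 5) (nat_lit 575) (nat_lit 571) (nat_lit 414)))) (XT.nd (nat_lit 78) (nat_lit 0) (nat_lit 0) (XT.lf (nat_lit 76) (nat_lit 2340633342) (nat_lit 0) (nat_lit 5893247440) (nat_lit 1748) (nat_lit 3819510219) (nat_lit 493) (nat_lit 5) (nat_lit 492)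 (nat_lit 5) (nat_lit 515) (nat_lit 5) (nat_lit 576) (nat_lit 571) (nat_lit 413)) (XT.nd (nat_lit 78) (nat_lit 0) (nat_lit 76) (XT.lf (nat_lit 76) (nat_lit 8480188710) (nat_lit 0) (nat_lit 504051165) (nat_lit 1748) (nat_lit 3182291561) (nat_lit 493) (nat_lit 5) (nat_lit 492) (nat_lit 5) (nat_lit 515) (nat_lit 5) (nat_lit 577) (nat_lit 571) (nat_lit 412)) (XT.lf (nat_lit 76) (nat_lit 2452990273) (nat_lit 0) (nat_lit 7332689393) (nat_lit 1748) (nat_lit 2495535528) (nat_lit 494) (nat_lit 5) (nat_lit 493) (nat_lit 5) (nat_lit 516) (nat_lit 5) (nat_lit 578) (nat_lit 571) (nat_lit 411)))))) (XT.nd (nat_lit 468) (nat_lit 0) (nat_lit 76) (XT.nd (nat_lit 234) (nat_lit 1596) (nat_lit 0) (XT.nd (nat_lit 78) (nat_lit 0) (nat_lit 76) (XT.lf (nat_lit 76) (nat_lit 8754381048) (nat_lit 0) (nat_lit 1864743396) (nat_lit 1748) (nat_lit 1778750604) (nat_lit 494) (nat_lit 5) (nat_lit 493) (nat_lit 5) (nat_lit 516) (nat_lit 5) (nat_lit 579) (nat_lit 571) (nat_lit 410)) (XT.nd (nat_lit 78) (nat_lit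 0) (nat_lit 0) (XT.lf (nat_lit 76) (nat_lit 2668382078) (nat_lit 0) (nat_lit 8830475239) (nat_lit 1748) (nat_lit 1017420305) (nat_lit 495) (nat_lit 5) (nat_lit 494) (nat_lit 5) (nat_lit 517) (nat_lit 5) (nat_lit 580) (nat_lit 571) (nat_lit 409)) (XT.lf (nat_lit 76) (nat_lit 9135978385) (nat_lit 0) (nat_lit 3285297729) (nat_lit 1748) (nat_lit 215272176) (nat_lit 495) (nat_lit 5) (nat_lit 494) (nat_lit 5) (nat_lit 517) (nat_lit 5) (nat_lit 581) (nat_lit 571) (nat_lit 408)))) (XT.nd (nat_lit 78) (nat_lit 0) (nat_lit 0) (XT.lf (nat_lit 0) (nat_lit 618599181) (nat_lit 1748) (nat_lit 9772807262) (nat_lit 1824) (nat_lit 2367269681) (nat_lit 472) (nat_lit 5) (nat_lit 495) (nat_lit 5) (nat_lit 496) (nat_lit 5) (nat_lit 582) (nat_lit 571) (nat_lit 407)) (XT.nd (nat_lit 78) (nat_lit 0) (nat_lit 76) (XT.lf (nat_lit 0) (nat_lit 1500398363) (nat_lit 1748) (nat_lit 3264233712) (nat_lit 1824) (nat_lit 8117905084) (nat_lit 472) (nat_lit 5) (nat_lit 495) (nat_lit 5) (nat_lit 496) (nat_lit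 5) (nat_lit 583) (nat_lit 571) (nat_lit 406)) (XT.lf (nat_lit 0) (nat_lit 2417431557) (nat_lit 1748) (nat_lit 9603353025) (nat_lit 1824) (nat_lit 987740599) (nat_lit 473) (nat_lit 5) (nat_lit 496) (nat_lit 5) (nat_lit 497) (nat_lit 5) (nat_lit 584) (nat_lit 571) (nat_lit 405))))) (XT.nd (nat_lit 234) (nat_lit 0) (nat_lit 76) (XT.nd (nat_lit 78) (nat_lit 0) (nat_lit 0) (XT.lf (nat_lit 0) (nat_lit 3395548292) (nat_lit 1748) (nat_lit 2923730227) (nat_lit 1824) (nat_lit 6816901279) (nat_lit 473) (nat_lit 5) (nat_lit 496) (nat_lit 5) (nat_lit 497) (nat_lit 5) (nat_lit 585) (nat_lit 571) (nat_lit 404)) (XT.nd (nat_lit 78) (nat_lit 0) (nat_lit 76) (XT.lf (nat_lit 76) (nat_lit 3933574436) (nat_lit 0) (nat_lit 474544489) (nat_lit 1824) (nat_lit 8857972412) (nat_lit 474) (nat_lit 5) (nat_lit 473) (nat_lit 5) (nat_lit 497) (nat_lit 5) (nat_lit 586) (nat_lit 571) (nat_lit 403)) (XT.lf (nat_lit 0) (nat_lit 5485848771) (nat_lit 1748) (nat_lit 2473989183) (nat_lit 1824) (nat_lit 5437866623)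 (nat_lit 474) (nat_lit 5) (nat_lit 497) (nat_lit 5) (nat_lit 498) (nat_lit 5) (nat_lit 587) (nat_lit 571) (nat_lit 402)))) (XT.nd (nat_lit 156) (nat_lit 0) (nat_lit 76) (XT.nd (nat_lit 78) (nat_lit 0) (nat_lit 76) (XT.lf (nat_lit 76) (nat_lit 4570984444) (nat_lit 0) (nat_lit 2036706869) (nat_lit 1824) (nat_lit 6923809202) (nat_lit 475) (nat_lit 5) (nat_lit 474) (nat_lit 5) (nat_lit 498) (nat_lit 5) (nat_lit 588) (nat_lit 571) (nat_lit 401)) (XT.lf (nat_lit 0) (nat_lit 7784592073) (nat_lit 1748) (nat_lit 1911062070) (nat_lit 1824) (nat_lit 3971667364) (nat_lit 475) (nat_lit 5) (nat_lit 498) (nat_lit 5) (nat_lit 499) (nat_lit 5) (nat_lit 589) (nat_lit 571) (nat_lit 400))) (XT.nd (nat_lit 78) (nat_lit 0) (nat_lit 76) (XT.lf (nat_lit 76) (nat_lit 5328221979) (nat_lit 0) (nat_lit 3694996512) (nat_lit 1824) (nat_lit 4781878211) (nat_lit 476) (nat_lit 5) (nat_lit 475) (nat_lit 5) (nat_lit 499) (nat_lit 5) (nat_lit 590) (nat_lit 571) (nat_lit 399)) (XT.lf (nat_lit 0) (nat_lit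 10305540754) (nat_lit 1748) (nat_lit 1230721172) (nat_lit 1824) (nat_lit 2408988510) (nat_lit 476) (nat_lit 5) (nat_lit 499) (nat_lit 5) (nat_lit 500) (nat_lit 5) (nat_lit 591) (nat_lit 571) (nat_lit 398))))))))
noncomputable def xc194 : XT := (XT.nd (nat_lit 1950) (nat_lit 8664) (nat_lit 0) (XT.nd (nat_lit 936) (nat_lit 5624) (nat_lit 0) (XT.nd (nat_lit 468) (nat_lit 2812) (nat_lit 0) (XT.nd (nat_lit 234) (nat_lit 1596) (nat_lit 0) (XT.nd (nat_lit 78) (nat_lit 1748) (nat_lit 0) (XT.lf (nat_lit 76) (nat_lit 6209765801) (nat_lit 0) (nat_lit 5458987706) (nat_lit 1824) (nat_lit 2418350331) (nat_lit 477) (nat_lit 5) (nat_lit 476) (nat_lit 5) (nat_lit 500) (nat_lit 5) (nat_lit 592) (nat_lit 571) (nat_lit 397)) (XT.nd (nat_lit 78) (nat_lit 1824) (nat_lit 0) (XT.lf (nat_lit 0) (nat_lit 13062954088) (nat_lit 1748) (nat_lit 428455817) (nat_lit 1824) (nat_lit 740311376) (nat_lit 477) (nat_lit 5) (nat_lit 500) (nat_lit 5) (nat_lit 501) (nat_lit 5) (nat_lit 593) (nat_lit 571) (nat_lit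 396)) (XT.lf (nat_lit 0) (nat_lit 178729980) (nat_lit 1824) (nat_lit 7158545948) (nat_lit 1900) (nat_lit 7040456593) (nat_lit 453) (nat_lit 5) (nat_lit 477) (nat_lit 5) (nat_lit 478) (nat_lit 5) (nat_lit 594) (nat_lit 571) (nat_lit 395)))) (XT.nd (nat_lit 78) (nat_lit 1596) (nat_lit 0) (XT.lf (nat_lit 76) (nat_lit 490014992) (nat_lit 0) (nat_lit 1044463755) (nat_lit 1900) (nat_lit 12992093061) (nat_lit 454) (nat_lit 5) (nat_lit 453) (nat_lit 5) (nat_lit 478) (nat_lit 5) (nat_lit 595) (nat_lit 571) (nat_lit 394)) (XT.nd (nat_lit 78) (nat_lit 1672) (nat_lit 0) (XT.lf (nat_lit 0) (nat_lit 2991591425) (nat_lit 1824) (nat_lit 6331831140) (nat_lit 76) (nat_lit 5353481672) (nat_lit 454) (nat_lit 5) (nat_lit 478) (nat_lit 5) (nat_lit 455) (nat_lit 5) (nat_lit 596) (nat_lit 571) (nat_lit 393)) (XT.lf (nat_lit 0) (nat_lit 1532548082) (nat_lit 1672) (nat_lit 2953342328) (nat_lit 1748) (nat_lit 10344193330) (nat_lit 432) (nat_lit 5) (nat_lit 454) (nat_lit 5) (nat_lit 455) (nat_lit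 5) (nat_lit 597) (nat_lit 571) (nat_lit 392))))) (XT.nd (nat_lit 234) (nat_lit 1824) (nat_lit 0) (XT.nd (nat_lit 78) (nat_lit 988) (nat_lit 0) (XT.lf (nat_lit 0) (nat_lit 6067165491) (nat_lit 1748) (nat_lit 5376480865) (nat_lit 76) (nat_lit 3541539960) (nat_lit 432) (nat_lit 5) (nat_lit 455) (nat_lit 5) (nat_lit 433) (nat_lit 5) (nat_lit 598) (nat_lit 571) (nat_lit 391)) (XT.nd (nat_lit 78) (nat_lit 0) (nat_lit 0) (XT.lf (nat_lit 0) (nat_lit 2711392892) (nat_lit 988) (nat_lit 4997314234) (nat_lit 1064) (nat_lit 7434112253) (nat_lit 419) (nat_lit 5) (nat_lit 432) (nat_lit 5) (nat_lit 433) (nat_lit 5) (nat_lit 599) (nat_lit 571) (nat_lit 390)) (XT.lf (nat_lit 0) (nat_lit 9421244505) (nat_lit 1064) (nat_lit 4287192557) (nat_lit 76) (nat_lit 1594405977) (nat_lit 419) (nat_lit 5) (nat_lit 433) (nat_lit 5) (nat_lit 420) (nat_lit 5) (nat_lit 600) (nat_lit 571) (nat_lit 389)))) (XT.nd (nat_lit 78) (nat_lit 912) (nat_lit 0) (XT.lf (nat_lit 0) (nat_lit 4032136216) (nat_lit 912)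 (nat_lit 7186937079) (nat_lit 988) (nat_lit 4245974273) (nat_lit 407) (nat_lit 5) (nat_lit 419) (nat_lit 5) (nat_lit 420) (nat_lit 5) (nat_lit 601) (nat_lit 571) (nat_lit 388)) (XT.nd (nat_lit 78) (nat_lit 912) (nat_lit 0) (XT.lf (nat_lit 0) (nat_lit 12568438207) (nat_lit 912) (nat_lit 505068904) (nat_lit 988) (nat_lit 2556577291) (nat_lit 407) (nat_lit 5) (nat_lit 419) (nat_lit 5) (nat_lit 420) (nat_lit 5) (nat_lit 602) (nat_lit 571) (nat_lit 387)) (XT.lf (nat_lit 0) (nat_lit 5500671056) (nat_lit 912) (nat_lit 9533086237) (nat_lit 988) (nat_lit 763291289) (nat_lit 395) (nat_lit 5) (nat_lit 407) (nat_lit 5) (nat_lit 408) (nat_lit 5) (nat_lit 603) (nat_lit 571) (nat_lit 386)))))) (XT.nd (nat_lit 468) (nat_lit 3116) (nat_lit 0) (XT.nd (nat_lit 234) (nat_lit 1596) (nat_lit 0) (XT.nd (nat_lit 78) (nat_lit 836) (nat_lit 0) (XT.lf (nat_lit 0) (nat_lit 1068004034) (nat_lit 988) (nat_lit 1709206706) (nat_lit 76) (nat_lit 13189681566) (nat_lit 394) (nat_lit 5) (nat_lit 407) (nat_lit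 5) (nat_lit 395) (nat_lit 5) (nat_lit 604) (nat_lit 571) (nat_lit 385)) (XT.nd (nat_lit 78) (nat_lit 0) (nat_lit 0) (XT.lf (nat_lit 0) (nat_lit 2991314517) (nat_lit 912) (nat_lit 9035591469) (nat_lit 76) (nat_lit 4111814912) (nat_lit 383) (nat_lit 5) (nat_lit 395) (nat_lit 5) (nat_lit 384) (nat_lit 5) (nat_lit 605) (nat_lit 571) (nat_lit 384)) (XT.lf (nat_lit 0) (nat_lit 4975385794) (nat_lit 912) (nat_lit 224901683) (nat_lit 76) (nat_lit 11113253766) (nat_lit 383) (nat_lit 5) (nat_lit 395) (nat_lit 5) (nat_lit 384) (nat_lit 5) (nat_lit 606) (nat_lit 571) (nat_lit 383)))) (XT.nd (nat_lit 78) (nat_lit 760) (nat_lit 0) (XT.lf (nat_lit 0) (nat_lit 7061068840) (nat_lit 912) (nat_lit 7631748600) (nat_lit 76) (nat_lit 1797803002) (nat_lit 372) (nat_lit 5) (nat_lit 384) (nat_lit 5) (nat_lit 373) (nat_lit 5) (nat_lit 607) (nat_lit 571) (nat_lit 382)) (XT.nd (nat_lit 78) (nat_lit 0) (nat_lit 0) (XT.lf (nat_lit 0) (nat_lit 1432993225) (nat_lit 760) (nat_lit 7793340499) (nat_lit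 836) (nat_lit 7444151168) (nat_lit 362) (nat_lit 5) (nat_lit 372) (nat_lit 5) (nat_lit 373) (nat_lit 5) (nat_lit 608) (nat_lit 571) (nat_lit 381)) (XT.lf (nat_lit 0) (nat_lit 10775019503) (nat_lit 760) (nat_lit 703800034) (nat_lit 836) (nat_lit 5374249793) (nat_lit 362) (nat_lit 5) (nat_lit 372) (nat_lit 5) (nat_lit 373) (nat_lit 5) (nat_lit 609) (nat_lit 571) (nat_lit 380))))) (XT.nd (nat_lit 234) (nat_lit 1444) (nat_lit 0) (XT.nd (nat_lit 78) (nat_lit 836) (nat_lit 0) (XT.lf (nat_lit 0) (nat_lit 3257464524) (nat_lit 836) (nat_lit 10575265853) (nat_lit 912) (nat_lit 3205448566) (nat_lit 351) (nat_lit 5) (nat_lit 362) (nat_lit 5) (nat_lit 363) (nat_lit 5) (nat_lit 610) (nat_lit 571) (nat_lit 379)) (XT.nd (nat_lit 78) (nat_lit 836) (nat_lit 0) (XT.lf (nat_lit 0) (nat_lit 12849947427) (nat_lit 836) (nat_lit 3422126013) (nat_lit 912) (nat_lit 954151200) (nat_lit 351) (nat_lit 5) (nat_lit 362) (nat_lit 5) (nat_lit 363) (nat_lit 5) (nat_lit 611) (nat_lit 571) (nat_lit 378))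 (XT.lf (nat_lit 0) (nat_lit 1377244353) (nat_lit 836) (nat_lit 12173462610) (nat_lit 76) (nat_lit 3866097436) (nat_lit 340) (nat_lit 5) (nat_lit 351) (nat_lit 5) (nat_lit 341) (nat_lit 5) (nat_lit 612) (nat_lit 571) (nat_lit 377)))) (XT.nd (nat_lit 156) (nat_lit 684) (nat_lit 0) (XT.nd (nat_lit 78) (nat_lit 760) (nat_lit 0) (XT.lf (nat_lit 0) (nat_lit 3787843372) (nat_lit 836) (nat_lit 2532554246) (nat_lit 76) (nat_lit 11289765880) (nat_lit 340) (nat_lit 5) (nat_lit 351) (nat_lit 5) (nat_lit 341) (nat_lit 5) (nat_lit 613) (nat_lit 571) (nat_lit 376)) (XT.lf (nat_lit 0) (nat_lit 6295051245) (nat_lit 836) (nat_lit 10422920964) (nat_lit 76) (nat_lit 1088450530) (nat_lit 330) (nat_lit 5) (nat_lit 341) (nat_lit 5) (nat_lit 331) (nat_lit 5) (nat_lit 614) (nat_lit 571) (nat_lit 375))) (XT.nd (nat_lit 78) (nat_lit 684) (nat_lit 0) (XT.lf (nat_lit 0) (nat_lit 8904699014) (nat_lit 836) (nat_lit 523408941) (nat_lit 76) (nat_lit 8577454177) (nat_lit 330) (nat_lit 5) (nat_lit 341)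 (nat_lit 5) (nat_lit 331) (nat_lit 5) (nat_lit 615) (nat_lit 571) (nat_lit 374)) (XT.lf (nat_lit 0) (nat_lit 9693995999) (nat_lit 684) (nat_lit 1928945826) (nat_lit 760) (nat_lit 6584615308) (nat_lit 321) (nat_lit 5) (nat_lit 330) (nat_lit 5) (nat_lit 331) (nat_lit 5) (nat_lit 616) (nat_lit 571) (nat_lit 373))))))) (XT.nd (nat_lit 936) (nat_lit 3876) (nat_lit 0) (XT.nd (nat_lit 468) (nat_lit 2584) (nat_lit 0) (XT.nd (nat_lit 234) (nat_lit 684) (nat_lit 0) (XT.nd (nat_lit 78) (nat_lit 760) (nat_lit 0) (XT.lf (nat_lit 0) (nat_lit 1686971095) (nat_lit 760) (nat_lit 12753745277) (nat_lit 836) (nat_lit 3971973171) (nat_lit 311) (nat_lit 5) (nat_lit 321) (nat_lit 5) (nat_lit 322) (nat_lit 5) (nat_lit 617) (nat_lit 571) (nat_lit 372)) (XT.nd (nat_lit 78) (nat_lit 760) (nat_lit 0) (XT.lf (nat_lit 0) (nat_lit 12186707964) (nat_lit 760) (nat_lit 5191577873) (nat_lit 836) (nat_lit 1242370806) (nat_lit 311) (nat_lit 5) (nat_lit 321) (nat_lit 5) (nat_lit 322) (nat_lit 5) (nat_lit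 618) (nat_lit 571) (nat_lit 371)) (XT.lf (nat_lit 0) (nat_lit 1558535135) (nat_lit 760) (nat_lit 14748573712) (nat_lit 76) (nat_lit 2524736169) (nat_lit 301) (nat_lit 5) (nat_lit 311) (nat_lit 5) (nat_lit 302) (nat_lit 5) (nat_lit 619) (nat_lit 571) (nat_lit 370)))) (XT.nd (nat_lit 78) (nat_lit 684) (nat_lit 0) (XT.lf (nat_lit 0) (nat_lit 4470454153) (nat_lit 760) (nat_lit 4198518030) (nat_lit 76) (nat_lit 10376688906) (nat_lit 301) (nat_lit 5) (nat_lit 311) (nat_lit 5) (nat_lit 302) (nat_lit 5) (nat_lit 620) (nat_lit 571) (nat_lit 369)) (XT.nd (nat_lit 78) (nat_lit 0) (nat_lit 0) (XT.lf (nat_lit 0) (nat_lit 6642520264) (nat_lit 684) (nat_lit 835113378) (nat_lit 760) (nat_lit 11785380168) (nat_lit 292) (nat_lit 5) (nat_lit 301) (nat_lit 5) (nat_lit 302) (nat_lit 5) (nat_lit 621) (nat_lit 571) (nat_lit 368)) (XT.lf (nat_lit 0) (nat_lit 10613736587) (nat_lit 760) (nat_lit 1780707012) (nat_lit 76) (nat_lit 7088895140) (nat_lit 292) (nat_lit 5) (nat_lit 302) (nat_lit 5) (nat_lit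 293) (nat_lit 5) (nat_lit 622) (nat_lit 571) (nat_lit 367))))) (XT.nd (nat_lit 234) (nat_lit 1216) (nat_lit 0) (XT.nd (nat_lit 78) (nat_lit 760) (nat_lit 0) (XT.lf (nat_lit 0) (nat_lit 9386386175) (nat_lit 608) (nat_lit 4486728282) (nat_lit 684) (nat_lit 5833745389) (nat_lit 284) (nat_lit 5) (nat_lit 292) (nat_lit 5) (nat_lit 293) (nat_lit 5) (nat_lit 623) (nat_lit 571) (nat_lit 366)) (XT.nd (nat_lit 78) (nat_lit 76) (nat_lit 0) (XT.lf (nat_lit 0) (nat_lit 847011862) (nat_lit 684) (nat_lit 16385576793) (nat_lit 760) (nat_lit 2701565268) (nat_lit 275) (nat_lit 5) (nat_lit 284) (nat_lit 5) (nat_lit 285) (nat_lit 5) (nat_lit 624) (nat_lit 571) (nat_lit 365)) (XT.lf (nat_lit 0) (nat_lit 580389653) (nat_lit 760) (nat_lit 7827397165) (nat_lit 76) (nat_lit 11756271699) (nat_lit 274) (nat_lit 5) (nat_lit 284) (nat_lit 5) (nat_lit 275) (nat_lit 5) (nat_lit 625) (nat_lit 571) (nat_lit 364)))) (XT.nd (nat_lit 78) (nat_lit 608) (nat_lit 0) (XT.lf (nat_lit 0) (nat_lit 3680910007)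 (nat_lit 608) (nat_lit 229119178) (nat_lit 684) (nat_lit 16487811163) (nat_lit 266) (nat_lit 5) (nat_lit 274) (nat_lit 5) (nat_lit 275) (nat_lit 5) (nat_lit 626) (nat_lit 571) (nat_lit 363)) (XT.nd (nat_lit 78) (nat_lit 608) (nat_lit 0) (XT.lf (nat_lit 0) (nat_lit 7406155995) (nat_lit 684) (nat_lit 5169861254) (nat_lit 76) (nat_lit 8058283343) (nat_lit 266) (nat_lit 5) (nat_lit 275) (nat_lit 5) (nat_lit 267) (nat_lit 5) (nat_lit 627) (nat_lit 571) (nat_lit 362)) (XT.lf (nat_lit 0) (nat_lit 6687400993) (nat_lit 608) (nat_lit 4324196530) (nat_lit 684) (nat_lit 9863105329) (nat_lit 258) (nat_lit 5) (nat_lit 266) (nat_lit 5) (nat_lit 267) (nat_lit 5) (nat_lit 628) (nat_lit 571) (nat_lit 361)))))) (XT.nd (nat_lit 468) (nat_lit 2128) (nat_lit 0) (XT.nd (nat_lit 234) (nat_lit 532) (nat_lit 0) (XT.nd (nat_lit 78) (nat_lit 1216) (nat_lit 0) (XT.lf (nat_lit 0) (nat_lit 14745152987) (nat_lit 684) (nat_lit 2301126793) (nat_lit 76) (nat_lit 4072513917) (nat_lit 258) (nat_lit 5) (nat_lit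 267) (nat_lit 5) (nat_lit 259) (nat_lit 5) (nat_lit 629) (nat_lit 571) (nat_lit 360)) (XT.nd (nat_lit 78) (nat_lit 684) (nat_lit 0) (XT.lf (nat_lit 0) (nat_lit 9917346827) (nat_lit 532) (nat_lit 8723678018) (nat_lit 608) (nat_lit 2724989236) (nat_lit 251) (nat_lit 5) (nat_lit 258) (nat_lit 5) (nat_lit 259) (nat_lit 5) (nat_lit 630) (nat_lit 571) (nat_lit 359)) (XT.lf (nat_lit 0) (nat_lit 790423371) (nat_lit 608) (nat_lit 208460526) (nat_lit 684) (nat_lit 20618859772) (nat_lit 242) (nat_lit 5) (nat_lit 250) (nat_lit 5) (nat_lit 251) (nat_lit 5) (nat_lit 631) (nat_lit 571) (nat_lit 358)))) (XT.nd (nat_lit 78) (nat_lit 532) (nat_lit 0) (XT.lf (nat_lit 0) (nat_lit 4887849389) (nat_lit 684) (nat_lit 8524013159) (nat_lit 76) (nat_lit 8459743599) (nat_lit 242) (nat_lit 5) (nat_lit 251) (nat_lit 5) (nat_lit 243) (nat_lit 5) (nat_lit 632) (nat_lit 571) (nat_lit 357)) (XT.nd (nat_lit 78) (nat_lit 0) (nat_lit 0) (XT.lf (nat_lit 0) (nat_lit 4070568203) (nat_lit 532) (nat_lit 4806633702)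 (nat_lit 608) (nat_lit 13252892396) (nat_lit 235) (nat_lit 5) (nat_lit 242) (nat_lit 5) (nat_lit 243) (nat_lit 5) (nat_lit 633) (nat_lit 571) (nat_lit 356)) (XT.lf (nat_lit 0) (nat_lit 13024547367) (nat_lit 608) (nat_lit 5393026890) (nat_lit 76) (nat_lit 3974614412) (nat_lit 235) (nat_lit 5) (nat_lit 243) (nat_lit 5) (nat_lit 236) (nat_lit 5) (nat_lit 634) (nat_lit 571) (nat_lit 355))))) (XT.nd (nat_lit 234) (nat_lit 988) (nat_lit 0) (XT.nd (nat_lit 78) (nat_lit 608) (nat_lit 0) (XT.lf (nat_lit 0) (nat_lit 7587773648) (nat_lit 532) (nat_lit 9743110070) (nat_lit 608) (nat_lit 5327120886) (nat_lit 228) (nat_lit 5) (nat_lit 235) (nat_lit 5) (nat_lit 236) (nat_lit 5) (nat_lit 635) (nat_lit 571) (nat_lit 354)) (XT.nd (nat_lit 78) (nat_lit 608) (nat_lit 0) (XT.lf (nat_lit 0) (nat_lit 20894626596) (nat_lit 532) (nat_lit 859913146) (nat_lit 608) (nat_lit 1173973804) (nat_lit 228) (nat_lit 5) (nat_lit 235) (nat_lit 5) (nat_lit 236) (nat_lit 5) (nat_lit 636) (nat_lit 571) (nat_lit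 353)) (XT.lf (nat_lit 0) (nat_lit 3144924384) (nat_lit 608) (nat_lit 11870483226) (nat_lit 76) (nat_lit 8186170944) (nat_lit 220) (nat_lit 5) (nat_lit 228) (nat_lit 5) (nat_lit 221) (nat_lit 5) (nat_lit 637) (nat_lit 571) (nat_lit 352)))) (XT.nd (nat_lit 156) (nat_lit 456) (nat_lit 0) (XT.nd (nat_lit 78) (nat_lit 0) (nat_lit 0) (XT.lf (nat_lit 0) (nat_lit 1510722234) (nat_lit 532) (nat_lit 6048126833) (nat_lit 608) (nat_lit 15920613750) (nat_lit 213) (nat_lit 5) (nat_lit 220) (nat_lit 5) (nat_lit 221) (nat_lit 5) (nat_lit 638) (nat_lit 571) (nat_lit 351)) (XT.lf (nat_lit 0) (nat_lit 12156507107) (nat_lit 608) (nat_lit 8468185920) (nat_lit 76) (nat_lit 3136303147) (nat_lit 213) (nat_lit 5) (nat_lit 221) (nat_lit 5) (nat_lit 214) (nat_lit 5) (nat_lit 639) (nat_lit 571) (nat_lit 350))) (XT.nd (nat_lit 78) (nat_lit 0) (nat_lit 0) (XT.lf (nat_lit 0) (nat_lit 5325614983) (nat_lit 456) (nat_lit 11590382242) (nat_lit 532) (nat_lit 7130765891) (nat_lit 207) (nat_lit 5) (nat_lit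 213) (nat_lit 5) (nat_lit 214) (nat_lit 5) (nat_lit 640) (nat_lit 571) (nat_lit 349)) (XT.lf (nat_lit 0) (nat_lit 19503566102) (nat_lit 456) (nat_lit 2319235588) (nat_lit 532) (nat_lit 2514401702) (nat_lit 207) (nat_lit 5) (nat_lit 213) (nat_lit 5) (nat_lit 214) (nat_lit 5) (nat_lit 641) (nat_lit 571) (nat_lit 348))))))))
noncomputable def xc195 : XT := (XT.nd (nat_lit 76518) (nat_lit 0) (nat_lit 17556) (XT.nd (nat_lit 936) (nat_lit 760) (nat_lit 0) (XT.nd (nat_lit 468) (nat_lit 1368) (nat_lit 0) (XT.nd (nat_lit 234) (nat_lit 988) (nat_lit 0) (XT.nd (nat_lit 78) (nat_lit 456) (nat_lit 0) (XT.lf (nat_lit 0) (nat_lit 2268955707) (nat_lit 608) (nat_lit 15244198645) (nat_lit 76) (nat_lit 7117944764) (nat_lit 199) (nat_lit 5) (nat_lit 207) (nat_lit 5) (nat_lit 200) (nat_lit 5) (nat_lit 642) (nat_lit 571) (nat_lit 347)) (XT.nd (nat_lit 78) (nat_lit 456) (nat_lit 0) (XT.lf (nat_lit 0) (nat_lit 7157751489) (nat_lit 608) (nat_lit 1011566224) (nat_lit 76) (nat_lit 16760354315)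 (nat_lit 199) (nat_lit 5) (nat_lit 207) (nat_lit 5) (nat_lit 200) (nat_lit 5) (nat_lit 643) (nat_lit 571) (nat_lit 346)) (XT.lf (nat_lit 0) (nat_lit 12238037611) (nat_lit 532) (nat_lit 11563187450) (nat_lit 76) (nat_lit 1431117497) (nat_lit 193) (nat_lit 5) (nat_lit 200) (nat_lit 5) (nat_lit 194) (nat_lit 5) (nat_lit 644) (nat_lit 571) (nat_lit 345)))) (XT.nd (nat_lit 78) (nat_lit 532) (nat_lit 0) (XT.lf (nat_lit 0) (nat_lit 3096339393) (nat_lit 456) (nat_lit 14400151122) (nat_lit 532) (nat_lit 8043045204) (nat_lit 187) (nat_lit 5) (nat_lit 193) (nat_lit 5) (nat_lit 194) (nat_lit 5) (nat_lit 645) (nat_lit 571) (nat_lit 344)) (XT.nd (nat_lit 78) (nat_lit 532) (nat_lit 0) (XT.lf (nat_lit 0) (nat_lit 18199445463) (nat_lit 456) (nat_lit 4733831654) (nat_lit 532) (nat_lit 2918132764) (nat_lit 187) (nat_lit 5) (nat_lit 193) (nat_lit 5) (nat_lit 194) (nat_lit 5) (nat_lit 646) (nat_lit 571) (nat_lit 343)) (XT.lf (nat_lit 0) (nat_lit 2357083722) (nat_lit 532) (nat_lit 18689686987)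 (nat_lit 76) (nat_lit 5120889518) (nat_lit 180) (nat_lit 5) (nat_lit 187) (nat_lit 5) (nat_lit 181) (nat_lit 5) (nat_lit 647) (nat_lit 571) (nat_lit 342))))) (XT.nd (nat_lit 234) (nat_lit 532) (nat_lit 0) (XT.nd (nat_lit 78) (nat_lit 836) (nat_lit 0) (XT.lf (nat_lit 0) (nat_lit 7777465896) (nat_lit 532) (nat_lit 3532310330) (nat_lit 76) (nat_lit 15178499280) (nat_lit 180) (nat_lit 5) (nat_lit 187) (nat_lit 5) (nat_lit 181) (nat_lit 5) (nat_lit 648) (nat_lit 571) (nat_lit 341)) (XT.nd (nat_lit 78) (nat_lit 380) (nat_lit 0) (XT.lf (nat_lit 0) (nat_lit 12080454677) (nat_lit 456) (nat_lit 1299980447) (nat_lit 532) (nat_lit 13433384777) (nat_lit 174) (nat_lit 5) (nat_lit 180) (nat_lit 5) (nat_lit 181) (nat_lit 5) (nat_lit 649) (nat_lit 571) (nat_lit 340)) (XT.lf (nat_lit 0) (nat_lit 854933444) (nat_lit 380) (nat_lit 18323567352) (nat_lit 456) (nat_lit 7965714037) (nat_lit 169) (nat_lit 5) (nat_lit 174) (nat_lit 5) (nat_lit 175) (nat_lit 5) (nat_lit 650) (nat_lit 571) (nat_lit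 339)))) (XT.nd (nat_lit 78) (nat_lit 532) (nat_lit 0) (XT.lf (nat_lit 0) (nat_lit 16939802401) (nat_lit 380) (nat_lit 8255965100) (nat_lit 456) (nat_lit 2283385753) (nat_lit 169) (nat_lit 5) (nat_lit 174) (nat_lit 5) (nat_lit 175) (nat_lit 5) (nat_lit 651) (nat_lit 571) (nat_lit 338)) (XT.nd (nat_lit 78) (nat_lit 0) (nat_lit 0) (XT.lf (nat_lit 0) (nat_lit 3512003323) (nat_lit 532) (nat_lit 22263442063) (nat_lit 76) (nat_lit 2043979656) (nat_lit 162) (nat_lit 5) (nat_lit 169) (nat_lit 5) (nat_lit 163) (nat_lit 5) (nat_lit 652) (nat_lit 571) (nat_lit 337)) (XT.lf (nat_lit 0) (nat_lit 9514523997) (nat_lit 532) (nat_lit 6125415541) (nat_lit 76) (nat_lit 12523825257) (nat_lit 162) (nat_lit 5) (nat_lit 169) (nat_lit 5) (nat_lit 163) (nat_lit 5) (nat_lit 653) (nat_lit 571) (nat_lit 336)))))) (XT.nd (nat_lit 75036) (nat_lit 0) (nat_lit 25764) (XT.nd (nat_lit 74802) (nat_lit 0) (nat_lit 25688) (XT.nd (nat_lit 78) (nat_lit 380) (nat_lit 0) (XT.lf (nat_lit 0) (nat_lit 10466614083)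 (nat_lit 380) (nat_lit 5234419104) (nat_lit 456) (nat_lit 12812679748) (nat_lit 157) (nat_lit 5) (nat_lit 162) (nat_lit 5) (nat_lit 163) (nat_lit 5) (nat_lit 654) (nat_lit 571) (nat_lit 335)) (XT.nd (nat_lit 78) (nat_lit 380) (nat_lit 0) (XT.lf (nat_lit 0) (nat_lit 22083583695) (nat_lit 456) (nat_lit 1437575794) (nat_lit 76) (nat_lit 5348054673) (nat_lit 157) (nat_lit 5) (nat_lit 163) (nat_lit 5) (nat_lit 158) (nat_lit 5) (nat_lit 655) (nat_lit 571) (nat_lit 334)) (XT.lf (nat_lit 0) (nat_lit 15669037548) (nat_lit 380) (nat_lit 13057233481) (nat_lit 456) (nat_lit 502905011) (nat_lit 152) (nat_lit 5) (nat_lit 157) (nat_lit 5) (nat_lit 158) (nat_lit 5) (nat_lit 656) (nat_lit 571) (nat_lit 333)))) (XT.nd (nat_lit 78) (nat_lit 0) (nat_lit 0) (XT.lf (nat_lit 0) (nat_lit 3055333311) (nat_lit 1748) (nat_lit 1403328885) (nat_lit 1748) (nat_lit 1403328885) (nat_lit 490) (nat_lit 3) (nat_lit 513) (nat_lit 3) (nat_lit 513) (nat_lit 5) (nat_lit 572) (nat_lit 572) (nat_lit 416)) (XT.nd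 (nat_lit 78) (nat_lit 0) (nat_lit 76) (XT.lf (nat_lit 76) (nat_lit 2980941940) (nat_lit 0) (nat_lit 3705729900) (nat_lit 1748) (nat_lit 5144171932) (nat_lit 491) (nat_lit 5) (nat_lit 490) (nat_lit 3) (nat_lit 513) (nat_lit 5) (nat_lit 573) (nat_lit 572) (nat_lit 415)) (XT.lf (nat_lit 0) (nat_lit 7290608990) (nat_lit 1672) (nat_lit 3034728142) (nat_lit 1748) (nat_lit 1614179348) (nat_lit 491) (nat_lit 5) (nat_lit 513) (nat_lit 5) (nat_lit 514) (nat_lit 5) (nat_lit 574) (nat_lit 572) (nat_lit 414))))) (XT.nd (nat_lit 234) (nat_lit 0) (nat_lit 76) (XT.nd (nat_lit 78) (nat_lit 0) (nat_lit 76) (XT.lf (nat_lit 76) (nat_lit 2903401791) (nat_lit 0) (nat_lit 5033869209) (nat_lit 1748) (nat_lit 4112480783) (nat_lit 492) (nat_lit 5) (nat_lit 491) (nat_lit 5) (nat_lit 514) (nat_lit 5) (nat_lit 575) (nat_lit 572) (nat_lit 413)) (XT.nd (nat_lit 78) (nat_lit 0) (nat_lit 0) (XT.lf (nat_lit 0) (nat_lit 8607221939) (nat_lit 1672) (nat_lit 3169977281) (nat_lit 1748) (nat_lit 384787483)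 (nat_lit 492) (nat_lit 5) (nat_lit 514) (nat_lit 5) (nat_lit 515) (nat_lit 5) (nat_lit 576) (nat_lit 572) (nat_lit 412)) (XT.lf (nat_lit 76) (nat_lit 2923944689) (nat_lit 0) (nat_lit 6406690024) (nat_lit 1748) (nat_lit 2945032335) (nat_lit 493) (nat_lit 5) (nat_lit 492) (nat_lit 5) (nat_lit 515) (nat_lit 5) (nat_lit 577) (nat_lit 572) (nat_lit 411)))) (XT.nd (nat_lit 156) (nat_lit 0) (nat_lit 76) (XT.nd (nat_lit 78) (nat_lit 0) (nat_lit 76) (XT.lf (nat_lit 76) (nat_lit 9175771583) (nat_lit 0) (nat_lit 901953399) (nat_lit 1748) (nat_lit 2313713776) (nat_lit 493) (nat_lit 5) (nat_lit 492) (nat_lit 5) (nat_lit 515) (nat_lit 5) (nat_lit 578) (nat_lit 572) (nat_lit 410)) (XT.lf (nat_lit 76) (nat_lit 3045372317) (nat_lit 0) (nat_lit 7832962587) (nat_lit 1748) (nat_lit 1630421349) (nat_lit 494) (nat_lit 5) (nat_lit 493) (nat_lit 5) (nat_lit 516) (nat_lit 5) (nat_lit 579) (nat_lit 572) (nat_lit 409))) (XT.nd (nat_lit 78) (nat_lit 0) (nat_lit 76) (XT.lf (nat_lit 76) (nat_lit 9462137530)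 (nat_lit 0) (nat_lit 2248723955) (nat_lit 1748) (nat_lit 917242391) (nat_lit 494) (nat_lit 5) (nat_lit 493) (nat_lit 5) (nat_lit 516) (nat_lit 5) (nat_lit 580) (nat_lit 572) (nat_lit 408)) (XT.lf (nat_lit 76) (nat_lit 3270762321) (nat_lit 0) (nat_lit 9321542225) (nat_lit 1748) (nat_lit 156890421) (nat_lit 495) (nat_lit 5) (nat_lit 494) (nat_lit 5) (nat_lit 517) (nat_lit 5) (nat_lit 581) (nat_lit 572) (nat_lit 407))))))) (XT.nd (nat_lit 936) (nat_lit 6688) (nat_lit 0) (XT.nd (nat_lit 468) (nat_lit 0) (nat_lit 228) (XT.nd (nat_lit 234) (nat_lit 0) (nat_lit 152) (XT.nd (nat_lit 78) (nat_lit 0) (nat_lit 76) (XT.lf (nat_lit 0) (nat_lit 635581996) (nat_lit 1748) (nat_lit 3019448245) (nat_lit 1824) (nat_lit 9217098516) (nat_lit 471) (nat_lit 5) (nat_lit 494) (nat_lit 5) (nat_lit 495) (nat_lit 5) (nat_lit 582) (nat_lit 572) (nat_lit 406)) (XT.nd (nat_lit 78) (nat_lit 0) (nat_lit 0) (XT.lf (nat_lit 0) (nat_lit 1468182695) (nat_lit 1748) (nat_lit 9403356909) (nat_lit 1824) (nat_lit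 2125435012) (nat_lit 472) (nat_lit 5) (nat_lit 495) (nat_lit 5) (nat_lit 496) (nat_lit 5) (nat_lit 583) (nat_lit 572) (nat_lit 405)) (XT.lf (nat_lit 0) (nat_lit 2351201948) (nat_lit 1748) (nat_lit 2775688486) (nat_lit 1824) (nat_lit 7996753320) (nat_lit 472) (nat_lit 5) (nat_lit 495) (nat_lit 5) (nat_lit 496) (nat_lit 5) (nat_lit 584) (nat_lit 572) (nat_lit 404)))) (XT.nd (nat_lit 78) (nat_lit 0) (nat_lit 0) (XT.lf (nat_lit 0) (nat_lit 3272378274) (nat_lit 1748) (nat_lit 9227266932) (nat_lit 1824) (nat_lit 752792797) (nat_lit 473) (nat_lit 5) (nat_lit 496) (nat_lit 5) (nat_lit 497) (nat_lit 5) (nat_lit 585) (nat_lit 572) (nat_lit 403)) (XT.nd (nat_lit 78) (nat_lit 0) (nat_lit 0) (XT.lf (nat_lit 0) (nat_lit 4254241695) (nat_lit 1748) (nat_lit 2425191936) (nat_lit 1824) (nat_lit 6703530859) (nat_lit 473) (nat_lit 5) (nat_lit 496) (nat_lit 5) (nat_lit 497) (nat_lit 5) (nat_lit 586) (nat_lit 572) (nat_lit 402)) (XT.lf (nat_lit 76) (nat_lit 4565594261) (nat_lit 0) (nat_lit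 709556645) (nat_lit 1824) (nat_lit 8240564026) (nat_lit 474) (nat_lit 5) (nat_lit 473) (nat_lit 5) (nat_lit 497) (nat_lit 5) (nat_lit 587) (nat_lit 572) (nat_lit 401))))) (XT.nd (nat_lit 234) (nat_lit 0) (nat_lit 76) (XT.nd (nat_lit 78) (nat_lit 0) (nat_lit 0) (XT.lf (nat_lit 0) (nat_lit 6357727874) (nat_lit 1748) (nat_lit 1964144652) (nat_lit 1824) (nat_lit 5328424431) (nat_lit 474) (nat_lit 5) (nat_lit 497) (nat_lit 5) (nat_lit 498) (nat_lit 5) (nat_lit 588) (nat_lit 572) (nat_lit 400)) (XT.nd (nat_lit 78) (nat_lit 0) (nat_lit 76) (XT.lf (nat_lit 76) (nat_lit 5218048682) (nat_lit 0) (nat_lit 2272621842) (nat_lit 1824) (nat_lit 6296327347) (nat_lit 475) (nat_lit 5) (nat_lit 474) (nat_lit 5) (nat_lit 498) (nat_lit 5) (nat_lit 589) (nat_lit 572) (nat_lit 399)) (XT.lf (nat_lit 0) (nat_lit 8675144838) (nat_lit 1748) (nat_lit 1388455423) (nat_lit 1824) (nat_lit 3862256590) (nat_lit 475) (nat_lit 5) (nat_lit 498) (nat_lit 5) (nat_lit 499) (nat_lit 5) (nat_lit 590) (nat_lit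 572) (nat_lit 398)))) (XT.nd (nat_lit 78) (nat_lit 0) (nat_lit 76) (XT.lf (nat_lit 76) (nat_lit 5991924650) (nat_lit 0) (nat_lit 3935827407) (nat_lit 1824) (nat_lit 4138853559) (nat_lit 476) (nat_lit 5) (nat_lit 475) (nat_lit 5) (nat_lit 499) (nat_lit 5) (nat_lit 591) (nat_lit 572) (nat_lit 397)) (XT.nd (nat_lit 78) (nat_lit 0) (nat_lit 0) (XT.lf (nat_lit 0) (nat_lit 11220460756) (nat_lit 1748) (nat_lit 693752185) (nat_lit 1824) (nat_lit 2295656873) (nat_lit 476) (nat_lit 5) (nat_lit 499) (nat_lit 5) (nat_lit 500) (nat_lit 5) (nat_lit 592) (nat_lit 572) (nat_lit 396)) (XT.lf (nat_lit 76) (nat_lit 6891849899) (nat_lit 0) (nat_lit 5708811828) (nat_lit 1824) (nat_lit 1754106223) (nat_lit 477) (nat_lit 5) (nat_lit 476) (nat_lit 5) (nat_lit 500) (nat_lit 5) (nat_lit 593) (nat_lit 572) (nat_lit 395)))))) (XT.nd (nat_lit 468) (nat_lit 3724) (nat_lit 0) (XT.nd (nat_lit 234) (nat_lit 1596) (nat_lit 0) (XT.nd (nat_lit 78) (nat_lit 1824) (nat_lit 0) (XT.lf (nat_lit 76) (nat_lit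 126278190) (nat_lit 0) (nat_lit 13882696031) (nat_lit 1824) (nat_lit 493581067) (nat_lit 478) (nat_lit 5) (nat_lit 477) (nat_lit 5) (nat_lit 501) (nat_lit 5) (nat_lit 594) (nat_lit 572) (nat_lit 394)) (XT.nd (nat_lit 78) (nat_lit 0) (nat_lit 0) (XT.lf (nat_lit 0) (nat_lit 861024106) (nat_lit 1824) (nat_lit 6734644011) (nat_lit 1900) (nat_lit 7055943552) (nat_lit 453) (nat_lit 5) (nat_lit 477) (nat_lit 5) (nat_lit 478) (nat_lit 5) (nat_lit 595) (nat_lit 572) (nat_lit 393)) (XT.lf (nat_lit 76) (nat_lit 1063157405) (nat_lit 0) (nat_lit 1171079808) (nat_lit 1900) (nat_lit 12569385524) (nat_lit 454) (nat_lit 5) (nat_lit 453) (nat_lit 5) (nat_lit 478) (nat_lit 5) (nat_lit 596) (nat_lit 572) (nat_lit 392)))) (XT.nd (nat_lit 78) (nat_lit 1672) (nat_lit 0) (XT.lf (nat_lit 0) (nat_lit 3706700157) (nat_lit 1824) (nat_lit 5892282401) (nat_lit 76) (nat_lit 5358257039) (nat_lit 454) (nat_lit 5) (nat_lit 478) (nat_lit 5) (nat_lit 455) (nat_lit 5) (nat_lit 597) (nat_lit 572) (nat_lit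 391)) (XT.nd (nat_lit 78) (nat_lit 0) (nat_lit 0) (XT.lf (nat_lit 0) (nat_lit 2125659501) (nat_lit 1672) (nat_lit 3096028921) (nat_lit 1748) (nat_lit 9891980109) (nat_lit 432) (nat_lit 5) (nat_lit 454) (nat_lit 5) (nat_lit 455) (nat_lit 5) (nat_lit 598) (nat_lit 572) (nat_lit 390)) (XT.lf (nat_lit 0) (nat_lit 6821388496) (nat_lit 1748) (nat_lit 4919284740) (nat_lit 76) (nat_lit 3531465800) (nat_lit 432) (nat_lit 5) (nat_lit 455) (nat_lit 5) (nat_lit 433) (nat_lit 5) (nat_lit 599) (nat_lit 572) (nat_lit 389))))) (XT.nd (nat_lit 234) (nat_lit 1824) (nat_lit 0) (XT.nd (nat_lit 78) (nat_lit 912) (nat_lit 0) (XT.lf (nat_lit 0) (nat_lit 3326631191) (nat_lit 988) (nat_lit 5160362818) (nat_lit 1064) (nat_lit 6946107922) (nat_lit 419) (nat_lit 5) (nat_lit 432) (nat_lit 5) (nat_lit 433) (nat_lit 5) (nat_lit 600) (nat_lit 572) (nat_lit 388)) (XT.nd (nat_lit 78) (nat_lit 912) (nat_lit 0) (XT.lf (nat_lit 0) (nat_lit 10221142962) (nat_lit 1064) (nat_lit 3810197213) (nat_lit 76) (nat_lit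 1565240467) (nat_lit 419) (nat_lit 5) (nat_lit 433) (nat_lit 5) (nat_lit 420) (nat_lit 5) (nat_lit 601) (nat_lit 572) (nat_lit 387)) (XT.lf (nat_lit 0) (nat_lit 4671815903) (nat_lit 912) (nat_lit 7374752386) (nat_lit 988) (nat_lit 3715629935) (nat_lit 407) (nat_lit 5) (nat_lit 419) (nat_lit 5) (nat_lit 420) (nat_lit 5) (nat_lit 602) (nat_lit 572) (nat_lit 386)))) (XT.nd (nat_lit 156) (nat_lit 912) (nat_lit 0) (XT.nd (nat_lit 78) (nat_lit 912) (nat_lit 0) (XT.lf (nat_lit 0) (nat_lit 13367882426) (nat_lit 912) (nat_lit 558382601) (nat_lit 988) (nat_lit 2004509009) (nat_lit 407) (nat_lit 5) (nat_lit 419) (nat_lit 5) (nat_lit 420) (nat_lit 5) (nat_lit 603) (nat_lit 572) (nat_lit 385)) (XT.lf (nat_lit 0) (nat_lit 6167266574) (nat_lit 912) (nat_lit 9750198399) (nat_lit 988) (nat_lit 183779324) (nat_lit 395) (nat_lit 5) (nat_lit 407) (nat_lit 5) (nat_lit 408) (nat_lit 5) (nat_lit 604) (nat_lit 572) (nat_lit 384))) (XT.nd (nat_lit 78) (nat_lit 836) (nat_lit 0) (XT.lf (nat_lit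 0) (nat_lit 1664831931) (nat_lit 988) (nat_lit 1189993133) (nat_lit 76) (nat_lit 13419814411) (nat_lit 394) (nat_lit 5) (nat_lit 407) (nat_lit 5) (nat_lit 395) (nat_lit 5) (nat_lit 605) (nat_lit 572) (nat_lit 383)) (XT.lf (nat_lit 0) (nat_lit 3618777482) (nat_lit 912) (nat_lit 8654994723) (nat_lit 76) (nat_lit 4176290651) (nat_lit 383) (nat_lit 5) (nat_lit 395) (nat_lit 5) (nat_lit 384) (nat_lit 5) (nat_lit 606) (nat_lit 572) (nat_lit 382))))))))
noncomputable def xc196 : XT := (XT.nd (nat_lit 1950) (nat_lit 7144) (nat_lit 0) (XT.nd (nat_lit 936) (nat_lit 4560) (nat_lit 0) (XT.nd (nat_lit 468) (nat_lit 3040) (nat_lit 0) (XT.nd (nat_lit 234) (nat_lit 836) (nat_lit 0) (XT.nd (nat_lit 78) (nat_lit 760) (nat_lit 0) (XT.lf (nat_lit 0) (nat_lit 325167436) (nat_lit 836) (nat_lit 5308343820) (nat_lit 912) (nat_lit 10995050295) (nat_lit 372) (nat_lit 5) (nat_lit 383) (nat_lit 5) (nat_lit 384) (nat_lit 5) (nat_lit 607) (nat_lit 572) (nat_lit 381)) (XT.nd (nat_lit 78) (nat_lit 760)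 (nat_lit 0) (XT.lf (nat_lit 0) (nat_lit 7751418306) (nat_lit 912) (nat_lit 7226625962) (nat_lit 76) (nat_lit 1831329391) (nat_lit 372) (nat_lit 5) (nat_lit 384) (nat_lit 5) (nat_lit 373) (nat_lit 5) (nat_lit 608) (nat_lit 572) (nat_lit 380)) (XT.lf (nat_lit 0) (nat_lit 2015741242) (nat_lit 760) (nat_lit 7937077536) (nat_lit 836) (nat_lit 7040161517) (nat_lit 362) (nat_lit 5) (nat_lit 372) (nat_lit 5) (nat_lit 373) (nat_lit 5) (nat_lit 609) (nat_lit 572) (nat_lit 379)))) (XT.nd (nat_lit 78) (nat_lit 836) (nat_lit 0) (XT.lf (nat_lit 0) (nat_lit 11533743572) (nat_lit 760) (nat_lit 705984100) (nat_lit 836) (nat_lit 4939702755) (nat_lit 362) (nat_lit 5) (nat_lit 372) (nat_lit 5) (nat_lit 373) (nat_lit 5) (nat_lit 610) (nat_lit 572) (nat_lit 378)) (XT.nd (nat_lit 78) (nat_lit 0) (nat_lit 0) (XT.lf (nat_lit 0) (nat_lit 3872816844) (nat_lit 836) (nat_lit 10761129596) (nat_lit 912) (nat_lit 2734432643) (nat_lit 351) (nat_lit 5) (nat_lit 362) (nat_lit 5) (nat_lit 363) (nat_lit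 5) (nat_lit 611) (nat_lit 572) (nat_lit 377)) (XT.lf (nat_lit 0) (nat_lit 13646361110) (nat_lit 836) (nat_lit 3465429734) (nat_lit 912) (nat_lit 448601975) (nat_lit 351) (nat_lit 5) (nat_lit 362) (nat_lit 5) (nat_lit 363) (nat_lit 5) (nat_lit 612) (nat_lit 572) (nat_lit 376))))) (XT.nd (nat_lit 234) (nat_lit 1444) (nat_lit 0) (XT.nd (nat_lit 78) (nat_lit 760) (nat_lit 0) (XT.lf (nat_lit 0) (nat_lit 1916118346) (nat_lit 836) (nat_lit 11864076532) (nat_lit 76) (nat_lit 3974650980) (nat_lit 340) (nat_lit 5) (nat_lit 351) (nat_lit 5) (nat_lit 341) (nat_lit 5) (nat_lit 613) (nat_lit 572) (nat_lit 375)) (XT.nd (nat_lit 78) (nat_lit 760) (nat_lit 0) (XT.lf (nat_lit 0) (nat_lit 4364903285) (nat_lit 836) (nat_lit 2041190302) (nat_lit 76) (nat_lit 11546180409) (nat_lit 340) (nat_lit 5) (nat_lit 351) (nat_lit 5) (nat_lit 341) (nat_lit 5) (nat_lit 614) (nat_lit 572) (nat_lit 374)) (XT.lf (nat_lit 0) (nat_lit 6916204111) (nat_lit 836) (nat_lit 10083247747) (nat_lit 76) (nat_lit 1153128895)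 (nat_lit 330) (nat_lit 5) (nat_lit 341) (nat_lit 5) (nat_lit 331) (nat_lit 5) (nat_lit 615) (nat_lit 572) (nat_lit 373)))) (XT.nd (nat_lit 78) (nat_lit 760) (nat_lit 0) (XT.lf (nat_lit 0) (nat_lit 3553441) (nat_lit 684) (nat_lit 9564803645) (nat_lit 760) (nat_lit 8787540885) (nat_lit 321) (nat_lit 5) (nat_lit 330) (nat_lit 5) (nat_lit 331) (nat_lit 5) (nat_lit 616) (nat_lit 572) (nat_lit 372)) (XT.nd (nat_lit 78) (nat_lit 760) (nat_lit 0) (XT.lf (nat_lit 0) (nat_lit 10421724455) (nat_lit 684) (nat_lit 1913162914) (nat_lit 760) (nat_lit 6227168309) (nat_lit 321) (nat_lit 5) (nat_lit 330) (nat_lit 5) (nat_lit 331) (nat_lit 5) (nat_lit 617) (nat_lit 572) (nat_lit 371)) (XT.lf (nat_lit 0) (nat_lit 2260285354) (nat_lit 760) (nat_lit 12943179662) (nat_lit 836) (nat_lit 3567938000) (nat_lit 311) (nat_lit 5) (nat_lit 321) (nat_lit 5) (nat_lit 322) (nat_lit 5) (nat_lit 618) (nat_lit 572) (nat_lit 370)))))) (XT.nd (nat_lit 468) (nat_lit 2508) (nat_lit 0) (XT.nd (nat_lit 234) (nat_lit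 1292) (nat_lit 0) (XT.nd (nat_lit 78) (nat_lit 760) (nat_lit 0) (XT.lf (nat_lit 0) (nat_lit 12959437063) (nat_lit 760) (nat_lit 5231055979) (nat_lit 836) (nat_lit 793223482) (nat_lit 311) (nat_lit 5) (nat_lit 321) (nat_lit 5) (nat_lit 322) (nat_lit 5) (nat_lit 619) (nat_lit 572) (nat_lit 369)) (XT.nd (nat_lit 78) (nat_lit 0) (nat_lit 0) (XT.lf (nat_lit 0) (nat_lit 2052216876) (nat_lit 760) (nat_lit 14502949231) (nat_lit 76) (nat_lit 2644007512) (nat_lit 301) (nat_lit 5) (nat_lit 311) (nat_lit 5) (nat_lit 302) (nat_lit 5) (nat_lit 620) (nat_lit 572) (nat_lit 368)) (XT.lf (nat_lit 0) (nat_lit 5013305430) (nat_lit 760) (nat_lit 3752492357) (nat_lit 76) (nat_lit 10651650743) (nat_lit 301) (nat_lit 5) (nat_lit 311) (nat_lit 5) (nat_lit 302) (nat_lit 5) (nat_lit 621) (nat_lit 572) (nat_lit 367)))) (XT.nd (nat_lit 78) (nat_lit 608) (nat_lit 0) (XT.lf (nat_lit 0) (nat_lit 7301879888) (nat_lit 684) (nat_lit 773276045) (nat_lit 760) (nat_lit 11564102940) (nat_lit 292) (nat_lit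 5) (nat_lit 301) (nat_lit 5) (nat_lit 302) (nat_lit 5) (nat_lit 622) (nat_lit 572) (nat_lit 366)) (XT.nd (nat_lit 78) (nat_lit 608) (nat_lit 0) (XT.lf (nat_lit 0) (nat_lit 11265697151) (nat_lit 760) (nat_lit 1291797132) (nat_lit 76) (nat_lit 7306662788) (nat_lit 292) (nat_lit 5) (nat_lit 302) (nat_lit 5) (nat_lit 293) (nat_lit 5) (nat_lit 623) (nat_lit 572) (nat_lit 365)) (XT.lf (nat_lit 0) (nat_lit 10095187103) (nat_lit 608) (nat_lit 4489837338) (nat_lit 684) (nat_lit 5507229995) (nat_lit 284) (nat_lit 5) (nat_lit 292) (nat_lit 5) (nat_lit 293) (nat_lit 5) (nat_lit 624) (nat_lit 572) (nat_lit 364))))) (XT.nd (nat_lit 234) (nat_lit 1140) (nat_lit 0) (XT.nd (nat_lit 78) (nat_lit 684) (nat_lit 0) (XT.lf (nat_lit 0) (nat_lit 1389723551) (nat_lit 684) (nat_lit 16617411049) (nat_lit 760) (nat_lit 2317051917) (nat_lit 275) (nat_lit 5) (nat_lit 284) (nat_lit 5) (nat_lit 285) (nat_lit 5) (nat_lit 625) (nat_lit 572) (nat_lit 363)) (XT.nd (nat_lit 78) (nat_lit 608) (nat_lit 0)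 (XT.lf (nat_lit 0) (nat_lit 1016304372) (nat_lit 760) (nat_lit 7462793527) (nat_lit 76) (nat_lit 12079705092) (nat_lit 274) (nat_lit 5) (nat_lit 284) (nat_lit 5) (nat_lit 275) (nat_lit 5) (nat_lit 626) (nat_lit 572) (nat_lit 362)) (XT.lf (nat_lit 0) (nat_lit 4272251160) (nat_lit 608) (nat_lit 135327191) (nat_lit 684) (nat_lit 16389782264) (nat_lit 266) (nat_lit 5) (nat_lit 274) (nat_lit 5) (nat_lit 275) (nat_lit 5) (nat_lit 627) (nat_lit 572) (nat_lit 361)))) (XT.nd (nat_lit 156) (nat_lit 532) (nat_lit 0) (XT.nd (nat_lit 78) (nat_lit 608) (nat_lit 0) (XT.lf (nat_lit 0) (nat_lit 7966031364) (nat_lit 684) (nat_lit 4758042028) (nat_lit 76) (nat_lit 8314629571) (nat_lit 266) (nat_lit 5) (nat_lit 275) (nat_lit 5) (nat_lit 267) (nat_lit 5) (nat_lit 628) (nat_lit 572) (nat_lit 360)) (XT.lf (nat_lit 0) (nat_lit 7332975883) (nat_lit 608) (nat_lit 4305855386) (nat_lit 684) (nat_lit 9645177961) (nat_lit 258) (nat_lit 5) (nat_lit 266) (nat_lit 5) (nat_lit 267) (nat_lit 5) (nat_lit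 629) (nat_lit 572) (nat_lit 359))) (XT.nd (nat_lit 78) (nat_lit 532) (nat_lit 0) (XT.lf (nat_lit 0) (nat_lit 15439744664) (nat_lit 684) (nat_lit 1837998394) (nat_lit 76) (nat_lit 4255386032) (nat_lit 258) (nat_lit 5) (nat_lit 267) (nat_lit 5) (nat_lit 259) (nat_lit 5) (nat_lit 630) (nat_lit 572) (nat_lit 358)) (XT.lf (nat_lit 0) (nat_lit 10621495022) (nat_lit 532) (nat_lit 8787485903) (nat_lit 608) (nat_lit 2376404934) (nat_lit 251) (nat_lit 5) (nat_lit 258) (nat_lit 5) (nat_lit 259) (nat_lit 5) (nat_lit 631) (nat_lit 572) (nat_lit 357))))))) (XT.nd (nat_lit 936) (nat_lit 3192) (nat_lit 0) (XT.nd (nat_lit 468) (nat_lit 2204) (nat_lit 0) (XT.nd (nat_lit 234) (nat_lit 532) (nat_lit 0) (XT.nd (nat_lit 78) (nat_lit 532) (nat_lit 0) (XT.lf (nat_lit 0) (nat_lit 1314001797) (nat_lit 608) (nat_lit 98154172) (nat_lit 684) (nat_lit 20630032671) (nat_lit 242) (nat_lit 5) (nat_lit 250) (nat_lit 5) (nat_lit 251) (nat_lit 5) (nat_lit 632) (nat_lit 572) (nat_lit 356)) (XT.nd (nat_lit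 78) (nat_lit 532) (nat_lit 0) (XT.lf (nat_lit 0) (nat_lit 5371917793) (nat_lit 684) (nat_lit 8189653608) (nat_lit 76) (nat_lit 8739697487) (nat_lit 242) (nat_lit 5) (nat_lit 251) (nat_lit 5) (nat_lit 243) (nat_lit 5) (nat_lit 633) (nat_lit 572) (nat_lit 355)) (XT.lf (nat_lit 0) (nat_lit 4653498066) (nat_lit 532) (nat_lit 4783240751) (nat_lit 608) (nat_lit 13128275207) (nat_lit 235) (nat_lit 5) (nat_lit 242) (nat_lit 5) (nat_lit 243) (nat_lit 5) (nat_lit 634) (nat_lit 572) (nat_lit 354)))) (XT.nd (nat_lit 78) (nat_lit 532) (nat_lit 0) (XT.lf (nat_lit 0) (nat_lit 13660301955) (nat_lit 608) (nat_lit 5002431916) (nat_lit 76) (nat_lit 4169751823) (nat_lit 235) (nat_lit 5) (nat_lit 243) (nat_lit 5) (nat_lit 236) (nat_lit 5) (nat_lit 635) (nat_lit 572) (nat_lit 353)) (XT.nd (nat_lit 78) (nat_lit 0) (nat_lit 0) (XT.lf (nat_lit 0) (nat_lit 8234705321) (nat_lit 532) (nat_lit 9813916614) (nat_lit 608) (nat_lit 5055079688) (nat_lit 228) (nat_lit 5) (nat_lit 235) (nat_lit 5) (nat_lit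 236) (nat_lit 5) (nat_lit 636) (nat_lit 572) (nat_lit 352)) (XT.lf (nat_lit 0) (nat_lit 21797985991) (nat_lit 532) (nat_lit 755488216) (nat_lit 608) (nat_lit 826292872) (nat_lit 228) (nat_lit 5) (nat_lit 235) (nat_lit 5) (nat_lit 236) (nat_lit 5) (nat_lit 637) (nat_lit 572) (nat_lit 351))))) (XT.nd (nat_lit 234) (nat_lit 1064) (nat_lit 0) (XT.nd (nat_lit 78) (nat_lit 532) (nat_lit 0) (XT.lf (nat_lit 0) (nat_lit 3570906890) (nat_lit 608) (nat_lit 11614272238) (nat_lit 76) (nat_lit 8473131000) (nat_lit 220) (nat_lit 5) (nat_lit 228) (nat_lit 5) (nat_lit 221) (nat_lit 5) (nat_lit 638) (nat_lit 572) (nat_lit 350)) (XT.nd (nat_lit 78) (nat_lit 0) (nat_lit 0) (XT.lf (nat_lit 0) (nat_lit 2031309828) (nat_lit 532) (nat_lit 6037864773) (nat_lit 608) (nat_lit 15872656937) (nat_lit 213) (nat_lit 5) (nat_lit 220) (nat_lit 5) (nat_lit 221) (nat_lit 5) (nat_lit 639) (nat_lit 572) (nat_lit 349)) (XT.lf (nat_lit 0) (nat_lit 12752578964) (nat_lit 608) (nat_lit 8150547983) (nat_lit 76)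 (nat_lit 3325993488) (nat_lit 213) (nat_lit 5) (nat_lit 221) (nat_lit 5) (nat_lit 214) (nat_lit 5) (nat_lit 640) (nat_lit 572) (nat_lit 348)))) (XT.nd (nat_lit 78) (nat_lit 608) (nat_lit 0) (XT.lf (nat_lit 0) (nat_lit 5915924980) (nat_lit 456) (nat_lit 11687554614) (nat_lit 532) (nat_lit 6917199429) (nat_lit 207) (nat_lit 5) (nat_lit 213) (nat_lit 5) (nat_lit 214) (nat_lit 5) (nat_lit 641) (nat_lit 572) (nat_lit 347)) (XT.nd (nat_lit 78) (nat_lit 608) (nat_lit 0) (XT.lf (nat_lit 0) (nat_lit 20367948892) (nat_lit 456) (nat_lit 2233624934) (nat_lit 532) (nat_lit 2215491913) (nat_lit 207) (nat_lit 5) (nat_lit 213) (nat_lit 5) (nat_lit 214) (nat_lit 5) (nat_lit 642) (nat_lit 572) (nat_lit 346)) (XT.lf (nat_lit 0) (nat_lit 2656160059) (nat_lit 608) (nat_lit 15067329835) (nat_lit 76) (nat_lit 7393360676) (nat_lit 199) (nat_lit 5) (nat_lit 207) (nat_lit 5) (nat_lit 200) (nat_lit 5) (nat_lit 643) (nat_lit 572) (nat_lit 345)))))) (XT.nd (nat_lit 468) (nat_lit 1748) (nat_lit 0)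 (XT.nd (nat_lit 234) (nat_lit 532) (nat_lit 0) (XT.nd (nat_lit 78) (nat_lit 912) (nat_lit 0) (XT.lf (nat_lit 0) (nat_lit 7636029301) (nat_lit 608) (nat_lit 559490898) (nat_lit 76) (nat_lit 17226009457) (nat_lit 199) (nat_lit 5) (nat_lit 207) (nat_lit 5) (nat_lit 200) (nat_lit 5) (nat_lit 644) (nat_lit 572) (nat_lit 344)) (XT.nd (nat_lit 78) (nat_lit 456) (nat_lit 0) (XT.lf (nat_lit 0) (nat_lit 12815289862) (nat_lit 532) (nat_lit 11319480563) (nat_lit 76) (nat_lit 1595536451) (nat_lit 193) (nat_lit 5) (nat_lit 200) (nat_lit 5) (nat_lit 194) (nat_lit 5) (nat_lit 645) (nat_lit 572) (nat_lit 343)) (XT.lf (nat_lit 0) (nat_lit 3630112011) (nat_lit 456) (nat_lit 14545343909) (nat_lit 532) (nat_lit 7868257740) (nat_lit 187) (nat_lit 5) (nat_lit 193) (nat_lit 5) (nat_lit 194) (nat_lit 5) (nat_lit 646) (nat_lit 572) (nat_lit 342)))) (XT.nd (nat_lit 78) (nat_lit 532) (nat_lit 0) (XT.lf (nat_lit 0) (nat_lit 19026028323) (nat_lit 456) (nat_lit 4688498252) (nat_lit 532) (nat_lit 2647428391)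 (nat_lit 187) (nat_lit 5) (nat_lit 193) (nat_lit 5) (nat_lit 194) (nat_lit 5) (nat_lit 647) (nat_lit 572) (nat_lit 341)) (XT.nd (nat_lit 78) (nat_lit 0) (nat_lit 0) (XT.lf (nat_lit 0) (nat_lit 2726545752) (nat_lit 532) (nat_lit 18594079075) (nat_lit 76) (nat_lit 5363911985) (nat_lit 180) (nat_lit 5) (nat_lit 187) (nat_lit 5) (nat_lit 181) (nat_lit 5) (nat_lit 648) (nat_lit 572) (nat_lit 340)) (XT.lf (nat_lit 0) (nat_lit 8249015563) (nat_lit 532) (nat_lit 3142758838) (nat_lit 76) (nat_lit 15619916987) (nat_lit 180) (nat_lit 5) (nat_lit 187) (nat_lit 5) (nat_lit 181) (nat_lit 5) (nat_lit 649) (nat_lit 572) (nat_lit 339))))) (XT.nd (nat_lit 234) (nat_lit 912) (nat_lit 0) (XT.nd (nat_lit 78) (nat_lit 380) (nat_lit 0) (XT.lf (nat_lit 0) (nat_lit 12779233852) (nat_lit 456) (nat_lit 1181582489) (nat_lit 532) (nat_lit 13382995468) (nat_lit 174) (nat_lit 5) (nat_lit 180) (nat_lit 5) (nat_lit 181) (nat_lit 5) (nat_lit 650) (nat_lit 572) (nat_lit 338)) (XT.nd (nat_lit 78) (nat_lit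 0) (nat_lit 0) (XT.lf (nat_lit 0) (nat_lit 1331506285) (nat_lit 380) (nat_lit 18541106601) (nat_lit 456) (nat_lit 7808246933) (nat_lit 169) (nat_lit 5) (nat_lit 174) (nat_lit 5) (nat_lit 175) (nat_lit 5) (nat_lit 651) (nat_lit 572) (nat_lit 337)) (XT.lf (nat_lit 0) (nat_lit 17729063323) (nat_lit 380) (nat_lit 8275072541) (nat_lit 456) (nat_lit 2018483483) (nat_lit 169) (nat_lit 5) (nat_lit 174) (nat_lit 5) (nat_lit 175) (nat_lit 5) (nat_lit 652) (nat_lit 572) (nat_lit 336)))) (XT.nd (nat_lit 156) (nat_lit 380) (nat_lit 0) (XT.nd (nat_lit 78) (nat_lit 0) (nat_lit 0) (XT.lf (nat_lit 0) (nat_lit 3886624302) (nat_lit 532) (nat_lit 22252002763) (nat_lit 76) (nat_lit 2231072030) (nat_lit 162) (nat_lit 5) (nat_lit 169) (nat_lit 5) (nat_lit 163) (nat_lit 5) (nat_lit 653) (nat_lit 572) (nat_lit 335)) (XT.lf (nat_lit 0) (nat_lit 10003227137) (nat_lit 532) (nat_lit 5800170773) (nat_lit 76) (nat_lit 12917647625) (nat_lit 162) (nat_lit 5) (nat_lit 169) (nat_lit 5) (nat_lit 163) (nat_lit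 5) (nat_lit 654) (nat_lit 572) (nat_lit 334))) (XT.nd (nat_lit 78) (nat_lit 0) (nat_lit 0) (XT.lf (nat_lit 0) (nat_lit 11120753700) (nat_lit 380) (nat_lit 5189749567) (nat_lit 456) (nat_lit 12767549153) (nat_lit 157) (nat_lit 5) (nat_lit 162) (nat_lit 5) (nat_lit 163) (nat_lit 5) (nat_lit 655) (nat_lit 572) (nat_lit 333)) (XT.lf (nat_lit 0) (nat_lit 22815862375) (nat_lit 456) (nat_lit 1025373997) (nat_lit 76) (nat_lit 5599524653) (nat_lit 157) (nat_lit 5) (nat_lit 163) (nat_lit 5) (nat_lit 158) (nat_lit 5) (nat_lit 656) (nat_lit 572) (nat_lit 332))))))))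
noncomputable def xc197 : XT := (XT.nd (nat_lit 1950) (nat_lit 11552) (nat_lit 0) (XT.nd (nat_lit 936) (nat_lit 1368) (nat_lit 0) (XT.nd (nat_lit 468) (nat_lit 1444) (nat_lit 0) (XT.nd (nat_lit 234) (nat_lit 0) (nat_lit 76) (XT.nd (nat_lit 78) (nat_lit 0) (nat_lit 0) (XT.lf (nat_lit 0) (nat_lit 3608766874) (nat_lit 1748) (nat_lit 1180268884) (nat_lit 1748) (nat_lit 1180268884) (nat_lit 490) (nat_lit 3) (nat_lit 513) (nat_lit 3) (nat_lit 513) (nat_lit 5) (nat_lit 573) (nat_lit 573) (nat_lit 414)) (XT.nd (nat_lit 78) (nat_lit 0) (nat_lit 76) (XT.lf (nat_lit 76) (nat_lit 3539509639) (nat_lit 0) (nat_lit 4249482002) (nat_lit 1748) (nat_lit 4258940962) (nat_lit 491) (nat_lit 5) (nat_lit 490) (nat_lit 3) (nat_lit 513) (nat_lit 5) (nat_lit 574) (nat_lit 573) (nat_lit 413)) (XT.lf (nat_lit 0) (nat_lit 8383026234) (nat_lit 1672) (nat_lit 2584122605) (nat_lit 1748) (nat_lit 1192072618) (nat_lit 491) (nat_lit 5) (nat_lit 513) (nat_lit 5) (nat_lit 514) (nat_lit 5) (nat_lit 575) (nat_lit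 573) (nat_lit 412)))) (XT.nd (nat_lit 78) (nat_lit 0) (nat_lit 0) (XT.lf (nat_lit 76) (nat_lit 3469406112) (nat_lit 0) (nat_lit 5557952349) (nat_lit 1748) (nat_lit 3244611270) (nat_lit 492) (nat_lit 5) (nat_lit 491) (nat_lit 5) (nat_lit 514) (nat_lit 5) (nat_lit 576) (nat_lit 573) (nat_lit 411)) (XT.nd (nat_lit 78) (nat_lit 0) (nat_lit 76) (XT.lf (nat_lit 76) (nat_lit 9672460129) (nat_lit 0) (nat_lit 17404553) (nat_lit 1748) (nat_lit 2697004487) (nat_lit 492) (nat_lit 5) (nat_lit 491) (nat_lit 5) (nat_lit 514) (nat_lit 5) (nat_lit 577) (nat_lit 573) (nat_lit 410)) (XT.lf (nat_lit 76) (nat_lit 3498089365) (nat_lit 0) (nat_lit 6915040697) (nat_lit 1748) (nat_lit 2089988260) (nat_lit 493) (nat_lit 5) (nat_lit 492) (nat_lit 5) (nat_lit 515) (nat_lit 5) (nat_lit 578) (nat_lit 573) (nat_lit 409))))) (XT.nd (nat_lit 234) (nat_lit 1596) (nat_lit 0) (XT.nd (nat_lit 78) (nat_lit 0) (nat_lit 76) (XT.lf (nat_lit 76) (nat_lit 9864841703) (nat_lit 0) (nat_lit 1292754106) (nat_lit 1748)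 (nat_lit 1463963815) (nat_lit 493) (nat_lit 5) (nat_lit 492) (nat_lit 5) (nat_lit 515) (nat_lit 5) (nat_lit 579) (nat_lit 573) (nat_lit 408)) (XT.nd (nat_lit 78) (nat_lit 0) (nat_lit 0) (XT.lf (nat_lit 76) (nat_lit 3628504136) (nat_lit 0) (nat_lit 8329509772) (nat_lit 1748) (nat_lit 783536418) (nat_lit 494) (nat_lit 5) (nat_lit 493) (nat_lit 5) (nat_lit 516) (nat_lit 5) (nat_lit 580) (nat_lit 573) (nat_lit 407)) (XT.lf (nat_lit 76) (nat_lit 10163364960) (nat_lit 0) (nat_lit 2626921899) (nat_lit 1748) (nat_lit 73338849) (nat_lit 494) (nat_lit 5) (nat_lit 493) (nat_lit 5) (nat_lit 516) (nat_lit 5) (nat_lit 581) (nat_lit 573) (nat_lit 406)))) (XT.nd (nat_lit 78) (nat_lit 0) (nat_lit 0) (XT.lf (nat_lit 0) (nat_lit 677639015) (nat_lit 1748) (nat_lit 9128033453) (nat_lit 1824) (nat_lit 3181685010) (nat_lit 471) (nat_lit 5) (nat_lit 494) (nat_lit 5) (nat_lit 495) (nat_lit 5) (nat_lit 582) (nat_lit 573) (nat_lit 405)) (XT.nd (nat_lit 78) (nat_lit 0) (nat_lit 76) (XT.lf (nat_lit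 0) (nat_lit 1467478388) (nat_lit 1748) (nat_lit 2551475605) (nat_lit 1824) (nat_lit 9094105409) (nat_lit 471) (nat_lit 5) (nat_lit 494) (nat_lit 5) (nat_lit 495) (nat_lit 5) (nat_lit 583) (nat_lit 573) (nat_lit 404)) (XT.lf (nat_lit 0) (nat_lit 2302247936) (nat_lit 1748) (nat_lit 9048453556) (nat_lit 1824) (nat_lit 1889992864) (nat_lit 472) (nat_lit 5) (nat_lit 495) (nat_lit 5) (nat_lit 496) (nat_lit 5) (nat_lit 584) (nat_lit 573) (nat_lit 403)))))) (XT.nd (nat_lit 468) (nat_lit 1444) (nat_lit 0) (XT.nd (nat_lit 234) (nat_lit 0) (nat_lit 76) (XT.nd (nat_lit 78) (nat_lit 0) (nat_lit 76) (XT.lf (nat_lit 0) (nat_lit 3187149112) (nat_lit 1748) (nat_lit 2298878245) (nat_lit 1824) (nat_lit 7884187555) (nat_lit 472) (nat_lit 5) (nat_lit 495) (nat_lit 5) (nat_lit 496) (nat_lit 5) (nat_lit 585) (nat_lit 573) (nat_lit 402)) (XT.nd (nat_lit 78) (nat_lit 0) (nat_lit 0) (XT.lf (nat_lit 0) (nat_lit 4113102739) (nat_lit 1748) (nat_lit 8865721197) (nat_lit 1824) (nat_lit 523036451) (nat_lit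 473) (nat_lit 5) (nat_lit 496) (nat_lit 5) (nat_lit 497) (nat_lit 5) (nat_lit 586) (nat_lit 573) (nat_lit 401)) (XT.lf (nat_lit 0) (nat_lit 5099401920) (nat_lit 1748) (nat_lit 1938312369) (nat_lit 1824) (nat_lit 6597589514) (nat_lit 473) (nat_lit 5) (nat_lit 496) (nat_lit 5) (nat_lit 497) (nat_lit 5) (nat_lit 587) (nat_lit 573) (nat_lit 400)))) (XT.nd (nat_lit 78) (nat_lit 0) (nat_lit 76) (XT.lf (nat_lit 76) (nat_lit 5188767293) (nat_lit 0) (nat_lit 940511780) (nat_lit 1824) (nat_lit 7641661510) (nat_lit 474) (nat_lit 5) (nat_lit 473) (nat_lit 5) (nat_lit 497) (nat_lit 5) (nat_lit 588) (nat_lit 573) (nat_lit 399)) (XT.nd (nat_lit 78) (nat_lit 0) (nat_lit 0) (XT.lf (nat_lit 0) (nat_lit 7217448874) (nat_lit 1748) (nat_lit 1465822475) (nat_lit 1824) (nat_lit 5225266349) (nat_lit 474) (nat_lit 5) (nat_lit 497) (nat_lit 5) (nat_lit 498) (nat_lit 5) (nat_lit 589) (nat_lit 573) (nat_lit 398)) (XT.lf (nat_lit 76) (nat_lit 5856477850) (nat_lit 0) (nat_lit 2505676005) (nat_lit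 1824) (nat_lit 5686038939) (nat_lit 475) (nat_lit 5) (nat_lit 474) (nat_lit 5) (nat_lit 498) (nat_lit 5) (nat_lit 590) (nat_lit 573) (nat_lit 397))))) (XT.nd (nat_lit 234) (nat_lit 1672) (nat_lit 0) (XT.nd (nat_lit 78) (nat_lit 0) (nat_lit 0) (XT.lf (nat_lit 0) (nat_lit 9554973113) (nat_lit 1748) (nat_lit 877174273) (nat_lit 1824) (nat_lit 3757990648) (nat_lit 475) (nat_lit 5) (nat_lit 498) (nat_lit 5) (nat_lit 499) (nat_lit 5) (nat_lit 591) (nat_lit 573) (nat_lit 396)) (XT.nd (nat_lit 78) (nat_lit 0) (nat_lit 76) (XT.lf (nat_lit 76) (nat_lit 6647267019) (nat_lit 0) (nat_lit 4174992787) (nat_lit 1824) (nat_lit 3511651568) (nat_lit 476) (nat_lit 5) (nat_lit 475) (nat_lit 5) (nat_lit 499) (nat_lit 5) (nat_lit 592) (nat_lit 573) (nat_lit 395)) (XT.lf (nat_lit 0) (nat_lit 12126155232) (nat_lit 1748) (nat_lit 167850787) (nat_lit 1824) (nat_lit 2186330288) (nat_lit 476) (nat_lit 5) (nat_lit 499) (nat_lit 5) (nat_lit 500) (nat_lit 5) (nat_lit 593) (nat_lit 573) (nat_lit 394))))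 (XT.nd (nat_lit 156) (nat_lit 0) (nat_lit 0) (XT.nd (nat_lit 78) (nat_lit 1748) (nat_lit 0) (XT.lf (nat_lit 76) (nat_lit 7565912178) (nat_lit 0) (nat_lit 5958171041) (nat_lit 1824) (nat_lit 1104248791) (nat_lit 477) (nat_lit 5) (nat_lit 476) (nat_lit 5) (nat_lit 500) (nat_lit 5) (nat_lit 594) (nat_lit 573) (nat_lit 393)) (XT.lf (nat_lit 0) (nat_lit 168561483) (nat_lit 1824) (nat_lit 14104580112) (nat_lit 1900) (nat_lit 506122818) (nat_lit 453) (nat_lit 5) (nat_lit 477) (nat_lit 5) (nat_lit 478) (nat_lit 5) (nat_lit 595) (nat_lit 573) (nat_lit 392))) (XT.nd (nat_lit 78) (nat_lit 0) (nat_lit 0) (XT.lf (nat_lit 0) (nat_lit 1530608607) (nat_lit 1824) (nat_lit 6324284166) (nat_lit 1900) (nat_lit 7076606662) (nat_lit 453) (nat_lit 5) (nat_lit 477) (nat_lit 5) (nat_lit 478) (nat_lit 5) (nat_lit 596) (nat_lit 573) (nat_lit 391)) (XT.lf (nat_lit 76) (nat_lit 1625887405) (nat_lit 0) (nat_lit 1296122682) (nat_lit 1900) (nat_lit 12164728062) (nat_lit 454) (nat_lit 5) (nat_lit 453)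 (nat_lit 5) (nat_lit 478) (nat_lit 5) (nat_lit 597) (nat_lit 573) (nat_lit 390))))))) (XT.nd (nat_lit 936) (nat_lit 5396) (nat_lit 0) (XT.nd (nat_lit 468) (nat_lit 2660) (nat_lit 0) (XT.nd (nat_lit 234) (nat_lit 1900) (nat_lit 0) (XT.nd (nat_lit 78) (nat_lit 1672) (nat_lit 0) (XT.lf (nat_lit 0) (nat_lit 4410665864) (nat_lit 1824) (nat_lit 5465928355) (nat_lit 76) (nat_lit 5367100124) (nat_lit 454) (nat_lit 5) (nat_lit 478) (nat_lit 5) (nat_lit 455) (nat_lit 5) (nat_lit 598) (nat_lit 573) (nat_lit 389)) (XT.nd (nat_lit 78) (nat_lit 0) (nat_lit 0) (XT.lf (nat_lit 0) (nat_lit 2708792124) (nat_lit 1672) (nat_lit 3238322188) (nat_lit 1748) (nat_lit 9456316166) (nat_lit 432) (nat_lit 5) (nat_lit 454) (nat_lit 5) (nat_lit 455) (nat_lit 5) (nat_lit 599) (nat_lit 573) (nat_lit 388)) (XT.lf (nat_lit 0) (nat_lit 7566120471) (nat_lit 1748) (nat_lit 4474873681) (nat_lit 76) (nat_lit 3524331796) (nat_lit 432) (nat_lit 5) (nat_lit 455) (nat_lit 5) (nat_lit 433) (nat_lit 5) (nat_lit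 600) (nat_lit 573) (nat_lit 387)))) (XT.nd (nat_lit 78) (nat_lit 912) (nat_lit 0) (XT.lf (nat_lit 0) (nat_lit 3932389537) (nat_lit 988) (nat_lit 5324222035) (nat_lit 1064) (nat_lit 6473066819) (nat_lit 419) (nat_lit 5) (nat_lit 432) (nat_lit 5) (nat_lit 433) (nat_lit 5) (nat_lit 601) (nat_lit 573) (nat_lit 386)) (XT.nd (nat_lit 78) (nat_lit 912) (nat_lit 0) (XT.lf (nat_lit 0) (nat_lit 11013295125) (nat_lit 1064) (nat_lit 3345513812) (nat_lit 76) (nat_lit 1537862434) (nat_lit 419) (nat_lit 5) (nat_lit 433) (nat_lit 5) (nat_lit 420) (nat_lit 5) (nat_lit 602) (nat_lit 573) (nat_lit 385)) (XT.lf (nat_lit 0) (nat_lit 5302581098) (nat_lit 912) (nat_lit 7564612452) (nat_lit 988) (nat_lit 3198570154) (nat_lit 407) (nat_lit 5) (nat_lit 419) (nat_lit 5) (nat_lit 420) (nat_lit 5) (nat_lit 603) (nat_lit 573) (nat_lit 384))))) (XT.nd (nat_lit 234) (nat_lit 1672) (nat_lit 0) (XT.nd (nat_lit 78) (nat_lit 988) (nat_lit 0) (XT.lf (nat_lit 0) (nat_lit 14162033090) (nat_lit 912) (nat_lit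 611084585) (nat_lit 988) (nat_lit 1464822347) (nat_lit 407) (nat_lit 5) (nat_lit 419) (nat_lit 5) (nat_lit 420) (nat_lit 5) (nat_lit 604) (nat_lit 573) (nat_lit 383)) (XT.nd (nat_lit 78) (nat_lit 0) (nat_lit 0) (XT.lf (nat_lit 0) (nat_lit 379187727) (nat_lit 988) (nat_lit 9588893424) (nat_lit 76) (nat_lit 6443848964) (nat_lit 394) (nat_lit 5) (nat_lit 407) (nat_lit 5) (nat_lit 395) (nat_lit 5) (nat_lit 605) (nat_lit 573) (nat_lit 382)) (XT.lf (nat_lit 0) (nat_lit 2251250269) (nat_lit 988) (nat_lit 681884396) (nat_lit 76) (nat_lit 13655857003) (nat_lit 394) (nat_lit 5) (nat_lit 407) (nat_lit 5) (nat_lit 395) (nat_lit 5) (nat_lit 606) (nat_lit 573) (nat_lit 381)))) (XT.nd (nat_lit 78) (nat_lit 836) (nat_lit 0) (XT.lf (nat_lit 0) (nat_lit 4236747683) (nat_lit 912) (nat_lit 8288582338) (nat_lit 76) (nat_lit 4242745569) (nat_lit 383) (nat_lit 5) (nat_lit 395) (nat_lit 5) (nat_lit 384) (nat_lit 5) (nat_lit 607) (nat_lit 573) (nat_lit 380)) (XT.nd (nat_lit 78) (nat_lit 0) (nat_lit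 0) (XT.lf (nat_lit 0) (nat_lit 867633642) (nat_lit 836) (nat_lit 5416924382) (nat_lit 912) (nat_lit 10665732099) (nat_lit 372) (nat_lit 5) (nat_lit 383) (nat_lit 5) (nat_lit 384) (nat_lit 5) (nat_lit 608) (nat_lit 573) (nat_lit 379)) (XT.lf (nat_lit 0) (nat_lit 8434251448) (nat_lit 912) (nat_lit 6835059278) (nat_lit 76) (nat_lit 1865620655) (nat_lit 372) (nat_lit 5) (nat_lit 384) (nat_lit 5) (nat_lit 373) (nat_lit 5) (nat_lit 609) (nat_lit 573) (nat_lit 378)))))) (XT.nd (nat_lit 468) (nat_lit 2964) (nat_lit 0) (XT.nd (nat_lit 234) (nat_lit 836) (nat_lit 0) (XT.nd (nat_lit 78) (nat_lit 836) (nat_lit 0) (XT.lf (nat_lit 0) (nat_lit 2588628301) (nat_lit 760) (nat_lit 8084160328) (nat_lit 836) (nat_lit 6649560792) (nat_lit 362) (nat_lit 5) (nat_lit 372) (nat_lit 5) (nat_lit 373) (nat_lit 5) (nat_lit 610) (nat_lit 573) (nat_lit 377)) (XT.nd (nat_lit 78) (nat_lit 836) (nat_lit 0) (XT.lf (nat_lit 0) (nat_lit 12286548085) (nat_lit 760) (nat_lit 708673626) (nat_lit 836) (nat_lit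 4517512541) (nat_lit 362) (nat_lit 5) (nat_lit 372) (nat_lit 5) (nat_lit 373) (nat_lit 5) (nat_lit 611) (nat_lit 573) (nat_lit 376)) (XT.lf (nat_lit 0) (nat_lit 4479111156) (nat_lit 836) (nat_lit 10951706306) (nat_lit 912) (nat_lit 2274775954) (nat_lit 351) (nat_lit 5) (nat_lit 362) (nat_lit 5) (nat_lit 363) (nat_lit 5) (nat_lit 612) (nat_lit 573) (nat_lit 375)))) (XT.nd (nat_lit 78) (nat_lit 760) (nat_lit 0) (XT.lf (nat_lit 0) (nat_lit 46073827) (nat_lit 912) (nat_lit 3464192693) (nat_lit 76) (nat_lit 14391373929) (nat_lit 350) (nat_lit 5) (nat_lit 362) (nat_lit 5) (nat_lit 351) (nat_lit 5) (nat_lit 613) (nat_lit 573) (nat_lit 374)) (XT.nd (nat_lit 78) (nat_lit 0) (nat_lit 0) (XT.lf (nat_lit 0) (nat_lit 2445914287) (nat_lit 836) (nat_lit 11569970780) (nat_lit 76) (nat_lit 4084162835) (nat_lit 340) (nat_lit 5) (nat_lit 351) (nat_lit 5) (nat_lit 341) (nat_lit 5) (nat_lit 614) (nat_lit 573) (nat_lit 373)) (XT.lf (nat_lit 0) (nat_lit 4934038187) (nat_lit 836) (nat_lit 1561046183)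 (nat_lit 76) (nat_lit 11806534247) (nat_lit 340) (nat_lit 5) (nat_lit 351) (nat_lit 5) (nat_lit 341) (nat_lit 5) (nat_lit 615) (nat_lit 573) (nat_lit 372))))) (XT.nd (nat_lit 234) (nat_lit 1520) (nat_lit 0) (XT.nd (nat_lit 78) (nat_lit 684) (nat_lit 0) (XT.lf (nat_lit 0) (nat_lit 7530548802) (nat_lit 836) (nat_lit 9758065685) (nat_lit 76) (nat_lit 1217434606) (nat_lit 330) (nat_lit 5) (nat_lit 341) (nat_lit 5) (nat_lit 331) (nat_lit 5) (nat_lit 616) (nat_lit 573) (nat_lit 371)) (XT.nd (nat_lit 78) (nat_lit 0) (nat_lit 0) (XT.lf (nat_lit 0) (nat_lit 527005428) (nat_lit 684) (nat_lit 9702803807) (nat_lit 760) (nat_lit 8483743364) (nat_lit 321) (nat_lit 5) (nat_lit 330) (nat_lit 5) (nat_lit 331) (nat_lit 5) (nat_lit 617) (nat_lit 573) (nat_lit 370)) (XT.lf (nat_lit 0) (nat_lit 11143277491) (nat_lit 684) (nat_lit 1899175279) (nat_lit 760) (nat_lit 5881566245) (nat_lit 321) (nat_lit 5) (nat_lit 330) (nat_lit 5) (nat_lit 331) (nat_lit 5) (nat_lit 618) (nat_lit 573) (nat_lit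 369)))) (XT.nd (nat_lit 156) (nat_lit 760) (nat_lit 0) (XT.nd (nat_lit 78) (nat_lit 0) (nat_lit 0) (XT.lf (nat_lit 0) (nat_lit 2824113551) (nat_lit 760) (nat_lit 13138951636) (nat_lit 836) (nat_lit 3174596035) (nat_lit 311) (nat_lit 5) (nat_lit 321) (nat_lit 5) (nat_lit 322) (nat_lit 5) (nat_lit 619) (nat_lit 573) (nat_lit 368)) (XT.lf (nat_lit 0) (nat_lit 13727079225) (nat_lit 760) (nat_lit 5273822570) (nat_lit 836) (nat_lit 353499005) (nat_lit 311) (nat_lit 5) (nat_lit 321) (nat_lit 5) (nat_lit 322) (nat_lit 5) (nat_lit 620) (nat_lit 573) (nat_lit 367))) (XT.nd (nat_lit 78) (nat_lit 0) (nat_lit 0) (XT.lf (nat_lit 0) (nat_lit 2537812384) (nat_lit 760) (nat_lit 14273404260) (nat_lit 76) (nat_lit 2762993602) (nat_lit 301) (nat_lit 5) (nat_lit 311) (nat_lit 5) (nat_lit 302) (nat_lit 5) (nat_lit 621) (nat_lit 573) (nat_lit 366)) (XT.lf (nat_lit 0) (nat_lit 5549406020) (nat_lit 760) (nat_lit 3318126561) (nat_lit 76) (nat_lit 10929493503) (nat_lit 301) (nat_lit 5) (nat_lit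 311) (nat_lit 5) (nat_lit 302) (nat_lit 5) (nat_lit 622) (nat_lit 573) (nat_lit 365))))))))
noncomputable def xc198 : XT := (XT.nd (nat_lit 1950) (nat_lit 2280) (nat_lit 0) (XT.nd (nat_lit 936) (nat_lit 4180) (nat_lit 0) (XT.nd (nat_lit 468) (nat_lit 1824) (nat_lit 0) (XT.nd (nat_lit 234) (nat_lit 1368) (nat_lit 0) (XT.nd (nat_lit 78) (nat_lit 608) (nat_lit 0) (XT.lf (nat_lit 0) (nat_lit 7953981709) (nat_lit 684) (nat_lit 713251754) (nat_lit 760) (nat_lit 11356145445) (nat_lit 292) (nat_lit 5) (nat_lit 301) (nat_lit 5) (nat_lit 302) (nat_lit 5) (nat_lit 623) (nat_lit 573) (nat_lit 364)) (XT.nd (nat_lit 78) (nat_lit 608) (nat_lit 0) (XT.lf (nat_lit 0) (nat_lit 11913623390) (nat_lit 760) (nat_lit 813476962) (nat_lit 76) (nat_lit 7525835014) (nat_lit 292) (nat_lit 5) (nat_lit 302) (nat_lit 5) (nat_lit 293) (nat_lit 5) (nat_lit 624) (nat_lit 573) (nat_lit 363)) (XT.lf (nat_lit 0) (nat_lit 10797930142) (nat_lit 608) (nat_lit 4496372349) (nat_lit 684) (nat_lit 5191393913) (nat_lit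 284) (nat_lit 5) (nat_lit 292) (nat_lit 5) (nat_lit 293) (nat_lit 5) (nat_lit 625) (nat_lit 573) (nat_lit 362)))) (XT.nd (nat_lit 78) (nat_lit 684) (nat_lit 0) (XT.lf (nat_lit 0) (nat_lit 1922873127) (nat_lit 684) (nat_lit 16857605022) (nat_lit 760) (nat_lit 1941877523) (nat_lit 275) (nat_lit 5) (nat_lit 284) (nat_lit 5) (nat_lit 285) (nat_lit 5) (nat_lit 626) (nat_lit 573) (nat_lit 361)) (XT.nd (nat_lit 78) (nat_lit 608) (nat_lit 0) (XT.lf (nat_lit 0) (nat_lit 1444461030) (nat_lit 760) (nat_lit 7111134767) (nat_lit 76) (nat_lit 12406178047) (nat_lit 274) (nat_lit 5) (nat_lit 284) (nat_lit 5) (nat_lit 275) (nat_lit 5) (nat_lit 627) (nat_lit 573) (nat_lit 360)) (XT.lf (nat_lit 0) (nat_lit 4855315323) (nat_lit 608) (nat_lit 43479361) (nat_lit 684) (nat_lit 16306404205) (nat_lit 266) (nat_lit 5) (nat_lit 274) (nat_lit 5) (nat_lit 275) (nat_lit 5) (nat_lit 628) (nat_lit 573) (nat_lit 359))))) (XT.nd (nat_lit 234) (nat_lit 1216) (nat_lit 0) (XT.nd (nat_lit 78) (nat_lit 608)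 (nat_lit 0) (XT.lf (nat_lit 0) (nat_lit 8521115399) (nat_lit 684) (nat_lit 4357992900) (nat_lit 76) (nat_lit 8572406747) (nat_lit 266) (nat_lit 5) (nat_lit 275) (nat_lit 5) (nat_lit 267) (nat_lit 5) (nat_lit 629) (nat_lit 573) (nat_lit 358)) (XT.nd (nat_lit 78) (nat_lit 0) (nat_lit 0) (XT.lf (nat_lit 0) (nat_lit 7971587409) (nat_lit 608) (nat_lit 4291217906) (nat_lit 684) (nat_lit 9439014359) (nat_lit 258) (nat_lit 5) (nat_lit 266) (nat_lit 5) (nat_lit 267) (nat_lit 5) (nat_lit 630) (nat_lit 573) (nat_lit 357)) (XT.lf (nat_lit 0) (nat_lit 16132707778) (nat_lit 684) (nat_lit 1385378377) (nat_lit 76) (nat_lit 4437977257) (nat_lit 258) (nat_lit 5) (nat_lit 267) (nat_lit 5) (nat_lit 259) (nat_lit 5) (nat_lit 631) (nat_lit 573) (nat_lit 356)))) (XT.nd (nat_lit 78) (nat_lit 684) (nat_lit 0) (XT.lf (nat_lit 0) (nat_lit 11320085302) (nat_lit 532) (nat_lit 8856867228) (nat_lit 608) (nat_lit 2036501191) (nat_lit 251) (nat_lit 5) (nat_lit 258) (nat_lit 5) (nat_lit 259) (nat_lit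 5) (nat_lit 632) (nat_lit 573) (nat_lit 355)) (XT.nd (nat_lit 78) (nat_lit 0) (nat_lit 0) (XT.lf (nat_lit 0) (nat_lit 1818485744) (nat_lit 684) (nat_lit 20647159559) (nat_lit 76) (nat_lit 9783071) (nat_lit 242) (nat_lit 5) (nat_lit 251) (nat_lit 5) (nat_lit 243) (nat_lit 5) (nat_lit 633) (nat_lit 573) (nat_lit 354)) (XT.lf (nat_lit 0) (nat_lit 5850666623) (nat_lit 684) (nat_lit 7868210412) (nat_lit 76) (nat_lit 9020949546) (nat_lit 242) (nat_lit 5) (nat_lit 251) (nat_lit 5) (nat_lit 243) (nat_lit 5) (nat_lit 634) (nat_lit 573) (nat_lit 353)))))) (XT.nd (nat_lit 468) (nat_lit 1976) (nat_lit 0) (XT.nd (nat_lit 234) (nat_lit 1140) (nat_lit 0) (XT.nd (nat_lit 78) (nat_lit 532) (nat_lit 0) (XT.lf (nat_lit 0) (nat_lit 5228611951) (nat_lit 532) (nat_lit 4764021267) (nat_lit 608) (nat_lit 13016297231) (nat_lit 235) (nat_lit 5) (nat_lit 242) (nat_lit 5) (nat_lit 243) (nat_lit 5) (nat_lit 635) (nat_lit 573) (nat_lit 352)) (XT.nd (nat_lit 78) (nat_lit 532) (nat_lit 0) (XT.lf (nat_lit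 0) (nat_lit 14294199690) (nat_lit 608) (nat_lit 4623380678) (nat_lit 76) (nat_lit 4364301340) (nat_lit 235) (nat_lit 5) (nat_lit 243) (nat_lit 5) (nat_lit 236) (nat_lit 5) (nat_lit 636) (nat_lit 573) (nat_lit 351)) (XT.lf (nat_lit 0) (nat_lit 8875347331) (nat_lit 532) (nat_lit 9890956522) (nat_lit 608) (nat_lit 4792298529) (nat_lit 228) (nat_lit 5) (nat_lit 235) (nat_lit 5) (nat_lit 236) (nat_lit 5) (nat_lit 637) (nat_lit 573) (nat_lit 350)))) (XT.nd (nat_lit 78) (nat_lit 1140) (nat_lit 0) (XT.lf (nat_lit 0) (nat_lit 22700561303) (nat_lit 532) (nat_lit 653697564) (nat_lit 608) (nat_lit 486070933) (nat_lit 228) (nat_lit 5) (nat_lit 235) (nat_lit 5) (nat_lit 236) (nat_lit 5) (nat_lit 638) (nat_lit 573) (nat_lit 349)) (XT.nd (nat_lit 78) (nat_lit 532) (nat_lit 0) (XT.lf (nat_lit 0) (nat_lit 3991310050) (nat_lit 608) (nat_lit 11372104921) (nat_lit 76) (nat_lit 8761044829) (nat_lit 220) (nat_lit 5) (nat_lit 228) (nat_lit 5) (nat_lit 221) (nat_lit 5) (nat_lit 639) (nat_lit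 573) (nat_lit 348)) (XT.lf (nat_lit 0) (nat_lit 2543267386) (nat_lit 532) (nat_lit 6032493082) (nat_lit 608) (nat_lit 15837967545) (nat_lit 213) (nat_lit 5) (nat_lit 220) (nat_lit 5) (nat_lit 221) (nat_lit 5) (nat_lit 640) (nat_lit 573) (nat_lit 347))))) (XT.nd (nat_lit 234) (nat_lit 1520) (nat_lit 0) (XT.nd (nat_lit 78) (nat_lit 456) (nat_lit 0) (XT.lf (nat_lit 0) (nat_lit 13346867100) (nat_lit 608) (nat_lit 7845468155) (nat_lit 76) (nat_lit 3514547458) (nat_lit 213) (nat_lit 5) (nat_lit 221) (nat_lit 5) (nat_lit 214) (nat_lit 5) (nat_lit 641) (nat_lit 573) (nat_lit 346)) (XT.nd (nat_lit 78) (nat_lit 0) (nat_lit 0) (XT.lf (nat_lit 0) (nat_lit 6499254722) (nat_lit 456) (nat_lit 11791898484) (nat_lit 532) (nat_lit 6713192611) (nat_lit 207) (nat_lit 5) (nat_lit 213) (nat_lit 5) (nat_lit 214) (nat_lit 5) (nat_lit 642) (nat_lit 573) (nat_lit 345)) (XT.lf (nat_lit 0) (nat_lit 21231201245) (nat_lit 456) (nat_lit 2151427608) (nat_lit 532) (nat_lit 1924163705) (nat_lit 207) (nat_lit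 5) (nat_lit 213) (nat_lit 5) (nat_lit 214) (nat_lit 5) (nat_lit 643) (nat_lit 573) (nat_lit 344)))) (XT.nd (nat_lit 156) (nat_lit 912) (nat_lit 0) (XT.nd (nat_lit 78) (nat_lit 0) (nat_lit 0) (XT.lf (nat_lit 0) (nat_lit 3037835007) (nat_lit 608) (nat_lit 14905630696) (nat_lit 76) (nat_lit 7669118140) (nat_lit 199) (nat_lit 5) (nat_lit 207) (nat_lit 5) (nat_lit 200) (nat_lit 5) (nat_lit 644) (nat_lit 573) (nat_lit 343)) (XT.lf (nat_lit 0) (nat_lit 8110859443) (nat_lit 608) (nat_lit 116714308) (nat_lit 76) (nat_lit 17695912244) (nat_lit 199) (nat_lit 5) (nat_lit 207) (nat_lit 5) (nat_lit 200) (nat_lit 5) (nat_lit 645) (nat_lit 573) (nat_lit 342))) (XT.nd (nat_lit 78) (nat_lit 456) (nat_lit 0) (XT.lf (nat_lit 0) (nat_lit 13391176109) (nat_lit 532) (nat_lit 11089343226) (nat_lit 76) (nat_lit 1757970637) (nat_lit 193) (nat_lit 5) (nat_lit 200) (nat_lit 5) (nat_lit 194) (nat_lit 5) (nat_lit 646) (nat_lit 573) (nat_lit 341)) (XT.lf (nat_lit 0) (nat_lit 4156237732) (nat_lit 456)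 (nat_lit 14698986047) (nat_lit 532) (nat_lit 7703008162) (nat_lit 187) (nat_lit 5) (nat_lit 193) (nat_lit 5) (nat_lit 194) (nat_lit 5) (nat_lit 647) (nat_lit 573) (nat_lit 340))))))) (XT.nd (nat_lit 75660) (nat_lit 0) (nat_lit 23788) (XT.nd (nat_lit 468) (nat_lit 912) (nat_lit 0) (XT.nd (nat_lit 234) (nat_lit 836) (nat_lit 0) (XT.nd (nat_lit 78) (nat_lit 532) (nat_lit 0) (XT.lf (nat_lit 0) (nat_lit 19851179754) (nat_lit 456) (nat_lit 4647694943) (nat_lit 532) (nat_lit 2384088005) (nat_lit 187) (nat_lit 5) (nat_lit 193) (nat_lit 5) (nat_lit 194) (nat_lit 5) (nat_lit 648) (nat_lit 573) (nat_lit 339)) (XT.nd (nat_lit 78) (nat_lit 0) (nat_lit 0) (XT.lf (nat_lit 0) (nat_lit 3090880931) (nat_lit 532) (nat_lit 18514786442) (nat_lit 76) (nat_lit 5606335050) (nat_lit 180) (nat_lit 5) (nat_lit 187) (nat_lit 5) (nat_lit 181) (nat_lit 5) (nat_lit 649) (nat_lit 573) (nat_lit 338)) (XT.lf (nat_lit 0) (nat_lit 8717725545) (nat_lit 532) (nat_lit 2763286354) (nat_lit 76) (nat_lit 16064810254)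 (nat_lit 180) (nat_lit 5) (nat_lit 187) (nat_lit 5) (nat_lit 181) (nat_lit 5) (nat_lit 650) (nat_lit 573) (nat_lit 337)))) (XT.nd (nat_lit 78) (nat_lit 380) (nat_lit 0) (XT.lf (nat_lit 0) (nat_lit 13474236140) (nat_lit 456) (nat_lit 1066423705) (nat_lit 532) (nat_lit 13343987745) (nat_lit 174) (nat_lit 5) (nat_lit 180) (nat_lit 5) (nat_lit 181) (nat_lit 5) (nat_lit 651) (nat_lit 573) (nat_lit 336)) (XT.nd (nat_lit 78) (nat_lit 0) (nat_lit 0) (XT.lf (nat_lit 0) (nat_lit 1799768641) (nat_lit 380) (nat_lit 18768779849) (nat_lit 456) (nat_lit 7659931493) (nat_lit 169) (nat_lit 5) (nat_lit 174) (nat_lit 5) (nat_lit 175) (nat_lit 5) (nat_lit 652) (nat_lit 573) (nat_lit 335)) (XT.lf (nat_lit 0) (nat_lit 18516617364) (nat_lit 380) (nat_lit 8300231949) (nat_lit 456) (nat_lit 1760342978) (nat_lit 169) (nat_lit 5) (nat_lit 174) (nat_lit 5) (nat_lit 175) (nat_lit 5) (nat_lit 653) (nat_lit 573) (nat_lit 334))))) (XT.nd (nat_lit 74958) (nat_lit 0) (nat_lit 25308) (XT.nd (nat_lit 78)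 (nat_lit 380) (nat_lit 0) (XT.lf (nat_lit 0) (nat_lit 4256918219) (nat_lit 532) (nat_lit 22258069212) (nat_lit 76) (nat_lit 2416228631) (nat_lit 162) (nat_lit 5) (nat_lit 169) (nat_lit 5) (nat_lit 163) (nat_lit 5) (nat_lit 654) (nat_lit 573) (nat_lit 333)) (XT.nd (nat_lit 78) (nat_lit 380) (nat_lit 0) (XT.lf (nat_lit 0) (nat_lit 10490116612) (nat_lit 532) (nat_lit 5485807907) (nat_lit 76) (nat_lit 13313780147) (nat_lit 162) (nat_lit 5) (nat_lit 169) (nat_lit 5) (nat_lit 163) (nat_lit 5) (nat_lit 655) (nat_lit 573) (nat_lit 332)) (XT.lf (nat_lit 0) (nat_lit 11770703698) (nat_lit 380) (nat_lit 5149986388) (nat_lit 456) (nat_lit 12733219061) (nat_lit 157) (nat_lit 5) (nat_lit 162) (nat_lit 5) (nat_lit 163) (nat_lit 5) (nat_lit 656) (nat_lit 573) (nat_lit 331)))) (XT.nd (nat_lit 78) (nat_lit 0) (nat_lit 0) (XT.lf (nat_lit 0) (nat_lit 4154151456) (nat_lit 1748) (nat_lit 962499235) (nat_lit 1748) (nat_lit 962499235) (nat_lit 490) (nat_lit 3) (nat_lit 513) (nat_lit 3) (nat_lit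 513) (nat_lit 5) (nat_lit 574) (nat_lit 574) (nat_lit 412)) (XT.nd (nat_lit 78) (nat_lit 0) (nat_lit 76) (XT.lf (nat_lit 76) (nat_lit 4089873899) (nat_lit 0) (nat_lit 4785872550) (nat_lit 1748) (nat_lit 3394375059) (nat_lit 491) (nat_lit 5) (nat_lit 490) (nat_lit 3) (nat_lit 513) (nat_lit 5) (nat_lit 575) (nat_lit 574) (nat_lit 411)) (XT.lf (nat_lit 0) (nat_lit 9460533995) (nat_lit 1672) (nat_lit 2144359362) (nat_lit 1748) (nat_lit 779168282) (nat_lit 491) (nat_lit 5) (nat_lit 513) (nat_lit 5) (nat_lit 514) (nat_lit 5) (nat_lit 576) (nat_lit 574) (nat_lit 410)))))) (XT.nd (nat_lit 468) (nat_lit 0) (nat_lit 76) (XT.nd (nat_lit 234) (nat_lit 1596) (nat_lit 0) (XT.nd (nat_lit 78) (nat_lit 0) (nat_lit 0) (XT.lf (nat_lit 76) (nat_lit 4027006733) (nat_lit 0) (nat_lit 6076075791) (nat_lit 1748) (nat_lit 2396278651) (nat_lit 492) (nat_lit 5) (nat_lit 491) (nat_lit 5) (nat_lit 514) (nat_lit 5) (nat_lit 577) (nat_lit 574) (nat_lit 409)) (XT.nd (nat_lit 78) (nat_lit 0) (nat_lit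 76) (XT.lf (nat_lit 76) (nat_lit 10344549037) (nat_lit 0) (nat_lit 416737344) (nat_lit 1748) (nat_lit 1855626102) (nat_lit 492) (nat_lit 5) (nat_lit 491) (nat_lit 5) (nat_lit 514) (nat_lit 5) (nat_lit 578) (nat_lit 574) (nat_lit 408)) (XT.lf (nat_lit 76) (nat_lit 4063693004) (nat_lit 0) (nat_lit 7418794099) (nat_lit 1748) (nat_lit 1253332891) (nat_lit 493) (nat_lit 5) (nat_lit 492) (nat_lit 5) (nat_lit 515) (nat_lit 5) (nat_lit 579) (nat_lit 574) (nat_lit 407)))) (XT.nd (nat_lit 78) (nat_lit 1672) (nat_lit 0) (XT.lf (nat_lit 76) (nat_lit 10548061921) (nat_lit 0) (nat_lit 1676896040) (nat_lit 1748) (nat_lit 632012568) (nat_lit 493) (nat_lit 5) (nat_lit 492) (nat_lit 5) (nat_lit 515) (nat_lit 5) (nat_lit 580) (nat_lit 574) (nat_lit 406)) (XT.nd (nat_lit 78) (nat_lit 0) (nat_lit 0) (XT.lf (nat_lit 0) (nat_lit 45529350) (nat_lit 1748) (nat_lit 8776954761) (nat_lit 1824) (nat_lit 4157185106) (nat_lit 470) (nat_lit 5) (nat_lit 493) (nat_lit 5) (nat_lit 494) (nat_lit 5) (nat_lit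 581) (nat_lit 574) (nat_lit 405)) (XT.lf (nat_lit 0) (nat_lit 744072278) (nat_lit 1748) (nat_lit 2250678932) (nat_lit 1824) (nat_lit 10109670554) (nat_lit 470) (nat_lit 5) (nat_lit 493) (nat_lit 5) (nat_lit 494) (nat_lit 5) (nat_lit 582) (nat_lit 574) (nat_lit 404))))) (XT.nd (nat_lit 234) (nat_lit 0) (nat_lit 76) (XT.nd (nat_lit 78) (nat_lit 0) (nat_lit 0) (XT.lf (nat_lit 0) (nat_lit 1494314101) (nat_lit 1748) (nat_lit 8792592548) (nat_lit 1824) (nat_lit 2944009812) (nat_lit 471) (nat_lit 5) (nat_lit 494) (nat_lit 5) (nat_lit 495) (nat_lit 5) (nat_lit 583) (nat_lit 574) (nat_lit 403)) (XT.nd (nat_lit 78) (nat_lit 0) (nat_lit 76) (XT.lf (nat_lit 0) (nat_lit 2284202765) (nat_lit 1748) (nat_lit 2094660437) (nat_lit 1824) (nat_lit 8980586637) (nat_lit 471) (nat_lit 5) (nat_lit 494) (nat_lit 5) (nat_lit 495) (nat_lit 5) (nat_lit 584) (nat_lit 574) (nat_lit 402)) (XT.lf (nat_lit 0) (nat_lit 3121746938) (nat_lit 1748) (nat_lit 8707536343) (nat_lit 1824) (nat_lit 1660635043)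 (nat_lit 472) (nat_lit 5) (nat_lit 495) (nat_lit 5) (nat_lit 496) (nat_lit 5) (nat_lit 585) (nat_lit 574) (nat_lit 401)))) (XT.nd (nat_lit 156) (nat_lit 0) (nat_lit 76) (XT.nd (nat_lit 78) (nat_lit 0) (nat_lit 76) (XT.lf (nat_lit 0) (nat_lit 4009180372) (nat_lit 1748) (nat_lit 1833202590) (nat_lit 1824) (nat_lit 7779952014) (nat_lit 472) (nat_lit 5) (nat_lit 495) (nat_lit 5) (nat_lit 496) (nat_lit 5) (nat_lit 586) (nat_lit 574) (nat_lit 400)) (XT.lf (nat_lit 0) (nat_lit 4940536746) (nat_lit 1748) (nat_lit 8518149929) (nat_lit 1824) (nat_lit 298191334) (nat_lit 473) (nat_lit 5) (nat_lit 496) (nat_lit 5) (nat_lit 497) (nat_lit 5) (nat_lit 587) (nat_lit 574) (nat_lit 399))) (XT.nd (nat_lit 78) (nat_lit 0) (nat_lit 0) (XT.lf (nat_lit 0) (nat_lit 5931950697) (nat_lit 1748) (nat_lit 1462484801) (nat_lit 1824) (nat_lit 6498849298) (nat_lit 473) (nat_lit 5) (nat_lit 496) (nat_lit 5) (nat_lit 497) (nat_lit 5) (nat_lit 588) (nat_lit 574) (nat_lit 398)) (XT.lf (nat_lit 76) (nat_lit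 5803750969) (nat_lit 0) (nat_lit 1167668806) (nat_lit 1824) (nat_lit 7060436881) (nat_lit 474) (nat_lit 5) (nat_lit 473) (nat_lit 5) (nat_lit 497) (nat_lit 5) (nat_lit 589) (nat_lit 574) (nat_lit 397))))))))
noncomputable def xc199 : XT := (XT.nd (nat_lit 1950) (nat_lit 9272) (nat_lit 0) (XT.nd (nat_lit 936) (nat_lit 6232) (nat_lit 0) (XT.nd (nat_lit 468) (nat_lit 3192) (nat_lit 0) (XT.nd (nat_lit 234) (nat_lit 0) (nat_lit 76) (XT.nd (nat_lit 78) (nat_lit 0) (nat_lit 0) (XT.lf (nat_lit 0) (nat_lit 8065917847) (nat_lit 1748) (nat_lit 978409715) (nat_lit 1824) (nat_lit 5128189043) (nat_lit 474) (nat_lit 5) (nat_lit 497) (nat_lit 5) (nat_lit 498) (nat_lit 5) (nat_lit 590) (nat_lit 574) (nat_lit 396)) (XT.nd (nat_lit 78) (nat_lit 0) (nat_lit 76) (XT.lf (nat_lit 76) (nat_lit 6486937083) (nat_lit 0) (nat_lit 2736106447) (nat_lit 1824) (nat_lit 5092132887) (nat_lit 475) (nat_lit 5) (nat_lit 474) (nat_lit 5) (nat_lit 498) (nat_lit 5) (nat_lit 591) (nat_lit 574) (nat_lit 395))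 (XT.lf (nat_lit 0) (nat_lit 10424970478) (nat_lit 1748) (nat_lit 376599478) (nat_lit 1824) (nat_lit 3658687683) (nat_lit 475) (nat_lit 5) (nat_lit 498) (nat_lit 5) (nat_lit 499) (nat_lit 5) (nat_lit 592) (nat_lit 574) (nat_lit 394)))) (XT.nd (nat_lit 78) (nat_lit 0) (nat_lit 76) (XT.lf (nat_lit 76) (nat_lit 7294921966) (nat_lit 0) (nat_lit 4412711050) (nat_lit 1824) (nat_lit 2899474889) (nat_lit 476) (nat_lit 5) (nat_lit 475) (nat_lit 5) (nat_lit 499) (nat_lit 5) (nat_lit 593) (nat_lit 574) (nat_lit 393)) (XT.nd (nat_lit 78) (nat_lit 0) (nat_lit 0) (XT.lf (nat_lit 76) (nat_lit 352227994) (nat_lit 0) (nat_lit 12673567364) (nat_lit 1824) (nat_lit 1730904223) (nat_lit 477) (nat_lit 5) (nat_lit 476) (nat_lit 5) (nat_lit 500) (nat_lit 5) (nat_lit 594) (nat_lit 574) (nat_lit 392)) (XT.lf (nat_lit 76) (nat_lit 8232633422) (nat_lit 0) (nat_lit 6207268118) (nat_lit 1824) (nat_lit 467991247) (nat_lit 477) (nat_lit 5) (nat_lit 476) (nat_lit 5) (nat_lit 500) (nat_lit 5) (nat_lit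 595) (nat_lit 574) (nat_lit 391))))) (XT.nd (nat_lit 234) (nat_lit 1596) (nat_lit 0) (XT.nd (nat_lit 78) (nat_lit 0) (nat_lit 0) (XT.lf (nat_lit 0) (nat_lit 811505281) (nat_lit 1824) (nat_lit 13852306297) (nat_lit 1900) (nat_lit 398151392) (nat_lit 453) (nat_lit 5) (nat_lit 477) (nat_lit 5) (nat_lit 478) (nat_lit 5) (nat_lit 596) (nat_lit 574) (nat_lit 390)) (XT.nd (nat_lit 78) (nat_lit 0) (nat_lit 0) (XT.lf (nat_lit 0) (nat_lit 2188252709) (nat_lit 1824) (nat_lit 5926882186) (nat_lit 1900) (nat_lit 7102360479) (nat_lit 453) (nat_lit 5) (nat_lit 477) (nat_lit 5) (nat_lit 478) (nat_lit 5) (nat_lit 597) (nat_lit 574) (nat_lit 389)) (XT.lf (nat_lit 76) (nat_lit 2178846187) (nat_lit 0) (nat_lit 1419720335) (nat_lit 1900) (nat_lit 11777452484) (nat_lit 454) (nat_lit 5) (nat_lit 453) (nat_lit 5) (nat_lit 478) (nat_lit 5) (nat_lit 598) (nat_lit 574) (nat_lit 388)))) (XT.nd (nat_lit 78) (nat_lit 1672) (nat_lit 0) (XT.lf (nat_lit 0) (nat_lit 5104253752) (nat_lit 1824) (nat_lit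 5052179166) (nat_lit 76) (nat_lit 5379938036) (nat_lit 454) (nat_lit 5) (nat_lit 478) (nat_lit 5) (nat_lit 455) (nat_lit 5) (nat_lit 599) (nat_lit 574) (nat_lit 387)) (XT.nd (nat_lit 78) (nat_lit 0) (nat_lit 0) (XT.lf (nat_lit 0) (nat_lit 3282594488) (nat_lit 1672) (nat_lit 3380340352) (nat_lit 1748) (nat_lit 9036538660) (nat_lit 432) (nat_lit 5) (nat_lit 454) (nat_lit 5) (nat_lit 455) (nat_lit 5) (nat_lit 600) (nat_lit 574) (nat_lit 386)) (XT.lf (nat_lit 0) (nat_lit 8302125891) (nat_lit 1748) (nat_lit 4042651861) (nat_lit 76) (nat_lit 3520074756) (nat_lit 432) (nat_lit 5) (nat_lit 455) (nat_lit 5) (nat_lit 433) (nat_lit 5) (nat_lit 601) (nat_lit 574) (nat_lit 385)))))) (XT.nd (nat_lit 468) (nat_lit 3344) (nat_lit 0) (XT.nd (nat_lit 234) (nat_lit 988) (nat_lit 0) (XT.nd (nat_lit 78) (nat_lit 912) (nat_lit 0) (XT.lf (nat_lit 0) (nat_lit 4529324258) (nat_lit 988) (nat_lit 5489003247) (nat_lit 1064) (nat_lit 6014328174) (nat_lit 419) (nat_lit 5) (nat_lit 432) (nat_lit 5)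 (nat_lit 433) (nat_lit 5) (nat_lit 602) (nat_lit 574) (nat_lit 384)) (XT.nd (nat_lit 78) (nat_lit 912) (nat_lit 0) (XT.lf (nat_lit 0) (nat_lit 11798468087) (nat_lit 1064) (nat_lit 2892540057) (nat_lit 76) (nat_lit 1512215567) (nat_lit 419) (nat_lit 5) (nat_lit 433) (nat_lit 5) (nat_lit 420) (nat_lit 5) (nat_lit 603) (nat_lit 574) (nat_lit 383)) (XT.lf (nat_lit 0) (nat_lit 5925096461) (nat_lit 912) (nat_lit 7756624635) (nat_lit 988) (nat_lit 2694132888) (nat_lit 407) (nat_lit 5) (nat_lit 419) (nat_lit 5) (nat_lit 420) (nat_lit 5) (nat_lit 604) (nat_lit 574) (nat_lit 382)))) (XT.nd (nat_lit 78) (nat_lit 988) (nat_lit 0) (XT.lf (nat_lit 0) (nat_lit 14951610753) (nat_lit 912) (nat_lit 663227781) (nat_lit 988) (nat_lit 936855393) (nat_lit 407) (nat_lit 5) (nat_lit 419) (nat_lit 5) (nat_lit 420) (nat_lit 5) (nat_lit 605) (nat_lit 574) (nat_lit 381)) (XT.nd (nat_lit 78) (nat_lit 0) (nat_lit 0) (XT.lf (nat_lit 0) (nat_lit 929047658) (nat_lit 988) (nat_lit 9259192273) (nat_lit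 76) (nat_lit 6541006633) (nat_lit 394) (nat_lit 5) (nat_lit 407) (nat_lit 5) (nat_lit 395) (nat_lit 5) (nat_lit 606) (nat_lit 574) (nat_lit 380)) (XT.lf (nat_lit 0) (nat_lit 2827918585) (nat_lit 988) (nat_lit 184268143) (nat_lit 76) (nat_lit 13897876779) (nat_lit 394) (nat_lit 5) (nat_lit 407) (nat_lit 5) (nat_lit 395) (nat_lit 5) (nat_lit 607) (nat_lit 574) (nat_lit 379))))) (XT.nd (nat_lit 234) (nat_lit 1672) (nat_lit 0) (XT.nd (nat_lit 78) (nat_lit 836) (nat_lit 0) (XT.lf (nat_lit 0) (nat_lit 4845891182) (nat_lit 912) (nat_lit 7935791625) (nat_lit 76) (nat_lit 4311192469) (nat_lit 383) (nat_lit 5) (nat_lit 395) (nat_lit 5) (nat_lit 384) (nat_lit 5) (nat_lit 608) (nat_lit 574) (nat_lit 378)) (XT.nd (nat_lit 78) (nat_lit 0) (nat_lit 0) (XT.lf (nat_lit 0) (nat_lit 1400137080) (nat_lit 836) (nat_lit 5527582830) (nat_lit 912) (nat_lit 10351154391) (nat_lit 372) (nat_lit 5) (nat_lit 383) (nat_lit 5) (nat_lit 384) (nat_lit 5) (nat_lit 609) (nat_lit 574) (nat_lit 377)) (XT.lf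 (nat_lit 0) (nat_lit 9110245950) (nat_lit 912) (nat_lit 6456478647) (nat_lit 76) (nat_lit 1900688428) (nat_lit 372) (nat_lit 5) (nat_lit 384) (nat_lit 5) (nat_lit 373) (nat_lit 5) (nat_lit 610) (nat_lit 574) (nat_lit 376)))) (XT.nd (nat_lit 156) (nat_lit 912) (nat_lit 0) (XT.nd (nat_lit 78) (nat_lit 0) (nat_lit 0) (XT.lf (nat_lit 0) (nat_lit 3152292672) (nat_lit 760) (nat_lit 8234637499) (nat_lit 836) (nat_lit 6271783116) (nat_lit 362) (nat_lit 5) (nat_lit 372) (nat_lit 5) (nat_lit 373) (nat_lit 5) (nat_lit 611) (nat_lit 574) (nat_lit 375)) (XT.lf (nat_lit 0) (nat_lit 13034133757) (nat_lit 760) (nat_lit 711860790) (nat_lit 836) (nat_lit 4107108976) (nat_lit 362) (nat_lit 5) (nat_lit 372) (nat_lit 5) (nat_lit 373) (nat_lit 5) (nat_lit 612) (nat_lit 574) (nat_lit 374))) (XT.nd (nat_lit 78) (nat_lit 76) (nat_lit 0) (XT.lf (nat_lit 0) (nat_lit 5076995931) (nat_lit 836) (nat_lit 11147051581) (nat_lit 912) (nat_lit 1825898787) (nat_lit 351) (nat_lit 5) (nat_lit 362) (nat_lit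 5) (nat_lit 363) (nat_lit 5) (nat_lit 613) (nat_lit 574) (nat_lit 373)) (XT.lf (nat_lit 0) (nat_lit 525317753) (nat_lit 912) (nat_lit 3028719937) (nat_lit 76) (nat_lit 14696004997) (nat_lit 350) (nat_lit 5) (nat_lit 362) (nat_lit 5) (nat_lit 351) (nat_lit 5) (nat_lit 614) (nat_lit 574) (nat_lit 372))))))) (XT.nd (nat_lit 936) (nat_lit 4256) (nat_lit 0) (XT.nd (nat_lit 468) (nat_lit 2052) (nat_lit 0) (XT.nd (nat_lit 234) (nat_lit 1444) (nat_lit 0) (XT.nd (nat_lit 78) (nat_lit 760) (nat_lit 0) (XT.lf (nat_lit 0) (nat_lit 2967221629) (nat_lit 836) (nat_lit 11290617328) (nat_lit 76) (nat_lit 4194699258) (nat_lit 340) (nat_lit 5) (nat_lit 351) (nat_lit 5) (nat_lit 341) (nat_lit 5) (nat_lit 615) (nat_lit 574) (nat_lit 371)) (XT.nd (nat_lit 78) (nat_lit 760) (nat_lit 0) (XT.lf (nat_lit 0) (nat_lit 5495845477) (nat_lit 836) (nat_lit 1091529001) (nat_lit 76) (nat_lit 12070952351) (nat_lit 340) (nat_lit 5) (nat_lit 351) (nat_lit 5) (nat_lit 341) (nat_lit 5) (nat_lit 616) (nat_lit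 574) (nat_lit 370)) (XT.lf (nat_lit 0) (nat_lit 8138695926) (nat_lit 836) (nat_lit 9446838094) (nat_lit 76) (nat_lit 1281424909) (nat_lit 330) (nat_lit 5) (nat_lit 341) (nat_lit 5) (nat_lit 331) (nat_lit 5) (nat_lit 617) (nat_lit 574) (nat_lit 369)))) (XT.nd (nat_lit 78) (nat_lit 760) (nat_lit 0) (XT.lf (nat_lit 0) (nat_lit 1040602936) (nat_lit 684) (nat_lit 9845633517) (nat_lit 760) (nat_lit 8192491340) (nat_lit 321) (nat_lit 5) (nat_lit 330) (nat_lit 5) (nat_lit 331) (nat_lit 5) (nat_lit 618) (nat_lit 574) (nat_lit 368)) (XT.nd (nat_lit 78) (nat_lit 760) (nat_lit 0) (XT.lf (nat_lit 0) (nat_lit 11859336570) (nat_lit 684) (nat_lit 1886936857) (nat_lit 760) (nat_lit 5547308460) (nat_lit 321) (nat_lit 5) (nat_lit 330) (nat_lit 5) (nat_lit 331) (nat_lit 5) (nat_lit 619) (nat_lit 574) (nat_lit 367)) (XT.lf (nat_lit 0) (nat_lit 3379079568) (nat_lit 760) (nat_lit 13341088974) (nat_lit 836) (nat_lit 2791432125) (nat_lit 311) (nat_lit 5) (nat_lit 321) (nat_lit 5) (nat_lit 322)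 (nat_lit 5) (nat_lit 620) (nat_lit 574) (nat_lit 366))))) (XT.nd (nat_lit 234) (nat_lit 1292) (nat_lit 0) (XT.nd (nat_lit 78) (nat_lit 684) (nat_lit 0) (XT.lf (nat_lit 0) (nat_lit 76314704) (nat_lit 836) (nat_lit 5243019563) (nat_lit 76) (nat_lit 14413503548) (nat_lit 310) (nat_lit 5) (nat_lit 321) (nat_lit 5) (nat_lit 311) (nat_lit 5) (nat_lit 621) (nat_lit 574) (nat_lit 365)) (XT.nd (nat_lit 78) (nat_lit 0) (nat_lit 0) (XT.lf (nat_lit 0) (nat_lit 3015857338) (nat_lit 760) (nat_lit 14059445245) (nat_lit 76) (nat_lit 2881792440) (nat_lit 301) (nat_lit 5) (nat_lit 311) (nat_lit 5) (nat_lit 302) (nat_lit 5) (nat_lit 622) (nat_lit 574) (nat_lit 364)) (XT.lf (nat_lit 0) (nat_lit 6079304638) (nat_lit 760) (nat_lit 2894854680) (nat_lit 76) (nat_lit 11210376476) (nat_lit 301) (nat_lit 5) (nat_lit 311) (nat_lit 5) (nat_lit 302) (nat_lit 5) (nat_lit 623) (nat_lit 574) (nat_lit 363)))) (XT.nd (nat_lit 78) (nat_lit 608) (nat_lit 0) (XT.lf (nat_lit 0) (nat_lit 8599474477) (nat_lit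 684) (nat_lit 654958338) (nat_lit 760) (nat_lit 11161085008) (nat_lit 292) (nat_lit 5) (nat_lit 301) (nat_lit 5) (nat_lit 302) (nat_lit 5) (nat_lit 624) (nat_lit 574) (nat_lit 362)) (XT.nd (nat_lit 78) (nat_lit 608) (nat_lit 0) (XT.lf (nat_lit 0) (nat_lit 12558097602) (nat_lit 760) (nat_lit 345167384) (nat_lit 76) (nat_lit 7746554492) (nat_lit 292) (nat_lit 5) (nat_lit 302) (nat_lit 5) (nat_lit 293) (nat_lit 5) (nat_lit 625) (nat_lit 574) (nat_lit 361)) (XT.lf (nat_lit 0) (nat_lit 11495279841) (nat_lit 608) (nat_lit 4506271215) (nat_lit 684) (nat_lit 4885782458) (nat_lit 284) (nat_lit 5) (nat_lit 292) (nat_lit 5) (nat_lit 293) (nat_lit 5) (nat_lit 626) (nat_lit 574) (nat_lit 360)))))) (XT.nd (nat_lit 468) (nat_lit 2280) (nat_lit 0) (XT.nd (nat_lit 234) (nat_lit 608) (nat_lit 0) (XT.nd (nat_lit 78) (nat_lit 684) (nat_lit 0) (XT.lf (nat_lit 0) (nat_lit 2447062140) (nat_lit 684) (nat_lit 17106181336) (nat_lit 760) (nat_lit 1575567598) (nat_lit 275) (nat_lit 5) (nat_lit 284)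 (nat_lit 5) (nat_lit 285) (nat_lit 5) (nat_lit 627) (nat_lit 574) (nat_lit 359)) (XT.nd (nat_lit 78) (nat_lit 608) (nat_lit 0) (XT.lf (nat_lit 0) (nat_lit 1865344263) (nat_lit 760) (nat_lit 6771893957) (nat_lit 76) (nat_lit 12735884511) (nat_lit 274) (nat_lit 5) (nat_lit 284) (nat_lit 5) (nat_lit 275) (nat_lit 5) (nat_lit 628) (nat_lit 574) (nat_lit 358)) (XT.lf (nat_lit 0) (nat_lit 5384485977) (nat_lit 684) (nat_lit 16191093326) (nat_lit 76) (nat_lit 45923463) (nat_lit 266) (nat_lit 5) (nat_lit 275) (nat_lit 5) (nat_lit 267) (nat_lit 5) (nat_lit 629) (nat_lit 574) (nat_lit 357)))) (XT.nd (nat_lit 78) (nat_lit 608) (nat_lit 0) (XT.lf (nat_lit 0) (nat_lit 9071933140) (nat_lit 684) (nat_lit 3969172395) (nat_lit 76) (nat_lit 8831787008) (nat_lit 266) (nat_lit 5) (nat_lit 275) (nat_lit 5) (nat_lit 267) (nat_lit 5) (nat_lit 630) (nat_lit 574) (nat_lit 356)) (XT.nd (nat_lit 78) (nat_lit 0) (nat_lit 0) (XT.lf (nat_lit 0) (nat_lit 8603868069) (nat_lit 608) (nat_lit 4280200098)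 (nat_lit 684) (nat_lit 9244223750) (nat_lit 258) (nat_lit 5) (nat_lit 266) (nat_lit 5) (nat_lit 267) (nat_lit 5) (nat_lit 631) (nat_lit 574) (nat_lit 355)) (XT.lf (nat_lit 0) (nat_lit 16824612434) (nat_lit 684) (nat_lit 942709182) (nat_lit 76) (nat_lit 4620434903) (nat_lit 258) (nat_lit 5) (nat_lit 267) (nat_lit 5) (nat_lit 259) (nat_lit 5) (nat_lit 632) (nat_lit 574) (nat_lit 354))))) (XT.nd (nat_lit 234) (nat_lit 1064) (nat_lit 0) (XT.nd (nat_lit 78) (nat_lit 684) (nat_lit 0) (XT.lf (nat_lit 0) (nat_lit 12013769187) (nat_lit 532) (nat_lit 8931766595) (nat_lit 608) (nat_lit 1704843825) (nat_lit 251) (nat_lit 5) (nat_lit 258) (nat_lit 5) (nat_lit 259) (nat_lit 5) (nat_lit 633) (nat_lit 574) (nat_lit 353)) (XT.nd (nat_lit 78) (nat_lit 0) (nat_lit 0) (XT.lf (nat_lit 0) (nat_lit 2218885335) (nat_lit 684) (nat_lit 20584380918) (nat_lit 76) (nat_lit 114349427) (nat_lit 242) (nat_lit 5) (nat_lit 251) (nat_lit 5) (nat_lit 243) (nat_lit 5) (nat_lit 634) (nat_lit 574) (nat_lit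 352)) (XT.lf (nat_lit 0) (nat_lit 6324571991) (nat_lit 684) (nat_lit 7559180668) (nat_lit 76) (nat_lit 9303692748) (nat_lit 242) (nat_lit 5) (nat_lit 251) (nat_lit 5) (nat_lit 243) (nat_lit 5) (nat_lit 635) (nat_lit 574) (nat_lit 351)))) (XT.nd (nat_lit 156) (nat_lit 532) (nat_lit 0) (XT.nd (nat_lit 78) (nat_lit 0) (nat_lit 0) (XT.lf (nat_lit 0) (nat_lit 5796509762) (nat_lit 532) (nat_lit 4748878490) (nat_lit 608) (nat_lit 12916623675) (nat_lit 235) (nat_lit 5) (nat_lit 242) (nat_lit 5) (nat_lit 243) (nat_lit 5) (nat_lit 636) (nat_lit 574) (nat_lit 350)) (XT.lf (nat_lit 0) (nat_lit 14926769282) (nat_lit 608) (nat_lit 4255352446) (nat_lit 76) (nat_lit 4558425585) (nat_lit 235) (nat_lit 5) (nat_lit 243) (nat_lit 5) (nat_lit 236) (nat_lit 5) (nat_lit 637) (nat_lit 574) (nat_lit 349))) (XT.nd (nat_lit 78) (nat_lit 0) (nat_lit 0) (XT.lf (nat_lit 0) (nat_lit 9510320545) (nat_lit 532) (nat_lit 9974167402) (nat_lit 608) (nat_lit 4538391757) (nat_lit 228) (nat_lit 5) (nat_lit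 235) (nat_lit 5) (nat_lit 236) (nat_lit 5) (nat_lit 638) (nat_lit 574) (nat_lit 348)) (XT.lf (nat_lit 0) (nat_lit 23603068869) (nat_lit 532) (nat_lit 554410485) (nat_lit 608) (nat_lit 152897506) (nat_lit 228) (nat_lit 5) (nat_lit 235) (nat_lit 5) (nat_lit 236) (nat_lit 5) (nat_lit 639) (nat_lit 574) (nat_lit 347))))))))
noncomputable def xc200 : XT := (XT.nd (nat_lit 76752) (nat_lit 0) (nat_lit 17632) (XT.nd (nat_lit 936) (nat_lit 1368) (nat_lit 0) (XT.nd (nat_lit 468) (nat_lit 1444) (nat_lit 0) (XT.nd (nat_lit 234) (nat_lit 1064) (nat_lit 0) (XT.nd (nat_lit 78) (nat_lit 532) (nat_lit 0) (XT.lf (nat_lit 0) (nat_lit 4406569761) (nat_lit 608) (nat_lit 11143517837) (nat_lit 76) (nat_lit 9050117329) (nat_lit 220) (nat_lit 5) (nat_lit 228) (nat_lit 5) (nat_lit 221) (nat_lit 5) (nat_lit 640) (nat_lit 574) (nat_lit 346)) (XT.nd (nat_lit 78) (nat_lit 0) (nat_lit 0) (XT.lf (nat_lit 0) (nat_lit 3047161724) (nat_lit 532) (nat_lit 6031911699) (nat_lit 608) (nat_lit 15816258490) (nat_lit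 213) (nat_lit 5) (nat_lit 220) (nat_lit 5) (nat_lit 221) (nat_lit 5) (nat_lit 641) (nat_lit 574) (nat_lit 345)) (XT.lf (nat_lit 0) (nat_lit 13939868030) (nat_lit 608) (nat_lit 7552463266) (nat_lit 76) (nat_lit 3702133774) (nat_lit 213) (nat_lit 5) (nat_lit 221) (nat_lit 5) (nat_lit 214) (nat_lit 5) (nat_lit 642) (nat_lit 574) (nat_lit 344)))) (XT.nd (nat_lit 78) (nat_lit 608) (nat_lit 0) (XT.lf (nat_lit 0) (nat_lit 7076194106) (nat_lit 456) (nat_lit 11903354273) (nat_lit 532) (nat_lit 6518399555) (nat_lit 207) (nat_lit 5) (nat_lit 213) (nat_lit 5) (nat_lit 214) (nat_lit 5) (nat_lit 643) (nat_lit 574) (nat_lit 343)) (XT.nd (nat_lit 78) (nat_lit 608) (nat_lit 0) (XT.lf (nat_lit 0) (nat_lit 22094015750) (nat_lit 456) (nat_lit 2072512845) (nat_lit 532) (nat_lit 1640042167) (nat_lit 207) (nat_lit 5) (nat_lit 213) (nat_lit 5) (nat_lit 214) (nat_lit 5) (nat_lit 644) (nat_lit 574) (nat_lit 342)) (XT.lf (nat_lit 0) (nat_lit 3414385389) (nat_lit 608) (nat_lit 14758678204) (nat_lit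 76) (nat_lit 7945424619) (nat_lit 199) (nat_lit 5) (nat_lit 207) (nat_lit 5) (nat_lit 200) (nat_lit 5) (nat_lit 645) (nat_lit 574) (nat_lit 341))))) (XT.nd (nat_lit 234) (nat_lit 532) (nat_lit 0) (XT.nd (nat_lit 78) (nat_lit 456) (nat_lit 0) (XT.lf (nat_lit 0) (nat_lit 321506357) (nat_lit 456) (nat_lit 8263259356) (nat_lit 532) (nat_lit 17850925403) (nat_lit 193) (nat_lit 5) (nat_lit 199) (nat_lit 5) (nat_lit 200) (nat_lit 5) (nat_lit 646) (nat_lit 574) (nat_lit 340)) (XT.nd (nat_lit 78) (nat_lit 456) (nat_lit 0) (XT.lf (nat_lit 0) (nat_lit 13966170381) (nat_lit 532) (nat_lit 10872330641) (nat_lit 76) (nat_lit 1918585121) (nat_lit 193) (nat_lit 5) (nat_lit 200) (nat_lit 5) (nat_lit 194) (nat_lit 5) (nat_lit 647) (nat_lit 574) (nat_lit 339)) (XT.lf (nat_lit 0) (nat_lit 4675275098) (nat_lit 456) (nat_lit 14861031185) (nat_lit 532) (nat_lit 7546981115) (nat_lit 187) (nat_lit 5) (nat_lit 193) (nat_lit 5) (nat_lit 194) (nat_lit 5) (nat_lit 648) (nat_lit 574) (nat_lit 338))))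 (XT.nd (nat_lit 78) (nat_lit 532) (nat_lit 0) (XT.lf (nat_lit 0) (nat_lit 20675568654) (nat_lit 456) (nat_lit 4611301211) (nat_lit 532) (nat_lit 2127762697) (nat_lit 187) (nat_lit 5) (nat_lit 193) (nat_lit 5) (nat_lit 194) (nat_lit 5) (nat_lit 649) (nat_lit 574) (nat_lit 337)) (XT.nd (nat_lit 78) (nat_lit 0) (nat_lit 0) (XT.lf (nat_lit 0) (nat_lit 3450472736) (nat_lit 532) (nat_lit 18451427601) (nat_lit 76) (nat_lit 5848358739) (nat_lit 180) (nat_lit 5) (nat_lit 187) (nat_lit 5) (nat_lit 181) (nat_lit 5) (nat_lit 650) (nat_lit 574) (nat_lit 336)) (XT.lf (nat_lit 0) (nat_lit 9184015533) (nat_lit 532) (nat_lit 2393400542) (nat_lit 76) (nat_lit 16513456447) (nat_lit 180) (nat_lit 5) (nat_lit 187) (nat_lit 5) (nat_lit 181) (nat_lit 5) (nat_lit 651) (nat_lit 574) (nat_lit 335)))))) (XT.nd (nat_lit 75270) (nat_lit 0) (nat_lit 23332) (XT.nd (nat_lit 234) (nat_lit 532) (nat_lit 0) (XT.nd (nat_lit 78) (nat_lit 380) (nat_lit 0) (XT.lf (nat_lit 0) (nat_lit 14166075352) (nat_lit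 456) (nat_lit 954351147) (nat_lit 532) (nat_lit 13316108145) (nat_lit 174) (nat_lit 5) (nat_lit 180) (nat_lit 5) (nat_lit 181) (nat_lit 5) (nat_lit 652) (nat_lit 574) (nat_lit 334)) (XT.nd (nat_lit 78) (nat_lit 0) (nat_lit 0) (XT.lf (nat_lit 0) (nat_lit 2260247126) (nat_lit 380) (nat_lit 19006565208) (nat_lit 456) (nat_lit 7520473089) (nat_lit 169) (nat_lit 5) (nat_lit 174) (nat_lit 5) (nat_lit 175) (nat_lit 5) (nat_lit 653) (nat_lit 574) (nat_lit 333)) (XT.lf (nat_lit 0) (nat_lit 19303109626) (nat_lit 380) (nat_lit 8331344198) (nat_lit 456) (nat_lit 1508631176) (nat_lit 169) (nat_lit 5) (nat_lit 174) (nat_lit 5) (nat_lit 175) (nat_lit 5) (nat_lit 654) (nat_lit 574) (nat_lit 332)))) (XT.nd (nat_lit 78) (nat_lit 0) (nat_lit 0) (XT.lf (nat_lit 0) (nat_lit 4623257498) (nat_lit 532) (nat_lit 22281302870) (nat_lit 76) (nat_lit 2599631213) (nat_lit 162) (nat_lit 5) (nat_lit 169) (nat_lit 5) (nat_lit 163) (nat_lit 5) (nat_lit 655) (nat_lit 574) (nat_lit 331)) (XT.nd (nat_lit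 74880) (nat_lit 0) (nat_lit 24928) (XT.lf (nat_lit 0) (nat_lit 10975606115) (nat_lit 532) (nat_lit 5181869431) (nat_lit 76) (nat_lit 13712485171) (nat_lit 162) (nat_lit 5) (nat_lit 169) (nat_lit 5) (nat_lit 163) (nat_lit 5) (nat_lit 656) (nat_lit 574) (nat_lit 330)) (XT.lf (nat_lit 0) (nat_lit 4692068437) (nat_lit 1748) (nat_lit 749747079) (nat_lit 1748) (nat_lit 749747079) (nat_lit 490) (nat_lit 3) (nat_lit 513) (nat_lit 3) (nat_lit 513) (nat_lit 5) (nat_lit 575) (nat_lit 575) (nat_lit 410))))) (XT.nd (nat_lit 234) (nat_lit 1596) (nat_lit 0) (XT.nd (nat_lit 78) (nat_lit 0) (nat_lit 76) (XT.lf (nat_lit 76) (nat_lit 4632622999) (nat_lit 0) (nat_lit 5315462461) (nat_lit 1748) (nat_lit 2549397583) (nat_lit 491) (nat_lit 5) (nat_lit 490) (nat_lit 3) (nat_lit 513) (nat_lit 5) (nat_lit 576) (nat_lit 575) (nat_lit 409)) (XT.nd (nat_lit 78) (nat_lit 0) (nat_lit 0) (XT.lf (nat_lit 0) (nat_lit 10524261434) (nat_lit 1672) (nat_lit 1714884290) (nat_lit 1748) (nat_lit 374965231) (nat_lit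 491) (nat_lit 5) (nat_lit 513) (nat_lit 5) (nat_lit 514) (nat_lit 5) (nat_lit 577) (nat_lit 575) (nat_lit 408)) (XT.lf (nat_lit 76) (nat_lit 4576801481) (nat_lit 0) (nat_lit 6588758778) (nat_lit 1748) (nat_lit 1566441013) (nat_lit 492) (nat_lit 5) (nat_lit 491) (nat_lit 5) (nat_lit 514) (nat_lit 5) (nat_lit 578) (nat_lit 575) (nat_lit 407)))) (XT.nd (nat_lit 156) (nat_lit 1672) (nat_lit 0) (XT.nd (nat_lit 78) (nat_lit 0) (nat_lit 76) (XT.lf (nat_lit 76) (nat_lit 11011493560) (nat_lit 0) (nat_lit 808563730) (nat_lit 1748) (nat_lit 1032186456) (nat_lit 492) (nat_lit 5) (nat_lit 491) (nat_lit 5) (nat_lit 514) (nat_lit 5) (nat_lit 579) (nat_lit 575) (nat_lit 406)) (XT.lf (nat_lit 76) (nat_lit 4621362339) (nat_lit 0) (nat_lit 7918431600) (nat_lit 1748) (nat_lit 434055898) (nat_lit 493) (nat_lit 5) (nat_lit 492) (nat_lit 5) (nat_lit 515) (nat_lit 5) (nat_lit 580) (nat_lit 575) (nat_lit 405))) (XT.nd (nat_lit 78) (nat_lit 0) (nat_lit 76) (XT.lf (nat_lit 0) (nat_lit 180733223)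 (nat_lit 1748) (nat_lit 1872862058) (nat_lit 1824) (nat_lit 11044131508) (nat_lit 469) (nat_lit 5) (nat_lit 492) (nat_lit 5) (nat_lit 493) (nat_lit 5) (nat_lit 581) (nat_lit 575) (nat_lit 404)) (XT.lf (nat_lit 0) (nat_lit 848299561) (nat_lit 1748) (nat_lit 8459257245) (nat_lit 1824) (nat_lit 3915542883) (nat_lit 470) (nat_lit 5) (nat_lit 493) (nat_lit 5) (nat_lit 494) (nat_lit 5) (nat_lit 582) (nat_lit 575) (nat_lit 403))))))) (XT.nd (nat_lit 936) (nat_lit 5776) (nat_lit 0) (XT.nd (nat_lit 468) (nat_lit 0) (nat_lit 228) (XT.nd (nat_lit 234) (nat_lit 0) (nat_lit 152) (XT.nd (nat_lit 78) (nat_lit 0) (nat_lit 76) (XT.lf (nat_lit 0) (nat_lit 1545090609) (nat_lit 1748) (nat_lit 1812127206) (nat_lit 1824) (nat_lit 9993446392) (nat_lit 470) (nat_lit 5) (nat_lit 493) (nat_lit 5) (nat_lit 494) (nat_lit 5) (nat_lit 583) (nat_lit 575) (nat_lit 402)) (XT.nd (nat_lit 78) (nat_lit 0) (nat_lit 0) (XT.lf (nat_lit 0) (nat_lit 2296136471) (nat_lit 1748) (nat_lit 8470557457) (nat_lit 1824)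 (nat_lit 2713281301) (nat_lit 471) (nat_lit 5) (nat_lit 494) (nat_lit 5) (nat_lit 495) (nat_lit 5) (nat_lit 584) (nat_lit 575) (nat_lit 401)) (XT.lf (nat_lit 0) (nat_lit 3086686906) (nat_lit 1748) (nat_lit 1648429193) (nat_lit 1824) (nat_lit 8876268265) (nat_lit 471) (nat_lit 5) (nat_lit 494) (nat_lit 5) (nat_lit 495) (nat_lit 5) (nat_lit 585) (nat_lit 575) (nat_lit 400)))) (XT.nd (nat_lit 78) (nat_lit 0) (nat_lit 0) (XT.lf (nat_lit 0) (nat_lit 3927601758) (nat_lit 1748) (nat_lit 8380066265) (nat_lit 1824) (nat_lit 1437064124) (nat_lit 472) (nat_lit 5) (nat_lit 495) (nat_lit 5) (nat_lit 496) (nat_lit 5) (nat_lit 586) (nat_lit 575) (nat_lit 399)) (XT.nd (nat_lit 78) (nat_lit 0) (nat_lit 76) (XT.lf (nat_lit 0) (nat_lit 4818206999) (nat_lit 1748) (nat_lit 1378081540) (nat_lit 1824) (nat_lit 7683802407) (nat_lit 472) (nat_lit 5) (nat_lit 495) (nat_lit 5) (nat_lit 496) (nat_lit 5) (nat_lit 587) (nat_lit 575) (nat_lit 398)) (XT.lf (nat_lit 0) (nat_lit 5755583498) (nat_lit 1748)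 (nat_lit 8184009186) (nat_lit 1824) (nat_lit 77986528) (nat_lit 473) (nat_lit 5) (nat_lit 496) (nat_lit 5) (nat_lit 497) (nat_lit 5) (nat_lit 588) (nat_lit 575) (nat_lit 397))))) (XT.nd (nat_lit 234) (nat_lit 0) (nat_lit 76) (XT.nd (nat_lit 78) (nat_lit 0) (nat_lit 0) (XT.lf (nat_lit 0) (nat_lit 6752781884) (nat_lit 1748) (nat_lit 997122986) (nat_lit 1824) (nat_lit 6407092330) (nat_lit 473) (nat_lit 5) (nat_lit 496) (nat_lit 5) (nat_lit 497) (nat_lit 5) (nat_lit 589) (nat_lit 575) (nat_lit 396)) (XT.nd (nat_lit 78) (nat_lit 0) (nat_lit 76) (XT.lf (nat_lit 76) (nat_lit 6411183476) (nat_lit 0) (nat_lit 1391278613) (nat_lit 1824) (nat_lit 6496092120) (nat_lit 474) (nat_lit 5) (nat_lit 473) (nat_lit 5) (nat_lit 497) (nat_lit 5) (nat_lit 590) (nat_lit 575) (nat_lit 395)) (XT.lf (nat_lit 0) (nat_lit 8904014362) (nat_lit 1748) (nat_lit 501313924) (nat_lit 1824) (nat_lit 5036997891) (nat_lit 474) (nat_lit 5) (nat_lit 497) (nat_lit 5) (nat_lit 498) (nat_lit 5) (nat_lit 591) (nat_lit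 575) (nat_lit 394)))) (XT.nd (nat_lit 78) (nat_lit 0) (nat_lit 76) (XT.lf (nat_lit 76) (nat_lit 7110072283) (nat_lit 0) (nat_lit 2964143573) (nat_lit 1824) (nat_lit 4513826726) (nat_lit 475) (nat_lit 5) (nat_lit 474) (nat_lit 5) (nat_lit 498) (nat_lit 5) (nat_lit 592) (nat_lit 575) (nat_lit 393)) (XT.nd (nat_lit 78) (nat_lit 0) (nat_lit 0) (XT.lf (nat_lit 76) (nat_lit 115380888) (nat_lit 0) (nat_lit 11171373598) (nat_lit 1824) (nat_lit 3449541502) (nat_lit 476) (nat_lit 5) (nat_lit 475) (nat_lit 5) (nat_lit 499) (nat_lit 5) (nat_lit 593) (nat_lit 575) (nat_lit 392)) (XT.lf (nat_lit 76) (nat_lit 7935543211) (nat_lit 0) (nat_lit 4649195191) (nat_lit 1824) (nat_lit 2301553477) (nat_lit 476) (nat_lit 5) (nat_lit 475) (nat_lit 5) (nat_lit 499) (nat_lit 5) (nat_lit 594) (nat_lit 575) (nat_lit 391)))))) (XT.nd (nat_lit 468) (nat_lit 4408) (nat_lit 0) (XT.nd (nat_lit 234) (nat_lit 0) (nat_lit 76) (XT.nd (nat_lit 78) (nat_lit 1824) (nat_lit 0) (XT.lf (nat_lit 76) (nat_lit 864569613)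 (nat_lit 0) (nat_lit 13054424649) (nat_lit 1824) (nat_lit 1120088465) (nat_lit 477) (nat_lit 5) (nat_lit 476) (nat_lit 5) (nat_lit 500) (nat_lit 5) (nat_lit 595) (nat_lit 575) (nat_lit 390)) (XT.nd (nat_lit 78) (nat_lit 0) (nat_lit 76) (XT.lf (nat_lit 0) (nat_lit 153388748) (nat_lit 1824) (nat_lit 6301883587) (nat_lit 1900) (nat_lit 8738257296) (nat_lit 452) (nat_lit 5) (nat_lit 476) (nat_lit 5) (nat_lit 477) (nat_lit 5) (nat_lit 596) (nat_lit 575) (nat_lit 389)) (XT.lf (nat_lit 0) (nat_lit 1442472573) (nat_lit 1824) (nat_lit 13615737067) (nat_lit 1900) (nat_lit 292606266) (nat_lit 453) (nat_lit 5) (nat_lit 477) (nat_lit 5) (nat_lit 478) (nat_lit 5) (nat_lit 597) (nat_lit 575) (nat_lit 388)))) (XT.nd (nat_lit 78) (nat_lit 0) (nat_lit 0) (XT.lf (nat_lit 0) (nat_lit 2834701279) (nat_lit 1824) (nat_lit 5541875362) (nat_lit 1900) (nat_lit 7133125185) (nat_lit 453) (nat_lit 5) (nat_lit 477) (nat_lit 5) (nat_lit 478) (nat_lit 5) (nat_lit 598) (nat_lit 575) (nat_lit 387)) (XT.nd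 (nat_lit 78) (nat_lit 0) (nat_lit 76) (XT.lf (nat_lit 76) (nat_lit 2722654786) (nat_lit 0) (nat_lit 1541997095) (nat_lit 1900) (nat_lit 11406917201) (nat_lit 454) (nat_lit 5) (nat_lit 453) (nat_lit 5) (nat_lit 478) (nat_lit 5) (nat_lit 599) (nat_lit 575) (nat_lit 386)) (XT.lf (nat_lit 0) (nat_lit 5788205965) (nat_lit 1824) (nat_lit 4650466351) (nat_lit 76) (nat_lit 5396702416) (nat_lit 454) (nat_lit 5) (nat_lit 478) (nat_lit 5) (nat_lit 455) (nat_lit 5) (nat_lit 600) (nat_lit 575) (nat_lit 385))))) (XT.nd (nat_lit 234) (nat_lit 1900) (nat_lit 0) (XT.nd (nat_lit 78) (nat_lit 988) (nat_lit 0) (XT.lf (nat_lit 0) (nat_lit 3847695168) (nat_lit 1672) (nat_lit 3522199100) (nat_lit 1748) (nat_lit 8632010081) (nat_lit 432) (nat_lit 5) (nat_lit 454) (nat_lit 5) (nat_lit 455) (nat_lit 5) (nat_lit 601) (nat_lit 575) (nat_lit 384)) (XT.nd (nat_lit 78) (nat_lit 988) (nat_lit 0) (XT.lf (nat_lit 0) (nat_lit 9030147467) (nat_lit 1748) (nat_lit 3622044600) (nat_lit 76) (nat_lit 3518634963)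 (nat_lit 432) (nat_lit 5) (nat_lit 455) (nat_lit 5) (nat_lit 433) (nat_lit 5) (nat_lit 602) (nat_lit 575) (nat_lit 383)) (XT.lf (nat_lit 0) (nat_lit 5118071960) (nat_lit 988) (nat_lit 5654816348) (nat_lit 1064) (nat_lit 5569255279) (nat_lit 419) (nat_lit 5) (nat_lit 432) (nat_lit 5) (nat_lit 433) (nat_lit 5) (nat_lit 603) (nat_lit 575) (nat_lit 382)))) (XT.nd (nat_lit 156) (nat_lit 988) (nat_lit 0) (XT.nd (nat_lit 78) (nat_lit 912) (nat_lit 0) (XT.lf (nat_lit 0) (nat_lit 12577408478) (nat_lit 1064) (nat_lit 2450694558) (nat_lit 76) (nat_lit 1488246003) (nat_lit 419) (nat_lit 5) (nat_lit 433) (nat_lit 5) (nat_lit 420) (nat_lit 5) (nat_lit 604) (nat_lit 575) (nat_lit 381)) (XT.lf (nat_lit 0) (nat_lit 6540007215) (nat_lit 912) (nat_lit 7950895857) (nat_lit 988) (nat_lit 2201678878) (nat_lit 407) (nat_lit 5) (nat_lit 419) (nat_lit 5) (nat_lit 420) (nat_lit 5) (nat_lit 605) (nat_lit 575) (nat_lit 380))) (XT.nd (nat_lit 78) (nat_lit 988) (nat_lit 0) (XT.lf (nat_lit 0) (nat_lit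 15737318287) (nat_lit 912) (nat_lit 714863639) (nat_lit 988) (nat_lit 419968317) (nat_lit 407) (nat_lit 5) (nat_lit 419) (nat_lit 5) (nat_lit 420) (nat_lit 5) (nat_lit 606) (nat_lit 575) (nat_lit 379)) (XT.lf (nat_lit 0) (nat_lit 1468847543) (nat_lit 988) (nat_lit 8943146765) (nat_lit 76) (nat_lit 6641339155) (nat_lit 394) (nat_lit 5) (nat_lit 407) (nat_lit 5) (nat_lit 395) (nat_lit 5) (nat_lit 607) (nat_lit 575) (nat_lit 378))))))))
noncomputable def xc201 : XT := (XT.nd (nat_lit 1950) (nat_lit 7296) (nat_lit 0) (XT.nd (nat_lit 936) (nat_lit 4788) (nat_lit 0) (XT.nd (nat_lit 468) (nat_lit 3116) (nat_lit 0) (XT.nd (nat_lit 234) (nat_lit 760) (nat_lit 0) (XT.nd (nat_lit 78) (nat_lit 836) (nat_lit 0) (XT.lf (nat_lit 0) (nat_lit 307480482) (nat_lit 836) (nat_lit 3089991793) (nat_lit 912) (nat_lit 13840460384) (nat_lit 383) (nat_lit 5) (nat_lit 394) (nat_lit 5) (nat_lit 395) (nat_lit 5) (nat_lit 608) (nat_lit 575) (nat_lit 377)) (XT.nd (nat_lit 78) (nat_lit 836) (nat_lit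 0) (XT.lf (nat_lit 0) (nat_lit 5446854128) (nat_lit 912) (nat_lit 7596081506) (nat_lit 76) (nat_lit 4381645451) (nat_lit 383) (nat_lit 5) (nat_lit 395) (nat_lit 5) (nat_lit 384) (nat_lit 5) (nat_lit 609) (nat_lit 575) (nat_lit 376)) (XT.lf (nat_lit 0) (nat_lit 1923286655) (nat_lit 836) (nat_lit 5640364360) (nat_lit 912) (nat_lit 10050783831) (nat_lit 372) (nat_lit 5) (nat_lit 383) (nat_lit 5) (nat_lit 384) (nat_lit 5) (nat_lit 610) (nat_lit 575) (nat_lit 375)))) (XT.nd (nat_lit 78) (nat_lit 760) (nat_lit 0) (XT.lf (nat_lit 0) (nat_lit 9780060898) (nat_lit 912) (nat_lit 6090335424) (nat_lit 76) (nat_lit 1936544718) (nat_lit 372) (nat_lit 5) (nat_lit 384) (nat_lit 5) (nat_lit 373) (nat_lit 5) (nat_lit 611) (nat_lit 575) (nat_lit 374)) (XT.nd (nat_lit 78) (nat_lit 0) (nat_lit 0) (XT.lf (nat_lit 0) (nat_lit 3707352948) (nat_lit 760) (nat_lit 8388559358) (nat_lit 836) (nat_lit 5906283665) (nat_lit 362) (nat_lit 5) (nat_lit 372) (nat_lit 5) (nat_lit 373) (nat_lit 5) (nat_lit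 612) (nat_lit 575) (nat_lit 373)) (XT.lf (nat_lit 0) (nat_lit 13777183513) (nat_lit 760) (nat_lit 715538308) (nat_lit 836) (nat_lit 3707942221) (nat_lit 362) (nat_lit 5) (nat_lit 372) (nat_lit 5) (nat_lit 373) (nat_lit 5) (nat_lit 613) (nat_lit 575) (nat_lit 372))))) (XT.nd (nat_lit 234) (nat_lit 1444) (nat_lit 0) (XT.nd (nat_lit 78) (nat_lit 836) (nat_lit 0) (XT.lf (nat_lit 0) (nat_lit 5667100394) (nat_lit 836) (nat_lit 11347223627) (nat_lit 912) (nat_lit 1387241171) (nat_lit 351) (nat_lit 5) (nat_lit 362) (nat_lit 5) (nat_lit 363) (nat_lit 5) (nat_lit 614) (nat_lit 575) (nat_lit 371)) (XT.nd (nat_lit 78) (nat_lit 760) (nat_lit 0) (XT.lf (nat_lit 0) (nat_lit 995572715) (nat_lit 912) (nat_lit 2604138041) (nat_lit 76) (nat_lit 15006076183) (nat_lit 350) (nat_lit 5) (nat_lit 362) (nat_lit 5) (nat_lit 351) (nat_lit 5) (nat_lit 615) (nat_lit 575) (nat_lit 370)) (XT.lf (nat_lit 0) (nat_lit 3480611675) (nat_lit 836) (nat_lit 11025509963) (nat_lit 76) (nat_lit 4306326006) (nat_lit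 340) (nat_lit 5) (nat_lit 351) (nat_lit 5) (nat_lit 341) (nat_lit 5) (nat_lit 616) (nat_lit 575) (nat_lit 369)))) (XT.nd (nat_lit 78) (nat_lit 1444) (nat_lit 0) (XT.lf (nat_lit 0) (nat_lit 6050905144) (nat_lit 836) (nat_lit 632065747) (nat_lit 76) (nat_lit 12339560381) (nat_lit 340) (nat_lit 5) (nat_lit 351) (nat_lit 5) (nat_lit 341) (nat_lit 5) (nat_lit 617) (nat_lit 575) (nat_lit 368)) (XT.nd (nat_lit 78) (nat_lit 684) (nat_lit 0) (XT.lf (nat_lit 0) (nat_lit 8741239307) (nat_lit 836) (nat_lit 9149049649) (nat_lit 76) (nat_lit 1345155687) (nat_lit 330) (nat_lit 5) (nat_lit 341) (nat_lit 5) (nat_lit 331) (nat_lit 5) (nat_lit 618) (nat_lit 575) (nat_lit 367)) (XT.lf (nat_lit 0) (nat_lit 1544938062) (nat_lit 684) (nat_lit 9993309004) (nat_lit 760) (nat_lit 7913312628) (nat_lit 321) (nat_lit 5) (nat_lit 330) (nat_lit 5) (nat_lit 331) (nat_lit 5) (nat_lit 619) (nat_lit 575) (nat_lit 366)))))) (XT.nd (nat_lit 468) (nat_lit 2584) (nat_lit 0) (XT.nd (nat_lit 234) (nat_lit 1368)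 (nat_lit 0) (XT.nd (nat_lit 78) (nat_lit 836) (nat_lit 0) (XT.lf (nat_lit 0) (nat_lit 12570565524) (nat_lit 684) (nat_lit 1876403846) (nat_lit 760) (nat_lit 5223912924) (nat_lit 321) (nat_lit 5) (nat_lit 330) (nat_lit 5) (nat_lit 331) (nat_lit 5) (nat_lit 620) (nat_lit 575) (nat_lit 365)) (XT.nd (nat_lit 78) (nat_lit 76) (nat_lit 0) (XT.lf (nat_lit 0) (nat_lit 3925788174) (nat_lit 760) (nat_lit 13549623850) (nat_lit 836) (nat_lit 2417949128) (nat_lit 311) (nat_lit 5) (nat_lit 321) (nat_lit 5) (nat_lit 322) (nat_lit 5) (nat_lit 621) (nat_lit 575) (nat_lit 364)) (XT.lf (nat_lit 0) (nat_lit 493214665) (nat_lit 836) (nat_lit 4872574888) (nat_lit 76) (nat_lit 14753344943) (nat_lit 310) (nat_lit 5) (nat_lit 321) (nat_lit 5) (nat_lit 311) (nat_lit 5) (nat_lit 622) (nat_lit 575) (nat_lit 363)))) (XT.nd (nat_lit 78) (nat_lit 684) (nat_lit 0) (XT.lf (nat_lit 0) (nat_lit 3486871051) (nat_lit 760) (nat_lit 13860600412) (nat_lit 76) (nat_lit 3000499960) (nat_lit 301) (nat_lit 5) (nat_lit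 311) (nat_lit 5) (nat_lit 302) (nat_lit 5) (nat_lit 623) (nat_lit 575) (nat_lit 362)) (XT.nd (nat_lit 78) (nat_lit 684) (nat_lit 0) (XT.lf (nat_lit 0) (nat_lit 6603534422) (nat_lit 760) (nat_lit 2482130463) (nat_lit 76) (nat_lit 11494458193) (nat_lit 301) (nat_lit 5) (nat_lit 311) (nat_lit 5) (nat_lit 302) (nat_lit 5) (nat_lit 624) (nat_lit 575) (nat_lit 361)) (XT.lf (nat_lit 0) (nat_lit 9238989085) (nat_lit 684) (nat_lit 598316587) (nat_lit 760) (nat_lit 10978517256) (nat_lit 292) (nat_lit 5) (nat_lit 301) (nat_lit 5) (nat_lit 302) (nat_lit 5) (nat_lit 625) (nat_lit 575) (nat_lit 360))))) (XT.nd (nat_lit 234) (nat_lit 1292) (nat_lit 0) (XT.nd (nat_lit 78) (nat_lit 684) (nat_lit 0) (XT.lf (nat_lit 0) (nat_lit 115202488) (nat_lit 608) (nat_lit 13085233473) (nat_lit 684) (nat_lit 7854507783) (nat_lit 284) (nat_lit 5) (nat_lit 292) (nat_lit 5) (nat_lit 293) (nat_lit 5) (nat_lit 626) (nat_lit 575) (nat_lit 359)) (XT.nd (nat_lit 78) (nat_lit 684) (nat_lit 0) (XT.lf (nat_lit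 0) (nat_lit 12187883532) (nat_lit 608) (nat_lit 4519475665) (nat_lit 684) (nat_lit 4589957802) (nat_lit 284) (nat_lit 5) (nat_lit 292) (nat_lit 5) (nat_lit 293) (nat_lit 5) (nat_lit 627) (nat_lit 575) (nat_lit 358)) (XT.lf (nat_lit 0) (nat_lit 2962873385) (nat_lit 684) (nat_lit 17363168682) (nat_lit 760) (nat_lit 1217663846) (nat_lit 275) (nat_lit 5) (nat_lit 284) (nat_lit 5) (nat_lit 285) (nat_lit 5) (nat_lit 628) (nat_lit 575) (nat_lit 357)))) (XT.nd (nat_lit 156) (nat_lit 608) (nat_lit 0) (XT.nd (nat_lit 78) (nat_lit 608) (nat_lit 0) (XT.lf (nat_lit 0) (nat_lit 2279423556) (nat_lit 760) (nat_lit 6444564146) (nat_lit 76) (nat_lit 13069017142) (nat_lit 274) (nat_lit 5) (nat_lit 284) (nat_lit 5) (nat_lit 275) (nat_lit 5) (nat_lit 629) (nat_lit 575) (nat_lit 356)) (XT.lf (nat_lit 0) (nat_lit 5865112395) (nat_lit 684) (nat_lit 16048267779) (nat_lit 76) (nat_lit 133049900) (nat_lit 266) (nat_lit 5) (nat_lit 275) (nat_lit 5) (nat_lit 267) (nat_lit 5) (nat_lit 630) (nat_lit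 575) (nat_lit 355))) (XT.nd (nat_lit 78) (nat_lit 608) (nat_lit 0) (XT.lf (nat_lit 0) (nat_lit 9618996017) (nat_lit 684) (nat_lit 3591058379) (nat_lit 76) (nat_lit 9092940363) (nat_lit 266) (nat_lit 5) (nat_lit 275) (nat_lit 5) (nat_lit 267) (nat_lit 5) (nat_lit 631) (nat_lit 575) (nat_lit 354)) (XT.lf (nat_lit 0) (nat_lit 9230433044) (nat_lit 608) (nat_lit 4272722435) (nat_lit 684) (nat_lit 9060431854) (nat_lit 258) (nat_lit 5) (nat_lit 266) (nat_lit 5) (nat_lit 267) (nat_lit 5) (nat_lit 632) (nat_lit 575) (nat_lit 353))))))) (XT.nd (nat_lit 936) (nat_lit 3420) (nat_lit 0) (XT.nd (nat_lit 468) (nat_lit 2128) (nat_lit 0) (XT.nd (nat_lit 234) (nat_lit 532) (nat_lit 0) (XT.nd (nat_lit 78) (nat_lit 1216) (nat_lit 0) (XT.lf (nat_lit 0) (nat_lit 17516016737) (nat_lit 684) (nat_lit 509451905) (nat_lit 76) (nat_lit 4802903290) (nat_lit 258) (nat_lit 5) (nat_lit 267) (nat_lit 5) (nat_lit 259) (nat_lit 5) (nat_lit 633) (nat_lit 575) (nat_lit 352)) (XT.nd (nat_lit 78) (nat_lit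 684) (nat_lit 0) (XT.lf (nat_lit 0) (nat_lit 12703181613) (nat_lit 532) (nat_lit 9012133974) (nat_lit 608) (nat_lit 1381013568) (nat_lit 251) (nat_lit 5) (nat_lit 258) (nat_lit 5) (nat_lit 259) (nat_lit 5) (nat_lit 634) (nat_lit 575) (nat_lit 351)) (XT.lf (nat_lit 0) (nat_lit 2613157194) (nat_lit 684) (nat_lit 20538819564) (nat_lit 76) (nat_lit 216954270) (nat_lit 242) (nat_lit 5) (nat_lit 251) (nat_lit 5) (nat_lit 243) (nat_lit 5) (nat_lit 635) (nat_lit 575) (nat_lit 350)))) (XT.nd (nat_lit 78) (nat_lit 532) (nat_lit 0) (XT.lf (nat_lit 0) (nat_lit 6794096914) (nat_lit 684) (nat_lit 7262080974) (nat_lit 76) (nat_lit 9588117441) (nat_lit 242) (nat_lit 5) (nat_lit 251) (nat_lit 5) (nat_lit 243) (nat_lit 5) (nat_lit 636) (nat_lit 575) (nat_lit 349)) (XT.nd (nat_lit 78) (nat_lit 0) (nat_lit 0) (XT.lf (nat_lit 0) (nat_lit 6357774032) (nat_lit 532) (nat_lit 4737720726) (nat_lit 608) (nat_lit 12828935867) (nat_lit 235) (nat_lit 5) (nat_lit 242) (nat_lit 5) (nat_lit 243) (nat_lit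 5) (nat_lit 637) (nat_lit 575) (nat_lit 348)) (XT.lf (nat_lit 0) (nat_lit 15558528042) (nat_lit 608) (nat_lit 3897845266) (nat_lit 76) (nat_lit 4752283656) (nat_lit 235) (nat_lit 5) (nat_lit 243) (nat_lit 5) (nat_lit 236) (nat_lit 5) (nat_lit 638) (nat_lit 575) (nat_lit 347))))) (XT.nd (nat_lit 234) (nat_lit 988) (nat_lit 0) (XT.nd (nat_lit 78) (nat_lit 608) (nat_lit 0) (XT.lf (nat_lit 0) (nat_lit 10140229250) (nat_lit 532) (nat_lit 10063492876) (nat_lit 608) (nat_lit 4292988176) (nat_lit 228) (nat_lit 5) (nat_lit 235) (nat_lit 5) (nat_lit 236) (nat_lit 5) (nat_lit 639) (nat_lit 575) (nat_lit 346)) (XT.nd (nat_lit 78) (nat_lit 532) (nat_lit 0) (XT.lf (nat_lit 0) (nat_lit 171347248) (nat_lit 608) (nat_lit 285003701) (nat_lit 76) (nat_lit 24333713848) (nat_lit 227) (nat_lit 5) (nat_lit 235) (nat_lit 5) (nat_lit 228) (nat_lit 5) (nat_lit 640) (nat_lit 575) (nat_lit 345)) (XT.lf (nat_lit 0) (nat_lit 4817109373) (nat_lit 608) (nat_lit 10928067180) (nat_lit 76) (nat_lit 9340550283)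 (nat_lit 220) (nat_lit 5) (nat_lit 228) (nat_lit 5) (nat_lit 221) (nat_lit 5) (nat_lit 641) (nat_lit 575) (nat_lit 344)))) (XT.nd (nat_lit 78) (nat_lit 456) (nat_lit 0) (XT.lf (nat_lit 0) (nat_lit 3543542281) (nat_lit 532) (nat_lit 6036026246) (nat_lit 608) (nat_lit 15807258394) (nat_lit 213) (nat_lit 5) (nat_lit 220) (nat_lit 5) (nat_lit 221) (nat_lit 5) (nat_lit 642) (nat_lit 575) (nat_lit 343)) (XT.nd (nat_lit 78) (nat_lit 456) (nat_lit 0) (XT.lf (nat_lit 0) (nat_lit 14532067533) (nat_lit 608) (nat_lit 7271068998) (nat_lit 76) (nat_lit 3888917095) (nat_lit 213) (nat_lit 5) (nat_lit 221) (nat_lit 5) (nat_lit 214) (nat_lit 5) (nat_lit 643) (nat_lit 575) (nat_lit 342)) (XT.lf (nat_lit 0) (nat_lit 7647316498) (nat_lit 456) (nat_lit 12021869088) (nat_lit 532) (nat_lit 6332488319) (nat_lit 207) (nat_lit 5) (nat_lit 213) (nat_lit 5) (nat_lit 214) (nat_lit 5) (nat_lit 644) (nat_lit 575) (nat_lit 341)))))) (XT.nd (nat_lit 468) (nat_lit 1900) (nat_lit 0) (XT.nd (nat_lit 234)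 (nat_lit 456) (nat_lit 0) (XT.nd (nat_lit 78) (nat_lit 1064) (nat_lit 0) (XT.lf (nat_lit 0) (nat_lit 22957071075) (nat_lit 456) (nat_lit 1996754994) (nat_lit 532) (nat_lit 1362765337) (nat_lit 207) (nat_lit 5) (nat_lit 213) (nat_lit 5) (nat_lit 214) (nat_lit 5) (nat_lit 645) (nat_lit 575) (nat_lit 340)) (XT.nd (nat_lit 78) (nat_lit 456) (nat_lit 0) (XT.lf (nat_lit 0) (nat_lit 3786204126) (nat_lit 608) (nat_lit 14626069083) (nat_lit 76) (nat_lit 8222483934) (nat_lit 199) (nat_lit 5) (nat_lit 207) (nat_lit 5) (nat_lit 200) (nat_lit 5) (nat_lit 646) (nat_lit 575) (nat_lit 339)) (XT.lf (nat_lit 0) (nat_lit 752904809) (nat_lit 456) (nat_lit 8303894834) (nat_lit 532) (nat_lit 17901568903) (nat_lit 193) (nat_lit 5) (nat_lit 199) (nat_lit 5) (nat_lit 200) (nat_lit 5) (nat_lit 647) (nat_lit 575) (nat_lit 338)))) (XT.nd (nat_lit 78) (nat_lit 456) (nat_lit 0) (XT.lf (nat_lit 0) (nat_lit 14540736725) (nat_lit 532) (nat_lit 10668016921) (nat_lit 76) (nat_lit 2077540321) (nat_lit 193)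 (nat_lit 5) (nat_lit 200) (nat_lit 5) (nat_lit 194) (nat_lit 5) (nat_lit 648) (nat_lit 575) (nat_lit 337)) (XT.nd (nat_lit 78) (nat_lit 0) (nat_lit 0) (XT.lf (nat_lit 0) (nat_lit 5187766194) (nat_lit 456) (nat_lit 15031440406) (nat_lit 532) (nat_lit 7399874592) (nat_lit 187) (nat_lit 5) (nat_lit 193) (nat_lit 5) (nat_lit 194) (nat_lit 5) (nat_lit 649) (nat_lit 575) (nat_lit 336)) (XT.lf (nat_lit 0) (nat_lit 21499850217) (nat_lit 456) (nat_lit 4579202331) (nat_lit 532) (nat_lit 1878115848) (nat_lit 187) (nat_lit 5) (nat_lit 193) (nat_lit 5) (nat_lit 194) (nat_lit 5) (nat_lit 650) (nat_lit 575) (nat_lit 335))))) (XT.nd (nat_lit 234) (nat_lit 912) (nat_lit 0) (XT.nd (nat_lit 78) (nat_lit 456) (nat_lit 0) (XT.lf (nat_lit 0) (nat_lit 3805693442) (nat_lit 532) (nat_lit 18403640919) (nat_lit 76) (nat_lit 6090178842) (nat_lit 180) (nat_lit 5) (nat_lit 187) (nat_lit 5) (nat_lit 181) (nat_lit 5) (nat_lit 651) (nat_lit 575) (nat_lit 334)) (XT.nd (nat_lit 78) (nat_lit 456) (nat_lit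 0) (XT.lf (nat_lit 0) (nat_lit 9648295110) (nat_lit 532) (nat_lit 2032626166) (nat_lit 76) (nat_lit 16966130408) (nat_lit 180) (nat_lit 5) (nat_lit 187) (nat_lit 5) (nat_lit 181) (nat_lit 5) (nat_lit 652) (nat_lit 575) (nat_lit 333)) (XT.lf (nat_lit 0) (nat_lit 14855350809) (nat_lit 456) (nat_lit 845217263) (nat_lit 532) (nat_lit 13299116818) (nat_lit 174) (nat_lit 5) (nat_lit 180) (nat_lit 5) (nat_lit 181) (nat_lit 5) (nat_lit 653) (nat_lit 575) (nat_lit 332)))) (XT.nd (nat_lit 156) (nat_lit 532) (nat_lit 0) (XT.nd (nat_lit 78) (nat_lit 0) (nat_lit 0) (XT.lf (nat_lit 0) (nat_lit 2713451984) (nat_lit 380) (nat_lit 19254449071) (nat_lit 456) (nat_lit 7389589746) (nat_lit 169) (nat_lit 5) (nat_lit 174) (nat_lit 5) (nat_lit 175) (nat_lit 5) (nat_lit 654) (nat_lit 575) (nat_lit 331)) (XT.lf (nat_lit 0) (nat_lit 20089171736) (nat_lit 380) (nat_lit 8368316728) (nat_lit 456) (nat_lit 1263026540) (nat_lit 169) (nat_lit 5) (nat_lit 174) (nat_lit 5) (nat_lit 175) (nat_lit 5) (nat_lit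 655) (nat_lit 575) (nat_lit 330))) (XT.nd (nat_lit 74958) (nat_lit 0) (nat_lit 24928) (XT.lf (nat_lit 0) (nat_lit 4986004188) (nat_lit 532) (nat_lit 22321385168) (nat_lit 76) (nat_lit 2781456602) (nat_lit 162) (nat_lit 5) (nat_lit 169) (nat_lit 5) (nat_lit 163) (nat_lit 5) (nat_lit 656) (nat_lit 575) (nat_lit 329)) (XT.lf (nat_lit 0) (nat_lit 5223082001) (nat_lit 1748) (nat_lit 541748805) (nat_lit 1748) (nat_lit 541748805) (nat_lit 490) (nat_lit 3) (nat_lit 513) (nat_lit 3) (nat_lit 513) (nat_lit 5) (nat_lit 576) (nat_lit 576) (nat_lit 408))))))))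
noncomputable def xc202 : XT := (XT.nd (nat_lit 1950) (nat_lit 12160) (nat_lit 0) (XT.nd (nat_lit 936) (nat_lit 1292) (nat_lit 0) (XT.nd (nat_lit 468) (nat_lit 0) (nat_lit 76) (XT.nd (nat_lit 234) (nat_lit 1596) (nat_lit 0) (XT.nd (nat_lit 78) (nat_lit 0) (nat_lit 0) (XT.lf (nat_lit 76) (nat_lit 5168327768) (nat_lit 0) (nat_lit 5838796374) (nat_lit 1748) (nat_lit 1722968218) (nat_lit 491) (nat_lit 5) (nat_lit 490) (nat_lit 3) (nat_lit 513) (nat_lit 5) (nat_lit 577) (nat_lit 576) (nat_lit 407)) (XT.nd (nat_lit 78) (nat_lit 0) (nat_lit 76) (XT.lf (nat_lit 76) (nat_lit 11554142746) (nat_lit 0) (nat_lit 21300420) (nat_lit 1748) (nat_lit 1273999994) (nat_lit 491) (nat_lit 5) (nat_lit 490) (nat_lit 3) (nat_lit 513) (nat_lit 5) (nat_lit 578) (nat_lit 576) (nat_lit 406)) (XT.lf (nat_lit 76) (nat_lit 5119370395) (nat_lit 0) (nat_lit 7096506148) (nat_lit 1748) (nat_lit 754091238) (nat_lit 492) (nat_lit 5) (nat_lit 491) (nat_lit 5) (nat_lit 514) (nat_lit 5) (nat_lit 579) (nat_lit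 576) (nat_lit 405)))) (XT.nd (nat_lit 78) (nat_lit 1672) (nat_lit 0) (XT.lf (nat_lit 76) (nat_lit 11673912533) (nat_lit 0) (nat_lit 1193335195) (nat_lit 1748) (nat_lit 225694307) (nat_lit 492) (nat_lit 5) (nat_lit 491) (nat_lit 5) (nat_lit 514) (nat_lit 5) (nat_lit 580) (nat_lit 576) (nat_lit 404)) (XT.nd (nat_lit 78) (nat_lit 0) (nat_lit 0) (XT.lf (nat_lit 0) (nat_lit 363982603) (nat_lit 1748) (nat_lit 8047996815) (nat_lit 1824) (nat_lit 4805260925) (nat_lit 469) (nat_lit 5) (nat_lit 492) (nat_lit 5) (nat_lit 493) (nat_lit 5) (nat_lit 581) (nat_lit 576) (nat_lit 403)) (XT.lf (nat_lit 0) (nat_lit 969556755) (nat_lit 1748) (nat_lit 1450842936) (nat_lit 1824) (nat_lit 10923454202) (nat_lit 469) (nat_lit 5) (nat_lit 492) (nat_lit 5) (nat_lit 493) (nat_lit 5) (nat_lit 582) (nat_lit 576) (nat_lit 402))))) (XT.nd (nat_lit 234) (nat_lit 0) (nat_lit 76) (XT.nd (nat_lit 78) (nat_lit 0) (nat_lit 0) (XT.lf (nat_lit 0) (nat_lit 1635987989) (nat_lit 1748) (nat_lit 8154358758) (nat_lit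 1824) (nat_lit 3681679649) (nat_lit 470) (nat_lit 5) (nat_lit 493) (nat_lit 5) (nat_lit 494) (nat_lit 5) (nat_lit 583) (nat_lit 576) (nat_lit 401)) (XT.nd (nat_lit 78) (nat_lit 0) (nat_lit 76) (XT.lf (nat_lit 0) (nat_lit 2331602654) (nat_lit 1748) (nat_lit 1383581875) (nat_lit 1824) (nat_lit 9887262289) (nat_lit 470) (nat_lit 5) (nat_lit 493) (nat_lit 5) (nat_lit 494) (nat_lit 5) (nat_lit 584) (nat_lit 576) (nat_lit 400)) (XT.lf (nat_lit 0) (nat_lit 3084020069) (nat_lit 1748) (nat_lit 8161415222) (nat_lit 1824) (nat_lit 2489184080) (nat_lit 471) (nat_lit 5) (nat_lit 494) (nat_lit 5) (nat_lit 495) (nat_lit 5) (nat_lit 585) (nat_lit 576) (nat_lit 399)))) (XT.nd (nat_lit 78) (nat_lit 0) (nat_lit 76) (XT.lf (nat_lit 0) (nat_lit 3875833261) (nat_lit 1748) (nat_lit 1212227792) (nat_lit 1824) (nat_lit 8780888878) (nat_lit 471) (nat_lit 5) (nat_lit 494) (nat_lit 5) (nat_lit 495) (nat_lit 5) (nat_lit 586) (nat_lit 576) (nat_lit 398)) (XT.nd (nat_lit 78) (nat_lit 0) (nat_lit 0)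 (XT.lf (nat_lit 0) (nat_lit 4720705773) (nat_lit 1748) (nat_lit 8065525334) (nat_lit 1824) (nat_lit 1218993008) (nat_lit 472) (nat_lit 5) (nat_lit 495) (nat_lit 5) (nat_lit 496) (nat_lit 5) (nat_lit 587) (nat_lit 576) (nat_lit 397)) (XT.lf (nat_lit 0) (nat_lit 5615112297) (nat_lit 1748) (nat_lit 932954683) (nat_lit 1824) (nat_lit 7595505515) (nat_lit 472) (nat_lit 5) (nat_lit 495) (nat_lit 5) (nat_lit 496) (nat_lit 5) (nat_lit 588) (nat_lit 576) (nat_lit 396)))))) (XT.nd (nat_lit 468) (nat_lit 1520) (nat_lit 0) (XT.nd (nat_lit 234) (nat_lit 0) (nat_lit 152) (XT.nd (nat_lit 78) (nat_lit 0) (nat_lit 76) (XT.lf (nat_lit 76) (nat_lit 6420353919) (nat_lit 0) (nat_lit 139671791) (nat_lit 1824) (nat_lit 7724011175) (nat_lit 473) (nat_lit 5) (nat_lit 472) (nat_lit 5) (nat_lit 496) (nat_lit 5) (nat_lit 589) (nat_lit 576) (nat_lit 395)) (XT.nd (nat_lit 78) (nat_lit 0) (nat_lit 0) (XT.lf (nat_lit 0) (nat_lit 7562762718) (nat_lit 1748) (nat_lit 541660303) (nat_lit 1824) (nat_lit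 6322110423) (nat_lit 473) (nat_lit 5) (nat_lit 496) (nat_lit 5) (nat_lit 497) (nat_lit 5) (nat_lit 590) (nat_lit 576) (nat_lit 394)) (XT.lf (nat_lit 76) (nat_lit 7011684623) (nat_lit 0) (nat_lit 1611584415) (nat_lit 1824) (nat_lit 5947857967) (nat_lit 474) (nat_lit 5) (nat_lit 473) (nat_lit 5) (nat_lit 497) (nat_lit 5) (nat_lit 591) (nat_lit 576) (nat_lit 393)))) (XT.nd (nat_lit 78) (nat_lit 0) (nat_lit 0) (XT.lf (nat_lit 0) (nat_lit 9732592687) (nat_lit 1748) (nat_lit 33962285) (nat_lit 1824) (nat_lit 4951506655) (nat_lit 474) (nat_lit 5) (nat_lit 497) (nat_lit 5) (nat_lit 498) (nat_lit 5) (nat_lit 592) (nat_lit 576) (nat_lit 392)) (XT.nd (nat_lit 78) (nat_lit 0) (nat_lit 76) (XT.lf (nat_lit 76) (nat_lit 7726511002) (nat_lit 0) (nat_lit 3190011408) (nat_lit 1824) (nat_lit 3950365450) (nat_lit 475) (nat_lit 5) (nat_lit 474) (nat_lit 5) (nat_lit 498) (nat_lit 5) (nat_lit 593) (nat_lit 576) (nat_lit 391)) (XT.lf (nat_lit 76) (nat_lit 602710865) (nat_lit 0) (nat_lit 11540124520)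 (nat_lit 1824) (nat_lit 2875482421) (nat_lit 476) (nat_lit 5) (nat_lit 475) (nat_lit 5) (nat_lit 499) (nat_lit 5) (nat_lit 594) (nat_lit 576) (nat_lit 390))))) (XT.nd (nat_lit 234) (nat_lit 0) (nat_lit 76) (XT.nd (nat_lit 78) (nat_lit 1748) (nat_lit 0) (XT.lf (nat_lit 76) (nat_lit 8569766192) (nat_lit 0) (nat_lit 4884653066) (nat_lit 1824) (nat_lit 1717143458) (nat_lit 476) (nat_lit 5) (nat_lit 475) (nat_lit 5) (nat_lit 499) (nat_lit 5) (nat_lit 595) (nat_lit 576) (nat_lit 389)) (XT.nd (nat_lit 78) (nat_lit 1824) (nat_lit 0) (XT.lf (nat_lit 76) (nat_lit 1367536763) (nat_lit 0) (nat_lit 13437952529) (nat_lit 1824) (nat_lit 522119375) (nat_lit 477) (nat_lit 5) (nat_lit 476) (nat_lit 5) (nat_lit 500) (nat_lit 5) (nat_lit 596) (nat_lit 576) (nat_lit 388)) (XT.lf (nat_lit 0) (nat_lit 756686507) (nat_lit 1824) (nat_lit 5943702030) (nat_lit 1900) (nat_lit 8784917303) (nat_lit 452) (nat_lit 5) (nat_lit 476) (nat_lit 5) (nat_lit 477) (nat_lit 5) (nat_lit 597) (nat_lit 576) (nat_lit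 387)))) (XT.nd (nat_lit 156) (nat_lit 0) (nat_lit 0) (XT.nd (nat_lit 78) (nat_lit 0) (nat_lit 0) (XT.lf (nat_lit 0) (nat_lit 2062188216) (nat_lit 1824) (nat_lit 13394380762) (nat_lit 1900) (nat_lit 189357898) (nat_lit 453) (nat_lit 5) (nat_lit 477) (nat_lit 5) (nat_lit 478) (nat_lit 5) (nat_lit 598) (nat_lit 576) (nat_lit 386)) (XT.lf (nat_lit 0) (nat_lit 3470675884) (nat_lit 1824) (nat_lit 5168721648) (nat_lit 1900) (nat_lit 7168826421) (nat_lit 453) (nat_lit 5) (nat_lit 477) (nat_lit 5) (nat_lit 478) (nat_lit 5) (nat_lit 599) (nat_lit 576) (nat_lit 385))) (XT.nd (nat_lit 78) (nat_lit 0) (nat_lit 76) (XT.lf (nat_lit 76) (nat_lit 3257914951) (nat_lit 0) (nat_lit 1663073823) (nat_lit 1900) (nat_lit 11052506206) (nat_lit 454) (nat_lit 5) (nat_lit 453) (nat_lit 5) (nat_lit 478) (nat_lit 5) (nat_lit 600) (nat_lit 576) (nat_lit 384)) (XT.lf (nat_lit 0) (nat_lit 6463242612) (nat_lit 1824) (nat_lit 4260241924) (nat_lit 76) (nat_lit 5417329292) (nat_lit 454) (nat_lit 5) (nat_lit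 478) (nat_lit 5) (nat_lit 455) (nat_lit 5) (nat_lit 601) (nat_lit 576) (nat_lit 383))))))) (XT.nd (nat_lit 936) (nat_lit 5320) (nat_lit 0) (XT.nd (nat_lit 468) (nat_lit 3344) (nat_lit 0) (XT.nd (nat_lit 234) (nat_lit 988) (nat_lit 0) (XT.nd (nat_lit 78) (nat_lit 988) (nat_lit 0) (XT.lf (nat_lit 0) (nat_lit 4404703656) (nat_lit 1672) (nat_lit 3664011730) (nat_lit 1748) (nat_lit 8242117264) (nat_lit 432) (nat_lit 5) (nat_lit 454) (nat_lit 5) (nat_lit 455) (nat_lit 5) (nat_lit 602) (nat_lit 576) (nat_lit 382)) (XT.nd (nat_lit 78) (nat_lit 988) (nat_lit 0) (XT.lf (nat_lit 0) (nat_lit 9750907142) (nat_lit 1748) (nat_lit 3212497509) (nat_lit 76) (nat_lit 3519956059) (nat_lit 432) (nat_lit 5) (nat_lit 455) (nat_lit 5) (nat_lit 433) (nat_lit 5) (nat_lit 603) (nat_lit 576) (nat_lit 381)) (XT.lf (nat_lit 0) (nat_lit 5699250409) (nat_lit 988) (nat_lit 5821769880) (nat_lit 1064) (nat_lit 5137234522) (nat_lit 419) (nat_lit 5) (nat_lit 432) (nat_lit 5) (nat_lit 433) (nat_lit 5) (nat_lit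 604) (nat_lit 576) (nat_lit 380)))) (XT.nd (nat_lit 78) (nat_lit 988) (nat_lit 0) (XT.lf (nat_lit 0) (nat_lit 13350843449) (nat_lit 1064) (nat_lit 2019415965) (nat_lit 76) (nat_lit 1465902238) (nat_lit 419) (nat_lit 5) (nat_lit 433) (nat_lit 5) (nat_lit 420) (nat_lit 5) (nat_lit 605) (nat_lit 576) (nat_lit 379)) (XT.nd (nat_lit 78) (nat_lit 76) (nat_lit 0) (XT.lf (nat_lit 0) (nat_lit 7147940024) (nat_lit 912) (nat_lit 8147532698) (nat_lit 988) (nat_lit 1720590706) (nat_lit 407) (nat_lit 5) (nat_lit 419) (nat_lit 5) (nat_lit 420) (nat_lit 5) (nat_lit 606) (nat_lit 576) (nat_lit 378)) (XT.lf (nat_lit 0) (nat_lit 85323654) (nat_lit 988) (nat_lit 680145989) (nat_lit 76) (nat_lit 16433945554) (nat_lit 406) (nat_lit 5) (nat_lit 419) (nat_lit 5) (nat_lit 407) (nat_lit 5) (nat_lit 607) (nat_lit 576) (nat_lit 377))))) (XT.nd (nat_lit 234) (nat_lit 1596) (nat_lit 0) (XT.nd (nat_lit 78) (nat_lit 836) (nat_lit 0) (XT.lf (nat_lit 0) (nat_lit 1999203858) (nat_lit 988) (nat_lit 8640243693)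 (nat_lit 76) (nat_lit 6744862198) (nat_lit 394) (nat_lit 5) (nat_lit 407) (nat_lit 5) (nat_lit 395) (nat_lit 5) (nat_lit 608) (nat_lit 576) (nat_lit 376)) (XT.nd (nat_lit 78) (nat_lit 0) (nat_lit 0) (XT.lf (nat_lit 0) (nat_lit 792226586) (nat_lit 836) (nat_lit 3167458742) (nat_lit 912) (nat_lit 13613051307) (nat_lit 383) (nat_lit 5) (nat_lit 394) (nat_lit 5) (nat_lit 395) (nat_lit 5) (nat_lit 609) (nat_lit 576) (nat_lit 375)) (XT.lf (nat_lit 0) (nat_lit 6040263647) (nat_lit 912) (nat_lit 7268931672) (nat_lit 76) (nat_lit 4454119894) (nat_lit 383) (nat_lit 5) (nat_lit 395) (nat_lit 5) (nat_lit 384) (nat_lit 5) (nat_lit 610) (nat_lit 576) (nat_lit 374)))) (XT.nd (nat_lit 78) (nat_lit 760) (nat_lit 0) (XT.lf (nat_lit 0) (nat_lit 2437672067) (nat_lit 836) (nat_lit 5755314931) (nat_lit 912) (nat_lit 9764108574) (nat_lit 372) (nat_lit 5) (nat_lit 383) (nat_lit 5) (nat_lit 384) (nat_lit 5) (nat_lit 611) (nat_lit 576) (nat_lit 373)) (XT.nd (nat_lit 78) (nat_lit 760) (nat_lit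 0) (XT.lf (nat_lit 0) (nat_lit 10444337652) (nat_lit 912) (nat_lit 5736101383) (nat_lit 76) (nat_lit 1973201911) (nat_lit 372) (nat_lit 5) (nat_lit 384) (nat_lit 5) (nat_lit 373) (nat_lit 5) (nat_lit 612) (nat_lit 576) (nat_lit 372)) (XT.lf (nat_lit 0) (nat_lit 4254408910) (nat_lit 760) (nat_lit 8545977901) (nat_lit 836) (nat_lit 5552537834) (nat_lit 362) (nat_lit 5) (nat_lit 372) (nat_lit 5) (nat_lit 373) (nat_lit 5) (nat_lit 613) (nat_lit 576) (nat_lit 371)))))) (XT.nd (nat_lit 468) (nat_lit 2888) (nat_lit 0) (XT.nd (nat_lit 234) (nat_lit 1520) (nat_lit 0) (XT.nd (nat_lit 78) (nat_lit 912) (nat_lit 0) (XT.lf (nat_lit 0) (nat_lit 14516363363) (nat_lit 760) (nat_lit 719699423) (nat_lit 836) (nat_lit 3319481943) (nat_lit 362) (nat_lit 5) (nat_lit 372) (nat_lit 5) (nat_lit 373) (nat_lit 5) (nat_lit 614) (nat_lit 576) (nat_lit 370)) (XT.nd (nat_lit 78) (nat_lit 76) (nat_lit 0) (XT.lf (nat_lit 0) (nat_lit 6250035389) (nat_lit 836) (nat_lit 11552283263) (nat_lit 912) (nat_lit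 958262050) (nat_lit 351) (nat_lit 5) (nat_lit 362) (nat_lit 5) (nat_lit 363) (nat_lit 5) (nat_lit 615) (nat_lit 576) (nat_lit 369)) (XT.lf (nat_lit 0) (nat_lit 1457380177) (nat_lit 912) (nat_lit 2189903716) (nat_lit 76) (nat_lit 15321721626) (nat_lit 350) (nat_lit 5) (nat_lit 362) (nat_lit 5) (nat_lit 351) (nat_lit 5) (nat_lit 616) (nat_lit 576) (nat_lit 368)))) (XT.nd (nat_lit 78) (nat_lit 760) (nat_lit 0) (XT.lf (nat_lit 0) (nat_lit 3986638377) (nat_lit 836) (nat_lit 10774163462) (nat_lit 76) (nat_lit 4419108392) (nat_lit 340) (nat_lit 5) (nat_lit 351) (nat_lit 5) (nat_lit 341) (nat_lit 5) (nat_lit 617) (nat_lit 576) (nat_lit 367)) (XT.nd (nat_lit 78) (nat_lit 760) (nat_lit 0) (XT.lf (nat_lit 0) (nat_lit 6599780569) (nat_lit 836) (nat_lit 182102453) (nat_lit 76) (nat_lit 12612484791) (nat_lit 340) (nat_lit 5) (nat_lit 351) (nat_lit 5) (nat_lit 341) (nat_lit 5) (nat_lit 618) (nat_lit 576) (nat_lit 366)) (XT.lf (nat_lit 0) (nat_lit 9338756771) (nat_lit 836) (nat_lit 8864205568)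 (nat_lit 76) (nat_lit 1408681522) (nat_lit 330) (nat_lit 5) (nat_lit 341) (nat_lit 5) (nat_lit 331) (nat_lit 5) (nat_lit 619) (nat_lit 576) (nat_lit 365))))) (XT.nd (nat_lit 234) (nat_lit 1444) (nat_lit 0) (XT.nd (nat_lit 78) (nat_lit 760) (nat_lit 0) (XT.lf (nat_lit 0) (nat_lit 2040584100) (nat_lit 684) (nat_lit 10145849941) (nat_lit 760) (nat_lit 7645753679) (nat_lit 321) (nat_lit 5) (nat_lit 330) (nat_lit 5) (nat_lit 331) (nat_lit 5) (nat_lit 620) (nat_lit 576) (nat_lit 364)) (XT.nd (nat_lit 78) (nat_lit 760) (nat_lit 0) (XT.lf (nat_lit 0) (nat_lit 13277611420) (nat_lit 684) (nat_lit 1867534625) (nat_lit 760) (nat_lit 4910915496) (nat_lit 321) (nat_lit 5) (nat_lit 330) (nat_lit 5) (nat_lit 331) (nat_lit 5) (nat_lit 621) (nat_lit 576) (nat_lit 363)) (XT.lf (nat_lit 0) (nat_lit 4464825866) (nat_lit 760) (nat_lit 13764592775) (nat_lit 836) (nat_lit 2053667165) (nat_lit 311) (nat_lit 5) (nat_lit 321) (nat_lit 5) (nat_lit 322) (nat_lit 5) (nat_lit 622) (nat_lit 576) (nat_lit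 362)))) (XT.nd (nat_lit 156) (nat_lit 684) (nat_lit 0) (XT.nd (nat_lit 78) (nat_lit 684) (nat_lit 0) (XT.lf (nat_lit 0) (nat_lit 902323160) (nat_lit 836) (nat_lit 4513177995) (nat_lit 76) (nat_lit 15097980589) (nat_lit 310) (nat_lit 5) (nat_lit 321) (nat_lit 5) (nat_lit 311) (nat_lit 5) (nat_lit 623) (nat_lit 576) (nat_lit 361)) (XT.lf (nat_lit 0) (nat_lit 3951357190) (nat_lit 760) (nat_lit 13676418978) (nat_lit 76) (nat_lit 3119210142) (nat_lit 301) (nat_lit 5) (nat_lit 311) (nat_lit 5) (nat_lit 302) (nat_lit 5) (nat_lit 624) (nat_lit 576) (nat_lit 360))) (XT.nd (nat_lit 78) (nat_lit 684) (nat_lit 0) (XT.lf (nat_lit 0) (nat_lit 7122613657) (nat_lit 760) (nat_lit 2079426560) (nat_lit 76) (nat_lit 11781896555) (nat_lit 301) (nat_lit 5) (nat_lit 311) (nat_lit 5) (nat_lit 302) (nat_lit 5) (nat_lit 625) (nat_lit 576) (nat_lit 359)) (XT.lf (nat_lit 0) (nat_lit 9873139415) (nat_lit 684) (nat_lit 543250126) (nat_lit 760) (nat_lit 10808055448) (nat_lit 292) (nat_lit 5) (nat_lit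 301) (nat_lit 5) (nat_lit 302) (nat_lit 5) (nat_lit 626) (nat_lit 576) (nat_lit 358))))))))
noncomputable def xc203 : XT := (XT.nd (nat_lit 1950) (nat_lit 1368) (nat_lit 0) (XT.nd (nat_lit 936) (nat_lit 3648) (nat_lit 0) (XT.nd (nat_lit 468) (nat_lit 2356) (nat_lit 0) (XT.nd (nat_lit 234) (nat_lit 684) (nat_lit 0) (XT.nd (nat_lit 78) (nat_lit 684) (nat_lit 0) (XT.lf (nat_lit 0) (nat_lit 571132120) (nat_lit 608) (nat_lit 13271525423) (nat_lit 684) (nat_lit 7625774110) (nat_lit 284) (nat_lit 5) (nat_lit 292) (nat_lit 5) (nat_lit 293) (nat_lit 5) (nat_lit 627) (nat_lit 576) (nat_lit 357)) (XT.nd (nat_lit 78) (nat_lit 684) (nat_lit 0) (XT.lf (nat_lit 0) (nat_lit 12876372165) (nat_lit 608) (nat_lit 4535931140) (nat_lit 684) (nat_lit 4303498303) (nat_lit 284) (nat_lit 5) (nat_lit 292) (nat_lit 5) (nat_lit 293) (nat_lit 5) (nat_lit 628) (nat_lit 576) (nat_lit 356)) (XT.lf (nat_lit 0) (nat_lit 3470871724) (nat_lit 684) (nat_lit 17628601720) (nat_lit 760) (nat_lit 867723481) (nat_lit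 275) (nat_lit 5) (nat_lit 284) (nat_lit 5) (nat_lit 285) (nat_lit 5) (nat_lit 629) (nat_lit 576) (nat_lit 355)))) (XT.nd (nat_lit 78) (nat_lit 608) (nat_lit 0) (XT.lf (nat_lit 0) (nat_lit 2687153902) (nat_lit 760) (nat_lit 6128657571) (nat_lit 76) (nat_lit 13405767477) (nat_lit 274) (nat_lit 5) (nat_lit 284) (nat_lit 5) (nat_lit 275) (nat_lit 5) (nat_lit 630) (nat_lit 576) (nat_lit 354)) (XT.nd (nat_lit 78) (nat_lit 0) (nat_lit 0) (XT.lf (nat_lit 0) (nat_lit 6340869755) (nat_lit 684) (nat_lit 15920706208) (nat_lit 76) (nat_lit 218571304) (nat_lit 266) (nat_lit 5) (nat_lit 275) (nat_lit 5) (nat_lit 267) (nat_lit 5) (nat_lit 631) (nat_lit 576) (nat_lit 353)) (XT.lf (nat_lit 0) (nat_lit 10162802517) (nat_lit 684) (nat_lit 3223147266) (nat_lit 76) (nat_lit 9356034862) (nat_lit 266) (nat_lit 5) (nat_lit 275) (nat_lit 5) (nat_lit 267) (nat_lit 5) (nat_lit 632) (nat_lit 576) (nat_lit 352))))) (XT.nd (nat_lit 234) (nat_lit 1216) (nat_lit 0) (XT.nd (nat_lit 78) (nat_lit 532) (nat_lit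 0) (XT.lf (nat_lit 0) (nat_lit 9851881009) (nat_lit 608) (nat_lit 4268709692) (nat_lit 684) (nat_lit 8887280272) (nat_lit 258) (nat_lit 5) (nat_lit 266) (nat_lit 5) (nat_lit 267) (nat_lit 5) (nat_lit 633) (nat_lit 576) (nat_lit 351)) (XT.nd (nat_lit 78) (nat_lit 532) (nat_lit 0) (XT.lf (nat_lit 0) (nat_lit 18207467458) (nat_lit 684) (nat_lit 85085522) (nat_lit 76) (nat_lit 4985523918) (nat_lit 258) (nat_lit 5) (nat_lit 267) (nat_lit 5) (nat_lit 259) (nat_lit 5) (nat_lit 634) (nat_lit 576) (nat_lit 350)) (XT.lf (nat_lit 0) (nat_lit 13388941749) (nat_lit 532) (nat_lit 9097924564) (nat_lit 608) (nat_lit 1064605452) (nat_lit 251) (nat_lit 5) (nat_lit 258) (nat_lit 5) (nat_lit 259) (nat_lit 5) (nat_lit 635) (nat_lit 576) (nat_lit 349)))) (XT.nd (nat_lit 78) (nat_lit 532) (nat_lit 0) (XT.lf (nat_lit 0) (nat_lit 3001727674) (nat_lit 684) (nat_lit 20510102517) (nat_lit 76) (nat_lit 317715745) (nat_lit 242) (nat_lit 5) (nat_lit 251) (nat_lit 5) (nat_lit 243) (nat_lit 5) (nat_lit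 636) (nat_lit 576) (nat_lit 348)) (XT.nd (nat_lit 78) (nat_lit 532) (nat_lit 0) (XT.lf (nat_lit 0) (nat_lit 7259691926) (nat_lit 684) (nat_lit 6976446674) (nat_lit 76) (nat_lit 9874411544) (nat_lit 242) (nat_lit 5) (nat_lit 251) (nat_lit 5) (nat_lit 243) (nat_lit 5) (nat_lit 637) (nat_lit 576) (nat_lit 347)) (XT.lf (nat_lit 0) (nat_lit 6912970722) (nat_lit 532) (nat_lit 4730461170) (nat_lit 608) (nat_lit 12752930693) (nat_lit 235) (nat_lit 5) (nat_lit 242) (nat_lit 5) (nat_lit 243) (nat_lit 5) (nat_lit 638) (nat_lit 576) (nat_lit 346)))))) (XT.nd (nat_lit 468) (nat_lit 1976) (nat_lit 0) (XT.nd (nat_lit 234) (nat_lit 532) (nat_lit 0) (XT.nd (nat_lit 78) (nat_lit 1140) (nat_lit 0) (XT.lf (nat_lit 0) (nat_lit 16189982507) (nat_lit 608) (nat_lit 3550375191) (nat_lit 76) (nat_lit 4946031327) (nat_lit 235) (nat_lit 5) (nat_lit 243) (nat_lit 5) (nat_lit 236) (nat_lit 5) (nat_lit 639) (nat_lit 576) (nat_lit 345)) (XT.nd (nat_lit 78) (nat_lit 608) (nat_lit 0) (XT.lf (nat_lit 0)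 (nat_lit 10765661953) (nat_lit 532) (nat_lit 10158882425) (nat_lit 608) (nat_lit 4055730468) (nat_lit 228) (nat_lit 5) (nat_lit 235) (nat_lit 5) (nat_lit 236) (nat_lit 5) (nat_lit 640) (nat_lit 576) (nat_lit 344)) (XT.lf (nat_lit 0) (nat_lit 129524258) (nat_lit 532) (nat_lit 358718075) (nat_lit 608) (nat_lit 24791321039) (nat_lit 220) (nat_lit 5) (nat_lit 227) (nat_lit 5) (nat_lit 228) (nat_lit 5) (nat_lit 641) (nat_lit 576) (nat_lit 343)))) (XT.nd (nat_lit 78) (nat_lit 532) (nat_lit 0) (XT.lf (nat_lit 0) (nat_lit 5223340274) (nat_lit 608) (nat_lit 10725328049) (nat_lit 76) (nat_lit 9632542572) (nat_lit 220) (nat_lit 5) (nat_lit 228) (nat_lit 5) (nat_lit 221) (nat_lit 5) (nat_lit 642) (nat_lit 576) (nat_lit 342)) (XT.nd (nat_lit 78) (nat_lit 0) (nat_lit 0) (XT.lf (nat_lit 0) (nat_lit 4032941887) (nat_lit 532) (nat_lit 6044747840) (nat_lit 608) (nat_lit 15810711073) (nat_lit 213) (nat_lit 5) (nat_lit 220) (nat_lit 5) (nat_lit 221) (nat_lit 5) (nat_lit 643) (nat_lit 576)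 (nat_lit 341)) (XT.lf (nat_lit 0) (nat_lit 15123941238) (nat_lit 608) (nat_lit 7000839155) (nat_lit 76) (nat_lit 4075058225) (nat_lit 213) (nat_lit 5) (nat_lit 221) (nat_lit 5) (nat_lit 214) (nat_lit 5) (nat_lit 644) (nat_lit 576) (nat_lit 340))))) (XT.nd (nat_lit 234) (nat_lit 912) (nat_lit 0) (XT.nd (nat_lit 78) (nat_lit 608) (nat_lit 0) (XT.lf (nat_lit 0) (nat_lit 8213179504) (nat_lit 456) (nat_lit 12147396561) (nat_lit 532) (nat_lit 6155140366) (nat_lit 207) (nat_lit 5) (nat_lit 213) (nat_lit 5) (nat_lit 214) (nat_lit 5) (nat_lit 645) (nat_lit 576) (nat_lit 339)) (XT.nd (nat_lit 78) (nat_lit 608) (nat_lit 0) (XT.lf (nat_lit 0) (nat_lit 23821032767) (nat_lit 456) (nat_lit 1924033320) (nat_lit 532) (nat_lit 1091983664) (nat_lit 207) (nat_lit 5) (nat_lit 213) (nat_lit 5) (nat_lit 214) (nat_lit 5) (nat_lit 646) (nat_lit 576) (nat_lit 338)) (XT.lf (nat_lit 0) (nat_lit 4153672757) (nat_lit 608) (nat_lit 14507419103) (nat_lit 76) (nat_lit 8500496495) (nat_lit 199) (nat_lit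 5) (nat_lit 207) (nat_lit 5) (nat_lit 200) (nat_lit 5) (nat_lit 647) (nat_lit 576) (nat_lit 337)))) (XT.nd (nat_lit 156) (nat_lit 456) (nat_lit 0) (XT.nd (nat_lit 78) (nat_lit 0) (nat_lit 0) (XT.lf (nat_lit 0) (nat_lit 1176429193) (nat_lit 456) (nat_lit 8350182545) (nat_lit 532) (nat_lit 17965122187) (nat_lit 193) (nat_lit 5) (nat_lit 199) (nat_lit 5) (nat_lit 200) (nat_lit 5) (nat_lit 648) (nat_lit 576) (nat_lit 336)) (XT.lf (nat_lit 0) (nat_lit 15115329753) (nat_lit 532) (nat_lit 10475994394) (nat_lit 76) (nat_lit 2234992222) (nat_lit 193) (nat_lit 5) (nat_lit 200) (nat_lit 5) (nat_lit 194) (nat_lit 5) (nat_lit 649) (nat_lit 576) (nat_lit 335))) (XT.nd (nat_lit 78) (nat_lit 0) (nat_lit 0) (XT.lf (nat_lit 0) (nat_lit 5694237390) (nat_lit 456) (nat_lit 15210182053) (nat_lit 532) (nat_lit 7261399434) (nat_lit 187) (nat_lit 5) (nat_lit 193) (nat_lit 5) (nat_lit 194) (nat_lit 5) (nat_lit 650) (nat_lit 576) (nat_lit 334)) (XT.lf (nat_lit 0) (nat_lit 22324666704) (nat_lit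 456) (nat_lit 4551289161) (nat_lit 532) (nat_lit 1634822625) (nat_lit 187) (nat_lit 5) (nat_lit 193) (nat_lit 5) (nat_lit 194) (nat_lit 5) (nat_lit 651) (nat_lit 576) (nat_lit 333))))))) (XT.nd (nat_lit 75894) (nat_lit 0) (nat_lit 22876) (XT.nd (nat_lit 75426) (nat_lit 0) (nat_lit 22724) (XT.nd (nat_lit 234) (nat_lit 380) (nat_lit 0) (XT.nd (nat_lit 78) (nat_lit 456) (nat_lit 0) (XT.lf (nat_lit 0) (nat_lit 4156904631) (nat_lit 532) (nat_lit 18371083946) (nat_lit 76) (nat_lit 6331987157) (nat_lit 180) (nat_lit 5) (nat_lit 187) (nat_lit 5) (nat_lit 181) (nat_lit 5) (nat_lit 652) (nat_lit 576) (nat_lit 332)) (XT.nd (nat_lit 78) (nat_lit 456) (nat_lit 0) (XT.lf (nat_lit 0) (nat_lit 10110964267) (nat_lit 532) (nat_lit 1680504385) (nat_lit 76) (nat_lit 17423104720) (nat_lit 180) (nat_lit 5) (nat_lit 187) (nat_lit 5) (nat_lit 181) (nat_lit 5) (nat_lit 653) (nat_lit 576) (nat_lit 331)) (XT.lf (nat_lit 0) (nat_lit 15542648088) (nat_lit 456) (nat_lit 738879675) (nat_lit 532) (nat_lit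 13292787073) (nat_lit 174) (nat_lit 5) (nat_lit 180) (nat_lit 5) (nat_lit 181) (nat_lit 5) (nat_lit 654) (nat_lit 576) (nat_lit 330)))) (XT.nd (nat_lit 78) (nat_lit 0) (nat_lit 0) (XT.lf (nat_lit 0) (nat_lit 3159877806) (nat_lit 380) (nat_lit 19512425941) (nat_lit 456) (nat_lit 7267011679) (nat_lit 169) (nat_lit 5) (nat_lit 174) (nat_lit 5) (nat_lit 175) (nat_lit 5) (nat_lit 655) (nat_lit 576) (nat_lit 329)) (XT.nd (nat_lit 75036) (nat_lit 0) (nat_lit 24396) (XT.lf (nat_lit 0) (nat_lit 20875422603) (nat_lit 380) (nat_lit 8411063345) (nat_lit 456) (nat_lit 1023218579) (nat_lit 169) (nat_lit 5) (nat_lit 174) (nat_lit 5) (nat_lit 175) (nat_lit 5) (nat_lit 656) (nat_lit 576) (nat_lit 328)) (XT.lf (nat_lit 0) (nat_lit 5747739907) (nat_lit 1748) (nat_lit 338249665) (nat_lit 1748) (nat_lit 338249665) (nat_lit 490) (nat_lit 3) (nat_lit 513) (nat_lit 3) (nat_lit 513) (nat_lit 5) (nat_lit 577) (nat_lit 577) (nat_lit 406))))) (XT.nd (nat_lit 234) (nat_lit 0) (nat_lit 0) (XT.nd (nat_lit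 78) (nat_lit 1672) (nat_lit 0) (XT.lf (nat_lit 76) (nat_lit 5697542371) (nat_lit 0) (nat_lit 6356403389) (nat_lit 1748) (nat_lit 914081449) (nat_lit 491) (nat_lit 5) (nat_lit 490) (nat_lit 3) (nat_lit 513) (nat_lit 5) (nat_lit 578) (nat_lit 577) (nat_lit 405)) (XT.nd (nat_lit 78) (nat_lit 1672) (nat_lit 0) (XT.lf (nat_lit 76) (nat_lit 12202723687) (nat_lit 0) (nat_lit 414698083) (nat_lit 1748) (nat_lit 472670059) (nat_lit 491) (nat_lit 5) (nat_lit 490) (nat_lit 3) (nat_lit 513) (nat_lit 5) (nat_lit 579) (nat_lit 577) (nat_lit 404)) (XT.lf (nat_lit 0) (nat_lit 41196978) (nat_lit 1748) (nat_lit 7558335574) (nat_lit 1824) (nat_lit 5613803098) (nat_lit 468) (nat_lit 5) (nat_lit 491) (nat_lit 5) (nat_lit 492) (nat_lit 5) (nat_lit 580) (nat_lit 577) (nat_lit 403)))) (XT.nd (nat_lit 78) (nat_lit 0) (nat_lit 76) (XT.lf (nat_lit 0) (nat_lit 557401418) (nat_lit 1748) (nat_lit 1010347019) (nat_lit 1824) (nat_lit 11771267269) (nat_lit 468) (nat_lit 5) (nat_lit 491) (nat_lit 5) (nat_lit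 492) (nat_lit 5) (nat_lit 581) (nat_lit 577) (nat_lit 402)) (XT.nd (nat_lit 78) (nat_lit 0) (nat_lit 0) (XT.lf (nat_lit 0) (nat_lit 1141074870) (nat_lit 1748) (nat_lit 7758489728) (nat_lit 1824) (nat_lit 4566503460) (nat_lit 469) (nat_lit 5) (nat_lit 492) (nat_lit 5) (nat_lit 493) (nat_lit 5) (nat_lit 582) (nat_lit 577) (nat_lit 401)) (XT.lf (nat_lit 0) (nat_lit 1743666140) (nat_lit 1748) (nat_lit 1038225458) (nat_lit 1824) (nat_lit 10813626538) (nat_lit 469) (nat_lit 5) (nat_lit 492) (nat_lit 5) (nat_lit 493) (nat_lit 5) (nat_lit 583) (nat_lit 577) (nat_lit 400)))))) (XT.nd (nat_lit 468) (nat_lit 0) (nat_lit 152) (XT.nd (nat_lit 234) (nat_lit 0) (nat_lit 76) (XT.nd (nat_lit 78) (nat_lit 0) (nat_lit 0) (XT.lf (nat_lit 0) (nat_lit 2409502094) (nat_lit 1748) (nat_lit 7861771546) (nat_lit 1824) (nat_lit 3455261251) (nat_lit 470) (nat_lit 5) (nat_lit 493) (nat_lit 5) (nat_lit 494) (nat_lit 5) (nat_lit 584) (nat_lit 577) (nat_lit 399)) (XT.nd (nat_lit 78) (nat_lit 0) (nat_lit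 76) (XT.lf (nat_lit 0) (nat_lit 3104503673) (nat_lit 1748) (nat_lit 964513917) (nat_lit 1824) (nat_lit 9790838915) (nat_lit 470) (nat_lit 5) (nat_lit 493) (nat_lit 5) (nat_lit 494) (nat_lit 5) (nat_lit 585) (nat_lit 577) (nat_lit 398)) (XT.lf (nat_lit 0) (nat_lit 3858850095) (nat_lit 1748) (nat_lit 7864672953) (nat_lit 1824) (nat_lit 2271414082) (nat_lit 471) (nat_lit 5) (nat_lit 494) (nat_lit 5) (nat_lit 495) (nat_lit 5) (nat_lit 586) (nat_lit 577) (nat_lit 397)))) (XT.nd (nat_lit 78) (nat_lit 0) (nat_lit 76) (XT.lf (nat_lit 0) (nat_lit 4652516224) (nat_lit 1748) (nat_lit 785520805) (nat_lit 1824) (nat_lit 8694199127) (nat_lit 471) (nat_lit 5) (nat_lit 494) (nat_lit 5) (nat_lit 495) (nat_lit 5) (nat_lit 587) (nat_lit 577) (nat_lit 396)) (XT.nd (nat_lit 78) (nat_lit 0) (nat_lit 0) (XT.lf (nat_lit 0) (nat_lit 5501924945) (nat_lit 1748) (nat_lit 7763415755) (nat_lit 1824) (nat_lit 1006144495) (nat_lit 472) (nat_lit 5) (nat_lit 495) (nat_lit 5) (nat_lit 496) (nat_lit 5)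 (nat_lit 588) (nat_lit 577) (nat_lit 395)) (XT.lf (nat_lit 0) (nat_lit 6400752833) (nat_lit 1748) (nat_lit 497280360) (nat_lit 1824) (nat_lit 7514838789) (nat_lit 472) (nat_lit 5) (nat_lit 495) (nat_lit 5) (nat_lit 496) (nat_lit 5) (nat_lit 589) (nat_lit 577) (nat_lit 394))))) (XT.nd (nat_lit 234) (nat_lit 0) (nat_lit 152) (XT.nd (nat_lit 78) (nat_lit 0) (nat_lit 76) (XT.lf (nat_lit 76) (nat_lit 7000105379) (nat_lit 0) (nat_lit 354186851) (nat_lit 1824) (nat_lit 7202060938) (nat_lit 473) (nat_lit 5) (nat_lit 472) (nat_lit 5) (nat_lit 496) (nat_lit 5) (nat_lit 590) (nat_lit 577) (nat_lit 393)) (XT.nd (nat_lit 78) (nat_lit 0) (nat_lit 0) (XT.lf (nat_lit 0) (nat_lit 8362735000) (nat_lit 1748) (nat_lit 95548927) (nat_lit 1824) (nat_lit 6243704732) (nat_lit 473) (nat_lit 5) (nat_lit 496) (nat_lit 5) (nat_lit 497) (nat_lit 5) (nat_lit 591) (nat_lit 577) (nat_lit 392)) (XT.lf (nat_lit 76) (nat_lit 7605856683) (nat_lit 0) (nat_lit 1828822092) (nat_lit 1824) (nat_lit 5414992754)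 (nat_lit 474) (nat_lit 5) (nat_lit 473) (nat_lit 5) (nat_lit 497) (nat_lit 5) (nat_lit 592) (nat_lit 577) (nat_lit 391)))) (XT.nd (nat_lit 156) (nat_lit 0) (nat_lit 76) (XT.nd (nat_lit 78) (nat_lit 0) (nat_lit 0) (XT.lf (nat_lit 76) (nat_lit 429836603) (nat_lit 0) (nat_lit 10125437127) (nat_lit 1824) (nat_lit 4444491360) (nat_lit 475) (nat_lit 5) (nat_lit 474) (nat_lit 5) (nat_lit 498) (nat_lit 5) (nat_lit 593) (nat_lit 577) (nat_lit 390)) (XT.lf (nat_lit 76) (nat_lit 8336863283) (nat_lit 0) (nat_lit 3413927903) (nat_lit 1824) (nat_lit 3401020384) (nat_lit 475) (nat_lit 5) (nat_lit 474) (nat_lit 5) (nat_lit 498) (nat_lit 5) (nat_lit 594) (nat_lit 577) (nat_lit 389))) (XT.nd (nat_lit 78) (nat_lit 0) (nat_lit 0) (XT.lf (nat_lit 76) (nat_lit 1080953431) (nat_lit 0) (nat_lit 11910607374) (nat_lit 1824) (nat_lit 2314912570) (nat_lit 476) (nat_lit 5) (nat_lit 475) (nat_lit 5) (nat_lit 499) (nat_lit 5) (nat_lit 595) (nat_lit 577) (nat_lit 388)) (XT.lf (nat_lit 76) (nat_lit 9198208917)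 (nat_lit 0) (nat_lit 5119287660) (nat_lit 1824) (nat_lit 1145526034) (nat_lit 476) (nat_lit 5) (nat_lit 475) (nat_lit 5) (nat_lit 499) (nat_lit 5) (nat_lit 596) (nat_lit 577) (nat_lit 387))))))))
noncomputable def xc204 : XT := (XT.nd (nat_lit 1950) (nat_lit 8664) (nat_lit 0) (XT.nd (nat_lit 936) (nat_lit 6460) (nat_lit 0) (XT.nd (nat_lit 468) (nat_lit 3496) (nat_lit 0) (XT.nd (nat_lit 234) (nat_lit 0) (nat_lit 76) (XT.nd (nat_lit 78) (nat_lit 0) (nat_lit 0) (XT.lf (nat_lit 0) (nat_lit 62883649) (nat_lit 1824) (nat_lit 13761090863) (nat_lit 1900) (nat_lit 1798398243) (nat_lit 452) (nat_lit 5) (nat_lit 476) (nat_lit 5) (nat_lit 477) (nat_lit 5) (nat_lit 597) (nat_lit 577) (nat_lit 386)) (XT.nd (nat_lit 78) (nat_lit 0) (nat_lit 76) (XT.lf (nat_lit 0) (nat_lit 1348742560) (nat_lit 1824) (nat_lit 5597159664) (nat_lit 1900) (nat_lit 8837484988) (nat_lit 452) (nat_lit 5) (nat_lit 476) (nat_lit 5) (nat_lit 477) (nat_lit 5) (nat_lit 598) (nat_lit 577) (nat_lit 385)) (XT.lf (nat_lit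 0) (nat_lit 2671354117) (nat_lit 1824) (nat_lit 13187767179) (nat_lit 1900) (nat_lit 88281068) (nat_lit 453) (nat_lit 5) (nat_lit 477) (nat_lit 5) (nat_lit 478) (nat_lit 5) (nat_lit 599) (nat_lit 577) (nat_lit 384)))) (XT.nd (nat_lit 78) (nat_lit 0) (nat_lit 0) (XT.lf (nat_lit 0) (nat_lit 4096875811) (nat_lit 1824) (nat_lit 4806898828) (nat_lit 1900) (nat_lit 7209395118) (nat_lit 453) (nat_lit 5) (nat_lit 477) (nat_lit 5) (nat_lit 478) (nat_lit 5) (nat_lit 600) (nat_lit 577) (nat_lit 383)) (XT.nd (nat_lit 78) (nat_lit 0) (nat_lit 76) (XT.lf (nat_lit 76) (nat_lit 3785209994) (nat_lit 0) (nat_lit 1783068082) (nat_lit 1900) (nat_lit 10713628092) (nat_lit 454) (nat_lit 5) (nat_lit 453) (nat_lit 5) (nat_lit 478) (nat_lit 5) (nat_lit 601) (nat_lit 577) (nat_lit 382)) (XT.lf (nat_lit 0) (nat_lit 7130062759) (nat_lit 1824) (nat_lit 3880977563) (nat_lit 76) (nat_lit 5441758951) (nat_lit 454) (nat_lit 5) (nat_lit 478) (nat_lit 5) (nat_lit 455) (nat_lit 5) (nat_lit 602) (nat_lit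 577) (nat_lit 381))))) (XT.nd (nat_lit 234) (nat_lit 988) (nat_lit 0) (XT.nd (nat_lit 78) (nat_lit 988) (nat_lit 0) (XT.lf (nat_lit 0) (nat_lit 4954211209) (nat_lit 1672) (nat_lit 3805889281) (nat_lit 1748) (nat_lit 7866270433) (nat_lit 432) (nat_lit 5) (nat_lit 454) (nat_lit 5) (nat_lit 455) (nat_lit 5) (nat_lit 603) (nat_lit 577) (nat_lit 380)) (XT.nd (nat_lit 78) (nat_lit 988) (nat_lit 0) (XT.lf (nat_lit 0) (nat_lit 10465107066) (nat_lit 1748) (nat_lit 2813475657) (nat_lit 76) (nat_lit 3523984935) (nat_lit 432) (nat_lit 5) (nat_lit 455) (nat_lit 5) (nat_lit 433) (nat_lit 5) (nat_lit 604) (nat_lit 577) (nat_lit 379)) (XT.lf (nat_lit 0) (nat_lit 6273459379) (nat_lit 988) (nat_lit 5989971142) (nat_lit 1064) (nat_lit 4717674462) (nat_lit 419) (nat_lit 5) (nat_lit 432) (nat_lit 5) (nat_lit 433) (nat_lit 5) (nat_lit 605) (nat_lit 577) (nat_lit 378)))) (XT.nd (nat_lit 78) (nat_lit 988) (nat_lit 0) (XT.lf (nat_lit 0) (nat_lit 14119481620) (nat_lit 1064) (nat_lit 1598162143)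 (nat_lit 76) (nat_lit 1445135042) (nat_lit 419) (nat_lit 5) (nat_lit 433) (nat_lit 5) (nat_lit 420) (nat_lit 5) (nat_lit 606) (nat_lit 577) (nat_lit 377)) (XT.nd (nat_lit 78) (nat_lit 76) (nat_lit 0) (XT.lf (nat_lit 0) (nat_lit 7749503847) (nat_lit 912) (nat_lit 8346641488) (nat_lit 988) (nat_lit 1250271889) (nat_lit 407) (nat_lit 5) (nat_lit 419) (nat_lit 5) (nat_lit 420) (nat_lit 5) (nat_lit 607) (nat_lit 577) (nat_lit 376)) (XT.lf (nat_lit 0) (nat_lit 575374243) (nat_lit 988) (nat_lit 237576900) (nat_lit 76) (nat_lit 16720616070) (nat_lit 406) (nat_lit 5) (nat_lit 419) (nat_lit 5) (nat_lit 407) (nat_lit 5) (nat_lit 608) (nat_lit 577) (nat_lit 375)))))) (XT.nd (nat_lit 468) (nat_lit 3116) (nat_lit 0) (XT.nd (nat_lit 234) (nat_lit 1596) (nat_lit 0) (XT.nd (nat_lit 78) (nat_lit 836) (nat_lit 0) (XT.lf (nat_lit 0) (nat_lit 2520713661) (nat_lit 988) (nat_lit 8349990121) (nat_lit 76) (nat_lit 6851593601) (nat_lit 394) (nat_lit 5) (nat_lit 407) (nat_lit 5) (nat_lit 395) (nat_lit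 5) (nat_lit 609) (nat_lit 577) (nat_lit 374)) (XT.nd (nat_lit 78) (nat_lit 0) (nat_lit 0) (XT.lf (nat_lit 0) (nat_lit 1268083126) (nat_lit 836) (nat_lit 3245866656) (nat_lit 912) (nat_lit 13400673459) (nat_lit 383) (nat_lit 5) (nat_lit 394) (nat_lit 5) (nat_lit 395) (nat_lit 5) (nat_lit 610) (nat_lit 577) (nat_lit 373)) (XT.lf (nat_lit 0) (nat_lit 6626728701) (nat_lit 912) (nat_lit 6953841769) (nat_lit 76) (nat_lit 4528632447) (nat_lit 383) (nat_lit 5) (nat_lit 395) (nat_lit 5) (nat_lit 384) (nat_lit 5) (nat_lit 611) (nat_lit 577) (nat_lit 372)))) (XT.nd (nat_lit 78) (nat_lit 760) (nat_lit 0) (XT.lf (nat_lit 0) (nat_lit 2943864645) (nat_lit 836) (nat_lit 5872481288) (nat_lit 912) (nat_lit 9490637446) (nat_lit 372) (nat_lit 5) (nat_lit 383) (nat_lit 5) (nat_lit 384) (nat_lit 5) (nat_lit 612) (nat_lit 577) (nat_lit 371)) (XT.nd (nat_lit 78) (nat_lit 760) (nat_lit 0) (XT.lf (nat_lit 0) (nat_lit 11103700699) (nat_lit 912) (nat_lit 5393267903) (nat_lit 76) (nat_lit 2010672773)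 (nat_lit 372) (nat_lit 5) (nat_lit 384) (nat_lit 5) (nat_lit 373) (nat_lit 5) (nat_lit 613) (nat_lit 577) (nat_lit 370)) (XT.lf (nat_lit 0) (nat_lit 4794042361) (nat_lit 760) (nat_lit 8706946820) (nat_lit 836) (nat_lit 5210040432) (nat_lit 362) (nat_lit 5) (nat_lit 372) (nat_lit 5) (nat_lit 373) (nat_lit 5) (nat_lit 614) (nat_lit 577) (nat_lit 369))))) (XT.nd (nat_lit 234) (nat_lit 2204) (nat_lit 0) (XT.nd (nat_lit 78) (nat_lit 912) (nat_lit 0) (XT.lf (nat_lit 0) (nat_lit 15252323251) (nat_lit 760) (nat_lit 724337884) (nat_lit 836) (nat_lit 2941216525) (nat_lit 362) (nat_lit 5) (nat_lit 372) (nat_lit 5) (nat_lit 373) (nat_lit 5) (nat_lit 615) (nat_lit 577) (nat_lit 368)) (XT.nd (nat_lit 78) (nat_lit 76) (nat_lit 0) (XT.lf (nat_lit 0) (nat_lit 6826394217) (nat_lit 836) (nat_lit 11762293906) (nat_lit 912) (nat_lit 538438494) (nat_lit 351) (nat_lit 5) (nat_lit 362) (nat_lit 5) (nat_lit 363) (nat_lit 5) (nat_lit 616) (nat_lit 577) (nat_lit 367)) (XT.lf (nat_lit 0) (nat_lit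 1911264427) (nat_lit 912) (nat_lit 1785492366) (nat_lit 76) (nat_lit 15643077166) (nat_lit 350) (nat_lit 5) (nat_lit 362) (nat_lit 5) (nat_lit 351) (nat_lit 5) (nat_lit 617) (nat_lit 577) (nat_lit 366)))) (XT.nd (nat_lit 156) (nat_lit 684) (nat_lit 0) (XT.nd (nat_lit 78) (nat_lit 760) (nat_lit 0) (XT.lf (nat_lit 0) (nat_lit 4485839107) (nat_lit 836) (nat_lit 10536112802) (nat_lit 76) (nat_lit 4533111347) (nat_lit 340) (nat_lit 5) (nat_lit 351) (nat_lit 5) (nat_lit 341) (nat_lit 5) (nat_lit 618) (nat_lit 577) (nat_lit 365)) (XT.lf (nat_lit 0) (nat_lit 262337204) (nat_lit 760) (nat_lit 6882385345) (nat_lit 836) (nat_lit 12629218967) (nat_lit 330) (nat_lit 5) (nat_lit 340) (nat_lit 5) (nat_lit 341) (nat_lit 5) (nat_lit 619) (nat_lit 577) (nat_lit 364))) (XT.nd (nat_lit 78) (nat_lit 684) (nat_lit 0) (XT.lf (nat_lit 0) (nat_lit 9931810912) (nat_lit 836) (nat_lit 8591830823) (nat_lit 76) (nat_lit 1472055769) (nat_lit 330) (nat_lit 5) (nat_lit 341) (nat_lit 5) (nat_lit 331)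 (nat_lit 5) (nat_lit 620) (nat_lit 577) (nat_lit 363)) (XT.lf (nat_lit 0) (nat_lit 2528096356) (nat_lit 684) (nat_lit 10303279393) (nat_lit 760) (nat_lit 7389378863) (nat_lit 321) (nat_lit 5) (nat_lit 330) (nat_lit 5) (nat_lit 331) (nat_lit 5) (nat_lit 621) (nat_lit 577) (nat_lit 362))))))) (XT.nd (nat_lit 936) (nat_lit 4484) (nat_lit 0) (XT.nd (nat_lit 468) (nat_lit 1976) (nat_lit 0) (XT.nd (nat_lit 234) (nat_lit 1368) (nat_lit 0) (XT.nd (nat_lit 78) (nat_lit 836) (nat_lit 0) (XT.lf (nat_lit 0) (nat_lit 13981105388) (nat_lit 684) (nat_lit 1860289684) (nat_lit 760) (nat_lit 4607869208) (nat_lit 321) (nat_lit 5) (nat_lit 330) (nat_lit 5) (nat_lit 331) (nat_lit 5) (nat_lit 622) (nat_lit 577) (nat_lit 361)) (XT.nd (nat_lit 78) (nat_lit 76) (nat_lit 0) (XT.lf (nat_lit 0) (nat_lit 4996761684) (nat_lit 760) (nat_lit 13986036541) (nat_lit 836) (nat_lit 1698122914) (nat_lit 311) (nat_lit 5) (nat_lit 321) (nat_lit 5) (nat_lit 322) (nat_lit 5) (nat_lit 623) (nat_lit 577) (nat_lit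 360)) (XT.lf (nat_lit 0) (nat_lit 1304110685) (nat_lit 836) (nat_lit 4164333143) (nat_lit 76) (nat_lit 15447584133) (nat_lit 310) (nat_lit 5) (nat_lit 321) (nat_lit 5) (nat_lit 311) (nat_lit 5) (nat_lit 624) (nat_lit 577) (nat_lit 359)))) (XT.nd (nat_lit 78) (nat_lit 684) (nat_lit 0) (XT.lf (nat_lit 0) (nat_lit 4409804477) (nat_lit 760) (nat_lit 13506470385) (nat_lit 76) (nat_lit 3238015128) (nat_lit 301) (nat_lit 5) (nat_lit 311) (nat_lit 5) (nat_lit 302) (nat_lit 5) (nat_lit 625) (nat_lit 577) (nat_lit 358)) (XT.nd (nat_lit 78) (nat_lit 684) (nat_lit 0) (XT.lf (nat_lit 0) (nat_lit 7637046464) (nat_lit 760) (nat_lit 1686233745) (nat_lit 76) (nat_lit 12072848980) (nat_lit 301) (nat_lit 5) (nat_lit 311) (nat_lit 5) (nat_lit 302) (nat_lit 5) (nat_lit 626) (nat_lit 577) (nat_lit 357)) (XT.lf (nat_lit 0) (nat_lit 10502523145) (nat_lit 684) (nat_lit 489685301) (nat_lit 760) (nat_lit 10649329827) (nat_lit 292) (nat_lit 5) (nat_lit 301) (nat_lit 5) (nat_lit 302) (nat_lit 5)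 (nat_lit 627) (nat_lit 577) (nat_lit 356))))) (XT.nd (nat_lit 234) (nat_lit 684) (nat_lit 0) (XT.nd (nat_lit 78) (nat_lit 684) (nat_lit 0) (XT.lf (nat_lit 0) (nat_lit 1018565510) (nat_lit 608) (nat_lit 13464471580) (nat_lit 684) (nat_lit 7407447774) (nat_lit 284) (nat_lit 5) (nat_lit 292) (nat_lit 5) (nat_lit 293) (nat_lit 5) (nat_lit 628) (nat_lit 577) (nat_lit 355)) (XT.nd (nat_lit 78) (nat_lit 684) (nat_lit 0) (XT.lf (nat_lit 0) (nat_lit 13561361126) (nat_lit 608) (nat_lit 4555586673) (nat_lit 684) (nat_lit 4025997858) (nat_lit 284) (nat_lit 5) (nat_lit 292) (nat_lit 5) (nat_lit 293) (nat_lit 5) (nat_lit 629) (nat_lit 577) (nat_lit 354)) (XT.lf (nat_lit 0) (nat_lit 3971604874) (nat_lit 684) (nat_lit 17902520991) (nat_lit 760) (nat_lit 525318588) (nat_lit 275) (nat_lit 5) (nat_lit 284) (nat_lit 5) (nat_lit 285) (nat_lit 5) (nat_lit 630) (nat_lit 577) (nat_lit 353)))) (XT.nd (nat_lit 78) (nat_lit 608) (nat_lit 0) (XT.lf (nat_lit 0) (nat_lit 3088976445) (nat_lit 760)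 (nat_lit 5823704909) (nat_lit 76) (nat_lit 13746326110) (nat_lit 274) (nat_lit 5) (nat_lit 284) (nat_lit 5) (nat_lit 275) (nat_lit 5) (nat_lit 631) (nat_lit 577) (nat_lit 352)) (XT.nd (nat_lit 78) (nat_lit 0) (nat_lit 0) (XT.lf (nat_lit 0) (nat_lit 6812223013) (nat_lit 684) (nat_lit 15808010254) (nat_lit 76) (nat_lit 302585566) (nat_lit 266) (nat_lit 5) (nat_lit 275) (nat_lit 5) (nat_lit 267) (nat_lit 5) (nat_lit 632) (nat_lit 577) (nat_lit 351)) (XT.lf (nat_lit 0) (nat_lit 10703838826) (nat_lit 684) (nat_lit 2864953271) (nat_lit 76) (nat_lit 9621236771) (nat_lit 266) (nat_lit 5) (nat_lit 275) (nat_lit 5) (nat_lit 267) (nat_lit 5) (nat_lit 633) (nat_lit 577) (nat_lit 350)))))) (XT.nd (nat_lit 468) (nat_lit 2128) (nat_lit 0) (XT.nd (nat_lit 234) (nat_lit 1216) (nat_lit 0) (XT.nd (nat_lit 78) (nat_lit 532) (nat_lit 0) (XT.lf (nat_lit 0) (nat_lit 10468794932) (nat_lit 608) (nat_lit 4268090815) (nat_lit 684) (nat_lit 8724425898) (nat_lit 258) (nat_lit 5) (nat_lit 266) (nat_lit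 5) (nat_lit 267) (nat_lit 5) (nat_lit 634) (nat_lit 577) (nat_lit 349)) (XT.nd (nat_lit 78) (nat_lit 0) (nat_lit 0) (XT.lf (nat_lit 0) (nat_lit 335291276) (nat_lit 532) (nat_lit 18566386341) (nat_lit 608) (nat_lit 4835321285) (nat_lit 251) (nat_lit 5) (nat_lit 258) (nat_lit 5) (nat_lit 259) (nat_lit 5) (nat_lit 635) (nat_lit 577) (nat_lit 348)) (XT.lf (nat_lit 0) (nat_lit 14071653787) (nat_lit 532) (nat_lit 9189098657) (nat_lit 608) (nat_lit 755228215) (nat_lit 251) (nat_lit 5) (nat_lit 258) (nat_lit 5) (nat_lit 259) (nat_lit 5) (nat_lit 636) (nat_lit 577) (nat_lit 347)))) (XT.nd (nat_lit 78) (nat_lit 532) (nat_lit 0) (XT.lf (nat_lit 0) (nat_lit 3385010340) (nat_lit 684) (nat_lit 20497877195) (nat_lit 76) (nat_lit 416748250) (nat_lit 242) (nat_lit 5) (nat_lit 251) (nat_lit 5) (nat_lit 243) (nat_lit 5) (nat_lit 637) (nat_lit 577) (nat_lit 346)) (XT.nd (nat_lit 78) (nat_lit 532) (nat_lit 0) (XT.lf (nat_lit 0) (nat_lit 7721795679) (nat_lit 684) (nat_lit 6701831125) (nat_lit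 76) (nat_lit 10162760746) (nat_lit 242) (nat_lit 5) (nat_lit 251) (nat_lit 5) (nat_lit 243) (nat_lit 5) (nat_lit 638) (nat_lit 577) (nat_lit 345)) (XT.lf (nat_lit 0) (nat_lit 7462649984) (nat_lit 532) (nat_lit 4727017750) (nat_lit 608) (nat_lit 12688320053) (nat_lit 235) (nat_lit 5) (nat_lit 242) (nat_lit 5) (nat_lit 243) (nat_lit 5) (nat_lit 639) (nat_lit 577) (nat_lit 344))))) (XT.nd (nat_lit 234) (nat_lit 988) (nat_lit 0) (XT.nd (nat_lit 78) (nat_lit 1140) (nat_lit 0) (XT.lf (nat_lit 0) (nat_lit 16821629046) (nat_lit 608) (nat_lit 3212475563) (nat_lit 76) (nat_lit 5139821233) (nat_lit 235) (nat_lit 5) (nat_lit 243) (nat_lit 5) (nat_lit 236) (nat_lit 5) (nat_lit 640) (nat_lit 577) (nat_lit 343)) (XT.nd (nat_lit 78) (nat_lit 608) (nat_lit 0) (XT.lf (nat_lit 0) (nat_lit 11387192145) (nat_lit 532) (nat_lit 10260291227) (nat_lit 608) (nat_lit 3826274652) (nat_lit 228) (nat_lit 5) (nat_lit 235) (nat_lit 5) (nat_lit 236) (nat_lit 5) (nat_lit 641) (nat_lit 577) (nat_lit 342))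 (XT.lf (nat_lit 0) (nat_lit 539738095) (nat_lit 532) (nat_lit 261403135) (nat_lit 608) (nat_lit 24977918667) (nat_lit 220) (nat_lit 5) (nat_lit 227) (nat_lit 5) (nat_lit 228) (nat_lit 5) (nat_lit 642) (nat_lit 577) (nat_lit 341)))) (XT.nd (nat_lit 156) (nat_lit 456) (nat_lit 0) (XT.nd (nat_lit 78) (nat_lit 532) (nat_lit 0) (XT.lf (nat_lit 0) (nat_lit 5625662436) (nat_lit 608) (nat_lit 10534893747) (nat_lit 76) (nat_lit 9926290389) (nat_lit 220) (nat_lit 5) (nat_lit 228) (nat_lit 5) (nat_lit 221) (nat_lit 5) (nat_lit 643) (nat_lit 577) (nat_lit 340)) (XT.lf (nat_lit 0) (nat_lit 4515877504) (nat_lit 532) (nat_lit 6057992922) (nat_lit 608) (nat_lit 15826375035) (nat_lit 213) (nat_lit 5) (nat_lit 220) (nat_lit 5) (nat_lit 221) (nat_lit 5) (nat_lit 644) (nat_lit 577) (nat_lit 339))) (XT.nd (nat_lit 78) (nat_lit 456) (nat_lit 0) (XT.lf (nat_lit 0) (nat_lit 15715955198) (nat_lit 608) (nat_lit 6741344958) (nat_lit 76) (nat_lit 4260714319) (nat_lit 213) (nat_lit 5) (nat_lit 221)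 (nat_lit 5) (nat_lit 214) (nat_lit 5) (nat_lit 645) (nat_lit 577) (nat_lit 338)) (XT.lf (nat_lit 0) (nat_lit 8774325713) (nat_lit 456) (nat_lit 12279896674) (nat_lit 532) (nat_lit 5986050056) (nat_lit 207) (nat_lit 5) (nat_lit 213) (nat_lit 5) (nat_lit 214) (nat_lit 5) (nat_lit 646) (nat_lit 577) (nat_lit 337))))))))
noncomputable def xc205 : XT := (XT.nd (nat_lit 76986) (nat_lit 0) (nat_lit 13832) (XT.nd (nat_lit 75972) (nat_lit 0) (nat_lit 22648) (XT.nd (nat_lit 468) (nat_lit 1368) (nat_lit 0) (XT.nd (nat_lit 234) (nat_lit 456) (nat_lit 0) (XT.nd (nat_lit 78) (nat_lit 1064) (nat_lit 0) (XT.lf (nat_lit 0) (nat_lit 24686554029) (nat_lit 456) (nat_lit 1854231812) (nat_lit 532) (nat_lit 827359497) (nat_lit 207) (nat_lit 5) (nat_lit 213) (nat_lit 5) (nat_lit 214) (nat_lit 5) (nat_lit 647) (nat_lit 577) (nat_lit 336)) (XT.nd (nat_lit 78) (nat_lit 456) (nat_lit 0) (XT.lf (nat_lit 0) (nat_lit 4517161965) (nat_lit 608) (nat_lit 14402362408) (nat_lit 76) (nat_lit 8779659522)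 (nat_lit 199) (nat_lit 5) (nat_lit 207) (nat_lit 5) (nat_lit 200) (nat_lit 5) (nat_lit 648) (nat_lit 577) (nat_lit 335)) (XT.lf (nat_lit 0) (nat_lit 1592562820) (nat_lit 456) (nat_lit 8402047609) (nat_lit 532) (nat_lit 18041381480) (nat_lit 193) (nat_lit 5) (nat_lit 199) (nat_lit 5) (nat_lit 200) (nat_lit 5) (nat_lit 649) (nat_lit 577) (nat_lit 334)))) (XT.nd (nat_lit 78) (nat_lit 456) (nat_lit 0) (XT.lf (nat_lit 0) (nat_lit 15690395184) (nat_lit 532) (nat_lit 10295872928) (nat_lit 76) (nat_lit 2391092579) (nat_lit 193) (nat_lit 5) (nat_lit 200) (nat_lit 5) (nat_lit 194) (nat_lit 5) (nat_lit 650) (nat_lit 577) (nat_lit 333)) (XT.nd (nat_lit 78) (nat_lit 0) (nat_lit 0) (XT.lf (nat_lit 0) (nat_lit 6195200062) (nat_lit 456) (nat_lit 15397231560) (nat_lit 532) (nat_lit 7131278854) (nat_lit 187) (nat_lit 5) (nat_lit 193) (nat_lit 5) (nat_lit 194) (nat_lit 5) (nat_lit 651) (nat_lit 577) (nat_lit 332)) (XT.lf (nat_lit 0) (nat_lit 23150648199) (nat_lit 456) (nat_lit 4527457950)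 (nat_lit 532) (nat_lit 1397569501) (nat_lit 187) (nat_lit 5) (nat_lit 193) (nat_lit 5) (nat_lit 194) (nat_lit 5) (nat_lit 652) (nat_lit 577) (nat_lit 331))))) (XT.nd (nat_lit 234) (nat_lit 380) (nat_lit 0) (XT.nd (nat_lit 78) (nat_lit 456) (nat_lit 0) (XT.lf (nat_lit 0) (nat_lit 4504457680) (nat_lit 532) (nat_lit 18353432778) (nat_lit 76) (nat_lit 6573971708) (nat_lit 180) (nat_lit 5) (nat_lit 187) (nat_lit 5) (nat_lit 181) (nat_lit 5) (nat_lit 653) (nat_lit 577) (nat_lit 330)) (XT.nd (nat_lit 78) (nat_lit 456) (nat_lit 0) (XT.lf (nat_lit 0) (nat_lit 10572413901) (nat_lit 532) (nat_lit 1336592073) (nat_lit 76) (nat_lit 17884649959) (nat_lit 180) (nat_lit 5) (nat_lit 187) (nat_lit 5) (nat_lit 181) (nat_lit 5) (nat_lit 654) (nat_lit 577) (nat_lit 329)) (XT.lf (nat_lit 0) (nat_lit 16228539750) (nat_lit 456) (nat_lit 635200970) (nat_lit 532) (nat_lit 13296904942) (nat_lit 174) (nat_lit 5) (nat_lit 180) (nat_lit 5) (nat_lit 181) (nat_lit 5) (nat_lit 655) (nat_lit 577) (nat_lit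 328)))) (XT.nd (nat_lit 75114) (nat_lit 0) (nat_lit 24396) (XT.lf (nat_lit 0) (nat_lit 3600004218) (nat_lit 380) (nat_lit 19780498266) (nat_lit 456) (nat_lit 7152480841) (nat_lit 169) (nat_lit 5) (nat_lit 174) (nat_lit 5) (nat_lit 175) (nat_lit 5) (nat_lit 656) (nat_lit 577) (nat_lit 327)) (XT.nd (nat_lit 78) (nat_lit 0) (nat_lit 0) (XT.lf (nat_lit 0) (nat_lit 6266574238) (nat_lit 1748) (nat_lit 139003396) (nat_lit 1748) (nat_lit 139003396) (nat_lit 490) (nat_lit 3) (nat_lit 513) (nat_lit 3) (nat_lit 513) (nat_lit 5) (nat_lit 578) (nat_lit 578) (nat_lit 404)) (XT.lf (nat_lit 76) (nat_lit 6220805067) (nat_lit 0) (nat_lit 6868797785) (nat_lit 1748) (nat_lit 121765102) (nat_lit 491) (nat_lit 5) (nat_lit 490) (nat_lit 3) (nat_lit 513) (nat_lit 5) (nat_lit 579) (nat_lit 578) (nat_lit 403)))))) (XT.nd (nat_lit 468) (nat_lit 0) (nat_lit 228) (XT.nd (nat_lit 234) (nat_lit 0) (nat_lit 152) (XT.nd (nat_lit 78) (nat_lit 0) (nat_lit 76) (XT.lf (nat_lit 0) (nat_lit 308480887) (nat_lit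 1748) (nat_lit 490153175) (nat_lit 1824) (nat_lit 12537513330) (nat_lit 467) (nat_lit 5) (nat_lit 490) (nat_lit 3) (nat_lit 491) (nat_lit 5) (nat_lit 580) (nat_lit 578) (nat_lit 402)) (XT.nd (nat_lit 78) (nat_lit 0) (nat_lit 0) (XT.lf (nat_lit 0) (nat_lit 811227183) (nat_lit 1748) (nat_lit 7282474434) (nat_lit 1824) (nat_lit 5368395783) (nat_lit 468) (nat_lit 5) (nat_lit 491) (nat_lit 5) (nat_lit 492) (nat_lit 5) (nat_lit 581) (nat_lit 578) (nat_lit 401)) (XT.lf (nat_lit 0) (nat_lit 1322673236) (nat_lit 1748) (nat_lit 611899202) (nat_lit 1824) (nat_lit 11656022637) (nat_lit 468) (nat_lit 5) (nat_lit 491) (nat_lit 5) (nat_lit 492) (nat_lit 5) (nat_lit 582) (nat_lit 578) (nat_lit 400)))) (XT.nd (nat_lit 78) (nat_lit 0) (nat_lit 0) (XT.lf (nat_lit 0) (nat_lit 1903816221) (nat_lit 1748) (nat_lit 7480684683) (nat_lit 1824) (nat_lit 4335973973) (nat_lit 469) (nat_lit 5) (nat_lit 492) (nat_lit 5) (nat_lit 493) (nat_lit 5) (nat_lit 583) (nat_lit 578) (nat_lit 399)) (XT.nd (nat_lit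 78) (nat_lit 0) (nat_lit 76) (XT.lf (nat_lit 0) (nat_lit 2503951084) (nat_lit 1748) (nat_lit 634504830) (nat_lit 1824) (nat_lit 10714350484) (nat_lit 469) (nat_lit 5) (nat_lit 492) (nat_lit 5) (nat_lit 493) (nat_lit 5) (nat_lit 584) (nat_lit 578) (nat_lit 398)) (XT.lf (nat_lit 0) (nat_lit 3169720534) (nat_lit 1748) (nat_lit 7581026981) (nat_lit 1824) (nat_lit 3235965869) (nat_lit 470) (nat_lit 5) (nat_lit 493) (nat_lit 5) (nat_lit 494) (nat_lit 5) (nat_lit 585) (nat_lit 578) (nat_lit 397))))) (XT.nd (nat_lit 234) (nat_lit 0) (nat_lit 152) (XT.nd (nat_lit 78) (nat_lit 0) (nat_lit 76) (XT.lf (nat_lit 0) (nat_lit 3864660804) (nat_lit 1748) (nat_lit 554412043) (nat_lit 1824) (nat_lit 9703910001) (nat_lit 470) (nat_lit 5) (nat_lit 493) (nat_lit 5) (nat_lit 494) (nat_lit 5) (nat_lit 586) (nat_lit 578) (nat_lit 396)) (XT.nd (nat_lit 78) (nat_lit 0) (nat_lit 0) (XT.lf (nat_lit 0) (nat_lit 4621484252) (nat_lit 1748) (nat_lit 7579857057) (nat_lit 1824) (nat_lit 2059678121) (nat_lit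 471) (nat_lit 5) (nat_lit 494) (nat_lit 5) (nat_lit 495) (nat_lit 5) (nat_lit 587) (nat_lit 578) (nat_lit 395)) (XT.lf (nat_lit 0) (nat_lit 5417583367) (nat_lit 1748) (nat_lit 367790677) (nat_lit 1824) (nat_lit 8615961302) (nat_lit 471) (nat_lit 5) (nat_lit 494) (nat_lit 5) (nat_lit 495) (nat_lit 5) (nat_lit 588) (nat_lit 578) (nat_lit 394)))) (XT.nd (nat_lit 156) (nat_lit 0) (nat_lit 0) (XT.nd (nat_lit 78) (nat_lit 0) (nat_lit 0) (XT.lf (nat_lit 0) (nat_lit 6272099022) (nat_lit 1748) (nat_lit 7473259151) (nat_lit 1824) (nat_lit 798250879) (nat_lit 472) (nat_lit 5) (nat_lit 495) (nat_lit 5) (nat_lit 496) (nat_lit 5) (nat_lit 589) (nat_lit 578) (nat_lit 393)) (XT.lf (nat_lit 0) (nat_lit 7175959633) (nat_lit 1748) (nat_lit 70534870) (nat_lit 1824) (nat_lit 7441589971) (nat_lit 472) (nat_lit 5) (nat_lit 495) (nat_lit 5) (nat_lit 496) (nat_lit 5) (nat_lit 590) (nat_lit 578) (nat_lit 392))) (XT.nd (nat_lit 78) (nat_lit 0) (nat_lit 76) (XT.lf (nat_lit 76) (nat_lit 7573925615)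 (nat_lit 0) (nat_lit 564770803) (nat_lit 1824) (nat_lit 6695938316) (nat_lit 473) (nat_lit 5) (nat_lit 472) (nat_lit 5) (nat_lit 496) (nat_lit 5) (nat_lit 591) (nat_lit 578) (nat_lit 391)) (XT.lf (nat_lit 76) (nat_lit 346282517) (nat_lit 0) (nat_lit 8809482034) (nat_lit 1824) (nat_lit 5827651199) (nat_lit 474) (nat_lit 5) (nat_lit 473) (nat_lit 5) (nat_lit 497) (nat_lit 5) (nat_lit 592) (nat_lit 578) (nat_lit 390))))))) (XT.nd (nat_lit 936) (nat_lit 6156) (nat_lit 0) (XT.nd (nat_lit 468) (nat_lit 1520) (nat_lit 0) (XT.nd (nat_lit 234) (nat_lit 1596) (nat_lit 0) (XT.nd (nat_lit 78) (nat_lit 0) (nat_lit 76) (XT.lf (nat_lit 76) (nat_lit 8194285203) (nat_lit 0) (nat_lit 2043220513) (nat_lit 1824) (nat_lit 4896781294) (nat_lit 474) (nat_lit 5) (nat_lit 473) (nat_lit 5) (nat_lit 497) (nat_lit 5) (nat_lit 593) (nat_lit 578) (nat_lit 389)) (XT.nd (nat_lit 78) (nat_lit 0) (nat_lit 0) (XT.lf (nat_lit 76) (nat_lit 885317709) (nat_lit 0) (nat_lit 10484922602) (nat_lit 1824) (nat_lit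 3917349447) (nat_lit 475) (nat_lit 5) (nat_lit 474) (nat_lit 5) (nat_lit 498) (nat_lit 5) (nat_lit 594) (nat_lit 578) (nat_lit 388)) (XT.lf (nat_lit 76) (nat_lit 8941722484) (nat_lit 0) (nat_lit 3636105218) (nat_lit 1824) (nat_lit 2865088105) (nat_lit 475) (nat_lit 5) (nat_lit 474) (nat_lit 5) (nat_lit 498) (nat_lit 5) (nat_lit 595) (nat_lit 578) (nat_lit 387)))) (XT.nd (nat_lit 78) (nat_lit 1748) (nat_lit 0) (XT.lf (nat_lit 76) (nat_lit 1550658187) (nat_lit 0) (nat_lit 12283075926) (nat_lit 1824) (nat_lit 1767132102) (nat_lit 476) (nat_lit 5) (nat_lit 475) (nat_lit 5) (nat_lit 499) (nat_lit 5) (nat_lit 596) (nat_lit 578) (nat_lit 386)) (XT.nd (nat_lit 78) (nat_lit 1748) (nat_lit 0) (XT.lf (nat_lit 76) (nat_lit 9821472789) (nat_lit 0) (nat_lit 5353297339) (nat_lit 1824) (nat_lit 586006438) (nat_lit 476) (nat_lit 5) (nat_lit 475) (nat_lit 5) (nat_lit 499) (nat_lit 5) (nat_lit 597) (nat_lit 578) (nat_lit 385)) (XT.lf (nat_lit 0) (nat_lit 629751442) (nat_lit 1824) (nat_lit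 13580022086) (nat_lit 1900) (nat_lit 1713649874) (nat_lit 452) (nat_lit 5) (nat_lit 476) (nat_lit 5) (nat_lit 477) (nat_lit 5) (nat_lit 598) (nat_lit 578) (nat_lit 384))))) (XT.nd (nat_lit 234) (nat_lit 1520) (nat_lit 0) (XT.nd (nat_lit 78) (nat_lit 0) (nat_lit 0) (XT.lf (nat_lit 0) (nat_lit 1930237137) (nat_lit 1824) (nat_lit 5261759137) (nat_lit 1900) (nat_lit 8895885340) (nat_lit 452) (nat_lit 5) (nat_lit 476) (nat_lit 5) (nat_lit 477) (nat_lit 5) (nat_lit 599) (nat_lit 578) (nat_lit 383)) (XT.nd (nat_lit 78) (nat_lit 0) (nat_lit 76) (XT.lf (nat_lit 76) (nat_lit 3259832820) (nat_lit 0) (nat_lit 10888101) (nat_lit 1900) (nat_lit 12984629376) (nat_lit 453) (nat_lit 5) (nat_lit 452) (nat_lit 5) (nat_lit 477) (nat_lit 5) (nat_lit 600) (nat_lit 578) (nat_lit 382)) (XT.lf (nat_lit 0) (nat_lit 4713979042) (nat_lit 1824) (nat_lit 4455903728) (nat_lit 1900) (nat_lit 7254767342) (nat_lit 453) (nat_lit 5) (nat_lit 477) (nat_lit 5) (nat_lit 478) (nat_lit 5) (nat_lit 601) (nat_lit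 578) (nat_lit 381)))) (XT.nd (nat_lit 78) (nat_lit 1596) (nat_lit 0) (XT.lf (nat_lit 76) (nat_lit 4305105606) (nat_lit 0) (nat_lit 1902094286) (nat_lit 1900) (nat_lit 10389715112) (nat_lit 454) (nat_lit 5) (nat_lit 453) (nat_lit 5) (nat_lit 478) (nat_lit 5) (nat_lit 602) (nat_lit 578) (nat_lit 380)) (XT.nd (nat_lit 78) (nat_lit 1672) (nat_lit 0) (XT.lf (nat_lit 0) (nat_lit 7789345381) (nat_lit 1824) (nat_lit 3512163821) (nat_lit 76) (nat_lit 5469935799) (nat_lit 454) (nat_lit 5) (nat_lit 478) (nat_lit 5) (nat_lit 455) (nat_lit 5) (nat_lit 603) (nat_lit 578) (nat_lit 379)) (XT.lf (nat_lit 0) (nat_lit 5496791666) (nat_lit 1672) (nat_lit 3947940666) (nat_lit 1748) (nat_lit 7503902286) (nat_lit 432) (nat_lit 5) (nat_lit 454) (nat_lit 5) (nat_lit 455) (nat_lit 5) (nat_lit 604) (nat_lit 578) (nat_lit 378)))))) (XT.nd (nat_lit 468) (nat_lit 3268) (nat_lit 0) (XT.nd (nat_lit 234) (nat_lit 1900) (nat_lit 0) (XT.nd (nat_lit 78) (nat_lit 988) (nat_lit 0) (XT.lf (nat_lit 0) (nat_lit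 11173430528) (nat_lit 1748) (nat_lit 2424462776) (nat_lit 76) (nat_lit 3530671626) (nat_lit 432) (nat_lit 5) (nat_lit 455) (nat_lit 5) (nat_lit 433) (nat_lit 5) (nat_lit 605) (nat_lit 578) (nat_lit 377)) (XT.nd (nat_lit 78) (nat_lit 0) (nat_lit 0) (XT.lf (nat_lit 0) (nat_lit 6841281471) (nat_lit 988) (nat_lit 6159526298) (nat_lit 1064) (nat_lit 4310004931) (nat_lit 419) (nat_lit 5) (nat_lit 432) (nat_lit 5) (nat_lit 433) (nat_lit 5) (nat_lit 606) (nat_lit 578) (nat_lit 376)) (XT.lf (nat_lit 0) (nat_lit 14884013988) (nat_lit 1064) (nat_lit 1186409371) (nat_lit 76) (nat_lit 1425897373) (nat_lit 419) (nat_lit 5) (nat_lit 433) (nat_lit 5) (nat_lit 420) (nat_lit 5) (nat_lit 607) (nat_lit 578) (nat_lit 375)))) (XT.nd (nat_lit 78) (nat_lit 988) (nat_lit 0) (XT.lf (nat_lit 0) (nat_lit 8345290754) (nat_lit 912) (nat_lit 8548328389) (nat_lit 988) (nat_lit 790146001) (nat_lit 407) (nat_lit 5) (nat_lit 419) (nat_lit 5) (nat_lit 420) (nat_lit 5) (nat_lit 608) (nat_lit 578) (nat_lit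 374)) (XT.nd (nat_lit 78) (nat_lit 0) (nat_lit 0) (XT.lf (nat_lit 0) (nat_lit 198736319) (nat_lit 912) (nat_lit 858816856) (nat_lit 988) (nat_lit 16817205242) (nat_lit 394) (nat_lit 5) (nat_lit 406) (nat_lit 5) (nat_lit 407) (nat_lit 5) (nat_lit 609) (nat_lit 578) (nat_lit 373)) (XT.lf (nat_lit 0) (nat_lit 3033955430) (nat_lit 988) (nat_lit 8071912602) (nat_lit 76) (nat_lit 6961553347) (nat_lit 394) (nat_lit 5) (nat_lit 407) (nat_lit 5) (nat_lit 395) (nat_lit 5) (nat_lit 610) (nat_lit 578) (nat_lit 372))))) (XT.nd (nat_lit 234) (nat_lit 1596) (nat_lit 0) (XT.nd (nat_lit 78) (nat_lit 836) (nat_lit 0) (XT.lf (nat_lit 0) (nat_lit 1735593970) (nat_lit 836) (nat_lit 3325257979) (nat_lit 912) (nat_lit 13202867172) (nat_lit 383) (nat_lit 5) (nat_lit 394) (nat_lit 5) (nat_lit 395) (nat_lit 5) (nat_lit 611) (nat_lit 578) (nat_lit 371)) (XT.nd (nat_lit 78) (nat_lit 836) (nat_lit 0) (XT.lf (nat_lit 0) (nat_lit 7206840919) (nat_lit 912) (nat_lit 6650330624) (nat_lit 76) (nat_lit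 4605201017) (nat_lit 383) (nat_lit 5) (nat_lit 395) (nat_lit 5) (nat_lit 384) (nat_lit 5) (nat_lit 612) (nat_lit 578) (nat_lit 370)) (XT.lf (nat_lit 0) (nat_lit 3442418156) (nat_lit 836) (nat_lit 5991910977) (nat_lit 912) (nat_lit 9229899156) (nat_lit 372) (nat_lit 5) (nat_lit 383) (nat_lit 5) (nat_lit 384) (nat_lit 5) (nat_lit 613) (nat_lit 578) (nat_lit 369)))) (XT.nd (nat_lit 156) (nat_lit 836) (nat_lit 0) (XT.nd (nat_lit 78) (nat_lit 760) (nat_lit 0) (XT.lf (nat_lit 0) (nat_lit 11758758464) (nat_lit 912) (nat_lit 5061345192) (nat_lit 76) (nat_lit 2048970450) (nat_lit 372) (nat_lit 5) (nat_lit 384) (nat_lit 5) (nat_lit 373) (nat_lit 5) (nat_lit 614) (nat_lit 578) (nat_lit 368)) (XT.lf (nat_lit 0) (nat_lit 5326817935) (nat_lit 760) (nat_lit 8871521513) (nat_lit 836) (nat_lit 4878304909) (nat_lit 362) (nat_lit 5) (nat_lit 372) (nat_lit 5) (nat_lit 373) (nat_lit 5) (nat_lit 615) (nat_lit 578) (nat_lit 367))) (XT.nd (nat_lit 78) (nat_lit 836) (nat_lit 0) (XT.lf (nat_lit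 0) (nat_lit 15985697880) (nat_lit 760) (nat_lit 729447932) (nat_lit 836) (nat_lit 2572652295) (nat_lit 362) (nat_lit 5) (nat_lit 372) (nat_lit 5) (nat_lit 373) (nat_lit 5) (nat_lit 616) (nat_lit 578) (nat_lit 366)) (XT.lf (nat_lit 0) (nat_lit 7396753435) (nat_lit 836) (nat_lit 11977321577) (nat_lit 912) (nat_lit 127264937) (nat_lit 351) (nat_lit 5) (nat_lit 362) (nat_lit 5) (nat_lit 363) (nat_lit 5) (nat_lit 617) (nat_lit 578) (nat_lit 365))))))))
noncomputable def xc206 : XT := (XT.nd (nat_lit 1950) (nat_lit 4104) (nat_lit 0) (XT.nd (nat_lit 936) (nat_lit 4256) (nat_lit 0) (XT.nd (nat_lit 468) (nat_lit 2812) (nat_lit 0) (XT.nd (nat_lit 234) (nat_lit 684) (nat_lit 0) (XT.nd (nat_lit 78) (nat_lit 1520) (nat_lit 0) (XT.lf (nat_lit 0) (nat_lit 2357733321) (nat_lit 912) (nat_lit 1390397307) (nat_lit 76) (nat_lit 15970280411) (nat_lit 350) (nat_lit 5) (nat_lit 362) (nat_lit 5) (nat_lit 351) (nat_lit 5) (nat_lit 618) (nat_lit 578) (nat_lit 364)) (XT.nd (nat_lit 78) (nat_lit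 760) (nat_lit 0) (XT.lf (nat_lit 0) (nat_lit 4978735400) (nat_lit 836) (nat_lit 10310912404) (nat_lit 76) (nat_lit 4648399474) (nat_lit 340) (nat_lit 5) (nat_lit 351) (nat_lit 5) (nat_lit 341) (nat_lit 5) (nat_lit 619) (nat_lit 578) (nat_lit 363)) (XT.lf (nat_lit 0) (nat_lit 700638690) (nat_lit 760) (nat_lit 6985064018) (nat_lit 836) (nat_lit 12475703322) (nat_lit 330) (nat_lit 5) (nat_lit 340) (nat_lit 5) (nat_lit 341) (nat_lit 5) (nat_lit 620) (nat_lit 578) (nat_lit 362)))) (XT.nd (nat_lit 78) (nat_lit 684) (nat_lit 0) (XT.lf (nat_lit 0) (nat_lit 10520949827) (nat_lit 836) (nat_lit 8331469385) (nat_lit 76) (nat_lit 1535330618) (nat_lit 330) (nat_lit 5) (nat_lit 341) (nat_lit 5) (nat_lit 331) (nat_lit 5) (nat_lit 621) (nat_lit 578) (nat_lit 361)) (XT.nd (nat_lit 78) (nat_lit 0) (nat_lit 0) (XT.lf (nat_lit 0) (nat_lit 3008012930) (nat_lit 684) (nat_lit 10465623771) (nat_lit 760) (nat_lit 7143769777) (nat_lit 321) (nat_lit 5) (nat_lit 330) (nat_lit 5) (nat_lit 331) (nat_lit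 5) (nat_lit 622) (nat_lit 578) (nat_lit 360)) (XT.lf (nat_lit 0) (nat_lit 14681663423) (nat_lit 684) (nat_lit 1854631546) (nat_lit 760) (nat_lit 4314343588) (nat_lit 321) (nat_lit 5) (nat_lit 330) (nat_lit 5) (nat_lit 331) (nat_lit 5) (nat_lit 623) (nat_lit 578) (nat_lit 359))))) (XT.nd (nat_lit 234) (nat_lit 1292) (nat_lit 0) (XT.nd (nat_lit 78) (nat_lit 760) (nat_lit 0) (XT.lf (nat_lit 0) (nat_lit 5522147995) (nat_lit 760) (nat_lit 14214000169) (nat_lit 836) (nat_lit 1350868922) (nat_lit 311) (nat_lit 5) (nat_lit 321) (nat_lit 5) (nat_lit 322) (nat_lit 5) (nat_lit 624) (nat_lit 578) (nat_lit 358)) (XT.nd (nat_lit 78) (nat_lit 684) (nat_lit 0) (XT.lf (nat_lit 0) (nat_lit 1699032828) (nat_lit 836) (nat_lit 3825562510) (nat_lit 76) (nat_lit 15802329676) (nat_lit 310) (nat_lit 5) (nat_lit 321) (nat_lit 5) (nat_lit 311) (nat_lit 5) (nat_lit 625) (nat_lit 578) (nat_lit 357)) (XT.lf (nat_lit 0) (nat_lit 4862687364) (nat_lit 760) (nat_lit 13350343571) (nat_lit 76) (nat_lit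 3357005326) (nat_lit 301) (nat_lit 5) (nat_lit 311) (nat_lit 5) (nat_lit 302) (nat_lit 5) (nat_lit 626) (nat_lit 578) (nat_lit 356)))) (XT.nd (nat_lit 78) (nat_lit 1292) (nat_lit 0) (XT.lf (nat_lit 0) (nat_lit 8147323469) (nat_lit 760) (nat_lit 1302060164) (nat_lit 76) (nat_lit 12367472524) (nat_lit 301) (nat_lit 5) (nat_lit 311) (nat_lit 5) (nat_lit 302) (nat_lit 5) (nat_lit 627) (nat_lit 578) (nat_lit 355)) (XT.nd (nat_lit 78) (nat_lit 608) (nat_lit 0) (XT.lf (nat_lit 0) (nat_lit 11127722534) (nat_lit 684) (nat_lit 437551068) (nat_lit 760) (nat_lit 10501987003) (nat_lit 292) (nat_lit 5) (nat_lit 301) (nat_lit 5) (nat_lit 302) (nat_lit 5) (nat_lit 628) (nat_lit 578) (nat_lit 354)) (XT.lf (nat_lit 0) (nat_lit 1458016739) (nat_lit 608) (nat_lit 13664091316) (nat_lit 684) (nat_lit 7199155150) (nat_lit 284) (nat_lit 5) (nat_lit 292) (nat_lit 5) (nat_lit 293) (nat_lit 5) (nat_lit 629) (nat_lit 578) (nat_lit 353)))))) (XT.nd (nat_lit 468) (nat_lit 2280) (nat_lit 0) (XT.nd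 (nat_lit 234) (nat_lit 1216) (nat_lit 0) (XT.nd (nat_lit 78) (nat_lit 760) (nat_lit 0) (XT.lf (nat_lit 0) (nat_lit 14243451014) (nat_lit 608) (nat_lit 4578394783) (nat_lit 684) (nat_lit 3757065287) (nat_lit 284) (nat_lit 5) (nat_lit 292) (nat_lit 5) (nat_lit 293) (nat_lit 5) (nat_lit 630) (nat_lit 578) (nat_lit 352)) (XT.nd (nat_lit 78) (nat_lit 76) (nat_lit 0) (XT.lf (nat_lit 0) (nat_lit 4465604173) (nat_lit 684) (nat_lit 18184972830) (nat_lit 760) (nat_lit 190035491) (nat_lit 275) (nat_lit 5) (nat_lit 284) (nat_lit 5) (nat_lit 285) (nat_lit 5) (nat_lit 631) (nat_lit 578) (nat_lit 351)) (XT.lf (nat_lit 0) (nat_lit 3485319090) (nat_lit 760) (nat_lit 5529254541) (nat_lit 76) (nat_lit 14090882855) (nat_lit 274) (nat_lit 5) (nat_lit 284) (nat_lit 5) (nat_lit 275) (nat_lit 5) (nat_lit 632) (nat_lit 578) (nat_lit 350)))) (XT.nd (nat_lit 78) (nat_lit 608) (nat_lit 0) (XT.lf (nat_lit 0) (nat_lit 7279624589) (nat_lit 684) (nat_lit 15709800910) (nat_lit 76) (nat_lit 385187485)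 (nat_lit 266) (nat_lit 5) (nat_lit 275) (nat_lit 5) (nat_lit 267) (nat_lit 5) (nat_lit 633) (nat_lit 578) (nat_lit 349)) (XT.nd (nat_lit 78) (nat_lit 608) (nat_lit 0) (XT.lf (nat_lit 0) (nat_lit 11242579441) (nat_lit 684) (nat_lit 2516007681) (nat_lit 76) (nat_lit 9888710730) (nat_lit 266) (nat_lit 5) (nat_lit 275) (nat_lit 5) (nat_lit 267) (nat_lit 5) (nat_lit 634) (nat_lit 578) (nat_lit 348)) (XT.lf (nat_lit 0) (nat_lit 11081742824) (nat_lit 608) (nat_lit 4270798775) (nat_lit 684) (nat_lit 8571540349) (nat_lit 258) (nat_lit 5) (nat_lit 266) (nat_lit 5) (nat_lit 267) (nat_lit 5) (nat_lit 635) (nat_lit 578) (nat_lit 347))))) (XT.nd (nat_lit 234) (nat_lit 1064) (nat_lit 0) (XT.nd (nat_lit 78) (nat_lit 684) (nat_lit 0) (XT.lf (nat_lit 0) (nat_lit 748794359) (nat_lit 532) (nat_lit 18848709755) (nat_lit 608) (nat_lit 4607842078) (nat_lit 251) (nat_lit 5) (nat_lit 258) (nat_lit 5) (nat_lit 259) (nat_lit 5) (nat_lit 636) (nat_lit 578) (nat_lit 346)) (XT.nd (nat_lit 78) (nat_lit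 684) (nat_lit 0) (XT.lf (nat_lit 0) (nat_lit 14751907703) (nat_lit 532) (nat_lit 9285621500) (nat_lit 608) (nat_lit 452503728) (nat_lit 251) (nat_lit 5) (nat_lit 258) (nat_lit 5) (nat_lit 259) (nat_lit 5) (nat_lit 637) (nat_lit 578) (nat_lit 345)) (XT.lf (nat_lit 0) (nat_lit 3763406541) (nat_lit 684) (nat_lit 20501810736) (nat_lit 76) (nat_lit 514162599) (nat_lit 242) (nat_lit 5) (nat_lit 251) (nat_lit 5) (nat_lit 243) (nat_lit 5) (nat_lit 638) (nat_lit 578) (nat_lit 344)))) (XT.nd (nat_lit 156) (nat_lit 532) (nat_lit 0) (XT.nd (nat_lit 78) (nat_lit 532) (nat_lit 0) (XT.lf (nat_lit 0) (nat_lit 8180835508) (nat_lit 684) (nat_lit 6437805000) (nat_lit 76) (nat_lit 10453348690) (nat_lit 242) (nat_lit 5) (nat_lit 251) (nat_lit 5) (nat_lit 243) (nat_lit 5) (nat_lit 639) (nat_lit 578) (nat_lit 343)) (XT.lf (nat_lit 0) (nat_lit 8007346898) (nat_lit 532) (nat_lit 4727312966) (nat_lit 608) (nat_lit 12634830347) (nat_lit 235) (nat_lit 5) (nat_lit 242) (nat_lit 5) (nat_lit 243) (nat_lit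 5) (nat_lit 640) (nat_lit 578) (nat_lit 342))) (XT.nd (nat_lit 78) (nat_lit 532) (nat_lit 0) (XT.lf (nat_lit 0) (nat_lit 17453954447) (nat_lit 608) (nat_lit 2883696305) (nat_lit 76) (nat_lit 5333803048) (nat_lit 235) (nat_lit 5) (nat_lit 243) (nat_lit 5) (nat_lit 236) (nat_lit 5) (nat_lit 641) (nat_lit 578) (nat_lit 341)) (XT.lf (nat_lit 0) (nat_lit 12005379042) (nat_lit 532) (nat_lit 10367680012) (nat_lit 608) (nat_lit 3604289547) (nat_lit 228) (nat_lit 5) (nat_lit 235) (nat_lit 5) (nat_lit 236) (nat_lit 5) (nat_lit 642) (nat_lit 578) (nat_lit 340))))))) (XT.nd (nat_lit 936) (nat_lit 456) (nat_lit 0) (XT.nd (nat_lit 468) (nat_lit 2052) (nat_lit 0) (XT.nd (nat_lit 234) (nat_lit 456) (nat_lit 0) (XT.nd (nat_lit 78) (nat_lit 532) (nat_lit 0) (XT.lf (nat_lit 0) (nat_lit 942327696) (nat_lit 532) (nat_lit 166199344) (nat_lit 608) (nat_lit 25180255978) (nat_lit 220) (nat_lit 5) (nat_lit 227) (nat_lit 5) (nat_lit 228) (nat_lit 5) (nat_lit 643) (nat_lit 578) (nat_lit 339)) (XT.nd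 (nat_lit 78) (nat_lit 532) (nat_lit 0) (XT.lf (nat_lit 0) (nat_lit 6024464955) (nat_lit 608) (nat_lit 10356375106) (nat_lit 76) (nat_lit 10221987445) (nat_lit 220) (nat_lit 5) (nat_lit 228) (nat_lit 5) (nat_lit 221) (nat_lit 5) (nat_lit 644) (nat_lit 578) (nat_lit 338)) (XT.lf (nat_lit 0) (nat_lit 4992850935) (nat_lit 532) (nat_lit 6075683081) (nat_lit 608) (nat_lit 15854023010) (nat_lit 213) (nat_lit 5) (nat_lit 220) (nat_lit 5) (nat_lit 221) (nat_lit 5) (nat_lit 645) (nat_lit 578) (nat_lit 337)))) (XT.nd (nat_lit 78) (nat_lit 456) (nat_lit 0) (XT.lf (nat_lit 0) (nat_lit 16308566435) (nat_lit 608) (nat_lit 6492174375) (nat_lit 76) (nat_lit 4446039072) (nat_lit 213) (nat_lit 5) (nat_lit 221) (nat_lit 5) (nat_lit 214) (nat_lit 5) (nat_lit 646) (nat_lit 578) (nat_lit 336)) (XT.nd (nat_lit 78) (nat_lit 0) (nat_lit 0) (XT.lf (nat_lit 0) (nat_lit 9331283410) (nat_lit 456) (nat_lit 12419335614) (nat_lit 532) (nat_lit 5824924155) (nat_lit 207) (nat_lit 5) (nat_lit 213) (nat_lit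 5) (nat_lit 214) (nat_lit 5) (nat_lit 647) (nat_lit 578) (nat_lit 335)) (XT.lf (nat_lit 0) (nat_lit 25554276465) (nat_lit 456) (nat_lit 1787239003) (nat_lit 532) (nat_lit 568566586) (nat_lit 207) (nat_lit 5) (nat_lit 213) (nat_lit 5) (nat_lit 214) (nat_lit 5) (nat_lit 648) (nat_lit 578) (nat_lit 334))))) (XT.nd (nat_lit 234) (nat_lit 988) (nat_lit 0) (XT.nd (nat_lit 78) (nat_lit 456) (nat_lit 0) (XT.lf (nat_lit 0) (nat_lit 4877032071) (nat_lit 608) (nat_lit 14310550874) (nat_lit 76) (nat_lit 9060167262) (nat_lit 199) (nat_lit 5) (nat_lit 207) (nat_lit 5) (nat_lit 200) (nat_lit 5) (nat_lit 649) (nat_lit 578) (nat_lit 333)) (XT.nd (nat_lit 78) (nat_lit 0) (nat_lit 0) (XT.lf (nat_lit 0) (nat_lit 2001773787) (nat_lit 456) (nat_lit 8459420946) (nat_lit 532) (nat_lit 18130156869) (nat_lit 193) (nat_lit 5) (nat_lit 199) (nat_lit 5) (nat_lit 200) (nat_lit 5) (nat_lit 650) (nat_lit 578) (nat_lit 332)) (XT.lf (nat_lit 0) (nat_lit 16266370365) (nat_lit 532) (nat_lit 10127279281)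 (nat_lit 76) (nat_lit 2545989126) (nat_lit 193) (nat_lit 5) (nat_lit 200) (nat_lit 5) (nat_lit 194) (nat_lit 5) (nat_lit 651) (nat_lit 578) (nat_lit 331)))) (XT.nd (nat_lit 78) (nat_lit 532) (nat_lit 0) (XT.lf (nat_lit 0) (nat_lit 6691151280) (nat_lit 456) (nat_lit 15592571295) (nat_lit 532) (nat_lit 7009247984) (nat_lit 187) (nat_lit 5) (nat_lit 193) (nat_lit 5) (nat_lit 194) (nat_lit 5) (nat_lit 652) (nat_lit 578) (nat_lit 330)) (XT.nd (nat_lit 78) (nat_lit 532) (nat_lit 0) (XT.lf (nat_lit 0) (nat_lit 23978413336) (nat_lit 456) (nat_lit 4507610152) (nat_lit 532) (nat_lit 1166053786) (nat_lit 187) (nat_lit 5) (nat_lit 193) (nat_lit 5) (nat_lit 194) (nat_lit 5) (nat_lit 653) (nat_lit 578) (nat_lit 329)) (XT.lf (nat_lit 0) (nat_lit 4848694235) (nat_lit 532) (nat_lit 18350381434) (nat_lit 76) (nat_lit 6816316970) (nat_lit 180) (nat_lit 5) (nat_lit 187) (nat_lit 5) (nat_lit 181) (nat_lit 5) (nat_lit 654) (nat_lit 578) (nat_lit 328)))))) (XT.nd (nat_lit 75582) (nat_lit 0)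 (nat_lit 22344) (XT.nd (nat_lit 75348) (nat_lit 0) (nat_lit 22268) (XT.nd (nat_lit 78) (nat_lit 456) (nat_lit 0) (XT.lf (nat_lit 0) (nat_lit 11033026298) (nat_lit 532) (nat_lit 1000461169) (nat_lit 76) (nat_lit 18351034947) (nat_lit 180) (nat_lit 5) (nat_lit 187) (nat_lit 5) (nat_lit 181) (nat_lit 5) (nat_lit 655) (nat_lit 578) (nat_lit 327)) (XT.nd (nat_lit 75192) (nat_lit 0) (nat_lit 22268) (XT.lf (nat_lit 0) (nat_lit 16913586035) (nat_lit 456) (nat_lit 534048493) (nat_lit 532) (nat_lit 13311268770) (nat_lit 174) (nat_lit 5) (nat_lit 180) (nat_lit 5) (nat_lit 181) (nat_lit 5) (nat_lit 656) (nat_lit 578) (nat_lit 326)) (XT.lf (nat_lit 0) (nat_lit 55858206) (nat_lit 0) (nat_lit 55858206) (nat_lit 1748) (nat_lit 6555900147) (nat_lit 467) (nat_lit 5) (nat_lit 467) (nat_lit 3) (nat_lit 490) (nat_lit 3) (nat_lit 579) (nat_lit 579) (nat_lit 402)))) (XT.nd (nat_lit 78) (nat_lit 0) (nat_lit 0) (XT.lf (nat_lit 0) (nat_lit 646331655) (nat_lit 1748) (nat_lit 6725810827) (nat_lit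 1824) (nat_lit 6087970058) (nat_lit 467) (nat_lit 5) (nat_lit 490) (nat_lit 3) (nat_lit 491) (nat_lit 5) (nat_lit 580) (nat_lit 579) (nat_lit 401)) (XT.nd (nat_lit 78) (nat_lit 0) (nat_lit 76) (XT.lf (nat_lit 0) (nat_lit 1068477122) (nat_lit 1748) (nat_lit 104116113) (nat_lit 1824) (nat_lit 12415082103) (nat_lit 467) (nat_lit 5) (nat_lit 490) (nat_lit 3) (nat_lit 491) (nat_lit 5) (nat_lit 581) (nat_lit 579) (nat_lit 400)) (XT.lf (nat_lit 0) (nat_lit 1566788775) (nat_lit 1748) (nat_lit 7017678082) (nat_lit 1824) (nat_lit 5131969604) (nat_lit 468) (nat_lit 5) (nat_lit 491) (nat_lit 5) (nat_lit 492) (nat_lit 5) (nat_lit 582) (nat_lit 579) (nat_lit 399))))) (XT.nd (nat_lit 234) (nat_lit 0) (nat_lit 152) (XT.nd (nat_lit 78) (nat_lit 0) (nat_lit 76) (XT.lf (nat_lit 0) (nat_lit 2073966945) (nat_lit 1748) (nat_lit 221739304) (nat_lit 1824) (nat_lit 11552090055) (nat_lit 468) (nat_lit 5) (nat_lit 491) (nat_lit 5) (nat_lit 492) (nat_lit 5) (nat_lit 583) (nat_lit 579) (nat_lit 398))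 (XT.nd (nat_lit 78) (nat_lit 0) (nat_lit 0) (XT.lf (nat_lit 0) (nat_lit 2653080409) (nat_lit 1748) (nat_lit 7214136478) (nat_lit 1824) (nat_lit 4113332095) (nat_lit 469) (nat_lit 5) (nat_lit 492) (nat_lit 5) (nat_lit 493) (nat_lit 5) (nat_lit 584) (nat_lit 579) (nat_lit 397)) (XT.lf (nat_lit 0) (nat_lit 3251273109) (nat_lit 1748) (nat_lit 239193065) (nat_lit 1824) (nat_lit 10625342045) (nat_lit 469) (nat_lit 5) (nat_lit 492) (nat_lit 5) (nat_lit 493) (nat_lit 5) (nat_lit 585) (nat_lit 579) (nat_lit 396)))) (XT.nd (nat_lit 156) (nat_lit 0) (nat_lit 76) (XT.nd (nat_lit 78) (nat_lit 0) (nat_lit 0) (XT.lf (nat_lit 0) (nat_lit 3917494413) (nat_lit 1748) (nat_lit 7311674823) (nat_lit 1824) (nat_lit 3023483527) (nat_lit 470) (nat_lit 5) (nat_lit 493) (nat_lit 5) (nat_lit 494) (nat_lit 5) (nat_lit 586) (nat_lit 579) (nat_lit 395)) (XT.lf (nat_lit 0) (nat_lit 4612914282) (nat_lit 1748) (nat_lit 152781952) (nat_lit 1824) (nat_lit 9626221868) (nat_lit 470) (nat_lit 5) (nat_lit 493)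 (nat_lit 5) (nat_lit 494) (nat_lit 5) (nat_lit 587) (nat_lit 579) (nat_lit 394))) (XT.nd (nat_lit 78) (nat_lit 0) (nat_lit 0) (XT.lf (nat_lit 0) (nat_lit 5372753955) (nat_lit 1748) (nat_lit 7306512487) (nat_lit 1824) (nat_lit 1853693440) (nat_lit 471) (nat_lit 5) (nat_lit 494) (nat_lit 5) (nat_lit 495) (nat_lit 5) (nat_lit 588) (nat_lit 579) (nat_lit 393)) (XT.lf (nat_lit 76) (nat_lit 42014050) (nat_lit 0) (nat_lit 6130115353) (nat_lit 1824) (nat_lit 8504207650) (nat_lit 472) (nat_lit 5) (nat_lit 471) (nat_lit 5) (nat_lit 495) (nat_lit 5) (nat_lit 589) (nat_lit 579) (nat_lit 392))))))))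
noncomputable def xc207 : XT := (XT.nd (nat_lit 1950) (nat_lit 9880) (nat_lit 0) (XT.nd (nat_lit 936) (nat_lit 6080) (nat_lit 0) (XT.nd (nat_lit 468) (nat_lit 1520) (nat_lit 0) (XT.nd (nat_lit 234) (nat_lit 0) (nat_lit 76) (XT.nd (nat_lit 78) (nat_lit 0) (nat_lit 0) (XT.lf (nat_lit 0) (nat_lit 7032042712) (nat_lit 1748) (nat_lit 7194595808) (nat_lit 1824) (nat_lit 595053550) (nat_lit 472) (nat_lit 5) (nat_lit 495) (nat_lit 5) (nat_lit 496) (nat_lit 5) (nat_lit 590) (nat_lit 579) (nat_lit 391)) (XT.nd (nat_lit 78) (nat_lit 0) (nat_lit 0) (XT.lf (nat_lit 76) (nat_lit 352410204) (nat_lit 0) (nat_lit 7591417202) (nat_lit 1824) (nat_lit 7025434601) (nat_lit 473) (nat_lit 5) (nat_lit 472) (nat_lit 5) (nat_lit 496) (nat_lit 5) (nat_lit 591) (nat_lit 579) (nat_lit 390)) (XT.lf (nat_lit 76) (nat_lit 8142376570) (nat_lit 0) (nat_lit 771664273) (nat_lit 1824) (nat_lit 6204939895) (nat_lit 473) (nat_lit 5) (nat_lit 472) (nat_lit 5) (nat_lit 496) (nat_lit 5) (nat_lit 592) (nat_lit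 579) (nat_lit 389)))) (XT.nd (nat_lit 78) (nat_lit 0) (nat_lit 0) (XT.lf (nat_lit 76) (nat_lit 780964430) (nat_lit 0) (nat_lit 9160006949) (nat_lit 1824) (nat_lit 5329977444) (nat_lit 474) (nat_lit 5) (nat_lit 473) (nat_lit 5) (nat_lit 497) (nat_lit 5) (nat_lit 593) (nat_lit 579) (nat_lit 388)) (XT.nd (nat_lit 78) (nat_lit 0) (nat_lit 76) (XT.lf (nat_lit 76) (nat_lit 8777539792) (nat_lit 0) (nat_lit 2255001859) (nat_lit 1824) (nat_lit 4392533803) (nat_lit 474) (nat_lit 5) (nat_lit 473) (nat_lit 5) (nat_lit 497) (nat_lit 5) (nat_lit 594) (nat_lit 579) (nat_lit 387)) (XT.lf (nat_lit 76) (nat_lit 1332555372) (nat_lit 0) (nat_lit 10845502188) (nat_lit 1824) (nat_lit 3403585959) (nat_lit 475) (nat_lit 5) (nat_lit 474) (nat_lit 5) (nat_lit 498) (nat_lit 5) (nat_lit 595) (nat_lit 579) (nat_lit 386))))) (XT.nd (nat_lit 234) (nat_lit 1672) (nat_lit 0) (XT.nd (nat_lit 78) (nat_lit 0) (nat_lit 76) (XT.lf (nat_lit 76) (nat_lit 9541666060) (nat_lit 0) (nat_lit 3856750002) (nat_lit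 1824) (nat_lit 2341889399) (nat_lit 475) (nat_lit 5) (nat_lit 474) (nat_lit 5) (nat_lit 498) (nat_lit 5) (nat_lit 596) (nat_lit 579) (nat_lit 385)) (XT.nd (nat_lit 78) (nat_lit 0) (nat_lit 0) (XT.lf (nat_lit 76) (nat_lit 2012357325) (nat_lit 0) (nat_lit 12657780510) (nat_lit 1824) (nat_lit 1231464826) (nat_lit 476) (nat_lit 5) (nat_lit 475) (nat_lit 5) (nat_lit 499) (nat_lit 5) (nat_lit 597) (nat_lit 579) (nat_lit 384)) (XT.lf (nat_lit 76) (nat_lit 10440143396) (nat_lit 0) (nat_lit 5586876095) (nat_lit 1824) (nat_lit 37912921) (nat_lit 476) (nat_lit 5) (nat_lit 475) (nat_lit 5) (nat_lit 499) (nat_lit 5) (nat_lit 598) (nat_lit 579) (nat_lit 383)))) (XT.nd (nat_lit 78) (nat_lit 0) (nat_lit 0) (XT.lf (nat_lit 0) (nat_lit 1185993261) (nat_lit 1824) (nat_lit 13413050253) (nat_lit 1900) (nat_lit 1631894100) (nat_lit 452) (nat_lit 5) (nat_lit 476) (nat_lit 5) (nat_lit 477) (nat_lit 5) (nat_lit 599) (nat_lit 579) (nat_lit 382)) (XT.nd (nat_lit 78) (nat_lit 0) (nat_lit 0) (XT.lf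 (nat_lit 0) (nat_lit 2501828928) (nat_lit 1824) (nat_lit 4937021501) (nat_lit 1900) (nat_lit 8960049349) (nat_lit 452) (nat_lit 5) (nat_lit 476) (nat_lit 5) (nat_lit 477) (nat_lit 5) (nat_lit 600) (nat_lit 579) (nat_lit 381)) (XT.lf (nat_lit 76) (nat_lit 3752173526) (nat_lit 0) (nat_lit 109271438) (nat_lit 1900) (nat_lit 12708427983) (nat_lit 453) (nat_lit 5) (nat_lit 452) (nat_lit 5) (nat_lit 477) (nat_lit 5) (nat_lit 601) (nat_lit 579) (nat_lit 380)))))) (XT.nd (nat_lit 468) (nat_lit 3572) (nat_lit 0) (XT.nd (nat_lit 234) (nat_lit 2584) (nat_lit 0) (XT.nd (nat_lit 78) (nat_lit 0) (nat_lit 0) (XT.lf (nat_lit 0) (nat_lit 5322643200) (nat_lit 1824) (nat_lit 4115251448) (nat_lit 1900) (nat_lit 7304884144) (nat_lit 453) (nat_lit 5) (nat_lit 477) (nat_lit 5) (nat_lit 478) (nat_lit 5) (nat_lit 602) (nat_lit 579) (nat_lit 379)) (XT.nd (nat_lit 78) (nat_lit 0) (nat_lit 76) (XT.lf (nat_lit 76) (nat_lit 4818150636) (nat_lit 0) (nat_lit 2020263856) (nat_lit 1900) (nat_lit 10080222272)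 (nat_lit 454) (nat_lit 5) (nat_lit 453) (nat_lit 5) (nat_lit 478) (nat_lit 5) (nat_lit 603) (nat_lit 579) (nat_lit 378)) (XT.lf (nat_lit 0) (nat_lit 8441750288) (nat_lit 1824) (nat_lit 3153309353) (nat_lit 76) (nat_lit 5501808245) (nat_lit 454) (nat_lit 5) (nat_lit 478) (nat_lit 5) (nat_lit 455) (nat_lit 5) (nat_lit 604) (nat_lit 579) (nat_lit 377)))) (XT.nd (nat_lit 78) (nat_lit 988) (nat_lit 0) (XT.lf (nat_lit 0) (nat_lit 6033002233) (nat_lit 1672) (nat_lit 4090272796) (nat_lit 1748) (nat_lit 7154467110) (nat_lit 432) (nat_lit 5) (nat_lit 454) (nat_lit 5) (nat_lit 455) (nat_lit 5) (nat_lit 605) (nat_lit 579) (nat_lit 376)) (XT.nd (nat_lit 78) (nat_lit 988) (nat_lit 0) (XT.lf (nat_lit 0) (nat_lit 11876542853) (nat_lit 1748) (nat_lit 2044960496) (nat_lit 76) (nat_lit 3539969211) (nat_lit 432) (nat_lit 5) (nat_lit 455) (nat_lit 5) (nat_lit 433) (nat_lit 5) (nat_lit 606) (nat_lit 579) (nat_lit 375)) (XT.lf (nat_lit 0) (nat_lit 7403282903) (nat_lit 988) (nat_lit 6330540481)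 (nat_lit 1064) (nat_lit 3913676175) (nat_lit 419) (nat_lit 5) (nat_lit 432) (nat_lit 5) (nat_lit 433) (nat_lit 5) (nat_lit 607) (nat_lit 579) (nat_lit 374))))) (XT.nd (nat_lit 234) (nat_lit 1672) (nat_lit 0) (XT.nd (nat_lit 78) (nat_lit 1900) (nat_lit 0) (XT.lf (nat_lit 0) (nat_lit 15645114813) (nat_lit 1064) (nat_lit 783651577) (nat_lit 76) (nat_lit 1408144300) (nat_lit 419) (nat_lit 5) (nat_lit 433) (nat_lit 5) (nat_lit 420) (nat_lit 5) (nat_lit 608) (nat_lit 579) (nat_lit 373)) (XT.nd (nat_lit 78) (nat_lit 988) (nat_lit 0) (XT.lf (nat_lit 0) (nat_lit 8935876721) (nat_lit 912) (nat_lit 8752699485) (nat_lit 988) (nat_lit 339655835) (nat_lit 407) (nat_lit 5) (nat_lit 419) (nat_lit 5) (nat_lit 420) (nat_lit 5) (nat_lit 609) (nat_lit 579) (nat_lit 372)) (XT.lf (nat_lit 0) (nat_lit 629744085) (nat_lit 912) (nat_lit 902887213) (nat_lit 988) (nat_lit 16690479625) (nat_lit 394) (nat_lit 5) (nat_lit 406) (nat_lit 5) (nat_lit 407) (nat_lit 5) (nat_lit 610) (nat_lit 579) (nat_lit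 371)))) (XT.nd (nat_lit 156) (nat_lit 836) (nat_lit 0) (XT.nd (nat_lit 78) (nat_lit 836) (nat_lit 0) (XT.lf (nat_lit 0) (nat_lit 3539489878) (nat_lit 988) (nat_lit 7805556427) (nat_lit 76) (nat_lit 7074763532) (nat_lit 394) (nat_lit 5) (nat_lit 407) (nat_lit 5) (nat_lit 395) (nat_lit 5) (nat_lit 611) (nat_lit 579) (nat_lit 370)) (XT.lf (nat_lit 0) (nat_lit 2195285840) (nat_lit 836) (nat_lit 3405675086) (nat_lit 912) (nat_lit 13019193108) (nat_lit 383) (nat_lit 5) (nat_lit 394) (nat_lit 5) (nat_lit 395) (nat_lit 5) (nat_lit 612) (nat_lit 579) (nat_lit 369))) (XT.nd (nat_lit 78) (nat_lit 836) (nat_lit 0) (XT.lf (nat_lit 0) (nat_lit 7781175396) (nat_lit 912) (nat_lit 6357935486) (nat_lit 76) (nat_lit 4683844753) (nat_lit 383) (nat_lit 5) (nat_lit 395) (nat_lit 5) (nat_lit 384) (nat_lit 5) (nat_lit 613) (nat_lit 579) (nat_lit 368)) (XT.lf (nat_lit 0) (nat_lit 3933869574) (nat_lit 836) (nat_lit 6113652372) (nat_lit 912) (nat_lit 8981441547) (nat_lit 372) (nat_lit 5) (nat_lit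 383) (nat_lit 5) (nat_lit 384) (nat_lit 5) (nat_lit 614) (nat_lit 579) (nat_lit 367))))))) (XT.nd (nat_lit 1014) (nat_lit 4484) (nat_lit 0) (XT.nd (nat_lit 468) (nat_lit 2964) (nat_lit 0) (XT.nd (nat_lit 234) (nat_lit 1672) (nat_lit 0) (XT.nd (nat_lit 78) (nat_lit 760) (nat_lit 0) (XT.lf (nat_lit 0) (nat_lit 12410104097) (nat_lit 912) (nat_lit 4739861533) (nat_lit 76) (nat_lit 2088108472) (nat_lit 372) (nat_lit 5) (nat_lit 384) (nat_lit 5) (nat_lit 373) (nat_lit 5) (nat_lit 615) (nat_lit 579) (nat_lit 366)) (XT.nd (nat_lit 78) (nat_lit 0) (nat_lit 0) (XT.lf (nat_lit 0) (nat_lit 5853283866) (nat_lit 760) (nat_lit 9039759092) (nat_lit 836) (nat_lit 4556862616) (nat_lit 362) (nat_lit 5) (nat_lit 372) (nat_lit 5) (nat_lit 373) (nat_lit 5) (nat_lit 616) (nat_lit 579) (nat_lit 365)) (XT.lf (nat_lit 0) (nat_lit 16717107496) (nat_lit 760) (nat_lit 735024291) (nat_lit 836) (nat_lit 2213312800) (nat_lit 362) (nat_lit 5) (nat_lit 372) (nat_lit 5) (nat_lit 373) (nat_lit 5) (nat_lit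 617) (nat_lit 579) (nat_lit 364)))) (XT.nd (nat_lit 78) (nat_lit 760) (nat_lit 0) (XT.lf (nat_lit 0) (nat_lit 272131077) (nat_lit 912) (nat_lit 11923477679) (nat_lit 76) (nat_lit 7687716418) (nat_lit 350) (nat_lit 5) (nat_lit 362) (nat_lit 5) (nat_lit 351) (nat_lit 5) (nat_lit 618) (nat_lit 579) (nat_lit 363)) (XT.nd (nat_lit 78) (nat_lit 760) (nat_lit 0) (XT.lf (nat_lit 0) (nat_lit 2797278996) (nat_lit 912) (nat_lit 1004129027) (nat_lit 76) (nat_lit 16303470816) (nat_lit 350) (nat_lit 5) (nat_lit 362) (nat_lit 5) (nat_lit 351) (nat_lit 5) (nat_lit 619) (nat_lit 579) (nat_lit 362)) (XT.lf (nat_lit 0) (nat_lit 5465833667) (nat_lit 836) (nat_lit 10098135405) (nat_lit 76) (nat_lit 4765037109) (nat_lit 340) (nat_lit 5) (nat_lit 351) (nat_lit 5) (nat_lit 341) (nat_lit 5) (nat_lit 620) (nat_lit 579) (nat_lit 361))))) (XT.nd (nat_lit 234) (nat_lit 1520) (nat_lit 0) (XT.nd (nat_lit 78) (nat_lit 684) (nat_lit 0) (XT.lf (nat_lit 0) (nat_lit 1130890163) (nat_lit 760) (nat_lit 7091154155)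 (nat_lit 836) (nat_lit 12334886723) (nat_lit 330) (nat_lit 5) (nat_lit 340) (nat_lit 5) (nat_lit 341) (nat_lit 5) (nat_lit 621) (nat_lit 579) (nat_lit 360)) (XT.nd (nat_lit 78) (nat_lit 684) (nat_lit 0) (XT.lf (nat_lit 0) (nat_lit 11106707825) (nat_lit 836) (nat_lit 8082683495) (nat_lit 76) (nat_lit 1598557159) (nat_lit 330) (nat_lit 5) (nat_lit 341) (nat_lit 5) (nat_lit 331) (nat_lit 5) (nat_lit 622) (nat_lit 579) (nat_lit 359)) (XT.lf (nat_lit 0) (nat_lit 3480855470) (nat_lit 684) (nat_lit 10632912784) (nat_lit 760) (nat_lit 6908524580) (nat_lit 321) (nat_lit 5) (nat_lit 330) (nat_lit 5) (nat_lit 331) (nat_lit 5) (nat_lit 623) (nat_lit 579) (nat_lit 358)))) (XT.nd (nat_lit 156) (nat_lit 760) (nat_lit 0) (XT.nd (nat_lit 78) (nat_lit 760) (nat_lit 0) (XT.lf (nat_lit 0) (nat_lit 15379887165) (nat_lit 684) (nat_lit 1850524705) (nat_lit 760) (nat_lit 4029923997) (nat_lit 321) (nat_lit 5) (nat_lit 330) (nat_lit 5) (nat_lit 331) (nat_lit 5) (nat_lit 624) (nat_lit 579) (nat_lit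 357)) (XT.lf (nat_lit 0) (nat_lit 6041521249) (nat_lit 760) (nat_lit 14448532862) (nat_lit 836) (nat_lit 1011472950) (nat_lit 311) (nat_lit 5) (nat_lit 321) (nat_lit 5) (nat_lit 322) (nat_lit 5) (nat_lit 625) (nat_lit 579) (nat_lit 356))) (XT.nd (nat_lit 78) (nat_lit 684) (nat_lit 0) (XT.lf (nat_lit 0) (nat_lit 2087530910) (nat_lit 836) (nat_lit 3496405463) (nat_lit 76) (nat_lit 16162391898) (nat_lit 310) (nat_lit 5) (nat_lit 321) (nat_lit 5) (nat_lit 311) (nat_lit 5) (nat_lit 626) (nat_lit 579) (nat_lit 355)) (XT.lf (nat_lit 0) (nat_lit 5310466675) (nat_lit 760) (nat_lit 13207646270) (nat_lit 76) (nat_lit 3476269515) (nat_lit 301) (nat_lit 5) (nat_lit 311) (nat_lit 5) (nat_lit 302) (nat_lit 5) (nat_lit 627) (nat_lit 579) (nat_lit 354)))))) (XT.nd (nat_lit 468) (nat_lit 2432) (nat_lit 0) (XT.nd (nat_lit 234) (nat_lit 760) (nat_lit 0) (XT.nd (nat_lit 78) (nat_lit 1292) (nat_lit 0) (XT.lf (nat_lit 0) (nat_lit 8653922452) (nat_lit 760) (nat_lit 926430610) (nat_lit 76) (nat_lit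 12665924016) (nat_lit 301) (nat_lit 5) (nat_lit 311) (nat_lit 5) (nat_lit 302) (nat_lit 5) (nat_lit 628) (nat_lit 579) (nat_lit 353)) (XT.nd (nat_lit 78) (nat_lit 608) (nat_lit 0) (XT.lf (nat_lit 0) (nat_lit 11749305171) (nat_lit 684) (nat_lit 386778888) (nat_lit 760) (nat_lit 10365689353) (nat_lit 292) (nat_lit 5) (nat_lit 301) (nat_lit 5) (nat_lit 302) (nat_lit 5) (nat_lit 629) (nat_lit 579) (nat_lit 352)) (XT.lf (nat_lit 0) (nat_lit 1889983609) (nat_lit 608) (nat_lit 13870408805) (nat_lit 684) (nat_lit 7000537735) (nat_lit 284) (nat_lit 5) (nat_lit 292) (nat_lit 5) (nat_lit 293) (nat_lit 5) (nat_lit 630) (nat_lit 579) (nat_lit 351)))) (XT.nd (nat_lit 78) (nat_lit 760) (nat_lit 0) (XT.lf (nat_lit 0) (nat_lit 14923228402) (nat_lit 608) (nat_lit 4604311368) (nat_lit 684) (nat_lit 3496323732) (nat_lit 284) (nat_lit 5) (nat_lit 292) (nat_lit 5) (nat_lit 293) (nat_lit 5) (nat_lit 631) (nat_lit 579) (nat_lit 350)) (XT.nd (nat_lit 78) (nat_lit 0) (nat_lit 0) (XT.lf (nat_lit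 0) (nat_lit 136709049) (nat_lit 760) (nat_lit 18338382851) (nat_lit 76) (nat_lit 4815758869) (nat_lit 274) (nat_lit 5) (nat_lit 284) (nat_lit 5) (nat_lit 275) (nat_lit 5) (nat_lit 632) (nat_lit 579) (nat_lit 349)) (XT.lf (nat_lit 0) (nat_lit 3876597093) (nat_lit 760) (nat_lit 5244871864) (nat_lit 76) (nat_lit 14439626909) (nat_lit 274) (nat_lit 5) (nat_lit 284) (nat_lit 5) (nat_lit 275) (nat_lit 5) (nat_lit 633) (nat_lit 579) (nat_lit 348))))) (XT.nd (nat_lit 234) (nat_lit 1216) (nat_lit 0) (XT.nd (nat_lit 78) (nat_lit 608) (nat_lit 0) (XT.lf (nat_lit 0) (nat_lit 7743514962) (nat_lit 684) (nat_lit 15625717853) (nat_lit 76) (nat_lit 466468904) (nat_lit 266) (nat_lit 5) (nat_lit 275) (nat_lit 5) (nat_lit 267) (nat_lit 5) (nat_lit 634) (nat_lit 579) (nat_lit 347)) (XT.nd (nat_lit 78) (nat_lit 608) (nat_lit 0) (XT.lf (nat_lit 0) (nat_lit 11779487776) (nat_lit 684) (nat_lit 2175858154) (nat_lit 76) (nat_lit 10158619915) (nat_lit 266) (nat_lit 5) (nat_lit 275) (nat_lit 5) (nat_lit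 267) (nat_lit 5) (nat_lit 635) (nat_lit 579) (nat_lit 346)) (XT.lf (nat_lit 0) (nat_lit 11691278482) (nat_lit 608) (nat_lit 4276770445) (nat_lit 684) (nat_lit 8428309423) (nat_lit 258) (nat_lit 5) (nat_lit 266) (nat_lit 5) (nat_lit 267) (nat_lit 5) (nat_lit 636) (nat_lit 579) (nat_lit 345)))) (XT.nd (nat_lit 156) (nat_lit 684) (nat_lit 0) (XT.nd (nat_lit 78) (nat_lit 0) (nat_lit 0) (XT.lf (nat_lit 0) (nat_lit 1154771070) (nat_lit 532) (nat_lit 19140135784) (nat_lit 608) (nat_lit 4388401810) (nat_lit 251) (nat_lit 5) (nat_lit 258) (nat_lit 5) (nat_lit 259) (nat_lit 5) (nat_lit 637) (nat_lit 579) (nat_lit 344)) (XT.lf (nat_lit 0) (nat_lit 15430279998) (nat_lit 532) (nat_lit 9387463178) (nat_lit 608) (nat_lit 156066440) (nat_lit 251) (nat_lit 5) (nat_lit 258) (nat_lit 5) (nat_lit 259) (nat_lit 5) (nat_lit 638) (nat_lit 579) (nat_lit 343))) (XT.nd (nat_lit 78) (nat_lit 0) (nat_lit 0) (XT.lf (nat_lit 0) (nat_lit 4137305962) (nat_lit 684) (nat_lit 20521589355) (nat_lit 76)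 (nat_lit 610066173) (nat_lit 242) (nat_lit 5) (nat_lit 251) (nat_lit 5) (nat_lit 243) (nat_lit 5) (nat_lit 639) (nat_lit 579) (nat_lit 342)) (XT.lf (nat_lit 0) (nat_lit 8637227993) (nat_lit 684) (nat_lit 6183955614) (nat_lit 76) (nat_lit 10746357156) (nat_lit 242) (nat_lit 5) (nat_lit 251) (nat_lit 5) (nat_lit 243) (nat_lit 5) (nat_lit 640) (nat_lit 579) (nat_lit 341))))))))
noncomputable def xc208 : XT := (XT.nd (nat_lit 77142) (nat_lit 0) (nat_lit 15428) (XT.nd (nat_lit 936) (nat_lit 988) (nat_lit 0) (XT.nd (nat_lit 468) (nat_lit 1520) (nat_lit 0) (XT.nd (nat_lit 234) (nat_lit 1140) (nat_lit 0) (XT.nd (nat_lit 78) (nat_lit 532) (nat_lit 0) (XT.lf (nat_lit 0) (nat_lit 8547582181) (nat_lit 532) (nat_lit 4731273739) (nat_lit 608) (nat_lit 12592201976) (nat_lit 235) (nat_lit 5) (nat_lit 242) (nat_lit 5) (nat_lit 243) (nat_lit 5) (nat_lit 641) (nat_lit 579) (nat_lit 340)) (XT.nd (nat_lit 78) (nat_lit 532) (nat_lit 0) (XT.lf (nat_lit 0) (nat_lit 18087436477) (nat_lit 608)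 (nat_lit 2563603247) (nat_lit 76) (nat_lit 5528123659) (nat_lit 235) (nat_lit 5) (nat_lit 243) (nat_lit 5) (nat_lit 236) (nat_lit 5) (nat_lit 642) (nat_lit 579) (nat_lit 339)) (XT.lf (nat_lit 0) (nat_lit 12620768297) (nat_lit 532) (nat_lit 10481014929) (nat_lit 608) (nat_lit 3389456271) (nat_lit 228) (nat_lit 5) (nat_lit 235) (nat_lit 5) (nat_lit 236) (nat_lit 5) (nat_lit 643) (nat_lit 579) (nat_lit 338)))) (XT.nd (nat_lit 78) (nat_lit 532) (nat_lit 0) (XT.lf (nat_lit 0) (nat_lit 1337755219) (nat_lit 532) (nat_lit 72991368) (nat_lit 608) (nat_lit 25398181491) (nat_lit 220) (nat_lit 5) (nat_lit 227) (nat_lit 5) (nat_lit 228) (nat_lit 5) (nat_lit 644) (nat_lit 579) (nat_lit 337)) (XT.nd (nat_lit 78) (nat_lit 532) (nat_lit 0) (XT.lf (nat_lit 0) (nat_lit 6420126563) (nat_lit 608) (nat_lit 10189399843) (nat_lit 76) (nat_lit 10519825163) (nat_lit 220) (nat_lit 5) (nat_lit 228) (nat_lit 5) (nat_lit 221) (nat_lit 5) (nat_lit 645) (nat_lit 579) (nat_lit 336)) (XT.lf (nat_lit 0)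 (nat_lit 5464349516) (nat_lit 532) (nat_lit 6097744897) (nat_lit 608) (nat_lit 15893441489) (nat_lit 213) (nat_lit 5) (nat_lit 220) (nat_lit 5) (nat_lit 221) (nat_lit 5) (nat_lit 646) (nat_lit 579) (nat_lit 335))))) (XT.nd (nat_lit 234) (nat_lit 1064) (nat_lit 0) (XT.nd (nat_lit 78) (nat_lit 456) (nat_lit 0) (XT.lf (nat_lit 0) (nat_lit 16902223474) (nat_lit 608) (nat_lit 6252931471) (nat_lit 76) (nat_lit 4631182908) (nat_lit 213) (nat_lit 5) (nat_lit 221) (nat_lit 5) (nat_lit 214) (nat_lit 5) (nat_lit 647) (nat_lit 579) (nat_lit 334)) (XT.nd (nat_lit 78) (nat_lit 0) (nat_lit 0) (XT.lf (nat_lit 0) (nat_lit 9884567270) (nat_lit 456) (nat_lit 12565685615) (nat_lit 532) (nat_lit 5671481363) (nat_lit 207) (nat_lit 5) (nat_lit 213) (nat_lit 5) (nat_lit 214) (nat_lit 5) (nat_lit 648) (nat_lit 579) (nat_lit 333)) (XT.lf (nat_lit 0) (nat_lit 26424830810) (nat_lit 456) (nat_lit 1722947792) (nat_lit 532) (nat_lit 315289609) (nat_lit 207) (nat_lit 5) (nat_lit 213) (nat_lit 5) (nat_lit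 214) (nat_lit 5) (nat_lit 649) (nat_lit 579) (nat_lit 332)))) (XT.nd (nat_lit 78) (nat_lit 456) (nat_lit 0) (XT.lf (nat_lit 0) (nat_lit 5233633522) (nat_lit 608) (nat_lit 14231653489) (nat_lit 76) (nat_lit 9342211197) (nat_lit 199) (nat_lit 5) (nat_lit 207) (nat_lit 5) (nat_lit 200) (nat_lit 5) (nat_lit 650) (nat_lit 579) (nat_lit 331)) (XT.nd (nat_lit 78) (nat_lit 0) (nat_lit 0) (XT.lf (nat_lit 0) (nat_lit 2404515637) (nat_lit 456) (nat_lit 8522239108) (nat_lit 532) (nat_lit 18231271887) (nat_lit 193) (nat_lit 5) (nat_lit 199) (nat_lit 5) (nat_lit 200) (nat_lit 5) (nat_lit 651) (nat_lit 579) (nat_lit 330)) (XT.lf (nat_lit 0) (nat_lit 16843684776) (nat_lit 532) (nat_lit 9969856484) (nat_lit 76) (nat_lit 2699825764) (nat_lit 193) (nat_lit 5) (nat_lit 200) (nat_lit 5) (nat_lit 194) (nat_lit 5) (nat_lit 652) (nat_lit 579) (nat_lit 329)))))) (XT.nd (nat_lit 75660) (nat_lit 0) (nat_lit 21812) (XT.nd (nat_lit 234) (nat_lit 0) (nat_lit 0) (XT.nd (nat_lit 78) (nat_lit 532) (nat_lit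 0) (XT.lf (nat_lit 0) (nat_lit 7182574475) (nat_lit 456) (nat_lit 15796190410) (nat_lit 532) (nat_lit 6895053428) (nat_lit 187) (nat_lit 5) (nat_lit 193) (nat_lit 5) (nat_lit 194) (nat_lit 5) (nat_lit 653) (nat_lit 579) (nat_lit 328)) (XT.nd (nat_lit 78) (nat_lit 532) (nat_lit 0) (XT.lf (nat_lit 0) (nat_lit 24808570005) (nat_lit 456) (nat_lit 4491652247) (nat_lit 532) (nat_lit 939983180) (nat_lit 187) (nat_lit 5) (nat_lit 193) (nat_lit 5) (nat_lit 194) (nat_lit 5) (nat_lit 654) (nat_lit 579) (nat_lit 327)) (XT.lf (nat_lit 0) (nat_lit 5189946667) (nat_lit 532) (nat_lit 18361641273) (nat_lit 76) (nat_lit 7059204082) (nat_lit 180) (nat_lit 5) (nat_lit 187) (nat_lit 5) (nat_lit 181) (nat_lit 5) (nat_lit 655) (nat_lit 579) (nat_lit 326)))) (XT.nd (nat_lit 75270) (nat_lit 0) (nat_lit 21812) (XT.lf (nat_lit 0) (nat_lit 11493175596) (nat_lit 532) (nat_lit 671698051) (nat_lit 76) (nat_lit 18822526991) (nat_lit 180) (nat_lit 5) (nat_lit 187) (nat_lit 5) (nat_lit 181) (nat_lit 5)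 (nat_lit 656) (nat_lit 579) (nat_lit 325)) (XT.nd (nat_lit 78) (nat_lit 0) (nat_lit 0) (XT.lf (nat_lit 0) (nat_lit 246045810) (nat_lit 0) (nat_lit 246045810) (nat_lit 1748) (nat_lit 6301255218) (nat_lit 467) (nat_lit 5) (nat_lit 467) (nat_lit 3) (nat_lit 490) (nat_lit 3) (nat_lit 580) (nat_lit 580) (nat_lit 400)) (XT.lf (nat_lit 0) (nat_lit 1398303992) (nat_lit 1748) (nat_lit 6472248489) (nat_lit 1824) (nat_lit 5843865250) (nat_lit 467) (nat_lit 5) (nat_lit 490) (nat_lit 3) (nat_lit 491) (nat_lit 5) (nat_lit 581) (nat_lit 580) (nat_lit 399))))) (XT.nd (nat_lit 234) (nat_lit 0) (nat_lit 152) (XT.nd (nat_lit 78) (nat_lit 0) (nat_lit 76) (XT.lf (nat_lit 76) (nat_lit 277915648) (nat_lit 0) (nat_lit 1538290040) (nat_lit 1824) (nat_lit 12028582108) (nat_lit 468) (nat_lit 5) (nat_lit 467) (nat_lit 5) (nat_lit 491) (nat_lit 5) (nat_lit 582) (nat_lit 580) (nat_lit 398)) (XT.nd (nat_lit 78) (nat_lit 0) (nat_lit 0) (XT.lf (nat_lit 0) (nat_lit 2308752241) (nat_lit 1748) (nat_lit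 6763523916) (nat_lit 1824) (nat_lit 4904164844) (nat_lit 468) (nat_lit 5) (nat_lit 491) (nat_lit 5) (nat_lit 492) (nat_lit 5) (nat_lit 583) (nat_lit 580) (nat_lit 397)) (XT.lf (nat_lit 76) (nat_lit 162732457) (nat_lit 0) (nat_lit 2650464207) (nat_lit 1824) (nat_lit 11297491111) (nat_lit 469) (nat_lit 5) (nat_lit 468) (nat_lit 5) (nat_lit 492) (nat_lit 5) (nat_lit 584) (nat_lit 580) (nat_lit 396)))) (XT.nd (nat_lit 156) (nat_lit 0) (nat_lit 76) (XT.nd (nat_lit 78) (nat_lit 0) (nat_lit 0) (XT.lf (nat_lit 0) (nat_lit 3389713589) (nat_lit 1748) (nat_lit 6958417383) (nat_lit 1824) (nat_lit 3898250257) (nat_lit 469) (nat_lit 5) (nat_lit 492) (nat_lit 5) (nat_lit 493) (nat_lit 5) (nat_lit 585) (nat_lit 580) (nat_lit 395)) (XT.lf (nat_lit 76) (nat_lit 150150982) (nat_lit 0) (nat_lit 3837290676) (nat_lit 1824) (nat_lit 10397154666) (nat_lit 470) (nat_lit 5) (nat_lit 469) (nat_lit 5) (nat_lit 493) (nat_lit 5) (nat_lit 586) (nat_lit 580) (nat_lit 394))) (XT.nd (nat_lit 78) (nat_lit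 0) (nat_lit 0) (XT.lf (nat_lit 0) (nat_lit 4653648480) (nat_lit 1748) (nat_lit 7053282504) (nat_lit 1824) (nat_lit 2817515616) (nat_lit 470) (nat_lit 5) (nat_lit 493) (nat_lit 5) (nat_lit 494) (nat_lit 5) (nat_lit 587) (nat_lit 580) (nat_lit 393)) (XT.lf (nat_lit 76) (nat_lit 244055211) (nat_lit 0) (nat_lit 5107607982) (nat_lit 1824) (nat_lit 9315062346) (nat_lit 471) (nat_lit 5) (nat_lit 470) (nat_lit 5) (nat_lit 494) (nat_lit 5) (nat_lit 588) (nat_lit 580) (nat_lit 392))))))) (XT.nd (nat_lit 936) (nat_lit 5168) (nat_lit 0) (XT.nd (nat_lit 468) (nat_lit 1520) (nat_lit 0) (XT.nd (nat_lit 234) (nat_lit 0) (nat_lit 76) (XT.nd (nat_lit 78) (nat_lit 0) (nat_lit 0) (XT.lf (nat_lit 0) (nat_lit 6113465491) (nat_lit 1748) (nat_lit 7044202031) (nat_lit 1824) (nat_lit 1653187299) (nat_lit 471) (nat_lit 5) (nat_lit 494) (nat_lit 5) (nat_lit 495) (nat_lit 5) (nat_lit 589) (nat_lit 580) (nat_lit 391)) (XT.nd (nat_lit 78) (nat_lit 0) (nat_lit 76) (XT.lf (nat_lit 76) (nat_lit 448607927)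 (nat_lit 0) (nat_lit 6470438150) (nat_lit 1824) (nat_lit 8038251050) (nat_lit 472) (nat_lit 5) (nat_lit 471) (nat_lit 5) (nat_lit 495) (nat_lit 5) (nat_lit 590) (nat_lit 580) (nat_lit 390)) (XT.lf (nat_lit 0) (nat_lit 7782546802) (nat_lit 1748) (nat_lit 6926983950) (nat_lit 1824) (nat_lit 396302615) (nat_lit 472) (nat_lit 5) (nat_lit 495) (nat_lit 5) (nat_lit 496) (nat_lit 5) (nat_lit 591) (nat_lit 580) (nat_lit 389)))) (XT.nd (nat_lit 78) (nat_lit 0) (nat_lit 0) (XT.lf (nat_lit 76) (nat_lit 768254921) (nat_lit 0) (nat_lit 7935008344) (nat_lit 1824) (nat_lit 6553279384) (nat_lit 473) (nat_lit 5) (nat_lit 472) (nat_lit 5) (nat_lit 496) (nat_lit 5) (nat_lit 592) (nat_lit 580) (nat_lit 388)) (XT.nd (nat_lit 78) (nat_lit 0) (nat_lit 76) (XT.lf (nat_lit 76) (nat_lit 8706004996) (nat_lit 0) (nat_lit 975100302) (nat_lit 1824) (nat_lit 5728387803) (nat_lit 473) (nat_lit 5) (nat_lit 472) (nat_lit 5) (nat_lit 496) (nat_lit 5) (nat_lit 593) (nat_lit 580) (nat_lit 387)) (XT.lf (nat_lit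 76) (nat_lit 1207729684) (nat_lit 0) (nat_lit 9510772711) (nat_lit 1824) (nat_lit 4846201388) (nat_lit 474) (nat_lit 5) (nat_lit 473) (nat_lit 5) (nat_lit 497) (nat_lit 5) (nat_lit 594) (nat_lit 580) (nat_lit 386))))) (XT.nd (nat_lit 234) (nat_lit 1672) (nat_lit 0) (XT.nd (nat_lit 78) (nat_lit 0) (nat_lit 76) (XT.lf (nat_lit 76) (nat_lit 9356174867) (nat_lit 0) (nat_lit 2464381919) (nat_lit 1824) (nat_lit 3901584867) (nat_lit 474) (nat_lit 5) (nat_lit 473) (nat_lit 5) (nat_lit 497) (nat_lit 5) (nat_lit 595) (nat_lit 580) (nat_lit 385)) (XT.nd (nat_lit 78) (nat_lit 0) (nat_lit 0) (XT.lf (nat_lit 76) (nat_lit 1772058565) (nat_lit 0) (nat_lit 11207434467) (nat_lit 1824) (nat_lit 2902539573) (nat_lit 475) (nat_lit 5) (nat_lit 474) (nat_lit 5) (nat_lit 498) (nat_lit 5) (nat_lit 596) (nat_lit 580) (nat_lit 384)) (XT.lf (nat_lit 76) (nat_lit 10137256328) (nat_lit 0) (nat_lit 4076063665) (nat_lit 1824) (nat_lit 1830768260) (nat_lit 475) (nat_lit 5) (nat_lit 474) (nat_lit 5) (nat_lit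 498) (nat_lit 5) (nat_lit 597) (nat_lit 580) (nat_lit 383)))) (XT.nd (nat_lit 78) (nat_lit 1824) (nat_lit 0) (XT.lf (nat_lit 76) (nat_lit 2466566385) (nat_lit 0) (nat_lit 13034968286) (nat_lit 1824) (nat_lit 707257215) (nat_lit 476) (nat_lit 5) (nat_lit 475) (nat_lit 5) (nat_lit 499) (nat_lit 5) (nat_lit 598) (nat_lit 580) (nat_lit 382)) (XT.nd (nat_lit 78) (nat_lit 0) (nat_lit 76) (XT.lf (nat_lit 0) (nat_lit 492854443) (nat_lit 1824) (nat_lit 5324052023) (nat_lit 1900) (nat_lit 10558629520) (nat_lit 451) (nat_lit 5) (nat_lit 475) (nat_lit 5) (nat_lit 476) (nat_lit 5) (nat_lit 599) (nat_lit 580) (nat_lit 381)) (XT.lf (nat_lit 0) (nat_lit 1732249449) (nat_lit 1824) (nat_lit 13259769279) (nat_lit 1900) (nat_lit 1553008749) (nat_lit 452) (nat_lit 5) (nat_lit 476) (nat_lit 5) (nat_lit 477) (nat_lit 5) (nat_lit 600) (nat_lit 580) (nat_lit 380)))))) (XT.nd (nat_lit 468) (nat_lit 3724) (nat_lit 0) (XT.nd (nat_lit 234) (nat_lit 1520) (nat_lit 0) (XT.nd (nat_lit 78) (nat_lit 0)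 (nat_lit 0) (XT.lf (nat_lit 0) (nat_lit 3064156019) (nat_lit 1824) (nat_lit 4622485482) (nat_lit 1900) (nat_lit 9029913833) (nat_lit 452) (nat_lit 5) (nat_lit 476) (nat_lit 5) (nat_lit 477) (nat_lit 5) (nat_lit 601) (nat_lit 580) (nat_lit 379)) (XT.nd (nat_lit 78) (nat_lit 0) (nat_lit 76) (XT.lf (nat_lit 76) (nat_lit 4237774522) (nat_lit 0) (nat_lit 205810553) (nat_lit 1900) (nat_lit 12447511979) (nat_lit 453) (nat_lit 5) (nat_lit 452) (nat_lit 5) (nat_lit 477) (nat_lit 5) (nat_lit 602) (nat_lit 580) (nat_lit 378)) (XT.lf (nat_lit 0) (nat_lit 5923506461) (nat_lit 1824) (nat_lit 3784474629) (nat_lit 1900) (nat_lit 7359691414) (nat_lit 453) (nat_lit 5) (nat_lit 477) (nat_lit 5) (nat_lit 478) (nat_lit 5) (nat_lit 603) (nat_lit 580) (nat_lit 377)))) (XT.nd (nat_lit 78) (nat_lit 1596) (nat_lit 0) (XT.lf (nat_lit 76) (nat_lit 5324877852) (nat_lit 0) (nat_lit 2137685362) (nat_lit 1900) (nat_lit 9784626466) (nat_lit 454) (nat_lit 5) (nat_lit 453) (nat_lit 5) (nat_lit 478) (nat_lit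 5) (nat_lit 604) (nat_lit 580) (nat_lit 376)) (XT.nd (nat_lit 78) (nat_lit 1672) (nat_lit 0) (XT.lf (nat_lit 0) (nat_lit 9087919012) (nat_lit 1824) (nat_lit 2803940183) (nat_lit 76) (nat_lit 5537328580) (nat_lit 454) (nat_lit 5) (nat_lit 478) (nat_lit 5) (nat_lit 455) (nat_lit 5) (nat_lit 605) (nat_lit 580) (nat_lit 375)) (XT.lf (nat_lit 0) (nat_lit 6563384243) (nat_lit 1672) (nat_lit 4232990706) (nat_lit 1748) (nat_lit 6817439938) (nat_lit 432) (nat_lit 5) (nat_lit 454) (nat_lit 5) (nat_lit 455) (nat_lit 5) (nat_lit 606) (nat_lit 580) (nat_lit 374))))) (XT.nd (nat_lit 234) (nat_lit 2736) (nat_lit 0) (XT.nd (nat_lit 78) (nat_lit 988) (nat_lit 0) (XT.lf (nat_lit 0) (nat_lit 12575092275) (nat_lit 1748) (nat_lit 1674487603) (nat_lit 76) (nat_lit 3551833717) (nat_lit 432) (nat_lit 5) (nat_lit 455) (nat_lit 5) (nat_lit 433) (nat_lit 5) (nat_lit 607) (nat_lit 580) (nat_lit 373)) (XT.nd (nat_lit 78) (nat_lit 0) (nat_lit 0) (XT.lf (nat_lit 0) (nat_lit 7960014268) (nat_lit 988)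 (nat_lit 6503117897) (nat_lit 1064) (nat_lit 3528158027) (nat_lit 419) (nat_lit 5) (nat_lit 432) (nat_lit 5) (nat_lit 433) (nat_lit 5) (nat_lit 608) (nat_lit 580) (nat_lit 372)) (XT.lf (nat_lit 0) (nat_lit 16403442469) (nat_lit 1064) (nat_lit 389399598) (nat_lit 76) (nat_lit 1391832925) (nat_lit 419) (nat_lit 5) (nat_lit 433) (nat_lit 5) (nat_lit 420) (nat_lit 5) (nat_lit 609) (nat_lit 580) (nat_lit 371)))) (XT.nd (nat_lit 156) (nat_lit 836) (nat_lit 0) (XT.nd (nat_lit 78) (nat_lit 912) (nat_lit 0) (XT.lf (nat_lit 0) (nat_lit 100403099) (nat_lit 988) (nat_lit 8858784007) (nat_lit 76) (nat_lit 9420745534) (nat_lit 406) (nat_lit 5) (nat_lit 419) (nat_lit 5) (nat_lit 407) (nat_lit 5) (nat_lit 610) (nat_lit 580) (nat_lit 370)) (XT.lf (nat_lit 0) (nat_lit 1052789793) (nat_lit 912) (nat_lit 946794650) (nat_lit 988) (nat_lit 16579201057) (nat_lit 394) (nat_lit 5) (nat_lit 406) (nat_lit 5) (nat_lit 407) (nat_lit 5) (nat_lit 611) (nat_lit 580) (nat_lit 369))) (XT.nd (nat_lit 78)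 (nat_lit 836) (nat_lit 0) (XT.lf (nat_lit 0) (nat_lit 4037860739) (nat_lit 988) (nat_lit 7550484907) (nat_lit 76) (nat_lit 7191248342) (nat_lit 394) (nat_lit 5) (nat_lit 407) (nat_lit 5) (nat_lit 395) (nat_lit 5) (nat_lit 612) (nat_lit 580) (nat_lit 368)) (XT.lf (nat_lit 0) (nat_lit 2647669056) (nat_lit 836) (nat_lit 3487160317) (nat_lit 912) (nat_lit 12849231519) (nat_lit 383) (nat_lit 5) (nat_lit 394) (nat_lit 5) (nat_lit 395) (nat_lit 5) (nat_lit 613) (nat_lit 580) (nat_lit 367))))))))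
noncomputable def xc209 : XT := (XT.nd (nat_lit 1950) (nat_lit 5396) (nat_lit 0) (XT.nd (nat_lit 936) (nat_lit 5320) (nat_lit 0) (XT.nd (nat_lit 468) (nat_lit 2204) (nat_lit 0) (XT.nd (nat_lit 234) (nat_lit 1672) (nat_lit 0) (XT.nd (nat_lit 78) (nat_lit 836) (nat_lit 0) (XT.lf (nat_lit 0) (nat_lit 8350291463) (nat_lit 912) (nat_lit 6076211313) (nat_lit 76) (nat_lit 4764584043) (nat_lit 383) (nat_lit 5) (nat_lit 395) (nat_lit 5) (nat_lit 384) (nat_lit 5) (nat_lit 614) (nat_lit 580) (nat_lit 366)) (XT.nd (nat_lit 78) (nat_lit 0) (nat_lit 0) (XT.lf (nat_lit 0) (nat_lit 4418739829) (nat_lit 836) (nat_lit 6237754692) (nat_lit 912) (nat_lit 8744830862) (nat_lit 372) (nat_lit 5) (nat_lit 383) (nat_lit 5) (nat_lit 384) (nat_lit 5) (nat_lit 615) (nat_lit 580) (nat_lit 365)) (XT.lf (nat_lit 0) (nat_lit 13058316237) (nat_lit 912) (nat_lit 4428362568) (nat_lit 76) (nat_lit 2128100757) (nat_lit 372) (nat_lit 5) (nat_lit 384) (nat_lit 5) (nat_lit 373) (nat_lit 5) (nat_lit 616) (nat_lit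 580) (nat_lit 364)))) (XT.nd (nat_lit 78) (nat_lit 912) (nat_lit 0) (XT.lf (nat_lit 0) (nat_lit 6373972738) (nat_lit 760) (nat_lit 9211718391) (nat_lit 836) (nat_lit 4245262083) (nat_lit 362) (nat_lit 5) (nat_lit 372) (nat_lit 5) (nat_lit 373) (nat_lit 5) (nat_lit 617) (nat_lit 580) (nat_lit 363)) (XT.nd (nat_lit 78) (nat_lit 912) (nat_lit 0) (XT.lf (nat_lit 0) (nat_lit 17447158661) (nat_lit 760) (nat_lit 741062147) (nat_lit 836) (nat_lit 1862738090) (nat_lit 362) (nat_lit 5) (nat_lit 372) (nat_lit 5) (nat_lit 373) (nat_lit 5) (nat_lit 618) (nat_lit 580) (nat_lit 362)) (XT.lf (nat_lit 0) (nat_lit 662270765) (nat_lit 912) (nat_lit 11755990148) (nat_lit 76) (nat_lit 7854985253) (nat_lit 350) (nat_lit 5) (nat_lit 362) (nat_lit 5) (nat_lit 351) (nat_lit 5) (nat_lit 619) (nat_lit 580) (nat_lit 361))))) (XT.nd (nat_lit 234) (nat_lit 684) (nat_lit 0) (XT.nd (nat_lit 78) (nat_lit 1520) (nat_lit 0) (XT.lf (nat_lit 0) (nat_lit 3230378564) (nat_lit 912) (nat_lit 626214465) (nat_lit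 76) (nat_lit 16642789748) (nat_lit 350) (nat_lit 5) (nat_lit 362) (nat_lit 5) (nat_lit 351) (nat_lit 5) (nat_lit 620) (nat_lit 580) (nat_lit 360)) (XT.nd (nat_lit 78) (nat_lit 760) (nat_lit 0) (XT.lf (nat_lit 0) (nat_lit 5947625888) (nat_lit 836) (nat_lit 9897372963) (nat_lit 76) (nat_lit 4883088377) (nat_lit 340) (nat_lit 5) (nat_lit 351) (nat_lit 5) (nat_lit 341) (nat_lit 5) (nat_lit 621) (nat_lit 580) (nat_lit 359)) (XT.lf (nat_lit 0) (nat_lit 1553583609) (nat_lit 760) (nat_lit 7200671257) (nat_lit 836) (nat_lit 12206410808) (nat_lit 330) (nat_lit 5) (nat_lit 340) (nat_lit 5) (nat_lit 341) (nat_lit 5) (nat_lit 622) (nat_lit 580) (nat_lit 358)))) (XT.nd (nat_lit 78) (nat_lit 684) (nat_lit 0) (XT.lf (nat_lit 0) (nat_lit 11689606112) (nat_lit 836) (nat_lit 7845052969) (nat_lit 76) (nat_lit 1661785442) (nat_lit 330) (nat_lit 5) (nat_lit 341) (nat_lit 5) (nat_lit 331) (nat_lit 5) (nat_lit 623) (nat_lit 580) (nat_lit 357)) (XT.nd (nat_lit 78) (nat_lit 0) (nat_lit 0) (XT.lf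 (nat_lit 0) (nat_lit 3947129906) (nat_lit 684) (nat_lit 10805179400) (nat_lit 760) (nat_lit 6683257363) (nat_lit 321) (nat_lit 5) (nat_lit 330) (nat_lit 5) (nat_lit 331) (nat_lit 5) (nat_lit 624) (nat_lit 580) (nat_lit 356)) (XT.lf (nat_lit 0) (nat_lit 16076364639) (nat_lit 684) (nat_lit 1847935552) (nat_lit 760) (nat_lit 3754210998) (nat_lit 321) (nat_lit 5) (nat_lit 330) (nat_lit 5) (nat_lit 331) (nat_lit 5) (nat_lit 625) (nat_lit 580) (nat_lit 355)))))) (XT.nd (nat_lit 468) (nat_lit 2508) (nat_lit 0) (XT.nd (nat_lit 234) (nat_lit 1292) (nat_lit 0) (XT.nd (nat_lit 78) (nat_lit 760) (nat_lit 0) (XT.lf (nat_lit 0) (nat_lit 6555402706) (nat_lit 760) (nat_lit 14689687956) (nat_lit 836) (nat_lit 679517335) (nat_lit 311) (nat_lit 5) (nat_lit 321) (nat_lit 5) (nat_lit 322) (nat_lit 5) (nat_lit 626) (nat_lit 580) (nat_lit 354)) (XT.nd (nat_lit 78) (nat_lit 684) (nat_lit 0) (XT.lf (nat_lit 0) (nat_lit 2470032610) (nat_lit 836) (nat_lit 3176417869) (nat_lit 76) (nat_lit 16527946185)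 (nat_lit 310) (nat_lit 5) (nat_lit 321) (nat_lit 5) (nat_lit 311) (nat_lit 5) (nat_lit 627) (nat_lit 580) (nat_lit 353)) (XT.lf (nat_lit 0) (nat_lit 5753590238) (nat_lit 760) (nat_lit 13078004335) (nat_lit 76) (nat_lit 3595894946) (nat_lit 301) (nat_lit 5) (nat_lit 311) (nat_lit 5) (nat_lit 302) (nat_lit 5) (nat_lit 628) (nat_lit 580) (nat_lit 352)))) (XT.nd (nat_lit 78) (nat_lit 1292) (nat_lit 0) (XT.lf (nat_lit 0) (nat_lit 9157308969) (nat_lit 760) (nat_lit 558885829) (nat_lit 76) (nat_lit 12968360184) (nat_lit 301) (nat_lit 5) (nat_lit 311) (nat_lit 5) (nat_lit 302) (nat_lit 5) (nat_lit 629) (nat_lit 580) (nat_lit 351)) (XT.nd (nat_lit 78) (nat_lit 608) (nat_lit 0) (XT.lf (nat_lit 0) (nat_lit 12367824711) (nat_lit 684) (nat_lit 337302622) (nat_lit 760) (nat_lit 10240114453) (nat_lit 292) (nat_lit 5) (nat_lit 301) (nat_lit 5) (nat_lit 302) (nat_lit 5) (nat_lit 630) (nat_lit 580) (nat_lit 350)) (XT.lf (nat_lit 0) (nat_lit 2314948347) (nat_lit 608) (nat_lit 14083452952)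 (nat_lit 684) (nat_lit 6811251567) (nat_lit 284) (nat_lit 5) (nat_lit 292) (nat_lit 5) (nat_lit 293) (nat_lit 5) (nat_lit 631) (nat_lit 580) (nat_lit 349))))) (XT.nd (nat_lit 234) (nat_lit 1748) (nat_lit 0) (XT.nd (nat_lit 78) (nat_lit 760) (nat_lit 0) (XT.lf (nat_lit 0) (nat_lit 15601266564) (nat_lit 608) (nat_lit 4633295605) (nat_lit 684) (nat_lit 3243410087) (nat_lit 284) (nat_lit 5) (nat_lit 292) (nat_lit 5) (nat_lit 293) (nat_lit 5) (nat_lit 632) (nat_lit 580) (nat_lit 348)) (XT.nd (nat_lit 78) (nat_lit 0) (nat_lit 0) (XT.lf (nat_lit 0) (nat_lit 454709526) (nat_lit 760) (nat_lit 18317927206) (nat_lit 76) (nat_lit 4977688160) (nat_lit 274) (nat_lit 5) (nat_lit 284) (nat_lit 5) (nat_lit 275) (nat_lit 5) (nat_lit 633) (nat_lit 580) (nat_lit 347)) (XT.lf (nat_lit 0) (nat_lit 4263213639) (nat_lit 760) (nat_lit 4970138613) (nat_lit 76) (nat_lit 14792747010) (nat_lit 274) (nat_lit 5) (nat_lit 284) (nat_lit 5) (nat_lit 275) (nat_lit 5) (nat_lit 634) (nat_lit 580) (nat_lit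 346)))) (XT.nd (nat_lit 156) (nat_lit 1140) (nat_lit 0) (XT.nd (nat_lit 78) (nat_lit 0) (nat_lit 0) (XT.lf (nat_lit 0) (nat_lit 8204323247) (nat_lit 684) (nat_lit 15555418798) (nat_lit 76) (nat_lit 546518841) (nat_lit 266) (nat_lit 5) (nat_lit 275) (nat_lit 5) (nat_lit 267) (nat_lit 5) (nat_lit 635) (nat_lit 580) (nat_lit 345)) (XT.lf (nat_lit 0) (nat_lit 12315016734) (nat_lit 684) (nat_lit 1844068049) (nat_lit 76) (nat_lit 10431126194) (nat_lit 266) (nat_lit 5) (nat_lit 275) (nat_lit 5) (nat_lit 267) (nat_lit 5) (nat_lit 636) (nat_lit 580) (nat_lit 344))) (XT.nd (nat_lit 78) (nat_lit 532) (nat_lit 0) (XT.lf (nat_lit 0) (nat_lit 12297942192) (nat_lit 608) (nat_lit 4285946468) (nat_lit 684) (nat_lit 8294432577) (nat_lit 258) (nat_lit 5) (nat_lit 266) (nat_lit 5) (nat_lit 267) (nat_lit 5) (nat_lit 637) (nat_lit 580) (nat_lit 343)) (XT.lf (nat_lit 0) (nat_lit 1553684277) (nat_lit 532) (nat_lit 19440712272) (nat_lit 608) (nat_lit 4176672432) (nat_lit 251) (nat_lit 5) (nat_lit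 258) (nat_lit 5) (nat_lit 259) (nat_lit 5) (nat_lit 638) (nat_lit 580) (nat_lit 342))))))) (XT.nd (nat_lit 936) (nat_lit 2052) (nat_lit 0) (XT.nd (nat_lit 468) (nat_lit 1596) (nat_lit 0) (XT.nd (nat_lit 234) (nat_lit 1064) (nat_lit 0) (XT.nd (nat_lit 78) (nat_lit 608) (nat_lit 0) (XT.lf (nat_lit 0) (nat_lit 132673979) (nat_lit 608) (nat_lit 9361034202) (nat_lit 76) (nat_lit 15973770116) (nat_lit 250) (nat_lit 5) (nat_lit 258) (nat_lit 5) (nat_lit 251) (nat_lit 5) (nat_lit 639) (nat_lit 580) (nat_lit 341)) (XT.nd (nat_lit 78) (nat_lit 0) (nat_lit 0) (XT.lf (nat_lit 0) (nat_lit 4507087154) (nat_lit 684) (nat_lit 20556917724) (nat_lit 76) (nat_lit 704563078) (nat_lit 242) (nat_lit 5) (nat_lit 251) (nat_lit 5) (nat_lit 243) (nat_lit 5) (nat_lit 640) (nat_lit 580) (nat_lit 340)) (XT.lf (nat_lit 0) (nat_lit 9091379487) (nat_lit 684) (nat_lit 5939886277) (nat_lit 76) (nat_lit 11041966241) (nat_lit 242) (nat_lit 5) (nat_lit 251) (nat_lit 5) (nat_lit 243) (nat_lit 5) (nat_lit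 641) (nat_lit 580) (nat_lit 339)))) (XT.nd (nat_lit 78) (nat_lit 532) (nat_lit 0) (XT.lf (nat_lit 0) (nat_lit 9083862875) (nat_lit 532) (nat_lit 4738831273) (nat_lit 608) (nat_lit 12560188866) (nat_lit 235) (nat_lit 5) (nat_lit 242) (nat_lit 5) (nat_lit 243) (nat_lit 5) (nat_lit 642) (nat_lit 580) (nat_lit 338)) (XT.nd (nat_lit 78) (nat_lit 532) (nat_lit 0) (XT.lf (nat_lit 0) (nat_lit 18722544435) (nat_lit 608) (nat_lit 2251777481) (nat_lit 76) (nat_lit 5722927338) (nat_lit 235) (nat_lit 5) (nat_lit 243) (nat_lit 5) (nat_lit 236) (nat_lit 5) (nat_lit 643) (nat_lit 580) (nat_lit 337)) (XT.lf (nat_lit 0) (nat_lit 13233892693) (nat_lit 532) (nat_lit 10600267403) (nat_lit 608) (nat_lit 3181467746) (nat_lit 228) (nat_lit 5) (nat_lit 235) (nat_lit 5) (nat_lit 236) (nat_lit 5) (nat_lit 644) (nat_lit 580) (nat_lit 336))))) (XT.nd (nat_lit 234) (nat_lit 456) (nat_lit 0) (XT.nd (nat_lit 78) (nat_lit 532) (nat_lit 0) (XT.lf (nat_lit 0) (nat_lit 1708254906) (nat_lit 608) (nat_lit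 25613345514) (nat_lit 76) (nat_lit 18091882) (nat_lit 220) (nat_lit 5) (nat_lit 228) (nat_lit 5) (nat_lit 221) (nat_lit 5) (nat_lit 645) (nat_lit 580) (nat_lit 335)) (XT.nd (nat_lit 78) (nat_lit 532) (nat_lit 0) (XT.lf (nat_lit 0) (nat_lit 6813016128) (nat_lit 608) (nat_lit 10033611942) (nat_lit 76) (nat_lit 10819992879) (nat_lit 220) (nat_lit 5) (nat_lit 228) (nat_lit 5) (nat_lit 221) (nat_lit 5) (nat_lit 646) (nat_lit 580) (nat_lit 334)) (XT.lf (nat_lit 0) (nat_lit 5930846774) (nat_lit 532) (nat_lit 6124109787) (nat_lit 608) (nat_lit 15944430290) (nat_lit 213) (nat_lit 5) (nat_lit 220) (nat_lit 5) (nat_lit 221) (nat_lit 5) (nat_lit 647) (nat_lit 580) (nat_lit 333)))) (XT.nd (nat_lit 78) (nat_lit 456) (nat_lit 0) (XT.lf (nat_lit 0) (nat_lit 17497366857) (nat_lit 608) (nat_lit 6023235783) (nat_lit 76) (nat_lit 4816293163) (nat_lit 213) (nat_lit 5) (nat_lit 221) (nat_lit 5) (nat_lit 214) (nat_lit 5) (nat_lit 648) (nat_lit 580) (nat_lit 332)) (XT.nd (nat_lit 78) (nat_lit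 0) (nat_lit 0) (XT.lf (nat_lit 0) (nat_lit 10434679022) (nat_lit 456) (nat_lit 12718924826) (nat_lit 532) (nat_lit 5525451864) (nat_lit 207) (nat_lit 5) (nat_lit 213) (nat_lit 5) (nat_lit 214) (nat_lit 5) (nat_lit 649) (nat_lit 580) (nat_lit 331)) (XT.lf (nat_lit 0) (nat_lit 27298837629) (nat_lit 456) (nat_lit 1661255276) (nat_lit 532) (nat_lit 67223709) (nat_lit 207) (nat_lit 5) (nat_lit 213) (nat_lit 5) (nat_lit 214) (nat_lit 5) (nat_lit 650) (nat_lit 580) (nat_lit 330)))))) (XT.nd (nat_lit 75738) (nat_lit 0) (nat_lit 21812) (XT.nd (nat_lit 234) (nat_lit 988) (nat_lit 0) (XT.nd (nat_lit 78) (nat_lit 456) (nat_lit 0) (XT.lf (nat_lit 0) (nat_lit 5587307356) (nat_lit 608) (nat_lit 14165355761) (nat_lit 76) (nat_lit 9625980247) (nat_lit 199) (nat_lit 5) (nat_lit 207) (nat_lit 5) (nat_lit 200) (nat_lit 5) (nat_lit 651) (nat_lit 580) (nat_lit 329)) (XT.nd (nat_lit 78) (nat_lit 0) (nat_lit 0) (XT.lf (nat_lit 0) (nat_lit 2801227993) (nat_lit 456) (nat_lit 8590444120) (nat_lit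 532) (nat_lit 18344563107) (nat_lit 193) (nat_lit 5) (nat_lit 199) (nat_lit 5) (nat_lit 200) (nat_lit 5) (nat_lit 652) (nat_lit 580) (nat_lit 328)) (XT.lf (nat_lit 0) (nat_lit 17422760512) (nat_lit 532) (nat_lit 9823263242) (nat_lit 76) (nat_lit 2852742746) (nat_lit 193) (nat_lit 5) (nat_lit 200) (nat_lit 5) (nat_lit 194) (nat_lit 5) (nat_lit 653) (nat_lit 580) (nat_lit 327)))) (XT.nd (nat_lit 78) (nat_lit 532) (nat_lit 0) (XT.lf (nat_lit 0) (nat_lit 7669940084) (nat_lit 456) (nat_lit 16008084700) (nat_lit 532) (nat_lit 6788452848) (nat_lit 187) (nat_lit 5) (nat_lit 193) (nat_lit 5) (nat_lit 194) (nat_lit 5) (nat_lit 654) (nat_lit 580) (nat_lit 326)) (XT.nd (nat_lit 78) (nat_lit 532) (nat_lit 0) (XT.lf (nat_lit 0) (nat_lit 25641716032) (nat_lit 456) (nat_lit 4479495568) (nat_lit 532) (nat_lit 719075345) (nat_lit 187) (nat_lit 5) (nat_lit 193) (nat_lit 5) (nat_lit 194) (nat_lit 5) (nat_lit 655) (nat_lit 580) (nat_lit 325)) (XT.lf (nat_lit 0) (nat_lit 5528538514) (nat_lit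 532) (nat_lit 18386940430) (nat_lit 76) (nat_lit 7302811052) (nat_lit 180) (nat_lit 5) (nat_lit 187) (nat_lit 5) (nat_lit 181) (nat_lit 5) (nat_lit 656) (nat_lit 580) (nat_lit 324))))) (XT.nd (nat_lit 234) (nat_lit 0) (nat_lit 76) (XT.nd (nat_lit 78) (nat_lit 0) (nat_lit 0) (XT.lf (nat_lit 0) (nat_lit 432695331) (nat_lit 0) (nat_lit 432695331) (nat_lit 1748) (nat_lit 6056497036) (nat_lit 467) (nat_lit 5) (nat_lit 467) (nat_lit 3) (nat_lit 490) (nat_lit 3) (nat_lit 581) (nat_lit 581) (nat_lit 398)) (XT.nd (nat_lit 78) (nat_lit 0) (nat_lit 0) (XT.lf (nat_lit 0) (nat_lit 2136617729) (nat_lit 1748) (nat_lit 6228684468) (nat_lit 1824) (nat_lit 5609085299) (nat_lit 467) (nat_lit 5) (nat_lit 490) (nat_lit 3) (nat_lit 491) (nat_lit 5) (nat_lit 582) (nat_lit 581) (nat_lit 397)) (XT.lf (nat_lit 76) (nat_lit 654028945) (nat_lit 0) (nat_lit 1897326018) (nat_lit 1824) (nat_lit 11556242638) (nat_lit 468) (nat_lit 5) (nat_lit 467) (nat_lit 5) (nat_lit 491) (nat_lit 5) (nat_lit 583)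 (nat_lit 581) (nat_lit 396)))) (XT.nd (nat_lit 156) (nat_lit 0) (nat_lit 76) (XT.nd (nat_lit 78) (nat_lit 0) (nat_lit 0) (XT.lf (nat_lit 0) (nat_lit 3037960436) (nat_lit 1748) (nat_lit 6519605882) (nat_lit 1824) (nat_lit 4684635538) (nat_lit 468) (nat_lit 5) (nat_lit 491) (nat_lit 5) (nat_lit 492) (nat_lit 5) (nat_lit 584) (nat_lit 581) (nat_lit 395)) (XT.lf (nat_lit 76) (nat_lit 542680957) (nat_lit 0) (nat_lit 2998865730) (nat_lit 1824) (nat_lit 10837807924) (nat_lit 469) (nat_lit 5) (nat_lit 468) (nat_lit 5) (nat_lit 492) (nat_lit 5) (nat_lit 585) (nat_lit 581) (nat_lit 394))) (XT.nd (nat_lit 78) (nat_lit 0) (nat_lit 0) (XT.lf (nat_lit 0) (nat_lit 4114535515) (nat_lit 1748) (nat_lit 6713116464) (nat_lit 1824) (nat_lit 3690413187) (nat_lit 469) (nat_lit 5) (nat_lit 492) (nat_lit 5) (nat_lit 493) (nat_lit 5) (nat_lit 586) (nat_lit 581) (nat_lit 393)) (XT.lf (nat_lit 76) (nat_lit 535093865) (nat_lit 0) (nat_lit 4178721192) (nat_lit 1824) (nat_lit 9945439590) (nat_lit 470)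 (nat_lit 5) (nat_lit 469) (nat_lit 5) (nat_lit 493) (nat_lit 5) (nat_lit 587) (nat_lit 581) (nat_lit 392))))))))
noncomputable def xc210 : XT := (XT.nd (nat_lit 1950) (nat_lit 9728) (nat_lit 0) (XT.nd (nat_lit 936) (nat_lit 5776) (nat_lit 0) (XT.nd (nat_lit 468) (nat_lit 0) (nat_lit 152) (XT.nd (nat_lit 234) (nat_lit 0) (nat_lit 76) (XT.nd (nat_lit 78) (nat_lit 0) (nat_lit 0) (XT.lf (nat_lit 0) (nat_lit 5378982290) (nat_lit 1748) (nat_lit 6805434452) (nat_lit 1824) (nat_lit 2617774443) (nat_lit 470) (nat_lit 5) (nat_lit 493) (nat_lit 5) (nat_lit 494) (nat_lit 5) (nat_lit 588) (nat_lit 581) (nat_lit 391)) (XT.nd (nat_lit 78) (nat_lit 0) (nat_lit 76) (XT.lf (nat_lit 76) (nat_lit 635291375) (nat_lit 0) (nat_lit 5445777125) (nat_lit 1824) (nat_lit 8866446923) (nat_lit 471) (nat_lit 5) (nat_lit 470) (nat_lit 5) (nat_lit 494) (nat_lit 5) (nat_lit 589) (nat_lit 581) (nat_lit 390)) (XT.lf (nat_lit 0) (nat_lit 6844401138) (nat_lit 1748) (nat_lit 6792505616) (nat_lit 1824) (nat_lit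 1457896556) (nat_lit 471) (nat_lit 5) (nat_lit 494) (nat_lit 5) (nat_lit 495) (nat_lit 5) (nat_lit 590) (nat_lit 581) (nat_lit 389)))) (XT.nd (nat_lit 78) (nat_lit 0) (nat_lit 76) (XT.lf (nat_lit 76) (nat_lit 847577775) (nat_lit 0) (nat_lit 6809113050) (nat_lit 1824) (nat_lit 7587673556) (nat_lit 472) (nat_lit 5) (nat_lit 471) (nat_lit 5) (nat_lit 495) (nat_lit 5) (nat_lit 591) (nat_lit 581) (nat_lit 388)) (XT.nd (nat_lit 78) (nat_lit 0) (nat_lit 0) (XT.lf (nat_lit 0) (nat_lit 8524379240) (nat_lit 1748) (nat_lit 6669999048) (nat_lit 1824) (nat_lit 201756535) (nat_lit 472) (nat_lit 5) (nat_lit 495) (nat_lit 5) (nat_lit 496) (nat_lit 5) (nat_lit 592) (nat_lit 581) (nat_lit 387)) (XT.lf (nat_lit 76) (nat_lit 1176542465) (nat_lit 0) (nat_lit 8278024926) (nat_lit 1824) (nat_lit 6095471549) (nat_lit 473) (nat_lit 5) (nat_lit 472) (nat_lit 5) (nat_lit 496) (nat_lit 5) (nat_lit 593) (nat_lit 581) (nat_lit 386))))) (XT.nd (nat_lit 234) (nat_lit 0) (nat_lit 152) (XT.nd (nat_lit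 78) (nat_lit 0) (nat_lit 76) (XT.lf (nat_lit 76) (nat_lit 9265343180) (nat_lit 0) (nat_lit 1175304676) (nat_lit 1824) (nat_lit 5265628674) (nat_lit 473) (nat_lit 5) (nat_lit 472) (nat_lit 5) (nat_lit 496) (nat_lit 5) (nat_lit 594) (nat_lit 581) (nat_lit 385)) (XT.nd (nat_lit 78) (nat_lit 0) (nat_lit 0) (XT.lf (nat_lit 76) (nat_lit 1627064943) (nat_lit 0) (nat_lit 9862047011) (nat_lit 1824) (nat_lit 4375674815) (nat_lit 474) (nat_lit 5) (nat_lit 473) (nat_lit 5) (nat_lit 497) (nat_lit 5) (nat_lit 595) (nat_lit 581) (nat_lit 384)) (XT.lf (nat_lit 76) (nat_lit 9930730390) (nat_lit 0) (nat_lit 2671570387) (nat_lit 1824) (nat_lit 3423292446) (nat_lit 474) (nat_lit 5) (nat_lit 473) (nat_lit 5) (nat_lit 497) (nat_lit 5) (nat_lit 596) (nat_lit 581) (nat_lit 383)))) (XT.nd (nat_lit 78) (nat_lit 0) (nat_lit 0) (XT.lf (nat_lit 76) (nat_lit 2204320271) (nat_lit 0) (nat_lit 11570974002) (nat_lit 1824) (nat_lit 2413571809) (nat_lit 475) (nat_lit 5) (nat_lit 474) (nat_lit 5) (nat_lit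 498) (nat_lit 5) (nat_lit 597) (nat_lit 581) (nat_lit 382)) (XT.nd (nat_lit 78) (nat_lit 0) (nat_lit 76) (XT.lf (nat_lit 76) (nat_lit 10729041195) (nat_lit 0) (nat_lit 4294242630) (nat_lit 1824) (nat_lit 1331090924) (nat_lit 475) (nat_lit 5) (nat_lit 474) (nat_lit 5) (nat_lit 498) (nat_lit 5) (nat_lit 598) (nat_lit 581) (nat_lit 381)) (XT.lf (nat_lit 76) (nat_lit 2913784980) (nat_lit 0) (nat_lit 13414883497) (nat_lit 1824) (nat_lit 193877458) (nat_lit 476) (nat_lit 5) (nat_lit 475) (nat_lit 5) (nat_lit 499) (nat_lit 5) (nat_lit 599) (nat_lit 581) (nat_lit 380)))))) (XT.nd (nat_lit 468) (nat_lit 4332) (nat_lit 0) (XT.nd (nat_lit 234) (nat_lit 0) (nat_lit 76) (XT.nd (nat_lit 78) (nat_lit 0) (nat_lit 76) (XT.lf (nat_lit 0) (nat_lit 1013109882) (nat_lit 1824) (nat_lit 5033587952) (nat_lit 1900) (nat_lit 10646064275) (nat_lit 451) (nat_lit 5) (nat_lit 475) (nat_lit 5) (nat_lit 476) (nat_lit 5) (nat_lit 600) (nat_lit 581) (nat_lit 379)) (XT.nd (nat_lit 78) (nat_lit 0) (nat_lit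 0) (XT.lf (nat_lit 0) (nat_lit 2269140038) (nat_lit 1824) (nat_lit 13119791675) (nat_lit 1900) (nat_lit 1476876274) (nat_lit 452) (nat_lit 5) (nat_lit 476) (nat_lit 5) (nat_lit 477) (nat_lit 5) (nat_lit 601) (nat_lit 581) (nat_lit 378)) (XT.lf (nat_lit 0) (nat_lit 3617836787) (nat_lit 1824) (nat_lit 4317706770) (nat_lit 1900) (nat_lit 9105421277) (nat_lit 452) (nat_lit 5) (nat_lit 476) (nat_lit 5) (nat_lit 477) (nat_lit 5) (nat_lit 602) (nat_lit 581) (nat_lit 377)))) (XT.nd (nat_lit 78) (nat_lit 0) (nat_lit 76) (XT.lf (nat_lit 76) (nat_lit 4717145089) (nat_lit 0) (nat_lit 300616582) (nat_lit 1900) (nat_lit 12201379015) (nat_lit 453) (nat_lit 5) (nat_lit 452) (nat_lit 5) (nat_lit 477) (nat_lit 5) (nat_lit 603) (nat_lit 581) (nat_lit 376)) (XT.nd (nat_lit 78) (nat_lit 0) (nat_lit 0) (XT.lf (nat_lit 0) (nat_lit 6517188430) (nat_lit 1824) (nat_lit 3463122746) (nat_lit 1900) (nat_lit 7419139748) (nat_lit 453) (nat_lit 5) (nat_lit 477) (nat_lit 5) (nat_lit 478) (nat_lit 5)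 (nat_lit 604) (nat_lit 581) (nat_lit 375)) (XT.lf (nat_lit 76) (nat_lit 5825804671) (nat_lit 0) (nat_lit 2254464663) (nat_lit 1900) (nat_lit 9502425635) (nat_lit 454) (nat_lit 5) (nat_lit 453) (nat_lit 5) (nat_lit 478) (nat_lit 5) (nat_lit 605) (nat_lit 581) (nat_lit 374))))) (XT.nd (nat_lit 234) (nat_lit 2888) (nat_lit 0) (XT.nd (nat_lit 78) (nat_lit 1672) (nat_lit 0) (XT.lf (nat_lit 0) (nat_lit 9728475659) (nat_lit 1824) (nat_lit 2463598998) (nat_lit 76) (nat_lit 5576452862) (nat_lit 454) (nat_lit 5) (nat_lit 478) (nat_lit 5) (nat_lit 455) (nat_lit 5) (nat_lit 606) (nat_lit 581) (nat_lit 373)) (XT.nd (nat_lit 78) (nat_lit 0) (nat_lit 0) (XT.lf (nat_lit 0) (nat_lit 7088463891) (nat_lit 1672) (nat_lit 4376197669) (nat_lit 1748) (nat_lit 6492315731) (nat_lit 432) (nat_lit 5) (nat_lit 454) (nat_lit 5) (nat_lit 455) (nat_lit 5) (nat_lit 607) (nat_lit 581) (nat_lit 372)) (XT.lf (nat_lit 0) (nat_lit 13269710772) (nat_lit 1748) (nat_lit 1312579332) (nat_lit 76) (nat_lit 3566224026)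 (nat_lit 432) (nat_lit 5) (nat_lit 455) (nat_lit 5) (nat_lit 433) (nat_lit 5) (nat_lit 608) (nat_lit 581) (nat_lit 371)))) (XT.nd (nat_lit 156) (nat_lit 1900) (nat_lit 0) (XT.nd (nat_lit 78) (nat_lit 0) (nat_lit 0) (XT.lf (nat_lit 0) (nat_lit 8512011273) (nat_lit 988) (nat_lit 6677361921) (nat_lit 1064) (nat_lit 3152939112) (nat_lit 419) (nat_lit 5) (nat_lit 432) (nat_lit 5) (nat_lit 433) (nat_lit 5) (nat_lit 609) (nat_lit 581) (nat_lit 370)) (XT.lf (nat_lit 0) (nat_lit 17159640270) (nat_lit 1064) (nat_lit 3180468) (nat_lit 76) (nat_lit 1376922313) (nat_lit 419) (nat_lit 5) (nat_lit 433) (nat_lit 5) (nat_lit 420) (nat_lit 5) (nat_lit 610) (nat_lit 581) (nat_lit 369))) (XT.nd (nat_lit 78) (nat_lit 912) (nat_lit 0) (XT.lf (nat_lit 0) (nat_lit 527544102) (nat_lit 988) (nat_lit 8638834501) (nat_lit 76) (nat_lit 9572589608) (nat_lit 406) (nat_lit 5) (nat_lit 419) (nat_lit 5) (nat_lit 407) (nat_lit 5) (nat_lit 611) (nat_lit 581) (nat_lit 368)) (XT.lf (nat_lit 0) (nat_lit 1468358109)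 (nat_lit 912) (nat_lit 990576460) (nat_lit 988) (nat_lit 16482980234) (nat_lit 394) (nat_lit 5) (nat_lit 406) (nat_lit 5) (nat_lit 407) (nat_lit 5) (nat_lit 612) (nat_lit 581) (nat_lit 367))))))) (XT.nd (nat_lit 936) (nat_lit 4864) (nat_lit 0) (XT.nd (nat_lit 468) (nat_lit 2432) (nat_lit 0) (XT.nd (nat_lit 234) (nat_lit 1596) (nat_lit 0) (XT.nd (nat_lit 78) (nat_lit 836) (nat_lit 0) (XT.lf (nat_lit 0) (nat_lit 4529595525) (nat_lit 988) (nat_lit 7306278680) (nat_lit 76) (nat_lit 7311034036) (nat_lit 394) (nat_lit 5) (nat_lit 407) (nat_lit 5) (nat_lit 395) (nat_lit 5) (nat_lit 613) (nat_lit 581) (nat_lit 366)) (XT.nd (nat_lit 78) (nat_lit 0) (nat_lit 0) (XT.lf (nat_lit 0) (nat_lit 3093238257) (nat_lit 836) (nat_lit 3569756013) (nat_lit 912) (nat_lit 12692581537) (nat_lit 383) (nat_lit 5) (nat_lit 394) (nat_lit 5) (nat_lit 395) (nat_lit 5) (nat_lit 614) (nat_lit 581) (nat_lit 365)) (XT.lf (nat_lit 0) (nat_lit 8914733432) (nat_lit 912) (nat_lit 5804730078) (nat_lit 76) (nat_lit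 4847440502) (nat_lit 383) (nat_lit 5) (nat_lit 395) (nat_lit 5) (nat_lit 384) (nat_lit 5) (nat_lit 615) (nat_lit 581) (nat_lit 364)))) (XT.nd (nat_lit 78) (nat_lit 760) (nat_lit 0) (XT.lf (nat_lit 0) (nat_lit 4897534525) (nat_lit 836) (nat_lit 6364268025) (nat_lit 912) (nat_lit 8519651051) (nat_lit 372) (nat_lit 5) (nat_lit 383) (nat_lit 5) (nat_lit 384) (nat_lit 5) (nat_lit 616) (nat_lit 581) (nat_lit 363)) (XT.nd (nat_lit 78) (nat_lit 760) (nat_lit 0) (XT.lf (nat_lit 0) (nat_lit 13703959741) (nat_lit 912) (nat_lit 4126410599) (nat_lit 76) (nat_lit 2168961616) (nat_lit 372) (nat_lit 5) (nat_lit 384) (nat_lit 5) (nat_lit 373) (nat_lit 5) (nat_lit 617) (nat_lit 581) (nat_lit 362)) (XT.lf (nat_lit 0) (nat_lit 6889402207) (nat_lit 760) (nat_lit 9387459985) (nat_lit 836) (nat_lit 3943068338) (nat_lit 362) (nat_lit 5) (nat_lit 372) (nat_lit 5) (nat_lit 373) (nat_lit 5) (nat_lit 618) (nat_lit 581) (nat_lit 361))))) (XT.nd (nat_lit 234) (nat_lit 1520) (nat_lit 0) (XT.nd (nat_lit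 78) (nat_lit 912) (nat_lit 0) (XT.lf (nat_lit 0) (nat_lit 18176444985) (nat_lit 760) (nat_lit 747557141) (nat_lit 836) (nat_lit 1520484041) (nat_lit 362) (nat_lit 5) (nat_lit 372) (nat_lit 5) (nat_lit 373) (nat_lit 5) (nat_lit 619) (nat_lit 581) (nat_lit 360)) (XT.nd (nat_lit 78) (nat_lit 0) (nat_lit 0) (XT.lf (nat_lit 0) (nat_lit 1045274992) (nat_lit 912) (nat_lit 11600916674) (nat_lit 76) (nat_lit 8025074679) (nat_lit 350) (nat_lit 5) (nat_lit 362) (nat_lit 5) (nat_lit 351) (nat_lit 5) (nat_lit 620) (nat_lit 581) (nat_lit 359)) (XT.lf (nat_lit 0) (nat_lit 3657494774) (nat_lit 912) (nat_lit 256196326) (nat_lit 76) (nat_lit 16988380565) (nat_lit 350) (nat_lit 5) (nat_lit 362) (nat_lit 5) (nat_lit 351) (nat_lit 5) (nat_lit 621) (nat_lit 581) (nat_lit 358)))) (XT.nd (nat_lit 78) (nat_lit 760) (nat_lit 0) (XT.lf (nat_lit 0) (nat_lit 6424590273) (nat_lit 836) (nat_lit 9708233580) (nat_lit 76) (nat_lit 5002617239) (nat_lit 340) (nat_lit 5) (nat_lit 351) (nat_lit 5) (nat_lit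 341) (nat_lit 5) (nat_lit 622) (nat_lit 581) (nat_lit 357)) (XT.nd (nat_lit 78) (nat_lit 0) (nat_lit 0) (XT.lf (nat_lit 0) (nat_lit 1969195499) (nat_lit 760) (nat_lit 7313633181) (nat_lit 836) (nat_lit 12089933824) (nat_lit 330) (nat_lit 5) (nat_lit 340) (nat_lit 5) (nat_lit 341) (nat_lit 5) (nat_lit 623) (nat_lit 581) (nat_lit 356)) (XT.lf (nat_lit 0) (nat_lit 12270153454) (nat_lit 836) (nat_lit 7618174525) (nat_lit 76) (nat_lit 1725064538) (nat_lit 330) (nat_lit 5) (nat_lit 341) (nat_lit 5) (nat_lit 331) (nat_lit 5) (nat_lit 624) (nat_lit 581) (nat_lit 355)))))) (XT.nd (nat_lit 468) (nat_lit 2660) (nat_lit 0) (XT.nd (nat_lit 234) (nat_lit 760) (nat_lit 0) (XT.nd (nat_lit 78) (nat_lit 760) (nat_lit 0) (XT.lf (nat_lit 0) (nat_lit 4407327143) (nat_lit 684) (nat_lit 10982459805) (nat_lit 760) (nat_lit 6467597530) (nat_lit 321) (nat_lit 5) (nat_lit 330) (nat_lit 5) (nat_lit 331) (nat_lit 5) (nat_lit 625) (nat_lit 581) (nat_lit 354)) (XT.nd (nat_lit 78) (nat_lit 760) (nat_lit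 0) (XT.lf (nat_lit 0) (nat_lit 16771670990) (nat_lit 684) (nat_lit 1846832319) (nat_lit 760) (nat_lit 3486819748) (nat_lit 321) (nat_lit 5) (nat_lit 330) (nat_lit 5) (nat_lit 331) (nat_lit 5) (nat_lit 626) (nat_lit 581) (nat_lit 353)) (XT.lf (nat_lit 0) (nat_lit 7064299141) (nat_lit 760) (nat_lit 14937522890) (nat_lit 836) (nat_lit 354598384) (nat_lit 311) (nat_lit 5) (nat_lit 321) (nat_lit 5) (nat_lit 322) (nat_lit 5) (nat_lit 627) (nat_lit 581) (nat_lit 352)))) (XT.nd (nat_lit 78) (nat_lit 684) (nat_lit 0) (XT.lf (nat_lit 0) (nat_lit 2846952563) (nat_lit 836) (nat_lit 2865171425) (nat_lit 76) (nat_lit 16899168746) (nat_lit 310) (nat_lit 5) (nat_lit 321) (nat_lit 5) (nat_lit 311) (nat_lit 5) (nat_lit 628) (nat_lit 581) (nat_lit 351)) (XT.nd (nat_lit 78) (nat_lit 0) (nat_lit 0) (XT.lf (nat_lit 0) (nat_lit 6192493483) (nat_lit 760) (nat_lit 12961061096) (nat_lit 76) (nat_lit 3715967441) (nat_lit 301) (nat_lit 5) (nat_lit 311) (nat_lit 5) (nat_lit 302) (nat_lit 5) (nat_lit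 629) (nat_lit 581) (nat_lit 350)) (XT.lf (nat_lit 0) (nat_lit 9657936952) (nat_lit 760) (nat_lit 198981854) (nat_lit 76) (nat_lit 13274937775) (nat_lit 301) (nat_lit 5) (nat_lit 311) (nat_lit 5) (nat_lit 302) (nat_lit 5) (nat_lit 630) (nat_lit 581) (nat_lit 349))))) (XT.nd (nat_lit 234) (nat_lit 1368) (nat_lit 0) (XT.nd (nat_lit 78) (nat_lit 608) (nat_lit 0) (XT.lf (nat_lit 0) (nat_lit 12983821570) (nat_lit 684) (nat_lit 289058437) (nat_lit 760) (nat_lit 10124954528) (nat_lit 292) (nat_lit 5) (nat_lit 301) (nat_lit 5) (nat_lit 302) (nat_lit 5) (nat_lit 631) (nat_lit 581) (nat_lit 348)) (XT.nd (nat_lit 78) (nat_lit 0) (nat_lit 0) (XT.lf (nat_lit 0) (nat_lit 2733378289) (nat_lit 608) (nat_lit 14303257314) (nat_lit 684) (nat_lit 6630966677) (nat_lit 284) (nat_lit 5) (nat_lit 292) (nat_lit 5) (nat_lit 293) (nat_lit 5) (nat_lit 632) (nat_lit 581) (nat_lit 347)) (XT.lf (nat_lit 0) (nat_lit 16278126184) (nat_lit 608) (nat_lit 4665309855) (nat_lit 684) (nat_lit 2997974444) (nat_lit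 284) (nat_lit 5) (nat_lit 292) (nat_lit 5) (nat_lit 293) (nat_lit 5) (nat_lit 633) (nat_lit 581) (nat_lit 346)))) (XT.nd (nat_lit 156) (nat_lit 608) (nat_lit 0) (XT.nd (nat_lit 78) (nat_lit 0) (nat_lit 0) (XT.lf (nat_lit 0) (nat_lit 766827838) (nat_lit 760) (nat_lit 18312098801) (nat_lit 76) (nat_lit 5140308162) (nat_lit 274) (nat_lit 5) (nat_lit 284) (nat_lit 5) (nat_lit 275) (nat_lit 5) (nat_lit 634) (nat_lit 581) (nat_lit 345)) (XT.lf (nat_lit 0) (nat_lit 4645560384) (nat_lit 760) (nat_lit 4704652220) (nat_lit 76) (nat_lit 15150431595) (nat_lit 274) (nat_lit 5) (nat_lit 284) (nat_lit 5) (nat_lit 275) (nat_lit 5) (nat_lit 635) (nat_lit 581) (nat_lit 344))) (XT.nd (nat_lit 78) (nat_lit 0) (nat_lit 0) (XT.lf (nat_lit 0) (nat_lit 8662467754) (nat_lit 684) (nat_lit 15498578873) (nat_lit 76) (nat_lit 625423612) (nat_lit 266) (nat_lit 5) (nat_lit 275) (nat_lit 5) (nat_lit 267) (nat_lit 5) (nat_lit 636) (nat_lit 581) (nat_lit 343)) (XT.lf (nat_lit 0) (nat_lit 12849609266)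 (nat_lit 684) (nat_lit 1520215782) (nat_lit 76) (nat_lit 10706390281) (nat_lit 266) (nat_lit 5) (nat_lit 275) (nat_lit 5) (nat_lit 267) (nat_lit 5) (nat_lit 637) (nat_lit 581) (nat_lit 342))))))))
noncomputable def xc211 : XT := (XT.nd (nat_lit 77298) (nat_lit 0) (nat_lit 16644) (XT.nd (nat_lit 936) (nat_lit 1976) (nat_lit 0) (XT.nd (nat_lit 468) (nat_lit 1672) (nat_lit 0) (XT.nd (nat_lit 234) (nat_lit 1140) (nat_lit 0) (XT.nd (nat_lit 78) (nat_lit 608) (nat_lit 0) (XT.lf (nat_lit 0) (nat_lit 12902261417) (nat_lit 608) (nat_lit 4298271139) (nat_lit 684) (nat_lit 8169622426) (nat_lit 258) (nat_lit 5) (nat_lit 266) (nat_lit 5) (nat_lit 267) (nat_lit 5) (nat_lit 638) (nat_lit 581) (nat_lit 341)) (XT.nd (nat_lit 78) (nat_lit 76) (nat_lit 0) (XT.lf (nat_lit 0) (nat_lit 1945982285) (nat_lit 532) (nat_lit 19750493235) (nat_lit 608) (nat_lit 3972338316) (nat_lit 251) (nat_lit 5) (nat_lit 258) (nat_lit 5) (nat_lit 259) (nat_lit 5) (nat_lit 639) (nat_lit 581) (nat_lit 340)) (XT.lf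 (nat_lit 0) (nat_lit 413849154) (nat_lit 608) (nat_lit 9190380553) (nat_lit 76) (nat_lit 16366996288) (nat_lit 250) (nat_lit 5) (nat_lit 258) (nat_lit 5) (nat_lit 251) (nat_lit 5) (nat_lit 640) (nat_lit 581) (nat_lit 339)))) (XT.nd (nat_lit 78) (nat_lit 532) (nat_lit 0) (XT.lf (nat_lit 0) (nat_lit 4873118049) (nat_lit 684) (nat_lit 20607518384) (nat_lit 76) (nat_lit 797754282) (nat_lit 242) (nat_lit 5) (nat_lit 251) (nat_lit 5) (nat_lit 243) (nat_lit 5) (nat_lit 641) (nat_lit 581) (nat_lit 338)) (XT.nd (nat_lit 78) (nat_lit 532) (nat_lit 0) (XT.lf (nat_lit 0) (nat_lit 9543686637) (nat_lit 684) (nat_lit 5705215674) (nat_lit 76) (nat_lit 11340354530) (nat_lit 242) (nat_lit 5) (nat_lit 251) (nat_lit 5) (nat_lit 243) (nat_lit 5) (nat_lit 642) (nat_lit 581) (nat_lit 337)) (XT.lf (nat_lit 0) (nat_lit 9616683011) (nat_lit 532) (nat_lit 4749920911) (nat_lit 608) (nat_lit 12538558013) (nat_lit 235) (nat_lit 5) (nat_lit 242) (nat_lit 5) (nat_lit 243) (nat_lit 5) (nat_lit 643) (nat_lit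 581) (nat_lit 336))))) (XT.nd (nat_lit 234) (nat_lit 532) (nat_lit 0) (XT.nd (nat_lit 78) (nat_lit 1140) (nat_lit 0) (XT.lf (nat_lit 0) (nat_lit 19359739680) (nat_lit 608) (nat_lit 1947814731) (nat_lit 76) (nat_lit 5918355901) (nat_lit 235) (nat_lit 5) (nat_lit 243) (nat_lit 5) (nat_lit 236) (nat_lit 5) (nat_lit 644) (nat_lit 581) (nat_lit 335)) (XT.nd (nat_lit 78) (nat_lit 608) (nat_lit 0) (XT.lf (nat_lit 0) (nat_lit 13845272805) (nat_lit 532) (nat_lit 10725414020) (nat_lit 608) (nat_lit 2980028233) (nat_lit 228) (nat_lit 5) (nat_lit 235) (nat_lit 5) (nat_lit 236) (nat_lit 5) (nat_lit 645) (nat_lit 581) (nat_lit 334)) (XT.lf (nat_lit 0) (nat_lit 2001721017) (nat_lit 608) (nat_lit 25773087034) (nat_lit 76) (nat_lit 106464712) (nat_lit 220) (nat_lit 5) (nat_lit 228) (nat_lit 5) (nat_lit 221) (nat_lit 5) (nat_lit 646) (nat_lit 581) (nat_lit 333)))) (XT.nd (nat_lit 78) (nat_lit 532) (nat_lit 0) (XT.lf (nat_lit 0) (nat_lit 7203493129) (nat_lit 608) (nat_lit 9888671053) (nat_lit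 76) (nat_lit 11122678024) (nat_lit 220) (nat_lit 5) (nat_lit 228) (nat_lit 5) (nat_lit 221) (nat_lit 5) (nat_lit 647) (nat_lit 581) (nat_lit 332)) (XT.nd (nat_lit 78) (nat_lit 0) (nat_lit 0) (XT.lf (nat_lit 0) (nat_lit 6392803066) (nat_lit 532) (nat_lit 6154713850) (nat_lit 608) (nat_lit 16006802144) (nat_lit 213) (nat_lit 5) (nat_lit 220) (nat_lit 5) (nat_lit 221) (nat_lit 5) (nat_lit 648) (nat_lit 581) (nat_lit 331)) (XT.lf (nat_lit 0) (nat_lit 18094429644) (nat_lit 608) (nat_lit 5802721724) (nat_lit 76) (nat_lit 5001514256) (nat_lit 213) (nat_lit 5) (nat_lit 221) (nat_lit 5) (nat_lit 214) (nat_lit 5) (nat_lit 649) (nat_lit 581) (nat_lit 330)))))) (XT.nd (nat_lit 468) (nat_lit 0) (nat_lit 0) (XT.nd (nat_lit 234) (nat_lit 912) (nat_lit 0) (XT.nd (nat_lit 78) (nat_lit 608) (nat_lit 0) (XT.lf (nat_lit 0) (nat_lit 10982108096) (nat_lit 456) (nat_lit 12879037174) (nat_lit 532) (nat_lit 5386576889) (nat_lit 207) (nat_lit 5) (nat_lit 213) (nat_lit 5) (nat_lit 214) (nat_lit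 5) (nat_lit 650) (nat_lit 581) (nat_lit 329)) (XT.nd (nat_lit 78) (nat_lit 532) (nat_lit 0) (XT.lf (nat_lit 0) (nat_lit 173618645) (nat_lit 532) (nat_lit 1427278870) (nat_lit 76) (nat_lit 28002124284) (nat_lit 206) (nat_lit 5) (nat_lit 213) (nat_lit 5) (nat_lit 207) (nat_lit 5) (nat_lit 651) (nat_lit 581) (nat_lit 328)) (XT.lf (nat_lit 0) (nat_lit 5938385648) (nat_lit 608) (nat_lit 14111359148) (nat_lit 76) (nat_lit 9911660970) (nat_lit 199) (nat_lit 5) (nat_lit 207) (nat_lit 5) (nat_lit 200) (nat_lit 5) (nat_lit 652) (nat_lit 581) (nat_lit 327)))) (XT.nd (nat_lit 78) (nat_lit 456) (nat_lit 0) (XT.lf (nat_lit 0) (nat_lit 3192337177) (nat_lit 456) (nat_lit 8663983328) (nat_lit 532) (nat_lit 18469879765) (nat_lit 193) (nat_lit 5) (nat_lit 199) (nat_lit 5) (nat_lit 200) (nat_lit 5) (nat_lit 653) (nat_lit 581) (nat_lit 326)) (XT.nd (nat_lit 78) (nat_lit 456) (nat_lit 0) (XT.lf (nat_lit 0) (nat_lit 18004012762) (nat_lit 532) (nat_lit 9687173363) (nat_lit 76) (nat_lit 3004876867)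 (nat_lit 193) (nat_lit 5) (nat_lit 200) (nat_lit 5) (nat_lit 194) (nat_lit 5) (nat_lit 654) (nat_lit 581) (nat_lit 325)) (XT.lf (nat_lit 0) (nat_lit 8153706167) (nat_lit 456) (nat_lit 16228256469) (nat_lit 532) (nat_lit 6689214553) (nat_lit 187) (nat_lit 5) (nat_lit 193) (nat_lit 5) (nat_lit 194) (nat_lit 5) (nat_lit 655) (nat_lit 581) (nat_lit 324))))) (XT.nd (nat_lit 75582) (nat_lit 0) (nat_lit 21280) (XT.nd (nat_lit 75426) (nat_lit 0) (nat_lit 21280) (XT.lf (nat_lit 0) (nat_lit 26478439844) (nat_lit 456) (nat_lit 4471056141) (nat_lit 532) (nat_lit 503057487) (nat_lit 187) (nat_lit 5) (nat_lit 193) (nat_lit 5) (nat_lit 194) (nat_lit 5) (nat_lit 656) (nat_lit 581) (nat_lit 323)) (XT.nd (nat_lit 78) (nat_lit 0) (nat_lit 0) (XT.lf (nat_lit 0) (nat_lit 616021098) (nat_lit 0) (nat_lit 616021098) (nat_lit 1748) (nat_lit 5821241657) (nat_lit 467) (nat_lit 5) (nat_lit 467) (nat_lit 3) (nat_lit 490) (nat_lit 3) (nat_lit 582) (nat_lit 582) (nat_lit 396)) (XT.lf (nat_lit 0) (nat_lit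 2862114077) (nat_lit 1748) (nat_lit 5994733560) (nat_lit 1824) (nat_lit 5383265028) (nat_lit 467) (nat_lit 5) (nat_lit 490) (nat_lit 3) (nat_lit 491) (nat_lit 5) (nat_lit 583) (nat_lit 582) (nat_lit 395)))) (XT.nd (nat_lit 156) (nat_lit 0) (nat_lit 76) (XT.nd (nat_lit 78) (nat_lit 0) (nat_lit 76) (XT.lf (nat_lit 76) (nat_lit 1023275407) (nat_lit 0) (nat_lit 2250795584) (nat_lit 1824) (nat_lit 11102139587) (nat_lit 468) (nat_lit 5) (nat_lit 467) (nat_lit 5) (nat_lit 491) (nat_lit 5) (nat_lit 584) (nat_lit 582) (nat_lit 394)) (XT.lf (nat_lit 0) (nat_lit 3755229786) (nat_lit 1748) (nat_lit 6285533840) (nat_lit 1824) (nat_lit 4473048931) (nat_lit 468) (nat_lit 5) (nat_lit 491) (nat_lit 5) (nat_lit 492) (nat_lit 5) (nat_lit 585) (nat_lit 582) (nat_lit 393))) (XT.nd (nat_lit 78) (nat_lit 0) (nat_lit 76) (XT.lf (nat_lit 76) (nat_lit 915600946) (nat_lit 0) (nat_lit 3342764843) (nat_lit 1824) (nat_lit 10395555039) (nat_lit 469) (nat_lit 5) (nat_lit 468) (nat_lit 5) (nat_lit 492)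 (nat_lit 5) (nat_lit 586) (nat_lit 582) (nat_lit 392)) (XT.lf (nat_lit 0) (nat_lit 4828340695) (nat_lit 1748) (nat_lit 6477838936) (nat_lit 1824) (nat_lit 3489517418) (nat_lit 469) (nat_lit 5) (nat_lit 492) (nat_lit 5) (nat_lit 493) (nat_lit 5) (nat_lit 587) (nat_lit 582) (nat_lit 391))))))) (XT.nd (nat_lit 936) (nat_lit 4788) (nat_lit 0) (XT.nd (nat_lit 468) (nat_lit 0) (nat_lit 228) (XT.nd (nat_lit 234) (nat_lit 0) (nat_lit 152) (XT.nd (nat_lit 78) (nat_lit 0) (nat_lit 76) (XT.lf (nat_lit 76) (nat_lit 912904416) (nat_lit 0) (nat_lit 4516702289) (nat_lit 1824) (nat_lit 9510305543) (nat_lit 470) (nat_lit 5) (nat_lit 469) (nat_lit 5) (nat_lit 493) (nat_lit 5) (nat_lit 588) (nat_lit 582) (nat_lit 390)) (XT.nd (nat_lit 78) (nat_lit 0) (nat_lit 0) (XT.lf (nat_lit 0) (nat_lit 6094271318) (nat_lit 1748) (nat_lit 6567731432) (nat_lit 1824) (nat_lit 2423982790) (nat_lit 470) (nat_lit 5) (nat_lit 493) (nat_lit 5) (nat_lit 494) (nat_lit 5) (nat_lit 589) (nat_lit 582) (nat_lit 389))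 (XT.lf (nat_lit 76) (nat_lit 1019349623) (nat_lit 0) (nat_lit 5781544825) (nat_lit 1824) (nat_lit 8433513780) (nat_lit 471) (nat_lit 5) (nat_lit 470) (nat_lit 5) (nat_lit 494) (nat_lit 5) (nat_lit 590) (nat_lit 582) (nat_lit 388)))) (XT.nd (nat_lit 78) (nat_lit 0) (nat_lit 0) (XT.lf (nat_lit 0) (nat_lit 7566320243) (nat_lit 1748) (nat_lit 6551019651) (nat_lit 1824) (nat_lit 1267567282) (nat_lit 471) (nat_lit 5) (nat_lit 494) (nat_lit 5) (nat_lit 495) (nat_lit 5) (nat_lit 591) (nat_lit 582) (nat_lit 387)) (XT.nd (nat_lit 78) (nat_lit 0) (nat_lit 76) (XT.lf (nat_lit 76) (nat_lit 1239382935) (nat_lit 0) (nat_lit 7146435390) (nat_lit 1824) (nat_lit 7151823686) (nat_lit 472) (nat_lit 5) (nat_lit 471) (nat_lit 5) (nat_lit 495) (nat_lit 5) (nat_lit 592) (nat_lit 582) (nat_lit 386)) (XT.lf (nat_lit 0) (nat_lit 9258286185) (nat_lit 1748) (nat_lit 6423233150) (nat_lit 1824) (nat_lit 11181774) (nat_lit 472) (nat_lit 5) (nat_lit 495) (nat_lit 5) (nat_lit 496) (nat_lit 5) (nat_lit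 593) (nat_lit 582) (nat_lit 385))))) (XT.nd (nat_lit 234) (nat_lit 0) (nat_lit 76) (XT.nd (nat_lit 78) (nat_lit 0) (nat_lit 0) (XT.lf (nat_lit 76) (nat_lit 1577738102) (nat_lit 0) (nat_lit 8620744608) (nat_lit 1824) (nat_lit 5651374231) (nat_lit 473) (nat_lit 5) (nat_lit 472) (nat_lit 5) (nat_lit 496) (nat_lit 5) (nat_lit 594) (nat_lit 582) (nat_lit 384)) (XT.nd (nat_lit 78) (nat_lit 0) (nat_lit 76) (XT.lf (nat_lit 76) (nat_lit 9820909639) (nat_lit 0) (nat_lit 1372496244) (nat_lit 1824) (nat_lit 4816032669) (nat_lit 473) (nat_lit 5) (nat_lit 472) (nat_lit 5) (nat_lit 496) (nat_lit 5) (nat_lit 595) (nat_lit 582) (nat_lit 383)) (XT.lf (nat_lit 76) (nat_lit 2039441562) (nat_lit 0) (nat_lit 10214092686) (nat_lit 1824) (nat_lit 3917772510) (nat_lit 474) (nat_lit 5) (nat_lit 473) (nat_lit 5) (nat_lit 497) (nat_lit 5) (nat_lit 596) (nat_lit 582) (nat_lit 382)))) (XT.nd (nat_lit 78) (nat_lit 0) (nat_lit 76) (XT.lf (nat_lit 76) (nat_lit 10501732566) (nat_lit 0) (nat_lit 2876771142)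 (nat_lit 1824) (nat_lit 2957036920) (nat_lit 474) (nat_lit 5) (nat_lit 473) (nat_lit 5) (nat_lit 497) (nat_lit 5) (nat_lit 597) (nat_lit 582) (nat_lit 381)) (XT.nd (nat_lit 78) (nat_lit 0) (nat_lit 0) (XT.lf (nat_lit 76) (nat_lit 2629818187) (nat_lit 0) (nat_lit 11936371612) (nat_lit 1824) (nat_lit 1936066086) (nat_lit 475) (nat_lit 5) (nat_lit 474) (nat_lit 5) (nat_lit 498) (nat_lit 5) (nat_lit 598) (nat_lit 582) (nat_lit 380)) (XT.lf (nat_lit 76) (nat_lit 11317554872) (nat_lit 0) (nat_lit 4511478590) (nat_lit 1824) (nat_lit 842244940) (nat_lit 475) (nat_lit 5) (nat_lit 474) (nat_lit 5) (nat_lit 498) (nat_lit 5) (nat_lit 599) (nat_lit 582) (nat_lit 379)))))) (XT.nd (nat_lit 468) (nat_lit 3420) (nat_lit 0) (XT.nd (nat_lit 234) (nat_lit 0) (nat_lit 76) (XT.nd (nat_lit 78) (nat_lit 0) (nat_lit 0) (XT.lf (nat_lit 0) (nat_lit 305229123) (nat_lit 1824) (nat_lit 13490490344) (nat_lit 1900) (nat_lit 3047220127) (nat_lit 451) (nat_lit 5) (nat_lit 475) (nat_lit 5) (nat_lit 476)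 (nat_lit 5) (nat_lit 600) (nat_lit 582) (nat_lit 378)) (XT.nd (nat_lit 78) (nat_lit 0) (nat_lit 76) (XT.lf (nat_lit 0) (nat_lit 1523951040) (nat_lit 1824) (nat_lit 4752728461) (nat_lit 1900) (nat_lit 10740052616) (nat_lit 451) (nat_lit 5) (nat_lit 475) (nat_lit 5) (nat_lit 476) (nat_lit 5) (nat_lit 601) (nat_lit 582) (nat_lit 377)) (XT.lf (nat_lit 0) (nat_lit 2797265630) (nat_lit 1824) (nat_lit 12992747879) (nat_lit 1900) (nat_lit 1403383570) (nat_lit 452) (nat_lit 5) (nat_lit 476) (nat_lit 5) (nat_lit 477) (nat_lit 5) (nat_lit 602) (nat_lit 582) (nat_lit 376)))) (XT.nd (nat_lit 78) (nat_lit 0) (nat_lit 0) (XT.lf (nat_lit 0) (nat_lit 4163470769) (nat_lit 1824) (nat_lit 4022257347) (nat_lit 1900) (nat_lit 9186519674) (nat_lit 452) (nat_lit 5) (nat_lit 476) (nat_lit 5) (nat_lit 477) (nat_lit 5) (nat_lit 603) (nat_lit 582) (nat_lit 375)) (XT.nd (nat_lit 78) (nat_lit 0) (nat_lit 76) (XT.lf (nat_lit 76) (nat_lit 5190779683) (nat_lit 0) (nat_lit 393797135) (nat_lit 1900) (nat_lit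 11969548077) (nat_lit 453) (nat_lit 5) (nat_lit 452) (nat_lit 5) (nat_lit 477) (nat_lit 5) (nat_lit 604) (nat_lit 582) (nat_lit 374)) (XT.lf (nat_lit 0) (nat_lit 7104290982) (nat_lit 1824) (nat_lit 3150761425) (nat_lit 1900) (nat_lit 7483184313) (nat_lit 453) (nat_lit 5) (nat_lit 477) (nat_lit 5) (nat_lit 478) (nat_lit 5) (nat_lit 605) (nat_lit 582) (nat_lit 373))))) (XT.nd (nat_lit 234) (nat_lit 1976) (nat_lit 0) (XT.nd (nat_lit 78) (nat_lit 1596) (nat_lit 0) (XT.lf (nat_lit 76) (nat_lit 6321433857) (nat_lit 0) (nat_lit 2370705047) (nat_lit 1900) (nat_lit 9233137970) (nat_lit 454) (nat_lit 5) (nat_lit 453) (nat_lit 5) (nat_lit 478) (nat_lit 5) (nat_lit 606) (nat_lit 582) (nat_lit 372)) (XT.nd (nat_lit 78) (nat_lit 1672) (nat_lit 0) (XT.lf (nat_lit 0) (nat_lit 10364027744) (nat_lit 1824) (nat_lit 2131844461) (nat_lit 76) (nat_lit 5619140810) (nat_lit 454) (nat_lit 5) (nat_lit 478) (nat_lit 5) (nat_lit 455) (nat_lit 5) (nat_lit 607) (nat_lit 582) (nat_lit 371)) (XT.lf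 (nat_lit 0) (nat_lit 7608752933) (nat_lit 1672) (nat_lit 4519995314) (nat_lit 1748) (nat_lit 6178608600) (nat_lit 432) (nat_lit 5) (nat_lit 454) (nat_lit 5) (nat_lit 455) (nat_lit 5) (nat_lit 608) (nat_lit 582) (nat_lit 370)))) (XT.nd (nat_lit 156) (nat_lit 988) (nat_lit 0) (XT.nd (nat_lit 78) (nat_lit 988) (nat_lit 0) (XT.lf (nat_lit 0) (nat_lit 13961014879) (nat_lit 1748) (nat_lit 958786683) (nat_lit 76) (nat_lit 3583101788) (nat_lit 432) (nat_lit 5) (nat_lit 455) (nat_lit 5) (nat_lit 433) (nat_lit 5) (nat_lit 609) (nat_lit 582) (nat_lit 369)) (XT.lf (nat_lit 0) (nat_lit 9059795443) (nat_lit 988) (nat_lit 6853375199) (nat_lit 1064) (nat_lit 2787526081) (nat_lit 419) (nat_lit 5) (nat_lit 432) (nat_lit 5) (nat_lit 433) (nat_lit 5) (nat_lit 610) (nat_lit 582) (nat_lit 368))) (XT.nd (nat_lit 78) (nat_lit 76) (nat_lit 0) (XT.lf (nat_lit 0) (nat_lit 380452977) (nat_lit 912) (nat_lit 17536354433) (nat_lit 988) (nat_lit 985390592) (nat_lit 407) (nat_lit 5) (nat_lit 419) (nat_lit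 5) (nat_lit 420) (nat_lit 5) (nat_lit 611) (nat_lit 582) (nat_lit 367)) (XT.lf (nat_lit 0) (nat_lit 946719495) (nat_lit 988) (nat_lit 8429906859) (nat_lit 76) (nat_lit 9728890654) (nat_lit 406) (nat_lit 5) (nat_lit 419) (nat_lit 5) (nat_lit 407) (nat_lit 5) (nat_lit 612) (nat_lit 582) (nat_lit 366))))))))
noncomputable def xc212 : XT := (XT.nd (nat_lit 1950) (nat_lit 6004) (nat_lit 0) (XT.nd (nat_lit 936) (nat_lit 4864) (nat_lit 0) (XT.nd (nat_lit 468) (nat_lit 3192) (nat_lit 0) (XT.nd (nat_lit 234) (nat_lit 836) (nat_lit 0) (XT.nd (nat_lit 78) (nat_lit 836) (nat_lit 0) (XT.lf (nat_lit 0) (nat_lit 1876918390) (nat_lit 912) (nat_lit 1034269110) (nat_lit 988) (nat_lit 16401447178) (nat_lit 394) (nat_lit 5) (nat_lit 406) (nat_lit 5) (nat_lit 407) (nat_lit 5) (nat_lit 613) (nat_lit 582) (nat_lit 365)) (XT.nd (nat_lit 78) (nat_lit 836) (nat_lit 0) (XT.lf (nat_lit 0) (nat_lit 5015206246) (nat_lit 988) (nat_lit 7072535045) (nat_lit 76) (nat_lit 7434148917) (nat_lit 394) (nat_lit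 5) (nat_lit 407) (nat_lit 5) (nat_lit 395) (nat_lit 5) (nat_lit 614) (nat_lit 582) (nat_lit 364)) (XT.lf (nat_lit 0) (nat_lit 3532473091) (nat_lit 836) (nat_lit 3653504544) (nat_lit 912) (nat_lit 12548860491) (nat_lit 383) (nat_lit 5) (nat_lit 394) (nat_lit 5) (nat_lit 395) (nat_lit 5) (nat_lit 615) (nat_lit 582) (nat_lit 363)))) (XT.nd (nat_lit 78) (nat_lit 836) (nat_lit 0) (XT.lf (nat_lit 0) (nat_lit 9475031310) (nat_lit 912) (nat_lit 5543080100) (nat_lit 76) (nat_lit 4932436965) (nat_lit 383) (nat_lit 5) (nat_lit 395) (nat_lit 5) (nat_lit 384) (nat_lit 5) (nat_lit 616) (nat_lit 582) (nat_lit 362)) (XT.nd (nat_lit 78) (nat_lit 0) (nat_lit 0) (XT.lf (nat_lit 0) (nat_lit 5370744634) (nat_lit 836) (nat_lit 6493243351) (nat_lit 912) (nat_lit 8305503099) (nat_lit 372) (nat_lit 5) (nat_lit 383) (nat_lit 5) (nat_lit 384) (nat_lit 5) (nat_lit 617) (nat_lit 582) (nat_lit 361)) (XT.lf (nat_lit 0) (nat_lit 14347586398) (nat_lit 912) (nat_lit 3833583929) (nat_lit 76) (nat_lit 2210705749)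 (nat_lit 372) (nat_lit 5) (nat_lit 384) (nat_lit 5) (nat_lit 373) (nat_lit 5) (nat_lit 618) (nat_lit 582) (nat_lit 360))))) (XT.nd (nat_lit 234) (nat_lit 1520) (nat_lit 0) (XT.nd (nat_lit 78) (nat_lit 912) (nat_lit 0) (XT.lf (nat_lit 0) (nat_lit 7400075694) (nat_lit 760) (nat_lit 9567046195) (nat_lit 836) (nat_lit 3649862244) (nat_lit 362) (nat_lit 5) (nat_lit 372) (nat_lit 5) (nat_lit 373) (nat_lit 5) (nat_lit 619) (nat_lit 582) (nat_lit 359)) (XT.nd (nat_lit 78) (nat_lit 912) (nat_lit 0) (XT.lf (nat_lit 0) (nat_lit 18905547848) (nat_lit 760) (nat_lit 754505353) (nat_lit 836) (nat_lit 1186121702) (nat_lit 362) (nat_lit 5) (nat_lit 372) (nat_lit 5) (nat_lit 373) (nat_lit 5) (nat_lit 620) (nat_lit 582) (nat_lit 358)) (XT.lf (nat_lit 0) (nat_lit 1421581118) (nat_lit 912) (nat_lit 11457893412) (nat_lit 76) (nat_lit 8198061488) (nat_lit 350) (nat_lit 5) (nat_lit 362) (nat_lit 5) (nat_lit 351) (nat_lit 5) (nat_lit 621) (nat_lit 582) (nat_lit 357)))) (XT.nd (nat_lit 78) (nat_lit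 760) (nat_lit 0) (XT.lf (nat_lit 0) (nat_lit 107781155) (nat_lit 760) (nat_lit 3971995287) (nat_lit 836) (nat_lit 17233307312) (nat_lit 340) (nat_lit 5) (nat_lit 350) (nat_lit 5) (nat_lit 351) (nat_lit 5) (nat_lit 622) (nat_lit 582) (nat_lit 356)) (XT.nd (nat_lit 78) (nat_lit 760) (nat_lit 0) (XT.lf (nat_lit 0) (nat_lit 6897191908) (nat_lit 836) (nat_lit 9530342464) (nat_lit 76) (nat_lit 5123687552) (nat_lit 340) (nat_lit 5) (nat_lit 351) (nat_lit 5) (nat_lit 341) (nat_lit 5) (nat_lit 623) (nat_lit 582) (nat_lit 355)) (XT.lf (nat_lit 0) (nat_lit 2378187462) (nat_lit 760) (nat_lit 7430060111) (nat_lit 836) (nat_lit 11985130040) (nat_lit 330) (nat_lit 5) (nat_lit 340) (nat_lit 5) (nat_lit 341) (nat_lit 5) (nat_lit 624) (nat_lit 582) (nat_lit 354)))))) (XT.nd (nat_lit 468) (nat_lit 2660) (nat_lit 0) (XT.nd (nat_lit 234) (nat_lit 1520) (nat_lit 0) (XT.nd (nat_lit 78) (nat_lit 684) (nat_lit 0) (XT.lf (nat_lit 0) (nat_lit 12848846815) (nat_lit 836) (nat_lit 7401661137) (nat_lit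 76) (nat_lit 1788442595) (nat_lit 330) (nat_lit 5) (nat_lit 341) (nat_lit 5) (nat_lit 331) (nat_lit 5) (nat_lit 625) (nat_lit 582) (nat_lit 353)) (XT.nd (nat_lit 78) (nat_lit 0) (nat_lit 0) (XT.lf (nat_lit 0) (nat_lit 4861923742) (nat_lit 684) (nat_lit 11164793369) (nat_lit 760) (nat_lit 6261189216) (nat_lit 321) (nat_lit 5) (nat_lit 330) (nat_lit 5) (nat_lit 331) (nat_lit 5) (nat_lit 626) (nat_lit 582) (nat_lit 352)) (XT.lf (nat_lit 0) (nat_lit 17466369171) (nat_lit 684) (nat_lit 1847185013) (nat_lit 760) (nat_lit 3227379412) (nat_lit 321) (nat_lit 5) (nat_lit 330) (nat_lit 5) (nat_lit 331) (nat_lit 5) (nat_lit 627) (nat_lit 582) (nat_lit 351)))) (XT.nd (nat_lit 78) (nat_lit 760) (nat_lit 0) (XT.lf (nat_lit 0) (nat_lit 7568703522) (nat_lit 760) (nat_lit 15192099159) (nat_lit 836) (nat_lit 36325782) (nat_lit 311) (nat_lit 5) (nat_lit 321) (nat_lit 5) (nat_lit 322) (nat_lit 5) (nat_lit 628) (nat_lit 582) (nat_lit 350)) (XT.nd (nat_lit 78) (nat_lit 684) (nat_lit 0) (XT.lf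 (nat_lit 0) (nat_lit 3218692943) (nat_lit 836) (nat_lit 2562253015) (nat_lit 76) (nat_lit 17276236739) (nat_lit 310) (nat_lit 5) (nat_lit 321) (nat_lit 5) (nat_lit 311) (nat_lit 5) (nat_lit 629) (nat_lit 582) (nat_lit 349)) (XT.lf (nat_lit 0) (nat_lit 6627600022) (nat_lit 760) (nat_lit 12856476737) (nat_lit 76) (nat_lit 3836571483) (nat_lit 301) (nat_lit 5) (nat_lit 311) (nat_lit 5) (nat_lit 302) (nat_lit 5) (nat_lit 630) (nat_lit 582) (nat_lit 348))))) (XT.nd (nat_lit 234) (nat_lit 1368) (nat_lit 0) (XT.nd (nat_lit 78) (nat_lit 608) (nat_lit 0) (XT.lf (nat_lit 0) (nat_lit 155753380) (nat_lit 684) (nat_lit 10001507163) (nat_lit 760) (nat_lit 13431071555) (nat_lit 292) (nat_lit 5) (nat_lit 301) (nat_lit 5) (nat_lit 302) (nat_lit 5) (nat_lit 631) (nat_lit 582) (nat_lit 347)) (XT.nd (nat_lit 78) (nat_lit 608) (nat_lit 0) (XT.lf (nat_lit 0) (nat_lit 13597823612) (nat_lit 684) (nat_lit 241984706) (nat_lit 760) (nat_lit 10019915927) (nat_lit 292) (nat_lit 5) (nat_lit 301) (nat_lit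 5) (nat_lit 302) (nat_lit 5) (nat_lit 632) (nat_lit 582) (nat_lit 346)) (XT.lf (nat_lit 0) (nat_lit 3145726530) (nat_lit 608) (nat_lit 14529860046) (nat_lit 684) (nat_lit 6459366555) (nat_lit 284) (nat_lit 5) (nat_lit 292) (nat_lit 5) (nat_lit 293) (nat_lit 5) (nat_lit 633) (nat_lit 582) (nat_lit 345)))) (XT.nd (nat_lit 156) (nat_lit 608) (nat_lit 0) (XT.nd (nat_lit 78) (nat_lit 760) (nat_lit 0) (XT.lf (nat_lit 0) (nat_lit 16954356037) (nat_lit 608) (nat_lit 4700319567) (nat_lit 684) (nat_lit 2759679564) (nat_lit 284) (nat_lit 5) (nat_lit 292) (nat_lit 5) (nat_lit 293) (nat_lit 5) (nat_lit 634) (nat_lit 582) (nat_lit 344)) (XT.lf (nat_lit 0) (nat_lit 1073421720) (nat_lit 760) (nat_lit 18320606301) (nat_lit 76) (nat_lit 5303731624) (nat_lit 274) (nat_lit 5) (nat_lit 284) (nat_lit 5) (nat_lit 275) (nat_lit 5) (nat_lit 635) (nat_lit 582) (nat_lit 343))) (XT.nd (nat_lit 78) (nat_lit 608) (nat_lit 0) (XT.lf (nat_lit 0) (nat_lit 5024017989) (nat_lit 760) (nat_lit 4448025190)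 (nat_lit 76) (nat_lit 15512868951) (nat_lit 274) (nat_lit 5) (nat_lit 284) (nat_lit 5) (nat_lit 275) (nat_lit 5) (nat_lit 636) (nat_lit 582) (nat_lit 342)) (XT.lf (nat_lit 0) (nat_lit 9118356519) (nat_lit 684) (nat_lit 15454890030) (nat_lit 76) (nat_lit 703266949) (nat_lit 266) (nat_lit 5) (nat_lit 275) (nat_lit 5) (nat_lit 267) (nat_lit 5) (nat_lit 637) (nat_lit 582) (nat_lit 341))))))) (XT.nd (nat_lit 936) (nat_lit 1976) (nat_lit 0) (XT.nd (nat_lit 468) (nat_lit 2204) (nat_lit 0) (XT.nd (nat_lit 234) (nat_lit 684) (nat_lit 0) (XT.nd (nat_lit 78) (nat_lit 1140) (nat_lit 0) (XT.lf (nat_lit 0) (nat_lit 13383698912) (nat_lit 684) (nat_lit 1203894195) (nat_lit 76) (nat_lit 10984571875) (nat_lit 266) (nat_lit 5) (nat_lit 275) (nat_lit 5) (nat_lit 267) (nat_lit 5) (nat_lit 638) (nat_lit 582) (nat_lit 340)) (XT.nd (nat_lit 78) (nat_lit 532) (nat_lit 0) (XT.lf (nat_lit 0) (nat_lit 13504751456) (nat_lit 608) (nat_lit 4313692292) (nat_lit 684) (nat_lit 8053604261) (nat_lit 258)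 (nat_lit 5) (nat_lit 266) (nat_lit 5) (nat_lit 267) (nat_lit 5) (nat_lit 639) (nat_lit 582) (nat_lit 339)) (XT.lf (nat_lit 0) (nat_lit 2332099473) (nat_lit 532) (nat_lit 20069538776) (nat_lit 608) (nat_lit 3775095766) (nat_lit 251) (nat_lit 5) (nat_lit 258) (nat_lit 5) (nat_lit 259) (nat_lit 5) (nat_lit 640) (nat_lit 582) (nat_lit 338)))) (XT.nd (nat_lit 78) (nat_lit 608) (nat_lit 0) (XT.lf (nat_lit 0) (nat_lit 689832496) (nat_lit 608) (nat_lit 9030210527) (nat_lit 76) (nat_lit 16765223152) (nat_lit 250) (nat_lit 5) (nat_lit 258) (nat_lit 5) (nat_lit 251) (nat_lit 5) (nat_lit 641) (nat_lit 582) (nat_lit 337)) (XT.nd (nat_lit 78) (nat_lit 0) (nat_lit 0) (XT.lf (nat_lit 0) (nat_lit 5235756449) (nat_lit 684) (nat_lit 20673131175) (nat_lit 76) (nat_lit 889737764) (nat_lit 242) (nat_lit 5) (nat_lit 251) (nat_lit 5) (nat_lit 243) (nat_lit 5) (nat_lit 642) (nat_lit 582) (nat_lit 336)) (XT.lf (nat_lit 0) (nat_lit 9994536879) (nat_lit 684) (nat_lit 5479577266) (nat_lit 76) (nat_lit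 11641699264) (nat_lit 242) (nat_lit 5) (nat_lit 251) (nat_lit 5) (nat_lit 243) (nat_lit 5) (nat_lit 643) (nat_lit 582) (nat_lit 335))))) (XT.nd (nat_lit 234) (nat_lit 1140) (nat_lit 0) (XT.nd (nat_lit 78) (nat_lit 532) (nat_lit 0) (XT.lf (nat_lit 0) (nat_lit 10146524244) (nat_lit 532) (nat_lit 4764482010) (nat_lit 608) (nat_lit 12527089044) (nat_lit 235) (nat_lit 5) (nat_lit 242) (nat_lit 5) (nat_lit 243) (nat_lit 5) (nat_lit 644) (nat_lit 582) (nat_lit 334)) (XT.nd (nat_lit 78) (nat_lit 532) (nat_lit 0) (XT.lf (nat_lit 0) (nat_lit 19999476146) (nat_lit 608) (nat_lit 1651324756) (nat_lit 76) (nat_lit 6114548871) (nat_lit 235) (nat_lit 5) (nat_lit 243) (nat_lit 5) (nat_lit 236) (nat_lit 5) (nat_lit 645) (nat_lit 582) (nat_lit 333)) (XT.lf (nat_lit 0) (nat_lit 14455417648) (nat_lit 532) (nat_lit 10856436400) (nat_lit 608) (nat_lit 2784852877) (nat_lit 228) (nat_lit 5) (nat_lit 235) (nat_lit 5) (nat_lit 236) (nat_lit 5) (nat_lit 646) (nat_lit 582) (nat_lit 332)))) (XT.nd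 (nat_lit 78) (nat_lit 532) (nat_lit 0) (XT.lf (nat_lit 0) (nat_lit 2290987476) (nat_lit 608) (nat_lit 25949712374) (nat_lit 76) (nat_lit 193187425) (nat_lit 220) (nat_lit 5) (nat_lit 228) (nat_lit 5) (nat_lit 221) (nat_lit 5) (nat_lit 647) (nat_lit 582) (nat_lit 331)) (XT.nd (nat_lit 78) (nat_lit 532) (nat_lit 0) (XT.lf (nat_lit 0) (nat_lit 7591908127) (nat_lit 608) (nat_lit 9754251925) (nat_lit 76) (nat_lit 11428066308) (nat_lit 220) (nat_lit 5) (nat_lit 228) (nat_lit 5) (nat_lit 221) (nat_lit 5) (nat_lit 648) (nat_lit 582) (nat_lit 330)) (XT.lf (nat_lit 0) (nat_lit 6850666199) (nat_lit 532) (nat_lit 6189497735) (nat_lit 608) (nat_lit 16080382293) (nat_lit 213) (nat_lit 5) (nat_lit 220) (nat_lit 5) (nat_lit 221) (nat_lit 5) (nat_lit 649) (nat_lit 582) (nat_lit 329)))))) (XT.nd (nat_lit 468) (nat_lit 456) (nat_lit 0) (XT.nd (nat_lit 234) (nat_lit 988) (nat_lit 0) (XT.nd (nat_lit 78) (nat_lit 532) (nat_lit 0) (XT.lf (nat_lit 0) (nat_lit 18693837893) (nat_lit 608) (nat_lit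 5591038005) (nat_lit 76) (nat_lit 5186987860) (nat_lit 213) (nat_lit 5) (nat_lit 221) (nat_lit 5) (nat_lit 214) (nat_lit 5) (nat_lit 650) (nat_lit 582) (nat_lit 328)) (XT.nd (nat_lit 78) (nat_lit 76) (nat_lit 0) (XT.lf (nat_lit 0) (nat_lit 11527332239) (nat_lit 456) (nat_lit 13046012238) (nat_lit 532) (nat_lit 5254608300) (nat_lit 207) (nat_lit 5) (nat_lit 213) (nat_lit 5) (nat_lit 214) (nat_lit 5) (nat_lit 651) (nat_lit 582) (nat_lit 327)) (XT.lf (nat_lit 0) (nat_lit 409009074) (nat_lit 532) (nat_lit 1133521003) (nat_lit 76) (nat_lit 28647890443) (nat_lit 206) (nat_lit 5) (nat_lit 213) (nat_lit 5) (nat_lit 207) (nat_lit 5) (nat_lit 652) (nat_lit 582) (nat_lit 326)))) (XT.nd (nat_lit 78) (nat_lit 456) (nat_lit 0) (XT.lf (nat_lit 0) (nat_lit 6287191947) (nat_lit 608) (nat_lit 14069380519) (nat_lit 76) (nat_lit 10199437747) (nat_lit 199) (nat_lit 5) (nat_lit 207) (nat_lit 5) (nat_lit 200) (nat_lit 5) (nat_lit 653) (nat_lit 582) (nat_lit 325)) (XT.nd (nat_lit 78) (nat_lit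 0) (nat_lit 0) (XT.lf (nat_lit 0) (nat_lit 3578256800) (nat_lit 456) (nat_lit 8742809250) (nat_lit 532) (nat_lit 18607083393) (nat_lit 193) (nat_lit 5) (nat_lit 199) (nat_lit 5) (nat_lit 200) (nat_lit 5) (nat_lit 654) (nat_lit 582) (nat_lit 324)) (XT.lf (nat_lit 0) (nat_lit 18587850265) (nat_lit 532) (nat_lit 9561275207) (nat_lit 76) (nat_lit 3156361626) (nat_lit 193) (nat_lit 5) (nat_lit 200) (nat_lit 5) (nat_lit 194) (nat_lit 5) (nat_lit 655) (nat_lit 582) (nat_lit 323))))) (XT.nd (nat_lit 75660) (nat_lit 0) (nat_lit 21280) (XT.nd (nat_lit 75504) (nat_lit 0) (nat_lit 21280) (XT.lf (nat_lit 0) (nat_lit 8634319008) (nat_lit 456) (nat_lit 16456714403) (nat_lit 532) (nat_lit 6597117115) (nat_lit 187) (nat_lit 5) (nat_lit 193) (nat_lit 5) (nat_lit 194) (nat_lit 5) (nat_lit 656) (nat_lit 582) (nat_lit 322)) (XT.nd (nat_lit 78) (nat_lit 0) (nat_lit 0) (XT.lf (nat_lit 0) (nat_lit 796230660) (nat_lit 0) (nat_lit 796230660) (nat_lit 1748) (nat_lit 5595120046) (nat_lit 467) (nat_lit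 5) (nat_lit 467) (nat_lit 3) (nat_lit 490) (nat_lit 3) (nat_lit 583) (nat_lit 583) (nat_lit 394)) (XT.lf (nat_lit 0) (nat_lit 3575607793) (nat_lit 1748) (nat_lit 5770025582) (nat_lit 1824) (nat_lit 5166053381) (nat_lit 467) (nat_lit 5) (nat_lit 490) (nat_lit 3) (nat_lit 491) (nat_lit 5) (nat_lit 584) (nat_lit 583) (nat_lit 393)))) (XT.nd (nat_lit 156) (nat_lit 0) (nat_lit 76) (XT.nd (nat_lit 78) (nat_lit 0) (nat_lit 76) (XT.lf (nat_lit 76) (nat_lit 1386076442) (nat_lit 0) (nat_lit 2599082398) (nat_lit 1824) (nat_lit 10665562709) (nat_lit 468) (nat_lit 5) (nat_lit 467) (nat_lit 5) (nat_lit 491) (nat_lit 5) (nat_lit 585) (nat_lit 583) (nat_lit 392)) (XT.lf (nat_lit 0) (nat_lit 4461351433) (nat_lit 1748) (nat_lit 6060932944) (nat_lit 1824) (nat_lit 4269084959) (nat_lit 468) (nat_lit 5) (nat_lit 491) (nat_lit 5) (nat_lit 492) (nat_lit 5) (nat_lit 586) (nat_lit 583) (nat_lit 391))) (XT.nd (nat_lit 78) (nat_lit 0) (nat_lit 76) (XT.lf (nat_lit 76) (nat_lit 1281919856) (nat_lit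 0) (nat_lit 3682516909) (nat_lit 1824) (nat_lit 9970047220) (nat_lit 469) (nat_lit 5) (nat_lit 468) (nat_lit 5) (nat_lit 492) (nat_lit 5) (nat_lit 587) (nat_lit 583) (nat_lit 390)) (XT.lf (nat_lit 0) (nat_lit 5531899503) (nat_lit 1748) (nat_lit 6252205542) (nat_lit 1824) (nat_lit 3295270827) (nat_lit 469) (nat_lit 5) (nat_lit 492) (nat_lit 5) (nat_lit 493) (nat_lit 5) (nat_lit 588) (nat_lit 583) (nat_lit 389))))))))
noncomputable def xc213 : XT := (XT.nd (nat_lit 1950) (nat_lit 10640) (nat_lit 0) (XT.nd (nat_lit 936) (nat_lit 4788) (nat_lit 0) (XT.nd (nat_lit 468) (nat_lit 0) (nat_lit 228) (XT.nd (nat_lit 234) (nat_lit 0) (nat_lit 152) (XT.nd (nat_lit 78) (nat_lit 0) (nat_lit 76) (XT.lf (nat_lit 76) (nat_lit 1284015900) (nat_lit 0) (nat_lit 4851564087) (nat_lit 1824) (nat_lit 9091089470) (nat_lit 470) (nat_lit 5) (nat_lit 469) (nat_lit 5) (nat_lit 493) (nat_lit 5) (nat_lit 589) (nat_lit 583) (nat_lit 388)) (XT.nd (nat_lit 78) (nat_lit 0) (nat_lit 0) (XT.lf (nat_lit 0)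 (nat_lit 6800268030) (nat_lit 1748) (nat_lit 6339789916) (nat_lit 1824) (nat_lit 2235873499) (nat_lit 470) (nat_lit 5) (nat_lit 493) (nat_lit 5) (nat_lit 494) (nat_lit 5) (nat_lit 590) (nat_lit 583) (nat_lit 387)) (XT.lf (nat_lit 76) (nat_lit 1396668970) (nat_lit 0) (nat_lit 6115218932) (nat_lit 1824) (nat_lit 8015619195) (nat_lit 471) (nat_lit 5) (nat_lit 470) (nat_lit 5) (nat_lit 494) (nat_lit 5) (nat_lit 591) (nat_lit 583) (nat_lit 386)))) (XT.nd (nat_lit 78) (nat_lit 0) (nat_lit 0) (XT.lf (nat_lit 0) (nat_lit 8279960259) (nat_lit 1748) (nat_lit 6319356386) (nat_lit 1824) (nat_lit 1081954377) (nat_lit 471) (nat_lit 5) (nat_lit 494) (nat_lit 5) (nat_lit 495) (nat_lit 5) (nat_lit 592) (nat_lit 583) (nat_lit 385)) (XT.nd (nat_lit 78) (nat_lit 0) (nat_lit 0) (XT.lf (nat_lit 76) (nat_lit 1624468175) (nat_lit 0) (nat_lit 7482693661) (nat_lit 1824) (nat_lit 6730074173) (nat_lit 472) (nat_lit 5) (nat_lit 471) (nat_lit 5) (nat_lit 495) (nat_lit 5) (nat_lit 593) (nat_lit 583)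 (nat_lit 384)) (XT.lf (nat_lit 76) (nat_lit 9808166777) (nat_lit 0) (nat_lit 177981806) (nat_lit 1824) (nat_lit 6009468007) (nat_lit 472) (nat_lit 5) (nat_lit 471) (nat_lit 5) (nat_lit 495) (nat_lit 5) (nat_lit 594) (nat_lit 583) (nat_lit 383))))) (XT.nd (nat_lit 234) (nat_lit 0) (nat_lit 76) (XT.nd (nat_lit 78) (nat_lit 0) (nat_lit 0) (XT.lf (nat_lit 76) (nat_lit 1972292468) (nat_lit 0) (nat_lit 8963439377) (nat_lit 1824) (nat_lit 5220373697) (nat_lit 473) (nat_lit 5) (nat_lit 472) (nat_lit 5) (nat_lit 496) (nat_lit 5) (nat_lit 595) (nat_lit 583) (nat_lit 382)) (XT.nd (nat_lit 78) (nat_lit 0) (nat_lit 76) (XT.lf (nat_lit 76) (nat_lit 10373209797) (nat_lit 0) (nat_lit 1566887224) (nat_lit 1824) (nat_lit 4378992521) (nat_lit 473) (nat_lit 5) (nat_lit 472) (nat_lit 5) (nat_lit 496) (nat_lit 5) (nat_lit 596) (nat_lit 583) (nat_lit 381)) (XT.lf (nat_lit 76) (nat_lit 2445316244) (nat_lit 0) (nat_lit 10567168018) (nat_lit 1824) (nat_lit 3471891318) (nat_lit 474) (nat_lit 5)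 (nat_lit 473) (nat_lit 5) (nat_lit 497) (nat_lit 5) (nat_lit 597) (nat_lit 583) (nat_lit 380)))) (XT.nd (nat_lit 78) (nat_lit 0) (nat_lit 76) (XT.lf (nat_lit 76) (nat_lit 11069694522) (nat_lit 0) (nat_lit 3080182524) (nat_lit 1824) (nat_lit 2502220167) (nat_lit 474) (nat_lit 5) (nat_lit 473) (nat_lit 5) (nat_lit 497) (nat_lit 5) (nat_lit 598) (nat_lit 583) (nat_lit 379)) (XT.nd (nat_lit 78) (nat_lit 0) (nat_lit 0) (XT.lf (nat_lit 76) (nat_lit 3049015387) (nat_lit 0) (nat_lit 12303874639) (nat_lit 1824) (nat_lit 1469426817) (nat_lit 475) (nat_lit 5) (nat_lit 474) (nat_lit 5) (nat_lit 498) (nat_lit 5) (nat_lit 599) (nat_lit 583) (nat_lit 378)) (XT.lf (nat_lit 76) (nat_lit 11903318554) (nat_lit 0) (nat_lit 4727958745) (nat_lit 1824) (nat_lit 363638279) (nat_lit 475) (nat_lit 5) (nat_lit 474) (nat_lit 5) (nat_lit 498) (nat_lit 5) (nat_lit 600) (nat_lit 583) (nat_lit 377)))))) (XT.nd (nat_lit 468) (nat_lit 3420) (nat_lit 0) (XT.nd (nat_lit 234) (nat_lit 0) (nat_lit 76) (XT.nd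 (nat_lit 78) (nat_lit 0) (nat_lit 0) (XT.lf (nat_lit 0) (nat_lit 792293471) (nat_lit 1824) (nat_lit 13386249906) (nat_lit 1900) (nat_lit 2991563603) (nat_lit 451) (nat_lit 5) (nat_lit 475) (nat_lit 5) (nat_lit 476) (nat_lit 5) (nat_lit 601) (nat_lit 583) (nat_lit 376)) (XT.nd (nat_lit 78) (nat_lit 0) (nat_lit 76) (XT.lf (nat_lit 0) (nat_lit 2025959242) (nat_lit 1824) (nat_lit 4481067104) (nat_lit 1900) (nat_lit 10840539035) (nat_lit 451) (nat_lit 5) (nat_lit 475) (nat_lit 5) (nat_lit 476) (nat_lit 5) (nat_lit 602) (nat_lit 583) (nat_lit 375)) (XT.lf (nat_lit 0) (nat_lit 3317208243) (nat_lit 1824) (nat_lit 12878285623) (nat_lit 1900) (nat_lit 1332421802) (nat_lit 452) (nat_lit 5) (nat_lit 476) (nat_lit 5) (nat_lit 477) (nat_lit 5) (nat_lit 603) (nat_lit 583) (nat_lit 374)))) (XT.nd (nat_lit 78) (nat_lit 0) (nat_lit 0) (XT.lf (nat_lit 0) (nat_lit 4701639498) (nat_lit 1824) (nat_lit 3735724834) (nat_lit 1900) (nat_lit 9273162382) (nat_lit 452) (nat_lit 5) (nat_lit 476) (nat_lit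 5) (nat_lit 477) (nat_lit 5) (nat_lit 604) (nat_lit 583) (nat_lit 373)) (XT.nd (nat_lit 78) (nat_lit 0) (nat_lit 76) (XT.lf (nat_lit 76) (nat_lit 5659158611) (nat_lit 0) (nat_lit 485456451) (nat_lit 1900) (nat_lit 11751558686) (nat_lit 453) (nat_lit 5) (nat_lit 452) (nat_lit 5) (nat_lit 477) (nat_lit 5) (nat_lit 605) (nat_lit 583) (nat_lit 372)) (XT.lf (nat_lit 0) (nat_lit 7685399086) (nat_lit 1824) (nat_lit 2846971795) (nat_lit 1900) (nat_lit 7551784726) (nat_lit 453) (nat_lit 5) (nat_lit 477) (nat_lit 5) (nat_lit 478) (nat_lit 5) (nat_lit 606) (nat_lit 583) (nat_lit 371))))) (XT.nd (nat_lit 234) (nat_lit 1976) (nat_lit 0) (XT.nd (nat_lit 78) (nat_lit 1596) (nat_lit 0) (XT.lf (nat_lit 76) (nat_lit 6812254204) (nat_lit 0) (nat_lit 2486507355) (nat_lit 1900) (nat_lit 8976301135) (nat_lit 454) (nat_lit 5) (nat_lit 453) (nat_lit 5) (nat_lit 478) (nat_lit 5) (nat_lit 607) (nat_lit 583) (nat_lit 370)) (XT.nd (nat_lit 78) (nat_lit 1672) (nat_lit 0) (XT.lf (nat_lit 0) (nat_lit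 10995166980) (nat_lit 1824) (nat_lit 1808250556) (nat_lit 76) (nat_lit 5665355701) (nat_lit 454) (nat_lit 5) (nat_lit 478) (nat_lit 5) (nat_lit 455) (nat_lit 5) (nat_lit 608) (nat_lit 583) (nat_lit 369)) (XT.lf (nat_lit 0) (nat_lit 8124749372) (nat_lit 1672) (nat_lit 4664483736) (nat_lit 1748) (nat_lit 5875851047) (nat_lit 432) (nat_lit 5) (nat_lit 454) (nat_lit 5) (nat_lit 455) (nat_lit 5) (nat_lit 609) (nat_lit 583) (nat_lit 368)))) (XT.nd (nat_lit 156) (nat_lit 988) (nat_lit 0) (XT.nd (nat_lit 78) (nat_lit 988) (nat_lit 0) (XT.lf (nat_lit 0) (nat_lit 14649606469) (nat_lit 1748) (nat_lit 612675762) (nat_lit 76) (nat_lit 3602431339) (nat_lit 432) (nat_lit 5) (nat_lit 455) (nat_lit 5) (nat_lit 433) (nat_lit 5) (nat_lit 610) (nat_lit 583) (nat_lit 367)) (XT.lf (nat_lit 0) (nat_lit 9603874805) (nat_lit 988) (nat_lit 7031259733) (nat_lit 1064) (nat_lit 2431442871) (nat_lit 419) (nat_lit 5) (nat_lit 432) (nat_lit 5) (nat_lit 433) (nat_lit 5) (nat_lit 611) (nat_lit 583) (nat_lit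 366))) (XT.nd (nat_lit 78) (nat_lit 76) (nat_lit 0) (XT.lf (nat_lit 0) (nat_lit 756901106) (nat_lit 912) (nat_lit 17916162173) (nat_lit 988) (nat_lit 599162212) (nat_lit 407) (nat_lit 5) (nat_lit 419) (nat_lit 5) (nat_lit 420) (nat_lit 5) (nat_lit 612) (nat_lit 583) (nat_lit 365)) (XT.lf (nat_lit 0) (nat_lit 1358411008) (nat_lit 988) (nat_lit 8231622710) (nat_lit 76) (nat_lit 9889682668) (nat_lit 406) (nat_lit 5) (nat_lit 419) (nat_lit 5) (nat_lit 407) (nat_lit 5) (nat_lit 613) (nat_lit 583) (nat_lit 364))))))) (XT.nd (nat_lit 936) (nat_lit 4864) (nat_lit 0) (XT.nd (nat_lit 468) (nat_lit 3192) (nat_lit 0) (XT.nd (nat_lit 234) (nat_lit 836) (nat_lit 0) (XT.nd (nat_lit 78) (nat_lit 836) (nat_lit 0) (XT.lf (nat_lit 0) (nat_lit 2278925345) (nat_lit 912) (nat_lit 1077908279) (nat_lit 988) (nat_lit 16334250572) (nat_lit 394) (nat_lit 5) (nat_lit 406) (nat_lit 5) (nat_lit 407) (nat_lit 5) (nat_lit 614) (nat_lit 583) (nat_lit 363)) (XT.nd (nat_lit 78) (nat_lit 836) (nat_lit 0)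 (XT.lf (nat_lit 0) (nat_lit 5495190119) (nat_lit 988) (nat_lit 6848867322) (nat_lit 76) (nat_lit 7560623323) (nat_lit 394) (nat_lit 5) (nat_lit 407) (nat_lit 5) (nat_lit 395) (nat_lit 5) (nat_lit 615) (nat_lit 583) (nat_lit 362)) (XT.lf (nat_lit 0) (nat_lit 3965838883) (nat_lit 836) (nat_lit 3738448348) (nat_lit 912) (nat_lit 12417703256) (nat_lit 383) (nat_lit 5) (nat_lit 394) (nat_lit 5) (nat_lit 395) (nat_lit 5) (nat_lit 616) (nat_lit 583) (nat_lit 361)))) (XT.nd (nat_lit 78) (nat_lit 836) (nat_lit 0) (XT.lf (nat_lit 0) (nat_lit 10031701496) (nat_lit 912) (nat_lit 5290865404) (nat_lit 76) (nat_lit 5019597482) (nat_lit 383) (nat_lit 5) (nat_lit 395) (nat_lit 5) (nat_lit 384) (nat_lit 5) (nat_lit 617) (nat_lit 583) (nat_lit 360)) (XT.nd (nat_lit 78) (nat_lit 0) (nat_lit 0) (XT.lf (nat_lit 0) (nat_lit 5838847164) (nat_lit 836) (nat_lit 6624732560) (nat_lit 912) (nat_lit 8102004383) (nat_lit 372) (nat_lit 5) (nat_lit 383) (nat_lit 5) (nat_lit 384) (nat_lit 5) (nat_lit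 618) (nat_lit 583) (nat_lit 359)) (XT.lf (nat_lit 0) (nat_lit 14989735610) (nat_lit 912) (nat_lit 3549476212) (nat_lit 76) (nat_lit 2253348258) (nat_lit 372) (nat_lit 5) (nat_lit 384) (nat_lit 5) (nat_lit 373) (nat_lit 5) (nat_lit 619) (nat_lit 583) (nat_lit 358))))) (XT.nd (nat_lit 234) (nat_lit 1520) (nat_lit 0) (XT.nd (nat_lit 78) (nat_lit 912) (nat_lit 0) (XT.lf (nat_lit 0) (nat_lit 7906483054) (nat_lit 760) (nat_lit 9750541109) (nat_lit 836) (nat_lit 3365239860) (nat_lit 362) (nat_lit 5) (nat_lit 372) (nat_lit 5) (nat_lit 373) (nat_lit 5) (nat_lit 620) (nat_lit 583) (nat_lit 357)) (XT.nd (nat_lit 78) (nat_lit 912) (nat_lit 0) (XT.lf (nat_lit 0) (nat_lit 19635037086) (nat_lit 760) (nat_lit 761903293) (nat_lit 836) (nat_lit 859236657) (nat_lit 362) (nat_lit 5) (nat_lit 372) (nat_lit 5) (nat_lit 373) (nat_lit 5) (nat_lit 621) (nat_lit 583) (nat_lit 356)) (XT.lf (nat_lit 0) (nat_lit 1791612727) (nat_lit 912) (nat_lit 11326573006) (nat_lit 76) (nat_lit 8374023212) (nat_lit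 350) (nat_lit 5) (nat_lit 362) (nat_lit 5) (nat_lit 351) (nat_lit 5) (nat_lit 622) (nat_lit 583) (nat_lit 355)))) (XT.nd (nat_lit 78) (nat_lit 760) (nat_lit 0) (XT.lf (nat_lit 0) (nat_lit 468043484) (nat_lit 760) (nat_lit 4030555500) (nat_lit 836) (nat_lit 17233957009) (nat_lit 340) (nat_lit 5) (nat_lit 350) (nat_lit 5) (nat_lit 351) (nat_lit 5) (nat_lit 623) (nat_lit 583) (nat_lit 354)) (XT.nd (nat_lit 78) (nat_lit 760) (nat_lit 0) (XT.lf (nat_lit 0) (nat_lit 7365883373) (nat_lit 836) (nat_lit 9363340904) (nat_lit 76) (nat_lit 5246363118) (nat_lit 340) (nat_lit 5) (nat_lit 351) (nat_lit 5) (nat_lit 341) (nat_lit 5) (nat_lit 624) (nat_lit 583) (nat_lit 353)) (XT.lf (nat_lit 0) (nat_lit 2781006932) (nat_lit 760) (nat_lit 7549974526) (nat_lit 836) (nat_lit 11891689176) (nat_lit 330) (nat_lit 5) (nat_lit 340) (nat_lit 5) (nat_lit 341) (nat_lit 5) (nat_lit 625) (nat_lit 583) (nat_lit 352)))))) (XT.nd (nat_lit 468) (nat_lit 2660) (nat_lit 0) (XT.nd (nat_lit 234) (nat_lit 1520)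 (nat_lit 0) (XT.nd (nat_lit 78) (nat_lit 684) (nat_lit 0) (XT.lf (nat_lit 0) (nat_lit 13426171975) (nat_lit 836) (nat_lit 7195141421) (nat_lit 76) (nat_lit 1851966892) (nat_lit 330) (nat_lit 5) (nat_lit 341) (nat_lit 5) (nat_lit 331) (nat_lit 5) (nat_lit 626) (nat_lit 583) (nat_lit 351)) (XT.nd (nat_lit 78) (nat_lit 0) (nat_lit 0) (XT.lf (nat_lit 0) (nat_lit 5311382571) (nat_lit 684) (nat_lit 11352222617) (nat_lit 760) (nat_lit 6063690716) (nat_lit 321) (nat_lit 5) (nat_lit 330) (nat_lit 5) (nat_lit 331) (nat_lit 5) (nat_lit 627) (nat_lit 583) (nat_lit 350)) (XT.lf (nat_lit 0) (nat_lit 18161010627) (nat_lit 684) (nat_lit 1848965360) (nat_lit 760) (nat_lit 2975532604) (nat_lit 321) (nat_lit 5) (nat_lit 330) (nat_lit 5) (nat_lit 331) (nat_lit 5) (nat_lit 628) (nat_lit 583) (nat_lit 349)))) (XT.nd (nat_lit 78) (nat_lit 684) (nat_lit 0) (XT.lf (nat_lit 0) (nat_lit 272062402) (nat_lit 836) (nat_lit 15179594207) (nat_lit 76) (nat_lit 7795207576) (nat_lit 310) (nat_lit 5) (nat_lit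 321) (nat_lit 5) (nat_lit 311) (nat_lit 5) (nat_lit 629) (nat_lit 583) (nat_lit 348)) (XT.nd (nat_lit 78) (nat_lit 684) (nat_lit 0) (XT.lf (nat_lit 0) (nat_lit 3585644011) (nat_lit 836) (nat_lit 2267264090) (nat_lit 76) (nat_lit 17659328389) (nat_lit 310) (nat_lit 5) (nat_lit 321) (nat_lit 5) (nat_lit 311) (nat_lit 5) (nat_lit 630) (nat_lit 583) (nat_lit 347)) (XT.lf (nat_lit 0) (nat_lit 7059322217) (nat_lit 760) (nat_lit 12763927705) (nat_lit 76) (nat_lit 3957790315) (nat_lit 301) (nat_lit 5) (nat_lit 311) (nat_lit 5) (nat_lit 302) (nat_lit 5) (nat_lit 631) (nat_lit 583) (nat_lit 346))))) (XT.nd (nat_lit 234) (nat_lit 1368) (nat_lit 0) (XT.nd (nat_lit 78) (nat_lit 608) (nat_lit 0) (XT.lf (nat_lit 0) (nat_lit 506246497) (nat_lit 684) (nat_lit 10149718777) (nat_lit 760) (nat_lit 13398185446) (nat_lit 292) (nat_lit 5) (nat_lit 301) (nat_lit 5) (nat_lit 302) (nat_lit 5) (nat_lit 632) (nat_lit 583) (nat_lit 345)) (XT.nd (nat_lit 78) (nat_lit 608) (nat_lit 0) (XT.lf (nat_lit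 0) (nat_lit 14210346800) (nat_lit 684) (nat_lit 196021920) (nat_lit 760) (nat_lit 9924718618) (nat_lit 292) (nat_lit 5) (nat_lit 301) (nat_lit 5) (nat_lit 302) (nat_lit 5) (nat_lit 633) (nat_lit 583) (nat_lit 344)) (XT.lf (nat_lit 0) (nat_lit 3552432560) (nat_lit 608) (nat_lit 14763303830) (nat_lit 684) (nat_lit 6296147643) (nat_lit 284) (nat_lit 5) (nat_lit 292) (nat_lit 5) (nat_lit 293) (nat_lit 5) (nat_lit 634) (nat_lit 583) (nat_lit 343)))) (XT.nd (nat_lit 156) (nat_lit 608) (nat_lit 0) (XT.nd (nat_lit 78) (nat_lit 760) (nat_lit 0) (XT.lf (nat_lit 0) (nat_lit 17630493647) (nat_lit 608) (nat_lit 4738293197) (nat_lit 684) (nat_lit 2528200368) (nat_lit 284) (nat_lit 5) (nat_lit 292) (nat_lit 5) (nat_lit 293) (nat_lit 5) (nat_lit 635) (nat_lit 583) (nat_lit 342)) (XT.lf (nat_lit 0) (nat_lit 1374837603) (nat_lit 760) (nat_lit 18343175216) (nat_lit 76) (nat_lit 5468069712) (nat_lit 274) (nat_lit 5) (nat_lit 284) (nat_lit 5) (nat_lit 275) (nat_lit 5) (nat_lit 636) (nat_lit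 583) (nat_lit 341))) (XT.nd (nat_lit 78) (nat_lit 608) (nat_lit 0) (XT.lf (nat_lit 0) (nat_lit 5398956631) (nat_lit 760) (nat_lit 4199884507) (nat_lit 76) (nat_lit 15880247365) (nat_lit 274) (nat_lit 5) (nat_lit 284) (nat_lit 5) (nat_lit 275) (nat_lit 5) (nat_lit 637) (nat_lit 583) (nat_lit 340)) (XT.lf (nat_lit 0) (nat_lit 9572387826) (nat_lit 684) (nat_lit 15424060475) (nat_lit 76) (nat_lit 780130121) (nat_lit 266) (nat_lit 5) (nat_lit 275) (nat_lit 5) (nat_lit 267) (nat_lit 5) (nat_lit 638) (nat_lit 583) (nat_lit 339))))))))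
noncomputable def xc214 : XT := (XT.nd (nat_lit 77532) (nat_lit 0) (nat_lit 15276) (XT.nd (nat_lit 936) (nat_lit 1520) (nat_lit 0) (XT.nd (nat_lit 468) (nat_lit 2204) (nat_lit 0) (XT.nd (nat_lit 234) (nat_lit 684) (nat_lit 0) (XT.nd (nat_lit 78) (nat_lit 1140) (nat_lit 0) (XT.lf (nat_lit 0) (nat_lit 13917710319) (nat_lit 684) (nat_lit 894709966) (nat_lit 76) (nat_lit 11265829816) (nat_lit 266) (nat_lit 5) (nat_lit 275) (nat_lit 5) (nat_lit 267) (nat_lit 5) (nat_lit 639) (nat_lit 583) (nat_lit 338)) (XT.nd (nat_lit 78) (nat_lit 532) (nat_lit 0) (XT.lf (nat_lit 0) (nat_lit 14105916084) (nat_lit 608) (nat_lit 4332161188) (nat_lit 684) (nat_lit 7946115586) (nat_lit 258) (nat_lit 5) (nat_lit 266) (nat_lit 5) (nat_lit 267) (nat_lit 5) (nat_lit 640) (nat_lit 583) (nat_lit 337)) (XT.lf (nat_lit 0) (nat_lit 2712456901) (nat_lit 532) (nat_lit 20397915015) (nat_lit 608) (nat_lit 3584652549) (nat_lit 251) (nat_lit 5) (nat_lit 258) (nat_lit 5) (nat_lit 259) (nat_lit 5) (nat_lit 641)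 (nat_lit 583) (nat_lit 336)))) (XT.nd (nat_lit 78) (nat_lit 608) (nat_lit 0) (XT.lf (nat_lit 0) (nat_lit 960940140) (nat_lit 608) (nat_lit 8880194172) (nat_lit 76) (nat_lit 17168661926) (nat_lit 250) (nat_lit 5) (nat_lit 258) (nat_lit 5) (nat_lit 251) (nat_lit 5) (nat_lit 642) (nat_lit 583) (nat_lit 335)) (XT.nd (nat_lit 78) (nat_lit 0) (nat_lit 0) (XT.lf (nat_lit 0) (nat_lit 5595350509) (nat_lit 684) (nat_lit 20753512698) (nat_lit 76) (nat_lit 980608640) (nat_lit 242) (nat_lit 5) (nat_lit 251) (nat_lit 5) (nat_lit 243) (nat_lit 5) (nat_lit 643) (nat_lit 583) (nat_lit 334)) (XT.lf (nat_lit 0) (nat_lit 10444308921) (nat_lit 684) (nat_lit 5262618713) (nat_lit 76) (nat_lit 11946176505) (nat_lit 242) (nat_lit 5) (nat_lit 251) (nat_lit 5) (nat_lit 243) (nat_lit 5) (nat_lit 644) (nat_lit 583) (nat_lit 333))))) (XT.nd (nat_lit 234) (nat_lit 1140) (nat_lit 0) (XT.nd (nat_lit 78) (nat_lit 532) (nat_lit 0) (XT.lf (nat_lit 0) (nat_lit 10673856472) (nat_lit 532) (nat_lit 4782457810)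 (nat_lit 608) (nat_lit 12525573800) (nat_lit 235) (nat_lit 5) (nat_lit 242) (nat_lit 5) (nat_lit 243) (nat_lit 5) (nat_lit 645) (nat_lit 583) (nat_lit 332)) (XT.nd (nat_lit 78) (nat_lit 532) (nat_lit 0) (XT.lf (nat_lit 0) (nat_lit 20642200840) (nat_lit 608) (nat_lit 1361930768) (nat_lit 76) (nat_lit 6311643628) (nat_lit 235) (nat_lit 5) (nat_lit 243) (nat_lit 5) (nat_lit 236) (nat_lit 5) (nat_lit 646) (nat_lit 583) (nat_lit 331)) (XT.lf (nat_lit 0) (nat_lit 15064825296) (nat_lit 532) (nat_lit 10993321086) (nat_lit 608) (nat_lit 2595667274) (nat_lit 228) (nat_lit 5) (nat_lit 235) (nat_lit 5) (nat_lit 236) (nat_lit 5) (nat_lit 647) (nat_lit 583) (nat_lit 330)))) (XT.nd (nat_lit 78) (nat_lit 532) (nat_lit 0) (XT.lf (nat_lit 0) (nat_lit 2576361280) (nat_lit 608) (nat_lit 26143027652) (nat_lit 76) (nat_lit 278359726) (nat_lit 220) (nat_lit 5) (nat_lit 228) (nat_lit 5) (nat_lit 221) (nat_lit 5) (nat_lit 648) (nat_lit 583) (nat_lit 329)) (XT.nd (nat_lit 78) (nat_lit 532) (nat_lit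 0) (XT.lf (nat_lit 0) (nat_lit 7978603206) (nat_lit 608) (nat_lit 9630043856) (nat_lit 76) (nat_lit 11736341902) (nat_lit 220) (nat_lit 5) (nat_lit 228) (nat_lit 5) (nat_lit 221) (nat_lit 5) (nat_lit 649) (nat_lit 583) (nat_lit 328)) (XT.lf (nat_lit 0) (nat_lit 7304872018) (nat_lit 532) (nat_lit 6228406498) (nat_lit 608) (nat_lit 16165008111) (nat_lit 213) (nat_lit 5) (nat_lit 220) (nat_lit 5) (nat_lit 221) (nat_lit 5) (nat_lit 650) (nat_lit 583) (nat_lit 327)))))) (XT.nd (nat_lit 76050) (nat_lit 0) (nat_lit 20824) (XT.nd (nat_lit 234) (nat_lit 988) (nat_lit 0) (XT.nd (nat_lit 78) (nat_lit 532) (nat_lit 0) (XT.lf (nat_lit 0) (nat_lit 19296011129) (nat_lit 608) (nat_lit 5387847084) (nat_lit 76) (nat_lit 5372853068) (nat_lit 213) (nat_lit 5) (nat_lit 221) (nat_lit 5) (nat_lit 214) (nat_lit 5) (nat_lit 651) (nat_lit 583) (nat_lit 326)) (XT.nd (nat_lit 78) (nat_lit 76) (nat_lit 0) (XT.lf (nat_lit 0) (nat_lit 12070818120) (nat_lit 456) (nat_lit 13219845132) (nat_lit 532) (nat_lit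 5129308187) (nat_lit 207) (nat_lit 5) (nat_lit 213) (nat_lit 5) (nat_lit 214) (nat_lit 5) (nat_lit 652) (nat_lit 583) (nat_lit 325)) (XT.lf (nat_lit 0) (nat_lit 640101650) (nat_lit 532) (nat_lit 846403413) (nat_lit 76) (nat_lit 29303243170) (nat_lit 206) (nat_lit 5) (nat_lit 213) (nat_lit 5) (nat_lit 207) (nat_lit 5) (nat_lit 653) (nat_lit 583) (nat_lit 324)))) (XT.nd (nat_lit 78) (nat_lit 456) (nat_lit 0) (XT.lf (nat_lit 0) (nat_lit 6634041693) (nat_lit 608) (nat_lit 14039151623) (nat_lit 76) (nat_lit 10489492974) (nat_lit 199) (nat_lit 5) (nat_lit 207) (nat_lit 5) (nat_lit 200) (nat_lit 5) (nat_lit 654) (nat_lit 583) (nat_lit 323)) (XT.nd (nat_lit 75660) (nat_lit 0) (nat_lit 20824) (XT.lf (nat_lit 0) (nat_lit 3959388334) (nat_lit 456) (nat_lit 8826879446) (nat_lit 532) (nat_lit 18756047469) (nat_lit 193) (nat_lit 5) (nat_lit 199) (nat_lit 5) (nat_lit 200) (nat_lit 5) (nat_lit 655) (nat_lit 583) (nat_lit 322)) (XT.lf (nat_lit 0) (nat_lit 973525073) (nat_lit 0) (nat_lit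 973525073) (nat_lit 1748) (nat_lit 5377777500) (nat_lit 467) (nat_lit 5) (nat_lit 467) (nat_lit 3) (nat_lit 490) (nat_lit 3) (nat_lit 584) (nat_lit 584) (nat_lit 392))))) (XT.nd (nat_lit 234) (nat_lit 0) (nat_lit 76) (XT.nd (nat_lit 78) (nat_lit 0) (nat_lit 0) (XT.lf (nat_lit 0) (nat_lit 4277888341) (nat_lit 1748) (nat_lit 5554204784) (nat_lit 1824) (nat_lit 4957112868) (nat_lit 467) (nat_lit 5) (nat_lit 490) (nat_lit 3) (nat_lit 491) (nat_lit 5) (nat_lit 585) (nat_lit 584) (nat_lit 391)) (XT.nd (nat_lit 78) (nat_lit 0) (nat_lit 76) (XT.lf (nat_lit 76) (nat_lit 1742840193) (nat_lit 0) (nat_lit 2942558569) (nat_lit 1824) (nat_lit 10245829298) (nat_lit 468) (nat_lit 5) (nat_lit 467) (nat_lit 5) (nat_lit 491) (nat_lit 5) (nat_lit 586) (nat_lit 584) (nat_lit 390)) (XT.lf (nat_lit 0) (nat_lit 5157092353) (nat_lit 1748) (nat_lit 5845443056) (nat_lit 1824) (nat_lit 4072435757) (nat_lit 468) (nat_lit 5) (nat_lit 491) (nat_lit 5) (nat_lit 492) (nat_lit 5) (nat_lit 587) (nat_lit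 584) (nat_lit 389)))) (XT.nd (nat_lit 156) (nat_lit 0) (nat_lit 76) (XT.nd (nat_lit 78) (nat_lit 0) (nat_lit 76) (XT.lf (nat_lit 76) (nat_lit 1642051612) (nat_lit 0) (nat_lit 4018467103) (nat_lit 1824) (nat_lit 9560625674) (nat_lit 469) (nat_lit 5) (nat_lit 468) (nat_lit 5) (nat_lit 492) (nat_lit 5) (nat_lit 588) (nat_lit 584) (nat_lit 388)) (XT.lf (nat_lit 0) (nat_lit 6225959247) (nat_lit 1748) (nat_lit 6035851946) (nat_lit 1824) (nat_lit 3107392179) (nat_lit 469) (nat_lit 5) (nat_lit 492) (nat_lit 5) (nat_lit 493) (nat_lit 5) (nat_lit 589) (nat_lit 584) (nat_lit 387))) (XT.nd (nat_lit 78) (nat_lit 0) (nat_lit 76) (XT.lf (nat_lit 76) (nat_lit 1648847887) (nat_lit 0) (nat_lit 5183627810) (nat_lit 1824) (nat_lit 8687153683) (nat_lit 470) (nat_lit 5) (nat_lit 469) (nat_lit 5) (nat_lit 493) (nat_lit 5) (nat_lit 590) (nat_lit 584) (nat_lit 386)) (XT.lf (nat_lit 0) (nat_lit 7497702924) (nat_lit 1748) (nat_lit 6121241477) (nat_lit 1824) (nat_lit 2053189058) (nat_lit 470) (nat_lit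 5) (nat_lit 493) (nat_lit 5) (nat_lit 494) (nat_lit 5) (nat_lit 591) (nat_lit 584) (nat_lit 385))))))) (XT.nd (nat_lit 936) (nat_lit 4256) (nat_lit 0) (XT.nd (nat_lit 468) (nat_lit 1520) (nat_lit 0) (XT.nd (nat_lit 234) (nat_lit 0) (nat_lit 76) (XT.nd (nat_lit 78) (nat_lit 0) (nat_lit 76) (XT.lf (nat_lit 76) (nat_lit 1767674585) (nat_lit 0) (nat_lit 6447099638) (nat_lit 1824) (nat_lit 7612143746) (nat_lit 471) (nat_lit 5) (nat_lit 470) (nat_lit 5) (nat_lit 494) (nat_lit 5) (nat_lit 592) (nat_lit 584) (nat_lit 384)) (XT.nd (nat_lit 78) (nat_lit 0) (nat_lit 0) (XT.lf (nat_lit 0) (nat_lit 8986037753) (nat_lit 1748) (nat_lit 6097143304) (nat_lit 1824) (nat_lit 900821214) (nat_lit 471) (nat_lit 5) (nat_lit 494) (nat_lit 5) (nat_lit 495) (nat_lit 5) (nat_lit 593) (nat_lit 584) (nat_lit 383)) (XT.lf (nat_lit 76) (nat_lit 2003264325) (nat_lit 0) (nat_lit 7818169876) (nat_lit 1824) (nat_lit 6321820998) (nat_lit 472) (nat_lit 5) (nat_lit 471) (nat_lit 5) (nat_lit 495) (nat_lit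 5) (nat_lit 594) (nat_lit 584) (nat_lit 382)))) (XT.nd (nat_lit 78) (nat_lit 0) (nat_lit 76) (XT.lf (nat_lit 76) (nat_lit 10343846571) (nat_lit 0) (nat_lit 363720208) (nat_lit 1824) (nat_lit 5597446918) (nat_lit 472) (nat_lit 5) (nat_lit 471) (nat_lit 5) (nat_lit 495) (nat_lit 5) (nat_lit 595) (nat_lit 584) (nat_lit 381)) (XT.nd (nat_lit 78) (nat_lit 0) (nat_lit 0) (XT.lf (nat_lit 76) (nat_lit 2360642204) (nat_lit 0) (nat_lit 9306375867) (nat_lit 1824) (nat_lit 4801878425) (nat_lit 473) (nat_lit 5) (nat_lit 472) (nat_lit 5) (nat_lit 496) (nat_lit 5) (nat_lit 596) (nat_lit 584) (nat_lit 380)) (XT.lf (nat_lit 76) (nat_lit 10922736627) (nat_lit 0) (nat_lit 1758683500) (nat_lit 1824) (nat_lit 3953922620) (nat_lit 473) (nat_lit 5) (nat_lit 472) (nat_lit 5) (nat_lit 496) (nat_lit 5) (nat_lit 597) (nat_lit 584) (nat_lit 379))))) (XT.nd (nat_lit 234) (nat_lit 1748) (nat_lit 0) (XT.nd (nat_lit 78) (nat_lit 0) (nat_lit 0) (XT.lf (nat_lit 76) (nat_lit 2845131691) (nat_lit 0) (nat_lit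 10921527024) (nat_lit 1824) (nat_lit 3037449250) (nat_lit 474) (nat_lit 5) (nat_lit 473) (nat_lit 5) (nat_lit 497) (nat_lit 5) (nat_lit 598) (nat_lit 584) (nat_lit 378)) (XT.nd (nat_lit 78) (nat_lit 0) (nat_lit 76) (XT.lf (nat_lit 76) (nat_lit 11635116964) (nat_lit 0) (nat_lit 3281997592) (nat_lit 1824) (nat_lit 2058264674) (nat_lit 474) (nat_lit 5) (nat_lit 473) (nat_lit 5) (nat_lit 497) (nat_lit 5) (nat_lit 599) (nat_lit 584) (nat_lit 377)) (XT.lf (nat_lit 76) (nat_lit 3462360974) (nat_lit 0) (nat_lit 12673727214) (nat_lit 1824) (nat_lit 1013078531) (nat_lit 475) (nat_lit 5) (nat_lit 474) (nat_lit 5) (nat_lit 498) (nat_lit 5) (nat_lit 600) (nat_lit 584) (nat_lit 376)))) (XT.nd (nat_lit 78) (nat_lit 0) (nat_lit 76) (XT.lf (nat_lit 0) (nat_lit 103920478) (nat_lit 1824) (nat_lit 4839248201) (nat_lit 1900) (nat_lit 12382223242) (nat_lit 450) (nat_lit 5) (nat_lit 474) (nat_lit 5) (nat_lit 475) (nat_lit 5) (nat_lit 601) (nat_lit 584) (nat_lit 375)) (XT.nd (nat_lit 78) (nat_lit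 0) (nat_lit 0) (XT.lf (nat_lit 0) (nat_lit 1270422852) (nat_lit 1824) (nat_lit 13294449486) (nat_lit 1900) (nat_lit 2939321705) (nat_lit 451) (nat_lit 5) (nat_lit 475) (nat_lit 5) (nat_lit 476) (nat_lit 5) (nat_lit 602) (nat_lit 584) (nat_lit 374)) (XT.lf (nat_lit 0) (nat_lit 2519697555) (nat_lit 1824) (nat_lit 4218212547) (nat_lit 1900) (nat_lit 10947474159) (nat_lit 451) (nat_lit 5) (nat_lit 475) (nat_lit 5) (nat_lit 476) (nat_lit 5) (nat_lit 603) (nat_lit 584) (nat_lit 373)))))) (XT.nd (nat_lit 468) (nat_lit 4408) (nat_lit 0) (XT.nd (nat_lit 234) (nat_lit 0) (nat_lit 76) (XT.nd (nat_lit 78) (nat_lit 0) (nat_lit 0) (XT.lf (nat_lit 0) (nat_lit 3829532128) (nat_lit 1824) (nat_lit 12776069316) (nat_lit 1900) (nat_lit 1263886233) (nat_lit 452) (nat_lit 5) (nat_lit 476) (nat_lit 5) (nat_lit 477) (nat_lit 5) (nat_lit 604) (nat_lit 584) (nat_lit 372)) (XT.nd (nat_lit 78) (nat_lit 0) (nat_lit 0) (XT.lf (nat_lit 0) (nat_lit 5232907308) (nat_lit 1824) (nat_lit 3457711860) (nat_lit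 1900) (nat_lit 9365307977) (nat_lit 452) (nat_lit 5) (nat_lit 476) (nat_lit 5) (nat_lit 477) (nat_lit 5) (nat_lit 605) (nat_lit 584) (nat_lit 371)) (XT.lf (nat_lit 76) (nat_lit 6122748678) (nat_lit 0) (nat_lit 575695542) (nat_lit 1900) (nat_lit 11546970144) (nat_lit 453) (nat_lit 5) (nat_lit 452) (nat_lit 5) (nat_lit 477) (nat_lit 5) (nat_lit 606) (nat_lit 584) (nat_lit 370)))) (XT.nd (nat_lit 78) (nat_lit 0) (nat_lit 0) (XT.lf (nat_lit 0) (nat_lit 8261081581) (nat_lit 1824) (nat_lit 2551349851) (nat_lit 1900) (nat_lit 7624904932) (nat_lit 453) (nat_lit 5) (nat_lit 477) (nat_lit 5) (nat_lit 478) (nat_lit 5) (nat_lit 607) (nat_lit 584) (nat_lit 369)) (XT.nd (nat_lit 78) (nat_lit 0) (nat_lit 76) (XT.lf (nat_lit 76) (nat_lit 7298741184) (nat_lit 0) (nat_lit 2601970111) (nat_lit 1900) (nat_lit 8731471530) (nat_lit 454) (nat_lit 5) (nat_lit 453) (nat_lit 5) (nat_lit 478) (nat_lit 5) (nat_lit 608) (nat_lit 584) (nat_lit 368)) (XT.lf (nat_lit 0) (nat_lit 11622470052) (nat_lit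 1824) (nat_lit 1492405962) (nat_lit 76) (nat_lit 5715064272) (nat_lit 454) (nat_lit 5) (nat_lit 478) (nat_lit 5) (nat_lit 455) (nat_lit 5) (nat_lit 609) (nat_lit 584) (nat_lit 367))))) (XT.nd (nat_lit 234) (nat_lit 1900) (nat_lit 0) (XT.nd (nat_lit 78) (nat_lit 988) (nat_lit 0) (XT.lf (nat_lit 0) (nat_lit 8636938112) (nat_lit 1672) (nat_lit 4809761604) (nat_lit 1748) (nat_lit 5583593245) (nat_lit 432) (nat_lit 5) (nat_lit 454) (nat_lit 5) (nat_lit 455) (nat_lit 5) (nat_lit 610) (nat_lit 584) (nat_lit 366)) (XT.nd (nat_lit 78) (nat_lit 988) (nat_lit 0) (XT.lf (nat_lit 0) (nat_lit 15336073504) (nat_lit 1748) (nat_lit 273827149) (nat_lit 76) (nat_lit 3624179614) (nat_lit 432) (nat_lit 5) (nat_lit 455) (nat_lit 5) (nat_lit 433) (nat_lit 5) (nat_lit 611) (nat_lit 584) (nat_lit 365)) (XT.lf (nat_lit 0) (nat_lit 10144744548) (nat_lit 988) (nat_lit 7211116984) (nat_lit 1064) (nat_lit 2084230003) (nat_lit 419) (nat_lit 5) (nat_lit 432) (nat_lit 5) (nat_lit 433) (nat_lit 5) (nat_lit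 612) (nat_lit 584) (nat_lit 364)))) (XT.nd (nat_lit 156) (nat_lit 912) (nat_lit 0) (XT.nd (nat_lit 78) (nat_lit 76) (nat_lit 0) (XT.lf (nat_lit 0) (nat_lit 1126555726) (nat_lit 912) (nat_lit 18302436832) (nat_lit 988) (nat_lit 220972262) (nat_lit 407) (nat_lit 5) (nat_lit 419) (nat_lit 5) (nat_lit 420) (nat_lit 5) (nat_lit 613) (nat_lit 584) (nat_lit 363)) (XT.lf (nat_lit 0) (nat_lit 1763085114) (nat_lit 988) (nat_lit 8043619363) (nat_lit 76) (nat_lit 10055002465) (nat_lit 406) (nat_lit 5) (nat_lit 419) (nat_lit 5) (nat_lit 407) (nat_lit 5) (nat_lit 614) (nat_lit 584) (nat_lit 362))) (XT.nd (nat_lit 78) (nat_lit 0) (nat_lit 0) (XT.lf (nat_lit 0) (nat_lit 2674819680) (nat_lit 912) (nat_lit 1121528909) (nat_lit 988) (nat_lit 16281057125) (nat_lit 394) (nat_lit 5) (nat_lit 406) (nat_lit 5) (nat_lit 407) (nat_lit 5) (nat_lit 615) (nat_lit 584) (nat_lit 361)) (XT.lf (nat_lit 0) (nat_lit 5970030243) (nat_lit 988) (nat_lit 6634904237) (nat_lit 76) (nat_lit 7690489603) (nat_lit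 394) (nat_lit 5) (nat_lit 407) (nat_lit 5) (nat_lit 395) (nat_lit 5) (nat_lit 616) (nat_lit 584) (nat_lit 360))))))))
noncomputable def xc215 : XT := (XT.nd (nat_lit 1950) (nat_lit 4484) (nat_lit 0) (XT.nd (nat_lit 936) (nat_lit 4788) (nat_lit 0) (XT.nd (nat_lit 468) (nat_lit 3116) (nat_lit 0) (XT.nd (nat_lit 234) (nat_lit 760) (nat_lit 0) (XT.nd (nat_lit 78) (nat_lit 836) (nat_lit 0) (XT.lf (nat_lit 0) (nat_lit 4393787273) (nat_lit 836) (nat_lit 3824629958) (nat_lit 912) (nat_lit 12298761622) (nat_lit 383) (nat_lit 5) (nat_lit 394) (nat_lit 5) (nat_lit 395) (nat_lit 5) (nat_lit 617) (nat_lit 584) (nat_lit 359)) (XT.nd (nat_lit 78) (nat_lit 836) (nat_lit 0) (XT.lf (nat_lit 0) (nat_lit 10585247444) (nat_lit 912) (nat_lit 5047705109) (nat_lit 76) (nat_lit 5108947310) (nat_lit 383) (nat_lit 5) (nat_lit 395) (nat_lit 5) (nat_lit 384) (nat_lit 5) (nat_lit 618) (nat_lit 584) (nat_lit 358)) (XT.lf (nat_lit 0) (nat_lit 6302305805) (nat_lit 836) (nat_lit 6758788477) (nat_lit 912)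 (nat_lit 7908788052) (nat_lit 372) (nat_lit 5) (nat_lit 383) (nat_lit 5) (nat_lit 384) (nat_lit 5) (nat_lit 619) (nat_lit 584) (nat_lit 357)))) (XT.nd (nat_lit 78) (nat_lit 760) (nat_lit 0) (XT.lf (nat_lit 0) (nat_lit 15630935055) (nat_lit 912) (nat_lit 3273695845) (nat_lit 76) (nat_lit 2296904645) (nat_lit 372) (nat_lit 5) (nat_lit 384) (nat_lit 5) (nat_lit 373) (nat_lit 5) (nat_lit 620) (nat_lit 584) (nat_lit 356)) (XT.nd (nat_lit 78) (nat_lit 0) (nat_lit 0) (XT.lf (nat_lit 0) (nat_lit 8409101226) (nat_lit 760) (nat_lit 9938010590) (nat_lit 836) (nat_lit 3088811836) (nat_lit 362) (nat_lit 5) (nat_lit 372) (nat_lit 5) (nat_lit 373) (nat_lit 5) (nat_lit 621) (nat_lit 584) (nat_lit 355)) (XT.lf (nat_lit 0) (nat_lit 20365471661) (nat_lit 760) (nat_lit 769747888) (nat_lit 836) (nat_lit 539428428) (nat_lit 362) (nat_lit 5) (nat_lit 372) (nat_lit 5) (nat_lit 373) (nat_lit 5) (nat_lit 622) (nat_lit 584) (nat_lit 354))))) (XT.nd (nat_lit 234) (nat_lit 1444) (nat_lit 0) (XT.nd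 (nat_lit 78) (nat_lit 760) (nat_lit 0) (XT.lf (nat_lit 0) (nat_lit 2155780224) (nat_lit 912) (nat_lit 11206624003) (nat_lit 76) (nat_lit 8553038178) (nat_lit 350) (nat_lit 5) (nat_lit 362) (nat_lit 5) (nat_lit 351) (nat_lit 5) (nat_lit 623) (nat_lit 584) (nat_lit 353)) (XT.nd (nat_lit 78) (nat_lit 0) (nat_lit 0) (XT.lf (nat_lit 0) (nat_lit 821605340) (nat_lit 760) (nat_lit 4091097702) (nat_lit 836) (nat_lit 17247978278) (nat_lit 340) (nat_lit 5) (nat_lit 350) (nat_lit 5) (nat_lit 351) (nat_lit 5) (nat_lit 624) (nat_lit 584) (nat_lit 352)) (XT.lf (nat_lit 0) (nat_lit 7831105333) (nat_lit 836) (nat_lit 9206885684) (nat_lit 76) (nat_lit 5370707734) (nat_lit 340) (nat_lit 5) (nat_lit 351) (nat_lit 5) (nat_lit 341) (nat_lit 5) (nat_lit 625) (nat_lit 584) (nat_lit 351)))) (XT.nd (nat_lit 78) (nat_lit 684) (nat_lit 0) (XT.lf (nat_lit 0) (nat_lit 3178087780) (nat_lit 760) (nat_lit 7673401173) (nat_lit 836) (nat_lit 11809315862) (nat_lit 330) (nat_lit 5) (nat_lit 340) (nat_lit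 5) (nat_lit 341) (nat_lit 5) (nat_lit 626) (nat_lit 584) (nat_lit 350)) (XT.nd (nat_lit 78) (nat_lit 684) (nat_lit 0) (XT.lf (nat_lit 0) (nat_lit 14002604126) (nat_lit 836) (nat_lit 6998259033) (nat_lit 76) (nat_lit 1915683898) (nat_lit 330) (nat_lit 5) (nat_lit 341) (nat_lit 5) (nat_lit 331) (nat_lit 5) (nat_lit 627) (nat_lit 584) (nat_lit 349)) (XT.lf (nat_lit 0) (nat_lit 5756153431) (nat_lit 684) (nat_lit 11544793193) (nat_lit 760) (nat_lit 5874773945) (nat_lit 321) (nat_lit 5) (nat_lit 330) (nat_lit 5) (nat_lit 331) (nat_lit 5) (nat_lit 628) (nat_lit 584) (nat_lit 348)))))) (XT.nd (nat_lit 468) (nat_lit 2584) (nat_lit 0) (XT.nd (nat_lit 234) (nat_lit 1368) (nat_lit 0) (XT.nd (nat_lit 78) (nat_lit 836) (nat_lit 0) (XT.lf (nat_lit 0) (nat_lit 18856135946) (nat_lit 684) (nat_lit 1852146750) (nat_lit 760) (nat_lit 2730934839) (nat_lit 321) (nat_lit 5) (nat_lit 330) (nat_lit 5) (nat_lit 331) (nat_lit 5) (nat_lit 629) (nat_lit 584) (nat_lit 347)) (XT.nd (nat_lit 78) (nat_lit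 0) (nat_lit 0) (XT.lf (nat_lit 0) (nat_lit 574147972) (nat_lit 836) (nat_lit 15143741007) (nat_lit 76) (nat_lit 7987942037) (nat_lit 310) (nat_lit 5) (nat_lit 321) (nat_lit 5) (nat_lit 311) (nat_lit 5) (nat_lit 630) (nat_lit 584) (nat_lit 346)) (XT.lf (nat_lit 0) (nat_lit 3948184658) (nat_lit 836) (nat_lit 1979820073) (nat_lit 76) (nat_lit 18048623103) (nat_lit 310) (nat_lit 5) (nat_lit 321) (nat_lit 5) (nat_lit 311) (nat_lit 5) (nat_lit 631) (nat_lit 584) (nat_lit 345)))) (XT.nd (nat_lit 78) (nat_lit 684) (nat_lit 0) (XT.lf (nat_lit 0) (nat_lit 7488061712) (nat_lit 760) (nat_lit 12683106138) (nat_lit 76) (nat_lit 4079706024) (nat_lit 301) (nat_lit 5) (nat_lit 311) (nat_lit 5) (nat_lit 302) (nat_lit 5) (nat_lit 632) (nat_lit 584) (nat_lit 344)) (XT.nd (nat_lit 78) (nat_lit 0) (nat_lit 0) (XT.lf (nat_lit 0) (nat_lit 850260363) (nat_lit 684) (nat_lit 10302906800) (nat_lit 760) (nat_lit 13376349520) (nat_lit 292) (nat_lit 5) (nat_lit 301) (nat_lit 5) (nat_lit 302) (nat_lit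 5) (nat_lit 633) (nat_lit 584) (nat_lit 343)) (XT.lf (nat_lit 0) (nat_lit 14821895830) (nat_lit 684) (nat_lit 151112602) (nat_lit 760) (nat_lit 9839095701) (nat_lit 292) (nat_lit 5) (nat_lit 301) (nat_lit 5) (nat_lit 302) (nat_lit 5) (nat_lit 634) (nat_lit 584) (nat_lit 342))))) (XT.nd (nat_lit 234) (nat_lit 1216) (nat_lit 0) (XT.nd (nat_lit 78) (nat_lit 760) (nat_lit 0) (XT.lf (nat_lit 0) (nat_lit 3953922867) (nat_lit 608) (nat_lit 15003635827) (nat_lit 684) (nat_lit 6141018843) (nat_lit 284) (nat_lit 5) (nat_lit 292) (nat_lit 5) (nat_lit 293) (nat_lit 5) (nat_lit 635) (nat_lit 584) (nat_lit 341)) (XT.nd (nat_lit 78) (nat_lit 760) (nat_lit 0) (XT.lf (nat_lit 0) (nat_lit 18307065928) (nat_lit 608) (nat_lit 4779202120) (nat_lit 684) (nat_lit 2303223442) (nat_lit 284) (nat_lit 5) (nat_lit 292) (nat_lit 5) (nat_lit 293) (nat_lit 5) (nat_lit 636) (nat_lit 584) (nat_lit 340)) (XT.lf (nat_lit 0) (nat_lit 1671411103) (nat_lit 760) (nat_lit 18379547361) (nat_lit 76) (nat_lit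 5633432121) (nat_lit 274) (nat_lit 5) (nat_lit 284) (nat_lit 5) (nat_lit 275) (nat_lit 5) (nat_lit 637) (nat_lit 584) (nat_lit 339)))) (XT.nd (nat_lit 156) (nat_lit 608) (nat_lit 0) (XT.nd (nat_lit 78) (nat_lit 608) (nat_lit 0) (XT.lf (nat_lit 0) (nat_lit 5770736497) (nat_lit 760) (nat_lit 3959871060) (nat_lit 76) (nat_lit 16252755268) (nat_lit 274) (nat_lit 5) (nat_lit 284) (nat_lit 5) (nat_lit 275) (nat_lit 5) (nat_lit 638) (nat_lit 584) (nat_lit 338)) (XT.lf (nat_lit 0) (nat_lit 10024950708) (nat_lit 684) (nat_lit 15405814123) (nat_lit 76) (nat_lit 856092039) (nat_lit 266) (nat_lit 5) (nat_lit 275) (nat_lit 5) (nat_lit 267) (nat_lit 5) (nat_lit 639) (nat_lit 584) (nat_lit 337))) (XT.nd (nat_lit 78) (nat_lit 608) (nat_lit 0) (XT.lf (nat_lit 0) (nat_lit 14452059746) (nat_lit 684) (nat_lit 592283027) (nat_lit 76) (nat_lit 11550322212) (nat_lit 266) (nat_lit 5) (nat_lit 275) (nat_lit 5) (nat_lit 267) (nat_lit 5) (nat_lit 640) (nat_lit 584) (nat_lit 336)) (XT.lf (nat_lit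 0) (nat_lit 14706248169) (nat_lit 608) (nat_lit 4353632411) (nat_lit 684) (nat_lit 7846905680) (nat_lit 258) (nat_lit 5) (nat_lit 266) (nat_lit 5) (nat_lit 267) (nat_lit 5) (nat_lit 641) (nat_lit 584) (nat_lit 335))))))) (XT.nd (nat_lit 936) (nat_lit 608) (nat_lit 0) (XT.nd (nat_lit 468) (nat_lit 2128) (nat_lit 0) (XT.nd (nat_lit 234) (nat_lit 532) (nat_lit 0) (XT.nd (nat_lit 78) (nat_lit 684) (nat_lit 0) (XT.lf (nat_lit 0) (nat_lit 3087462900) (nat_lit 532) (nat_lit 20735694022) (nat_lit 608) (nat_lit 3400727441) (nat_lit 251) (nat_lit 5) (nat_lit 258) (nat_lit 5) (nat_lit 259) (nat_lit 5) (nat_lit 642) (nat_lit 584) (nat_lit 334)) (XT.nd (nat_lit 78) (nat_lit 608) (nat_lit 0) (XT.lf (nat_lit 0) (nat_lit 1227478238) (nat_lit 608) (nat_lit 8740015889) (nat_lit 76) (nat_lit 17577523738) (nat_lit 250) (nat_lit 5) (nat_lit 258) (nat_lit 5) (nat_lit 251) (nat_lit 5) (nat_lit 643) (nat_lit 584) (nat_lit 333)) (XT.lf (nat_lit 0) (nat_lit 5952239190) (nat_lit 684) (nat_lit 20848435797)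 (nat_lit 76) (nat_lit 1070459299) (nat_lit 242) (nat_lit 5) (nat_lit 251) (nat_lit 5) (nat_lit 243) (nat_lit 5) (nat_lit 644) (nat_lit 584) (nat_lit 332)))) (XT.nd (nat_lit 78) (nat_lit 532) (nat_lit 0) (XT.lf (nat_lit 0) (nat_lit 10893373209) (nat_lit 684) (nat_lit 5054001327) (nat_lit 76) (nat_lit 12253961295) (nat_lit 242) (nat_lit 5) (nat_lit 251) (nat_lit 5) (nat_lit 243) (nat_lit 5) (nat_lit 645) (nat_lit 584) (nat_lit 331)) (XT.nd (nat_lit 78) (nat_lit 0) (nat_lit 0) (XT.lf (nat_lit 0) (nat_lit 11199138429) (nat_lit 532) (nat_lit 4803795317) (nat_lit 608) (nat_lit 12533815932) (nat_lit 235) (nat_lit 5) (nat_lit 242) (nat_lit 5) (nat_lit 243) (nat_lit 5) (nat_lit 646) (nat_lit 584) (nat_lit 330)) (XT.lf (nat_lit 0) (nat_lit 21288354326) (nat_lit 608) (nat_lit 1079268881) (nat_lit 76) (nat_lit 6509775558) (nat_lit 235) (nat_lit 5) (nat_lit 243) (nat_lit 5) (nat_lit 236) (nat_lit 5) (nat_lit 647) (nat_lit 584) (nat_lit 329))))) (XT.nd (nat_lit 234) (nat_lit 988) (nat_lit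 0) (XT.nd (nat_lit 78) (nat_lit 608) (nat_lit 0) (XT.lf (nat_lit 0) (nat_lit 15673983486) (nat_lit 532) (nat_lit 11136059440) (nat_lit 608) (nat_lit 2412207050) (nat_lit 228) (nat_lit 5) (nat_lit 235) (nat_lit 5) (nat_lit 236) (nat_lit 5) (nat_lit 648) (nat_lit 584) (nat_lit 328)) (XT.nd (nat_lit 78) (nat_lit 0) (nat_lit 0) (XT.lf (nat_lit 0) (nat_lit 2858140384) (nat_lit 608) (nat_lit 26352855747) (nat_lit 76) (nat_lit 362078164) (nat_lit 220) (nat_lit 5) (nat_lit 228) (nat_lit 5) (nat_lit 221) (nat_lit 5) (nat_lit 649) (nat_lit 584) (nat_lit 327)) (XT.lf (nat_lit 0) (nat_lit 8363912406) (nat_lit 608) (nat_lit 9515750167) (nat_lit 76) (nat_lit 12047687606) (nat_lit 220) (nat_lit 5) (nat_lit 228) (nat_lit 5) (nat_lit 221) (nat_lit 5) (nat_lit 650) (nat_lit 584) (nat_lit 326)))) (XT.nd (nat_lit 78) (nat_lit 456) (nat_lit 0) (XT.lf (nat_lit 0) (nat_lit 7755844982) (nat_lit 532) (nat_lit 6271389476) (nat_lit 608) (nat_lit 16260528739) (nat_lit 213) (nat_lit 5) (nat_lit 220)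 (nat_lit 5) (nat_lit 221) (nat_lit 5) (nat_lit 651) (nat_lit 584) (nat_lit 325)) (XT.nd (nat_lit 78) (nat_lit 456) (nat_lit 0) (XT.lf (nat_lit 0) (nat_lit 19901362799) (nat_lit 608) (nat_lit 5192824632) (nat_lit 76) (nat_lit 5559246549) (nat_lit 213) (nat_lit 5) (nat_lit 221) (nat_lit 5) (nat_lit 214) (nat_lit 5) (nat_lit 652) (nat_lit 584) (nat_lit 324)) (XT.lf (nat_lit 0) (nat_lit 12613021907) (nat_lit 456) (nat_lit 13400536392) (nat_lit 532) (nat_lit 5010448485) (nat_lit 207) (nat_lit 5) (nat_lit 213) (nat_lit 5) (nat_lit 214) (nat_lit 5) (nat_lit 653) (nat_lit 584) (nat_lit 323)))))) (XT.nd (nat_lit 76128) (nat_lit 0) (nat_lit 20444) (XT.nd (nat_lit 75894) (nat_lit 0) (nat_lit 20368) (XT.nd (nat_lit 78) (nat_lit 532) (nat_lit 0) (XT.lf (nat_lit 0) (nat_lit 867160118) (nat_lit 532) (nat_lit 565572917) (nat_lit 76) (nat_lit 29968503457) (nat_lit 206) (nat_lit 5) (nat_lit 213) (nat_lit 5) (nat_lit 207) (nat_lit 5) (nat_lit 654) (nat_lit 584) (nat_lit 322)) (XT.nd (nat_lit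 75738) (nat_lit 0) (nat_lit 20368) (XT.lf (nat_lit 0) (nat_lit 6979242622) (nat_lit 608) (nat_lit 14020418598) (nat_lit 76) (nat_lit 10782007240) (nat_lit 199) (nat_lit 5) (nat_lit 207) (nat_lit 5) (nat_lit 200) (nat_lit 5) (nat_lit 655) (nat_lit 584) (nat_lit 321)) (XT.lf (nat_lit 0) (nat_lit 1148099188) (nat_lit 0) (nat_lit 1148099188) (nat_lit 1748) (nat_lit 5168873085) (nat_lit 467) (nat_lit 5) (nat_lit 467) (nat_lit 3) (nat_lit 490) (nat_lit 3) (nat_lit 585) (nat_lit 585) (nat_lit 390)))) (XT.nd (nat_lit 78) (nat_lit 0) (nat_lit 0) (XT.lf (nat_lit 0) (nat_lit 4969720994) (nat_lit 1748) (nat_lit 5346929298) (nat_lit 1824) (nat_lit 4756119043) (nat_lit 467) (nat_lit 5) (nat_lit 490) (nat_lit 3) (nat_lit 491) (nat_lit 5) (nat_lit 586) (nat_lit 585) (nat_lit 389)) (XT.nd (nat_lit 78) (nat_lit 0) (nat_lit 76) (XT.lf (nat_lit 76) (nat_lit 2093962108) (nat_lit 0) (nat_lit 3281585175) (nat_lit 1824) (nat_lit 9842283115) (nat_lit 468) (nat_lit 5) (nat_lit 467) (nat_lit 5)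 (nat_lit 491) (nat_lit 5) (nat_lit 587) (nat_lit 585) (nat_lit 388)) (XT.lf (nat_lit 0) (nat_lit 5843196417) (nat_lit 1748) (nat_lit 5638718173) (nat_lit 1824) (nat_lit 3882805174) (nat_lit 468) (nat_lit 5) (nat_lit 491) (nat_lit 5) (nat_lit 492) (nat_lit 5) (nat_lit 588) (nat_lit 585) (nat_lit 387))))) (XT.nd (nat_lit 234) (nat_lit 0) (nat_lit 152) (XT.nd (nat_lit 78) (nat_lit 0) (nat_lit 76) (XT.lf (nat_lit 76) (nat_lit 1996397219) (nat_lit 0) (nat_lit 4350950877) (nat_lit 1824) (nat_lit 9166657016) (nat_lit 469) (nat_lit 5) (nat_lit 468) (nat_lit 5) (nat_lit 492) (nat_lit 5) (nat_lit 589) (nat_lit 585) (nat_lit 386)) (XT.nd (nat_lit 78) (nat_lit 0) (nat_lit 0) (XT.lf (nat_lit 0) (nat_lit 6911245209) (nat_lit 1748) (nat_lit 5828428168) (nat_lit 1824) (nat_lit 2925610703) (nat_lit 469) (nat_lit 5) (nat_lit 492) (nat_lit 5) (nat_lit 493) (nat_lit 5) (nat_lit 590) (nat_lit 585) (nat_lit 385)) (XT.lf (nat_lit 76) (nat_lit 2007806840) (nat_lit 0) (nat_lit 5513206211) (nat_lit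 1824) (nat_lit 8297884860) (nat_lit 470) (nat_lit 5) (nat_lit 469) (nat_lit 5) (nat_lit 493) (nat_lit 5) (nat_lit 591) (nat_lit 585) (nat_lit 384)))) (XT.nd (nat_lit 156) (nat_lit 0) (nat_lit 76) (XT.nd (nat_lit 78) (nat_lit 0) (nat_lit 0) (XT.lf (nat_lit 0) (nat_lit 8187285522) (nat_lit 1748) (nat_lit 5911732207) (nat_lit 1824) (nat_lit 1875681223) (nat_lit 470) (nat_lit 5) (nat_lit 493) (nat_lit 5) (nat_lit 494) (nat_lit 5) (nat_lit 592) (nat_lit 585) (nat_lit 383)) (XT.lf (nat_lit 76) (nat_lit 2132778400) (nat_lit 0) (nat_lit 6777479854) (nat_lit 1824) (nat_lit 7222491357) (nat_lit 471) (nat_lit 5) (nat_lit 470) (nat_lit 5) (nat_lit 494) (nat_lit 5) (nat_lit 593) (nat_lit 585) (nat_lit 382))) (XT.nd (nat_lit 78) (nat_lit 0) (nat_lit 0) (XT.lf (nat_lit 0) (nat_lit 9685249366) (nat_lit 1748) (nat_lit 5884022531) (nat_lit 1824) (nat_lit 723939281) (nat_lit 471) (nat_lit 5) (nat_lit 494) (nat_lit 5) (nat_lit 495) (nat_lit 5) (nat_lit 594) (nat_lit 585) (nat_lit 381)) (XT.lf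 (nat_lit 76) (nat_lit 2376188885) (nat_lit 0) (nat_lit 8153139907) (nat_lit 1824) (nat_lit 5926482468) (nat_lit 472) (nat_lit 5) (nat_lit 471) (nat_lit 5) (nat_lit 495) (nat_lit 5) (nat_lit 595) (nat_lit 585) (nat_lit 380))))))))
noncomputable def xc216 : XT := (XT.nd (nat_lit 1950) (nat_lit 9880) (nat_lit 0) (XT.nd (nat_lit 936) (nat_lit 5928) (nat_lit 0) (XT.nd (nat_lit 468) (nat_lit 1596) (nat_lit 0) (XT.nd (nat_lit 234) (nat_lit 0) (nat_lit 152) (XT.nd (nat_lit 78) (nat_lit 0) (nat_lit 76) (XT.lf (nat_lit 76) (nat_lit 10877056123) (nat_lit 0) (nat_lit 546099155) (nat_lit 1824) (nat_lit 5197851787) (nat_lit 472) (nat_lit 5) (nat_lit 471) (nat_lit 5) (nat_lit 495) (nat_lit 5) (nat_lit 596) (nat_lit 585) (nat_lit 379)) (XT.nd (nat_lit 78) (nat_lit 0) (nat_lit 0) (XT.lf (nat_lit 76) (nat_lit 2743210572) (nat_lit 0) (nat_lit 9649815669) (nat_lit 1824) (nat_lit 4395318197) (nat_lit 473) (nat_lit 5) (nat_lit 472) (nat_lit 5) (nat_lit 496) (nat_lit 5) (nat_lit 597) (nat_lit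 585) (nat_lit 378)) (XT.lf (nat_lit 76) (nat_lit 11469971285) (nat_lit 0) (nat_lit 1948084901) (nat_lit 1824) (nat_lit 3540258135) (nat_lit 473) (nat_lit 5) (nat_lit 472) (nat_lit 5) (nat_lit 496) (nat_lit 5) (nat_lit 598) (nat_lit 585) (nat_lit 377)))) (XT.nd (nat_lit 78) (nat_lit 0) (nat_lit 0) (XT.lf (nat_lit 76) (nat_lit 3239317218) (nat_lit 0) (nat_lit 11277419739) (nat_lit 1824) (nat_lit 2613884612) (nat_lit 474) (nat_lit 5) (nat_lit 473) (nat_lit 5) (nat_lit 497) (nat_lit 5) (nat_lit 599) (nat_lit 585) (nat_lit 376)) (XT.nd (nat_lit 78) (nat_lit 0) (nat_lit 76) (XT.lf (nat_lit 76) (nat_lit 12198488807) (nat_lit 0) (nat_lit 3482404381) (nat_lit 1824) (nat_lit 1624612689) (nat_lit 474) (nat_lit 5) (nat_lit 473) (nat_lit 5) (nat_lit 497) (nat_lit 5) (nat_lit 600) (nat_lit 585) (nat_lit 375)) (XT.lf (nat_lit 76) (nat_lit 3870290700) (nat_lit 0) (nat_lit 13046170503) (nat_lit 1824) (nat_lit 566465031) (nat_lit 475) (nat_lit 5) (nat_lit 474) (nat_lit 5) (nat_lit 498)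 (nat_lit 5) (nat_lit 601) (nat_lit 585) (nat_lit 374))))) (XT.nd (nat_lit 234) (nat_lit 0) (nat_lit 152) (XT.nd (nat_lit 78) (nat_lit 0) (nat_lit 76) (XT.lf (nat_lit 0) (nat_lit 557716455) (nat_lit 1824) (nat_lit 4597920358) (nat_lit 1900) (nat_lit 12507160548) (nat_lit 450) (nat_lit 5) (nat_lit 474) (nat_lit 5) (nat_lit 475) (nat_lit 5) (nat_lit 602) (nat_lit 585) (nat_lit 373)) (XT.nd (nat_lit 78) (nat_lit 0) (nat_lit 0) (XT.lf (nat_lit 0) (nat_lit 1740163788) (nat_lit 1824) (nat_lit 13214773868) (nat_lit 1900) (nat_lit 2890386907) (nat_lit 451) (nat_lit 5) (nat_lit 475) (nat_lit 5) (nat_lit 476) (nat_lit 5) (nat_lit 603) (nat_lit 585) (nat_lit 372)) (XT.lf (nat_lit 0) (nat_lit 3005711584) (nat_lit 1824) (nat_lit 3963787967) (nat_lit 1900) (nat_lit 11060814590) (nat_lit 451) (nat_lit 5) (nat_lit 475) (nat_lit 5) (nat_lit 476) (nat_lit 5) (nat_lit 604) (nat_lit 585) (nat_lit 371)))) (XT.nd (nat_lit 78) (nat_lit 0) (nat_lit 0) (XT.lf (nat_lit 0) (nat_lit 4334784554) (nat_lit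 1824) (nat_lit 12685779457) (nat_lit 1900) (nat_lit 1197676063) (nat_lit 452) (nat_lit 5) (nat_lit 476) (nat_lit 5) (nat_lit 477) (nat_lit 5) (nat_lit 605) (nat_lit 585) (nat_lit 370)) (XT.nd (nat_lit 78) (nat_lit 0) (nat_lit 0) (XT.lf (nat_lit 0) (nat_lit 5757822105) (nat_lit 1824) (nat_lit 3187835464) (nat_lit 1900) (nat_lit 9462920122) (nat_lit 452) (nat_lit 5) (nat_lit 476) (nat_lit 5) (nat_lit 477) (nat_lit 5) (nat_lit 606) (nat_lit 585) (nat_lit 369)) (XT.lf (nat_lit 76) (nat_lit 6582003820) (nat_lit 0) (nat_lit 664612339) (nat_lit 1900) (nat_lit 11355360801) (nat_lit 453) (nat_lit 5) (nat_lit 452) (nat_lit 5) (nat_lit 477) (nat_lit 5) (nat_lit 607) (nat_lit 585) (nat_lit 368)))))) (XT.nd (nat_lit 468) (nat_lit 3572) (nat_lit 0) (XT.nd (nat_lit 234) (nat_lit 2584) (nat_lit 0) (XT.nd (nat_lit 78) (nat_lit 0) (nat_lit 0) (XT.lf (nat_lit 0) (nat_lit 8831891942) (nat_lit 1824) (nat_lit 2263505857) (nat_lit 1900) (nat_lit 7702513097) (nat_lit 453) (nat_lit 5) (nat_lit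 477) (nat_lit 5) (nat_lit 478) (nat_lit 5) (nat_lit 608) (nat_lit 585) (nat_lit 367)) (XT.nd (nat_lit 78) (nat_lit 0) (nat_lit 76) (XT.lf (nat_lit 76) (nat_lit 7781357585) (nat_lit 0) (nat_lit 2717189646) (nat_lit 1900) (nat_lit 8498223580) (nat_lit 454) (nat_lit 5) (nat_lit 453) (nat_lit 5) (nat_lit 478) (nat_lit 5) (nat_lit 609) (nat_lit 585) (nat_lit 366)) (XT.lf (nat_lit 0) (nat_lit 12246499356) (nat_lit 1824) (nat_lit 1183913438) (nat_lit 76) (nat_lit 5768236623) (nat_lit 454) (nat_lit 5) (nat_lit 478) (nat_lit 5) (nat_lit 455) (nat_lit 5) (nat_lit 610) (nat_lit 585) (nat_lit 365)))) (XT.nd (nat_lit 78) (nat_lit 988) (nat_lit 0) (XT.lf (nat_lit 0) (nat_lit 9145791592) (nat_lit 1672) (nat_lit 4955926264) (nat_lit 1748) (nat_lit 5301402344) (nat_lit 432) (nat_lit 5) (nat_lit 454) (nat_lit 5) (nat_lit 455) (nat_lit 5) (nat_lit 611) (nat_lit 585) (nat_lit 364)) (XT.nd (nat_lit 78) (nat_lit 0) (nat_lit 0) (XT.lf (nat_lit 0) (nat_lit 58937691) (nat_lit 988) (nat_lit 15962435741)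 (nat_lit 1064) (nat_lit 3589761050) (nat_lit 419) (nat_lit 5) (nat_lit 432) (nat_lit 5) (nat_lit 433) (nat_lit 5) (nat_lit 612) (nat_lit 585) (nat_lit 363)) (XT.lf (nat_lit 0) (nat_lit 10682887657) (nat_lit 988) (nat_lit 7393047951) (nat_lit 1064) (nat_lit 1745443894) (nat_lit 419) (nat_lit 5) (nat_lit 432) (nat_lit 5) (nat_lit 433) (nat_lit 5) (nat_lit 613) (nat_lit 585) (nat_lit 362))))) (XT.nd (nat_lit 234) (nat_lit 1672) (nat_lit 0) (XT.nd (nat_lit 78) (nat_lit 912) (nat_lit 0) (XT.lf (nat_lit 0) (nat_lit 147668154) (nat_lit 988) (nat_lit 18546692511) (nat_lit 76) (nat_lit 1341178042) (nat_lit 406) (nat_lit 5) (nat_lit 419) (nat_lit 5) (nat_lit 407) (nat_lit 5) (nat_lit 614) (nat_lit 585) (nat_lit 361)) (XT.nd (nat_lit 78) (nat_lit 912) (nat_lit 0) (XT.lf (nat_lit 0) (nat_lit 2161193688) (nat_lit 988) (nat_lit 7865549228) (nat_lit 76) (nat_lit 10224889658) (nat_lit 406) (nat_lit 5) (nat_lit 419) (nat_lit 5) (nat_lit 407) (nat_lit 5) (nat_lit 615) (nat_lit 585) (nat_lit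 360)) (XT.lf (nat_lit 0) (nat_lit 3065028712) (nat_lit 912) (nat_lit 1165165238) (nat_lit 988) (nat_lit 16241550952) (nat_lit 394) (nat_lit 5) (nat_lit 406) (nat_lit 5) (nat_lit 407) (nat_lit 5) (nat_lit 616) (nat_lit 585) (nat_lit 359)))) (XT.nd (nat_lit 156) (nat_lit 836) (nat_lit 0) (XT.nd (nat_lit 78) (nat_lit 836) (nat_lit 0) (XT.lf (nat_lit 0) (nat_lit 6440196247) (nat_lit 988) (nat_lit 6430289336) (nat_lit 76) (nat_lit 7823782107) (nat_lit 394) (nat_lit 5) (nat_lit 407) (nat_lit 5) (nat_lit 395) (nat_lit 5) (nat_lit 617) (nat_lit 585) (nat_lit 358)) (XT.lf (nat_lit 0) (nat_lit 4816756840) (nat_lit 836) (nat_lit 3912092033) (nat_lit 912) (nat_lit 12191703696) (nat_lit 383) (nat_lit 5) (nat_lit 394) (nat_lit 5) (nat_lit 395) (nat_lit 5) (nat_lit 618) (nat_lit 585) (nat_lit 357))) (XT.nd (nat_lit 78) (nat_lit 836) (nat_lit 0) (XT.lf (nat_lit 0) (nat_lit 11136160311) (nat_lit 912) (nat_lit 4813232834) (nat_lit 76) (nat_lit 5200512914) (nat_lit 383) (nat_lit 5) (nat_lit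 395) (nat_lit 5) (nat_lit 384) (nat_lit 5) (nat_lit 619) (nat_lit 585) (nat_lit 356)) (XT.lf (nat_lit 0) (nat_lit 6761571546) (nat_lit 836) (nat_lit 6895464888) (nat_lit 912) (nat_lit 7725502434) (nat_lit 372) (nat_lit 5) (nat_lit 383) (nat_lit 5) (nat_lit 384) (nat_lit 5) (nat_lit 620) (nat_lit 585) (nat_lit 355))))))) (XT.nd (nat_lit 936) (nat_lit 5168) (nat_lit 0) (XT.nd (nat_lit 468) (nat_lit 2280) (nat_lit 0) (XT.nd (nat_lit 234) (nat_lit 1672) (nat_lit 0) (XT.nd (nat_lit 78) (nat_lit 760) (nat_lit 0) (XT.lf (nat_lit 0) (nat_lit 16271701326) (nat_lit 912) (nat_lit 3005865368) (nat_lit 76) (nat_lit 2341390816) (nat_lit 372) (nat_lit 5) (nat_lit 384) (nat_lit 5) (nat_lit 373) (nat_lit 5) (nat_lit 621) (nat_lit 585) (nat_lit 354)) (XT.nd (nat_lit 78) (nat_lit 0) (nat_lit 0) (XT.lf (nat_lit 0) (nat_lit 8908394852) (nat_lit 760) (nat_lit 10129522301) (nat_lit 836) (nat_lit 2820202815) (nat_lit 362) (nat_lit 5) (nat_lit 372) (nat_lit 5) (nat_lit 373) (nat_lit 5) (nat_lit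 622) (nat_lit 585) (nat_lit 353)) (XT.lf (nat_lit 0) (nat_lit 21097400312) (nat_lit 760) (nat_lit 778036472) (nat_lit 836) (nat_lit 226309881) (nat_lit 362) (nat_lit 5) (nat_lit 372) (nat_lit 5) (nat_lit 373) (nat_lit 5) (nat_lit 623) (nat_lit 585) (nat_lit 352)))) (XT.nd (nat_lit 78) (nat_lit 760) (nat_lit 0) (XT.lf (nat_lit 0) (nat_lit 2514481414) (nat_lit 912) (nat_lit 11097730279) (nat_lit 76) (nat_lit 8735185544) (nat_lit 350) (nat_lit 5) (nat_lit 362) (nat_lit 5) (nat_lit 351) (nat_lit 5) (nat_lit 624) (nat_lit 585) (nat_lit 351)) (XT.nd (nat_lit 78) (nat_lit 0) (nat_lit 0) (XT.lf (nat_lit 0) (nat_lit 1168872690) (nat_lit 760) (nat_lit 4153630047) (nat_lit 836) (nat_lit 17275119821) (nat_lit 340) (nat_lit 5) (nat_lit 350) (nat_lit 5) (nat_lit 351) (nat_lit 5) (nat_lit 625) (nat_lit 585) (nat_lit 350)) (XT.lf (nat_lit 0) (nat_lit 8293287121) (nat_lit 836) (nat_lit 9060648506) (nat_lit 76) (nat_lit 5496785244) (nat_lit 340) (nat_lit 5) (nat_lit 351) (nat_lit 5) (nat_lit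 341) (nat_lit 5) (nat_lit 626) (nat_lit 585) (nat_lit 349))))) (XT.nd (nat_lit 234) (nat_lit 836) (nat_lit 0) (XT.nd (nat_lit 78) (nat_lit 684) (nat_lit 0) (XT.lf (nat_lit 0) (nat_lit 3569850909) (nat_lit 760) (nat_lit 7800367039) (nat_lit 836) (nat_lit 11737729113) (nat_lit 330) (nat_lit 5) (nat_lit 340) (nat_lit 5) (nat_lit 341) (nat_lit 5) (nat_lit 627) (nat_lit 585) (nat_lit 348)) (XT.nd (nat_lit 78) (nat_lit 684) (nat_lit 0) (XT.lf (nat_lit 0) (nat_lit 14578608450) (nat_lit 836) (nat_lit 6810672102) (nat_lit 76) (nat_lit 1979639318) (nat_lit 330) (nat_lit 5) (nat_lit 341) (nat_lit 5) (nat_lit 331) (nat_lit 5) (nat_lit 628) (nat_lit 585) (nat_lit 347)) (XT.lf (nat_lit 0) (nat_lit 6196673663) (nat_lit 684) (nat_lit 11742553844) (nat_lit 760) (nat_lit 5694123918) (nat_lit 321) (nat_lit 5) (nat_lit 330) (nat_lit 5) (nat_lit 331) (nat_lit 5) (nat_lit 629) (nat_lit 585) (nat_lit 346)))) (XT.nd (nat_lit 78) (nat_lit 836) (nat_lit 0) (XT.lf (nat_lit 0) (nat_lit 19552275492)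 (nat_lit 684) (nat_lit 1856704182) (nat_lit 760) (nat_lit 2493254020) (nat_lit 321) (nat_lit 5) (nat_lit 330) (nat_lit 5) (nat_lit 331) (nat_lit 5) (nat_lit 630) (nat_lit 585) (nat_lit 345)) (XT.nd (nat_lit 78) (nat_lit 0) (nat_lit 0) (XT.lf (nat_lit 0) (nat_lit 870756194) (nat_lit 836) (nat_lit 15120351809) (nat_lit 76) (nat_lit 8183101021) (nat_lit 310) (nat_lit 5) (nat_lit 321) (nat_lit 5) (nat_lit 311) (nat_lit 5) (nat_lit 631) (nat_lit 585) (nat_lit 344)) (XT.lf (nat_lit 0) (nat_lit 4306682921) (nat_lit 836) (nat_lit 1699549791) (nat_lit 76) (nat_lit 18444301588) (nat_lit 310) (nat_lit 5) (nat_lit 321) (nat_lit 5) (nat_lit 311) (nat_lit 5) (nat_lit 632) (nat_lit 585) (nat_lit 343)))))) (XT.nd (nat_lit 468) (nat_lit 2432) (nat_lit 0) (XT.nd (nat_lit 234) (nat_lit 1368) (nat_lit 0) (XT.nd (nat_lit 78) (nat_lit 684) (nat_lit 0) (XT.lf (nat_lit 0) (nat_lit 7914209961) (nat_lit 760) (nat_lit 12613719316) (nat_lit 76) (nat_lit 4202399628) (nat_lit 301) (nat_lit 5) (nat_lit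 311) (nat_lit 5) (nat_lit 302) (nat_lit 5) (nat_lit 633) (nat_lit 585) (nat_lit 342)) (XT.nd (nat_lit 78) (nat_lit 0) (nat_lit 0) (XT.lf (nat_lit 0) (nat_lit 1188189193) (nat_lit 684) (nat_lit 10461092625) (nat_lit 760) (nat_lit 13365330148) (nat_lit 292) (nat_lit 5) (nat_lit 301) (nat_lit 5) (nat_lit 302) (nat_lit 5) (nat_lit 634) (nat_lit 585) (nat_lit 341)) (XT.lf (nat_lit 0) (nat_lit 15432964749) (nat_lit 684) (nat_lit 107201215) (nat_lit 760) (nat_lit 9762792947) (nat_lit 292) (nat_lit 5) (nat_lit 301) (nat_lit 5) (nat_lit 302) (nat_lit 5) (nat_lit 635) (nat_lit 585) (nat_lit 340)))) (XT.nd (nat_lit 78) (nat_lit 760) (nat_lit 0) (XT.lf (nat_lit 0) (nat_lit 4350611528) (nat_lit 608) (nat_lit 15250907621) (nat_lit 684) (nat_lit 5993701050) (nat_lit 284) (nat_lit 5) (nat_lit 292) (nat_lit 5) (nat_lit 293) (nat_lit 5) (nat_lit 636) (nat_lit 585) (nat_lit 339)) (XT.nd (nat_lit 78) (nat_lit 760) (nat_lit 0) (XT.lf (nat_lit 0) (nat_lit 18984589799) (nat_lit 608) (nat_lit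 4823020552) (nat_lit 684) (nat_lit 2084446567) (nat_lit 284) (nat_lit 5) (nat_lit 292) (nat_lit 5) (nat_lit 293) (nat_lit 5) (nat_lit 637) (nat_lit 585) (nat_lit 338)) (XT.lf (nat_lit 0) (nat_lit 1963467495) (nat_lit 760) (nat_lit 18429480331) (nat_lit 76) (nat_lit 5799927190) (nat_lit 274) (nat_lit 5) (nat_lit 284) (nat_lit 5) (nat_lit 275) (nat_lit 5) (nat_lit 638) (nat_lit 585) (nat_lit 337))))) (XT.nd (nat_lit 234) (nat_lit 1824) (nat_lit 0) (XT.nd (nat_lit 78) (nat_lit 608) (nat_lit 0) (XT.lf (nat_lit 0) (nat_lit 6139708256) (nat_lit 760) (nat_lit 3727639091) (nat_lit 76) (nat_lit 16630581380) (nat_lit 274) (nat_lit 5) (nat_lit 284) (nat_lit 5) (nat_lit 275) (nat_lit 5) (nat_lit 639) (nat_lit 585) (nat_lit 336)) (XT.nd (nat_lit 78) (nat_lit 0) (nat_lit 0) (XT.lf (nat_lit 0) (nat_lit 10476425429) (nat_lit 684) (nat_lit 15399890074) (nat_lit 76) (nat_lit 931229370) (nat_lit 266) (nat_lit 5) (nat_lit 275) (nat_lit 5) (nat_lit 267) (nat_lit 5) (nat_lit 640) (nat_lit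 585) (nat_lit 335)) (XT.lf (nat_lit 0) (nat_lit 14987155556) (nat_lit 684) (nat_lit 296246009) (nat_lit 76) (nat_lit 11838206588) (nat_lit 266) (nat_lit 5) (nat_lit 275) (nat_lit 5) (nat_lit 267) (nat_lit 5) (nat_lit 641) (nat_lit 585) (nat_lit 334)))) (XT.nd (nat_lit 156) (nat_lit 684) (nat_lit 0) (XT.nd (nat_lit 78) (nat_lit 532) (nat_lit 0) (XT.lf (nat_lit 0) (nat_lit 15306230267) (nat_lit 608) (nat_lit 4378063766) (nat_lit 684) (nat_lit 7755735165) (nat_lit 258) (nat_lit 5) (nat_lit 266) (nat_lit 5) (nat_lit 267) (nat_lit 5) (nat_lit 642) (nat_lit 585) (nat_lit 333)) (XT.lf (nat_lit 0) (nat_lit 3457513639) (nat_lit 532) (nat_lit 21082953757) (nat_lit 608) (nat_lit 3223049795) (nat_lit 251) (nat_lit 5) (nat_lit 258) (nat_lit 5) (nat_lit 259) (nat_lit 5) (nat_lit 643) (nat_lit 585) (nat_lit 332))) (XT.nd (nat_lit 78) (nat_lit 608) (nat_lit 0) (XT.lf (nat_lit 0) (nat_lit 1489743389) (nat_lit 608) (nat_lit 8609373909) (nat_lit 76) (nat_lit 17992019785) (nat_lit 250) (nat_lit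 5) (nat_lit 258) (nat_lit 5) (nat_lit 251) (nat_lit 5) (nat_lit 644) (nat_lit 585) (nat_lit 331)) (XT.lf (nat_lit 0) (nat_lit 6306752708) (nat_lit 684) (nat_lit 20957689062) (nat_lit 76) (nat_lit 1159379525) (nat_lit 242) (nat_lit 5) (nat_lit 251) (nat_lit 5) (nat_lit 243) (nat_lit 5) (nat_lit 645) (nat_lit 585) (nat_lit 330))))))))
noncomputable def xc217 : XT := (XT.nd (nat_lit 77688) (nat_lit 0) (nat_lit 10944) (XT.nd (nat_lit 76674) (nat_lit 0) (nat_lit 19836) (XT.nd (nat_lit 468) (nat_lit 1064) (nat_lit 0) (XT.nd (nat_lit 234) (nat_lit 1140) (nat_lit 0) (XT.nd (nat_lit 78) (nat_lit 532) (nat_lit 0) (XT.lf (nat_lit 0) (nat_lit 11342092373) (nat_lit 684) (nat_lit 4853399539) (nat_lit 76) (nat_lit 12565227815) (nat_lit 242) (nat_lit 5) (nat_lit 251) (nat_lit 5) (nat_lit 243) (nat_lit 5) (nat_lit 646) (nat_lit 585) (nat_lit 329)) (XT.nd (nat_lit 78) (nat_lit 0) (nat_lit 0) (XT.lf (nat_lit 0) (nat_lit 11722818263) (nat_lit 532) (nat_lit 4828445186) (nat_lit 608) (nat_lit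 12551630521) (nat_lit 235) (nat_lit 5) (nat_lit 242) (nat_lit 5) (nat_lit 243) (nat_lit 5) (nat_lit 647) (nat_lit 585) (nat_lit 328)) (XT.lf (nat_lit 0) (nat_lit 21938371191) (nat_lit 608) (nat_lit 802987570) (nat_lit 76) (nat_lit 6709078199) (nat_lit 235) (nat_lit 5) (nat_lit 243) (nat_lit 5) (nat_lit 236) (nat_lit 5) (nat_lit 648) (nat_lit 585) (nat_lit 327)))) (XT.nd (nat_lit 78) (nat_lit 608) (nat_lit 0) (XT.lf (nat_lit 0) (nat_lit 16283370195) (nat_lit 532) (nat_lit 11284647539) (nat_lit 608) (nat_lit 2234217465) (nat_lit 228) (nat_lit 5) (nat_lit 235) (nat_lit 5) (nat_lit 236) (nat_lit 5) (nat_lit 649) (nat_lit 585) (nat_lit 326)) (XT.nd (nat_lit 78) (nat_lit 0) (nat_lit 0) (XT.lf (nat_lit 0) (nat_lit 3136614109) (nat_lit 608) (nat_lit 26579035836) (nat_lit 76) (nat_lit 444436262) (nat_lit 220) (nat_lit 5) (nat_lit 228) (nat_lit 5) (nat_lit 221) (nat_lit 5) (nat_lit 650) (nat_lit 585) (nat_lit 325)) (XT.lf (nat_lit 0) (nat_lit 8748162142) (nat_lit 608) (nat_lit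 9411087693) (nat_lit 76) (nat_lit 12362285019) (nat_lit 220) (nat_lit 5) (nat_lit 228) (nat_lit 5) (nat_lit 221) (nat_lit 5) (nat_lit 651) (nat_lit 585) (nat_lit 324))))) (XT.nd (nat_lit 234) (nat_lit 76) (nat_lit 0) (XT.nd (nat_lit 78) (nat_lit 456) (nat_lit 0) (XT.lf (nat_lit 0) (nat_lit 8203998717) (nat_lit 532) (nat_lit 6318400164) (nat_lit 608) (nat_lit 16366804736) (nat_lit 213) (nat_lit 5) (nat_lit 220) (nat_lit 5) (nat_lit 221) (nat_lit 5) (nat_lit 652) (nat_lit 585) (nat_lit 323)) (XT.nd (nat_lit 78) (nat_lit 456) (nat_lit 0) (XT.lf (nat_lit 0) (nat_lit 20510300712) (nat_lit 608) (nat_lit 5005659023) (nat_lit 76) (nat_lit 5746302702) (nat_lit 213) (nat_lit 5) (nat_lit 221) (nat_lit 5) (nat_lit 214) (nat_lit 5) (nat_lit 653) (nat_lit 585) (nat_lit 322)) (XT.lf (nat_lit 0) (nat_lit 13154389827) (nat_lit 456) (nat_lit 13588091870) (nat_lit 532) (nat_lit 4897810602) (nat_lit 207) (nat_lit 5) (nat_lit 213) (nat_lit 5) (nat_lit 214) (nat_lit 5) (nat_lit 654) (nat_lit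 585) (nat_lit 321)))) (XT.nd (nat_lit 75816) (nat_lit 0) (nat_lit 19836) (XT.lf (nat_lit 0) (nat_lit 1090439917) (nat_lit 532) (nat_lit 290688140) (nat_lit 76) (nat_lit 30643993694) (nat_lit 206) (nat_lit 5) (nat_lit 213) (nat_lit 5) (nat_lit 207) (nat_lit 5) (nat_lit 655) (nat_lit 585) (nat_lit 320)) (XT.nd (nat_lit 78) (nat_lit 0) (nat_lit 0) (XT.lf (nat_lit 0) (nat_lit 1320141923) (nat_lit 0) (nat_lit 1320141923) (nat_lit 1748) (nat_lit 4968079107) (nat_lit 467) (nat_lit 5) (nat_lit 467) (nat_lit 3) (nat_lit 490) (nat_lit 3) (nat_lit 586) (nat_lit 586) (nat_lit 388)) (XT.lf (nat_lit 0) (nat_lit 5651847907) (nat_lit 1748) (nat_lit 5147870592) (nat_lit 1824) (nat_lit 4562759992) (nat_lit 467) (nat_lit 5) (nat_lit 490) (nat_lit 3) (nat_lit 491) (nat_lit 5) (nat_lit 587) (nat_lit 586) (nat_lit 387)))))) (XT.nd (nat_lit 468) (nat_lit 0) (nat_lit 228) (XT.nd (nat_lit 234) (nat_lit 0) (nat_lit 152) (XT.nd (nat_lit 78) (nat_lit 0) (nat_lit 76) (XT.lf (nat_lit 76) (nat_lit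 2439825501) (nat_lit 0) (nat_lit 3616512760) (nat_lit 1824) (nat_lit 9454293359) (nat_lit 468) (nat_lit 5) (nat_lit 467) (nat_lit 5) (nat_lit 491) (nat_lit 5) (nat_lit 588) (nat_lit 586) (nat_lit 386)) (XT.nd (nat_lit 78) (nat_lit 0) (nat_lit 0) (XT.lf (nat_lit 0) (nat_lit 6520385429) (nat_lit 1748) (nat_lit 5440425885) (nat_lit 1824) (nat_lit 3699908319) (nat_lit 468) (nat_lit 5) (nat_lit 491) (nat_lit 5) (nat_lit 492) (nat_lit 5) (nat_lit 589) (nat_lit 586) (nat_lit 385)) (XT.lf (nat_lit 76) (nat_lit 2345345323) (nat_lit 0) (nat_lit 4680294415) (nat_lit 1824) (nat_lit 8787532283) (nat_lit 469) (nat_lit 5) (nat_lit 468) (nat_lit 5) (nat_lit 492) (nat_lit 5) (nat_lit 590) (nat_lit 586) (nat_lit 384)))) (XT.nd (nat_lit 78) (nat_lit 0) (nat_lit 0) (XT.lf (nat_lit 0) (nat_lit 7588461633) (nat_lit 1748) (nat_lit 5629598022) (nat_lit 1824) (nat_lit 2749665671) (nat_lit 469) (nat_lit 5) (nat_lit 492) (nat_lit 5) (nat_lit 493) (nat_lit 5) (nat_lit 591) (nat_lit 586) (nat_lit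 383)) (XT.nd (nat_lit 78) (nat_lit 0) (nat_lit 76) (XT.lf (nat_lit 76) (nat_lit 2361286695) (nat_lit 0) (nat_lit 5840603981) (nat_lit 1824) (nat_lit 7922693099) (nat_lit 470) (nat_lit 5) (nat_lit 469) (nat_lit 5) (nat_lit 493) (nat_lit 5) (nat_lit 592) (nat_lit 586) (nat_lit 382)) (XT.lf (nat_lit 0) (nat_lit 8869705338) (nat_lit 1748) (nat_lit 5710922157) (nat_lit 1824) (nat_lit 1703110632) (nat_lit 470) (nat_lit 5) (nat_lit 493) (nat_lit 5) (nat_lit 494) (nat_lit 5) (nat_lit 593) (nat_lit 586) (nat_lit 381))))) (XT.nd (nat_lit 234) (nat_lit 0) (nat_lit 76) (XT.nd (nat_lit 78) (nat_lit 0) (nat_lit 76) (XT.lf (nat_lit 76) (nat_lit 2492379684) (nat_lit 0) (nat_lit 7106645582) (nat_lit 1824) (nat_lit 6846088374) (nat_lit 471) (nat_lit 5) (nat_lit 470) (nat_lit 5) (nat_lit 494) (nat_lit 5) (nat_lit 594) (nat_lit 586) (nat_lit 380)) (XT.nd (nat_lit 78) (nat_lit 0) (nat_lit 0) (XT.lf (nat_lit 0) (nat_lit 10378272749) (nat_lit 1748) (nat_lit 5679650272) (nat_lit 1824) (nat_lit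 551087850) (nat_lit 471) (nat_lit 5) (nat_lit 494) (nat_lit 5) (nat_lit 495) (nat_lit 5) (nat_lit 595) (nat_lit 586) (nat_lit 379)) (XT.lf (nat_lit 76) (nat_lit 2743646604) (nat_lit 0) (nat_lit 8487873825) (nat_lit 1824) (nat_lit 5543498324) (nat_lit 472) (nat_lit 5) (nat_lit 471) (nat_lit 5) (nat_lit 495) (nat_lit 5) (nat_lit 596) (nat_lit 586) (nat_lit 378)))) (XT.nd (nat_lit 156) (nat_lit 0) (nat_lit 76) (XT.nd (nat_lit 78) (nat_lit 0) (nat_lit 76) (XT.lf (nat_lit 76) (nat_lit 11408257972) (nat_lit 0) (nat_lit 725326158) (nat_lit 1824) (nat_lit 4810128633) (nat_lit 472) (nat_lit 5) (nat_lit 471) (nat_lit 5) (nat_lit 495) (nat_lit 5) (nat_lit 597) (nat_lit 586) (nat_lit 377)) (XT.lf (nat_lit 76) (nat_lit 3120408044) (nat_lit 0) (nat_lit 9994015640) (nat_lit 1824) (nat_lit 4000143250) (nat_lit 473) (nat_lit 5) (nat_lit 472) (nat_lit 5) (nat_lit 496) (nat_lit 5) (nat_lit 598) (nat_lit 586) (nat_lit 376))) (XT.nd (nat_lit 78) (nat_lit 0) (nat_lit 76) (XT.lf (nat_lit 76)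 (nat_lit 12015383711) (nat_lit 0) (nat_lit 2135285479) (nat_lit 1824) (nat_lit 3137454169) (nat_lit 473) (nat_lit 5) (nat_lit 472) (nat_lit 5) (nat_lit 496) (nat_lit 5) (nat_lit 599) (nat_lit 586) (nat_lit 375)) (XT.lf (nat_lit 76) (nat_lit 3628289350) (nat_lit 0) (nat_lit 11635092484) (nat_lit 1824) (nat_lit 2200655168) (nat_lit 474) (nat_lit 5) (nat_lit 473) (nat_lit 5) (nat_lit 497) (nat_lit 5) (nat_lit 600) (nat_lit 586) (nat_lit 374))))))) (XT.nd (nat_lit 936) (nat_lit 6232) (nat_lit 0) (XT.nd (nat_lit 468) (nat_lit 1368) (nat_lit 0) (XT.nd (nat_lit 234) (nat_lit 0) (nat_lit 76) (XT.nd (nat_lit 78) (nat_lit 1748) (nat_lit 0) (XT.lf (nat_lit 76) (nat_lit 12760287786) (nat_lit 0) (nat_lit 3681586146) (nat_lit 1824) (nat_lit 1200725398) (nat_lit 474) (nat_lit 5) (nat_lit 473) (nat_lit 5) (nat_lit 497) (nat_lit 5) (nat_lit 601) (nat_lit 586) (nat_lit 373)) (XT.nd (nat_lit 78) (nat_lit 1824) (nat_lit 0) (XT.lf (nat_lit 76) (nat_lit 4273227565) (nat_lit 0) (nat_lit 13421442956)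 (nat_lit 1824) (nat_lit 129048589) (nat_lit 475) (nat_lit 5) (nat_lit 474) (nat_lit 5) (nat_lit 498) (nat_lit 5) (nat_lit 602) (nat_lit 586) (nat_lit 372)) (XT.lf (nat_lit 0) (nat_lit 1003047609) (nat_lit 1824) (nat_lit 4364895290) (nat_lit 1900) (nat_lit 12639361469) (nat_lit 450) (nat_lit 5) (nat_lit 474) (nat_lit 5) (nat_lit 475) (nat_lit 5) (nat_lit 603) (nat_lit 586) (nat_lit 371)))) (XT.nd (nat_lit 78) (nat_lit 0) (nat_lit 0) (XT.lf (nat_lit 0) (nat_lit 2202045571) (nat_lit 1824) (nat_lit 13146923433) (nat_lit 1900) (nat_lit 2844656360) (nat_lit 451) (nat_lit 5) (nat_lit 475) (nat_lit 5) (nat_lit 476) (nat_lit 5) (nat_lit 604) (nat_lit 586) (nat_lit 370)) (XT.nd (nat_lit 78) (nat_lit 0) (nat_lit 76) (XT.lf (nat_lit 0) (nat_lit 3484530235) (nat_lit 1824) (nat_lit 3717430478) (nat_lit 1900) (nat_lit 11180522759) (nat_lit 451) (nat_lit 5) (nat_lit 475) (nat_lit 5) (nat_lit 476) (nat_lit 5) (nat_lit 605) (nat_lit 586) (nat_lit 369)) (XT.lf (nat_lit 0) (nat_lit 4833496569)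 (nat_lit 1824) (nat_lit 12607112072) (nat_lit 1900) (nat_lit 1133694276) (nat_lit 452) (nat_lit 5) (nat_lit 476) (nat_lit 5) (nat_lit 477) (nat_lit 5) (nat_lit 606) (nat_lit 586) (nat_lit 368))))) (XT.nd (nat_lit 234) (nat_lit 1520) (nat_lit 0) (XT.nd (nat_lit 78) (nat_lit 0) (nat_lit 0) (XT.lf (nat_lit 0) (nat_lit 6276916120) (nat_lit 1824) (nat_lit 2925726513) (nat_lit 1900) (nat_lit 9565967438) (nat_lit 452) (nat_lit 5) (nat_lit 476) (nat_lit 5) (nat_lit 477) (nat_lit 5) (nat_lit 607) (nat_lit 586) (nat_lit 367)) (XT.nd (nat_lit 78) (nat_lit 0) (nat_lit 76) (XT.lf (nat_lit 76) (nat_lit 7037365703) (nat_lit 0) (nat_lit 752301824) (nat_lit 1900) (nat_lit 11176327353) (nat_lit 453) (nat_lit 5) (nat_lit 452) (nat_lit 5) (nat_lit 477) (nat_lit 5) (nat_lit 608) (nat_lit 586) (nat_lit 366)) (XT.lf (nat_lit 0) (nat_lit 9398369005) (nat_lit 1824) (nat_lit 1983063756) (nat_lit 1900) (nat_lit 7784581491) (nat_lit 453) (nat_lit 5) (nat_lit 477) (nat_lit 5) (nat_lit 478) (nat_lit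 5) (nat_lit 609) (nat_lit 586) (nat_lit 365)))) (XT.nd (nat_lit 78) (nat_lit 1596) (nat_lit 0) (XT.lf (nat_lit 76) (nat_lit 8260554111) (nat_lit 0) (nat_lit 2832260209) (nat_lit 1900) (nat_lit 8276149046) (nat_lit 454) (nat_lit 5) (nat_lit 453) (nat_lit 5) (nat_lit 478) (nat_lit 5) (nat_lit 610) (nat_lit 586) (nat_lit 364)) (XT.nd (nat_lit 78) (nat_lit 1672) (nat_lit 0) (XT.lf (nat_lit 0) (nat_lit 12867803722) (nat_lit 1824) (nat_lit 882389243) (nat_lit 76) (nat_lit 5824846131) (nat_lit 454) (nat_lit 5) (nat_lit 478) (nat_lit 5) (nat_lit 455) (nat_lit 5) (nat_lit 611) (nat_lit 586) (nat_lit 363)) (XT.lf (nat_lit 0) (nat_lit 9651770398) (nat_lit 1672) (nat_lit 5103073843) (nat_lit 1748) (nat_lit 5028861796) (nat_lit 432) (nat_lit 5) (nat_lit 454) (nat_lit 5) (nat_lit 455) (nat_lit 5) (nat_lit 612) (nat_lit 586) (nat_lit 362)))))) (XT.nd (nat_lit 468) (nat_lit 3344) (nat_lit 0) (XT.nd (nat_lit 234) (nat_lit 912) (nat_lit 0) (XT.nd (nat_lit 78) (nat_lit 988) (nat_lit 0)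 (XT.lf (nat_lit 0) (nat_lit 388791168) (nat_lit 988) (nat_lit 16318653698) (nat_lit 1064) (nat_lit 3288545773) (nat_lit 419) (nat_lit 5) (nat_lit 432) (nat_lit 5) (nat_lit 433) (nat_lit 5) (nat_lit 613) (nat_lit 586) (nat_lit 361)) (XT.nd (nat_lit 78) (nat_lit 988) (nat_lit 0) (XT.lf (nat_lit 0) (nat_lit 11218775531) (nat_lit 988) (nat_lit 7577153265) (nat_lit 1064) (nat_lit 1414656204) (nat_lit 419) (nat_lit 5) (nat_lit 432) (nat_lit 5) (nat_lit 433) (nat_lit 5) (nat_lit 614) (nat_lit 586) (nat_lit 360)) (XT.lf (nat_lit 0) (nat_lit 506353744) (nat_lit 988) (nat_lit 18585329770) (nat_lit 76) (nat_lit 1337400763) (nat_lit 406) (nat_lit 5) (nat_lit 419) (nat_lit 5) (nat_lit 407) (nat_lit 5) (nat_lit 615) (nat_lit 586) (nat_lit 359)))) (XT.nd (nat_lit 78) (nat_lit 912) (nat_lit 0) (XT.lf (nat_lit 0) (nat_lit 2553174647) (nat_lit 988) (nat_lit 7697079241) (nat_lit 76) (nat_lit 10399386628) (nat_lit 406) (nat_lit 5) (nat_lit 419) (nat_lit 5) (nat_lit 407) (nat_lit 5) (nat_lit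 616) (nat_lit 586) (nat_lit 358)) (XT.nd (nat_lit 78) (nat_lit 0) (nat_lit 0) (XT.lf (nat_lit 0) (nat_lit 3449966961) (nat_lit 912) (nat_lit 1208850849) (nat_lit 988) (nat_lit 16215432994) (nat_lit 394) (nat_lit 5) (nat_lit 406) (nat_lit 5) (nat_lit 407) (nat_lit 5) (nat_lit 617) (nat_lit 586) (nat_lit 357)) (XT.lf (nat_lit 0) (nat_lit 6906144923) (nat_lit 988) (nat_lit 6234680410) (nat_lit 76) (nat_lit 7960537172) (nat_lit 394) (nat_lit 5) (nat_lit 407) (nat_lit 5) (nat_lit 395) (nat_lit 5) (nat_lit 618) (nat_lit 586) (nat_lit 356))))) (XT.nd (nat_lit 234) (nat_lit 1672) (nat_lit 0) (XT.nd (nat_lit 78) (nat_lit 836) (nat_lit 0) (XT.lf (nat_lit 0) (nat_lit 5235173697) (nat_lit 836) (nat_lit 4000877391) (nat_lit 912) (nat_lit 12096213318) (nat_lit 383) (nat_lit 5) (nat_lit 394) (nat_lit 5) (nat_lit 395) (nat_lit 5) (nat_lit 619) (nat_lit 586) (nat_lit 355)) (XT.nd (nat_lit 78) (nat_lit 836) (nat_lit 0) (XT.lf (nat_lit 0) (nat_lit 11684919578) (nat_lit 912) (nat_lit 4587096129)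 (nat_lit 76) (nat_lit 5294321959) (nat_lit 383) (nat_lit 5) (nat_lit 395) (nat_lit 5) (nat_lit 384) (nat_lit 5) (nat_lit 620) (nat_lit 586) (nat_lit 354)) (XT.lf (nat_lit 0) (nat_lit 7217083277) (nat_lit 836) (nat_lit 7034816554) (nat_lit 912) (nat_lit 7551810465) (nat_lit 372) (nat_lit 5) (nat_lit 383) (nat_lit 5) (nat_lit 384) (nat_lit 5) (nat_lit 621) (nat_lit 586) (nat_lit 353)))) (XT.nd (nat_lit 156) (nat_lit 912) (nat_lit 0) (XT.nd (nat_lit 78) (nat_lit 760) (nat_lit 0) (XT.lf (nat_lit 0) (nat_lit 16912540554) (nat_lit 912) (nat_lit 2745620898) (nat_lit 76) (nat_lit 2386823092) (nat_lit 372) (nat_lit 5) (nat_lit 384) (nat_lit 5) (nat_lit 373) (nat_lit 5) (nat_lit 622) (nat_lit 586) (nat_lit 352)) (XT.lf (nat_lit 0) (nat_lit 9404816884) (nat_lit 760) (nat_lit 10325145714) (nat_lit 836) (nat_lit 2559050876) (nat_lit 362) (nat_lit 5) (nat_lit 372) (nat_lit 5) (nat_lit 373) (nat_lit 5) (nat_lit 623) (nat_lit 586) (nat_lit 351))) (XT.nd (nat_lit 78) (nat_lit 836) (nat_lit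 0) (XT.lf (nat_lit 0) (nat_lit 79437643) (nat_lit 836) (nat_lit 706796065) (nat_lit 76) (nat_lit 21751391463) (nat_lit 361) (nat_lit 5) (nat_lit 372) (nat_lit 5) (nat_lit 362) (nat_lit 5) (nat_lit 624) (nat_lit 586) (nat_lit 350)) (XT.lf (nat_lit 0) (nat_lit 2868102054) (nat_lit 912) (nat_lit 10999590493) (nat_lit 76) (nat_lit 8920545350) (nat_lit 350) (nat_lit 5) (nat_lit 362) (nat_lit 5) (nat_lit 351) (nat_lit 5) (nat_lit 625) (nat_lit 586) (nat_lit 349))))))))
noncomputable def xc218 : XT := (XT.nd (nat_lit 1950) (nat_lit 1596) (nat_lit 0) (XT.nd (nat_lit 936) (nat_lit 4256) (nat_lit 0) (XT.nd (nat_lit 468) (nat_lit 2812) (nat_lit 0) (XT.nd (nat_lit 234) (nat_lit 684) (nat_lit 0) (XT.nd (nat_lit 78) (nat_lit 760) (nat_lit 0) (XT.lf (nat_lit 0) (nat_lit 1510238651) (nat_lit 760) (nat_lit 4218162079) (nat_lit 836) (nat_lit 17315145456) (nat_lit 340) (nat_lit 5) (nat_lit 350) (nat_lit 5) (nat_lit 351) (nat_lit 5) (nat_lit 626) (nat_lit 586) (nat_lit 348)) (XT.nd (nat_lit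 78) (nat_lit 760) (nat_lit 0) (XT.lf (nat_lit 0) (nat_lit 8752847291) (nat_lit 836) (nat_lit 8924315443) (nat_lit 76) (nat_lit 5624659582) (nat_lit 340) (nat_lit 5) (nat_lit 351) (nat_lit 5) (nat_lit 341) (nat_lit 5) (nat_lit 627) (nat_lit 586) (nat_lit 347)) (XT.lf (nat_lit 0) (nat_lit 3956704841) (nat_lit 760) (nat_lit 7930901334) (nat_lit 836) (nat_lit 11676661832) (nat_lit 330) (nat_lit 5) (nat_lit 340) (nat_lit 5) (nat_lit 341) (nat_lit 5) (nat_lit 628) (nat_lit 586) (nat_lit 346)))) (XT.nd (nat_lit 78) (nat_lit 684) (nat_lit 0) (XT.lf (nat_lit 0) (nat_lit 15154640673) (nat_lit 836) (nat_lit 6632052680) (nat_lit 76) (nat_lit 2043878146) (nat_lit 330) (nat_lit 5) (nat_lit 341) (nat_lit 5) (nat_lit 331) (nat_lit 5) (nat_lit 629) (nat_lit 586) (nat_lit 345)) (XT.nd (nat_lit 78) (nat_lit 0) (nat_lit 0) (XT.lf (nat_lit 0) (nat_lit 6633368731) (nat_lit 684) (nat_lit 11945556389) (nat_lit 760) (nat_lit 5521438243) (nat_lit 321) (nat_lit 5) (nat_lit 330) (nat_lit 5) (nat_lit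 331) (nat_lit 5) (nat_lit 630) (nat_lit 586) (nat_lit 344)) (XT.lf (nat_lit 0) (nat_lit 20249950016) (nat_lit 684) (nat_lit 1862614214) (nat_lit 760) (nat_lit 2262169931) (nat_lit 321) (nat_lit 5) (nat_lit 330) (nat_lit 5) (nat_lit 331) (nat_lit 5) (nat_lit 631) (nat_lit 586) (nat_lit 343))))) (XT.nd (nat_lit 234) (nat_lit 1292) (nat_lit 0) (XT.nd (nat_lit 78) (nat_lit 684) (nat_lit 0) (XT.lf (nat_lit 0) (nat_lit 1162224818) (nat_lit 836) (nat_lit 15109164057) (nat_lit 76) (nat_lit 8380788554) (nat_lit 310) (nat_lit 5) (nat_lit 321) (nat_lit 5) (nat_lit 311) (nat_lit 5) (nat_lit 632) (nat_lit 586) (nat_lit 342)) (XT.nd (nat_lit 78) (nat_lit 684) (nat_lit 0) (XT.lf (nat_lit 0) (nat_lit 4661496482) (nat_lit 836) (nat_lit 1426094916) (nat_lit 76) (nat_lit 18846545966) (nat_lit 310) (nat_lit 5) (nat_lit 321) (nat_lit 5) (nat_lit 311) (nat_lit 5) (nat_lit 633) (nat_lit 586) (nat_lit 341)) (XT.lf (nat_lit 0) (nat_lit 8338148731) (nat_lit 760) (nat_lit 12555489142) (nat_lit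 76) (nat_lit 4325951161) (nat_lit 301) (nat_lit 5) (nat_lit 311) (nat_lit 5) (nat_lit 302) (nat_lit 5) (nat_lit 634) (nat_lit 586) (nat_lit 340)))) (XT.nd (nat_lit 78) (nat_lit 608) (nat_lit 0) (XT.lf (nat_lit 0) (nat_lit 1520414744) (nat_lit 684) (nat_lit 10624301106) (nat_lit 760) (nat_lit 13364906684) (nat_lit 292) (nat_lit 5) (nat_lit 301) (nat_lit 5) (nat_lit 302) (nat_lit 5) (nat_lit 635) (nat_lit 586) (nat_lit 339)) (XT.nd (nat_lit 78) (nat_lit 608) (nat_lit 0) (XT.lf (nat_lit 0) (nat_lit 16044037541) (nat_lit 684) (nat_lit 64234092) (nat_lit 760) (nat_lit 9695568347) (nat_lit 292) (nat_lit 5) (nat_lit 301) (nat_lit 5) (nat_lit 302) (nat_lit 5) (nat_lit 636) (nat_lit 586) (nat_lit 338)) (XT.lf (nat_lit 0) (nat_lit 4742900772) (nat_lit 608) (nat_lit 15505175175) (nat_lit 684) (nat_lit 5853926695) (nat_lit 284) (nat_lit 5) (nat_lit 292) (nat_lit 5) (nat_lit 293) (nat_lit 5) (nat_lit 637) (nat_lit 586) (nat_lit 337)))))) (XT.nd (nat_lit 468) (nat_lit 2280) (nat_lit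 0) (XT.nd (nat_lit 234) (nat_lit 1216) (nat_lit 0) (XT.nd (nat_lit 78) (nat_lit 760) (nat_lit 0) (XT.lf (nat_lit 0) (nat_lit 19663572784) (nat_lit 608) (nat_lit 4869725475) (nat_lit 684) (nat_lit 1871578267) (nat_lit 284) (nat_lit 5) (nat_lit 292) (nat_lit 5) (nat_lit 293) (nat_lit 5) (nat_lit 638) (nat_lit 586) (nat_lit 336)) (XT.nd (nat_lit 78) (nat_lit 0) (nat_lit 0) (XT.lf (nat_lit 0) (nat_lit 2251322168) (nat_lit 760) (nat_lit 18492747007) (nat_lit 76) (nat_lit 5967662015) (nat_lit 274) (nat_lit 5) (nat_lit 284) (nat_lit 5) (nat_lit 275) (nat_lit 5) (nat_lit 639) (nat_lit 586) (nat_lit 335)) (XT.lf (nat_lit 0) (nat_lit 6506213522) (nat_lit 760) (nat_lit 3502855667) (nat_lit 76) (nat_lit 17013914852) (nat_lit 274) (nat_lit 5) (nat_lit 284) (nat_lit 5) (nat_lit 275) (nat_lit 5) (nat_lit 640) (nat_lit 586) (nat_lit 334)))) (XT.nd (nat_lit 78) (nat_lit 608) (nat_lit 0) (XT.lf (nat_lit 0) (nat_lit 10927183952) (nat_lit 684) (nat_lit 15406042112) (nat_lit 76) (nat_lit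 1005616636) (nat_lit 266) (nat_lit 5) (nat_lit 275) (nat_lit 5) (nat_lit 267) (nat_lit 5) (nat_lit 641) (nat_lit 586) (nat_lit 333)) (XT.nd (nat_lit 78) (nat_lit 608) (nat_lit 0) (XT.lf (nat_lit 0) (nat_lit 15523398681) (nat_lit 684) (nat_lit 6243710) (nat_lit 76) (nat_lit 12129640012) (nat_lit 266) (nat_lit 5) (nat_lit 275) (nat_lit 5) (nat_lit 267) (nat_lit 5) (nat_lit 642) (nat_lit 586) (nat_lit 332)) (XT.lf (nat_lit 0) (nat_lit 15906335202) (nat_lit 608) (nat_lit 4405416187) (nat_lit 684) (nat_lit 7672375600) (nat_lit 258) (nat_lit 5) (nat_lit 266) (nat_lit 5) (nat_lit 267) (nat_lit 5) (nat_lit 643) (nat_lit 586) (nat_lit 331))))) (XT.nd (nat_lit 234) (nat_lit 1064) (nat_lit 0) (XT.nd (nat_lit 78) (nat_lit 684) (nat_lit 0) (XT.lf (nat_lit 0) (nat_lit 3822993671) (nat_lit 532) (nat_lit 21439778013) (nat_lit 608) (nat_lit 3051359124) (nat_lit 251) (nat_lit 5) (nat_lit 258) (nat_lit 5) (nat_lit 259) (nat_lit 5) (nat_lit 644) (nat_lit 586) (nat_lit 330)) (XT.nd (nat_lit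 78) (nat_lit 608) (nat_lit 0) (XT.lf (nat_lit 0) (nat_lit 1748023056) (nat_lit 608) (nat_lit 8487979787) (nat_lit 76) (nat_lit 18412361500) (nat_lit 250) (nat_lit 5) (nat_lit 258) (nat_lit 5) (nat_lit 251) (nat_lit 5) (nat_lit 645) (nat_lit 586) (nat_lit 329)) (XT.lf (nat_lit 0) (nat_lit 6659212958) (nat_lit 684) (nat_lit 21081076358) (nat_lit 76) (nat_lit 1247456619) (nat_lit 242) (nat_lit 5) (nat_lit 251) (nat_lit 5) (nat_lit 243) (nat_lit 5) (nat_lit 646) (nat_lit 586) (nat_lit 328)))) (XT.nd (nat_lit 156) (nat_lit 532) (nat_lit 0) (XT.nd (nat_lit 78) (nat_lit 532) (nat_lit 0) (XT.lf (nat_lit 0) (nat_lit 11790821668) (nat_lit 684) (nat_lit 4660500387) (nat_lit 76) (nat_lit 12880149532) (nat_lit 242) (nat_lit 5) (nat_lit 251) (nat_lit 5) (nat_lit 243) (nat_lit 5) (nat_lit 647) (nat_lit 586) (nat_lit 327)) (XT.lf (nat_lit 0) (nat_lit 12245334092) (nat_lit 532) (nat_lit 4856361612) (nat_lit 608) (nat_lit 12578843706) (nat_lit 235) (nat_lit 5) (nat_lit 242) (nat_lit 5)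 (nat_lit 243) (nat_lit 5) (nat_lit 648) (nat_lit 586) (nat_lit 326))) (XT.nd (nat_lit 78) (nat_lit 532) (nat_lit 0) (XT.lf (nat_lit 0) (nat_lit 22592680500) (nat_lit 608) (nat_lit 532747160) (nat_lit 76) (nat_lit 6909683379) (nat_lit 235) (nat_lit 5) (nat_lit 243) (nat_lit 5) (nat_lit 236) (nat_lit 5) (nat_lit 649) (nat_lit 586) (nat_lit 325)) (XT.lf (nat_lit 0) (nat_lit 16893454207) (nat_lit 532) (nat_lit 11439086077) (nat_lit 608) (nat_lit 2061453019) (nat_lit 228) (nat_lit 5) (nat_lit 235) (nat_lit 5) (nat_lit 236) (nat_lit 5) (nat_lit 650) (nat_lit 586) (nat_lit 324))))))) (XT.nd (nat_lit 76752) (nat_lit 0) (nat_lit 18468) (XT.nd (nat_lit 76284) (nat_lit 0) (nat_lit 19760) (XT.nd (nat_lit 234) (nat_lit 456) (nat_lit 0) (XT.nd (nat_lit 78) (nat_lit 532) (nat_lit 0) (XT.lf (nat_lit 0) (nat_lit 3412063536) (nat_lit 608) (nat_lit 26821422948) (nat_lit 76) (nat_lit 525524655) (nat_lit 220) (nat_lit 5) (nat_lit 228) (nat_lit 5) (nat_lit 221) (nat_lit 5) (nat_lit 651) (nat_lit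 586) (nat_lit 323)) (XT.nd (nat_lit 78) (nat_lit 532) (nat_lit 0) (XT.lf (nat_lit 0) (nat_lit 9131671605) (nat_lit 608) (nat_lit 9315786305) (nat_lit 76) (nat_lit 12680314708) (nat_lit 220) (nat_lit 5) (nat_lit 228) (nat_lit 5) (nat_lit 221) (nat_lit 5) (nat_lit 652) (nat_lit 586) (nat_lit 322)) (XT.lf (nat_lit 0) (nat_lit 8649736550) (nat_lit 532) (nat_lit 6369396098) (nat_lit 608) (nat_lit 16483707749) (nat_lit 213) (nat_lit 5) (nat_lit 220) (nat_lit 5) (nat_lit 221) (nat_lit 5) (nat_lit 653) (nat_lit 586) (nat_lit 321)))) (XT.nd (nat_lit 78) (nat_lit 456) (nat_lit 0) (XT.lf (nat_lit 0) (nat_lit 21123227466) (nat_lit 608) (nat_lit 4826050846) (nat_lit 76) (nat_lit 5934153807) (nat_lit 213) (nat_lit 5) (nat_lit 221) (nat_lit 5) (nat_lit 214) (nat_lit 5) (nat_lit 654) (nat_lit 586) (nat_lit 320)) (XT.nd (nat_lit 75894) (nat_lit 0) (nat_lit 19760) (XT.lf (nat_lit 0) (nat_lit 13695358709) (nat_lit 456) (nat_lit 13782522632) (nat_lit 532) (nat_lit 4791185063) (nat_lit 207)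 (nat_lit 5) (nat_lit 213) (nat_lit 5) (nat_lit 214) (nat_lit 5) (nat_lit 655) (nat_lit 586) (nat_lit 319)) (XT.lf (nat_lit 0) (nat_lit 1489836526) (nat_lit 0) (nat_lit 1489836526) (nat_lit 1748) (nat_lit 4775080598) (nat_lit 467) (nat_lit 5) (nat_lit 467) (nat_lit 3) (nat_lit 490) (nat_lit 3) (nat_lit 587) (nat_lit 587) (nat_lit 386))))) (XT.nd (nat_lit 234) (nat_lit 0) (nat_lit 76) (XT.nd (nat_lit 78) (nat_lit 0) (nat_lit 0) (XT.lf (nat_lit 0) (nat_lit 6324989146) (nat_lit 1748) (nat_lit 4956712961) (nat_lit 1824) (nat_lit 4376735845) (nat_lit 467) (nat_lit 5) (nat_lit 490) (nat_lit 3) (nat_lit 491) (nat_lit 5) (nat_lit 588) (nat_lit 587) (nat_lit 385)) (XT.nd (nat_lit 78) (nat_lit 0) (nat_lit 76) (XT.lf (nat_lit 76) (nat_lit 2780802087) (nat_lit 0) (nat_lit 3947681810) (nat_lit 1824) (nat_lit 9081253679) (nat_lit 468) (nat_lit 5) (nat_lit 467) (nat_lit 5) (nat_lit 491) (nat_lit 5) (nat_lit 589) (nat_lit 587) (nat_lit 384)) (XT.lf (nat_lit 0) (nat_lit 7189360116) (nat_lit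 1748) (nat_lit 5250246849) (nat_lit 1824) (nat_lit 3523471115) (nat_lit 468) (nat_lit 5) (nat_lit 491) (nat_lit 5) (nat_lit 492) (nat_lit 5) (nat_lit 590) (nat_lit 587) (nat_lit 383)))) (XT.nd (nat_lit 78) (nat_lit 0) (nat_lit 76) (XT.lf (nat_lit 76) (nat_lit 2689272760) (nat_lit 0) (nat_lit 5006815068) (nat_lit 1824) (nat_lit 8422665981) (nat_lit 469) (nat_lit 5) (nat_lit 468) (nat_lit 5) (nat_lit 492) (nat_lit 5) (nat_lit 591) (nat_lit 587) (nat_lit 382)) (XT.nd (nat_lit 78) (nat_lit 0) (nat_lit 0) (XT.lf (nat_lit 0) (nat_lit 8258292687) (nat_lit 1748) (nat_lit 5439038589) (nat_lit 1824) (nat_lit 2579305998) (nat_lit 469) (nat_lit 5) (nat_lit 492) (nat_lit 5) (nat_lit 493) (nat_lit 5) (nat_lit 592) (nat_lit 587) (nat_lit 381)) (XT.lf (nat_lit 76) (nat_lit 2709669405) (nat_lit 0) (nat_lit 6166118143) (nat_lit 1824) (nat_lit 7561010996) (nat_lit 470) (nat_lit 5) (nat_lit 469) (nat_lit 5) (nat_lit 493) (nat_lit 5) (nat_lit 593) (nat_lit 587) (nat_lit 380)))))) (XT.nd (nat_lit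 468) (nat_lit 1520) (nat_lit 0) (XT.nd (nat_lit 234) (nat_lit 0) (nat_lit 76) (XT.nd (nat_lit 78) (nat_lit 0) (nat_lit 0) (XT.lf (nat_lit 0) (nat_lit 9545632803) (nat_lit 1748) (nat_lit 5518484801) (nat_lit 1824) (nat_lit 1535246456) (nat_lit 470) (nat_lit 5) (nat_lit 493) (nat_lit 5) (nat_lit 494) (nat_lit 5) (nat_lit 594) (nat_lit 587) (nat_lit 379)) (XT.nd (nat_lit 78) (nat_lit 0) (nat_lit 76) (XT.lf (nat_lit 76) (nat_lit 2846865605) (nat_lit 0) (nat_lit 7434876275) (nat_lit 1824) (nat_lit 6482382680) (nat_lit 471) (nat_lit 5) (nat_lit 470) (nat_lit 5) (nat_lit 494) (nat_lit 5) (nat_lit 595) (nat_lit 587) (nat_lit 378)) (XT.lf (nat_lit 0) (nat_lit 11065767457) (nat_lit 1748) (nat_lit 5483696268) (nat_lit 1824) (nat_lit 382053651) (nat_lit 471) (nat_lit 5) (nat_lit 494) (nat_lit 5) (nat_lit 495) (nat_lit 5) (nat_lit 596) (nat_lit 587) (nat_lit 377)))) (XT.nd (nat_lit 78) (nat_lit 0) (nat_lit 0) (XT.lf (nat_lit 76) (nat_lit 3106030052) (nat_lit 0) (nat_lit 8822636223)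 (nat_lit 1824) (nat_lit 5172328889) (nat_lit 472) (nat_lit 5) (nat_lit 471) (nat_lit 5) (nat_lit 495) (nat_lit 5) (nat_lit 597) (nat_lit 587) (nat_lit 376)) (XT.nd (nat_lit 78) (nat_lit 0) (nat_lit 76) (XT.lf (nat_lit 76) (nat_lit 11937904030) (nat_lit 0) (nat_lit 901602212) (nat_lit 1824) (nat_lit 4433743558) (nat_lit 472) (nat_lit 5) (nat_lit 471) (nat_lit 5) (nat_lit 495) (nat_lit 5) (nat_lit 598) (nat_lit 587) (nat_lit 375)) (XT.lf (nat_lit 76) (nat_lit 3492632872) (nat_lit 0) (nat_lit 10339228189) (nat_lit 1824) (nat_lit 3615823440) (nat_lit 473) (nat_lit 5) (nat_lit 472) (nat_lit 5) (nat_lit 496) (nat_lit 5) (nat_lit 599) (nat_lit 587) (nat_lit 374))))) (XT.nd (nat_lit 234) (nat_lit 1672) (nat_lit 0) (XT.nd (nat_lit 78) (nat_lit 0) (nat_lit 76) (XT.lf (nat_lit 76) (nat_lit 12559433215) (nat_lit 0) (nat_lit 2320473772) (nat_lit 1824) (nat_lit 2744984944) (nat_lit 473) (nat_lit 5) (nat_lit 472) (nat_lit 5) (nat_lit 496) (nat_lit 5) (nat_lit 600) (nat_lit 587) (nat_lit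 373)) (XT.nd (nat_lit 78) (nat_lit 0) (nat_lit 0) (XT.lf (nat_lit 76) (nat_lit 4012452396) (nat_lit 0) (nat_lit 11994788134) (nat_lit 1824) (nat_lit 1797237346) (nat_lit 474) (nat_lit 5) (nat_lit 473) (nat_lit 5) (nat_lit 497) (nat_lit 5) (nat_lit 601) (nat_lit 587) (nat_lit 372)) (XT.lf (nat_lit 76) (nat_lit 13320981050) (nat_lit 0) (nat_lit 3879721595) (nat_lit 1824) (nat_lit 786082136) (nat_lit 474) (nat_lit 5) (nat_lit 473) (nat_lit 5) (nat_lit 497) (nat_lit 5) (nat_lit 602) (nat_lit 587) (nat_lit 371)))) (XT.nd (nat_lit 156) (nat_lit 0) (nat_lit 76) (XT.nd (nat_lit 78) (nat_lit 0) (nat_lit 0) (XT.lf (nat_lit 0) (nat_lit 295760337) (nat_lit 1824) (nat_lit 13502035501) (nat_lit 1900) (nat_lit 4373837356) (nat_lit 450) (nat_lit 5) (nat_lit 474) (nat_lit 5) (nat_lit 475) (nat_lit 5) (nat_lit 603) (nat_lit 587) (nat_lit 370)) (XT.lf (nat_lit 0) (nat_lit 1440425771) (nat_lit 1824) (nat_lit 4139829226) (nat_lit 1900) (nat_lit 12778786252) (nat_lit 450) (nat_lit 5) (nat_lit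 474) (nat_lit 5) (nat_lit 475) (nat_lit 5) (nat_lit 604) (nat_lit 587) (nat_lit 369))) (XT.nd (nat_lit 78) (nat_lit 0) (nat_lit 0) (XT.lf (nat_lit 0) (nat_lit 2656581010) (nat_lit 1824) (nat_lit 13090613619) (nat_lit 1900) (nat_lit 2802031719) (nat_lit 451) (nat_lit 5) (nat_lit 475) (nat_lit 5) (nat_lit 476) (nat_lit 5) (nat_lit 605) (nat_lit 587) (nat_lit 368)) (XT.lf (nat_lit 0) (nat_lit 3956666455) (nat_lit 1824) (nat_lit 3478790576) (nat_lit 1900) (nat_lit 11306566775) (nat_lit 451) (nat_lit 5) (nat_lit 475) (nat_lit 5) (nat_lit 476) (nat_lit 5) (nat_lit 606) (nat_lit 587) (nat_lit 367))))))))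
noncomputable def xc219 : XT := (XT.nd (nat_lit 1950) (nat_lit 8208) (nat_lit 0) (XT.nd (nat_lit 936) (nat_lit 5548) (nat_lit 0) (XT.nd (nat_lit 468) (nat_lit 4408) (nat_lit 0) (XT.nd (nat_lit 234) (nat_lit 0) (nat_lit 76) (XT.nd (nat_lit 78) (nat_lit 0) (nat_lit 0) (XT.lf (nat_lit 0) (nat_lit 5326183729) (nat_lit 1824) (nat_lit 12539778176) (nat_lit 1900) (nat_lit 1071847488) (nat_lit 452) (nat_lit 5) (nat_lit 476) (nat_lit 5) (nat_lit 477) (nat_lit 5) (nat_lit 607) (nat_lit 587) (nat_lit 366)) (XT.nd (nat_lit 78) (nat_lit 0) (nat_lit 0) (XT.lf (nat_lit 0) (nat_lit 6790706627) (nat_lit 1824) (nat_lit 2671029144) (nat_lit 1900) (nat_lit 9674423382) (nat_lit 452) (nat_lit 5) (nat_lit 476) (nat_lit 5) (nat_lit 477) (nat_lit 5) (nat_lit 608) (nat_lit 587) (nat_lit 365)) (XT.lf (nat_lit 76) (nat_lit 7489264312) (nat_lit 0) (nat_lit 838856162) (nat_lit 1900) (nat_lit 11009484174) (nat_lit 453) (nat_lit 5) (nat_lit 452) (nat_lit 5) (nat_lit 477) (nat_lit 5) (nat_lit 609) (nat_lit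 587) (nat_lit 364)))) (XT.nd (nat_lit 78) (nat_lit 0) (nat_lit 0) (XT.lf (nat_lit 0) (nat_lit 9961037677) (nat_lit 1824) (nat_lit 1709660616) (nat_lit 1900) (nat_lit 7871086398) (nat_lit 453) (nat_lit 5) (nat_lit 477) (nat_lit 5) (nat_lit 478) (nat_lit 5) (nat_lit 610) (nat_lit 587) (nat_lit 363)) (XT.nd (nat_lit 78) (nat_lit 0) (nat_lit 76) (XT.lf (nat_lit 76) (nat_lit 8736769974) (nat_lit 0) (nat_lit 2947274090) (nat_lit 1900) (nat_lit 8064856374) (nat_lit 454) (nat_lit 5) (nat_lit 453) (nat_lit 5) (nat_lit 478) (nat_lit 5) (nat_lit 611) (nat_lit 587) (nat_lit 362)) (XT.lf (nat_lit 0) (nat_lit 13486919100) (nat_lit 1824) (nat_lit 587462572) (nat_lit 76) (nat_lit 5884869367) (nat_lit 454) (nat_lit 5) (nat_lit 478) (nat_lit 5) (nat_lit 455) (nat_lit 5) (nat_lit 612) (nat_lit 587) (nat_lit 361))))) (XT.nd (nat_lit 234) (nat_lit 1900) (nat_lit 0) (XT.nd (nat_lit 78) (nat_lit 988) (nat_lit 0) (XT.lf (nat_lit 0) (nat_lit 10155323851) (nat_lit 1672) (nat_lit 5251299347) (nat_lit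 1748) (nat_lit 4765570716) (nat_lit 432) (nat_lit 5) (nat_lit 454) (nat_lit 5) (nat_lit 455) (nat_lit 5) (nat_lit 613) (nat_lit 587) (nat_lit 360)) (XT.nd (nat_lit 78) (nat_lit 0) (nat_lit 0) (XT.lf (nat_lit 0) (nat_lit 712478875) (nat_lit 988) (nat_lit 16680560453) (nat_lit 1064) (nat_lit 2995790641) (nat_lit 419) (nat_lit 5) (nat_lit 432) (nat_lit 5) (nat_lit 433) (nat_lit 5) (nat_lit 614) (nat_lit 587) (nat_lit 359)) (XT.lf (nat_lit 0) (nat_lit 11752868575) (nat_lit 988) (nat_lit 7763533273) (nat_lit 1064) (nat_lit 1091453204) (nat_lit 419) (nat_lit 5) (nat_lit 432) (nat_lit 5) (nat_lit 433) (nat_lit 5) (nat_lit 615) (nat_lit 587) (nat_lit 358)))) (XT.nd (nat_lit 78) (nat_lit 912) (nat_lit 0) (XT.lf (nat_lit 0) (nat_lit 858399530) (nat_lit 988) (nat_lit 18637643256) (nat_lit 76) (nat_lit 1334736207) (nat_lit 406) (nat_lit 5) (nat_lit 419) (nat_lit 5) (nat_lit 407) (nat_lit 5) (nat_lit 616) (nat_lit 587) (nat_lit 357)) (XT.nd (nat_lit 78) (nat_lit 912) (nat_lit 0) (XT.lf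 (nat_lit 0) (nat_lit 2939452563) (nat_lit 988) (nat_lit 7537890327) (nat_lit 76) (nat_lit 10578538506) (nat_lit 406) (nat_lit 5) (nat_lit 419) (nat_lit 5) (nat_lit 407) (nat_lit 5) (nat_lit 617) (nat_lit 587) (nat_lit 356)) (XT.lf (nat_lit 0) (nat_lit 3830036731) (nat_lit 912) (nat_lit 1252618702) (nat_lit 988) (nat_lit 16202420453) (nat_lit 394) (nat_lit 5) (nat_lit 406) (nat_lit 5) (nat_lit 407) (nat_lit 5) (nat_lit 618) (nat_lit 587) (nat_lit 355)))))) (XT.nd (nat_lit 468) (nat_lit 3116) (nat_lit 0) (XT.nd (nat_lit 234) (nat_lit 1596) (nat_lit 0) (XT.nd (nat_lit 78) (nat_lit 836) (nat_lit 0) (XT.lf (nat_lit 0) (nat_lit 7368320831) (nat_lit 988) (nat_lit 6047748959) (nat_lit 76) (nat_lit 8100793112) (nat_lit 394) (nat_lit 5) (nat_lit 407) (nat_lit 5) (nat_lit 395) (nat_lit 5) (nat_lit 619) (nat_lit 587) (nat_lit 354)) (XT.nd (nat_lit 78) (nat_lit 0) (nat_lit 0) (XT.lf (nat_lit 0) (nat_lit 5649452066) (nat_lit 836) (nat_lit 4091029038) (nat_lit 912) (nat_lit 12011989515)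 (nat_lit 383) (nat_lit 5) (nat_lit 394) (nat_lit 5) (nat_lit 395) (nat_lit 5) (nat_lit 620) (nat_lit 587) (nat_lit 353)) (XT.lf (nat_lit 0) (nat_lit 12231993654) (nat_lit 912) (nat_lit 4368955927) (nat_lit 76) (nat_lit 5390403311) (nat_lit 383) (nat_lit 5) (nat_lit 395) (nat_lit 5) (nat_lit 384) (nat_lit 5) (nat_lit 621) (nat_lit 587) (nat_lit 352)))) (XT.nd (nat_lit 78) (nat_lit 760) (nat_lit 0) (XT.lf (nat_lit 0) (nat_lit 7669268369) (nat_lit 836) (nat_lit 7176899245) (nat_lit 912) (nat_lit 7387389141) (nat_lit 372) (nat_lit 5) (nat_lit 383) (nat_lit 5) (nat_lit 384) (nat_lit 5) (nat_lit 622) (nat_lit 587) (nat_lit 351)) (XT.nd (nat_lit 78) (nat_lit 760) (nat_lit 0) (XT.lf (nat_lit 0) (nat_lit 17553948997) (nat_lit 912) (nat_lit 2492611576) (nat_lit 76) (nat_lit 2433218203) (nat_lit 372) (nat_lit 5) (nat_lit 384) (nat_lit 5) (nat_lit 373) (nat_lit 5) (nat_lit 623) (nat_lit 587) (nat_lit 350)) (XT.lf (nat_lit 0) (nat_lit 9898809160) (nat_lit 760) (nat_lit 10524952134)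 (nat_lit 836) (nat_lit 2305006984) (nat_lit 362) (nat_lit 5) (nat_lit 372) (nat_lit 5) (nat_lit 373) (nat_lit 5) (nat_lit 624) (nat_lit 587) (nat_lit 349))))) (XT.nd (nat_lit 234) (nat_lit 1444) (nat_lit 0) (XT.nd (nat_lit 78) (nat_lit 1596) (nat_lit 0) (XT.lf (nat_lit 0) (nat_lit 376341915) (nat_lit 836) (nat_lit 417069554) (nat_lit 76) (nat_lit 22189020030) (nat_lit 361) (nat_lit 5) (nat_lit 372) (nat_lit 5) (nat_lit 362) (nat_lit 5) (nat_lit 625) (nat_lit 587) (nat_lit 348)) (XT.nd (nat_lit 78) (nat_lit 760) (nat_lit 0) (XT.lf (nat_lit 0) (nat_lit 3217016395) (nat_lit 912) (nat_lit 10911917567) (nat_lit 76) (nat_lit 9109198564) (nat_lit 350) (nat_lit 5) (nat_lit 362) (nat_lit 5) (nat_lit 351) (nat_lit 5) (nat_lit 626) (nat_lit 587) (nat_lit 347)) (XT.lf (nat_lit 0) (nat_lit 1846084049) (nat_lit 760) (nat_lit 4284704704) (nat_lit 836) (nat_lit 17367833638) (nat_lit 340) (nat_lit 5) (nat_lit 350) (nat_lit 5) (nat_lit 351) (nat_lit 5) (nat_lit 627) (nat_lit 587) (nat_lit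 346)))) (XT.nd (nat_lit 156) (nat_lit 684) (nat_lit 0) (XT.nd (nat_lit 78) (nat_lit 760) (nat_lit 0) (XT.lf (nat_lit 0) (nat_lit 9210194151) (nat_lit 836) (nat_lit 8797586419) (nat_lit 76) (nat_lit 5754394829) (nat_lit 340) (nat_lit 5) (nat_lit 351) (nat_lit 5) (nat_lit 341) (nat_lit 5) (nat_lit 628) (nat_lit 587) (nat_lit 345)) (XT.lf (nat_lit 0) (nat_lit 4339046276) (nat_lit 760) (nat_lit 8065035464) (nat_lit 836) (nat_lit 11625860330) (nat_lit 330) (nat_lit 5) (nat_lit 340) (nat_lit 5) (nat_lit 341) (nat_lit 5) (nat_lit 629) (nat_lit 587) (nat_lit 344))) (XT.nd (nat_lit 78) (nat_lit 684) (nat_lit 0) (XT.lf (nat_lit 0) (nat_lit 15731147611) (nat_lit 836) (nat_lit 6462086214) (nat_lit 76) (nat_lit 2108444715) (nat_lit 330) (nat_lit 5) (nat_lit 341) (nat_lit 5) (nat_lit 331) (nat_lit 5) (nat_lit 630) (nat_lit 587) (nat_lit 343)) (XT.lf (nat_lit 0) (nat_lit 7066652787) (nat_lit 684) (nat_lit 12153855702) (nat_lit 760) (nat_lit 5356426645) (nat_lit 321) (nat_lit 5) (nat_lit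 330) (nat_lit 5) (nat_lit 331) (nat_lit 5) (nat_lit 631) (nat_lit 587) (nat_lit 342))))))) (XT.nd (nat_lit 936) (nat_lit 3420) (nat_lit 0) (XT.nd (nat_lit 468) (nat_lit 2584) (nat_lit 0) (XT.nd (nat_lit 234) (nat_lit 1368) (nat_lit 0) (XT.nd (nat_lit 78) (nat_lit 836) (nat_lit 0) (XT.lf (nat_lit 0) (nat_lit 20949671252) (nat_lit 684) (nat_lit 1869854915) (nat_lit 760) (nat_lit 2037373758) (nat_lit 321) (nat_lit 5) (nat_lit 330) (nat_lit 5) (nat_lit 331) (nat_lit 5) (nat_lit 632) (nat_lit 587) (nat_lit 341)) (XT.nd (nat_lit 78) (nat_lit 0) (nat_lit 0) (XT.lf (nat_lit 0) (nat_lit 1448880983) (nat_lit 836) (nat_lit 15109929818) (nat_lit 76) (nat_lit 8581108585) (nat_lit 310) (nat_lit 5) (nat_lit 321) (nat_lit 5) (nat_lit 311) (nat_lit 5) (nat_lit 633) (nat_lit 587) (nat_lit 340)) (XT.lf (nat_lit 0) (nat_lit 5012973146) (nat_lit 836) (nat_lit 1159109441) (nat_lit 76) (nat_lit 19255539886) (nat_lit 310) (nat_lit 5) (nat_lit 321) (nat_lit 5) (nat_lit 311) (nat_lit 5) (nat_lit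 634) (nat_lit 587) (nat_lit 339)))) (XT.nd (nat_lit 78) (nat_lit 684) (nat_lit 0) (XT.lf (nat_lit 0) (nat_lit 8760250586) (nat_lit 760) (nat_lit 12508151636) (nat_lit 76) (nat_lit 4450439754) (nat_lit 301) (nat_lit 5) (nat_lit 311) (nat_lit 5) (nat_lit 302) (nat_lit 5) (nat_lit 635) (nat_lit 587) (nat_lit 338)) (XT.nd (nat_lit 78) (nat_lit 0) (nat_lit 0) (XT.lf (nat_lit 0) (nat_lit 1847306859) (nat_lit 684) (nat_lit 10792560513) (nat_lit 760) (nat_lit 13374871035) (nat_lit 292) (nat_lit 5) (nat_lit 301) (nat_lit 5) (nat_lit 302) (nat_lit 5) (nat_lit 636) (nat_lit 587) (nat_lit 337)) (XT.lf (nat_lit 0) (nat_lit 16655588704) (nat_lit 684) (nat_lit 22159346) (nat_lit 760) (nat_lit 9637191692) (nat_lit 292) (nat_lit 5) (nat_lit 301) (nat_lit 5) (nat_lit 302) (nat_lit 5) (nat_lit 637) (nat_lit 587) (nat_lit 336))))) (XT.nd (nat_lit 234) (nat_lit 1216) (nat_lit 0) (XT.nd (nat_lit 78) (nat_lit 760) (nat_lit 0) (XT.lf (nat_lit 0) (nat_lit 5131181521) (nat_lit 608) (nat_lit 15766498788)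 (nat_lit 684) (nat_lit 5721439315) (nat_lit 284) (nat_lit 5) (nat_lit 292) (nat_lit 5) (nat_lit 293) (nat_lit 5) (nat_lit 638) (nat_lit 587) (nat_lit 335)) (XT.nd (nat_lit 78) (nat_lit 760) (nat_lit 0) (XT.lf (nat_lit 0) (nat_lit 20344513587) (nat_lit 608) (nat_lit 4919296562) (nat_lit 684) (nat_lit 1664337368) (nat_lit 284) (nat_lit 5) (nat_lit 292) (nat_lit 5) (nat_lit 293) (nat_lit 5) (nat_lit 639) (nat_lit 587) (nat_lit 334)) (XT.lf (nat_lit 0) (nat_lit 2535281063) (nat_lit 760) (nat_lit 18569135077) (nat_lit 76) (nat_lit 6136742554) (nat_lit 274) (nat_lit 5) (nat_lit 284) (nat_lit 5) (nat_lit 275) (nat_lit 5) (nat_lit 640) (nat_lit 587) (nat_lit 333)))) (XT.nd (nat_lit 78) (nat_lit 1216) (nat_lit 0) (XT.lf (nat_lit 0) (nat_lit 6870585294) (nat_lit 760) (nat_lit 3285200163) (nat_lit 76) (nat_lit 17402945402) (nat_lit 274) (nat_lit 5) (nat_lit 284) (nat_lit 5) (nat_lit 275) (nat_lit 5) (nat_lit 641) (nat_lit 587) (nat_lit 332)) (XT.nd (nat_lit 78) (nat_lit 608) (nat_lit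 0) (XT.lf (nat_lit 0) (nat_lit 11377590391) (nat_lit 684) (nat_lit 15424038230) (nat_lit 76) (nat_lit 1079326314) (nat_lit 266) (nat_lit 5) (nat_lit 275) (nat_lit 5) (nat_lit 267) (nat_lit 5) (nat_lit 642) (nat_lit 587) (nat_lit 331)) (XT.lf (nat_lit 0) (nat_lit 281762789) (nat_lit 608) (nat_lit 15781249687) (nat_lit 684) (nat_lit 12144845831) (nat_lit 258) (nat_lit 5) (nat_lit 266) (nat_lit 5) (nat_lit 267) (nat_lit 5) (nat_lit 643) (nat_lit 587) (nat_lit 330)))))) (XT.nd (nat_lit 468) (nat_lit 1672) (nat_lit 0) (XT.nd (nat_lit 234) (nat_lit 1140) (nat_lit 0) (XT.nd (nat_lit 78) (nat_lit 608) (nat_lit 0) (XT.lf (nat_lit 0) (nat_lit 16507026621) (nat_lit 608) (nat_lit 4435653639) (nat_lit 684) (nat_lit 7596609090) (nat_lit 258) (nat_lit 5) (nat_lit 266) (nat_lit 5) (nat_lit 267) (nat_lit 5) (nat_lit 644) (nat_lit 587) (nat_lit 329)) (XT.nd (nat_lit 78) (nat_lit 76) (nat_lit 0) (XT.lf (nat_lit 0) (nat_lit 4184276458) (nat_lit 532) (nat_lit 21806256369) (nat_lit 608) (nat_lit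 2885404696) (nat_lit 251) (nat_lit 5) (nat_lit 258) (nat_lit 5) (nat_lit 259) (nat_lit 5) (nat_lit 645) (nat_lit 587) (nat_lit 328)) (XT.lf (nat_lit 0) (nat_lit 2002595973) (nat_lit 608) (nat_lit 8375557913) (nat_lit 76) (nat_lit 18838760708) (nat_lit 250) (nat_lit 5) (nat_lit 258) (nat_lit 5) (nat_lit 251) (nat_lit 5) (nat_lit 646) (nat_lit 587) (nat_lit 327)))) (XT.nd (nat_lit 78) (nat_lit 532) (nat_lit 0) (XT.lf (nat_lit 0) (nat_lit 7009933930) (nat_lit 684) (nat_lit 21218416373) (nat_lit 76) (nat_lit 1334775517) (nat_lit 242) (nat_lit 5) (nat_lit 251) (nat_lit 5) (nat_lit 243) (nat_lit 5) (nat_lit 647) (nat_lit 587) (nat_lit 326)) (XT.nd (nat_lit 78) (nat_lit 532) (nat_lit 0) (XT.lf (nat_lit 0) (nat_lit 12239909388) (nat_lit 684) (nat_lit 4475003031) (nat_lit 76) (nat_lit 13198899352) (nat_lit 242) (nat_lit 5) (nat_lit 251) (nat_lit 5) (nat_lit 243) (nat_lit 5) (nat_lit 648) (nat_lit 587) (nat_lit 325)) (XT.lf (nat_lit 0) (nat_lit 12767114537) (nat_lit 532) (nat_lit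 4887502226) (nat_lit 608) (nat_lit 12615292336) (nat_lit 235) (nat_lit 5) (nat_lit 242) (nat_lit 5) (nat_lit 243) (nat_lit 5) (nat_lit 649) (nat_lit 587) (nat_lit 324))))) (XT.nd (nat_lit 234) (nat_lit 532) (nat_lit 0) (XT.nd (nat_lit 78) (nat_lit 1140) (nat_lit 0) (XT.lf (nat_lit 0) (nat_lit 23251706242) (nat_lit 608) (nat_lit 268219325) (nat_lit 76) (nat_lit 7111721352) (nat_lit 235) (nat_lit 5) (nat_lit 243) (nat_lit 5) (nat_lit 236) (nat_lit 5) (nat_lit 650) (nat_lit 587) (nat_lit 323)) (XT.nd (nat_lit 78) (nat_lit 608) (nat_lit 0) (XT.lf (nat_lit 0) (nat_lit 17504695655) (nat_lit 532) (nat_lit 11599380282) (nat_lit 608) (nat_lit 1893677086) (nat_lit 228) (nat_lit 5) (nat_lit 235) (nat_lit 5) (nat_lit 236) (nat_lit 5) (nat_lit 651) (nat_lit 587) (nat_lit 322)) (XT.lf (nat_lit 0) (nat_lit 3684761886) (nat_lit 608) (nat_lit 27079887542) (nat_lit 76) (nat_lit 605431215) (nat_lit 220) (nat_lit 5) (nat_lit 228) (nat_lit 5) (nat_lit 221) (nat_lit 5) (nat_lit 652) (nat_lit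 587) (nat_lit 321)))) (XT.nd (nat_lit 156) (nat_lit 0) (nat_lit 0) (XT.nd (nat_lit 78) (nat_lit 532) (nat_lit 0) (XT.lf (nat_lit 0) (nat_lit 9514753154) (nat_lit 608) (nat_lit 9229588439) (nat_lit 76) (nat_lit 13001956362) (nat_lit 220) (nat_lit 5) (nat_lit 228) (nat_lit 5) (nat_lit 221) (nat_lit 5) (nat_lit 653) (nat_lit 587) (nat_lit 320)) (XT.lf (nat_lit 0) (nat_lit 9093452021) (nat_lit 532) (nat_lit 6424338740) (nat_lit 608) (nat_lit 16611120196) (nat_lit 213) (nat_lit 5) (nat_lit 220) (nat_lit 5) (nat_lit 221) (nat_lit 5) (nat_lit 654) (nat_lit 587) (nat_lit 319))) (XT.nd (nat_lit 75972) (nat_lit 0) (nat_lit 19304) (XT.lf (nat_lit 0) (nat_lit 21740540861) (nat_lit 608) (nat_lit 4653712426) (nat_lit 76) (nat_lit 6122930165) (nat_lit 213) (nat_lit 5) (nat_lit 221) (nat_lit 5) (nat_lit 214) (nat_lit 5) (nat_lit 655) (nat_lit 587) (nat_lit 318)) (XT.lf (nat_lit 0) (nat_lit 1657360827) (nat_lit 0) (nat_lit 1657360827) (nat_lit 1748) (nat_lit 4589574818) (nat_lit 467)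 (nat_lit 5) (nat_lit 467) (nat_lit 3) (nat_lit 490) (nat_lit 3) (nat_lit 588) (nat_lit 588) (nat_lit 384))))))))
noncomputable def xc220 : XT := (XT.nd (nat_lit 1950) (nat_lit 12008) (nat_lit 0) (XT.nd (nat_lit 936) (nat_lit 1292) (nat_lit 0) (XT.nd (nat_lit 468) (nat_lit 0) (nat_lit 228) (XT.nd (nat_lit 234) (nat_lit 0) (nat_lit 76) (XT.nd (nat_lit 78) (nat_lit 0) (nat_lit 0) (XT.lf (nat_lit 0) (nat_lit 6989843678) (nat_lit 1748) (nat_lit 4773153022) (nat_lit 1824) (nat_lit 4197758310) (nat_lit 467) (nat_lit 5) (nat_lit 490) (nat_lit 3) (nat_lit 491) (nat_lit 5) (nat_lit 589) (nat_lit 588) (nat_lit 383)) (XT.nd (nat_lit 78) (nat_lit 0) (nat_lit 76) (XT.lf (nat_lit 76) (nat_lit 3117252497) (nat_lit 0) (nat_lit 4275423215) (nat_lit 1824) (nat_lit 8722581227) (nat_lit 468) (nat_lit 5) (nat_lit 467) (nat_lit 5) (nat_lit 491) (nat_lit 5) (nat_lit 590) (nat_lit 588) (nat_lit 382)) (XT.lf (nat_lit 0) (nat_lit 7850801084) (nat_lit 1748) (nat_lit 5067874283) (nat_lit 1824) (nat_lit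 3353229879) (nat_lit 468) (nat_lit 5) (nat_lit 491) (nat_lit 5) (nat_lit 492) (nat_lit 5) (nat_lit 591) (nat_lit 588) (nat_lit 381)))) (XT.nd (nat_lit 78) (nat_lit 0) (nat_lit 76) (XT.lf (nat_lit 76) (nat_lit 3028545077) (nat_lit 0) (nat_lit 5330821770) (nat_lit 1824) (nat_lit 8071495167) (nat_lit 469) (nat_lit 5) (nat_lit 468) (nat_lit 5) (nat_lit 492) (nat_lit 5) (nat_lit 592) (nat_lit 588) (nat_lit 380)) (XT.nd (nat_lit 78) (nat_lit 0) (nat_lit 0) (XT.lf (nat_lit 0) (nat_lit 8921403391) (nat_lit 1748) (nat_lit 5256439706) (nat_lit 1824) (nat_lit 2414289863) (nat_lit 469) (nat_lit 5) (nat_lit 492) (nat_lit 5) (nat_lit 493) (nat_lit 5) (nat_lit 593) (nat_lit 588) (nat_lit 379)) (XT.lf (nat_lit 76) (nat_lit 3053325477) (nat_lit 0) (nat_lit 6490038431) (nat_lit 1824) (nat_lit 7212292764) (nat_lit 470) (nat_lit 5) (nat_lit 469) (nat_lit 5) (nat_lit 493) (nat_lit 5) (nat_lit 594) (nat_lit 588) (nat_lit 378))))) (XT.nd (nat_lit 234) (nat_lit 0) (nat_lit 76) (XT.nd (nat_lit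 78) (nat_lit 0) (nat_lit 0) (XT.lf (nat_lit 0) (nat_lit 10215720160) (nat_lit 1748) (nat_lit 5334106515) (nat_lit 1824) (nat_lit 1371866045) (nat_lit 470) (nat_lit 5) (nat_lit 493) (nat_lit 5) (nat_lit 494) (nat_lit 5) (nat_lit 595) (nat_lit 588) (nat_lit 377)) (XT.nd (nat_lit 78) (nat_lit 0) (nat_lit 76) (XT.lf (nat_lit 76) (nat_lit 3196611767) (nat_lit 0) (nat_lit 7762445178) (nat_lit 1824) (nat_lit 6130842848) (nat_lit 471) (nat_lit 5) (nat_lit 470) (nat_lit 5) (nat_lit 494) (nat_lit 5) (nat_lit 596) (nat_lit 588) (nat_lit 376)) (XT.lf (nat_lit 0) (nat_lit 11748375821) (nat_lit 1748) (nat_lit 5295843271) (nat_lit 1824) (nat_lit 216630560) (nat_lit 471) (nat_lit 5) (nat_lit 494) (nat_lit 5) (nat_lit 495) (nat_lit 5) (nat_lit 597) (nat_lit 588) (nat_lit 375)))) (XT.nd (nat_lit 78) (nat_lit 0) (nat_lit 0) (XT.lf (nat_lit 76) (nat_lit 3463720162) (nat_lit 0) (nat_lit 9157686527) (nat_lit 1824) (nat_lit 4812454243) (nat_lit 472) (nat_lit 5) (nat_lit 471) (nat_lit 5) (nat_lit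 495) (nat_lit 5) (nat_lit 598) (nat_lit 588) (nat_lit 374)) (XT.nd (nat_lit 78) (nat_lit 0) (nat_lit 76) (XT.lf (nat_lit 76) (nat_lit 12466436138) (nat_lit 0) (nat_lit 1075122079) (nat_lit 1824) (nat_lit 4068181935) (nat_lit 472) (nat_lit 5) (nat_lit 471) (nat_lit 5) (nat_lit 495) (nat_lit 5) (nat_lit 599) (nat_lit 588) (nat_lit 373)) (XT.lf (nat_lit 76) (nat_lit 3860271637) (nat_lit 0) (nat_lit 10685701560) (nat_lit 1824) (nat_lit 3241847450) (nat_lit 473) (nat_lit 5) (nat_lit 472) (nat_lit 5) (nat_lit 496) (nat_lit 5) (nat_lit 600) (nat_lit 588) (nat_lit 372)))))) (XT.nd (nat_lit 468) (nat_lit 0) (nat_lit 76) (XT.nd (nat_lit 234) (nat_lit 1672) (nat_lit 0) (XT.nd (nat_lit 78) (nat_lit 0) (nat_lit 76) (XT.lf (nat_lit 76) (nat_lit 13102569044) (nat_lit 0) (nat_lit 2503833059) (nat_lit 1824) (nat_lit 2362343016) (nat_lit 473) (nat_lit 5) (nat_lit 472) (nat_lit 5) (nat_lit 496) (nat_lit 5) (nat_lit 601) (nat_lit 588) (nat_lit 371)) (XT.nd (nat_lit 78) (nat_lit 0) (nat_lit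 0) (XT.lf (nat_lit 76) (nat_lit 4392199001) (nat_lit 0) (nat_lit 12356746374) (nat_lit 1824) (nat_lit 1403125455) (nat_lit 474) (nat_lit 5) (nat_lit 473) (nat_lit 5) (nat_lit 497) (nat_lit 5) (nat_lit 602) (nat_lit 588) (nat_lit 370)) (XT.lf (nat_lit 76) (nat_lit 13881025727) (nat_lit 0) (nat_lit 4076985122) (nat_lit 1824) (nat_lit 380179624) (nat_lit 474) (nat_lit 5) (nat_lit 473) (nat_lit 5) (nat_lit 497) (nat_lit 5) (nat_lit 603) (nat_lit 588) (nat_lit 369)))) (XT.nd (nat_lit 78) (nat_lit 0) (nat_lit 0) (XT.lf (nat_lit 0) (nat_lit 710810062) (nat_lit 1824) (nat_lit 13465837025) (nat_lit 1900) (nat_lit 4350174449) (nat_lit 450) (nat_lit 5) (nat_lit 474) (nat_lit 5) (nat_lit 475) (nat_lit 5) (nat_lit 604) (nat_lit 588) (nat_lit 368)) (XT.nd (nat_lit 78) (nat_lit 0) (nat_lit 76) (XT.lf (nat_lit 0) (nat_lit 1870346560) (nat_lit 1824) (nat_lit 3922391314) (nat_lit 1900) (nat_lit 12925401532) (nat_lit 450) (nat_lit 5) (nat_lit 474) (nat_lit 5) (nat_lit 475) (nat_lit 5) (nat_lit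 605) (nat_lit 588) (nat_lit 367)) (XT.lf (nat_lit 0) (nat_lit 3104267156) (nat_lit 1824) (nat_lit 13045574410) (nat_lit 1900) (nat_lit 2762418982) (nat_lit 451) (nat_lit 5) (nat_lit 475) (nat_lit 5) (nat_lit 476) (nat_lit 5) (nat_lit 606) (nat_lit 588) (nat_lit 366))))) (XT.nd (nat_lit 234) (nat_lit 0) (nat_lit 76) (XT.nd (nat_lit 78) (nat_lit 0) (nat_lit 76) (XT.lf (nat_lit 0) (nat_lit 4422617947) (nat_lit 1824) (nat_lit 3247531601) (nat_lit 1900) (nat_lit 11438920296) (nat_lit 451) (nat_lit 5) (nat_lit 475) (nat_lit 5) (nat_lit 476) (nat_lit 5) (nat_lit 607) (nat_lit 588) (nat_lit 365)) (XT.nd (nat_lit 78) (nat_lit 0) (nat_lit 0) (XT.lf (nat_lit 0) (nat_lit 5813346800) (nat_lit 1824) (nat_lit 12483503250) (nat_lit 1900) (nat_lit 1012045805) (nat_lit 452) (nat_lit 5) (nat_lit 476) (nat_lit 5) (nat_lit 477) (nat_lit 5) (nat_lit 608) (nat_lit 588) (nat_lit 364)) (XT.lf (nat_lit 0) (nat_lit 7299696638) (nat_lit 1824) (nat_lit 2423400227) (nat_lit 1900) (nat_lit 9788266131)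 (nat_lit 452) (nat_lit 5) (nat_lit 476) (nat_lit 5) (nat_lit 477) (nat_lit 5) (nat_lit 609) (nat_lit 588) (nat_lit 363)))) (XT.nd (nat_lit 156) (nat_lit 0) (nat_lit 76) (XT.nd (nat_lit 78) (nat_lit 0) (nat_lit 76) (XT.lf (nat_lit 76) (nat_lit 7938118510) (nat_lit 0) (nat_lit 924364833) (nat_lit 1900) (nat_lit 10854462663) (nat_lit 453) (nat_lit 5) (nat_lit 452) (nat_lit 5) (nat_lit 477) (nat_lit 5) (nat_lit 610) (nat_lit 588) (nat_lit 362)) (XT.lf (nat_lit 0) (nat_lit 10520409614) (nat_lit 1824) (nat_lit 1442946086) (nat_lit 1900) (nat_lit 7962008007) (nat_lit 453) (nat_lit 5) (nat_lit 477) (nat_lit 5) (nat_lit 478) (nat_lit 5) (nat_lit 611) (nat_lit 588) (nat_lit 361))) (XT.nd (nat_lit 78) (nat_lit 0) (nat_lit 76) (XT.lf (nat_lit 76) (nat_lit 9210433460) (nat_lit 0) (nat_lit 3062321721) (nat_lit 1900) (nat_lit 7863970060) (nat_lit 454) (nat_lit 5) (nat_lit 453) (nat_lit 5) (nat_lit 478) (nat_lit 5) (nat_lit 612) (nat_lit 588) (nat_lit 360)) (XT.lf (nat_lit 0) (nat_lit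 14104369230) (nat_lit 1824) (nat_lit 298775014) (nat_lit 76) (nat_lit 5948286010) (nat_lit 454) (nat_lit 5) (nat_lit 478) (nat_lit 5) (nat_lit 455) (nat_lit 5) (nat_lit 613) (nat_lit 588) (nat_lit 359))))))) (XT.nd (nat_lit 936) (nat_lit 5320) (nat_lit 0) (XT.nd (nat_lit 468) (nat_lit 2432) (nat_lit 0) (XT.nd (nat_lit 234) (nat_lit 1900) (nat_lit 0) (XT.nd (nat_lit 78) (nat_lit 988) (nat_lit 0) (XT.lf (nat_lit 0) (nat_lit 10656890579) (nat_lit 1672) (nat_lit 5400696756) (nat_lit 1748) (nat_lit 4511143265) (nat_lit 432) (nat_lit 5) (nat_lit 454) (nat_lit 5) (nat_lit 455) (nat_lit 5) (nat_lit 614) (nat_lit 588) (nat_lit 358)) (XT.nd (nat_lit 78) (nat_lit 0) (nat_lit 0) (XT.lf (nat_lit 0) (nat_lit 1030373093) (nat_lit 988) (nat_lit 17048325528) (nat_lit 1064) (nat_lit 2711102411) (nat_lit 419) (nat_lit 5) (nat_lit 432) (nat_lit 5) (nat_lit 433) (nat_lit 5) (nat_lit 615) (nat_lit 588) (nat_lit 357)) (XT.lf (nat_lit 0) (nat_lit 12285616770) (nat_lit 988) (nat_lit 7952288120)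 (nat_lit 1064) (nat_lit 775435167) (nat_lit 419) (nat_lit 5) (nat_lit 432) (nat_lit 5) (nat_lit 433) (nat_lit 5) (nat_lit 616) (nat_lit 588) (nat_lit 356)))) (XT.nd (nat_lit 78) (nat_lit 912) (nat_lit 0) (XT.lf (nat_lit 0) (nat_lit 1204209112) (nat_lit 988) (nat_lit 18703405436) (nat_lit 76) (nat_lit 1333160485) (nat_lit 406) (nat_lit 5) (nat_lit 419) (nat_lit 5) (nat_lit 407) (nat_lit 5) (nat_lit 617) (nat_lit 588) (nat_lit 355)) (XT.nd (nat_lit 78) (nat_lit 912) (nat_lit 0) (XT.lf (nat_lit 0) (nat_lit 3320439252) (nat_lit 988) (nat_lit 7387676873) (nat_lit 76) (nat_lit 10762393152) (nat_lit 406) (nat_lit 5) (nat_lit 419) (nat_lit 5) (nat_lit 407) (nat_lit 5) (nat_lit 618) (nat_lit 588) (nat_lit 354)) (XT.lf (nat_lit 0) (nat_lit 4205628652) (nat_lit 912) (nat_lit 1296501177) (nat_lit 988) (nat_lit 16202246255) (nat_lit 394) (nat_lit 5) (nat_lit 406) (nat_lit 5) (nat_lit 407) (nat_lit 5) (nat_lit 619) (nat_lit 588) (nat_lit 353))))) (XT.nd (nat_lit 234) (nat_lit 1596)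 (nat_lit 0) (XT.nd (nat_lit 78) (nat_lit 836) (nat_lit 0) (XT.lf (nat_lit 0) (nat_lit 7827156884) (nat_lit 988) (nat_lit 5869179660) (nat_lit 76) (nat_lit 8244590210) (nat_lit 394) (nat_lit 5) (nat_lit 407) (nat_lit 5) (nat_lit 395) (nat_lit 5) (nat_lit 620) (nat_lit 588) (nat_lit 352)) (XT.nd (nat_lit 78) (nat_lit 0) (nat_lit 0) (XT.lf (nat_lit 0) (nat_lit 6059994832) (nat_lit 836) (nat_lit 4182590200) (nat_lit 912) (nat_lit 11938745964) (nat_lit 383) (nat_lit 5) (nat_lit 394) (nat_lit 5) (nat_lit 395) (nat_lit 5) (nat_lit 621) (nat_lit 588) (nat_lit 351)) (XT.lf (nat_lit 0) (nat_lit 12777840451) (nat_lit 912) (nat_lit 4158486022) (nat_lit 76) (nat_lit 5488787033) (nat_lit 383) (nat_lit 5) (nat_lit 395) (nat_lit 5) (nat_lit 384) (nat_lit 5) (nat_lit 622) (nat_lit 588) (nat_lit 350)))) (XT.nd (nat_lit 78) (nat_lit 760) (nat_lit 0) (XT.lf (nat_lit 0) (nat_lit 8118543227) (nat_lit 836) (nat_lit 7321769756) (nat_lit 912) (nat_lit 7231928991) (nat_lit 372) (nat_lit 5) (nat_lit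 383) (nat_lit 5) (nat_lit 384) (nat_lit 5) (nat_lit 623) (nat_lit 588) (nat_lit 349)) (XT.nd (nat_lit 78) (nat_lit 760) (nat_lit 0) (XT.lf (nat_lit 0) (nat_lit 18196413629) (nat_lit 912) (nat_lit 2246499044) (nat_lit 76) (nat_lit 2480593302) (nat_lit 372) (nat_lit 5) (nat_lit 384) (nat_lit 5) (nat_lit 373) (nat_lit 5) (nat_lit 624) (nat_lit 588) (nat_lit 348)) (XT.lf (nat_lit 0) (nat_lit 10390802970) (nat_lit 760) (nat_lit 10729014715) (nat_lit 836) (nat_lit 2057734470) (nat_lit 362) (nat_lit 5) (nat_lit 372) (nat_lit 5) (nat_lit 373) (nat_lit 5) (nat_lit 625) (nat_lit 588) (nat_lit 347)))))) (XT.nd (nat_lit 468) (nat_lit 2888) (nat_lit 0) (XT.nd (nat_lit 234) (nat_lit 760) (nat_lit 0) (XT.nd (nat_lit 78) (nat_lit 1596) (nat_lit 0) (XT.lf (nat_lit 0) (nat_lit 667716811) (nat_lit 836) (nat_lit 133347861) (nat_lit 76) (nat_lit 22635300179) (nat_lit 361) (nat_lit 5) (nat_lit 372) (nat_lit 5) (nat_lit 362) (nat_lit 5) (nat_lit 626) (nat_lit 588) (nat_lit 346)) (XT.nd (nat_lit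 78) (nat_lit 760) (nat_lit 0) (XT.lf (nat_lit 0) (nat_lit 3561587691) (nat_lit 912) (nat_lit 10834438179) (nat_lit 76) (nat_lit 9301227121) (nat_lit 350) (nat_lit 5) (nat_lit 362) (nat_lit 5) (nat_lit 351) (nat_lit 5) (nat_lit 627) (nat_lit 588) (nat_lit 345)) (XT.lf (nat_lit 0) (nat_lit 2176777958) (nat_lit 760) (nat_lit 4353270178) (nat_lit 836) (nat_lit 17432977002) (nat_lit 340) (nat_lit 5) (nat_lit 350) (nat_lit 5) (nat_lit 351) (nat_lit 5) (nat_lit 628) (nat_lit 588) (nat_lit 344)))) (XT.nd (nat_lit 78) (nat_lit 760) (nat_lit 0) (XT.lf (nat_lit 0) (nat_lit 9665726286) (nat_lit 836) (nat_lit 8680174697) (nat_lit 76) (nat_lit 5886055250) (nat_lit 340) (nat_lit 5) (nat_lit 351) (nat_lit 5) (nat_lit 341) (nat_lit 5) (nat_lit 629) (nat_lit 588) (nat_lit 343)) (XT.nd (nat_lit 78) (nat_lit 0) (nat_lit 0) (XT.lf (nat_lit 0) (nat_lit 4717260628) (nat_lit 760) (nat_lit 8202803016) (nat_lit 836) (nat_lit 11585083862) (nat_lit 330) (nat_lit 5) (nat_lit 340) (nat_lit 5) (nat_lit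 341) (nat_lit 5) (nat_lit 630) (nat_lit 588) (nat_lit 342)) (XT.lf (nat_lit 0) (nat_lit 16308567684) (nat_lit 836) (nat_lit 6300471038) (nat_lit 76) (nat_lit 2173382742) (nat_lit 330) (nat_lit 5) (nat_lit 341) (nat_lit 5) (nat_lit 331) (nat_lit 5) (nat_lit 631) (nat_lit 588) (nat_lit 341))))) (XT.nd (nat_lit 234) (nat_lit 1368) (nat_lit 0) (XT.nd (nat_lit 78) (nat_lit 836) (nat_lit 0) (XT.lf (nat_lit 0) (nat_lit 7496929211) (nat_lit 684) (nat_lit 12367509695) (nat_lit 760) (nat_lit 5198810501) (nat_lit 321) (nat_lit 5) (nat_lit 330) (nat_lit 5) (nat_lit 331) (nat_lit 5) (nat_lit 632) (nat_lit 588) (nat_lit 340)) (XT.nd (nat_lit 78) (nat_lit 836) (nat_lit 0) (XT.lf (nat_lit 0) (nat_lit 21651942490) (nat_lit 684) (nat_lit 1878405817) (nat_lit 760) (nat_lit 1818567628) (nat_lit 321) (nat_lit 5) (nat_lit 330) (nat_lit 5) (nat_lit 331) (nat_lit 5) (nat_lit 633) (nat_lit 588) (nat_lit 339)) (XT.lf (nat_lit 0) (nat_lit 1731041676) (nat_lit 836) (nat_lit 15122415304) (nat_lit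 76) (nat_lit 8784165071) (nat_lit 310) (nat_lit 5) (nat_lit 321) (nat_lit 5) (nat_lit 311) (nat_lit 5) (nat_lit 634) (nat_lit 588) (nat_lit 338)))) (XT.nd (nat_lit 156) (nat_lit 684) (nat_lit 0) (XT.nd (nat_lit 78) (nat_lit 684) (nat_lit 0) (XT.lf (nat_lit 0) (nat_lit 5361451308) (nat_lit 836) (nat_lit 898259169) (nat_lit 76) (nat_lit 19671468638) (nat_lit 310) (nat_lit 5) (nat_lit 321) (nat_lit 5) (nat_lit 311) (nat_lit 5) (nat_lit 635) (nat_lit 588) (nat_lit 337)) (XT.lf (nat_lit 0) (nat_lit 9180879357) (nat_lit 760) (nat_lit 12471456451) (nat_lit 76) (nat_lit 4575943714) (nat_lit 301) (nat_lit 5) (nat_lit 311) (nat_lit 5) (nat_lit 302) (nat_lit 5) (nat_lit 636) (nat_lit 588) (nat_lit 336))) (XT.nd (nat_lit 78) (nat_lit 0) (nat_lit 0) (XT.lf (nat_lit 0) (nat_lit 2169223989) (nat_lit 684) (nat_lit 10965902481) (nat_lit 760) (nat_lit 13395027258) (nat_lit 292) (nat_lit 5) (nat_lit 301) (nat_lit 5) (nat_lit 302) (nat_lit 5) (nat_lit 637) (nat_lit 588) (nat_lit 335)) (XT.lf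 (nat_lit 0) (nat_lit 17249134446) (nat_lit 760) (nat_lit 9568494797) (nat_lit 76) (nat_lit 18823045) (nat_lit 292) (nat_lit 5) (nat_lit 302) (nat_lit 5) (nat_lit 293) (nat_lit 5) (nat_lit 638) (nat_lit 588) (nat_lit 334))))))))
noncomputable def xc221 : XT := (XT.nd (nat_lit 77922) (nat_lit 0) (nat_lit 13756) (XT.nd (nat_lit 936) (nat_lit 1672) (nat_lit 0) (XT.nd (nat_lit 468) (nat_lit 1748) (nat_lit 0) (XT.nd (nat_lit 234) (nat_lit 1216) (nat_lit 0) (XT.nd (nat_lit 78) (nat_lit 760) (nat_lit 0) (XT.lf (nat_lit 0) (nat_lit 5515833923) (nat_lit 608) (nat_lit 16034943056) (nat_lit 684) (nat_lit 5595993137) (nat_lit 284) (nat_lit 5) (nat_lit 292) (nat_lit 5) (nat_lit 293) (nat_lit 5) (nat_lit 639) (nat_lit 588) (nat_lit 333)) (XT.nd (nat_lit 78) (nat_lit 760) (nat_lit 0) (XT.lf (nat_lit 0) (nat_lit 21027902654) (nat_lit 608) (nat_lit 4971716112) (nat_lit 684) (nat_lit 1462452582) (nat_lit 284) (nat_lit 5) (nat_lit 292) (nat_lit 5) (nat_lit 293) (nat_lit 5) (nat_lit 640)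 (nat_lit 588) (nat_lit 332)) (XT.lf (nat_lit 0) (nat_lit 2815641097) (nat_lit 760) (nat_lit 18658446586) (nat_lit 76) (nat_lit 6307273732) (nat_lit 274) (nat_lit 5) (nat_lit 284) (nat_lit 5) (nat_lit 275) (nat_lit 5) (nat_lit 641) (nat_lit 588) (nat_lit 331)))) (XT.nd (nat_lit 78) (nat_lit 1216) (nat_lit 0) (XT.lf (nat_lit 0) (nat_lit 7233148386) (nat_lit 760) (nat_lit 3074363781) (nat_lit 76) (nat_lit 17797863454) (nat_lit 274) (nat_lit 5) (nat_lit 284) (nat_lit 5) (nat_lit 275) (nat_lit 5) (nat_lit 642) (nat_lit 588) (nat_lit 330)) (XT.nd (nat_lit 78) (nat_lit 608) (nat_lit 0) (XT.lf (nat_lit 0) (nat_lit 11828001444) (nat_lit 684) (nat_lit 15453660166) (nat_lit 76) (nat_lit 1152428936) (nat_lit 266) (nat_lit 5) (nat_lit 275) (nat_lit 5) (nat_lit 267) (nat_lit 5) (nat_lit 643) (nat_lit 588) (nat_lit 329)) (XT.lf (nat_lit 0) (nat_lit 564422275) (nat_lit 608) (nat_lit 16040138532) (nat_lit 684) (nat_lit 12163023118) (nat_lit 258) (nat_lit 5) (nat_lit 266) (nat_lit 5) (nat_lit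 267) (nat_lit 5) (nat_lit 644) (nat_lit 588) (nat_lit 328))))) (XT.nd (nat_lit 234) (nat_lit 1140) (nat_lit 0) (XT.nd (nat_lit 78) (nat_lit 608) (nat_lit 0) (XT.lf (nat_lit 0) (nat_lit 17108759536) (nat_lit 608) (nat_lit 4468743036) (nat_lit 684) (nat_lit 7528227909) (nat_lit 258) (nat_lit 5) (nat_lit 266) (nat_lit 5) (nat_lit 267) (nat_lit 5) (nat_lit 645) (nat_lit 588) (nat_lit 327)) (XT.nd (nat_lit 78) (nat_lit 76) (nat_lit 0) (XT.lf (nat_lit 0) (nat_lit 4541724880) (nat_lit 532) (nat_lit 22182484146) (nat_lit 608) (nat_lit 2724945152) (nat_lit 251) (nat_lit 5) (nat_lit 258) (nat_lit 5) (nat_lit 259) (nat_lit 5) (nat_lit 646) (nat_lit 588) (nat_lit 326)) (XT.lf (nat_lit 0) (nat_lit 2253732530) (nat_lit 608) (nat_lit 8271845052) (nat_lit 76) (nat_lit 19271429789) (nat_lit 250) (nat_lit 5) (nat_lit 258) (nat_lit 5) (nat_lit 251) (nat_lit 5) (nat_lit 647) (nat_lit 588) (nat_lit 325)))) (XT.nd (nat_lit 78) (nat_lit 532) (nat_lit 0) (XT.lf (nat_lit 0) (nat_lit 7359222106)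 (nat_lit 684) (nat_lit 21369542187) (nat_lit 76) (nat_lit 1421418899) (nat_lit 242) (nat_lit 5) (nat_lit 251) (nat_lit 5) (nat_lit 243) (nat_lit 5) (nat_lit 648) (nat_lit 588) (nat_lit 324)) (XT.nd (nat_lit 78) (nat_lit 532) (nat_lit 0) (XT.lf (nat_lit 0) (nat_lit 12689697280) (nat_lit 684) (nat_lit 4296618273) (nat_lit 76) (nat_lit 13521649762) (nat_lit 242) (nat_lit 5) (nat_lit 251) (nat_lit 5) (nat_lit 243) (nat_lit 5) (nat_lit 649) (nat_lit 588) (nat_lit 323)) (XT.lf (nat_lit 0) (nat_lit 13288579246) (nat_lit 532) (nat_lit 4921827994) (nat_lit 608) (nat_lit 12660823631) (nat_lit 235) (nat_lit 5) (nat_lit 242) (nat_lit 5) (nat_lit 243) (nat_lit 5) (nat_lit 650) (nat_lit 588) (nat_lit 322)))))) (XT.nd (nat_lit 76440) (nat_lit 0) (nat_lit 19304) (XT.nd (nat_lit 234) (nat_lit 532) (nat_lit 0) (XT.nd (nat_lit 78) (nat_lit 1140) (nat_lit 0) (XT.lf (nat_lit 0) (nat_lit 23915867752) (nat_lit 608) (nat_lit 9086617) (nat_lit 76) (nat_lit 7315320932) (nat_lit 235) (nat_lit 5)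 (nat_lit 243) (nat_lit 5) (nat_lit 236) (nat_lit 5) (nat_lit 651) (nat_lit 588) (nat_lit 321)) (XT.nd (nat_lit 78) (nat_lit 608) (nat_lit 0) (XT.lf (nat_lit 0) (nat_lit 18117546551) (nat_lit 532) (nat_lit 11765539824) (nat_lit 608) (nat_lit 1730661553) (nat_lit 228) (nat_lit 5) (nat_lit 235) (nat_lit 5) (nat_lit 236) (nat_lit 5) (nat_lit 652) (nat_lit 588) (nat_lit 320)) (XT.lf (nat_lit 0) (nat_lit 3954974885) (nat_lit 608) (nat_lit 27354315104) (nat_lit 76) (nat_lit 684241173) (nat_lit 220) (nat_lit 5) (nat_lit 228) (nat_lit 5) (nat_lit 221) (nat_lit 5) (nat_lit 653) (nat_lit 588) (nat_lit 319)))) (XT.nd (nat_lit 78) (nat_lit 532) (nat_lit 0) (XT.lf (nat_lit 0) (nat_lit 9897712689) (nat_lit 608) (nat_lit 9152248650) (nat_lit 76) (nat_lit 13327388953) (nat_lit 220) (nat_lit 5) (nat_lit 228) (nat_lit 5) (nat_lit 221) (nat_lit 5) (nat_lit 654) (nat_lit 588) (nat_lit 318)) (XT.nd (nat_lit 76050) (nat_lit 0) (nat_lit 19304) (XT.lf (nat_lit 0) (nat_lit 9535529385) (nat_lit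 532) (nat_lit 6483193373) (nat_lit 608) (nat_lit 16748934960) (nat_lit 213) (nat_lit 5) (nat_lit 220) (nat_lit 5) (nat_lit 221) (nat_lit 5) (nat_lit 655) (nat_lit 588) (nat_lit 317)) (XT.lf (nat_lit 0) (nat_lit 1822887484) (nat_lit 0) (nat_lit 1822887484) (nat_lit 1748) (nat_lit 4411270781) (nat_lit 467) (nat_lit 5) (nat_lit 467) (nat_lit 3) (nat_lit 490) (nat_lit 3) (nat_lit 589) (nat_lit 589) (nat_lit 382))))) (XT.nd (nat_lit 234) (nat_lit 0) (nat_lit 76) (XT.nd (nat_lit 78) (nat_lit 0) (nat_lit 0) (XT.lf (nat_lit 0) (nat_lit 7647090329) (nat_lit 1748) (nat_lit 4596899244) (nat_lit 1824) (nat_lit 4025550219) (nat_lit 467) (nat_lit 5) (nat_lit 490) (nat_lit 3) (nat_lit 491) (nat_lit 5) (nat_lit 590) (nat_lit 589) (nat_lit 381)) (XT.nd (nat_lit 78) (nat_lit 0) (nat_lit 76) (XT.lf (nat_lit 76) (nat_lit 3449526774) (nat_lit 0) (nat_lit 4600058715) (nat_lit 1824) (nat_lit 8377715736) (nat_lit 468) (nat_lit 5) (nat_lit 467) (nat_lit 5) (nat_lit 491) (nat_lit 5) (nat_lit 591)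 (nat_lit 589) (nat_lit 380)) (XT.lf (nat_lit 0) (nat_lit 8505369745) (nat_lit 1748) (nat_lit 4893013484) (nat_lit 1824) (nat_lit 3188930906) (nat_lit 468) (nat_lit 5) (nat_lit 491) (nat_lit 5) (nat_lit 492) (nat_lit 5) (nat_lit 592) (nat_lit 589) (nat_lit 379)))) (XT.nd (nat_lit 156) (nat_lit 0) (nat_lit 76) (XT.nd (nat_lit 78) (nat_lit 0) (nat_lit 76) (XT.lf (nat_lit 76) (nat_lit 3363517037) (nat_lit 0) (nat_lit 5652615446) (nat_lit 1824) (nat_lit 7733478575) (nat_lit 469) (nat_lit 5) (nat_lit 468) (nat_lit 5) (nat_lit 492) (nat_lit 5) (nat_lit 593) (nat_lit 589) (nat_lit 378)) (XT.lf (nat_lit 0) (nat_lit 9578440503) (nat_lit 1748) (nat_lit 5081503472) (nat_lit 1824) (nat_lit 2254384335) (nat_lit 469) (nat_lit 5) (nat_lit 492) (nat_lit 5) (nat_lit 493) (nat_lit 5) (nat_lit 594) (nat_lit 589) (nat_lit 377))) (XT.nd (nat_lit 78) (nat_lit 0) (nat_lit 76) (XT.lf (nat_lit 76) (nat_lit 3392614481) (nat_lit 0) (nat_lit 6812647663) (nat_lit 1824) (nat_lit 6876013387) (nat_lit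 470) (nat_lit 5) (nat_lit 469) (nat_lit 5) (nat_lit 493) (nat_lit 5) (nat_lit 595) (nat_lit 589) (nat_lit 376)) (XT.lf (nat_lit 0) (nat_lit 10880602325) (nat_lit 1748) (nat_lit 5157486088) (nat_lit 1824) (nat_lit 1212754595) (nat_lit 470) (nat_lit 5) (nat_lit 493) (nat_lit 5) (nat_lit 494) (nat_lit 5) (nat_lit 596) (nat_lit 589) (nat_lit 375))))))) (XT.nd (nat_lit 936) (nat_lit 4180) (nat_lit 0) (XT.nd (nat_lit 468) (nat_lit 1596) (nat_lit 0) (XT.nd (nat_lit 234) (nat_lit 0) (nat_lit 76) (XT.nd (nat_lit 78) (nat_lit 0) (nat_lit 76) (XT.lf (nat_lit 76) (nat_lit 3541982727) (nat_lit 0) (nat_lit 8089619665) (nat_lit 1824) (nat_lit 5790957315) (nat_lit 471) (nat_lit 5) (nat_lit 470) (nat_lit 5) (nat_lit 494) (nat_lit 5) (nat_lit 597) (nat_lit 589) (nat_lit 374)) (XT.nd (nat_lit 78) (nat_lit 0) (nat_lit 0) (XT.lf (nat_lit 0) (nat_lit 12426723783) (nat_lit 1748) (nat_lit 5115786547) (nat_lit 1824) (nat_lit 54619300) (nat_lit 471) (nat_lit 5) (nat_lit 494) (nat_lit 5) (nat_lit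 495) (nat_lit 5) (nat_lit 598) (nat_lit 589) (nat_lit 373)) (XT.lf (nat_lit 76) (nat_lit 3817086749) (nat_lit 0) (nat_lit 9493279299) (nat_lit 1824) (nat_lit 4463373432) (nat_lit 472) (nat_lit 5) (nat_lit 471) (nat_lit 5) (nat_lit 495) (nat_lit 5) (nat_lit 599) (nat_lit 589) (nat_lit 372)))) (XT.nd (nat_lit 78) (nat_lit 0) (nat_lit 76) (XT.lf (nat_lit 76) (nat_lit 12994286610) (nat_lit 0) (nat_lit 1246074561) (nat_lit 1824) (nat_lit 3712947636) (nat_lit 472) (nat_lit 5) (nat_lit 471) (nat_lit 5) (nat_lit 495) (nat_lit 5) (nat_lit 600) (nat_lit 589) (nat_lit 371)) (XT.nd (nat_lit 78) (nat_lit 0) (nat_lit 0) (XT.lf (nat_lit 76) (nat_lit 4223699780) (nat_lit 0) (nat_lit 11033680112) (nat_lit 1824) (nat_lit 2877722019) (nat_lit 473) (nat_lit 5) (nat_lit 472) (nat_lit 5) (nat_lit 496) (nat_lit 5) (nat_lit 601) (nat_lit 589) (nat_lit 370)) (XT.lf (nat_lit 76) (nat_lit 13645230926) (nat_lit 0) (nat_lit 2685541604) (nat_lit 1824) (nat_lit 1989038524) (nat_lit 473) (nat_lit 5)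 (nat_lit 472) (nat_lit 5) (nat_lit 496) (nat_lit 5) (nat_lit 602) (nat_lit 589) (nat_lit 369))))) (XT.nd (nat_lit 234) (nat_lit 0) (nat_lit 76) (XT.nd (nat_lit 78) (nat_lit 1824) (nat_lit 0) (XT.lf (nat_lit 76) (nat_lit 4767910683) (nat_lit 0) (nat_lit 12721203943) (nat_lit 1824) (nat_lit 1017830949) (nat_lit 474) (nat_lit 5) (nat_lit 473) (nat_lit 5) (nat_lit 497) (nat_lit 5) (nat_lit 603) (nat_lit 589) (nat_lit 368)) (XT.nd (nat_lit 78) (nat_lit 0) (nat_lit 76) (XT.lf (nat_lit 0) (nat_lit 17239652) (nat_lit 1824) (nat_lit 4256191683) (nat_lit 1900) (nat_lit 14423514140) (nat_lit 449) (nat_lit 5) (nat_lit 473) (nat_lit 5) (nat_lit 474) (nat_lit 5) (nat_lit 604) (nat_lit 589) (nat_lit 367)) (XT.lf (nat_lit 0) (nat_lit 1118273591) (nat_lit 1824) (nat_lit 13440806220) (nat_lit 1900) (nat_lit 4330353972) (nat_lit 450) (nat_lit 5) (nat_lit 474) (nat_lit 5) (nat_lit 475) (nat_lit 5) (nat_lit 605) (nat_lit 589) (nat_lit 366)))) (XT.nd (nat_lit 78) (nat_lit 0) (nat_lit 76) (XT.lf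 (nat_lit 0) (nat_lit 2293290086) (nat_lit 1824) (nat_lit 3712263116) (nat_lit 1900) (nat_lit 13079180184) (nat_lit 450) (nat_lit 5) (nat_lit 474) (nat_lit 5) (nat_lit 475) (nat_lit 5) (nat_lit 606) (nat_lit 589) (nat_lit 365)) (XT.nd (nat_lit 78) (nat_lit 0) (nat_lit 0) (XT.lf (nat_lit 0) (nat_lit 3545585992) (nat_lit 1824) (nat_lit 13011549833) (nat_lit 1900) (nat_lit 2725728327) (nat_lit 451) (nat_lit 5) (nat_lit 475) (nat_lit 5) (nat_lit 476) (nat_lit 5) (nat_lit 607) (nat_lit 589) (nat_lit 364)) (XT.lf (nat_lit 0) (nat_lit 4882867847) (nat_lit 1824) (nat_lit 3023329228) (nat_lit 1900) (nat_lit 11577562393) (nat_lit 451) (nat_lit 5) (nat_lit 475) (nat_lit 5) (nat_lit 476) (nat_lit 5) (nat_lit 608) (nat_lit 589) (nat_lit 363)))))) (XT.nd (nat_lit 468) (nat_lit 4408) (nat_lit 0) (XT.nd (nat_lit 234) (nat_lit 0) (nat_lit 76) (XT.nd (nat_lit 78) (nat_lit 0) (nat_lit 0) (XT.lf (nat_lit 0) (nat_lit 6295472441) (nat_lit 1824) (nat_lit 12438026747) (nat_lit 1900) (nat_lit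 954202684) (nat_lit 452) (nat_lit 5) (nat_lit 476) (nat_lit 5) (nat_lit 477) (nat_lit 5) (nat_lit 609) (nat_lit 589) (nat_lit 362)) (XT.nd (nat_lit 78) (nat_lit 0) (nat_lit 0) (XT.lf (nat_lit 0) (nat_lit 7804375576) (nat_lit 1824) (nat_lit 2182508851) (nat_lit 1900) (nat_lit 9907478476) (nat_lit 452) (nat_lit 5) (nat_lit 476) (nat_lit 5) (nat_lit 477) (nat_lit 5) (nat_lit 610) (nat_lit 589) (nat_lit 361)) (XT.lf (nat_lit 76) (nat_lit 8384336580) (nat_lit 0) (nat_lit 1008914748) (nat_lit 1900) (nat_lit 10710910630) (nat_lit 453) (nat_lit 5) (nat_lit 452) (nat_lit 5) (nat_lit 477) (nat_lit 5) (nat_lit 611) (nat_lit 589) (nat_lit 360)))) (XT.nd (nat_lit 78) (nat_lit 0) (nat_lit 0) (XT.lf (nat_lit 0) (nat_lit 11076983881) (nat_lit 1824) (nat_lit 1182581879) (nat_lit 1900) (nat_lit 8057330329) (nat_lit 453) (nat_lit 5) (nat_lit 477) (nat_lit 5) (nat_lit 478) (nat_lit 5) (nat_lit 612) (nat_lit 589) (nat_lit 359)) (XT.nd (nat_lit 78) (nat_lit 0) (nat_lit 76) (XT.lf (nat_lit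 76) (nat_lit 9681962474) (nat_lit 0) (nat_lit 3177491789) (nat_lit 1900) (nat_lit 7673130043) (nat_lit 454) (nat_lit 5) (nat_lit 453) (nat_lit 5) (nat_lit 478) (nat_lit 5) (nat_lit 613) (nat_lit 589) (nat_lit 358)) (XT.lf (nat_lit 0) (nat_lit 14720666292) (nat_lit 1824) (nat_lit 15980033) (nat_lit 76) (nat_lit 6015078773) (nat_lit 454) (nat_lit 5) (nat_lit 478) (nat_lit 5) (nat_lit 455) (nat_lit 5) (nat_lit 614) (nat_lit 589) (nat_lit 357))))) (XT.nd (nat_lit 234) (nat_lit 1900) (nat_lit 0) (XT.nd (nat_lit 78) (nat_lit 988) (nat_lit 0) (XT.lf (nat_lit 0) (nat_lit 11156899066) (nat_lit 1672) (nat_lit 5551359117) (nat_lit 1748) (nat_lit 4265208052) (nat_lit 432) (nat_lit 5) (nat_lit 454) (nat_lit 5) (nat_lit 455) (nat_lit 5) (nat_lit 615) (nat_lit 589) (nat_lit 356)) (XT.nd (nat_lit 78) (nat_lit 0) (nat_lit 0) (XT.lf (nat_lit 0) (nat_lit 1342834304) (nat_lit 988) (nat_lit 17422119668) (nat_lit 1064) (nat_lit 2434101811) (nat_lit 419) (nat_lit 5) (nat_lit 432) (nat_lit 5)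 (nat_lit 433) (nat_lit 5) (nat_lit 616) (nat_lit 589) (nat_lit 355)) (XT.lf (nat_lit 0) (nat_lit 12817460232) (nat_lit 988) (nat_lit 8143517833) (nat_lit 1064) (nat_lit 466215784) (nat_lit 419) (nat_lit 5) (nat_lit 432) (nat_lit 5) (nat_lit 433) (nat_lit 5) (nat_lit 617) (nat_lit 589) (nat_lit 354)))) (XT.nd (nat_lit 156) (nat_lit 912) (nat_lit 0) (XT.nd (nat_lit 78) (nat_lit 0) (nat_lit 0) (XT.lf (nat_lit 0) (nat_lit 1544173331) (nat_lit 988) (nat_lit 18782403682) (nat_lit 76) (nat_lit 1332651025) (nat_lit 406) (nat_lit 5) (nat_lit 419) (nat_lit 5) (nat_lit 407) (nat_lit 5) (nat_lit 618) (nat_lit 589) (nat_lit 353)) (XT.lf (nat_lit 0) (nat_lit 3696534348) (nat_lit 988) (nat_lit 7246146231) (nat_lit 76) (nat_lit 10951001143) (nat_lit 406) (nat_lit 5) (nat_lit 419) (nat_lit 5) (nat_lit 407) (nat_lit 5) (nat_lit 619) (nat_lit 589) (nat_lit 352))) (XT.nd (nat_lit 78) (nat_lit 0) (nat_lit 0) (XT.lf (nat_lit 0) (nat_lit 4577122219) (nat_lit 912) (nat_lit 1340530105) (nat_lit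 988) (nat_lit 16214658532) (nat_lit 394) (nat_lit 5) (nat_lit 406) (nat_lit 5) (nat_lit 407) (nat_lit 5) (nat_lit 620) (nat_lit 589) (nat_lit 351)) (XT.lf (nat_lit 0) (nat_lit 8283074912) (nat_lit 988) (nat_lit 5698669867) (nat_lit 76) (nat_lit 8391970706) (nat_lit 394) (nat_lit 5) (nat_lit 407) (nat_lit 5) (nat_lit 395) (nat_lit 5) (nat_lit 621) (nat_lit 589) (nat_lit 350))))))))
noncomputable def xc222 : XT := (XT.nd (nat_lit 1950) (nat_lit 2888) (nat_lit 0) (XT.nd (nat_lit 936) (nat_lit 4788) (nat_lit 0) (XT.nd (nat_lit 468) (nat_lit 2204) (nat_lit 0) (XT.nd (nat_lit 234) (nat_lit 1672) (nat_lit 0) (XT.nd (nat_lit 78) (nat_lit 836) (nat_lit 0) (XT.lf (nat_lit 0) (nat_lit 6467194079) (nat_lit 836) (nat_lit 4275604345) (nat_lit 912) (nat_lit 11876210481) (nat_lit 383) (nat_lit 5) (nat_lit 394) (nat_lit 5) (nat_lit 395) (nat_lit 5) (nat_lit 622) (nat_lit 589) (nat_lit 349)) (XT.nd (nat_lit 78) (nat_lit 836) (nat_lit 0) (XT.lf (nat_lit 0) (nat_lit 13322907952) (nat_lit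 912) (nat_lit 3955372559) (nat_lit 76) (nat_lit 5589504389) (nat_lit 383) (nat_lit 5) (nat_lit 395) (nat_lit 5) (nat_lit 384) (nat_lit 5) (nat_lit 623) (nat_lit 589) (nat_lit 348)) (XT.lf (nat_lit 0) (nat_lit 8565313833) (nat_lit 836) (nat_lit 7469485934) (nat_lit 912) (nat_lit 7085133571) (nat_lit 372) (nat_lit 5) (nat_lit 383) (nat_lit 5) (nat_lit 384) (nat_lit 5) (nat_lit 624) (nat_lit 589) (nat_lit 347)))) (XT.nd (nat_lit 78) (nat_lit 1672) (nat_lit 0) (XT.lf (nat_lit 0) (nat_lit 18840412693) (nat_lit 912) (nat_lit 2006956935) (nat_lit 76) (nat_lit 2528965968) (nat_lit 372) (nat_lit 5) (nat_lit 384) (nat_lit 5) (nat_lit 373) (nat_lit 5) (nat_lit 625) (nat_lit 589) (nat_lit 346)) (XT.nd (nat_lit 78) (nat_lit 912) (nat_lit 0) (XT.lf (nat_lit 0) (nat_lit 10881219593) (nat_lit 760) (nat_lit 10937408484) (nat_lit 836) (nat_lit 1816908523) (nat_lit 362) (nat_lit 5) (nat_lit 372) (nat_lit 5) (nat_lit 373) (nat_lit 5) (nat_lit 626) (nat_lit 589) (nat_lit 345)) (XT.lf (nat_lit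 0) (nat_lit 146630180) (nat_lit 836) (nat_lit 808218879) (nat_lit 912) (nat_lit 22944730702) (nat_lit 350) (nat_lit 5) (nat_lit 361) (nat_lit 5) (nat_lit 362) (nat_lit 5) (nat_lit 627) (nat_lit 589) (nat_lit 344))))) (XT.nd (nat_lit 234) (nat_lit 1444) (nat_lit 0) (XT.nd (nat_lit 78) (nat_lit 760) (nat_lit 0) (XT.lf (nat_lit 0) (nat_lit 3902168703) (nat_lit 912) (nat_lit 10766892284) (nat_lit 76) (nat_lit 9496713972) (nat_lit 350) (nat_lit 5) (nat_lit 362) (nat_lit 5) (nat_lit 351) (nat_lit 5) (nat_lit 628) (nat_lit 589) (nat_lit 343)) (XT.nd (nat_lit 78) (nat_lit 0) (nat_lit 0) (XT.lf (nat_lit 0) (nat_lit 2502678211) (nat_lit 760) (nat_lit 4423872087) (nat_lit 836) (nat_lit 17510381919) (nat_lit 340) (nat_lit 5) (nat_lit 350) (nat_lit 5) (nat_lit 351) (nat_lit 5) (nat_lit 629) (nat_lit 589) (nat_lit 342)) (XT.lf (nat_lit 0) (nat_lit 10119833058) (nat_lit 836) (nat_lit 8571806402) (nat_lit 76) (nat_lit 6019705348) (nat_lit 340) (nat_lit 5) (nat_lit 351) (nat_lit 5) (nat_lit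 341) (nat_lit 5) (nat_lit 630) (nat_lit 589) (nat_lit 341)))) (XT.nd (nat_lit 78) (nat_lit 684) (nat_lit 0) (XT.lf (nat_lit 0) (nat_lit 5091722553) (nat_lit 760) (nat_lit 8344239741) (nat_lit 836) (nat_lit 11554104191) (nat_lit 330) (nat_lit 5) (nat_lit 340) (nat_lit 5) (nat_lit 341) (nat_lit 5) (nat_lit 631) (nat_lit 589) (nat_lit 340)) (XT.nd (nat_lit 78) (nat_lit 684) (nat_lit 0) (XT.lf (nat_lit 0) (nat_lit 16887331426) (nat_lit 836) (nat_lit 6146917885) (nat_lit 76) (nat_lit 2238735376) (nat_lit 330) (nat_lit 5) (nat_lit 341) (nat_lit 5) (nat_lit 331) (nat_lit 5) (nat_lit 632) (nat_lit 589) (nat_lit 339)) (XT.lf (nat_lit 0) (nat_lit 7924591141) (nat_lit 684) (nat_lit 12586579304) (nat_lit 760) (nat_lit 5048322392) (nat_lit 321) (nat_lit 5) (nat_lit 330) (nat_lit 5) (nat_lit 331) (nat_lit 5) (nat_lit 633) (nat_lit 589) (nat_lit 338)))))) (XT.nd (nat_lit 468) (nat_lit 2584) (nat_lit 0) (XT.nd (nat_lit 234) (nat_lit 1368) (nat_lit 0) (XT.nd (nat_lit 78) (nat_lit 836)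 (nat_lit 0) (XT.lf (nat_lit 0) (nat_lit 22357259130) (nat_lit 684) (nat_lit 1888247869) (nat_lit 760) (nat_lit 1605464158) (nat_lit 321) (nat_lit 5) (nat_lit 330) (nat_lit 5) (nat_lit 331) (nat_lit 5) (nat_lit 634) (nat_lit 589) (nat_lit 337)) (XT.nd (nat_lit 78) (nat_lit 0) (nat_lit 0) (XT.lf (nat_lit 0) (nat_lit 2009014175) (nat_lit 836) (nat_lit 15146400412) (nat_lit 76) (nat_lit 8990062054) (nat_lit 310) (nat_lit 5) (nat_lit 321) (nat_lit 5) (nat_lit 311) (nat_lit 5) (nat_lit 635) (nat_lit 589) (nat_lit 336)) (XT.lf (nat_lit 0) (nat_lit 5707260398) (nat_lit 836) (nat_lit 643221217) (nat_lit 76) (nat_lit 20094519268) (nat_lit 310) (nat_lit 5) (nat_lit 321) (nat_lit 5) (nat_lit 311) (nat_lit 5) (nat_lit 636) (nat_lit 589) (nat_lit 335)))) (XT.nd (nat_lit 78) (nat_lit 684) (nat_lit 0) (XT.lf (nat_lit 0) (nat_lit 9600390601) (nat_lit 760) (nat_lit 12445166417) (nat_lit 76) (nat_lit 4702540602) (nat_lit 301) (nat_lit 5) (nat_lit 311) (nat_lit 5) (nat_lit 302) (nat_lit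 5) (nat_lit 637) (nat_lit 589) (nat_lit 334)) (XT.nd (nat_lit 78) (nat_lit 0) (nat_lit 0) (XT.lf (nat_lit 0) (nat_lit 2486513690) (nat_lit 684) (nat_lit 11144361974) (nat_lit 760) (nat_lit 13425191165) (nat_lit 292) (nat_lit 5) (nat_lit 301) (nat_lit 5) (nat_lit 302) (nat_lit 5) (nat_lit 638) (nat_lit 589) (nat_lit 333)) (XT.lf (nat_lit 0) (nat_lit 17822854337) (nat_lit 760) (nat_lit 9486992229) (nat_lit 76) (nat_lit 58731554) (nat_lit 292) (nat_lit 5) (nat_lit 302) (nat_lit 5) (nat_lit 293) (nat_lit 5) (nat_lit 639) (nat_lit 589) (nat_lit 332))))) (XT.nd (nat_lit 234) (nat_lit 1216) (nat_lit 0) (XT.nd (nat_lit 78) (nat_lit 760) (nat_lit 0) (XT.lf (nat_lit 0) (nat_lit 5897227853) (nat_lit 608) (nat_lit 16310576838) (nat_lit 684) (nat_lit 5477352672) (nat_lit 284) (nat_lit 5) (nat_lit 292) (nat_lit 5) (nat_lit 293) (nat_lit 5) (nat_lit 640) (nat_lit 589) (nat_lit 331)) (XT.nd (nat_lit 78) (nat_lit 760) (nat_lit 0) (XT.lf (nat_lit 0) (nat_lit 21714222718) (nat_lit 608)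 (nat_lit 5026968985) (nat_lit 684) (nat_lit 1265662097) (nat_lit 284) (nat_lit 5) (nat_lit 292) (nat_lit 5) (nat_lit 293) (nat_lit 5) (nat_lit 641) (nat_lit 589) (nat_lit 330)) (XT.lf (nat_lit 0) (nat_lit 3092690572) (nat_lit 760) (nat_lit 18760497493) (nat_lit 76) (nat_lit 6479359543) (nat_lit 274) (nat_lit 5) (nat_lit 284) (nat_lit 5) (nat_lit 275) (nat_lit 5) (nat_lit 642) (nat_lit 589) (nat_lit 329)))) (XT.nd (nat_lit 156) (nat_lit 608) (nat_lit 0) (XT.nd (nat_lit 78) (nat_lit 608) (nat_lit 0) (XT.lf (nat_lit 0) (nat_lit 7594219837) (nat_lit 760) (nat_lit 2870049071) (nat_lit 76) (nat_lit 18198860270) (nat_lit 274) (nat_lit 5) (nat_lit 284) (nat_lit 5) (nat_lit 275) (nat_lit 5) (nat_lit 643) (nat_lit 589) (nat_lit 328)) (XT.lf (nat_lit 0) (nat_lit 12278766822) (nat_lit 684) (nat_lit 15494702970) (nat_lit 76) (nat_lit 1224993177) (nat_lit 266) (nat_lit 5) (nat_lit 275) (nat_lit 5) (nat_lit 267) (nat_lit 5) (nat_lit 644) (nat_lit 589) (nat_lit 327))) (XT.nd (nat_lit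 78) (nat_lit 0) (nat_lit 0) (XT.lf (nat_lit 0) (nat_lit 841977762) (nat_lit 608) (nat_lit 16306408288) (nat_lit 684) (nat_lit 12190290088) (nat_lit 258) (nat_lit 5) (nat_lit 266) (nat_lit 5) (nat_lit 267) (nat_lit 5) (nat_lit 645) (nat_lit 589) (nat_lit 326)) (XT.lf (nat_lit 0) (nat_lit 17711980846) (nat_lit 608) (nat_lit 4504654157) (nat_lit 684) (nat_lit 7467034141) (nat_lit 258) (nat_lit 5) (nat_lit 266) (nat_lit 5) (nat_lit 267) (nat_lit 5) (nat_lit 646) (nat_lit 589) (nat_lit 325))))))) (XT.nd (nat_lit 76986) (nat_lit 0) (nat_lit 17404) (XT.nd (nat_lit 468) (nat_lit 608) (nat_lit 0) (XT.nd (nat_lit 234) (nat_lit 1064) (nat_lit 0) (XT.nd (nat_lit 78) (nat_lit 684) (nat_lit 0) (XT.lf (nat_lit 0) (nat_lit 4895691723) (nat_lit 532) (nat_lit 22568562365) (nat_lit 608) (nat_lit 2569748133) (nat_lit 251) (nat_lit 5) (nat_lit 258) (nat_lit 5) (nat_lit 259) (nat_lit 5) (nat_lit 647) (nat_lit 589) (nat_lit 324)) (XT.nd (nat_lit 78) (nat_lit 608) (nat_lit 0) (XT.lf (nat_lit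 0) (nat_lit 2501695144) (nat_lit 608) (nat_lit 8176589893) (nat_lit 76) (nat_lit 19710581825) (nat_lit 250) (nat_lit 5) (nat_lit 258) (nat_lit 5) (nat_lit 251) (nat_lit 5) (nat_lit 648) (nat_lit 589) (nat_lit 323)) (XT.lf (nat_lit 0) (nat_lit 7707376846) (nat_lit 684) (nat_lit 21534300856) (nat_lit 76) (nat_lit 1507467299) (nat_lit 242) (nat_lit 5) (nat_lit 251) (nat_lit 5) (nat_lit 243) (nat_lit 5) (nat_lit 649) (nat_lit 589) (nat_lit 322)))) (XT.nd (nat_lit 78) (nat_lit 1064) (nat_lit 0) (XT.lf (nat_lit 0) (nat_lit 13140520928) (nat_lit 684) (nat_lit 4125068115) (nat_lit 76) (nat_lit 13848572975) (nat_lit 242) (nat_lit 5) (nat_lit 251) (nat_lit 5) (nat_lit 243) (nat_lit 5) (nat_lit 650) (nat_lit 589) (nat_lit 321)) (XT.nd (nat_lit 78) (nat_lit 532) (nat_lit 0) (XT.lf (nat_lit 0) (nat_lit 13810139391) (nat_lit 532) (nat_lit 4959303118) (nat_lit 608) (nat_lit 12715294860) (nat_lit 235) (nat_lit 5) (nat_lit 242) (nat_lit 5) (nat_lit 243) (nat_lit 5) (nat_lit 651) (nat_lit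 589) (nat_lit 320)) (XT.lf (nat_lit 0) (nat_lit 248213363) (nat_lit 532) (nat_lit 24338978336) (nat_lit 608) (nat_lit 7274007823) (nat_lit 228) (nat_lit 5) (nat_lit 235) (nat_lit 5) (nat_lit 236) (nat_lit 5) (nat_lit 652) (nat_lit 589) (nat_lit 319))))) (XT.nd (nat_lit 76284) (nat_lit 0) (nat_lit 18772) (XT.nd (nat_lit 78) (nat_lit 608) (nat_lit 0) (XT.lf (nat_lit 0) (nat_lit 18732451290) (nat_lit 532) (nat_lit 11937578742) (nat_lit 608) (nat_lit 1572186477) (nat_lit 228) (nat_lit 5) (nat_lit 235) (nat_lit 5) (nat_lit 236) (nat_lit 5) (nat_lit 653) (nat_lit 589) (nat_lit 318)) (XT.nd (nat_lit 78) (nat_lit 0) (nat_lit 0) (XT.lf (nat_lit 0) (nat_lit 4222961120) (nat_lit 608) (nat_lit 27644605762) (nat_lit 76) (nat_lit 762037236) (nat_lit 220) (nat_lit 5) (nat_lit 228) (nat_lit 5) (nat_lit 221) (nat_lit 5) (nat_lit 654) (nat_lit 589) (nat_lit 317)) (XT.lf (nat_lit 0) (nat_lit 10280850019) (nat_lit 608) (nat_lit 9083533187) (nat_lit 76) (nat_lit 13656790889) (nat_lit 220)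 (nat_lit 5) (nat_lit 228) (nat_lit 5) (nat_lit 221) (nat_lit 5) (nat_lit 655) (nat_lit 589) (nat_lit 316)))) (XT.nd (nat_lit 78) (nat_lit 0) (nat_lit 0) (XT.lf (nat_lit 0) (nat_lit 1986584220) (nat_lit 0) (nat_lit 1986584220) (nat_lit 1748) (nat_lit 4239888802) (nat_lit 467) (nat_lit 5) (nat_lit 467) (nat_lit 3) (nat_lit 490) (nat_lit 3) (nat_lit 590) (nat_lit 590) (nat_lit 380)) (XT.nd (nat_lit 78) (nat_lit 0) (nat_lit 0) (XT.lf (nat_lit 0) (nat_lit 8297388708) (nat_lit 1748) (nat_lit 4427671487) (nat_lit 1824) (nat_lit 3859845099) (nat_lit 467) (nat_lit 5) (nat_lit 490) (nat_lit 3) (nat_lit 491) (nat_lit 5) (nat_lit 591) (nat_lit 590) (nat_lit 379)) (XT.lf (nat_lit 76) (nat_lit 3777964856) (nat_lit 0) (nat_lit 4921901332) (nat_lit 1824) (nat_lit 8046118653) (nat_lit 468) (nat_lit 5) (nat_lit 467) (nat_lit 5) (nat_lit 491) (nat_lit 5) (nat_lit 592) (nat_lit 590) (nat_lit 378)))))) (XT.nd (nat_lit 468) (nat_lit 1444) (nat_lit 0) (XT.nd (nat_lit 234) (nat_lit 0) (nat_lit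 76) (XT.nd (nat_lit 78) (nat_lit 0) (nat_lit 0) (XT.lf (nat_lit 0) (nat_lit 9153709204) (nat_lit 1748) (nat_lit 4725381363) (nat_lit 1824) (nat_lit 3030330082) (nat_lit 468) (nat_lit 5) (nat_lit 491) (nat_lit 5) (nat_lit 492) (nat_lit 5) (nat_lit 593) (nat_lit 590) (nat_lit 377)) (XT.nd (nat_lit 78) (nat_lit 0) (nat_lit 76) (XT.lf (nat_lit 76) (nat_lit 3694533109) (nat_lit 0) (nat_lit 5972489400) (nat_lit 1824) (nat_lit 7408095767) (nat_lit 469) (nat_lit 5) (nat_lit 468) (nat_lit 5) (nat_lit 492) (nat_lit 5) (nat_lit 594) (nat_lit 590) (nat_lit 376)) (XT.lf (nat_lit 0) (nat_lit 10230033385) (nat_lit 1748) (nat_lit 4913943780) (nat_lit 1824) (nat_lit 2099365019) (nat_lit 469) (nat_lit 5) (nat_lit 492) (nat_lit 5) (nat_lit 493) (nat_lit 5) (nat_lit 595) (nat_lit 590) (nat_lit 375)))) (XT.nd (nat_lit 78) (nat_lit 0) (nat_lit 76) (XT.lf (nat_lit 76) (nat_lit 3727885547) (nat_lit 0) (nat_lit 7134222093) (nat_lit 1824) (nat_lit 6551667803) (nat_lit 470) (nat_lit 5) (nat_lit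 469) (nat_lit 5) (nat_lit 493) (nat_lit 5) (nat_lit 596) (nat_lit 590) (nat_lit 374)) (XT.nd (nat_lit 78) (nat_lit 0) (nat_lit 0) (XT.lf (nat_lit 0) (nat_lit 11540897727) (nat_lit 1748) (nat_lit 4988334235) (nat_lit 1824) (nat_lit 1057704832) (nat_lit 470) (nat_lit 5) (nat_lit 493) (nat_lit 5) (nat_lit 494) (nat_lit 5) (nat_lit 597) (nat_lit 590) (nat_lit 373)) (XT.lf (nat_lit 76) (nat_lit 3883332499) (nat_lit 0) (nat_lit 8416661562) (nat_lit 1824) (nat_lit 5462233602) (nat_lit 471) (nat_lit 5) (nat_lit 470) (nat_lit 5) (nat_lit 494) (nat_lit 5) (nat_lit 598) (nat_lit 590) (nat_lit 372))))) (XT.nd (nat_lit 234) (nat_lit 1596) (nat_lit 0) (XT.nd (nat_lit 78) (nat_lit 0) (nat_lit 76) (XT.lf (nat_lit 76) (nat_lit 12996549796) (nat_lit 0) (nat_lit 105557252) (nat_lit 1824) (nat_lit 4838361487) (nat_lit 471) (nat_lit 5) (nat_lit 470) (nat_lit 5) (nat_lit 494) (nat_lit 5) (nat_lit 599) (nat_lit 590) (nat_lit 371)) (XT.nd (nat_lit 78) (nat_lit 0) (nat_lit 0) (XT.lf (nat_lit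 76) (nat_lit 4166489023) (nat_lit 0) (nat_lit 9829664533) (nat_lit 1824) (nat_lit 4124603707) (nat_lit 472) (nat_lit 5) (nat_lit 471) (nat_lit 5) (nat_lit 495) (nat_lit 5) (nat_lit 600) (nat_lit 590) (nat_lit 370)) (XT.lf (nat_lit 76) (nat_lit 13521878753) (nat_lit 0) (nat_lit 1414642766) (nat_lit 1824) (nat_lit 3367562281) (nat_lit 472) (nat_lit 5) (nat_lit 471) (nat_lit 5) (nat_lit 495) (nat_lit 5) (nat_lit 601) (nat_lit 590) (nat_lit 369)))) (XT.nd (nat_lit 156) (nat_lit 1748) (nat_lit 0) (XT.nd (nat_lit 78) (nat_lit 0) (nat_lit 0) (XT.lf (nat_lit 76) (nat_lit 4583282110) (nat_lit 0) (nat_lit 11383404580) (nat_lit 1824) (nat_lit 2522971212) (nat_lit 473) (nat_lit 5) (nat_lit 472) (nat_lit 5) (nat_lit 496) (nat_lit 5) (nat_lit 602) (nat_lit 590) (nat_lit 368)) (XT.lf (nat_lit 76) (nat_lit 14187849597) (nat_lit 0) (nat_lit 2865772892) (nat_lit 1824) (nat_lit 1624598464) (nat_lit 473) (nat_lit 5) (nat_lit 472) (nat_lit 5) (nat_lit 496) (nat_lit 5) (nat_lit 603) (nat_lit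 590) (nat_lit 367))) (XT.nd (nat_lit 78) (nat_lit 1824) (nat_lit 0) (XT.lf (nat_lit 76) (nat_lit 5139958345) (nat_lit 0) (nat_lit 13088394883) (nat_lit 1824) (nat_lit 640881710) (nat_lit 474) (nat_lit 5) (nat_lit 473) (nat_lit 5) (nat_lit 497) (nat_lit 5) (nat_lit 604) (nat_lit 590) (nat_lit 366)) (XT.lf (nat_lit 0) (nat_lit 401991426) (nat_lit 1824) (nat_lit 4064884709) (nat_lit 1900) (nat_lit 14596262034) (nat_lit 449) (nat_lit 5) (nat_lit 473) (nat_lit 5) (nat_lit 474) (nat_lit 5) (nat_lit 605) (nat_lit 590) (nat_lit 365))))))))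
noncomputable def xc223 : XT := (XT.nd (nat_lit 1950) (nat_lit 9120) (nat_lit 0) (XT.nd (nat_lit 936) (nat_lit 6004) (nat_lit 0) (XT.nd (nat_lit 468) (nat_lit 2356) (nat_lit 0) (XT.nd (nat_lit 234) (nat_lit 0) (nat_lit 76) (XT.nd (nat_lit 78) (nat_lit 0) (nat_lit 0) (XT.lf (nat_lit 0) (nat_lit 1518616117) (nat_lit 1824) (nat_lit 13426704673) (nat_lit 1900) (nat_lit 4314285190) (nat_lit 450) (nat_lit 5) (nat_lit 474) (nat_lit 5) (nat_lit 475) (nat_lit 5) (nat_lit 606) (nat_lit 590) (nat_lit 364)) (XT.nd (nat_lit 78) (nat_lit 0) (nat_lit 76) (XT.lf (nat_lit 0) (nat_lit 2709721627) (nat_lit 1824) (nat_lit 3509138112) (nat_lit 1900) (nat_lit 13240101179) (nat_lit 450) (nat_lit 5) (nat_lit 474) (nat_lit 5) (nat_lit 475) (nat_lit 5) (nat_lit 607) (nat_lit 590) (nat_lit 363)) (XT.lf (nat_lit 0) (nat_lit 3981005105) (nat_lit 1824) (nat_lit 12988297491) (nat_lit 1900) (nat_lit 2691873964) (nat_lit 451) (nat_lit 5) (nat_lit 475) (nat_lit 5) (nat_lit 476) (nat_lit 5) (nat_lit 608)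 (nat_lit 590) (nat_lit 362)))) (XT.nd (nat_lit 78) (nat_lit 0) (nat_lit 76) (XT.lf (nat_lit 0) (nat_lit 5337885394) (nat_lit 1824) (nat_lit 2805870971) (nat_lit 1900) (nat_lit 11722477435) (nat_lit 451) (nat_lit 5) (nat_lit 475) (nat_lit 5) (nat_lit 476) (nat_lit 5) (nat_lit 609) (nat_lit 590) (nat_lit 361)) (XT.nd (nat_lit 78) (nat_lit 0) (nat_lit 0) (XT.lf (nat_lit 0) (nat_lit 6773033855) (nat_lit 1824) (nat_lit 12403101614) (nat_lit 1900) (nat_lit 898234799) (nat_lit 452) (nat_lit 5) (nat_lit 476) (nat_lit 5) (nat_lit 477) (nat_lit 5) (nat_lit 610) (nat_lit 590) (nat_lit 360)) (XT.lf (nat_lit 0) (nat_lit 8305219916) (nat_lit 1824) (nat_lit 1948035825) (nat_lit 1900) (nat_lit 10032047714) (nat_lit 452) (nat_lit 5) (nat_lit 476) (nat_lit 5) (nat_lit 477) (nat_lit 5) (nat_lit 611) (nat_lit 590) (nat_lit 359))))) (XT.nd (nat_lit 234) (nat_lit 2508) (nat_lit 0) (XT.nd (nat_lit 78) (nat_lit 0) (nat_lit 76) (XT.lf (nat_lit 76) (nat_lit 8828316758) (nat_lit 0) (nat_lit 1092590369)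 (nat_lit 1900) (nat_lit 10578491697) (nat_lit 453) (nat_lit 5) (nat_lit 452) (nat_lit 5) (nat_lit 477) (nat_lit 5) (nat_lit 612) (nat_lit 590) (nat_lit 358)) (XT.nd (nat_lit 78) (nat_lit 0) (nat_lit 0) (XT.lf (nat_lit 0) (nat_lit 11631247583) (nat_lit 1824) (nat_lit 928241275) (nat_lit 1900) (nat_lit 8157041105) (nat_lit 453) (nat_lit 5) (nat_lit 477) (nat_lit 5) (nat_lit 478) (nat_lit 5) (nat_lit 613) (nat_lit 590) (nat_lit 357)) (XT.lf (nat_lit 76) (nat_lit 10151765069) (nat_lit 0) (nat_lit 3292871339) (nat_lit 1900) (nat_lit 7491991128) (nat_lit 454) (nat_lit 5) (nat_lit 453) (nat_lit 5) (nat_lit 478) (nat_lit 5) (nat_lit 614) (nat_lit 590) (nat_lit 356)))) (XT.nd (nat_lit 78) (nat_lit 988) (nat_lit 0) (XT.lf (nat_lit 0) (nat_lit 264729512) (nat_lit 1672) (nat_lit 15073300813) (nat_lit 1748) (nat_lit 5822222619) (nat_lit 432) (nat_lit 5) (nat_lit 454) (nat_lit 5) (nat_lit 455) (nat_lit 5) (nat_lit 615) (nat_lit 590) (nat_lit 355)) (XT.nd (nat_lit 78) (nat_lit 988)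 (nat_lit 0) (XT.lf (nat_lit 0) (nat_lit 11655768185) (nat_lit 1672) (nat_lit 5703378635) (nat_lit 1748) (nat_lit 4027407562) (nat_lit 432) (nat_lit 5) (nat_lit 454) (nat_lit 5) (nat_lit 455) (nat_lit 5) (nat_lit 616) (nat_lit 590) (nat_lit 354)) (XT.lf (nat_lit 0) (nat_lit 1650211702) (nat_lit 988) (nat_lit 17802114953) (nat_lit 1064) (nat_lit 2164422978) (nat_lit 419) (nat_lit 5) (nat_lit 432) (nat_lit 5) (nat_lit 433) (nat_lit 5) (nat_lit 617) (nat_lit 590) (nat_lit 353)))))) (XT.nd (nat_lit 468) (nat_lit 3268) (nat_lit 0) (XT.nd (nat_lit 234) (nat_lit 1748) (nat_lit 0) (XT.nd (nat_lit 78) (nat_lit 988) (nat_lit 0) (XT.lf (nat_lit 0) (nat_lit 13348829743) (nat_lit 988) (nat_lit 8337322398) (nat_lit 1064) (nat_lit 163421600) (nat_lit 419) (nat_lit 5) (nat_lit 432) (nat_lit 5) (nat_lit 433) (nat_lit 5) (nat_lit 618) (nat_lit 590) (nat_lit 352)) (XT.nd (nat_lit 78) (nat_lit 0) (nat_lit 0) (XT.lf (nat_lit 0) (nat_lit 1878670828) (nat_lit 988) (nat_lit 18874439815) (nat_lit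 76) (nat_lit 1333186523) (nat_lit 406) (nat_lit 5) (nat_lit 419) (nat_lit 5) (nat_lit 407) (nat_lit 5) (nat_lit 619) (nat_lit 590) (nat_lit 351)) (XT.lf (nat_lit 0) (nat_lit 4068125850) (nat_lit 988) (nat_lit 7113018234) (nat_lit 76) (nat_lit 11144415752) (nat_lit 406) (nat_lit 5) (nat_lit 419) (nat_lit 5) (nat_lit 407) (nat_lit 5) (nat_lit 620) (nat_lit 590) (nat_lit 350)))) (XT.nd (nat_lit 78) (nat_lit 836) (nat_lit 0) (XT.lf (nat_lit 0) (nat_lit 4944886303) (nat_lit 912) (nat_lit 1384736809) (nat_lit 988) (nat_lit 16239420130) (nat_lit 394) (nat_lit 5) (nat_lit 406) (nat_lit 5) (nat_lit 407) (nat_lit 5) (nat_lit 621) (nat_lit 590) (nat_lit 349)) (XT.nd (nat_lit 78) (nat_lit 836) (nat_lit 0) (XT.lf (nat_lit 0) (nat_lit 8736486209) (nat_lit 988) (nat_lit 5535929129) (nat_lit 76) (nat_lit 8542978797) (nat_lit 394) (nat_lit 5) (nat_lit 407) (nat_lit 5) (nat_lit 395) (nat_lit 5) (nat_lit 622) (nat_lit 590) (nat_lit 348)) (XT.lf (nat_lit 0) (nat_lit 6871431608) (nat_lit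 836) (nat_lit 4370115223) (nat_lit 912) (nat_lit 11824124538) (nat_lit 383) (nat_lit 5) (nat_lit 394) (nat_lit 5) (nat_lit 395) (nat_lit 5) (nat_lit 623) (nat_lit 590) (nat_lit 347))))) (XT.nd (nat_lit 234) (nat_lit 2432) (nat_lit 0) (XT.nd (nat_lit 78) (nat_lit 836) (nat_lit 0) (XT.lf (nat_lit 0) (nat_lit 13867634749) (nat_lit 912) (nat_lit 3759313552) (nat_lit 76) (nat_lit 5692587839) (nat_lit 383) (nat_lit 5) (nat_lit 395) (nat_lit 5) (nat_lit 384) (nat_lit 5) (nat_lit 624) (nat_lit 590) (nat_lit 346)) (XT.nd (nat_lit 78) (nat_lit 0) (nat_lit 0) (XT.lf (nat_lit 0) (nat_lit 9009976262) (nat_lit 836) (nat_lit 7620106700) (nat_lit 912) (nat_lit 6946718981) (nat_lit 372) (nat_lit 5) (nat_lit 383) (nat_lit 5) (nat_lit 384) (nat_lit 5) (nat_lit 625) (nat_lit 590) (nat_lit 345)) (XT.lf (nat_lit 0) (nat_lit 19486416249) (nat_lit 912) (nat_lit 1773670380) (nat_lit 76) (nat_lit 2578354206) (nat_lit 372) (nat_lit 5) (nat_lit 384) (nat_lit 5) (nat_lit 373) (nat_lit 5) (nat_lit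 626) (nat_lit 590) (nat_lit 344)))) (XT.nd (nat_lit 156) (nat_lit 760) (nat_lit 0) (XT.nd (nat_lit 78) (nat_lit 912) (nat_lit 0) (XT.lf (nat_lit 0) (nat_lit 11370470825) (nat_lit 760) (nat_lit 11150210358) (nat_lit 836) (nat_lit 1582215709) (nat_lit 362) (nat_lit 5) (nat_lit 372) (nat_lit 5) (nat_lit 373) (nat_lit 5) (nat_lit 627) (nat_lit 590) (nat_lit 343)) (XT.lf (nat_lit 0) (nat_lit 422969708) (nat_lit 836) (nat_lit 814983200) (nat_lit 912) (nat_lit 23134302910) (nat_lit 350) (nat_lit 5) (nat_lit 361) (nat_lit 5) (nat_lit 362) (nat_lit 5) (nat_lit 628) (nat_lit 590) (nat_lit 342))) (XT.nd (nat_lit 78) (nat_lit 760) (nat_lit 0) (XT.lf (nat_lit 0) (nat_lit 4239102175) (nat_lit 912) (nat_lit 10709032649) (nat_lit 76) (nat_lit 9695743126) (nat_lit 350) (nat_lit 5) (nat_lit 362) (nat_lit 5) (nat_lit 351) (nat_lit 5) (nat_lit 629) (nat_lit 590) (nat_lit 341)) (XT.lf (nat_lit 0) (nat_lit 2824131904) (nat_lit 760) (nat_lit 4496525331) (nat_lit 836) (nat_lit 17599868083) (nat_lit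 340) (nat_lit 5) (nat_lit 350) (nat_lit 5) (nat_lit 351) (nat_lit 5) (nat_lit 630) (nat_lit 590) (nat_lit 340))))))) (XT.nd (nat_lit 1014) (nat_lit 4104) (nat_lit 0) (XT.nd (nat_lit 468) (nat_lit 2736) (nat_lit 0) (XT.nd (nat_lit 234) (nat_lit 1520) (nat_lit 0) (XT.nd (nat_lit 78) (nat_lit 760) (nat_lit 0) (XT.lf (nat_lit 0) (nat_lit 10572895085) (nat_lit 836) (nat_lit 8472220048) (nat_lit 76) (nat_lit 6155409907) (nat_lit 340) (nat_lit 5) (nat_lit 351) (nat_lit 5) (nat_lit 341) (nat_lit 5) (nat_lit 631) (nat_lit 590) (nat_lit 339)) (XT.nd (nat_lit 78) (nat_lit 0) (nat_lit 0) (XT.lf (nat_lit 0) (nat_lit 5462796443) (nat_lit 760) (nat_lit 8489383536) (nat_lit 836) (nat_lit 11532705163) (nat_lit 330) (nat_lit 5) (nat_lit 340) (nat_lit 5) (nat_lit 341) (nat_lit 5) (nat_lit 632) (nat_lit 590) (nat_lit 338)) (XT.lf (nat_lit 0) (nat_lit 17467861972) (nat_lit 836) (nat_lit 6001149425) (nat_lit 76) (nat_lit 2304545243) (nat_lit 330) (nat_lit 5) (nat_lit 341) (nat_lit 5) (nat_lit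 331) (nat_lit 5) (nat_lit 633) (nat_lit 590) (nat_lit 337)))) (XT.nd (nat_lit 78) (nat_lit 836) (nat_lit 0) (XT.lf (nat_lit 0) (nat_lit 8350021973) (nat_lit 684) (nat_lit 12811128474) (nat_lit 760) (nat_lit 4904705680) (nat_lit 321) (nat_lit 5) (nat_lit 330) (nat_lit 5) (nat_lit 331) (nat_lit 5) (nat_lit 634) (nat_lit 590) (nat_lit 336)) (XT.nd (nat_lit 78) (nat_lit 836) (nat_lit 0) (XT.lf (nat_lit 0) (nat_lit 23066109223) (nat_lit 684) (nat_lit 1899363399) (nat_lit 760) (nat_lit 1397786030) (nat_lit 321) (nat_lit 5) (nat_lit 330) (nat_lit 5) (nat_lit 331) (nat_lit 5) (nat_lit 635) (nat_lit 590) (nat_lit 335)) (XT.lf (nat_lit 0) (nat_lit 2283096482) (nat_lit 836) (nat_lit 15181678288) (nat_lit 76) (nat_lit 9198903743) (nat_lit 310) (nat_lit 5) (nat_lit 321) (nat_lit 5) (nat_lit 311) (nat_lit 5) (nat_lit 636) (nat_lit 590) (nat_lit 334))))) (XT.nd (nat_lit 234) (nat_lit 1368) (nat_lit 0) (XT.nd (nat_lit 78) (nat_lit 1368) (nat_lit 0) (XT.lf (nat_lit 0) (nat_lit 6050721316)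 (nat_lit 836) (nat_lit 393683551) (nat_lit 76) (nat_lit 20524880680) (nat_lit 310) (nat_lit 5) (nat_lit 321) (nat_lit 5) (nat_lit 311) (nat_lit 5) (nat_lit 637) (nat_lit 590) (nat_lit 333)) (XT.nd (nat_lit 78) (nat_lit 684) (nat_lit 0) (XT.lf (nat_lit 0) (nat_lit 10019132031) (nat_lit 760) (nat_lit 12429057093) (nat_lit 76) (nat_lit 4830307305) (nat_lit 301) (nat_lit 5) (nat_lit 311) (nat_lit 5) (nat_lit 302) (nat_lit 5) (nat_lit 638) (nat_lit 590) (nat_lit 332)) (XT.lf (nat_lit 0) (nat_lit 2799513112) (nat_lit 684) (nat_lit 11327977244) (nat_lit 760) (nat_lit 13465189954) (nat_lit 292) (nat_lit 5) (nat_lit 301) (nat_lit 5) (nat_lit 302) (nat_lit 5) (nat_lit 639) (nat_lit 590) (nat_lit 331)))) (XT.nd (nat_lit 156) (nat_lit 760) (nat_lit 0) (XT.nd (nat_lit 78) (nat_lit 608) (nat_lit 0) (XT.lf (nat_lit 0) (nat_lit 18399166481) (nat_lit 760) (nat_lit 9414455579) (nat_lit 76) (nat_lit 97903156) (nat_lit 292) (nat_lit 5) (nat_lit 302) (nat_lit 5) (nat_lit 293) (nat_lit 5)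 (nat_lit 640) (nat_lit 590) (nat_lit 330)) (XT.lf (nat_lit 0) (nat_lit 6275723400) (nat_lit 608) (nat_lit 16593473228) (nat_lit 684) (nat_lit 5365292337) (nat_lit 284) (nat_lit 5) (nat_lit 292) (nat_lit 5) (nat_lit 293) (nat_lit 5) (nat_lit 641) (nat_lit 590) (nat_lit 329))) (XT.nd (nat_lit 78) (nat_lit 760) (nat_lit 0) (XT.lf (nat_lit 0) (nat_lit 22403949320) (nat_lit 608) (nat_lit 5085042534) (nat_lit 684) (nat_lit 1073713193) (nat_lit 284) (nat_lit 5) (nat_lit 292) (nat_lit 5) (nat_lit 293) (nat_lit 5) (nat_lit 642) (nat_lit 590) (nat_lit 328)) (XT.lf (nat_lit 0) (nat_lit 3366709563) (nat_lit 760) (nat_lit 18875117261) (nat_lit 76) (nat_lit 6653103152) (nat_lit 274) (nat_lit 5) (nat_lit 284) (nat_lit 5) (nat_lit 275) (nat_lit 5) (nat_lit 643) (nat_lit 590) (nat_lit 327)))))) (XT.nd (nat_lit 468) (nat_lit 2280) (nat_lit 0) (XT.nd (nat_lit 234) (nat_lit 608) (nat_lit 0) (XT.nd (nat_lit 78) (nat_lit 1216) (nat_lit 0) (XT.lf (nat_lit 0) (nat_lit 7954109311) (nat_lit 760)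 (nat_lit 2671969482) (nat_lit 76) (nat_lit 18606128081) (nat_lit 274) (nat_lit 5) (nat_lit 284) (nat_lit 5) (nat_lit 275) (nat_lit 5) (nat_lit 644) (nat_lit 590) (nat_lit 326)) (XT.nd (nat_lit 78) (nat_lit 608) (nat_lit 0) (XT.lf (nat_lit 0) (nat_lit 12730229653) (nat_lit 684) (nat_lit 15546974577) (nat_lit 76) (nat_lit 1297085949) (nat_lit 266) (nat_lit 5) (nat_lit 275) (nat_lit 5) (nat_lit 267) (nat_lit 5) (nat_lit 645) (nat_lit 590) (nat_lit 325)) (XT.lf (nat_lit 0) (nat_lit 1114744886) (nat_lit 608) (nat_lit 16580121022) (nat_lit 684) (nat_lit 12226489688) (nat_lit 258) (nat_lit 5) (nat_lit 266) (nat_lit 5) (nat_lit 267) (nat_lit 5) (nat_lit 646) (nat_lit 590) (nat_lit 324)))) (XT.nd (nat_lit 78) (nat_lit 608) (nat_lit 0) (XT.lf (nat_lit 0) (nat_lit 18317129843) (nat_lit 608) (nat_lit 4543359562) (nat_lit 684) (nat_lit 7412839332) (nat_lit 258) (nat_lit 5) (nat_lit 266) (nat_lit 5) (nat_lit 267) (nat_lit 5) (nat_lit 647) (nat_lit 590) (nat_lit 323)) (XT.nd (nat_lit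 78) (nat_lit 76) (nat_lit 0) (XT.lf (nat_lit 0) (nat_lit 5246520154) (nat_lit 532) (nat_lit 22964597719) (nat_lit 608) (nat_lit 2419589922) (nat_lit 251) (nat_lit 5) (nat_lit 258) (nat_lit 5) (nat_lit 259) (nat_lit 5) (nat_lit 648) (nat_lit 590) (nat_lit 322)) (XT.lf (nat_lit 0) (nat_lit 2746738623) (nat_lit 608) (nat_lit 8089552622) (nat_lit 76) (nat_lit 20156430754) (nat_lit 250) (nat_lit 5) (nat_lit 258) (nat_lit 5) (nat_lit 251) (nat_lit 5) (nat_lit 649) (nat_lit 590) (nat_lit 321))))) (XT.nd (nat_lit 234) (nat_lit 1140) (nat_lit 0) (XT.nd (nat_lit 78) (nat_lit 532) (nat_lit 0) (XT.lf (nat_lit 0) (nat_lit 8054690759) (nat_lit 684) (nat_lit 21712553026) (nat_lit 76) (nat_lit 1592999212) (nat_lit 242) (nat_lit 5) (nat_lit 251) (nat_lit 5) (nat_lit 243) (nat_lit 5) (nat_lit 650) (nat_lit 590) (nat_lit 320)) (XT.nd (nat_lit 78) (nat_lit 532) (nat_lit 0) (XT.lf (nat_lit 0) (nat_lit 13592710147) (nat_lit 684) (nat_lit 3960085313) (nat_lit 76) (nat_lit 14179841069) (nat_lit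 242) (nat_lit 5) (nat_lit 251) (nat_lit 5) (nat_lit 243) (nat_lit 5) (nat_lit 651) (nat_lit 590) (nat_lit 319)) (XT.lf (nat_lit 0) (nat_lit 14332198157) (nat_lit 532) (nat_lit 4999894952) (nat_lit 608) (nat_lit 12778573033) (nat_lit 235) (nat_lit 5) (nat_lit 242) (nat_lit 5) (nat_lit 243) (nat_lit 5) (nat_lit 652) (nat_lit 590) (nat_lit 318)))) (XT.nd (nat_lit 156) (nat_lit 608) (nat_lit 0) (XT.nd (nat_lit 78) (nat_lit 0) (nat_lit 0) (XT.lf (nat_lit 0) (nat_lit 500779404) (nat_lit 532) (nat_lit 24763726649) (nat_lit 608) (nat_lit 7230185717) (nat_lit 228) (nat_lit 5) (nat_lit 235) (nat_lit 5) (nat_lit 236) (nat_lit 5) (nat_lit 653) (nat_lit 590) (nat_lit 317)) (XT.lf (nat_lit 0) (nat_lit 19349847153) (nat_lit 532) (nat_lit 12115515362) (nat_lit 608) (nat_lit 1418039753) (nat_lit 228) (nat_lit 5) (nat_lit 235) (nat_lit 5) (nat_lit 236) (nat_lit 5) (nat_lit 654) (nat_lit 590) (nat_lit 316))) (XT.nd (nat_lit 76206) (nat_lit 0) (nat_lit 18772) (XT.lf (nat_lit 0) (nat_lit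 4488972377) (nat_lit 608) (nat_lit 27950673920) (nat_lit 76) (nat_lit 838899702) (nat_lit 220) (nat_lit 5) (nat_lit 228) (nat_lit 5) (nat_lit 221) (nat_lit 5) (nat_lit 655) (nat_lit 590) (nat_lit 315)) (XT.lf (nat_lit 0) (nat_lit 2148614045) (nat_lit 0) (nat_lit 2148614045) (nat_lit 1748) (nat_lit 4075160055) (nat_lit 467) (nat_lit 5) (nat_lit 467) (nat_lit 3) (nat_lit 490) (nat_lit 3) (nat_lit 591) (nat_lit 591) (nat_lit 378))))))))
noncomputable def xc224 : XT := (XT.nd (nat_lit 1950) (nat_lit 10640) (nat_lit 0) (XT.nd (nat_lit 936) (nat_lit 2660) (nat_lit 0) (XT.nd (nat_lit 468) (nat_lit 0) (nat_lit 228) (XT.nd (nat_lit 234) (nat_lit 0) (nat_lit 76) (XT.nd (nat_lit 78) (nat_lit 0) (nat_lit 0) (XT.lf (nat_lit 0) (nat_lit 8941380093) (nat_lit 1748) (nat_lit 4265200559) (nat_lit 1824) (nat_lit 3700386748) (nat_lit 467) (nat_lit 5) (nat_lit 490) (nat_lit 3) (nat_lit 491) (nat_lit 5) (nat_lit 592) (nat_lit 591) (nat_lit 377)) (XT.nd (nat_lit 78) (nat_lit 0) (nat_lit 76)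 (XT.lf (nat_lit 76) (nat_lit 4102897035) (nat_lit 0) (nat_lit 5241255777) (nat_lit 1824) (nat_lit 7727272285) (nat_lit 468) (nat_lit 5) (nat_lit 467) (nat_lit 5) (nat_lit 491) (nat_lit 5) (nat_lit 593) (nat_lit 591) (nat_lit 376)) (XT.lf (nat_lit 0) (nat_lit 9796445118) (nat_lit 1748) (nat_lit 4564705991) (nat_lit 1824) (nat_lit 2877192507) (nat_lit 468) (nat_lit 5) (nat_lit 491) (nat_lit 5) (nat_lit 492) (nat_lit 5) (nat_lit 594) (nat_lit 591) (nat_lit 375)))) (XT.nd (nat_lit 78) (nat_lit 0) (nat_lit 76) (XT.lf (nat_lit 76) (nat_lit 4021927934) (nat_lit 0) (nat_lit 6290729698) (nat_lit 1824) (nat_lit 7094846323) (nat_lit 469) (nat_lit 5) (nat_lit 468) (nat_lit 5) (nat_lit 492) (nat_lit 5) (nat_lit 595) (nat_lit 591) (nat_lit 374)) (XT.nd (nat_lit 78) (nat_lit 0) (nat_lit 0) (XT.lf (nat_lit 0) (nat_lit 10876794830) (nat_lit 1748) (nat_lit 4753485861) (nat_lit 1824) (nat_lit 1949015716) (nat_lit 469) (nat_lit 5) (nat_lit 492) (nat_lit 5) (nat_lit 493) (nat_lit 5) (nat_lit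 596) (nat_lit 591) (nat_lit 373)) (XT.lf (nat_lit 76) (nat_lit 4059477837) (nat_lit 0) (nat_lit 7455031752) (nat_lit 1824) (nat_lit 6238770121) (nat_lit 470) (nat_lit 5) (nat_lit 469) (nat_lit 5) (nat_lit 493) (nat_lit 5) (nat_lit 597) (nat_lit 591) (nat_lit 372))))) (XT.nd (nat_lit 234) (nat_lit 0) (nat_lit 76) (XT.nd (nat_lit 78) (nat_lit 0) (nat_lit 0) (XT.lf (nat_lit 0) (nat_lit 12197209103) (nat_lit 1748) (nat_lit 4826373147) (nat_lit 1824) (nat_lit 906516701) (nat_lit 470) (nat_lit 5) (nat_lit 493) (nat_lit 5) (nat_lit 494) (nat_lit 5) (nat_lit 598) (nat_lit 591) (nat_lit 371)) (XT.nd (nat_lit 78) (nat_lit 0) (nat_lit 0) (XT.lf (nat_lit 76) (nat_lit 4221005028) (nat_lit 0) (nat_lit 8743827458) (nat_lit 1824) (nat_lit 5144197557) (nat_lit 471) (nat_lit 5) (nat_lit 470) (nat_lit 5) (nat_lit 494) (nat_lit 5) (nat_lit 599) (nat_lit 591) (nat_lit 370)) (XT.lf (nat_lit 76) (nat_lit 13511388517) (nat_lit 0) (nat_lit 263386695) (nat_lit 1824) (nat_lit 4516226053) (nat_lit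 471) (nat_lit 5) (nat_lit 470) (nat_lit 5) (nat_lit 494) (nat_lit 5) (nat_lit 600) (nat_lit 591) (nat_lit 369)))) (XT.nd (nat_lit 78) (nat_lit 0) (nat_lit 0) (XT.lf (nat_lit 76) (nat_lit 4512276068) (nat_lit 0) (nat_lit 10167087935) (nat_lit 1824) (nat_lit 3795679793) (nat_lit 472) (nat_lit 5) (nat_lit 471) (nat_lit 5) (nat_lit 495) (nat_lit 5) (nat_lit 601) (nat_lit 591) (nat_lit 368)) (XT.nd (nat_lit 78) (nat_lit 0) (nat_lit 76) (XT.lf (nat_lit 76) (nat_lit 14049627372) (nat_lit 0) (nat_lit 1581004359) (nat_lit 1824) (nat_lit 3031564520) (nat_lit 472) (nat_lit 5) (nat_lit 471) (nat_lit 5) (nat_lit 495) (nat_lit 5) (nat_lit 602) (nat_lit 591) (nat_lit 367)) (XT.lf (nat_lit 76) (nat_lit 4939373294) (nat_lit 0) (nat_lit 11735112335) (nat_lit 1824) (nat_lit 2177135705) (nat_lit 473) (nat_lit 5) (nat_lit 472) (nat_lit 5) (nat_lit 496) (nat_lit 5) (nat_lit 603) (nat_lit 591) (nat_lit 366)))))) (XT.nd (nat_lit 468) (nat_lit 1292) (nat_lit 0) (XT.nd (nat_lit 234) (nat_lit 0)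 (nat_lit 76) (XT.nd (nat_lit 78) (nat_lit 1748) (nat_lit 0) (XT.lf (nat_lit 76) (nat_lit 14730847316) (nat_lit 0) (nat_lit 3044695864) (nat_lit 1824) (nat_lit 1268565990) (nat_lit 473) (nat_lit 5) (nat_lit 472) (nat_lit 5) (nat_lit 496) (nat_lit 5) (nat_lit 604) (nat_lit 591) (nat_lit 365)) (XT.nd (nat_lit 78) (nat_lit 1824) (nat_lit 0) (XT.lf (nat_lit 76) (nat_lit 5508702771) (nat_lit 0) (nat_lit 13458550767) (nat_lit 1824) (nat_lit 271821358) (nat_lit 474) (nat_lit 5) (nat_lit 473) (nat_lit 5) (nat_lit 497) (nat_lit 5) (nat_lit 605) (nat_lit 591) (nat_lit 364)) (XT.lf (nat_lit 0) (nat_lit 779511243) (nat_lit 1824) (nat_lit 3880485740) (nat_lit 1900) (nat_lit 14776958527) (nat_lit 449) (nat_lit 5) (nat_lit 473) (nat_lit 5) (nat_lit 474) (nat_lit 5) (nat_lit 606) (nat_lit 591) (nat_lit 363)))) (XT.nd (nat_lit 78) (nat_lit 0) (nat_lit 0) (XT.lf (nat_lit 0) (nat_lit 1912288183) (nat_lit 1824) (nat_lit 13423307132) (nat_lit 1900) (nat_lit 4301882062) (nat_lit 450) (nat_lit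 5) (nat_lit 474) (nat_lit 5) (nat_lit 475) (nat_lit 5) (nat_lit 607) (nat_lit 591) (nat_lit 362)) (XT.nd (nat_lit 78) (nat_lit 0) (nat_lit 76) (XT.lf (nat_lit 0) (nat_lit 3120092280) (nat_lit 1824) (nat_lit 3312721233) (nat_lit 1900) (nat_lit 13408149445) (nat_lit 450) (nat_lit 5) (nat_lit 474) (nat_lit 5) (nat_lit 475) (nat_lit 5) (nat_lit 608) (nat_lit 591) (nat_lit 361)) (XT.lf (nat_lit 0) (nat_lit 4410978335) (nat_lit 1824) (nat_lit 12975588106) (nat_lit 1900) (nat_lit 2660773986) (nat_lit 451) (nat_lit 5) (nat_lit 475) (nat_lit 5) (nat_lit 476) (nat_lit 5) (nat_lit 609) (nat_lit 591) (nat_lit 360))))) (XT.nd (nat_lit 234) (nat_lit 1444) (nat_lit 0) (XT.nd (nat_lit 78) (nat_lit 0) (nat_lit 76) (XT.lf (nat_lit 0) (nat_lit 5788126560) (nat_lit 1824) (nat_lit 2594855709) (nat_lit 1900) (nat_lit 11873654968) (nat_lit 451) (nat_lit 5) (nat_lit 475) (nat_lit 5) (nat_lit 476) (nat_lit 5) (nat_lit 610) (nat_lit 591) (nat_lit 359)) (XT.nd (nat_lit 78) (nat_lit 0) (nat_lit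 0) (XT.lf (nat_lit 0) (nat_lit 7246491424) (nat_lit 1824) (nat_lit 12378493839) (nat_lit 1900) (nat_lit 844061915) (nat_lit 452) (nat_lit 5) (nat_lit 476) (nat_lit 5) (nat_lit 477) (nat_lit 5) (nat_lit 611) (nat_lit 591) (nat_lit 358)) (XT.lf (nat_lit 0) (nat_lit 8802693816) (nat_lit 1824) (nat_lit 1719673201) (nat_lit 1900) (nat_lit 10161965550) (nat_lit 452) (nat_lit 5) (nat_lit 476) (nat_lit 5) (nat_lit 477) (nat_lit 5) (nat_lit 612) (nat_lit 591) (nat_lit 357)))) (XT.nd (nat_lit 156) (nat_lit 1520) (nat_lit 0) (XT.nd (nat_lit 78) (nat_lit 0) (nat_lit 76) (XT.lf (nat_lit 76) (nat_lit 9270447727) (nat_lit 0) (nat_lit 1175473824) (nat_lit 1900) (nat_lit 10456884728) (nat_lit 453) (nat_lit 5) (nat_lit 452) (nat_lit 5) (nat_lit 477) (nat_lit 5) (nat_lit 613) (nat_lit 591) (nat_lit 356)) (XT.lf (nat_lit 0) (nat_lit 12183676480) (nat_lit 1824) (nat_lit 679608636) (nat_lit 1900) (nat_lit 8261131725) (nat_lit 453) (nat_lit 5) (nat_lit 477) (nat_lit 5) (nat_lit 478) (nat_lit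 5) (nat_lit 614) (nat_lit 591) (nat_lit 355))) (XT.nd (nat_lit 78) (nat_lit 1596) (nat_lit 0) (XT.lf (nat_lit 76) (nat_lit 10620239956) (nat_lit 0) (nat_lit 3408545869) (nat_lit 1900) (nat_lit 7320222419) (nat_lit 454) (nat_lit 5) (nat_lit 453) (nat_lit 5) (nat_lit 478) (nat_lit 5) (nat_lit 615) (nat_lit 591) (nat_lit 354)) (XT.lf (nat_lit 0) (nat_lit 540348747) (nat_lit 1672) (nat_lit 15414955394) (nat_lit 1748) (nat_lit 5621897805) (nat_lit 432) (nat_lit 5) (nat_lit 454) (nat_lit 5) (nat_lit 455) (nat_lit 5) (nat_lit 616) (nat_lit 591) (nat_lit 353))))))) (XT.nd (nat_lit 936) (nat_lit 5320) (nat_lit 0) (XT.nd (nat_lit 468) (nat_lit 2432) (nat_lit 0) (XT.nd (nat_lit 234) (nat_lit 1824) (nat_lit 0) (XT.nd (nat_lit 78) (nat_lit 1064) (nat_lit 0) (XT.lf (nat_lit 0) (nat_lit 12153907710) (nat_lit 1672) (nat_lit 5856846760) (nat_lit 1748) (nat_lit 3797397610) (nat_lit 432) (nat_lit 5) (nat_lit 454) (nat_lit 5) (nat_lit 455) (nat_lit 5) (nat_lit 617) (nat_lit 591) (nat_lit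 352)) (XT.nd (nat_lit 78) (nat_lit 76) (nat_lit 0) (XT.lf (nat_lit 0) (nat_lit 1952843687) (nat_lit 988) (nat_lit 18188484907) (nat_lit 1064) (nat_lit 1901712909) (nat_lit 419) (nat_lit 5) (nat_lit 432) (nat_lit 5) (nat_lit 433) (nat_lit 5) (nat_lit 618) (nat_lit 591) (nat_lit 351)) (XT.lf (nat_lit 0) (nat_lit 131560159) (nat_lit 1064) (nat_lit 8401358844) (nat_lit 76) (nat_lit 13747704272) (nat_lit 418) (nat_lit 5) (nat_lit 432) (nat_lit 5) (nat_lit 419) (nat_lit 5) (nat_lit 619) (nat_lit 591) (nat_lit 350)))) (XT.nd (nat_lit 78) (nat_lit 912) (nat_lit 0) (XT.lf (nat_lit 0) (nat_lit 2208068573) (nat_lit 988) (nat_lit 18979329668) (nat_lit 76) (nat_lit 1334746907) (nat_lit 406) (nat_lit 5) (nat_lit 419) (nat_lit 5) (nat_lit 407) (nat_lit 5) (nat_lit 620) (nat_lit 591) (nat_lit 349)) (XT.nd (nat_lit 78) (nat_lit 912) (nat_lit 0) (XT.lf (nat_lit 0) (nat_lit 4435590649) (nat_lit 988) (nat_lit 6988024732) (nat_lit 76) (nat_lit 11342692942) (nat_lit 406) (nat_lit 5) (nat_lit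 419) (nat_lit 5) (nat_lit 407) (nat_lit 5) (nat_lit 621) (nat_lit 591) (nat_lit 348)) (XT.lf (nat_lit 0) (nat_lit 5309279646) (nat_lit 912) (nat_lit 1429152135) (nat_lit 988) (nat_lit 16276308136) (nat_lit 394) (nat_lit 5) (nat_lit 406) (nat_lit 5) (nat_lit 407) (nat_lit 5) (nat_lit 622) (nat_lit 591) (nat_lit 347))))) (XT.nd (nat_lit 234) (nat_lit 1596) (nat_lit 0) (XT.nd (nat_lit 78) (nat_lit 836) (nat_lit 0) (XT.lf (nat_lit 0) (nat_lit 9187792057) (nat_lit 988) (nat_lit 5380678724) (nat_lit 76) (nat_lit 8697660631) (nat_lit 394) (nat_lit 5) (nat_lit 407) (nat_lit 5) (nat_lit 395) (nat_lit 5) (nat_lit 623) (nat_lit 591) (nat_lit 346)) (XT.nd (nat_lit 78) (nat_lit 0) (nat_lit 0) (XT.lf (nat_lit 0) (nat_lit 7273079431) (nat_lit 836) (nat_lit 4466166884) (nat_lit 912) (nat_lit 11782242793) (nat_lit 383) (nat_lit 5) (nat_lit 394) (nat_lit 5) (nat_lit 395) (nat_lit 5) (nat_lit 624) (nat_lit 591) (nat_lit 345)) (XT.lf (nat_lit 0) (nat_lit 14412450573) (nat_lit 912) (nat_lit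 3570018414) (nat_lit 76) (nat_lit 5798071048) (nat_lit 383) (nat_lit 5) (nat_lit 395) (nat_lit 5) (nat_lit 384) (nat_lit 5) (nat_lit 625) (nat_lit 591) (nat_lit 344)))) (XT.nd (nat_lit 78) (nat_lit 760) (nat_lit 0) (XT.lf (nat_lit 0) (nat_lit 9452917187) (nat_lit 836) (nat_lit 7773692079) (nat_lit 912) (nat_lit 6816413393) (nat_lit 372) (nat_lit 5) (nat_lit 383) (nat_lit 5) (nat_lit 384) (nat_lit 5) (nat_lit 626) (nat_lit 591) (nat_lit 343)) (XT.nd (nat_lit 78) (nat_lit 760) (nat_lit 0) (XT.lf (nat_lit 0) (nat_lit 20134886694) (nat_lit 912) (nat_lit 1546335548) (nat_lit 76) (nat_lit 2628776461) (nat_lit 372) (nat_lit 5) (nat_lit 384) (nat_lit 5) (nat_lit 373) (nat_lit 5) (nat_lit 627) (nat_lit 591) (nat_lit 342)) (XT.lf (nat_lit 0) (nat_lit 11858959480) (nat_lit 760) (nat_lit 11367499172) (nat_lit 836) (nat_lit 1353353502) (nat_lit 362) (nat_lit 5) (nat_lit 372) (nat_lit 5) (nat_lit 373) (nat_lit 5) (nat_lit 628) (nat_lit 591) (nat_lit 341)))))) (XT.nd (nat_lit 468) (nat_lit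 2888) (nat_lit 0) (XT.nd (nat_lit 234) (nat_lit 760) (nat_lit 0) (XT.nd (nat_lit 78) (nat_lit 760) (nat_lit 0) (XT.lf (nat_lit 0) (nat_lit 694219304) (nat_lit 836) (nat_lit 822247824) (nat_lit 912) (nat_lit 23338124680) (nat_lit 350) (nat_lit 5) (nat_lit 361) (nat_lit 5) (nat_lit 362) (nat_lit 5) (nat_lit 629) (nat_lit 591) (nat_lit 340)) (XT.nd (nat_lit 78) (nat_lit 760) (nat_lit 0) (XT.lf (nat_lit 0) (nat_lit 4572721299) (nat_lit 912) (nat_lit 10660624413) (nat_lit 76) (nat_lit 9898399699) (nat_lit 350) (nat_lit 5) (nat_lit 362) (nat_lit 5) (nat_lit 351) (nat_lit 5) (nat_lit 630) (nat_lit 591) (nat_lit 339)) (XT.lf (nat_lit 0) (nat_lit 3141475873) (nat_lit 760) (nat_lit 4571246113) (nat_lit 836) (nat_lit 17701268103) (nat_lit 340) (nat_lit 5) (nat_lit 350) (nat_lit 5) (nat_lit 351) (nat_lit 5) (nat_lit 631) (nat_lit 591) (nat_lit 338)))) (XT.nd (nat_lit 78) (nat_lit 760) (nat_lit 0) (XT.lf (nat_lit 0) (nat_lit 11025284710) (nat_lit 836) (nat_lit 8381166101) (nat_lit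 76) (nat_lit 6293234032) (nat_lit 340) (nat_lit 5) (nat_lit 351) (nat_lit 5) (nat_lit 341) (nat_lit 5) (nat_lit 632) (nat_lit 591) (nat_lit 337)) (XT.nd (nat_lit 78) (nat_lit 0) (nat_lit 0) (XT.lf (nat_lit 0) (nat_lit 5830836915) (nat_lit 760) (nat_lit 8638274437) (nat_lit 836) (nat_lit 11520682304) (nat_lit 330) (nat_lit 5) (nat_lit 340) (nat_lit 5) (nat_lit 341) (nat_lit 5) (nat_lit 633) (nat_lit 591) (nat_lit 336)) (XT.lf (nat_lit 0) (nat_lit 18050575534) (nat_lit 836) (nat_lit 5862899810) (nat_lit 76) (nat_lit 2370854486) (nat_lit 330) (nat_lit 5) (nat_lit 341) (nat_lit 5) (nat_lit 331) (nat_lit 5) (nat_lit 634) (nat_lit 591) (nat_lit 335))))) (XT.nd (nat_lit 234) (nat_lit 1368) (nat_lit 0) (XT.nd (nat_lit 78) (nat_lit 836) (nat_lit 0) (XT.lf (nat_lit 0) (nat_lit 8773595855) (nat_lit 684) (nat_lit 13041224154) (nat_lit 760) (nat_lit 4767714097) (nat_lit 321) (nat_lit 5) (nat_lit 330) (nat_lit 5) (nat_lit 331) (nat_lit 5) (nat_lit 635) (nat_lit 591) (nat_lit 334))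 (XT.nd (nat_lit 78) (nat_lit 836) (nat_lit 0) (XT.lf (nat_lit 0) (nat_lit 23778973999) (nat_lit 684) (nat_lit 1911736070) (nat_lit 760) (nat_lit 1195265577) (nat_lit 321) (nat_lit 5) (nat_lit 330) (nat_lit 5) (nat_lit 331) (nat_lit 5) (nat_lit 636) (nat_lit 591) (nat_lit 333)) (XT.lf (nat_lit 0) (nat_lit 2553577735) (nat_lit 836) (nat_lit 15228054903) (nat_lit 76) (nat_lit 9410794589) (nat_lit 310) (nat_lit 5) (nat_lit 321) (nat_lit 5) (nat_lit 311) (nat_lit 5) (nat_lit 637) (nat_lit 591) (nat_lit 332)))) (XT.nd (nat_lit 156) (nat_lit 684) (nat_lit 0) (XT.nd (nat_lit 78) (nat_lit 684) (nat_lit 0) (XT.lf (nat_lit 0) (nat_lit 6392146843) (nat_lit 836) (nat_lit 149344525) (nat_lit 76) (nat_lit 20962743756) (nat_lit 310) (nat_lit 5) (nat_lit 321) (nat_lit 5) (nat_lit 311) (nat_lit 5) (nat_lit 638) (nat_lit 591) (nat_lit 331)) (XT.lf (nat_lit 0) (nat_lit 10437443947) (nat_lit 760) (nat_lit 12422916347) (nat_lit 76) (nat_lit 4959320114) (nat_lit 301) (nat_lit 5) (nat_lit 311)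 (nat_lit 5) (nat_lit 302) (nat_lit 5) (nat_lit 639) (nat_lit 591) (nat_lit 330))) (XT.nd (nat_lit 78) (nat_lit 0) (nat_lit 0) (XT.lf (nat_lit 0) (nat_lit 3108549460) (nat_lit 684) (nat_lit 11516789799) (nat_lit 760) (nat_lit 13514861847) (nat_lit 292) (nat_lit 5) (nat_lit 301) (nat_lit 5) (nat_lit 302) (nat_lit 5) (nat_lit 640) (nat_lit 591) (nat_lit 329)) (XT.lf (nat_lit 0) (nat_lit 18978467628) (nat_lit 760) (nat_lit 9350652713) (nat_lit 76) (nat_lit 136382721) (nat_lit 292) (nat_lit 5) (nat_lit 302) (nat_lit 5) (nat_lit 293) (nat_lit 5) (nat_lit 641) (nat_lit 591) (nat_lit 328))))))))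
noncomputable def xc225 : XT := (XT.nd (nat_lit 78234) (nat_lit 0) (nat_lit 10944) (XT.nd (nat_lit 936) (nat_lit 532) (nat_lit 0) (XT.nd (nat_lit 468) (nat_lit 1748) (nat_lit 0) (XT.nd (nat_lit 234) (nat_lit 1216) (nat_lit 0) (XT.nd (nat_lit 78) (nat_lit 760) (nat_lit 0) (XT.lf (nat_lit 0) (nat_lit 6651671347) (nat_lit 608) (nat_lit 16883709525) (nat_lit 684) (nat_lit 5259596080) (nat_lit 284) (nat_lit 5) (nat_lit 292) (nat_lit 5) (nat_lit 293) (nat_lit 5) (nat_lit 642) (nat_lit 591) (nat_lit 327)) (XT.nd (nat_lit 78) (nat_lit 760) (nat_lit 0) (XT.lf (nat_lit 0) (nat_lit 23097551324) (nat_lit 608) (nat_lit 5145926554) (nat_lit 684) (nat_lit 886361864) (nat_lit 284) (nat_lit 5) (nat_lit 292) (nat_lit 5) (nat_lit 293) (nat_lit 5) (nat_lit 643) (nat_lit 591) (nat_lit 326)) (XT.lf (nat_lit 0) (nat_lit 3637970301) (nat_lit 760) (nat_lit 19002148459) (nat_lit 76) (nat_lit 6828606986) (nat_lit 274) (nat_lit 5) (nat_lit 284) (nat_lit 5) (nat_lit 275) (nat_lit 5) (nat_lit 644)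 (nat_lit 591) (nat_lit 325)))) (XT.nd (nat_lit 78) (nat_lit 1216) (nat_lit 0) (XT.lf (nat_lit 0) (nat_lit 8313119485) (nat_lit 760) (nat_lit 2479848923) (nat_lit 76) (nat_lit 19019860221) (nat_lit 274) (nat_lit 5) (nat_lit 284) (nat_lit 5) (nat_lit 275) (nat_lit 5) (nat_lit 645) (nat_lit 591) (nat_lit 324)) (XT.nd (nat_lit 78) (nat_lit 608) (nat_lit 0) (XT.lf (nat_lit 0) (nat_lit 13182726879) (nat_lit 684) (nat_lit 15610295410) (nat_lit 76) (nat_lit 1368772486) (nat_lit 266) (nat_lit 5) (nat_lit 275) (nat_lit 5) (nat_lit 267) (nat_lit 5) (nat_lit 646) (nat_lit 591) (nat_lit 323)) (XT.lf (nat_lit 0) (nat_lit 1383029372) (nat_lit 608) (nat_lit 16861343366) (nat_lit 684) (nat_lit 12271474882) (nat_lit 258) (nat_lit 5) (nat_lit 266) (nat_lit 5) (nat_lit 267) (nat_lit 5) (nat_lit 647) (nat_lit 591) (nat_lit 322))))) (XT.nd (nat_lit 234) (nat_lit 1140) (nat_lit 0) (XT.nd (nat_lit 78) (nat_lit 608) (nat_lit 0) (XT.lf (nat_lit 0) (nat_lit 18924638703) (nat_lit 608) (nat_lit 4584834521)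 (nat_lit 684) (nat_lit 7365464158) (nat_lit 258) (nat_lit 5) (nat_lit 266) (nat_lit 5) (nat_lit 267) (nat_lit 5) (nat_lit 648) (nat_lit 591) (nat_lit 321)) (XT.nd (nat_lit 78) (nat_lit 76) (nat_lit 0) (XT.lf (nat_lit 0) (nat_lit 5594544171) (nat_lit 532) (nat_lit 23370702539) (nat_lit 608) (nat_lit 2274255102) (nat_lit 251) (nat_lit 5) (nat_lit 258) (nat_lit 5) (nat_lit 259) (nat_lit 5) (nat_lit 649) (nat_lit 591) (nat_lit 320)) (XT.lf (nat_lit 0) (nat_lit 2989110512) (nat_lit 608) (nat_lit 8010504507) (nat_lit 76) (nat_lit 20609191524) (nat_lit 250) (nat_lit 5) (nat_lit 258) (nat_lit 5) (nat_lit 251) (nat_lit 5) (nat_lit 650) (nat_lit 591) (nat_lit 319)))) (XT.nd (nat_lit 78) (nat_lit 532) (nat_lit 0) (XT.lf (nat_lit 0) (nat_lit 8401450064) (nat_lit 684) (nat_lit 21904172553) (nat_lit 76) (nat_lit 1678091191) (nat_lit 242) (nat_lit 5) (nat_lit 251) (nat_lit 5) (nat_lit 243) (nat_lit 5) (nat_lit 651) (nat_lit 591) (nat_lit 318)) (XT.nd (nat_lit 78) (nat_lit 532) (nat_lit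 0) (XT.lf (nat_lit 0) (nat_lit 14046589340) (nat_lit 684) (nat_lit 3801412967) (nat_lit 76) (nat_lit 14515626120) (nat_lit 242) (nat_lit 5) (nat_lit 251) (nat_lit 5) (nat_lit 243) (nat_lit 5) (nat_lit 652) (nat_lit 591) (nat_lit 317)) (XT.lf (nat_lit 0) (nat_lit 14855151212) (nat_lit 532) (nat_lit 5043573908) (nat_lit 608) (nat_lit 12850534608) (nat_lit 235) (nat_lit 5) (nat_lit 242) (nat_lit 5) (nat_lit 243) (nat_lit 5) (nat_lit 653) (nat_lit 591) (nat_lit 316)))))) (XT.nd (nat_lit 76752) (nat_lit 0) (nat_lit 18316) (XT.nd (nat_lit 76518) (nat_lit 0) (nat_lit 18164) (XT.nd (nat_lit 76362) (nat_lit 0) (nat_lit 18164) (XT.lf (nat_lit 0) (nat_lit 748782086) (nat_lit 532) (nat_lit 25199378677) (nat_lit 608) (nat_lit 7192838007) (nat_lit 228) (nat_lit 5) (nat_lit 235) (nat_lit 5) (nat_lit 236) (nat_lit 5) (nat_lit 654) (nat_lit 591) (nat_lit 315)) (XT.nd (nat_lit 78) (nat_lit 0) (nat_lit 0) (XT.lf (nat_lit 0) (nat_lit 2309135481) (nat_lit 0) (nat_lit 2309135481) (nat_lit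 1748) (nat_lit 3916826153) (nat_lit 467) (nat_lit 5) (nat_lit 467) (nat_lit 3) (nat_lit 490) (nat_lit 3) (nat_lit 592) (nat_lit 592) (nat_lit 376)) (XT.lf (nat_lit 0) (nat_lit 9579688289) (nat_lit 1748) (nat_lit 4109227795) (nat_lit 1824) (nat_lit 3546928842) (nat_lit 467) (nat_lit 5) (nat_lit 490) (nat_lit 3) (nat_lit 491) (nat_lit 5) (nat_lit 593) (nat_lit 592) (nat_lit 375)))) (XT.nd (nat_lit 78) (nat_lit 0) (nat_lit 76) (XT.lf (nat_lit 76) (nat_lit 4424644404) (nat_lit 0) (nat_lit 5558418857) (nat_lit 1824) (nat_lit 7420678994) (nat_lit 468) (nat_lit 5) (nat_lit 467) (nat_lit 5) (nat_lit 491) (nat_lit 5) (nat_lit 594) (nat_lit 592) (nat_lit 374)) (XT.nd (nat_lit 78) (nat_lit 0) (nat_lit 0) (XT.lf (nat_lit 0) (nat_lit 10434186525) (nat_lit 1748) (nat_lit 4410726180) (nat_lit 1824) (nat_lit 2729292128) (nat_lit 468) (nat_lit 5) (nat_lit 491) (nat_lit 5) (nat_lit 492) (nat_lit 5) (nat_lit 595) (nat_lit 592) (nat_lit 373)) (XT.lf (nat_lit 76) (nat_lit 4346026780) (nat_lit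 0) (nat_lit 6607615523) (nat_lit 1824) (nat_lit 6793249054) (nat_lit 469) (nat_lit 5) (nat_lit 468) (nat_lit 5) (nat_lit 492) (nat_lit 5) (nat_lit 596) (nat_lit 592) (nat_lit 372))))) (XT.nd (nat_lit 234) (nat_lit 0) (nat_lit 76) (XT.nd (nat_lit 78) (nat_lit 0) (nat_lit 0) (XT.lf (nat_lit 0) (nat_lit 11519321861) (nat_lit 1748) (nat_lit 4599865848) (nat_lit 1824) (nat_lit 1803128091) (nat_lit 469) (nat_lit 5) (nat_lit 492) (nat_lit 5) (nat_lit 493) (nat_lit 5) (nat_lit 597) (nat_lit 592) (nat_lit 371)) (XT.nd (nat_lit 78) (nat_lit 0) (nat_lit 76) (XT.lf (nat_lit 76) (nat_lit 4387721007) (nat_lit 0) (nat_lit 7775340785) (nat_lit 1824) (nat_lit 5936852869) (nat_lit 470) (nat_lit 5) (nat_lit 469) (nat_lit 5) (nat_lit 493) (nat_lit 5) (nat_lit 598) (nat_lit 592) (nat_lit 370)) (XT.lf (nat_lit 0) (nat_lit 12850124278) (nat_lit 1748) (nat_lit 4671336046) (nat_lit 1824) (nat_lit 758997065) (nat_lit 470) (nat_lit 5) (nat_lit 493) (nat_lit 5) (nat_lit 494) (nat_lit 5) (nat_lit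 599) (nat_lit 592) (nat_lit 369)))) (XT.nd (nat_lit 156) (nat_lit 0) (nat_lit 76) (XT.nd (nat_lit 78) (nat_lit 0) (nat_lit 0) (XT.lf (nat_lit 76) (nat_lit 4555334662) (nat_lit 0) (nat_lit 9071369005) (nat_lit 1824) (nat_lit 4836392622) (nat_lit 471) (nat_lit 5) (nat_lit 470) (nat_lit 5) (nat_lit 494) (nat_lit 5) (nat_lit 600) (nat_lit 592) (nat_lit 368)) (XT.lf (nat_lit 76) (nat_lit 14026625634) (nat_lit 0) (nat_lit 418325996) (nat_lit 1824) (nat_lit 4203914410) (nat_lit 471) (nat_lit 5) (nat_lit 470) (nat_lit 5) (nat_lit 494) (nat_lit 5) (nat_lit 601) (nat_lit 592) (nat_lit 367))) (XT.nd (nat_lit 78) (nat_lit 0) (nat_lit 0) (XT.lf (nat_lit 76) (nat_lit 4854787319) (nat_lit 0) (nat_lit 10505791201) (nat_lit 1824) (nat_lit 3476153186) (nat_lit 472) (nat_lit 5) (nat_lit 471) (nat_lit 5) (nat_lit 495) (nat_lit 5) (nat_lit 602) (nat_lit 592) (nat_lit 366)) (XT.lf (nat_lit 76) (nat_lit 14577939262) (nat_lit 0) (nat_lit 1745331805) (nat_lit 1824) (nat_lit 2704509336) (nat_lit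 472) (nat_lit 5) (nat_lit 471) (nat_lit 5) (nat_lit 495) (nat_lit 5) (nat_lit 603) (nat_lit 592) (nat_lit 365))))))) (XT.nd (nat_lit 936) (nat_lit 5852) (nat_lit 0) (XT.nd (nat_lit 468) (nat_lit 0) (nat_lit 152) (XT.nd (nat_lit 234) (nat_lit 0) (nat_lit 0) (XT.nd (nat_lit 78) (nat_lit 1748) (nat_lit 0) (XT.lf (nat_lit 76) (nat_lit 5292318336) (nat_lit 0) (nat_lit 12089037634) (nat_lit 1824) (nat_lit 1839772102) (nat_lit 473) (nat_lit 5) (nat_lit 472) (nat_lit 5) (nat_lit 496) (nat_lit 5) (nat_lit 604) (nat_lit 592) (nat_lit 364)) (XT.nd (nat_lit 78) (nat_lit 1748) (nat_lit 0) (XT.lf (nat_lit 76) (nat_lit 15274638357) (nat_lit 0) (nat_lit 3222475126) (nat_lit 1824) (nat_lit 920499744) (nat_lit 473) (nat_lit 5) (nat_lit 472) (nat_lit 5) (nat_lit 496) (nat_lit 5) (nat_lit 605) (nat_lit 592) (nat_lit 363)) (XT.lf (nat_lit 0) (nat_lit 88613783) (nat_lit 1824) (nat_lit 13742692502) (nat_lit 1900) (nat_lit 5785286679) (nat_lit 449) (nat_lit 5) (nat_lit 473) (nat_lit 5) (nat_lit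 474) (nat_lit 5) (nat_lit 606) (nat_lit 592) (nat_lit 362)))) (XT.nd (nat_lit 78) (nat_lit 0) (nat_lit 76) (XT.lf (nat_lit 0) (nat_lit 1150234098) (nat_lit 1824) (nat_lit 3702716118) (nat_lit 1900) (nat_lit 14965588098) (nat_lit 449) (nat_lit 5) (nat_lit 473) (nat_lit 5) (nat_lit 474) (nat_lit 5) (nat_lit 607) (nat_lit 592) (nat_lit 361)) (XT.nd (nat_lit 78) (nat_lit 0) (nat_lit 0) (XT.lf (nat_lit 0) (nat_lit 2299726319) (nat_lit 1824) (nat_lit 13430401078) (nat_lit 1900) (nat_lit 4293063079) (nat_lit 450) (nat_lit 5) (nat_lit 474) (nat_lit 5) (nat_lit 475) (nat_lit 5) (nat_lit 608) (nat_lit 592) (nat_lit 360)) (XT.lf (nat_lit 0) (nat_lit 3524839588) (nat_lit 1824) (nat_lit 3122728406) (nat_lit 1900) (nat_lit 13583315744) (nat_lit 450) (nat_lit 5) (nat_lit 474) (nat_lit 5) (nat_lit 475) (nat_lit 5) (nat_lit 609) (nat_lit 592) (nat_lit 359))))) (XT.nd (nat_lit 234) (nat_lit 0) (nat_lit 76) (XT.nd (nat_lit 78) (nat_lit 0) (nat_lit 0) (XT.lf (nat_lit 0) (nat_lit 4835946390)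 (nat_lit 1824) (nat_lit 12973205082) (nat_lit 1900) (nat_lit 2632350235) (nat_lit 451) (nat_lit 5) (nat_lit 475) (nat_lit 5) (nat_lit 476) (nat_lit 5) (nat_lit 610) (nat_lit 592) (nat_lit 358)) (XT.nd (nat_lit 78) (nat_lit 0) (nat_lit 76) (XT.lf (nat_lit 0) (nat_lit 6234034668) (nat_lit 1824) (nat_lit 2389993230) (nat_lit 1900) (nat_lit 12031089605) (nat_lit 451) (nat_lit 5) (nat_lit 475) (nat_lit 5) (nat_lit 476) (nat_lit 5) (nat_lit 611) (nat_lit 592) (nat_lit 357)) (XT.lf (nat_lit 0) (nat_lit 7716293312) (nat_lit 1824) (nat_lit 12363982010) (nat_lit 1900) (nat_lit 791606762) (nat_lit 452) (nat_lit 5) (nat_lit 476) (nat_lit 5) (nat_lit 477) (nat_lit 5) (nat_lit 612) (nat_lit 592) (nat_lit 356)))) (XT.nd (nat_lit 78) (nat_lit 0) (nat_lit 0) (XT.lf (nat_lit 0) (nat_lit 9297249711) (nat_lit 1824) (nat_lit 1497123816) (nat_lit 1900) (nat_lit 10297228007) (nat_lit 452) (nat_lit 5) (nat_lit 476) (nat_lit 5) (nat_lit 477) (nat_lit 5) (nat_lit 613) (nat_lit 592) (nat_lit 355))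 (XT.nd (nat_lit 78) (nat_lit 0) (nat_lit 76) (XT.lf (nat_lit 76) (nat_lit 9711109117) (nat_lit 0) (nat_lit 1257645014) (nat_lit 1900) (nat_lit 10345783281) (nat_lit 453) (nat_lit 5) (nat_lit 452) (nat_lit 5) (nat_lit 477) (nat_lit 5) (nat_lit 614) (nat_lit 592) (nat_lit 354)) (XT.lf (nat_lit 0) (nat_lit 12734735577) (nat_lit 1824) (nat_lit 436378948) (nat_lit 1900) (nat_lit 8369597148) (nat_lit 453) (nat_lit 5) (nat_lit 477) (nat_lit 5) (nat_lit 478) (nat_lit 5) (nat_lit 615) (nat_lit 592) (nat_lit 353)))))) (XT.nd (nat_lit 468) (nat_lit 2584) (nat_lit 0) (XT.nd (nat_lit 234) (nat_lit 1976) (nat_lit 0) (XT.nd (nat_lit 78) (nat_lit 1596) (nat_lit 0) (XT.lf (nat_lit 76) (nat_lit 11087776999) (nat_lit 0) (nat_lit 3524599431) (nat_lit 1900) (nat_lit 7157506787) (nat_lit 454) (nat_lit 5) (nat_lit 453) (nat_lit 5) (nat_lit 478) (nat_lit 5) (nat_lit 616) (nat_lit 592) (nat_lit 352)) (XT.nd (nat_lit 78) (nat_lit 0) (nat_lit 0) (XT.lf (nat_lit 0) (nat_lit 810983331) (nat_lit 1672)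 (nat_lit 15761882495) (nat_lit 1748) (nat_lit 5429867033) (nat_lit 432) (nat_lit 5) (nat_lit 454) (nat_lit 5) (nat_lit 455) (nat_lit 5) (nat_lit 617) (nat_lit 592) (nat_lit 351)) (XT.lf (nat_lit 0) (nat_lit 12651718815) (nat_lit 1672) (nat_lit 6011854277) (nat_lit 1748) (nat_lit 3574846808) (nat_lit 432) (nat_lit 5) (nat_lit 454) (nat_lit 5) (nat_lit 455) (nat_lit 5) (nat_lit 618) (nat_lit 592) (nat_lit 350)))) (XT.nd (nat_lit 78) (nat_lit 988) (nat_lit 0) (XT.lf (nat_lit 0) (nat_lit 2251058337) (nat_lit 988) (nat_lit 18581404601) (nat_lit 1064) (nat_lit 1645630934) (nat_lit 419) (nat_lit 5) (nat_lit 432) (nat_lit 5) (nat_lit 433) (nat_lit 5) (nat_lit 619) (nat_lit 592) (nat_lit 349)) (XT.nd (nat_lit 78) (nat_lit 912) (nat_lit 0) (XT.lf (nat_lit 0) (nat_lit 418758858) (nat_lit 1064) (nat_lit 8311487354) (nat_lit 76) (nat_lit 13990257516) (nat_lit 418) (nat_lit 5) (nat_lit 432) (nat_lit 5) (nat_lit 419) (nat_lit 5) (nat_lit 620) (nat_lit 592) (nat_lit 348)) (XT.lf (nat_lit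 0) (nat_lit 2532722378) (nat_lit 988) (nat_lit 19096902667) (nat_lit 76) (nat_lit 1337313292) (nat_lit 406) (nat_lit 5) (nat_lit 419) (nat_lit 5) (nat_lit 407) (nat_lit 5) (nat_lit 621) (nat_lit 592) (nat_lit 347))))) (XT.nd (nat_lit 234) (nat_lit 1672) (nat_lit 0) (XT.nd (nat_lit 78) (nat_lit 912) (nat_lit 0) (XT.lf (nat_lit 0) (nat_lit 4799295043) (nat_lit 988) (nat_lit 6870909154) (nat_lit 76) (nat_lit 11545891357) (nat_lit 406) (nat_lit 5) (nat_lit 419) (nat_lit 5) (nat_lit 407) (nat_lit 5) (nat_lit 622) (nat_lit 592) (nat_lit 346)) (XT.nd (nat_lit 78) (nat_lit 0) (nat_lit 0) (XT.lf (nat_lit 0) (nat_lit 5670651337) (nat_lit 912) (nat_lit 1473806487) (nat_lit 988) (nat_lit 16325113426) (nat_lit 394) (nat_lit 5) (nat_lit 406) (nat_lit 5) (nat_lit 407) (nat_lit 5) (nat_lit 623) (nat_lit 592) (nat_lit 345)) (XT.lf (nat_lit 0) (nat_lit 9637384234) (nat_lit 988) (nat_lit 5232651211) (nat_lit 76) (nat_lit 8856064304) (nat_lit 394) (nat_lit 5) (nat_lit 407) (nat_lit 5) (nat_lit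 395) (nat_lit 5) (nat_lit 624) (nat_lit 592) (nat_lit 344)))) (XT.nd (nat_lit 156) (nat_lit 836) (nat_lit 0) (XT.nd (nat_lit 78) (nat_lit 0) (nat_lit 0) (XT.lf (nat_lit 0) (nat_lit 7672500259) (nat_lit 836) (nat_lit 4563803713) (nat_lit 912) (nat_lit 11750332634) (nat_lit 383) (nat_lit 5) (nat_lit 394) (nat_lit 5) (nat_lit 395) (nat_lit 5) (nat_lit 625) (nat_lit 592) (nat_lit 343)) (XT.lf (nat_lit 0) (nat_lit 14957776794) (nat_lit 912) (nat_lit 3387207509) (nat_lit 76) (nat_lit 5905988882) (nat_lit 383) (nat_lit 5) (nat_lit 395) (nat_lit 5) (nat_lit 384) (nat_lit 5) (nat_lit 626) (nat_lit 592) (nat_lit 342))) (XT.nd (nat_lit 78) (nat_lit 0) (nat_lit 0) (XT.lf (nat_lit 0) (nat_lit 9894514362) (nat_lit 836) (nat_lit 7930303219) (nat_lit 912) (nat_lit 6693956610) (nat_lit 372) (nat_lit 5) (nat_lit 383) (nat_lit 5) (nat_lit 384) (nat_lit 5) (nat_lit 627) (nat_lit 592) (nat_lit 341)) (XT.lf (nat_lit 0) (nat_lit 20786279276) (nat_lit 912) (nat_lit 1324659183) (nat_lit 76) (nat_lit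 2680251615) (nat_lit 372) (nat_lit 5) (nat_lit 384) (nat_lit 5) (nat_lit 373) (nat_lit 5) (nat_lit 628) (nat_lit 592) (nat_lit 340))))))))
noncomputable def xc226 : XT := (XT.nd (nat_lit 1950) (nat_lit 532) (nat_lit 0) (XT.nd (nat_lit 936) (nat_lit 4484) (nat_lit 0) (XT.nd (nat_lit 468) (nat_lit 2204) (nat_lit 0) (XT.nd (nat_lit 234) (nat_lit 1520) (nat_lit 0) (XT.nd (nat_lit 78) (nat_lit 912) (nat_lit 0) (XT.lf (nat_lit 0) (nat_lit 12347079883) (nat_lit 760) (nat_lit 11589355697) (nat_lit 836) (nat_lit 1130029837) (nat_lit 362) (nat_lit 5) (nat_lit 372) (nat_lit 5) (nat_lit 373) (nat_lit 5) (nat_lit 629) (nat_lit 592) (nat_lit 339)) (XT.nd (nat_lit 78) (nat_lit 0) (nat_lit 0) (XT.lf (nat_lit 0) (nat_lit 960689427) (nat_lit 836) (nat_lit 830008581) (nat_lit 912) (nat_lit 23556074901) (nat_lit 350) (nat_lit 5) (nat_lit 361) (nat_lit 5) (nat_lit 362) (nat_lit 5) (nat_lit 630) (nat_lit 592) (nat_lit 338)) (XT.lf (nat_lit 0) (nat_lit 4903350158) (nat_lit 912) (nat_lit 10621444658)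 (nat_lit 76) (nat_lit 10104769952) (nat_lit 350) (nat_lit 5) (nat_lit 362) (nat_lit 5) (nat_lit 351) (nat_lit 5) (nat_lit 631) (nat_lit 592) (nat_lit 337)))) (XT.nd (nat_lit 78) (nat_lit 760) (nat_lit 0) (XT.lf (nat_lit 0) (nat_lit 3455037159) (nat_lit 760) (nat_lit 4648051923) (nat_lit 836) (nat_lit 17814427123) (nat_lit 340) (nat_lit 5) (nat_lit 350) (nat_lit 5) (nat_lit 351) (nat_lit 5) (nat_lit 632) (nat_lit 592) (nat_lit 336)) (XT.nd (nat_lit 78) (nat_lit 760) (nat_lit 0) (XT.lf (nat_lit 0) (nat_lit 11477366456) (nat_lit 836) (nat_lit 8298406544) (nat_lit 76) (nat_lit 6433243203) (nat_lit 340) (nat_lit 5) (nat_lit 351) (nat_lit 5) (nat_lit 341) (nat_lit 5) (nat_lit 633) (nat_lit 592) (nat_lit 335)) (XT.lf (nat_lit 0) (nat_lit 6196189277) (nat_lit 760) (nat_lit 8790954602) (nat_lit 836) (nat_lit 11517842430) (nat_lit 330) (nat_lit 5) (nat_lit 340) (nat_lit 5) (nat_lit 341) (nat_lit 5) (nat_lit 634) (nat_lit 592) (nat_lit 334))))) (XT.nd (nat_lit 234) (nat_lit 1520)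 (nat_lit 0) (XT.nd (nat_lit 78) (nat_lit 684) (nat_lit 0) (XT.lf (nat_lit 0) (nat_lit 18635881857) (nat_lit 836) (nat_lit 5731914241) (nat_lit 76) (nat_lit 2437704812) (nat_lit 330) (nat_lit 5) (nat_lit 341) (nat_lit 5) (nat_lit 331) (nat_lit 5) (nat_lit 635) (nat_lit 592) (nat_lit 333)) (XT.nd (nat_lit 78) (nat_lit 0) (nat_lit 0) (XT.lf (nat_lit 0) (nat_lit 9195678156) (nat_lit 684) (nat_lit 13276936287) (nat_lit 760) (nat_lit 4637111345) (nat_lit 321) (nat_lit 5) (nat_lit 330) (nat_lit 5) (nat_lit 331) (nat_lit 5) (nat_lit 636) (nat_lit 592) (nat_lit 332)) (XT.lf (nat_lit 0) (nat_lit 24496328364) (nat_lit 684) (nat_lit 1925350840) (nat_lit 760) (nat_lit 997644385) (nat_lit 321) (nat_lit 5) (nat_lit 330) (nat_lit 5) (nat_lit 331) (nat_lit 5) (nat_lit 637) (nat_lit 592) (nat_lit 331)))) (XT.nd (nat_lit 78) (nat_lit 684) (nat_lit 0) (XT.lf (nat_lit 0) (nat_lit 2820738605) (nat_lit 836) (nat_lit 15285348650) (nat_lit 76) (nat_lit 9625839365) (nat_lit 310) (nat_lit 5) (nat_lit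 321) (nat_lit 5) (nat_lit 311) (nat_lit 5) (nat_lit 638) (nat_lit 592) (nat_lit 330)) (XT.nd (nat_lit 78) (nat_lit 0) (nat_lit 0) (XT.lf (nat_lit 0) (nat_lit 91284771) (nat_lit 684) (nat_lit 6641149959) (nat_lit 760) (nat_lit 21317609369) (nat_lit 301) (nat_lit 5) (nat_lit 310) (nat_lit 5) (nat_lit 311) (nat_lit 5) (nat_lit 639) (nat_lit 592) (nat_lit 329)) (XT.lf (nat_lit 0) (nat_lit 10855659642) (nat_lit 760) (nat_lit 12426543947) (nat_lit 76) (nat_lit 5089654788) (nat_lit 301) (nat_lit 5) (nat_lit 311) (nat_lit 5) (nat_lit 302) (nat_lit 5) (nat_lit 640) (nat_lit 592) (nat_lit 328)))))) (XT.nd (nat_lit 468) (nat_lit 2432) (nat_lit 0) (XT.nd (nat_lit 234) (nat_lit 760) (nat_lit 0) (XT.nd (nat_lit 78) (nat_lit 608) (nat_lit 0) (XT.lf (nat_lit 0) (nat_lit 3413940447) (nat_lit 684) (nat_lit 11710844366) (nat_lit 760) (nat_lit 13574055753) (nat_lit 292) (nat_lit 5) (nat_lit 301) (nat_lit 5) (nat_lit 302) (nat_lit 5) (nat_lit 641) (nat_lit 592) (nat_lit 327)) (XT.nd (nat_lit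 78) (nat_lit 608) (nat_lit 0) (XT.lf (nat_lit 0) (nat_lit 19561149070) (nat_lit 760) (nat_lit 9295362828) (nat_lit 76) (nat_lit 174213703) (nat_lit 292) (nat_lit 5) (nat_lit 302) (nat_lit 5) (nat_lit 293) (nat_lit 5) (nat_lit 642) (nat_lit 592) (nat_lit 326)) (XT.lf (nat_lit 0) (nat_lit 7025413615) (nat_lit 608) (nat_lit 17181367215) (nat_lit 684) (nat_lit 5160057029) (nat_lit 284) (nat_lit 5) (nat_lit 292) (nat_lit 5) (nat_lit 293) (nat_lit 5) (nat_lit 643) (nat_lit 592) (nat_lit 325)))) (XT.nd (nat_lit 78) (nat_lit 760) (nat_lit 0) (XT.lf (nat_lit 0) (nat_lit 23795491411) (nat_lit 608) (nat_lit 5209613222) (nat_lit 684) (nat_lit 703372462) (nat_lit 284) (nat_lit 5) (nat_lit 292) (nat_lit 5) (nat_lit 293) (nat_lit 5) (nat_lit 644) (nat_lit 592) (nat_lit 324)) (XT.nd (nat_lit 78) (nat_lit 0) (nat_lit 0) (XT.lf (nat_lit 0) (nat_lit 3906737537) (nat_lit 760) (nat_lit 19141446380) (nat_lit 76) (nat_lit 7005972830) (nat_lit 274) (nat_lit 5) (nat_lit 284) (nat_lit 5) (nat_lit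 275) (nat_lit 5) (nat_lit 645) (nat_lit 592) (nat_lit 323)) (XT.lf (nat_lit 0) (nat_lit 8671546414) (nat_lit 760) (nat_lit 2293421346) (nat_lit 76) (nat_lit 19440251254) (nat_lit 274) (nat_lit 5) (nat_lit 284) (nat_lit 5) (nat_lit 275) (nat_lit 5) (nat_lit 646) (nat_lit 592) (nat_lit 322))))) (XT.nd (nat_lit 234) (nat_lit 1216) (nat_lit 0) (XT.nd (nat_lit 78) (nat_lit 608) (nat_lit 0) (XT.lf (nat_lit 0) (nat_lit 13636589637) (nat_lit 684) (nat_lit 15684497993) (nat_lit 76) (nat_lit 1440116427) (nat_lit 266) (nat_lit 5) (nat_lit 275) (nat_lit 5) (nat_lit 267) (nat_lit 5) (nat_lit 647) (nat_lit 592) (nat_lit 321)) (XT.nd (nat_lit 78) (nat_lit 0) (nat_lit 0) (XT.lf (nat_lit 0) (nat_lit 1647127473) (nat_lit 608) (nat_lit 17150146476) (nat_lit 684) (nat_lit 12325108339) (nat_lit 258) (nat_lit 5) (nat_lit 266) (nat_lit 5) (nat_lit 267) (nat_lit 5) (nat_lit 648) (nat_lit 592) (nat_lit 320)) (XT.lf (nat_lit 0) (nat_lit 19534932961) (nat_lit 608) (nat_lit 4629056940) (nat_lit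 684) (nat_lit 7324738108) (nat_lit 258) (nat_lit 5) (nat_lit 266) (nat_lit 5) (nat_lit 267) (nat_lit 5) (nat_lit 649) (nat_lit 592) (nat_lit 319)))) (XT.nd (nat_lit 156) (nat_lit 608) (nat_lit 0) (XT.nd (nat_lit 78) (nat_lit 76) (nat_lit 0) (XT.lf (nat_lit 0) (nat_lit 5940089047) (nat_lit 532) (nat_lit 23786994778) (nat_lit 608) (nat_lit 2133536226) (nat_lit 251) (nat_lit 5) (nat_lit 258) (nat_lit 5) (nat_lit 259) (nat_lit 5) (nat_lit 650) (nat_lit 592) (nat_lit 318)) (XT.lf (nat_lit 0) (nat_lit 3229051428) (nat_lit 608) (nat_lit 7939227508) (nat_lit 76) (nat_lit 21069080231) (nat_lit 250) (nat_lit 5) (nat_lit 258) (nat_lit 5) (nat_lit 251) (nat_lit 5) (nat_lit 651) (nat_lit 592) (nat_lit 317))) (XT.nd (nat_lit 78) (nat_lit 0) (nat_lit 0) (XT.lf (nat_lit 0) (nat_lit 8747934938) (nat_lit 684) (nat_lit 22109046149) (nat_lit 76) (nat_lit 1762817945) (nat_lit 242) (nat_lit 5) (nat_lit 251) (nat_lit 5) (nat_lit 243) (nat_lit 5) (nat_lit 652) (nat_lit 592) (nat_lit 316)) (XT.lf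 (nat_lit 0) (nat_lit 14502477865) (nat_lit 684) (nat_lit 3648804114) (nat_lit 76) (nat_lit 14856100340) (nat_lit 242) (nat_lit 5) (nat_lit 251) (nat_lit 5) (nat_lit 243) (nat_lit 5) (nat_lit 653) (nat_lit 592) (nat_lit 315))))))) (XT.nd (nat_lit 77298) (nat_lit 0) (nat_lit 16264) (XT.nd (nat_lit 76830) (nat_lit 0) (nat_lit 17784) (XT.nd (nat_lit 76596) (nat_lit 0) (nat_lit 17632) (XT.nd (nat_lit 76440) (nat_lit 0) (nat_lit 17632) (XT.lf (nat_lit 0) (nat_lit 15379387157) (nat_lit 532) (nat_lit 5090313377) (nat_lit 608) (nat_lit 12931065211) (nat_lit 235) (nat_lit 5) (nat_lit 242) (nat_lit 5) (nat_lit 243) (nat_lit 5) (nat_lit 654) (nat_lit 592) (nat_lit 314)) (XT.nd (nat_lit 78) (nat_lit 0) (nat_lit 0) (XT.lf (nat_lit 0) (nat_lit 2468302769) (nat_lit 0) (nat_lit 2468302769) (nat_lit 1748) (nat_lit 3764638739) (nat_lit 467) (nat_lit 5) (nat_lit 467) (nat_lit 3) (nat_lit 490) (nat_lit 3) (nat_lit 593) (nat_lit 593) (nat_lit 374)) (XT.lf (nat_lit 0) (nat_lit 10212920458)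 (nat_lit 1748) (nat_lit 3959504646) (nat_lit 1824) (nat_lit 3399234547) (nat_lit 467) (nat_lit 5) (nat_lit 490) (nat_lit 3) (nat_lit 491) (nat_lit 5) (nat_lit 594) (nat_lit 593) (nat_lit 373)))) (XT.nd (nat_lit 78) (nat_lit 0) (nat_lit 76) (XT.lf (nat_lit 76) (nat_lit 4743519288) (nat_lit 0) (nat_lit 5873679857) (nat_lit 1824) (nat_lit 7125860417) (nat_lit 468) (nat_lit 5) (nat_lit 467) (nat_lit 5) (nat_lit 491) (nat_lit 5) (nat_lit 595) (nat_lit 593) (nat_lit 372)) (XT.nd (nat_lit 78) (nat_lit 0) (nat_lit 0) (XT.lf (nat_lit 0) (nat_lit 11067526642) (nat_lit 1748) (nat_lit 4263191057) (nat_lit 1824) (nat_lit 2586411391) (nat_lit 468) (nat_lit 5) (nat_lit 491) (nat_lit 5) (nat_lit 492) (nat_lit 5) (nat_lit 596) (nat_lit 593) (nat_lit 371)) (XT.lf (nat_lit 76) (nat_lit 4667145977) (nat_lit 0) (nat_lit 6923419536) (nat_lit 1824) (nat_lit 6502841261) (nat_lit 469) (nat_lit 5) (nat_lit 468) (nat_lit 5) (nat_lit 492) (nat_lit 5) (nat_lit 597) (nat_lit 593) (nat_lit 370)))))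 (XT.nd (nat_lit 234) (nat_lit 0) (nat_lit 76) (XT.nd (nat_lit 78) (nat_lit 0) (nat_lit 0) (XT.lf (nat_lit 0) (nat_lit 12158196509) (nat_lit 1748) (nat_lit 4452830361) (nat_lit 1824) (nat_lit 1661501362) (nat_lit 469) (nat_lit 5) (nat_lit 492) (nat_lit 5) (nat_lit 493) (nat_lit 5) (nat_lit 598) (nat_lit 593) (nat_lit 369)) (XT.nd (nat_lit 78) (nat_lit 0) (nat_lit 76) (XT.lf (nat_lit 76) (nat_lit 4712935648) (nat_lit 0) (nat_lit 8095407767) (nat_lit 1824) (nat_lit 5645466268) (nat_lit 470) (nat_lit 5) (nat_lit 469) (nat_lit 5) (nat_lit 493) (nat_lit 5) (nat_lit 599) (nat_lit 593) (nat_lit 368)) (XT.lf (nat_lit 0) (nat_lit 13500216914) (nat_lit 1748) (nat_lit 4522966762) (nat_lit 1824) (nat_lit 614959427) (nat_lit 470) (nat_lit 5) (nat_lit 493) (nat_lit 5) (nat_lit 494) (nat_lit 5) (nat_lit 600) (nat_lit 593) (nat_lit 367)))) (XT.nd (nat_lit 78) (nat_lit 0) (nat_lit 0) (XT.lf (nat_lit 76) (nat_lit 4886646598) (nat_lit 0) (nat_lit 9399533216) (nat_lit 1824) (nat_lit 4538379137)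 (nat_lit 471) (nat_lit 5) (nat_lit 470) (nat_lit 5) (nat_lit 494) (nat_lit 5) (nat_lit 601) (nat_lit 593) (nat_lit 366)) (XT.nd (nat_lit 78) (nat_lit 0) (nat_lit 76) (XT.lf (nat_lit 76) (nat_lit 14542653482) (nat_lit 0) (nat_lit 570552153) (nat_lit 1824) (nat_lit 3900991388) (nat_lit 471) (nat_lit 5) (nat_lit 470) (nat_lit 5) (nat_lit 494) (nat_lit 5) (nat_lit 602) (nat_lit 593) (nat_lit 365)) (XT.lf (nat_lit 76) (nat_lit 5194353009) (nat_lit 0) (nat_lit 10846012279) (nat_lit 1824) (nat_lit 3165591471) (nat_lit 472) (nat_lit 5) (nat_lit 471) (nat_lit 5) (nat_lit 495) (nat_lit 5) (nat_lit 603) (nat_lit 593) (nat_lit 364)))))) (XT.nd (nat_lit 468) (nat_lit 0) (nat_lit 76) (XT.nd (nat_lit 234) (nat_lit 1672) (nat_lit 0) (XT.nd (nat_lit 78) (nat_lit 0) (nat_lit 76) (XT.lf (nat_lit 76) (nat_lit 15107213678) (nat_lit 0) (nat_lit 1907792612) (nat_lit 1824) (nat_lit 2385967387) (nat_lit 472) (nat_lit 5) (nat_lit 471) (nat_lit 5) (nat_lit 495) (nat_lit 5) (nat_lit 604) (nat_lit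 593) (nat_lit 363)) (XT.nd (nat_lit 78) (nat_lit 0) (nat_lit 0) (XT.lf (nat_lit 76) (nat_lit 5642453030) (nat_lit 0) (nat_lit 12445411863) (nat_lit 1824) (nat_lit 1510452283) (nat_lit 473) (nat_lit 5) (nat_lit 472) (nat_lit 5) (nat_lit 496) (nat_lit 5) (nat_lit 605) (nat_lit 593) (nat_lit 362)) (XT.lf (nat_lit 76) (nat_lit 15819629484) (nat_lit 0) (nat_lit 3399271173) (nat_lit 1824) (nat_lit 579973209) (nat_lit 473) (nat_lit 5) (nat_lit 472) (nat_lit 5) (nat_lit 496) (nat_lit 5) (nat_lit 606) (nat_lit 593) (nat_lit 361)))) (XT.nd (nat_lit 78) (nat_lit 0) (nat_lit 0) (XT.lf (nat_lit 0) (nat_lit 438555305) (nat_lit 1824) (nat_lit 13767174453) (nat_lit 1900) (nat_lit 5796179080) (nat_lit 449) (nat_lit 5) (nat_lit 473) (nat_lit 5) (nat_lit 474) (nat_lit 5) (nat_lit 607) (nat_lit 593) (nat_lit 360)) (XT.nd (nat_lit 78) (nat_lit 0) (nat_lit 76) (XT.lf (nat_lit 0) (nat_lit 1514581178) (nat_lit 1824) (nat_lit 3531307794) (nat_lit 1900) (nat_lit 15162141691) (nat_lit 449) (nat_lit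 5) (nat_lit 473) (nat_lit 5) (nat_lit 474) (nat_lit 5) (nat_lit 608) (nat_lit 593) (nat_lit 359)) (XT.lf (nat_lit 0) (nat_lit 2681353653) (nat_lit 1824) (nat_lit 13447786304) (nat_lit 1900) (nat_lit 4287751114) (nat_lit 450) (nat_lit 5) (nat_lit 474) (nat_lit 5) (nat_lit 475) (nat_lit 5) (nat_lit 609) (nat_lit 593) (nat_lit 358))))) (XT.nd (nat_lit 234) (nat_lit 0) (nat_lit 152) (XT.nd (nat_lit 78) (nat_lit 0) (nat_lit 76) (XT.lf (nat_lit 0) (nat_lit 3924388152) (nat_lit 1824) (nat_lit 2938886115) (nat_lit 1900) (nat_lit 13765596543) (nat_lit 450) (nat_lit 5) (nat_lit 474) (nat_lit 5) (nat_lit 475) (nat_lit 5) (nat_lit 610) (nat_lit 593) (nat_lit 357)) (XT.nd (nat_lit 78) (nat_lit 0) (nat_lit 0) (XT.lf (nat_lit 0) (nat_lit 5256337452) (nat_lit 1824) (nat_lit 12980944092) (nat_lit 1900) (nat_lit 2606528159) (nat_lit 451) (nat_lit 5) (nat_lit 475) (nat_lit 5) (nat_lit 476) (nat_lit 5) (nat_lit 611) (nat_lit 593) (nat_lit 356)) (XT.lf (nat_lit 0) (nat_lit 6676040984) (nat_lit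 1824) (nat_lit 2191003789) (nat_lit 1900) (nat_lit 12194780926) (nat_lit 451) (nat_lit 5) (nat_lit 475) (nat_lit 5) (nat_lit 476) (nat_lit 5) (nat_lit 612) (nat_lit 593) (nat_lit 355)))) (XT.nd (nat_lit 156) (nat_lit 0) (nat_lit 0) (XT.nd (nat_lit 78) (nat_lit 0) (nat_lit 0) (XT.lf (nat_lit 0) (nat_lit 8182876060) (nat_lit 1824) (nat_lit 12359356896) (nat_lit 1900) (nat_lit 740794924) (nat_lit 452) (nat_lit 5) (nat_lit 476) (nat_lit 5) (nat_lit 477) (nat_lit 5) (nat_lit 613) (nat_lit 593) (nat_lit 354)) (XT.lf (nat_lit 0) (nat_lit 9789328904) (nat_lit 1824) (nat_lit 1280100847) (nat_lit 1900) (nat_lit 10437835338) (nat_lit 452) (nat_lit 5) (nat_lit 476) (nat_lit 5) (nat_lit 477) (nat_lit 5) (nat_lit 614) (nat_lit 593) (nat_lit 353))) (XT.nd (nat_lit 78) (nat_lit 0) (nat_lit 76) (XT.lf (nat_lit 76) (nat_lit 10150671972) (nat_lit 0) (nat_lit 1339181723) (nat_lit 1900) (nat_lit 10244895081) (nat_lit 453) (nat_lit 5) (nat_lit 452) (nat_lit 5) (nat_lit 477) (nat_lit 5) (nat_lit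 615) (nat_lit 593) (nat_lit 352)) (XT.lf (nat_lit 0) (nat_lit 13284879700) (nat_lit 1824) (nat_lit 198257372) (nat_lit 1900) (nat_lit 8482435832) (nat_lit 453) (nat_lit 5) (nat_lit 477) (nat_lit 5) (nat_lit 478) (nat_lit 5) (nat_lit 616) (nat_lit 593) (nat_lit 351))))))))
noncomputable def xc227 : XT := (XT.nd (nat_lit 1950) (nat_lit 4484) (nat_lit 0) (XT.nd (nat_lit 936) (nat_lit 5396) (nat_lit 0) (XT.nd (nat_lit 468) (nat_lit 2584) (nat_lit 0) (XT.nd (nat_lit 234) (nat_lit 1976) (nat_lit 0) (XT.nd (nat_lit 78) (nat_lit 1596) (nat_lit 0) (XT.lf (nat_lit 76) (nat_lit 11554757686) (nat_lit 0) (nat_lit 3641114722) (nat_lit 1900) (nat_lit 7003540353) (nat_lit 454) (nat_lit 5) (nat_lit 453) (nat_lit 5) (nat_lit 478) (nat_lit 5) (nat_lit 617) (nat_lit 593) (nat_lit 350)) (XT.nd (nat_lit 78) (nat_lit 0) (nat_lit 0) (XT.lf (nat_lit 0) (nat_lit 1076941184) (nat_lit 1672) (nat_lit 16114248165) (nat_lit 1748) (nat_lit 5245818536) (nat_lit 432) (nat_lit 5) (nat_lit 454) (nat_lit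 5) (nat_lit 455) (nat_lit 5) (nat_lit 618) (nat_lit 593) (nat_lit 349)) (XT.lf (nat_lit 0) (nat_lit 13149594551) (nat_lit 1672) (nat_lit 6168491383) (nat_lit 1748) (nat_lit 3359436061) (nat_lit 432) (nat_lit 5) (nat_lit 454) (nat_lit 5) (nat_lit 455) (nat_lit 5) (nat_lit 619) (nat_lit 593) (nat_lit 348)))) (XT.nd (nat_lit 78) (nat_lit 988) (nat_lit 0) (XT.lf (nat_lit 0) (nat_lit 2545173868) (nat_lit 988) (nat_lit 18981050758) (nat_lit 1064) (nat_lit 1395848212) (nat_lit 419) (nat_lit 5) (nat_lit 432) (nat_lit 5) (nat_lit 433) (nat_lit 5) (nat_lit 620) (nat_lit 593) (nat_lit 347)) (XT.nd (nat_lit 78) (nat_lit 912) (nat_lit 0) (XT.lf (nat_lit 0) (nat_lit 700651428) (nat_lit 1064) (nat_lit 8229832954) (nat_lit 76) (nat_lit 14238919989) (nat_lit 418) (nat_lit 5) (nat_lit 432) (nat_lit 5) (nat_lit 419) (nat_lit 5) (nat_lit 621) (nat_lit 593) (nat_lit 346)) (XT.lf (nat_lit 0) (nat_lit 2852977396) (nat_lit 988) (nat_lit 19227001433) (nat_lit 76) (nat_lit 1340867945) (nat_lit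 406) (nat_lit 5) (nat_lit 419) (nat_lit 5) (nat_lit 407) (nat_lit 5) (nat_lit 622) (nat_lit 593) (nat_lit 345))))) (XT.nd (nat_lit 234) (nat_lit 1672) (nat_lit 0) (XT.nd (nat_lit 78) (nat_lit 912) (nat_lit 0) (XT.lf (nat_lit 0) (nat_lit 5159595229) (nat_lit 988) (nat_lit 6761426076) (nat_lit 76) (nat_lit 11754072309) (nat_lit 406) (nat_lit 5) (nat_lit 419) (nat_lit 5) (nat_lit 407) (nat_lit 5) (nat_lit 623) (nat_lit 593) (nat_lit 344)) (XT.nd (nat_lit 78) (nat_lit 0) (nat_lit 0) (XT.lf (nat_lit 0) (nat_lit 6029341275) (nat_lit 912) (nat_lit 1518729858) (nat_lit 988) (nat_lit 16385640230) (nat_lit 394) (nat_lit 5) (nat_lit 406) (nat_lit 5) (nat_lit 407) (nat_lit 5) (nat_lit 624) (nat_lit 593) (nat_lit 343)) (XT.lf (nat_lit 0) (nat_lit 10085645505) (nat_lit 988) (nat_lit 5091590002) (nat_lit 76) (nat_lit 9018239857) (nat_lit 394) (nat_lit 5) (nat_lit 407) (nat_lit 5) (nat_lit 395) (nat_lit 5) (nat_lit 625) (nat_lit 593) (nat_lit 342)))) (XT.nd (nat_lit 78) (nat_lit 836)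 (nat_lit 0) (XT.lf (nat_lit 0) (nat_lit 8070047956) (nat_lit 836) (nat_lit 4663070456) (nat_lit 912) (nat_lit 11728173760) (nat_lit 383) (nat_lit 5) (nat_lit 394) (nat_lit 5) (nat_lit 395) (nat_lit 5) (nat_lit 626) (nat_lit 593) (nat_lit 341)) (XT.nd (nat_lit 78) (nat_lit 836) (nat_lit 0) (XT.lf (nat_lit 0) (nat_lit 15504026918) (nat_lit 912) (nat_lit 3210611719) (nat_lit 76) (nat_lit 6016377415) (nat_lit 383) (nat_lit 5) (nat_lit 395) (nat_lit 5) (nat_lit 384) (nat_lit 5) (nat_lit 627) (nat_lit 593) (nat_lit 340)) (XT.lf (nat_lit 0) (nat_lit 10335137090) (nat_lit 836) (nat_lit 8090002419) (nat_lit 912) (nat_lit 6579099630) (nat_lit 372) (nat_lit 5) (nat_lit 383) (nat_lit 5) (nat_lit 384) (nat_lit 5) (nat_lit 628) (nat_lit 593) (nat_lit 339)))))) (XT.nd (nat_lit 468) (nat_lit 2964) (nat_lit 0) (XT.nd (nat_lit 234) (nat_lit 760) (nat_lit 0) (XT.nd (nat_lit 78) (nat_lit 1672) (nat_lit 0) (XT.lf (nat_lit 0) (nat_lit 21441042586) (nat_lit 912) (nat_lit 1108358177) (nat_lit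 76) (nat_lit 2732799002) (nat_lit 372) (nat_lit 5) (nat_lit 384) (nat_lit 5) (nat_lit 373) (nat_lit 5) (nat_lit 629) (nat_lit 593) (nat_lit 338)) (XT.nd (nat_lit 78) (nat_lit 912) (nat_lit 0) (XT.lf (nat_lit 0) (nat_lit 12835218340) (nat_lit 760) (nat_lit 11815862671) (nat_lit 836) (nat_lit 911962676) (nat_lit 362) (nat_lit 5) (nat_lit 372) (nat_lit 5) (nat_lit 373) (nat_lit 5) (nat_lit 630) (nat_lit 593) (nat_lit 337)) (XT.lf (nat_lit 0) (nat_lit 1222680740) (nat_lit 836) (nat_lit 838261772) (nat_lit 912) (nat_lit 23788045811) (nat_lit 350) (nat_lit 5) (nat_lit 361) (nat_lit 5) (nat_lit 362) (nat_lit 5) (nat_lit 631) (nat_lit 593) (nat_lit 336)))) (XT.nd (nat_lit 78) (nat_lit 760) (nat_lit 0) (XT.lf (nat_lit 0) (nat_lit 5231304160) (nat_lit 912) (nat_lit 10591282007) (nat_lit 76) (nat_lit 10314941340) (nat_lit 350) (nat_lit 5) (nat_lit 362) (nat_lit 5) (nat_lit 351) (nat_lit 5) (nat_lit 632) (nat_lit 593) (nat_lit 335)) (XT.nd (nat_lit 78) (nat_lit 0) (nat_lit 0) (XT.lf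 (nat_lit 0) (nat_lit 3765133449) (nat_lit 760) (nat_lit 4726961527) (nat_lit 836) (nat_lit 17939202457) (nat_lit 340) (nat_lit 5) (nat_lit 350) (nat_lit 5) (nat_lit 351) (nat_lit 5) (nat_lit 633) (nat_lit 593) (nat_lit 334)) (XT.lf (nat_lit 0) (nat_lit 11929497456) (nat_lit 836) (nat_lit 8223714467) (nat_lit 76) (nat_lit 6575503310) (nat_lit 340) (nat_lit 5) (nat_lit 351) (nat_lit 5) (nat_lit 341) (nat_lit 5) (nat_lit 634) (nat_lit 593) (nat_lit 333))))) (XT.nd (nat_lit 234) (nat_lit 1520) (nat_lit 0) (XT.nd (nat_lit 78) (nat_lit 684) (nat_lit 0) (XT.lf (nat_lit 0) (nat_lit 6559189979) (nat_lit 760) (nat_lit 8947468309) (nat_lit 836) (nat_lit 11524003277) (nat_lit 330) (nat_lit 5) (nat_lit 340) (nat_lit 5) (nat_lit 341) (nat_lit 5) (nat_lit 635) (nat_lit 593) (nat_lit 332)) (XT.nd (nat_lit 78) (nat_lit 684) (nat_lit 0) (XT.lf (nat_lit 0) (nat_lit 19224184665) (nat_lit 836) (nat_lit 5607948562) (nat_lit 76) (nat_lit 2505137527) (nat_lit 330) (nat_lit 5) (nat_lit 341) (nat_lit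 5) (nat_lit 331) (nat_lit 5) (nat_lit 636) (nat_lit 593) (nat_lit 331)) (XT.lf (nat_lit 0) (nat_lit 9616625920) (nat_lit 684) (nat_lit 13518337806) (nat_lit 760) (nat_lit 4512670726) (nat_lit 321) (nat_lit 5) (nat_lit 330) (nat_lit 5) (nat_lit 331) (nat_lit 5) (nat_lit 637) (nat_lit 593) (nat_lit 330)))) (XT.nd (nat_lit 156) (nat_lit 684) (nat_lit 0) (XT.nd (nat_lit 78) (nat_lit 836) (nat_lit 0) (XT.lf (nat_lit 0) (nat_lit 25218641403) (nat_lit 684) (nat_lit 1940193928) (nat_lit 760) (nat_lit 804672914) (nat_lit 321) (nat_lit 5) (nat_lit 330) (nat_lit 5) (nat_lit 331) (nat_lit 5) (nat_lit 638) (nat_lit 593) (nat_lit 329)) (XT.lf (nat_lit 0) (nat_lit 3084851680) (nat_lit 836) (nat_lit 15353389966) (nat_lit 76) (nat_lit 9844143239) (nat_lit 310) (nat_lit 5) (nat_lit 321) (nat_lit 5) (nat_lit 311) (nat_lit 5) (nat_lit 639) (nat_lit 593) (nat_lit 328))) (XT.nd (nat_lit 78) (nat_lit 0) (nat_lit 0) (XT.lf (nat_lit 0) (nat_lit 329212534) (nat_lit 684) (nat_lit 6743029610) (nat_lit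 760) (nat_lit 21534673876) (nat_lit 301) (nat_lit 5) (nat_lit 310) (nat_lit 5) (nat_lit 311) (nat_lit 5) (nat_lit 640) (nat_lit 593) (nat_lit 327)) (XT.lf (nat_lit 0) (nat_lit 11274105799) (nat_lit 760) (nat_lit 12439751175) (nat_lit 76) (nat_lit 5221386630) (nat_lit 301) (nat_lit 5) (nat_lit 311) (nat_lit 5) (nat_lit 302) (nat_lit 5) (nat_lit 641) (nat_lit 593) (nat_lit 326))))))) (XT.nd (nat_lit 936) (nat_lit 0) (nat_lit 0) (XT.nd (nat_lit 468) (nat_lit 2432) (nat_lit 0) (XT.nd (nat_lit 234) (nat_lit 760) (nat_lit 0) (XT.nd (nat_lit 78) (nat_lit 608) (nat_lit 0) (XT.lf (nat_lit 0) (nat_lit 3715994725) (nat_lit 684) (nat_lit 11910188868) (nat_lit 760) (nat_lit 13642630937) (nat_lit 292) (nat_lit 5) (nat_lit 301) (nat_lit 5) (nat_lit 302) (nat_lit 5) (nat_lit 642) (nat_lit 593) (nat_lit 325)) (XT.nd (nat_lit 78) (nat_lit 608) (nat_lit 0) (XT.lf (nat_lit 0) (nat_lit 20147597050) (nat_lit 760) (nat_lit 9248376064) (nat_lit 76) (nat_lit 211438200) (nat_lit 292) (nat_lit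 5) (nat_lit 302) (nat_lit 5) (nat_lit 293) (nat_lit 5) (nat_lit 643) (nat_lit 593) (nat_lit 324)) (XT.lf (nat_lit 0) (nat_lit 7397283710) (nat_lit 608) (nat_lit 17486531949) (nat_lit 684) (nat_lit 5066477150) (nat_lit 284) (nat_lit 5) (nat_lit 292) (nat_lit 5) (nat_lit 293) (nat_lit 5) (nat_lit 644) (nat_lit 593) (nat_lit 323)))) (XT.nd (nat_lit 78) (nat_lit 760) (nat_lit 0) (XT.lf (nat_lit 0) (nat_lit 24498226556) (nat_lit 608) (nat_lit 5276097045) (nat_lit 684) (nat_lit 524517343) (nat_lit 284) (nat_lit 5) (nat_lit 292) (nat_lit 5) (nat_lit 293) (nat_lit 5) (nat_lit 645) (nat_lit 593) (nat_lit 322)) (XT.nd (nat_lit 78) (nat_lit 0) (nat_lit 0) (XT.lf (nat_lit 0) (nat_lit 4173268896) (nat_lit 760) (nat_lit 19292878684) (nat_lit 76) (nat_lit 7185301922) (nat_lit 274) (nat_lit 5) (nat_lit 284) (nat_lit 5) (nat_lit 275) (nat_lit 5) (nat_lit 646) (nat_lit 593) (nat_lit 321)) (XT.lf (nat_lit 0) (nat_lit 9029679899) (nat_lit 760) (nat_lit 2112430338) (nat_lit 76) (nat_lit 19867497098)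 (nat_lit 274) (nat_lit 5) (nat_lit 284) (nat_lit 5) (nat_lit 275) (nat_lit 5) (nat_lit 647) (nat_lit 593) (nat_lit 320))))) (XT.nd (nat_lit 234) (nat_lit 1216) (nat_lit 0) (XT.nd (nat_lit 78) (nat_lit 608) (nat_lit 0) (XT.lf (nat_lit 0) (nat_lit 14092143632) (nat_lit 684) (nat_lit 15769426588) (nat_lit 76) (nat_lit 1511179897) (nat_lit 266) (nat_lit 5) (nat_lit 275) (nat_lit 5) (nat_lit 267) (nat_lit 5) (nat_lit 648) (nat_lit 593) (nat_lit 319)) (XT.nd (nat_lit 78) (nat_lit 0) (nat_lit 0) (XT.lf (nat_lit 0) (nat_lit 1907326378) (nat_lit 608) (nat_lit 17446606003) (nat_lit 684) (nat_lit 12387262140) (nat_lit 258) (nat_lit 5) (nat_lit 266) (nat_lit 5) (nat_lit 267) (nat_lit 5) (nat_lit 649) (nat_lit 593) (nat_lit 318)) (XT.lf (nat_lit 0) (nat_lit 20148431970) (nat_lit 608) (nat_lit 4676007292) (nat_lit 684) (nat_lit 7290499178) (nat_lit 258) (nat_lit 5) (nat_lit 266) (nat_lit 5) (nat_lit 267) (nat_lit 5) (nat_lit 650) (nat_lit 593) (nat_lit 317)))) (XT.nd (nat_lit 78) (nat_lit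 684) (nat_lit 0) (XT.lf (nat_lit 0) (nat_lit 6283471752) (nat_lit 532) (nat_lit 24213597983) (nat_lit 608) (nat_lit 1997233500) (nat_lit 251) (nat_lit 5) (nat_lit 258) (nat_lit 5) (nat_lit 259) (nat_lit 5) (nat_lit 651) (nat_lit 593) (nat_lit 316)) (XT.nd (nat_lit 78) (nat_lit 608) (nat_lit 0) (XT.lf (nat_lit 0) (nat_lit 3466795380) (nat_lit 608) (nat_lit 7875513896) (nat_lit 76) (nat_lit 21536314274) (nat_lit 250) (nat_lit 5) (nat_lit 258) (nat_lit 5) (nat_lit 251) (nat_lit 5) (nat_lit 652) (nat_lit 593) (nat_lit 315)) (XT.lf (nat_lit 0) (nat_lit 9094419850) (nat_lit 684) (nat_lit 22327073040) (nat_lit 76) (nat_lit 1847252439) (nat_lit 242) (nat_lit 5) (nat_lit 251) (nat_lit 5) (nat_lit 243) (nat_lit 5) (nat_lit 653) (nat_lit 593) (nat_lit 314)))))) (XT.nd (nat_lit 76908) (nat_lit 0) (nat_lit 17252) (XT.nd (nat_lit 76674) (nat_lit 0) (nat_lit 17100) (XT.nd (nat_lit 76518) (nat_lit 0) (nat_lit 17100) (XT.lf (nat_lit 0) (nat_lit 14960690377) (nat_lit 684) (nat_lit 3502021341)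 (nat_lit 76) (nat_lit 15201436204) (nat_lit 242) (nat_lit 5) (nat_lit 251) (nat_lit 5) (nat_lit 243) (nat_lit 5) (nat_lit 654) (nat_lit 593) (nat_lit 313)) (XT.nd (nat_lit 78) (nat_lit 0) (nat_lit 0) (XT.lf (nat_lit 0) (nat_lit 2626266073) (nat_lit 0) (nat_lit 2626266073) (nat_lit 1748) (nat_lit 3618359103) (nat_lit 467) (nat_lit 5) (nat_lit 467) (nat_lit 3) (nat_lit 490) (nat_lit 3) (nat_lit 594) (nat_lit 594) (nat_lit 372)) (XT.lf (nat_lit 0) (nat_lit 10841667912) (nat_lit 1748) (nat_lit 3815792293) (nat_lit 1824) (nat_lit 3257076146) (nat_lit 467) (nat_lit 5) (nat_lit 490) (nat_lit 3) (nat_lit 491) (nat_lit 5) (nat_lit 595) (nat_lit 594) (nat_lit 371)))) (XT.nd (nat_lit 78) (nat_lit 0) (nat_lit 76) (XT.lf (nat_lit 76) (nat_lit 5059825657) (nat_lit 0) (nat_lit 6187320912) (nat_lit 1824) (nat_lit 6842356713) (nat_lit 468) (nat_lit 5) (nat_lit 467) (nat_lit 5) (nat_lit 491) (nat_lit 5) (nat_lit 596) (nat_lit 594) (nat_lit 370)) (XT.nd (nat_lit 78) (nat_lit 0) (nat_lit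 0) (XT.lf (nat_lit 0) (nat_lit 11697043636) (nat_lit 1748) (nat_lit 4121859679) (nat_lit 1824) (nat_lit 2448340907) (nat_lit 468) (nat_lit 5) (nat_lit 491) (nat_lit 5) (nat_lit 492) (nat_lit 5) (nat_lit 597) (nat_lit 594) (nat_lit 369)) (XT.lf (nat_lit 76) (nat_lit 4985593339) (nat_lit 0) (nat_lit 7238408210) (nat_lit 1824) (nat_lit 6223178003) (nat_lit 469) (nat_lit 5) (nat_lit 468) (nat_lit 5) (nat_lit 492) (nat_lit 5) (nat_lit 598) (nat_lit 594) (nat_lit 368))))) (XT.nd (nat_lit 234) (nat_lit 0) (nat_lit 76) (XT.nd (nat_lit 78) (nat_lit 0) (nat_lit 0) (XT.lf (nat_lit 0) (nat_lit 12793986555) (nat_lit 1748) (nat_lit 4312136099) (nat_lit 1824) (nat_lit 1523941989) (nat_lit 469) (nat_lit 5) (nat_lit 492) (nat_lit 5) (nat_lit 493) (nat_lit 5) (nat_lit 599) (nat_lit 594) (nat_lit 367)) (XT.nd (nat_lit 78) (nat_lit 0) (nat_lit 76) (XT.lf (nat_lit 76) (nat_lit 5035433711) (nat_lit 0) (nat_lit 8415486018) (nat_lit 1824) (nat_lit 5364177536) (nat_lit 470) (nat_lit 5) (nat_lit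 469) (nat_lit 5) (nat_lit 493) (nat_lit 5) (nat_lit 600) (nat_lit 594) (nat_lit 366)) (XT.lf (nat_lit 0) (nat_lit 14148047233) (nat_lit 1748) (nat_lit 4381019325) (nat_lit 1824) (nat_lit 474223649) (nat_lit 470) (nat_lit 5) (nat_lit 493) (nat_lit 5) (nat_lit 494) (nat_lit 5) (nat_lit 601) (nat_lit 594) (nat_lit 365)))) (XT.nd (nat_lit 156) (nat_lit 0) (nat_lit 76) (XT.nd (nat_lit 78) (nat_lit 0) (nat_lit 0) (XT.lf (nat_lit 76) (nat_lit 5215257309) (nat_lit 0) (nat_lit 9728562740) (nat_lit 1824) (nat_lit 4249733671) (nat_lit 471) (nat_lit 5) (nat_lit 470) (nat_lit 5) (nat_lit 494) (nat_lit 5) (nat_lit 602) (nat_lit 594) (nat_lit 364)) (XT.lf (nat_lit 76) (nat_lit 15059857317) (nat_lit 0) (nat_lit 720236589) (nat_lit 1824) (nat_lit 3607037638) (nat_lit 471) (nat_lit 5) (nat_lit 470) (nat_lit 5) (nat_lit 494) (nat_lit 5) (nat_lit 603) (nat_lit 594) (nat_lit 363))) (XT.nd (nat_lit 78) (nat_lit 0) (nat_lit 0) (XT.lf (nat_lit 76) (nat_lit 5531294609) (nat_lit 0) (nat_lit 11187985634)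 (nat_lit 1824) (nat_lit 2863577678) (nat_lit 472) (nat_lit 5) (nat_lit 471) (nat_lit 5) (nat_lit 495) (nat_lit 5) (nat_lit 604) (nat_lit 594) (nat_lit 362)) (XT.lf (nat_lit 76) (nat_lit 15637842795) (nat_lit 0) (nat_lit 2068549552) (nat_lit 1824) (nat_lit 2075524359) (nat_lit 472) (nat_lit 5) (nat_lit 471) (nat_lit 5) (nat_lit 495) (nat_lit 5) (nat_lit 605) (nat_lit 594) (nat_lit 361))))))))
noncomputable def xc228 : XT := (XT.nd (nat_lit 1950) (nat_lit 9880) (nat_lit 0) (XT.nd (nat_lit 936) (nat_lit 5852) (nat_lit 0) (XT.nd (nat_lit 468) (nat_lit 0) (nat_lit 152) (XT.nd (nat_lit 234) (nat_lit 0) (nat_lit 0) (XT.nd (nat_lit 78) (nat_lit 1748) (nat_lit 0) (XT.lf (nat_lit 76) (nat_lit 5990104404) (nat_lit 0) (nat_lit 12804463771) (nat_lit 1824) (nat_lit 1188762771) (nat_lit 473) (nat_lit 5) (nat_lit 472) (nat_lit 5) (nat_lit 496) (nat_lit 5) (nat_lit 606) (nat_lit 594) (nat_lit 360)) (XT.nd (nat_lit 78) (nat_lit 1748) (nat_lit 0) (XT.lf (nat_lit 76) (nat_lit 16366220421)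 (nat_lit 0) (nat_lit 3575240589) (nat_lit 1824) (nat_lit 246574086) (nat_lit 473) (nat_lit 5) (nat_lit 472) (nat_lit 5) (nat_lit 496) (nat_lit 5) (nat_lit 607) (nat_lit 594) (nat_lit 359)) (XT.lf (nat_lit 0) (nat_lit 781975820) (nat_lit 1824) (nat_lit 13801868289) (nat_lit 1900) (nat_lit 5811359358) (nat_lit 449) (nat_lit 5) (nat_lit 473) (nat_lit 5) (nat_lit 474) (nat_lit 5) (nat_lit 608) (nat_lit 594) (nat_lit 358)))) (XT.nd (nat_lit 78) (nat_lit 0) (nat_lit 76) (XT.lf (nat_lit 0) (nat_lit 1872960458) (nat_lit 1824) (nat_lit 3366002917) (nat_lit 1900) (nat_lit 15366616580) (nat_lit 449) (nat_lit 5) (nat_lit 473) (nat_lit 5) (nat_lit 474) (nat_lit 5) (nat_lit 609) (nat_lit 594) (nat_lit 357)) (XT.nd (nat_lit 78) (nat_lit 0) (nat_lit 0) (XT.lf (nat_lit 0) (nat_lit 3057580502) (nat_lit 1824) (nat_lit 13475274521) (nat_lit 1900) (nat_lit 4285873278) (nat_lit 450) (nat_lit 5) (nat_lit 474) (nat_lit 5) (nat_lit 475) (nat_lit 5) (nat_lit 610) (nat_lit 594) (nat_lit 356)) (XT.lf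 (nat_lit 0) (nat_lit 4319150205) (nat_lit 1824) (nat_lit 2760930986) (nat_lit 1900) (nat_lit 13954993906) (nat_lit 450) (nat_lit 5) (nat_lit 474) (nat_lit 5) (nat_lit 475) (nat_lit 5) (nat_lit 611) (nat_lit 594) (nat_lit 355))))) (XT.nd (nat_lit 234) (nat_lit 0) (nat_lit 76) (XT.nd (nat_lit 78) (nat_lit 0) (nat_lit 0) (XT.lf (nat_lit 0) (nat_lit 5672567752) (nat_lit 1824) (nat_lit 12998612674) (nat_lit 1900) (nat_lit 2583236691) (nat_lit 451) (nat_lit 5) (nat_lit 475) (nat_lit 5) (nat_lit 476) (nat_lit 5) (nat_lit 612) (nat_lit 594) (nat_lit 354)) (XT.nd (nat_lit 78) (nat_lit 0) (nat_lit 76) (XT.lf (nat_lit 0) (nat_lit 7114565284) (nat_lit 1824) (nat_lit 1997617688) (nat_lit 1900) (nat_lit 12364733377) (nat_lit 451) (nat_lit 5) (nat_lit 475) (nat_lit 5) (nat_lit 476) (nat_lit 5) (nat_lit 613) (nat_lit 594) (nat_lit 353)) (XT.lf (nat_lit 0) (nat_lit 8646665148) (nat_lit 1824) (nat_lit 12364421048) (nat_lit 1900) (nat_lit 691554715) (nat_lit 452) (nat_lit 5) (nat_lit 476)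 (nat_lit 5) (nat_lit 477) (nat_lit 5) (nat_lit 614) (nat_lit 594) (nat_lit 352)))) (XT.nd (nat_lit 78) (nat_lit 0) (nat_lit 0) (XT.lf (nat_lit 0) (nat_lit 10279362115) (nat_lit 1824) (nat_lit 1068327388) (nat_lit 1900) (nat_lit 10583791940) (nat_lit 452) (nat_lit 5) (nat_lit 476) (nat_lit 5) (nat_lit 477) (nat_lit 5) (nat_lit 615) (nat_lit 594) (nat_lit 351)) (XT.nd (nat_lit 78) (nat_lit 0) (nat_lit 76) (XT.lf (nat_lit 76) (nat_lit 10589499207) (nat_lit 0) (nat_lit 1420159714) (nat_lit 1900) (nat_lit 10153941516) (nat_lit 453) (nat_lit 5) (nat_lit 452) (nat_lit 5) (nat_lit 477) (nat_lit 5) (nat_lit 616) (nat_lit 594) (nat_lit 350)) (XT.lf (nat_lit 76) (nat_lit 35506860) (nat_lit 0) (nat_lit 13799277719) (nat_lit 1900) (nat_lit 8564373332) (nat_lit 454) (nat_lit 5) (nat_lit 453) (nat_lit 5) (nat_lit 478) (nat_lit 5) (nat_lit 617) (nat_lit 594) (nat_lit 349)))))) (XT.nd (nat_lit 468) (nat_lit 2584) (nat_lit 0) (XT.nd (nat_lit 234) (nat_lit 1976) (nat_lit 0) (XT.nd (nat_lit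 78) (nat_lit 1596) (nat_lit 0) (XT.lf (nat_lit 76) (nat_lit 12021555596) (nat_lit 0) (nat_lit 3758173178) (nat_lit 1900) (nat_lit 6858031987) (nat_lit 454) (nat_lit 5) (nat_lit 453) (nat_lit 5) (nat_lit 478) (nat_lit 5) (nat_lit 618) (nat_lit 594) (nat_lit 348)) (XT.nd (nat_lit 78) (nat_lit 0) (nat_lit 0) (XT.lf (nat_lit 0) (nat_lit 1338520556) (nat_lit 1672) (nat_lit 16472219423) (nat_lit 1748) (nat_lit 5069452864) (nat_lit 432) (nat_lit 5) (nat_lit 454) (nat_lit 5) (nat_lit 455) (nat_lit 5) (nat_lit 619) (nat_lit 594) (nat_lit 347)) (XT.lf (nat_lit 0) (nat_lit 13647920313) (nat_lit 1672) (nat_lit 6326847774) (nat_lit 1748) (nat_lit 3150858074) (nat_lit 432) (nat_lit 5) (nat_lit 454) (nat_lit 5) (nat_lit 455) (nat_lit 5) (nat_lit 620) (nat_lit 594) (nat_lit 346)))) (XT.nd (nat_lit 78) (nat_lit 988) (nat_lit 0) (XT.lf (nat_lit 0) (nat_lit 2835499072) (nat_lit 988) (nat_lit 19387601863) (nat_lit 1064) (nat_lit 1152047239) (nat_lit 419) (nat_lit 5) (nat_lit 432) (nat_lit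 5) (nat_lit 433) (nat_lit 5) (nat_lit 621) (nat_lit 594) (nat_lit 345)) (XT.nd (nat_lit 78) (nat_lit 912) (nat_lit 0) (XT.lf (nat_lit 0) (nat_lit 977560836) (nat_lit 1064) (nat_lit 8156171110) (nat_lit 76) (nat_lit 14493765020) (nat_lit 418) (nat_lit 5) (nat_lit 432) (nat_lit 5) (nat_lit 419) (nat_lit 5) (nat_lit 622) (nat_lit 594) (nat_lit 344)) (XT.lf (nat_lit 0) (nat_lit 3169168595) (nat_lit 988) (nat_lit 19369481401) (nat_lit 76) (nat_lit 1345394250) (nat_lit 406) (nat_lit 5) (nat_lit 419) (nat_lit 5) (nat_lit 407) (nat_lit 5) (nat_lit 623) (nat_lit 594) (nat_lit 343))))) (XT.nd (nat_lit 234) (nat_lit 1672) (nat_lit 0) (XT.nd (nat_lit 78) (nat_lit 912) (nat_lit 0) (XT.lf (nat_lit 0) (nat_lit 5516837772) (nat_lit 988) (nat_lit 6659340812) (nat_lit 76) (nat_lit 11967299781) (nat_lit 406) (nat_lit 5) (nat_lit 419) (nat_lit 5) (nat_lit 407) (nat_lit 5) (nat_lit 624) (nat_lit 594) (nat_lit 342)) (XT.nd (nat_lit 78) (nat_lit 0) (nat_lit 0) (XT.lf (nat_lit 0) (nat_lit 6385680611)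 (nat_lit 912) (nat_lit 1563951861) (nat_lit 988) (nat_lit 16457705721) (nat_lit 394) (nat_lit 5) (nat_lit 406) (nat_lit 5) (nat_lit 407) (nat_lit 5) (nat_lit 625) (nat_lit 594) (nat_lit 341)) (XT.lf (nat_lit 0) (nat_lit 10532950098) (nat_lit 988) (nat_lit 4957248953) (nat_lit 76) (nat_lit 9184239282) (nat_lit 394) (nat_lit 5) (nat_lit 407) (nat_lit 5) (nat_lit 395) (nat_lit 5) (nat_lit 626) (nat_lit 594) (nat_lit 340)))) (XT.nd (nat_lit 156) (nat_lit 836) (nat_lit 0) (XT.nd (nat_lit 78) (nat_lit 0) (nat_lit 0) (XT.lf (nat_lit 0) (nat_lit 8466067996) (nat_lit 836) (nat_lit 4764012247) (nat_lit 912) (nat_lit 11715557759) (nat_lit 383) (nat_lit 5) (nat_lit 394) (nat_lit 5) (nat_lit 395) (nat_lit 5) (nat_lit 627) (nat_lit 594) (nat_lit 339)) (XT.lf (nat_lit 0) (nat_lit 16051607060) (nat_lit 912) (nat_lit 3039972030) (nat_lit 76) (nat_lit 6129273932) (nat_lit 383) (nat_lit 5) (nat_lit 395) (nat_lit 5) (nat_lit 384) (nat_lit 5) (nat_lit 628) (nat_lit 594) (nat_lit 338))) (XT.nd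 (nat_lit 78) (nat_lit 0) (nat_lit 0) (XT.lf (nat_lit 0) (nat_lit 10775146676) (nat_lit 836) (nat_lit 8252853155) (nat_lit 912) (nat_lit 6471604237) (nat_lit 372) (nat_lit 5) (nat_lit 383) (nat_lit 5) (nat_lit 384) (nat_lit 5) (nat_lit 629) (nat_lit 594) (nat_lit 337)) (XT.lf (nat_lit 0) (nat_lit 22099619035) (nat_lit 912) (nat_lit 897159144) (nat_lit 76) (nat_lit 2786438405) (nat_lit 372) (nat_lit 5) (nat_lit 384) (nat_lit 5) (nat_lit 373) (nat_lit 5) (nat_lit 630) (nat_lit 594) (nat_lit 336))))))) (XT.nd (nat_lit 936) (nat_lit 4484) (nat_lit 0) (XT.nd (nat_lit 468) (nat_lit 2204) (nat_lit 0) (XT.nd (nat_lit 234) (nat_lit 1520) (nat_lit 0) (XT.nd (nat_lit 78) (nat_lit 912) (nat_lit 0) (XT.lf (nat_lit 0) (nat_lit 13323753599) (nat_lit 760) (nat_lit 12047104819) (nat_lit 836) (nat_lit 698879594) (nat_lit 362) (nat_lit 5) (nat_lit 372) (nat_lit 5) (nat_lit 373) (nat_lit 5) (nat_lit 631) (nat_lit 594) (nat_lit 335)) (XT.nd (nat_lit 78) (nat_lit 0) (nat_lit 0) (XT.lf (nat_lit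 0) (nat_lit 1480484533) (nat_lit 836) (nat_lit 847004150) (nat_lit 912) (nat_lit 24033942647) (nat_lit 350) (nat_lit 5) (nat_lit 361) (nat_lit 5) (nat_lit 362) (nat_lit 5) (nat_lit 632) (nat_lit 594) (nat_lit 334)) (XT.lf (nat_lit 0) (nat_lit 5556890449) (nat_lit 912) (nat_lit 10569936228) (nat_lit 76) (nat_lit 10529002556) (nat_lit 350) (nat_lit 5) (nat_lit 362) (nat_lit 5) (nat_lit 351) (nat_lit 5) (nat_lit 633) (nat_lit 594) (nat_lit 333)))) (XT.nd (nat_lit 78) (nat_lit 760) (nat_lit 0) (XT.lf (nat_lit 0) (nat_lit 4072073515) (nat_lit 760) (nat_lit 4807994957) (nat_lit 836) (nat_lit 18075463238) (nat_lit 340) (nat_lit 5) (nat_lit 350) (nat_lit 5) (nat_lit 351) (nat_lit 5) (nat_lit 634) (nat_lit 594) (nat_lit 332)) (XT.nd (nat_lit 78) (nat_lit 760) (nat_lit 0) (XT.lf (nat_lit 0) (nat_lit 12382027881) (nat_lit 836) (nat_lit 8156873678) (nat_lit 76) (nat_lit 6720080699) (nat_lit 340) (nat_lit 5) (nat_lit 351) (nat_lit 5) (nat_lit 341) (nat_lit 5) (nat_lit 635) (nat_lit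 594) (nat_lit 331)) (XT.lf (nat_lit 0) (nat_lit 6920167047) (nat_lit 760) (nat_lit 9107861942) (nat_lit 836) (nat_lit 11538993145) (nat_lit 330) (nat_lit 5) (nat_lit 340) (nat_lit 5) (nat_lit 341) (nat_lit 5) (nat_lit 636) (nat_lit 594) (nat_lit 330))))) (XT.nd (nat_lit 234) (nat_lit 1520) (nat_lit 0) (XT.nd (nat_lit 78) (nat_lit 684) (nat_lit 0) (XT.lf (nat_lit 0) (nat_lit 19815882094) (nat_lit 836) (nat_lit 5490768852) (nat_lit 76) (nat_lit 2573193584) (nat_lit 330) (nat_lit 5) (nat_lit 341) (nat_lit 5) (nat_lit 331) (nat_lit 5) (nat_lit 637) (nat_lit 594) (nat_lit 329)) (XT.nd (nat_lit 78) (nat_lit 0) (nat_lit 0) (XT.lf (nat_lit 0) (nat_lit 10036788313) (nat_lit 684) (nat_lit 13765504632) (nat_lit 760) (nat_lit 4394174769) (nat_lit 321) (nat_lit 5) (nat_lit 330) (nat_lit 5) (nat_lit 331) (nat_lit 5) (nat_lit 638) (nat_lit 594) (nat_lit 328)) (XT.lf (nat_lit 0) (nat_lit 25946376853) (nat_lit 684) (nat_lit 1956252777) (nat_lit 760) (nat_lit 616110126) (nat_lit 321) (nat_lit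 5) (nat_lit 330) (nat_lit 5) (nat_lit 331) (nat_lit 5) (nat_lit 639) (nat_lit 594) (nat_lit 327)))) (XT.nd (nat_lit 78) (nat_lit 684) (nat_lit 0) (XT.lf (nat_lit 0) (nat_lit 3346181839) (nat_lit 836) (nat_lit 15432020954) (nat_lit 76) (nat_lit 10065811846) (nat_lit 310) (nat_lit 5) (nat_lit 321) (nat_lit 5) (nat_lit 311) (nat_lit 5) (nat_lit 640) (nat_lit 594) (nat_lit 326)) (XT.nd (nat_lit 78) (nat_lit 0) (nat_lit 0) (XT.lf (nat_lit 0) (nat_lit 562730722) (nat_lit 684) (nat_lit 6848148421) (nat_lit 760) (nat_lit 21764206570) (nat_lit 301) (nat_lit 5) (nat_lit 310) (nat_lit 5) (nat_lit 311) (nat_lit 5) (nat_lit 641) (nat_lit 594) (nat_lit 325)) (XT.lf (nat_lit 0) (nat_lit 11693102875) (nat_lit 760) (nat_lit 12462360452) (nat_lit 76) (nat_lit 5354590551) (nat_lit 301) (nat_lit 5) (nat_lit 311) (nat_lit 5) (nat_lit 302) (nat_lit 5) (nat_lit 642) (nat_lit 594) (nat_lit 324)))))) (XT.nd (nat_lit 468) (nat_lit 2432) (nat_lit 0) (XT.nd (nat_lit 234) (nat_lit 760) (nat_lit 0)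 (XT.nd (nat_lit 78) (nat_lit 608) (nat_lit 0) (XT.lf (nat_lit 0) (nat_lit 4015012303) (nat_lit 684) (nat_lit 12114874398) (nat_lit 760) (nat_lit 13720456709) (nat_lit 292) (nat_lit 5) (nat_lit 301) (nat_lit 5) (nat_lit 302) (nat_lit 5) (nat_lit 643) (nat_lit 594) (nat_lit 323)) (XT.nd (nat_lit 78) (nat_lit 608) (nat_lit 0) (XT.lf (nat_lit 0) (nat_lit 20738193166) (nat_lit 760) (nat_lit 9209493123) (nat_lit 76) (nat_lit 248097012) (nat_lit 292) (nat_lit 5) (nat_lit 302) (nat_lit 5) (nat_lit 293) (nat_lit 5) (nat_lit 644) (nat_lit 594) (nat_lit 322)) (XT.lf (nat_lit 0) (nat_lit 7767607146) (nat_lit 608) (nat_lit 17799293527) (nat_lit 684) (nat_lit 4978666921) (nat_lit 284) (nat_lit 5) (nat_lit 292) (nat_lit 5) (nat_lit 293) (nat_lit 5) (nat_lit 645) (nat_lit 594) (nat_lit 321)))) (XT.nd (nat_lit 78) (nat_lit 760) (nat_lit 0) (XT.lf (nat_lit 0) (nat_lit 25206208501) (nat_lit 608) (nat_lit 5345374808) (nat_lit 684) (nat_lit 349576540) (nat_lit 284) (nat_lit 5) (nat_lit 292)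 (nat_lit 5) (nat_lit 293) (nat_lit 5) (nat_lit 646) (nat_lit 594) (nat_lit 320)) (XT.nd (nat_lit 78) (nat_lit 0) (nat_lit 0) (XT.lf (nat_lit 0) (nat_lit 4437815212) (nat_lit 760) (nat_lit 19456325047) (nat_lit 76) (nat_lit 7366695038) (nat_lit 274) (nat_lit 5) (nat_lit 284) (nat_lit 5) (nat_lit 275) (nat_lit 5) (nat_lit 647) (nat_lit 594) (nat_lit 319)) (XT.lf (nat_lit 0) (nat_lit 9387803828) (nat_lit 760) (nat_lit 1936628738) (nat_lit 76) (nat_lit 20301795155) (nat_lit 274) (nat_lit 5) (nat_lit 284) (nat_lit 5) (nat_lit 275) (nat_lit 5) (nat_lit 648) (nat_lit 594) (nat_lit 318))))) (XT.nd (nat_lit 234) (nat_lit 1216) (nat_lit 0) (XT.nd (nat_lit 78) (nat_lit 608) (nat_lit 0) (XT.lf (nat_lit 0) (nat_lit 14549709499) (nat_lit 684) (nat_lit 15864936837) (nat_lit 76) (nat_lit 1582023585) (nat_lit 266) (nat_lit 5) (nat_lit 275) (nat_lit 5) (nat_lit 267) (nat_lit 5) (nat_lit 649) (nat_lit 594) (nat_lit 317)) (XT.nd (nat_lit 78) (nat_lit 0) (nat_lit 0) (XT.lf (nat_lit 0) (nat_lit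 2163904621) (nat_lit 608) (nat_lit 17750802057) (nat_lit 684) (nat_lit 12457817488) (nat_lit 258) (nat_lit 5) (nat_lit 266) (nat_lit 5) (nat_lit 267) (nat_lit 5) (nat_lit 650) (nat_lit 594) (nat_lit 316)) (XT.lf (nat_lit 0) (nat_lit 20765549349) (nat_lit 608) (nat_lit 4725668549) (nat_lit 684) (nat_lit 7262593578) (nat_lit 258) (nat_lit 5) (nat_lit 266) (nat_lit 5) (nat_lit 267) (nat_lit 5) (nat_lit 651) (nat_lit 594) (nat_lit 315)))) (XT.nd (nat_lit 156) (nat_lit 608) (nat_lit 0) (XT.nd (nat_lit 78) (nat_lit 76) (nat_lit 0) (XT.lf (nat_lit 0) (nat_lit 6625001359) (nat_lit 532) (nat_lit 24650641291) (nat_lit 608) (nat_lit 1865154476) (nat_lit 251) (nat_lit 5) (nat_lit 258) (nat_lit 5) (nat_lit 259) (nat_lit 5) (nat_lit 652) (nat_lit 594) (nat_lit 314)) (XT.lf (nat_lit 0) (nat_lit 3702570083) (nat_lit 608) (nat_lit 7819165885) (nat_lit 76) (nat_lit 22011112492) (nat_lit 250) (nat_lit 5) (nat_lit 258) (nat_lit 5) (nat_lit 251) (nat_lit 5) (nat_lit 653) (nat_lit 594) (nat_lit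 313))) (XT.nd (nat_lit 76596) (nat_lit 0) (nat_lit 17100) (XT.lf (nat_lit 0) (nat_lit 9441173889) (nat_lit 684) (nat_lit 22558164643) (nat_lit 76) (nat_lit 1931465975) (nat_lit 242) (nat_lit 5) (nat_lit 251) (nat_lit 5) (nat_lit 243) (nat_lit 5) (nat_lit 654) (nat_lit 594) (nat_lit 312)) (XT.lf (nat_lit 0) (nat_lit 2783171681) (nat_lit 0) (nat_lit 2783171681) (nat_lit 1748) (nat_lit 3477757800) (nat_lit 467) (nat_lit 5) (nat_lit 467) (nat_lit 3) (nat_lit 490) (nat_lit 3) (nat_lit 595) (nat_lit 595) (nat_lit 370))))))))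
noncomputable def xc229 : XT := (XT.nd (nat_lit 1950) (nat_lit 10640) (nat_lit 0) (XT.nd (nat_lit 936) (nat_lit 2660) (nat_lit 0) (XT.nd (nat_lit 468) (nat_lit 0) (nat_lit 228) (XT.nd (nat_lit 234) (nat_lit 0) (nat_lit 76) (XT.nd (nat_lit 78) (nat_lit 0) (nat_lit 0) (XT.lf (nat_lit 0) (nat_lit 11466506889) (nat_lit 1748) (nat_lit 3677861266) (nat_lit 1824) (nat_lit 3120234689) (nat_lit 467) (nat_lit 5) (nat_lit 490) (nat_lit 3) (nat_lit 491) (nat_lit 5) (nat_lit 596) (nat_lit 595) (nat_lit 369)) (XT.nd (nat_lit 78) (nat_lit 0) (nat_lit 76) (XT.lf (nat_lit 76) (nat_lit 5373859523) (nat_lit 0) (nat_lit 6499617367) (nat_lit 1824) (nat_lit 6569725846) (nat_lit 468) (nat_lit 5) (nat_lit 467) (nat_lit 5) (nat_lit 491) (nat_lit 5) (nat_lit 597) (nat_lit 595) (nat_lit 368)) (XT.lf (nat_lit 0) (nat_lit 12323301370) (nat_lit 1748) (nat_lit 3986500640) (nat_lit 1824) (nat_lit 2314879128) (nat_lit 468) (nat_lit 5) (nat_lit 491) (nat_lit 5) (nat_lit 492) (nat_lit 5) (nat_lit 598)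 (nat_lit 595) (nat_lit 367)))) (XT.nd (nat_lit 78) (nat_lit 0) (nat_lit 76) (XT.lf (nat_lit 76) (nat_lit 5301668568) (nat_lit 0) (nat_lit 7552842159) (nat_lit 1824) (nat_lit 5953831410) (nat_lit 469) (nat_lit 5) (nat_lit 468) (nat_lit 5) (nat_lit 492) (nat_lit 5) (nat_lit 599) (nat_lit 595) (nat_lit 366)) (XT.nd (nat_lit 78) (nat_lit 0) (nat_lit 0) (XT.lf (nat_lit 0) (nat_lit 13427246252) (nat_lit 1748) (nat_lit 4177549457) (nat_lit 1824) (nat_lit 1390263390) (nat_lit 469) (nat_lit 5) (nat_lit 492) (nat_lit 5) (nat_lit 493) (nat_lit 5) (nat_lit 600) (nat_lit 595) (nat_lit 365)) (XT.lf (nat_lit 76) (nat_lit 5355518924) (nat_lit 0) (nat_lit 8735823896) (nat_lit 1824) (nat_lit 5092570220) (nat_lit 470) (nat_lit 5) (nat_lit 469) (nat_lit 5) (nat_lit 493) (nat_lit 5) (nat_lit 601) (nat_lit 595) (nat_lit 364))))) (XT.nd (nat_lit 234) (nat_lit 0) (nat_lit 76) (XT.nd (nat_lit 78) (nat_lit 0) (nat_lit 0) (XT.lf (nat_lit 0) (nat_lit 14794162716) (nat_lit 1748) (nat_lit 4245257578)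 (nat_lit 1824) (nat_lit 336615689) (nat_lit 470) (nat_lit 5) (nat_lit 493) (nat_lit 5) (nat_lit 494) (nat_lit 5) (nat_lit 602) (nat_lit 595) (nat_lit 363)) (XT.nd (nat_lit 78) (nat_lit 0) (nat_lit 0) (XT.lf (nat_lit 76) (nat_lit 5541474970) (nat_lit 0) (nat_lit 10058696145) (nat_lit 1824) (nat_lit 3970048366) (nat_lit 471) (nat_lit 5) (nat_lit 470) (nat_lit 5) (nat_lit 494) (nat_lit 5) (nat_lit 603) (nat_lit 595) (nat_lit 362)) (XT.lf (nat_lit 76) (nat_lit 15578615752) (nat_lit 0) (nat_lit 867545389) (nat_lit 1824) (nat_lit 3321649001) (nat_lit 471) (nat_lit 5) (nat_lit 470) (nat_lit 5) (nat_lit 494) (nat_lit 5) (nat_lit 604) (nat_lit 595) (nat_lit 361)))) (XT.nd (nat_lit 78) (nat_lit 0) (nat_lit 0) (XT.lf (nat_lit 76) (nat_lit 5865925250) (nat_lit 0) (nat_lit 11531942491) (nat_lit 1824) (nat_lit 2569709647) (nat_lit 472) (nat_lit 5) (nat_lit 471) (nat_lit 5) (nat_lit 495) (nat_lit 5) (nat_lit 605) (nat_lit 595) (nat_lit 360)) (XT.nd (nat_lit 78) (nat_lit 0) (nat_lit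 76) (XT.lf (nat_lit 76) (nat_lit 16170212150) (nat_lit 0) (nat_lit 2227760880) (nat_lit 1824) (nat_lit 1772780352) (nat_lit 472) (nat_lit 5) (nat_lit 471) (nat_lit 5) (nat_lit 495) (nat_lit 5) (nat_lit 606) (nat_lit 595) (nat_lit 359)) (XT.lf (nat_lit 76) (nat_lit 6335591146) (nat_lit 0) (nat_lit 13166419705) (nat_lit 1824) (nat_lit 874304117) (nat_lit 473) (nat_lit 5) (nat_lit 472) (nat_lit 5) (nat_lit 496) (nat_lit 5) (nat_lit 607) (nat_lit 595) (nat_lit 358)))))) (XT.nd (nat_lit 468) (nat_lit 1216) (nat_lit 0) (XT.nd (nat_lit 234) (nat_lit 0) (nat_lit 152) (XT.nd (nat_lit 78) (nat_lit 0) (nat_lit 76) (XT.lf (nat_lit 0) (nat_lit 79045825) (nat_lit 1824) (nat_lit 3670959978) (nat_lit 1900) (nat_lit 16835228029) (nat_lit 448) (nat_lit 5) (nat_lit 472) (nat_lit 5) (nat_lit 473) (nat_lit 5) (nat_lit 608) (nat_lit 595) (nat_lit 357)) (XT.nd (nat_lit 78) (nat_lit 0) (nat_lit 0) (XT.lf (nat_lit 0) (nat_lit 1119269902) (nat_lit 1824) (nat_lit 13846600720) (nat_lit 1900) (nat_lit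 5830755227) (nat_lit 449) (nat_lit 5) (nat_lit 473) (nat_lit 5) (nat_lit 474) (nat_lit 5) (nat_lit 609) (nat_lit 595) (nat_lit 356)) (XT.lf (nat_lit 0) (nat_lit 2225767280) (nat_lit 1824) (nat_lit 3206553432) (nat_lit 1900) (nat_lit 15579016247) (nat_lit 449) (nat_lit 5) (nat_lit 473) (nat_lit 5) (nat_lit 474) (nat_lit 5) (nat_lit 610) (nat_lit 595) (nat_lit 355)))) (XT.nd (nat_lit 78) (nat_lit 0) (nat_lit 0) (XT.lf (nat_lit 0) (nat_lit 3428804946) (nat_lit 1824) (nat_lit 13512688981) (nat_lit 1900) (nat_lit 4287360775) (nat_lit 450) (nat_lit 5) (nat_lit 474) (nat_lit 5) (nat_lit 475) (nat_lit 5) (nat_lit 611) (nat_lit 595) (nat_lit 354)) (XT.nd (nat_lit 78) (nat_lit 0) (nat_lit 76) (XT.lf (nat_lit 0) (nat_lit 4709526184) (nat_lit 1824) (nat_lit 2588609379) (nat_lit 1900) (nat_lit 14151515384) (nat_lit 450) (nat_lit 5) (nat_lit 474) (nat_lit 5) (nat_lit 475) (nat_lit 5) (nat_lit 612) (nat_lit 595) (nat_lit 353)) (XT.lf (nat_lit 0) (nat_lit 6085042127) (nat_lit 1824) (nat_lit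 13026029853) (nat_lit 1900) (nat_lit 2562408124) (nat_lit 451) (nat_lit 5) (nat_lit 475) (nat_lit 5) (nat_lit 476) (nat_lit 5) (nat_lit 613) (nat_lit 595) (nat_lit 352))))) (XT.nd (nat_lit 234) (nat_lit 1444) (nat_lit 0) (XT.nd (nat_lit 78) (nat_lit 0) (nat_lit 76) (XT.lf (nat_lit 0) (nat_lit 7550016414) (nat_lit 1824) (nat_lit 1809574871) (nat_lit 1900) (nat_lit 12540956180) (nat_lit 451) (nat_lit 5) (nat_lit 475) (nat_lit 5) (nat_lit 476) (nat_lit 5) (nat_lit 614) (nat_lit 595) (nat_lit 351)) (XT.nd (nat_lit 78) (nat_lit 0) (nat_lit 0) (XT.lf (nat_lit 0) (nat_lit 9108075543) (nat_lit 1824) (nat_lit 12378988414) (nat_lit 1900) (nat_lit 643817079) (nat_lit 452) (nat_lit 5) (nat_lit 476) (nat_lit 5) (nat_lit 477) (nat_lit 5) (nat_lit 615) (nat_lit 595) (nat_lit 350)) (XT.lf (nat_lit 0) (nat_lit 10767770036) (nat_lit 1824) (nat_lit 861536038) (nat_lit 1900) (nat_lit 10735106278) (nat_lit 452) (nat_lit 5) (nat_lit 476) (nat_lit 5) (nat_lit 477) (nat_lit 5) (nat_lit 616)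 (nat_lit 595) (nat_lit 349)))) (XT.nd (nat_lit 156) (nat_lit 1520) (nat_lit 0) (XT.nd (nat_lit 78) (nat_lit 0) (nat_lit 76) (XT.lf (nat_lit 76) (nat_lit 11027946049) (nat_lit 0) (nat_lit 1500652831) (nat_lit 1900) (nat_lit 10072657153) (nat_lit 453) (nat_lit 5) (nat_lit 452) (nat_lit 5) (nat_lit 477) (nat_lit 5) (nat_lit 617) (nat_lit 595) (nat_lit 348)) (XT.lf (nat_lit 76) (nat_lit 267298131) (nat_lit 0) (nat_lit 14118632059) (nat_lit 1900) (nat_lit 8455681218) (nat_lit 454) (nat_lit 5) (nat_lit 453) (nat_lit 5) (nat_lit 478) (nat_lit 5) (nat_lit 618) (nat_lit 595) (nat_lit 347))) (XT.nd (nat_lit 78) (nat_lit 1596) (nat_lit 0) (XT.lf (nat_lit 76) (nat_lit 12488536839) (nat_lit 0) (nat_lit 3875855060) (nat_lit 1900) (nat_lit 6720702842) (nat_lit 454) (nat_lit 5) (nat_lit 453) (nat_lit 5) (nat_lit 478) (nat_lit 5) (nat_lit 619) (nat_lit 595) (nat_lit 346)) (XT.lf (nat_lit 0) (nat_lit 1596010449) (nat_lit 1672) (nat_lit 16835964364) (nat_lit 1748) (nat_lit 4900482403) (nat_lit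 432) (nat_lit 5) (nat_lit 454) (nat_lit 5) (nat_lit 455) (nat_lit 5) (nat_lit 620) (nat_lit 595) (nat_lit 345))))))) (XT.nd (nat_lit 936) (nat_lit 5320) (nat_lit 0) (XT.nd (nat_lit 468) (nat_lit 2432) (nat_lit 0) (XT.nd (nat_lit 234) (nat_lit 1824) (nat_lit 0) (XT.nd (nat_lit 78) (nat_lit 1064) (nat_lit 0) (XT.lf (nat_lit 0) (nat_lit 14147074289) (nat_lit 1672) (nat_lit 6487012722) (nat_lit 1748) (nat_lit 2948816884) (nat_lit 432) (nat_lit 5) (nat_lit 454) (nat_lit 5) (nat_lit 455) (nat_lit 5) (nat_lit 621) (nat_lit 595) (nat_lit 344)) (XT.nd (nat_lit 78) (nat_lit 76) (nat_lit 0) (XT.lf (nat_lit 0) (nat_lit 3122333743) (nat_lit 988) (nat_lit 19801238262) (nat_lit 1064) (nat_lit 913921386) (nat_lit 419) (nat_lit 5) (nat_lit 432) (nat_lit 5) (nat_lit 433) (nat_lit 5) (nat_lit 622) (nat_lit 595) (nat_lit 343)) (XT.lf (nat_lit 0) (nat_lit 1249799845) (nat_lit 1064) (nat_lit 8090287896) (nat_lit 76) (nat_lit 14754869300) (nat_lit 418) (nat_lit 5) (nat_lit 432) (nat_lit 5)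 (nat_lit 419) (nat_lit 5) (nat_lit 623) (nat_lit 595) (nat_lit 342)))) (XT.nd (nat_lit 78) (nat_lit 912) (nat_lit 0) (XT.lf (nat_lit 0) (nat_lit 3481621221) (nat_lit 988) (nat_lit 19524210456) (nat_lit 76) (nat_lit 1350876671) (nat_lit 406) (nat_lit 5) (nat_lit 419) (nat_lit 5) (nat_lit 407) (nat_lit 5) (nat_lit 624) (nat_lit 595) (nat_lit 341)) (XT.nd (nat_lit 78) (nat_lit 912) (nat_lit 0) (XT.lf (nat_lit 0) (nat_lit 5871360071) (nat_lit 988) (nat_lit 6564429027) (nat_lit 76) (nat_lit 12185640419) (nat_lit 406) (nat_lit 5) (nat_lit 419) (nat_lit 5) (nat_lit 407) (nat_lit 5) (nat_lit 625) (nat_lit 595) (nat_lit 340)) (XT.lf (nat_lit 0) (nat_lit 6739992175) (nat_lit 912) (nat_lit 1609501761) (nat_lit 988) (nat_lit 16541139619) (nat_lit 394) (nat_lit 5) (nat_lit 406) (nat_lit 5) (nat_lit 407) (nat_lit 5) (nat_lit 626) (nat_lit 595) (nat_lit 339))))) (XT.nd (nat_lit 234) (nat_lit 1596) (nat_lit 0) (XT.nd (nat_lit 78) (nat_lit 836) (nat_lit 0) (XT.lf (nat_lit 0) (nat_lit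 10979664158) (nat_lit 988) (nat_lit 4829391962) (nat_lit 76) (nat_lit 9354116521) (nat_lit 394) (nat_lit 5) (nat_lit 407) (nat_lit 5) (nat_lit 395) (nat_lit 5) (nat_lit 627) (nat_lit 595) (nat_lit 338)) (XT.nd (nat_lit 78) (nat_lit 0) (nat_lit 0) (XT.lf (nat_lit 0) (nat_lit 8860897892) (nat_lit 836) (nat_lit 4866674634) (nat_lit 912) (nat_lit 11712287719) (nat_lit 383) (nat_lit 5) (nat_lit 394) (nat_lit 5) (nat_lit 395) (nat_lit 5) (nat_lit 628) (nat_lit 595) (nat_lit 337)) (XT.lf (nat_lit 0) (nat_lit 16600916406) (nat_lit 912) (nat_lit 2875039135) (nat_lit 76) (nat_lit 6244716936) (nat_lit 383) (nat_lit 5) (nat_lit 395) (nat_lit 5) (nat_lit 384) (nat_lit 5) (nat_lit 629) (nat_lit 595) (nat_lit 336)))) (XT.nd (nat_lit 78) (nat_lit 760) (nat_lit 0) (XT.lf (nat_lit 0) (nat_lit 11214896864) (nat_lit 836) (nat_lit 8418920106) (nat_lit 912) (nat_lit 6371242602) (nat_lit 372) (nat_lit 5) (nat_lit 383) (nat_lit 5) (nat_lit 384) (nat_lit 5) (nat_lit 630) (nat_lit 595) (nat_lit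 335)) (XT.nd (nat_lit 78) (nat_lit 760) (nat_lit 0) (XT.lf (nat_lit 0) (nat_lit 22762445324) (nat_lit 912) (nat_lit 690798025) (nat_lit 76) (nat_lit 2841190072) (nat_lit 372) (nat_lit 5) (nat_lit 384) (nat_lit 5) (nat_lit 373) (nat_lit 5) (nat_lit 631) (nat_lit 595) (nat_lit 334)) (XT.lf (nat_lit 0) (nat_lit 13813057287) (nat_lit 760) (nat_lit 12283168882) (nat_lit 836) (nat_lit 490517379) (nat_lit 362) (nat_lit 5) (nat_lit 372) (nat_lit 5) (nat_lit 373) (nat_lit 5) (nat_lit 632) (nat_lit 595) (nat_lit 333)))))) (XT.nd (nat_lit 468) (nat_lit 2888) (nat_lit 0) (XT.nd (nat_lit 234) (nat_lit 760) (nat_lit 0) (XT.nd (nat_lit 78) (nat_lit 760) (nat_lit 0) (XT.lf (nat_lit 0) (nat_lit 1734383130) (nat_lit 836) (nat_lit 856232913) (nat_lit 912) (nat_lit 24293683323) (nat_lit 350) (nat_lit 5) (nat_lit 361) (nat_lit 5) (nat_lit 362) (nat_lit 5) (nat_lit 633) (nat_lit 595) (nat_lit 332)) (XT.nd (nat_lit 78) (nat_lit 760) (nat_lit 0) (XT.lf (nat_lit 0) (nat_lit 5880408310) (nat_lit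 912) (nat_lit 10557217863) (nat_lit 76) (nat_lit 10747043572) (nat_lit 350) (nat_lit 5) (nat_lit 362) (nat_lit 5) (nat_lit 351) (nat_lit 5) (nat_lit 634) (nat_lit 595) (nat_lit 331)) (XT.lf (nat_lit 0) (nat_lit 4376157620) (nat_lit 760) (nat_lit 4891173503) (nat_lit 836) (nat_lit 18223090084) (nat_lit 340) (nat_lit 5) (nat_lit 350) (nat_lit 5) (nat_lit 351) (nat_lit 5) (nat_lit 635) (nat_lit 595) (nat_lit 330)))) (XT.nd (nat_lit 78) (nat_lit 760) (nat_lit 0) (XT.lf (nat_lit 0) (nat_lit 12835301344) (nat_lit 836) (nat_lit 8097678320) (nat_lit 76) (nat_lit 6867042215) (nat_lit 340) (nat_lit 5) (nat_lit 351) (nat_lit 5) (nat_lit 341) (nat_lit 5) (nat_lit 636) (nat_lit 595) (nat_lit 329)) (XT.nd (nat_lit 78) (nat_lit 0) (nat_lit 0) (XT.lf (nat_lit 0) (nat_lit 7279440504) (nat_lit 760) (nat_lit 9272183988) (nat_lit 836) (nat_lit 11562650558) (nat_lit 330) (nat_lit 5) (nat_lit 340) (nat_lit 5) (nat_lit 341) (nat_lit 5) (nat_lit 637) (nat_lit 595) (nat_lit 328)) (XT.lf (nat_lit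 0) (nat_lit 20411367110) (nat_lit 836) (nat_lit 5380151048) (nat_lit 76) (nat_lit 2641913613) (nat_lit 330) (nat_lit 5) (nat_lit 341) (nat_lit 5) (nat_lit 331) (nat_lit 5) (nat_lit 638) (nat_lit 595) (nat_lit 327))))) (XT.nd (nat_lit 234) (nat_lit 1368) (nat_lit 0) (XT.nd (nat_lit 78) (nat_lit 836) (nat_lit 0) (XT.lf (nat_lit 0) (nat_lit 10456507042) (nat_lit 684) (nat_lit 14018515676) (nat_lit 760) (nat_lit 4281414886) (nat_lit 321) (nat_lit 5) (nat_lit 330) (nat_lit 5) (nat_lit 331) (nat_lit 5) (nat_lit 639) (nat_lit 595) (nat_lit 326)) (XT.nd (nat_lit 78) (nat_lit 836) (nat_lit 0) (XT.lf (nat_lit 0) (nat_lit 26679993569) (nat_lit 684) (nat_lit 1973516021) (nat_lit 760) (nat_lit 431723133) (nat_lit 321) (nat_lit 5) (nat_lit 330) (nat_lit 5) (nat_lit 331) (nat_lit 5) (nat_lit 640) (nat_lit 595) (nat_lit 325)) (XT.lf (nat_lit 0) (nat_lit 3604986603) (nat_lit 836) (nat_lit 15521095042) (nat_lit 76) (nat_lit 10290951365) (nat_lit 310) (nat_lit 5) (nat_lit 321) (nat_lit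 5) (nat_lit 311) (nat_lit 5) (nat_lit 641) (nat_lit 595) (nat_lit 324)))) (XT.nd (nat_lit 156) (nat_lit 684) (nat_lit 0) (XT.nd (nat_lit 78) (nat_lit 0) (nat_lit 0) (XT.lf (nat_lit 0) (nat_lit 792107152) (nat_lit 684) (nat_lit 6956524517) (nat_lit 760) (nat_lit 22006141236) (nat_lit 301) (nat_lit 5) (nat_lit 310) (nat_lit 5) (nat_lit 311) (nat_lit 5) (nat_lit 642) (nat_lit 595) (nat_lit 323)) (XT.lf (nat_lit 0) (nat_lit 12112965471) (nat_lit 760) (nat_lit 12494204982) (nat_lit 76) (nat_lit 5489341137) (nat_lit 301) (nat_lit 5) (nat_lit 311) (nat_lit 5) (nat_lit 302) (nat_lit 5) (nat_lit 643) (nat_lit 595) (nat_lit 322))) (XT.nd (nat_lit 78) (nat_lit 0) (nat_lit 0) (XT.lf (nat_lit 0) (nat_lit 4311284947) (nat_lit 684) (nat_lit 12324955193) (nat_lit 760) (nat_lit 13807412126) (nat_lit 292) (nat_lit 5) (nat_lit 301) (nat_lit 5) (nat_lit 302) (nat_lit 5) (nat_lit 644) (nat_lit 595) (nat_lit 321)) (XT.lf (nat_lit 0) (nat_lit 21333314752) (nat_lit 760) (nat_lit 9178524909)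 (nat_lit 76) (nat_lit 284229703) (nat_lit 292) (nat_lit 5) (nat_lit 302) (nat_lit 5) (nat_lit 293) (nat_lit 5) (nat_lit 645) (nat_lit 595) (nat_lit 320))))))))
noncomputable def xc230 : XT := (XT.nd (nat_lit 78546) (nat_lit 0) (nat_lit 6840) (XT.nd (nat_lit 77532) (nat_lit 0) (nat_lit 15048) (XT.nd (nat_lit 468) (nat_lit 608) (nat_lit 0) (XT.nd (nat_lit 234) (nat_lit 1216) (nat_lit 0) (XT.nd (nat_lit 78) (nat_lit 760) (nat_lit 0) (XT.lf (nat_lit 0) (nat_lit 8136701852) (nat_lit 608) (nat_lit 18119745890) (nat_lit 684) (nat_lit 4896445014) (nat_lit 284) (nat_lit 5) (nat_lit 292) (nat_lit 5) (nat_lit 293) (nat_lit 5) (nat_lit 646) (nat_lit 595) (nat_lit 319)) (XT.nd (nat_lit 78) (nat_lit 760) (nat_lit 0) (XT.lf (nat_lit 0) (nat_lit 25919884203) (nat_lit 608) (nat_lit 5417445533) (nat_lit 684) (nat_lit 178337439) (nat_lit 284) (nat_lit 5) (nat_lit 292) (nat_lit 5) (nat_lit 293) (nat_lit 5) (nat_lit 647) (nat_lit 595) (nat_lit 318)) (XT.lf (nat_lit 0) (nat_lit 4700620860)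 (nat_lit 760) (nat_lit 19631676836) (nat_lit 76) (nat_lit 7550252581) (nat_lit 274) (nat_lit 5) (nat_lit 284) (nat_lit 5) (nat_lit 275) (nat_lit 5) (nat_lit 648) (nat_lit 595) (nat_lit 317)))) (XT.nd (nat_lit 78) (nat_lit 1216) (nat_lit 0) (XT.lf (nat_lit 0) (nat_lit 9746196517) (nat_lit 760) (nat_lit 1765778261) (nat_lit 76) (nat_lit 20743344433) (nat_lit 274) (nat_lit 5) (nat_lit 284) (nat_lit 5) (nat_lit 275) (nat_lit 5) (nat_lit 649) (nat_lit 595) (nat_lit 316)) (XT.nd (nat_lit 78) (nat_lit 608) (nat_lit 0) (XT.lf (nat_lit 0) (nat_lit 15009603146) (nat_lit 684) (nat_lit 15970895433) (nat_lit 76) (nat_lit 1652706818) (nat_lit 266) (nat_lit 5) (nat_lit 275) (nat_lit 5) (nat_lit 267) (nat_lit 5) (nat_lit 650) (nat_lit 595) (nat_lit 315)) (XT.lf (nat_lit 0) (nat_lit 2417132459) (nat_lit 608) (nat_lit 18062819187) (nat_lit 684) (nat_lit 12536664443) (nat_lit 258) (nat_lit 5) (nat_lit 266) (nat_lit 5) (nat_lit 267) (nat_lit 5) (nat_lit 651) (nat_lit 595) (nat_lit 314)))))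 (XT.nd (nat_lit 76830) (nat_lit 0) (nat_lit 16492) (XT.nd (nat_lit 78) (nat_lit 608) (nat_lit 0) (XT.lf (nat_lit 0) (nat_lit 21386693420) (nat_lit 608) (nat_lit 4778026126) (nat_lit 684) (nat_lit 7240875455) (nat_lit 258) (nat_lit 5) (nat_lit 266) (nat_lit 5) (nat_lit 267) (nat_lit 5) (nat_lit 652) (nat_lit 595) (nat_lit 313)) (XT.nd (nat_lit 78) (nat_lit 76) (nat_lit 0) (XT.lf (nat_lit 0) (nat_lit 6964979445) (nat_lit 532) (nat_lit 25098259410) (nat_lit 608) (nat_lit 1737113762) (nat_lit 251) (nat_lit 5) (nat_lit 258) (nat_lit 5) (nat_lit 259) (nat_lit 5) (nat_lit 653) (nat_lit 595) (nat_lit 312)) (XT.lf (nat_lit 0) (nat_lit 3936597259) (nat_lit 608) (nat_lit 7769995293) (nat_lit 76) (nat_lit 22493695307) (nat_lit 250) (nat_lit 5) (nat_lit 258) (nat_lit 5) (nat_lit 251) (nat_lit 5) (nat_lit 654) (nat_lit 595) (nat_lit 311)))) (XT.nd (nat_lit 78) (nat_lit 0) (nat_lit 0) (XT.lf (nat_lit 0) (nat_lit 2939162186) (nat_lit 0) (nat_lit 2939162186) (nat_lit 1748) (nat_lit 3342614297)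 (nat_lit 467) (nat_lit 5) (nat_lit 467) (nat_lit 3) (nat_lit 490) (nat_lit 3) (nat_lit 596) (nat_lit 596) (nat_lit 368)) (XT.nd (nat_lit 78) (nat_lit 0) (nat_lit 0) (XT.lf (nat_lit 0) (nat_lit 12087999290) (nat_lit 1748) (nat_lit 3545491086) (nat_lit 1824) (nat_lit 2988499649) (nat_lit 467) (nat_lit 5) (nat_lit 490) (nat_lit 3) (nat_lit 491) (nat_lit 5) (nat_lit 597) (nat_lit 596) (nat_lit 367)) (XT.lf (nat_lit 76) (nat_lit 5685909333) (nat_lit 0) (nat_lit 6810838122) (nat_lit 1824) (nat_lit 6307542892) (nat_lit 468) (nat_lit 5) (nat_lit 467) (nat_lit 5) (nat_lit 491) (nat_lit 5) (nat_lit 598) (nat_lit 596) (nat_lit 366)))))) (XT.nd (nat_lit 468) (nat_lit 1520) (nat_lit 0) (XT.nd (nat_lit 234) (nat_lit 0) (nat_lit 76) (XT.nd (nat_lit 78) (nat_lit 0) (nat_lit 0) (XT.lf (nat_lit 0) (nat_lit 12946850116) (nat_lit 1748) (nat_lit 3856891714) (nat_lit 1824) (nat_lit 2185832039) (nat_lit 468) (nat_lit 5) (nat_lit 491) (nat_lit 5) (nat_lit 492) (nat_lit 5) (nat_lit 599) (nat_lit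 596) (nat_lit 365)) (XT.nd (nat_lit 78) (nat_lit 0) (nat_lit 76) (XT.lf (nat_lit 76) (nat_lit 5615663648) (nat_lit 0) (nat_lit 7866976458) (nat_lit 1824) (nat_lit 5694390014) (nat_lit 469) (nat_lit 5) (nat_lit 468) (nat_lit 5) (nat_lit 492) (nat_lit 5) (nat_lit 600) (nat_lit 596) (nat_lit 364)) (XT.lf (nat_lit 0) (nat_lit 14058517018) (nat_lit 1748) (nat_lit 4048846157) (nat_lit 1824) (nat_lit 1260285652) (nat_lit 469) (nat_lit 5) (nat_lit 492) (nat_lit 5) (nat_lit 493) (nat_lit 5) (nat_lit 601) (nat_lit 596) (nat_lit 363)))) (XT.nd (nat_lit 78) (nat_lit 0) (nat_lit 76) (XT.lf (nat_lit 76) (nat_lit 5673487182) (nat_lit 0) (nat_lit 9056665093) (nat_lit 1824) (nat_lit 4830243552) (nat_lit 470) (nat_lit 5) (nat_lit 469) (nat_lit 5) (nat_lit 493) (nat_lit 5) (nat_lit 602) (nat_lit 596) (nat_lit 362)) (XT.nd (nat_lit 78) (nat_lit 0) (nat_lit 0) (XT.lf (nat_lit 0) (nat_lit 15439098775) (nat_lit 1748) (nat_lit 4115454797) (nat_lit 1824) (nat_lit 201967349) (nat_lit 470) (nat_lit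 5) (nat_lit 493) (nat_lit 5) (nat_lit 494) (nat_lit 5) (nat_lit 603) (nat_lit 596) (nat_lit 361)) (XT.lf (nat_lit 76) (nat_lit 5865599850) (nat_lit 0) (nat_lit 10390168174) (nat_lit 1824) (nat_lit 3698930323) (nat_lit 471) (nat_lit 5) (nat_lit 470) (nat_lit 5) (nat_lit 494) (nat_lit 5) (nat_lit 604) (nat_lit 596) (nat_lit 360))))) (XT.nd (nat_lit 234) (nat_lit 1672) (nat_lit 0) (XT.nd (nat_lit 78) (nat_lit 0) (nat_lit 76) (XT.lf (nat_lit 76) (nat_lit 16099301185) (nat_lit 0) (nat_lit 1012639538) (nat_lit 1824) (nat_lit 3044435892) (nat_lit 471) (nat_lit 5) (nat_lit 470) (nat_lit 5) (nat_lit 494) (nat_lit 5) (nat_lit 605) (nat_lit 596) (nat_lit 359)) (XT.nd (nat_lit 78) (nat_lit 0) (nat_lit 0) (XT.lf (nat_lit 76) (nat_lit 6198550126) (nat_lit 0) (nat_lit 11878111083) (nat_lit 1824) (nat_lit 2283599434) (nat_lit 472) (nat_lit 5) (nat_lit 471) (nat_lit 5) (nat_lit 495) (nat_lit 5) (nat_lit 606) (nat_lit 596) (nat_lit 358)) (XT.lf (nat_lit 76) (nat_lit 16704701070) (nat_lit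 0) (nat_lit 2385580551) (nat_lit 1824) (nat_lit 1477349287) (nat_lit 472) (nat_lit 5) (nat_lit 471) (nat_lit 5) (nat_lit 495) (nat_lit 5) (nat_lit 607) (nat_lit 596) (nat_lit 357)))) (XT.nd (nat_lit 156) (nat_lit 0) (nat_lit 76) (XT.nd (nat_lit 78) (nat_lit 1824) (nat_lit 0) (XT.lf (nat_lit 76) (nat_lit 6679224013) (nat_lit 0) (nat_lit 13531503827) (nat_lit 1824) (nat_lit 566690326) (nat_lit 473) (nat_lit 5) (nat_lit 472) (nat_lit 5) (nat_lit 496) (nat_lit 5) (nat_lit 608) (nat_lit 596) (nat_lit 356)) (XT.lf (nat_lit 0) (nat_lit 395171967) (nat_lit 1824) (nat_lit 3527483704) (nat_lit 1900) (nat_lit 17067944290) (nat_lit 448) (nat_lit 5) (nat_lit 472) (nat_lit 5) (nat_lit 473) (nat_lit 5) (nat_lit 609) (nat_lit 596) (nat_lit 355))) (XT.nd (nat_lit 78) (nat_lit 0) (nat_lit 0) (XT.lf (nat_lit 0) (nat_lit 1450819626) (nat_lit 1824) (nat_lit 13901209653) (nat_lit 1900) (nat_lit 5854299092) (nat_lit 449) (nat_lit 5) (nat_lit 473) (nat_lit 5) (nat_lit 474) (nat_lit 5) (nat_lit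 610) (nat_lit 596) (nat_lit 354)) (XT.lf (nat_lit 0) (nat_lit 2573384906) (nat_lit 1824) (nat_lit 3052720696) (nat_lit 1900) (nat_lit 15799350258) (nat_lit 449) (nat_lit 5) (nat_lit 473) (nat_lit 5) (nat_lit 474) (nat_lit 5) (nat_lit 611) (nat_lit 596) (nat_lit 353))))))) (XT.nd (nat_lit 936) (nat_lit 6004) (nat_lit 0) (XT.nd (nat_lit 468) (nat_lit 2356) (nat_lit 0) (XT.nd (nat_lit 234) (nat_lit 0) (nat_lit 76) (XT.nd (nat_lit 78) (nat_lit 0) (nat_lit 0) (XT.lf (nat_lit 0) (nat_lit 3795413372) (nat_lit 1824) (nat_lit 13559864107) (nat_lit 1900) (nat_lit 4292148775) (nat_lit 450) (nat_lit 5) (nat_lit 474) (nat_lit 5) (nat_lit 475) (nat_lit 5) (nat_lit 612) (nat_lit 596) (nat_lit 352)) (XT.nd (nat_lit 78) (nat_lit 0) (nat_lit 76) (XT.lf (nat_lit 0) (nat_lit 5095905264) (nat_lit 1824) (nat_lit 2421677005) (nat_lit 1900) (nat_lit 14355173912) (nat_lit 450) (nat_lit 5) (nat_lit 474) (nat_lit 5) (nat_lit 475) (nat_lit 5) (nat_lit 613) (nat_lit 596) (nat_lit 351)) (XT.lf (nat_lit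 0) (nat_lit 6494154562) (nat_lit 1824) (nat_lit 13063025773) (nat_lit 1900) (nat_lit 2543977988) (nat_lit 451) (nat_lit 5) (nat_lit 475) (nat_lit 5) (nat_lit 476) (nat_lit 5) (nat_lit 614) (nat_lit 596) (nat_lit 350)))) (XT.nd (nat_lit 78) (nat_lit 0) (nat_lit 76) (XT.lf (nat_lit 0) (nat_lit 7982792814) (nat_lit 1824) (nat_lit 1626624527) (nat_lit 1900) (nat_lit 12723463247) (nat_lit 451) (nat_lit 5) (nat_lit 475) (nat_lit 5) (nat_lit 476) (nat_lit 5) (nat_lit 615) (nat_lit 596) (nat_lit 349)) (XT.nd (nat_lit 78) (nat_lit 0) (nat_lit 0) (XT.lf (nat_lit 0) (nat_lit 9567512229) (nat_lit 1824) (nat_lit 12402883970) (nat_lit 1900) (nat_lit 597515479) (nat_lit 452) (nat_lit 5) (nat_lit 476) (nat_lit 5) (nat_lit 477) (nat_lit 5) (nat_lit 616) (nat_lit 596) (nat_lit 348)) (XT.lf (nat_lit 0) (nat_lit 11254963844) (nat_lit 1824) (nat_lit 659468511) (nat_lit 1900) (nat_lit 10891790814) (nat_lit 452) (nat_lit 5) (nat_lit 476) (nat_lit 5) (nat_lit 477) (nat_lit 5) (nat_lit 617) (nat_lit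 596) (nat_lit 347))))) (XT.nd (nat_lit 234) (nat_lit 2508) (nat_lit 0) (XT.nd (nat_lit 78) (nat_lit 0) (nat_lit 76) (XT.lf (nat_lit 76) (nat_lit 11466360467) (nat_lit 0) (nat_lit 1580733096) (nat_lit 1900) (nat_lit 10000789273) (nat_lit 453) (nat_lit 5) (nat_lit 452) (nat_lit 5) (nat_lit 477) (nat_lit 5) (nat_lit 618) (nat_lit 596) (nat_lit 346)) (XT.nd (nat_lit 78) (nat_lit 0) (nat_lit 0) (XT.lf (nat_lit 76) (nat_lit 494752065) (nat_lit 0) (nat_lit 14442689424) (nat_lit 1900) (nat_lit 8355687211) (nat_lit 454) (nat_lit 5) (nat_lit 453) (nat_lit 5) (nat_lit 478) (nat_lit 5) (nat_lit 619) (nat_lit 596) (nat_lit 345)) (XT.lf (nat_lit 76) (nat_lit 12956060489) (nat_lit 0) (nat_lit 3994239536) (nat_lit 1900) (nat_lit 6591285887) (nat_lit 454) (nat_lit 5) (nat_lit 453) (nat_lit 5) (nat_lit 478) (nat_lit 5) (nat_lit 620) (nat_lit 596) (nat_lit 344)))) (XT.nd (nat_lit 78) (nat_lit 988) (nat_lit 0) (XT.lf (nat_lit 0) (nat_lit 1849691020) (nat_lit 1672) (nat_lit 17205652272) (nat_lit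 1748) (nat_lit 4738630923) (nat_lit 432) (nat_lit 5) (nat_lit 454) (nat_lit 5) (nat_lit 455) (nat_lit 5) (nat_lit 621) (nat_lit 596) (nat_lit 343)) (XT.nd (nat_lit 78) (nat_lit 988) (nat_lit 0) (XT.lf (nat_lit 0) (nat_lit 14647427895) (nat_lit 1672) (nat_lit 6649075153) (nat_lit 1748) (nat_lit 2753027409) (nat_lit 432) (nat_lit 5) (nat_lit 454) (nat_lit 5) (nat_lit 455) (nat_lit 5) (nat_lit 622) (nat_lit 596) (nat_lit 342)) (XT.lf (nat_lit 0) (nat_lit 3405969085) (nat_lit 988) (nat_lit 20222142268) (nat_lit 1064) (nat_lit 681174441) (nat_lit 419) (nat_lit 5) (nat_lit 432) (nat_lit 5) (nat_lit 433) (nat_lit 5) (nat_lit 623) (nat_lit 596) (nat_lit 341)))))) (XT.nd (nat_lit 468) (nat_lit 3268) (nat_lit 0) (XT.nd (nat_lit 234) (nat_lit 1748) (nat_lit 0) (XT.nd (nat_lit 78) (nat_lit 912) (nat_lit 0) (XT.lf (nat_lit 0) (nat_lit 1517671459) (nat_lit 1064) (nat_lit 8031979626) (nat_lit 76) (nat_lit 15022312879) (nat_lit 418) (nat_lit 5) (nat_lit 432) (nat_lit 5) (nat_lit 419)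 (nat_lit 5) (nat_lit 624) (nat_lit 596) (nat_lit 340)) (XT.nd (nat_lit 78) (nat_lit 0) (nat_lit 0) (XT.lf (nat_lit 0) (nat_lit 3790651236) (nat_lit 988) (nat_lit 19691068586) (nat_lit 76) (nat_lit 1357300716) (nat_lit 406) (nat_lit 5) (nat_lit 419) (nat_lit 5) (nat_lit 407) (nat_lit 5) (nat_lit 625) (nat_lit 596) (nat_lit 339)) (XT.lf (nat_lit 0) (nat_lit 6223490793) (nat_lit 988) (nat_lit 6476476353) (nat_lit 76) (nat_lit 12409163534) (nat_lit 406) (nat_lit 5) (nat_lit 419) (nat_lit 5) (nat_lit 407) (nat_lit 5) (nat_lit 626) (nat_lit 596) (nat_lit 338)))) (XT.nd (nat_lit 78) (nat_lit 836) (nat_lit 0) (XT.lf (nat_lit 0) (nat_lit 7092590897) (nat_lit 912) (nat_lit 1655408504) (nat_lit 988) (nat_lit 16635783811) (nat_lit 394) (nat_lit 5) (nat_lit 406) (nat_lit 5) (nat_lit 407) (nat_lit 5) (nat_lit 627) (nat_lit 596) (nat_lit 337)) (XT.nd (nat_lit 78) (nat_lit 836) (nat_lit 0) (XT.lf (nat_lit 0) (nat_lit 11426146194) (nat_lit 988) (nat_lit 4707792594) (nat_lit 76) (nat_lit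 9527927469) (nat_lit 394) (nat_lit 5) (nat_lit 407) (nat_lit 5) (nat_lit 395) (nat_lit 5) (nat_lit 628) (nat_lit 596) (nat_lit 336)) (XT.lf (nat_lit 0) (nat_lit 9254867614) (nat_lit 836) (nat_lit 4971103612) (nat_lit 912) (nat_lit 11718177845) (nat_lit 383) (nat_lit 5) (nat_lit 394) (nat_lit 5) (nat_lit 395) (nat_lit 5) (nat_lit 629) (nat_lit 596) (nat_lit 335))))) (XT.nd (nat_lit 234) (nat_lit 2432) (nat_lit 0) (XT.nd (nat_lit 78) (nat_lit 836) (nat_lit 0) (XT.lf (nat_lit 0) (nat_lit 17152347657) (nat_lit 912) (nat_lit 2715573043) (nat_lit 76) (nat_lit 6362746151) (nat_lit 383) (nat_lit 5) (nat_lit 395) (nat_lit 5) (nat_lit 384) (nat_lit 5) (nat_lit 630) (nat_lit 596) (nat_lit 334)) (XT.nd (nat_lit 78) (nat_lit 0) (nat_lit 0) (XT.lf (nat_lit 0) (nat_lit 11654734262) (nat_lit 836) (nat_lit 8588269181) (nat_lit 912) (nat_lit 6277796905) (nat_lit 372) (nat_lit 5) (nat_lit 383) (nat_lit 5) (nat_lit 384) (nat_lit 5) (nat_lit 631) (nat_lit 596) (nat_lit 333)) (XT.lf (nat_lit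 0) (nat_lit 23429952889) (nat_lit 912) (nat_lit 489019693) (nat_lit 76) (nat_lit 2897074715) (nat_lit 372) (nat_lit 5) (nat_lit 384) (nat_lit 5) (nat_lit 373) (nat_lit 5) (nat_lit 632) (nat_lit 596) (nat_lit 332)))) (XT.nd (nat_lit 156) (nat_lit 760) (nat_lit 0) (XT.nd (nat_lit 78) (nat_lit 912) (nat_lit 0) (XT.lf (nat_lit 0) (nat_lit 14303494342) (nat_lit 760) (nat_lit 12524143646) (nat_lit 836) (nat_lit 286621645) (nat_lit 362) (nat_lit 5) (nat_lit 372) (nat_lit 5) (nat_lit 373) (nat_lit 5) (nat_lit 633) (nat_lit 596) (nat_lit 331)) (XT.lf (nat_lit 0) (nat_lit 1984650287) (nat_lit 836) (nat_lit 865945691) (nat_lit 912) (nat_lit 24567198111) (nat_lit 350) (nat_lit 5) (nat_lit 361) (nat_lit 5) (nat_lit 362) (nat_lit 5) (nat_lit 634) (nat_lit 596) (nat_lit 330))) (XT.nd (nat_lit 78) (nat_lit 760) (nat_lit 0) (XT.lf (nat_lit 0) (nat_lit 6202149552) (nat_lit 912) (nat_lit 10552947871) (nat_lit 76) (nat_lit 10969155691) (nat_lit 350) (nat_lit 5) (nat_lit 362) (nat_lit 5)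 (nat_lit 351) (nat_lit 5) (nat_lit 635) (nat_lit 596) (nat_lit 329)) (XT.lf (nat_lit 0) (nat_lit 4677677921) (nat_lit 760) (nat_lit 4976519702) (nat_lit 836) (nat_lit 18381974782) (nat_lit 340) (nat_lit 5) (nat_lit 350) (nat_lit 5) (nat_lit 351) (nat_lit 5) (nat_lit 636) (nat_lit 596) (nat_lit 328))))))))
noncomputable def xc231 : XT := (XT.nd (nat_lit 78702) (nat_lit 0) (nat_lit 10336) (XT.nd (nat_lit 936) (nat_lit 1976) (nat_lit 0) (XT.nd (nat_lit 468) (nat_lit 1976) (nat_lit 0) (XT.nd (nat_lit 234) (nat_lit 1520) (nat_lit 0) (XT.nd (nat_lit 78) (nat_lit 760) (nat_lit 0) (XT.lf (nat_lit 0) (nat_lit 13289655301) (nat_lit 836) (nat_lit 8045932509) (nat_lit 76) (nat_lit 7016455246) (nat_lit 340) (nat_lit 5) (nat_lit 351) (nat_lit 5) (nat_lit 341) (nat_lit 5) (nat_lit 637) (nat_lit 596) (nat_lit 327)) (XT.nd (nat_lit 78) (nat_lit 0) (nat_lit 0) (XT.lf (nat_lit 0) (nat_lit 7637322774) (nat_lit 760) (nat_lit 9440485038) (nat_lit 836) (nat_lit 11594823936) (nat_lit 330) (nat_lit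 5) (nat_lit 340) (nat_lit 5) (nat_lit 341) (nat_lit 5) (nat_lit 638) (nat_lit 596) (nat_lit 326)) (XT.lf (nat_lit 0) (nat_lit 21011027915) (nat_lit 836) (nat_lit 5275880577) (nat_lit 76) (nat_lit 2711337964) (nat_lit 330) (nat_lit 5) (nat_lit 341) (nat_lit 5) (nat_lit 331) (nat_lit 5) (nat_lit 639) (nat_lit 596) (nat_lit 325)))) (XT.nd (nat_lit 78) (nat_lit 836) (nat_lit 0) (XT.lf (nat_lit 0) (nat_lit 10876116770) (nat_lit 684) (nat_lit 14277452840) (nat_lit 760) (nat_lit 4174191031) (nat_lit 321) (nat_lit 5) (nat_lit 330) (nat_lit 5) (nat_lit 331) (nat_lit 5) (nat_lit 640) (nat_lit 596) (nat_lit 324)) (XT.nd (nat_lit 78) (nat_lit 836) (nat_lit 0) (XT.lf (nat_lit 0) (nat_lit 27419945977) (nat_lit 684) (nat_lit 1991973450) (nat_lit 760) (nat_lit 251286859) (nat_lit 321) (nat_lit 5) (nat_lit 330) (nat_lit 5) (nat_lit 331) (nat_lit 5) (nat_lit 641) (nat_lit 596) (nat_lit 323)) (XT.lf (nat_lit 0) (nat_lit 3861516485) (nat_lit 836) (nat_lit 15620476641) (nat_lit 76) (nat_lit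 10519668587) (nat_lit 310) (nat_lit 5) (nat_lit 321) (nat_lit 5) (nat_lit 311) (nat_lit 5) (nat_lit 642) (nat_lit 596) (nat_lit 322))))) (XT.nd (nat_lit 234) (nat_lit 608) (nat_lit 0) (XT.nd (nat_lit 78) (nat_lit 684) (nat_lit 0) (XT.lf (nat_lit 0) (nat_lit 1017601175) (nat_lit 684) (nat_lit 7068178199) (nat_lit 760) (nat_lit 22260422590) (nat_lit 301) (nat_lit 5) (nat_lit 310) (nat_lit 5) (nat_lit 311) (nat_lit 5) (nat_lit 643) (nat_lit 596) (nat_lit 321)) (XT.nd (nat_lit 78) (nat_lit 684) (nat_lit 0) (XT.lf (nat_lit 0) (nat_lit 12534002691) (nat_lit 760) (nat_lit 12535128414) (nat_lit 76) (nat_lit 5625712710) (nat_lit 301) (nat_lit 5) (nat_lit 311) (nat_lit 5) (nat_lit 302) (nat_lit 5) (nat_lit 644) (nat_lit 596) (nat_lit 320)) (XT.lf (nat_lit 0) (nat_lit 4605096572) (nat_lit 684) (nat_lit 12540488618) (nat_lit 760) (nat_lit 13903385709) (nat_lit 292) (nat_lit 5) (nat_lit 301) (nat_lit 5) (nat_lit 302) (nat_lit 5) (nat_lit 645) (nat_lit 596) (nat_lit 319)))) (XT.nd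 (nat_lit 78) (nat_lit 608) (nat_lit 0) (XT.lf (nat_lit 0) (nat_lit 21933335259) (nat_lit 760) (nat_lit 9155292182) (nat_lit 76) (nat_lit 319874649) (nat_lit 292) (nat_lit 5) (nat_lit 302) (nat_lit 5) (nat_lit 293) (nat_lit 5) (nat_lit 646) (nat_lit 596) (nat_lit 318)) (XT.nd (nat_lit 78) (nat_lit 0) (nat_lit 0) (XT.lf (nat_lit 0) (nat_lit 8504878567) (nat_lit 608) (nat_lit 18447987110) (nat_lit 684) (nat_lit 4819638001) (nat_lit 284) (nat_lit 5) (nat_lit 292) (nat_lit 5) (nat_lit 293) (nat_lit 5) (nat_lit 647) (nat_lit 596) (nat_lit 317)) (XT.lf (nat_lit 0) (nat_lit 26639696277) (nat_lit 608) (nat_lit 5492310426) (nat_lit 684) (nat_lit 10594469) (nat_lit 284) (nat_lit 5) (nat_lit 292) (nat_lit 5) (nat_lit 293) (nat_lit 5) (nat_lit 648) (nat_lit 596) (nat_lit 316)))))) (XT.nd (nat_lit 77220) (nat_lit 0) (nat_lit 15884) (XT.nd (nat_lit 234) (nat_lit 608) (nat_lit 0) (XT.nd (nat_lit 78) (nat_lit 608) (nat_lit 0) (XT.lf (nat_lit 0) (nat_lit 4961924073) (nat_lit 760) (nat_lit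 19818836792) (nat_lit 76) (nat_lit 7736074666) (nat_lit 274) (nat_lit 5) (nat_lit 284) (nat_lit 5) (nat_lit 275) (nat_lit 5) (nat_lit 649) (nat_lit 596) (nat_lit 315)) (XT.nd (nat_lit 78) (nat_lit 608) (nat_lit 0) (XT.lf (nat_lit 0) (nat_lit 10105131031) (nat_lit 760) (nat_lit 1599649140) (nat_lit 76) (nat_lit 21192345668) (nat_lit 274) (nat_lit 5) (nat_lit 284) (nat_lit 5) (nat_lit 275) (nat_lit 5) (nat_lit 650) (nat_lit 596) (nat_lit 314)) (XT.lf (nat_lit 0) (nat_lit 15472136093) (nat_lit 684) (nat_lit 16087179796) (nat_lit 76) (nat_lit 1723287638) (nat_lit 266) (nat_lit 5) (nat_lit 275) (nat_lit 5) (nat_lit 267) (nat_lit 5) (nat_lit 651) (nat_lit 596) (nat_lit 313)))) (XT.nd (nat_lit 78) (nat_lit 0) (nat_lit 0) (XT.lf (nat_lit 0) (nat_lit 2667272249) (nat_lit 608) (nat_lit 18382746361) (nat_lit 684) (nat_lit 12623701659) (nat_lit 258) (nat_lit 5) (nat_lit 266) (nat_lit 5) (nat_lit 267) (nat_lit 5) (nat_lit 652) (nat_lit 596) (nat_lit 312)) (XT.nd (nat_lit 76830) (nat_lit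 0) (nat_lit 15884) (XT.lf (nat_lit 0) (nat_lit 22012267622) (nat_lit 608) (nat_lit 4833067815) (nat_lit 684) (nat_lit 7225206618) (nat_lit 258) (nat_lit 5) (nat_lit 266) (nat_lit 5) (nat_lit 267) (nat_lit 5) (nat_lit 653) (nat_lit 596) (nat_lit 311)) (XT.lf (nat_lit 0) (nat_lit 3094376680) (nat_lit 0) (nat_lit 3094376680) (nat_lit 1748) (nat_lit 3212716623) (nat_lit 467) (nat_lit 5) (nat_lit 467) (nat_lit 3) (nat_lit 490) (nat_lit 3) (nat_lit 597) (nat_lit 597) (nat_lit 366))))) (XT.nd (nat_lit 234) (nat_lit 0) (nat_lit 76) (XT.nd (nat_lit 78) (nat_lit 0) (nat_lit 0) (XT.lf (nat_lit 0) (nat_lit 12706693400) (nat_lit 1748) (nat_lit 3418469915) (nat_lit 1824) (nat_lit 2861668590) (nat_lit 467) (nat_lit 5) (nat_lit 490) (nat_lit 3) (nat_lit 491) (nat_lit 5) (nat_lit 598) (nat_lit 597) (nat_lit 365)) (XT.nd (nat_lit 78) (nat_lit 0) (nat_lit 76) (XT.lf (nat_lit 76) (nat_lit 5996256335) (nat_lit 0) (nat_lit 7121245973) (nat_lit 1824) (nat_lit 6055399372) (nat_lit 468) (nat_lit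 5) (nat_lit 467) (nat_lit 5) (nat_lit 491) (nat_lit 5) (nat_lit 599) (nat_lit 597) (nat_lit 364)) (XT.lf (nat_lit 0) (nat_lit 13568227255) (nat_lit 1748) (nat_lit 3732819495) (nat_lit 1824) (nat_lit 2061012855) (nat_lit 468) (nat_lit 5) (nat_lit 491) (nat_lit 5) (nat_lit 492) (nat_lit 5) (nat_lit 600) (nat_lit 597) (nat_lit 363)))) (XT.nd (nat_lit 156) (nat_lit 0) (nat_lit 76) (XT.nd (nat_lit 78) (nat_lit 0) (nat_lit 76) (XT.lf (nat_lit 76) (nat_lit 5927863224) (nat_lit 0) (nat_lit 8181060947) (nat_lit 1824) (nat_lit 5444458105) (nat_lit 469) (nat_lit 5) (nat_lit 468) (nat_lit 5) (nat_lit 492) (nat_lit 5) (nat_lit 601) (nat_lit 597) (nat_lit 362)) (XT.lf (nat_lit 0) (nat_lit 14688328113) (nat_lit 1748) (nat_lit 3925810883) (nat_lit 1824) (nat_lit 1133835265) (nat_lit 469) (nat_lit 5) (nat_lit 492) (nat_lit 5) (nat_lit 493) (nat_lit 5) (nat_lit 602) (nat_lit 597) (nat_lit 361))) (XT.nd (nat_lit 78) (nat_lit 0) (nat_lit 76) (XT.lf (nat_lit 76) (nat_lit 5989626938) (nat_lit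 0) (nat_lit 9378248913) (nat_lit 1824) (nat_lit 4576811829) (nat_lit 470) (nat_lit 5) (nat_lit 469) (nat_lit 5) (nat_lit 493) (nat_lit 5) (nat_lit 603) (nat_lit 597) (nat_lit 360)) (XT.lf (nat_lit 0) (nat_lit 16083379409) (nat_lit 1748) (nat_lit 3991393330) (nat_lit 1824) (nat_lit 70116025) (nat_lit 470) (nat_lit 5) (nat_lit 493) (nat_lit 5) (nat_lit 494) (nat_lit 5) (nat_lit 604) (nat_lit 597) (nat_lit 359))))))) (XT.nd (nat_lit 936) (nat_lit 4104) (nat_lit 0) (XT.nd (nat_lit 468) (nat_lit 0) (nat_lit 76) (XT.nd (nat_lit 234) (nat_lit 1672) (nat_lit 0) (XT.nd (nat_lit 78) (nat_lit 0) (nat_lit 0) (XT.lf (nat_lit 76) (nat_lit 6187924709) (nat_lit 0) (nat_lit 10723210009) (nat_lit 1824) (nat_lit 3436001000) (nat_lit 471) (nat_lit 5) (nat_lit 470) (nat_lit 5) (nat_lit 494) (nat_lit 5) (nat_lit 605) (nat_lit 597) (nat_lit 358)) (XT.nd (nat_lit 78) (nat_lit 0) (nat_lit 76) (XT.lf (nat_lit 76) (nat_lit 16622280210) (nat_lit 0) (nat_lit 1155675144) (nat_lit 1824) (nat_lit 2775022718)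 (nat_lit 471) (nat_lit 5) (nat_lit 470) (nat_lit 5) (nat_lit 494) (nat_lit 5) (nat_lit 606) (nat_lit 597) (nat_lit 357)) (XT.lf (nat_lit 76) (nat_lit 6529466891) (nat_lit 0) (nat_lit 12226716887) (nat_lit 1824) (nat_lit 2004872724) (nat_lit 472) (nat_lit 5) (nat_lit 471) (nat_lit 5) (nat_lit 495) (nat_lit 5) (nat_lit 607) (nat_lit 597) (nat_lit 356)))) (XT.nd (nat_lit 78) (nat_lit 1748) (nat_lit 0) (XT.lf (nat_lit 76) (nat_lit 17241683094) (nat_lit 0) (nat_lit 2542158419) (nat_lit 1824) (nat_lit 1188858333) (nat_lit 472) (nat_lit 5) (nat_lit 471) (nat_lit 5) (nat_lit 495) (nat_lit 5) (nat_lit 608) (nat_lit 597) (nat_lit 355)) (XT.nd (nat_lit 78) (nat_lit 1824) (nat_lit 0) (XT.lf (nat_lit 76) (nat_lit 7021306229) (nat_lit 0) (nat_lit 13899938331) (nat_lit 1824) (nat_lit 265548283) (nat_lit 473) (nat_lit 5) (nat_lit 472) (nat_lit 5) (nat_lit 496) (nat_lit 5) (nat_lit 609) (nat_lit 597) (nat_lit 354)) (XT.lf (nat_lit 0) (nat_lit 705406458) (nat_lit 1824) (nat_lit 3389560220)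 (nat_lit 1900) (nat_lit 17309352868) (nat_lit 448) (nat_lit 5) (nat_lit 472) (nat_lit 5) (nat_lit 473) (nat_lit 5) (nat_lit 610) (nat_lit 597) (nat_lit 353))))) (XT.nd (nat_lit 234) (nat_lit 0) (nat_lit 76) (XT.nd (nat_lit 78) (nat_lit 0) (nat_lit 0) (XT.lf (nat_lit 0) (nat_lit 1776995117) (nat_lit 1824) (nat_lit 13965543841) (nat_lit 1900) (nat_lit 5881927903) (nat_lit 449) (nat_lit 5) (nat_lit 473) (nat_lit 5) (nat_lit 474) (nat_lit 5) (nat_lit 611) (nat_lit 597) (nat_lit 352)) (XT.nd (nat_lit 78) (nat_lit 0) (nat_lit 76) (XT.lf (nat_lit 0) (nat_lit 2916185054) (nat_lit 1824) (nat_lit 2904275104) (nat_lit 1900) (nat_lit 16027634155) (nat_lit 449) (nat_lit 5) (nat_lit 473) (nat_lit 5) (nat_lit 474) (nat_lit 5) (nat_lit 612) (nat_lit 597) (nat_lit 351)) (XT.lf (nat_lit 0) (nat_lit 4157781009) (nat_lit 1824) (nat_lit 13616645152) (nat_lit 1900) (nat_lit 4300176280) (nat_lit 450) (nat_lit 5) (nat_lit 474) (nat_lit 5) (nat_lit 475) (nat_lit 5) (nat_lit 613) (nat_lit 597)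 (nat_lit 350)))) (XT.nd (nat_lit 78) (nat_lit 0) (nat_lit 76) (XT.lf (nat_lit 0) (nat_lit 5478665888) (nat_lit 1824) (nat_lit 2259898548) (nat_lit 1900) (nat_lit 14565987713) (nat_lit 450) (nat_lit 5) (nat_lit 474) (nat_lit 5) (nat_lit 475) (nat_lit 5) (nat_lit 614) (nat_lit 597) (nat_lit 349)) (XT.nd (nat_lit 78) (nat_lit 0) (nat_lit 0) (XT.lf (nat_lit 0) (nat_lit 6900288704) (nat_lit 1824) (nat_lit 13109441346) (nat_lit 1900) (nat_lit 2527884943) (nat_lit 451) (nat_lit 5) (nat_lit 475) (nat_lit 5) (nat_lit 476) (nat_lit 5) (nat_lit 615) (nat_lit 597) (nat_lit 348)) (XT.lf (nat_lit 0) (nat_lit 8413283033) (nat_lit 1824) (nat_lit 1448524722) (nat_lit 1900) (nat_lit 12912273095) (nat_lit 451) (nat_lit 5) (nat_lit 475) (nat_lit 5) (nat_lit 476) (nat_lit 5) (nat_lit 616) (nat_lit 597) (nat_lit 347)))))) (XT.nd (nat_lit 468) (nat_lit 2888) (nat_lit 0) (XT.nd (nat_lit 234) (nat_lit 1520) (nat_lit 0) (XT.nd (nat_lit 78) (nat_lit 0) (nat_lit 0) (XT.lf (nat_lit 0) (nat_lit 10025370715)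 (nat_lit 1824) (nat_lit 12435943367) (nat_lit 1900) (nat_lit 552585799) (nat_lit 452) (nat_lit 5) (nat_lit 476) (nat_lit 5) (nat_lit 477) (nat_lit 5) (nat_lit 617) (nat_lit 597) (nat_lit 346)) (XT.nd (nat_lit 78) (nat_lit 0) (nat_lit 0) (XT.lf (nat_lit 0) (nat_lit 11741345711) (nat_lit 1824) (nat_lit 461875252) (nat_lit 1900) (nat_lit 11053861934) (nat_lit 452) (nat_lit 5) (nat_lit 476) (nat_lit 5) (nat_lit 477) (nat_lit 5) (nat_lit 618) (nat_lit 597) (nat_lit 345)) (XT.lf (nat_lit 76) (nat_lit 11905083578) (nat_lit 0) (nat_lit 1660470796) (nat_lit 1900) (nat_lit 9938097423) (nat_lit 453) (nat_lit 5) (nat_lit 452) (nat_lit 5) (nat_lit 477) (nat_lit 5) (nat_lit 619) (nat_lit 597) (nat_lit 344)))) (XT.nd (nat_lit 78) (nat_lit 1596) (nat_lit 0) (XT.lf (nat_lit 76) (nat_lit 718130354) (nat_lit 0) (nat_lit 14771609267) (nat_lit 1900) (nat_lit 8264143100) (nat_lit 454) (nat_lit 5) (nat_lit 453) (nat_lit 5) (nat_lit 478) (nat_lit 5) (nat_lit 620) (nat_lit 597) (nat_lit 343))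 (XT.nd (nat_lit 78) (nat_lit 1596) (nat_lit 0) (XT.lf (nat_lit 76) (nat_lit 13424479001) (nat_lit 0) (nat_lit 4113404773) (nat_lit 1900) (nat_lit 6469525473) (nat_lit 454) (nat_lit 5) (nat_lit 453) (nat_lit 5) (nat_lit 478) (nat_lit 5) (nat_lit 621) (nat_lit 597) (nat_lit 342)) (XT.lf (nat_lit 0) (nat_lit 2099833978) (nat_lit 1672) (nat_lit 17581453726) (nat_lit 1748) (nat_lit 4583633137) (nat_lit 432) (nat_lit 5) (nat_lit 454) (nat_lit 5) (nat_lit 455) (nat_lit 5) (nat_lit 622) (nat_lit 597) (nat_lit 341))))) (XT.nd (nat_lit 234) (nat_lit 1824) (nat_lit 0) (XT.nd (nat_lit 78) (nat_lit 1064) (nat_lit 0) (XT.lf (nat_lit 0) (nat_lit 15149346195) (nat_lit 1672) (nat_lit 6813123723) (nat_lit 1748) (nat_lit 2563215012) (nat_lit 432) (nat_lit 5) (nat_lit 454) (nat_lit 5) (nat_lit 455) (nat_lit 5) (nat_lit 623) (nat_lit 597) (nat_lit 340)) (XT.nd (nat_lit 78) (nat_lit 76) (nat_lit 0) (XT.lf (nat_lit 0) (nat_lit 3686688108) (nat_lit 988) (nat_lit 20650498262) (nat_lit 1064) (nat_lit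 453520179) (nat_lit 419) (nat_lit 5) (nat_lit 432) (nat_lit 5) (nat_lit 433) (nat_lit 5) (nat_lit 624) (nat_lit 597) (nat_lit 339)) (XT.lf (nat_lit 0) (nat_lit 1781469350) (nat_lit 1064) (nat_lit 7981052486) (nat_lit 76) (nat_lit 15296179162) (nat_lit 418) (nat_lit 5) (nat_lit 432) (nat_lit 5) (nat_lit 419) (nat_lit 5) (nat_lit 625) (nat_lit 597) (nat_lit 338)))) (XT.nd (nat_lit 156) (nat_lit 912) (nat_lit 0) (XT.nd (nat_lit 78) (nat_lit 0) (nat_lit 0) (XT.lf (nat_lit 0) (nat_lit 4096565752) (nat_lit 988) (nat_lit 19869947551) (nat_lit 76) (nat_lit 1364652913) (nat_lit 406) (nat_lit 5) (nat_lit 419) (nat_lit 5) (nat_lit 407) (nat_lit 5) (nat_lit 626) (nat_lit 597) (nat_lit 337)) (XT.lf (nat_lit 0) (nat_lit 6573550306) (nat_lit 988) (nat_lit 6395278031) (nat_lit 76) (nat_lit 12637941101) (nat_lit 406) (nat_lit 5) (nat_lit 419) (nat_lit 5) (nat_lit 407) (nat_lit 5) (nat_lit 627) (nat_lit 597) (nat_lit 336))) (XT.nd (nat_lit 78) (nat_lit 0) (nat_lit 0) (XT.lf (nat_lit 0)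 (nat_lit 7443784197) (nat_lit 912) (nat_lit 1701700745) (nat_lit 988) (nat_lit 16741491989) (nat_lit 394) (nat_lit 5) (nat_lit 406) (nat_lit 5) (nat_lit 407) (nat_lit 5) (nat_lit 628) (nat_lit 597) (nat_lit 335)) (XT.lf (nat_lit 0) (nat_lit 11872747504) (nat_lit 988) (nat_lit 4592233714) (nat_lit 76) (nat_lit 9705729979) (nat_lit 394) (nat_lit 5) (nat_lit 407) (nat_lit 5) (nat_lit 395) (nat_lit 5) (nat_lit 629) (nat_lit 597) (nat_lit 334))))))))
noncomputable def xc232 : XT := (XT.nd (nat_lit 78780) (nat_lit 0) (nat_lit 13224) (XT.nd (nat_lit 936) (nat_lit 4788) (nat_lit 0) (XT.nd (nat_lit 468) (nat_lit 2204) (nat_lit 0) (XT.nd (nat_lit 234) (nat_lit 1672) (nat_lit 0) (XT.nd (nat_lit 78) (nat_lit 836) (nat_lit 0) (XT.lf (nat_lit 0) (nat_lit 9648299996) (nat_lit 836) (nat_lit 5077345643) (nat_lit 912) (nat_lit 11733053101) (nat_lit 383) (nat_lit 5) (nat_lit 394) (nat_lit 5) (nat_lit 395) (nat_lit 5) (nat_lit 630) (nat_lit 597) (nat_lit 333)) (XT.nd (nat_lit 78) (nat_lit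 836) (nat_lit 0) (XT.lf (nat_lit 0) (nat_lit 17706287461) (nat_lit 912) (nat_lit 2561342718) (nat_lit 76) (nat_lit 6483402531) (nat_lit 383) (nat_lit 5) (nat_lit 395) (nat_lit 5) (nat_lit 384) (nat_lit 5) (nat_lit 631) (nat_lit 597) (nat_lit 332)) (XT.lf (nat_lit 0) (nat_lit 12094998748) (nat_lit 836) (nat_lit 8760967545) (nat_lit 912) (nat_lit 6191058966) (nat_lit 372) (nat_lit 5) (nat_lit 383) (nat_lit 5) (nat_lit 384) (nat_lit 5) (nat_lit 632) (nat_lit 597) (nat_lit 331)))) (XT.nd (nat_lit 78) (nat_lit 1672) (nat_lit 0) (XT.lf (nat_lit 0) (nat_lit 24102568343) (nat_lit 912) (nat_lit 291577583) (nat_lit 76) (nat_lit 2954113518) (nat_lit 372) (nat_lit 5) (nat_lit 384) (nat_lit 5) (nat_lit 373) (nat_lit 5) (nat_lit 633) (nat_lit 597) (nat_lit 330)) (XT.nd (nat_lit 78) (nat_lit 912) (nat_lit 0) (XT.lf (nat_lit 0) (nat_lit 14795423427) (nat_lit 760) (nat_lit 12770119970) (nat_lit 836) (nat_lit 86946464) (nat_lit 362) (nat_lit 5) (nat_lit 372) (nat_lit 5) (nat_lit 373) (nat_lit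 5) (nat_lit 634) (nat_lit 597) (nat_lit 329)) (XT.lf (nat_lit 0) (nat_lit 2231551573) (nat_lit 836) (nat_lit 876140537) (nat_lit 912) (nat_lit 24854429348) (nat_lit 350) (nat_lit 5) (nat_lit 361) (nat_lit 5) (nat_lit 362) (nat_lit 5) (nat_lit 635) (nat_lit 597) (nat_lit 328))))) (XT.nd (nat_lit 234) (nat_lit 1444) (nat_lit 0) (XT.nd (nat_lit 78) (nat_lit 760) (nat_lit 0) (XT.lf (nat_lit 0) (nat_lit 6522398882) (nat_lit 912) (nat_lit 10556957281) (nat_lit 76) (nat_lit 11195431583) (nat_lit 350) (nat_lit 5) (nat_lit 362) (nat_lit 5) (nat_lit 351) (nat_lit 5) (nat_lit 636) (nat_lit 597) (nat_lit 327)) (XT.nd (nat_lit 78) (nat_lit 0) (nat_lit 0) (XT.lf (nat_lit 0) (nat_lit 4976918859) (nat_lit 760) (nat_lit 5064057332) (nat_lit 836) (nat_lit 18552019984) (nat_lit 340) (nat_lit 5) (nat_lit 350) (nat_lit 5) (nat_lit 351) (nat_lit 5) (nat_lit 637) (nat_lit 597) (nat_lit 326)) (XT.lf (nat_lit 0) (nat_lit 13745421427) (nat_lit 836) (nat_lit 8001449990) (nat_lit 76) (nat_lit 7168387759)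 (nat_lit 340) (nat_lit 5) (nat_lit 351) (nat_lit 5) (nat_lit 341) (nat_lit 5) (nat_lit 638) (nat_lit 597) (nat_lit 325)))) (XT.nd (nat_lit 78) (nat_lit 684) (nat_lit 0) (XT.lf (nat_lit 0) (nat_lit 7994119076) (nat_lit 760) (nat_lit 9612817779) (nat_lit 836) (nat_lit 11635371286) (nat_lit 330) (nat_lit 5) (nat_lit 340) (nat_lit 5) (nat_lit 341) (nat_lit 5) (nat_lit 639) (nat_lit 597) (nat_lit 324)) (XT.nd (nat_lit 78) (nat_lit 684) (nat_lit 0) (XT.lf (nat_lit 0) (nat_lit 21615248341) (nat_lit 836) (nat_lit 5177752002) (nat_lit 76) (nat_lit 2781506745) (nat_lit 330) (nat_lit 5) (nat_lit 341) (nat_lit 5) (nat_lit 331) (nat_lit 5) (nat_lit 640) (nat_lit 597) (nat_lit 323)) (XT.lf (nat_lit 0) (nat_lit 11295945514) (nat_lit 684) (nat_lit 14542401023) (nat_lit 760) (nat_lit 4072311384) (nat_lit 321) (nat_lit 5) (nat_lit 330) (nat_lit 5) (nat_lit 331) (nat_lit 5) (nat_lit 641) (nat_lit 597) (nat_lit 322)))))) (XT.nd (nat_lit 468) (nat_lit 2584) (nat_lit 0) (XT.nd (nat_lit 234)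 (nat_lit 684) (nat_lit 0) (XT.nd (nat_lit 78) (nat_lit 1520) (nat_lit 0) (XT.lf (nat_lit 0) (nat_lit 28166684513) (nat_lit 684) (nat_lit 2011615983) (nat_lit 760) (nat_lit 74583706) (nat_lit 321) (nat_lit 5) (nat_lit 330) (nat_lit 5) (nat_lit 331) (nat_lit 5) (nat_lit 642) (nat_lit 597) (nat_lit 321)) (XT.nd (nat_lit 78) (nat_lit 684) (nat_lit 0) (XT.lf (nat_lit 0) (nat_lit 4116015316) (nat_lit 836) (nat_lit 15730040823) (nat_lit 76) (nat_lit 10752070988) (nat_lit 310) (nat_lit 5) (nat_lit 321) (nat_lit 5) (nat_lit 311) (nat_lit 5) (nat_lit 643) (nat_lit 597) (nat_lit 320)) (XT.lf (nat_lit 0) (nat_lit 1239464040) (nat_lit 684) (nat_lit 7183131913) (nat_lit 760) (nat_lit 22527006023) (nat_lit 301) (nat_lit 5) (nat_lit 310) (nat_lit 5) (nat_lit 311) (nat_lit 5) (nat_lit 644) (nat_lit 597) (nat_lit 319)))) (XT.nd (nat_lit 78) (nat_lit 684) (nat_lit 0) (XT.lf (nat_lit 0) (nat_lit 12956518491) (nat_lit 760) (nat_lit 12584984512) (nat_lit 76) (nat_lit 5763779396) (nat_lit 301)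 (nat_lit 5) (nat_lit 311) (nat_lit 5) (nat_lit 302) (nat_lit 5) (nat_lit 645) (nat_lit 597) (nat_lit 318)) (XT.nd (nat_lit 78) (nat_lit 0) (nat_lit 0) (XT.lf (nat_lit 0) (nat_lit 4896723615) (nat_lit 684) (nat_lit 12761535146) (nat_lit 760) (nat_lit 14008275164) (nat_lit 292) (nat_lit 5) (nat_lit 301) (nat_lit 5) (nat_lit 302) (nat_lit 5) (nat_lit 646) (nat_lit 597) (nat_lit 317)) (XT.lf (nat_lit 0) (nat_lit 22538624621) (nat_lit 760) (nat_lit 9139625221) (nat_lit 76) (nat_lit 355069097) (nat_lit 292) (nat_lit 5) (nat_lit 302) (nat_lit 5) (nat_lit 293) (nat_lit 5) (nat_lit 647) (nat_lit 597) (nat_lit 316))))) (XT.nd (nat_lit 234) (nat_lit 1216) (nat_lit 0) (XT.nd (nat_lit 78) (nat_lit 760) (nat_lit 0) (XT.lf (nat_lit 0) (nat_lit 8872441227) (nat_lit 608) (nat_lit 18784119384) (nat_lit 684) (nat_lit 4748080056) (nat_lit 284) (nat_lit 5) (nat_lit 292) (nat_lit 5) (nat_lit 293) (nat_lit 5) (nat_lit 648) (nat_lit 597) (nat_lit 315)) (XT.nd (nat_lit 78) (nat_lit 684) (nat_lit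 0) (XT.lf (nat_lit 0) (nat_lit 151833409) (nat_lit 684) (nat_lit 5417120550) (nat_lit 76) (nat_lit 27213231135) (nat_lit 283) (nat_lit 5) (nat_lit 292) (nat_lit 5) (nat_lit 284) (nat_lit 5) (nat_lit 649) (nat_lit 597) (nat_lit 314)) (XT.lf (nat_lit 0) (nat_lit 5221957245) (nat_lit 760) (nat_lit 20017718738) (nat_lit 76) (nat_lit 7924261206) (nat_lit 274) (nat_lit 5) (nat_lit 284) (nat_lit 5) (nat_lit 275) (nat_lit 5) (nat_lit 650) (nat_lit 597) (nat_lit 313)))) (XT.nd (nat_lit 156) (nat_lit 608) (nat_lit 0) (XT.nd (nat_lit 78) (nat_lit 608) (nat_lit 0) (XT.lf (nat_lit 0) (nat_lit 10464875505) (nat_lit 760) (nat_lit 1438019779) (nat_lit 76) (nat_lit 21649001451) (nat_lit 274) (nat_lit 5) (nat_lit 284) (nat_lit 5) (nat_lit 275) (nat_lit 5) (nat_lit 651) (nat_lit 597) (nat_lit 312)) (XT.lf (nat_lit 0) (nat_lit 15937615805) (nat_lit 684) (nat_lit 16213677769) (nat_lit 76) (nat_lit 1793822868) (nat_lit 266) (nat_lit 5) (nat_lit 275) (nat_lit 5) (nat_lit 267) (nat_lit 5) (nat_lit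 652) (nat_lit 597) (nat_lit 311))) (XT.nd (nat_lit 76908) (nat_lit 0) (nat_lit 15884) (XT.lf (nat_lit 0) (nat_lit 2914578806) (nat_lit 608) (nat_lit 18710676942) (nat_lit 684) (nat_lit 12718836137) (nat_lit 258) (nat_lit 5) (nat_lit 266) (nat_lit 5) (nat_lit 267) (nat_lit 5) (nat_lit 653) (nat_lit 597) (nat_lit 310)) (XT.lf (nat_lit 0) (nat_lit 3248950920) (nat_lit 0) (nat_lit 3248950920) (nat_lit 1748) (nat_lit 3087861036) (nat_lit 467) (nat_lit 5) (nat_lit 467) (nat_lit 3) (nat_lit 490) (nat_lit 3) (nat_lit 598) (nat_lit 598) (nat_lit 364))))))) (XT.nd (nat_lit 936) (nat_lit 1216) (nat_lit 0) (XT.nd (nat_lit 468) (nat_lit 1444) (nat_lit 0) (XT.nd (nat_lit 234) (nat_lit 0) (nat_lit 76) (XT.nd (nat_lit 78) (nat_lit 0) (nat_lit 0) (XT.lf (nat_lit 0) (nat_lit 13323124581) (nat_lit 1748) (nat_lit 3296594222) (nat_lit 1824) (nat_lit 2739546856) (nat_lit 467) (nat_lit 5) (nat_lit 490) (nat_lit 3) (nat_lit 491) (nat_lit 5) (nat_lit 599) (nat_lit 598) (nat_lit 363)) (XT.nd (nat_lit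 78) (nat_lit 0) (nat_lit 76) (XT.lf (nat_lit 76) (nat_lit 6305174941) (nat_lit 0) (nat_lit 7431097929) (nat_lit 1824) (nat_lit 5812902613) (nat_lit 468) (nat_lit 5) (nat_lit 467) (nat_lit 5) (nat_lit 491) (nat_lit 5) (nat_lit 600) (nat_lit 598) (nat_lit 362)) (XT.lf (nat_lit 0) (nat_lit 14187957945) (nat_lit 1748) (nat_lit 3614079064) (nat_lit 1824) (nat_lit 1940241739) (nat_lit 468) (nat_lit 5) (nat_lit 491) (nat_lit 5) (nat_lit 492) (nat_lit 5) (nat_lit 601) (nat_lit 598) (nat_lit 361)))) (XT.nd (nat_lit 78) (nat_lit 0) (nat_lit 76) (XT.lf (nat_lit 76) (nat_lit 6238544962) (nat_lit 0) (nat_lit 8495340528) (nat_lit 1824) (nat_lit 5203655122) (nat_lit 469) (nat_lit 5) (nat_lit 468) (nat_lit 5) (nat_lit 492) (nat_lit 5) (nat_lit 602) (nat_lit 598) (nat_lit 360)) (XT.nd (nat_lit 78) (nat_lit 0) (nat_lit 0) (XT.lf (nat_lit 0) (nat_lit 15317197285) (nat_lit 1748) (nat_lit 3808236945) (nat_lit 1824) (nat_lit 1010744862) (nat_lit 469) (nat_lit 5) (nat_lit 492) (nat_lit 5) (nat_lit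 493) (nat_lit 5) (nat_lit 603) (nat_lit 598) (nat_lit 359)) (XT.lf (nat_lit 76) (nat_lit 6304219564) (nat_lit 0) (nat_lit 9700810545) (nat_lit 1824) (nat_lit 4331903819) (nat_lit 470) (nat_lit 5) (nat_lit 469) (nat_lit 5) (nat_lit 493) (nat_lit 5) (nat_lit 604) (nat_lit 598) (nat_lit 358))))) (XT.nd (nat_lit 234) (nat_lit 1596) (nat_lit 0) (XT.nd (nat_lit 78) (nat_lit 0) (nat_lit 76) (XT.lf (nat_lit 76) (nat_lit 16668025747) (nat_lit 0) (nat_lit 59880872) (nat_lit 1824) (nat_lit 3813372169) (nat_lit 470) (nat_lit 5) (nat_lit 469) (nat_lit 5) (nat_lit 493) (nat_lit 5) (nat_lit 605) (nat_lit 598) (nat_lit 357)) (XT.nd (nat_lit 78) (nat_lit 0) (nat_lit 0) (XT.lf (nat_lit 76) (nat_lit 6508735165) (nat_lit 0) (nat_lit 11058049518) (nat_lit 1824) (nat_lit 3180895636) (nat_lit 471) (nat_lit 5) (nat_lit 470) (nat_lit 5) (nat_lit 494) (nat_lit 5) (nat_lit 606) (nat_lit 598) (nat_lit 356)) (XT.lf (nat_lit 76) (nat_lit 17147914012) (nat_lit 0) (nat_lit 1296803656) (nat_lit 1824)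 (nat_lit 2513047306) (nat_lit 471) (nat_lit 5) (nat_lit 470) (nat_lit 5) (nat_lit 494) (nat_lit 5) (nat_lit 607) (nat_lit 598) (nat_lit 355)))) (XT.nd (nat_lit 78) (nat_lit 1748) (nat_lit 0) (XT.lf (nat_lit 76) (nat_lit 6858966035) (nat_lit 0) (nat_lit 12577982849) (nat_lit 1824) (nat_lit 1733168277) (nat_lit 472) (nat_lit 5) (nat_lit 471) (nat_lit 5) (nat_lit 495) (nat_lit 5) (nat_lit 608) (nat_lit 598) (nat_lit 354)) (XT.nd (nat_lit 78) (nat_lit 1748) (nat_lit 0) (XT.lf (nat_lit 76) (nat_lit 17781526369) (nat_lit 0) (nat_lit 2697640435) (nat_lit 1824) (nat_lit 906947361) (nat_lit 472) (nat_lit 5) (nat_lit 471) (nat_lit 5) (nat_lit 495) (nat_lit 5) (nat_lit 609) (nat_lit 598) (nat_lit 353)) (XT.lf (nat_lit 0) (nat_lit 29096110) (nat_lit 1824) (nat_lit 14242652300) (nat_lit 1900) (nat_lit 7332842507) (nat_lit 448) (nat_lit 5) (nat_lit 472) (nat_lit 5) (nat_lit 473) (nat_lit 5) (nat_lit 610) (nat_lit 598) (nat_lit 352)))))) (XT.nd (nat_lit 468) (nat_lit 1216) (nat_lit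 0) (XT.nd (nat_lit 234) (nat_lit 0) (nat_lit 152) (XT.nd (nat_lit 78) (nat_lit 0) (nat_lit 76) (XT.lf (nat_lit 0) (nat_lit 1010105756) (nat_lit 1824) (nat_lit 3256973534) (nat_lit 1900) (nat_lit 17559470810) (nat_lit 448) (nat_lit 5) (nat_lit 472) (nat_lit 5) (nat_lit 473) (nat_lit 5) (nat_lit 611) (nat_lit 598) (nat_lit 351)) (XT.nd (nat_lit 78) (nat_lit 0) (nat_lit 0) (XT.lf (nat_lit 0) (nat_lit 2098155069) (nat_lit 1824) (nat_lit 14039462556) (nat_lit 1900) (nat_lit 5913583022) (nat_lit 449) (nat_lit 5) (nat_lit 473) (nat_lit 5) (nat_lit 474) (nat_lit 5) (nat_lit 612) (nat_lit 598) (nat_lit 350)) (XT.lf (nat_lit 0) (nat_lit 3254528411) (nat_lit 1824) (nat_lit 2760995742) (nat_lit 1900) (nat_lit 16263889349) (nat_lit 449) (nat_lit 5) (nat_lit 473) (nat_lit 5) (nat_lit 474) (nat_lit 5) (nat_lit 613) (nat_lit 598) (nat_lit 349)))) (XT.nd (nat_lit 78) (nat_lit 0) (nat_lit 0) (XT.lf (nat_lit 0) (nat_lit 4516272432) (nat_lit 1824) (nat_lit 13682887862) (nat_lit 1900) (nat_lit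 4311386004) (nat_lit 450) (nat_lit 5) (nat_lit 474) (nat_lit 5) (nat_lit 475) (nat_lit 5) (nat_lit 614) (nat_lit 598) (nat_lit 348)) (XT.nd (nat_lit 78) (nat_lit 0) (nat_lit 76) (XT.lf (nat_lit 0) (nat_lit 5858176267) (nat_lit 1824) (nat_lit 2103047309) (nat_lit 1900) (nat_lit 14783980211) (nat_lit 450) (nat_lit 5) (nat_lit 474) (nat_lit 5) (nat_lit 475) (nat_lit 5) (nat_lit 615) (nat_lit 598) (nat_lit 347)) (XT.lf (nat_lit 0) (nat_lit 7303818363) (nat_lit 1824) (nat_lit 13165127922) (nat_lit 1900) (nat_lit 2514070665) (nat_lit 451) (nat_lit 5) (nat_lit 475) (nat_lit 5) (nat_lit 476) (nat_lit 5) (nat_lit 616) (nat_lit 598) (nat_lit 346))))) (XT.nd (nat_lit 234) (nat_lit 1444) (nat_lit 0) (XT.nd (nat_lit 78) (nat_lit 0) (nat_lit 76) (XT.lf (nat_lit 0) (nat_lit 8841866228) (nat_lit 1824) (nat_lit 1275042029) (nat_lit 1900) (nat_lit 13107408776) (nat_lit 451) (nat_lit 5) (nat_lit 475) (nat_lit 5) (nat_lit 476) (nat_lit 5) (nat_lit 617) (nat_lit 598) (nat_lit 345)) (XT.nd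 (nat_lit 78) (nat_lit 0) (nat_lit 0) (XT.lf (nat_lit 0) (nat_lit 10482037532) (nat_lit 1824) (nat_lit 12478012597) (nat_lit 1900) (nat_lit 508966244) (nat_lit 452) (nat_lit 5) (nat_lit 476) (nat_lit 5) (nat_lit 477) (nat_lit 5) (nat_lit 618) (nat_lit 598) (nat_lit 344)) (XT.lf (nat_lit 0) (nat_lit 12227309294) (nat_lit 1824) (nat_lit 268515074) (nat_lit 1900) (nat_lit 11221339888) (nat_lit 452) (nat_lit 5) (nat_lit 476) (nat_lit 5) (nat_lit 477) (nat_lit 5) (nat_lit 619) (nat_lit 598) (nat_lit 343)))) (XT.nd (nat_lit 156) (nat_lit 1520) (nat_lit 0) (XT.nd (nat_lit 78) (nat_lit 0) (nat_lit 76) (XT.lf (nat_lit 76) (nat_lit 12344450053) (nat_lit 0) (nat_lit 1739934573) (nat_lit 1900) (nat_lit 9884352994) (nat_lit 453) (nat_lit 5) (nat_lit 452) (nat_lit 5) (nat_lit 477) (nat_lit 5) (nat_lit 620) (nat_lit 598) (nat_lit 342)) (XT.lf (nat_lit 76) (nat_lit 937686395) (nat_lit 0) (nat_lit 15105551693) (nat_lit 1900) (nat_lit 8180812107) (nat_lit 454) (nat_lit 5) (nat_lit 453)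 (nat_lit 5) (nat_lit 478) (nat_lit 5) (nat_lit 621) (nat_lit 598) (nat_lit 341))) (XT.nd (nat_lit 78) (nat_lit 1596) (nat_lit 0) (XT.lf (nat_lit 76) (nat_lit 13894138614) (nat_lit 0) (nat_lit 4233428007) (nat_lit 1900) (nat_lit 6355176908) (nat_lit 454) (nat_lit 5) (nat_lit 453) (nat_lit 5) (nat_lit 478) (nat_lit 5) (nat_lit 622) (nat_lit 598) (nat_lit 340)) (XT.lf (nat_lit 0) (nat_lit 2346702955) (nat_lit 1672) (nat_lit 17963540709) (nat_lit 1748) (nat_lit 4435234285) (nat_lit 432) (nat_lit 5) (nat_lit 454) (nat_lit 5) (nat_lit 455) (nat_lit 5) (nat_lit 623) (nat_lit 598) (nat_lit 339))))))))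
noncomputable def xc233 : XT := (XT.nd (nat_lit 1950) (nat_lit 1976) (nat_lit 0) (XT.nd (nat_lit 936) (nat_lit 5244) (nat_lit 0) (XT.nd (nat_lit 468) (nat_lit 2508) (nat_lit 0) (XT.nd (nat_lit 234) (nat_lit 1824) (nat_lit 0) (XT.nd (nat_lit 78) (nat_lit 1064) (nat_lit 0) (XT.lf (nat_lit 0) (nat_lit 15653188312) (nat_lit 1672) (nat_lit 6979246893) (nat_lit 1748) (nat_lit 2379115082) (nat_lit 432) (nat_lit 5) (nat_lit 454) (nat_lit 5) (nat_lit 455) (nat_lit 5) (nat_lit 624) (nat_lit 598) (nat_lit 338)) (XT.nd (nat_lit 78) (nat_lit 76) (nat_lit 0) (XT.lf (nat_lit 0) (nat_lit 3964766009) (nat_lit 988) (nat_lit 21086492800) (nat_lit 1064) (nat_lit 230681940) (nat_lit 419) (nat_lit 5) (nat_lit 432) (nat_lit 5) (nat_lit 433) (nat_lit 5) (nat_lit 625) (nat_lit 598) (nat_lit 337)) (XT.lf (nat_lit 0) (nat_lit 2041478265) (nat_lit 1064) (nat_lit 7937322197) (nat_lit 76) (nat_lit 15576554902) (nat_lit 418) (nat_lit 5) (nat_lit 432) (nat_lit 5) (nat_lit 419) (nat_lit 5) (nat_lit 626)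 (nat_lit 598) (nat_lit 336)))) (XT.nd (nat_lit 78) (nat_lit 912) (nat_lit 0) (XT.lf (nat_lit 0) (nat_lit 4399663437) (nat_lit 988) (nat_lit 20060750571) (nat_lit 76) (nat_lit 1372920771) (nat_lit 406) (nat_lit 5) (nat_lit 419) (nat_lit 5) (nat_lit 407) (nat_lit 5) (nat_lit 627) (nat_lit 598) (nat_lit 335)) (XT.nd (nat_lit 78) (nat_lit 912) (nat_lit 0) (XT.lf (nat_lit 0) (nat_lit 6921851086) (nat_lit 988) (nat_lit 6320638561) (nat_lit 76) (nat_lit 12872047766) (nat_lit 406) (nat_lit 5) (nat_lit 419) (nat_lit 5) (nat_lit 407) (nat_lit 5) (nat_lit 628) (nat_lit 598) (nat_lit 334)) (XT.lf (nat_lit 0) (nat_lit 7793872378) (nat_lit 912) (nat_lit 1748406878) (nat_lit 988) (nat_lit 16858129309) (nat_lit 394) (nat_lit 5) (nat_lit 406) (nat_lit 5) (nat_lit 407) (nat_lit 5) (nat_lit 629) (nat_lit 598) (nat_lit 333))))) (XT.nd (nat_lit 234) (nat_lit 1672) (nat_lit 0) (XT.nd (nat_lit 78) (nat_lit 836) (nat_lit 0) (XT.lf (nat_lit 0) (nat_lit 12319812590) (nat_lit 988) (nat_lit 4482507135)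 (nat_lit 76) (nat_lit 9887583872) (nat_lit 394) (nat_lit 5) (nat_lit 407) (nat_lit 5) (nat_lit 395) (nat_lit 5) (nat_lit 630) (nat_lit 598) (nat_lit 332)) (XT.nd (nat_lit 78) (nat_lit 0) (nat_lit 0) (XT.lf (nat_lit 0) (nat_lit 10041511123) (nat_lit 836) (nat_lit 5185447687) (nat_lit 912) (nat_lit 11756748860) (nat_lit 383) (nat_lit 5) (nat_lit 394) (nat_lit 5) (nat_lit 395) (nat_lit 5) (nat_lit 631) (nat_lit 598) (nat_lit 331)) (XT.lf (nat_lit 0) (nat_lit 18263116836) (nat_lit 912) (nat_lit 2412125718) (nat_lit 76) (nat_lit 6606728268) (nat_lit 383) (nat_lit 5) (nat_lit 395) (nat_lit 5) (nat_lit 384) (nat_lit 5) (nat_lit 632) (nat_lit 598) (nat_lit 330)))) (XT.nd (nat_lit 78) (nat_lit 836) (nat_lit 0) (XT.lf (nat_lit 0) (nat_lit 12536023868) (nat_lit 836) (nat_lit 8937083648) (nat_lit 912) (nat_lit 6110829899) (nat_lit 372) (nat_lit 5) (nat_lit 383) (nat_lit 5) (nat_lit 384) (nat_lit 5) (nat_lit 633) (nat_lit 598) (nat_lit 329)) (XT.nd (nat_lit 78) (nat_lit 836) (nat_lit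 0) (XT.lf (nat_lit 0) (nat_lit 24780713900) (nat_lit 912) (nat_lit 98233333) (nat_lit 76) (nat_lit 3012328151) (nat_lit 372) (nat_lit 5) (nat_lit 384) (nat_lit 5) (nat_lit 373) (nat_lit 5) (nat_lit 634) (nat_lit 598) (nat_lit 328)) (XT.lf (nat_lit 0) (nat_lit 107319769) (nat_lit 836) (nat_lit 12913150874) (nat_lit 76) (nat_lit 15181157388) (nat_lit 361) (nat_lit 5) (nat_lit 372) (nat_lit 5) (nat_lit 362) (nat_lit 5) (nat_lit 635) (nat_lit 598) (nat_lit 327)))))) (XT.nd (nat_lit 468) (nat_lit 2888) (nat_lit 0) (XT.nd (nat_lit 234) (nat_lit 760) (nat_lit 0) (XT.nd (nat_lit 78) (nat_lit 760) (nat_lit 0) (XT.lf (nat_lit 0) (nat_lit 2475344734) (nat_lit 836) (nat_lit 886815916) (nat_lit 912) (nat_lit 25155331156) (nat_lit 350) (nat_lit 5) (nat_lit 361) (nat_lit 5) (nat_lit 362) (nat_lit 5) (nat_lit 636) (nat_lit 598) (nat_lit 326)) (XT.nd (nat_lit 78) (nat_lit 760) (nat_lit 0) (XT.lf (nat_lit 0) (nat_lit 6841434268) (nat_lit 912) (nat_lit 10569086866) (nat_lit 76) (nat_lit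 11425965339) (nat_lit 350) (nat_lit 5) (nat_lit 362) (nat_lit 5) (nat_lit 351) (nat_lit 5) (nat_lit 637) (nat_lit 598) (nat_lit 325)) (XT.lf (nat_lit 0) (nat_lit 5274157524) (nat_lit 760) (nat_lit 5153811408) (nat_lit 836) (nat_lit 18733138916) (nat_lit 340) (nat_lit 5) (nat_lit 350) (nat_lit 5) (nat_lit 351) (nat_lit 5) (nat_lit 638) (nat_lit 598) (nat_lit 324)))) (XT.nd (nat_lit 78) (nat_lit 760) (nat_lit 0) (XT.lf (nat_lit 0) (nat_lit 14202925992) (nat_lit 836) (nat_lit 7964053798) (nat_lit 76) (nat_lit 7322908349) (nat_lit 340) (nat_lit 5) (nat_lit 351) (nat_lit 5) (nat_lit 341) (nat_lit 5) (nat_lit 639) (nat_lit 598) (nat_lit 323)) (XT.nd (nat_lit 78) (nat_lit 0) (nat_lit 0) (XT.lf (nat_lit 0) (nat_lit 8350127799) (nat_lit 760) (nat_lit 9789236994) (nat_lit 836) (nat_lit 11684159903) (nat_lit 330) (nat_lit 5) (nat_lit 340) (nat_lit 5) (nat_lit 341) (nat_lit 5) (nat_lit 640) (nat_lit 598) (nat_lit 322)) (XT.lf (nat_lit 0) (nat_lit 22224408236) (nat_lit 836) (nat_lit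 5085568686) (nat_lit 76) (nat_lit 2852459854) (nat_lit 330) (nat_lit 5) (nat_lit 341) (nat_lit 5) (nat_lit 331) (nat_lit 5) (nat_lit 641) (nat_lit 598) (nat_lit 321))))) (XT.nd (nat_lit 234) (nat_lit 1368) (nat_lit 0) (XT.nd (nat_lit 78) (nat_lit 836) (nat_lit 0) (XT.lf (nat_lit 0) (nat_lit 11716315028) (nat_lit 684) (nat_lit 14813448127) (nat_lit 760) (nat_lit 3975592033) (nat_lit 321) (nat_lit 5) (nat_lit 330) (nat_lit 5) (nat_lit 331) (nat_lit 5) (nat_lit 642) (nat_lit 598) (nat_lit 320)) (XT.nd (nat_lit 78) (nat_lit 760) (nat_lit 0) (XT.lf (nat_lit 0) (nat_lit 97303641) (nat_lit 760) (nat_lit 1934479040) (nat_lit 76) (nat_lit 28822699451) (nat_lit 320) (nat_lit 5) (nat_lit 330) (nat_lit 5) (nat_lit 321) (nat_lit 5) (nat_lit 643) (nat_lit 598) (nat_lit 319)) (XT.lf (nat_lit 0) (nat_lit 4368720573) (nat_lit 836) (nat_lit 15849673021) (nat_lit 76) (nat_lit 10988266800) (nat_lit 310) (nat_lit 5) (nat_lit 321) (nat_lit 5) (nat_lit 311) (nat_lit 5) (nat_lit 644) (nat_lit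 598) (nat_lit 318)))) (XT.nd (nat_lit 156) (nat_lit 684) (nat_lit 0) (XT.nd (nat_lit 78) (nat_lit 0) (nat_lit 0) (XT.lf (nat_lit 0) (nat_lit 1457939251) (nat_lit 684) (nat_lit 7301410227) (nat_lit 760) (nat_lit 22805857351) (nat_lit 301) (nat_lit 5) (nat_lit 310) (nat_lit 5) (nat_lit 311) (nat_lit 5) (nat_lit 645) (nat_lit 598) (nat_lit 317)) (XT.lf (nat_lit 0) (nat_lit 13380812016) (nat_lit 760) (nat_lit 12643636845) (nat_lit 76) (nat_lit 5903615184) (nat_lit 301) (nat_lit 5) (nat_lit 311) (nat_lit 5) (nat_lit 302) (nat_lit 5) (nat_lit 646) (nat_lit 598) (nat_lit 316))) (XT.nd (nat_lit 78) (nat_lit 0) (nat_lit 0) (XT.lf (nat_lit 0) (nat_lit 5186435396) (nat_lit 684) (nat_lit 12988158347) (nat_lit 760) (nat_lit 14121987132) (nat_lit 292) (nat_lit 5) (nat_lit 301) (nat_lit 5) (nat_lit 302) (nat_lit 5) (nat_lit 647) (nat_lit 598) (nat_lit 315)) (XT.lf (nat_lit 0) (nat_lit 23149549610) (nat_lit 760) (nat_lit 9131363511) (nat_lit 76) (nat_lit 389849213) (nat_lit 292) (nat_lit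 5) (nat_lit 302) (nat_lit 5) (nat_lit 293) (nat_lit 5) (nat_lit 648) (nat_lit 598) (nat_lit 314))))))) (XT.nd (nat_lit 77844) (nat_lit 0) (nat_lit 13832) (XT.nd (nat_lit 77376) (nat_lit 0) (nat_lit 15276) (XT.nd (nat_lit 234) (nat_lit 608) (nat_lit 0) (XT.nd (nat_lit 78) (nat_lit 760) (nat_lit 0) (XT.lf (nat_lit 0) (nat_lit 9239687330) (nat_lit 608) (nat_lit 19128249035) (nat_lit 684) (nat_lit 4681612682) (nat_lit 284) (nat_lit 5) (nat_lit 292) (nat_lit 5) (nat_lit 293) (nat_lit 5) (nat_lit 649) (nat_lit 598) (nat_lit 313)) (XT.nd (nat_lit 78) (nat_lit 684) (nat_lit 0) (XT.lf (nat_lit 0) (nat_lit 311058121) (nat_lit 684) (nat_lit 5337292757) (nat_lit 76) (nat_lit 27786335373) (nat_lit 283) (nat_lit 5) (nat_lit 292) (nat_lit 5) (nat_lit 284) (nat_lit 5) (nat_lit 650) (nat_lit 598) (nat_lit 312)) (XT.lf (nat_lit 0) (nat_lit 5480947227) (nat_lit 760) (nat_lit 20228247286) (nat_lit 76) (nat_lit 8114911988) (nat_lit 274) (nat_lit 5) (nat_lit 284) (nat_lit 5) (nat_lit 275)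 (nat_lit 5) (nat_lit 651) (nat_lit 598) (nat_lit 311)))) (XT.nd (nat_lit 78) (nat_lit 608) (nat_lit 0) (XT.lf (nat_lit 0) (nat_lit 10825693444) (nat_lit 760) (nat_lit 1280676423) (nat_lit 76) (nat_lit 22113516340) (nat_lit 274) (nat_lit 5) (nat_lit 284) (nat_lit 5) (nat_lit 275) (nat_lit 5) (nat_lit 652) (nat_lit 598) (nat_lit 310)) (XT.nd (nat_lit 76986) (nat_lit 0) (nat_lit 15276) (XT.lf (nat_lit 0) (nat_lit 16406346005) (nat_lit 684) (nat_lit 16350287327) (nat_lit 76) (nat_lit 1864368181) (nat_lit 266) (nat_lit 5) (nat_lit 275) (nat_lit 5) (nat_lit 267) (nat_lit 5) (nat_lit 653) (nat_lit 598) (nat_lit 309)) (XT.lf (nat_lit 0) (nat_lit 3403017507) (nat_lit 0) (nat_lit 3403017507) (nat_lit 1748) (nat_lit 2967851706) (nat_lit 467) (nat_lit 5) (nat_lit 467) (nat_lit 3) (nat_lit 490) (nat_lit 3) (nat_lit 599) (nat_lit 599) (nat_lit 362))))) (XT.nd (nat_lit 234) (nat_lit 0) (nat_lit 76) (XT.nd (nat_lit 78) (nat_lit 0) (nat_lit 0) (XT.lf (nat_lit 0) (nat_lit 13937815939)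 (nat_lit 1748) (nat_lit 3179668464) (nat_lit 1824) (nat_lit 2621947265) (nat_lit 467) (nat_lit 5) (nat_lit 490) (nat_lit 3) (nat_lit 491) (nat_lit 5) (nat_lit 600) (nat_lit 599) (nat_lit 361)) (XT.nd (nat_lit 78) (nat_lit 0) (nat_lit 76) (XT.lf (nat_lit 76) (nat_lit 6612933071) (nat_lit 0) (nat_lit 7740645528) (nat_lit 1824) (nat_lit 5579675134) (nat_lit 468) (nat_lit 5) (nat_lit 467) (nat_lit 5) (nat_lit 491) (nat_lit 5) (nat_lit 601) (nat_lit 599) (nat_lit 360)) (XT.lf (nat_lit 0) (nat_lit 14806555767) (nat_lit 1748) (nat_lit 3500473658) (nat_lit 1824) (nat_lit 1823345523) (nat_lit 468) (nat_lit 5) (nat_lit 491) (nat_lit 5) (nat_lit 492) (nat_lit 5) (nat_lit 602) (nat_lit 599) (nat_lit 359)))) (XT.nd (nat_lit 78) (nat_lit 0) (nat_lit 76) (XT.lf (nat_lit 76) (nat_lit 6547979907) (nat_lit 0) (nat_lit 8810055453) (nat_lit 1824) (nat_lit 4971615050) (nat_lit 469) (nat_lit 5) (nat_lit 468) (nat_lit 5) (nat_lit 492) (nat_lit 5) (nat_lit 603) (nat_lit 599) (nat_lit 358)) (XT.nd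 (nat_lit 78) (nat_lit 0) (nat_lit 0) (XT.lf (nat_lit 0) (nat_lit 15945631398) (nat_lit 1748) (nat_lit 3695925949) (nat_lit 1824) (nat_lit 890852966) (nat_lit 469) (nat_lit 5) (nat_lit 492) (nat_lit 5) (nat_lit 493) (nat_lit 5) (nat_lit 604) (nat_lit 599) (nat_lit 357)) (XT.lf (nat_lit 76) (nat_lit 6617539719) (nat_lit 0) (nat_lit 10024581325) (nat_lit 1824) (nat_lit 4095162190) (nat_lit 470) (nat_lit 5) (nat_lit 469) (nat_lit 5) (nat_lit 493) (nat_lit 5) (nat_lit 605) (nat_lit 599) (nat_lit 356)))))) (XT.nd (nat_lit 468) (nat_lit 0) (nat_lit 0) (XT.nd (nat_lit 234) (nat_lit 1596) (nat_lit 0) (XT.nd (nat_lit 78) (nat_lit 0) (nat_lit 76) (XT.lf (nat_lit 76) (nat_lit 17184950736) (nat_lit 0) (nat_lit 188288851) (nat_lit 1824) (nat_lit 3572600684) (nat_lit 470) (nat_lit 5) (nat_lit 469) (nat_lit 5) (nat_lit 493) (nat_lit 5) (nat_lit 606) (nat_lit 599) (nat_lit 355)) (XT.nd (nat_lit 78) (nat_lit 0) (nat_lit 0) (XT.lf (nat_lit 76) (nat_lit 6828310062) (nat_lit 0) (nat_lit 11394911498)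 (nat_lit 1824) (nat_lit 2933262698) (nat_lit 471) (nat_lit 5) (nat_lit 470) (nat_lit 5) (nat_lit 494) (nat_lit 5) (nat_lit 607) (nat_lit 599) (nat_lit 354)) (XT.lf (nat_lit 76) (nat_lit 17676558758) (nat_lit 0) (nat_lit 1436172072) (nat_lit 1824) (nat_lit 2258160360) (nat_lit 471) (nat_lit 5) (nat_lit 470) (nat_lit 5) (nat_lit 494) (nat_lit 5) (nat_lit 608) (nat_lit 599) (nat_lit 353)))) (XT.nd (nat_lit 78) (nat_lit 1748) (nat_lit 0) (XT.lf (nat_lit 76) (nat_lit 7187331251) (nat_lit 0) (nat_lit 12932129611) (nat_lit 1824) (nat_lit 1468137389) (nat_lit 472) (nat_lit 5) (nat_lit 471) (nat_lit 5) (nat_lit 495) (nat_lit 5) (nat_lit 609) (nat_lit 599) (nat_lit 352)) (XT.nd (nat_lit 78) (nat_lit 1748) (nat_lit 0) (XT.lf (nat_lit 76) (nat_lit 18324594050) (nat_lit 0) (nat_lit 2852168837) (nat_lit 1824) (nat_lit 631268412) (nat_lit 472) (nat_lit 5) (nat_lit 471) (nat_lit 5) (nat_lit 495) (nat_lit 5) (nat_lit 610) (nat_lit 599) (nat_lit 351)) (XT.lf (nat_lit 0) (nat_lit 314571334)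 (nat_lit 1824) (nat_lit 14331056434) (nat_lit 1900) (nat_lit 7385313950) (nat_lit 448) (nat_lit 5) (nat_lit 472) (nat_lit 5) (nat_lit 473) (nat_lit 5) (nat_lit 611) (nat_lit 599) (nat_lit 350))))) (XT.nd (nat_lit 234) (nat_lit 0) (nat_lit 152) (XT.nd (nat_lit 78) (nat_lit 0) (nat_lit 76) (XT.lf (nat_lit 0) (nat_lit 1309615030) (nat_lit 1824) (nat_lit 3129516031) (nat_lit 1900) (nat_lit 17818321592) (nat_lit 448) (nat_lit 5) (nat_lit 472) (nat_lit 5) (nat_lit 473) (nat_lit 5) (nat_lit 612) (nat_lit 599) (nat_lit 349)) (XT.nd (nat_lit 78) (nat_lit 0) (nat_lit 0) (XT.lf (nat_lit 0) (nat_lit 2414647244) (nat_lit 1824) (nat_lit 14122835273) (nat_lit 1900) (nat_lit 5949210085) (nat_lit 449) (nat_lit 5) (nat_lit 473) (nat_lit 5) (nat_lit 474) (nat_lit 5) (nat_lit 613) (nat_lit 599) (nat_lit 348)) (XT.lf (nat_lit 0) (nat_lit 3588765131) (nat_lit 1824) (nat_lit 2622670035) (nat_lit 1900) (nat_lit 16508143020) (nat_lit 449) (nat_lit 5) (nat_lit 473) (nat_lit 5) (nat_lit 474) (nat_lit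 5) (nat_lit 614) (nat_lit 599) (nat_lit 347)))) (XT.nd (nat_lit 156) (nat_lit 0) (nat_lit 76) (XT.nd (nat_lit 78) (nat_lit 0) (nat_lit 0) (XT.lf (nat_lit 0) (nat_lit 4871242058) (nat_lit 1824) (nat_lit 13758458159) (nat_lit 1900) (nat_lit 4325724258) (nat_lit 450) (nat_lit 5) (nat_lit 474) (nat_lit 5) (nat_lit 475) (nat_lit 5) (nat_lit 615) (nat_lit 599) (nat_lit 346)) (XT.lf (nat_lit 0) (nat_lit 6234794869) (nat_lit 1824) (nat_lit 1950904863) (nat_lit 1900) (nat_lit 15009179946) (nat_lit 450) (nat_lit 5) (nat_lit 474) (nat_lit 5) (nat_lit 475) (nat_lit 5) (nat_lit 616) (nat_lit 599) (nat_lit 345))) (XT.nd (nat_lit 78) (nat_lit 0) (nat_lit 0) (XT.lf (nat_lit 0) (nat_lit 7705107999) (nat_lit 1824) (nat_lit 13229946963) (nat_lit 1900) (nat_lit 2502479743) (nat_lit 451) (nat_lit 5) (nat_lit 475) (nat_lit 5) (nat_lit 476) (nat_lit 5) (nat_lit 617) (nat_lit 599) (nat_lit 344)) (XT.lf (nat_lit 0) (nat_lit 9268912639) (nat_lit 1824) (nat_lit 1105951186) (nat_lit 1900) (nat_lit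 13308897800) (nat_lit 451) (nat_lit 5) (nat_lit 475) (nat_lit 5) (nat_lit 476) (nat_lit 5) (nat_lit 618) (nat_lit 599) (nat_lit 343))))))))
noncomputable def xc234 : XT := (XT.nd (nat_lit 1950) (nat_lit 3572) (nat_lit 0) (XT.nd (nat_lit 936) (nat_lit 5548) (nat_lit 0) (XT.nd (nat_lit 468) (nat_lit 2888) (nat_lit 0) (XT.nd (nat_lit 234) (nat_lit 1520) (nat_lit 0) (XT.nd (nat_lit 78) (nat_lit 0) (nat_lit 0) (XT.lf (nat_lit 0) (nat_lit 10937890703) (nat_lit 1824) (nat_lit 12528947670) (nat_lit 1900) (nat_lit 466597250) (nat_lit 452) (nat_lit 5) (nat_lit 476) (nat_lit 5) (nat_lit 477) (nat_lit 5) (nat_lit 619) (nat_lit 599) (nat_lit 342)) (XT.nd (nat_lit 78) (nat_lit 0) (nat_lit 0) (XT.lf (nat_lit 0) (nat_lit 12713240206) (nat_lit 1824) (nat_lit 79154807) (nat_lit 1900) (nat_lit 11394248726) (nat_lit 452) (nat_lit 5) (nat_lit 476) (nat_lit 5) (nat_lit 477) (nat_lit 5) (nat_lit 620) (nat_lit 599) (nat_lit 341)) (XT.lf (nat_lit 76) (nat_lit 12784788500) (nat_lit 0) (nat_lit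 1819191512) (nat_lit 1900) (nat_lit 9839338806) (nat_lit 453) (nat_lit 5) (nat_lit 452) (nat_lit 5) (nat_lit 477) (nat_lit 5) (nat_lit 621) (nat_lit 599) (nat_lit 340)))) (XT.nd (nat_lit 78) (nat_lit 1596) (nat_lit 0) (XT.lf (nat_lit 76) (nat_lit 1153665645) (nat_lit 0) (nat_lit 15444677568) (nat_lit 1900) (nat_lit 8105468473) (nat_lit 454) (nat_lit 5) (nat_lit 453) (nat_lit 5) (nat_lit 478) (nat_lit 5) (nat_lit 622) (nat_lit 599) (nat_lit 339)) (XT.nd (nat_lit 78) (nat_lit 1596) (nat_lit 0) (XT.lf (nat_lit 76) (nat_lit 14365379741) (nat_lit 0) (nat_lit 4354385627) (nat_lit 1900) (nat_lit 6248006058) (nat_lit 454) (nat_lit 5) (nat_lit 453) (nat_lit 5) (nat_lit 478) (nat_lit 5) (nat_lit 623) (nat_lit 599) (nat_lit 338)) (XT.lf (nat_lit 0) (nat_lit 2590553870) (nat_lit 1672) (nat_lit 18352086714) (nat_lit 1748) (nat_lit 4293189725) (nat_lit 432) (nat_lit 5) (nat_lit 454) (nat_lit 5) (nat_lit 455) (nat_lit 5) (nat_lit 624) (nat_lit 599) (nat_lit 337))))) (XT.nd (nat_lit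 234) (nat_lit 1824) (nat_lit 0) (XT.nd (nat_lit 78) (nat_lit 1064) (nat_lit 0) (XT.lf (nat_lit 0) (nat_lit 16159307819) (nat_lit 1672) (nat_lit 7147532998) (nat_lit 1748) (nat_lit 2200472634) (nat_lit 432) (nat_lit 5) (nat_lit 454) (nat_lit 5) (nat_lit 455) (nat_lit 5) (nat_lit 625) (nat_lit 599) (nat_lit 336)) (XT.nd (nat_lit 78) (nat_lit 76) (nat_lit 0) (XT.lf (nat_lit 0) (nat_lit 4240470535) (nat_lit 988) (nat_lit 21530314709) (nat_lit 1064) (nat_lit 12392231) (nat_lit 419) (nat_lit 5) (nat_lit 432) (nat_lit 5) (nat_lit 433) (nat_lit 5) (nat_lit 626) (nat_lit 599) (nat_lit 335)) (XT.lf (nat_lit 0) (nat_lit 2297974428) (nat_lit 1064) (nat_lit 7900613682) (nat_lit 76) (nat_lit 15863530212) (nat_lit 418) (nat_lit 5) (nat_lit 432) (nat_lit 5) (nat_lit 419) (nat_lit 5) (nat_lit 627) (nat_lit 599) (nat_lit 334)))) (XT.nd (nat_lit 78) (nat_lit 912) (nat_lit 0) (XT.lf (nat_lit 0) (nat_lit 4700234915) (nat_lit 988) (nat_lit 20263392023) (nat_lit 76) (nat_lit 1382092759) (nat_lit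 406) (nat_lit 5) (nat_lit 419) (nat_lit 5) (nat_lit 407) (nat_lit 5) (nat_lit 628) (nat_lit 599) (nat_lit 333)) (XT.nd (nat_lit 78) (nat_lit 912) (nat_lit 0) (XT.lf (nat_lit 0) (nat_lit 7268698117) (nat_lit 988) (nat_lit 6252371373) (nat_lit 76) (nat_lit 13111560851) (nat_lit 406) (nat_lit 5) (nat_lit 419) (nat_lit 5) (nat_lit 407) (nat_lit 5) (nat_lit 629) (nat_lit 599) (nat_lit 332)) (XT.lf (nat_lit 0) (nat_lit 8143148996) (nat_lit 912) (nat_lit 1795555059) (nat_lit 988) (nat_lit 16985572056) (nat_lit 394) (nat_lit 5) (nat_lit 406) (nat_lit 5) (nat_lit 407) (nat_lit 5) (nat_lit 630) (nat_lit 599) (nat_lit 331)))))) (XT.nd (nat_lit 468) (nat_lit 3040) (nat_lit 0) (XT.nd (nat_lit 234) (nat_lit 1672) (nat_lit 0) (XT.nd (nat_lit 78) (nat_lit 836) (nat_lit 0) (XT.lf (nat_lit 0) (nat_lit 12767679561) (nat_lit 988) (nat_lit 4378413282) (nat_lit 76) (nat_lit 10073550941) (nat_lit 394) (nat_lit 5) (nat_lit 407) (nat_lit 5) (nat_lit 395) (nat_lit 5) (nat_lit 631) (nat_lit 599)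 (nat_lit 330)) (XT.nd (nat_lit 78) (nat_lit 0) (nat_lit 0) (XT.lf (nat_lit 0) (nat_lit 10434810709) (nat_lit 836) (nat_lit 5295457229) (nat_lit 912) (nat_lit 11789110574) (nat_lit 383) (nat_lit 5) (nat_lit 394) (nat_lit 5) (nat_lit 395) (nat_lit 5) (nat_lit 632) (nat_lit 599) (nat_lit 329)) (XT.lf (nat_lit 0) (nat_lit 18823211569) (nat_lit 912) (nat_lit 2267707857) (nat_lit 76) (nat_lit 6732766800) (nat_lit 383) (nat_lit 5) (nat_lit 395) (nat_lit 5) (nat_lit 384) (nat_lit 5) (nat_lit 633) (nat_lit 599) (nat_lit 328)))) (XT.nd (nat_lit 78) (nat_lit 836) (nat_lit 0) (XT.lf (nat_lit 0) (nat_lit 12978137219) (nat_lit 836) (nat_lit 9116687251) (nat_lit 912) (nat_lit 6036919770) (nat_lit 372) (nat_lit 5) (nat_lit 383) (nat_lit 5) (nat_lit 384) (nat_lit 5) (nat_lit 634) (nat_lit 599) (nat_lit 327)) (XT.nd (nat_lit 78) (nat_lit 76) (nat_lit 0) (XT.lf (nat_lit 0) (nat_lit 92456140) (nat_lit 760) (nat_lit 25372951938) (nat_lit 836) (nat_lit 2979884913) (nat_lit 362) (nat_lit 5)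 (nat_lit 372) (nat_lit 5) (nat_lit 373) (nat_lit 5) (nat_lit 635) (nat_lit 599) (nat_lit 326)) (XT.lf (nat_lit 0) (nat_lit 296742248) (nat_lit 836) (nat_lit 12978717732) (nat_lit 76) (nat_lit 15486429809) (nat_lit 361) (nat_lit 5) (nat_lit 372) (nat_lit 5) (nat_lit 362) (nat_lit 5) (nat_lit 636) (nat_lit 599) (nat_lit 325))))) (XT.nd (nat_lit 234) (nat_lit 1444) (nat_lit 0) (XT.nd (nat_lit 78) (nat_lit 760) (nat_lit 0) (XT.lf (nat_lit 0) (nat_lit 2716280051) (nat_lit 836) (nat_lit 897970697) (nat_lit 912) (nat_lit 25469869172) (nat_lit 350) (nat_lit 5) (nat_lit 361) (nat_lit 5) (nat_lit 362) (nat_lit 5) (nat_lit 637) (nat_lit 599) (nat_lit 324)) (XT.nd (nat_lit 78) (nat_lit 760) (nat_lit 0) (XT.lf (nat_lit 0) (nat_lit 7159527283) (nat_lit 912) (nat_lit 10589186826) (nat_lit 76) (nat_lit 11660852508) (nat_lit 350) (nat_lit 5) (nat_lit 362) (nat_lit 5) (nat_lit 351) (nat_lit 5) (nat_lit 638) (nat_lit 599) (nat_lit 323)) (XT.lf (nat_lit 0) (nat_lit 5569664019) (nat_lit 760)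 (nat_lit 5245808176) (nat_lit 836) (nat_lit 18925255110) (nat_lit 340) (nat_lit 5) (nat_lit 350) (nat_lit 5) (nat_lit 351) (nat_lit 5) (nat_lit 639) (nat_lit 599) (nat_lit 322)))) (XT.nd (nat_lit 156) (nat_lit 684) (nat_lit 0) (XT.nd (nat_lit 78) (nat_lit 760) (nat_lit 0) (XT.lf (nat_lit 0) (nat_lit 14662490217) (nat_lit 836) (nat_lit 7933575943) (nat_lit 76) (nat_lit 7480086272) (nat_lit 340) (nat_lit 5) (nat_lit 351) (nat_lit 5) (nat_lit 341) (nat_lit 5) (nat_lit 640) (nat_lit 599) (nat_lit 321)) (XT.lf (nat_lit 0) (nat_lit 8705640872) (nat_lit 760) (nat_lit 9969799569) (nat_lit 836) (nat_lit 11741066084) (nat_lit 330) (nat_lit 5) (nat_lit 340) (nat_lit 5) (nat_lit 341) (nat_lit 5) (nat_lit 641) (nat_lit 599) (nat_lit 320))) (XT.nd (nat_lit 78) (nat_lit 684) (nat_lit 0) (XT.lf (nat_lit 0) (nat_lit 22838883837) (nat_lit 836) (nat_lit 4999142462) (nat_lit 76) (nat_lit 2924237015) (nat_lit 330) (nat_lit 5) (nat_lit 341) (nat_lit 5) (nat_lit 331) (nat_lit 5) (nat_lit 642)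 (nat_lit 599) (nat_lit 319)) (XT.lf (nat_lit 0) (nat_lit 12137541179) (nat_lit 684) (nat_lit 15090685066) (nat_lit 760) (nat_lit 3883856682) (nat_lit 321) (nat_lit 5) (nat_lit 330) (nat_lit 5) (nat_lit 331) (nat_lit 5) (nat_lit 643) (nat_lit 599) (nat_lit 318))))))) (XT.nd (nat_lit 77922) (nat_lit 0) (nat_lit 13224) (XT.nd (nat_lit 468) (nat_lit 1368) (nat_lit 0) (XT.nd (nat_lit 234) (nat_lit 684) (nat_lit 0) (XT.nd (nat_lit 78) (nat_lit 1444) (nat_lit 0) (XT.lf (nat_lit 0) (nat_lit 264937218) (nat_lit 760) (nat_lit 1787710420) (nat_lit 76) (nat_lit 29415589232) (nat_lit 320) (nat_lit 5) (nat_lit 330) (nat_lit 5) (nat_lit 321) (nat_lit 5) (nat_lit 644) (nat_lit 599) (nat_lit 317)) (XT.nd (nat_lit 78) (nat_lit 684) (nat_lit 0) (XT.lf (nat_lit 0) (nat_lit 4619863679) (nat_lit 836) (nat_lit 15979268732) (nat_lit 76) (nat_lit 11228365078) (nat_lit 310) (nat_lit 5) (nat_lit 321) (nat_lit 5) (nat_lit 311) (nat_lit 5) (nat_lit 645) (nat_lit 599) (nat_lit 316)) (XT.lf (nat_lit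 0) (nat_lit 1673262905) (nat_lit 684) (nat_lit 7423039812) (nat_lit 760) (nat_lit 23096952591) (nat_lit 301) (nat_lit 5) (nat_lit 310) (nat_lit 5) (nat_lit 311) (nat_lit 5) (nat_lit 646) (nat_lit 599) (nat_lit 315)))) (XT.nd (nat_lit 78) (nat_lit 684) (nat_lit 0) (XT.lf (nat_lit 0) (nat_lit 13807177925) (nat_lit 760) (nat_lit 12710958489) (nat_lit 76) (nat_lit 6045293985) (nat_lit 301) (nat_lit 5) (nat_lit 311) (nat_lit 5) (nat_lit 302) (nat_lit 5) (nat_lit 647) (nat_lit 599) (nat_lit 314)) (XT.nd (nat_lit 78) (nat_lit 0) (nat_lit 0) (XT.lf (nat_lit 0) (nat_lit 5474494466) (nat_lit 684) (nat_lit 13220424877) (nat_lit 760) (nat_lit 14244436932) (nat_lit 292) (nat_lit 5) (nat_lit 301) (nat_lit 5) (nat_lit 302) (nat_lit 5) (nat_lit 648) (nat_lit 599) (nat_lit 313)) (XT.lf (nat_lit 0) (nat_lit 23766474182) (nat_lit 760) (nat_lit 9130355435) (nat_lit 76) (nat_lit 424250133) (nat_lit 292) (nat_lit 5) (nat_lit 302) (nat_lit 5) (nat_lit 293) (nat_lit 5) (nat_lit 649) (nat_lit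 599) (nat_lit 312))))) (XT.nd (nat_lit 234) (nat_lit 0) (nat_lit 0) (XT.nd (nat_lit 78) (nat_lit 760) (nat_lit 0) (XT.lf (nat_lit 0) (nat_lit 9606908295) (nat_lit 608) (nat_lit 19480486509) (nat_lit 684) (nat_lit 4620084445) (nat_lit 284) (nat_lit 5) (nat_lit 292) (nat_lit 5) (nat_lit 293) (nat_lit 5) (nat_lit 650) (nat_lit 599) (nat_lit 311)) (XT.nd (nat_lit 78) (nat_lit 684) (nat_lit 0) (XT.lf (nat_lit 0) (nat_lit 467402355) (nat_lit 684) (nat_lit 5263175287) (nat_lit 76) (nat_lit 28369781818) (nat_lit 283) (nat_lit 5) (nat_lit 292) (nat_lit 5) (nat_lit 284) (nat_lit 5) (nat_lit 651) (nat_lit 599) (nat_lit 310)) (XT.lf (nat_lit 0) (nat_lit 5739115611) (nat_lit 760) (nat_lit 20450357573) (nat_lit 76) (nat_lit 8308126758) (nat_lit 274) (nat_lit 5) (nat_lit 284) (nat_lit 5) (nat_lit 275) (nat_lit 5) (nat_lit 652) (nat_lit 599) (nat_lit 309)))) (XT.nd (nat_lit 77064) (nat_lit 0) (nat_lit 14668) (XT.lf (nat_lit 0) (nat_lit 11187844018) (nat_lit 760) (nat_lit 1127412835)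 (nat_lit 76) (nat_lit 22586096991) (nat_lit 274) (nat_lit 5) (nat_lit 284) (nat_lit 5) (nat_lit 275) (nat_lit 5) (nat_lit 653) (nat_lit 599) (nat_lit 308)) (XT.nd (nat_lit 78) (nat_lit 0) (nat_lit 0) (XT.lf (nat_lit 0) (nat_lit 3556706047) (nat_lit 0) (nat_lit 3556706047) (nat_lit 1748) (nat_lit 2852500405) (nat_lit 467) (nat_lit 5) (nat_lit 467) (nat_lit 3) (nat_lit 490) (nat_lit 3) (nat_lit 600) (nat_lit 600) (nat_lit 360)) (XT.lf (nat_lit 0) (nat_lit 14551278974) (nat_lit 1748) (nat_lit 3067504776) (nat_lit 1824) (nat_lit 2508689817) (nat_lit 467) (nat_lit 5) (nat_lit 490) (nat_lit 3) (nat_lit 491) (nat_lit 5) (nat_lit 601) (nat_lit 600) (nat_lit 359)))))) (XT.nd (nat_lit 468) (nat_lit 1444) (nat_lit 0) (XT.nd (nat_lit 234) (nat_lit 0) (nat_lit 152) (XT.nd (nat_lit 78) (nat_lit 0) (nat_lit 76) (XT.lf (nat_lit 76) (nat_lit 6919792494) (nat_lit 0) (nat_lit 8050135140) (nat_lit 1824) (nat_lit 5355354055) (nat_lit 468) (nat_lit 5) (nat_lit 467) (nat_lit 5) (nat_lit 491)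 (nat_lit 5) (nat_lit 602) (nat_lit 600) (nat_lit 358)) (XT.nd (nat_lit 78) (nat_lit 0) (nat_lit 0) (XT.lf (nat_lit 0) (nat_lit 15424523352) (nat_lit 1748) (nat_lit 3391814363) (nat_lit 1824) (nat_lit 1710157445) (nat_lit 468) (nat_lit 5) (nat_lit 491) (nat_lit 5) (nat_lit 492) (nat_lit 5) (nat_lit 603) (nat_lit 600) (nat_lit 357)) (XT.lf (nat_lit 76) (nat_lit 6856432822) (nat_lit 0) (nat_lit 9125441601) (nat_lit 1824) (nat_lit 4747985862) (nat_lit 469) (nat_lit 5) (nat_lit 468) (nat_lit 5) (nat_lit 492) (nat_lit 5) (nat_lit 604) (nat_lit 600) (nat_lit 356)))) (XT.nd (nat_lit 78) (nat_lit 0) (nat_lit 0) (XT.lf (nat_lit 0) (nat_lit 16574127039) (nat_lit 1748) (nat_lit 3588687476) (nat_lit 1824) (nat_lit 774003749) (nat_lit 469) (nat_lit 5) (nat_lit 492) (nat_lit 5) (nat_lit 493) (nat_lit 5) (nat_lit 605) (nat_lit 600) (nat_lit 355)) (XT.nd (nat_lit 78) (nat_lit 0) (nat_lit 0) (XT.lf (nat_lit 76) (nat_lit 6929855684) (nat_lit 0) (nat_lit 10349788992) (nat_lit 1824) (nat_lit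 3866242955) (nat_lit 470) (nat_lit 5) (nat_lit 469) (nat_lit 5) (nat_lit 493) (nat_lit 5) (nat_lit 606) (nat_lit 600) (nat_lit 354)) (XT.lf (nat_lit 76) (nat_lit 17705086192) (nat_lit 0) (nat_lit 314325257) (nat_lit 1824) (nat_lit 3339324778) (nat_lit 470) (nat_lit 5) (nat_lit 469) (nat_lit 5) (nat_lit 493) (nat_lit 5) (nat_lit 607) (nat_lit 600) (nat_lit 353))))) (XT.nd (nat_lit 234) (nat_lit 1672) (nat_lit 0) (XT.nd (nat_lit 78) (nat_lit 0) (nat_lit 0) (XT.lf (nat_lit 76) (nat_lit 7146921817) (nat_lit 0) (nat_lit 11734017907) (nat_lit 1824) (nat_lit 2692763352) (nat_lit 471) (nat_lit 5) (nat_lit 470) (nat_lit 5) (nat_lit 494) (nat_lit 5) (nat_lit 608) (nat_lit 600) (nat_lit 352)) (XT.nd (nat_lit 78) (nat_lit 0) (nat_lit 76) (XT.lf (nat_lit 76) (nat_lit 18208565966) (nat_lit 0) (nat_lit 1573923139) (nat_lit 1824) (nat_lit 2010024939) (nat_lit 471) (nat_lit 5) (nat_lit 470) (nat_lit 5) (nat_lit 494) (nat_lit 5) (nat_lit 609) (nat_lit 600) (nat_lit 351)) (XT.lf (nat_lit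 76) (nat_lit 7514839791) (nat_lit 0) (nat_lit 13289375726) (nat_lit 1824) (nat_lit 1209443376) (nat_lit 472) (nat_lit 5) (nat_lit 471) (nat_lit 5) (nat_lit 495) (nat_lit 5) (nat_lit 610) (nat_lit 600) (nat_lit 350)))) (XT.nd (nat_lit 156) (nat_lit 0) (nat_lit 0) (XT.nd (nat_lit 78) (nat_lit 1748) (nat_lit 0) (XT.lf (nat_lit 76) (nat_lit 18871244670) (nat_lit 0) (nat_lit 3005882334) (nat_lit 1824) (nat_lit 361485191) (nat_lit 472) (nat_lit 5) (nat_lit 471) (nat_lit 5) (nat_lit 495) (nat_lit 5) (nat_lit 611) (nat_lit 600) (nat_lit 349)) (XT.lf (nat_lit 0) (nat_lit 594693309) (nat_lit 1824) (nat_lit 14428857000) (nat_lit 1900) (nat_lit 7442492156) (nat_lit 448) (nat_lit 5) (nat_lit 472) (nat_lit 5) (nat_lit 473) (nat_lit 5) (nat_lit 612) (nat_lit 600) (nat_lit 348))) (XT.nd (nat_lit 78) (nat_lit 0) (nat_lit 76) (XT.lf (nat_lit 0) (nat_lit 1604268652) (nat_lit 1824) (nat_lit 3006988154) (nat_lit 1900) (nat_lit 18085935011) (nat_lit 448) (nat_lit 5) (nat_lit 472) (nat_lit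 5) (nat_lit 473) (nat_lit 5) (nat_lit 613) (nat_lit 600) (nat_lit 347)) (XT.lf (nat_lit 0) (nat_lit 2726808965) (nat_lit 1824) (nat_lit 14215541369) (nat_lit 1900) (nat_lit 5988758879) (nat_lit 449) (nat_lit 5) (nat_lit 473) (nat_lit 5) (nat_lit 474) (nat_lit 5) (nat_lit 614) (nat_lit 600) (nat_lit 346))))))))
noncomputable def xc235 : XT := (XT.nd (nat_lit 1950) (nat_lit 5776) (nat_lit 0) (XT.nd (nat_lit 936) (nat_lit 6232) (nat_lit 0) (XT.nd (nat_lit 468) (nat_lit 1292) (nat_lit 0) (XT.nd (nat_lit 234) (nat_lit 0) (nat_lit 152) (XT.nd (nat_lit 78) (nat_lit 0) (nat_lit 76) (XT.lf (nat_lit 0) (nat_lit 3919235311) (nat_lit 1824) (nat_lit 2489093427) (nat_lit 1900) (nat_lit 16760428031) (nat_lit 449) (nat_lit 5) (nat_lit 473) (nat_lit 5) (nat_lit 474) (nat_lit 5) (nat_lit 615) (nat_lit 600) (nat_lit 345)) (XT.nd (nat_lit 78) (nat_lit 0) (nat_lit 0) (XT.lf (nat_lit 0) (nat_lit 5223034622) (nat_lit 1824) (nat_lit 13843231839) (nat_lit 1900) (nat_lit 4343140832) (nat_lit 450)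 (nat_lit 5) (nat_lit 474) (nat_lit 5) (nat_lit 475) (nat_lit 5) (nat_lit 616) (nat_lit 600) (nat_lit 344)) (XT.lf (nat_lit 0) (nat_lit 6608870886) (nat_lit 1824) (nat_lit 1803260723) (nat_lit 1900) (nat_lit 15241620495) (nat_lit 450) (nat_lit 5) (nat_lit 474) (nat_lit 5) (nat_lit 475) (nat_lit 5) (nat_lit 617) (nat_lit 600) (nat_lit 343)))) (XT.nd (nat_lit 78) (nat_lit 0) (nat_lit 0) (XT.lf (nat_lit 0) (nat_lit 8104513186) (nat_lit 1824) (nat_lit 13303769743) (nat_lit 1900) (nat_lit 2493059582) (nat_lit 451) (nat_lit 5) (nat_lit 475) (nat_lit 5) (nat_lit 476) (nat_lit 5) (nat_lit 618) (nat_lit 600) (nat_lit 342)) (XT.nd (nat_lit 78) (nat_lit 0) (nat_lit 76) (XT.lf (nat_lit 0) (nat_lit 9694784056) (nat_lit 1824) (nat_lit 941034759) (nat_lit 1900) (nat_lit 13516772073) (nat_lit 451) (nat_lit 5) (nat_lit 475) (nat_lit 5) (nat_lit 476) (nat_lit 5) (nat_lit 619) (nat_lit 600) (nat_lit 341)) (XT.lf (nat_lit 0) (nat_lit 11393300209) (nat_lit 1824) (nat_lit 12588614301) (nat_lit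 1900) (nat_lit 425421392) (nat_lit 452) (nat_lit 5) (nat_lit 476) (nat_lit 5) (nat_lit 477) (nat_lit 5) (nat_lit 620) (nat_lit 600) (nat_lit 340))))) (XT.nd (nat_lit 234) (nat_lit 1520) (nat_lit 0) (XT.nd (nat_lit 78) (nat_lit 0) (nat_lit 0) (XT.lf (nat_lit 76) (nat_lit 107845451) (nat_lit 0) (nat_lit 13092371225) (nat_lit 1900) (nat_lit 11465470999) (nat_lit 453) (nat_lit 5) (nat_lit 452) (nat_lit 5) (nat_lit 477) (nat_lit 5) (nat_lit 621) (nat_lit 600) (nat_lit 339)) (XT.nd (nat_lit 78) (nat_lit 0) (nat_lit 76) (XT.lf (nat_lit 76) (nat_lit 13226421838) (nat_lit 0) (nat_lit 1898307223) (nat_lit 1900) (nat_lit 9802848720) (nat_lit 453) (nat_lit 5) (nat_lit 452) (nat_lit 5) (nat_lit 477) (nat_lit 5) (nat_lit 622) (nat_lit 600) (nat_lit 338)) (XT.lf (nat_lit 76) (nat_lit 1366305973) (nat_lit 0) (nat_lit 15789148630) (nat_lit 1900) (nat_lit 8037897069) (nat_lit 454) (nat_lit 5) (nat_lit 453) (nat_lit 5) (nat_lit 478) (nat_lit 5) (nat_lit 623) (nat_lit 600) (nat_lit 337))))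 (XT.nd (nat_lit 78) (nat_lit 1596) (nat_lit 0) (XT.lf (nat_lit 76) (nat_lit 14838537351) (nat_lit 0) (nat_lit 4476353251) (nat_lit 1900) (nat_lit 6147788951) (nat_lit 454) (nat_lit 5) (nat_lit 453) (nat_lit 5) (nat_lit 478) (nat_lit 5) (nat_lit 624) (nat_lit 600) (nat_lit 336)) (XT.nd (nat_lit 78) (nat_lit 0) (nat_lit 0) (XT.lf (nat_lit 0) (nat_lit 2831635281) (nat_lit 1672) (nat_lit 18747266849) (nat_lit 1748) (nat_lit 4157264549) (nat_lit 432) (nat_lit 5) (nat_lit 454) (nat_lit 5) (nat_lit 455) (nat_lit 5) (nat_lit 625) (nat_lit 600) (nat_lit 335)) (XT.lf (nat_lit 0) (nat_lit 16668053127) (nat_lit 1672) (nat_lit 7318070325) (nat_lit 1748) (nat_lit 2027041919) (nat_lit 432) (nat_lit 5) (nat_lit 454) (nat_lit 5) (nat_lit 455) (nat_lit 5) (nat_lit 626) (nat_lit 600) (nat_lit 334)))))) (XT.nd (nat_lit 468) (nat_lit 3344) (nat_lit 0) (XT.nd (nat_lit 234) (nat_lit 912) (nat_lit 0) (XT.nd (nat_lit 78) (nat_lit 912) (nat_lit 0) (XT.lf (nat_lit 0) (nat_lit 198963541) (nat_lit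 1064) (nat_lit 21781856504) (nat_lit 76) (nat_lit 4313763652) (nat_lit 418) (nat_lit 5) (nat_lit 432) (nat_lit 5) (nat_lit 419) (nat_lit 5) (nat_lit 627) (nat_lit 600) (nat_lit 333)) (XT.nd (nat_lit 78) (nat_lit 912) (nat_lit 0) (XT.lf (nat_lit 0) (nat_lit 2551225918) (nat_lit 1064) (nat_lit 7870760752) (nat_lit 76) (nat_lit 16157198559) (nat_lit 418) (nat_lit 5) (nat_lit 432) (nat_lit 5) (nat_lit 419) (nat_lit 5) (nat_lit 628) (nat_lit 600) (nat_lit 332)) (XT.lf (nat_lit 0) (nat_lit 4998563153) (nat_lit 988) (nat_lit 20477797158) (nat_lit 76) (nat_lit 1392158270) (nat_lit 406) (nat_lit 5) (nat_lit 419) (nat_lit 5) (nat_lit 407) (nat_lit 5) (nat_lit 629) (nat_lit 600) (nat_lit 331)))) (XT.nd (nat_lit 78) (nat_lit 912) (nat_lit 0) (XT.lf (nat_lit 0) (nat_lit 7614389275) (nat_lit 988) (nat_lit 6190298500) (nat_lit 76) (nat_lit 13356560359) (nat_lit 406) (nat_lit 5) (nat_lit 419) (nat_lit 5) (nat_lit 407) (nat_lit 5) (nat_lit 630) (nat_lit 600) (nat_lit 330)) (XT.nd (nat_lit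 78) (nat_lit 0) (nat_lit 0) (XT.lf (nat_lit 0) (nat_lit 8491901221) (nat_lit 912) (nat_lit 1843173238) (nat_lit 988) (nat_lit 17123707336) (nat_lit 394) (nat_lit 5) (nat_lit 406) (nat_lit 5) (nat_lit 407) (nat_lit 5) (nat_lit 631) (nat_lit 600) (nat_lit 329)) (XT.lf (nat_lit 0) (nat_lit 13216680518) (nat_lit 988) (nat_lit 4279760868) (nat_lit 76) (nat_lit 10263694962) (nat_lit 394) (nat_lit 5) (nat_lit 407) (nat_lit 5) (nat_lit 395) (nat_lit 5) (nat_lit 632) (nat_lit 600) (nat_lit 328))))) (XT.nd (nat_lit 234) (nat_lit 1672) (nat_lit 0) (XT.nd (nat_lit 78) (nat_lit 836) (nat_lit 0) (XT.lf (nat_lit 0) (nat_lit 10828502468) (nat_lit 836) (nat_lit 5407422301) (nat_lit 912) (nat_lit 11829993456) (nat_lit 383) (nat_lit 5) (nat_lit 394) (nat_lit 5) (nat_lit 395) (nat_lit 5) (nat_lit 633) (nat_lit 600) (nat_lit 327)) (XT.nd (nat_lit 78) (nat_lit 836) (nat_lit 0) (XT.lf (nat_lit 0) (nat_lit 19386942617) (nat_lit 912) (nat_lit 2127882875) (nat_lit 76) (nat_lit 6861562819) (nat_lit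 383) (nat_lit 5) (nat_lit 395) (nat_lit 5) (nat_lit 384) (nat_lit 5) (nat_lit 634) (nat_lit 600) (nat_lit 326)) (XT.lf (nat_lit 0) (nat_lit 13421660817) (nat_lit 836) (nat_lit 9299849456) (nat_lit 912) (nat_lit 5969147278) (nat_lit 372) (nat_lit 5) (nat_lit 383) (nat_lit 5) (nat_lit 384) (nat_lit 5) (nat_lit 635) (nat_lit 600) (nat_lit 325)))) (XT.nd (nat_lit 156) (nat_lit 836) (nat_lit 0) (XT.nd (nat_lit 78) (nat_lit 76) (nat_lit 0) (XT.lf (nat_lit 0) (nat_lit 280758281) (nat_lit 760) (nat_lit 25876329257) (nat_lit 836) (nat_lit 2853438607) (nat_lit 362) (nat_lit 5) (nat_lit 372) (nat_lit 5) (nat_lit 373) (nat_lit 5) (nat_lit 636) (nat_lit 600) (nat_lit 324)) (XT.lf (nat_lit 0) (nat_lit 482681018) (nat_lit 836) (nat_lit 13053078554) (nat_lit 76) (nat_lit 15797743635) (nat_lit 361) (nat_lit 5) (nat_lit 372) (nat_lit 5) (nat_lit 362) (nat_lit 5) (nat_lit 637) (nat_lit 600) (nat_lit 323))) (XT.nd (nat_lit 78) (nat_lit 0) (nat_lit 0) (XT.lf (nat_lit 0) (nat_lit 2954600675)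 (nat_lit 836) (nat_lit 909604142) (nat_lit 912) (nat_lit 25798020298) (nat_lit 350) (nat_lit 5) (nat_lit 361) (nat_lit 5) (nat_lit 362) (nat_lit 5) (nat_lit 638) (nat_lit 600) (nat_lit 322)) (XT.lf (nat_lit 0) (nat_lit 7476943443) (nat_lit 912) (nat_lit 10617116490) (nat_lit 76) (nat_lit 11900190148) (nat_lit 350) (nat_lit 5) (nat_lit 362) (nat_lit 5) (nat_lit 351) (nat_lit 5) (nat_lit 639) (nat_lit 600) (nat_lit 321))))))) (XT.nd (nat_lit 936) (nat_lit 760) (nat_lit 0) (XT.nd (nat_lit 468) (nat_lit 2736) (nat_lit 0) (XT.nd (nat_lit 234) (nat_lit 760) (nat_lit 0) (XT.nd (nat_lit 78) (nat_lit 760) (nat_lit 0) (XT.lf (nat_lit 0) (nat_lit 5863701806) (nat_lit 760) (nat_lit 5340075108) (nat_lit 836) (nat_lit 19128302134) (nat_lit 340) (nat_lit 5) (nat_lit 350) (nat_lit 5) (nat_lit 351) (nat_lit 5) (nat_lit 640) (nat_lit 600) (nat_lit 320)) (XT.nd (nat_lit 78) (nat_lit 760) (nat_lit 0) (XT.lf (nat_lit 0) (nat_lit 15124430627) (nat_lit 836) (nat_lit 7909857101) (nat_lit 76)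 (nat_lit 7639991492) (nat_lit 340) (nat_lit 5) (nat_lit 351) (nat_lit 5) (nat_lit 341) (nat_lit 5) (nat_lit 641) (nat_lit 600) (nat_lit 319)) (XT.lf (nat_lit 0) (nat_lit 9060944114) (nat_lit 760) (nat_lit 10154564491) (nat_lit 836) (nat_lit 11805974855) (nat_lit 330) (nat_lit 5) (nat_lit 340) (nat_lit 5) (nat_lit 341) (nat_lit 5) (nat_lit 642) (nat_lit 600) (nat_lit 318)))) (XT.nd (nat_lit 78) (nat_lit 760) (nat_lit 0) (XT.lf (nat_lit 0) (nat_lit 23459048131) (nat_lit 836) (nat_lit 4918293326) (nat_lit 76) (nat_lit 2996877814) (nat_lit 330) (nat_lit 5) (nat_lit 341) (nat_lit 5) (nat_lit 331) (nat_lit 5) (nat_lit 643) (nat_lit 600) (nat_lit 317)) (XT.nd (nat_lit 78) (nat_lit 76) (nat_lit 0) (XT.lf (nat_lit 0) (nat_lit 12559934304) (nat_lit 684) (nat_lit 15374205781) (nat_lit 760) (nat_lit 3796936361) (nat_lit 321) (nat_lit 5) (nat_lit 330) (nat_lit 5) (nat_lit 331) (nat_lit 5) (nat_lit 644) (nat_lit 600) (nat_lit 316)) (XT.lf (nat_lit 0) (nat_lit 429489619) (nat_lit 760)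 (nat_lit 1645207995) (nat_lit 76) (nat_lit 30019698588) (nat_lit 320) (nat_lit 5) (nat_lit 330) (nat_lit 5) (nat_lit 321) (nat_lit 5) (nat_lit 645) (nat_lit 600) (nat_lit 315))))) (XT.nd (nat_lit 234) (nat_lit 1292) (nat_lit 0) (XT.nd (nat_lit 78) (nat_lit 684) (nat_lit 0) (XT.lf (nat_lit 0) (nat_lit 4869670309) (nat_lit 836) (nat_lit 16118733240) (nat_lit 76) (nat_lit 11472475768) (nat_lit 310) (nat_lit 5) (nat_lit 321) (nat_lit 5) (nat_lit 311) (nat_lit 5) (nat_lit 646) (nat_lit 600) (nat_lit 314)) (XT.nd (nat_lit 78) (nat_lit 0) (nat_lit 0) (XT.lf (nat_lit 0) (nat_lit 1885664024) (nat_lit 684) (nat_lit 7548049417) (nat_lit 760) (nat_lit 23400277737) (nat_lit 301) (nat_lit 5) (nat_lit 310) (nat_lit 5) (nat_lit 311) (nat_lit 5) (nat_lit 647) (nat_lit 600) (nat_lit 313)) (XT.lf (nat_lit 0) (nat_lit 14235906708) (nat_lit 760) (nat_lit 12786831741) (nat_lit 76) (nat_lit 6188889693) (nat_lit 301) (nat_lit 5) (nat_lit 311) (nat_lit 5) (nat_lit 302) (nat_lit 5) (nat_lit 648)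 (nat_lit 600) (nat_lit 312)))) (XT.nd (nat_lit 78) (nat_lit 608) (nat_lit 0) (XT.lf (nat_lit 0) (nat_lit 5761156945) (nat_lit 684) (nat_lit 13458404465) (nat_lit 760) (nat_lit 14375548333) (nat_lit 292) (nat_lit 5) (nat_lit 301) (nat_lit 5) (nat_lit 302) (nat_lit 5) (nat_lit 649) (nat_lit 600) (nat_lit 311)) (XT.nd (nat_lit 78) (nat_lit 608) (nat_lit 0) (XT.lf (nat_lit 0) (nat_lit 24389759817) (nat_lit 760) (nat_lit 9136457982) (nat_lit 76) (nat_lit 458306008) (nat_lit 292) (nat_lit 5) (nat_lit 302) (nat_lit 5) (nat_lit 293) (nat_lit 5) (nat_lit 650) (nat_lit 600) (nat_lit 310)) (XT.lf (nat_lit 0) (nat_lit 9974389809) (nat_lit 608) (nat_lit 19840946387) (nat_lit 684) (nat_lit 4563350714) (nat_lit 284) (nat_lit 5) (nat_lit 292) (nat_lit 5) (nat_lit 293) (nat_lit 5) (nat_lit 651) (nat_lit 600) (nat_lit 309)))))) (XT.nd (nat_lit 77532) (nat_lit 0) (nat_lit 14744) (XT.nd (nat_lit 77298) (nat_lit 0) (nat_lit 14668) (XT.nd (nat_lit 78) (nat_lit 684) (nat_lit 0) (XT.lf (nat_lit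 0) (nat_lit 621044012) (nat_lit 684) (nat_lit 5194598610) (nat_lit 76) (nat_lit 28963820802) (nat_lit 283) (nat_lit 5) (nat_lit 292) (nat_lit 5) (nat_lit 284) (nat_lit 5) (nat_lit 652) (nat_lit 600) (nat_lit 308)) (XT.nd (nat_lit 77142) (nat_lit 0) (nat_lit 14668) (XT.lf (nat_lit 0) (nat_lit 5996679007) (nat_lit 760) (nat_lit 20683995002) (nat_lit 76) (nat_lit 8504005296) (nat_lit 274) (nat_lit 5) (nat_lit 284) (nat_lit 5) (nat_lit 275) (nat_lit 5) (nat_lit 653) (nat_lit 600) (nat_lit 307)) (XT.lf (nat_lit 0) (nat_lit 3710143311) (nat_lit 0) (nat_lit 3710143311) (nat_lit 1748) (nat_lit 2741626217) (nat_lit 467) (nat_lit 5) (nat_lit 467) (nat_lit 3) (nat_lit 490) (nat_lit 3) (nat_lit 601) (nat_lit 601) (nat_lit 358)))) (XT.nd (nat_lit 78) (nat_lit 0) (nat_lit 0) (XT.lf (nat_lit 0) (nat_lit 15164014199) (nat_lit 1748) (nat_lit 2959922675) (nat_lit 1824) (nat_lit 2399601412) (nat_lit 467) (nat_lit 5) (nat_lit 490) (nat_lit 3) (nat_lit 491) (nat_lit 5) (nat_lit 602) (nat_lit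 601) (nat_lit 357)) (XT.nd (nat_lit 78) (nat_lit 0) (nat_lit 76) (XT.lf (nat_lit 76) (nat_lit 7226009144) (nat_lit 0) (nat_lit 8359808260) (nat_lit 1824) (nat_lit 5139590526) (nat_lit 468) (nat_lit 5) (nat_lit 467) (nat_lit 5) (nat_lit 491) (nat_lit 5) (nat_lit 603) (nat_lit 601) (nat_lit 356)) (XT.lf (nat_lit 0) (nat_lit 16042352986) (nat_lit 1748) (nat_lit 3287919807) (nat_lit 1824) (nat_lit 1600516890) (nat_lit 468) (nat_lit 5) (nat_lit 491) (nat_lit 5) (nat_lit 492) (nat_lit 5) (nat_lit 604) (nat_lit 601) (nat_lit 355))))) (XT.nd (nat_lit 234) (nat_lit 0) (nat_lit 76) (XT.nd (nat_lit 78) (nat_lit 0) (nat_lit 76) (XT.lf (nat_lit 76) (nat_lit 7164162513) (nat_lit 0) (nat_lit 9441730746) (nat_lit 1824) (nat_lit 4532428961) (nat_lit 469) (nat_lit 5) (nat_lit 468) (nat_lit 5) (nat_lit 492) (nat_lit 5) (nat_lit 605) (nat_lit 601) (nat_lit 354)) (XT.nd (nat_lit 78) (nat_lit 0) (nat_lit 0) (XT.lf (nat_lit 0) (nat_lit 17203171107) (nat_lit 1748) (nat_lit 3486338779) (nat_lit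 1824) (nat_lit 660046803) (nat_lit 469) (nat_lit 5) (nat_lit 492) (nat_lit 5) (nat_lit 493) (nat_lit 5) (nat_lit 606) (nat_lit 601) (nat_lit 353)) (XT.lf (nat_lit 76) (nat_lit 7241429701) (nat_lit 0) (nat_lit 10676657937) (nat_lit 1824) (nat_lit 3644814952) (nat_lit 470) (nat_lit 5) (nat_lit 469) (nat_lit 5) (nat_lit 493) (nat_lit 5) (nat_lit 607) (nat_lit 601) (nat_lit 352)))) (XT.nd (nat_lit 156) (nat_lit 0) (nat_lit 76) (XT.nd (nat_lit 78) (nat_lit 0) (nat_lit 76) (XT.lf (nat_lit 76) (nat_lit 18228773116) (nat_lit 0) (nat_lit 438134472) (nat_lit 1824) (nat_lit 3113216311) (nat_lit 470) (nat_lit 5) (nat_lit 469) (nat_lit 5) (nat_lit 493) (nat_lit 5) (nat_lit 608) (nat_lit 601) (nat_lit 351)) (XT.lf (nat_lit 76) (nat_lit 7464836757) (nat_lit 0) (nat_lit 12075588095) (nat_lit 1824) (nat_lit 2459070945) (nat_lit 471) (nat_lit 5) (nat_lit 470) (nat_lit 5) (nat_lit 494) (nat_lit 5) (nat_lit 609) (nat_lit 601) (nat_lit 350))) (XT.nd (nat_lit 78) (nat_lit 0) (nat_lit 76) (XT.lf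 (nat_lit 76) (nat_lit 18744282877) (nat_lit 0) (nat_lit 1710195553) (nat_lit 1824) (nat_lit 1768315954) (nat_lit 471) (nat_lit 5) (nat_lit 470) (nat_lit 5) (nat_lit 494) (nat_lit 5) (nat_lit 610) (nat_lit 601) (nat_lit 349)) (XT.lf (nat_lit 76) (nat_lit 7841762802) (nat_lit 0) (nat_lit 13649937868) (nat_lit 1824) (nat_lit 956761078) (nat_lit 472) (nat_lit 5) (nat_lit 471) (nat_lit 5) (nat_lit 495) (nat_lit 5) (nat_lit 611) (nat_lit 601) (nat_lit 348))))))))
noncomputable def xc236 : XT := (XT.nd (nat_lit 1950) (nat_lit 6688) (nat_lit 0) (XT.nd (nat_lit 936) (nat_lit 5776) (nat_lit 0) (XT.nd (nat_lit 468) (nat_lit 0) (nat_lit 152) (XT.nd (nat_lit 234) (nat_lit 0) (nat_lit 76) (XT.nd (nat_lit 78) (nat_lit 1748) (nat_lit 0) (XT.lf (nat_lit 76) (nat_lit 19421832520) (nat_lit 0) (nat_lit 3158916283) (nat_lit 1824) (nat_lit 97272576) (nat_lit 472) (nat_lit 5) (nat_lit 471) (nat_lit 5) (nat_lit 495) (nat_lit 5) (nat_lit 612) (nat_lit 601) (nat_lit 347)) (XT.nd (nat_lit 78) (nat_lit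 0) (nat_lit 0) (XT.lf (nat_lit 0) (nat_lit 869784550) (nat_lit 1824) (nat_lit 14535945711) (nat_lit 1900) (nat_lit 7504329241) (nat_lit 448) (nat_lit 5) (nat_lit 472) (nat_lit 5) (nat_lit 473) (nat_lit 5) (nat_lit 613) (nat_lit 601) (nat_lit 346)) (XT.lf (nat_lit 0) (nat_lit 1894390666) (nat_lit 1824) (nat_lit 2889198084) (nat_lit 1900) (nat_lit 18362347086) (nat_lit 448) (nat_lit 5) (nat_lit 472) (nat_lit 5) (nat_lit 473) (nat_lit 5) (nat_lit 614) (nat_lit 601) (nat_lit 345)))) (XT.nd (nat_lit 78) (nat_lit 0) (nat_lit 0) (XT.lf (nat_lit 0) (nat_lit 3034967573) (nat_lit 1824) (nat_lit 14317469835) (nat_lit 1900) (nat_lit 6032183223) (nat_lit 449) (nat_lit 5) (nat_lit 473) (nat_lit 5) (nat_lit 474) (nat_lit 5) (nat_lit 615) (nat_lit 601) (nat_lit 344)) (XT.nd (nat_lit 78) (nat_lit 0) (nat_lit 76) (XT.lf (nat_lit 0) (nat_lit 4246269458) (nat_lit 1824) (nat_lit 2360069058) (nat_lit 1900) (nat_lit 17020782833) (nat_lit 449) (nat_lit 5) (nat_lit 473) (nat_lit 5) (nat_lit 474)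 (nat_lit 5) (nat_lit 616) (nat_lit 601) (nat_lit 343)) (XT.lf (nat_lit 0) (nat_lit 5571985627) (nat_lit 1824) (nat_lit 13937094282) (nat_lit 1900) (nat_lit 4363588893) (nat_lit 450) (nat_lit 5) (nat_lit 474) (nat_lit 5) (nat_lit 475) (nat_lit 5) (nat_lit 617) (nat_lit 601) (nat_lit 342))))) (XT.nd (nat_lit 234) (nat_lit 0) (nat_lit 152) (XT.nd (nat_lit 78) (nat_lit 0) (nat_lit 76) (XT.lf (nat_lit 0) (nat_lit 6980744689) (nat_lit 1824) (nat_lit 1659912022) (nat_lit 1900) (nat_lit 15481340400) (nat_lit 450) (nat_lit 5) (nat_lit 474) (nat_lit 5) (nat_lit 475) (nat_lit 5) (nat_lit 618) (nat_lit 601) (nat_lit 341)) (XT.nd (nat_lit 78) (nat_lit 0) (nat_lit 0) (XT.lf (nat_lit 0) (nat_lit 8502381061) (nat_lit 1824) (nat_lit 13386477048) (nat_lit 1900) (nat_lit 2485760300) (nat_lit 451) (nat_lit 5) (nat_lit 475) (nat_lit 5) (nat_lit 476) (nat_lit 5) (nat_lit 619) (nat_lit 601) (nat_lit 340)) (XT.lf (nat_lit 0) (nat_lit 10119834257) (nat_lit 1824) (nat_lit 780082817) (nat_lit 1900)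 (nat_lit 13731067835) (nat_lit 451) (nat_lit 5) (nat_lit 475) (nat_lit 5) (nat_lit 476) (nat_lit 5) (nat_lit 620) (nat_lit 601) (nat_lit 339)))) (XT.nd (nat_lit 78) (nat_lit 0) (nat_lit 0) (XT.lf (nat_lit 0) (nat_lit 11848628431) (nat_lit 1824) (nat_lit 12656887624) (nat_lit 1900) (nat_lit 385383296) (nat_lit 452) (nat_lit 5) (nat_lit 476) (nat_lit 5) (nat_lit 477) (nat_lit 5) (nat_lit 621) (nat_lit 601) (nat_lit 338)) (XT.nd (nat_lit 78) (nat_lit 0) (nat_lit 0) (XT.lf (nat_lit 76) (nat_lit 292294094) (nat_lit 0) (nat_lit 13396112650) (nat_lit 1900) (nat_lit 11466077613) (nat_lit 453) (nat_lit 5) (nat_lit 452) (nat_lit 5) (nat_lit 477) (nat_lit 5) (nat_lit 622) (nat_lit 601) (nat_lit 337)) (XT.lf (nat_lit 76) (nat_lit 13669667661) (nat_lit 0) (nat_lit 1977345916) (nat_lit 1900) (nat_lit 9774687257) (nat_lit 453) (nat_lit 5) (nat_lit 452) (nat_lit 5) (nat_lit 477) (nat_lit 5) (nat_lit 623) (nat_lit 601) (nat_lit 336)))))) (XT.nd (nat_lit 468) (nat_lit 3496) (nat_lit 0)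 (XT.nd (nat_lit 234) (nat_lit 1064) (nat_lit 0) (XT.nd (nat_lit 78) (nat_lit 1596) (nat_lit 0) (XT.lf (nat_lit 76) (nat_lit 1575837989) (nat_lit 0) (nat_lit 16139127594) (nat_lit 1900) (nat_lit 7977893022) (nat_lit 454) (nat_lit 5) (nat_lit 453) (nat_lit 5) (nat_lit 478) (nat_lit 5) (nat_lit 624) (nat_lit 601) (nat_lit 335)) (XT.nd (nat_lit 78) (nat_lit 1596) (nat_lit 0) (XT.lf (nat_lit 76) (nat_lit 15313941330) (nat_lit 0) (nat_lit 4599405798) (nat_lit 1900) (nat_lit 6054311408) (nat_lit 454) (nat_lit 5) (nat_lit 453) (nat_lit 5) (nat_lit 478) (nat_lit 5) (nat_lit 625) (nat_lit 601) (nat_lit 334)) (XT.lf (nat_lit 0) (nat_lit 3070188723) (nat_lit 1672) (nat_lit 19149257937) (nat_lit 1748) (nat_lit 4027233205) (nat_lit 432) (nat_lit 5) (nat_lit 454) (nat_lit 5) (nat_lit 455) (nat_lit 5) (nat_lit 626) (nat_lit 601) (nat_lit 333)))) (XT.nd (nat_lit 78) (nat_lit 1064) (nat_lit 0) (XT.lf (nat_lit 0) (nat_lit 17179767853) (nat_lit 1672) (nat_lit 7490947174) (nat_lit 1748) (nat_lit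 1858586056) (nat_lit 432) (nat_lit 5) (nat_lit 454) (nat_lit 5) (nat_lit 455) (nat_lit 5) (nat_lit 627) (nat_lit 601) (nat_lit 332)) (XT.nd (nat_lit 78) (nat_lit 0) (nat_lit 0) (XT.lf (nat_lit 0) (nat_lit 406170263) (nat_lit 1064) (nat_lit 22033312062) (nat_lit 76) (nat_lit 4376899457) (nat_lit 418) (nat_lit 5) (nat_lit 432) (nat_lit 5) (nat_lit 419) (nat_lit 5) (nat_lit 628) (nat_lit 601) (nat_lit 331)) (XT.lf (nat_lit 0) (nat_lit 2801493036) (nat_lit 1064) (nat_lit 7847605798) (nat_lit 76) (nat_lit 16457656777) (nat_lit 418) (nat_lit 5) (nat_lit 432) (nat_lit 5) (nat_lit 419) (nat_lit 5) (nat_lit 629) (nat_lit 601) (nat_lit 330))))) (XT.nd (nat_lit 234) (nat_lit 1672) (nat_lit 0) (XT.nd (nat_lit 78) (nat_lit 912) (nat_lit 0) (XT.lf (nat_lit 0) (nat_lit 5294923823) (nat_lit 988) (nat_lit 20703901827) (nat_lit 76) (nat_lit 1403107603) (nat_lit 406) (nat_lit 5) (nat_lit 419) (nat_lit 5) (nat_lit 407) (nat_lit 5) (nat_lit 630) (nat_lit 601) (nat_lit 329)) (XT.nd (nat_lit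 78) (nat_lit 912) (nat_lit 0) (XT.lf (nat_lit 0) (nat_lit 7959215695) (nat_lit 988) (nat_lit 6134250280) (nat_lit 76) (nat_lit 13607128985) (nat_lit 406) (nat_lit 5) (nat_lit 419) (nat_lit 5) (nat_lit 407) (nat_lit 5) (nat_lit 631) (nat_lit 601) (nat_lit 328)) (XT.lf (nat_lit 0) (nat_lit 8840410185) (nat_lit 912) (nat_lit 1891289181) (nat_lit 988) (nat_lit 17272432769) (nat_lit 394) (nat_lit 5) (nat_lit 406) (nat_lit 5) (nat_lit 407) (nat_lit 5) (nat_lit 632) (nat_lit 601) (nat_lit 327)))) (XT.nd (nat_lit 156) (nat_lit 836) (nat_lit 0) (XT.nd (nat_lit 78) (nat_lit 836) (nat_lit 0) (XT.lf (nat_lit 0) (nat_lit 13667141931) (nat_lit 988) (nat_lit 4186366581) (nat_lit 76) (nat_lit 10458081705) (nat_lit 394) (nat_lit 5) (nat_lit 407) (nat_lit 5) (nat_lit 395) (nat_lit 5) (nat_lit 633) (nat_lit 601) (nat_lit 326)) (XT.lf (nat_lit 0) (nat_lit 11222884459) (nat_lit 836) (nat_lit 5521391516) (nat_lit 912) (nat_lit 11879262173) (nat_lit 383) (nat_lit 5) (nat_lit 394) (nat_lit 5)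 (nat_lit 395) (nat_lit 5) (nat_lit 634) (nat_lit 601) (nat_lit 325))) (XT.nd (nat_lit 78) (nat_lit 836) (nat_lit 0) (XT.lf (nat_lit 0) (nat_lit 19954676488) (nat_lit 912) (nat_lit 1992452126) (nat_lit 76) (nat_lit 6993162282) (nat_lit 383) (nat_lit 5) (nat_lit 395) (nat_lit 5) (nat_lit 384) (nat_lit 5) (nat_lit 635) (nat_lit 601) (nat_lit 324)) (XT.lf (nat_lit 0) (nat_lit 13866911464) (nat_lit 836) (nat_lit 9486642735) (nat_lit 912) (nat_lit 5907339444) (nat_lit 372) (nat_lit 5) (nat_lit 383) (nat_lit 5) (nat_lit 384) (nat_lit 5) (nat_lit 636) (nat_lit 601) (nat_lit 323))))))) (XT.nd (nat_lit 936) (nat_lit 1292) (nat_lit 0) (XT.nd (nat_lit 468) (nat_lit 2964) (nat_lit 0) (XT.nd (nat_lit 234) (nat_lit 760) (nat_lit 0) (XT.nd (nat_lit 78) (nat_lit 912) (nat_lit 0) (XT.lf (nat_lit 0) (nat_lit 465586266) (nat_lit 760) (nat_lit 26389932620) (nat_lit 836) (nat_lit 2731687690) (nat_lit 362) (nat_lit 5) (nat_lit 372) (nat_lit 5) (nat_lit 373) (nat_lit 5) (nat_lit 637) (nat_lit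 601) (nat_lit 322)) (XT.nd (nat_lit 78) (nat_lit 836) (nat_lit 0) (XT.lf (nat_lit 0) (nat_lit 665348792) (nat_lit 836) (nat_lit 13136118659) (nat_lit 76) (nat_lit 16115222181) (nat_lit 361) (nat_lit 5) (nat_lit 372) (nat_lit 5) (nat_lit 362) (nat_lit 5) (nat_lit 638) (nat_lit 601) (nat_lit 321)) (XT.lf (nat_lit 0) (nat_lit 3190542960) (nat_lit 836) (nat_lit 921715902) (nat_lit 912) (nat_lit 26139772458) (nat_lit 350) (nat_lit 5) (nat_lit 361) (nat_lit 5) (nat_lit 362) (nat_lit 5) (nat_lit 639) (nat_lit 601) (nat_lit 320)))) (XT.nd (nat_lit 78) (nat_lit 760) (nat_lit 0) (XT.lf (nat_lit 0) (nat_lit 7793942534) (nat_lit 912) (nat_lit 10652744025) (nat_lit 76) (nat_lit 12144076872) (nat_lit 350) (nat_lit 5) (nat_lit 362) (nat_lit 5) (nat_lit 351) (nat_lit 5) (nat_lit 640) (nat_lit 601) (nat_lit 319)) (XT.nd (nat_lit 78) (nat_lit 0) (nat_lit 0) (XT.lf (nat_lit 0) (nat_lit 6156528040) (nat_lit 760) (nat_lit 5436640902) (nat_lit 836) (nat_lit 19342223349) (nat_lit 340) (nat_lit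 5) (nat_lit 350) (nat_lit 5) (nat_lit 351) (nat_lit 5) (nat_lit 641) (nat_lit 601) (nat_lit 318)) (XT.lf (nat_lit 0) (nat_lit 15589059382) (nat_lit 836) (nat_lit 7892746322) (nat_lit 76) (nat_lit 7802694719) (nat_lit 340) (nat_lit 5) (nat_lit 351) (nat_lit 5) (nat_lit 341) (nat_lit 5) (nat_lit 642) (nat_lit 601) (nat_lit 317))))) (XT.nd (nat_lit 234) (nat_lit 1520) (nat_lit 0) (XT.nd (nat_lit 78) (nat_lit 684) (nat_lit 0) (XT.lf (nat_lit 0) (nat_lit 9416317575) (nat_lit 760) (nat_lit 10343592854) (nat_lit 836) (nat_lit 11878779714) (nat_lit 330) (nat_lit 5) (nat_lit 340) (nat_lit 5) (nat_lit 341) (nat_lit 5) (nat_lit 643) (nat_lit 601) (nat_lit 316)) (XT.nd (nat_lit 78) (nat_lit 684) (nat_lit 0) (XT.lf (nat_lit 0) (nat_lit 24085271209) (nat_lit 836) (nat_lit 4842849134) (nat_lit 76) (nat_lit 3070421733) (nat_lit 330) (nat_lit 5) (nat_lit 341) (nat_lit 5) (nat_lit 331) (nat_lit 5) (nat_lit 644) (nat_lit 601) (nat_lit 315)) (XT.lf (nat_lit 0) (nat_lit 12983799561) (nat_lit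 684) (nat_lit 15664107249) (nat_lit 760) (nat_lit 3714669153) (nat_lit 321) (nat_lit 5) (nat_lit 330) (nat_lit 5) (nat_lit 331) (nat_lit 5) (nat_lit 645) (nat_lit 601) (nat_lit 314)))) (XT.nd (nat_lit 78) (nat_lit 1444) (nat_lit 0) (XT.lf (nat_lit 0) (nat_lit 591149054) (nat_lit 760) (nat_lit 1506777445) (nat_lit 76) (nat_lit 30635276691) (nat_lit 320) (nat_lit 5) (nat_lit 330) (nat_lit 5) (nat_lit 321) (nat_lit 5) (nat_lit 646) (nat_lit 601) (nat_lit 313)) (XT.nd (nat_lit 78) (nat_lit 684) (nat_lit 0) (XT.lf (nat_lit 0) (nat_lit 5118360675) (nat_lit 836) (nat_lit 16267981352) (nat_lit 76) (nat_lit 11720709778) (nat_lit 310) (nat_lit 5) (nat_lit 321) (nat_lit 5) (nat_lit 311) (nat_lit 5) (nat_lit 647) (nat_lit 601) (nat_lit 312)) (XT.lf (nat_lit 0) (nat_lit 2095364867) (nat_lit 684) (nat_lit 7676469852) (nat_lit 760) (nat_lit 23715828558) (nat_lit 301) (nat_lit 5) (nat_lit 310) (nat_lit 5) (nat_lit 311) (nat_lit 5) (nat_lit 648) (nat_lit 601) (nat_lit 311)))))) (XT.nd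 (nat_lit 77688) (nat_lit 0) (nat_lit 13908) (XT.nd (nat_lit 234) (nat_lit 608) (nat_lit 0) (XT.nd (nat_lit 78) (nat_lit 684) (nat_lit 0) (XT.lf (nat_lit 0) (nat_lit 14667284998) (nat_lit 760) (nat_lit 12871147848) (nat_lit 76) (nat_lit 6334476241) (nat_lit 301) (nat_lit 5) (nat_lit 311) (nat_lit 5) (nat_lit 302) (nat_lit 5) (nat_lit 649) (nat_lit 601) (nat_lit 310)) (XT.nd (nat_lit 78) (nat_lit 0) (nat_lit 0) (XT.lf (nat_lit 0) (nat_lit 6046672846) (nat_lit 684) (nat_lit 13702169912) (nat_lit 760) (nat_lit 14515253323) (nat_lit 292) (nat_lit 5) (nat_lit 301) (nat_lit 5) (nat_lit 302) (nat_lit 5) (nat_lit 650) (nat_lit 601) (nat_lit 309)) (XT.lf (nat_lit 0) (nat_lit 25019765846) (nat_lit 760) (nat_lit 9149536467) (nat_lit 76) (nat_lit 492050052) (nat_lit 292) (nat_lit 5) (nat_lit 302) (nat_lit 5) (nat_lit 293) (nat_lit 5) (nat_lit 651) (nat_lit 601) (nat_lit 308)))) (XT.nd (nat_lit 77298) (nat_lit 0) (nat_lit 13908) (XT.lf (nat_lit 0) (nat_lit 10342412156) (nat_lit 608)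 (nat_lit 20209747387) (nat_lit 684) (nat_lit 4511273418) (nat_lit 284) (nat_lit 5) (nat_lit 292) (nat_lit 5) (nat_lit 293) (nat_lit 5) (nat_lit 652) (nat_lit 601) (nat_lit 307)) (XT.nd (nat_lit 78) (nat_lit 0) (nat_lit 0) (XT.lf (nat_lit 0) (nat_lit 3863453389) (nat_lit 0) (nat_lit 3863453389) (nat_lit 1748) (nat_lit 2635055246) (nat_lit 467) (nat_lit 5) (nat_lit 467) (nat_lit 3) (nat_lit 490) (nat_lit 3) (nat_lit 602) (nat_lit 602) (nat_lit 356)) (XT.lf (nat_lit 0) (nat_lit 15776511751) (nat_lit 1748) (nat_lit 2856748775) (nat_lit 1824) (nat_lit 2294515585) (nat_lit 467) (nat_lit 5) (nat_lit 490) (nat_lit 3) (nat_lit 491) (nat_lit 5) (nat_lit 603) (nat_lit 602) (nat_lit 355))))) (XT.nd (nat_lit 234) (nat_lit 0) (nat_lit 152) (XT.nd (nat_lit 78) (nat_lit 0) (nat_lit 76) (XT.lf (nat_lit 76) (nat_lit 7531833442) (nat_lit 0) (nat_lit 8669901788) (nat_lit 1824) (nat_lit 4932049187) (nat_lit 468) (nat_lit 5) (nat_lit 467) (nat_lit 5) (nat_lit 491) (nat_lit 5) (nat_lit 604)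 (nat_lit 602) (nat_lit 354)) (XT.nd (nat_lit 78) (nat_lit 0) (nat_lit 0) (XT.lf (nat_lit 0) (nat_lit 16660527196) (nat_lit 1748) (nat_lit 3188615879) (nat_lit 1824) (nat_lit 1494269151) (nat_lit 468) (nat_lit 5) (nat_lit 491) (nat_lit 5) (nat_lit 492) (nat_lit 5) (nat_lit 605) (nat_lit 602) (nat_lit 353)) (XT.lf (nat_lit 76) (nat_lit 7471422151) (nat_lit 0) (nat_lit 9759150823) (nat_lit 1824) (nat_lit 4324618661) (nat_lit 469) (nat_lit 5) (nat_lit 468) (nat_lit 5) (nat_lit 492) (nat_lit 5) (nat_lit 606) (nat_lit 602) (nat_lit 352)))) (XT.nd (nat_lit 156) (nat_lit 0) (nat_lit 0) (XT.nd (nat_lit 78) (nat_lit 0) (nat_lit 0) (XT.lf (nat_lit 0) (nat_lit 17833241379) (nat_lit 1748) (nat_lit 3388704496) (nat_lit 1824) (nat_lit 548836916) (nat_lit 469) (nat_lit 5) (nat_lit 492) (nat_lit 5) (nat_lit 493) (nat_lit 5) (nat_lit 607) (nat_lit 602) (nat_lit 351)) (XT.lf (nat_lit 76) (nat_lit 7552518294) (nat_lit 0) (nat_lit 11005409439) (nat_lit 1824) (nat_lit 3430559326) (nat_lit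 470) (nat_lit 5) (nat_lit 469) (nat_lit 5) (nat_lit 493) (nat_lit 5) (nat_lit 608) (nat_lit 602) (nat_lit 350))) (XT.nd (nat_lit 78) (nat_lit 0) (nat_lit 76) (XT.lf (nat_lit 76) (nat_lit 18756348577) (nat_lit 0) (nat_lit 559856322) (nat_lit 1824) (nat_lit 2893959142) (nat_lit 470) (nat_lit 5) (nat_lit 469) (nat_lit 5) (nat_lit 493) (nat_lit 5) (nat_lit 609) (nat_lit 602) (nat_lit 349)) (XT.lf (nat_lit 76) (nat_lit 7782315444) (nat_lit 0) (nat_lit 12419839024) (nat_lit 1824) (nat_lit 2231870517) (nat_lit 471) (nat_lit 5) (nat_lit 470) (nat_lit 5) (nat_lit 494) (nat_lit 5) (nat_lit 610) (nat_lit 602) (nat_lit 348))))))))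
noncomputable def xc237 : XT := (XT.nd (nat_lit 1950) (nat_lit 6916) (nat_lit 0) (XT.nd (nat_lit 936) (nat_lit 4864) (nat_lit 0) (XT.nd (nat_lit 468) (nat_lit 0) (nat_lit 152) (XT.nd (nat_lit 234) (nat_lit 0) (nat_lit 76) (XT.nd (nat_lit 78) (nat_lit 1748) (nat_lit 0) (XT.lf (nat_lit 76) (nat_lit 19284052801) (nat_lit 0) (nat_lit 1845124138) (nat_lit 1824) (nat_lit 1532719677) (nat_lit 471) (nat_lit 5) (nat_lit 470) (nat_lit 5) (nat_lit 494) (nat_lit 5) (nat_lit 611) (nat_lit 602) (nat_lit 347)) (XT.nd (nat_lit 78) (nat_lit 1824) (nat_lit 0) (XT.lf (nat_lit 76) (nat_lit 8168365662) (nat_lit 0) (nat_lit 14014031039) (nat_lit 1824) (nat_lit 709776378) (nat_lit 472) (nat_lit 5) (nat_lit 471) (nat_lit 5) (nat_lit 495) (nat_lit 5) (nat_lit 612) (nat_lit 602) (nat_lit 346)) (XT.lf (nat_lit 0) (nat_lit 159563342) (nat_lit 1824) (nat_lit 3150768760) (nat_lit 1900) (nat_lit 19816073902) (nat_lit 447) (nat_lit 5) (nat_lit 471) (nat_lit 5) (nat_lit 472) (nat_lit 5) (nat_lit 613)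 (nat_lit 602) (nat_lit 345)))) (XT.nd (nat_lit 78) (nat_lit 0) (nat_lit 0) (XT.lf (nat_lit 0) (nat_lit 1140157340) (nat_lit 1824) (nat_lit 14652223613) (nat_lit 1900) (nat_lit 7570781880) (nat_lit 448) (nat_lit 5) (nat_lit 472) (nat_lit 5) (nat_lit 473) (nat_lit 5) (nat_lit 614) (nat_lit 602) (nat_lit 344)) (XT.nd (nat_lit 78) (nat_lit 0) (nat_lit 76) (XT.lf (nat_lit 0) (nat_lit 2180295244) (nat_lit 1824) (nat_lit 2775961446) (nat_lit 1900) (nat_lit 18647599963) (nat_lit 448) (nat_lit 5) (nat_lit 472) (nat_lit 5) (nat_lit 473) (nat_lit 5) (nat_lit 615) (nat_lit 602) (nat_lit 343)) (XT.lf (nat_lit 0) (nat_lit 3339440886) (nat_lit 1824) (nat_lit 14428518999) (nat_lit 1900) (nat_lit 6079440850) (nat_lit 449) (nat_lit 5) (nat_lit 473) (nat_lit 5) (nat_lit 474) (nat_lit 5) (nat_lit 616) (nat_lit 602) (nat_lit 342))))) (XT.nd (nat_lit 234) (nat_lit 0) (nat_lit 152) (XT.nd (nat_lit 78) (nat_lit 0) (nat_lit 76) (XT.lf (nat_lit 0) (nat_lit 4570188927) (nat_lit 1824) (nat_lit 2235407466)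 (nat_lit 1900) (nat_lit 17289251394) (nat_lit 449) (nat_lit 5) (nat_lit 473) (nat_lit 5) (nat_lit 474) (nat_lit 5) (nat_lit 617) (nat_lit 602) (nat_lit 341)) (XT.nd (nat_lit 78) (nat_lit 0) (nat_lit 0) (XT.lf (nat_lit 0) (nat_lit 5918421796) (nat_lit 1824) (nat_lit 14039940172) (nat_lit 1900) (nat_lit 4387024882) (nat_lit 450) (nat_lit 5) (nat_lit 474) (nat_lit 5) (nat_lit 475) (nat_lit 5) (nat_lit 618) (nat_lit 602) (nat_lit 340)) (XT.lf (nat_lit 0) (nat_lit 7350748265) (nat_lit 1824) (nat_lit 1520663207) (nat_lit 1900) (nat_lit 15728383101) (nat_lit 450) (nat_lit 5) (nat_lit 474) (nat_lit 5) (nat_lit 475) (nat_lit 5) (nat_lit 619) (nat_lit 602) (nat_lit 339)))) (XT.nd (nat_lit 78) (nat_lit 0) (nat_lit 0) (XT.lf (nat_lit 0) (nat_lit 8899050761) (nat_lit 1824) (nat_lit 13477958906) (nat_lit 1900) (nat_lit 2480534644) (nat_lit 451) (nat_lit 5) (nat_lit 475) (nat_lit 5) (nat_lit 476) (nat_lit 5) (nat_lit 620) (nat_lit 602) (nat_lit 338)) (XT.nd (nat_lit 78) (nat_lit 0)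 (nat_lit 76) (XT.lf (nat_lit 0) (nat_lit 10544409452) (nat_lit 1824) (nat_lit 622892628) (nat_lit 1900) (nat_lit 13951825601) (nat_lit 451) (nat_lit 5) (nat_lit 475) (nat_lit 5) (nat_lit 476) (nat_lit 5) (nat_lit 621) (nat_lit 602) (nat_lit 337)) (XT.lf (nat_lit 0) (nat_lit 12304230583) (nat_lit 1824) (nat_lit 12733651901) (nat_lit 1900) (nat_lit 346429559) (nat_lit 452) (nat_lit 5) (nat_lit 476) (nat_lit 5) (nat_lit 477) (nat_lit 5) (nat_lit 622) (nat_lit 602) (nat_lit 336)))))) (XT.nd (nat_lit 468) (nat_lit 3724) (nat_lit 0) (XT.nd (nat_lit 234) (nat_lit 1520) (nat_lit 0) (XT.nd (nat_lit 78) (nat_lit 0) (nat_lit 0) (XT.lf (nat_lit 76) (nat_lit 473353099) (nat_lit 0) (nat_lit 13704302108) (nat_lit 1900) (nat_lit 11475577168) (nat_lit 453) (nat_lit 5) (nat_lit 452) (nat_lit 5) (nat_lit 477) (nat_lit 5) (nat_lit 623) (nat_lit 602) (nat_lit 335)) (XT.nd (nat_lit 78) (nat_lit 0) (nat_lit 76) (XT.lf (nat_lit 76) (nat_lit 14114838586) (nat_lit 0) (nat_lit 2056370487) (nat_lit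 1900) (nat_lit 9754669241) (nat_lit 453) (nat_lit 5) (nat_lit 452) (nat_lit 5) (nat_lit 477) (nat_lit 5) (nat_lit 624) (nat_lit 602) (nat_lit 334)) (XT.lf (nat_lit 76) (nat_lit 1782485369) (nat_lit 0) (nat_lit 16494778266) (nat_lit 1900) (nat_lit 7925261351) (nat_lit 454) (nat_lit 5) (nat_lit 453) (nat_lit 5) (nat_lit 478) (nat_lit 5) (nat_lit 625) (nat_lit 602) (nat_lit 333)))) (XT.nd (nat_lit 78) (nat_lit 1596) (nat_lit 0) (XT.lf (nat_lit 76) (nat_lit 15791916843) (nat_lit 0) (nat_lit 4723617561) (nat_lit 1900) (nat_lit 5967368683) (nat_lit 454) (nat_lit 5) (nat_lit 453) (nat_lit 5) (nat_lit 478) (nat_lit 5) (nat_lit 626) (nat_lit 602) (nat_lit 332)) (XT.nd (nat_lit 78) (nat_lit 0) (nat_lit 0) (XT.lf (nat_lit 0) (nat_lit 3306449030) (nat_lit 1672) (nat_lit 19558238628) (nat_lit 1748) (nat_lit 3902879143) (nat_lit 432) (nat_lit 5) (nat_lit 454) (nat_lit 5) (nat_lit 455) (nat_lit 5) (nat_lit 627) (nat_lit 602) (nat_lit 331)) (XT.lf (nat_lit 0) (nat_lit 17694791183) (nat_lit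 1672) (nat_lit 7666251933) (nat_lit 1748) (nat_lit 1694876673) (nat_lit 432) (nat_lit 5) (nat_lit 454) (nat_lit 5) (nat_lit 455) (nat_lit 5) (nat_lit 628) (nat_lit 602) (nat_lit 330))))) (XT.nd (nat_lit 234) (nat_lit 1748) (nat_lit 0) (XT.nd (nat_lit 78) (nat_lit 912) (nat_lit 0) (XT.lf (nat_lit 0) (nat_lit 609629551) (nat_lit 1064) (nat_lit 22296948725) (nat_lit 76) (nat_lit 4442196512) (nat_lit 418) (nat_lit 5) (nat_lit 432) (nat_lit 5) (nat_lit 419) (nat_lit 5) (nat_lit 629) (nat_lit 602) (nat_lit 329)) (XT.nd (nat_lit 78) (nat_lit 912) (nat_lit 0) (XT.lf (nat_lit 0) (nat_lit 3049028663) (nat_lit 1064) (nat_lit 7830999504) (nat_lit 76) (nat_lit 16765005075) (nat_lit 418) (nat_lit 5) (nat_lit 432) (nat_lit 5) (nat_lit 419) (nat_lit 5) (nat_lit 630) (nat_lit 602) (nat_lit 328)) (XT.lf (nat_lit 0) (nat_lit 5589585666) (nat_lit 988) (nat_lit 20941652226) (nat_lit 76) (nat_lit 1414931930) (nat_lit 406) (nat_lit 5) (nat_lit 419) (nat_lit 5) (nat_lit 407) (nat_lit 5) (nat_lit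 631) (nat_lit 602) (nat_lit 327)))) (XT.nd (nat_lit 156) (nat_lit 836) (nat_lit 0) (XT.nd (nat_lit 78) (nat_lit 912) (nat_lit 0) (XT.lf (nat_lit 0) (nat_lit 8303462133) (nat_lit 988) (nat_lit 6084065053) (nat_lit 76) (nat_lit 13863352128) (nat_lit 406) (nat_lit 5) (nat_lit 419) (nat_lit 5) (nat_lit 407) (nat_lit 5) (nat_lit 632) (nat_lit 602) (nat_lit 326)) (XT.lf (nat_lit 0) (nat_lit 9188951317) (nat_lit 912) (nat_lit 1939930495) (nat_lit 988) (nat_lit 17431656209) (nat_lit 394) (nat_lit 5) (nat_lit 406) (nat_lit 5) (nat_lit 407) (nat_lit 5) (nat_lit 633) (nat_lit 602) (nat_lit 325))) (XT.nd (nat_lit 78) (nat_lit 836) (nat_lit 0) (XT.lf (nat_lit 0) (nat_lit 14119385003) (nat_lit 988) (nat_lit 4098054789) (nat_lit 76) (nat_lit 10656778944) (nat_lit 394) (nat_lit 5) (nat_lit 407) (nat_lit 5) (nat_lit 395) (nat_lit 5) (nat_lit 634) (nat_lit 602) (nat_lit 324)) (XT.lf (nat_lit 0) (nat_lit 11618249435) (nat_lit 836) (nat_lit 5637414088) (nat_lit 912) (nat_lit 11936790562)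 (nat_lit 383) (nat_lit 5) (nat_lit 394) (nat_lit 5) (nat_lit 395) (nat_lit 5) (nat_lit 635) (nat_lit 602) (nat_lit 323))))))) (XT.nd (nat_lit 936) (nat_lit 2128) (nat_lit 0) (XT.nd (nat_lit 468) (nat_lit 2280) (nat_lit 0) (XT.nd (nat_lit 234) (nat_lit 912) (nat_lit 0) (XT.nd (nat_lit 78) (nat_lit 1596) (nat_lit 0) (XT.lf (nat_lit 0) (nat_lit 20526775610) (nat_lit 912) (nat_lit 1861224269) (nat_lit 76) (nat_lit 7127612425) (nat_lit 383) (nat_lit 5) (nat_lit 395) (nat_lit 5) (nat_lit 384) (nat_lit 5) (nat_lit 636) (nat_lit 602) (nat_lit 322)) (XT.nd (nat_lit 78) (nat_lit 760) (nat_lit 0) (XT.lf (nat_lit 0) (nat_lit 14314201087) (nat_lit 836) (nat_lit 9677140959) (nat_lit 912) (nat_lit 5851331312) (nat_lit 372) (nat_lit 5) (nat_lit 383) (nat_lit 5) (nat_lit 384) (nat_lit 5) (nat_lit 637) (nat_lit 602) (nat_lit 321)) (XT.lf (nat_lit 0) (nat_lit 647151759) (nat_lit 760) (nat_lit 26913960394) (nat_lit 836) (nat_lit 2614445541) (nat_lit 362) (nat_lit 5) (nat_lit 372) (nat_lit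 5) (nat_lit 373) (nat_lit 5) (nat_lit 638) (nat_lit 602) (nat_lit 320)))) (XT.nd (nat_lit 78) (nat_lit 836) (nat_lit 0) (XT.lf (nat_lit 0) (nat_lit 844951571) (nat_lit 836) (nat_lit 13227732357) (nat_lit 76) (nat_lit 16438991132) (nat_lit 361) (nat_lit 5) (nat_lit 372) (nat_lit 5) (nat_lit 362) (nat_lit 5) (nat_lit 639) (nat_lit 602) (nat_lit 319)) (XT.nd (nat_lit 78) (nat_lit 0) (nat_lit 0) (XT.lf (nat_lit 0) (nat_lit 3424336780) (nat_lit 836) (nat_lit 934306003) (nat_lit 912) (nat_lit 26495124381) (nat_lit 350) (nat_lit 5) (nat_lit 361) (nat_lit 5) (nat_lit 362) (nat_lit 5) (nat_lit 640) (nat_lit 602) (nat_lit 318)) (XT.lf (nat_lit 0) (nat_lit 8110778921) (nat_lit 912) (nat_lit 10695946161) (nat_lit 76) (nat_lit 12392612889) (nat_lit 350) (nat_lit 5) (nat_lit 362) (nat_lit 5) (nat_lit 351) (nat_lit 5) (nat_lit 641) (nat_lit 602) (nat_lit 317))))) (XT.nd (nat_lit 234) (nat_lit 760) (nat_lit 0) (XT.nd (nat_lit 78) (nat_lit 760) (nat_lit 0) (XT.lf (nat_lit 0) (nat_lit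 6448393893) (nat_lit 760) (nat_lit 5535535476) (nat_lit 836) (nat_lit 19566971673) (nat_lit 340) (nat_lit 5) (nat_lit 350) (nat_lit 5) (nat_lit 351) (nat_lit 5) (nat_lit 642) (nat_lit 602) (nat_lit 316)) (XT.nd (nat_lit 78) (nat_lit 760) (nat_lit 0) (XT.lf (nat_lit 0) (nat_lit 16056684614) (nat_lit 836) (nat_lit 7882100748) (nat_lit 76) (nat_lit 7968267450) (nat_lit 340) (nat_lit 5) (nat_lit 351) (nat_lit 5) (nat_lit 341) (nat_lit 5) (nat_lit 643) (nat_lit 602) (nat_lit 315)) (XT.lf (nat_lit 0) (nat_lit 9772035871) (nat_lit 760) (nat_lit 10536947865) (nat_lit 836) (nat_lit 11959382376) (nat_lit 330) (nat_lit 5) (nat_lit 340) (nat_lit 5) (nat_lit 341) (nat_lit 5) (nat_lit 644) (nat_lit 602) (nat_lit 314)))) (XT.nd (nat_lit 78) (nat_lit 760) (nat_lit 0) (XT.lf (nat_lit 0) (nat_lit 24717920612) (nat_lit 836) (nat_lit 4772645314) (nat_lit 76) (nat_lit 3144908178) (nat_lit 330) (nat_lit 5) (nat_lit 341) (nat_lit 5) (nat_lit 331) (nat_lit 5) (nat_lit 645) (nat_lit 602) (nat_lit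 313)) (XT.nd (nat_lit 78) (nat_lit 76) (nat_lit 0) (XT.lf (nat_lit 0) (nat_lit 13409437271) (nat_lit 684) (nat_lit 15960489502) (nat_lit 760) (nat_lit 3636899930) (nat_lit 321) (nat_lit 5) (nat_lit 330) (nat_lit 5) (nat_lit 331) (nat_lit 5) (nat_lit 646) (nat_lit 602) (nat_lit 312)) (XT.lf (nat_lit 0) (nat_lit 750097797) (nat_lit 760) (nat_lit 1372231419) (nat_lit 76) (nat_lit 31262576739) (nat_lit 320) (nat_lit 5) (nat_lit 330) (nat_lit 5) (nat_lit 321) (nat_lit 5) (nat_lit 647) (nat_lit 602) (nat_lit 311)))))) (XT.nd (nat_lit 77766) (nat_lit 0) (nat_lit 13300) (XT.nd (nat_lit 234) (nat_lit 684) (nat_lit 0) (XT.nd (nat_lit 78) (nat_lit 684) (nat_lit 0) (XT.lf (nat_lit 0) (nat_lit 5366149803) (nat_lit 836) (nat_lit 16426937140) (nat_lit 76) (nat_lit 11973179044) (nat_lit 310) (nat_lit 5) (nat_lit 321) (nat_lit 5) (nat_lit 311) (nat_lit 5) (nat_lit 648) (nat_lit 602) (nat_lit 310)) (XT.nd (nat_lit 78) (nat_lit 0) (nat_lit 0) (XT.lf (nat_lit 0) (nat_lit 2302581241) (nat_lit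 684) (nat_lit 7808333973) (nat_lit 760) (nat_lit 24043610398) (nat_lit 301) (nat_lit 5) (nat_lit 310) (nat_lit 5) (nat_lit 311) (nat_lit 5) (nat_lit 649) (nat_lit 602) (nat_lit 309)) (XT.lf (nat_lit 0) (nat_lit 15101595860) (nat_lit 760) (nat_lit 12963806744) (nat_lit 76) (nat_lit 6482127660) (nat_lit 301) (nat_lit 5) (nat_lit 311) (nat_lit 5) (nat_lit 302) (nat_lit 5) (nat_lit 650) (nat_lit 602) (nat_lit 308)))) (XT.nd (nat_lit 78) (nat_lit 0) (nat_lit 0) (XT.lf (nat_lit 0) (nat_lit 6331286389) (nat_lit 684) (nat_lit 13951797083) (nat_lit 760) (nat_lit 14663491900) (nat_lit 292) (nat_lit 5) (nat_lit 301) (nat_lit 5) (nat_lit 302) (nat_lit 5) (nat_lit 651) (nat_lit 602) (nat_lit 307)) (XT.nd (nat_lit 77376) (nat_lit 0) (nat_lit 13300) (XT.lf (nat_lit 0) (nat_lit 25656849777) (nat_lit 760) (nat_lit 9169464265) (nat_lit 76) (nat_lit 525514586) (nat_lit 292) (nat_lit 5) (nat_lit 302) (nat_lit 5) (nat_lit 293) (nat_lit 5) (nat_lit 652) (nat_lit 602) (nat_lit 306)) (XT.lf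 (nat_lit 0) (nat_lit 4016757839) (nat_lit 0) (nat_lit 4016757839) (nat_lit 1748) (nat_lit 2532620350) (nat_lit 467) (nat_lit 5) (nat_lit 467) (nat_lit 3) (nat_lit 490) (nat_lit 3) (nat_lit 603) (nat_lit 603) (nat_lit 354))))) (XT.nd (nat_lit 234) (nat_lit 0) (nat_lit 76) (XT.nd (nat_lit 78) (nat_lit 0) (nat_lit 0) (XT.lf (nat_lit 0) (nat_lit 16389251971) (nat_lit 1748) (nat_lit 2757816513) (nat_lit 1824) (nat_lit 2193272241) (nat_lit 467) (nat_lit 5) (nat_lit 490) (nat_lit 3) (nat_lit 491) (nat_lit 5) (nat_lit 604) (nat_lit 603) (nat_lit 353)) (XT.nd (nat_lit 78) (nat_lit 0) (nat_lit 76) (XT.lf (nat_lit 76) (nat_lit 7837510590) (nat_lit 0) (nat_lit 8980648309) (nat_lit 1824) (nat_lit 4732407635) (nat_lit 468) (nat_lit 5) (nat_lit 467) (nat_lit 5) (nat_lit 491) (nat_lit 5) (nat_lit 605) (nat_lit 603) (nat_lit 352)) (XT.lf (nat_lit 0) (nat_lit 17279519314) (nat_lit 1748) (nat_lit 3093735443) (nat_lit 1824) (nat_lit 1391265186) (nat_lit 468) (nat_lit 5) (nat_lit 491) (nat_lit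 5) (nat_lit 492) (nat_lit 5) (nat_lit 606) (nat_lit 603) (nat_lit 351)))) (XT.nd (nat_lit 156) (nat_lit 0) (nat_lit 76) (XT.nd (nat_lit 78) (nat_lit 0) (nat_lit 76) (XT.lf (nat_lit 76) (nat_lit 7778459580) (nat_lit 0) (nat_lit 10077926170) (nat_lit 1824) (nat_lit 4124241677) (nat_lit 469) (nat_lit 5) (nat_lit 468) (nat_lit 5) (nat_lit 492) (nat_lit 5) (nat_lit 607) (nat_lit 603) (nat_lit 350)) (XT.lf (nat_lit 0) (nat_lit 18464807063) (nat_lit 1748) (nat_lit 3295616361) (nat_lit 1824) (nat_lit 440233855) (nat_lit 469) (nat_lit 5) (nat_lit 492) (nat_lit 5) (nat_lit 493) (nat_lit 5) (nat_lit 608) (nat_lit 603) (nat_lit 349))) (XT.nd (nat_lit 78) (nat_lit 0) (nat_lit 0) (XT.lf (nat_lit 76) (nat_lit 7863372581) (nat_lit 0) (nat_lit 11336261903) (nat_lit 1824) (nat_lit 3223169048) (nat_lit 470) (nat_lit 5) (nat_lit 469) (nat_lit 5) (nat_lit 493) (nat_lit 5) (nat_lit 609) (nat_lit 603) (nat_lit 348)) (XT.lf (nat_lit 76) (nat_lit 19288146060) (nat_lit 0) (nat_lit 679626268) (nat_lit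 1824) (nat_lit 2681248653) (nat_lit 470) (nat_lit 5) (nat_lit 469) (nat_lit 5) (nat_lit 493) (nat_lit 5) (nat_lit 610) (nat_lit 603) (nat_lit 347))))))))
noncomputable def xc238 : XT := (XT.nd (nat_lit 1950) (nat_lit 7752) (nat_lit 0) (XT.nd (nat_lit 936) (nat_lit 4028) (nat_lit 0) (XT.nd (nat_lit 468) (nat_lit 0) (nat_lit 152) (XT.nd (nat_lit 234) (nat_lit 1748) (nat_lit 0) (XT.nd (nat_lit 78) (nat_lit 0) (nat_lit 0) (XT.lf (nat_lit 76) (nat_lit 8099612995) (nat_lit 0) (nat_lit 12766985485) (nat_lit 1824) (nat_lit 2010858324) (nat_lit 471) (nat_lit 5) (nat_lit 470) (nat_lit 5) (nat_lit 494) (nat_lit 5) (nat_lit 611) (nat_lit 603) (nat_lit 346)) (XT.nd (nat_lit 78) (nat_lit 0) (nat_lit 76) (XT.lf (nat_lit 76) (nat_lit 19828215467) (nat_lit 0) (nat_lit 1978840033) (nat_lit 1824) (nat_lit 1302933283) (nat_lit 471) (nat_lit 5) (nat_lit 470) (nat_lit 5) (nat_lit 494) (nat_lit 5) (nat_lit 612) (nat_lit 603) (nat_lit 345)) (XT.lf (nat_lit 76) (nat_lit 8494908297) (nat_lit 0)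 (nat_lit 14381868767) (nat_lit 1824) (nat_lit 468185746) (nat_lit 472) (nat_lit 5) (nat_lit 471) (nat_lit 5) (nat_lit 495) (nat_lit 5) (nat_lit 613) (nat_lit 603) (nat_lit 344)))) (XT.nd (nat_lit 78) (nat_lit 0) (nat_lit 76) (XT.lf (nat_lit 0) (nat_lit 410236451) (nat_lit 1824) (nat_lit 3050481861) (nat_lit 1900) (nat_lit 20123228610) (nat_lit 447) (nat_lit 5) (nat_lit 471) (nat_lit 5) (nat_lit 472) (nat_lit 5) (nat_lit 614) (nat_lit 603) (nat_lit 343)) (XT.nd (nat_lit 78) (nat_lit 0) (nat_lit 0) (XT.lf (nat_lit 0) (nat_lit 1406114177) (nat_lit 1824) (nat_lit 14777600830) (nat_lit 1900) (nat_lit 7641811179) (nat_lit 448) (nat_lit 5) (nat_lit 472) (nat_lit 5) (nat_lit 473) (nat_lit 5) (nat_lit 615) (nat_lit 603) (nat_lit 342)) (XT.lf (nat_lit 0) (nat_lit 2462287120) (nat_lit 1824) (nat_lit 2667101013) (nat_lit 1900) (nat_lit 18941741827) (nat_lit 448) (nat_lit 5) (nat_lit 472) (nat_lit 5) (nat_lit 473) (nat_lit 5) (nat_lit 616) (nat_lit 603) (nat_lit 341))))) (XT.nd (nat_lit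 234) (nat_lit 0) (nat_lit 76) (XT.nd (nat_lit 78) (nat_lit 0) (nat_lit 0) (XT.lf (nat_lit 0) (nat_lit 3640537626) (nat_lit 1824) (nat_lit 14548596268) (nat_lit 1900) (nat_lit 6130493299) (nat_lit 449) (nat_lit 5) (nat_lit 473) (nat_lit 5) (nat_lit 474) (nat_lit 5) (nat_lit 617) (nat_lit 603) (nat_lit 340)) (XT.nd (nat_lit 78) (nat_lit 0) (nat_lit 76) (XT.lf (nat_lit 0) (nat_lit 4891306354) (nat_lit 1824) (nat_lit 2114926291) (nat_lit 1900) (nat_lit 17565883120) (nat_lit 449) (nat_lit 5) (nat_lit 473) (nat_lit 5) (nat_lit 474) (nat_lit 5) (nat_lit 618) (nat_lit 603) (nat_lit 339)) (XT.lf (nat_lit 0) (nat_lit 6262661490) (nat_lit 1824) (nat_lit 14151673236) (nat_lit 1900) (nat_lit 4413408412) (nat_lit 450) (nat_lit 5) (nat_lit 474) (nat_lit 5) (nat_lit 475) (nat_lit 5) (nat_lit 619) (nat_lit 603) (nat_lit 338)))) (XT.nd (nat_lit 78) (nat_lit 0) (nat_lit 76) (XT.lf (nat_lit 0) (nat_lit 7719205640) (nat_lit 1824) (nat_lit 1385325746) (nat_lit 1900) (nat_lit 15982796873) (nat_lit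 450) (nat_lit 5) (nat_lit 474) (nat_lit 5) (nat_lit 475) (nat_lit 5) (nat_lit 620) (nat_lit 603) (nat_lit 337)) (XT.nd (nat_lit 78) (nat_lit 0) (nat_lit 0) (XT.lf (nat_lit 0) (nat_lit 9294853844) (nat_lit 1824) (nat_lit 13578114314) (nat_lit 1900) (nat_lit 2477337895) (nat_lit 451) (nat_lit 5) (nat_lit 475) (nat_lit 5) (nat_lit 476) (nat_lit 5) (nat_lit 621) (nat_lit 603) (nat_lit 336)) (XT.lf (nat_lit 0) (nat_lit 10968848687) (nat_lit 1824) (nat_lit 469268352) (nat_lit 1900) (nat_lit 14179090111) (nat_lit 451) (nat_lit 5) (nat_lit 475) (nat_lit 5) (nat_lit 476) (nat_lit 5) (nat_lit 622) (nat_lit 603) (nat_lit 335)))))) (XT.nd (nat_lit 468) (nat_lit 2888) (nat_lit 0) (XT.nd (nat_lit 234) (nat_lit 1520) (nat_lit 0) (XT.nd (nat_lit 78) (nat_lit 0) (nat_lit 0) (XT.lf (nat_lit 0) (nat_lit 12760455125) (nat_lit 1824) (nat_lit 12818800261) (nat_lit 1900) (nat_lit 308508666) (nat_lit 452) (nat_lit 5) (nat_lit 476) (nat_lit 5) (nat_lit 477) (nat_lit 5) (nat_lit 623) (nat_lit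 603) (nat_lit 334)) (XT.nd (nat_lit 78) (nat_lit 0) (nat_lit 0) (XT.lf (nat_lit 76) (nat_lit 651229546) (nat_lit 0) (nat_lit 14017091730) (nat_lit 1900) (nat_lit 11493802670) (nat_lit 453) (nat_lit 5) (nat_lit 452) (nat_lit 5) (nat_lit 477) (nat_lit 5) (nat_lit 624) (nat_lit 603) (nat_lit 333)) (XT.lf (nat_lit 76) (nat_lit 14562242598) (nat_lit 0) (nat_lit 2135442583) (nat_lit 1900) (nat_lit 9742619448) (nat_lit 453) (nat_lit 5) (nat_lit 452) (nat_lit 5) (nat_lit 477) (nat_lit 5) (nat_lit 625) (nat_lit 603) (nat_lit 332)))) (XT.nd (nat_lit 78) (nat_lit 1596) (nat_lit 0) (XT.lf (nat_lit 76) (nat_lit 1986465160) (nat_lit 0) (nat_lit 16856265642) (nat_lit 1900) (nat_lit 7879816625) (nat_lit 454) (nat_lit 5) (nat_lit 453) (nat_lit 5) (nat_lit 478) (nat_lit 5) (nat_lit 626) (nat_lit 603) (nat_lit 331)) (XT.nd (nat_lit 78) (nat_lit 1596) (nat_lit 0) (XT.lf (nat_lit 76) (nat_lit 16272784674) (nat_lit 0) (nat_lit 4849062276) (nat_lit 1900) (nat_lit 5886765122) (nat_lit 454) (nat_lit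 5) (nat_lit 453) (nat_lit 5) (nat_lit 478) (nat_lit 5) (nat_lit 627) (nat_lit 603) (nat_lit 330)) (XT.lf (nat_lit 0) (nat_lit 3540644651) (nat_lit 1672) (nat_lit 19974389494) (nat_lit 1748) (nat_lit 3783994466) (nat_lit 432) (nat_lit 5) (nat_lit 454) (nat_lit 5) (nat_lit 455) (nat_lit 5) (nat_lit 628) (nat_lit 603) (nat_lit 329))))) (XT.nd (nat_lit 234) (nat_lit 1824) (nat_lit 0) (XT.nd (nat_lit 78) (nat_lit 1064) (nat_lit 0) (XT.lf (nat_lit 0) (nat_lit 18213458223) (nat_lit 1672) (nat_lit 7844073142) (nat_lit 1748) (nat_lit 1535693560) (nat_lit 432) (nat_lit 5) (nat_lit 454) (nat_lit 5) (nat_lit 455) (nat_lit 5) (nat_lit 629) (nat_lit 603) (nat_lit 328)) (XT.nd (nat_lit 78) (nat_lit 0) (nat_lit 0) (XT.lf (nat_lit 0) (nat_lit 809572894) (nat_lit 1064) (nat_lit 22572732396) (nat_lit 76) (nat_lit 4509663150) (nat_lit 418) (nat_lit 5) (nat_lit 432) (nat_lit 5) (nat_lit 419) (nat_lit 5) (nat_lit 630) (nat_lit 603) (nat_lit 327)) (XT.lf (nat_lit 0) (nat_lit 3294078601) (nat_lit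 1064) (nat_lit 7820800570) (nat_lit 76) (nat_lit 17079347047) (nat_lit 418) (nat_lit 5) (nat_lit 432) (nat_lit 5) (nat_lit 419) (nat_lit 5) (nat_lit 631) (nat_lit 603) (nat_lit 326)))) (XT.nd (nat_lit 156) (nat_lit 912) (nat_lit 0) (XT.nd (nat_lit 78) (nat_lit 0) (nat_lit 0) (XT.lf (nat_lit 0) (nat_lit 5882810834) (nat_lit 988) (nat_lit 21191004650) (nat_lit 76) (nat_lit 1427623279) (nat_lit 406) (nat_lit 5) (nat_lit 419) (nat_lit 5) (nat_lit 407) (nat_lit 5) (nat_lit 632) (nat_lit 603) (nat_lit 325)) (XT.lf (nat_lit 0) (nat_lit 8647407312) (nat_lit 988) (nat_lit 6039588882) (nat_lit 76) (nat_lit 14125317906) (nat_lit 406) (nat_lit 5) (nat_lit 419) (nat_lit 5) (nat_lit 407) (nat_lit 5) (nat_lit 633) (nat_lit 603) (nat_lit 324))) (XT.nd (nat_lit 78) (nat_lit 0) (nat_lit 0) (XT.lf (nat_lit 0) (nat_lit 9537794674) (nat_lit 912) (nat_lit 1989124655) (nat_lit 988) (nat_lit 17601295470) (nat_lit 394) (nat_lit 5) (nat_lit 406) (nat_lit 5) (nat_lit 407) (nat_lit 5) (nat_lit 634)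 (nat_lit 603) (nat_lit 323)) (XT.lf (nat_lit 0) (nat_lit 14573726022) (nat_lit 988) (nat_lit 4014657250) (nat_lit 76) (nat_lit 10859856473) (nat_lit 394) (nat_lit 5) (nat_lit 407) (nat_lit 5) (nat_lit 395) (nat_lit 5) (nat_lit 635) (nat_lit 603) (nat_lit 322))))))) (XT.nd (nat_lit 936) (nat_lit 2204) (nat_lit 0) (XT.nd (nat_lit 468) (nat_lit 2204) (nat_lit 0) (XT.nd (nat_lit 234) (nat_lit 1672) (nat_lit 0) (XT.nd (nat_lit 78) (nat_lit 836) (nat_lit 0) (XT.lf (nat_lit 0) (nat_lit 12014885173) (nat_lit 836) (nat_lit 5755539861) (nat_lit 912) (nat_lit 12002461346) (nat_lit 383) (nat_lit 5) (nat_lit 394) (nat_lit 5) (nat_lit 395) (nat_lit 5) (nat_lit 636) (nat_lit 603) (nat_lit 321)) (XT.nd (nat_lit 78) (nat_lit 836) (nat_lit 0) (XT.lf (nat_lit 0) (nat_lit 21103598696) (nat_lit 912) (nat_lit 1734014979) (nat_lit 76) (nat_lit 7264961767) (nat_lit 383) (nat_lit 5) (nat_lit 395) (nat_lit 5) (nat_lit 384) (nat_lit 5) (nat_lit 637) (nat_lit 603) (nat_lit 320)) (XT.lf (nat_lit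 0) (nat_lit 14763837083) (nat_lit 836) (nat_lit 9871419427) (nat_lit 912) (nat_lit 5800965665) (nat_lit 372) (nat_lit 5) (nat_lit 383) (nat_lit 5) (nat_lit 384) (nat_lit 5) (nat_lit 638) (nat_lit 603) (nat_lit 319)))) (XT.nd (nat_lit 78) (nat_lit 912) (nat_lit 0) (XT.lf (nat_lit 0) (nat_lit 825659739) (nat_lit 760) (nat_lit 27448615152) (nat_lit 836) (nat_lit 2501532700) (nat_lit 362) (nat_lit 5) (nat_lit 372) (nat_lit 5) (nat_lit 373) (nat_lit 5) (nat_lit 639) (nat_lit 603) (nat_lit 318)) (XT.nd (nat_lit 78) (nat_lit 836) (nat_lit 0) (XT.lf (nat_lit 0) (nat_lit 1021688937) (nat_lit 836) (nat_lit 13327822687) (nat_lit 76) (nat_lit 16769178594) (nat_lit 361) (nat_lit 5) (nat_lit 372) (nat_lit 5) (nat_lit 362) (nat_lit 5) (nat_lit 640) (nat_lit 603) (nat_lit 317)) (XT.lf (nat_lit 0) (nat_lit 3656205830) (nat_lit 836) (nat_lit 947374844) (nat_lit 912) (nat_lit 26864085378) (nat_lit 350) (nat_lit 5) (nat_lit 361) (nat_lit 5) (nat_lit 362) (nat_lit 5) (nat_lit 641) (nat_lit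 603) (nat_lit 316))))) (XT.nd (nat_lit 234) (nat_lit 1444) (nat_lit 0) (XT.nd (nat_lit 78) (nat_lit 760) (nat_lit 0) (XT.lf (nat_lit 0) (nat_lit 8427701860) (nat_lit 912) (nat_lit 10746607929) (nat_lit 76) (nat_lit 12645900056) (nat_lit 350) (nat_lit 5) (nat_lit 362) (nat_lit 5) (nat_lit 351) (nat_lit 5) (nat_lit 642) (nat_lit 603) (nat_lit 315)) (XT.nd (nat_lit 78) (nat_lit 0) (nat_lit 0) (XT.lf (nat_lit 0) (nat_lit 6739544865) (nat_lit 760) (nat_lit 5636789973) (nat_lit 836) (nat_lit 19802509354) (nat_lit 340) (nat_lit 5) (nat_lit 350) (nat_lit 5) (nat_lit 351) (nat_lit 5) (nat_lit 643) (nat_lit 603) (nat_lit 314)) (XT.lf (nat_lit 0) (nat_lit 16527610736) (nat_lit 836) (nat_lit 7877785343) (nat_lit 76) (nat_lit 8136782007) (nat_lit 340) (nat_lit 5) (nat_lit 351) (nat_lit 5) (nat_lit 341) (nat_lit 5) (nat_lit 644) (nat_lit 603) (nat_lit 313)))) (XT.nd (nat_lit 78) (nat_lit 684) (nat_lit 0) (XT.lf (nat_lit 0) (nat_lit 10128368500) (nat_lit 760) (nat_lit 10734694851) (nat_lit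 836) (nat_lit 12047692541) (nat_lit 330) (nat_lit 5) (nat_lit 340) (nat_lit 5) (nat_lit 341) (nat_lit 5) (nat_lit 645) (nat_lit 603) (nat_lit 312)) (XT.nd (nat_lit 78) (nat_lit 684) (nat_lit 0) (XT.lf (nat_lit 0) (nat_lit 25357361664) (nat_lit 836) (nat_lit 4707524593) (nat_lit 76) (nat_lit 3220376517) (nat_lit 330) (nat_lit 5) (nat_lit 341) (nat_lit 5) (nat_lit 331) (nat_lit 5) (nat_lit 646) (nat_lit 603) (nat_lit 311)) (XT.lf (nat_lit 0) (nat_lit 13837143239) (nat_lit 684) (nat_lit 16263455644) (nat_lit 760) (nat_lit 3563480099) (nat_lit 321) (nat_lit 5) (nat_lit 330) (nat_lit 5) (nat_lit 331) (nat_lit 5) (nat_lit 647) (nat_lit 603) (nat_lit 310)))))) (XT.nd (nat_lit 77844) (nat_lit 0) (nat_lit 13300) (XT.nd (nat_lit 234) (nat_lit 684) (nat_lit 0) (XT.nd (nat_lit 78) (nat_lit 1444) (nat_lit 0) (XT.lf (nat_lit 0) (nat_lit 906512442) (nat_lit 760) (nat_lit 1241389259) (nat_lit 76) (nat_lit 31901856064) (nat_lit 320) (nat_lit 5) (nat_lit 330) (nat_lit 5) (nat_lit 321)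 (nat_lit 5) (nat_lit 648) (nat_lit 603) (nat_lit 309)) (XT.nd (nat_lit 78) (nat_lit 684) (nat_lit 0) (XT.lf (nat_lit 0) (nat_lit 5613247803) (nat_lit 836) (nat_lit 16595533709) (nat_lit 76) (nat_lit 12229996595) (nat_lit 310) (nat_lit 5) (nat_lit 321) (nat_lit 5) (nat_lit 311) (nat_lit 5) (nat_lit 649) (nat_lit 603) (nat_lit 308)) (XT.lf (nat_lit 0) (nat_lit 2507522789) (nat_lit 684) (nat_lit 7943676665) (nat_lit 760) (nat_lit 24383637997) (nat_lit 301) (nat_lit 5) (nat_lit 310) (nat_lit 5) (nat_lit 311) (nat_lit 5) (nat_lit 650) (nat_lit 603) (nat_lit 307)))) (XT.nd (nat_lit 78) (nat_lit 684) (nat_lit 0) (XT.lf (nat_lit 0) (nat_lit 15539119091) (nat_lit 760) (nat_lit 13064716808) (nat_lit 76) (nat_lit 6631918132) (nat_lit 301) (nat_lit 5) (nat_lit 311) (nat_lit 5) (nat_lit 302) (nat_lit 5) (nat_lit 651) (nat_lit 603) (nat_lit 306)) (XT.nd (nat_lit 77454) (nat_lit 0) (nat_lit 13300) (XT.lf (nat_lit 0) (nat_lit 6615236306) (nat_lit 684) (nat_lit 14207364909) (nat_lit 760)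 (nat_lit 14820211863) (nat_lit 292) (nat_lit 5) (nat_lit 301) (nat_lit 5) (nat_lit 302) (nat_lit 5) (nat_lit 652) (nat_lit 603) (nat_lit 305)) (XT.lf (nat_lit 0) (nat_lit 4170175831) (nat_lit 0) (nat_lit 4170175831) (nat_lit 1748) (nat_lit 2434160876) (nat_lit 467) (nat_lit 5) (nat_lit 467) (nat_lit 3) (nat_lit 490) (nat_lit 3) (nat_lit 604) (nat_lit 604) (nat_lit 352))))) (XT.nd (nat_lit 234) (nat_lit 0) (nat_lit 76) (XT.nd (nat_lit 78) (nat_lit 0) (nat_lit 0) (XT.lf (nat_lit 0) (nat_lit 17002705969) (nat_lit 1748) (nat_lit 2662965887) (nat_lit 1824) (nat_lit 2095717409) (nat_lit 467) (nat_lit 5) (nat_lit 490) (nat_lit 3) (nat_lit 491) (nat_lit 5) (nat_lit 605) (nat_lit 604) (nat_lit 351)) (XT.nd (nat_lit 78) (nat_lit 0) (nat_lit 76) (XT.lf (nat_lit 76) (nat_lit 8143280870) (nat_lit 0) (nat_lit 9292276350) (nat_lit 1824) (nat_lit 4540355926) (nat_lit 468) (nat_lit 5) (nat_lit 467) (nat_lit 5) (nat_lit 491) (nat_lit 5) (nat_lit 606) (nat_lit 604) (nat_lit 350)) (XT.lf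 (nat_lit 0) (nat_lit 17899794029) (nat_lit 1748) (nat_lit 3003118078) (nat_lit 1824) (nat_lit 1291361398) (nat_lit 468) (nat_lit 5) (nat_lit 491) (nat_lit 5) (nat_lit 492) (nat_lit 5) (nat_lit 607) (nat_lit 604) (nat_lit 349)))) (XT.nd (nat_lit 156) (nat_lit 0) (nat_lit 76) (XT.nd (nat_lit 78) (nat_lit 0) (nat_lit 76) (XT.lf (nat_lit 76) (nat_lit 8085517608) (nat_lit 0) (nat_lit 10398277784) (nat_lit 1824) (nat_lit 3930996640) (nat_lit 469) (nat_lit 5) (nat_lit 468) (nat_lit 5) (nat_lit 492) (nat_lit 5) (nat_lit 608) (nat_lit 604) (nat_lit 348)) (XT.lf (nat_lit 0) (nat_lit 19098329325) (nat_lit 1748) (nat_lit 3206912939) (nat_lit 1824) (nat_lit 334102162) (nat_lit 469) (nat_lit 5) (nat_lit 492) (nat_lit 5) (nat_lit 493) (nat_lit 5) (nat_lit 609) (nat_lit 604) (nat_lit 347))) (XT.nd (nat_lit 78) (nat_lit 0) (nat_lit 0) (XT.lf (nat_lit 76) (nat_lit 8174238573) (nat_lit 0) (nat_lit 11669431081) (nat_lit 1824) (nat_lit 3022348436) (nat_lit 470) (nat_lit 5) (nat_lit 469) (nat_lit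 5) (nat_lit 493) (nat_lit 5) (nat_lit 610) (nat_lit 604) (nat_lit 346)) (XT.lf (nat_lit 76) (nat_lit 19824495785) (nat_lit 0) (nat_lit 797575597) (nat_lit 1824) (nat_lit 2474791281) (nat_lit 470) (nat_lit 5) (nat_lit 469) (nat_lit 5) (nat_lit 493) (nat_lit 5) (nat_lit 611) (nat_lit 604) (nat_lit 345))))))))
noncomputable def xc239 : XT := (XT.nd (nat_lit 1950) (nat_lit 7068) (nat_lit 0) (XT.nd (nat_lit 936) (nat_lit 4028) (nat_lit 0) (XT.nd (nat_lit 468) (nat_lit 0) (nat_lit 152) (XT.nd (nat_lit 234) (nat_lit 1748) (nat_lit 0) (XT.nd (nat_lit 78) (nat_lit 0) (nat_lit 0) (XT.lf (nat_lit 76) (nat_lit 8416979382) (nat_lit 0) (nat_lit 13117240304) (nat_lit 1824) (nat_lit 1795741385) (nat_lit 471) (nat_lit 5) (nat_lit 470) (nat_lit 5) (nat_lit 494) (nat_lit 5) (nat_lit 612) (nat_lit 604) (nat_lit 344)) (XT.nd (nat_lit 78) (nat_lit 0) (nat_lit 76) (XT.lf (nat_lit 76) (nat_lit 20377107352) (nat_lit 0) (nat_lit 2111470863) (nat_lit 1824) (nat_lit 1078664394) (nat_lit 471) (nat_lit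 5) (nat_lit 470) (nat_lit 5) (nat_lit 494) (nat_lit 5) (nat_lit 613) (nat_lit 604) (nat_lit 343)) (XT.lf (nat_lit 76) (nat_lit 8821645487) (nat_lit 0) (nat_lit 14753663299) (nat_lit 1824) (nat_lit 231695789) (nat_lit 472) (nat_lit 5) (nat_lit 471) (nat_lit 5) (nat_lit 495) (nat_lit 5) (nat_lit 614) (nat_lit 604) (nat_lit 342)))) (XT.nd (nat_lit 78) (nat_lit 0) (nat_lit 76) (XT.lf (nat_lit 0) (nat_lit 656313000) (nat_lit 1824) (nat_lit 2954530450) (nat_lit 1900) (nat_lit 20439988866) (nat_lit 447) (nat_lit 5) (nat_lit 471) (nat_lit 5) (nat_lit 472) (nat_lit 5) (nat_lit 615) (nat_lit 604) (nat_lit 341)) (XT.nd (nat_lit 78) (nat_lit 0) (nat_lit 0) (XT.lf (nat_lit 0) (nat_lit 1667948197) (nat_lit 1824) (nat_lit 14911996315) (nat_lit 1900) (nat_lit 7717382564) (nat_lit 448) (nat_lit 5) (nat_lit 472) (nat_lit 5) (nat_lit 473) (nat_lit 5) (nat_lit 616) (nat_lit 604) (nat_lit 340)) (XT.lf (nat_lit 0) (nat_lit 2740662015) (nat_lit 1824) (nat_lit 2562446433) (nat_lit 1900) (nat_lit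 19244826822) (nat_lit 448) (nat_lit 5) (nat_lit 472) (nat_lit 5) (nat_lit 473) (nat_lit 5) (nat_lit 617) (nat_lit 604) (nat_lit 339))))) (XT.nd (nat_lit 234) (nat_lit 0) (nat_lit 76) (XT.nd (nat_lit 78) (nat_lit 0) (nat_lit 0) (XT.lf (nat_lit 0) (nat_lit 3938557837) (nat_lit 1824) (nat_lit 14677617876) (nat_lit 1900) (nat_lit 6185305810) (nat_lit 449) (nat_lit 5) (nat_lit 473) (nat_lit 5) (nat_lit 474) (nat_lit 5) (nat_lit 618) (nat_lit 604) (nat_lit 338)) (XT.nd (nat_lit 78) (nat_lit 0) (nat_lit 76) (XT.lf (nat_lit 0) (nat_lit 5209926069) (nat_lit 1824) (nat_lit 1998449996) (nat_lit 1900) (nat_lit 17850732787) (nat_lit 449) (nat_lit 5) (nat_lit 473) (nat_lit 5) (nat_lit 474) (nat_lit 5) (nat_lit 619) (nat_lit 604) (nat_lit 337)) (XT.lf (nat_lit 0) (nat_lit 6605015121) (nat_lit 1824) (nat_lit 14272205989) (nat_lit 1900) (nat_lit 4442702179) (nat_lit 450) (nat_lit 5) (nat_lit 474) (nat_lit 5) (nat_lit 475) (nat_lit 5) (nat_lit 620) (nat_lit 604) (nat_lit 336)))) (XT.nd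 (nat_lit 78) (nat_lit 0) (nat_lit 76) (XT.lf (nat_lit 0) (nat_lit 8086433284) (nat_lit 1824) (nat_lit 1253717838) (nat_lit 1900) (nat_lit 16244634770) (nat_lit 450) (nat_lit 5) (nat_lit 474) (nat_lit 5) (nat_lit 475) (nat_lit 5) (nat_lit 621) (nat_lit 604) (nat_lit 335)) (XT.nd (nat_lit 78) (nat_lit 0) (nat_lit 0) (XT.lf (nat_lit 0) (nat_lit 9690114692) (nat_lit 1824) (nat_lit 13686850984) (nat_lit 1900) (nat_lit 2476127788) (nat_lit 451) (nat_lit 5) (nat_lit 475) (nat_lit 5) (nat_lit 476) (nat_lit 5) (nat_lit 622) (nat_lit 604) (nat_lit 334)) (XT.lf (nat_lit 0) (nat_lit 11393484260) (nat_lit 1824) (nat_lit 319020763) (nat_lit 1900) (nat_lit 14412910281) (nat_lit 451) (nat_lit 5) (nat_lit 475) (nat_lit 5) (nat_lit 476) (nat_lit 5) (nat_lit 623) (nat_lit 604) (nat_lit 333)))))) (XT.nd (nat_lit 468) (nat_lit 2888) (nat_lit 0) (XT.nd (nat_lit 234) (nat_lit 1520) (nat_lit 0) (XT.nd (nat_lit 78) (nat_lit 0) (nat_lit 0) (XT.lf (nat_lit 0) (nat_lit 13217644168) (nat_lit 1824)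 (nat_lit 12912234437) (nat_lit 1900) (nat_lit 271570915) (nat_lit 452) (nat_lit 5) (nat_lit 476) (nat_lit 5) (nat_lit 477) (nat_lit 5) (nat_lit 624) (nat_lit 604) (nat_lit 332)) (XT.nd (nat_lit 78) (nat_lit 0) (nat_lit 0) (XT.lf (nat_lit 76) (nat_lit 826123979) (nat_lit 0) (nat_lit 14334634238) (nat_lit 1900) (nat_lit 11520597177) (nat_lit 453) (nat_lit 5) (nat_lit 452) (nat_lit 5) (nat_lit 477) (nat_lit 5) (nat_lit 625) (nat_lit 604) (nat_lit 331)) (XT.lf (nat_lit 76) (nat_lit 15012183374) (nat_lit 0) (nat_lit 2214622683) (nat_lit 1900) (nat_lit 9738372281) (nat_lit 453) (nat_lit 5) (nat_lit 452) (nat_lit 5) (nat_lit 477) (nat_lit 5) (nat_lit 626) (nat_lit 604) (nat_lit 330)))) (XT.nd (nat_lit 78) (nat_lit 1596) (nat_lit 0) (XT.lf (nat_lit 76) (nat_lit 2187988086) (nat_lit 0) (nat_lit 17223756017) (nat_lit 1900) (nat_lit 7841382629) (nat_lit 454) (nat_lit 5) (nat_lit 453) (nat_lit 5) (nat_lit 478) (nat_lit 5) (nat_lit 627) (nat_lit 604) (nat_lit 329)) (XT.nd (nat_lit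 78) (nat_lit 1596) (nat_lit 0) (XT.lf (nat_lit 76) (nat_lit 16756861565) (nat_lit 0) (nat_lit 4975813190) (nat_lit 1900) (nat_lit 5812313829) (nat_lit 454) (nat_lit 5) (nat_lit 453) (nat_lit 5) (nat_lit 478) (nat_lit 5) (nat_lit 628) (nat_lit 604) (nat_lit 328)) (XT.lf (nat_lit 0) (nat_lit 3772997952) (nat_lit 1672) (nat_lit 20397893137) (nat_lit 1748) (nat_lit 3670379605) (nat_lit 432) (nat_lit 5) (nat_lit 454) (nat_lit 5) (nat_lit 455) (nat_lit 5) (nat_lit 629) (nat_lit 604) (nat_lit 327))))) (XT.nd (nat_lit 234) (nat_lit 1824) (nat_lit 0) (XT.nd (nat_lit 78) (nat_lit 1064) (nat_lit 0) (XT.lf (nat_lit 0) (nat_lit 18736100336) (nat_lit 1672) (nat_lit 8024499559) (nat_lit 1748) (nat_lit 1380824342) (nat_lit 432) (nat_lit 5) (nat_lit 454) (nat_lit 5) (nat_lit 455) (nat_lit 5) (nat_lit 630) (nat_lit 604) (nat_lit 326)) (XT.nd (nat_lit 78) (nat_lit 0) (nat_lit 0) (XT.lf (nat_lit 0) (nat_lit 1006224513) (nat_lit 1064) (nat_lit 22860639079) (nat_lit 76) (nat_lit 4579309228)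 (nat_lit 418) (nat_lit 5) (nat_lit 432) (nat_lit 5) (nat_lit 419) (nat_lit 5) (nat_lit 631) (nat_lit 604) (nat_lit 325)) (XT.lf (nat_lit 0) (nat_lit 3536881900) (nat_lit 1064) (nat_lit 7816875438) (nat_lit 76) (nat_lit 17400789688) (nat_lit 418) (nat_lit 5) (nat_lit 432) (nat_lit 5) (nat_lit 419) (nat_lit 5) (nat_lit 632) (nat_lit 604) (nat_lit 324)))) (XT.nd (nat_lit 156) (nat_lit 912) (nat_lit 0) (XT.nd (nat_lit 78) (nat_lit 0) (nat_lit 0) (XT.lf (nat_lit 0) (nat_lit 6174855224) (nat_lit 988) (nat_lit 21451925261) (nat_lit 76) (nat_lit 1441174504) (nat_lit 406) (nat_lit 5) (nat_lit 419) (nat_lit 5) (nat_lit 407) (nat_lit 5) (nat_lit 633) (nat_lit 604) (nat_lit 323)) (XT.lf (nat_lit 0) (nat_lit 8991324255) (nat_lit 988) (nat_lit 6000675286) (nat_lit 76) (nat_lit 14393117166) (nat_lit 406) (nat_lit 5) (nat_lit 419) (nat_lit 5) (nat_lit 407) (nat_lit 5) (nat_lit 634) (nat_lit 604) (nat_lit 322))) (XT.nd (nat_lit 78) (nat_lit 0) (nat_lit 0) (XT.lf (nat_lit 0) (nat_lit 9887205248)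 (nat_lit 912) (nat_lit 2038899027) (nat_lit 988) (nat_lit 17781278067) (nat_lit 394) (nat_lit 5) (nat_lit 406) (nat_lit 5) (nat_lit 407) (nat_lit 5) (nat_lit 635) (nat_lit 604) (nat_lit 321)) (XT.lf (nat_lit 0) (nat_lit 15030476704) (nat_lit 988) (nat_lit 3936012837) (nat_lit 76) (nat_lit 11067386120) (nat_lit 394) (nat_lit 5) (nat_lit 407) (nat_lit 5) (nat_lit 395) (nat_lit 5) (nat_lit 636) (nat_lit 604) (nat_lit 320))))))) (XT.nd (nat_lit 1014) (nat_lit 1444) (nat_lit 0) (XT.nd (nat_lit 468) (nat_lit 2280) (nat_lit 0) (XT.nd (nat_lit 234) (nat_lit 1672) (nat_lit 0) (XT.nd (nat_lit 78) (nat_lit 836) (nat_lit 0) (XT.lf (nat_lit 0) (nat_lit 12413074792) (nat_lit 836) (nat_lit 5875819335) (nat_lit 912) (nat_lit 12076165871) (nat_lit 383) (nat_lit 5) (nat_lit 394) (nat_lit 5) (nat_lit 395) (nat_lit 5) (nat_lit 637) (nat_lit 604) (nat_lit 319)) (XT.nd (nat_lit 78) (nat_lit 836) (nat_lit 0) (XT.lf (nat_lit 0) (nat_lit 21685501095) (nat_lit 912) (nat_lit 1610646667) (nat_lit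 76) (nat_lit 7405260132) (nat_lit 383) (nat_lit 5) (nat_lit 395) (nat_lit 5) (nat_lit 384) (nat_lit 5) (nat_lit 638) (nat_lit 604) (nat_lit 318)) (XT.lf (nat_lit 0) (nat_lit 15216122643) (nat_lit 836) (nat_lit 10069554898) (nat_lit 912) (nat_lit 5756092752) (nat_lit 372) (nat_lit 5) (nat_lit 383) (nat_lit 5) (nat_lit 384) (nat_lit 5) (nat_lit 639) (nat_lit 604) (nat_lit 317)))) (XT.nd (nat_lit 78) (nat_lit 912) (nat_lit 0) (XT.lf (nat_lit 0) (nat_lit 1001308789) (nat_lit 760) (nat_lit 27994103746) (nat_lit 836) (nat_lit 2392776588) (nat_lit 362) (nat_lit 5) (nat_lit 372) (nat_lit 5) (nat_lit 373) (nat_lit 5) (nat_lit 640) (nat_lit 604) (nat_lit 316)) (XT.nd (nat_lit 78) (nat_lit 836) (nat_lit 0) (XT.lf (nat_lit 0) (nat_lit 1195754333) (nat_lit 836) (nat_lit 13436301174) (nat_lit 76) (nat_lit 17105915144) (nat_lit 361) (nat_lit 5) (nat_lit 372) (nat_lit 5) (nat_lit 362) (nat_lit 5) (nat_lit 641) (nat_lit 604) (nat_lit 315)) (XT.lf (nat_lit 0) (nat_lit 3886367927) (nat_lit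 836) (nat_lit 960923188) (nat_lit 912) (nat_lit 27246675150) (nat_lit 350) (nat_lit 5) (nat_lit 361) (nat_lit 5) (nat_lit 362) (nat_lit 5) (nat_lit 642) (nat_lit 604) (nat_lit 314))))) (XT.nd (nat_lit 234) (nat_lit 1520) (nat_lit 0) (XT.nd (nat_lit 78) (nat_lit 760) (nat_lit 0) (XT.lf (nat_lit 0) (nat_lit 8744955781) (nat_lit 912) (nat_lit 10804622407) (nat_lit 76) (nat_lit 12904041922) (nat_lit 350) (nat_lit 5) (nat_lit 362) (nat_lit 5) (nat_lit 351) (nat_lit 5) (nat_lit 643) (nat_lit 604) (nat_lit 313)) (XT.nd (nat_lit 78) (nat_lit 0) (nat_lit 0) (XT.lf (nat_lit 0) (nat_lit 7030221090) (nat_lit 760) (nat_lit 5740436757) (nat_lit 836) (nat_lit 20048807760) (nat_lit 340) (nat_lit 5) (nat_lit 350) (nat_lit 5) (nat_lit 351) (nat_lit 5) (nat_lit 644) (nat_lit 604) (nat_lit 312)) (XT.lf (nat_lit 0) (nat_lit 17002138758) (nat_lit 836) (nat_lit 7879672633) (nat_lit 76) (nat_lit 8308311581) (nat_lit 340) (nat_lit 5) (nat_lit 351) (nat_lit 5) (nat_lit 341) (nat_lit 5) (nat_lit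 645) (nat_lit 604) (nat_lit 311)))) (XT.nd (nat_lit 156) (nat_lit 760) (nat_lit 0) (XT.nd (nat_lit 78) (nat_lit 0) (nat_lit 0) (XT.lf (nat_lit 0) (nat_lit 10485580152) (nat_lit 760) (nat_lit 10936901271) (nat_lit 836) (nat_lit 12143627666) (nat_lit 330) (nat_lit 5) (nat_lit 340) (nat_lit 5) (nat_lit 341) (nat_lit 5) (nat_lit 646) (nat_lit 604) (nat_lit 310)) (XT.lf (nat_lit 0) (nat_lit 26003957801) (nat_lit 836) (nat_lit 4647336726) (nat_lit 76) (nat_lit 3296866107) (nat_lit 330) (nat_lit 5) (nat_lit 341) (nat_lit 5) (nat_lit 331) (nat_lit 5) (nat_lit 647) (nat_lit 604) (nat_lit 309))) (XT.nd (nat_lit 78) (nat_lit 76) (nat_lit 0) (XT.lf (nat_lit 0) (nat_lit 14267209078) (nat_lit 684) (nat_lit 16573111869) (nat_lit 760) (nat_lit 3494267359) (nat_lit 321) (nat_lit 5) (nat_lit 330) (nat_lit 5) (nat_lit 331) (nat_lit 5) (nat_lit 648) (nat_lit 604) (nat_lit 308)) (XT.lf (nat_lit 0) (nat_lit 1060564154) (nat_lit 760) (nat_lit 1114076724) (nat_lit 76) (nat_lit 32553376260) (nat_lit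 320) (nat_lit 5) (nat_lit 330) (nat_lit 5) (nat_lit 321) (nat_lit 5) (nat_lit 649) (nat_lit 604) (nat_lit 307)))))) (XT.nd (nat_lit 77922) (nat_lit 0) (nat_lit 12692) (XT.nd (nat_lit 77688) (nat_lit 0) (nat_lit 12616) (XT.nd (nat_lit 78) (nat_lit 684) (nat_lit 0) (XT.lf (nat_lit 0) (nat_lit 5859860129) (nat_lit 836) (nat_lit 16773712958) (nat_lit 76) (nat_lit 12491276621) (nat_lit 310) (nat_lit 5) (nat_lit 321) (nat_lit 5) (nat_lit 311) (nat_lit 5) (nat_lit 650) (nat_lit 604) (nat_lit 306)) (XT.nd (nat_lit 78) (nat_lit 0) (nat_lit 0) (XT.lf (nat_lit 0) (nat_lit 2710393279) (nat_lit 684) (nat_lit 8082534833) (nat_lit 760) (nat_lit 24735935316) (nat_lit 301) (nat_lit 5) (nat_lit 310) (nat_lit 5) (nat_lit 311) (nat_lit 5) (nat_lit 651) (nat_lit 604) (nat_lit 305)) (XT.lf (nat_lit 0) (nat_lit 15980131493) (nat_lit 760) (nat_lit 13173794620) (nat_lit 76) (nat_lit 6783922044) (nat_lit 301) (nat_lit 5) (nat_lit 311) (nat_lit 5) (nat_lit 302) (nat_lit 5) (nat_lit 652) (nat_lit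 604) (nat_lit 304)))) (XT.nd (nat_lit 78) (nat_lit 0) (nat_lit 0) (XT.lf (nat_lit 0) (nat_lit 4323824288) (nat_lit 0) (nat_lit 4323824288) (nat_lit 1748) (nat_lit 2339522408) (nat_lit 467) (nat_lit 5) (nat_lit 467) (nat_lit 3) (nat_lit 490) (nat_lit 3) (nat_lit 605) (nat_lit 605) (nat_lit 350)) (XT.nd (nat_lit 78) (nat_lit 0) (nat_lit 0) (XT.lf (nat_lit 0) (nat_lit 17617336174) (nat_lit 1748) (nat_lit 2572043201) (nat_lit 1824) (nat_lit 2001703003) (nat_lit 467) (nat_lit 5) (nat_lit 490) (nat_lit 3) (nat_lit 491) (nat_lit 5) (nat_lit 606) (nat_lit 605) (nat_lit 349)) (XT.lf (nat_lit 76) (nat_lit 8449379925) (nat_lit 0) (nat_lit 9605010647) (nat_lit 1824) (nat_lit 4355596089) (nat_lit 468) (nat_lit 5) (nat_lit 467) (nat_lit 5) (nat_lit 491) (nat_lit 5) (nat_lit 607) (nat_lit 605) (nat_lit 348))))) (XT.nd (nat_lit 234) (nat_lit 0) (nat_lit 76) (XT.nd (nat_lit 78) (nat_lit 0) (nat_lit 0) (XT.lf (nat_lit 0) (nat_lit 18521807910) (nat_lit 1748) (nat_lit 2916609819) (nat_lit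 1824) (nat_lit 1194419410) (nat_lit 468) (nat_lit 5) (nat_lit 491) (nat_lit 5) (nat_lit 492) (nat_lit 5) (nat_lit 608) (nat_lit 605) (nat_lit 347)) (XT.nd (nat_lit 78) (nat_lit 0) (nat_lit 76) (XT.lf (nat_lit 76) (nat_lit 8392834300) (nat_lit 0) (nat_lit 10720423549) (nat_lit 1824) (nat_lit 3744593629) (nat_lit 469) (nat_lit 5) (nat_lit 468) (nat_lit 5) (nat_lit 492) (nat_lit 5) (nat_lit 609) (nat_lit 605) (nat_lit 346)) (XT.lf (nat_lit 0) (nat_lit 19734261810) (nat_lit 1748) (nat_lit 3122439367) (nat_lit 1824) (nat_lit 230310955) (nat_lit 469) (nat_lit 5) (nat_lit 492) (nat_lit 5) (nat_lit 493) (nat_lit 5) (nat_lit 610) (nat_lit 605) (nat_lit 345)))) (XT.nd (nat_lit 156) (nat_lit 0) (nat_lit 76) (XT.nd (nat_lit 78) (nat_lit 0) (nat_lit 0) (XT.lf (nat_lit 76) (nat_lit 8485357466) (nat_lit 0) (nat_lit 12005130295) (nat_lit 1824) (nat_lit 2827812714) (nat_lit 470) (nat_lit 5) (nat_lit 469) (nat_lit 5) (nat_lit 493) (nat_lit 5) (nat_lit 611) (nat_lit 605) (nat_lit 344))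 (XT.lf (nat_lit 76) (nat_lit 20365725036) (nat_lit 0) (nat_lit 913831611) (nat_lit 1824) (nat_lit 2274304076) (nat_lit 470) (nat_lit 5) (nat_lit 469) (nat_lit 5) (nat_lit 493) (nat_lit 5) (nat_lit 612) (nat_lit 605) (nat_lit 343))) (XT.nd (nat_lit 78) (nat_lit 0) (nat_lit 0) (XT.lf (nat_lit 76) (nat_lit 8734659731) (nat_lit 0) (nat_lit 13470814551) (nat_lit 1824) (nat_lit 1586237041) (nat_lit 471) (nat_lit 5) (nat_lit 470) (nat_lit 5) (nat_lit 494) (nat_lit 5) (nat_lit 613) (nat_lit 605) (nat_lit 342)) (XT.lf (nat_lit 76) (nat_lit 20931062009) (nat_lit 0) (nat_lit 2243140908) (nat_lit 1824) (nat_lit 859630652) (nat_lit 471) (nat_lit 5) (nat_lit 470) (nat_lit 5) (nat_lit 494) (nat_lit 5) (nat_lit 614) (nat_lit 605) (nat_lit 341))))))))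
noncomputable def xc240 : XT := (XT.nd (nat_lit 1950) (nat_lit 5548) (nat_lit 0) (XT.nd (nat_lit 936) (nat_lit 4864) (nat_lit 0) (XT.nd (nat_lit 468) (nat_lit 0) (nat_lit 228) (XT.nd (nat_lit 234) (nat_lit 0) (nat_lit 76) (XT.nd (nat_lit 78) (nat_lit 1824) (nat_lit 0) (XT.lf (nat_lit 76) (nat_lit 9148827171) (nat_lit 0) (nat_lit 15129625798) (nat_lit 1824) (nat_lit 22831) (nat_lit 472) (nat_lit 5) (nat_lit 471) (nat_lit 5) (nat_lit 495) (nat_lit 5) (nat_lit 615) (nat_lit 605) (nat_lit 340)) (XT.nd (nat_lit 78) (nat_lit 0) (nat_lit 76) (XT.lf (nat_lit 0) (nat_lit 898074227) (nat_lit 1824) (nat_lit 2862755000) (nat_lit 1900) (nat_lit 20766412331) (nat_lit 447) (nat_lit 5) (nat_lit 471) (nat_lit 5) (nat_lit 472) (nat_lit 5) (nat_lit 616) (nat_lit 605) (nat_lit 339)) (XT.lf (nat_lit 0) (nat_lit 1925943585) (nat_lit 1824) (nat_lit 15055337614) (nat_lit 1900) (nat_lit 7797465665) (nat_lit 448) (nat_lit 5) (nat_lit 472) (nat_lit 5) (nat_lit 473) (nat_lit 5) (nat_lit 617) (nat_lit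 605) (nat_lit 338)))) (XT.nd (nat_lit 78) (nat_lit 0) (nat_lit 76) (XT.lf (nat_lit 0) (nat_lit 3015707044) (nat_lit 1824) (nat_lit 2461833963) (nat_lit 1900) (nat_lit 19556914975) (nat_lit 448) (nat_lit 5) (nat_lit 472) (nat_lit 5) (nat_lit 473) (nat_lit 5) (nat_lit 618) (nat_lit 605) (nat_lit 337)) (XT.nd (nat_lit 78) (nat_lit 0) (nat_lit 0) (XT.lf (nat_lit 0) (nat_lit 4233793296) (nat_lit 1824) (nat_lit 14815508643) (nat_lit 1900) (nat_lit 6243847225) (nat_lit 449) (nat_lit 5) (nat_lit 473) (nat_lit 5) (nat_lit 474) (nat_lit 5) (nat_lit 619) (nat_lit 605) (nat_lit 336)) (XT.lf (nat_lit 0) (nat_lit 5526344494) (nat_lit 1824) (nat_lit 1885809594) (nat_lit 1900) (nat_lit 18143860481) (nat_lit 449) (nat_lit 5) (nat_lit 473) (nat_lit 5) (nat_lit 474) (nat_lit 5) (nat_lit 620) (nat_lit 605) (nat_lit 335))))) (XT.nd (nat_lit 234) (nat_lit 0) (nat_lit 76) (XT.nd (nat_lit 78) (nat_lit 0) (nat_lit 0) (XT.lf (nat_lit 0) (nat_lit 6945785552) (nat_lit 1824) (nat_lit 14401459499)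 (nat_lit 1900) (nat_lit 4474871868) (nat_lit 450) (nat_lit 5) (nat_lit 474) (nat_lit 5) (nat_lit 475) (nat_lit 5) (nat_lit 621) (nat_lit 605) (nat_lit 334)) (XT.nd (nat_lit 78) (nat_lit 0) (nat_lit 76) (XT.lf (nat_lit 0) (nat_lit 8452740507) (nat_lit 1824) (nat_lit 1125664146) (nat_lit 1900) (nat_lit 16513954569) (nat_lit 450) (nat_lit 5) (nat_lit 474) (nat_lit 5) (nat_lit 475) (nat_lit 5) (nat_lit 622) (nat_lit 605) (nat_lit 333)) (XT.lf (nat_lit 0) (nat_lit 10085150907) (nat_lit 1824) (nat_lit 13804085105) (nat_lit 1900) (nat_lit 2476864430) (nat_lit 451) (nat_lit 5) (nat_lit 475) (nat_lit 5) (nat_lit 476) (nat_lit 5) (nat_lit 623) (nat_lit 605) (nat_lit 332)))) (XT.nd (nat_lit 78) (nat_lit 0) (nat_lit 76) (XT.lf (nat_lit 0) (nat_lit 11818642103) (nat_lit 1824) (nat_lit 171966964) (nat_lit 1900) (nat_lit 14653339160) (nat_lit 451) (nat_lit 5) (nat_lit 475) (nat_lit 5) (nat_lit 476) (nat_lit 5) (nat_lit 624) (nat_lit 605) (nat_lit 331)) (XT.nd (nat_lit 78) (nat_lit 0)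 (nat_lit 0) (XT.lf (nat_lit 0) (nat_lit 13676133865) (nat_lit 1824) (nat_lit 13013864528) (nat_lit 1900) (nat_lit 235568343) (nat_lit 452) (nat_lit 5) (nat_lit 476) (nat_lit 5) (nat_lit 477) (nat_lit 5) (nat_lit 625) (nat_lit 605) (nat_lit 330)) (XT.lf (nat_lit 76) (nat_lit 998230698) (nat_lit 0) (nat_lit 14657083049) (nat_lit 1900) (nat_lit 11555813478) (nat_lit 453) (nat_lit 5) (nat_lit 452) (nat_lit 5) (nat_lit 477) (nat_lit 5) (nat_lit 626) (nat_lit 605) (nat_lit 329)))))) (XT.nd (nat_lit 468) (nat_lit 2660) (nat_lit 0) (XT.nd (nat_lit 234) (nat_lit 2584) (nat_lit 0) (XT.nd (nat_lit 78) (nat_lit 0) (nat_lit 76) (XT.lf (nat_lit 76) (nat_lit 15464960609) (nat_lit 0) (nat_lit 2293970162) (nat_lit 1900) (nat_lit 9741771450) (nat_lit 453) (nat_lit 5) (nat_lit 452) (nat_lit 5) (nat_lit 477) (nat_lit 5) (nat_lit 627) (nat_lit 605) (nat_lit 328)) (XT.nd (nat_lit 78) (nat_lit 0) (nat_lit 0) (XT.lf (nat_lit 76) (nat_lit 2387258826) (nat_lit 0) (nat_lit 17597417087) (nat_lit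 1900) (nat_lit 7809792050) (nat_lit 454) (nat_lit 5) (nat_lit 453) (nat_lit 5) (nat_lit 478) (nat_lit 5) (nat_lit 628) (nat_lit 605) (nat_lit 327)) (XT.lf (nat_lit 76) (nat_lit 17244460540) (nat_lit 0) (nat_lit 5103943130) (nat_lit 1900) (nat_lit 5743836349) (nat_lit 454) (nat_lit 5) (nat_lit 453) (nat_lit 5) (nat_lit 478) (nat_lit 5) (nat_lit 629) (nat_lit 605) (nat_lit 326)))) (XT.nd (nat_lit 78) (nat_lit 1064) (nat_lit 0) (XT.lf (nat_lit 0) (nat_lit 4003725508) (nat_lit 1672) (nat_lit 20828934288) (nat_lit 1748) (nat_lit 3561842991) (nat_lit 432) (nat_lit 5) (nat_lit 454) (nat_lit 5) (nat_lit 455) (nat_lit 5) (nat_lit 630) (nat_lit 605) (nat_lit 325)) (XT.nd (nat_lit 78) (nat_lit 1064) (nat_lit 0) (XT.lf (nat_lit 0) (nat_lit 19263045477) (nat_lit 1672) (nat_lit 8207620226) (nat_lit 1748) (nat_lit 1230064157) (nat_lit 432) (nat_lit 5) (nat_lit 454) (nat_lit 5) (nat_lit 455) (nat_lit 5) (nat_lit 631) (nat_lit 605) (nat_lit 324)) (XT.lf (nat_lit 0) (nat_lit 1199801677)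 (nat_lit 1064) (nat_lit 23160654662) (nat_lit 76) (nat_lit 4651146099) (nat_lit 418) (nat_lit 5) (nat_lit 432) (nat_lit 5) (nat_lit 419) (nat_lit 5) (nat_lit 632) (nat_lit 605) (nat_lit 323))))) (XT.nd (nat_lit 234) (nat_lit 1748) (nat_lit 0) (XT.nd (nat_lit 78) (nat_lit 912) (nat_lit 0) (XT.lf (nat_lit 0) (nat_lit 3777671179) (nat_lit 1064) (nat_lit 7819098046) (nat_lit 76) (nat_lit 17729443410) (nat_lit 418) (nat_lit 5) (nat_lit 432) (nat_lit 5) (nat_lit 419) (nat_lit 5) (nat_lit 633) (nat_lit 605) (nat_lit 322)) (XT.nd (nat_lit 78) (nat_lit 0) (nat_lit 0) (XT.lf (nat_lit 0) (nat_lit 6465968797) (nat_lit 988) (nat_lit 21724389870) (nat_lit 76) (nat_lit 1455579271) (nat_lit 406) (nat_lit 5) (nat_lit 419) (nat_lit 5) (nat_lit 407) (nat_lit 5) (nat_lit 634) (nat_lit 605) (nat_lit 321)) (XT.lf (nat_lit 0) (nat_lit 9335480611) (nat_lit 988) (nat_lit 5967184972) (nat_lit 76) (nat_lit 14666843506) (nat_lit 406) (nat_lit 5) (nat_lit 419) (nat_lit 5) (nat_lit 407) (nat_lit 5)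 (nat_lit 635) (nat_lit 605) (nat_lit 320)))) (XT.nd (nat_lit 156) (nat_lit 836) (nat_lit 0) (XT.nd (nat_lit 78) (nat_lit 0) (nat_lit 0) (XT.lf (nat_lit 0) (nat_lit 10237443279) (nat_lit 912) (nat_lit 2089280889) (nat_lit 988) (nat_lit 17971540967) (nat_lit 394) (nat_lit 5) (nat_lit 406) (nat_lit 5) (nat_lit 407) (nat_lit 5) (nat_lit 636) (nat_lit 605) (nat_lit 319)) (XT.lf (nat_lit 0) (nat_lit 15489944526) (nat_lit 988) (nat_lit 3861967275) (nat_lit 76) (nat_lit 11279441759) (nat_lit 394) (nat_lit 5) (nat_lit 407) (nat_lit 5) (nat_lit 395) (nat_lit 5) (nat_lit 637) (nat_lit 605) (nat_lit 318))) (XT.nd (nat_lit 78) (nat_lit 0) (nat_lit 0) (XT.lf (nat_lit 0) (nat_lit 12813097068) (nat_lit 836) (nat_lit 5998303692) (nat_lit 912) (nat_lit 12157803855) (nat_lit 383) (nat_lit 5) (nat_lit 394) (nat_lit 5) (nat_lit 395) (nat_lit 5) (nat_lit 638) (nat_lit 605) (nat_lit 317)) (XT.lf (nat_lit 0) (nat_lit 22272835132) (nat_lit 912) (nat_lit 1490948210) (nat_lit 76) (nat_lit 7548558653)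 (nat_lit 383) (nat_lit 5) (nat_lit 395) (nat_lit 5) (nat_lit 384) (nat_lit 5) (nat_lit 639) (nat_lit 605) (nat_lit 316))))))) (XT.nd (nat_lit 78546) (nat_lit 0) (nat_lit 10412) (XT.nd (nat_lit 468) (nat_lit 2280) (nat_lit 0) (XT.nd (nat_lit 234) (nat_lit 1596) (nat_lit 0) (XT.nd (nat_lit 78) (nat_lit 836) (nat_lit 0) (XT.lf (nat_lit 0) (nat_lit 15671357070) (nat_lit 836) (nat_lit 10271625621) (nat_lit 912) (nat_lit 5716570021) (nat_lit 372) (nat_lit 5) (nat_lit 383) (nat_lit 5) (nat_lit 384) (nat_lit 5) (nat_lit 640) (nat_lit 605) (nat_lit 315)) (XT.nd (nat_lit 78) (nat_lit 76) (nat_lit 0) (XT.lf (nat_lit 0) (nat_lit 1174291381) (nat_lit 760) (nat_lit 28550637389) (nat_lit 836) (nat_lit 2288011237) (nat_lit 362) (nat_lit 5) (nat_lit 372) (nat_lit 5) (nat_lit 373) (nat_lit 5) (nat_lit 641) (nat_lit 605) (nat_lit 314)) (XT.lf (nat_lit 0) (nat_lit 1367335334) (nat_lit 836) (nat_lit 13553087591) (nat_lit 76) (nat_lit 17449333887) (nat_lit 361) (nat_lit 5) (nat_lit 372) (nat_lit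 5) (nat_lit 362) (nat_lit 5) (nat_lit 642) (nat_lit 605) (nat_lit 313)))) (XT.nd (nat_lit 78) (nat_lit 760) (nat_lit 0) (XT.lf (nat_lit 0) (nat_lit 4115035289) (nat_lit 836) (nat_lit 974952154) (nat_lit 912) (nat_lit 27642923593) (nat_lit 350) (nat_lit 5) (nat_lit 361) (nat_lit 5) (nat_lit 362) (nat_lit 5) (nat_lit 643) (nat_lit 605) (nat_lit 312)) (XT.nd (nat_lit 78) (nat_lit 760) (nat_lit 0) (XT.lf (nat_lit 0) (nat_lit 9062780583) (nat_lit 912) (nat_lit 10869890479) (nat_lit 76) (nat_lit 13167143776) (nat_lit 350) (nat_lit 5) (nat_lit 362) (nat_lit 5) (nat_lit 351) (nat_lit 5) (nat_lit 644) (nat_lit 605) (nat_lit 311)) (XT.lf (nat_lit 0) (nat_lit 7320657623) (nat_lit 760) (nat_lit 5846509413) (nat_lit 836) (nat_lit 20305847179) (nat_lit 340) (nat_lit 5) (nat_lit 350) (nat_lit 5) (nat_lit 351) (nat_lit 5) (nat_lit 645) (nat_lit 605) (nat_lit 310))))) (XT.nd (nat_lit 234) (nat_lit 1520) (nat_lit 0) (XT.nd (nat_lit 78) (nat_lit 760) (nat_lit 0) (XT.lf (nat_lit 0) (nat_lit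 17480566584) (nat_lit 836) (nat_lit 7887642464) (nat_lit 76) (nat_lit 8482930267) (nat_lit 340) (nat_lit 5) (nat_lit 351) (nat_lit 5) (nat_lit 341) (nat_lit 5) (nat_lit 646) (nat_lit 605) (nat_lit 309)) (XT.nd (nat_lit 78) (nat_lit 0) (nat_lit 0) (XT.lf (nat_lit 0) (nat_lit 10843931011) (nat_lit 760) (nat_lit 11143636724) (nat_lit 836) (nat_lit 12247112748) (nat_lit 330) (nat_lit 5) (nat_lit 340) (nat_lit 5) (nat_lit 341) (nat_lit 5) (nat_lit 647) (nat_lit 605) (nat_lit 308)) (XT.lf (nat_lit 0) (nat_lit 26658070891) (nat_lit 836) (nat_lit 4591938249) (nat_lit 76) (nat_lit 3374416329) (nat_lit 330) (nat_lit 5) (nat_lit 341) (nat_lit 5) (nat_lit 331) (nat_lit 5) (nat_lit 648) (nat_lit 605) (nat_lit 307)))) (XT.nd (nat_lit 78) (nat_lit 836) (nat_lit 0) (XT.lf (nat_lit 0) (nat_lit 14699922516) (nat_lit 684) (nat_lit 16889567486) (nat_lit 760) (nat_lit 3429125464) (nat_lit 321) (nat_lit 5) (nat_lit 330) (nat_lit 5) (nat_lit 331) (nat_lit 5) (nat_lit 649) (nat_lit 605) (nat_lit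 306)) (XT.nd (nat_lit 78) (nat_lit 760) (nat_lit 0) (XT.lf (nat_lit 0) (nat_lit 1212418903) (nat_lit 760) (nat_lit 990125733) (nat_lit 76) (nat_lit 33217403295) (nat_lit 320) (nat_lit 5) (nat_lit 330) (nat_lit 5) (nat_lit 321) (nat_lit 5) (nat_lit 650) (nat_lit 605) (nat_lit 305)) (XT.lf (nat_lit 0) (nat_lit 6106187830) (nat_lit 836) (nat_lit 16961425370) (nat_lit 76) (nat_lit 12757134539) (nat_lit 310) (nat_lit 5) (nat_lit 321) (nat_lit 5) (nat_lit 311) (nat_lit 5) (nat_lit 651) (nat_lit 605) (nat_lit 304)))))) (XT.nd (nat_lit 468) (nat_lit 1520) (nat_lit 0) (XT.nd (nat_lit 234) (nat_lit 0) (nat_lit 76) (XT.nd (nat_lit 78) (nat_lit 0) (nat_lit 0) (XT.lf (nat_lit 0) (nat_lit 4477818017) (nat_lit 0) (nat_lit 4477818017) (nat_lit 1748) (nat_lit 2248556527) (nat_lit 467) (nat_lit 5) (nat_lit 467) (nat_lit 3) (nat_lit 490) (nat_lit 3) (nat_lit 606) (nat_lit 606) (nat_lit 348)) (XT.nd (nat_lit 78) (nat_lit 0) (nat_lit 0) (XT.lf (nat_lit 0) (nat_lit 18233596858) (nat_lit 1748)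 (nat_lit 2484900825) (nat_lit 1824) (nat_lit 1911086587) (nat_lit 467) (nat_lit 5) (nat_lit 490) (nat_lit 3) (nat_lit 491) (nat_lit 5) (nat_lit 607) (nat_lit 606) (nat_lit 347)) (XT.lf (nat_lit 76) (nat_lit 8756039032) (nat_lit 0) (nat_lit 9919072383) (nat_lit 1824) (nat_lit 4177841655) (nat_lit 468) (nat_lit 5) (nat_lit 467) (nat_lit 5) (nat_lit 491) (nat_lit 5) (nat_lit 608) (nat_lit 606) (nat_lit 346)))) (XT.nd (nat_lit 78) (nat_lit 0) (nat_lit 0) (XT.lf (nat_lit 0) (nat_lit 19146009928) (nat_lit 1748) (nat_lit 2834062911) (nat_lit 1824) (nat_lit 1100305860) (nat_lit 468) (nat_lit 5) (nat_lit 491) (nat_lit 5) (nat_lit 492) (nat_lit 5) (nat_lit 609) (nat_lit 606) (nat_lit 345)) (XT.nd (nat_lit 78) (nat_lit 0) (nat_lit 76) (XT.lf (nat_lit 76) (nat_lit 8700643255) (nat_lit 0) (nat_lit 11044578473) (nat_lit 1824) (nat_lit 3564753722) (nat_lit 469) (nat_lit 5) (nat_lit 468) (nat_lit 5) (nat_lit 492) (nat_lit 5) (nat_lit 610) (nat_lit 606) (nat_lit 344)) (XT.lf (nat_lit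 0) (nat_lit 20373051139) (nat_lit 1748) (nat_lit 3042047102) (nat_lit 1824) (nat_lit 128733734) (nat_lit 469) (nat_lit 5) (nat_lit 492) (nat_lit 5) (nat_lit 493) (nat_lit 5) (nat_lit 611) (nat_lit 606) (nat_lit 343))))) (XT.nd (nat_lit 234) (nat_lit 1672) (nat_lit 0) (XT.nd (nat_lit 78) (nat_lit 0) (nat_lit 0) (XT.lf (nat_lit 76) (nat_lit 8796965924) (nat_lit 0) (nat_lit 12343570648) (nat_lit 1824) (nat_lit 2639287565) (nat_lit 470) (nat_lit 5) (nat_lit 469) (nat_lit 5) (nat_lit 493) (nat_lit 5) (nat_lit 612) (nat_lit 606) (nat_lit 342)) (XT.nd (nat_lit 78) (nat_lit 0) (nat_lit 76) (XT.lf (nat_lit 76) (nat_lit 20912158466) (nat_lit 0) (nat_lit 1028517799) (nat_lit 1824) (nat_lit 2079514272) (nat_lit 470) (nat_lit 5) (nat_lit 469) (nat_lit 5) (nat_lit 493) (nat_lit 5) (nat_lit 613) (nat_lit 606) (nat_lit 341)) (XT.lf (nat_lit 76) (nat_lit 9052894602) (nat_lit 0) (nat_lit 13827917732) (nat_lit 1824) (nat_lit 1382072536) (nat_lit 471) (nat_lit 5) (nat_lit 470) (nat_lit 5)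 (nat_lit 494) (nat_lit 5) (nat_lit 614) (nat_lit 606) (nat_lit 340)))) (XT.nd (nat_lit 156) (nat_lit 0) (nat_lit 0) (XT.nd (nat_lit 78) (nat_lit 1748) (nat_lit 0) (XT.lf (nat_lit 76) (nat_lit 21490410384) (nat_lit 0) (nat_lit 2373971265) (nat_lit 1824) (nat_lit 645559299) (nat_lit 471) (nat_lit 5) (nat_lit 470) (nat_lit 5) (nat_lit 494) (nat_lit 5) (nat_lit 615) (nat_lit 606) (nat_lit 339)) (XT.lf (nat_lit 0) (nat_lit 224128945) (nat_lit 1824) (nat_lit 15284333549) (nat_lit 1900) (nat_lit 9251065761) (nat_lit 447) (nat_lit 5) (nat_lit 471) (nat_lit 5) (nat_lit 472) (nat_lit 5) (nat_lit 616) (nat_lit 606) (nat_lit 338))) (XT.nd (nat_lit 78) (nat_lit 0) (nat_lit 76) (XT.lf (nat_lit 0) (nat_lit 1135792505) (nat_lit 1824) (nat_lit 2775002353) (nat_lit 1900) (nat_lit 21102563038) (nat_lit 447) (nat_lit 5) (nat_lit 471) (nat_lit 5) (nat_lit 472) (nat_lit 5) (nat_lit 617) (nat_lit 606) (nat_lit 337)) (XT.lf (nat_lit 0) (nat_lit 2180375975) (nat_lit 1824) (nat_lit 15207560642)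 (nat_lit 1900) (nat_lit 7882034210) (nat_lit 448) (nat_lit 5) (nat_lit 472) (nat_lit 5) (nat_lit 473) (nat_lit 5) (nat_lit 618) (nat_lit 606) (nat_lit 336))))))))
noncomputable def xc241 : XT := (XT.nd (nat_lit 1950) (nat_lit 3116) (nat_lit 0) (XT.nd (nat_lit 936) (nat_lit 6612) (nat_lit 0) (XT.nd (nat_lit 468) (nat_lit 0) (nat_lit 228) (XT.nd (nat_lit 234) (nat_lit 0) (nat_lit 152) (XT.nd (nat_lit 78) (nat_lit 0) (nat_lit 76) (XT.lf (nat_lit 0) (nat_lit 3287701105) (nat_lit 1824) (nat_lit 2365106206) (nat_lit 1900) (nat_lit 19878072130) (nat_lit 448) (nat_lit 5) (nat_lit 472) (nat_lit 5) (nat_lit 473) (nat_lit 5) (nat_lit 619) (nat_lit 606) (nat_lit 335)) (XT.nd (nat_lit 78) (nat_lit 0) (nat_lit 0) (XT.lf (nat_lit 0) (nat_lit 4526527890) (nat_lit 1824) (nat_lit 14962201756) (nat_lit 1900) (nat_lit 6306089893) (nat_lit 449) (nat_lit 5) (nat_lit 473) (nat_lit 5) (nat_lit 474) (nat_lit 5) (nat_lit 620) (nat_lit 606) (nat_lit 334)) (XT.lf (nat_lit 0) (nat_lit 5840850529)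 (nat_lit 1824) (nat_lit 1776842393) (nat_lit 1900) (nat_lit 18445331537) (nat_lit 449) (nat_lit 5) (nat_lit 473) (nat_lit 5) (nat_lit 474) (nat_lit 5) (nat_lit 621) (nat_lit 606) (nat_lit 333)))) (XT.nd (nat_lit 78) (nat_lit 0) (nat_lit 0) (XT.lf (nat_lit 0) (nat_lit 7285268476) (nat_lit 1824) (nat_lit 14539363150) (nat_lit 1900) (nat_lit 4509886074) (nat_lit 450) (nat_lit 5) (nat_lit 474) (nat_lit 5) (nat_lit 475) (nat_lit 5) (nat_lit 622) (nat_lit 606) (nat_lit 332)) (XT.nd (nat_lit 78) (nat_lit 0) (nat_lit 76) (XT.lf (nat_lit 0) (nat_lit 8818429839) (nat_lit 1824) (nat_lit 1000995528) (nat_lit 1900) (nat_lit 16790818728) (nat_lit 450) (nat_lit 5) (nat_lit 474) (nat_lit 5) (nat_lit 475) (nat_lit 5) (nat_lit 623) (nat_lit 606) (nat_lit 331)) (XT.lf (nat_lit 0) (nat_lit 10480273687) (nat_lit 1824) (nat_lit 13929741107) (nat_lit 1900) (nat_lit 2479510222) (nat_lit 451) (nat_lit 5) (nat_lit 475) (nat_lit 5) (nat_lit 476) (nat_lit 5) (nat_lit 624) (nat_lit 606) (nat_lit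 330))))) (XT.nd (nat_lit 234) (nat_lit 0) (nat_lit 76) (XT.nd (nat_lit 78) (nat_lit 0) (nat_lit 76) (XT.lf (nat_lit 0) (nat_lit 12244642164) (nat_lit 1824) (nat_lit 27930126) (nat_lit 1900) (nat_lit 14900433887) (nat_lit 451) (nat_lit 5) (nat_lit 475) (nat_lit 5) (nat_lit 476) (nat_lit 5) (nat_lit 625) (nat_lit 606) (nat_lit 329)) (XT.nd (nat_lit 78) (nat_lit 0) (nat_lit 0) (XT.lf (nat_lit 0) (nat_lit 14136254786) (nat_lit 1824) (nat_lit 13123608755) (nat_lit 1900) (nat_lit 200454652) (nat_lit 452) (nat_lit 5) (nat_lit 476) (nat_lit 5) (nat_lit 477) (nat_lit 5) (nat_lit 626) (nat_lit 606) (nat_lit 328)) (XT.lf (nat_lit 76) (nat_lit 1167738026) (nat_lit 0) (nat_lit 14984592381) (nat_lit 1900) (nat_lit 11599313789) (nat_lit 453) (nat_lit 5) (nat_lit 452) (nat_lit 5) (nat_lit 477) (nat_lit 5) (nat_lit 627) (nat_lit 606) (nat_lit 327)))) (XT.nd (nat_lit 78) (nat_lit 0) (nat_lit 76) (XT.lf (nat_lit 76) (nat_lit 15920870325) (nat_lit 0) (nat_lit 2373543361) (nat_lit 1900) (nat_lit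 9752669665) (nat_lit 453) (nat_lit 5) (nat_lit 452) (nat_lit 5) (nat_lit 477) (nat_lit 5) (nat_lit 628) (nat_lit 606) (nat_lit 326)) (XT.nd (nat_lit 78) (nat_lit 0) (nat_lit 0) (XT.lf (nat_lit 76) (nat_lit 2584476300) (nat_lit 0) (nat_lit 17977418053) (nat_lit 1900) (nat_lit 7784886169) (nat_lit 454) (nat_lit 5) (nat_lit 453) (nat_lit 5) (nat_lit 478) (nat_lit 5) (nat_lit 629) (nat_lit 606) (nat_lit 325)) (XT.lf (nat_lit 76) (nat_lit 17735891219) (nat_lit 0) (nat_lit 5233524565) (nat_lit 1900) (nat_lit 5681162368) (nat_lit 454) (nat_lit 5) (nat_lit 453) (nat_lit 5) (nat_lit 478) (nat_lit 5) (nat_lit 630) (nat_lit 606) (nat_lit 324)))))) (XT.nd (nat_lit 468) (nat_lit 3420) (nat_lit 0) (XT.nd (nat_lit 234) (nat_lit 912) (nat_lit 0) (XT.nd (nat_lit 78) (nat_lit 1064) (nat_lit 0) (XT.lf (nat_lit 0) (nat_lit 4233038385) (nat_lit 1672) (nat_lit 21267699910) (nat_lit 1748) (nat_lit 3458200761) (nat_lit 432) (nat_lit 5) (nat_lit 454) (nat_lit 5) (nat_lit 455) (nat_lit 5) (nat_lit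 631) (nat_lit 606) (nat_lit 323)) (XT.nd (nat_lit 78) (nat_lit 1064) (nat_lit 0) (XT.lf (nat_lit 0) (nat_lit 19794618511) (nat_lit 1672) (nat_lit 8393524528) (nat_lit 1748) (nat_lit 1083215352) (nat_lit 432) (nat_lit 5) (nat_lit 454) (nat_lit 5) (nat_lit 455) (nat_lit 5) (nat_lit 632) (nat_lit 606) (nat_lit 322)) (XT.lf (nat_lit 0) (nat_lit 1390515005) (nat_lit 1064) (nat_lit 23472774715) (nat_lit 76) (nat_lit 4725186598) (nat_lit 418) (nat_lit 5) (nat_lit 432) (nat_lit 5) (nat_lit 419) (nat_lit 5) (nat_lit 633) (nat_lit 606) (nat_lit 321)))) (XT.nd (nat_lit 78) (nat_lit 912) (nat_lit 0) (XT.lf (nat_lit 0) (nat_lit 4016672930) (nat_lit 1064) (nat_lit 7827349576) (nat_lit 76) (nat_lit 18065422060) (nat_lit 418) (nat_lit 5) (nat_lit 432) (nat_lit 5) (nat_lit 419) (nat_lit 5) (nat_lit 634) (nat_lit 606) (nat_lit 320)) (XT.nd (nat_lit 78) (nat_lit 0) (nat_lit 0) (XT.lf (nat_lit 0) (nat_lit 6756395888) (nat_lit 988) (nat_lit 22008383727) (nat_lit 76) (nat_lit 1470832029) (nat_lit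 406) (nat_lit 5) (nat_lit 419) (nat_lit 5) (nat_lit 407) (nat_lit 5) (nat_lit 635) (nat_lit 606) (nat_lit 319)) (XT.lf (nat_lit 0) (nat_lit 9680138964) (nat_lit 988) (nat_lit 5938985592) (nat_lit 76) (nat_lit 14946593290) (nat_lit 406) (nat_lit 5) (nat_lit 419) (nat_lit 5) (nat_lit 407) (nat_lit 5) (nat_lit 636) (nat_lit 606) (nat_lit 318))))) (XT.nd (nat_lit 234) (nat_lit 1672) (nat_lit 0) (XT.nd (nat_lit 78) (nat_lit 836) (nat_lit 0) (XT.lf (nat_lit 0) (nat_lit 10588764546) (nat_lit 912) (nat_lit 2140297458) (nat_lit 988) (nat_lit 18172030358) (nat_lit 394) (nat_lit 5) (nat_lit 406) (nat_lit 5) (nat_lit 407) (nat_lit 5) (nat_lit 637) (nat_lit 606) (nat_lit 317)) (XT.nd (nat_lit 78) (nat_lit 836) (nat_lit 0) (XT.lf (nat_lit 0) (nat_lit 15952433042) (nat_lit 988) (nat_lit 3792372886) (nat_lit 76) (nat_lit 11496099334) (nat_lit 394) (nat_lit 5) (nat_lit 407) (nat_lit 5) (nat_lit 395) (nat_lit 5) (nat_lit 638) (nat_lit 606) (nat_lit 316)) (XT.lf (nat_lit 0) (nat_lit 13215226734)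 (nat_lit 836) (nat_lit 6123044823) (nat_lit 912) (nat_lit 12247283140) (nat_lit 383) (nat_lit 5) (nat_lit 394) (nat_lit 5) (nat_lit 395) (nat_lit 5) (nat_lit 639) (nat_lit 606) (nat_lit 315)))) (XT.nd (nat_lit 156) (nat_lit 836) (nat_lit 0) (XT.nd (nat_lit 78) (nat_lit 836) (nat_lit 0) (XT.lf (nat_lit 0) (nat_lit 22865950442) (nat_lit 912) (nat_lit 1374754687) (nat_lit 76) (nat_lit 7694909795) (nat_lit 383) (nat_lit 5) (nat_lit 395) (nat_lit 5) (nat_lit 384) (nat_lit 5) (nat_lit 640) (nat_lit 606) (nat_lit 314)) (XT.lf (nat_lit 0) (nat_lit 16129836089) (nat_lit 836) (nat_lit 10477711369) (nat_lit 912) (nat_lit 5682261873) (nat_lit 372) (nat_lit 5) (nat_lit 383) (nat_lit 5) (nat_lit 384) (nat_lit 5) (nat_lit 641) (nat_lit 606) (nat_lit 313))) (XT.nd (nat_lit 78) (nat_lit 76) (nat_lit 0) (XT.lf (nat_lit 0) (nat_lit 1344794140) (nat_lit 760) (nat_lit 29118431728) (nat_lit 836) (nat_lit 2187077034) (nat_lit 362) (nat_lit 5) (nat_lit 372) (nat_lit 5) (nat_lit 373) (nat_lit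 5) (nat_lit 642) (nat_lit 606) (nat_lit 312)) (XT.lf (nat_lit 0) (nat_lit 1536613908) (nat_lit 836) (nat_lit 13678109736) (nat_lit 76) (nat_lit 17799570508) (nat_lit 361) (nat_lit 5) (nat_lit 372) (nat_lit 5) (nat_lit 362) (nat_lit 5) (nat_lit 643) (nat_lit 606) (nat_lit 311))))))) (XT.nd (nat_lit 78624) (nat_lit 0) (nat_lit 9652) (XT.nd (nat_lit 468) (nat_lit 760) (nat_lit 0) (XT.nd (nat_lit 234) (nat_lit 760) (nat_lit 0) (XT.nd (nat_lit 78) (nat_lit 760) (nat_lit 0) (XT.lf (nat_lit 0) (nat_lit 4342414815) (nat_lit 836) (nat_lit 989463215) (nat_lit 912) (nat_lit 28052870627) (nat_lit 350) (nat_lit 5) (nat_lit 361) (nat_lit 5) (nat_lit 362) (nat_lit 5) (nat_lit 644) (nat_lit 606) (nat_lit 310)) (XT.nd (nat_lit 78) (nat_lit 760) (nat_lit 0) (XT.lf (nat_lit 0) (nat_lit 9381411903) (nat_lit 912) (nat_lit 10942320607) (nat_lit 76) (nat_lit 13435312695) (nat_lit 350) (nat_lit 5) (nat_lit 362) (nat_lit 5) (nat_lit 351) (nat_lit 5) (nat_lit 645) (nat_lit 606) (nat_lit 309))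 (XT.lf (nat_lit 0) (nat_lit 7611084722) (nat_lit 760) (nat_lit 5955042755) (nat_lit 836) (nat_lit 20573616625) (nat_lit 340) (nat_lit 5) (nat_lit 350) (nat_lit 5) (nat_lit 351) (nat_lit 5) (nat_lit 646) (nat_lit 606) (nat_lit 308)))) (XT.nd (nat_lit 78) (nat_lit 760) (nat_lit 0) (XT.lf (nat_lit 0) (nat_lit 17963189307) (nat_lit 836) (nat_lit 7901581758) (nat_lit 76) (nat_lit 8660713108) (nat_lit 340) (nat_lit 5) (nat_lit 351) (nat_lit 5) (nat_lit 341) (nat_lit 5) (nat_lit 647) (nat_lit 606) (nat_lit 307)) (XT.nd (nat_lit 78) (nat_lit 0) (nat_lit 0) (XT.lf (nat_lit 0) (nat_lit 11203677044) (nat_lit 760) (nat_lit 11354972960) (nat_lit 836) (nat_lit 12358080117) (nat_lit 330) (nat_lit 5) (nat_lit 340) (nat_lit 5) (nat_lit 341) (nat_lit 5) (nat_lit 648) (nat_lit 606) (nat_lit 306)) (XT.lf (nat_lit 0) (nat_lit 27320061541) (nat_lit 836) (nat_lit 4541192228) (nat_lit 76) (nat_lit 3453066611) (nat_lit 330) (nat_lit 5) (nat_lit 341) (nat_lit 5) (nat_lit 331) (nat_lit 5) (nat_lit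 649) (nat_lit 606) (nat_lit 305))))) (XT.nd (nat_lit 77922) (nat_lit 0) (nat_lit 11172) (XT.nd (nat_lit 78) (nat_lit 76) (nat_lit 0) (XT.lf (nat_lit 0) (nat_lit 15135567694) (nat_lit 684) (nat_lit 17212934940) (nat_lit 760) (nat_lit 3367924003) (nat_lit 321) (nat_lit 5) (nat_lit 330) (nat_lit 5) (nat_lit 331) (nat_lit 5) (nat_lit 650) (nat_lit 606) (nat_lit 304)) (XT.nd (nat_lit 77766) (nat_lit 0) (nat_lit 11172) (XT.lf (nat_lit 0) (nat_lit 1362237702) (nat_lit 760) (nat_lit 869374109) (nat_lit 76) (nat_lit 33894207638) (nat_lit 320) (nat_lit 5) (nat_lit 330) (nat_lit 5) (nat_lit 321) (nat_lit 5) (nat_lit 651) (nat_lit 606) (nat_lit 303)) (XT.lf (nat_lit 0) (nat_lit 4632269844) (nat_lit 0) (nat_lit 4632269844) (nat_lit 1748) (nat_lit 2161120574) (nat_lit 467) (nat_lit 5) (nat_lit 467) (nat_lit 3) (nat_lit 490) (nat_lit 3) (nat_lit 607) (nat_lit 607) (nat_lit 346)))) (XT.nd (nat_lit 78) (nat_lit 0) (nat_lit 0) (XT.lf (nat_lit 0) (nat_lit 18851934655) (nat_lit 1748) (nat_lit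 2401396957) (nat_lit 1824) (nat_lit 1823731160) (nat_lit 467) (nat_lit 5) (nat_lit 490) (nat_lit 3) (nat_lit 491) (nat_lit 5) (nat_lit 608) (nat_lit 607) (nat_lit 345)) (XT.nd (nat_lit 78) (nat_lit 0) (nat_lit 76) (XT.lf (nat_lit 76) (nat_lit 9063485368) (nat_lit 0) (nat_lit 10234679440) (nat_lit 1824) (nat_lit 4006817216) (nat_lit 468) (nat_lit 5) (nat_lit 467) (nat_lit 5) (nat_lit 491) (nat_lit 5) (nat_lit 609) (nat_lit 607) (nat_lit 344)) (XT.lf (nat_lit 0) (nat_lit 19772841949) (nat_lit 1748) (nat_lit 2755335571) (nat_lit 1824) (nat_lit 1008892199) (nat_lit 468) (nat_lit 5) (nat_lit 491) (nat_lit 5) (nat_lit 492) (nat_lit 5) (nat_lit 610) (nat_lit 607) (nat_lit 343)))))) (XT.nd (nat_lit 468) (nat_lit 1596) (nat_lit 0) (XT.nd (nat_lit 234) (nat_lit 0) (nat_lit 76) (XT.nd (nat_lit 78) (nat_lit 0) (nat_lit 76) (XT.lf (nat_lit 76) (nat_lit 9009173871) (nat_lit 0) (nat_lit 11370954907) (nat_lit 1824) (nat_lit 3391208562) (nat_lit 469) (nat_lit 5) (nat_lit 468) (nat_lit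 5) (nat_lit 492) (nat_lit 5) (nat_lit 611) (nat_lit 607) (nat_lit 342)) (XT.nd (nat_lit 78) (nat_lit 0) (nat_lit 0) (XT.lf (nat_lit 0) (nat_lit 21015137395) (nat_lit 1748) (nat_lit 2965593683) (nat_lit 1824) (nat_lit 29248201) (nat_lit 469) (nat_lit 5) (nat_lit 492) (nat_lit 5) (nat_lit 493) (nat_lit 5) (nat_lit 612) (nat_lit 607) (nat_lit 341)) (XT.lf (nat_lit 76) (nat_lit 9109296350) (nat_lit 0) (nat_lit 12684961233) (nat_lit 1824) (nat_lit 2456508723) (nat_lit 470) (nat_lit 5) (nat_lit 469) (nat_lit 5) (nat_lit 493) (nat_lit 5) (nat_lit 613) (nat_lit 607) (nat_lit 340)))) (XT.nd (nat_lit 78) (nat_lit 0) (nat_lit 76) (XT.lf (nat_lit 76) (nat_lit 21464118408) (nat_lit 0) (nat_lit 1141754010) (nat_lit 1824) (nat_lit 1890158878) (nat_lit 470) (nat_lit 5) (nat_lit 469) (nat_lit 5) (nat_lit 493) (nat_lit 5) (nat_lit 614) (nat_lit 607) (nat_lit 339)) (XT.nd (nat_lit 78) (nat_lit 0) (nat_lit 0) (XT.lf (nat_lit 76) (nat_lit 9371920273) (nat_lit 0) (nat_lit 14188757988) (nat_lit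 1824) (nat_lit 1182984608) (nat_lit 471) (nat_lit 5) (nat_lit 470) (nat_lit 5) (nat_lit 494) (nat_lit 5) (nat_lit 615) (nat_lit 607) (nat_lit 338)) (XT.lf (nat_lit 76) (nat_lit 22055481119) (nat_lit 0) (nat_lit 2504080006) (nat_lit 1824) (nat_lit 436186780) (nat_lit 471) (nat_lit 5) (nat_lit 470) (nat_lit 5) (nat_lit 494) (nat_lit 5) (nat_lit 616) (nat_lit 607) (nat_lit 337))))) (XT.nd (nat_lit 234) (nat_lit 0) (nat_lit 76) (XT.nd (nat_lit 78) (nat_lit 0) (nat_lit 0) (XT.lf (nat_lit 0) (nat_lit 444059361) (nat_lit 1824) (nat_lit 15447855763) (nat_lit 1900) (nat_lit 9358462037) (nat_lit 447) (nat_lit 5) (nat_lit 471) (nat_lit 5) (nat_lit 472) (nat_lit 5) (nat_lit 617) (nat_lit 607) (nat_lit 336)) (XT.nd (nat_lit 78) (nat_lit 0) (nat_lit 76) (XT.lf (nat_lit 0) (nat_lit 1369731724) (nat_lit 1824) (nat_lit 2691125481) (nat_lit 1900) (nat_lit 21448511319) (nat_lit 447) (nat_lit 5) (nat_lit 471) (nat_lit 5) (nat_lit 472) (nat_lit 5) (nat_lit 618) (nat_lit 607) (nat_lit 335))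 (XT.lf (nat_lit 0) (nat_lit 2431512828) (nat_lit 1824) (nat_lit 15368609467) (nat_lit 1900) (nat_lit 7971065929) (nat_lit 448) (nat_lit 5) (nat_lit 472) (nat_lit 5) (nat_lit 473) (nat_lit 5) (nat_lit 619) (nat_lit 607) (nat_lit 334)))) (XT.nd (nat_lit 156) (nat_lit 0) (nat_lit 76) (XT.nd (nat_lit 78) (nat_lit 0) (nat_lit 76) (XT.lf (nat_lit 0) (nat_lit 3556915258) (nat_lit 1824) (nat_lit 2272111872) (nat_lit 1900) (nat_lit 20208369880) (nat_lit 448) (nat_lit 5) (nat_lit 472) (nat_lit 5) (nat_lit 473) (nat_lit 5) (nat_lit 620) (nat_lit 607) (nat_lit 333)) (XT.lf (nat_lit 0) (nat_lit 4817038003) (nat_lit 1824) (nat_lit 15117638543) (nat_lit 1900) (nat_lit 6372009580) (nat_lit 449) (nat_lit 5) (nat_lit 473) (nat_lit 5) (nat_lit 474) (nat_lit 5) (nat_lit 621) (nat_lit 607) (nat_lit 332))) (XT.nd (nat_lit 78) (nat_lit 0) (nat_lit 76) (XT.lf (nat_lit 0) (nat_lit 6153725927) (nat_lit 1824) (nat_lit 1671391743) (nat_lit 1900) (nat_lit 18755216490) (nat_lit 449) (nat_lit 5) (nat_lit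 473) (nat_lit 5) (nat_lit 474) (nat_lit 5) (nat_lit 622) (nat_lit 607) (nat_lit 331)) (XT.lf (nat_lit 0) (nat_lit 7623752789) (nat_lit 1824) (nat_lit 14685854432) (nat_lit 1900) (nat_lit 4547716215) (nat_lit 450) (nat_lit 5) (nat_lit 474) (nat_lit 5) (nat_lit 475) (nat_lit 5) (nat_lit 623) (nat_lit 607) (nat_lit 330))))))))
noncomputable def xc242 : XT := (XT.nd (nat_lit 1950) (nat_lit 1444) (nat_lit 0) (XT.nd (nat_lit 936) (nat_lit 5928) (nat_lit 0) (XT.nd (nat_lit 468) (nat_lit 2432) (nat_lit 0) (XT.nd (nat_lit 234) (nat_lit 0) (nat_lit 152) (XT.nd (nat_lit 78) (nat_lit 0) (nat_lit 76) (XT.lf (nat_lit 0) (nat_lit 9183797400) (nat_lit 1824) (nat_lit 879548790) (nat_lit 1900) (nat_lit 17075294337) (nat_lit 450) (nat_lit 5) (nat_lit 474) (nat_lit 5) (nat_lit 475) (nat_lit 5) (nat_lit 624) (nat_lit 607) (nat_lit 329)) (XT.nd (nat_lit 78) (nat_lit 0) (nat_lit 0) (XT.lf (nat_lit 0) (nat_lit 10875788199) (nat_lit 1824) (nat_lit 14063751442) (nat_lit 1900) (nat_lit 2484029783)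 (nat_lit 451) (nat_lit 5) (nat_lit 475) (nat_lit 5) (nat_lit 476) (nat_lit 5) (nat_lit 625) (nat_lit 607) (nat_lit 328)) (XT.lf (nat_lit 76) (nat_lit 114765944) (nat_lit 0) (nat_lit 12557777962) (nat_lit 1900) (nat_lit 15040234852) (nat_lit 452) (nat_lit 5) (nat_lit 451) (nat_lit 5) (nat_lit 476) (nat_lit 5) (nat_lit 626) (nat_lit 607) (nat_lit 327)))) (XT.nd (nat_lit 78) (nat_lit 0) (nat_lit 0) (XT.lf (nat_lit 0) (nat_lit 14598332289) (nat_lit 1824) (nat_lit 13241393250) (nat_lit 1900) (nat_lit 166185142) (nat_lit 452) (nat_lit 5) (nat_lit 476) (nat_lit 5) (nat_lit 477) (nat_lit 5) (nat_lit 627) (nat_lit 607) (nat_lit 326)) (XT.nd (nat_lit 78) (nat_lit 0) (nat_lit 0) (XT.lf (nat_lit 76) (nat_lit 1334828574) (nat_lit 0) (nat_lit 15317317362) (nat_lit 1900) (nat_lit 11650969463) (nat_lit 453) (nat_lit 5) (nat_lit 452) (nat_lit 5) (nat_lit 477) (nat_lit 5) (nat_lit 628) (nat_lit 607) (nat_lit 325)) (XT.lf (nat_lit 76) (nat_lit 16380205171) (nat_lit 0) (nat_lit 2453399653)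 (nat_lit 1900) (nat_lit 9770928351) (nat_lit 453) (nat_lit 5) (nat_lit 452) (nat_lit 5) (nat_lit 477) (nat_lit 5) (nat_lit 629) (nat_lit 607) (nat_lit 324))))) (XT.nd (nat_lit 234) (nat_lit 1064) (nat_lit 0) (XT.nd (nat_lit 78) (nat_lit 1596) (nat_lit 0) (XT.lf (nat_lit 76) (nat_lit 2779833932) (nat_lit 0) (nat_lit 18363929720) (nat_lit 1900) (nat_lit 7766514571) (nat_lit 454) (nat_lit 5) (nat_lit 453) (nat_lit 5) (nat_lit 478) (nat_lit 5) (nat_lit 630) (nat_lit 607) (nat_lit 323)) (XT.nd (nat_lit 78) (nat_lit 1596) (nat_lit 0) (XT.lf (nat_lit 76) (nat_lit 18231460128) (nat_lit 0) (nat_lit 5364629670) (nat_lit 1900) (nat_lit 5624129418) (nat_lit 454) (nat_lit 5) (nat_lit 453) (nat_lit 5) (nat_lit 478) (nat_lit 5) (nat_lit 631) (nat_lit 607) (nat_lit 322)) (XT.lf (nat_lit 0) (nat_lit 4461142412) (nat_lit 1672) (nat_lit 21714379299) (nat_lit 1748) (nat_lit 3359276455) (nat_lit 432) (nat_lit 5) (nat_lit 454) (nat_lit 5) (nat_lit 455) (nat_lit 5) (nat_lit 632) (nat_lit 607)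 (nat_lit 321)))) (XT.nd (nat_lit 78) (nat_lit 1064) (nat_lit 0) (XT.lf (nat_lit 0) (nat_lit 20331141528) (nat_lit 1672) (nat_lit 8582302264) (nat_lit 1748) (nat_lit 940087187) (nat_lit 432) (nat_lit 5) (nat_lit 454) (nat_lit 5) (nat_lit 455) (nat_lit 5) (nat_lit 633) (nat_lit 607) (nat_lit 320)) (XT.nd (nat_lit 78) (nat_lit 0) (nat_lit 0) (XT.lf (nat_lit 0) (nat_lit 1578568764) (nat_lit 1064) (nat_lit 23797004296) (nat_lit 76) (nat_lit 4801445017) (nat_lit 418) (nat_lit 5) (nat_lit 432) (nat_lit 5) (nat_lit 419) (nat_lit 5) (nat_lit 634) (nat_lit 607) (nat_lit 319)) (XT.lf (nat_lit 0) (nat_lit 4254107819) (nat_lit 1064) (nat_lit 7841518221) (nat_lit 76) (nat_lit 18408842940) (nat_lit 418) (nat_lit 5) (nat_lit 432) (nat_lit 5) (nat_lit 419) (nat_lit 5) (nat_lit 635) (nat_lit 607) (nat_lit 318)))))) (XT.nd (nat_lit 468) (nat_lit 3268) (nat_lit 0) (XT.nd (nat_lit 234) (nat_lit 836) (nat_lit 0) (XT.nd (nat_lit 78) (nat_lit 912) (nat_lit 0) (XT.lf (nat_lit 0) (nat_lit 7046375513)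 (nat_lit 988) (nat_lit 22303901323) (nat_lit 76) (nat_lit 1486927998) (nat_lit 406) (nat_lit 5) (nat_lit 419) (nat_lit 5) (nat_lit 407) (nat_lit 5) (nat_lit 636) (nat_lit 607) (nat_lit 317)) (XT.nd (nat_lit 78) (nat_lit 912) (nat_lit 0) (XT.lf (nat_lit 0) (nat_lit 10025557143) (nat_lit 988) (nat_lit 5915951502) (nat_lit 76) (nat_lit 15232465674) (nat_lit 406) (nat_lit 5) (nat_lit 419) (nat_lit 5) (nat_lit 407) (nat_lit 5) (nat_lit 637) (nat_lit 607) (nat_lit 316)) (XT.lf (nat_lit 0) (nat_lit 10941420653) (nat_lit 912) (nat_lit 2191975909) (nat_lit 988) (nat_lit 18382701427) (nat_lit 394) (nat_lit 5) (nat_lit 406) (nat_lit 5) (nat_lit 407) (nat_lit 5) (nat_lit 638) (nat_lit 607) (nat_lit 315)))) (XT.nd (nat_lit 78) (nat_lit 836) (nat_lit 0) (XT.lf (nat_lit 0) (nat_lit 16418242205) (nat_lit 988) (nat_lit 3727088341) (nat_lit 76) (nat_lit 11717436872) (nat_lit 394) (nat_lit 5) (nat_lit 407) (nat_lit 5) (nat_lit 395) (nat_lit 5) (nat_lit 639) (nat_lit 607) (nat_lit 314))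 (XT.nd (nat_lit 78) (nat_lit 0) (nat_lit 0) (XT.lf (nat_lit 0) (nat_lit 13619734771) (nat_lit 836) (nat_lit 6250095357) (nat_lit 912) (nat_lit 12344519468) (nat_lit 383) (nat_lit 5) (nat_lit 394) (nat_lit 5) (nat_lit 395) (nat_lit 5) (nat_lit 640) (nat_lit 607) (nat_lit 313)) (XT.lf (nat_lit 0) (nat_lit 23465194294) (nat_lit 912) (nat_lit 1261907137) (nat_lit 76) (nat_lit 7844367361) (nat_lit 383) (nat_lit 5) (nat_lit 395) (nat_lit 5) (nat_lit 384) (nat_lit 5) (nat_lit 641) (nat_lit 607) (nat_lit 312))))) (XT.nd (nat_lit 234) (nat_lit 1596) (nat_lit 0) (XT.nd (nat_lit 78) (nat_lit 836) (nat_lit 0) (XT.lf (nat_lit 0) (nat_lit 16591852148) (nat_lit 836) (nat_lit 10687893466) (nat_lit 912) (nat_lit 5653039417) (nat_lit 372) (nat_lit 5) (nat_lit 383) (nat_lit 5) (nat_lit 384) (nat_lit 5) (nat_lit 642) (nat_lit 607) (nat_lit 311)) (XT.nd (nat_lit 78) (nat_lit 76) (nat_lit 0) (XT.lf (nat_lit 0) (nat_lit 1512998109) (nat_lit 760) (nat_lit 29697706929) (nat_lit 836) (nat_lit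 2089820470) (nat_lit 362) (nat_lit 5) (nat_lit 372) (nat_lit 5) (nat_lit 373) (nat_lit 5) (nat_lit 643) (nat_lit 607) (nat_lit 310)) (XT.lf (nat_lit 0) (nat_lit 1703766665) (nat_lit 836) (nat_lit 13811303220) (nat_lit 76) (nat_lit 18156763324) (nat_lit 361) (nat_lit 5) (nat_lit 372) (nat_lit 5) (nat_lit 362) (nat_lit 5) (nat_lit 644) (nat_lit 607) (nat_lit 309)))) (XT.nd (nat_lit 156) (nat_lit 760) (nat_lit 0) (XT.nd (nat_lit 78) (nat_lit 0) (nat_lit 0) (XT.lf (nat_lit 0) (nat_lit 4568708344) (nat_lit 836) (nat_lit 1004458185) (nat_lit 912) (nat_lit 28476566027) (nat_lit 350) (nat_lit 5) (nat_lit 361) (nat_lit 5) (nat_lit 362) (nat_lit 5) (nat_lit 645) (nat_lit 607) (nat_lit 308)) (XT.lf (nat_lit 0) (nat_lit 9701081383) (nat_lit 912) (nat_lit 11021828609) (nat_lit 76) (nat_lit 13708657592) (nat_lit 350) (nat_lit 5) (nat_lit 362) (nat_lit 5) (nat_lit 351) (nat_lit 5) (nat_lit 646) (nat_lit 607) (nat_lit 307))) (XT.nd (nat_lit 78) (nat_lit 0) (nat_lit 0) (XT.lf (nat_lit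 0) (nat_lit 7901728126) (nat_lit 760) (nat_lit 6066072824) (nat_lit 836) (nat_lit 20852113662) (nat_lit 340) (nat_lit 5) (nat_lit 350) (nat_lit 5) (nat_lit 351) (nat_lit 5) (nat_lit 647) (nat_lit 607) (nat_lit 306)) (XT.lf (nat_lit 0) (nat_lit 18450299489) (nat_lit 836) (nat_lit 7921384294) (nat_lit 76) (nat_lit 8841736131) (nat_lit 340) (nat_lit 5) (nat_lit 351) (nat_lit 5) (nat_lit 341) (nat_lit 5) (nat_lit 648) (nat_lit 607) (nat_lit 305))))))) (XT.nd (nat_lit 78702) (nat_lit 0) (nat_lit 9576) (XT.nd (nat_lit 78234) (nat_lit 0) (nat_lit 11172) (XT.nd (nat_lit 78000) (nat_lit 0) (nat_lit 11096) (XT.nd (nat_lit 78) (nat_lit 684) (nat_lit 0) (XT.lf (nat_lit 0) (nat_lit 11565070282) (nat_lit 760) (nat_lit 11570983897) (nat_lit 836) (nat_lit 12476469241) (nat_lit 330) (nat_lit 5) (nat_lit 340) (nat_lit 5) (nat_lit 341) (nat_lit 5) (nat_lit 649) (nat_lit 607) (nat_lit 304)) (XT.nd (nat_lit 78) (nat_lit 684) (nat_lit 0) (XT.lf (nat_lit 0) (nat_lit 27990289408) (nat_lit 836)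 (nat_lit 4494968027) (nat_lit 76) (nat_lit 3532856467) (nat_lit 330) (nat_lit 5) (nat_lit 341) (nat_lit 5) (nat_lit 331) (nat_lit 5) (nat_lit 650) (nat_lit 607) (nat_lit 303)) (XT.lf (nat_lit 0) (nat_lit 15574425462) (nat_lit 684) (nat_lit 17543329842) (nat_lit 760) (nat_lit 3310538183) (nat_lit 321) (nat_lit 5) (nat_lit 330) (nat_lit 5) (nat_lit 331) (nat_lit 5) (nat_lit 651) (nat_lit 607) (nat_lit 302)))) (XT.nd (nat_lit 78) (nat_lit 0) (nat_lit 0) (XT.lf (nat_lit 0) (nat_lit 4787290737) (nat_lit 0) (nat_lit 4787290737) (nat_lit 1748) (nat_lit 2077077431) (nat_lit 467) (nat_lit 5) (nat_lit 467) (nat_lit 3) (nat_lit 490) (nat_lit 3) (nat_lit 608) (nat_lit 608) (nat_lit 344)) (XT.nd (nat_lit 78) (nat_lit 0) (nat_lit 0) (XT.lf (nat_lit 0) (nat_lit 19472789054) (nat_lit 1748) (nat_lit 2321395404) (nat_lit 1824) (nat_lit 1739504939) (nat_lit 467) (nat_lit 5) (nat_lit 490) (nat_lit 3) (nat_lit 491) (nat_lit 5) (nat_lit 609) (nat_lit 608) (nat_lit 343)) (XT.lf (nat_lit 76)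 (nat_lit 9371942269) (nat_lit 0) (nat_lit 10552046625) (nat_lit 1824) (nat_lit 3842257989) (nat_lit 468) (nat_lit 5) (nat_lit 467) (nat_lit 5) (nat_lit 491) (nat_lit 5) (nat_lit 610) (nat_lit 608) (nat_lit 342))))) (XT.nd (nat_lit 234) (nat_lit 0) (nat_lit 76) (XT.nd (nat_lit 78) (nat_lit 0) (nat_lit 0) (XT.lf (nat_lit 0) (nat_lit 20402739217) (nat_lit 1748) (nat_lit 2680291766) (nat_lit 1824) (nat_lit 920054493) (nat_lit 468) (nat_lit 5) (nat_lit 491) (nat_lit 5) (nat_lit 492) (nat_lit 5) (nat_lit 611) (nat_lit 608) (nat_lit 341)) (XT.nd (nat_lit 78) (nat_lit 0) (nat_lit 0) (XT.lf (nat_lit 76) (nat_lit 9318651612) (nat_lit 0) (nat_lit 11699762764) (nat_lit 1824) (nat_lit 3223699944) (nat_lit 469) (nat_lit 5) (nat_lit 468) (nat_lit 5) (nat_lit 492) (nat_lit 5) (nat_lit 612) (nat_lit 608) (nat_lit 340)) (XT.lf (nat_lit 76) (nat_lit 21592232587) (nat_lit 0) (nat_lit 69171111) (nat_lit 1824) (nat_lit 2824220498) (nat_lit 469) (nat_lit 5) (nat_lit 468) (nat_lit 5) (nat_lit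 492) (nat_lit 5) (nat_lit 613) (nat_lit 608) (nat_lit 339)))) (XT.nd (nat_lit 78) (nat_lit 0) (nat_lit 0) (XT.lf (nat_lit 76) (nat_lit 9422577152) (nat_lit 0) (nat_lit 13029509336) (nat_lit 1824) (nat_lit 2279221565) (nat_lit 470) (nat_lit 5) (nat_lit 469) (nat_lit 5) (nat_lit 493) (nat_lit 5) (nat_lit 614) (nat_lit 608) (nat_lit 338)) (XT.nd (nat_lit 78) (nat_lit 0) (nat_lit 76) (XT.lf (nat_lit 76) (nat_lit 22021925163) (nat_lit 0) (nat_lit 1253656618) (nat_lit 1824) (nat_lit 1705984278) (nat_lit 470) (nat_lit 5) (nat_lit 469) (nat_lit 5) (nat_lit 493) (nat_lit 5) (nat_lit 615) (nat_lit 608) (nat_lit 337)) (XT.lf (nat_lit 76) (nat_lit 9691969000) (nat_lit 0) (nat_lit 14553542280) (nat_lit 1824) (nat_lit 988719100) (nat_lit 471) (nat_lit 5) (nat_lit 470) (nat_lit 5) (nat_lit 494) (nat_lit 5) (nat_lit 616) (nat_lit 608) (nat_lit 336)))))) (XT.nd (nat_lit 468) (nat_lit 0) (nat_lit 152) (XT.nd (nat_lit 234) (nat_lit 0) (nat_lit 76) (XT.nd (nat_lit 78) (nat_lit 1748) (nat_lit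 0) (XT.lf (nat_lit 76) (nat_lit 22626600861) (nat_lit 0) (nat_lit 2633582324) (nat_lit 1824) (nat_lit 231258358) (nat_lit 471) (nat_lit 5) (nat_lit 470) (nat_lit 5) (nat_lit 494) (nat_lit 5) (nat_lit 617) (nat_lit 608) (nat_lit 335)) (XT.nd (nat_lit 78) (nat_lit 0) (nat_lit 0) (XT.lf (nat_lit 0) (nat_lit 660022282) (nat_lit 1824) (nat_lit 15620168840) (nat_lit 1900) (nat_lit 9471020514) (nat_lit 447) (nat_lit 5) (nat_lit 471) (nat_lit 5) (nat_lit 472) (nat_lit 5) (nat_lit 618) (nat_lit 608) (nat_lit 334)) (XT.lf (nat_lit 0) (nat_lit 1600147666) (nat_lit 1824) (nat_lit 2610983248) (nat_lit 1900) (nat_lit 21804333737) (nat_lit 447) (nat_lit 5) (nat_lit 471) (nat_lit 5) (nat_lit 472) (nat_lit 5) (nat_lit 619) (nat_lit 608) (nat_lit 333)))) (XT.nd (nat_lit 78) (nat_lit 0) (nat_lit 0) (XT.lf (nat_lit 0) (nat_lit 2679613801) (nat_lit 1824) (nat_lit 15538436108) (nat_lit 1900) (nat_lit 8064542451) (nat_lit 448) (nat_lit 5) (nat_lit 472) (nat_lit 5) (nat_lit 473) (nat_lit 5)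 (nat_lit 620) (nat_lit 608) (nat_lit 332)) (XT.nd (nat_lit 78) (nat_lit 0) (nat_lit 76) (XT.lf (nat_lit 0) (nat_lit 3823613089) (nat_lit 1824) (nat_lit 2182705533) (nat_lit 1900) (nat_lit 20547885517) (nat_lit 448) (nat_lit 5) (nat_lit 472) (nat_lit 5) (nat_lit 473) (nat_lit 5) (nat_lit 621) (nat_lit 608) (nat_lit 331)) (XT.lf (nat_lit 0) (nat_lit 5105592868) (nat_lit 1824) (nat_lit 15281768277) (nat_lit 1900) (nat_lit 6441585382) (nat_lit 449) (nat_lit 5) (nat_lit 473) (nat_lit 5) (nat_lit 474) (nat_lit 5) (nat_lit 622) (nat_lit 608) (nat_lit 330))))) (XT.nd (nat_lit 234) (nat_lit 0) (nat_lit 152) (XT.nd (nat_lit 78) (nat_lit 0) (nat_lit 76) (XT.lf (nat_lit 0) (nat_lit 6465245647) (nat_lit 1824) (nat_lit 1569306797) (nat_lit 1900) (nat_lit 19073591026) (nat_lit 449) (nat_lit 5) (nat_lit 473) (nat_lit 5) (nat_lit 474) (nat_lit 5) (nat_lit 623) (nat_lit 608) (nat_lit 329)) (XT.nd (nat_lit 78) (nat_lit 0) (nat_lit 0) (XT.lf (nat_lit 0) (nat_lit 7961520947) (nat_lit 1824)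 (nat_lit 14840878728) (nat_lit 1900) (nat_lit 4588336455) (nat_lit 450) (nat_lit 5) (nat_lit 474) (nat_lit 5) (nat_lit 475) (nat_lit 5) (nat_lit 624) (nat_lit 608) (nat_lit 328)) (XT.lf (nat_lit 0) (nat_lit 9549133252) (nat_lit 1824) (nat_lit 761166440) (nat_lit 1900) (nat_lit 17367453082) (nat_lit 450) (nat_lit 5) (nat_lit 474) (nat_lit 5) (nat_lit 475) (nat_lit 5) (nat_lit 625) (nat_lit 608) (nat_lit 327)))) (XT.nd (nat_lit 156) (nat_lit 0) (nat_lit 76) (XT.nd (nat_lit 78) (nat_lit 0) (nat_lit 0) (XT.lf (nat_lit 0) (nat_lit 11271993925) (nat_lit 1824) (nat_lit 14206056376) (nat_lit 1900) (nat_lit 2490389883) (nat_lit 451) (nat_lit 5) (nat_lit 475) (nat_lit 5) (nat_lit 476) (nat_lit 5) (nat_lit 626) (nat_lit 608) (nat_lit 326)) (XT.lf (nat_lit 76) (nat_lit 255117081) (nat_lit 0) (nat_lit 12846960291) (nat_lit 1900) (nat_lit 15161409007) (nat_lit 452) (nat_lit 5) (nat_lit 451) (nat_lit 5) (nat_lit 476) (nat_lit 5) (nat_lit 627) (nat_lit 608) (nat_lit 325))) (XT.nd (nat_lit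 78) (nat_lit 0) (nat_lit 0) (XT.lf (nat_lit 0) (nat_lit 15062686869) (nat_lit 1824) (nat_lit 13367151833) (nat_lit 1900) (nat_lit 132716647) (nat_lit 452) (nat_lit 5) (nat_lit 476) (nat_lit 5) (nat_lit 477) (nat_lit 5) (nat_lit 628) (nat_lit 608) (nat_lit 324)) (XT.lf (nat_lit 76) (nat_lit 1499679498) (nat_lit 0) (nat_lit 15655414126) (nat_lit 1900) (nat_lit 11710660708) (nat_lit 453) (nat_lit 5) (nat_lit 452) (nat_lit 5) (nat_lit 477) (nat_lit 5) (nat_lit 629) (nat_lit 608) (nat_lit 323))))))))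
noncomputable def xc243 : XT := (XT.nd (nat_lit 79872) (nat_lit 0) (nat_lit 6688) (XT.nd (nat_lit 936) (nat_lit 4028) (nat_lit 0) (XT.nd (nat_lit 468) (nat_lit 2660) (nat_lit 0) (XT.nd (nat_lit 234) (nat_lit 2584) (nat_lit 0) (XT.nd (nat_lit 78) (nat_lit 0) (nat_lit 76) (XT.lf (nat_lit 76) (nat_lit 16843254717) (nat_lit 0) (nat_lit 2533595505) (nat_lit 1900) (nat_lit 9796417364) (nat_lit 453) (nat_lit 5) (nat_lit 452) (nat_lit 5) (nat_lit 477) (nat_lit 5) (nat_lit 630) (nat_lit 608) (nat_lit 322)) (XT.nd (nat_lit 78) (nat_lit 0) (nat_lit 0) (XT.lf (nat_lit 76) (nat_lit 2973519909) (nat_lit 0) (nat_lit 18757124603) (nat_lit 1900) (nat_lit 7754534865) (nat_lit 454) (nat_lit 5) (nat_lit 453) (nat_lit 5) (nat_lit 478) (nat_lit 5) (nat_lit 631) (nat_lit 608) (nat_lit 321)) (XT.lf (nat_lit 76) (nat_lit 18731470996) (nat_lit 0) (nat_lit 5497330390) (nat_lit 1900) (nat_lit 5572582597) (nat_lit 454) (nat_lit 5) (nat_lit 453) (nat_lit 5) (nat_lit 478) (nat_lit 5) (nat_lit 632)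 (nat_lit 608) (nat_lit 320)))) (XT.nd (nat_lit 78) (nat_lit 1064) (nat_lit 0) (XT.lf (nat_lit 0) (nat_lit 4688238443) (nat_lit 1672) (nat_lit 22169164185) (nat_lit 1748) (nat_lit 3264900736) (nat_lit 432) (nat_lit 5) (nat_lit 454) (nat_lit 5) (nat_lit 455) (nat_lit 5) (nat_lit 633) (nat_lit 608) (nat_lit 319)) (XT.nd (nat_lit 78) (nat_lit 1064) (nat_lit 0) (XT.lf (nat_lit 0) (nat_lit 20872934145) (nat_lit 1672) (nat_lit 8774043701) (nat_lit 1748) (nat_lit 800495550) (nat_lit 432) (nat_lit 5) (nat_lit 454) (nat_lit 5) (nat_lit 455) (nat_lit 5) (nat_lit 634) (nat_lit 608) (nat_lit 318)) (XT.lf (nat_lit 0) (nat_lit 1764161149) (nat_lit 1064) (nat_lit 24133357768) (nat_lit 76) (nat_lit 4879937093) (nat_lit 418) (nat_lit 5) (nat_lit 432) (nat_lit 5) (nat_lit 419) (nat_lit 5) (nat_lit 635) (nat_lit 608) (nat_lit 317))))) (XT.nd (nat_lit 234) (nat_lit 1748) (nat_lit 0) (XT.nd (nat_lit 78) (nat_lit 912) (nat_lit 0) (XT.lf (nat_lit 0) (nat_lit 4490190966) (nat_lit 1064) (nat_lit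 7861498964) (nat_lit 76) (nat_lit 18759826833) (nat_lit 418) (nat_lit 5) (nat_lit 432) (nat_lit 5) (nat_lit 419) (nat_lit 5) (nat_lit 636) (nat_lit 608) (nat_lit 316)) (XT.nd (nat_lit 78) (nat_lit 0) (nat_lit 0) (XT.lf (nat_lit 0) (nat_lit 7336141650) (nat_lit 988) (nat_lit 22610946211) (nat_lit 76) (nat_lit 1503863144) (nat_lit 406) (nat_lit 5) (nat_lit 419) (nat_lit 5) (nat_lit 407) (nat_lit 5) (nat_lit 637) (nat_lit 608) (nat_lit 315)) (XT.lf (nat_lit 0) (nat_lit 10371988508) (nat_lit 988) (nat_lit 5897963533) (nat_lit 76) (nat_lit 15524562621) (nat_lit 406) (nat_lit 5) (nat_lit 419) (nat_lit 5) (nat_lit 407) (nat_lit 5) (nat_lit 638) (nat_lit 608) (nat_lit 314)))) (XT.nd (nat_lit 78) (nat_lit 836) (nat_lit 0) (XT.lf (nat_lit 0) (nat_lit 11295659309) (nat_lit 912) (nat_lit 2244343399) (nat_lit 988) (nat_lit 18603518144) (nat_lit 394) (nat_lit 5) (nat_lit 406) (nat_lit 5) (nat_lit 407) (nat_lit 5) (nat_lit 639) (nat_lit 608) (nat_lit 313)) (XT.nd (nat_lit 78) (nat_lit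 836) (nat_lit 0) (XT.lf (nat_lit 0) (nat_lit 16887668662) (nat_lit 988) (nat_lit 3665978432) (nat_lit 76) (nat_lit 11943534505) (nat_lit 394) (nat_lit 5) (nat_lit 407) (nat_lit 5) (nat_lit 395) (nat_lit 5) (nat_lit 640) (nat_lit 608) (nat_lit 312)) (XT.lf (nat_lit 0) (nat_lit 14026888696) (nat_lit 836) (nat_lit 6379508679) (nat_lit 912) (nat_lit 12449436257) (nat_lit 383) (nat_lit 5) (nat_lit 394) (nat_lit 5) (nat_lit 395) (nat_lit 5) (nat_lit 641) (nat_lit 608) (nat_lit 311)))))) (XT.nd (nat_lit 468) (nat_lit 1520) (nat_lit 0) (XT.nd (nat_lit 234) (nat_lit 912) (nat_lit 0) (XT.nd (nat_lit 78) (nat_lit 1596) (nat_lit 0) (XT.lf (nat_lit 0) (nat_lit 24070911909) (nat_lit 912) (nat_lit 1152252312) (nat_lit 76) (nat_lit 7996986513) (nat_lit 383) (nat_lit 5) (nat_lit 395) (nat_lit 5) (nat_lit 384) (nat_lit 5) (nat_lit 642) (nat_lit 608) (nat_lit 310)) (XT.nd (nat_lit 78) (nat_lit 760) (nat_lit 0) (XT.lf (nat_lit 0) (nat_lit 17057694705) (nat_lit 836) (nat_lit 10902254823)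 (nat_lit 912) (nat_lit 5628780239) (nat_lit 372) (nat_lit 5) (nat_lit 383) (nat_lit 5) (nat_lit 384) (nat_lit 5) (nat_lit 643) (nat_lit 608) (nat_lit 309)) (XT.lf (nat_lit 0) (nat_lit 1679078991) (nat_lit 760) (nat_lit 30288687755) (nat_lit 836) (nat_lit 1996093903) (nat_lit 362) (nat_lit 5) (nat_lit 372) (nat_lit 5) (nat_lit 373) (nat_lit 5) (nat_lit 644) (nat_lit 608) (nat_lit 308)))) (XT.nd (nat_lit 78) (nat_lit 836) (nat_lit 0) (XT.lf (nat_lit 0) (nat_lit 1868965105) (nat_lit 836) (nat_lit 13952611262) (nat_lit 76) (nat_lit 18521053345) (nat_lit 361) (nat_lit 5) (nat_lit 372) (nat_lit 5) (nat_lit 362) (nat_lit 5) (nat_lit 645) (nat_lit 608) (nat_lit 307)) (XT.nd (nat_lit 78) (nat_lit 0) (nat_lit 0) (XT.lf (nat_lit 0) (nat_lit 4794112915) (nat_lit 836) (nat_lit 1019939224) (nat_lit 912) (nat_lit 28914069269) (nat_lit 350) (nat_lit 5) (nat_lit 361) (nat_lit 5) (nat_lit 362) (nat_lit 5) (nat_lit 646) (nat_lit 608) (nat_lit 306)) (XT.lf (nat_lit 0) (nat_lit 10022016930)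 (nat_lit 912) (nat_lit 11108337451) (nat_lit 76) (nat_lit 13987289262) (nat_lit 350) (nat_lit 5) (nat_lit 362) (nat_lit 5) (nat_lit 351) (nat_lit 5) (nat_lit 647) (nat_lit 608) (nat_lit 305))))) (XT.nd (nat_lit 78156) (nat_lit 0) (nat_lit 10412) (XT.nd (nat_lit 78) (nat_lit 760) (nat_lit 0) (XT.lf (nat_lit 0) (nat_lit 8192809315) (nat_lit 760) (nat_lit 6179636893) (nat_lit 836) (nat_lit 21141344233) (nat_lit 340) (nat_lit 5) (nat_lit 350) (nat_lit 5) (nat_lit 351) (nat_lit 5) (nat_lit 648) (nat_lit 608) (nat_lit 304)) (XT.nd (nat_lit 78) (nat_lit 760) (nat_lit 0) (XT.lf (nat_lit 0) (nat_lit 18942187444) (nat_lit 836) (nat_lit 7946950486) (nat_lit 76) (nat_lit 9026076392) (nat_lit 340) (nat_lit 5) (nat_lit 351) (nat_lit 5) (nat_lit 341) (nat_lit 5) (nat_lit 649) (nat_lit 608) (nat_lit 303)) (XT.lf (nat_lit 0) (nat_lit 11928359094) (nat_lit 760) (nat_lit 11791745633) (nat_lit 836) (nat_lit 12602226540) (nat_lit 330) (nat_lit 5) (nat_lit 340) (nat_lit 5) (nat_lit 341) (nat_lit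 5) (nat_lit 650) (nat_lit 608) (nat_lit 302)))) (XT.nd (nat_lit 156) (nat_lit 0) (nat_lit 0) (XT.nd (nat_lit 78) (nat_lit 0) (nat_lit 0) (XT.lf (nat_lit 0) (nat_lit 4942989932) (nat_lit 0) (nat_lit 4942989932) (nat_lit 1748) (nat_lit 1996295302) (nat_lit 467) (nat_lit 5) (nat_lit 467) (nat_lit 3) (nat_lit 490) (nat_lit 3) (nat_lit 609) (nat_lit 609) (nat_lit 342)) (XT.lf (nat_lit 0) (nat_lit 20096592880) (nat_lit 1748) (nat_lit 2244765360) (nat_lit 1824) (nat_lit 1658281154) (nat_lit 467) (nat_lit 5) (nat_lit 490) (nat_lit 3) (nat_lit 491) (nat_lit 5) (nat_lit 610) (nat_lit 609) (nat_lit 341))) (XT.nd (nat_lit 78) (nat_lit 0) (nat_lit 76) (XT.lf (nat_lit 76) (nat_lit 9681629474) (nat_lit 0) (nat_lit 10871385900) (nat_lit 1824) (nat_lit 3683909405) (nat_lit 468) (nat_lit 5) (nat_lit 467) (nat_lit 5) (nat_lit 491) (nat_lit 5) (nat_lit 611) (nat_lit 609) (nat_lit 340)) (XT.lf (nat_lit 0) (nat_lit 21036130822) (nat_lit 1748) (nat_lit 2608800988) (nat_lit 1824) (nat_lit 833673239)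 (nat_lit 468) (nat_lit 5) (nat_lit 491) (nat_lit 5) (nat_lit 492) (nat_lit 5) (nat_lit 612) (nat_lit 609) (nat_lit 339))))))) (XT.nd (nat_lit 936) (nat_lit 2204) (nat_lit 0) (XT.nd (nat_lit 468) (nat_lit 1596) (nat_lit 0) (XT.nd (nat_lit 234) (nat_lit 0) (nat_lit 76) (XT.nd (nat_lit 78) (nat_lit 0) (nat_lit 0) (XT.lf (nat_lit 76) (nat_lit 9629298254) (nat_lit 0) (nat_lit 12031209729) (nat_lit 1824) (nat_lit 3061979412) (nat_lit 469) (nat_lit 5) (nat_lit 468) (nat_lit 5) (nat_lit 492) (nat_lit 5) (nat_lit 613) (nat_lit 609) (nat_lit 338)) (XT.nd (nat_lit 78) (nat_lit 0) (nat_lit 76) (XT.lf (nat_lit 76) (nat_lit 22145914110) (nat_lit 0) (nat_lit 166095424) (nat_lit 1824) (nat_lit 2658945564) (nat_lit 469) (nat_lit 5) (nat_lit 468) (nat_lit 5) (nat_lit 492) (nat_lit 5) (nat_lit 614) (nat_lit 609) (nat_lit 337)) (XT.lf (nat_lit 76) (nat_lit 9737032996) (nat_lit 0) (nat_lit 13377420627) (nat_lit 1824) (nat_lit 2107180724) (nat_lit 470) (nat_lit 5) (nat_lit 469) (nat_lit 5)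 (nat_lit 493) (nat_lit 5) (nat_lit 615) (nat_lit 609) (nat_lit 336)))) (XT.nd (nat_lit 78) (nat_lit 0) (nat_lit 76) (XT.lf (nat_lit 76) (nat_lit 22585897295) (nat_lit 0) (nat_lit 1364338677) (nat_lit 1824) (nat_lit 1526745854) (nat_lit 470) (nat_lit 5) (nat_lit 469) (nat_lit 5) (nat_lit 493) (nat_lit 5) (nat_lit 616) (nat_lit 609) (nat_lit 335)) (XT.nd (nat_lit 78) (nat_lit 0) (nat_lit 0) (XT.lf (nat_lit 76) (nat_lit 10013269281) (nat_lit 0) (nat_lit 14922476575) (nat_lit 1824) (nat_lit 799030583) (nat_lit 471) (nat_lit 5) (nat_lit 470) (nat_lit 5) (nat_lit 494) (nat_lit 5) (nat_lit 617) (nat_lit 609) (nat_lit 334)) (XT.lf (nat_lit 76) (nat_lit 23204094546) (nat_lit 0) (nat_lit 2762590685) (nat_lit 1824) (nat_lit 30527742) (nat_lit 471) (nat_lit 5) (nat_lit 470) (nat_lit 5) (nat_lit 494) (nat_lit 5) (nat_lit 618) (nat_lit 609) (nat_lit 333))))) (XT.nd (nat_lit 234) (nat_lit 0) (nat_lit 76) (XT.nd (nat_lit 78) (nat_lit 0) (nat_lit 0) (XT.lf (nat_lit 0) (nat_lit 872263226)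 (nat_lit 1824) (nat_lit 15801234233) (nat_lit 1900) (nat_lit 9588727387) (nat_lit 447) (nat_lit 5) (nat_lit 471) (nat_lit 5) (nat_lit 472) (nat_lit 5) (nat_lit 619) (nat_lit 609) (nat_lit 332)) (XT.nd (nat_lit 78) (nat_lit 0) (nat_lit 76) (XT.lf (nat_lit 0) (nat_lit 1827288363) (nat_lit 1824) (nat_lit 2534440184) (nat_lit 1900) (nat_lit 22170113023) (nat_lit 447) (nat_lit 5) (nat_lit 471) (nat_lit 5) (nat_lit 472) (nat_lit 5) (nat_lit 620) (nat_lit 609) (nat_lit 331)) (XT.lf (nat_lit 0) (nat_lit 2924931103) (nat_lit 1824) (nat_lit 15717000344) (nat_lit 1900) (nat_lit 8162449221) (nat_lit 448) (nat_lit 5) (nat_lit 472) (nat_lit 5) (nat_lit 473) (nat_lit 5) (nat_lit 621) (nat_lit 609) (nat_lit 330)))) (XT.nd (nat_lit 78) (nat_lit 0) (nat_lit 76) (XT.lf (nat_lit 0) (nat_lit 4088051062) (nat_lit 1824) (nat_lit 2096747402) (nat_lit 1900) (nat_lit 20896701974) (nat_lit 448) (nat_lit 5) (nat_lit 472) (nat_lit 5) (nat_lit 473) (nat_lit 5) (nat_lit 622) (nat_lit 609) (nat_lit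 329)) (XT.nd (nat_lit 78) (nat_lit 0) (nat_lit 0) (XT.lf (nat_lit 0) (nat_lit 5392454922) (nat_lit 1824) (nat_lit 15454547974) (nat_lit 1900) (nat_lit 6514799644) (nat_lit 449) (nat_lit 5) (nat_lit 473) (nat_lit 5) (nat_lit 474) (nat_lit 5) (nat_lit 623) (nat_lit 609) (nat_lit 328)) (XT.lf (nat_lit 0) (nat_lit 6775678204) (nat_lit 1824) (nat_lit 1470442278) (nat_lit 1900) (nat_lit 19400535940) (nat_lit 449) (nat_lit 5) (nat_lit 473) (nat_lit 5) (nat_lit 474) (nat_lit 5) (nat_lit 624) (nat_lit 609) (nat_lit 327)))))) (XT.nd (nat_lit 468) (nat_lit 2432) (nat_lit 0) (XT.nd (nat_lit 234) (nat_lit 0) (nat_lit 76) (XT.nd (nat_lit 78) (nat_lit 0) (nat_lit 0) (XT.lf (nat_lit 0) (nat_lit 8298849311) (nat_lit 1824) (nat_lit 15004389121) (nat_lit 1900) (nat_lit 4631723634) (nat_lit 450) (nat_lit 5) (nat_lit 474) (nat_lit 5) (nat_lit 475) (nat_lit 5) (nat_lit 625) (nat_lit 609) (nat_lit 326)) (XT.nd (nat_lit 78) (nat_lit 0) (nat_lit 76) (XT.lf (nat_lit 0) (nat_lit 9914721746) (nat_lit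 1824) (nat_lit 645696454) (nat_lit 1900) (nat_lit 17667371212) (nat_lit 450) (nat_lit 5) (nat_lit 474) (nat_lit 5) (nat_lit 475) (nat_lit 5) (nat_lit 626) (nat_lit 609) (nat_lit 325)) (XT.lf (nat_lit 0) (nat_lit 11669185018) (nat_lit 1824) (nat_lit 14356603786) (nat_lit 1900) (nat_lit 2498559374) (nat_lit 451) (nat_lit 5) (nat_lit 475) (nat_lit 5) (nat_lit 476) (nat_lit 5) (nat_lit 627) (nat_lit 609) (nat_lit 324)))) (XT.nd (nat_lit 78) (nat_lit 0) (nat_lit 76) (XT.lf (nat_lit 76) (nat_lit 392914365) (nat_lit 0) (nat_lit 13140449640) (nat_lit 1900) (nat_lit 15291981918) (nat_lit 452) (nat_lit 5) (nat_lit 451) (nat_lit 5) (nat_lit 476) (nat_lit 5) (nat_lit 628) (nat_lit 609) (nat_lit 323)) (XT.nd (nat_lit 78) (nat_lit 0) (nat_lit 0) (XT.lf (nat_lit 0) (nat_lit 15529634507) (nat_lit 1824) (nat_lit 13500825818) (nat_lit 1900) (nat_lit 100007468) (nat_lit 452) (nat_lit 5) (nat_lit 476) (nat_lit 5) (nat_lit 477) (nat_lit 5) (nat_lit 629) (nat_lit 609) (nat_lit 322)) (XT.lf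 (nat_lit 76) (nat_lit 1662462738) (nat_lit 0) (nat_lit 15999039917) (nat_lit 1900) (nat_lit 11778276320) (nat_lit 453) (nat_lit 5) (nat_lit 452) (nat_lit 5) (nat_lit 477) (nat_lit 5) (nat_lit 630) (nat_lit 609) (nat_lit 321))))) (XT.nd (nat_lit 234) (nat_lit 2584) (nat_lit 0) (XT.nd (nat_lit 78) (nat_lit 0) (nat_lit 76) (XT.lf (nat_lit 76) (nat_lit 17310305743) (nat_lit 0) (nat_lit 2614186542) (nat_lit 1900) (nat_lit 9829014729) (nat_lit 453) (nat_lit 5) (nat_lit 452) (nat_lit 5) (nat_lit 477) (nat_lit 5) (nat_lit 631) (nat_lit 609) (nat_lit 320)) (XT.nd (nat_lit 78) (nat_lit 0) (nat_lit 0) (XT.lf (nat_lit 76) (nat_lit 3165717430) (nat_lit 0) (nat_lit 19157177022) (nat_lit 1900) (nat_lit 7748812416) (nat_lit 454) (nat_lit 5) (nat_lit 453) (nat_lit 5) (nat_lit 478) (nat_lit 5) (nat_lit 632) (nat_lit 609) (nat_lit 319)) (XT.lf (nat_lit 76) (nat_lit 19236225046) (nat_lit 0) (nat_lit 5631698495) (nat_lit 1900) (nat_lit 5526374301) (nat_lit 454) (nat_lit 5) (nat_lit 453) (nat_lit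 5) (nat_lit 478) (nat_lit 5) (nat_lit 633) (nat_lit 609) (nat_lit 318)))) (XT.nd (nat_lit 156) (nat_lit 1064) (nat_lit 0) (XT.nd (nat_lit 78) (nat_lit 0) (nat_lit 0) (XT.lf (nat_lit 0) (nat_lit 4914522611) (nat_lit 1672) (nat_lit 22632248833) (nat_lit 1748) (nat_lit 3174911124) (nat_lit 432) (nat_lit 5) (nat_lit 454) (nat_lit 5) (nat_lit 455) (nat_lit 5) (nat_lit 634) (nat_lit 609) (nat_lit 317)) (XT.lf (nat_lit 0) (nat_lit 21420313807) (nat_lit 1672) (nat_lit 8968839639) (nat_lit 1748) (nat_lit 664262690) (nat_lit 432) (nat_lit 5) (nat_lit 454) (nat_lit 5) (nat_lit 455) (nat_lit 5) (nat_lit 635) (nat_lit 609) (nat_lit 316))) (XT.nd (nat_lit 78) (nat_lit 0) (nat_lit 0) (XT.lf (nat_lit 0) (nat_lit 1947484559) (nat_lit 1064) (nat_lit 24481858628) (nat_lit 76) (nat_lit 4960679986) (nat_lit 418) (nat_lit 5) (nat_lit 432) (nat_lit 5) (nat_lit 419) (nat_lit 5) (nat_lit 636) (nat_lit 609) (nat_lit 315)) (XT.lf (nat_lit 0) (nat_lit 4725132223) (nat_lit 1064) (nat_lit 7887193360)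 (nat_lit 76) (nat_lit 19118498028) (nat_lit 418) (nat_lit 5) (nat_lit 432) (nat_lit 5) (nat_lit 419) (nat_lit 5) (nat_lit 637) (nat_lit 609) (nat_lit 314))))))))
noncomputable def xc244 : XT := (XT.nd (nat_lit 79950) (nat_lit 0) (nat_lit 1672) (XT.nd (nat_lit 936) (nat_lit 0) (nat_lit 0) (XT.nd (nat_lit 468) (nat_lit 3268) (nat_lit 0) (XT.nd (nat_lit 234) (nat_lit 836) (nat_lit 0) (XT.nd (nat_lit 78) (nat_lit 912) (nat_lit 0) (XT.lf (nat_lit 0) (nat_lit 7625923524) (nat_lit 988) (nat_lit 22929530822) (nat_lit 76) (nat_lit 1521634165) (nat_lit 406) (nat_lit 5) (nat_lit 419) (nat_lit 5) (nat_lit 407) (nat_lit 5) (nat_lit 638) (nat_lit 609) (nat_lit 313)) (XT.nd (nat_lit 78) (nat_lit 912) (nat_lit 0) (XT.lf (nat_lit 0) (nat_lit 10719682240) (nat_lit 988) (nat_lit 5884908772) (nat_lit 76) (nat_lit 15822988930) (nat_lit 406) (nat_lit 5) (nat_lit 419) (nat_lit 5) (nat_lit 407) (nat_lit 5) (nat_lit 639) (nat_lit 609) (nat_lit 312)) (XT.lf (nat_lit 0) (nat_lit 11651724593) (nat_lit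 912) (nat_lit 2297427087) (nat_lit 988) (nat_lit 18834453068) (nat_lit 394) (nat_lit 5) (nat_lit 406) (nat_lit 5) (nat_lit 407) (nat_lit 5) (nat_lit 640) (nat_lit 609) (nat_lit 311)))) (XT.nd (nat_lit 78) (nat_lit 836) (nat_lit 0) (XT.lf (nat_lit 0) (nat_lit 17361006054) (nat_lit 988) (nat_lit 3608913846) (nat_lit 76) (nat_lit 12174474492) (nat_lit 394) (nat_lit 5) (nat_lit 407) (nat_lit 5) (nat_lit 395) (nat_lit 5) (nat_lit 641) (nat_lit 609) (nat_lit 310)) (XT.nd (nat_lit 78) (nat_lit 0) (nat_lit 0) (XT.lf (nat_lit 0) (nat_lit 14436952835) (nat_lit 836) (nat_lit 6511338968) (nat_lit 912) (nat_lit 12561964389) (nat_lit 383) (nat_lit 5) (nat_lit 394) (nat_lit 5) (nat_lit 395) (nat_lit 5) (nat_lit 642) (nat_lit 609) (nat_lit 309)) (XT.lf (nat_lit 0) (nat_lit 24683446764) (nat_lit 912) (nat_lit 1045642448) (nat_lit 76) (nat_lit 8152823787) (nat_lit 383) (nat_lit 5) (nat_lit 395) (nat_lit 5) (nat_lit 384) (nat_lit 5) (nat_lit 643) (nat_lit 609) (nat_lit 308))))) (XT.nd (nat_lit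 234) (nat_lit 1596) (nat_lit 0) (XT.nd (nat_lit 78) (nat_lit 836) (nat_lit 0) (XT.lf (nat_lit 0) (nat_lit 17527650516) (nat_lit 836) (nat_lit 11120879974) (nat_lit 912) (nat_lit 5609368179) (nat_lit 372) (nat_lit 5) (nat_lit 383) (nat_lit 5) (nat_lit 384) (nat_lit 5) (nat_lit 644) (nat_lit 609) (nat_lit 307)) (XT.nd (nat_lit 78) (nat_lit 76) (nat_lit 0) (XT.lf (nat_lit 0) (nat_lit 1843207400) (nat_lit 760) (nat_lit 30891603656) (nat_lit 836) (nat_lit 1905755327) (nat_lit 362) (nat_lit 5) (nat_lit 372) (nat_lit 5) (nat_lit 373) (nat_lit 5) (nat_lit 645) (nat_lit 609) (nat_lit 306)) (XT.lf (nat_lit 0) (nat_lit 2032375843) (nat_lit 836) (nat_lit 14101984495) (nat_lit 76) (nat_lit 18892584325) (nat_lit 361) (nat_lit 5) (nat_lit 372) (nat_lit 5) (nat_lit 362) (nat_lit 5) (nat_lit 646) (nat_lit 609) (nat_lit 305)))) (XT.nd (nat_lit 78) (nat_lit 760) (nat_lit 0) (XT.lf (nat_lit 0) (nat_lit 5018821013) (nat_lit 836) (nat_lit 1035908822) (nat_lit 912) (nat_lit 29365449388) (nat_lit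 350) (nat_lit 5) (nat_lit 361) (nat_lit 5) (nat_lit 362) (nat_lit 5) (nat_lit 647) (nat_lit 609) (nat_lit 304)) (XT.nd (nat_lit 78) (nat_lit 760) (nat_lit 0) (XT.lf (nat_lit 0) (nat_lit 10344442966) (nat_lit 912) (nat_lit 11201777048) (nat_lit 76) (nat_lit 14271320436) (nat_lit 350) (nat_lit 5) (nat_lit 362) (nat_lit 5) (nat_lit 351) (nat_lit 5) (nat_lit 648) (nat_lit 609) (nat_lit 303)) (XT.lf (nat_lit 0) (nat_lit 8484545765) (nat_lit 760) (nat_lit 6295773471) (nat_lit 836) (nat_lit 21441322499) (nat_lit 340) (nat_lit 5) (nat_lit 350) (nat_lit 5) (nat_lit 351) (nat_lit 5) (nat_lit 649) (nat_lit 609) (nat_lit 302)))))) (XT.nd (nat_lit 78468) (nat_lit 0) (nat_lit 8056) (XT.nd (nat_lit 78234) (nat_lit 0) (nat_lit 9652) (XT.nd (nat_lit 78078) (nat_lit 0) (nat_lit 9652) (XT.lf (nat_lit 0) (nat_lit 19439141502) (nat_lit 836) (nat_lit 7978187175) (nat_lit 76) (nat_lit 9213812008) (nat_lit 340) (nat_lit 5) (nat_lit 351) (nat_lit 5) (nat_lit 341) (nat_lit 5) (nat_lit 650) (nat_lit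 609) (nat_lit 301)) (XT.nd (nat_lit 78) (nat_lit 0) (nat_lit 0) (XT.lf (nat_lit 0) (nat_lit 5099475048) (nat_lit 0) (nat_lit 5099475048) (nat_lit 1748) (nat_lit 1918647507) (nat_lit 467) (nat_lit 5) (nat_lit 467) (nat_lit 3) (nat_lit 490) (nat_lit 3) (nat_lit 610) (nat_lit 610) (nat_lit 340)) (XT.lf (nat_lit 0) (nat_lit 20723772762) (nat_lit 1748) (nat_lit 2171381206) (nat_lit 1824) (nat_lit 1579937854) (nat_lit 467) (nat_lit 5) (nat_lit 490) (nat_lit 3) (nat_lit 491) (nat_lit 5) (nat_lit 611) (nat_lit 610) (nat_lit 339)))) (XT.nd (nat_lit 78) (nat_lit 0) (nat_lit 76) (XT.lf (nat_lit 76) (nat_lit 9992763371) (nat_lit 0) (nat_lit 11192906604) (nat_lit 1824) (nat_lit 3531526709) (nat_lit 468) (nat_lit 5) (nat_lit 467) (nat_lit 5) (nat_lit 491) (nat_lit 5) (nat_lit 612) (nat_lit 610) (nat_lit 338)) (XT.nd (nat_lit 78) (nat_lit 0) (nat_lit 0) (XT.lf (nat_lit 0) (nat_lit 21673440157) (nat_lit 1748) (nat_lit 2540738048) (nat_lit 1824) (nat_lit 749633186) (nat_lit 468) (nat_lit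 5) (nat_lit 491) (nat_lit 5) (nat_lit 492) (nat_lit 5) (nat_lit 613) (nat_lit 610) (nat_lit 337)) (XT.lf (nat_lit 76) (nat_lit 9941332133) (nat_lit 0) (nat_lit 12365501464) (nat_lit 1824) (nat_lit 2905807879) (nat_lit 469) (nat_lit 5) (nat_lit 468) (nat_lit 5) (nat_lit 492) (nat_lit 5) (nat_lit 614) (nat_lit 610) (nat_lit 336))))) (XT.nd (nat_lit 234) (nat_lit 1672) (nat_lit 0) (XT.nd (nat_lit 78) (nat_lit 0) (nat_lit 76) (XT.lf (nat_lit 76) (nat_lit 22705938190) (nat_lit 0) (nat_lit 261248255) (nat_lit 1824) (nat_lit 2498976317) (nat_lit 469) (nat_lit 5) (nat_lit 468) (nat_lit 5) (nat_lit 492) (nat_lit 5) (nat_lit 615) (nat_lit 610) (nat_lit 335)) (XT.nd (nat_lit 78) (nat_lit 0) (nat_lit 0) (XT.lf (nat_lit 76) (nat_lit 10052885057) (nat_lit 0) (nat_lit 13728899360) (nat_lit 1824) (nat_lit 1940149721) (nat_lit 470) (nat_lit 5) (nat_lit 469) (nat_lit 5) (nat_lit 493) (nat_lit 5) (nat_lit 616) (nat_lit 610) (nat_lit 334)) (XT.lf (nat_lit 76) (nat_lit 23156351908) (nat_lit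 0) (nat_lit 1473910078) (nat_lit 1824) (nat_lit 1352207617) (nat_lit 470) (nat_lit 5) (nat_lit 469) (nat_lit 5) (nat_lit 493) (nat_lit 5) (nat_lit 617) (nat_lit 610) (nat_lit 333)))) (XT.nd (nat_lit 156) (nat_lit 0) (nat_lit 76) (XT.nd (nat_lit 78) (nat_lit 1824) (nat_lit 0) (XT.lf (nat_lit 76) (nat_lit 10336046106) (nat_lit 0) (nat_lit 15295766023) (nat_lit 1824) (nat_lit 613681995) (nat_lit 471) (nat_lit 5) (nat_lit 470) (nat_lit 5) (nat_lit 494) (nat_lit 5) (nat_lit 618) (nat_lit 610) (nat_lit 332)) (XT.lf (nat_lit 0) (nat_lit 164062961) (nat_lit 1824) (nat_lit 2726051056) (nat_lit 1900) (nat_lit 23623121781) (nat_lit 446) (nat_lit 5) (nat_lit 470) (nat_lit 5) (nat_lit 471) (nat_lit 5) (nat_lit 619) (nat_lit 610) (nat_lit 331))) (XT.nd (nat_lit 78) (nat_lit 0) (nat_lit 0) (XT.lf (nat_lit 0) (nat_lit 1081020003) (nat_lit 1824) (nat_lit 15991020948) (nat_lit 1900) (nat_lit 9711573121) (nat_lit 447) (nat_lit 5) (nat_lit 471) (nat_lit 5) (nat_lit 472) (nat_lit 5) (nat_lit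 620) (nat_lit 610) (nat_lit 330)) (XT.lf (nat_lit 0) (nat_lit 2051394437) (nat_lit 1824) (nat_lit 2461366272) (nat_lit 1900) (nat_lit 22545938015) (nat_lit 447) (nat_lit 5) (nat_lit 471) (nat_lit 5) (nat_lit 472) (nat_lit 5) (nat_lit 621) (nat_lit 610) (nat_lit 329))))))) (XT.nd (nat_lit 936) (nat_lit 6536) (nat_lit 0) (XT.nd (nat_lit 468) (nat_lit 0) (nat_lit 228) (XT.nd (nat_lit 234) (nat_lit 0) (nat_lit 76) (XT.nd (nat_lit 78) (nat_lit 0) (nat_lit 0) (XT.lf (nat_lit 0) (nat_lit 3167709834) (nat_lit 1824) (nat_lit 15904269526) (nat_lit 1900) (nat_lit 8264775408) (nat_lit 448) (nat_lit 5) (nat_lit 472) (nat_lit 5) (nat_lit 473) (nat_lit 5) (nat_lit 622) (nat_lit 610) (nat_lit 328)) (XT.nd (nat_lit 78) (nat_lit 0) (nat_lit 76) (XT.lf (nat_lit 0) (nat_lit 4350478857) (nat_lit 1824) (nat_lit 2014103109) (nat_lit 1900) (nat_lit 21254907780) (nat_lit 448) (nat_lit 5) (nat_lit 472) (nat_lit 5) (nat_lit 473) (nat_lit 5) (nat_lit 623) (nat_lit 610) (nat_lit 327)) (XT.lf (nat_lit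 0) (nat_lit 5677880143) (nat_lit 1824) (nat_lit 15635942213) (nat_lit 1900) (nat_lit 6591637885) (nat_lit 449) (nat_lit 5) (nat_lit 473) (nat_lit 5) (nat_lit 474) (nat_lit 5) (nat_lit 624) (nat_lit 610) (nat_lit 326)))) (XT.nd (nat_lit 78) (nat_lit 0) (nat_lit 76) (XT.lf (nat_lit 0) (nat_lit 7085286005) (nat_lit 1824) (nat_lit 1374658260) (nat_lit 1900) (nat_lit 19736137098) (nat_lit 449) (nat_lit 5) (nat_lit 473) (nat_lit 5) (nat_lit 474) (nat_lit 5) (nat_lit 625) (nat_lit 610) (nat_lit 325)) (XT.nd (nat_lit 78) (nat_lit 0) (nat_lit 0) (XT.lf (nat_lit 0) (nat_lit 8636008482) (nat_lit 1824) (nat_lit 15176346201) (nat_lit 1900) (nat_lit 4677857193) (nat_lit 450) (nat_lit 5) (nat_lit 474) (nat_lit 5) (nat_lit 475) (nat_lit 5) (nat_lit 626) (nat_lit 610) (nat_lit 324)) (XT.lf (nat_lit 0) (nat_lit 10280841852) (nat_lit 1824) (nat_lit 532992048) (nat_lit 1900) (nat_lit 17975129506) (nat_lit 450) (nat_lit 5) (nat_lit 474) (nat_lit 5) (nat_lit 475) (nat_lit 5) (nat_lit 627)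 (nat_lit 610) (nat_lit 323))))) (XT.nd (nat_lit 234) (nat_lit 0) (nat_lit 76) (XT.nd (nat_lit 78) (nat_lit 0) (nat_lit 0) (XT.lf (nat_lit 0) (nat_lit 12067650623) (nat_lit 1824) (nat_lit 14515348975) (nat_lit 1900) (nat_lit 2508509120) (nat_lit 451) (nat_lit 5) (nat_lit 475) (nat_lit 5) (nat_lit 476) (nat_lit 5) (nat_lit 628) (nat_lit 610) (nat_lit 322)) (XT.nd (nat_lit 78) (nat_lit 0) (nat_lit 76) (XT.lf (nat_lit 76) (nat_lit 528314888) (nat_lit 0) (nat_lit 13438389491) (nat_lit 1900) (nat_lit 15431870702) (nat_lit 452) (nat_lit 5) (nat_lit 451) (nat_lit 5) (nat_lit 476) (nat_lit 5) (nat_lit 629) (nat_lit 610) (nat_lit 321)) (XT.lf (nat_lit 0) (nat_lit 15999487002) (nat_lit 1824) (nat_lit 13642363815) (nat_lit 1900) (nat_lit 68017314) (nat_lit 452) (nat_lit 5) (nat_lit 476) (nat_lit 5) (nat_lit 477) (nat_lit 5) (nat_lit 630) (nat_lit 610) (nat_lit 320)))) (XT.nd (nat_lit 78) (nat_lit 0) (nat_lit 0) (XT.lf (nat_lit 76) (nat_lit 1823345259) (nat_lit 0) (nat_lit 16348353192)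 (nat_lit 1900) (nat_lit 11853713433) (nat_lit 453) (nat_lit 5) (nat_lit 452) (nat_lit 5) (nat_lit 477) (nat_lit 5) (nat_lit 631) (nat_lit 610) (nat_lit 319)) (XT.nd (nat_lit 78) (nat_lit 0) (nat_lit 76) (XT.lf (nat_lit 76) (nat_lit 17781642511) (nat_lit 0) (nat_lit 2695227603) (nat_lit 1900) (nat_lit 9868606383) (nat_lit 453) (nat_lit 5) (nat_lit 452) (nat_lit 5) (nat_lit 477) (nat_lit 5) (nat_lit 632) (nat_lit 610) (nat_lit 318)) (XT.lf (nat_lit 76) (nat_lit 3356604945) (nat_lit 0) (nat_lit 19564263206) (nat_lit 1900) (nat_lit 7749220088) (nat_lit 454) (nat_lit 5) (nat_lit 453) (nat_lit 5) (nat_lit 478) (nat_lit 5) (nat_lit 633) (nat_lit 610) (nat_lit 317)))))) (XT.nd (nat_lit 468) (nat_lit 3344) (nat_lit 0) (XT.nd (nat_lit 234) (nat_lit 1976) (nat_lit 0) (XT.nd (nat_lit 78) (nat_lit 1596) (nat_lit 0) (XT.lf (nat_lit 76) (nat_lit 19746021279) (nat_lit 0) (nat_lit 5767805645) (nat_lit 1900) (nat_lit 5485363968) (nat_lit 454) (nat_lit 5) (nat_lit 453) (nat_lit 5) (nat_lit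 478) (nat_lit 5) (nat_lit 634) (nat_lit 610) (nat_lit 316)) (XT.nd (nat_lit 78) (nat_lit 0) (nat_lit 0) (XT.lf (nat_lit 0) (nat_lit 5140186572) (nat_lit 1672) (nat_lit 23103830146) (nat_lit 1748) (nat_lit 3089151727) (nat_lit 432) (nat_lit 5) (nat_lit 454) (nat_lit 5) (nat_lit 455) (nat_lit 5) (nat_lit 635) (nat_lit 610) (nat_lit 315)) (XT.lf (nat_lit 0) (nat_lit 21973596073) (nat_lit 1672) (nat_lit 9166781467) (nat_lit 1748) (nat_lit 531216944) (nat_lit 432) (nat_lit 5) (nat_lit 454) (nat_lit 5) (nat_lit 455) (nat_lit 5) (nat_lit 636) (nat_lit 610) (nat_lit 314)))) (XT.nd (nat_lit 78) (nat_lit 912) (nat_lit 0) (XT.lf (nat_lit 0) (nat_lit 2128725856) (nat_lit 1064) (nat_lit 24842539346) (nat_lit 76) (nat_lit 5043692270) (nat_lit 418) (nat_lit 5) (nat_lit 432) (nat_lit 5) (nat_lit 419) (nat_lit 5) (nat_lit 637) (nat_lit 610) (nat_lit 313)) (XT.nd (nat_lit 78) (nat_lit 912) (nat_lit 0) (XT.lf (nat_lit 0) (nat_lit 4959136442) (nat_lit 1064) (nat_lit 7918509330) (nat_lit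 76) (nat_lit 19484984345) (nat_lit 418) (nat_lit 5) (nat_lit 432) (nat_lit 5) (nat_lit 419) (nat_lit 5) (nat_lit 638) (nat_lit 610) (nat_lit 312)) (XT.lf (nat_lit 0) (nat_lit 7915945879) (nat_lit 988) (nat_lit 23259676309) (nat_lit 76) (nat_lit 1540238473) (nat_lit 406) (nat_lit 5) (nat_lit 419) (nat_lit 5) (nat_lit 407) (nat_lit 5) (nat_lit 639) (nat_lit 610) (nat_lit 311))))) (XT.nd (nat_lit 234) (nat_lit 2432) (nat_lit 0) (XT.nd (nat_lit 78) (nat_lit 912) (nat_lit 0) (XT.lf (nat_lit 0) (nat_lit 11068883615) (nat_lit 988) (nat_lit 5876680349) (nat_lit 76) (nat_lit 16127852263) (nat_lit 406) (nat_lit 5) (nat_lit 419) (nat_lit 5) (nat_lit 407) (nat_lit 5) (nat_lit 640) (nat_lit 610) (nat_lit 310)) (XT.nd (nat_lit 78) (nat_lit 0) (nat_lit 0) (XT.lf (nat_lit 0) (nat_lit 12009857218) (nat_lit 912) (nat_lit 2351254157) (nat_lit 988) (nat_lit 19075487151) (nat_lit 394) (nat_lit 5) (nat_lit 406) (nat_lit 5) (nat_lit 407) (nat_lit 5) (nat_lit 641) (nat_lit 610) (nat_lit 309))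 (XT.lf (nat_lit 0) (nat_lit 17838545301) (nat_lit 988) (nat_lit 3555770944) (nat_lit 76) (nat_lit 12410341237) (nat_lit 394) (nat_lit 5) (nat_lit 407) (nat_lit 5) (nat_lit 395) (nat_lit 5) (nat_lit 642) (nat_lit 610) (nat_lit 308)))) (XT.nd (nat_lit 156) (nat_lit 1596) (nat_lit 0) (XT.nd (nat_lit 78) (nat_lit 0) (nat_lit 0) (XT.lf (nat_lit 0) (nat_lit 14850188589) (nat_lit 836) (nat_lit 6645641213) (nat_lit 912) (nat_lit 12682042015) (nat_lit 383) (nat_lit 5) (nat_lit 394) (nat_lit 5) (nat_lit 395) (nat_lit 5) (nat_lit 643) (nat_lit 610) (nat_lit 307)) (XT.lf (nat_lit 0) (nat_lit 25303140899) (nat_lit 912) (nat_lit 941935046) (nat_lit 76) (nat_lit 8311937110) (nat_lit 383) (nat_lit 5) (nat_lit 395) (nat_lit 5) (nat_lit 384) (nat_lit 5) (nat_lit 644) (nat_lit 610) (nat_lit 306))) (XT.nd (nat_lit 78) (nat_lit 760) (nat_lit 0) (XT.lf (nat_lit 0) (nat_lit 18002003908) (nat_lit 836) (nat_lit 11343855103) (nat_lit 912) (nat_lit 5594693120) (nat_lit 372) (nat_lit 5) (nat_lit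 383) (nat_lit 5) (nat_lit 384) (nat_lit 5) (nat_lit 645) (nat_lit 610) (nat_lit 305)) (XT.lf (nat_lit 0) (nat_lit 2005549084) (nat_lit 760) (nat_lit 31506688848) (nat_lit 836) (nat_lit 1818668152) (nat_lit 362) (nat_lit 5) (nat_lit 372) (nat_lit 5) (nat_lit 373) (nat_lit 5) (nat_lit 646) (nat_lit 610) (nat_lit 304))))))))
noncomputable def xc245 : XT := (XT.nd (nat_lit 80028) (nat_lit 0) (nat_lit 760) (XT.nd (nat_lit 79014) (nat_lit 0) (nat_lit 8056) (XT.nd (nat_lit 78546) (nat_lit 0) (nat_lit 9652) (XT.nd (nat_lit 234) (nat_lit 760) (nat_lit 0) (XT.nd (nat_lit 78) (nat_lit 836) (nat_lit 0) (XT.lf (nat_lit 0) (nat_lit 2194160841) (nat_lit 836) (nat_lit 14259380787) (nat_lit 76) (nat_lit 19271502826) (nat_lit 361) (nat_lit 5) (nat_lit 372) (nat_lit 5) (nat_lit 362) (nat_lit 5) (nat_lit 647) (nat_lit 610) (nat_lit 303)) (XT.nd (nat_lit 78) (nat_lit 0) (nat_lit 0) (XT.lf (nat_lit 0) (nat_lit 5243020809) (nat_lit 836) (nat_lit 1052369803) (nat_lit 912) (nat_lit 29830784840)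 (nat_lit 350) (nat_lit 5) (nat_lit 361) (nat_lit 5) (nat_lit 362) (nat_lit 5) (nat_lit 648) (nat_lit 610) (nat_lit 302)) (XT.lf (nat_lit 0) (nat_lit 10668580670) (nat_lit 912) (nat_lit 11302084068) (nat_lit 76) (nat_lit 14560865827) (nat_lit 350) (nat_lit 5) (nat_lit 362) (nat_lit 5) (nat_lit 351) (nat_lit 5) (nat_lit 649) (nat_lit 610) (nat_lit 301)))) (XT.nd (nat_lit 78156) (nat_lit 0) (nat_lit 9652) (XT.lf (nat_lit 0) (nat_lit 8777151197) (nat_lit 760) (nat_lit 6414522313) (nat_lit 836) (nat_lit 21752070692) (nat_lit 340) (nat_lit 5) (nat_lit 350) (nat_lit 5) (nat_lit 351) (nat_lit 5) (nat_lit 650) (nat_lit 610) (nat_lit 300)) (XT.nd (nat_lit 78) (nat_lit 0) (nat_lit 0) (XT.lf (nat_lit 0) (nat_lit 5256852205) (nat_lit 0) (nat_lit 5256852205) (nat_lit 1748) (nat_lit 1844012287) (nat_lit 467) (nat_lit 5) (nat_lit 467) (nat_lit 3) (nat_lit 490) (nat_lit 3) (nat_lit 611) (nat_lit 611) (nat_lit 338)) (XT.lf (nat_lit 0) (nat_lit 21354749587) (nat_lit 1748) (nat_lit 2101122305)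 (nat_lit 1824) (nat_lit 1504357716) (nat_lit 467) (nat_lit 5) (nat_lit 490) (nat_lit 3) (nat_lit 491) (nat_lit 5) (nat_lit 612) (nat_lit 611) (nat_lit 337))))) (XT.nd (nat_lit 234) (nat_lit 0) (nat_lit 76) (XT.nd (nat_lit 78) (nat_lit 0) (nat_lit 76) (XT.lf (nat_lit 76) (nat_lit 10305557226) (nat_lit 0) (nat_lit 11516815665) (nat_lit 1824) (nat_lit 3384874579) (nat_lit 468) (nat_lit 5) (nat_lit 467) (nat_lit 5) (nat_lit 491) (nat_lit 5) (nat_lit 613) (nat_lit 611) (nat_lit 336)) (XT.nd (nat_lit 78) (nat_lit 0) (nat_lit 0) (XT.lf (nat_lit 0) (nat_lit 22315085351) (nat_lit 1748) (nat_lit 2475982875) (nat_lit 1824) (nat_lit 667823161) (nat_lit 468) (nat_lit 5) (nat_lit 491) (nat_lit 5) (nat_lit 492) (nat_lit 5) (nat_lit 614) (nat_lit 611) (nat_lit 335)) (XT.lf (nat_lit 76) (nat_lit 10254968381) (nat_lit 0) (nat_lit 12702841810) (nat_lit 1824) (nat_lit 2754955254) (nat_lit 469) (nat_lit 5) (nat_lit 468) (nat_lit 5) (nat_lit 492) (nat_lit 5) (nat_lit 615) (nat_lit 611) (nat_lit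 334)))) (XT.nd (nat_lit 78) (nat_lit 0) (nat_lit 76) (XT.lf (nat_lit 76) (nat_lit 23272615391) (nat_lit 0) (nat_lit 354738236) (nat_lit 1824) (nat_lit 2344084488) (nat_lit 469) (nat_lit 5) (nat_lit 468) (nat_lit 5) (nat_lit 492) (nat_lit 5) (nat_lit 616) (nat_lit 611) (nat_lit 333)) (XT.nd (nat_lit 78) (nat_lit 0) (nat_lit 0) (XT.lf (nat_lit 76) (nat_lit 10370351255) (nat_lit 0) (nat_lit 14084148551) (nat_lit 1824) (nat_lit 1777900603) (nat_lit 470) (nat_lit 5) (nat_lit 469) (nat_lit 5) (nat_lit 493) (nat_lit 5) (nat_lit 617) (nat_lit 611) (nat_lit 332)) (XT.lf (nat_lit 76) (nat_lit 23733604924) (nat_lit 0) (nat_lit 1582477695) (nat_lit 1824) (nat_lit 1182141855) (nat_lit 470) (nat_lit 5) (nat_lit 469) (nat_lit 5) (nat_lit 493) (nat_lit 5) (nat_lit 618) (nat_lit 611) (nat_lit 331)))))) (XT.nd (nat_lit 468) (nat_lit 0) (nat_lit 228) (XT.nd (nat_lit 234) (nat_lit 0) (nat_lit 76) (XT.nd (nat_lit 78) (nat_lit 1824) (nat_lit 0) (XT.lf (nat_lit 76) (nat_lit 10660521198) (nat_lit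 0) (nat_lit 15673615134) (nat_lit 1824) (nat_lit 432444293) (nat_lit 471) (nat_lit 5) (nat_lit 470) (nat_lit 5) (nat_lit 494) (nat_lit 5) (nat_lit 619) (nat_lit 611) (nat_lit 330)) (XT.nd (nat_lit 78) (nat_lit 0) (nat_lit 76) (XT.lf (nat_lit 0) (nat_lit 354573049) (nat_lit 1824) (nat_lit 2662610169) (nat_lit 1900) (nat_lit 24022544249) (nat_lit 446) (nat_lit 5) (nat_lit 470) (nat_lit 5) (nat_lit 471) (nat_lit 5) (nat_lit 620) (nat_lit 611) (nat_lit 329)) (XT.lf (nat_lit 0) (nat_lit 1286523057) (nat_lit 1824) (nat_lit 16189505372) (nat_lit 1900) (nat_lit 9839552360) (nat_lit 447) (nat_lit 5) (nat_lit 471) (nat_lit 5) (nat_lit 472) (nat_lit 5) (nat_lit 621) (nat_lit 611) (nat_lit 328)))) (XT.nd (nat_lit 78) (nat_lit 0) (nat_lit 76) (XT.lf (nat_lit 0) (nat_lit 2272699437) (nat_lit 1824) (nat_lit 2391636739) (nat_lit 1900) (nat_lit 22931903615) (nat_lit 447) (nat_lit 5) (nat_lit 471) (nat_lit 5) (nat_lit 472) (nat_lit 5) (nat_lit 622) (nat_lit 611) (nat_lit 327)) (XT.nd (nat_lit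 78) (nat_lit 0) (nat_lit 0) (XT.lf (nat_lit 0) (nat_lit 3408188318) (nat_lit 1824) (nat_lit 16100218406) (nat_lit 1900) (nat_lit 8371513825) (nat_lit 448) (nat_lit 5) (nat_lit 472) (nat_lit 5) (nat_lit 473) (nat_lit 5) (nat_lit 623) (nat_lit 611) (nat_lit 326)) (XT.lf (nat_lit 0) (nat_lit 4611139696) (nat_lit 1824) (nat_lit 1934643495) (nat_lit 1900) (nat_lit 21622597022) (nat_lit 448) (nat_lit 5) (nat_lit 472) (nat_lit 5) (nat_lit 473) (nat_lit 5) (nat_lit 624) (nat_lit 611) (nat_lit 325))))) (XT.nd (nat_lit 234) (nat_lit 0) (nat_lit 76) (XT.nd (nat_lit 78) (nat_lit 0) (nat_lit 0) (XT.lf (nat_lit 0) (nat_lit 5962118370) (nat_lit 1824) (nat_lit 15825922957) (nat_lit 1900) (nat_lit 6672088721) (nat_lit 449) (nat_lit 5) (nat_lit 473) (nat_lit 5) (nat_lit 474) (nat_lit 5) (nat_lit 625) (nat_lit 611) (nat_lit 324)) (XT.nd (nat_lit 78) (nat_lit 0) (nat_lit 76) (XT.lf (nat_lit 0) (nat_lit 7394325670) (nat_lit 1824) (nat_lit 1281819953) (nat_lit 1900) (nat_lit 20080485406) (nat_lit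 449) (nat_lit 5) (nat_lit 473) (nat_lit 5) (nat_lit 474) (nat_lit 5) (nat_lit 626) (nat_lit 611) (nat_lit 323)) (XT.lf (nat_lit 0) (nat_lit 8973263624) (nat_lit 1824) (nat_lit 15356717895) (nat_lit 1900) (nat_lit 4726719111) (nat_lit 450) (nat_lit 5) (nat_lit 474) (nat_lit 5) (nat_lit 475) (nat_lit 5) (nat_lit 627) (nat_lit 611) (nat_lit 322)))) (XT.nd (nat_lit 156) (nat_lit 0) (nat_lit 76) (XT.nd (nat_lit 78) (nat_lit 0) (nat_lit 76) (XT.lf (nat_lit 0) (nat_lit 10647767486) (nat_lit 1824) (nat_lit 422911466) (nat_lit 1900) (nat_lit 18290813247) (nat_lit 450) (nat_lit 5) (nat_lit 474) (nat_lit 5) (nat_lit 475) (nat_lit 5) (nat_lit 628) (nat_lit 611) (nat_lit 321)) (XT.lf (nat_lit 0) (nat_lit 12467675209) (nat_lit 1824) (nat_lit 14682254487) (nat_lit 1900) (nat_lit 2520211942) (nat_lit 451) (nat_lit 5) (nat_lit 475) (nat_lit 5) (nat_lit 476) (nat_lit 5) (nat_lit 629) (nat_lit 611) (nat_lit 320))) (XT.nd (nat_lit 78) (nat_lit 0) (nat_lit 76) (XT.lf (nat_lit 76) (nat_lit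 661470802) (nat_lit 0) (nat_lit 13740923964) (nat_lit 1900) (nat_lit 15581001335) (nat_lit 452) (nat_lit 5) (nat_lit 451) (nat_lit 5) (nat_lit 476) (nat_lit 5) (nat_lit 630) (nat_lit 611) (nat_lit 319)) (XT.lf (nat_lit 0) (nat_lit 16472552294) (nat_lit 1824) (nat_lit 13791721549) (nat_lit 1900) (nat_lit 36707241) (nat_lit 452) (nat_lit 5) (nat_lit 476) (nat_lit 5) (nat_lit 477) (nat_lit 5) (nat_lit 631) (nat_lit 611) (nat_lit 318))))))) (XT.nd (nat_lit 936) (nat_lit 3344) (nat_lit 0) (XT.nd (nat_lit 468) (nat_lit 2888) (nat_lit 0) (XT.nd (nat_lit 234) (nat_lit 1520) (nat_lit 0) (XT.nd (nat_lit 78) (nat_lit 0) (nat_lit 0) (XT.lf (nat_lit 76) (nat_lit 1982489275) (nat_lit 0) (nat_lit 16703513717) (nat_lit 1900) (nat_lit 11936877270) (nat_lit 453) (nat_lit 5) (nat_lit 452) (nat_lit 5) (nat_lit 477) (nat_lit 5) (nat_lit 632) (nat_lit 611) (nat_lit 317)) (XT.nd (nat_lit 78) (nat_lit 0) (nat_lit 76) (XT.lf (nat_lit 76) (nat_lit 18257547039) (nat_lit 0) (nat_lit 2776772803)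 (nat_lit 1900) (nat_lit 9915085930) (nat_lit 453) (nat_lit 5) (nat_lit 452) (nat_lit 5) (nat_lit 477) (nat_lit 5) (nat_lit 633) (nat_lit 611) (nat_lit 316)) (XT.lf (nat_lit 76) (nat_lit 3546356390) (nat_lit 0) (nat_lit 19978561393) (nat_lit 1900) (nat_lit 7755638000) (nat_lit 454) (nat_lit 5) (nat_lit 453) (nat_lit 5) (nat_lit 478) (nat_lit 5) (nat_lit 634) (nat_lit 611) (nat_lit 315)))) (XT.nd (nat_lit 78) (nat_lit 1596) (nat_lit 0) (XT.lf (nat_lit 76) (nat_lit 20261156749) (nat_lit 0) (nat_lit 5905723446) (nat_lit 1900) (nat_lit 5449417826) (nat_lit 454) (nat_lit 5) (nat_lit 453) (nat_lit 5) (nat_lit 478) (nat_lit 5) (nat_lit 635) (nat_lit 611) (nat_lit 314)) (XT.nd (nat_lit 78) (nat_lit 0) (nat_lit 0) (XT.lf (nat_lit 0) (nat_lit 5365417744) (nat_lit 1672) (nat_lit 23584107764) (nat_lit 1748) (nat_lit 3007472997) (nat_lit 432) (nat_lit 5) (nat_lit 454) (nat_lit 5) (nat_lit 455) (nat_lit 5) (nat_lit 636) (nat_lit 611) (nat_lit 313)) (XT.lf (nat_lit 0) (nat_lit 22533094897)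 (nat_lit 1672) (nat_lit 9367961229) (nat_lit 1748) (nat_lit 401192494) (nat_lit 432) (nat_lit 5) (nat_lit 454) (nat_lit 5) (nat_lit 455) (nat_lit 5) (nat_lit 637) (nat_lit 611) (nat_lit 312))))) (XT.nd (nat_lit 234) (nat_lit 912) (nat_lit 0) (XT.nd (nat_lit 78) (nat_lit 912) (nat_lit 0) (XT.lf (nat_lit 0) (nat_lit 2308066622) (nat_lit 1064) (nat_lit 25215441215) (nat_lit 76) (nat_lit 5128993917) (nat_lit 418) (nat_lit 5) (nat_lit 432) (nat_lit 5) (nat_lit 419) (nat_lit 5) (nat_lit 638) (nat_lit 611) (nat_lit 311)) (XT.nd (nat_lit 78) (nat_lit 912) (nat_lit 0) (XT.lf (nat_lit 0) (nat_lit 5192403729) (nat_lit 1064) (nat_lit 7955360969) (nat_lit 76) (nat_lit 19859417171) (nat_lit 418) (nat_lit 5) (nat_lit 432) (nat_lit 5) (nat_lit 419) (nat_lit 5) (nat_lit 639) (nat_lit 611) (nat_lit 310)) (XT.lf (nat_lit 0) (nat_lit 8206429238) (nat_lit 988) (nat_lit 23601412387) (nat_lit 76) (nat_lit 1559674177) (nat_lit 406) (nat_lit 5) (nat_lit 419) (nat_lit 5) (nat_lit 407) (nat_lit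 5) (nat_lit 640) (nat_lit 611) (nat_lit 309)))) (XT.nd (nat_lit 78) (nat_lit 912) (nat_lit 0) (XT.lf (nat_lit 0) (nat_lit 11419834268) (nat_lit 988) (nat_lit 5873177242) (nat_lit 76) (nat_lit 16439263165) (nat_lit 406) (nat_lit 5) (nat_lit 419) (nat_lit 5) (nat_lit 407) (nat_lit 5) (nat_lit 641) (nat_lit 611) (nat_lit 308)) (XT.nd (nat_lit 78) (nat_lit 0) (nat_lit 0) (XT.lf (nat_lit 0) (nat_lit 12370294782) (nat_lit 912) (nat_lit 2405851835) (nat_lit 988) (nat_lit 19326609564) (nat_lit 394) (nat_lit 5) (nat_lit 406) (nat_lit 5) (nat_lit 407) (nat_lit 5) (nat_lit 642) (nat_lit 611) (nat_lit 307)) (XT.lf (nat_lit 0) (nat_lit 18320574883) (nat_lit 988) (nat_lit 3506431557) (nat_lit 76) (nat_lit 12651221317) (nat_lit 394) (nat_lit 5) (nat_lit 407) (nat_lit 5) (nat_lit 395) (nat_lit 5) (nat_lit 643) (nat_lit 611) (nat_lit 306)))))) (XT.nd (nat_lit 468) (nat_lit 0) (nat_lit 0) (XT.nd (nat_lit 234) (nat_lit 1672) (nat_lit 0) (XT.nd (nat_lit 78) (nat_lit 836) (nat_lit 0) (XT.lf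 (nat_lit 0) (nat_lit 15266854701) (nat_lit 836) (nat_lit 6782471248) (nat_lit 912) (nat_lit 12809614360) (nat_lit 383) (nat_lit 5) (nat_lit 394) (nat_lit 5) (nat_lit 395) (nat_lit 5) (nat_lit 644) (nat_lit 611) (nat_lit 305)) (XT.nd (nat_lit 78) (nat_lit 836) (nat_lit 0) (XT.lf (nat_lit 0) (nat_lit 25930335204) (nat_lit 912) (nat_lit 840992651) (nat_lit 76) (nat_lit 8474385817) (nat_lit 383) (nat_lit 5) (nat_lit 395) (nat_lit 5) (nat_lit 384) (nat_lit 5) (nat_lit 645) (nat_lit 611) (nat_lit 304)) (XT.lf (nat_lit 0) (nat_lit 18481037048) (nat_lit 836) (nat_lit 11571268085) (nat_lit 912) (nat_lit 5584650782) (nat_lit 372) (nat_lit 5) (nat_lit 383) (nat_lit 5) (nat_lit 384) (nat_lit 5) (nat_lit 646) (nat_lit 611) (nat_lit 303)))) (XT.nd (nat_lit 78) (nat_lit 912) (nat_lit 0) (XT.lf (nat_lit 0) (nat_lit 2166265156) (nat_lit 760) (nat_lit 32134182409) (nat_lit 836) (nat_lit 1734700990) (nat_lit 362) (nat_lit 5) (nat_lit 372) (nat_lit 5) (nat_lit 373) (nat_lit 5) (nat_lit 647)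 (nat_lit 611) (nat_lit 302)) (XT.nd (nat_lit 78) (nat_lit 836) (nat_lit 0) (XT.lf (nat_lit 0) (nat_lit 2354477624) (nat_lit 836) (nat_lit 14424765060) (nat_lit 76) (nat_lit 19657958271) (nat_lit 361) (nat_lit 5) (nat_lit 372) (nat_lit 5) (nat_lit 362) (nat_lit 5) (nat_lit 648) (nat_lit 611) (nat_lit 301)) (XT.lf (nat_lit 0) (nat_lit 5466896389) (nat_lit 836) (nat_lit 1069325316) (nat_lit 912) (nat_lit 30310163382) (nat_lit 350) (nat_lit 5) (nat_lit 361) (nat_lit 5) (nat_lit 362) (nat_lit 5) (nat_lit 649) (nat_lit 611) (nat_lit 300))))) (XT.nd (nat_lit 78390) (nat_lit 0) (nat_lit 8892) (XT.nd (nat_lit 78234) (nat_lit 0) (nat_lit 8892) (XT.lf (nat_lit 0) (nat_lit 10994648212) (nat_lit 912) (nat_lit 11409201758) (nat_lit 76) (nat_lit 14856042180) (nat_lit 350) (nat_lit 5) (nat_lit 362) (nat_lit 5) (nat_lit 351) (nat_lit 5) (nat_lit 650) (nat_lit 611) (nat_lit 299)) (XT.nd (nat_lit 78) (nat_lit 0) (nat_lit 0) (XT.lf (nat_lit 0) (nat_lit 5415226135) (nat_lit 0) (nat_lit 5415226135)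 (nat_lit 1748) (nat_lit 1772272607) (nat_lit 467) (nat_lit 5) (nat_lit 467) (nat_lit 3) (nat_lit 490) (nat_lit 3) (nat_lit 612) (nat_lit 612) (nat_lit 336)) (XT.lf (nat_lit 0) (nat_lit 21989938935) (nat_lit 1748) (nat_lit 2033872812) (nat_lit 1824) (nat_lit 1431427862) (nat_lit 467) (nat_lit 5) (nat_lit 490) (nat_lit 3) (nat_lit 491) (nat_lit 5) (nat_lit 613) (nat_lit 612) (nat_lit 335)))) (XT.nd (nat_lit 156) (nat_lit 0) (nat_lit 76) (XT.nd (nat_lit 78) (nat_lit 0) (nat_lit 76) (XT.lf (nat_lit 76) (nat_lit 10620221416) (nat_lit 0) (nat_lit 11843317807) (nat_lit 1824) (nat_lit 3243726757) (nat_lit 468) (nat_lit 5) (nat_lit 467) (nat_lit 5) (nat_lit 491) (nat_lit 5) (nat_lit 614) (nat_lit 612) (nat_lit 334)) (XT.lf (nat_lit 0) (nat_lit 22961479707) (nat_lit 1748) (nat_lit 2414420320) (nat_lit 1824) (nat_lit 588135902) (nat_lit 468) (nat_lit 5) (nat_lit 491) (nat_lit 5) (nat_lit 492) (nat_lit 5) (nat_lit 615) (nat_lit 612) (nat_lit 333))) (XT.nd (nat_lit 78) (nat_lit 0)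 (nat_lit 0) (XT.lf (nat_lit 76) (nat_lit 10570419157) (nat_lit 0) (nat_lit 13043432975) (nat_lit 1824) (nat_lit 2609200089) (nat_lit 469) (nat_lit 5) (nat_lit 468) (nat_lit 5) (nat_lit 492) (nat_lit 5) (nat_lit 616) (nat_lit 612) (nat_lit 332)) (XT.lf (nat_lit 76) (nat_lit 23846255354) (nat_lit 0) (nat_lit 446670579) (nat_lit 1824) (nat_lit 2194050227) (nat_lit 469) (nat_lit 5) (nat_lit 468) (nat_lit 5) (nat_lit 492) (nat_lit 5) (nat_lit 617) (nat_lit 612) (nat_lit 331))))))))
noncomputable def xc246 : XT := (XT.nd (nat_lit 1950) (nat_lit 3420) (nat_lit 0) (XT.nd (nat_lit 936) (nat_lit 3040) (nat_lit 0) (XT.nd (nat_lit 468) (nat_lit 0) (nat_lit 152) (XT.nd (nat_lit 234) (nat_lit 1748) (nat_lit 0) (XT.nd (nat_lit 78) (nat_lit 0) (nat_lit 0) (XT.lf (nat_lit 76) (nat_lit 10689646494) (nat_lit 0) (nat_lit 14443370164) (nat_lit 1824) (nat_lit 1620213602) (nat_lit 470) (nat_lit 5) (nat_lit 469) (nat_lit 5) (nat_lit 493) (nat_lit 5) (nat_lit 618) (nat_lit 612) (nat_lit 330))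 (XT.nd (nat_lit 78) (nat_lit 0) (nat_lit 76) (XT.lf (nat_lit 76) (nat_lit 24317971350) (nat_lit 0) (nat_lit 1690145525) (nat_lit 1824) (nat_lit 1016328797) (nat_lit 470) (nat_lit 5) (nat_lit 469) (nat_lit 5) (nat_lit 493) (nat_lit 5) (nat_lit 619) (nat_lit 612) (nat_lit 329)) (XT.lf (nat_lit 76) (nat_lit 10986913255) (nat_lit 0) (nat_lit 16056227952) (nat_lit 1824) (nat_lit 255096118) (nat_lit 471) (nat_lit 5) (nat_lit 470) (nat_lit 5) (nat_lit 494) (nat_lit 5) (nat_lit 620) (nat_lit 612) (nat_lit 328)))) (XT.nd (nat_lit 78) (nat_lit 0) (nat_lit 76) (XT.lf (nat_lit 0) (nat_lit 541623015) (nat_lit 1824) (nat_lit 2602481069) (nat_lit 1900) (nat_lit 24432791397) (nat_lit 446) (nat_lit 5) (nat_lit 470) (nat_lit 5) (nat_lit 471) (nat_lit 5) (nat_lit 621) (nat_lit 612) (nat_lit 327)) (XT.nd (nat_lit 78) (nat_lit 0) (nat_lit 0) (XT.lf (nat_lit 0) (nat_lit 1488995785) (nat_lit 1824) (nat_lit 16396671108) (nat_lit 1900) (nat_lit 9972663838) (nat_lit 447) (nat_lit 5) (nat_lit 471)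 (nat_lit 5) (nat_lit 472) (nat_lit 5) (nat_lit 622) (nat_lit 612) (nat_lit 326)) (XT.lf (nat_lit 0) (nat_lit 2491430157) (nat_lit 1824) (nat_lit 2325131855) (nat_lit 1900) (nat_lit 23328110738) (nat_lit 447) (nat_lit 5) (nat_lit 471) (nat_lit 5) (nat_lit 472) (nat_lit 5) (nat_lit 623) (nat_lit 612) (nat_lit 325))))) (XT.nd (nat_lit 234) (nat_lit 0) (nat_lit 76) (XT.nd (nat_lit 78) (nat_lit 0) (nat_lit 0) (XT.lf (nat_lit 0) (nat_lit 3646598420) (nat_lit 1824) (nat_lit 16304828973) (nat_lit 1900) (nat_lit 8482660853) (nat_lit 448) (nat_lit 5) (nat_lit 472) (nat_lit 5) (nat_lit 473) (nat_lit 5) (nat_lit 624) (nat_lit 612) (nat_lit 324)) (XT.nd (nat_lit 78) (nat_lit 0) (nat_lit 76) (XT.lf (nat_lit 0) (nat_lit 4870270663) (nat_lit 1824) (nat_lit 1858244403) (nat_lit 1900) (nat_lit 21999869308) (nat_lit 448) (nat_lit 5) (nat_lit 472) (nat_lit 5) (nat_lit 473) (nat_lit 5) (nat_lit 625) (nat_lit 612) (nat_lit 323)) (XT.lf (nat_lit 0) (nat_lit 6245413625) (nat_lit 1824) (nat_lit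 16024469385) (nat_lit 1900) (nat_lit 6756143796) (nat_lit 449) (nat_lit 5) (nat_lit 473) (nat_lit 5) (nat_lit 474) (nat_lit 5) (nat_lit 626) (nat_lit 612) (nat_lit 322)))) (XT.nd (nat_lit 78) (nat_lit 0) (nat_lit 76) (XT.lf (nat_lit 0) (nat_lit 7703048348) (nat_lit 1824) (nat_lit 1191797498) (nat_lit 1900) (nat_lit 20433676781) (nat_lit 449) (nat_lit 5) (nat_lit 473) (nat_lit 5) (nat_lit 474) (nat_lit 5) (nat_lit 627) (nat_lit 612) (nat_lit 321)) (XT.nd (nat_lit 78) (nat_lit 0) (nat_lit 0) (XT.lf (nat_lit 0) (nat_lit 9310874775) (nat_lit 1824) (nat_lit 15545479290) (nat_lit 1900) (nat_lit 4778293837) (nat_lit 450) (nat_lit 5) (nat_lit 474) (nat_lit 5) (nat_lit 475) (nat_lit 5) (nat_lit 628) (nat_lit 612) (nat_lit 320)) (XT.lf (nat_lit 0) (nat_lit 11015767814) (nat_lit 1824) (nat_lit 315317772) (nat_lit 1900) (nat_lit 18614512202) (nat_lit 450) (nat_lit 5) (nat_lit 474) (nat_lit 5) (nat_lit 475) (nat_lit 5) (nat_lit 629) (nat_lit 612) (nat_lit 319)))))) (XT.nd (nat_lit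 468) (nat_lit 3420) (nat_lit 0) (XT.nd (nat_lit 234) (nat_lit 0) (nat_lit 76) (XT.nd (nat_lit 78) (nat_lit 0) (nat_lit 0) (XT.lf (nat_lit 0) (nat_lit 12869538876) (nat_lit 1824) (nat_lit 14857289939) (nat_lit 1900) (nat_lit 2533642555) (nat_lit 451) (nat_lit 5) (nat_lit 475) (nat_lit 5) (nat_lit 476) (nat_lit 5) (nat_lit 630) (nat_lit 612) (nat_lit 318)) (XT.nd (nat_lit 78) (nat_lit 0) (nat_lit 76) (XT.lf (nat_lit 76) (nat_lit 792529530) (nat_lit 0) (nat_lit 14048197925) (nat_lit 1900) (nat_lit 15739308424) (nat_lit 452) (nat_lit 5) (nat_lit 451) (nat_lit 5) (nat_lit 476) (nat_lit 5) (nat_lit 631) (nat_lit 612) (nat_lit 317)) (XT.lf (nat_lit 0) (nat_lit 16949134782) (nat_lit 1824) (nat_lit 13948861687) (nat_lit 1900) (nat_lit 6039599) (nat_lit 452) (nat_lit 5) (nat_lit 476) (nat_lit 5) (nat_lit 477) (nat_lit 5) (nat_lit 632) (nat_lit 612) (nat_lit 316)))) (XT.nd (nat_lit 78) (nat_lit 0) (nat_lit 0) (XT.lf (nat_lit 76) (nat_lit 2140052470) (nat_lit 0) (nat_lit 17064682666)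 (nat_lit 1900) (nat_lit 12027680913) (nat_lit 453) (nat_lit 5) (nat_lit 452) (nat_lit 5) (nat_lit 477) (nat_lit 5) (nat_lit 633) (nat_lit 612) (nat_lit 315)) (XT.nd (nat_lit 78) (nat_lit 0) (nat_lit 76) (XT.lf (nat_lit 76) (nat_lit 18738299362) (nat_lit 0) (nat_lit 2858875587) (nat_lit 1900) (nat_lit 9968354411) (nat_lit 453) (nat_lit 5) (nat_lit 452) (nat_lit 5) (nat_lit 477) (nat_lit 5) (nat_lit 634) (nat_lit 612) (nat_lit 314)) (XT.lf (nat_lit 76) (nat_lit 3735141404) (nat_lit 0) (nat_lit 20400251923) (nat_lit 1900) (nat_lit 7767953288) (nat_lit 454) (nat_lit 5) (nat_lit 453) (nat_lit 5) (nat_lit 478) (nat_lit 5) (nat_lit 635) (nat_lit 612) (nat_lit 313))))) (XT.nd (nat_lit 234) (nat_lit 1976) (nat_lit 0) (XT.nd (nat_lit 78) (nat_lit 1596) (nat_lit 0) (XT.lf (nat_lit 76) (nat_lit 20781926832) (nat_lit 0) (nat_lit 6045523506) (nat_lit 1900) (nat_lit 5418408661) (nat_lit 454) (nat_lit 5) (nat_lit 453) (nat_lit 5) (nat_lit 478) (nat_lit 5) (nat_lit 636) (nat_lit 612)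 (nat_lit 312)) (XT.nd (nat_lit 78) (nat_lit 0) (nat_lit 0) (XT.lf (nat_lit 0) (nat_lit 5590399533) (nat_lit 1672) (nat_lit 24073284167) (nat_lit 1748) (nat_lit 2929731488) (nat_lit 432) (nat_lit 5) (nat_lit 454) (nat_lit 5) (nat_lit 455) (nat_lit 5) (nat_lit 637) (nat_lit 612) (nat_lit 311)) (XT.lf (nat_lit 0) (nat_lit 23099122906) (nat_lit 1672) (nat_lit 9572471677) (nat_lit 1748) (nat_lit 274029120) (nat_lit 432) (nat_lit 5) (nat_lit 454) (nat_lit 5) (nat_lit 455) (nat_lit 5) (nat_lit 638) (nat_lit 612) (nat_lit 310)))) (XT.nd (nat_lit 156) (nat_lit 912) (nat_lit 0) (XT.nd (nat_lit 78) (nat_lit 0) (nat_lit 0) (XT.lf (nat_lit 0) (nat_lit 2485683404) (nat_lit 1064) (nat_lit 25600614208) (nat_lit 76) (nat_lit 5216606284) (nat_lit 418) (nat_lit 5) (nat_lit 432) (nat_lit 5) (nat_lit 419) (nat_lit 5) (nat_lit 639) (nat_lit 612) (nat_lit 309)) (XT.lf (nat_lit 0) (nat_lit 5425129695) (nat_lit 1064) (nat_lit 7997668355) (nat_lit 76) (nat_lit 20241931484) (nat_lit 418) (nat_lit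 5) (nat_lit 432) (nat_lit 5) (nat_lit 419) (nat_lit 5) (nat_lit 640) (nat_lit 612) (nat_lit 308))) (XT.nd (nat_lit 78) (nat_lit 0) (nat_lit 0) (XT.lf (nat_lit 0) (nat_lit 8497590157) (nat_lit 988) (nat_lit 23954777189) (nat_lit 76) (nat_lit 1579940070) (nat_lit 406) (nat_lit 5) (nat_lit 419) (nat_lit 5) (nat_lit 407) (nat_lit 5) (nat_lit 641) (nat_lit 612) (nat_lit 307)) (XT.lf (nat_lit 0) (nat_lit 11772772458) (nat_lit 988) (nat_lit 5874304076) (nat_lit 76) (nat_lit 16757335105) (nat_lit 406) (nat_lit 5) (nat_lit 419) (nat_lit 5) (nat_lit 407) (nat_lit 5) (nat_lit 642) (nat_lit 612) (nat_lit 306))))))) (XT.nd (nat_lit 79248) (nat_lit 0) (nat_lit 6460) (XT.nd (nat_lit 468) (nat_lit 76) (nat_lit 0) (XT.nd (nat_lit 234) (nat_lit 1596) (nat_lit 0) (XT.nd (nat_lit 78) (nat_lit 836) (nat_lit 0) (XT.lf (nat_lit 0) (nat_lit 12733272016) (nat_lit 912) (nat_lit 2461247414) (nat_lit 988) (nat_lit 19587817524) (nat_lit 394) (nat_lit 5) (nat_lit 406) (nat_lit 5) (nat_lit 407) (nat_lit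 5) (nat_lit 643) (nat_lit 612) (nat_lit 305)) (XT.nd (nat_lit 78) (nat_lit 836) (nat_lit 0) (XT.lf (nat_lit 0) (nat_lit 18807381109) (nat_lit 988) (nat_lit 3460782790) (nat_lit 76) (nat_lit 12897203506) (nat_lit 394) (nat_lit 5) (nat_lit 407) (nat_lit 5) (nat_lit 395) (nat_lit 5) (nat_lit 644) (nat_lit 612) (nat_lit 304)) (XT.lf (nat_lit 0) (nat_lit 15687207500) (nat_lit 836) (nat_lit 6921885774) (nat_lit 912) (nat_lit 12944633546) (nat_lit 383) (nat_lit 5) (nat_lit 394) (nat_lit 5) (nat_lit 395) (nat_lit 5) (nat_lit 645) (nat_lit 612) (nat_lit 303)))) (XT.nd (nat_lit 78) (nat_lit 1596) (nat_lit 0) (XT.lf (nat_lit 0) (nat_lit 26565369712) (nat_lit 912) (nat_lit 742682655) (nat_lit 76) (nat_lit 8640230670) (nat_lit 383) (nat_lit 5) (nat_lit 395) (nat_lit 5) (nat_lit 384) (nat_lit 5) (nat_lit 646) (nat_lit 612) (nat_lit 302)) (XT.nd (nat_lit 78) (nat_lit 760) (nat_lit 0) (XT.lf (nat_lit 0) (nat_lit 18965030205) (nat_lit 836) (nat_lit 11803208518) (nat_lit 912) (nat_lit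 5579142528) (nat_lit 372) (nat_lit 5) (nat_lit 383) (nat_lit 5) (nat_lit 384) (nat_lit 5) (nat_lit 647) (nat_lit 612) (nat_lit 301)) (XT.lf (nat_lit 0) (nat_lit 2325512306) (nat_lit 760) (nat_lit 32774328365) (nat_lit 836) (nat_lit 1653727455) (nat_lit 362) (nat_lit 5) (nat_lit 372) (nat_lit 5) (nat_lit 373) (nat_lit 5) (nat_lit 648) (nat_lit 612) (nat_lit 300))))) (XT.nd (nat_lit 78546) (nat_lit 0) (nat_lit 8056) (XT.nd (nat_lit 78390) (nat_lit 0) (nat_lit 8056) (XT.lf (nat_lit 0) (nat_lit 2513479484) (nat_lit 836) (nat_lit 14598109128) (nat_lit 76) (nat_lit 20052103008) (nat_lit 361) (nat_lit 5) (nat_lit 372) (nat_lit 5) (nat_lit 362) (nat_lit 5) (nat_lit 649) (nat_lit 612) (nat_lit 299)) (XT.nd (nat_lit 78) (nat_lit 0) (nat_lit 0) (XT.lf (nat_lit 0) (nat_lit 5574700290) (nat_lit 0) (nat_lit 5574700290) (nat_lit 1748) (nat_lit 1703315978) (nat_lit 467) (nat_lit 5) (nat_lit 467) (nat_lit 3) (nat_lit 490) (nat_lit 3) (nat_lit 613) (nat_lit 613) (nat_lit 334)) (XT.lf (nat_lit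 0) (nat_lit 22629751514) (nat_lit 1748) (nat_lit 1969521491) (nat_lit 1824) (nat_lit 1361039686) (nat_lit 467) (nat_lit 5) (nat_lit 490) (nat_lit 3) (nat_lit 491) (nat_lit 5) (nat_lit 614) (nat_lit 613) (nat_lit 333)))) (XT.nd (nat_lit 78) (nat_lit 0) (nat_lit 76) (XT.lf (nat_lit 76) (nat_lit 10936963642) (nat_lit 0) (nat_lit 12172615756) (nat_lit 1824) (nat_lit 3107865697) (nat_lit 468) (nat_lit 5) (nat_lit 467) (nat_lit 5) (nat_lit 491) (nat_lit 5) (nat_lit 615) (nat_lit 613) (nat_lit 332)) (XT.nd (nat_lit 78) (nat_lit 0) (nat_lit 0) (XT.lf (nat_lit 0) (nat_lit 23613032109) (nat_lit 1748) (nat_lit 2355939971) (nat_lit 1824) (nat_lit 510467899) (nat_lit 468) (nat_lit 5) (nat_lit 491) (nat_lit 5) (nat_lit 492) (nat_lit 5) (nat_lit 616) (nat_lit 613) (nat_lit 331)) (XT.lf (nat_lit 76) (nat_lit 10887893869) (nat_lit 0) (nat_lit 13387475731) (nat_lit 1824) (nat_lit 2468329237) (nat_lit 469) (nat_lit 5) (nat_lit 468) (nat_lit 5) (nat_lit 492) (nat_lit 5) (nat_lit 617) (nat_lit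 613) (nat_lit 330)))))) (XT.nd (nat_lit 468) (nat_lit 0) (nat_lit 76) (XT.nd (nat_lit 234) (nat_lit 1672) (nat_lit 0) (XT.nd (nat_lit 78) (nat_lit 0) (nat_lit 76) (XT.lf (nat_lit 76) (nat_lit 24427167059) (nat_lit 0) (nat_lit 537147222) (nat_lit 1824) (nat_lit 2048661767) (nat_lit 469) (nat_lit 5) (nat_lit 468) (nat_lit 5) (nat_lit 492) (nat_lit 5) (nat_lit 618) (nat_lit 613) (nat_lit 329)) (XT.nd (nat_lit 78) (nat_lit 0) (nat_lit 0) (XT.lf (nat_lit 76) (nat_lit 11010982882) (nat_lit 0) (nat_lit 14806765290) (nat_lit 1824) (nat_lit 1466876800) (nat_lit 470) (nat_lit 5) (nat_lit 469) (nat_lit 5) (nat_lit 493) (nat_lit 5) (nat_lit 619) (nat_lit 613) (nat_lit 328)) (XT.lf (nat_lit 76) (nat_lit 24909765539) (nat_lit 0) (nat_lit 1797014830) (nat_lit 1824) (nat_lit 854556280) (nat_lit 470) (nat_lit 5) (nat_lit 469) (nat_lit 5) (nat_lit 493) (nat_lit 5) (nat_lit 620) (nat_lit 613) (nat_lit 327)))) (XT.nd (nat_lit 78) (nat_lit 1824) (nat_lit 0) (XT.lf (nat_lit 76) (nat_lit 11315438172)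 (nat_lit 0) (nat_lit 16443808215) (nat_lit 1824) (nat_lit 81423473) (nat_lit 471) (nat_lit 5) (nat_lit 470) (nat_lit 5) (nat_lit 494) (nat_lit 5) (nat_lit 621) (nat_lit 613) (nat_lit 326)) (XT.nd (nat_lit 78) (nat_lit 0) (nat_lit 76) (XT.lf (nat_lit 0) (nat_lit 725425973) (nat_lit 1824) (nat_lit 2545552121) (nat_lit 1900) (nat_lit 24853969585) (nat_lit 446) (nat_lit 5) (nat_lit 470) (nat_lit 5) (nat_lit 471) (nat_lit 5) (nat_lit 622) (nat_lit 613) (nat_lit 325)) (XT.lf (nat_lit 0) (nat_lit 1688654849) (nat_lit 1824) (nat_lit 16612508826) (nat_lit 1900) (nat_lit 10110910302) (nat_lit 447) (nat_lit 5) (nat_lit 471) (nat_lit 5) (nat_lit 472) (nat_lit 5) (nat_lit 623) (nat_lit 613) (nat_lit 324))))) (XT.nd (nat_lit 234) (nat_lit 0) (nat_lit 152) (XT.nd (nat_lit 78) (nat_lit 0) (nat_lit 76) (XT.lf (nat_lit 0) (nat_lit 2707806945) (nat_lit 1824) (nat_lit 2261736743) (nat_lit 1900) (nat_lit 23734666272) (nat_lit 447) (nat_lit 5) (nat_lit 471) (nat_lit 5) (nat_lit 472) (nat_lit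 5) (nat_lit 624) (nat_lit 613) (nat_lit 323)) (XT.nd (nat_lit 78) (nat_lit 0) (nat_lit 0) (XT.lf (nat_lit 0) (nat_lit 3883165852) (nat_lit 1824) (nat_lit 16518090296) (nat_lit 1900) (nat_lit 8598216369) (nat_lit 448) (nat_lit 5) (nat_lit 472) (nat_lit 5) (nat_lit 473) (nat_lit 5) (nat_lit 625) (nat_lit 613) (nat_lit 322)) (XT.lf (nat_lit 0) (nat_lit 5128103001) (nat_lit 1824) (nat_lit 1784786491) (nat_lit 1900) (nat_lit 22386829732) (nat_lit 448) (nat_lit 5) (nat_lit 472) (nat_lit 5) (nat_lit 473) (nat_lit 5) (nat_lit 626) (nat_lit 613) (nat_lit 321)))) (XT.nd (nat_lit 156) (nat_lit 0) (nat_lit 76) (XT.nd (nat_lit 78) (nat_lit 0) (nat_lit 0) (XT.lf (nat_lit 0) (nat_lit 6528004412) (nat_lit 1824) (nat_lit 16231567739) (nat_lit 1900) (nat_lit 6843797718) (nat_lit 449) (nat_lit 5) (nat_lit 473) (nat_lit 5) (nat_lit 474) (nat_lit 5) (nat_lit 627) (nat_lit 613) (nat_lit 320)) (XT.lf (nat_lit 0) (nat_lit 8011700016) (nat_lit 1824) (nat_lit 1104465769) (nat_lit 1900) (nat_lit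 20795812127) (nat_lit 449) (nat_lit 5) (nat_lit 473) (nat_lit 5) (nat_lit 474) (nat_lit 5) (nat_lit 628) (nat_lit 613) (nat_lit 319))) (XT.nd (nat_lit 78) (nat_lit 0) (nat_lit 0) (XT.lf (nat_lit 0) (nat_lit 9649097151) (nat_lit 1824) (nat_lit 15742612480) (nat_lit 1900) (nat_lit 4832568234) (nat_lit 450) (nat_lit 5) (nat_lit 474) (nat_lit 5) (nat_lit 475) (nat_lit 5) (nat_lit 629) (nat_lit 613) (nat_lit 318)) (XT.lf (nat_lit 0) (nat_lit 11385107564) (nat_lit 1824) (nat_lit 210078640) (nat_lit 1900) (nat_lit 18946320602) (nat_lit 450) (nat_lit 5) (nat_lit 474) (nat_lit 5) (nat_lit 475) (nat_lit 5) (nat_lit 630) (nat_lit 613) (nat_lit 317))))))))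
noncomputable def xc247 : XT := (XT.nd (nat_lit 80340) (nat_lit 0) (nat_lit 3344) (XT.nd (nat_lit 936) (nat_lit 3344) (nat_lit 0) (XT.nd (nat_lit 468) (nat_lit 3420) (nat_lit 0) (XT.nd (nat_lit 234) (nat_lit 0) (nat_lit 76) (XT.nd (nat_lit 78) (nat_lit 0) (nat_lit 0) (XT.lf (nat_lit 0) (nat_lit 13273517661) (nat_lit 1824) (nat_lit 15040431856) (nat_lit 1900) (nat_lit 2548777512) (nat_lit 451) (nat_lit 5) (nat_lit 475) (nat_lit 5) (nat_lit 476) (nat_lit 5) (nat_lit 631) (nat_lit 613) (nat_lit 316)) (XT.nd (nat_lit 78) (nat_lit 0) (nat_lit 0) (XT.lf (nat_lit 76) (nat_lit 921633976) (nat_lit 0) (nat_lit 14360357079) (nat_lit 1900) (nat_lit 15906734983) (nat_lit 452) (nat_lit 5) (nat_lit 451) (nat_lit 5) (nat_lit 476) (nat_lit 5) (nat_lit 632) (nat_lit 613) (nat_lit 315)) (XT.lf (nat_lit 76) (nat_lit 17405352401) (nat_lit 0) (nat_lit 24341265) (nat_lit 1900) (nat_lit 14089570446) (nat_lit 452) (nat_lit 5) (nat_lit 451) (nat_lit 5) (nat_lit 476) (nat_lit 5) (nat_lit 633) (nat_lit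 613) (nat_lit 314)))) (XT.nd (nat_lit 78) (nat_lit 0) (nat_lit 0) (XT.lf (nat_lit 76) (nat_lit 2296188207) (nat_lit 0) (nat_lit 17432022720) (nat_lit 1900) (nat_lit 12126045082) (nat_lit 453) (nat_lit 5) (nat_lit 452) (nat_lit 5) (nat_lit 477) (nat_lit 5) (nat_lit 634) (nat_lit 613) (nat_lit 313)) (XT.nd (nat_lit 78) (nat_lit 0) (nat_lit 76) (XT.lf (nat_lit 76) (nat_lit 19224177788) (nat_lit 0) (nat_lit 2941588785) (nat_lit 1900) (nat_lit 10028320079) (nat_lit 453) (nat_lit 5) (nat_lit 452) (nat_lit 5) (nat_lit 477) (nat_lit 5) (nat_lit 635) (nat_lit 613) (nat_lit 312)) (XT.lf (nat_lit 76) (nat_lit 3923125553) (nat_lit 0) (nat_lit 20829517344) (nat_lit 1900) (nat_lit 7786059882) (nat_lit 454) (nat_lit 5) (nat_lit 453) (nat_lit 5) (nat_lit 478) (nat_lit 5) (nat_lit 636) (nat_lit 613) (nat_lit 311))))) (XT.nd (nat_lit 234) (nat_lit 1976) (nat_lit 0) (XT.nd (nat_lit 78) (nat_lit 1596) (nat_lit 0) (XT.lf (nat_lit 76) (nat_lit 21308625487) (nat_lit 0) (nat_lit 6187277489)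 (nat_lit 1900) (nat_lit 5392215587) (nat_lit 454) (nat_lit 5) (nat_lit 453) (nat_lit 5) (nat_lit 478) (nat_lit 5) (nat_lit 637) (nat_lit 613) (nat_lit 310)) (XT.nd (nat_lit 78) (nat_lit 0) (nat_lit 0) (XT.lf (nat_lit 0) (nat_lit 5815311555) (nat_lit 1672) (nat_lit 24571564776) (nat_lit 1748) (nat_lit 2855789623) (nat_lit 432) (nat_lit 5) (nat_lit 454) (nat_lit 5) (nat_lit 455) (nat_lit 5) (nat_lit 638) (nat_lit 613) (nat_lit 309)) (XT.lf (nat_lit 0) (nat_lit 23671991669) (nat_lit 1672) (nat_lit 9780406331) (nat_lit 1748) (nat_lit 149571962) (nat_lit 432) (nat_lit 5) (nat_lit 454) (nat_lit 5) (nat_lit 455) (nat_lit 5) (nat_lit 639) (nat_lit 613) (nat_lit 308)))) (XT.nd (nat_lit 78) (nat_lit 912) (nat_lit 0) (XT.lf (nat_lit 0) (nat_lit 2661747945) (nat_lit 1064) (nat_lit 25998116851) (nat_lit 76) (nat_lit 5306552105) (nat_lit 418) (nat_lit 5) (nat_lit 432) (nat_lit 5) (nat_lit 419) (nat_lit 5) (nat_lit 640) (nat_lit 613) (nat_lit 307)) (XT.nd (nat_lit 78) (nat_lit 912)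 (nat_lit 0) (XT.lf (nat_lit 0) (nat_lit 5657505694) (nat_lit 1064) (nat_lit 8045357368) (nat_lit 76) (nat_lit 20632665893) (nat_lit 418) (nat_lit 5) (nat_lit 432) (nat_lit 5) (nat_lit 419) (nat_lit 5) (nat_lit 641) (nat_lit 613) (nat_lit 306)) (XT.lf (nat_lit 0) (nat_lit 8789641475) (nat_lit 988) (nat_lit 24319817134) (nat_lit 76) (nat_lit 1601035613) (nat_lit 406) (nat_lit 5) (nat_lit 419) (nat_lit 5) (nat_lit 407) (nat_lit 5) (nat_lit 642) (nat_lit 613) (nat_lit 305)))))) (XT.nd (nat_lit 468) (nat_lit 760) (nat_lit 0) (XT.nd (nat_lit 234) (nat_lit 1672) (nat_lit 0) (XT.nd (nat_lit 78) (nat_lit 912) (nat_lit 0) (XT.lf (nat_lit 0) (nat_lit 12127933313) (nat_lit 988) (nat_lit 5879970942) (nat_lit 76) (nat_lit 17082184494) (nat_lit 406) (nat_lit 5) (nat_lit 419) (nat_lit 5) (nat_lit 407) (nat_lit 5) (nat_lit 643) (nat_lit 613) (nat_lit 304)) (XT.nd (nat_lit 78) (nat_lit 0) (nat_lit 0) (XT.lf (nat_lit 0) (nat_lit 13099021019) (nat_lit 912) (nat_lit 2517468270) (nat_lit 988)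 (nat_lit 19859116136) (nat_lit 394) (nat_lit 5) (nat_lit 406) (nat_lit 5) (nat_lit 407) (nat_lit 5) (nat_lit 644) (nat_lit 613) (nat_lit 303)) (XT.lf (nat_lit 0) (nat_lit 19299248385) (nat_lit 988) (nat_lit 3418716825) (nat_lit 76) (nat_lit 13148378797) (nat_lit 394) (nat_lit 5) (nat_lit 407) (nat_lit 5) (nat_lit 395) (nat_lit 5) (nat_lit 645) (nat_lit 613) (nat_lit 302)))) (XT.nd (nat_lit 78) (nat_lit 836) (nat_lit 0) (XT.lf (nat_lit 0) (nat_lit 16111501154) (nat_lit 836) (nat_lit 7063942387) (nat_lit 912) (nat_lit 13087058415) (nat_lit 383) (nat_lit 5) (nat_lit 394) (nat_lit 5) (nat_lit 395) (nat_lit 5) (nat_lit 646) (nat_lit 613) (nat_lit 301)) (XT.nd (nat_lit 78) (nat_lit 836) (nat_lit 0) (XT.lf (nat_lit 0) (nat_lit 27208583877) (nat_lit 912) (nat_lit 646877091) (nat_lit 76) (nat_lit 8809533877) (nat_lit 383) (nat_lit 5) (nat_lit 395) (nat_lit 5) (nat_lit 384) (nat_lit 5) (nat_lit 647) (nat_lit 613) (nat_lit 300)) (XT.lf (nat_lit 0) (nat_lit 19454262005) (nat_lit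 836) (nat_lit 12039767759) (nat_lit 912) (nat_lit 5578075177) (nat_lit 372) (nat_lit 5) (nat_lit 383) (nat_lit 5) (nat_lit 384) (nat_lit 5) (nat_lit 648) (nat_lit 613) (nat_lit 299))))) (XT.nd (nat_lit 78624) (nat_lit 0) (nat_lit 7980) (XT.nd (nat_lit 78468) (nat_lit 0) (nat_lit 7980) (XT.lf (nat_lit 0) (nat_lit 2483443014) (nat_lit 760) (nat_lit 33427375780) (nat_lit 836) (nat_lit 1575625961) (nat_lit 362) (nat_lit 5) (nat_lit 372) (nat_lit 5) (nat_lit 373) (nat_lit 5) (nat_lit 649) (nat_lit 613) (nat_lit 298)) (XT.nd (nat_lit 78) (nat_lit 0) (nat_lit 0) (XT.lf (nat_lit 0) (nat_lit 5735376949) (nat_lit 0) (nat_lit 5735376949) (nat_lit 1748) (nat_lit 1637034276) (nat_lit 467) (nat_lit 5) (nat_lit 467) (nat_lit 3) (nat_lit 490) (nat_lit 3) (nat_lit 614) (nat_lit 614) (nat_lit 332)) (XT.lf (nat_lit 0) (nat_lit 23274593564) (nat_lit 1748) (nat_lit 1907961540) (nat_lit 1824) (nat_lit 1293088688) (nat_lit 467) (nat_lit 5) (nat_lit 490) (nat_lit 3) (nat_lit 491) (nat_lit 5)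 (nat_lit 615) (nat_lit 614) (nat_lit 331)))) (XT.nd (nat_lit 156) (nat_lit 0) (nat_lit 76) (XT.nd (nat_lit 78) (nat_lit 0) (nat_lit 76) (XT.lf (nat_lit 76) (nat_lit 11255989149) (nat_lit 0) (nat_lit 12504910432) (nat_lit 1824) (nat_lit 2977082223) (nat_lit 468) (nat_lit 5) (nat_lit 467) (nat_lit 5) (nat_lit 491) (nat_lit 5) (nat_lit 616) (nat_lit 614) (nat_lit 330)) (XT.lf (nat_lit 0) (nat_lit 24270147429) (nat_lit 1748) (nat_lit 2300435977) (nat_lit 1824) (nat_lit 434719239) (nat_lit 468) (nat_lit 5) (nat_lit 491) (nat_lit 5) (nat_lit 492) (nat_lit 5) (nat_lit 617) (nat_lit 614) (nat_lit 329))) (XT.nd (nat_lit 78) (nat_lit 0) (nat_lit 0) (XT.lf (nat_lit 76) (nat_lit 11207599391) (nat_lit 0) (nat_lit 13735169590) (nat_lit 1824) (nat_lit 2332137523) (nat_lit 469) (nat_lit 5) (nat_lit 468) (nat_lit 5) (nat_lit 492) (nat_lit 5) (nat_lit 618) (nat_lit 614) (nat_lit 328)) (XT.lf (nat_lit 76) (nat_lit 25015659071) (nat_lit 0) (nat_lit 626266974) (nat_lit 1824) (nat_lit 1907715102)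 (nat_lit 469) (nat_lit 5) (nat_lit 468) (nat_lit 5) (nat_lit 492) (nat_lit 5) (nat_lit 619) (nat_lit 614) (nat_lit 327))))))) (XT.nd (nat_lit 936) (nat_lit 3040) (nat_lit 0) (XT.nd (nat_lit 468) (nat_lit 0) (nat_lit 152) (XT.nd (nat_lit 234) (nat_lit 0) (nat_lit 0) (XT.nd (nat_lit 78) (nat_lit 1748) (nat_lit 0) (XT.lf (nat_lit 76) (nat_lit 11334569954) (nat_lit 0) (nat_lit 15174534316) (nat_lit 1824) (nat_lit 1317685814) (nat_lit 470) (nat_lit 5) (nat_lit 469) (nat_lit 5) (nat_lit 493) (nat_lit 5) (nat_lit 620) (nat_lit 614) (nat_lit 326)) (XT.nd (nat_lit 78) (nat_lit 1748) (nat_lit 0) (XT.lf (nat_lit 76) (nat_lit 25509301452) (nat_lit 0) (nat_lit 1903184264) (nat_lit 1824) (nat_lit 696619443) (nat_lit 470) (nat_lit 5) (nat_lit 469) (nat_lit 5) (nat_lit 493) (nat_lit 5) (nat_lit 621) (nat_lit 614) (nat_lit 325)) (XT.lf (nat_lit 0) (nat_lit 87616216) (nat_lit 1824) (nat_lit 16748355359) (nat_lit 1900) (nat_lit 11558105101) (nat_lit 446) (nat_lit 5) (nat_lit 470) (nat_lit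 5) (nat_lit 471) (nat_lit 5) (nat_lit 622) (nat_lit 614) (nat_lit 324)))) (XT.nd (nat_lit 78) (nat_lit 0) (nat_lit 76) (XT.lf (nat_lit 0) (nat_lit 906188334) (nat_lit 1824) (nat_lit 2491716365) (nat_lit 1900) (nat_lit 25286191576) (nat_lit 446) (nat_lit 5) (nat_lit 470) (nat_lit 5) (nat_lit 471) (nat_lit 5) (nat_lit 623) (nat_lit 614) (nat_lit 323)) (XT.nd (nat_lit 78) (nat_lit 0) (nat_lit 0) (XT.lf (nat_lit 0) (nat_lit 1885710480) (nat_lit 1824) (nat_lit 16837016111) (nat_lit 1900) (nat_lit 10254298429) (nat_lit 447) (nat_lit 5) (nat_lit 471) (nat_lit 5) (nat_lit 472) (nat_lit 5) (nat_lit 624) (nat_lit 614) (nat_lit 322)) (XT.lf (nat_lit 0) (nat_lit 2922044000) (nat_lit 1824) (nat_lit 2201341192) (nat_lit 1900) (nat_lit 24151683050) (nat_lit 447) (nat_lit 5) (nat_lit 471) (nat_lit 5) (nat_lit 472) (nat_lit 5) (nat_lit 625) (nat_lit 614) (nat_lit 321))))) (XT.nd (nat_lit 234) (nat_lit 0) (nat_lit 76) (XT.nd (nat_lit 78) (nat_lit 0) (nat_lit 0) (XT.lf (nat_lit 0) (nat_lit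 4118110468) (nat_lit 1824) (nat_lit 16739998376) (nat_lit 1900) (nat_lit 8718183675) (nat_lit 448) (nat_lit 5) (nat_lit 472) (nat_lit 5) (nat_lit 473) (nat_lit 5) (nat_lit 626) (nat_lit 614) (nat_lit 320)) (XT.nd (nat_lit 78) (nat_lit 0) (nat_lit 76) (XT.lf (nat_lit 0) (nat_lit 5384862412) (nat_lit 1824) (nat_lit 1714155039) (nat_lit 1900) (nat_lit 22783588855) (nat_lit 448) (nat_lit 5) (nat_lit 472) (nat_lit 5) (nat_lit 473) (nat_lit 5) (nat_lit 627) (nat_lit 614) (nat_lit 319)) (XT.lf (nat_lit 0) (nat_lit 6810124010) (nat_lit 1824) (nat_lit 16447211172) (nat_lit 1900) (nat_lit 6935047996) (nat_lit 449) (nat_lit 5) (nat_lit 473) (nat_lit 5) (nat_lit 474) (nat_lit 5) (nat_lit 628) (nat_lit 614) (nat_lit 318)))) (XT.nd (nat_lit 78) (nat_lit 0) (nat_lit 76) (XT.lf (nat_lit 0) (nat_lit 8320521771) (nat_lit 1824) (nat_lit 1019704181) (nat_lit 1900) (nat_lit 21166997314) (nat_lit 449) (nat_lit 5) (nat_lit 473) (nat_lit 5) (nat_lit 474) (nat_lit 5) (nat_lit 629) (nat_lit 614)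 (nat_lit 317)) (XT.nd (nat_lit 78) (nat_lit 0) (nat_lit 0) (XT.lf (nat_lit 0) (nat_lit 9988181441) (nat_lit 1824) (nat_lit 15948106409) (nat_lit 1900) (nat_lit 4889531516) (nat_lit 450) (nat_lit 5) (nat_lit 474) (nat_lit 5) (nat_lit 475) (nat_lit 5) (nat_lit 630) (nat_lit 614) (nat_lit 316)) (XT.lf (nat_lit 0) (nat_lit 11756047310) (nat_lit 1824) (nat_lit 107066174) (nat_lit 1900) (nat_lit 19286337130) (nat_lit 450) (nat_lit 5) (nat_lit 474) (nat_lit 5) (nat_lit 475) (nat_lit 5) (nat_lit 631) (nat_lit 614) (nat_lit 315)))))) (XT.nd (nat_lit 468) (nat_lit 3420) (nat_lit 0) (XT.nd (nat_lit 234) (nat_lit 0) (nat_lit 76) (XT.nd (nat_lit 78) (nat_lit 0) (nat_lit 0) (XT.lf (nat_lit 0) (nat_lit 13679883830) (nat_lit 1824) (nat_lit 15231663522) (nat_lit 1900) (nat_lit 2565595148) (nat_lit 451) (nat_lit 5) (nat_lit 475) (nat_lit 5) (nat_lit 476) (nat_lit 5) (nat_lit 632) (nat_lit 614) (nat_lit 314)) (XT.nd (nat_lit 78) (nat_lit 0) (nat_lit 0) (XT.lf (nat_lit 76) (nat_lit 1048922726)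 (nat_lit 0) (nat_lit 14677548069) (nat_lit 1900) (nat_lit 16083232226) (nat_lit 452) (nat_lit 5) (nat_lit 451) (nat_lit 5) (nat_lit 476) (nat_lit 5) (nat_lit 633) (nat_lit 614) (nat_lit 313)) (XT.lf (nat_lit 76) (nat_lit 17860181087) (nat_lit 0) (nat_lit 54224020) (nat_lit 1900) (nat_lit 14232501604) (nat_lit 452) (nat_lit 5) (nat_lit 451) (nat_lit 5) (nat_lit 476) (nat_lit 5) (nat_lit 634) (nat_lit 614) (nat_lit 312)))) (XT.nd (nat_lit 78) (nat_lit 0) (nat_lit 0) (XT.lf (nat_lit 76) (nat_lit 2451045735) (nat_lit 0) (nat_lit 17805698161) (nat_lit 1900) (nat_lit 12231897924) (nat_lit 453) (nat_lit 5) (nat_lit 452) (nat_lit 5) (nat_lit 477) (nat_lit 5) (nat_lit 635) (nat_lit 614) (nat_lit 311)) (XT.nd (nat_lit 78) (nat_lit 0) (nat_lit 76) (XT.lf (nat_lit 76) (nat_lit 19715459151) (nat_lit 0) (nat_lit 3024964666) (nat_lit 1900) (nat_lit 10094898187) (nat_lit 453) (nat_lit 5) (nat_lit 452) (nat_lit 5) (nat_lit 477) (nat_lit 5) (nat_lit 636) (nat_lit 614) (nat_lit 310)) (XT.lf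 (nat_lit 76) (nat_lit 4110470534) (nat_lit 0) (nat_lit 21266542508) (nat_lit 1900) (nat_lit 7809858288) (nat_lit 454) (nat_lit 5) (nat_lit 453) (nat_lit 5) (nat_lit 478) (nat_lit 5) (nat_lit 637) (nat_lit 614) (nat_lit 309))))) (XT.nd (nat_lit 234) (nat_lit 1976) (nat_lit 0) (XT.nd (nat_lit 78) (nat_lit 1596) (nat_lit 0) (XT.lf (nat_lit 76) (nat_lit 21841545516) (nat_lit 0) (nat_lit 6331057172) (nat_lit 1900) (nat_lit 5370723829) (nat_lit 454) (nat_lit 5) (nat_lit 453) (nat_lit 5) (nat_lit 478) (nat_lit 5) (nat_lit 638) (nat_lit 614) (nat_lit 308)) (XT.nd (nat_lit 78) (nat_lit 0) (nat_lit 0) (XT.lf (nat_lit 0) (nat_lit 6040329850) (nat_lit 1672) (nat_lit 25079158052) (nat_lit 1748) (nat_lit 2785515474) (nat_lit 432) (nat_lit 5) (nat_lit 454) (nat_lit 5) (nat_lit 455) (nat_lit 5) (nat_lit 639) (nat_lit 614) (nat_lit 307)) (XT.lf (nat_lit 0) (nat_lit 24252011957) (nat_lit 1672) (nat_lit 9991859537) (nat_lit 1748) (nat_lit 27671302) (nat_lit 432) (nat_lit 5) (nat_lit 454)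 (nat_lit 5) (nat_lit 455) (nat_lit 5) (nat_lit 640) (nat_lit 614) (nat_lit 306)))) (XT.nd (nat_lit 156) (nat_lit 912) (nat_lit 0) (XT.nd (nat_lit 78) (nat_lit 0) (nat_lit 0) (XT.lf (nat_lit 0) (nat_lit 2836427420) (nat_lit 1064) (nat_lit 26408016095) (nat_lit 76) (nat_lit 5398855481) (nat_lit 418) (nat_lit 5) (nat_lit 432) (nat_lit 5) (nat_lit 419) (nat_lit 5) (nat_lit 641) (nat_lit 614) (nat_lit 305)) (XT.lf (nat_lit 0) (nat_lit 5889719058) (nat_lit 1064) (nat_lit 8098359522) (nat_lit 76) (nat_lit 21031762675) (nat_lit 418) (nat_lit 5) (nat_lit 432) (nat_lit 5) (nat_lit 419) (nat_lit 5) (nat_lit 642) (nat_lit 614) (nat_lit 304))) (XT.nd (nat_lit 78) (nat_lit 0) (nat_lit 0) (XT.lf (nat_lit 0) (nat_lit 9082792546) (nat_lit 988) (nat_lit 24696586795) (nat_lit 76) (nat_lit 1622960920) (nat_lit 406) (nat_lit 5) (nat_lit 419) (nat_lit 5) (nat_lit 407) (nat_lit 5) (nat_lit 643) (nat_lit 614) (nat_lit 303)) (XT.lf (nat_lit 0) (nat_lit 12485549079) (nat_lit 988) (nat_lit 5890093223)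 (nat_lit 76) (nat_lit 17413930729) (nat_lit 406) (nat_lit 5) (nat_lit 419) (nat_lit 5) (nat_lit 407) (nat_lit 5) (nat_lit 644) (nat_lit 614) (nat_lit 302))))))))
noncomputable def xc248 : XT := (XT.nd (nat_lit 80496) (nat_lit 0) (nat_lit 0) (XT.nd (nat_lit 79482) (nat_lit 0) (nat_lit 4788) (XT.nd (nat_lit 79014) (nat_lit 0) (nat_lit 6384) (XT.nd (nat_lit 234) (nat_lit 0) (nat_lit 0) (XT.nd (nat_lit 78) (nat_lit 836) (nat_lit 0) (XT.lf (nat_lit 0) (nat_lit 13467771491) (nat_lit 912) (nat_lit 2574541883) (nat_lit 988) (nat_lit 20140518241) (nat_lit 394) (nat_lit 5) (nat_lit 406) (nat_lit 5) (nat_lit 407) (nat_lit 5) (nat_lit 645) (nat_lit 614) (nat_lit 301)) (XT.nd (nat_lit 78) (nat_lit 836) (nat_lit 0) (XT.lf (nat_lit 0) (nat_lit 19796459472) (nat_lit 988) (nat_lit 3380130741) (nat_lit 76) (nat_lit 13404840434) (nat_lit 394) (nat_lit 5) (nat_lit 407) (nat_lit 5) (nat_lit 395) (nat_lit 5) (nat_lit 646) (nat_lit 614) (nat_lit 300)) (XT.lf (nat_lit 0) (nat_lit 16539987911)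 (nat_lit 836) (nat_lit 7208699605) (nat_lit 912) (nat_lit 13236854367) (nat_lit 383) (nat_lit 5) (nat_lit 394) (nat_lit 5) (nat_lit 395) (nat_lit 5) (nat_lit 647) (nat_lit 614) (nat_lit 299)))) (XT.nd (nat_lit 78624) (nat_lit 0) (nat_lit 6384) (XT.lf (nat_lit 0) (nat_lit 27860316849) (nat_lit 912) (nat_lit 553452448) (nat_lit 76) (nat_lit 8982359112) (nat_lit 383) (nat_lit 5) (nat_lit 395) (nat_lit 5) (nat_lit 384) (nat_lit 5) (nat_lit 648) (nat_lit 614) (nat_lit 298)) (XT.nd (nat_lit 78) (nat_lit 0) (nat_lit 0) (XT.lf (nat_lit 0) (nat_lit 5897357319) (nat_lit 0) (nat_lit 5897357319) (nat_lit 1748) (nat_lit 1573323576) (nat_lit 467) (nat_lit 5) (nat_lit 467) (nat_lit 3) (nat_lit 490) (nat_lit 3) (nat_lit 615) (nat_lit 615) (nat_lit 330)) (XT.lf (nat_lit 0) (nat_lit 23924867269) (nat_lit 1748) (nat_lit 1849090416) (nat_lit 1824) (nat_lit 1227474306) (nat_lit 467) (nat_lit 5) (nat_lit 490) (nat_lit 3) (nat_lit 491) (nat_lit 5) (nat_lit 616) (nat_lit 615) (nat_lit 329)))))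 (XT.nd (nat_lit 234) (nat_lit 0) (nat_lit 76) (XT.nd (nat_lit 78) (nat_lit 0) (nat_lit 76) (XT.lf (nat_lit 76) (nat_lit 11577500929) (nat_lit 0) (nat_lit 12840401145) (nat_lit 1824) (nat_lit 2851175205) (nat_lit 468) (nat_lit 5) (nat_lit 467) (nat_lit 5) (nat_lit 491) (nat_lit 5) (nat_lit 617) (nat_lit 615) (nat_lit 328)) (XT.nd (nat_lit 78) (nat_lit 0) (nat_lit 0) (XT.lf (nat_lit 0) (nat_lit 24933226923) (nat_lit 1748) (nat_lit 2247806870) (nat_lit 1824) (nat_lit 360793461) (nat_lit 468) (nat_lit 5) (nat_lit 491) (nat_lit 5) (nat_lit 492) (nat_lit 5) (nat_lit 618) (nat_lit 615) (nat_lit 327)) (XT.lf (nat_lit 76) (nat_lit 11529740272) (nat_lit 0) (nat_lit 14086712989) (nat_lit 1824) (nat_lit 2200427430) (nat_lit 469) (nat_lit 5) (nat_lit 468) (nat_lit 5) (nat_lit 492) (nat_lit 5) (nat_lit 619) (nat_lit 615) (nat_lit 326)))) (XT.nd (nat_lit 78) (nat_lit 0) (nat_lit 76) (XT.lf (nat_lit 76) (nat_lit 25612039794) (nat_lit 0) (nat_lit 714125655) (nat_lit 1824) (nat_lit 1771013675)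 (nat_lit 469) (nat_lit 5) (nat_lit 468) (nat_lit 5) (nat_lit 492) (nat_lit 5) (nat_lit 620) (nat_lit 615) (nat_lit 325)) (XT.nd (nat_lit 78) (nat_lit 0) (nat_lit 0) (XT.lf (nat_lit 76) (nat_lit 11660614884) (nat_lit 0) (nat_lit 15546877098) (nat_lit 1824) (nat_lit 1172443488) (nat_lit 470) (nat_lit 5) (nat_lit 469) (nat_lit 5) (nat_lit 493) (nat_lit 5) (nat_lit 621) (nat_lit 615) (nat_lit 324)) (XT.lf (nat_lit 76) (nat_lit 26116892905) (nat_lit 0) (nat_lit 2008750004) (nat_lit 1824) (nat_lit 542320418) (nat_lit 470) (nat_lit 5) (nat_lit 469) (nat_lit 5) (nat_lit 493) (nat_lit 5) (nat_lit 622) (nat_lit 615) (nat_lit 323)))))) (XT.nd (nat_lit 468) (nat_lit 0) (nat_lit 228) (XT.nd (nat_lit 234) (nat_lit 0) (nat_lit 76) (XT.nd (nat_lit 78) (nat_lit 0) (nat_lit 0) (XT.lf (nat_lit 0) (nat_lit 252362504) (nat_lit 1824) (nat_lit 16980629526) (nat_lit 1900) (nat_lit 11725681516) (nat_lit 446) (nat_lit 5) (nat_lit 470) (nat_lit 5) (nat_lit 471) (nat_lit 5) (nat_lit 623) (nat_lit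 615) (nat_lit 322)) (XT.nd (nat_lit 78) (nat_lit 0) (nat_lit 76) (XT.lf (nat_lit 0) (nat_lit 1084110103) (nat_lit 1824) (nat_lit 2440871339) (nat_lit 1900) (nat_lit 25729576498) (nat_lit 446) (nat_lit 5) (nat_lit 470) (nat_lit 5) (nat_lit 471) (nat_lit 5) (nat_lit 624) (nat_lit 615) (nat_lit 321)) (XT.lf (nat_lit 0) (nat_lit 2080366764) (nat_lit 1824) (nat_lit 17070197329) (nat_lit 1900) (nat_lit 10402838763) (nat_lit 447) (nat_lit 5) (nat_lit 471) (nat_lit 5) (nat_lit 472) (nat_lit 5) (nat_lit 625) (nat_lit 615) (nat_lit 320)))) (XT.nd (nat_lit 78) (nat_lit 0) (nat_lit 76) (XT.lf (nat_lit 0) (nat_lit 3134349659) (nat_lit 1824) (nat_lit 2143839483) (nat_lit 1900) (nat_lit 24579279815) (nat_lit 447) (nat_lit 5) (nat_lit 471) (nat_lit 5) (nat_lit 472) (nat_lit 5) (nat_lit 626) (nat_lit 615) (nat_lit 319)) (XT.nd (nat_lit 78) (nat_lit 0) (nat_lit 0) (XT.lf (nat_lit 0) (nat_lit 4351646551) (nat_lit 1824) (nat_lit 16970556008) (nat_lit 1900) (nat_lit 8842569434) (nat_lit 448)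 (nat_lit 5) (nat_lit 472) (nat_lit 5) (nat_lit 473) (nat_lit 5) (nat_lit 627) (nat_lit 615) (nat_lit 318)) (XT.lf (nat_lit 0) (nat_lit 5640769341) (nat_lit 1824) (nat_lit 1646239771) (nat_lit 1900) (nat_lit 23190262677) (nat_lit 448) (nat_lit 5) (nat_lit 472) (nat_lit 5) (nat_lit 473) (nat_lit 5) (nat_lit 628) (nat_lit 615) (nat_lit 317))))) (XT.nd (nat_lit 234) (nat_lit 0) (nat_lit 76) (XT.nd (nat_lit 78) (nat_lit 0) (nat_lit 0) (XT.lf (nat_lit 0) (nat_lit 7092000760) (nat_lit 1824) (nat_lit 16671399608) (nat_lit 1900) (nat_lit 7029894980) (nat_lit 449) (nat_lit 5) (nat_lit 473) (nat_lit 5) (nat_lit 474) (nat_lit 5) (nat_lit 629) (nat_lit 615) (nat_lit 316)) (XT.nd (nat_lit 78) (nat_lit 0) (nat_lit 76) (XT.lf (nat_lit 0) (nat_lit 8629750118) (nat_lit 1824) (nat_lit 937396512) (nat_lit 1900) (nat_lit 21547343166) (nat_lit 449) (nat_lit 5) (nat_lit 473) (nat_lit 5) (nat_lit 474) (nat_lit 5) (nat_lit 630) (nat_lit 615) (nat_lit 315)) (XT.lf (nat_lit 0) (nat_lit 10328374084)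 (nat_lit 1824) (nat_lit 16161956734) (nat_lit 1900) (nat_lit 4949175202) (nat_lit 450) (nat_lit 5) (nat_lit 474) (nat_lit 5) (nat_lit 475) (nat_lit 5) (nat_lit 631) (nat_lit 615) (nat_lit 314)))) (XT.nd (nat_lit 156) (nat_lit 0) (nat_lit 76) (XT.nd (nat_lit 78) (nat_lit 0) (nat_lit 76) (XT.lf (nat_lit 0) (nat_lit 12128843761) (nat_lit 1824) (nat_lit 6156710) (nat_lit 1900) (nat_lit 19634664907) (nat_lit 450) (nat_lit 5) (nat_lit 474) (nat_lit 5) (nat_lit 475) (nat_lit 5) (nat_lit 632) (nat_lit 615) (nat_lit 313)) (XT.lf (nat_lit 0) (nat_lit 14088906167) (nat_lit 1824) (nat_lit 15430974828) (nat_lit 1900) (nat_lit 2584075529) (nat_lit 451) (nat_lit 5) (nat_lit 475) (nat_lit 5) (nat_lit 476) (nat_lit 5) (nat_lit 633) (nat_lit 615) (nat_lit 312))) (XT.nd (nat_lit 78) (nat_lit 0) (nat_lit 0) (XT.lf (nat_lit 76) (nat_lit 1174530237) (nat_lit 0) (nat_lit 14999918570) (nat_lit 1900) (nat_lit 16268759369) (nat_lit 452) (nat_lit 5) (nat_lit 451) (nat_lit 5) (nat_lit 476) (nat_lit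 5) (nat_lit 634) (nat_lit 615) (nat_lit 311)) (XT.lf (nat_lit 76) (nat_lit 18319962215) (nat_lit 0) (nat_lit 83562951) (nat_lit 1900) (nat_lit 14383683497) (nat_lit 452) (nat_lit 5) (nat_lit 451) (nat_lit 5) (nat_lit 476) (nat_lit 5) (nat_lit 635) (nat_lit 615) (nat_lit 310))))))) (XT.nd (nat_lit 936) (nat_lit 836) (nat_lit 0) (XT.nd (nat_lit 468) (nat_lit 2812) (nat_lit 0) (XT.nd (nat_lit 234) (nat_lit 1596) (nat_lit 0) (XT.nd (nat_lit 78) (nat_lit 0) (nat_lit 0) (XT.lf (nat_lit 76) (nat_lit 2604770383) (nat_lit 0) (nat_lit 18185874972) (nat_lit 1900) (nat_lit 12345174811) (nat_lit 453) (nat_lit 5) (nat_lit 452) (nat_lit 5) (nat_lit 477) (nat_lit 5) (nat_lit 636) (nat_lit 615) (nat_lit 309)) (XT.nd (nat_lit 78) (nat_lit 0) (nat_lit 76) (XT.lf (nat_lit 76) (nat_lit 20212419053) (nat_lit 0) (nat_lit 3109054986) (nat_lit 1900) (nat_lit 10168010786) (nat_lit 453) (nat_lit 5) (nat_lit 452) (nat_lit 5) (nat_lit 477) (nat_lit 5) (nat_lit 637) (nat_lit 615) (nat_lit 308)) (XT.lf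 (nat_lit 76) (nat_lit 4297334375) (nat_lit 0) (nat_lit 21711514665) (nat_lit 1900) (nat_lit 7839255386) (nat_lit 454) (nat_lit 5) (nat_lit 453) (nat_lit 5) (nat_lit 478) (nat_lit 5) (nat_lit 638) (nat_lit 615) (nat_lit 307)))) (XT.nd (nat_lit 78) (nat_lit 1672) (nat_lit 0) (XT.lf (nat_lit 76) (nat_lit 22380978809) (nat_lit 0) (nat_lit 6476934500) (nat_lit 1900) (nat_lit 5353824513) (nat_lit 454) (nat_lit 5) (nat_lit 453) (nat_lit 5) (nat_lit 478) (nat_lit 5) (nat_lit 639) (nat_lit 615) (nat_lit 306)) (XT.nd (nat_lit 78) (nat_lit 76) (nat_lit 0) (XT.lf (nat_lit 0) (nat_lit 6265627088) (nat_lit 1672) (nat_lit 25596275604) (nat_lit 1748) (nat_lit 2718782550) (nat_lit 432) (nat_lit 5) (nat_lit 454) (nat_lit 5) (nat_lit 455) (nat_lit 5) (nat_lit 640) (nat_lit 615) (nat_lit 305)) (XT.lf (nat_lit 0) (nat_lit 90613452) (nat_lit 1748) (nat_lit 10115705007) (nat_lit 76) (nat_lit 24748272486) (nat_lit 431) (nat_lit 5) (nat_lit 454) (nat_lit 5) (nat_lit 432) (nat_lit 5) (nat_lit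 641) (nat_lit 615) (nat_lit 304))))) (XT.nd (nat_lit 234) (nat_lit 912) (nat_lit 0) (XT.nd (nat_lit 78) (nat_lit 912) (nat_lit 0) (XT.lf (nat_lit 0) (nat_lit 3009884645) (nat_lit 1064) (nat_lit 26830387209) (nat_lit 76) (nat_lit 5493541869) (nat_lit 418) (nat_lit 5) (nat_lit 432) (nat_lit 5) (nat_lit 419) (nat_lit 5) (nat_lit 642) (nat_lit 615) (nat_lit 303)) (XT.nd (nat_lit 78) (nat_lit 912) (nat_lit 0) (XT.lf (nat_lit 0) (nat_lit 6121953319) (nat_lit 1064) (nat_lit 8156611803) (nat_lit 76) (nat_lit 21439367809) (nat_lit 418) (nat_lit 5) (nat_lit 432) (nat_lit 5) (nat_lit 419) (nat_lit 5) (nat_lit 643) (nat_lit 615) (nat_lit 302)) (XT.lf (nat_lit 0) (nat_lit 9377249474) (nat_lit 988) (nat_lit 25085148787) (nat_lit 76) (nat_lit 1645716751) (nat_lit 406) (nat_lit 5) (nat_lit 419) (nat_lit 5) (nat_lit 407) (nat_lit 5) (nat_lit 644) (nat_lit 615) (nat_lit 301)))) (XT.nd (nat_lit 78) (nat_lit 912) (nat_lit 0) (XT.lf (nat_lit 0) (nat_lit 12845849352) (nat_lit 988) (nat_lit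 5904591417) (nat_lit 76) (nat_lit 17752696218) (nat_lit 406) (nat_lit 5) (nat_lit 419) (nat_lit 5) (nat_lit 407) (nat_lit 5) (nat_lit 645) (nat_lit 615) (nat_lit 300)) (XT.nd (nat_lit 78) (nat_lit 0) (nat_lit 0) (XT.lf (nat_lit 0) (nat_lit 13839750962) (nat_lit 912) (nat_lit 2632495857) (nat_lit 988) (nat_lit 20432044275) (nat_lit 394) (nat_lit 5) (nat_lit 406) (nat_lit 5) (nat_lit 407) (nat_lit 5) (nat_lit 646) (nat_lit 615) (nat_lit 299)) (XT.lf (nat_lit 0) (nat_lit 20299295735) (nat_lit 988) (nat_lit 3344926340) (nat_lit 76) (nat_lit 13666683937) (nat_lit 394) (nat_lit 5) (nat_lit 407) (nat_lit 5) (nat_lit 395) (nat_lit 5) (nat_lit 647) (nat_lit 615) (nat_lit 298)))))) (XT.nd (nat_lit 79092) (nat_lit 0) (nat_lit 4788) (XT.nd (nat_lit 78858) (nat_lit 0) (nat_lit 6384) (XT.nd (nat_lit 78702) (nat_lit 0) (nat_lit 6384) (XT.lf (nat_lit 0) (nat_lit 16972918323) (nat_lit 836) (nat_lit 7356216899) (nat_lit 912) (nat_lit 13393993208) (nat_lit 383) (nat_lit 5) (nat_lit 394)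 (nat_lit 5) (nat_lit 395) (nat_lit 5) (nat_lit 648) (nat_lit 615) (nat_lit 297)) (XT.nd (nat_lit 78) (nat_lit 0) (nat_lit 0) (XT.lf (nat_lit 0) (nat_lit 6060741635) (nat_lit 0) (nat_lit 6060741635) (nat_lit 1748) (nat_lit 1512083987) (nat_lit 467) (nat_lit 5) (nat_lit 467) (nat_lit 3) (nat_lit 490) (nat_lit 3) (nat_lit 616) (nat_lit 616) (nat_lit 328)) (XT.lf (nat_lit 0) (nat_lit 24580971145) (nat_lit 1748) (nat_lit 1792809676) (nat_lit 1824) (nat_lit 1164099768) (nat_lit 467) (nat_lit 5) (nat_lit 490) (nat_lit 3) (nat_lit 491) (nat_lit 5) (nat_lit 617) (nat_lit 616) (nat_lit 327)))) (XT.nd (nat_lit 78) (nat_lit 0) (nat_lit 76) (XT.lf (nat_lit 76) (nat_lit 11901699926) (nat_lit 0) (nat_lit 13179285777) (nat_lit 1824) (nat_lit 2729951245) (nat_lit 468) (nat_lit 5) (nat_lit 467) (nat_lit 5) (nat_lit 491) (nat_lit 5) (nat_lit 618) (nat_lit 616) (nat_lit 326)) (XT.nd (nat_lit 78) (nat_lit 0) (nat_lit 0) (XT.lf (nat_lit 0) (nat_lit 25602668611) (nat_lit 1748) (nat_lit 2197955409)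 (nat_lit 1824) (nat_lit 288597409) (nat_lit 468) (nat_lit 5) (nat_lit 491) (nat_lit 5) (nat_lit 492) (nat_lit 5) (nat_lit 619) (nat_lit 616) (nat_lit 325)) (XT.lf (nat_lit 76) (nat_lit 11854518942) (nat_lit 0) (nat_lit 14442303466) (nat_lit 1824) (nat_lit 2073008793) (nat_lit 469) (nat_lit 5) (nat_lit 468) (nat_lit 5) (nat_lit 492) (nat_lit 5) (nat_lit 620) (nat_lit 616) (nat_lit 324))))) (XT.nd (nat_lit 234) (nat_lit 1672) (nat_lit 0) (XT.nd (nat_lit 78) (nat_lit 0) (nat_lit 76) (XT.lf (nat_lit 76) (nat_lit 26216617712) (nat_lit 0) (nat_lit 800816224) (nat_lit 1824) (nat_lit 1638368081) (nat_lit 469) (nat_lit 5) (nat_lit 468) (nat_lit 5) (nat_lit 492) (nat_lit 5) (nat_lit 621) (nat_lit 616) (nat_lit 323)) (XT.nd (nat_lit 78) (nat_lit 0) (nat_lit 0) (XT.lf (nat_lit 76) (nat_lit 11989322695) (nat_lit 0) (nat_lit 15923993125) (nat_lit 1824) (nat_lit 1030959600) (nat_lit 470) (nat_lit 5) (nat_lit 469) (nat_lit 5) (nat_lit 493) (nat_lit 5) (nat_lit 622) (nat_lit 616) (nat_lit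 322)) (XT.lf (nat_lit 76) (nat_lit 26732853814) (nat_lit 0) (nat_lit 2113805872) (nat_lit 1824) (nat_lit 391468044) (nat_lit 470) (nat_lit 5) (nat_lit 469) (nat_lit 5) (nat_lit 493) (nat_lit 5) (nat_lit 623) (nat_lit 616) (nat_lit 321)))) (XT.nd (nat_lit 156) (nat_lit 0) (nat_lit 76) (XT.nd (nat_lit 78) (nat_lit 0) (nat_lit 0) (XT.lf (nat_lit 0) (nat_lit 414074462) (nat_lit 1824) (nat_lit 17221536869) (nat_lit 1900) (nat_lit 11899078569) (nat_lit 446) (nat_lit 5) (nat_lit 470) (nat_lit 5) (nat_lit 471) (nat_lit 5) (nat_lit 624) (nat_lit 616) (nat_lit 320)) (XT.lf (nat_lit 0) (nat_lit 1259385157) (nat_lit 1824) (nat_lit 2392918915) (nat_lit 1900) (nat_lit 26184249815) (nat_lit 446) (nat_lit 5) (nat_lit 470) (nat_lit 5) (nat_lit 471) (nat_lit 5) (nat_lit 625) (nat_lit 616) (nat_lit 319))) (XT.nd (nat_lit 78) (nat_lit 0) (nat_lit 0) (XT.lf (nat_lit 0) (nat_lit 2272821922) (nat_lit 1824) (nat_lit 17312063498) (nat_lit 1900) (nat_lit 10556545639) (nat_lit 447) (nat_lit 5)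 (nat_lit 471) (nat_lit 5) (nat_lit 472) (nat_lit 5) (nat_lit 626) (nat_lit 616) (nat_lit 318)) (XT.lf (nat_lit 0) (nat_lit 3344926674) (nat_lit 1824) (nat_lit 2089130216) (nat_lit 1900) (nat_lit 25017581196) (nat_lit 447) (nat_lit 5) (nat_lit 471) (nat_lit 5) (nat_lit 472) (nat_lit 5) (nat_lit 627) (nat_lit 616) (nat_lit 317))))))))
noncomputable def xc249 : XT := (XT.nd (nat_lit 80652) (nat_lit 0) (nat_lit 1824) (XT.nd (nat_lit 936) (nat_lit 4104) (nat_lit 0) (XT.nd (nat_lit 468) (nat_lit 0) (nat_lit 228) (XT.nd (nat_lit 234) (nat_lit 0) (nat_lit 76) (XT.nd (nat_lit 78) (nat_lit 0) (nat_lit 0) (XT.lf (nat_lit 0) (nat_lit 4583983090) (nat_lit 1824) (nat_lit 17209772650) (nat_lit 1900) (nat_lit 8971383613) (nat_lit 448) (nat_lit 5) (nat_lit 472) (nat_lit 5) (nat_lit 473) (nat_lit 5) (nat_lit 628) (nat_lit 616) (nat_lit 316)) (XT.nd (nat_lit 78) (nat_lit 0) (nat_lit 76) (XT.lf (nat_lit 0) (nat_lit 5896039246) (nat_lit 1824) (nat_lit 1580934686) (nat_lit 1900) (nat_lit 23606972626)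 (nat_lit 448) (nat_lit 5) (nat_lit 472) (nat_lit 5) (nat_lit 473) (nat_lit 5) (nat_lit 629) (nat_lit 616) (nat_lit 315)) (XT.lf (nat_lit 0) (nat_lit 7373858335) (nat_lit 1824) (nat_lit 16904139608) (nat_lit 1900) (nat_lit 7128341807) (nat_lit 449) (nat_lit 5) (nat_lit 473) (nat_lit 5) (nat_lit 474) (nat_lit 5) (nat_lit 630) (nat_lit 616) (nat_lit 314)))) (XT.nd (nat_lit 78) (nat_lit 0) (nat_lit 76) (XT.lf (nat_lit 0) (nat_lit 8939617238) (nat_lit 1824) (nat_lit 857430724) (nat_lit 1900) (nat_lit 21936965449) (nat_lit 449) (nat_lit 5) (nat_lit 473) (nat_lit 5) (nat_lit 474) (nat_lit 5) (nat_lit 631) (nat_lit 616) (nat_lit 313)) (XT.nd (nat_lit 78) (nat_lit 0) (nat_lit 0) (XT.lf (nat_lit 0) (nat_lit 10669917551) (nat_lit 1824) (nat_lit 16384165685) (nat_lit 1900) (nat_lit 5011493053) (nat_lit 450) (nat_lit 5) (nat_lit 474) (nat_lit 5) (nat_lit 475) (nat_lit 5) (nat_lit 632) (nat_lit 616) (nat_lit 312)) (XT.lf (nat_lit 76) (nat_lit 94002211) (nat_lit 0) (nat_lit 12410358146)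 (nat_lit 1900) (nat_lit 19898019600) (nat_lit 451) (nat_lit 5) (nat_lit 450) (nat_lit 5) (nat_lit 475) (nat_lit 5) (nat_lit 633) (nat_lit 616) (nat_lit 311))))) (XT.nd (nat_lit 234) (nat_lit 0) (nat_lit 76) (XT.nd (nat_lit 78) (nat_lit 0) (nat_lit 0) (XT.lf (nat_lit 0) (nat_lit 14500850245) (nat_lit 1824) (nat_lit 15638362140) (nat_lit 1900) (nat_lit 2604200406) (nat_lit 451) (nat_lit 5) (nat_lit 475) (nat_lit 5) (nat_lit 476) (nat_lit 5) (nat_lit 634) (nat_lit 616) (nat_lit 310)) (XT.nd (nat_lit 78) (nat_lit 0) (nat_lit 0) (XT.lf (nat_lit 76) (nat_lit 1298587025) (nat_lit 0) (nat_lit 15327617383) (nat_lit 1900) (nat_lit 16463283440) (nat_lit 452) (nat_lit 5) (nat_lit 451) (nat_lit 5) (nat_lit 476) (nat_lit 5) (nat_lit 635) (nat_lit 616) (nat_lit 309)) (XT.lf (nat_lit 76) (nat_lit 18784955756) (nat_lit 0) (nat_lit 112391505) (nat_lit 1900) (nat_lit 14543071759) (nat_lit 452) (nat_lit 5) (nat_lit 451) (nat_lit 5) (nat_lit 476) (nat_lit 5) (nat_lit 636) (nat_lit 616) (nat_lit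 308)))) (XT.nd (nat_lit 78) (nat_lit 0) (nat_lit 0) (XT.lf (nat_lit 76) (nat_lit 2757503750) (nat_lit 0) (nat_lit 18572720929) (nat_lit 1900) (nat_lit 12465818146) (nat_lit 453) (nat_lit 5) (nat_lit 452) (nat_lit 5) (nat_lit 477) (nat_lit 5) (nat_lit 637) (nat_lit 616) (nat_lit 307)) (XT.nd (nat_lit 78) (nat_lit 0) (nat_lit 76) (XT.lf (nat_lit 76) (nat_lit 20715332100) (nat_lit 0) (nat_lit 3193911044) (nat_lit 1900) (nat_lit 10247586530) (nat_lit 453) (nat_lit 5) (nat_lit 452) (nat_lit 5) (nat_lit 477) (nat_lit 5) (nat_lit 638) (nat_lit 616) (nat_lit 306)) (XT.lf (nat_lit 76) (nat_lit 4483871634) (nat_lit 0) (nat_lit 22164623570) (nat_lit 1900) (nat_lit 7874164226) (nat_lit 454) (nat_lit 5) (nat_lit 453) (nat_lit 5) (nat_lit 478) (nat_lit 5) (nat_lit 639) (nat_lit 616) (nat_lit 305)))))) (XT.nd (nat_lit 468) (nat_lit 912) (nat_lit 0) (XT.nd (nat_lit 234) (nat_lit 1900) (nat_lit 0) (XT.nd (nat_lit 78) (nat_lit 1672) (nat_lit 0) (XT.lf (nat_lit 76) (nat_lit 22927216593)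 (nat_lit 0) (nat_lit 6624981632) (nat_lit 1900) (nat_lit 5341414467) (nat_lit 454) (nat_lit 5) (nat_lit 453) (nat_lit 5) (nat_lit 478) (nat_lit 5) (nat_lit 640) (nat_lit 616) (nat_lit 304)) (XT.nd (nat_lit 78) (nat_lit 76) (nat_lit 0) (XT.lf (nat_lit 0) (nat_lit 6491372773) (nat_lit 1672) (nat_lit 26123132289) (nat_lit 1748) (nat_lit 2655469586) (nat_lit 432) (nat_lit 5) (nat_lit 454) (nat_lit 5) (nat_lit 455) (nat_lit 5) (nat_lit 641) (nat_lit 616) (nat_lit 303)) (XT.lf (nat_lit 0) (nat_lit 206293473) (nat_lit 1748) (nat_lit 10218025646) (nat_lit 76) (nat_lit 25227069936) (nat_lit 431) (nat_lit 5) (nat_lit 454) (nat_lit 5) (nat_lit 432) (nat_lit 5) (nat_lit 642) (nat_lit 616) (nat_lit 302)))) (XT.nd (nat_lit 78) (nat_lit 912) (nat_lit 0) (XT.lf (nat_lit 0) (nat_lit 3182278298) (nat_lit 1064) (nat_lit 27265313669) (nat_lit 76) (nat_lit 5590638079) (nat_lit 418) (nat_lit 5) (nat_lit 432) (nat_lit 5) (nat_lit 419) (nat_lit 5) (nat_lit 643) (nat_lit 616) (nat_lit 301)) (XT.nd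 (nat_lit 78) (nat_lit 912) (nat_lit 0) (XT.lf (nat_lit 0) (nat_lit 6354388424) (nat_lit 1064) (nat_lit 8220056505) (nat_lit 76) (nat_lit 21855631022) (nat_lit 418) (nat_lit 5) (nat_lit 432) (nat_lit 5) (nat_lit 419) (nat_lit 5) (nat_lit 644) (nat_lit 616) (nat_lit 300)) (XT.lf (nat_lit 0) (nat_lit 9673215338) (nat_lit 988) (nat_lit 25485573655) (nat_lit 76) (nat_lit 1669304493) (nat_lit 406) (nat_lit 5) (nat_lit 419) (nat_lit 5) (nat_lit 407) (nat_lit 5) (nat_lit 645) (nat_lit 616) (nat_lit 299))))) (XT.nd (nat_lit 78936) (nat_lit 0) (nat_lit 5548) (XT.nd (nat_lit 78) (nat_lit 912) (nat_lit 0) (XT.lf (nat_lit 0) (nat_lit 13209061314) (nat_lit 988) (nat_lit 5923390982) (nat_lit 76) (nat_lit 18098606424) (nat_lit 406) (nat_lit 5) (nat_lit 419) (nat_lit 5) (nat_lit 407) (nat_lit 5) (nat_lit 646) (nat_lit 616) (nat_lit 298)) (XT.nd (nat_lit 78) (nat_lit 0) (nat_lit 0) (XT.lf (nat_lit 0) (nat_lit 14215185005) (nat_lit 912) (nat_lit 2691357940) (nat_lit 988) (nat_lit 20733722136)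 (nat_lit 394) (nat_lit 5) (nat_lit 406) (nat_lit 5) (nat_lit 407) (nat_lit 5) (nat_lit 647) (nat_lit 616) (nat_lit 297)) (XT.lf (nat_lit 0) (nat_lit 20808037391) (nat_lit 988) (nat_lit 3313009972) (nat_lit 76) (nat_lit 13934007133) (nat_lit 394) (nat_lit 5) (nat_lit 407) (nat_lit 5) (nat_lit 395) (nat_lit 5) (nat_lit 648) (nat_lit 616) (nat_lit 296)))) (XT.nd (nat_lit 156) (nat_lit 0) (nat_lit 0) (XT.nd (nat_lit 78) (nat_lit 0) (nat_lit 0) (XT.lf (nat_lit 0) (nat_lit 6225629256) (nat_lit 0) (nat_lit 6225629256) (nat_lit 1748) (nat_lit 1453219496) (nat_lit 467) (nat_lit 5) (nat_lit 467) (nat_lit 3) (nat_lit 490) (nat_lit 3) (nat_lit 617) (nat_lit 617) (nat_lit 326)) (XT.lf (nat_lit 0) (nat_lit 25243300420) (nat_lit 1748) (nat_lit 1739024820) (nat_lit 1824) (nat_lit 1102871935) (nat_lit 467) (nat_lit 5) (nat_lit 490) (nat_lit 3) (nat_lit 491) (nat_lit 5) (nat_lit 618) (nat_lit 617) (nat_lit 325))) (XT.nd (nat_lit 78) (nat_lit 0) (nat_lit 76) (XT.lf (nat_lit 76) (nat_lit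 12228785231) (nat_lit 0) (nat_lit 13521760967) (nat_lit 1824) (nat_lit 2613224372) (nat_lit 468) (nat_lit 5) (nat_lit 467) (nat_lit 5) (nat_lit 491) (nat_lit 5) (nat_lit 619) (nat_lit 617) (nat_lit 324)) (XT.lf (nat_lit 0) (nat_lit 26278867647) (nat_lit 1748) (nat_lit 2150788413) (nat_lit 1824) (nat_lit 218041098) (nat_lit 468) (nat_lit 5) (nat_lit 491) (nat_lit 5) (nat_lit 492) (nat_lit 5) (nat_lit 620) (nat_lit 617) (nat_lit 323))))))) (XT.nd (nat_lit 936) (nat_lit 2128) (nat_lit 0) (XT.nd (nat_lit 468) (nat_lit 0) (nat_lit 76) (XT.nd (nat_lit 234) (nat_lit 1672) (nat_lit 0) (XT.nd (nat_lit 78) (nat_lit 0) (nat_lit 0) (XT.lf (nat_lit 76) (nat_lit 12182135911) (nat_lit 0) (nat_lit 14802137825) (nat_lit 1824) (nat_lit 1949698510) (nat_lit 469) (nat_lit 5) (nat_lit 468) (nat_lit 5) (nat_lit 492) (nat_lit 5) (nat_lit 621) (nat_lit 617) (nat_lit 322)) (XT.nd (nat_lit 78) (nat_lit 0) (nat_lit 76) (XT.lf (nat_lit 76) (nat_lit 26829701626) (nat_lit 0) (nat_lit 886428911) (nat_lit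 1824) (nat_lit 1509595777) (nat_lit 469) (nat_lit 5) (nat_lit 468) (nat_lit 5) (nat_lit 492) (nat_lit 5) (nat_lit 622) (nat_lit 617) (nat_lit 321)) (XT.lf (nat_lit 76) (nat_lit 12320896454) (nat_lit 0) (nat_lit 16306081681) (nat_lit 1824) (nat_lit 893050574) (nat_lit 470) (nat_lit 5) (nat_lit 469) (nat_lit 5) (nat_lit 493) (nat_lit 5) (nat_lit 623) (nat_lit 617) (nat_lit 320)))) (XT.nd (nat_lit 78) (nat_lit 1748) (nat_lit 0) (XT.lf (nat_lit 76) (nat_lit 27357498445) (nat_lit 0) (nat_lit 2218443453) (nat_lit 1824) (nat_lit 243877583) (nat_lit 470) (nat_lit 5) (nat_lit 469) (nat_lit 5) (nat_lit 493) (nat_lit 5) (nat_lit 624) (nat_lit 617) (nat_lit 319)) (XT.nd (nat_lit 78) (nat_lit 0) (nat_lit 0) (XT.lf (nat_lit 0) (nat_lit 572937178) (nat_lit 1824) (nat_lit 17471095204) (nat_lit 1900) (nat_lit 12078316794) (nat_lit 446) (nat_lit 5) (nat_lit 470) (nat_lit 5) (nat_lit 471) (nat_lit 5) (nat_lit 625) (nat_lit 617) (nat_lit 318)) (XT.lf (nat_lit 0) (nat_lit 1432201514) (nat_lit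 1824) (nat_lit 2347765134) (nat_lit 1900) (nat_lit 26650343295) (nat_lit 446) (nat_lit 5) (nat_lit 470) (nat_lit 5) (nat_lit 471) (nat_lit 5) (nat_lit 626) (nat_lit 617) (nat_lit 317))))) (XT.nd (nat_lit 234) (nat_lit 0) (nat_lit 76) (XT.nd (nat_lit 78) (nat_lit 0) (nat_lit 0) (XT.lf (nat_lit 0) (nat_lit 2463268578) (nat_lit 1824) (nat_lit 17562632164) (nat_lit 1900) (nat_lit 10715437126) (nat_lit 447) (nat_lit 5) (nat_lit 471) (nat_lit 5) (nat_lit 472) (nat_lit 5) (nat_lit 627) (nat_lit 617) (nat_lit 316)) (XT.nd (nat_lit 78) (nat_lit 0) (nat_lit 76) (XT.lf (nat_lit 0) (nat_lit 3553972480) (nat_lit 1824) (nat_lit 2037116149) (nat_lit 1900) (nat_lit 25466717697) (nat_lit 447) (nat_lit 5) (nat_lit 471) (nat_lit 5) (nat_lit 472) (nat_lit 5) (nat_lit 628) (nat_lit 617) (nat_lit 315)) (XT.lf (nat_lit 0) (nat_lit 4815324044) (nat_lit 1824) (nat_lit 17457664298) (nat_lit 1900) (nat_lit 9104639418) (nat_lit 448) (nat_lit 5) (nat_lit 472) (nat_lit 5) (nat_lit 473) (nat_lit 5)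 (nat_lit 629) (nat_lit 617) (nat_lit 314)))) (XT.nd (nat_lit 78) (nat_lit 0) (nat_lit 76) (XT.lf (nat_lit 0) (nat_lit 6150882866) (nat_lit 1824) (nat_lit 1518137885) (nat_lit 1900) (nat_lit 24033845542) (nat_lit 448) (nat_lit 5) (nat_lit 472) (nat_lit 5) (nat_lit 473) (nat_lit 5) (nat_lit 630) (nat_lit 617) (nat_lit 313)) (XT.nd (nat_lit 78) (nat_lit 0) (nat_lit 0) (XT.lf (nat_lit 0) (nat_lit 7655916010) (nat_lit 1824) (nat_lit 17145444245) (nat_lit 1900) (nat_lit 7230394348) (nat_lit 449) (nat_lit 5) (nat_lit 473) (nat_lit 5) (nat_lit 474) (nat_lit 5) (nat_lit 631) (nat_lit 617) (nat_lit 312)) (XT.lf (nat_lit 0) (nat_lit 9250351257) (nat_lit 1824) (nat_lit 779698794) (nat_lit 1900) (nat_lit 22335984861) (nat_lit 449) (nat_lit 5) (nat_lit 473) (nat_lit 5) (nat_lit 474) (nat_lit 5) (nat_lit 632) (nat_lit 617) (nat_lit 311)))))) (XT.nd (nat_lit 468) (nat_lit 2432) (nat_lit 0) (XT.nd (nat_lit 234) (nat_lit 0) (nat_lit 76) (XT.nd (nat_lit 78) (nat_lit 0) (nat_lit 0) (XT.lf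 (nat_lit 0) (nat_lit 11013050604) (nat_lit 1824) (nat_lit 16614741940) (nat_lit 1900) (nat_lit 5076481033) (nat_lit 450) (nat_lit 5) (nat_lit 474) (nat_lit 5) (nat_lit 475) (nat_lit 5) (nat_lit 633) (nat_lit 617) (nat_lit 310)) (XT.nd (nat_lit 78) (nat_lit 0) (nat_lit 76) (XT.lf (nat_lit 76) (nat_lit 192350452) (nat_lit 0) (nat_lit 12689914333) (nat_lit 1900) (nat_lit 20165587267) (nat_lit 451) (nat_lit 5) (nat_lit 450) (nat_lit 5) (nat_lit 475) (nat_lit 5) (nat_lit 634) (nat_lit 617) (nat_lit 309)) (XT.lf (nat_lit 0) (nat_lit 14915978703) (nat_lit 1824) (nat_lit 15853828168) (nat_lit 1900) (nat_lit 2625953164) (nat_lit 451) (nat_lit 5) (nat_lit 475) (nat_lit 5) (nat_lit 476) (nat_lit 5) (nat_lit 635) (nat_lit 617) (nat_lit 308)))) (XT.nd (nat_lit 78) (nat_lit 0) (nat_lit 0) (XT.lf (nat_lit 76) (nat_lit 1421219841) (nat_lit 0) (nat_lit 15660794530) (nat_lit 1900) (nat_lit 16666779101) (nat_lit 452) (nat_lit 5) (nat_lit 451) (nat_lit 5) (nat_lit 476) (nat_lit 5) (nat_lit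 636) (nat_lit 617) (nat_lit 307)) (XT.nd (nat_lit 78) (nat_lit 0) (nat_lit 76) (XT.lf (nat_lit 76) (nat_lit 19255420632) (nat_lit 0) (nat_lit 140742079) (nat_lit 1900) (nat_lit 14710629265) (nat_lit 452) (nat_lit 5) (nat_lit 451) (nat_lit 5) (nat_lit 476) (nat_lit 5) (nat_lit 637) (nat_lit 617) (nat_lit 306)) (XT.lf (nat_lit 76) (nat_lit 2909383890) (nat_lit 0) (nat_lit 18966405699) (nat_lit 1900) (nat_lit 12593777183) (nat_lit 453) (nat_lit 5) (nat_lit 452) (nat_lit 5) (nat_lit 477) (nat_lit 5) (nat_lit 638) (nat_lit 617) (nat_lit 305))))) (XT.nd (nat_lit 234) (nat_lit 2584) (nat_lit 0) (XT.nd (nat_lit 78) (nat_lit 0) (nat_lit 76) (XT.lf (nat_lit 76) (nat_lit 21224472139) (nat_lit 0) (nat_lit 3279583728) (nat_lit 1900) (nat_lit 10333560491) (nat_lit 453) (nat_lit 5) (nat_lit 452) (nat_lit 5) (nat_lit 477) (nat_lit 5) (nat_lit 639) (nat_lit 617) (nat_lit 304)) (XT.nd (nat_lit 78) (nat_lit 0) (nat_lit 0) (XT.lf (nat_lit 76) (nat_lit 4670233583) (nat_lit 0) (nat_lit 22626061574)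 (nat_lit 1900) (nat_lit 7914503847) (nat_lit 454) (nat_lit 5) (nat_lit 453) (nat_lit 5) (nat_lit 478) (nat_lit 5) (nat_lit 640) (nat_lit 617) (nat_lit 303)) (XT.lf (nat_lit 76) (nat_lit 23480549667) (nat_lit 0) (nat_lit 6775271002) (nat_lit 1900) (nat_lit 5333396027) (nat_lit 454) (nat_lit 5) (nat_lit 453) (nat_lit 5) (nat_lit 478) (nat_lit 5) (nat_lit 641) (nat_lit 617) (nat_lit 302)))) (XT.nd (nat_lit 156) (nat_lit 988) (nat_lit 0) (XT.nd (nat_lit 78) (nat_lit 76) (nat_lit 0) (XT.lf (nat_lit 0) (nat_lit 6717733430) (nat_lit 1672) (nat_lit 26659946311) (nat_lit 1748) (nat_lit 2595460356) (nat_lit 432) (nat_lit 5) (nat_lit 454) (nat_lit 5) (nat_lit 455) (nat_lit 5) (nat_lit 642) (nat_lit 617) (nat_lit 301)) (XT.lf (nat_lit 0) (nat_lit 319865471) (nat_lit 1748) (nat_lit 10326275567) (nat_lit 76) (nat_lit 25716071159) (nat_lit 431) (nat_lit 5) (nat_lit 454) (nat_lit 5) (nat_lit 432) (nat_lit 5) (nat_lit 643) (nat_lit 617) (nat_lit 300))) (XT.nd (nat_lit 78) (nat_lit 0)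 (nat_lit 0) (XT.lf (nat_lit 0) (nat_lit 3353763118) (nat_lit 1064) (nat_lit 27712887066) (nat_lit 76) (nat_lit 5690172268) (nat_lit 418) (nat_lit 5) (nat_lit 432) (nat_lit 5) (nat_lit 419) (nat_lit 5) (nat_lit 644) (nat_lit 617) (nat_lit 299)) (XT.lf (nat_lit 0) (nat_lit 6587200952) (nat_lit 1064) (nat_lit 8288641090) (nat_lit 76) (nat_lit 22280705826) (nat_lit 418) (nat_lit 5) (nat_lit 432) (nat_lit 5) (nat_lit 419) (nat_lit 5) (nat_lit 645) (nat_lit 617) (nat_lit 298))))))))
noncomputable def xc250 : XT := (XT.nd (nat_lit 80808) (nat_lit 0) (nat_lit 0) (XT.nd (nat_lit 79794) (nat_lit 0) (nat_lit 3116) (XT.nd (nat_lit 79326) (nat_lit 0) (nat_lit 3040) (XT.nd (nat_lit 79092) (nat_lit 0) (nat_lit 4636) (XT.nd (nat_lit 78) (nat_lit 0) (nat_lit 0) (XT.lf (nat_lit 0) (nat_lit 9970890405) (nat_lit 988) (nat_lit 25897939772) (nat_lit 76) (nat_lit 1693726152) (nat_lit 406) (nat_lit 5) (nat_lit 419) (nat_lit 5) (nat_lit 407) (nat_lit 5) (nat_lit 646) (nat_lit 617) (nat_lit 297))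 (XT.nd (nat_lit 78936) (nat_lit 0) (nat_lit 4636) (XT.lf (nat_lit 0) (nat_lit 13575409952) (nat_lit 988) (nat_lit 5946422179) (nat_lit 76) (nat_lit 18451789895) (nat_lit 406) (nat_lit 5) (nat_lit 419) (nat_lit 5) (nat_lit 407) (nat_lit 5) (nat_lit 647) (nat_lit 617) (nat_lit 296)) (XT.lf (nat_lit 0) (nat_lit 6392118762) (nat_lit 0) (nat_lit 6392118762) (nat_lit 1748) (nat_lit 1396637816) (nat_lit 467) (nat_lit 5) (nat_lit 467) (nat_lit 3) (nat_lit 490) (nat_lit 3) (nat_lit 618) (nat_lit 618) (nat_lit 324)))) (XT.nd (nat_lit 78) (nat_lit 0) (nat_lit 0) (XT.lf (nat_lit 0) (nat_lit 25912247409) (nat_lit 1748) (nat_lit 1687645138) (nat_lit 1824) (nat_lit 1043701166) (nat_lit 467) (nat_lit 5) (nat_lit 490) (nat_lit 3) (nat_lit 491) (nat_lit 5) (nat_lit 619) (nat_lit 618) (nat_lit 323)) (XT.nd (nat_lit 78) (nat_lit 0) (nat_lit 76) (XT.lf (nat_lit 76) (nat_lit 12558954270) (nat_lit 0) (nat_lit 13868022286) (nat_lit 1824) (nat_lit 2500815755) (nat_lit 468) (nat_lit 5) (nat_lit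 467) (nat_lit 5) (nat_lit 491) (nat_lit 5) (nat_lit 620) (nat_lit 618) (nat_lit 322)) (XT.lf (nat_lit 0) (nat_lit 26962216688) (nat_lit 1748) (nat_lit 2106216614) (nat_lit 1824) (nat_lit 149037580) (nat_lit 468) (nat_lit 5) (nat_lit 491) (nat_lit 5) (nat_lit 492) (nat_lit 5) (nat_lit 621) (nat_lit 618) (nat_lit 321))))) (XT.nd (nat_lit 234) (nat_lit 1672) (nat_lit 0) (XT.nd (nat_lit 78) (nat_lit 0) (nat_lit 0) (XT.lf (nat_lit 76) (nat_lit 12512789962) (nat_lit 0) (nat_lit 15166412310) (nat_lit 1824) (nat_lit 1830320260) (nat_lit 469) (nat_lit 5) (nat_lit 468) (nat_lit 5) (nat_lit 492) (nat_lit 5) (nat_lit 622) (nat_lit 618) (nat_lit 320)) (XT.nd (nat_lit 78) (nat_lit 0) (nat_lit 76) (XT.lf (nat_lit 76) (nat_lit 27451600886) (nat_lit 0) (nat_lit 971051340) (nat_lit 1824) (nat_lit 1384520809) (nat_lit 469) (nat_lit 5) (nat_lit 468) (nat_lit 5) (nat_lit 492) (nat_lit 5) (nat_lit 623) (nat_lit 618) (nat_lit 319)) (XT.lf (nat_lit 76) (nat_lit 12655537476) (nat_lit 0) (nat_lit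 16693342005) (nat_lit 1824) (nat_lit 758539211) (nat_lit 470) (nat_lit 5) (nat_lit 469) (nat_lit 5) (nat_lit 493) (nat_lit 5) (nat_lit 624) (nat_lit 618) (nat_lit 318)))) (XT.nd (nat_lit 78) (nat_lit 1748) (nat_lit 0) (XT.lf (nat_lit 76) (nat_lit 27991141642) (nat_lit 0) (nat_lit 2322752215) (nat_lit 1824) (nat_lit 99370454) (nat_lit 470) (nat_lit 5) (nat_lit 469) (nat_lit 5) (nat_lit 493) (nat_lit 5) (nat_lit 625) (nat_lit 618) (nat_lit 317)) (XT.nd (nat_lit 78) (nat_lit 0) (nat_lit 0) (XT.lf (nat_lit 0) (nat_lit 729129896) (nat_lit 1824) (nat_lit 17729328716) (nat_lit 1900) (nat_lit 12263420859) (nat_lit 446) (nat_lit 5) (nat_lit 470) (nat_lit 5) (nat_lit 471) (nat_lit 5) (nat_lit 626) (nat_lit 618) (nat_lit 316)) (XT.lf (nat_lit 0) (nat_lit 1602741598) (nat_lit 1824) (nat_lit 2305320052) (nat_lit 1900) (nat_lit 27127994994) (nat_lit 446) (nat_lit 5) (nat_lit 470) (nat_lit 5) (nat_lit 471) (nat_lit 5) (nat_lit 627) (nat_lit 618) (nat_lit 315)))))) (XT.nd (nat_lit 468)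 (nat_lit 0) (nat_lit 228) (XT.nd (nat_lit 234) (nat_lit 0) (nat_lit 76) (XT.nd (nat_lit 78) (nat_lit 0) (nat_lit 0) (XT.lf (nat_lit 0) (nat_lit 2651894020) (nat_lit 1824) (nat_lit 17821927287) (nat_lit 1900) (nat_lit 10879534963) (nat_lit 447) (nat_lit 5) (nat_lit 471) (nat_lit 5) (nat_lit 472) (nat_lit 5) (nat_lit 628) (nat_lit 618) (nat_lit 314)) (XT.nd (nat_lit 78) (nat_lit 0) (nat_lit 76) (XT.lf (nat_lit 0) (nat_lit 3761679450) (nat_lit 1824) (nat_lit 1987704040) (nat_lit 1900) (nat_lit 25926825673) (nat_lit 447) (nat_lit 5) (nat_lit 471) (nat_lit 5) (nat_lit 472) (nat_lit 5) (nat_lit 629) (nat_lit 618) (nat_lit 313)) (XT.lf (nat_lit 0) (nat_lit 5045868599) (nat_lit 1824) (nat_lit 17714253374) (nat_lit 1900) (nat_lit 9242353249) (nat_lit 448) (nat_lit 5) (nat_lit 472) (nat_lit 5) (nat_lit 473) (nat_lit 5) (nat_lit 630) (nat_lit 618) (nat_lit 312)))) (XT.nd (nat_lit 78) (nat_lit 0) (nat_lit 76) (XT.lf (nat_lit 0) (nat_lit 6405506478) (nat_lit 1824) (nat_lit 1457751416)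 (nat_lit 1900) (nat_lit 24471013672) (nat_lit 448) (nat_lit 5) (nat_lit 472) (nat_lit 5) (nat_lit 473) (nat_lit 5) (nat_lit 631) (nat_lit 618) (nat_lit 311)) (XT.nd (nat_lit 78) (nat_lit 0) (nat_lit 0) (XT.lf (nat_lit 0) (nat_lit 7938388912) (nat_lit 1824) (nat_lit 17395332988) (nat_lit 1900) (nat_lit 7336061159) (nat_lit 449) (nat_lit 5) (nat_lit 473) (nat_lit 5) (nat_lit 474) (nat_lit 5) (nat_lit 632) (nat_lit 618) (nat_lit 310)) (XT.lf (nat_lit 0) (nat_lit 9562176500) (nat_lit 1824) (nat_lit 704096553) (nat_lit 1900) (nat_lit 22744527033) (nat_lit 449) (nat_lit 5) (nat_lit 473) (nat_lit 5) (nat_lit 474) (nat_lit 5) (nat_lit 633) (nat_lit 618) (nat_lit 309))))) (XT.nd (nat_lit 234) (nat_lit 0) (nat_lit 76) (XT.nd (nat_lit 78) (nat_lit 0) (nat_lit 0) (XT.lf (nat_lit 0) (nat_lit 11358008562) (nat_lit 1824) (nat_lit 16853700505) (nat_lit 1900) (nat_lit 5144137258) (nat_lit 450) (nat_lit 5) (nat_lit 474) (nat_lit 5) (nat_lit 475) (nat_lit 5) (nat_lit 634) (nat_lit 618)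 (nat_lit 308)) (XT.nd (nat_lit 78) (nat_lit 0) (nat_lit 76) (XT.lf (nat_lit 76) (nat_lit 288919680) (nat_lit 0) (nat_lit 12973844322) (nat_lit 1900) (nat_lit 20443569597) (nat_lit 451) (nat_lit 5) (nat_lit 450) (nat_lit 5) (nat_lit 475) (nat_lit 5) (nat_lit 635) (nat_lit 618) (nat_lit 307)) (XT.lf (nat_lit 0) (nat_lit 15334551500) (nat_lit 1824) (nat_lit 16077381841) (nat_lit 1900) (nat_lit 2649318776) (nat_lit 451) (nat_lit 5) (nat_lit 475) (nat_lit 5) (nat_lit 476) (nat_lit 5) (nat_lit 636) (nat_lit 618) (nat_lit 306)))) (XT.nd (nat_lit 156) (nat_lit 0) (nat_lit 76) (XT.nd (nat_lit 78) (nat_lit 0) (nat_lit 0) (XT.lf (nat_lit 76) (nat_lit 1542551846) (nat_lit 0) (nat_lit 15999601346) (nat_lit 1900) (nat_lit 16879228478) (nat_lit 452) (nat_lit 5) (nat_lit 451) (nat_lit 5) (nat_lit 476) (nat_lit 5) (nat_lit 637) (nat_lit 618) (nat_lit 305)) (XT.lf (nat_lit 76) (nat_lit 19731614935) (nat_lit 0) (nat_lit 168646064) (nat_lit 1900) (nat_lit 14886325963) (nat_lit 452) (nat_lit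 5) (nat_lit 451) (nat_lit 5) (nat_lit 476) (nat_lit 5) (nat_lit 638) (nat_lit 618) (nat_lit 304))) (XT.nd (nat_lit 78) (nat_lit 0) (nat_lit 0) (XT.lf (nat_lit 76) (nat_lit 3060545486) (nat_lit 0) (nat_lit 19367100933) (nat_lit 1900) (nat_lit 12729007854) (nat_lit 453) (nat_lit 5) (nat_lit 452) (nat_lit 5) (nat_lit 477) (nat_lit 5) (nat_lit 639) (nat_lit 618) (nat_lit 303)) (XT.lf (nat_lit 76) (nat_lit 21740112482) (nat_lit 0) (nat_lit 3366123559) (nat_lit 1900) (nat_lit 10425873982) (nat_lit 453) (nat_lit 5) (nat_lit 452) (nat_lit 5) (nat_lit 477) (nat_lit 5) (nat_lit 640) (nat_lit 618) (nat_lit 302))))))) (XT.nd (nat_lit 79872) (nat_lit 0) (nat_lit 2964) (XT.nd (nat_lit 468) (nat_lit 912) (nat_lit 0) (XT.nd (nat_lit 234) (nat_lit 1064) (nat_lit 0) (XT.nd (nat_lit 78) (nat_lit 1596) (nat_lit 0) (XT.lf (nat_lit 76) (nat_lit 4856568394) (nat_lit 0) (nat_lit 23096023724) (nat_lit 1900) (nat_lit 7960199092) (nat_lit 454) (nat_lit 5) (nat_lit 453) (nat_lit 5) (nat_lit 478)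 (nat_lit 5) (nat_lit 641) (nat_lit 618) (nat_lit 301)) (XT.nd (nat_lit 78) (nat_lit 1596) (nat_lit 0) (XT.lf (nat_lit 76) (nat_lit 24041268640) (nat_lit 0) (nat_lit 6927875363) (nat_lit 1900) (nat_lit 5329676857) (nat_lit 454) (nat_lit 5) (nat_lit 453) (nat_lit 5) (nat_lit 478) (nat_lit 5) (nat_lit 642) (nat_lit 618) (nat_lit 300)) (XT.lf (nat_lit 0) (nat_lit 6944872798) (nat_lit 1672) (nat_lit 27206939332) (nat_lit 1748) (nat_lit 2538643475) (nat_lit 432) (nat_lit 5) (nat_lit 454) (nat_lit 5) (nat_lit 455) (nat_lit 5) (nat_lit 643) (nat_lit 618) (nat_lit 299)))) (XT.nd (nat_lit 78) (nat_lit 988) (nat_lit 0) (XT.lf (nat_lit 0) (nat_lit 431458982) (nat_lit 1748) (nat_lit 10440422577) (nat_lit 76) (nat_lit 26215455850) (nat_lit 431) (nat_lit 5) (nat_lit 454) (nat_lit 5) (nat_lit 432) (nat_lit 5) (nat_lit 644) (nat_lit 618) (nat_lit 298)) (XT.nd (nat_lit 78) (nat_lit 0) (nat_lit 0) (XT.lf (nat_lit 0) (nat_lit 3524490105) (nat_lit 1064) (nat_lit 28173207017) (nat_lit 76)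 (nat_lit 5792173933) (nat_lit 418) (nat_lit 5) (nat_lit 432) (nat_lit 5) (nat_lit 419) (nat_lit 5) (nat_lit 645) (nat_lit 618) (nat_lit 297)) (XT.lf (nat_lit 0) (nat_lit 6820564309) (nat_lit 1064) (nat_lit 8362318039) (nat_lit 76) (nat_lit 22714749570) (nat_lit 418) (nat_lit 5) (nat_lit 432) (nat_lit 5) (nat_lit 419) (nat_lit 5) (nat_lit 646) (nat_lit 618) (nat_lit 296))))) (XT.nd (nat_lit 79170) (nat_lit 0) (nat_lit 4636) (XT.nd (nat_lit 79014) (nat_lit 0) (nat_lit 4636) (XT.lf (nat_lit 0) (nat_lit 10270472342) (nat_lit 988) (nat_lit 26322333251) (nat_lit 76) (nat_lit 1718984345) (nat_lit 406) (nat_lit 5) (nat_lit 419) (nat_lit 5) (nat_lit 407) (nat_lit 5) (nat_lit 647) (nat_lit 618) (nat_lit 295)) (XT.nd (nat_lit 78) (nat_lit 0) (nat_lit 0) (XT.lf (nat_lit 0) (nat_lit 6560308043) (nat_lit 0) (nat_lit 6560308043) (nat_lit 1748) (nat_lit 1342250243) (nat_lit 467) (nat_lit 5) (nat_lit 467) (nat_lit 3) (nat_lit 490) (nat_lit 3) (nat_lit 619) (nat_lit 619) (nat_lit 322))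 (XT.lf (nat_lit 0) (nat_lit 26588201873) (nat_lit 1748) (nat_lit 1638583567) (nat_lit 1824) (nat_lit 986501171) (nat_lit 467) (nat_lit 5) (nat_lit 490) (nat_lit 3) (nat_lit 491) (nat_lit 5) (nat_lit 620) (nat_lit 619) (nat_lit 321)))) (XT.nd (nat_lit 78) (nat_lit 0) (nat_lit 76) (XT.lf (nat_lit 76) (nat_lit 12892402997) (nat_lit 0) (nat_lit 14218264412) (nat_lit 1824) (nat_lit 2392553423) (nat_lit 468) (nat_lit 5) (nat_lit 467) (nat_lit 5) (nat_lit 491) (nat_lit 5) (nat_lit 621) (nat_lit 619) (nat_lit 320)) (XT.nd (nat_lit 78) (nat_lit 0) (nat_lit 0) (XT.lf (nat_lit 0) (nat_lit 27653106243) (nat_lit 1748) (nat_lit 2064154512) (nat_lit 1824) (nat_lit 81502818) (nat_lit 468) (nat_lit 5) (nat_lit 491) (nat_lit 5) (nat_lit 492) (nat_lit 5) (nat_lit 622) (nat_lit 619) (nat_lit 319)) (XT.lf (nat_lit 76) (nat_lit 12846678338) (nat_lit 0) (nat_lit 15535322763) (nat_lit 1824) (nat_lit 1714704230) (nat_lit 469) (nat_lit 5) (nat_lit 468) (nat_lit 5) (nat_lit 492) (nat_lit 5) (nat_lit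 623) (nat_lit 619) (nat_lit 318)))))) (XT.nd (nat_lit 468) (nat_lit 0) (nat_lit 152) (XT.nd (nat_lit 234) (nat_lit 0) (nat_lit 76) (XT.nd (nat_lit 78) (nat_lit 1748) (nat_lit 0) (XT.lf (nat_lit 76) (nat_lit 28082625626) (nat_lit 0) (nat_lit 1054768648) (nat_lit 1824) (nat_lit 1262973544) (nat_lit 469) (nat_lit 5) (nat_lit 468) (nat_lit 5) (nat_lit 492) (nat_lit 5) (nat_lit 624) (nat_lit 619) (nat_lit 317)) (XT.nd (nat_lit 78) (nat_lit 1824) (nat_lit 0) (XT.lf (nat_lit 76) (nat_lit 12993445508) (nat_lit 0) (nat_lit 17085973445) (nat_lit 1824) (nat_lit 627254425) (nat_lit 470) (nat_lit 5) (nat_lit 469) (nat_lit 5) (nat_lit 493) (nat_lit 5) (nat_lit 625) (nat_lit 619) (nat_lit 316)) (XT.lf (nat_lit 0) (nat_lit 41672225) (nat_lit 1824) (nat_lit 2384867744) (nat_lit 1900) (nat_lit 28592147198) (nat_lit 445) (nat_lit 5) (nat_lit 469) (nat_lit 5) (nat_lit 470) (nat_lit 5) (nat_lit 626) (nat_lit 619) (nat_lit 315)))) (XT.nd (nat_lit 78) (nat_lit 0) (nat_lit 0) (XT.lf (nat_lit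 0) (nat_lit 882826272) (nat_lit 1824) (nat_lit 17996267855) (nat_lit 1900) (nat_lit 12454419504) (nat_lit 446) (nat_lit 5) (nat_lit 470) (nat_lit 5) (nat_lit 471) (nat_lit 5) (nat_lit 627) (nat_lit 619) (nat_lit 314)) (XT.nd (nat_lit 78) (nat_lit 0) (nat_lit 76) (XT.lf (nat_lit 0) (nat_lit 1771182486) (nat_lit 1824) (nat_lit 2265497595) (nat_lit 1900) (nat_lit 27617349235) (nat_lit 446) (nat_lit 5) (nat_lit 470) (nat_lit 5) (nat_lit 471) (nat_lit 5) (nat_lit 628) (nat_lit 619) (nat_lit 313)) (XT.lf (nat_lit 0) (nat_lit 2838880450) (nat_lit 1824) (nat_lit 18089979135) (nat_lit 1900) (nat_lit 11048864508) (nat_lit 447) (nat_lit 5) (nat_lit 471) (nat_lit 5) (nat_lit 472) (nat_lit 5) (nat_lit 629) (nat_lit 619) (nat_lit 312))))) (XT.nd (nat_lit 234) (nat_lit 0) (nat_lit 152) (XT.nd (nat_lit 78) (nat_lit 0) (nat_lit 76) (XT.lf (nat_lit 0) (nat_lit 3968235146) (nat_lit 1824) (nat_lit 1940804496) (nat_lit 1900) (nat_lit 26398047328) (nat_lit 447) (nat_lit 5) (nat_lit 471) (nat_lit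 5) (nat_lit 472) (nat_lit 5) (nat_lit 630) (nat_lit 619) (nat_lit 311)) (XT.nd (nat_lit 78) (nat_lit 0) (nat_lit 0) (XT.lf (nat_lit 0) (nat_lit 5275811417) (nat_lit 1824) (nat_lit 17979568611) (nat_lit 1900) (nat_lit 9384544646) (nat_lit 448) (nat_lit 5) (nat_lit 472) (nat_lit 5) (nat_lit 473) (nat_lit 5) (nat_lit 631) (nat_lit 619) (nat_lit 310)) (XT.lf (nat_lit 0) (nat_lit 6660112143) (nat_lit 1824) (nat_lit 1399681121) (nat_lit 1900) (nat_lit 24918614663) (nat_lit 448) (nat_lit 5) (nat_lit 472) (nat_lit 5) (nat_lit 473) (nat_lit 5) (nat_lit 632) (nat_lit 619) (nat_lit 309)))) (XT.nd (nat_lit 156) (nat_lit 0) (nat_lit 76) (XT.nd (nat_lit 78) (nat_lit 0) (nat_lit 0) (XT.lf (nat_lit 0) (nat_lit 8221488277) (nat_lit 1824) (nat_lit 17653831592) (nat_lit 1900) (nat_lit 7445353436) (nat_lit 449) (nat_lit 5) (nat_lit 473) (nat_lit 5) (nat_lit 474) (nat_lit 5) (nat_lit 633) (nat_lit 619) (nat_lit 308)) (XT.lf (nat_lit 0) (nat_lit 9875313742) (nat_lit 1824) (nat_lit 630523527)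 (nat_lit 1900) (nat_lit 23162722528) (nat_lit 449) (nat_lit 5) (nat_lit 473) (nat_lit 5) (nat_lit 474) (nat_lit 5) (nat_lit 634) (nat_lit 619) (nat_lit 307))) (XT.nd (nat_lit 78) (nat_lit 0) (nat_lit 0) (XT.lf (nat_lit 0) (nat_lit 11705023545) (nat_lit 1824) (nat_lit 17101062603) (nat_lit 1900) (nat_lit 5214461953) (nat_lit 450) (nat_lit 5) (nat_lit 474) (nat_lit 5) (nat_lit 475) (nat_lit 5) (nat_lit 635) (nat_lit 619) (nat_lit 306)) (XT.lf (nat_lit 76) (nat_lit 383819775) (nat_lit 0) (nat_lit 13262282861) (nat_lit 1900) (nat_lit 20731978266) (nat_lit 451) (nat_lit 5) (nat_lit 450) (nat_lit 5) (nat_lit 475) (nat_lit 5) (nat_lit 636) (nat_lit 619) (nat_lit 305))))))))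
noncomputable def xc251 : XT := (XT.nd (nat_lit 81042) (nat_lit 0) (nat_lit 988) (XT.nd (nat_lit 80028) (nat_lit 0) (nat_lit 2052) (XT.nd (nat_lit 468) (nat_lit 2508) (nat_lit 0) (XT.nd (nat_lit 234) (nat_lit 0) (nat_lit 76) (XT.nd (nat_lit 78) (nat_lit 0) (nat_lit 0) (XT.lf (nat_lit 0) (nat_lit 15756826173) (nat_lit 1824) (nat_lit 16309038196) (nat_lit 1900) (nat_lit 2674283764) (nat_lit 451) (nat_lit 5) (nat_lit 475) (nat_lit 5) (nat_lit 476) (nat_lit 5) (nat_lit 637) (nat_lit 619) (nat_lit 304)) (XT.nd (nat_lit 78) (nat_lit 0) (nat_lit 0) (XT.lf (nat_lit 76) (nat_lit 1662702775) (nat_lit 0) (nat_lit 16344190572) (nat_lit 1900) (nat_lit 17100621001) (nat_lit 452) (nat_lit 5) (nat_lit 451) (nat_lit 5) (nat_lit 476) (nat_lit 5) (nat_lit 638) (nat_lit 619) (nat_lit 303)) (XT.lf (nat_lit 76) (nat_lit 20213796147) (nat_lit 0) (nat_lit 196133887) (nat_lit 1900) (nat_lit 15070138711) (nat_lit 452) (nat_lit 5) (nat_lit 451) (nat_lit 5) (nat_lit 476) (nat_lit 5) (nat_lit 639)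 (nat_lit 619) (nat_lit 302)))) (XT.nd (nat_lit 78) (nat_lit 0) (nat_lit 0) (XT.lf (nat_lit 76) (nat_lit 3211120024) (nat_lit 0) (nat_lit 19774980361) (nat_lit 1900) (nat_lit 12871472602) (nat_lit 453) (nat_lit 5) (nat_lit 452) (nat_lit 5) (nat_lit 477) (nat_lit 5) (nat_lit 640) (nat_lit 619) (nat_lit 301)) (XT.nd (nat_lit 78) (nat_lit 0) (nat_lit 76) (XT.lf (nat_lit 76) (nat_lit 22262526132) (nat_lit 0) (nat_lit 3453580745) (nat_lit 1900) (nat_lit 10524474393) (nat_lit 453) (nat_lit 5) (nat_lit 452) (nat_lit 5) (nat_lit 477) (nat_lit 5) (nat_lit 641) (nat_lit 619) (nat_lit 300)) (XT.lf (nat_lit 76) (nat_lit 5043021311) (nat_lit 0) (nat_lit 23574707866) (nat_lit 1900) (nat_lit 8011180436) (nat_lit 454) (nat_lit 5) (nat_lit 453) (nat_lit 5) (nat_lit 478) (nat_lit 5) (nat_lit 642) (nat_lit 619) (nat_lit 299))))) (XT.nd (nat_lit 234) (nat_lit 988) (nat_lit 0) (XT.nd (nat_lit 78) (nat_lit 1672) (nat_lit 0) (XT.lf (nat_lit 76) (nat_lit 24609664158) (nat_lit 0) (nat_lit 7082867837)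 (nat_lit 1900) (nat_lit 5330169770) (nat_lit 454) (nat_lit 5) (nat_lit 453) (nat_lit 5) (nat_lit 478) (nat_lit 5) (nat_lit 643) (nat_lit 619) (nat_lit 298)) (XT.nd (nat_lit 78) (nat_lit 76) (nat_lit 0) (XT.lf (nat_lit 0) (nat_lit 7172952010) (nat_lit 1672) (nat_lit 27764336572) (nat_lit 1748) (nat_lit 2484912223) (nat_lit 432) (nat_lit 5) (nat_lit 454) (nat_lit 5) (nat_lit 455) (nat_lit 5) (nat_lit 644) (nat_lit 619) (nat_lit 297)) (XT.lf (nat_lit 0) (nat_lit 541199467) (nat_lit 1748) (nat_lit 10560439697) (nat_lit 76) (nat_lit 26725408247) (nat_lit 431) (nat_lit 5) (nat_lit 454) (nat_lit 5) (nat_lit 432) (nat_lit 5) (nat_lit 645) (nat_lit 619) (nat_lit 296)))) (XT.nd (nat_lit 79170) (nat_lit 0) (nat_lit 3724) (XT.lf (nat_lit 0) (nat_lit 3694606709) (nat_lit 1064) (nat_lit 28646381087) (nat_lit 76) (nat_lit 5896673909) (nat_lit 418) (nat_lit 5) (nat_lit 432) (nat_lit 5) (nat_lit 419) (nat_lit 5) (nat_lit 646) (nat_lit 619) (nat_lit 295)) (XT.nd (nat_lit 78) (nat_lit 0)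 (nat_lit 0) (XT.lf (nat_lit 0) (nat_lit 6730294391) (nat_lit 0) (nat_lit 6730294391) (nat_lit 1748) (nat_lit 1289971518) (nat_lit 467) (nat_lit 5) (nat_lit 467) (nat_lit 3) (nat_lit 490) (nat_lit 3) (nat_lit 620) (nat_lit 620) (nat_lit 320)) (XT.lf (nat_lit 0) (nat_lit 27271551374) (nat_lit 1748) (nat_lit 1591756552) (nat_lit 1824) (nat_lit 931188886) (nat_lit 467) (nat_lit 5) (nat_lit 490) (nat_lit 3) (nat_lit 491) (nat_lit 5) (nat_lit 621) (nat_lit 620) (nat_lit 319)))))) (XT.nd (nat_lit 468) (nat_lit 0) (nat_lit 76) (XT.nd (nat_lit 234) (nat_lit 1672) (nat_lit 0) (XT.nd (nat_lit 78) (nat_lit 0) (nat_lit 76) (XT.lf (nat_lit 76) (nat_lit 13229326069) (nat_lit 0) (nat_lit 14572681296) (nat_lit 1824) (nat_lit 2288271997) (nat_lit 468) (nat_lit 5) (nat_lit 467) (nat_lit 5) (nat_lit 491) (nat_lit 5) (nat_lit 622) (nat_lit 620) (nat_lit 318)) (XT.nd (nat_lit 78) (nat_lit 0) (nat_lit 0) (XT.lf (nat_lit 0) (nat_lit 28351925020) (nat_lit 1748) (nat_lit 2024520229) (nat_lit 1824)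 (nat_lit 15355564) (nat_lit 468) (nat_lit 5) (nat_lit 491) (nat_lit 5) (nat_lit 492) (nat_lit 5) (nat_lit 623) (nat_lit 620) (nat_lit 317)) (XT.lf (nat_lit 76) (nat_lit 13183996926) (nat_lit 0) (nat_lit 15909064788) (nat_lit 1824) (nat_lit 1602686863) (nat_lit 469) (nat_lit 5) (nat_lit 468) (nat_lit 5) (nat_lit 492) (nat_lit 5) (nat_lit 624) (nat_lit 620) (nat_lit 316)))) (XT.nd (nat_lit 78) (nat_lit 1748) (nat_lit 0) (XT.lf (nat_lit 76) (nat_lit 28723086984) (nat_lit 0) (nat_lit 1137663600) (nat_lit 1824) (nat_lit 1144790415) (nat_lit 469) (nat_lit 5) (nat_lit 468) (nat_lit 5) (nat_lit 492) (nat_lit 5) (nat_lit 625) (nat_lit 620) (nat_lit 315)) (XT.nd (nat_lit 78) (nat_lit 1824) (nat_lit 0) (XT.lf (nat_lit 76) (nat_lit 13334818919) (nat_lit 0) (nat_lit 17484175614) (nat_lit 1824) (nat_lit 499030993) (nat_lit 470) (nat_lit 5) (nat_lit 469) (nat_lit 5) (nat_lit 493) (nat_lit 5) (nat_lit 626) (nat_lit 620) (nat_lit 314)) (XT.lf (nat_lit 0) (nat_lit 178704020) (nat_lit 1824)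 (nat_lit 2350827982) (nat_lit 1900) (nat_lit 29106784202) (nat_lit 445) (nat_lit 5) (nat_lit 469) (nat_lit 5) (nat_lit 470) (nat_lit 5) (nat_lit 627) (nat_lit 620) (nat_lit 313))))) (XT.nd (nat_lit 234) (nat_lit 0) (nat_lit 76) (XT.nd (nat_lit 78) (nat_lit 0) (nat_lit 0) (XT.lf (nat_lit 0) (nat_lit 1034194618) (nat_lit 1824) (nat_lit 18271949234) (nat_lit 1900) (nat_lit 12651345484) (nat_lit 446) (nat_lit 5) (nat_lit 470) (nat_lit 5) (nat_lit 471) (nat_lit 5) (nat_lit 628) (nat_lit 620) (nat_lit 312)) (XT.nd (nat_lit 78) (nat_lit 0) (nat_lit 76) (XT.lf (nat_lit 0) (nat_lit 1937696156) (nat_lit 1824) (nat_lit 2228215411) (nat_lit 1900) (nat_lit 28118556602) (nat_lit 446) (nat_lit 5) (nat_lit 470) (nat_lit 5) (nat_lit 471) (nat_lit 5) (nat_lit 629) (nat_lit 620) (nat_lit 311)) (XT.lf (nat_lit 0) (nat_lit 3024405223) (nat_lit 1824) (nat_lit 18366824183) (nat_lit 1900) (nat_lit 11223454682) (nat_lit 447) (nat_lit 5) (nat_lit 471) (nat_lit 5) (nat_lit 472) (nat_lit 5) (nat_lit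 630) (nat_lit 620) (nat_lit 310)))) (XT.nd (nat_lit 156) (nat_lit 0) (nat_lit 76) (XT.nd (nat_lit 78) (nat_lit 0) (nat_lit 76) (XT.lf (nat_lit 0) (nat_lit 4173822559) (nat_lit 1824) (nat_lit 1896331826) (nat_lit 1900) (nat_lit 26880530711) (nat_lit 447) (nat_lit 5) (nat_lit 471) (nat_lit 5) (nat_lit 472) (nat_lit 5) (nat_lit 631) (nat_lit 620) (nat_lit 309)) (XT.lf (nat_lit 0) (nat_lit 5505342876) (nat_lit 1824) (nat_lit 18253644961) (nat_lit 1900) (nat_lit 9531236242) (nat_lit 448) (nat_lit 5) (nat_lit 472) (nat_lit 5) (nat_lit 473) (nat_lit 5) (nat_lit 632) (nat_lit 620) (nat_lit 308))) (XT.nd (nat_lit 78) (nat_lit 0) (nat_lit 76) (XT.lf (nat_lit 0) (nat_lit 6914897945) (nat_lit 1824) (nat_lit 1343836486) (nat_lit 1900) (nat_lit 25376791567) (nat_lit 448) (nat_lit 5) (nat_lit 472) (nat_lit 5) (nat_lit 473) (nat_lit 5) (nat_lit 633) (nat_lit 620) (nat_lit 307)) (XT.lf (nat_lit 0) (nat_lit 8505421682) (nat_lit 1824) (nat_lit 17920971991) (nat_lit 1900) (nat_lit 7558284971)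 (nat_lit 449) (nat_lit 5) (nat_lit 473) (nat_lit 5) (nat_lit 474) (nat_lit 5) (nat_lit 634) (nat_lit 620) (nat_lit 306))))))) (XT.nd (nat_lit 80106) (nat_lit 0) (nat_lit 1064) (XT.nd (nat_lit 468) (nat_lit 1368) (nat_lit 0) (XT.nd (nat_lit 234) (nat_lit 0) (nat_lit 152) (XT.nd (nat_lit 78) (nat_lit 0) (nat_lit 76) (XT.lf (nat_lit 0) (nat_lit 10189980448) (nat_lit 1824) (nat_lit 558882789) (nat_lit 1900) (nat_lit 23590706847) (nat_lit 449) (nat_lit 5) (nat_lit 473) (nat_lit 5) (nat_lit 474) (nat_lit 5) (nat_lit 635) (nat_lit 620) (nat_lit 305)) (XT.nd (nat_lit 78) (nat_lit 0) (nat_lit 0) (XT.lf (nat_lit 0) (nat_lit 12054324719) (nat_lit 1824) (nat_lit 17356855566) (nat_lit 1900) (nat_lit 5287457410) (nat_lit 450) (nat_lit 5) (nat_lit 474) (nat_lit 5) (nat_lit 475) (nat_lit 5) (nat_lit 636) (nat_lit 620) (nat_lit 304)) (XT.lf (nat_lit 76) (nat_lit 477157169) (nat_lit 0) (nat_lit 13555365554) (nat_lit 1900) (nat_lit 21030832824) (nat_lit 451) (nat_lit 5) (nat_lit 450) (nat_lit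 5) (nat_lit 475) (nat_lit 5) (nat_lit 637) (nat_lit 620) (nat_lit 303)))) (XT.nd (nat_lit 78) (nat_lit 0) (nat_lit 0) (XT.lf (nat_lit 0) (nat_lit 16183058086) (nat_lit 1824) (nat_lit 16548818265) (nat_lit 1900) (nat_lit 2700836156) (nat_lit 451) (nat_lit 5) (nat_lit 475) (nat_lit 5) (nat_lit 476) (nat_lit 5) (nat_lit 638) (nat_lit 620) (nat_lit 302)) (XT.nd (nat_lit 78) (nat_lit 0) (nat_lit 0) (XT.lf (nat_lit 76) (nat_lit 1781789099) (nat_lit 0) (nat_lit 16694716444) (nat_lit 1900) (nat_lit 17330953253) (nat_lit 452) (nat_lit 5) (nat_lit 451) (nat_lit 5) (nat_lit 476) (nat_lit 5) (nat_lit 639) (nat_lit 620) (nat_lit 301)) (XT.lf (nat_lit 76) (nat_lit 20702221353) (nat_lit 0) (nat_lit 223235054) (nat_lit 1900) (nat_lit 15262051124) (nat_lit 452) (nat_lit 5) (nat_lit 451) (nat_lit 5) (nat_lit 476) (nat_lit 5) (nat_lit 640) (nat_lit 620) (nat_lit 300))))) (XT.nd (nat_lit 234) (nat_lit 1596) (nat_lit 0) (XT.nd (nat_lit 78) (nat_lit 0) (nat_lit 0) (XT.lf (nat_lit 76) (nat_lit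 3361235954) (nat_lit 0) (nat_lit 20190219884) (nat_lit 1900) (nat_lit 13021140222) (nat_lit 453) (nat_lit 5) (nat_lit 452) (nat_lit 5) (nat_lit 477) (nat_lit 5) (nat_lit 641) (nat_lit 620) (nat_lit 299)) (XT.nd (nat_lit 78) (nat_lit 0) (nat_lit 76) (XT.lf (nat_lit 76) (nat_lit 22791985997) (nat_lit 0) (nat_lit 3542005219) (nat_lit 1900) (nat_lit 10629315026) (nat_lit 453) (nat_lit 5) (nat_lit 452) (nat_lit 5) (nat_lit 477) (nat_lit 5) (nat_lit 642) (nat_lit 620) (nat_lit 298)) (XT.lf (nat_lit 76) (nat_lit 5229734821) (nat_lit 0) (nat_lit 24062314736) (nat_lit 1900) (nat_lit 8067383824) (nat_lit 454) (nat_lit 5) (nat_lit 453) (nat_lit 5) (nat_lit 478) (nat_lit 5) (nat_lit 643) (nat_lit 620) (nat_lit 297)))) (XT.nd (nat_lit 78) (nat_lit 1672) (nat_lit 0) (XT.lf (nat_lit 76) (nat_lit 25186027132) (nat_lit 0) (nat_lit 7240321972) (nat_lit 1900) (nat_lit 5334792557) (nat_lit 454) (nat_lit 5) (nat_lit 453) (nat_lit 5) (nat_lit 478) (nat_lit 5) (nat_lit 644) (nat_lit 620) (nat_lit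 296)) (XT.nd (nat_lit 78) (nat_lit 76) (nat_lit 0) (XT.lf (nat_lit 0) (nat_lit 7402129771) (nat_lit 1672) (nat_lit 28332366915) (nat_lit 1748) (nat_lit 2434164368) (nat_lit 432) (nat_lit 5) (nat_lit 454) (nat_lit 5) (nat_lit 455) (nat_lit 5) (nat_lit 645) (nat_lit 620) (nat_lit 295)) (XT.lf (nat_lit 0) (nat_lit 649208486) (nat_lit 1748) (nat_lit 10686305035) (nat_lit 76) (nat_lit 27246117180) (nat_lit 431) (nat_lit 5) (nat_lit 454) (nat_lit 5) (nat_lit 432) (nat_lit 5) (nat_lit 646) (nat_lit 620) (nat_lit 294)))))) (XT.nd (nat_lit 468) (nat_lit 1672) (nat_lit 0) (XT.nd (nat_lit 234) (nat_lit 0) (nat_lit 0) (XT.nd (nat_lit 78) (nat_lit 0) (nat_lit 0) (XT.lf (nat_lit 0) (nat_lit 6902174583) (nat_lit 0) (nat_lit 6902174583) (nat_lit 1748) (nat_lit 1239719689) (nat_lit 467) (nat_lit 5) (nat_lit 467) (nat_lit 3) (nat_lit 490) (nat_lit 3) (nat_lit 621) (nat_lit 621) (nat_lit 318)) (XT.nd (nat_lit 78) (nat_lit 0) (nat_lit 0) (XT.lf (nat_lit 0) (nat_lit 27962681616) (nat_lit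 1748) (nat_lit 1547083910) (nat_lit 1824) (nat_lit 877684340) (nat_lit 467) (nat_lit 5) (nat_lit 490) (nat_lit 3) (nat_lit 491) (nat_lit 5) (nat_lit 622) (nat_lit 621) (nat_lit 317)) (XT.lf (nat_lit 76) (nat_lit 13569917022) (nat_lit 0) (nat_lit 14931466329) (nat_lit 1824) (nat_lit 2187812432) (nat_lit 468) (nat_lit 5) (nat_lit 467) (nat_lit 5) (nat_lit 491) (nat_lit 5) (nat_lit 623) (nat_lit 621) (nat_lit 316)))) (XT.nd (nat_lit 78) (nat_lit 0) (nat_lit 76) (XT.lf (nat_lit 76) (nat_lit 29009245450) (nat_lit 0) (nat_lit 50140358) (nat_lit 1824) (nat_lit 1937420567) (nat_lit 468) (nat_lit 5) (nat_lit 467) (nat_lit 5) (nat_lit 491) (nat_lit 5) (nat_lit 624) (nat_lit 621) (nat_lit 315)) (XT.nd (nat_lit 78) (nat_lit 0) (nat_lit 0) (XT.lf (nat_lit 76) (nat_lit 13524940438) (nat_lit 0) (nat_lit 16287833906) (nat_lit 1824) (nat_lit 1494110600) (nat_lit 469) (nat_lit 5) (nat_lit 468) (nat_lit 5) (nat_lit 492) (nat_lit 5) (nat_lit 625) (nat_lit 621) (nat_lit 314)) (XT.lf (nat_lit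 76) (nat_lit 29373297325) (nat_lit 0) (nat_lit 1219816697) (nat_lit 1824) (nat_lit 1029813674) (nat_lit 469) (nat_lit 5) (nat_lit 468) (nat_lit 5) (nat_lit 492) (nat_lit 5) (nat_lit 626) (nat_lit 621) (nat_lit 313))))) (XT.nd (nat_lit 234) (nat_lit 0) (nat_lit 76) (XT.nd (nat_lit 78) (nat_lit 1824) (nat_lit 0) (XT.lf (nat_lit 76) (nat_lit 13679854879) (nat_lit 0) (nat_lit 17888148533) (nat_lit 1824) (nat_lit 373709305) (nat_lit 470) (nat_lit 5) (nat_lit 469) (nat_lit 5) (nat_lit 493) (nat_lit 5) (nat_lit 627) (nat_lit 621) (nat_lit 312)) (XT.nd (nat_lit 78) (nat_lit 0) (nat_lit 76) (XT.lf (nat_lit 0) (nat_lit 313187702) (nat_lit 1824) (nat_lit 2319281377) (nat_lit 1900) (nat_lit 29633935324) (nat_lit 445) (nat_lit 5) (nat_lit 469) (nat_lit 5) (nat_lit 470) (nat_lit 5) (nat_lit 628) (nat_lit 621) (nat_lit 311)) (XT.lf (nat_lit 0) (nat_lit 1183398137) (nat_lit 1824) (nat_lit 18556415536) (nat_lit 1900) (nat_lit 12854235513) (nat_lit 446) (nat_lit 5) (nat_lit 470) (nat_lit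 5) (nat_lit 471) (nat_lit 5) (nat_lit 629) (nat_lit 621) (nat_lit 310)))) (XT.nd (nat_lit 156) (nat_lit 0) (nat_lit 76) (XT.nd (nat_lit 78) (nat_lit 0) (nat_lit 76) (XT.lf (nat_lit 0) (nat_lit 2102449714) (nat_lit 1824) (nat_lit 2193394737) (nat_lit 1900) (nat_lit 28631773929) (nat_lit 446) (nat_lit 5) (nat_lit 470) (nat_lit 5) (nat_lit 471) (nat_lit 5) (nat_lit 630) (nat_lit 621) (nat_lit 309)) (XT.lf (nat_lit 0) (nat_lit 3208641082) (nat_lit 1824) (nat_lit 18652505020) (nat_lit 1900) (nat_lit 11403337929) (nat_lit 447) (nat_lit 5) (nat_lit 471) (nat_lit 5) (nat_lit 472) (nat_lit 5) (nat_lit 631) (nat_lit 621) (nat_lit 308))) (XT.nd (nat_lit 78) (nat_lit 0) (nat_lit 76) (XT.lf (nat_lit 0) (nat_lit 4378620338) (nat_lit 1824) (nat_lit 1854203907) (nat_lit 1900) (nat_lit 27374429710) (nat_lit 447) (nat_lit 5) (nat_lit 471) (nat_lit 5) (nat_lit 472) (nat_lit 5) (nat_lit 632) (nat_lit 621) (nat_lit 307)) (XT.lf (nat_lit 0) (nat_lit 5734649302) (nat_lit 1824) (nat_lit 18536523490)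 (nat_lit 1900) (nat_lit 9682453723) (nat_lit 448) (nat_lit 5) (nat_lit 472) (nat_lit 5) (nat_lit 473) (nat_lit 5) (nat_lit 633) (nat_lit 621) (nat_lit 306))))))))
noncomputable def xc252 : XT := (XT.nd (nat_lit 81276) (nat_lit 0) (nat_lit 0) (XT.nd (nat_lit 80262) (nat_lit 228) (nat_lit 0) (XT.nd (nat_lit 468) (nat_lit 0) (nat_lit 228) (XT.nd (nat_lit 234) (nat_lit 0) (nat_lit 152) (XT.nd (nat_lit 78) (nat_lit 0) (nat_lit 76) (XT.lf (nat_lit 0) (nat_lit 7170058226) (nat_lit 1824) (nat_lit 1290130500) (nat_lit 1900) (nat_lit 25845692846) (nat_lit 448) (nat_lit 5) (nat_lit 472) (nat_lit 5) (nat_lit 473) (nat_lit 5) (nat_lit 634) (nat_lit 621) (nat_lit 305)) (XT.nd (nat_lit 78) (nat_lit 0) (nat_lit 0) (XT.lf (nat_lit 0) (nat_lit 8790393283) (nat_lit 1824) (nat_lit 18196792208) (nat_lit 1900) (nat_lit 7674872109) (nat_lit 449) (nat_lit 5) (nat_lit 473) (nat_lit 5) (nat_lit 474) (nat_lit 5) (nat_lit 635) (nat_lit 621) (nat_lit 304)) (XT.lf (nat_lit 0) (nat_lit 10506391005)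 (nat_lit 1824) (nat_lit 489080814) (nat_lit 1900) (nat_lit 24028620434) (nat_lit 449) (nat_lit 5) (nat_lit 473) (nat_lit 5) (nat_lit 474) (nat_lit 5) (nat_lit 636) (nat_lit 621) (nat_lit 303)))) (XT.nd (nat_lit 78) (nat_lit 0) (nat_lit 0) (XT.lf (nat_lit 0) (nat_lit 12406138533) (nat_lit 1824) (nat_lit 17621112738) (nat_lit 1900) (nat_lit 5363127953) (nat_lit 450) (nat_lit 5) (nat_lit 474) (nat_lit 5) (nat_lit 475) (nat_lit 5) (nat_lit 637) (nat_lit 621) (nat_lit 302)) (XT.nd (nat_lit 78) (nat_lit 0) (nat_lit 76) (XT.lf (nat_lit 76) (nat_lit 569034989) (nat_lit 0) (nat_lit 13853228956) (nat_lit 1900) (nat_lit 21340160546) (nat_lit 451) (nat_lit 5) (nat_lit 450) (nat_lit 5) (nat_lit 475) (nat_lit 5) (nat_lit 638) (nat_lit 621) (nat_lit 301)) (XT.lf (nat_lit 0) (nat_lit 16613500668) (nat_lit 1824) (nat_lit 16796748981) (nat_lit 1900) (nat_lit 2728965449) (nat_lit 451) (nat_lit 5) (nat_lit 475) (nat_lit 5) (nat_lit 476) (nat_lit 5) (nat_lit 639) (nat_lit 621) (nat_lit 300)))))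 (XT.nd (nat_lit 234) (nat_lit 0) (nat_lit 76) (XT.nd (nat_lit 78) (nat_lit 0) (nat_lit 0) (XT.lf (nat_lit 76) (nat_lit 1899924178) (nat_lit 0) (nat_lit 17051334782) (nat_lit 1900) (nat_lit 17570228827) (nat_lit 452) (nat_lit 5) (nat_lit 451) (nat_lit 5) (nat_lit 476) (nat_lit 5) (nat_lit 640) (nat_lit 621) (nat_lit 299)) (XT.nd (nat_lit 78) (nat_lit 0) (nat_lit 76) (XT.lf (nat_lit 76) (nat_lit 21197147444) (nat_lit 0) (nat_lit 249978197) (nat_lit 1900) (nat_lit 15462053430) (nat_lit 452) (nat_lit 5) (nat_lit 451) (nat_lit 5) (nat_lit 476) (nat_lit 5) (nat_lit 641) (nat_lit 621) (nat_lit 298)) (XT.lf (nat_lit 76) (nat_lit 3511018852) (nat_lit 0) (nat_lit 20612997673) (nat_lit 1900) (nat_lit 13177985717) (nat_lit 453) (nat_lit 5) (nat_lit 452) (nat_lit 5) (nat_lit 477) (nat_lit 5) (nat_lit 642) (nat_lit 621) (nat_lit 297)))) (XT.nd (nat_lit 78) (nat_lit 0) (nat_lit 76) (XT.lf (nat_lit 76) (nat_lit 23328765108) (nat_lit 0) (nat_lit 3631446687) (nat_lit 1900) (nat_lit 10740354945)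 (nat_lit 453) (nat_lit 5) (nat_lit 452) (nat_lit 5) (nat_lit 477) (nat_lit 5) (nat_lit 643) (nat_lit 621) (nat_lit 296)) (XT.nd (nat_lit 78) (nat_lit 0) (nat_lit 0) (XT.lf (nat_lit 76) (nat_lit 5416848822) (nat_lit 0) (nat_lit 24559048068) (nat_lit 1900) (nat_lit 8128750512) (nat_lit 454) (nat_lit 5) (nat_lit 453) (nat_lit 5) (nat_lit 478) (nat_lit 5) (nat_lit 644) (nat_lit 621) (nat_lit 295)) (XT.lf (nat_lit 76) (nat_lit 25770648953) (nat_lit 0) (nat_lit 7400311781) (nat_lit 1900) (nat_lit 5343467831) (nat_lit 454) (nat_lit 5) (nat_lit 453) (nat_lit 5) (nat_lit 478) (nat_lit 5) (nat_lit 645) (nat_lit 621) (nat_lit 294)))))) (XT.nd (nat_lit 468) (nat_lit 1672) (nat_lit 0) (XT.nd (nat_lit 234) (nat_lit 0) (nat_lit 0) (XT.nd (nat_lit 78) (nat_lit 0) (nat_lit 0) (XT.lf (nat_lit 0) (nat_lit 7076044973) (nat_lit 0) (nat_lit 7076044973) (nat_lit 1748) (nat_lit 1191415987) (nat_lit 467) (nat_lit 5) (nat_lit 467) (nat_lit 3) (nat_lit 490) (nat_lit 3) (nat_lit 622) (nat_lit 622)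 (nat_lit 316)) (XT.nd (nat_lit 78) (nat_lit 0) (nat_lit 0) (XT.lf (nat_lit 0) (nat_lit 28661976786) (nat_lit 1748) (nat_lit 1504488706) (nat_lit 1824) (nat_lit 825910533) (nat_lit 467) (nat_lit 5) (nat_lit 490) (nat_lit 3) (nat_lit 491) (nat_lit 5) (nat_lit 623) (nat_lit 622) (nat_lit 315)) (XT.lf (nat_lit 76) (nat_lit 13914368450) (nat_lit 0) (nat_lit 15294812502) (nat_lit 1824) (nat_lit 2091021772) (nat_lit 468) (nat_lit 5) (nat_lit 467) (nat_lit 5) (nat_lit 491) (nat_lit 5) (nat_lit 624) (nat_lit 622) (nat_lit 314)))) (XT.nd (nat_lit 78) (nat_lit 0) (nat_lit 76) (XT.lf (nat_lit 76) (nat_lit 29661051033) (nat_lit 0) (nat_lit 114591054) (nat_lit 1824) (nat_lit 1838377891) (nat_lit 468) (nat_lit 5) (nat_lit 467) (nat_lit 5) (nat_lit 491) (nat_lit 5) (nat_lit 625) (nat_lit 622) (nat_lit 313)) (XT.nd (nat_lit 78) (nat_lit 0) (nat_lit 0) (XT.lf (nat_lit 76) (nat_lit 13869702582) (nat_lit 0) (nat_lit 16671825707) (nat_lit 1824) (nat_lit 1388823646) (nat_lit 469) (nat_lit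 5) (nat_lit 468) (nat_lit 5) (nat_lit 492) (nat_lit 5) (nat_lit 626) (nat_lit 622) (nat_lit 312)) (XT.lf (nat_lit 76) (nat_lit 30033570462) (nat_lit 0) (nat_lit 1301306289) (nat_lit 1824) (nat_lit 917891157) (nat_lit 469) (nat_lit 5) (nat_lit 468) (nat_lit 5) (nat_lit 492) (nat_lit 5) (nat_lit 627) (nat_lit 622) (nat_lit 311))))) (XT.nd (nat_lit 234) (nat_lit 0) (nat_lit 76) (XT.nd (nat_lit 78) (nat_lit 1824) (nat_lit 0) (XT.lf (nat_lit 76) (nat_lit 14028749537) (nat_lit 0) (nat_lit 18298092788) (nat_lit 1824) (nat_lit 251135136) (nat_lit 470) (nat_lit 5) (nat_lit 469) (nat_lit 5) (nat_lit 493) (nat_lit 5) (nat_lit 628) (nat_lit 622) (nat_lit 310)) (XT.nd (nat_lit 78) (nat_lit 0) (nat_lit 76) (XT.lf (nat_lit 0) (nat_lit 445277678) (nat_lit 1824) (nat_lit 2290154543) (nat_lit 1900) (nat_lit 30173764585) (nat_lit 445) (nat_lit 5) (nat_lit 469) (nat_lit 5) (nat_lit 470) (nat_lit 5) (nat_lit 629) (nat_lit 622) (nat_lit 309)) (XT.lf (nat_lit 0) (nat_lit 1330595154) (nat_lit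 1824) (nat_lit 18849715432) (nat_lit 1900) (nat_lit 13063130219) (nat_lit 446) (nat_lit 5) (nat_lit 470) (nat_lit 5) (nat_lit 471) (nat_lit 5) (nat_lit 630) (nat_lit 622) (nat_lit 308)))) (XT.nd (nat_lit 156) (nat_lit 0) (nat_lit 76) (XT.nd (nat_lit 78) (nat_lit 0) (nat_lit 76) (XT.lf (nat_lit 0) (nat_lit 2265605623) (nat_lit 1824) (nat_lit 2160960265) (nat_lit 1900) (nat_lit 29157164306) (nat_lit 446) (nat_lit 5) (nat_lit 470) (nat_lit 5) (nat_lit 471) (nat_lit 5) (nat_lit 631) (nat_lit 622) (nat_lit 307)) (XT.lf (nat_lit 0) (nat_lit 3391756382) (nat_lit 1824) (nat_lit 18947070262) (nat_lit 1900) (nat_lit 11588550163) (nat_lit 447) (nat_lit 5) (nat_lit 471) (nat_lit 5) (nat_lit 472) (nat_lit 5) (nat_lit 632) (nat_lit 622) (nat_lit 306))) (XT.nd (nat_lit 78) (nat_lit 0) (nat_lit 76) (XT.lf (nat_lit 0) (nat_lit 4582803018) (nat_lit 1824) (nat_lit 1814342046) (nat_lit 1900) (nat_lit 27879904065) (nat_lit 447) (nat_lit 5) (nat_lit 471) (nat_lit 5) (nat_lit 472) (nat_lit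 5) (nat_lit 633) (nat_lit 622) (nat_lit 305)) (XT.lf (nat_lit 0) (nat_lit 5963913191) (nat_lit 1824) (nat_lit 18828251297) (nat_lit 1900) (nat_lit 9838225785) (nat_lit 448) (nat_lit 5) (nat_lit 472) (nat_lit 5) (nat_lit 473) (nat_lit 5) (nat_lit 634) (nat_lit 622) (nat_lit 304))))))) (XT.nd (nat_lit 80340) (nat_lit 228) (nat_lit 0) (XT.nd (nat_lit 468) (nat_lit 0) (nat_lit 228) (XT.nd (nat_lit 234) (nat_lit 0) (nat_lit 152) (XT.nd (nat_lit 78) (nat_lit 0) (nat_lit 76) (XT.lf (nat_lit 0) (nat_lit 7425783806) (nat_lit 1824) (nat_lit 1238479519) (nat_lit 1900) (nat_lit 26325472376) (nat_lit 448) (nat_lit 5) (nat_lit 472) (nat_lit 5) (nat_lit 473) (nat_lit 5) (nat_lit 635) (nat_lit 622) (nat_lit 303)) (XT.nd (nat_lit 78) (nat_lit 0) (nat_lit 0) (XT.lf (nat_lit 0) (nat_lit 9076604039) (nat_lit 1824) (nat_lit 18481336257) (nat_lit 1900) (nat_lit 7795133718) (nat_lit 449) (nat_lit 5) (nat_lit 473) (nat_lit 5) (nat_lit 474) (nat_lit 5) (nat_lit 636) (nat_lit 622) (nat_lit 302))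 (XT.lf (nat_lit 0) (nat_lit 10824756953) (nat_lit 1824) (nat_lit 421027337) (nat_lit 1900) (nat_lit 24476608693) (nat_lit 449) (nat_lit 5) (nat_lit 473) (nat_lit 5) (nat_lit 474) (nat_lit 5) (nat_lit 637) (nat_lit 622) (nat_lit 301)))) (XT.nd (nat_lit 78) (nat_lit 0) (nat_lit 0) (XT.lf (nat_lit 0) (nat_lit 12760688946) (nat_lit 1824) (nat_lit 17893873382) (nat_lit 1900) (nat_lit 5441479895) (nat_lit 450) (nat_lit 5) (nat_lit 474) (nat_lit 5) (nat_lit 475) (nat_lit 5) (nat_lit 638) (nat_lit 622) (nat_lit 300)) (XT.nd (nat_lit 78) (nat_lit 0) (nat_lit 76) (XT.lf (nat_lit 76) (nat_lit 659553210) (nat_lit 0) (nat_lit 14156010653) (nat_lit 1900) (nat_lit 21659996307) (nat_lit 451) (nat_lit 5) (nat_lit 450) (nat_lit 5) (nat_lit 475) (nat_lit 5) (nat_lit 639) (nat_lit 622) (nat_lit 299)) (XT.lf (nat_lit 0) (nat_lit 17048405649) (nat_lit 1824) (nat_lit 17052863074) (nat_lit 1900) (nat_lit 2758662568) (nat_lit 451) (nat_lit 5) (nat_lit 475) (nat_lit 5) (nat_lit 476) (nat_lit 5)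 (nat_lit 640) (nat_lit 622) (nat_lit 298))))) (XT.nd (nat_lit 234) (nat_lit 0) (nat_lit 76) (XT.nd (nat_lit 78) (nat_lit 0) (nat_lit 0) (XT.lf (nat_lit 76) (nat_lit 2017218411) (nat_lit 0) (nat_lit 17414203087) (nat_lit 1900) (nat_lit 17818458191) (nat_lit 452) (nat_lit 5) (nat_lit 451) (nat_lit 5) (nat_lit 476) (nat_lit 5) (nat_lit 641) (nat_lit 622) (nat_lit 297)) (XT.nd (nat_lit 78) (nat_lit 0) (nat_lit 76) (XT.lf (nat_lit 76) (nat_lit 21698831324) (nat_lit 0) (nat_lit 276391103) (nat_lit 1900) (nat_lit 15670142330) (nat_lit 452) (nat_lit 5) (nat_lit 451) (nat_lit 5) (nat_lit 476) (nat_lit 5) (nat_lit 642) (nat_lit 622) (nat_lit 296)) (XT.lf (nat_lit 76) (nat_lit 3660591573) (nat_lit 0) (nat_lit 21043494258) (nat_lit 1900) (nat_lit 13341990156) (nat_lit 453) (nat_lit 5) (nat_lit 452) (nat_lit 5) (nat_lit 477) (nat_lit 5) (nat_lit 643) (nat_lit 622) (nat_lit 295)))) (XT.nd (nat_lit 78) (nat_lit 0) (nat_lit 76) (XT.lf (nat_lit 76) (nat_lit 23873136826) (nat_lit 0) (nat_lit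 3721954671) (nat_lit 1900) (nat_lit 10857558833) (nat_lit 453) (nat_lit 5) (nat_lit 452) (nat_lit 5) (nat_lit 477) (nat_lit 5) (nat_lit 644) (nat_lit 622) (nat_lit 294)) (XT.nd (nat_lit 79482) (nat_lit 0) (nat_lit 1064) (XT.lf (nat_lit 76) (nat_lit 5604500778) (nat_lit 0) (nat_lit 25065114686) (nat_lit 1900) (nat_lit 8195226918) (nat_lit 454) (nat_lit 5) (nat_lit 453) (nat_lit 5) (nat_lit 478) (nat_lit 5) (nat_lit 645) (nat_lit 622) (nat_lit 293)) (XT.lf (nat_lit 0) (nat_lit 7252001568) (nat_lit 0) (nat_lit 7252001568) (nat_lit 1748) (nat_lit 1144984699) (nat_lit 467) (nat_lit 5) (nat_lit 467) (nat_lit 3) (nat_lit 490) (nat_lit 3) (nat_lit 623) (nat_lit 623) (nat_lit 314)))))) (XT.nd (nat_lit 468) (nat_lit 1672) (nat_lit 0) (XT.nd (nat_lit 234) (nat_lit 0) (nat_lit 76) (XT.nd (nat_lit 78) (nat_lit 0) (nat_lit 0) (XT.lf (nat_lit 0) (nat_lit 29369819875) (nat_lit 1748) (nat_lit 1463897124) (nat_lit 1824) (nat_lit 775793321) (nat_lit 467) (nat_lit 5) (nat_lit 490) (nat_lit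 3) (nat_lit 491) (nat_lit 5) (nat_lit 624) (nat_lit 623) (nat_lit 313)) (XT.nd (nat_lit 78) (nat_lit 0) (nat_lit 0) (XT.lf (nat_lit 76) (nat_lit 14262872166) (nat_lit 0) (nat_lit 15662912564) (nat_lit 1824) (nat_lit 1997752906) (nat_lit 468) (nat_lit 5) (nat_lit 467) (nat_lit 5) (nat_lit 491) (nat_lit 5) (nat_lit 625) (nat_lit 623) (nat_lit 312)) (XT.lf (nat_lit 76) (nat_lit 30323111610) (nat_lit 0) (nat_lit 177867004) (nat_lit 1824) (nat_lit 1742704957) (nat_lit 468) (nat_lit 5) (nat_lit 467) (nat_lit 5) (nat_lit 491) (nat_lit 5) (nat_lit 626) (nat_lit 623) (nat_lit 311)))) (XT.nd (nat_lit 78) (nat_lit 0) (nat_lit 0) (XT.lf (nat_lit 76) (nat_lit 14218476232) (nat_lit 0) (nat_lit 17061236003) (nat_lit 1824) (nat_lit 1286679736) (nat_lit 469) (nat_lit 5) (nat_lit 468) (nat_lit 5) (nat_lit 492) (nat_lit 5) (nat_lit 627) (nat_lit 623) (nat_lit 310)) (XT.nd (nat_lit 78) (nat_lit 0) (nat_lit 76) (XT.lf (nat_lit 76) (nat_lit 30704221870) (nat_lit 0) (nat_lit 1382208671) (nat_lit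 1824) (nat_lit 808876056) (nat_lit 469) (nat_lit 5) (nat_lit 468) (nat_lit 5) (nat_lit 492) (nat_lit 5) (nat_lit 628) (nat_lit 623) (nat_lit 309)) (XT.lf (nat_lit 76) (nat_lit 14381698192) (nat_lit 0) (nat_lit 18714209664) (nat_lit 1824) (nat_lit 131159421) (nat_lit 470) (nat_lit 5) (nat_lit 469) (nat_lit 5) (nat_lit 493) (nat_lit 5) (nat_lit 629) (nat_lit 623) (nat_lit 308))))) (XT.nd (nat_lit 234) (nat_lit 0) (nat_lit 152) (XT.nd (nat_lit 78) (nat_lit 0) (nat_lit 76) (XT.lf (nat_lit 0) (nat_lit 575123469) (nat_lit 1824) (nat_lit 2263377414) (nat_lit 1900) (nat_lit 30726442640) (nat_lit 445) (nat_lit 5) (nat_lit 469) (nat_lit 5) (nat_lit 470) (nat_lit 5) (nat_lit 630) (nat_lit 623) (nat_lit 307)) (XT.nd (nat_lit 78) (nat_lit 0) (nat_lit 0) (XT.lf (nat_lit 0) (nat_lit 1475939327) (nat_lit 1824) (nat_lit 19151903499) (nat_lit 1900) (nat_lit 13278074096) (nat_lit 446) (nat_lit 5) (nat_lit 470) (nat_lit 5) (nat_lit 471) (nat_lit 5) (nat_lit 631) (nat_lit 623) (nat_lit 306))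 (XT.lf (nat_lit 0) (nat_lit 2427321922) (nat_lit 1824) (nat_lit 2130840017) (nat_lit 1900) (nat_lit 29694897075) (nat_lit 446) (nat_lit 5) (nat_lit 470) (nat_lit 5) (nat_lit 471) (nat_lit 5) (nat_lit 632) (nat_lit 623) (nat_lit 305)))) (XT.nd (nat_lit 156) (nat_lit 0) (nat_lit 76) (XT.nd (nat_lit 78) (nat_lit 0) (nat_lit 0) (XT.lf (nat_lit 0) (nat_lit 3573915307) (nat_lit 1824) (nat_lit 19250574471) (nat_lit 1900) (nat_lit 11779130735) (nat_lit 447) (nat_lit 5) (nat_lit 471) (nat_lit 5) (nat_lit 472) (nat_lit 5) (nat_lit 633) (nat_lit 623) (nat_lit 304)) (XT.lf (nat_lit 0) (nat_lit 4786541232) (nat_lit 1824) (nat_lit 1776670852) (nat_lit 1900) (nat_lit 28397119371) (nat_lit 447) (nat_lit 5) (nat_lit 471) (nat_lit 5) (nat_lit 472) (nat_lit 5) (nat_lit 634) (nat_lit 623) (nat_lit 303))) (XT.nd (nat_lit 78) (nat_lit 0) (nat_lit 0) (XT.lf (nat_lit 0) (nat_lit 6193313431) (nat_lit 1824) (nat_lit 19128881430) (nat_lit 1900) (nat_lit 9998584099) (nat_lit 448) (nat_lit 5) (nat_lit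 472) (nat_lit 5) (nat_lit 473) (nat_lit 5) (nat_lit 635) (nat_lit 623) (nat_lit 302)) (XT.lf (nat_lit 0) (nat_lit 7682262203) (nat_lit 1824) (nat_lit 1188803136) (nat_lit 1900) (nat_lit 26816289469) (nat_lit 448) (nat_lit 5) (nat_lit 472) (nat_lit 5) (nat_lit 473) (nat_lit 5) (nat_lit 636) (nat_lit 623) (nat_lit 301))))))))
noncomputable def xc253 : XT := (XT.nd (nat_lit 81432) (nat_lit 0) (nat_lit 0) (XT.nd (nat_lit 80418) (nat_lit 304) (nat_lit 0) (XT.nd (nat_lit 468) (nat_lit 0) (nat_lit 152) (XT.nd (nat_lit 234) (nat_lit 0) (nat_lit 76) (XT.nd (nat_lit 78) (nat_lit 0) (nat_lit 0) (XT.lf (nat_lit 0) (nat_lit 9364251932) (nat_lit 1824) (nat_lit 18774654067) (nat_lit 1900) (nat_lit 7919091148) (nat_lit 449) (nat_lit 5) (nat_lit 473) (nat_lit 5) (nat_lit 474) (nat_lit 5) (nat_lit 637) (nat_lit 623) (nat_lit 300)) (XT.nd (nat_lit 78) (nat_lit 0) (nat_lit 76) (XT.lf (nat_lit 0) (nat_lit 11145287202) (nat_lit 1824) (nat_lit 354635222) (nat_lit 1900) (nat_lit 24934821999)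 (nat_lit 449) (nat_lit 5) (nat_lit 473) (nat_lit 5) (nat_lit 474) (nat_lit 5) (nat_lit 638) (nat_lit 623) (nat_lit 299)) (XT.lf (nat_lit 0) (nat_lit 13118197653) (nat_lit 1824) (nat_lit 18175182597) (nat_lit 1900) (nat_lit 5522521510) (nat_lit 450) (nat_lit 5) (nat_lit 474) (nat_lit 5) (nat_lit 475) (nat_lit 5) (nat_lit 639) (nat_lit 623) (nat_lit 298)))) (XT.nd (nat_lit 78) (nat_lit 0) (nat_lit 76) (XT.lf (nat_lit 76) (nat_lit 748808788) (nat_lit 0) (nat_lit 14463849358) (nat_lit 1900) (nat_lit 21990382459) (nat_lit 451) (nat_lit 5) (nat_lit 450) (nat_lit 5) (nat_lit 475) (nat_lit 5) (nat_lit 640) (nat_lit 623) (nat_lit 297)) (XT.nd (nat_lit 78) (nat_lit 0) (nat_lit 0) (XT.lf (nat_lit 0) (nat_lit 17488023289) (nat_lit 1824) (nat_lit 17317198991) (nat_lit 1900) (nat_lit 2789919835) (nat_lit 451) (nat_lit 5) (nat_lit 475) (nat_lit 5) (nat_lit 476) (nat_lit 5) (nat_lit 641) (nat_lit 623) (nat_lit 296)) (XT.lf (nat_lit 76) (nat_lit 2133779377) (nat_lit 0) (nat_lit 17783480621)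 (nat_lit 1900) (nat_lit 18075658562) (nat_lit 452) (nat_lit 5) (nat_lit 451) (nat_lit 5) (nat_lit 476) (nat_lit 5) (nat_lit 642) (nat_lit 623) (nat_lit 295))))) (XT.nd (nat_lit 79716) (nat_lit 0) (nat_lit 1216) (XT.nd (nat_lit 78) (nat_lit 0) (nat_lit 76) (XT.lf (nat_lit 76) (nat_lit 22207530105) (nat_lit 0) (nat_lit 302500761) (nat_lit 1900) (nat_lit 15886320870) (nat_lit 452) (nat_lit 5) (nat_lit 451) (nat_lit 5) (nat_lit 476) (nat_lit 5) (nat_lit 643) (nat_lit 623) (nat_lit 294)) (XT.nd (nat_lit 78) (nat_lit 0) (nat_lit 0) (XT.lf (nat_lit 76) (nat_lit 3810074401) (nat_lit 0) (nat_lit 21481892623) (nat_lit 1900) (nat_lit 13513140536) (nat_lit 453) (nat_lit 5) (nat_lit 452) (nat_lit 5) (nat_lit 477) (nat_lit 5) (nat_lit 644) (nat_lit 623) (nat_lit 293)) (XT.lf (nat_lit 76) (nat_lit 24425375049) (nat_lit 0) (nat_lit 3813578549) (nat_lit 1900) (nat_lit 10980896850) (nat_lit 453) (nat_lit 5) (nat_lit 452) (nat_lit 5) (nat_lit 477) (nat_lit 5) (nat_lit 645) (nat_lit 623)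 (nat_lit 292)))) (XT.nd (nat_lit 78) (nat_lit 0) (nat_lit 0) (XT.lf (nat_lit 0) (nat_lit 7430140115) (nat_lit 0) (nat_lit 7430140115) (nat_lit 1748) (nat_lit 1100353051) (nat_lit 467) (nat_lit 5) (nat_lit 467) (nat_lit 3) (nat_lit 490) (nat_lit 3) (nat_lit 624) (nat_lit 624) (nat_lit 312)) (XT.nd (nat_lit 78) (nat_lit 0) (nat_lit 0) (XT.lf (nat_lit 0) (nat_lit 30086593006) (nat_lit 1748) (nat_lit 1425238354) (nat_lit 1824) (nat_lit 727261300) (nat_lit 467) (nat_lit 5) (nat_lit 490) (nat_lit 3) (nat_lit 491) (nat_lit 5) (nat_lit 625) (nat_lit 624) (nat_lit 311)) (XT.lf (nat_lit 76) (nat_lit 14615619370) (nat_lit 0) (nat_lit 16035959177) (nat_lit 1824) (nat_lit 1907864345) (nat_lit 468) (nat_lit 5) (nat_lit 467) (nat_lit 5) (nat_lit 491) (nat_lit 5) (nat_lit 626) (nat_lit 624) (nat_lit 310)))))) (XT.nd (nat_lit 468) (nat_lit 0) (nat_lit 76) (XT.nd (nat_lit 234) (nat_lit 1672) (nat_lit 0) (XT.nd (nat_lit 78) (nat_lit 0) (nat_lit 76) (XT.lf (nat_lit 76) (nat_lit 30995740274)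 (nat_lit 0) (nat_lit 240040386) (nat_lit 1824) (nat_lit 1650261390) (nat_lit 468) (nat_lit 5) (nat_lit 467) (nat_lit 5) (nat_lit 491) (nat_lit 5) (nat_lit 627) (nat_lit 624) (nat_lit 309)) (XT.nd (nat_lit 78) (nat_lit 0) (nat_lit 0) (XT.lf (nat_lit 76) (nat_lit 14571453599) (nat_lit 0) (nat_lit 17456260975) (nat_lit 1824) (nat_lit 1187537916) (nat_lit 469) (nat_lit 5) (nat_lit 468) (nat_lit 5) (nat_lit 492) (nat_lit 5) (nat_lit 628) (nat_lit 624) (nat_lit 308)) (XT.lf (nat_lit 76) (nat_lit 31385568898) (nat_lit 0) (nat_lit 1462598190) (nat_lit 1824) (nat_lit 702626700) (nat_lit 469) (nat_lit 5) (nat_lit 468) (nat_lit 5) (nat_lit 492) (nat_lit 5) (nat_lit 629) (nat_lit 624) (nat_lit 307)))) (XT.nd (nat_lit 78) (nat_lit 1824) (nat_lit 0) (XT.lf (nat_lit 76) (nat_lit 14738895462) (nat_lit 0) (nat_lit 19136701298) (nat_lit 1824) (nat_lit 13638032) (nat_lit 470) (nat_lit 5) (nat_lit 469) (nat_lit 5) (nat_lit 493) (nat_lit 5) (nat_lit 630) (nat_lit 624) (nat_lit 306)) (XT.nd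 (nat_lit 78) (nat_lit 0) (nat_lit 76) (XT.lf (nat_lit 0) (nat_lit 702869918) (nat_lit 1824) (nat_lit 2238883120) (nat_lit 1900) (nat_lit 31292146775) (nat_lit 445) (nat_lit 5) (nat_lit 469) (nat_lit 5) (nat_lit 470) (nat_lit 5) (nat_lit 631) (nat_lit 624) (nat_lit 305)) (XT.lf (nat_lit 0) (nat_lit 1619579864) (nat_lit 1824) (nat_lit 19463040144) (nat_lit 1900) (nat_lit 13499115462) (nat_lit 446) (nat_lit 5) (nat_lit 470) (nat_lit 5) (nat_lit 471) (nat_lit 5) (nat_lit 632) (nat_lit 624) (nat_lit 304))))) (XT.nd (nat_lit 234) (nat_lit 0) (nat_lit 152) (XT.nd (nat_lit 78) (nat_lit 0) (nat_lit 76) (XT.lf (nat_lit 0) (nat_lit 2587752430) (nat_lit 1824) (nat_lit 2102965225) (nat_lit 1900) (nat_lit 30245147844) (nat_lit 446) (nat_lit 5) (nat_lit 470) (nat_lit 5) (nat_lit 471) (nat_lit 5) (nat_lit 633) (nat_lit 624) (nat_lit 303)) (XT.nd (nat_lit 78) (nat_lit 0) (nat_lit 0) (XT.lf (nat_lit 0) (nat_lit 3755278078) (nat_lit 1824) (nat_lit 19563078083) (nat_lit 1900) (nat_lit 11975122394)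 (nat_lit 447) (nat_lit 5) (nat_lit 471) (nat_lit 5) (nat_lit 472) (nat_lit 5) (nat_lit 634) (nat_lit 624) (nat_lit 302)) (XT.lf (nat_lit 0) (nat_lit 4990001924) (nat_lit 1824) (nat_lit 1741118115) (nat_lit 1900) (nat_lit 28926247095) (nat_lit 447) (nat_lit 5) (nat_lit 471) (nat_lit 5) (nat_lit 472) (nat_lit 5) (nat_lit 635) (nat_lit 624) (nat_lit 301)))) (XT.nd (nat_lit 156) (nat_lit 0) (nat_lit 76) (XT.nd (nat_lit 78) (nat_lit 0) (nat_lit 0) (XT.lf (nat_lit 0) (nat_lit 6423025505) (nat_lit 1824) (nat_lit 19438472811) (nat_lit 1900) (nat_lit 10163563276) (nat_lit 448) (nat_lit 5) (nat_lit 472) (nat_lit 5) (nat_lit 473) (nat_lit 5) (nat_lit 636) (nat_lit 624) (nat_lit 300)) (XT.lf (nat_lit 0) (nat_lit 7939677845) (nat_lit 1824) (nat_lit 1141024054) (nat_lit 1900) (nat_lit 27318308881) (nat_lit 448) (nat_lit 5) (nat_lit 472) (nat_lit 5) (nat_lit 473) (nat_lit 5) (nat_lit 637) (nat_lit 624) (nat_lit 299))) (XT.nd (nat_lit 78) (nat_lit 0) (nat_lit 0) (XT.lf (nat_lit 0) (nat_lit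 9653532176) (nat_lit 1824) (nat_lit 19076801401) (nat_lit 1900) (nat_lit 8046768198) (nat_lit 449) (nat_lit 5) (nat_lit 473) (nat_lit 5) (nat_lit 474) (nat_lit 5) (nat_lit 638) (nat_lit 624) (nat_lit 298)) (XT.lf (nat_lit 0) (nat_lit 11468188245) (nat_lit 1824) (nat_lit 289820332) (nat_lit 1900) (nat_lit 25403415721) (nat_lit 449) (nat_lit 5) (nat_lit 473) (nat_lit 5) (nat_lit 474) (nat_lit 5) (nat_lit 639) (nat_lit 624) (nat_lit 297))))))) (XT.nd (nat_lit 80574) (nat_lit 0) (nat_lit 0) (XT.nd (nat_lit 80106) (nat_lit 380) (nat_lit 0) (XT.nd (nat_lit 234) (nat_lit 0) (nat_lit 76) (XT.nd (nat_lit 78) (nat_lit 0) (nat_lit 0) (XT.lf (nat_lit 0) (nat_lit 13478884297) (nat_lit 1824) (nat_lit 18465091234) (nat_lit 1900) (nat_lit 5606262999) (nat_lit 450) (nat_lit 5) (nat_lit 474) (nat_lit 5) (nat_lit 475) (nat_lit 5) (nat_lit 640) (nat_lit 624) (nat_lit 296)) (XT.nd (nat_lit 78) (nat_lit 0) (nat_lit 76) (XT.lf (nat_lit 76) (nat_lit 836895801) (nat_lit 0) (nat_lit 14776884987)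 (nat_lit 1900) (nat_lit 22331368719) (nat_lit 451) (nat_lit 5) (nat_lit 450) (nat_lit 5) (nat_lit 475) (nat_lit 5) (nat_lit 641) (nat_lit 624) (nat_lit 295)) (XT.lf (nat_lit 0) (nat_lit 17932602600) (nat_lit 1824) (nat_lit 17589800810) (nat_lit 1900) (nat_lit 2822730934) (nat_lit 451) (nat_lit 5) (nat_lit 475) (nat_lit 5) (nat_lit 476) (nat_lit 5) (nat_lit 642) (nat_lit 624) (nat_lit 294)))) (XT.nd (nat_lit 78) (nat_lit 0) (nat_lit 0) (XT.lf (nat_lit 76) (nat_lit 2249711980) (nat_lit 0) (nat_lit 18159328504) (nat_lit 1900) (nat_lit 18341853786) (nat_lit 452) (nat_lit 5) (nat_lit 451) (nat_lit 5) (nat_lit 476) (nat_lit 5) (nat_lit 643) (nat_lit 624) (nat_lit 293)) (XT.nd (nat_lit 79716) (nat_lit 0) (nat_lit 1216) (XT.lf (nat_lit 76) (nat_lit 22723501310) (nat_lit 0) (nat_lit 328333394) (nat_lit 1900) (nat_lit 16110598319) (nat_lit 452) (nat_lit 5) (nat_lit 451) (nat_lit 5) (nat_lit 476) (nat_lit 5) (nat_lit 644) (nat_lit 624) (nat_lit 292)) (XT.lf (nat_lit 0) (nat_lit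 7610556177) (nat_lit 0) (nat_lit 7610556177) (nat_lit 1748) (nat_lit 1057451095) (nat_lit 467) (nat_lit 5) (nat_lit 467) (nat_lit 3) (nat_lit 490) (nat_lit 3) (nat_lit 625) (nat_lit 625) (nat_lit 310))))) (XT.nd (nat_lit 234) (nat_lit 1672) (nat_lit 0) (XT.nd (nat_lit 78) (nat_lit 0) (nat_lit 0) (XT.lf (nat_lit 0) (nat_lit 30812677743) (nat_lit 1748) (nat_lit 1388444473) (nat_lit 1824) (nat_lit 680245695) (nat_lit 467) (nat_lit 5) (nat_lit 490) (nat_lit 3) (nat_lit 491) (nat_lit 5) (nat_lit 626) (nat_lit 625) (nat_lit 309)) (XT.nd (nat_lit 78) (nat_lit 0) (nat_lit 0) (XT.lf (nat_lit 76) (nat_lit 14972800808) (nat_lit 0) (nat_lit 16414145068) (nat_lit 1824) (nat_lit 1821219998) (nat_lit 468) (nat_lit 5) (nat_lit 467) (nat_lit 5) (nat_lit 491) (nat_lit 5) (nat_lit 627) (nat_lit 625) (nat_lit 308)) (XT.lf (nat_lit 76) (nat_lit 31679252188) (nat_lit 0) (nat_lit 301181103) (nat_lit 1824) (nat_lit 1560912076) (nat_lit 468) (nat_lit 5) (nat_lit 467) (nat_lit 5) (nat_lit 491)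 (nat_lit 5) (nat_lit 628) (nat_lit 625) (nat_lit 307)))) (XT.nd (nat_lit 78) (nat_lit 1748) (nat_lit 0) (XT.lf (nat_lit 76) (nat_lit 14928826387) (nat_lit 0) (nat_lit 17857097317) (nat_lit 1824) (nat_lit 1091262323) (nat_lit 469) (nat_lit 5) (nat_lit 468) (nat_lit 5) (nat_lit 492) (nat_lit 5) (nat_lit 629) (nat_lit 625) (nat_lit 306)) (XT.nd (nat_lit 78) (nat_lit 1748) (nat_lit 0) (XT.lf (nat_lit 76) (nat_lit 32077930978) (nat_lit 0) (nat_lit 1542547333) (nat_lit 1824) (nat_lit 599006340) (nat_lit 469) (nat_lit 5) (nat_lit 468) (nat_lit 5) (nat_lit 492) (nat_lit 5) (nat_lit 630) (nat_lit 625) (nat_lit 305)) (XT.lf (nat_lit 0) (nat_lit 100236335) (nat_lit 1824) (nat_lit 19464861836) (nat_lit 1900) (nat_lit 14999626476) (nat_lit 445) (nat_lit 5) (nat_lit 469) (nat_lit 5) (nat_lit 470) (nat_lit 5) (nat_lit 631) (nat_lit 625) (nat_lit 304)))))) (XT.nd (nat_lit 468) (nat_lit 0) (nat_lit 228) (XT.nd (nat_lit 234) (nat_lit 0) (nat_lit 152) (XT.nd (nat_lit 78) (nat_lit 0) (nat_lit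 76) (XT.lf (nat_lit 0) (nat_lit 828657401) (nat_lit 1824) (nat_lit 2216607877) (nat_lit 1900) (nat_lit 31871060915) (nat_lit 445) (nat_lit 5) (nat_lit 469) (nat_lit 5) (nat_lit 470) (nat_lit 5) (nat_lit 632) (nat_lit 625) (nat_lit 303)) (XT.nd (nat_lit 78) (nat_lit 0) (nat_lit 0) (XT.lf (nat_lit 0) (nat_lit 1761661726) (nat_lit 1824) (nat_lit 19783191543) (nat_lit 1900) (nat_lit 13726306427) (nat_lit 446) (nat_lit 5) (nat_lit 470) (nat_lit 5) (nat_lit 471) (nat_lit 5) (nat_lit 633) (nat_lit 625) (nat_lit 302)) (XT.lf (nat_lit 0) (nat_lit 2747046953) (nat_lit 1824) (nat_lit 2077270211) (nat_lit 1900) (nat_lit 30808098502) (nat_lit 446) (nat_lit 5) (nat_lit 470) (nat_lit 5) (nat_lit 471) (nat_lit 5) (nat_lit 634) (nat_lit 625) (nat_lit 301)))) (XT.nd (nat_lit 78) (nat_lit 0) (nat_lit 0) (XT.lf (nat_lit 0) (nat_lit 3936001156) (nat_lit 1824) (nat_lit 19884647337) (nat_lit 1900) (nat_lit 12176571250) (nat_lit 447) (nat_lit 5) (nat_lit 471) (nat_lit 5) (nat_lit 472) (nat_lit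 5) (nat_lit 635) (nat_lit 625) (nat_lit 300)) (XT.nd (nat_lit 78) (nat_lit 0) (nat_lit 76) (XT.lf (nat_lit 0) (nat_lit 5193348548) (nat_lit 1824) (nat_lit 1707614685) (nat_lit 1900) (nat_lit 29467464595) (nat_lit 447) (nat_lit 5) (nat_lit 471) (nat_lit 5) (nat_lit 472) (nat_lit 5) (nat_lit 636) (nat_lit 625) (nat_lit 299)) (XT.lf (nat_lit 0) (nat_lit 6653221698) (nat_lit 1824) (nat_lit 19757090163) (nat_lit 1900) (nat_lit 10333200838) (nat_lit 448) (nat_lit 5) (nat_lit 472) (nat_lit 5) (nat_lit 473) (nat_lit 5) (nat_lit 637) (nat_lit 625) (nat_lit 298))))) (XT.nd (nat_lit 234) (nat_lit 0) (nat_lit 152) (XT.nd (nat_lit 78) (nat_lit 0) (nat_lit 76) (XT.lf (nat_lit 0) (nat_lit 8198212268) (nat_lit 1824) (nat_lit 1095067963) (nat_lit 1900) (nat_lit 27831700840) (nat_lit 448) (nat_lit 5) (nat_lit 472) (nat_lit 5) (nat_lit 473) (nat_lit 5) (nat_lit 638) (nat_lit 625) (nat_lit 297)) (XT.nd (nat_lit 78) (nat_lit 0) (nat_lit 0) (XT.lf (nat_lit 0) (nat_lit 9944637427) (nat_lit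 1824) (nat_lit 19387839787) (nat_lit 1900) (nat_lit 8178191094) (nat_lit 449) (nat_lit 5) (nat_lit 473) (nat_lit 5) (nat_lit 474) (nat_lit 5) (nat_lit 639) (nat_lit 625) (nat_lit 296)) (XT.lf (nat_lit 0) (nat_lit 11793664370) (nat_lit 1824) (nat_lit 226501403) (nat_lit 1900) (nat_lit 25882550243) (nat_lit 449) (nat_lit 5) (nat_lit 473) (nat_lit 5) (nat_lit 474) (nat_lit 5) (nat_lit 640) (nat_lit 625) (nat_lit 295)))) (XT.nd (nat_lit 156) (nat_lit 0) (nat_lit 76) (XT.nd (nat_lit 78) (nat_lit 0) (nat_lit 0) (XT.lf (nat_lit 0) (nat_lit 13842966684) (nat_lit 1824) (nat_lit 18763655828) (nat_lit 1900) (nat_lit 5692716458) (nat_lit 450) (nat_lit 5) (nat_lit 474) (nat_lit 5) (nat_lit 475) (nat_lit 5) (nat_lit 641) (nat_lit 625) (nat_lit 294)) (XT.lf (nat_lit 76) (nat_lit 923905571) (nat_lit 0) (nat_lit 15095258752) (nat_lit 1900) (nat_lit 22683012059) (nat_lit 451) (nat_lit 5) (nat_lit 450) (nat_lit 5) (nat_lit 475) (nat_lit 5) (nat_lit 642) (nat_lit 625) (nat_lit 293))) (XT.nd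 (nat_lit 79872) (nat_lit 0) (nat_lit 1216) (XT.lf (nat_lit 0) (nat_lit 18382391566) (nat_lit 1824) (nat_lit 17870718164) (nat_lit 1900) (nat_lit 2857090880) (nat_lit 451) (nat_lit 5) (nat_lit 475) (nat_lit 5) (nat_lit 476) (nat_lit 5) (nat_lit 643) (nat_lit 625) (nat_lit 292)) (XT.lf (nat_lit 0) (nat_lit 7793345213) (nat_lit 0) (nat_lit 7793345213) (nat_lit 1748) (nat_lit 1016211595) (nat_lit 467) (nat_lit 5) (nat_lit 467) (nat_lit 3) (nat_lit 490) (nat_lit 3) (nat_lit 626) (nat_lit 626) (nat_lit 308))))))))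
noncomputable def xc254 : XT := (XT.nd (nat_lit 81822) (nat_lit 0) (nat_lit 0) (XT.nd (nat_lit 936) (nat_lit 0) (nat_lit 0) (XT.nd (nat_lit 468) (nat_lit 0) (nat_lit 0) (XT.nd (nat_lit 234) (nat_lit 1672) (nat_lit 0) (XT.nd (nat_lit 78) (nat_lit 0) (nat_lit 0) (XT.lf (nat_lit 0) (nat_lit 31548455401) (nat_lit 1748) (nat_lit 1353450342) (nat_lit 1824) (nat_lit 634680261) (nat_lit 467) (nat_lit 5) (nat_lit 490) (nat_lit 3) (nat_lit 491) (nat_lit 5) (nat_lit 627) (nat_lit 626) (nat_lit 307)) (XT.nd (nat_lit 78) (nat_lit 0) (nat_lit 0) (XT.lf (nat_lit 76) (nat_lit 15334606931) (nat_lit 0) (nat_lit 16797663175) (nat_lit 1824) (nat_lit 1737688965) (nat_lit 468) (nat_lit 5) (nat_lit 467) (nat_lit 5) (nat_lit 491) (nat_lit 5) (nat_lit 628) (nat_lit 626) (nat_lit 306)) (XT.lf (nat_lit 76) (nat_lit 32373964787) (nat_lit 0) (nat_lit 361356887) (nat_lit 1824) (nat_lit 1474526951) (nat_lit 468) (nat_lit 5) (nat_lit 467) (nat_lit 5) (nat_lit 491) (nat_lit 5) (nat_lit 629) (nat_lit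 626) (nat_lit 305)))) (XT.nd (nat_lit 78) (nat_lit 1748) (nat_lit 0) (XT.lf (nat_lit 76) (nat_lit 15290785955) (nat_lit 0) (nat_lit 18263942380) (nat_lit 1824) (nat_lit 997721988) (nat_lit 469) (nat_lit 5) (nat_lit 468) (nat_lit 5) (nat_lit 492) (nat_lit 5) (nat_lit 630) (nat_lit 626) (nat_lit 304)) (XT.nd (nat_lit 78) (nat_lit 1748) (nat_lit 0) (XT.lf (nat_lit 76) (nat_lit 32781629833) (nat_lit 0) (nat_lit 1622126825) (nat_lit 1824) (nat_lit 497882956) (nat_lit 469) (nat_lit 5) (nat_lit 468) (nat_lit 5) (nat_lit 492) (nat_lit 5) (nat_lit 631) (nat_lit 626) (nat_lit 303)) (XT.lf (nat_lit 0) (nat_lit 211780361) (nat_lit 1824) (nat_lit 19788420930) (nat_lit 1900) (nat_lit 15253610383) (nat_lit 445) (nat_lit 5) (nat_lit 469) (nat_lit 5) (nat_lit 470) (nat_lit 5) (nat_lit 632) (nat_lit 626) (nat_lit 302))))) (XT.nd (nat_lit 234) (nat_lit 0) (nat_lit 152) (XT.nd (nat_lit 78) (nat_lit 0) (nat_lit 76) (XT.lf (nat_lit 0) (nat_lit 952622018) (nat_lit 1824) (nat_lit 2196490876)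 (nat_lit 1900) (nat_lit 32463375641) (nat_lit 445) (nat_lit 5) (nat_lit 469) (nat_lit 5) (nat_lit 470) (nat_lit 5) (nat_lit 633) (nat_lit 626) (nat_lit 301)) (XT.nd (nat_lit 78) (nat_lit 0) (nat_lit 0) (XT.lf (nat_lit 0) (nat_lit 1902325818) (nat_lit 1824) (nat_lit 20112429571) (nat_lit 1900) (nat_lit 13959702851) (nat_lit 446) (nat_lit 5) (nat_lit 470) (nat_lit 5) (nat_lit 471) (nat_lit 5) (nat_lit 634) (nat_lit 626) (nat_lit 300)) (XT.lf (nat_lit 0) (nat_lit 2905351478) (nat_lit 1824) (nat_lit 2053692280) (nat_lit 1900) (nat_lit 31383937233) (nat_lit 446) (nat_lit 5) (nat_lit 470) (nat_lit 5) (nat_lit 471) (nat_lit 5) (nat_lit 635) (nat_lit 626) (nat_lit 299)))) (XT.nd (nat_lit 78) (nat_lit 0) (nat_lit 0) (XT.lf (nat_lit 0) (nat_lit 4116237439) (nat_lit 1824) (nat_lit 20215354213) (nat_lit 1900) (nat_lit 12383526751) (nat_lit 447) (nat_lit 5) (nat_lit 471) (nat_lit 5) (nat_lit 472) (nat_lit 5) (nat_lit 636) (nat_lit 626) (nat_lit 298)) (XT.nd (nat_lit 78) (nat_lit 0)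 (nat_lit 76) (XT.lf (nat_lit 0) (nat_lit 5396741264) (nat_lit 1824) (nat_lit 1676094360) (nat_lit 1900) (nat_lit 30020955138) (nat_lit 447) (nat_lit 5) (nat_lit 471) (nat_lit 5) (nat_lit 472) (nat_lit 5) (nat_lit 637) (nat_lit 626) (nat_lit 297)) (XT.lf (nat_lit 0) (nat_lit 6884071295) (nat_lit 1824) (nat_lit 20084803955) (nat_lit 1900) (nat_lit 10507537189) (nat_lit 448) (nat_lit 5) (nat_lit 472) (nat_lit 5) (nat_lit 473) (nat_lit 5) (nat_lit 638) (nat_lit 626) (nat_lit 296)))))) (XT.nd (nat_lit 80340) (nat_lit 228) (nat_lit 0) (XT.nd (nat_lit 234) (nat_lit 0) (nat_lit 152) (XT.nd (nat_lit 78) (nat_lit 0) (nat_lit 76) (XT.lf (nat_lit 0) (nat_lit 8458044320) (nat_lit 1824) (nat_lit 1050863428) (nat_lit 1900) (nat_lit 28356641067) (nat_lit 448) (nat_lit 5) (nat_lit 472) (nat_lit 5) (nat_lit 473) (nat_lit 5) (nat_lit 639) (nat_lit 626) (nat_lit 295)) (XT.nd (nat_lit 78) (nat_lit 0) (nat_lit 0) (XT.lf (nat_lit 0) (nat_lit 10237757979) (nat_lit 1824) (nat_lit 19707836451)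 (nat_lit 1900) (nat_lit 8313388452) (nat_lit 449) (nat_lit 5) (nat_lit 473) (nat_lit 5) (nat_lit 474) (nat_lit 5) (nat_lit 640) (nat_lit 626) (nat_lit 294)) (XT.lf (nat_lit 0) (nat_lit 12121917858) (nat_lit 1824) (nat_lit 164599929) (nat_lit 1900) (nat_lit 26372390989) (nat_lit 449) (nat_lit 5) (nat_lit 473) (nat_lit 5) (nat_lit 474) (nat_lit 5) (nat_lit 641) (nat_lit 626) (nat_lit 293)))) (XT.nd (nat_lit 78) (nat_lit 0) (nat_lit 0) (XT.lf (nat_lit 0) (nat_lit 14210660986) (nat_lit 1824) (nat_lit 19070938527) (nat_lit 1900) (nat_lit 5781895854) (nat_lit 450) (nat_lit 5) (nat_lit 474) (nat_lit 5) (nat_lit 475) (nat_lit 5) (nat_lit 642) (nat_lit 626) (nat_lit 292)) (XT.nd (nat_lit 79950) (nat_lit 0) (nat_lit 1292) (XT.lf (nat_lit 76) (nat_lit 1009926795) (nat_lit 0) (nat_lit 15419113240) (nat_lit 1900) (nat_lit 23045376612) (nat_lit 451) (nat_lit 5) (nat_lit 450) (nat_lit 5) (nat_lit 475) (nat_lit 5) (nat_lit 643) (nat_lit 626) (nat_lit 291)) (XT.lf (nat_lit 0) (nat_lit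 7978602652) (nat_lit 0) (nat_lit 7978602652) (nat_lit 1748) (nat_lit 976569929) (nat_lit 467) (nat_lit 5) (nat_lit 467) (nat_lit 3) (nat_lit 490) (nat_lit 3) (nat_lit 627) (nat_lit 627) (nat_lit 306))))) (XT.nd (nat_lit 234) (nat_lit 1672) (nat_lit 0) (XT.nd (nat_lit 78) (nat_lit 0) (nat_lit 0) (XT.lf (nat_lit 0) (nat_lit 32294307346) (nat_lit 1748) (nat_lit 1320193492) (nat_lit 1824) (nat_lit 590501175) (nat_lit 467) (nat_lit 5) (nat_lit 490) (nat_lit 3) (nat_lit 491) (nat_lit 5) (nat_lit 628) (nat_lit 627) (nat_lit 305)) (XT.nd (nat_lit 78) (nat_lit 0) (nat_lit 0) (XT.lf (nat_lit 76) (nat_lit 15701228046) (nat_lit 0) (nat_lit 17186706793) (nat_lit 1824) (nat_lit 1657145326) (nat_lit 468) (nat_lit 5) (nat_lit 467) (nat_lit 5) (nat_lit 491) (nat_lit 5) (nat_lit 629) (nat_lit 627) (nat_lit 304)) (XT.lf (nat_lit 76) (nat_lit 33080197981) (nat_lit 0) (nat_lit 420633392) (nat_lit 1824) (nat_lit 1390980806) (nat_lit 468) (nat_lit 5) (nat_lit 467) (nat_lit 5) (nat_lit 491)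 (nat_lit 5) (nat_lit 630) (nat_lit 627) (nat_lit 303)))) (XT.nd (nat_lit 156) (nat_lit 1748) (nat_lit 0) (XT.nd (nat_lit 78) (nat_lit 0) (nat_lit 0) (XT.lf (nat_lit 76) (nat_lit 15657523475) (nat_lit 0) (nat_lit 18676994312) (nat_lit 1824) (nat_lit 906790632) (nat_lit 469) (nat_lit 5) (nat_lit 468) (nat_lit 5) (nat_lit 492) (nat_lit 5) (nat_lit 631) (nat_lit 627) (nat_lit 302)) (XT.lf (nat_lit 76) (nat_lit 33496989685) (nat_lit 0) (nat_lit 1701405719) (nat_lit 1824) (nat_lit 399129051) (nat_lit 469) (nat_lit 5) (nat_lit 468) (nat_lit 5) (nat_lit 492) (nat_lit 5) (nat_lit 632) (nat_lit 627) (nat_lit 301))) (XT.nd (nat_lit 78) (nat_lit 0) (nat_lit 0) (XT.lf (nat_lit 0) (nat_lit 321301722) (nat_lit 1824) (nat_lit 20121003899) (nat_lit 1900) (nat_lit 15514460539) (nat_lit 445) (nat_lit 5) (nat_lit 469) (nat_lit 5) (nat_lit 470) (nat_lit 5) (nat_lit 633) (nat_lit 627) (nat_lit 300)) (XT.lf (nat_lit 0) (nat_lit 1074895786) (nat_lit 1824) (nat_lit 2178474174) (nat_lit 1900)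 (nat_lit 33069288202) (nat_lit 445) (nat_lit 5) (nat_lit 469) (nat_lit 5) (nat_lit 470) (nat_lit 5) (nat_lit 634) (nat_lit 627) (nat_lit 299))))))) (XT.nd (nat_lit 80964) (nat_lit 76) (nat_lit 0) (XT.nd (nat_lit 468) (nat_lit 0) (nat_lit 228) (XT.nd (nat_lit 234) (nat_lit 0) (nat_lit 76) (XT.nd (nat_lit 78) (nat_lit 0) (nat_lit 0) (XT.lf (nat_lit 0) (nat_lit 2041709184) (nat_lit 1824) (nat_lit 20450831755) (nat_lit 1900) (nat_lit 14199364320) (nat_lit 446) (nat_lit 5) (nat_lit 470) (nat_lit 5) (nat_lit 471) (nat_lit 5) (nat_lit 635) (nat_lit 627) (nat_lit 298)) (XT.nd (nat_lit 78) (nat_lit 0) (nat_lit 76) (XT.lf (nat_lit 0) (nat_lit 3062808360) (nat_lit 1824) (nat_lit 2032171608) (nat_lit 1900) (nat_lit 31972858538) (nat_lit 446) (nat_lit 5) (nat_lit 470) (nat_lit 5) (nat_lit 471) (nat_lit 5) (nat_lit 636) (nat_lit 627) (nat_lit 297)) (XT.lf (nat_lit 0) (nat_lit 4296136448) (nat_lit 1824) (nat_lit 20555276377) (nat_lit 1900) (nat_lit 12596041650) (nat_lit 447) (nat_lit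 5) (nat_lit 471) (nat_lit 5) (nat_lit 472) (nat_lit 5) (nat_lit 637) (nat_lit 627) (nat_lit 296)))) (XT.nd (nat_lit 78) (nat_lit 0) (nat_lit 76) (XT.lf (nat_lit 0) (nat_lit 5600337129) (nat_lit 1824) (nat_lit 1646493776) (nat_lit 1900) (nat_lit 30586907930) (nat_lit 447) (nat_lit 5) (nat_lit 471) (nat_lit 5) (nat_lit 472) (nat_lit 5) (nat_lit 638) (nat_lit 627) (nat_lit 295)) (XT.nd (nat_lit 78) (nat_lit 0) (nat_lit 0) (XT.lf (nat_lit 0) (nat_lit 7115740767) (nat_lit 1824) (nat_lit 20421690334) (nat_lit 1900) (nat_lit 10686615590) (nat_lit 448) (nat_lit 5) (nat_lit 472) (nat_lit 5) (nat_lit 473) (nat_lit 5) (nat_lit 639) (nat_lit 627) (nat_lit 294)) (XT.lf (nat_lit 0) (nat_lit 8719350350) (nat_lit 1824) (nat_lit 1008341775) (nat_lit 1900) (nat_lit 28893310807) (nat_lit 448) (nat_lit 5) (nat_lit 472) (nat_lit 5) (nat_lit 473) (nat_lit 5) (nat_lit 640) (nat_lit 627) (nat_lit 293))))) (XT.nd (nat_lit 80262) (nat_lit 0) (nat_lit 1368) (XT.nd (nat_lit 78) (nat_lit 0) (nat_lit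 0) (XT.lf (nat_lit 0) (nat_lit 10533081963) (nat_lit 1824) (nat_lit 20036864255) (nat_lit 1900) (nat_lit 8452391262) (nat_lit 449) (nat_lit 5) (nat_lit 473) (nat_lit 5) (nat_lit 474) (nat_lit 5) (nat_lit 641) (nat_lit 627) (nat_lit 292)) (XT.nd (nat_lit 80106) (nat_lit 0) (nat_lit 1368) (XT.lf (nat_lit 0) (nat_lit 12453149179) (nat_lit 1824) (nat_lit 104040041) (nat_lit 1900) (nat_lit 26873108457) (nat_lit 449) (nat_lit 5) (nat_lit 473) (nat_lit 5) (nat_lit 474) (nat_lit 5) (nat_lit 642) (nat_lit 627) (nat_lit 291)) (XT.lf (nat_lit 0) (nat_lit 8166423970) (nat_lit 0) (nat_lit 8166423970) (nat_lit 1748) (nat_lit 938463977) (nat_lit 467) (nat_lit 5) (nat_lit 467) (nat_lit 3) (nat_lit 490) (nat_lit 3) (nat_lit 628) (nat_lit 628) (nat_lit 304)))) (XT.nd (nat_lit 78) (nat_lit 0) (nat_lit 0) (XT.lf (nat_lit 0) (nat_lit 33050615289) (nat_lit 1748) (nat_lit 1288614032) (nat_lit 1824) (nat_lit 547646943) (nat_lit 467) (nat_lit 5) (nat_lit 490) (nat_lit 3) (nat_lit 491) (nat_lit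 5) (nat_lit 629) (nat_lit 628) (nat_lit 303)) (XT.nd (nat_lit 78) (nat_lit 0) (nat_lit 0) (XT.lf (nat_lit 76) (nat_lit 16072854467) (nat_lit 0) (nat_lit 17581469721) (nat_lit 1824) (nat_lit 1579467954) (nat_lit 468) (nat_lit 5) (nat_lit 467) (nat_lit 5) (nat_lit 491) (nat_lit 5) (nat_lit 630) (nat_lit 628) (nat_lit 302)) (XT.lf (nat_lit 76) (nat_lit 33798274354) (nat_lit 0) (nat_lit 479074287) (nat_lit 1824) (nat_lit 1310153090) (nat_lit 468) (nat_lit 5) (nat_lit 467) (nat_lit 5) (nat_lit 491) (nat_lit 5) (nat_lit 631) (nat_lit 628) (nat_lit 301)))))) (XT.nd (nat_lit 468) (nat_lit 0) (nat_lit 152) (XT.nd (nat_lit 234) (nat_lit 0) (nat_lit 0) (XT.nd (nat_lit 78) (nat_lit 1748) (nat_lit 0) (XT.lf (nat_lit 76) (nat_lit 16029230077) (nat_lit 0) (nat_lit 19096452195) (nat_lit 1824) (nat_lit 818346480) (nat_lit 469) (nat_lit 5) (nat_lit 468) (nat_lit 5) (nat_lit 492) (nat_lit 5) (nat_lit 632) (nat_lit 628) (nat_lit 300)) (XT.nd (nat_lit 78) (nat_lit 1748) (nat_lit 0) (XT.lf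 (nat_lit 76) (nat_lit 34224337452) (nat_lit 0) (nat_lit 1780451477) (nat_lit 1824) (nat_lit 302621471) (nat_lit 469) (nat_lit 5) (nat_lit 468) (nat_lit 5) (nat_lit 492) (nat_lit 5) (nat_lit 633) (nat_lit 628) (nat_lit 299)) (XT.lf (nat_lit 0) (nat_lit 428925136) (nat_lit 1824) (nat_lit 20462692096) (nat_lit 1900) (nat_lit 15782244895) (nat_lit 445) (nat_lit 5) (nat_lit 469) (nat_lit 5) (nat_lit 470) (nat_lit 5) (nat_lit 634) (nat_lit 628) (nat_lit 298)))) (XT.nd (nat_lit 78) (nat_lit 0) (nat_lit 76) (XT.lf (nat_lit 0) (nat_lit 1195606820) (nat_lit 1824) (nat_lit 2162502597) (nat_lit 1900) (nat_lit 33689002539) (nat_lit 445) (nat_lit 5) (nat_lit 469) (nat_lit 5) (nat_lit 470) (nat_lit 5) (nat_lit 635) (nat_lit 628) (nat_lit 297)) (XT.nd (nat_lit 78) (nat_lit 0) (nat_lit 0) (XT.lf (nat_lit 0) (nat_lit 2179945183) (nat_lit 1824) (nat_lit 20798481217) (nat_lit 1900) (nat_lit 14445354117) (nat_lit 446) (nat_lit 5) (nat_lit 470) (nat_lit 5) (nat_lit 471) (nat_lit 5) (nat_lit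 636) (nat_lit 628) (nat_lit 296)) (XT.lf (nat_lit 0) (nat_lit 3219556503) (nat_lit 1824) (nat_lit 2012651145) (nat_lit 1900) (nat_lit 32575063268) (nat_lit 446) (nat_lit 5) (nat_lit 470) (nat_lit 5) (nat_lit 471) (nat_lit 5) (nat_lit 637) (nat_lit 628) (nat_lit 295))))) (XT.nd (nat_lit 234) (nat_lit 0) (nat_lit 76) (XT.nd (nat_lit 78) (nat_lit 0) (nat_lit 0) (XT.lf (nat_lit 0) (nat_lit 4475844510) (nat_lit 1824) (nat_lit 20904497129) (nat_lit 1900) (nat_lit 12814171983) (nat_lit 447) (nat_lit 5) (nat_lit 471) (nat_lit 5) (nat_lit 472) (nat_lit 5) (nat_lit 638) (nat_lit 628) (nat_lit 294)) (XT.nd (nat_lit 78) (nat_lit 0) (nat_lit 76) (XT.lf (nat_lit 0) (nat_lit 5804290276) (nat_lit 1824) (nat_lit 1618752304) (nat_lit 1900) (nat_lit 31165518148) (nat_lit 447) (nat_lit 5) (nat_lit 471) (nat_lit 5) (nat_lit 472) (nat_lit 5) (nat_lit 639) (nat_lit 628) (nat_lit 293)) (XT.lf (nat_lit 0) (nat_lit 7348393958) (nat_lit 1824) (nat_lit 20767831080) (nat_lit 1900) (nat_lit 10870482136)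 (nat_lit 448) (nat_lit 5) (nat_lit 472) (nat_lit 5) (nat_lit 473) (nat_lit 5) (nat_lit 640) (nat_lit 628) (nat_lit 292)))) (XT.nd (nat_lit 80262) (nat_lit 0) (nat_lit 1444) (XT.nd (nat_lit 78) (nat_lit 0) (nat_lit 76) (XT.lf (nat_lit 0) (nat_lit 8982304391) (nat_lit 1824) (nat_lit 967436983) (nat_lit 1900) (nat_lit 29441896860) (nat_lit 448) (nat_lit 5) (nat_lit 472) (nat_lit 5) (nat_lit 473) (nat_lit 5) (nat_lit 641) (nat_lit 628) (nat_lit 291)) (XT.lf (nat_lit 0) (nat_lit 10830795528) (nat_lit 1824) (nat_lit 20375001652) (nat_lit 1900) (nat_lit 8595232860) (nat_lit 449) (nat_lit 5) (nat_lit 473) (nat_lit 5) (nat_lit 474) (nat_lit 5) (nat_lit 642) (nat_lit 628) (nat_lit 290))) (XT.nd (nat_lit 78) (nat_lit 0) (nat_lit 0) (XT.lf (nat_lit 0) (nat_lit 8356904761) (nat_lit 0) (nat_lit 8356904761) (nat_lit 1748) (nat_lit 901834035) (nat_lit 467) (nat_lit 5) (nat_lit 467) (nat_lit 3) (nat_lit 490) (nat_lit 3) (nat_lit 629) (nat_lit 629) (nat_lit 302)) (XT.lf (nat_lit 0) (nat_lit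 33817761578) (nat_lit 1748) (nat_lit 1258654545) (nat_lit 1824) (nat_lit 506058306) (nat_lit 467) (nat_lit 5) (nat_lit 490) (nat_lit 3) (nat_lit 491) (nat_lit 5) (nat_lit 630) (nat_lit 629) (nat_lit 301))))))))
noncomputable def xc255 : XT := (XT.nd (nat_lit 162630) (nat_lit 76) (nat_lit 0) (XT.nd (nat_lit 81198) (nat_lit 0) (nat_lit 0) (XT.nd (nat_lit 468) (nat_lit 0) (nat_lit 76) (XT.nd (nat_lit 234) (nat_lit 1672) (nat_lit 0) (XT.nd (nat_lit 78) (nat_lit 0) (nat_lit 0) (XT.lf (nat_lit 76) (nat_lit 16449676667) (nat_lit 0) (nat_lit 17982146396) (nat_lit 1824) (nat_lit 1504540321) (nat_lit 468) (nat_lit 5) (nat_lit 467) (nat_lit 5) (nat_lit 491) (nat_lit 5) (nat_lit 631) (nat_lit 629) (nat_lit 300)) (XT.nd (nat_lit 78) (nat_lit 0) (nat_lit 76) (XT.lf (nat_lit 76) (nat_lit 34528519361) (nat_lit 0) (nat_lit 536741343) (nat_lit 1824) (nat_lit 1231927728) (nat_lit 468) (nat_lit 5) (nat_lit 467) (nat_lit 5) (nat_lit 491) (nat_lit 5) (nat_lit 632) (nat_lit 629) (nat_lit 299))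 (XT.lf (nat_lit 76) (nat_lit 16406097005) (nat_lit 0) (nat_lit 19522516184) (nat_lit 1824) (nat_lit 732272075) (nat_lit 469) (nat_lit 5) (nat_lit 468) (nat_lit 5) (nat_lit 492) (nat_lit 5) (nat_lit 633) (nat_lit 629) (nat_lit 298)))) (XT.nd (nat_lit 78) (nat_lit 1748) (nat_lit 0) (XT.lf (nat_lit 76) (nat_lit 34964002953) (nat_lit 0) (nat_lit 1859330061) (nat_lit 1824) (nat_lit 208241219) (nat_lit 469) (nat_lit 5) (nat_lit 468) (nat_lit 5) (nat_lit 492) (nat_lit 5) (nat_lit 634) (nat_lit 629) (nat_lit 297)) (XT.nd (nat_lit 78) (nat_lit 0) (nat_lit 0) (XT.lf (nat_lit 0) (nat_lit 534771402) (nat_lit 1824) (nat_lit 20813572349) (nat_lit 1900) (nat_lit 16057035452) (nat_lit 445) (nat_lit 5) (nat_lit 469) (nat_lit 5) (nat_lit 470) (nat_lit 5) (nat_lit 635) (nat_lit 629) (nat_lit 296)) (XT.lf (nat_lit 0) (nat_lit 1314879508) (nat_lit 1824) (nat_lit 2148523641) (nat_lit 1900) (nat_lit 34322729315) (nat_lit 445) (nat_lit 5) (nat_lit 469) (nat_lit 5) (nat_lit 470) (nat_lit 5) (nat_lit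 636) (nat_lit 629) (nat_lit 295))))) (XT.nd (nat_lit 234) (nat_lit 0) (nat_lit 76) (XT.nd (nat_lit 78) (nat_lit 0) (nat_lit 0) (XT.lf (nat_lit 0) (nat_lit 2317163671) (nat_lit 1824) (nat_lit 21155466630) (nat_lit 1900) (nat_lit 14697739198) (nat_lit 446) (nat_lit 5) (nat_lit 470) (nat_lit 5) (nat_lit 471) (nat_lit 5) (nat_lit 637) (nat_lit 629) (nat_lit 294)) (XT.nd (nat_lit 78) (nat_lit 0) (nat_lit 76) (XT.lf (nat_lit 0) (nat_lit 3375731540) (nat_lit 1824) (nat_lit 1995076509) (nat_lit 1900) (nat_lit 33190758650) (nat_lit 446) (nat_lit 5) (nat_lit 470) (nat_lit 5) (nat_lit 471) (nat_lit 5) (nat_lit 638) (nat_lit 629) (nat_lit 293)) (XT.lf (nat_lit 0) (nat_lit 4655504934) (nat_lit 1824) (nat_lit 21263105358) (nat_lit 1900) (nat_lit 13037977049) (nat_lit 447) (nat_lit 5) (nat_lit 471) (nat_lit 5) (nat_lit 472) (nat_lit 5) (nat_lit 639) (nat_lit 629) (nat_lit 292)))) (XT.nd (nat_lit 78) (nat_lit 0) (nat_lit 76) (XT.lf (nat_lit 0) (nat_lit 6008752095) (nat_lit 1824) (nat_lit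 1592811944) (nat_lit 1900) (nat_lit 31756986968) (nat_lit 447) (nat_lit 5) (nat_lit 471) (nat_lit 5) (nat_lit 472) (nat_lit 5) (nat_lit 640) (nat_lit 629) (nat_lit 291)) (XT.nd (nat_lit 80340) (nat_lit 0) (nat_lit 1444) (XT.lf (nat_lit 0) (nat_lit 7582192264) (nat_lit 1824) (nat_lit 21123313557) (nat_lit 1900) (nat_lit 11059185737) (nat_lit 448) (nat_lit 5) (nat_lit 472) (nat_lit 5) (nat_lit 473) (nat_lit 5) (nat_lit 641) (nat_lit 629) (nat_lit 290)) (XT.lf (nat_lit 0) (nat_lit 8550140810) (nat_lit 0) (nat_lit 8550140810) (nat_lit 1748) (nat_lit 866622714) (nat_lit 467) (nat_lit 5) (nat_lit 467) (nat_lit 3) (nat_lit 490) (nat_lit 3) (nat_lit 630) (nat_lit 630) (nat_lit 300)))))) (XT.nd (nat_lit 468) (nat_lit 0) (nat_lit 0) (XT.nd (nat_lit 234) (nat_lit 1672) (nat_lit 0) (XT.nd (nat_lit 78) (nat_lit 0) (nat_lit 0) (XT.lf (nat_lit 0) (nat_lit 34596129481) (nat_lit 1748) (nat_lit 1230260002) (nat_lit 1824) (nat_lit 465678149) (nat_lit 467) (nat_lit 5) (nat_lit 490) (nat_lit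 3) (nat_lit 491) (nat_lit 5) (nat_lit 631) (nat_lit 630) (nat_lit 299)) (XT.nd (nat_lit 78) (nat_lit 0) (nat_lit 0) (XT.lf (nat_lit 76) (nat_lit 16831885416) (nat_lit 0) (nat_lit 18388932040) (nat_lit 1824) (nat_lit 1432250319) (nat_lit 468) (nat_lit 5) (nat_lit 467) (nat_lit 5) (nat_lit 491) (nat_lit 5) (nat_lit 632) (nat_lit 630) (nat_lit 298)) (XT.lf (nat_lit 76) (nat_lit 35271261528) (nat_lit 0) (nat_lit 593694518) (nat_lit 1824) (nat_lit 1156192941) (nat_lit 468) (nat_lit 5) (nat_lit 467) (nat_lit 5) (nat_lit 491) (nat_lit 5) (nat_lit 633) (nat_lit 630) (nat_lit 297)))) (XT.nd (nat_lit 78) (nat_lit 1748) (nat_lit 0) (XT.lf (nat_lit 76) (nat_lit 16788315760) (nat_lit 0) (nat_lit 19955387640) (nat_lit 1824) (nat_lit 648454104) (nat_lit 469) (nat_lit 5) (nat_lit 468) (nat_lit 5) (nat_lit 492) (nat_lit 5) (nat_lit 634) (nat_lit 630) (nat_lit 296)) (XT.nd (nat_lit 78) (nat_lit 1748) (nat_lit 0) (XT.lf (nat_lit 76) (nat_lit 35716319105) (nat_lit 0) (nat_lit 1938106007)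 (nat_lit 1824) (nat_lit 115873285) (nat_lit 469) (nat_lit 5) (nat_lit 468) (nat_lit 5) (nat_lit 492) (nat_lit 5) (nat_lit 635) (nat_lit 630) (nat_lit 295)) (XT.lf (nat_lit 0) (nat_lit 638957566) (nat_lit 1824) (nat_lit 21173736925) (nat_lit 1900) (nat_lit 16338908245) (nat_lit 445) (nat_lit 5) (nat_lit 469) (nat_lit 5) (nat_lit 470) (nat_lit 5) (nat_lit 636) (nat_lit 630) (nat_lit 294))))) (XT.nd (nat_lit 234) (nat_lit 0) (nat_lit 152) (XT.nd (nat_lit 78) (nat_lit 0) (nat_lit 76) (XT.lf (nat_lit 0) (nat_lit 1432834683) (nat_lit 1824) (nat_lit 2136487377) (nat_lit 1900) (nat_lit 34970685944) (nat_lit 445) (nat_lit 5) (nat_lit 469) (nat_lit 5) (nat_lit 470) (nat_lit 5) (nat_lit 637) (nat_lit 630) (nat_lit 293)) (XT.nd (nat_lit 78) (nat_lit 0) (nat_lit 0) (XT.lf (nat_lit 0) (nat_lit 2453491167) (nat_lit 1824) (nat_lit 21521882180) (nat_lit 1900) (nat_lit 14956590175) (nat_lit 446) (nat_lit 5) (nat_lit 470) (nat_lit 5) (nat_lit 471) (nat_lit 5) (nat_lit 638) (nat_lit 630)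 (nat_lit 292)) (XT.lf (nat_lit 0) (nat_lit 3531465996) (nat_lit 1824) (nat_lit 1979395900) (nat_lit 1900) (nat_lit 33820158326) (nat_lit 446) (nat_lit 5) (nat_lit 470) (nat_lit 5) (nat_lit 471) (nat_lit 5) (nat_lit 639) (nat_lit 630) (nat_lit 291)))) (XT.nd (nat_lit 80574) (nat_lit 0) (nat_lit 1520) (XT.nd (nat_lit 80496) (nat_lit 0) (nat_lit 1520) (XT.lf (nat_lit 0) (nat_lit 4835258183) (nat_lit 1824) (nat_lit 21631195499) (nat_lit 1900) (nat_lit 13267519391) (nat_lit 447) (nat_lit 5) (nat_lit 471) (nat_lit 5) (nat_lit 472) (nat_lit 5) (nat_lit 640) (nat_lit 630) (nat_lit 290)) (XT.lf (nat_lit 0) (nat_lit 8746228164) (nat_lit 0) (nat_lit 8746228164) (nat_lit 1748) (nat_lit 832774851) (nat_lit 467) (nat_lit 5) (nat_lit 467) (nat_lit 3) (nat_lit 490) (nat_lit 3) (nat_lit 631) (nat_lit 631) (nat_lit 298))) (XT.nd (nat_lit 78) (nat_lit 0) (nat_lit 0) (XT.lf (nat_lit 0) (nat_lit 35386103466) (nat_lit 1748) (nat_lit 1203377664) (nat_lit 1824) (nat_lit 426451418) (nat_lit 467)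 (nat_lit 5) (nat_lit 490) (nat_lit 3) (nat_lit 491) (nat_lit 5) (nat_lit 632) (nat_lit 631) (nat_lit 297)) (XT.lf (nat_lit 76) (nat_lit 17219671928) (nat_lit 0) (nat_lit 18802022787) (nat_lit 1824) (nat_lit 1362490090) (nat_lit 468) (nat_lit 5) (nat_lit 467) (nat_lit 5) (nat_lit 491) (nat_lit 5) (nat_lit 633) (nat_lit 631) (nat_lit 296))))))) (XT.nd (nat_lit 81510) (nat_lit 0) (nat_lit 0) (XT.nd (nat_lit 468) (nat_lit 76) (nat_lit 0) (XT.nd (nat_lit 234) (nat_lit 1672) (nat_lit 0) (XT.nd (nat_lit 78) (nat_lit 0) (nat_lit 76) (XT.lf (nat_lit 76) (nat_lit 36026832645) (nat_lit 0) (nat_lit 649992043) (nat_lit 1824) (nat_lit 1082841079) (nat_lit 468) (nat_lit 5) (nat_lit 467) (nat_lit 5) (nat_lit 491) (nat_lit 5) (nat_lit 634) (nat_lit 631) (nat_lit 295)) (XT.nd (nat_lit 78) (nat_lit 0) (nat_lit 0) (XT.lf (nat_lit 76) (nat_lit 17176078246) (nat_lit 0) (nat_lit 20395269260) (nat_lit 1824) (nat_lit 566783227) (nat_lit 469) (nat_lit 5) (nat_lit 468) (nat_lit 5) (nat_lit 492)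 (nat_lit 5) (nat_lit 635) (nat_lit 631) (nat_lit 294)) (XT.lf (nat_lit 76) (nat_lit 36481622124) (nat_lit 0) (nat_lit 2016842506) (nat_lit 1824) (nat_lit 25406478) (nat_lit 469) (nat_lit 5) (nat_lit 468) (nat_lit 5) (nat_lit 492) (nat_lit 5) (nat_lit 636) (nat_lit 631) (nat_lit 293)))) (XT.nd (nat_lit 78) (nat_lit 0) (nat_lit 0) (XT.lf (nat_lit 0) (nat_lit 741597095) (nat_lit 1824) (nat_lit 21543283490) (nat_lit 1900) (nat_lit 16627943315) (nat_lit 445) (nat_lit 5) (nat_lit 469) (nat_lit 5) (nat_lit 470) (nat_lit 5) (nat_lit 637) (nat_lit 631) (nat_lit 292)) (XT.nd (nat_lit 78) (nat_lit 0) (nat_lit 76) (XT.lf (nat_lit 0) (nat_lit 1549589786) (nat_lit 1824) (nat_lit 2126346367) (nat_lit 1900) (nat_lit 35633096629) (nat_lit 445) (nat_lit 5) (nat_lit 469) (nat_lit 5) (nat_lit 470) (nat_lit 5) (nat_lit 638) (nat_lit 631) (nat_lit 291)) (XT.lf (nat_lit 0) (nat_lit 2589051015) (nat_lit 1824) (nat_lit 21897827530) (nat_lit 1900) (nat_lit 15221981295) (nat_lit 446) (nat_lit 5)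 (nat_lit 470) (nat_lit 5) (nat_lit 471) (nat_lit 5) (nat_lit 639) (nat_lit 631) (nat_lit 290))))) (XT.nd (nat_lit 80730) (nat_lit 152) (nat_lit 0) (XT.nd (nat_lit 80574) (nat_lit 0) (nat_lit 1596) (XT.lf (nat_lit 0) (nat_lit 3686889458) (nat_lit 1824) (nat_lit 1965560000) (nat_lit 1900) (nat_lit 34463482392) (nat_lit 446) (nat_lit 5) (nat_lit 470) (nat_lit 5) (nat_lit 471) (nat_lit 5) (nat_lit 640) (nat_lit 631) (nat_lit 289)) (XT.nd (nat_lit 78) (nat_lit 0) (nat_lit 0) (XT.lf (nat_lit 0) (nat_lit 8945263203) (nat_lit 0) (nat_lit 8945263203) (nat_lit 1748) (nat_lit 800237425) (nat_lit 467) (nat_lit 5) (nat_lit 467) (nat_lit 3) (nat_lit 490) (nat_lit 3) (nat_lit 632) (nat_lit 632) (nat_lit 296)) (XT.lf (nat_lit 0) (nat_lit 36188069475) (nat_lit 1748) (nat_lit 1177957004) (nat_lit 1824) (nat_lit 388325031) (nat_lit 467) (nat_lit 5) (nat_lit 490) (nat_lit 3) (nat_lit 491) (nat_lit 5) (nat_lit 633) (nat_lit 632) (nat_lit 295)))) (XT.nd (nat_lit 156) (nat_lit 1748) (nat_lit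 0) (XT.nd (nat_lit 78) (nat_lit 0) (nat_lit 0) (XT.lf (nat_lit 76) (nat_lit 17613228001) (nat_lit 0) (nat_lit 19221615825) (nat_lit 1824) (nat_lit 1295155851) (nat_lit 468) (nat_lit 5) (nat_lit 467) (nat_lit 5) (nat_lit 491) (nat_lit 5) (nat_lit 634) (nat_lit 632) (nat_lit 294)) (XT.lf (nat_lit 76) (nat_lit 36795567958) (nat_lit 0) (nat_lit 705690494) (nat_lit 1824) (nat_lit 1011768448) (nat_lit 468) (nat_lit 5) (nat_lit 467) (nat_lit 5) (nat_lit 491) (nat_lit 5) (nat_lit 635) (nat_lit 632) (nat_lit 293))) (XT.nd (nat_lit 78) (nat_lit 1824) (nat_lit 0) (XT.lf (nat_lit 76) (nat_lit 17569576906) (nat_lit 0) (nat_lit 20842365213) (nat_lit 1824) (nat_lit 487153918) (nat_lit 469) (nat_lit 5) (nat_lit 468) (nat_lit 5) (nat_lit 492) (nat_lit 5) (nat_lit 636) (nat_lit 632) (nat_lit 292)) (XT.lf (nat_lit 0) (nat_lit 62436984) (nat_lit 1824) (nat_lit 2032745513) (nat_lit 1900) (nat_lit 37197395750) (nat_lit 444) (nat_lit 5) (nat_lit 468) (nat_lit 5) (nat_lit 469) (nat_lit 5) (nat_lit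 637) (nat_lit 632) (nat_lit 291)))))) (XT.nd (nat_lit 81120) (nat_lit 76) (nat_lit 0) (XT.nd (nat_lit 80886) (nat_lit 0) (nat_lit 1672) (XT.nd (nat_lit 78) (nat_lit 0) (nat_lit 0) (XT.lf (nat_lit 0) (nat_lit 842800026) (nat_lit 1824) (nat_lit 21922315084) (nat_lit 1900) (nat_lit 16924224697) (nat_lit 445) (nat_lit 5) (nat_lit 469) (nat_lit 5) (nat_lit 470) (nat_lit 5) (nat_lit 638) (nat_lit 632) (nat_lit 290)) (XT.nd (nat_lit 80730) (nat_lit 0) (nat_lit 1672) (XT.lf (nat_lit 0) (nat_lit 1665259022) (nat_lit 1824) (nat_lit 2118055572) (nat_lit 1900) (nat_lit 36310192400) (nat_lit 445) (nat_lit 5) (nat_lit 469) (nat_lit 5) (nat_lit 470) (nat_lit 5) (nat_lit 639) (nat_lit 632) (nat_lit 289)) (XT.lf (nat_lit 0) (nat_lit 9147342703) (nat_lit 0) (nat_lit 9147342703) (nat_lit 1748) (nat_lit 768959471) (nat_lit 467) (nat_lit 5) (nat_lit 467) (nat_lit 3) (nat_lit 490) (nat_lit 3) (nat_lit 633) (nat_lit 633) (nat_lit 294)))) (XT.nd (nat_lit 78) (nat_lit 0) (nat_lit 0) (XT.lf (nat_lit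 0) (nat_lit 37002415197) (nat_lit 1748) (nat_lit 1153949617) (nat_lit 1824) (nat_lit 351247802) (nat_lit 467) (nat_lit 5) (nat_lit 490) (nat_lit 3) (nat_lit 491) (nat_lit 5) (nat_lit 634) (nat_lit 633) (nat_lit 293)) (XT.nd (nat_lit 78) (nat_lit 0) (nat_lit 0) (XT.lf (nat_lit 76) (nat_lit 18012746149) (nat_lit 0) (nat_lit 19647909524) (nat_lit 1824) (nat_lit 1230147740) (nat_lit 468) (nat_lit 5) (nat_lit 467) (nat_lit 5) (nat_lit 491) (nat_lit 5) (nat_lit 635) (nat_lit 633) (nat_lit 292)) (XT.lf (nat_lit 76) (nat_lit 37577806365) (nat_lit 0) (nat_lit 760844874) (nat_lit 1824) (nat_lit 942875163) (nat_lit 468) (nat_lit 5) (nat_lit 467) (nat_lit 5) (nat_lit 491) (nat_lit 5) (nat_lit 636) (nat_lit 633) (nat_lit 291))))) (XT.nd (nat_lit 81042) (nat_lit 0) (nat_lit 1748) (XT.nd (nat_lit 78) (nat_lit 1824) (nat_lit 0) (XT.lf (nat_lit 76) (nat_lit 17969004868) (nat_lit 0) (nat_lit 21296881268) (nat_lit 1824) (nat_lit 409464303) (nat_lit 469) (nat_lit 5) (nat_lit 468) (nat_lit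 5) (nat_lit 492) (nat_lit 5) (nat_lit 637) (nat_lit 633) (nat_lit 290)) (XT.nd (nat_lit 80886) (nat_lit 0) (nat_lit 1748) (XT.lf (nat_lit 0) (nat_lit 148279838) (nat_lit 1824) (nat_lit 2025168785) (nat_lit 1900) (nat_lit 37903276412) (nat_lit 444) (nat_lit 5) (nat_lit 468) (nat_lit 5) (nat_lit 469) (nat_lit 5) (nat_lit 638) (nat_lit 633) (nat_lit 289)) (XT.lf (nat_lit 0) (nat_lit 9352563909) (nat_lit 0) (nat_lit 9352563909) (nat_lit 1748) (nat_lit 738892004) (nat_lit 467) (nat_lit 5) (nat_lit 467) (nat_lit 3) (nat_lit 490) (nat_lit 3) (nat_lit 634) (nat_lit 634) (nat_lit 292)))) (XT.nd (nat_lit 156) (nat_lit 0) (nat_lit 0) (XT.nd (nat_lit 78) (nat_lit 0) (nat_lit 0) (XT.lf (nat_lit 0) (nat_lit 37829530334) (nat_lit 1748) (nat_lit 1131309150) (nat_lit 1824) (nat_lit 315170366) (nat_lit 467) (nat_lit 5) (nat_lit 490) (nat_lit 3) (nat_lit 491) (nat_lit 5) (nat_lit 635) (nat_lit 634) (nat_lit 291)) (XT.lf (nat_lit 76) (nat_lit 18418419746) (nat_lit 0) (nat_lit 20081103569)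 (nat_lit 1824) (nat_lit 1167369662) (nat_lit 468) (nat_lit 5) (nat_lit 467) (nat_lit 5) (nat_lit 491) (nat_lit 5) (nat_lit 636) (nat_lit 634) (nat_lit 290))) (XT.nd (nat_lit 81120) (nat_lit 0) (nat_lit 0) (XT.lf (nat_lit 76) (nat_lit 38373890604) (nat_lit 0) (nat_lit 815508687) (nat_lit 1824) (nat_lit 876064987) (nat_lit 468) (nat_lit 5) (nat_lit 467) (nat_lit 5) (nat_lit 491) (nat_lit 5) (nat_lit 637) (nat_lit 634) (nat_lit 289)) (XT.lf (nat_lit 0) (nat_lit 38669806862) (nat_lit 1748) (nat_lit 1109991215) (nat_lit 1824) (nat_lit 280045099) (nat_lit 467) (nat_lit 5) (nat_lit 490) (nat_lit 3) (nat_lit 491) (nat_lit 5) (nat_lit 636) (nat_lit 635) (nat_lit 289))))))))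

set_option maxRecDepth 10000000 in
noncomputable def Tp : PT := (PT.nd (nat_lit 21701862) (PT.nd (nat_lit 19832982) (PT.nd (nat_lit 18047640) (PT.nd (nat_lit 16505424) (PT.nd (nat_lit 15207114) (PT.nd (nat_lit 14314248) (PT.nd (nat_lit 13584090) pc0 pc1) (PT.nd (nat_lit 486954) pc2 pc3)) (PT.nd (nat_lit 730158) (PT.nd (nat_lit 324948) pc4 pc5) (PT.nd (nat_lit 243984) pc6 pc7))) (PT.nd (nat_lit 892476) (PT.nd (nat_lit 486798) (PT.nd (nat_lit 243438) pc8 pc9) (PT.nd (nat_lit 162864) pc10 pc11)) (PT.nd (nat_lit 325104) (PT.nd (nat_lit 162630) pc12 pc13) (PT.nd (nat_lit 162396) pc14 pc15)))) (PT.nd (nat_lit 1054248) (PT.nd (nat_lit 567762) (PT.nd (nat_lit 244296) (PT.nd (nat_lit 162084) pc16 pc17) (PT.nd (nat_lit 161850) pc18 pc19)) (PT.nd (nat_lit 243516) (PT.nd (nat_lit 82056) pc20 pc21) (PT.nd (nat_lit 81900) pc22 pc23))) (PT.nd (nat_lit 405756) (PT.nd (nat_lit 163488) (PT.nd (nat_lit 81744) pc24 pc25) (PT.nd (nat_lit 81666) pc26 pc27)) (PT.nd (nat_lit 162786) (PT.nd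 (nat_lit 81432) pc28 pc29) (PT.nd (nat_lit 81276) pc30 pc31))))) (PT.nd (nat_lit 1134744) (PT.nd (nat_lit 569634) (PT.nd (nat_lit 324402) (PT.nd (nat_lit 162240) (PT.nd (nat_lit 81120) pc32 pc33) (PT.nd (nat_lit 81120) pc34 pc35)) (PT.nd (nat_lit 161850) (PT.nd (nat_lit 80964) pc36 pc37) (PT.nd (nat_lit 80730) pc38 pc39))) (PT.nd (nat_lit 321906) (PT.nd (nat_lit 161070) (PT.nd (nat_lit 80574) pc40 pc41) (PT.nd (nat_lit 80418) pc42 pc43)) (PT.nd (nat_lit 82836) (PT.nd (nat_lit 2574) pc44 pc45) (PT.nd (nat_lit 80184) pc46 pc47)))) (PT.nd (nat_lit 406614) (PT.nd (nat_lit 165048) (PT.nd (nat_lit 82602) (PT.nd (nat_lit 2574) pc48 pc49) (PT.nd (nat_lit 79872) pc50 pc51)) (PT.nd (nat_lit 159354) (PT.nd (nat_lit 79716) pc52 pc53) (PT.nd (nat_lit 2574) pc54 pc55))) (PT.nd (nat_lit 164034) (PT.nd (nat_lit 82056) (PT.nd (nat_lit 2574) pc56 pc57) (PT.nd (nat_lit 79326) pc58 pc59)) (PT.nd (nat_lit 81744) (PT.nd (nat_lit 79170) pc60 pc61) (PT.nd (nat_lit 79092) pc62 pc63)))))) (PT.nd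 (nat_lit 1213758) (PT.nd (nat_lit 648570) (PT.nd (nat_lit 401154) (PT.nd (nat_lit 238992) (PT.nd (nat_lit 81510) (PT.nd (nat_lit 78936) pc64 pc65) (PT.nd (nat_lit 78780) pc66 pc67)) (PT.nd (nat_lit 81120) (PT.nd (nat_lit 2574) pc68 pc69) (PT.nd (nat_lit 2574) pc70 pc71))) (PT.nd (nat_lit 86034) (PT.nd (nat_lit 5148) (PT.nd (nat_lit 2574) pc72 pc73) (PT.nd (nat_lit 78312) pc74 pc75)) (PT.nd (nat_lit 80730) (PT.nd (nat_lit 78156) pc76 pc77) (PT.nd (nat_lit 78000) pc78 pc79)))) (PT.nd (nat_lit 320814) (PT.nd (nat_lit 160680) (PT.nd (nat_lit 80418) (PT.nd (nat_lit 77844) pc80 pc81) (PT.nd (nat_lit 77688) pc82 pc83)) (PT.nd (nat_lit 80106) (PT.nd (nat_lit 2574) pc84 pc85) (PT.nd (nat_lit 2574) pc86 pc87))) (PT.nd (nat_lit 85098) (PT.nd (nat_lit 5148) (PT.nd (nat_lit 2574) pc88 pc89) (PT.nd (nat_lit 77298) pc90 pc91)) (PT.nd (nat_lit 79716) (PT.nd (nat_lit 77142) pc92 pc93) (PT.nd (nat_lit 2574) pc94 pc95))))) (PT.nd (nat_lit 573768) (PT.nd (nat_lit 243126) (PT.nd (nat_lit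 84474) (PT.nd (nat_lit 79326) (PT.nd (nat_lit 2574) pc96 pc97) (PT.nd (nat_lit 2574) pc98 pc99)) (PT.nd (nat_lit 79170) (PT.nd (nat_lit 76596) pc100 pc101) (PT.nd (nat_lit 2964) pc102 pc103))) (PT.nd (nat_lit 162240) (PT.nd (nat_lit 80730) (PT.nd (nat_lit 4446) pc104 pc105) (PT.nd (nat_lit 5304) pc106 pc107)) (PT.nd (nat_lit 85644) (PT.nd (nat_lit 5850) pc108 pc109) (PT.nd (nat_lit 75738) pc110 pc111)))) (PT.nd (nat_lit 641316) (PT.nd (nat_lit 316836) (PT.nd (nat_lit 160914) (PT.nd (nat_lit 80340) pc112 pc113) (PT.nd (nat_lit 75192) pc114 pc115)) (PT.nd (nat_lit 161772) (PT.nd (nat_lit 80808) pc116 pc117) (PT.nd (nat_lit 81198) pc118 pc119))) (PT.nd (nat_lit 414960) (PT.nd (nat_lit 170976) (PT.nd (nat_lit 89154) pc120 pc121) (PT.nd (nat_lit 153036) pc122 pc123)) (PT.nd (nat_lit 324870) (PT.nd (nat_lit 162240) pc124 pc125) (PT.nd (nat_lit 243516) pc126 pc127)))))))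

set_option maxRecDepth 10000000 in
noncomputable def Tx : XT := (XT.nd (nat_lit 37076910) (nat_lit 0) (nat_lit 912) XT.nil (XT.nd (nat_lit 14533506) (nat_lit 0) (nat_lit 0) (XT.nd (nat_lit 6656832) (nat_lit 0) (nat_lit 5092) (XT.nd (nat_lit 4541940) (nat_lit 0) (nat_lit 3192) (XT.nd (nat_lit 3163914) (nat_lit 0) (nat_lit 1368) (XT.nd (nat_lit 2190708) (nat_lit 0) (nat_lit 836) (XT.nd (nat_lit 1540266) (nat_lit 0) (nat_lit 380) (XT.nd (nat_lit 1054248) (nat_lit 0) (nat_lit 76) (XT.nd (nat_lit 729768) (nat_lit 0) (nat_lit 0) (XT.nd (nat_lit 486720) (nat_lit 0) (nat_lit 0) xc0 xc1) (XT.nd (nat_lit 162552) (nat_lit 0) (nat_lit 0) xc2 xc3)) (XT.nd (nat_lit 243672) (nat_lit 0) (nat_lit 0) (XT.nd (nat_lit 161304) (nat_lit 0) (nat_lit 0) xc4 xc5) (XT.nd (nat_lit 82212) (nat_lit 0) (nat_lit 76) xc6 xc7))) (XT.nd (nat_lit 326352) (nat_lit 0) (nat_lit 228) (XT.nd (nat_lit 163488) (nat_lit 0) (nat_lit 76) (XT.nd (nat_lit 81822) (nat_lit 0) (nat_lit 0) xc8 xc9) (XT.nd (nat_lit 81510)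 (nat_lit 0) (nat_lit 152) xc10 xc11)) (XT.nd (nat_lit 162318) (nat_lit 0) (nat_lit 76) (XT.nd (nat_lit 81198) (nat_lit 0) (nat_lit 76) xc12 xc13) (XT.nd (nat_lit 80964) (nat_lit 0) (nat_lit 0) xc14 xc15)))) (XT.nd (nat_lit 565188) (nat_lit 0) (nat_lit 304) (XT.nd (nat_lit 321672) (nat_lit 0) (nat_lit 152) (XT.nd (nat_lit 161148) (nat_lit 0) (nat_lit 76) (XT.nd (nat_lit 80652) (nat_lit 0) (nat_lit 76) xc16 xc17) (XT.nd (nat_lit 80340) (nat_lit 0) (nat_lit 0) xc18 xc19)) (XT.nd (nat_lit 83928) (nat_lit 0) (nat_lit 0) (XT.nd (nat_lit 3900) (nat_lit 1368) (nat_lit 0) xc20 xc21) (XT.nd (nat_lit 79872) (nat_lit 0) (nat_lit 0) xc22 xc23))) (XT.nd (nat_lit 166764) (nat_lit 0) (nat_lit 76) (XT.nd (nat_lit 83460) (nat_lit 0) (nat_lit 0) (XT.nd (nat_lit 3900) (nat_lit 1596) (nat_lit 0) xc24 xc25) (XT.nd (nat_lit 79404) (nat_lit 0) (nat_lit 760) xc26 xc27)) (XT.nd (nat_lit 158340) (nat_lit 0) (nat_lit 152) (XT.nd (nat_lit 79248) (nat_lit 0) (nat_lit 152) xc28 xc29) (XT.nd (nat_lit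 3900) (nat_lit 912) (nat_lit 0) xc30 xc31))))) (XT.nd (nat_lit 731406) (nat_lit 0) (nat_lit 760) (XT.nd (nat_lit 404352) (nat_lit 0) (nat_lit 532) (XT.nd (nat_lit 239928) (nat_lit 0) (nat_lit 380) (XT.nd (nat_lit 82680) (nat_lit 0) (nat_lit 152) (XT.nd (nat_lit 78780) (nat_lit 0) (nat_lit 2508) xc32 xc33) (XT.nd (nat_lit 78702) (nat_lit 0) (nat_lit 228) xc34 xc35)) (XT.nd (nat_lit 82290) (nat_lit 0) (nat_lit 0) (XT.nd (nat_lit 3900) (nat_lit 5396) (nat_lit 0) xc36 xc37) (XT.nd (nat_lit 3900) (nat_lit 2888) (nat_lit 0) xc38 xc39))) (XT.nd (nat_lit 163800) (nat_lit 0) (nat_lit 152) (XT.nd (nat_lit 81978) (nat_lit 0) (nat_lit 0) (XT.nd (nat_lit 3900) (nat_lit 836) (nat_lit 0) xc40 xc41) (XT.nd (nat_lit 77922) (nat_lit 0) (nat_lit 7296) xc42 xc43)) (XT.nd (nat_lit 81666) (nat_lit 0) (nat_lit 76) (XT.nd (nat_lit 77766) (nat_lit 0) (nat_lit 5776) xc44 xc45) (XT.nd (nat_lit 77610) (nat_lit 0) (nat_lit 4408) xc46 xc47)))) (XT.nd (nat_lit 324480) (nat_lit 0) (nat_lit 304) (XT.nd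 (nat_lit 162552) (nat_lit 0) (nat_lit 152) (XT.nd (nat_lit 81354) (nat_lit 0) (nat_lit 152) (XT.nd (nat_lit 77454) (nat_lit 0) (nat_lit 4180) xc48 xc49) (XT.nd (nat_lit 77298) (nat_lit 0) (nat_lit 4256) xc50 xc51)) (XT.nd (nat_lit 81042) (nat_lit 0) (nat_lit 152) (XT.nd (nat_lit 77142) (nat_lit 0) (nat_lit 4864) xc52 xc53) (XT.nd (nat_lit 76986) (nat_lit 0) (nat_lit 5700) xc54 xc55))) (XT.nd (nat_lit 161304) (nat_lit 0) (nat_lit 304) (XT.nd (nat_lit 80730) (nat_lit 0) (nat_lit 304) (XT.nd (nat_lit 76830) (nat_lit 0) (nat_lit 7144) xc56 xc57) (XT.nd (nat_lit 76674) (nat_lit 0) (nat_lit 9348) xc58 xc59)) (XT.nd (nat_lit 80418) (nat_lit 0) (nat_lit 152) (XT.nd (nat_lit 76518) (nat_lit 0) (nat_lit 12768) xc60 xc61) (XT.nd (nat_lit 3900) (nat_lit 684) (nat_lit 0) xc62 xc63)))))) (XT.nd (nat_lit 1056354) (nat_lit 0) (nat_lit 608) (XT.nd (nat_lit 565812) (nat_lit 0) (nat_lit 380) (XT.nd (nat_lit 247884) (nat_lit 0) (nat_lit 152) (XT.nd (nat_lit 160212) (nat_lit 0) (nat_lit 0)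 (XT.nd (nat_lit 80184) (nat_lit 0) (nat_lit 0) (XT.nd (nat_lit 3900) (nat_lit 1976) (nat_lit 0) xc64 xc65) (XT.nd (nat_lit 3900) (nat_lit 4636) (nat_lit 0) xc66 xc67)) (XT.nd (nat_lit 79872) (nat_lit 0) (nat_lit 1672) (XT.nd (nat_lit 3900) (nat_lit 8816) (nat_lit 0) xc68 xc69) (XT.nd (nat_lit 3900) (nat_lit 13528) (nat_lit 0) xc70 xc71))) (XT.nd (nat_lit 159276) (nat_lit 0) (nat_lit 228) (XT.nd (nat_lit 79716) (nat_lit 0) (nat_lit 0) (XT.nd (nat_lit 75816) (nat_lit 0) (nat_lit 5092) xc72 xc73) (XT.nd (nat_lit 75660) (nat_lit 0) (nat_lit 11628) xc74 xc75)) (XT.nd (nat_lit 79404) (nat_lit 0) (nat_lit 76) (XT.nd (nat_lit 75504) (nat_lit 0) (nat_lit 21736) xc76 xc77) (XT.nd (nat_lit 3900) (nat_lit 3800) (nat_lit 0) xc78 xc79)))) (XT.nd (nat_lit 245076) (nat_lit 0) (nat_lit 76) (XT.nd (nat_lit 86892) (nat_lit 228) (nat_lit 0) (XT.nd (nat_lit 79092) (nat_lit 0) (nat_lit 4332) (XT.nd (nat_lit 3900) (nat_lit 10564) (nat_lit 0) xc80 xc81) (XT.nd (nat_lit 3900) (nat_lit 18772)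 (nat_lit 0) xc82 xc83)) (XT.nd (nat_lit 79092) (nat_lit 76) (nat_lit 0) (XT.nd (nat_lit 75192) (nat_lit 0) (nat_lit 12920) xc84 xc85) (XT.nd (nat_lit 3900) (nat_lit 532) (nat_lit 0) xc86 xc87))) (XT.nd (nat_lit 86970) (nat_lit 0) (nat_lit 152) (XT.nd (nat_lit 79170) (nat_lit 0) (nat_lit 1216) (XT.nd (nat_lit 3900) (nat_lit 5852) (nat_lit 0) xc88 xc89) (XT.nd (nat_lit 3900) (nat_lit 12844) (nat_lit 0) xc90 xc91)) (XT.nd (nat_lit 79170) (nat_lit 0) (nat_lit 0) (XT.nd (nat_lit 75270) (nat_lit 0) (nat_lit 6460) xc92 xc93) (XT.nd (nat_lit 75348) (nat_lit 0) (nat_lit 14516) xc94 xc95))))) (XT.nd (nat_lit 564018) (nat_lit 0) (nat_lit 760) (XT.nd (nat_lit 245778) (nat_lit 0) (nat_lit 532) (XT.nd (nat_lit 158574) (nat_lit 0) (nat_lit 228) (XT.nd (nat_lit 79248) (nat_lit 0) (nat_lit 228) (XT.nd (nat_lit 3900) (nat_lit 1292) (nat_lit 0) xc96 xc97) (XT.nd (nat_lit 3900) (nat_lit 6232) (nat_lit 0) xc98 xc99)) (XT.nd (nat_lit 7800) (nat_lit 1292) (nat_lit 0) (XT.nd (nat_lit 3900) (nat_lit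 12996) (nat_lit 0) xc100 xc101) (XT.nd (nat_lit 75504) (nat_lit 0) (nat_lit 5852) xc102 xc103))) (XT.nd (nat_lit 158964) (nat_lit 0) (nat_lit 0) (XT.nd (nat_lit 79482) (nat_lit 0) (nat_lit 0) (XT.nd (nat_lit 75582) (nat_lit 0) (nat_lit 12692) xc104 xc105) (XT.nd (nat_lit 3900) (nat_lit 456) (nat_lit 0) xc106 xc107)) (XT.nd (nat_lit 79560) (nat_lit 0) (nat_lit 228) (XT.nd (nat_lit 3900) (nat_lit 4712) (nat_lit 0) xc108 xc109) (XT.nd (nat_lit 3900) (nat_lit 10336) (nat_lit 0) xc110 xc111)))) (XT.nd (nat_lit 246948) (nat_lit 0) (nat_lit 304) (XT.nd (nat_lit 87438) (nat_lit 0) (nat_lit 0) (XT.nd (nat_lit 7800) (nat_lit 2508) (nat_lit 0) (XT.nd (nat_lit 3900) (nat_lit 15808) (nat_lit 0) xc112 xc113) (XT.nd (nat_lit 75738) (nat_lit 0) (nat_lit 7372) xc114 xc115)) (XT.nd (nat_lit 79716) (nat_lit 0) (nat_lit 228) (XT.nd (nat_lit 75816) (nat_lit 0) (nat_lit 14212) xc116 xc117) (XT.nd (nat_lit 3900) (nat_lit 836) (nat_lit 0) xc118 xc119))) (XT.nd (nat_lit 159744) (nat_lit 0) (nat_lit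 228) (XT.nd (nat_lit 79872) (nat_lit 0) (nat_lit 0) (XT.nd (nat_lit 3900) (nat_lit 4256) (nat_lit 0) xc120 xc121) (XT.nd (nat_lit 3900) (nat_lit 8968) (nat_lit 0) xc122 xc123)) (XT.nd (nat_lit 7800) (nat_lit 1368) (nat_lit 0) (XT.nd (nat_lit 3900) (nat_lit 13604) (nat_lit 0) xc124 xc125) (XT.nd (nat_lit 76050) (nat_lit 0) (nat_lit 4408) xc126 xc127))))))) (XT.nd (nat_lit 2594202) (nat_lit 0) (nat_lit 5092) (XT.nd (nat_lit 1214850) (nat_lit 0) (nat_lit 1976) (XT.nd (nat_lit 569244) (nat_lit 0) (nat_lit 760) (XT.nd (nat_lit 320424) (nat_lit 0) (nat_lit 532) (XT.nd (nat_lit 160134) (nat_lit 0) (nat_lit 228) (XT.nd (nat_lit 80028) (nat_lit 0) (nat_lit 228) (XT.nd (nat_lit 76128) (nat_lit 0) (nat_lit 8740) xc128 xc129) (XT.nd (nat_lit 76206) (nat_lit 0) (nat_lit 13452) xc130 xc131)) (XT.nd (nat_lit 80106) (nat_lit 0) (nat_lit 0) (XT.nd (nat_lit 3900) (nat_lit 532) (nat_lit 0) xc132 xc133) (XT.nd (nat_lit 3900) (nat_lit 3420) (nat_lit 0) xc134 xc135))) (XT.nd (nat_lit 160602)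 (nat_lit 0) (nat_lit 228) (XT.nd (nat_lit 80262) (nat_lit 0) (nat_lit 0) (XT.nd (nat_lit 3900) (nat_lit 6308) (nat_lit 0) xc136 xc137) (XT.nd (nat_lit 3900) (nat_lit 10260) (nat_lit 0) xc138 xc139)) (XT.nd (nat_lit 7800) (nat_lit 608) (nat_lit 0) (XT.nd (nat_lit 3900) (nat_lit 13528) (nat_lit 0) xc140 xc141) (XT.nd (nat_lit 76518) (nat_lit 0) (nat_lit 2584) xc142 xc143)))) (XT.nd (nat_lit 322140) (nat_lit 0) (nat_lit 608) (XT.nd (nat_lit 160914) (nat_lit 0) (nat_lit 380) (XT.nd (nat_lit 80418) (nat_lit 0) (nat_lit 0) (XT.nd (nat_lit 76518) (nat_lit 0) (nat_lit 5168) xc144 xc145) (XT.nd (nat_lit 76596) (nat_lit 0) (nat_lit 7904) xc146 xc147)) (XT.nd (nat_lit 80574) (nat_lit 0) (nat_lit 228) (XT.nd (nat_lit 76674) (nat_lit 0) (nat_lit 10184) xc148 xc149) (XT.nd (nat_lit 76752) (nat_lit 0) (nat_lit 12920) xc150 xc151))) (XT.nd (nat_lit 161538) (nat_lit 0) (nat_lit 304) (XT.nd (nat_lit 80730) (nat_lit 0) (nat_lit 304) (XT.nd (nat_lit 76830) (nat_lit 0) (nat_lit 15580) xc152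 xc153) (XT.nd (nat_lit 3900) (nat_lit 608) (nat_lit 0) xc154 xc155)) (XT.nd (nat_lit 80886) (nat_lit 0) (nat_lit 304) (XT.nd (nat_lit 3900) (nat_lit 1976) (nat_lit 0) xc156 xc157) (XT.nd (nat_lit 3900) (nat_lit 2736) (nat_lit 0) xc158 xc159))))) (XT.nd (nat_lit 649974) (nat_lit 0) (nat_lit 1292) (XT.nd (nat_lit 324324) (nat_lit 0) (nat_lit 684) (XT.nd (nat_lit 162006) (nat_lit 0) (nat_lit 304) (XT.nd (nat_lit 80964) (nat_lit 0) (nat_lit 0) (XT.nd (nat_lit 3900) (nat_lit 3116) (nat_lit 0) xc160 xc161) (XT.nd (nat_lit 3900) (nat_lit 4332) (nat_lit 0) xc162 xc163)) (XT.nd (nat_lit 81120) (nat_lit 0) (nat_lit 0) (XT.nd (nat_lit 3900) (nat_lit 4560) (nat_lit 0) xc164 xc165) (XT.nd (nat_lit 3900) (nat_lit 4940) (nat_lit 0) xc166 xc167))) (XT.nd (nat_lit 162630) (nat_lit 0) (nat_lit 304) (XT.nd (nat_lit 81276) (nat_lit 0) (nat_lit 304) (XT.nd (nat_lit 3900) (nat_lit 5016) (nat_lit 0) xc168 xc169) (XT.nd (nat_lit 3900) (nat_lit 4712) (nat_lit 0) xc170 xc171)) (XT.nd (nat_lit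 81432) (nat_lit 0) (nat_lit 304) (XT.nd (nat_lit 3900) (nat_lit 4256) (nat_lit 0) xc172 xc173) (XT.nd (nat_lit 3900) (nat_lit 3572) (nat_lit 0) xc174 xc175)))) (XT.nd (nat_lit 326820) (nat_lit 0) (nat_lit 1064) (XT.nd (nat_lit 163254) (nat_lit 0) (nat_lit 380) (XT.nd (nat_lit 81588) (nat_lit 0) (nat_lit 380) (XT.nd (nat_lit 3900) (nat_lit 2660) (nat_lit 0) xc176 xc177) (XT.nd (nat_lit 3900) (nat_lit 1064) (nat_lit 0) xc178 xc179)) (XT.nd (nat_lit 81744) (nat_lit 0) (nat_lit 304) (XT.nd (nat_lit 77844) (nat_lit 0) (nat_lit 13224) xc180 xc181) (XT.nd (nat_lit 77922) (nat_lit 0) (nat_lit 10260) xc182 xc183))) (XT.nd (nat_lit 163878) (nat_lit 0) (nat_lit 380) (XT.nd (nat_lit 81900) (nat_lit 0) (nat_lit 0) (XT.nd (nat_lit 78000) (nat_lit 0) (nat_lit 6992) xc184 xc185) (XT.nd (nat_lit 78078) (nat_lit 0) (nat_lit 4332) xc186 xc187)) (XT.nd (nat_lit 82056) (nat_lit 0) (nat_lit 0) (XT.nd (nat_lit 78156) (nat_lit 0) (nat_lit 1216) xc188 xc189) (XT.nd (nat_lit 78234) (nat_lit 0)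 (nat_lit 380) xc190 xc191)))))) (XT.nd (nat_lit 1706250) (nat_lit 0) (nat_lit 6232) (XT.nd (nat_lit 735696) (nat_lit 0) (nat_lit 2584) (XT.nd (nat_lit 329628) (nat_lit 0) (nat_lit 1216) (XT.nd (nat_lit 164658) (nat_lit 0) (nat_lit 836) (XT.nd (nat_lit 82290) (nat_lit 0) (nat_lit 456) (XT.nd (nat_lit 3900) (nat_lit 8512) (nat_lit 0) xc192 xc193) (XT.nd (nat_lit 3900) (nat_lit 4180) (nat_lit 0) xc194 xc195)) (XT.nd (nat_lit 82446) (nat_lit 0) (nat_lit 0) (XT.nd (nat_lit 78546) (nat_lit 0) (nat_lit 10944) xc196 xc197) (XT.nd (nat_lit 78624) (nat_lit 0) (nat_lit 5396) xc198 xc199))) (XT.nd (nat_lit 240240) (nat_lit 0) (nat_lit 532) (XT.nd (nat_lit 157482) (nat_lit 0) (nat_lit 532) (XT.nd (nat_lit 78702) (nat_lit 0) (nat_lit 0) xc200 xc201) (XT.nd (nat_lit 3900) (nat_lit 9348) (nat_lit 0) xc202 xc203)) (XT.nd (nat_lit 82836) (nat_lit 0) (nat_lit 380) (XT.nd (nat_lit 3900) (nat_lit 2888) (nat_lit 0) xc204 xc205) (XT.nd (nat_lit 79014) (nat_lit 0) (nat_lit 5168) xc206 xc207))))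 (XT.nd (nat_lit 483678) (nat_lit 0) (nat_lit 1976) (XT.nd (nat_lit 241410) (nat_lit 0) (nat_lit 532) (XT.nd (nat_lit 158262) (nat_lit 0) (nat_lit 532) (XT.nd (nat_lit 79092) (nat_lit 0) (nat_lit 0) xc208 xc209) (XT.nd (nat_lit 3900) (nat_lit 6004) (nat_lit 0) xc210 xc211)) (XT.nd (nat_lit 83226) (nat_lit 0) (nat_lit 456) (XT.nd (nat_lit 79326) (nat_lit 0) (nat_lit 6004) xc212 xc213) (XT.nd (nat_lit 79482) (nat_lit 0) (nat_lit 456) xc214 xc215))) (XT.nd (nat_lit 243048) (nat_lit 0) (nat_lit 532) (XT.nd (nat_lit 83538) (nat_lit 0) (nat_lit 76) (XT.nd (nat_lit 3900) (nat_lit 2736) (nat_lit 0) xc216 xc217) (XT.nd (nat_lit 79716) (nat_lit 0) (nat_lit 456) xc218 xc219)) (XT.nd (nat_lit 83772) (nat_lit 0) (nat_lit 532) (XT.nd (nat_lit 3900) (nat_lit 6004) (nat_lit 0) xc220 xc221) (XT.nd (nat_lit 79950) (nat_lit 0) (nat_lit 0) xc222 xc223))))) (XT.nd (nat_lit 1138566) (nat_lit 0) (nat_lit 6232) (XT.nd (nat_lit 490152) (nat_lit 0) (nat_lit 2280) (XT.nd (nat_lit 244686) (nat_lit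 0) (nat_lit 1064) (XT.nd (nat_lit 84084) (nat_lit 0) (nat_lit 532) (XT.nd (nat_lit 3900) (nat_lit 4864) (nat_lit 0) xc224 xc225) (XT.nd (nat_lit 80262) (nat_lit 0) (nat_lit 532) xc226 xc227)) (XT.nd (nat_lit 84318) (nat_lit 0) (nat_lit 608) (XT.nd (nat_lit 80418) (nat_lit 0) (nat_lit 3800) xc228 xc229) (XT.nd (nat_lit 80496) (nat_lit 0) (nat_lit 608) xc230 xc231))) (XT.nd (nat_lit 323388) (nat_lit 0) (nat_lit 1976) (XT.nd (nat_lit 161538) (nat_lit 0) (nat_lit 1216) (XT.nd (nat_lit 80730) (nat_lit 0) (nat_lit 608) xc232 xc233) (XT.nd (nat_lit 80886) (nat_lit 0) (nat_lit 0) xc234 xc235)) (XT.nd (nat_lit 162318) (nat_lit 0) (nat_lit 608) (XT.nd (nat_lit 81120) (nat_lit 0) (nat_lit 608) xc236 xc237) (XT.nd (nat_lit 81276) (nat_lit 0) (nat_lit 684) xc238 xc239)))) (XT.nd (nat_lit 733122) (nat_lit 0) (nat_lit 5548) (XT.nd (nat_lit 326586) (nat_lit 0) (nat_lit 2280) (XT.nd (nat_lit 163098) (nat_lit 0) (nat_lit 836) (XT.nd (nat_lit 81510) (nat_lit 0) (nat_lit 760) xc240 xc241)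 (XT.nd (nat_lit 81666) (nat_lit 0) (nat_lit 684) xc242 xc243)) (XT.nd (nat_lit 242034) (nat_lit 0) (nat_lit 1596) (XT.nd (nat_lit 81900) (nat_lit 0) (nat_lit 0) xc244 xc245) (XT.nd (nat_lit 82212) (nat_lit 0) (nat_lit 76) xc246 xc247))) (XT.nd (nat_lit 567528) (nat_lit 0) (nat_lit 4636) (XT.nd (nat_lit 243672) (nat_lit 0) (nat_lit 1748) (XT.nd (nat_lit 161070) (nat_lit 0) (nat_lit 836) xc248 xc249) (XT.nd (nat_lit 161694) (nat_lit 0) (nat_lit 912) xc250 xc251)) (XT.nd (nat_lit 405444) (nat_lit 76) (nat_lit 0) (XT.nd (nat_lit 162630) (nat_lit 0) (nat_lit 0) xc252 xc253) (XT.nd (nat_lit 243906) (nat_lit 76) (nat_lit 0) xc254 xc255)))))))) XT.nil))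

set_option maxRecDepth 10000000 in
noncomputable def Te : XT := XT.nil

set_option maxRecDepth 10000000 in
noncomputable def Tz : ZL := (ZL.cons (nat_lit 76) (nat_lit 6) (nat_lit 344098325419842268842) (ZL.cons (nat_lit 152) (nat_lit 3) (nat_lit 170371325626437467050) (ZL.cons (nat_lit 684) (nat_lit 6) (nat_lit 209400780298597913782) (ZL.cons (nat_lit 760) (nat_lit 6) (nat_lit 207510714739841718200) (ZL.cons (nat_lit 836) (nat_lit 3) (nat_lit 103735496955711186659) (ZL.cons (nat_lit 912) (nat_lit 6) (nat_lit 205582847869910398706) (ZL.cons (nat_lit 988) (nat_lit 6) (nat_lit 203735601724633946034) (ZL.cons (nat_lit 1064) (nat_lit 3) (nat_lit 101848329867993764742) (ZL.cons (nat_lit 1216) (nat_lit 6) (nat_lit 201851410656451964312) (ZL.cons (nat_lit 1292) (nat_lit 6) (nat_lit 200046377004213689240) (ZL.cons (nat_lit 1368) (nat_lit 3) (nat_lit 100004099291986052193) (ZL.cons (nat_lit 1520) (nat_lit 6) (nat_lit 198205242678930648666) (ZL.cons (nat_lit 1596) (nat_lit 6) (nat_lit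 196441835899796208348) (ZL.cons (nat_lit 1672) (nat_lit 3) (nat_lit 98202203038014974343) (ZL.cons (nat_lit 1748) (nat_lit 6) (nat_lit 194717286714498534628) (ZL.cons (nat_lit 1824) (nat_lit 6) (nat_lit 194643160985079079222) (ZL.cons (nat_lit 1900) (nat_lit 6) (nat_lit 192920816721728647774) (ZL.cons (nat_lit 1976) (nat_lit 3) (nat_lit 96442060408037726015) (ZL.cons (nat_lit 2052) (nat_lit 6) (nat_lit 191236697856855771824) (ZL.cons (nat_lit 2128) (nat_lit 6) (nat_lit 191164025573111207700) (ZL.cons (nat_lit 2280) (nat_lit 6) (nat_lit 189482200709032242608) (ZL.cons (nat_lit 2356) (nat_lit 3) (nat_lit 94723112165470437114) (ZL.cons (nat_lit 2432) (nat_lit 6) (nat_lit 187837986684676172844) (ZL.cons (nat_lit 2508) (nat_lit 6) (nat_lit 187766739347671698212) (ZL.cons (nat_lit 2660) (nat_lit 6) (nat_lit 186124912001741613306) (ZL.cons (nat_lit 2736) (nat_lit 3) (nat_lit 93044820521414253527) (ZL.cons (nat_lit 2812) (nat_lit 6) (nat_lit 184520098439289470460) (ZL.cons (nat_lit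 2888) (nat_lit 6) (nat_lit 184450248108892926704) (ZL.cons (nat_lit 2964) (nat_lit 6) (nat_lit 182951669321663327656) (ZL.cons (nat_lit 3040) (nat_lit 6) (nat_lit 182847917646675178504) (ZL.cons (nat_lit 3116) (nat_lit 3) (nat_lit 91406669137595870500) (ZL.cons (nat_lit 3192) (nat_lit 6) (nat_lit 181282021291288118240) (ZL.cons (nat_lit 3268) (nat_lit 6) (nat_lit 181213540575213075340) (ZL.cons (nat_lit 3344) (nat_lit 6) (nat_lit 179751944965729633334) (ZL.cons (nat_lit 3420) (nat_lit 6) (nat_lit 179650227637309879264) (ZL.cons (nat_lit 3496) (nat_lit 3) (nat_lit 89808163146359136934) (ZL.cons (nat_lit 3648) (nat_lit 6) (nat_lit 178122786397584935832) (ZL.cons (nat_lit 3724) (nat_lit 6) (nat_lit 178055648440648619266) (ZL.cons (nat_lit 3800) (nat_lit 6) (nat_lit 176630617859473647030) (ZL.cons (nat_lit 3876) (nat_lit 6) (nat_lit 176530894988473888138) (ZL.cons (nat_lit 3952) (nat_lit 3) (nat_lit 88248829188064588484) (ZL.cons (nat_lit 4028) (nat_lit 6) (nat_lit 175173136858843420196)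 (ZL.cons (nat_lit 4104) (nat_lit 6) (nat_lit 175041467993663815886) (ZL.cons (nat_lit 4180) (nat_lit 6) (nat_lit 174975646467255662390) (ZL.cons (nat_lit 4256) (nat_lit 6) (nat_lit 173586783367200829932) (ZL.cons (nat_lit 4332) (nat_lit 6) (nat_lit 173489015846612831018) (ZL.cons (nat_lit 4408) (nat_lit 3) (nat_lit 86728215466274694346) (ZL.cons (nat_lit 4484) (nat_lit 6) (nat_lit 172166270644525533024) (ZL.cons (nat_lit 4560) (nat_lit 6) (nat_lit 172037183521800430762) (ZL.cons (nat_lit 4636) (nat_lit 6) (nat_lit 171972652613557143018) (ZL.cons (nat_lit 4712) (nat_lit 6) (nat_lit 170619580146808731264) (ZL.cons (nat_lit 4788) (nat_lit 6) (nat_lit 170523729636428340172) (ZL.cons (nat_lit 4864) (nat_lit 3) (nat_lit 85245891821124247377) (ZL.cons (nat_lit 4940) (nat_lit 6) (nat_lit 169235649798745578924) (ZL.cons (nat_lit 5016) (nat_lit 6) (nat_lit 169109093796073910036) (ZL.cons (nat_lit 5092) (nat_lit 6) (nat_lit 169045828199756961270) (ZL.cons (nat_lit 5244) (nat_lit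 6) (nat_lit 167728190333340772442) (ZL.cons (nat_lit 5320) (nat_lit 6) (nat_lit 167634219244732545880) (ZL.cons (nat_lit 5396) (nat_lit 3) (nat_lit 83801449821297721266) (ZL.cons (nat_lit 5472) (nat_lit 6) (nat_lit 166380477717459228120) (ZL.cons (nat_lit 5548) (nat_lit 6) (nat_lit 166256403205036023330) (ZL.cons (nat_lit 5624) (nat_lit 6) (nat_lit 166194378110607642186) (ZL.cons (nat_lit 5700) (nat_lit 6) (nat_lit 165065427433677950974) (ZL.cons (nat_lit 5776) (nat_lit 6) (nat_lit 164911839760651826350) (ZL.cons (nat_lit 5852) (nat_lit 6) (nat_lit 164819711242408466978) (ZL.cons (nat_lit 5928) (nat_lit 3) (nat_lit 82394502875058594591) (ZL.cons (nat_lit 6004) (nat_lit 6) (nat_lit 163600001631797843492) (ZL.cons (nat_lit 6080) (nat_lit 6) (nat_lit 163478359952951564286) (ZL.cons (nat_lit 6156) (nat_lit 6) (nat_lit 163417551036845308262) (ZL.cons (nat_lit 6232) (nat_lit 6) (nat_lit 162320374372149033980) (ZL.cons (nat_lit 6308) (nat_lit 6) (nat_lit 162169798222123421606)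 (ZL.cons (nat_lit 6384) (nat_lit 6) (nat_lit 162079476145414245748) (ZL.cons (nat_lit 6460) (nat_lit 3) (nat_lit 81024686360799633760) (ZL.cons (nat_lit 6536) (nat_lit 6) (nat_lit 160893512888460969072) (ZL.cons (nat_lit 6612) (nat_lit 6) (nat_lit 160774256340572460046) (ZL.cons (nat_lit 6688) (nat_lit 6) (nat_lit 160714639756154561984) (ZL.cons (nat_lit 6764) (nat_lit 6) (nat_lit 159649003447911790042) (ZL.cons (nat_lit 6840) (nat_lit 6) (nat_lit 159501379771416091632) (ZL.cons (nat_lit 6916) (nat_lit 6) (nat_lit 159412828715818860402) (ZL.cons (nat_lit 6992) (nat_lit 3) (nat_lit 79691657777607970284) (ZL.cons (nat_lit 7068) (nat_lit 6) (nat_lit 158435781857558022088) (ZL.cons (nat_lit 7144) (nat_lit 6) (nat_lit 158260347270663118404) (ZL.cons (nat_lit 7220) (nat_lit 6) (nat_lit 158143429086458697790) (ZL.cons (nat_lit 7296) (nat_lit 6) (nat_lit 158084981454676444788) (ZL.cons (nat_lit 7372) (nat_lit 6) (nat_lit 157050672158901480366) (ZL.cons (nat_lit 7448) (nat_lit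 6) (nat_lit 156905943064297854478) (ZL.cons (nat_lit 7524) (nat_lit 6) (nat_lit 156819128303908412092) (ZL.cons (nat_lit 7600) (nat_lit 3) (nat_lit 78395096916364539462) (ZL.cons (nat_lit 7676) (nat_lit 6) (nat_lit 155871880053734408252) (ZL.cons (nat_lit 7752) (nat_lit 6) (nat_lit 155699885360700188954) (ZL.cons (nat_lit 7828) (nat_lit 6) (nat_lit 155585259689911541294) (ZL.cons (nat_lit 7904) (nat_lit 6) (nat_lit 155527958090125018742) (ZL.cons (nat_lit 7980) (nat_lit 6) (nat_lit 154524783011860368808) (ZL.cons (nat_lit 8056) (nat_lit 6) (nat_lit 154382891742641127738) (ZL.cons (nat_lit 8132) (nat_lit 6) (nat_lit 154297779232455399912) (ZL.cons (nat_lit 8208) (nat_lit 3) (nat_lit 77134706051924105264) (ZL.cons (nat_lit 8284) (nat_lit 6) (nat_lit 153380175193327868614) (ZL.cons (nat_lit 8360) (nat_lit 6) (nat_lit 153211552945255104596) (ZL.cons (nat_lit 8436) (nat_lit 6) (nat_lit 153099174836638783360) (ZL.cons (nat_lit 8512) (nat_lit 6) (nat_lit 153042996797632388702)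 (ZL.cons (nat_lit 8588) (nat_lit 6) (nat_lit 152265613039291499160) (ZL.cons (nat_lit 8664) (nat_lit 6) (nat_lit 152070783949205477348) (ZL.cons (nat_lit 8740) (nat_lit 6) (nat_lit 151931674861735633164) (ZL.cons (nat_lit 8816) (nat_lit 6) (nat_lit 151848231224298645096) (ZL.cons (nat_lit 8892) (nat_lit 3) (nat_lit 75910210156949719911) (ZL.cons (nat_lit 8968) (nat_lit 6) (nat_lit 150960137394101638298) (ZL.cons (nat_lit 9044) (nat_lit 6) (nat_lit 150794821464618536320) (ZL.cons (nat_lit 9120) (nat_lit 6) (nat_lit 150684646848328025304) (ZL.cons (nat_lit 9196) (nat_lit 6) (nat_lit 150629570339498226620) (ZL.cons (nat_lit 9272) (nat_lit 6) (nat_lit 149879177732274919272) (ZL.cons (nat_lit 9348) (nat_lit 6) (nat_lit 149688168820425878282) (ZL.cons (nat_lit 9424) (nat_lit 6) (nat_lit 149551787362122109472) (ZL.cons (nat_lit 9500) (nat_lit 6) (nat_lit 149469979874438787840) (ZL.cons (nat_lit 9576) (nat_lit 3) (nat_lit 74721357138004097215) (ZL.cons (nat_lit 9652) (nat_lit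 6) (nat_lit 148611282947728563890) (ZL.cons (nat_lit 9728) (nat_lit 6) (nat_lit 148449208507058856068) (ZL.cons (nat_lit 9804) (nat_lit 6) (nat_lit 148341194177362276642) (ZL.cons (nat_lit 9880) (nat_lit 6) (nat_lit 148287197600078160284) (ZL.cons (nat_lit 9956) (nat_lit 6) (nat_lit 147563741538341221648) (ZL.cons (nat_lit 10032) (nat_lit 6) (nat_lit 147376477899273534400) (ZL.cons (nat_lit 10108) (nat_lit 6) (nat_lit 147242770587211015962) (ZL.cons (nat_lit 10184) (nat_lit 6) (nat_lit 147162567167913641810) (ZL.cons (nat_lit 10260) (nat_lit 3) (nat_lit 73567918094530059431) (ZL.cons (nat_lit 10336) (nat_lit 6) (nat_lit 146545133791711150636) (ZL.cons (nat_lit 10412) (nat_lit 6) (nat_lit 146333174860096424738) (ZL.cons (nat_lit 10488) (nat_lit 6) (nat_lit 146174278349635926874) (ZL.cons (nat_lit 10564) (nat_lit 6) (nat_lit 146068381947972613710) (ZL.cons (nat_lit 10640) (nat_lit 6) (nat_lit 146015444127105832968) (ZL.cons (nat_lit 10716) (nat_lit 6) (nat_lit 145318890251080790956)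 (ZL.cons (nat_lit 10792) (nat_lit 6) (nat_lit 145135298448073254442) (ZL.cons (nat_lit 10868) (nat_lit 6) (nat_lit 145004212848011961852) (ZL.cons (nat_lit 10944) (nat_lit 6) (nat_lit 144925582044779242098) (ZL.cons (nat_lit 11020) (nat_lit 3) (nat_lit 72449687601382992152) (ZL.cons (nat_lit 11096) (nat_lit 6) (nat_lit 144333226313556430850) (ZL.cons (nat_lit 11172) (nat_lit 6) (nat_lit 144125423439424346636) (ZL.cons (nat_lit 11248) (nat_lit 6) (nat_lit 143969642546816015396) (ZL.cons (nat_lit 11324) (nat_lit 6) (nat_lit 143865822545185316216) (ZL.cons (nat_lit 11400) (nat_lit 6) (nat_lit 143813922720806119410) (ZL.cons (nat_lit 11476) (nat_lit 6) (nat_lit 143375796512645883884) (ZL.cons (nat_lit 11552) (nat_lit 6) (nat_lit 143144257294274047028) (ZL.cons (nat_lit 11628) (nat_lit 6) (nat_lit 142964265330541168088) (ZL.cons (nat_lit 11704) (nat_lit 6) (nat_lit 142835750036363430258) (ZL.cons (nat_lit 11780) (nat_lit 6) (nat_lit 142758661013586254026) (ZL.cons (nat_lit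 11856) (nat_lit 3) (nat_lit 71366484015610157507) (ZL.cons (nat_lit 11932) (nat_lit 6) (nat_lit 142191415241585041764) (ZL.cons (nat_lit 12008) (nat_lit 6) (nat_lit 141987686933612410182) (ZL.cons (nat_lit 12084) (nat_lit 6) (nat_lit 141834960568310124652) (ZL.cons (nat_lit 12160) (nat_lit 6) (nat_lit 141733176252985909770) (ZL.cons (nat_lit 12236) (nat_lit 6) (nat_lit 141682294072221991332) (ZL.cons (nat_lit 12312) (nat_lit 6) (nat_lit 141266523617807256734) (ZL.cons (nat_lit 12388) (nat_lit 6) (nat_lit 141039524384109377460) (ZL.cons (nat_lit 12464) (nat_lit 6) (nat_lit 140863061674567339288) (ZL.cons (nat_lit 12540) (nat_lit 6) (nat_lit 140737066288118576706) (ZL.cons (nat_lit 12616) (nat_lit 6) (nat_lit 140661488814807619618) (ZL.cons (nat_lit 12692) (nat_lit 3) (nat_lit 70318149808204820096) (ZL.cons (nat_lit 12768) (nat_lit 6) (nat_lit 140369219720343132018) (ZL.cons (nat_lit 12844) (nat_lit 6) (nat_lit 140119405853581284420) (ZL.cons (nat_lit 12920) (nat_lit 6)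 (nat_lit 139919672218313998556) (ZL.cons (nat_lit 12996) (nat_lit 6) (nat_lit 139769940487625483332) (ZL.cons (nat_lit 13072) (nat_lit 6) (nat_lit 139670151943189978544) (ZL.cons (nat_lit 13148) (nat_lit 6) (nat_lit 139620267452244960468) (ZL.cons (nat_lit 13224) (nat_lit 6) (nat_lit 139226970511231845532) (ZL.cons (nat_lit 13300) (nat_lit 6) (nat_lit 139004422242900591344) (ZL.cons (nat_lit 13376) (nat_lit 6) (nat_lit 138831419586486828428) (ZL.cons (nat_lit 13452) (nat_lit 6) (nat_lit 138707894697811570998) (ZL.cons (nat_lit 13528) (nat_lit 6) (nat_lit 138633799135742005222) (ZL.cons (nat_lit 13604) (nat_lit 3) (nat_lit 69304551921597483286) (ZL.cons (nat_lit 13680) (nat_lit 6) (nat_lit 138361868382417002196) (ZL.cons (nat_lit 13756) (nat_lit 6) (nat_lit 138116952826768132004) (ZL.cons (nat_lit 13832) (nat_lit 6) (nat_lit 137921135537290400764) (ZL.cons (nat_lit 13908) (nat_lit 6) (nat_lit 137774339722889895642) (ZL.cons (nat_lit 13984) (nat_lit 6) (nat_lit 137676507816580577224)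 (ZL.cons (nat_lit 14060) (nat_lit 6) (nat_lit 137627601452908990874) (ZL.cons (nat_lit 14212) (nat_lit 6) (nat_lit 137256915942694607806) (ZL.cons (nat_lit 14288) (nat_lit 6) (nat_lit 137038731365899260562) (ZL.cons (nat_lit 14364) (nat_lit 6) (nat_lit 136869120918434787116) (ZL.cons (nat_lit 14440) (nat_lit 6) (nat_lit 136748018086400221006) (ZL.cons (nat_lit 14516) (nat_lit 6) (nat_lit 136675375378488882014) (ZL.cons (nat_lit 14592) (nat_lit 3) (nat_lit 68325582153682167157) (ZL.cons (nat_lit 14668) (nat_lit 6) (nat_lit 136423974321313715408) (ZL.cons (nat_lit 14744) (nat_lit 6) (nat_lit 136183861031461881884) (ZL.cons (nat_lit 14820) (nat_lit 6) (nat_lit 135991883296679792434) (ZL.cons (nat_lit 14896) (nat_lit 6) (nat_lit 135847965831581258000) (ZL.cons (nat_lit 14972) (nat_lit 6) (nat_lit 135752052197944671316) (ZL.cons (nat_lit 15048) (nat_lit 6) (nat_lit 135704104782580370974) (ZL.cons (nat_lit 15124) (nat_lit 6) (nat_lit 135617801318852364262) (ZL.cons (nat_lit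 15200) (nat_lit 6) (nat_lit 135356189290709857916) (ZL.cons (nat_lit 15276) (nat_lit 6) (nat_lit 135142282842871282186) (ZL.cons (nat_lit 15352) (nat_lit 6) (nat_lit 134975998090455131748) (ZL.cons (nat_lit 15428) (nat_lit 6) (nat_lit 134857269823754576740) (ZL.cons (nat_lit 15504) (nat_lit 6) (nat_lit 134786051482665028706) (ZL.cons (nat_lit 15580) (nat_lit 3) (nat_lit 67381157569212638032) (ZL.cons (nat_lit 15656) (nat_lit 6) (nat_lit 134838080789035079328) (ZL.cons (nat_lit 15732) (nat_lit 6) (nat_lit 134555391566489952570) (ZL.cons (nat_lit 15808) (nat_lit 6) (nat_lit 134319986380360704018) (ZL.cons (nat_lit 15884) (nat_lit 6) (nat_lit 134131772914888067300) (ZL.cons (nat_lit 15960) (nat_lit 6) (nat_lit 133990677360869896288) (ZL.cons (nat_lit 16036) (nat_lit 6) (nat_lit 133896644386716379930) (ZL.cons (nat_lit 16112) (nat_lit 6) (nat_lit 133849637116751379596) (ZL.cons (nat_lit 16188) (nat_lit 6) (nat_lit 133781153820478942352) (ZL.cons (nat_lit 16264) (nat_lit 6)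 (nat_lit 133524671439947073388) (ZL.cons (nat_lit 16340) (nat_lit 6) (nat_lit 133314959236183763848) (ZL.cons (nat_lit 16416) (nat_lit 6) (nat_lit 133151934969109106556) (ZL.cons (nat_lit 16492) (nat_lit 6) (nat_lit 133035534707637974194) (ZL.cons (nat_lit 16568) (nat_lit 6) (nat_lit 132965712804609005536) (ZL.cons (nat_lit 16644) (nat_lit 3) (nat_lit 66471220939441878922) (ZL.cons (nat_lit 16720) (nat_lit 6) (nat_lit 133033172430031332750) (ZL.cons (nat_lit 16796) (nat_lit 6) (nat_lit 132756026133418463378) (ZL.cons (nat_lit 16872) (nat_lit 6) (nat_lit 132525236735252533426) (ZL.cons (nat_lit 16948) (nat_lit 6) (nat_lit 132340713729887203312) (ZL.cons (nat_lit 17024) (nat_lit 6) (nat_lit 132202384755359584670) (ZL.cons (nat_lit 17100) (nat_lit 6) (nat_lit 132110195565013000008) (ZL.cons (nat_lit 17176) (nat_lit 6) (nat_lit 132064110006223783992) (ZL.cons (nat_lit 17252) (nat_lit 6) (nat_lit 132311154069111654112) (ZL.cons (nat_lit 17328) (nat_lit 6) (nat_lit 132013749031242901990)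 (ZL.cons (nat_lit 17404) (nat_lit 6) (nat_lit 131762295716995971630) (ZL.cons (nat_lit 17480) (nat_lit 6) (nat_lit 131556695517228021104) (ZL.cons (nat_lit 17556) (nat_lit 6) (nat_lit 131396867804409729640) (ZL.cons (nat_lit 17632) (nat_lit 6) (nat_lit 131282749901006658698) (ZL.cons (nat_lit 17708) (nat_lit 6) (nat_lit 131214297054899826678) (ZL.cons (nat_lit 17784) (nat_lit 3) (nat_lit 65595741210917929177) (ZL.cons (nat_lit 17860) (nat_lit 6) (nat_lit 131297549044360712532) (ZL.cons (nat_lit 17936) (nat_lit 6) (nat_lit 131025836988857899422) (ZL.cons (nat_lit 18012) (nat_lit 6) (nat_lit 130799572873008948488) (ZL.cons (nat_lit 18088) (nat_lit 6) (nat_lit 130618667965788036612) (ZL.cons (nat_lit 18164) (nat_lit 6) (nat_lit 130483051324094292848) (ZL.cons (nat_lit 18240) (nat_lit 6) (nat_lit 130392669764930974548) (ZL.cons (nat_lit 18316) (nat_lit 6) (nat_lit 130347487844549390220) (ZL.cons (nat_lit 18392) (nat_lit 6) (nat_lit 130607145310031941202) (ZL.cons (nat_lit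 18468) (nat_lit 6) (nat_lit 130315571743493948924) (ZL.cons (nat_lit 18544) (nat_lit 6) (nat_lit 130069048886389115240) (ZL.cons (nat_lit 18620) (nat_lit 6) (nat_lit 129867480063087202956) (ZL.cons (nat_lit 18696) (nat_lit 6) (nat_lit 129710786226990838780) (ZL.cons (nat_lit 18772) (nat_lit 6) (nat_lit 129598905929536847658) (ZL.cons (nat_lit 18848) (nat_lit 6) (nat_lit 129531795296098777050) (ZL.cons (nat_lit 18924) (nat_lit 3) (nat_lit 64754714004390580523) (ZL.cons (nat_lit 19000) (nat_lit 6) (nat_lit 129942267081694106128) (ZL.cons (nat_lit 19076) (nat_lit 6) (nat_lit 129631221445513781334) (ZL.cons (nat_lit 19152) (nat_lit 6) (nat_lit 129364837077373768482) (ZL.cons (nat_lit 19228) (nat_lit 6) (nat_lit 129143009512815973448) (ZL.cons (nat_lit 19304) (nat_lit 6) (nat_lit 128965651760638608864) (ZL.cons (nat_lit 19380) (nat_lit 6) (nat_lit 128832694268781997330) (ZL.cons (nat_lit 19456) (nat_lit 6) (nat_lit 128744084897053253900) (ZL.cons (nat_lit 19532) (nat_lit 6)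 (nat_lit 128699788896679151616) (ZL.cons (nat_lit 19608) (nat_lit 6) (nat_lit 128972517722251522078) (ZL.cons (nat_lit 19684) (nat_lit 6) (nat_lit 128686661284469176710) (ZL.cons (nat_lit 19760) (nat_lit 6) (nat_lit 128444972208876202508) (ZL.cons (nat_lit 19836) (nat_lit 6) (nat_lit 128247355715442955174) (ZL.cons (nat_lit 19912) (nat_lit 6) (nat_lit 128093734307505343232) (ZL.cons (nat_lit 19988) (nat_lit 6) (nat_lit 127984047741373979390) (ZL.cons (nat_lit 20064) (nat_lit 6) (nat_lit 127918253002709204284) (ZL.cons (nat_lit 20140) (nat_lit 3) (nat_lit 63948162144826359002) (ZL.cons (nat_lit 20216) (nat_lit 6) (nat_lit 128339202258521578110) (ZL.cons (nat_lit 20292) (nat_lit 6) (nat_lit 128034255556384004784) (ZL.cons (nat_lit 20368) (nat_lit 6) (nat_lit 127773094411148698066) (ZL.cons (nat_lit 20444) (nat_lit 6) (nat_lit 127555616406680271564) (ZL.cons (nat_lit 20520) (nat_lit 6) (nat_lit 127381736257486776872) (ZL.cons (nat_lit 20596) (nat_lit 6) (nat_lit 127251385775274412622)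 (ZL.cons (nat_lit 20672) (nat_lit 6) (nat_lit 127164513842207017104) (ZL.cons (nat_lit 20748) (nat_lit 6) (nat_lit 127121086390859858002) (ZL.cons (nat_lit 20824) (nat_lit 6) (nat_lit 127731026695318565142) (ZL.cons (nat_lit 20900) (nat_lit 6) (nat_lit 127407364047734689896) (ZL.cons (nat_lit 20976) (nat_lit 6) (nat_lit 127127112638144155220) (ZL.cons (nat_lit 21052) (nat_lit 6) (nat_lit 126890162564033396202) (ZL.cons (nat_lit 21128) (nat_lit 6) (nat_lit 126696420903804722342) (ZL.cons (nat_lit 21204) (nat_lit 6) (nat_lit 126545811680336475342) (ZL.cons (nat_lit 21280) (nat_lit 6) (nat_lit 126438275831188079416) (ZL.cons (nat_lit 21356) (nat_lit 6) (nat_lit 126373771185438299902) (ZL.cons (nat_lit 21432) (nat_lit 3) (nat_lit 63176136223573813540) (ZL.cons (nat_lit 21508) (nat_lit 6) (nat_lit 127147752532421619246) (ZL.cons (nat_lit 21584) (nat_lit 6) (nat_lit 126805740918713918588) (ZL.cons (nat_lit 21660) (nat_lit 6) (nat_lit 126506773563677081992) (ZL.cons (nat_lit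 21736) (nat_lit 6) (nat_lit 126250733225211095016) (ZL.cons (nat_lit 21812) (nat_lit 6) (nat_lit 126037519495340088640) (ZL.cons (nat_lit 21888) (nat_lit 6) (nat_lit 125867048760836662472) (ZL.cons (nat_lit 21964) (nat_lit 6) (nat_lit 125739254170432383796) (ZL.cons (nat_lit 22040) (nat_lit 6) (nat_lit 125654085608601603874) (ZL.cons (nat_lit 22116) (nat_lit 6) (nat_lit 125611509675908310640) (ZL.cons (nat_lit 22192) (nat_lit 6) (nat_lit 126229150238682859186) (ZL.cons (nat_lit 22268) (nat_lit 6) (nat_lit 125911833917522197178) (ZL.cons (nat_lit 22344) (nat_lit 6) (nat_lit 125637077633609908282) (ZL.cons (nat_lit 22420) (nat_lit 6) (nat_lit 125404773639383673948) (ZL.cons (nat_lit 22496) (nat_lit 6) (nat_lit 125214830835237915264) (ZL.cons (nat_lit 22572) (nat_lit 6) (nat_lit 125067174733798457420) (ZL.cons (nat_lit 22648) (nat_lit 6) (nat_lit 124961747430711794748) (ZL.cons (nat_lit 22724) (nat_lit 6) (nat_lit 124898507581937501106) (ZL.cons (nat_lit 22800) (nat_lit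 3) (nat_lit 62438715193767440347) (ZL.cons (nat_lit 22876) (nat_lit 6) (nat_lit 125677365893649342644) (ZL.cons (nat_lit 22952) (nat_lit 6) (nat_lit 125342060390014341998) (ZL.cons (nat_lit 23028) (nat_lit 6) (nat_lit 125048955139978227690) (ZL.cons (nat_lit 23104) (nat_lit 6) (nat_lit 124797935200305691436) (ZL.cons (nat_lit 23180) (nat_lit 6) (nat_lit 124588902131804704794) (ZL.cons (nat_lit 23256) (nat_lit 6) (nat_lit 124421773960722914434) (ZL.cons (nat_lit 23332) (nat_lit 6) (nat_lit 124296485146601072594) (ZL.cons (nat_lit 23408) (nat_lit 6) (nat_lit 124212986556570896202) (ZL.cons (nat_lit 23484) (nat_lit 6) (nat_lit 124171245446087275382) (ZL.cons (nat_lit 23560) (nat_lit 6) (nat_lit 125150171497595708762) (ZL.cons (nat_lit 23636) (nat_lit 6) (nat_lit 124797229540554493764) (ZL.cons (nat_lit 23712) (nat_lit 6) (nat_lit 124486135108044040818) (ZL.cons (nat_lit 23788) (nat_lit 6) (nat_lit 124216766202247679152) (ZL.cons (nat_lit 23864) (nat_lit 6) (nat_lit 123989017188300390590)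 (ZL.cons (nat_lit 23940) (nat_lit 6) (nat_lit 123802798752863372272) (ZL.cons (nat_lit 24016) (nat_lit 6) (nat_lit 123658037869099197916) (ZL.cons (nat_lit 24092) (nat_lit 6) (nat_lit 123554677768033842356) (ZL.cons (nat_lit 24168) (nat_lit 6) (nat_lit 123492677916294338786) (ZL.cons (nat_lit 24244) (nat_lit 3) (nat_lit 61736007000106669189) (ZL.cons (nat_lit 24320) (nat_lit 6) (nat_lit 124647360307621544350) (ZL.cons (nat_lit 24396) (nat_lit 6) (nat_lit 124277127709986001556) (ZL.cons (nat_lit 24472) (nat_lit 6) (nat_lit 123948396824069334258) (ZL.cons (nat_lit 24548) (nat_lit 6) (nat_lit 123661038735798633954) (ZL.cons (nat_lit 24624) (nat_lit 6) (nat_lit 123414940755727519980) (ZL.cons (nat_lit 24700) (nat_lit 6) (nat_lit 123210006374844199742) (ZL.cons (nat_lit 24776) (nat_lit 6) (nat_lit 123046155226724797428) (ZL.cons (nat_lit 24852) (nat_lit 6) (nat_lit 122923323056017109352) (ZL.cons (nat_lit 24928) (nat_lit 6) (nat_lit 122841461693242426614) (ZL.cons (nat_lit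 25004) (nat_lit 6) (nat_lit 122800539035905543456) (ZL.cons (nat_lit 25080) (nat_lit 6) (nat_lit 123781550936806681652) (ZL.cons (nat_lit 25156) (nat_lit 6) (nat_lit 123435529410295686558) (ZL.cons (nat_lit 25232) (nat_lit 6) (nat_lit 123130534868618771902) (ZL.cons (nat_lit 25308) (nat_lit 6) (nat_lit 122866447706073319290) (ZL.cons (nat_lit 25384) (nat_lit 6) (nat_lit 122643164359066173640) (ZL.cons (nat_lit 25460) (nat_lit 6) (nat_lit 122460597265500469406) (ZL.cons (nat_lit 25536) (nat_lit 6) (nat_lit 122318674830437553372) (ZL.cons (nat_lit 25612) (nat_lit 6) (nat_lit 122217341398020538118) (ZL.cons (nat_lit 25688) (nat_lit 6) (nat_lit 122156557229648475792) (ZL.cons (nat_lit 25764) (nat_lit 3) (nat_lit 61068149244196296521) (ZL.cons (nat_lit 25840) (nat_lit 6) (nat_lit 123310304877183914710) (ZL.cons (nat_lit 25916) (nat_lit 6) (nat_lit 122947331742247108052) (ZL.cons (nat_lit 25992) (nat_lit 6) (nat_lit 122625046559975865600) (ZL.cons (nat_lit 26068) (nat_lit 6)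 (nat_lit 122343322944024198636) (ZL.cons (nat_lit 26144) (nat_lit 6) (nat_lit 122102050414542714348) (ZL.cons (nat_lit 26220) (nat_lit 6) (nat_lit 121901134354853184702) (ZL.cons (nat_lit 26296) (nat_lit 6) (nat_lit 121740495974343966748) (ZL.cons (nat_lit 26372) (nat_lit 6) (nat_lit 121620072277571723536) (ZL.cons (nat_lit 26448) (nat_lit 6) (nat_lit 121539816039557328694) (ZL.cons (nat_lit 26524) (nat_lit 6) (nat_lit 121499695787266266776) (ZL.cons (nat_lit 26600) (nat_lit 6) (nat_lit 122863204728741378074) (ZL.cons (nat_lit 26676) (nat_lit 6) (nat_lit 122483612369857697334) (ZL.cons (nat_lit 26752) (nat_lit 6) (nat_lit 122144375579160643318) (ZL.cons (nat_lit 26828) (nat_lit 6) (nat_lit 121845361322614648558) (ZL.cons (nat_lit 26904) (nat_lit 6) (nat_lit 121586452339726949918) (ZL.cons (nat_lit 26980) (nat_lit 6) (nat_lit 121367547097563081634) (ZL.cons (nat_lit 27056) (nat_lit 6) (nat_lit 121188559750930038268) (ZL.cons (nat_lit 27132) (nat_lit 6) (nat_lit 121049420108711493136)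 (ZL.cons (nat_lit 27208) (nat_lit 6) (nat_lit 120950073606341870336) (ZL.cons (nat_lit 27284) (nat_lit 6) (nat_lit 120890481284408475902) (ZL.cons (nat_lit 27360) (nat_lit 3) (nat_lit 60435309886686648367) (ZL.cons (nat_lit 27436) (nat_lit 6) (nat_lit 122440075158087525654) (ZL.cons (nat_lit 27512) (nat_lit 6) (nat_lit 122044189442393184048) (ZL.cons (nat_lit 27588) (nat_lit 6) (nat_lit 121688333427749255950) (ZL.cons (nat_lit 27664) (nat_lit 6) (nat_lit 121372367562777449626) (ZL.cons (nat_lit 27740) (nat_lit 6) (nat_lit 121096167939295423190) (ZL.cons (nat_lit 27816) (nat_lit 6) (nat_lit 120859626243725340554) (ZL.cons (nat_lit 27892) (nat_lit 6) (nat_lit 120662649714617958550) (ZL.cons (nat_lit 27968) (nat_lit 6) (nat_lit 120505161106275588006) (ZL.cons (nat_lit 28044) (nat_lit 6) (nat_lit 120387098658459663286) (ZL.cons (nat_lit 28120) (nat_lit 6) (nat_lit 120308416072171040894) (ZL.cons (nat_lit 28196) (nat_lit 6) (nat_lit 120269082491493529210) (ZL.cons (nat_lit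 28272) (nat_lit 6) (nat_lit 121628890637136915446) (ZL.cons (nat_lit 28348) (nat_lit 6) (nat_lit 121256741265682326482) (ZL.cons (nat_lit 28424) (nat_lit 6) (nat_lit 120924156176763646076) (ZL.cons (nat_lit 28500) (nat_lit 6) (nat_lit 120631004944855808076) (ZL.cons (nat_lit 28576) (nat_lit 6) (nat_lit 120377172608691397644) (ZL.cons (nat_lit 28652) (nat_lit 6) (nat_lit 120162559626177801288) (ZL.cons (nat_lit 28728) (nat_lit 6) (nat_lit 119987081835361092106) (ZL.cons (nat_lit 28804) (nat_lit 6) (nat_lit 119850670421421341974) (ZL.cons (nat_lit 28880) (nat_lit 6) (nat_lit 119753271889686417662) (ZL.cons (nat_lit 28956) (nat_lit 6) (nat_lit 119694848044653678020) (ZL.cons (nat_lit 29032) (nat_lit 3) (nat_lit 59837687987505672752) (ZL.cons (nat_lit 29108) (nat_lit 6) (nat_lit 121237553091812320442) (ZL.cons (nat_lit 29184) (nat_lit 6) (nat_lit 120849429841131593374) (ZL.cons (nat_lit 29260) (nat_lit 6) (nat_lit 120500551395402252102) (ZL.cons (nat_lit 29336) (nat_lit 6)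 (nat_lit 120190780939547540020) (ZL.cons (nat_lit 29412) (nat_lit 6) (nat_lit 119919996994957318024) (ZL.cons (nat_lit 29488) (nat_lit 6) (nat_lit 119688093371849393872) (ZL.cons (nat_lit 29564) (nat_lit 6) (nat_lit 119494979127626470338) (ZL.cons (nat_lit 29640) (nat_lit 6) (nat_lit 119340578531212381568) (ZL.cons (nat_lit 29716) (nat_lit 6) (nat_lit 119224831033353631844) (ZL.cons (nat_lit 29792) (nat_lit 6) (nat_lit 119147691242874590282) (ZL.cons (nat_lit 29868) (nat_lit 6) (nat_lit 119109128908877029808) (ZL.cons (nat_lit 29944) (nat_lit 6) (nat_lit 120870023340715350172) (ZL.cons (nat_lit 30020) (nat_lit 6) (nat_lit 120466239424126644572) (ZL.cons (nat_lit 30096) (nat_lit 6) (nat_lit 120101387099171165196) (ZL.cons (nat_lit 30172) (nat_lit 6) (nat_lit 119775323286505792248) (ZL.cons (nat_lit 30248) (nat_lit 6) (nat_lit 119487920117968696170) (ZL.cons (nat_lit 30324) (nat_lit 6) (nat_lit 119239064886434960454) (ZL.cons (nat_lit 30400) (nat_lit 6) (nat_lit 119028660001617709124)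 (ZL.cons (nat_lit 30476) (nat_lit 6) (nat_lit 118856622951797406002) (ZL.cons (nat_lit 30552) (nat_lit 6) (nat_lit 118722886271464317640) (ZL.cons (nat_lit 30628) (nat_lit 6) (nat_lit 118627397514861450666) (ZL.cons (nat_lit 30704) (nat_lit 6) (nat_lit 118570119235417588272) (ZL.cons (nat_lit 30780) (nat_lit 3) (nat_lit 59275514485531180157) (ZL.cons (nat_lit 30856) (nat_lit 6) (nat_lit 120526157254531848964) (ZL.cons (nat_lit 30932) (nat_lit 6) (nat_lit 120107019743915713430) (ZL.cons (nat_lit 31008) (nat_lit 6) (nat_lit 119726506753052255522) (ZL.cons (nat_lit 31084) (nat_lit 6) (nat_lit 119384469061160744470) (ZL.cons (nat_lit 31160) (nat_lit 6) (nat_lit 119080772535812987526) (ZL.cons (nat_lit 31236) (nat_lit 6) (nat_lit 118815298080332377728) (ZL.cons (nat_lit 31312) (nat_lit 6) (nat_lit 118587941587089314834) (ZL.cons (nat_lit 31388) (nat_lit 6) (nat_lit 118398613896674683916) (ZL.cons (nat_lit 31464) (nat_lit 6) (nat_lit 118247240762935381202) (ZL.cons (nat_lit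 31540) (nat_lit 6) (nat_lit 118133762823858175590) (ZL.cons (nat_lit 31616) (nat_lit 6) (nat_lit 118058135578290487784) (ZL.cons (nat_lit 31692) (nat_lit 6) (nat_lit 118020329368488957906) (ZL.cons (nat_lit 31768) (nat_lit 6) (nat_lit 120205819983816254658) (ZL.cons (nat_lit 31844) (nat_lit 6) (nat_lit 119771629930035972130) (ZL.cons (nat_lit 31920) (nat_lit 6) (nat_lit 119375763345145084288) (ZL.cons (nat_lit 31996) (nat_lit 6) (nat_lit 119018064987345594704) (ZL.cons (nat_lit 32072) (nat_lit 6) (nat_lit 118698394582771699656) (ZL.cons (nat_lit 32148) (nat_lit 6) (nat_lit 118416626770480428992) (ZL.cons (nat_lit 32224) (nat_lit 6) (nat_lit 118172651053290492016) (ZL.cons (nat_lit 32300) (nat_lit 6) (nat_lit 117966371754450049534) (ZL.cons (nat_lit 32376) (nat_lit 6) (nat_lit 117797707980116419024) (ZL.cons (nat_lit 32452) (nat_lit 6) (nat_lit 117666593587632999060) (ZL.cons (nat_lit 32528) (nat_lit 6) (nat_lit 117572977159590972616) (ZL.cons (nat_lit 32604) (nat_lit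 6) (nat_lit 117516821983665617326) (ZL.cons (nat_lit 32680) (nat_lit 3) (nat_lit 58749053019109657703) (ZL.cons (nat_lit 32756) (nat_lit 6) (nat_lit 119908885906109463104) (ZL.cons (nat_lit 32832) (nat_lit 6) (nat_lit 119459938457070212934) (ZL.cons (nat_lit 32908) (nat_lit 6) (nat_lit 119049019329015178098) (ZL.cons (nat_lit 32984) (nat_lit 6) (nat_lit 118675967377188258580) (ZL.cons (nat_lit 33060) (nat_lit 6) (nat_lit 118340636306706385000) (ZL.cons (nat_lit 33136) (nat_lit 6) (nat_lit 118042894615188976232) (ZL.cons (nat_lit 33212) (nat_lit 6) (nat_lit 117782625541188378390) (ZL.cons (nat_lit 33288) (nat_lit 6) (nat_lit 117559727018401061826) (ZL.cons (nat_lit 33364) (nat_lit 6) (nat_lit 117374111635641619752) (ZL.cons (nat_lit 33440) (nat_lit 6) (nat_lit 117225706602563871992) (ZL.cons (nat_lit 33516) (nat_lit 6) (nat_lit 117114453721115631196) (ZL.cons (nat_lit 33592) (nat_lit 6) (nat_lit 117040309362715937268) (ZL.cons (nat_lit 33668) (nat_lit 6) (nat_lit 117003244451145809936)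 (ZL.cons (nat_lit 33820) (nat_lit 6) (nat_lit 117624086217334288282) (ZL.cons (nat_lit 33896) (nat_lit 6) (nat_lit 117704004487123493718) (ZL.cons (nat_lit 33972) (nat_lit 6) (nat_lit 117806810264319656754) (ZL.cons (nat_lit 34048) (nat_lit 6) (nat_lit 117932543864913834708) (ZL.cons (nat_lit 34124) (nat_lit 6) (nat_lit 118081254596200378242) (ZL.cons (nat_lit 34200) (nat_lit 6) (nat_lit 118253000776113125214) (ZL.cons (nat_lit 34276) (nat_lit 6) (nat_lit 118447849756095178660) (ZL.cons (nat_lit 34352) (nat_lit 6) (nat_lit 118665877947511237428) (ZL.cons (nat_lit 34428) (nat_lit 6) (nat_lit 118907170851612837224) (ZL.cons (nat_lit 34504) (nat_lit 6) (nat_lit 119171823093068253190) (ZL.cons (nat_lit 34580) (nat_lit 6) (nat_lit 118746146569754250712) (ZL.cons (nat_lit 34656) (nat_lit 6) (nat_lit 118358042074763184200) (ZL.cons (nat_lit 34732) (nat_lit 6) (nat_lit 118007357410253880686) (ZL.cons (nat_lit 34808) (nat_lit 6) (nat_lit 117693955052828493386) (ZL.cons (nat_lit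 34884) (nat_lit 6) (nat_lit 117417712099601757440) (ZL.cons (nat_lit 34960) (nat_lit 6) (nat_lit 117178520220003780010) (ZL.cons (nat_lit 35036) (nat_lit 6) (nat_lit 116976285613297463854) (ZL.cons (nat_lit 35112) (nat_lit 6) (nat_lit 116810928971793904530) (ZL.cons (nat_lit 35188) (nat_lit 6) (nat_lit 116682385449751335938) (ZL.cons (nat_lit 35264) (nat_lit 6) (nat_lit 116590604637945427658) (ZL.cons (nat_lit 35340) (nat_lit 6) (nat_lit 116535550543900961688) (ZL.cons (nat_lit 35416) (nat_lit 3) (nat_lit 58258600788888568138) (ZL.cons (nat_lit 35492) (nat_lit 6) (nat_lit 116939646840957458466) (ZL.cons (nat_lit 35568) (nat_lit 6) (nat_lit 116962690892929159732) (ZL.cons (nat_lit 35644) (nat_lit 6) (nat_lit 117008788033755688422) (ZL.cons (nat_lit 35720) (nat_lit 6) (nat_lit 117077956340747172590) (ZL.cons (nat_lit 35796) (nat_lit 6) (nat_lit 117170222938729883404) (ZL.cons (nat_lit 35872) (nat_lit 6) (nat_lit 117285624010683421922) (ZL.cons (nat_lit 35948) (nat_lit 6)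 (nat_lit 117424204811930122872) (ZL.cons (nat_lit 36024) (nat_lit 6) (nat_lit 117586019687882239860) (ZL.cons (nat_lit 36100) (nat_lit 6) (nat_lit 117771132095353871754) (ZL.cons (nat_lit 36176) (nat_lit 6) (nat_lit 117979614627445987822) (ZL.cons (nat_lit 36252) (nat_lit 6) (nat_lit 118211549042014310464) (ZL.cons (nat_lit 36328) (nat_lit 6) (nat_lit 118467026293731219414) (ZL.cons (nat_lit 36404) (nat_lit 6) (nat_lit 118064164403481185260) (ZL.cons (nat_lit 36480) (nat_lit 6) (nat_lit 117698427195807734752) (ZL.cons (nat_lit 36556) (nat_lit 6) (nat_lit 117369671244354917518) (ZL.cons (nat_lit 36632) (nat_lit 6) (nat_lit 117077767625220203040) (ZL.cons (nat_lit 36708) (nat_lit 6) (nat_lit 116822601866396087506) (ZL.cons (nat_lit 36784) (nat_lit 6) (nat_lit 116604073902879110484) (ZL.cons (nat_lit 36860) (nat_lit 6) (nat_lit 116422098037428677078) (ZL.cons (nat_lit 36936) (nat_lit 6) (nat_lit 116276602906960296922) (ZL.cons (nat_lit 37012) (nat_lit 6) (nat_lit 116167531454560060846)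 (ZL.cons (nat_lit 37088) (nat_lit 6) (nat_lit 116094840907109380524) (ZL.cons (nat_lit 37164) (nat_lit 6) (nat_lit 116058502758511216474) (ZL.cons (nat_lit 37240) (nat_lit 3) (nat_lit 58190360230155948012) (ZL.cons (nat_lit 37316) (nat_lit 6) (nat_lit 116392356565762953098) (ZL.cons (nat_lit 37392) (nat_lit 6) (nat_lit 116427269445294732582) (ZL.cons (nat_lit 37468) (nat_lit 6) (nat_lit 116485472790232541054) (ZL.cons (nat_lit 37544) (nat_lit 6) (nat_lit 116566989425417530600) (ZL.cons (nat_lit 37620) (nat_lit 6) (nat_lit 116671851318157616896) (ZL.cons (nat_lit 37696) (nat_lit 6) (nat_lit 116800099590763678410) (ZL.cons (nat_lit 37772) (nat_lit 6) (nat_lit 116951784536675952814) (ZL.cons (nat_lit 37848) (nat_lit 6) (nat_lit 117126965640186954724) (ZL.cons (nat_lit 37924) (nat_lit 6) (nat_lit 117325711599768649240) (ZL.cons (nat_lit 38000) (nat_lit 6) (nat_lit 117548100355013029182) (ZL.cons (nat_lit 38076) (nat_lit 6) (nat_lit 117794219117196660978) (ZL.cons (nat_lit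 38152) (nat_lit 6) (nat_lit 117413724514264242828) (ZL.cons (nat_lit 38228) (nat_lit 6) (nat_lit 117069916019647278600) (ZL.cons (nat_lit 38304) (nat_lit 6) (nat_lit 116762658806485134188) (ZL.cons (nat_lit 38380) (nat_lit 6) (nat_lit 116491832381753040122) (ZL.cons (nat_lit 38456) (nat_lit 6) (nat_lit 116257330539009924996) (ZL.cons (nat_lit 38532) (nat_lit 6) (nat_lit 116059061316748830724) (ZL.cons (nat_lit 38608) (nat_lit 6) (nat_lit 115896946962333576486) (ZL.cons (nat_lit 38684) (nat_lit 6) (nat_lit 115770923901507528846) (ZL.cons (nat_lit 38760) (nat_lit 6) (nat_lit 115680942713462520728) (ZL.cons (nat_lit 38836) (nat_lit 6) (nat_lit 115626968111458142326) (ZL.cons (nat_lit 38912) (nat_lit 3) (nat_lit 57804489464491901844) (ZL.cons (nat_lit 38988) (nat_lit 6) (nat_lit 115855797472435006660) (ZL.cons (nat_lit 39064) (nat_lit 6) (nat_lit 115879302405446141952) (ZL.cons (nat_lit 39140) (nat_lit 6) (nat_lit 115926321489089201218) (ZL.cons (nat_lit 39216) (nat_lit 6)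 (nat_lit 115996873162220515068) (ZL.cons (nat_lit 39292) (nat_lit 6) (nat_lit 116090985092162880096) (ZL.cons (nat_lit 39368) (nat_lit 6) (nat_lit 116208694185555489388) (ZL.cons (nat_lit 39444) (nat_lit 6) (nat_lit 116350046602827124356) (ZL.cons (nat_lit 39520) (nat_lit 6) (nat_lit 116515097776298283682) (ZL.cons (nat_lit 39596) (nat_lit 6) (nat_lit 116703912431919348214) (ZL.cons (nat_lit 39672) (nat_lit 6) (nat_lit 116916564614653306604) (ZL.cons (nat_lit 39748) (nat_lit 6) (nat_lit 117153137717512995700) (ZL.cons (nat_lit 39824) (nat_lit 6) (nat_lit 116794571827637063830) (ZL.cons (nat_lit 39900) (nat_lit 6) (nat_lit 116472262071310772424) (ZL.cons (nat_lit 39976) (nat_lit 6) (nat_lit 116186082052551248424) (ZL.cons (nat_lit 40052) (nat_lit 6) (nat_lit 115935919543900154766) (ZL.cons (nat_lit 40128) (nat_lit 6) (nat_lit 115721676442412922390) (ZL.cons (nat_lit 40204) (nat_lit 6) (nat_lit 115543268731187007286) (ZL.cons (nat_lit 40280) (nat_lit 6) (nat_lit 115400626446414085564)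 (ZL.cons (nat_lit 40356) (nat_lit 6) (nat_lit 115293693649943265882) (ZL.cons (nat_lit 40432) (nat_lit 6) (nat_lit 115222428407344559684) (ZL.cons (nat_lit 40508) (nat_lit 6) (nat_lit 115186802771464006694) (ZL.cons (nat_lit 40584) (nat_lit 3) (nat_lit 57676401598807301788) (ZL.cons (nat_lit 40660) (nat_lit 6) (nat_lit 115364672025174681794) (ZL.cons (nat_lit 40736) (nat_lit 6) (nat_lit 115400283162297096868) (ZL.cons (nat_lit 40812) (nat_lit 6) (nat_lit 115459650574133661512) (ZL.cons (nat_lit 40888) (nat_lit 6) (nat_lit 115542797542022350844) (ZL.cons (nat_lit 40964) (nat_lit 6) (nat_lit 115649756672617238868) (ZL.cons (nat_lit 41040) (nat_lit 6) (nat_lit 115780569910675421614) (ZL.cons (nat_lit 41116) (nat_lit 6) (nat_lit 115935288555505941504) (ZL.cons (nat_lit 41192) (nat_lit 6) (nat_lit 116113973281087163452) (ZL.cons (nat_lit 41268) (nat_lit 6) (nat_lit 116316694159860491858) (ZL.cons (nat_lit 41344) (nat_lit 6) (nat_lit 116543530690209759402) (ZL.cons (nat_lit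 41420) (nat_lit 6) (nat_lit 116206463538624500354) (ZL.cons (nat_lit 41496) (nat_lit 6) (nat_lit 115905230976700829360) (ZL.cons (nat_lit 41572) (nat_lit 6) (nat_lit 115639714874022305768) (ZL.cons (nat_lit 41648) (nat_lit 6) (nat_lit 115409811106627094860) (ZL.cons (nat_lit 41724) (nat_lit 6) (nat_lit 115215429516175041652) (ZL.cons (nat_lit 41800) (nat_lit 6) (nat_lit 115056493874591459064) (ZL.cons (nat_lit 41876) (nat_lit 6) (nat_lit 114932941854173765300) (ZL.cons (nat_lit 41952) (nat_lit 6) (nat_lit 114844725003149247538) (ZL.cons (nat_lit 42028) (nat_lit 6) (nat_lit 114791808726674366752) (ZL.cons (nat_lit 42104) (nat_lit 3) (nat_lit 57387086136634076200) (ZL.cons (nat_lit 42180) (nat_lit 6) (nat_lit 114883176488644951532) (ZL.cons (nat_lit 42256) (nat_lit 6) (nat_lit 114907151520316309532) (ZL.cons (nat_lit 42332) (nat_lit 6) (nat_lit 114955110985632229984) (ZL.cons (nat_lit 42408) (nat_lit 6) (nat_lit 115027073692226170110) (ZL.cons (nat_lit 42484) (nat_lit 6)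 (nat_lit 115123067860767382438) (ZL.cons (nat_lit 42560) (nat_lit 6) (nat_lit 115243131136027843916) (ZL.cons (nat_lit 42636) (nat_lit 6) (nat_lit 115387310601644911584) (ZL.cons (nat_lit 42712) (nat_lit 6) (nat_lit 115555662798585494096) (ZL.cons (nat_lit 42788) (nat_lit 6) (nat_lit 115748253747318979918) (ZL.cons (nat_lit 42864) (nat_lit 6) (nat_lit 115965158973707617478) (ZL.cons (nat_lit 42940) (nat_lit 6) (nat_lit 115649169016524978842) (ZL.cons (nat_lit 43016) (nat_lit 6) (nat_lit 115368600370682308256) (ZL.cons (nat_lit 43092) (nat_lit 6) (nat_lit 115123343009259667414) (ZL.cons (nat_lit 43168) (nat_lit 6) (nat_lit 114913300752899635674) (ZL.cons (nat_lit 43244) (nat_lit 6) (nat_lit 114738391232089914982) (ZL.cons (nat_lit 43320) (nat_lit 6) (nat_lit 114598545854861560352) (ZL.cons (nat_lit 43396) (nat_lit 6) (nat_lit 114493709779890168508) (ZL.cons (nat_lit 43472) (nat_lit 6) (nat_lit 114423841894989476158) (ZL.cons (nat_lit 43548) (nat_lit 6) (nat_lit 114388914800988934010)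 (ZL.cons (nat_lit 43624) (nat_lit 3) (nat_lit 57217313487038959950) (ZL.cons (nat_lit 43700) (nat_lit 6) (nat_lit 114446733178189199682) (ZL.cons (nat_lit 43776) (nat_lit 6) (nat_lit 114483056538054063060) (ZL.cons (nat_lit 43852) (nat_lit 6) (nat_lit 114543611298127358994) (ZL.cons (nat_lit 43928) (nat_lit 6) (nat_lit 114628421205373822116) (ZL.cons (nat_lit 44004) (nat_lit 6) (nat_lit 114737519518580607898) (ZL.cons (nat_lit 44080) (nat_lit 6) (nat_lit 114870949021399954298) (ZL.cons (nat_lit 44156) (nat_lit 6) (nat_lit 115028762039127084588) (ZL.cons (nat_lit 44232) (nat_lit 6) (nat_lit 115211020459219930974) (ZL.cons (nat_lit 44308) (nat_lit 6) (nat_lit 115417795755568725950) (ZL.cons (nat_lit 44384) (nat_lit 6) (nat_lit 115122469714467087722) (ZL.cons (nat_lit 44460) (nat_lit 6) (nat_lit 114862159809880299886) (ZL.cons (nat_lit 44536) (nat_lit 6) (nat_lit 114636763959492838212) (ZL.cons (nat_lit 44612) (nat_lit 6) (nat_lit 114446193772775138988) (ZL.cons (nat_lit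 44688) (nat_lit 6) (nat_lit 114290374516320646254) (ZL.cons (nat_lit 44764) (nat_lit 6) (nat_lit 114169245084538593544) (ZL.cons (nat_lit 44840) (nat_lit 6) (nat_lit 114082757975691027112) (ZL.cons (nat_lit 44916) (nat_lit 6) (nat_lit 114030879273264673400) (ZL.cons (nat_lit 44992) (nat_lit 3) (nat_lit 57006794316335172802) (ZL.cons (nat_lit 45068) (nat_lit 6) (nat_lit 114018847579703168458) (ZL.cons (nat_lit 45144) (nat_lit 6) (nat_lit 114043302112007953618) (ZL.cons (nat_lit 45220) (nat_lit 6) (nat_lit 114092220766630192478) (ZL.cons (nat_lit 45296) (nat_lit 6) (nat_lit 114165622727356011408) (ZL.cons (nat_lit 45372) (nat_lit 6) (nat_lit 114263536779268047984) (ZL.cons (nat_lit 45448) (nat_lit 6) (nat_lit 114386001320033718688) (ZL.cons (nat_lit 45524) (nat_lit 6) (nat_lit 114533064374963127710) (ZL.cons (nat_lit 45600) (nat_lit 6) (nat_lit 114704783615842521874) (ZL.cons (nat_lit 45676) (nat_lit 6) (nat_lit 114901226383550677414) (ZL.cons (nat_lit 45752) (nat_lit 6)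 (nat_lit 114626159083704921936) (ZL.cons (nat_lit 45828) (nat_lit 6) (nat_lit 114385710690153313268) (ZL.cons (nat_lit 45904) (nat_lit 6) (nat_lit 114179786909408184110) (ZL.cons (nat_lit 45980) (nat_lit 6) (nat_lit 114008306987045712844) (ZL.cons (nat_lit 46056) (nat_lit 6) (nat_lit 113871203676037522030) (ZL.cons (nat_lit 46132) (nat_lit 6) (nat_lit 113768423210379294732) (ZL.cons (nat_lit 46208) (nat_lit 6) (nat_lit 113699925284006066938) (ZL.cons (nat_lit 46284) (nat_lit 6) (nat_lit 113665683034985927578) (ZL.cons (nat_lit 46360) (nat_lit 3) (nat_lit 56811663463292149883) (ZL.cons (nat_lit 46436) (nat_lit 6) (nat_lit 113635675254777805144) (ZL.cons (nat_lit 46512) (nat_lit 6) (nat_lit 113672725081839965786) (ZL.cons (nat_lit 46588) (nat_lit 6) (nat_lit 113734490937114727642) (ZL.cons (nat_lit 46664) (nat_lit 6) (nat_lit 113820997042506120026) (ZL.cons (nat_lit 46740) (nat_lit 6) (nat_lit 113932277321977041524) (ZL.cons (nat_lit 46816) (nat_lit 6) (nat_lit 114068375414852774850)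 (ZL.cons (nat_lit 46892) (nat_lit 6) (nat_lit 114229344692934447746) (ZL.cons (nat_lit 46968) (nat_lit 6) (nat_lit 114415248281429151064) (ZL.cons (nat_lit 47044) (nat_lit 6) (nat_lit 114160042492618574754) (ZL.cons (nat_lit 47120) (nat_lit 6) (nat_lit 113939066168709298602) (ZL.cons (nat_lit 47196) (nat_lit 6) (nat_lit 113752232652319397402) (ZL.cons (nat_lit 47272) (nat_lit 6) (nat_lit 113599468675403228056) (ZL.cons (nat_lit 47348) (nat_lit 6) (nat_lit 113480714330518862654) (ZL.cons (nat_lit 47424) (nat_lit 6) (nat_lit 113395923047334973994) (ZL.cons (nat_lit 47500) (nat_lit 6) (nat_lit 113345061574367960552) (ZL.cons (nat_lit 47576) (nat_lit 3) (nat_lit 56664054982971074494) (ZL.cons (nat_lit 47652) (nat_lit 6) (nat_lit 113260016112694115620) (ZL.cons (nat_lit 47728) (nat_lit 6) (nat_lit 113284959735644996480) (ZL.cons (nat_lit 47804) (nat_lit 6) (nat_lit 113334856763359680118) (ZL.cons (nat_lit 47880) (nat_lit 6) (nat_lit 113409726763300015428) (ZL.cons (nat_lit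 47956) (nat_lit 6) (nat_lit 113509599096250292734) (ZL.cons (nat_lit 48032) (nat_lit 6) (nat_lit 113634512927831276854) (ZL.cons (nat_lit 48108) (nat_lit 6) (nat_lit 113784517243859274054) (ZL.cons (nat_lit 48184) (nat_lit 6) (nat_lit 113959670869556256104) (ZL.cons (nat_lit 48260) (nat_lit 6) (nat_lit 113723937150388012310) (ZL.cons (nat_lit 48336) (nat_lit 6) (nat_lit 113522051090833964116) (ZL.cons (nat_lit 48412) (nat_lit 6) (nat_lit 113353933519890364836) (ZL.cons (nat_lit 48488) (nat_lit 6) (nat_lit 113219518509098020902) (ZL.cons (nat_lit 48564) (nat_lit 6) (nat_lit 113118753346687994138) (ZL.cons (nat_lit 48640) (nat_lit 6) (nat_lit 113051598516910319830) (ZL.cons (nat_lit 48716) (nat_lit 6) (nat_lit 113018027684537634184) (ZL.cons (nat_lit 48792) (nat_lit 3) (nat_lit 56458088684223131995) (ZL.cons (nat_lit 48868) (nat_lit 6) (nat_lit 112928772663203639472) (ZL.cons (nat_lit 48944) (nat_lit 6) (nat_lit 112966563486807043328) (ZL.cons (nat_lit 49020) (nat_lit 6)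 (nat_lit 113029564659187300420) (ZL.cons (nat_lit 49096) (nat_lit 6) (nat_lit 113117800886686520652) (ZL.cons (nat_lit 49172) (nat_lit 6) (nat_lit 113231306771746860580) (ZL.cons (nat_lit 49248) (nat_lit 6) (nat_lit 113370126826480108574) (ZL.cons (nat_lit 49324) (nat_lit 6) (nat_lit 113534315490123414928) (ZL.cons (nat_lit 49400) (nat_lit 6) (nat_lit 113317672035310399092) (ZL.cons (nat_lit 49476) (nat_lit 6) (nat_lit 113134501921202652818) (ZL.cons (nat_lit 49552) (nat_lit 6) (nat_lit 112984733316382878950) (ZL.cons (nat_lit 49628) (nat_lit 6) (nat_lit 112868307488064873654) (ZL.cons (nat_lit 49704) (nat_lit 6) (nat_lit 112785178779061061242) (ZL.cons (nat_lit 49780) (nat_lit 6) (nat_lit 112735314589877714730) (ZL.cons (nat_lit 49856) (nat_lit 3) (nat_lit 56359347682965420324) (ZL.cons (nat_lit 49932) (nat_lit 6) (nat_lit 112604024183311015800) (ZL.cons (nat_lit 50008) (nat_lit 6) (nat_lit 112629466678720914278) (ZL.cons (nat_lit 50084) (nat_lit 6) (nat_lit 112680361646989891588)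 (ZL.cons (nat_lit 50160) (nat_lit 6) (nat_lit 112756729046929033602) (ZL.cons (nat_lit 50236) (nat_lit 6) (nat_lit 112858598826538316456) (ZL.cons (nat_lit 50312) (nat_lit 6) (nat_lit 112986010934750920258) (ZL.cons (nat_lit 50388) (nat_lit 6) (nat_lit 113139015337099477406) (ZL.cons (nat_lit 50464) (nat_lit 6) (nat_lit 112941087827732763490) (ZL.cons (nat_lit 50540) (nat_lit 6) (nat_lit 112776266679748842628) (ZL.cons (nat_lit 50616) (nat_lit 6) (nat_lit 112644487257403407398) (ZL.cons (nat_lit 50692) (nat_lit 6) (nat_lit 112545697882491616454) (ZL.cons (nat_lit 50768) (nat_lit 6) (nat_lit 112479859814082131838) (ZL.cons (nat_lit 50844) (nat_lit 6) (nat_lit 112446947233324596890) (ZL.cons (nat_lit 50920) (nat_lit 3) (nat_lit 56155293471811034765) (ZL.cons (nat_lit 50996) (nat_lit 6) (nat_lit 112323434144274592526) (ZL.cons (nat_lit 51072) (nat_lit 6) (nat_lit 112361980784350064458) (ZL.cons (nat_lit 51148) (nat_lit 6) (nat_lit 112426241980177926690) (ZL.cons (nat_lit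 51224) (nat_lit 6) (nat_lit 112516242932227131326) (ZL.cons (nat_lit 51300) (nat_lit 6) (nat_lit 112632018934988678054) (ZL.cons (nat_lit 51376) (nat_lit 6) (nat_lit 112773615390816591010) (ZL.cons (nat_lit 51452) (nat_lit 6) (nat_lit 112594036847573702506) (ZL.cons (nat_lit 51528) (nat_lit 6) (nat_lit 112447204882064120282) (ZL.cons (nat_lit 51604) (nat_lit 6) (nat_lit 112333061913124899404) (ZL.cons (nat_lit 51680) (nat_lit 6) (nat_lit 112251563178807436256) (ZL.cons (nat_lit 51756) (nat_lit 6) (nat_lit 112202676718823763204) (ZL.cons (nat_lit 51832) (nat_lit 3) (nat_lit 56093191681006551169) (ZL.cons (nat_lit 51908) (nat_lit 6) (nat_lit 112048345870709471668) (ZL.cons (nat_lit 51984) (nat_lit 6) (nat_lit 112074297216027568118) (ZL.cons (nat_lit 52060) (nat_lit 6) (nat_lit 112126210083661924972) (ZL.cons (nat_lit 52136) (nat_lit 6) (nat_lit 112204104831599849826) (ZL.cons (nat_lit 52212) (nat_lit 6) (nat_lit 112308012006801318336) (ZL.cons (nat_lit 52288) (nat_lit 6)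 (nat_lit 112437972357178174218) (ZL.cons (nat_lit 52364) (nat_lit 6) (nat_lit 112276382996409624352) (ZL.cons (nat_lit 52440) (nat_lit 6) (nat_lit 112147187484306256480) (ZL.cons (nat_lit 52516) (nat_lit 6) (nat_lit 112050335155961363398) (ZL.cons (nat_lit 52592) (nat_lit 6) (nat_lit 111985788030069711814) (ZL.cons (nat_lit 52668) (nat_lit 6) (nat_lit 111953520794032912844) (ZL.cons (nat_lit 52744) (nat_lit 3) (nat_lit 55902046990135606222) (ZL.cons (nat_lit 52820) (nat_lit 6) (nat_lit 111817198124936785898) (ZL.cons (nat_lit 52896) (nat_lit 6) (nat_lit 111856515697813767270) (ZL.cons (nat_lit 52972) (nat_lit 6) (nat_lit 111922062117558186746) (ZL.cons (nat_lit 53048) (nat_lit 6) (nat_lit 112013863088648375474) (ZL.cons (nat_lit 53124) (nat_lit 6) (nat_lit 112131954611465153138) (ZL.cons (nat_lit 53200) (nat_lit 6) (nat_lit 111988001704102817624) (ZL.cons (nat_lit 53276) (nat_lit 6) (nat_lit 111876096832593777548) (ZL.cons (nat_lit 53352) (nat_lit 6) (nat_lit 111796196112674696030)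 (ZL.cons (nat_lit 53428) (nat_lit 6) (nat_lit 111748268210729918528) (ZL.cons (nat_lit 53504) (nat_lit 3) (nat_lit 55866147165751890212) (ZL.cons (nat_lit 53580) (nat_lit 6) (nat_lit 111590582687904741026) (ZL.cons (nat_lit 53656) (nat_lit 6) (nat_lit 111617053060129199402) (ZL.cons (nat_lit 53732) (nat_lit 6) (nat_lit 111670004185116243396) (ZL.cons (nat_lit 53808) (nat_lit 6) (nat_lit 111749456828012926746) (ZL.cons (nat_lit 53884) (nat_lit 6) (nat_lit 111855442146718424628) (ZL.cons (nat_lit 53960) (nat_lit 6) (nat_lit 111728779879950416910) (ZL.cons (nat_lit 54036) (nat_lit 6) (nat_lit 111633826616867188398) (ZL.cons (nat_lit 54112) (nat_lit 6) (nat_lit 111570545120894980962) (ZL.cons (nat_lit 54188) (nat_lit 6) (nat_lit 111538910575760864326) (ZL.cons (nat_lit 54264) (nat_lit 3) (nat_lit 55697181018066298702) (ZL.cons (nat_lit 54340) (nat_lit 6) (nat_lit 111407728263691482326) (ZL.cons (nat_lit 54416) (nat_lit 6) (nat_lit 111447832188026003324) (ZL.cons (nat_lit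 54492) (nat_lit 6) (nat_lit 111514689536165311192) (ZL.cons (nat_lit 54568) (nat_lit 6) (nat_lit 111608326526677303696) (ZL.cons (nat_lit 54644) (nat_lit 6) (nat_lit 111498615868335107542) (ZL.cons (nat_lit 54720) (nat_lit 6) (nat_lit 111420281829198753112) (ZL.cons (nat_lit 54796) (nat_lit 6) (nat_lit 111373293690037206542) (ZL.cons (nat_lit 54872) (nat_lit 3) (nat_lit 55678816512064614005) (ZL.cons (nat_lit 54948) (nat_lit 6) (nat_lit 111228459220345150268) (ZL.cons (nat_lit 55024) (nat_lit 6) (nat_lit 111255459000014097812) (ZL.cons (nat_lit 55100) (nat_lit 6) (nat_lit 111309469147500882684) (ZL.cons (nat_lit 55176) (nat_lit 6) (nat_lit 111390510843255499706) (ZL.cons (nat_lit 55252) (nat_lit 6) (nat_lit 111297419408860177634) (ZL.cons (nat_lit 55328) (nat_lit 6) (nat_lit 111235378726534484070) (ZL.cons (nat_lit 55404) (nat_lit 6) (nat_lit 111204364466599075604) (ZL.cons (nat_lit 55480) (nat_lit 3) (nat_lit 55539587814252288607) (ZL.cons (nat_lit 55556) (nat_lit 6)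 (nat_lit 111092809180614639836) (ZL.cons (nat_lit 55632) (nat_lit 6) (nat_lit 111133715183435851254) (ZL.cons (nat_lit 55708) (nat_lit 6) (nat_lit 111201909678537945280) (ZL.cons (nat_lit 55784) (nat_lit 6) (nat_lit 111125111600953284074) (ZL.cons (nat_lit 55860) (nat_lit 6) (nat_lit 111079044797853728614) (ZL.cons (nat_lit 55936) (nat_lit 3) (nat_lit 55531845601913149340) (ZL.cons (nat_lit 56012) (nat_lit 6) (nat_lit 110959818945584727648) (ZL.cons (nat_lit 56088) (nat_lit 6) (nat_lit 110987358720847054144) (ZL.cons (nat_lit 56164) (nat_lit 6) (nat_lit 111042449071283574716) (ZL.cons (nat_lit 56240) (nat_lit 6) (nat_lit 110981624872925051614) (ZL.cons (nat_lit 56316) (nat_lit 6) (nat_lit 110951218735733474686) (ZL.cons (nat_lit 56392) (nat_lit 3) (nat_lit 55428218070945508093) (ZL.cons (nat_lit 56468) (nat_lit 6) (nat_lit 110870342365043280060) (ZL.cons (nat_lit 56544) (nat_lit 6) (nat_lit 110912066487920915710) (ZL.cons (nat_lit 56620) (nat_lit 6) (nat_lit 110866902955470371140)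 (ZL.cons (nat_lit 56696) (nat_lit 3) (nat_lit 55425925206153112073) (ZL.cons (nat_lit 56772) (nat_lit 6) (nat_lit 110782620227257547130) (ZL.cons (nat_lit 56848) (nat_lit 6) (nat_lit 110810710798025120158) (ZL.cons (nat_lit 56924) (nat_lit 6) (nat_lit 110780900859602005522) (ZL.cons (nat_lit 57000) (nat_lit 3) (nat_lit 55362078953325754004) (ZL.cons (nat_lit 57076) (nat_lit 6) (nat_lit 110738342254266817162) (ZL.cons (nat_lit 57152) (nat_lit 3) (nat_lit 55361792429503924760) (ZL.cons (nat_lit 57228) (nat_lit 6) (nat_lit 110694932476824925034) (ZL.cons (nat_lit 57304) (nat_lit 1) (nat_lit 18446744073709551617) ZL.nil))))))))))))))))))))))))))))))))))))))))))))))))))))))))))))))))))))))))))))))))))))))))))))))))))))))))))))))))))))))))))))))))))))))))))))))))))))))))))))))))))))))))))))))))))))))))))))))))))))))))))))))))))))))))))))))))))))))))))))))))))))))))))))))))))))))))))))))))))))))))))))))))))))))))))))))))))))))))))))))))))))))))))))))))))))))))))))))))))))))))))))))))))))))))))))))))))))))))))))))))))))))))))))))))))))))))))))))))))))))))))))))))))))))))))))))))))))))))))))))))))))))))))))))))))))))))))))))))))))))))))))))))))))))))))))))))))))))))))))))))))))))))))))))))))))))))))))))))))))))))))))))))))))))))))))))))))))))))))))))))))))))))))))))))))))))))))))))))))))))))))))))))))))))))))))))))))))))))))))))))))))))))))))))))))))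

noncomputable def vl : XL := ⟨(nat_lit 0), (nat_lit 76), (nat_lit 149752543), (nat_lit 152), (nat_lit 46319546), (nat_lit 76), (nat_lit 149752543), (nat_lit 1), (nat_lit 5), (nat_lit 2), (nat_lit 4), (nat_lit 1), (nat_lit 4), (nat_lit 0), (nat_lit 0), (nat_lit 0)⟩

noncomputable def cp0 : Nat := (nat_lit 10529215410574485582199151866529514559803850881292257374731521081071375928682322620080008101272687043315911618946835952518709487854736424489091489279306586195763354610629336724811591614873289086019489996466049879614535448157671673287249720815997881749646807986497728384118846331979938159380206958764799371222043796247551653019619607972970716745477653244514484586438369965214441613699582232414409346998602802650293088730517512363569680198105161484376594640032406987793258082416113005281997619350288525128804980712729093274942151089426081552297878820268986330452101056744149671916449071981189475890964932023769910466761454618940038563859934806999540568864625971216341677469698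3652866046944793863772615251103264292596733615711359318691341138600622711193720552850597230367470146967764552087352172253846328202995378836538494840750227071760127289397249918257133986933362858605978017187372398254623837113166917329941689344397303167645365198957968775198996832308314438193397217378352381699187837155374645782560468999271339278518034420754068769528071558029500832102701055519684816987508331532177948672872351332080543992418304659528031385294924157047581084439327603793000050258930386445345612117380950113273086484743804799873895255626223170329780036063157702876816217504422850678826150221819924156241358692792412472276005778531864643670020738094212463745987721187431680544430723365750012661651488274466557537842976341896531337047913170106823532418025796826450256874231418917484365414732604865318516374804404773062782468743156307760283486900572195375759466569221461522006422869797134210349853758648185624109301982896050586688343554816497100433834360761877863119097252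9702244009345043334861144710889865272715993387874033522975333591587197253304853571652003380807086602356875235190150614948430157612416002677171584367897867300553569718121173601766455212056634304894311072193942152893450378331970247232486529557538711509669763849037908707881136534916134982364212497691595159375083395259843374098176182689040513109169014019022477562041266843938939973085832157858750631241855330652689259503281982527340601137044726804735925225951306012191880143830926910536516474068035625408388605296596408076516107360944897334475064020399713365037019811757810638997664549303768398145468874154030958205212774127316043048744241638765614571631357726742527274656929560132959066928516104044877602587511114594144420703665023292519889514375519269999075284437663807688075425677759215133722745946191893564808450011875596761094577698607267378288116756976588790895646692280572117015527216714941308491719988239818184539212076298094740782010547208096521397468636380483165924431764579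9995760079461668136260572844844408176553058616326942888371458465215375625532309402955383047636106504140590260841457371173363524547498643660166936179619245275798459147020189435225284109197643473039509382425740351452860066931280512331596441969727618704221575954765595221654135158187380876460790396810464475373339323787152315719774829457777899377803003116724041379891930509330619532769110729146211938940750776967003155048152769387993749146432696448375731866337486056462821130573505865977578572725930315842201436942013893938797406635928330932583944326451362387565105895259313255558939872940149070140371861438296038304635690619205342020486026246576128239618645427556229036926143589901545480293078193170550091462360056948126732724107131696150540913427088573981814976878795760352394997952337080453562899034902473427914547629478102556082746777419529591213002899707974846033978079509149773612494918986044613395784121802754426955266388901096109713648150573292838052317471184906259298002015205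9031682903067182418134119401250167059055036900751663518243213651062319981187542911781334185086000364648780515297123826471817949659714559347131026062103895649301051820343492512336757304906762563494572365946391158222803171083969127627732739790545967203201522740028401525378089372017411036237465632472006583062231396723546446343061948498681601902116851510415420001732963094029691020009271083991768447108454722004686737028676665914951204208449886506913489758784564948479783702485709559064574606767283754387742224842952991666212885209953678291767084455710639073948427610926717335432460664984493473008846077436920699108575999289942659546385073642309155745611704306961221758942771399494195444766385367885057795498520983175585193073335682584128825378062325525994856749033367022034733171501343368840468989631597194107681753793544143408825914121693699417943433242437069535903699232413020093256662851877731181883515862950624210977339479257103440506148871990551377862954373326916201842096416960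7362324151602717443065195623410811925607470572459677956170825231261556333970873562751401045072266451778689720393128463429851470581912240167341497193830205659333736489186023422040033929646703785548775998826304390779103928713583242547034896042124505081115810903534004780288419047152117047131188319626149806591060990056548443558826864212457180341020186342006384723893742315781322281018259698663869674824501405130241009277220035567489676308850828622709577589236125127328318635656264462396816204421264981940979325258567565287513405171215722863088861435982597689483179678709478274078593985568467801539568051384098620149911060255609790617227113478681971194272866951134191781390253501604969246792777580774363206330381925113192091474460255463723620912035044393580354860033573112855721931300849315900054267220056673223241563129096842416045028472581183393789964140301074170148865160080669387655073547235145965579366606262332593099817283397890193538666930499991210225888679672223782968014475276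0210619775298488495854621198842823180688957909428478078643719611744305065595798457453335234945353595544287688093294383204189967079436034899479646720818673232332448646249082387108278155473748100227790532979906275259594124847870220784437724011210132747956350657433196896613462652445289313916762041761878092266930726906620062570876005371579036077845625250898018373635555364364894306845529992070269335569151976094302800797659277061842711581847129753417092428930949520194754396346835527415357009289214187711839602606304681091060255956478821358411665465017543976896074567985809340724102548998751981409369989118511717475239377779991824208652117315854759258964136581041528249745057218805670632264378035142096509374252424290926450299950446485486749564039759226429837029044821123819603890381893145741625235217705183312723882737674884673435143883412206205845404458440913797639277431085470482164546975638963863749666211827944951291085598923671567320130591595581366927651364178893572481059899265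4618577023306750855482788350530015324747244492638483642877179662396416221228442143689773254515005345122045270091147210692699034528559650285649718879213105955379333173055821323909843436204691493656306777815787722296596153285051414030906118505522444560674595045419145149905122820313996245581686787470682799862783472512976272964033137096332225240536611883622689345595840269689259864488416529662472990685674361906808177234861515756855006287299015940648336107327635807273341719378265264359246657888795419670580688284669423033991604022395022401694320643672615455304394978501742380131491427979705013233539783202180771746343392506103299938152618904568820784896624194822802974173119733509926450993788869817227432745901298006910600631679885603068126582876822868633154300830473472230613933316499558478535046443151369466058705348025165836155162953878655878872547262280896885735326296078418883120646652207955160828928595851164538606321151444486098154834873042289490504078590449305014657030290376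6308879585449320425622187670633321732620272077616084599475575896326559797352115582683309598934174992001956254838766423927967027164053428787077796307595565419089025447505965885978193465702904718494356224110808433626442493396076484288856270261879509158731477614184693248544994287233563806483263241114876609273226789017568665096643975654760158862377453156286280474796939904545863031086063881606704770091309663433244276047056605384566488918102163485285107448795726895684062452964816263141165481424053093491191060780983603670891004062266037528518334171902170417529634782053864819174412542599746906861941656638017994313987007754023578309603603020012776158060550317002223797773815044858021638274363819658264406966948858154581949770407330043123533124898360858428310826976844223526490507978701545212738182086483704518097300504631766244735980841963265896752087374995184297689772247262528337020523728113504722958147773511110517729001334872514491074545379369560020516230369768786962165095354119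3510496477575277063691813483149269089805719061183524420522061337886990557383331577670620072791005588904898304304728366679769543598926887503697083765992190355797799985516930311830610211061724808567830669375326431314071230957158440730626501573593123442349494475807326846062381565452947377164268413284570794596471200689028781080762876846475332045942875101360889064110923222124777255517025257078247658986626946727632428203515710139001401076345620946571202465013035770650916794751640201881550078085188269224485517608780772819792773183805014633137429784141553694048275481161377027000095445016249326561980172824268387298477163687348052511773330885921732232817411432972924289896580793430799653586738068631553781273987852742191848135978182847125256723641548019144192467065773348039351962906354439002086378656507740863418271439730739479443687910746205388531719021046021951980952698012417891728578458129475733717562227523589726997381024213729920344838440994393604827074549821095832990507626385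9329329720708178630630275983273389467668424267326636132301287029720584927068622717461350138390152927221385083426304746355338208604991632381498024526021565452618097150734426645526889416942188279757482530605521128598367740562019105006009899259896848075803790640865243986510664056539856550636622474742639679587479033716215433406973837999869991693703813195179613398331852182866883453837059240265254040164729212363500348325880902031006285130396690422961372167954853737811083646476984169746593139046240879444015242181960446893444260211227668183580522222133144419938977671047723495303279987987958623174678858603999395783287722444158688972571677299023291971076611484404248679153519864569646314490271215563783289264953285064426901322621782620426787808553127047986984495599050351402514618368150746092419579662299545950622188887515535082442452675356946762444038376760178257274799575267438930513990522481494475058363112002800820741172650983558755562075987879294705814152154577674973627749813759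5325327696411386024107485939973829848238658476940236210677080500102961636124472945177713307252959429027546726608473622321637585307159115509210667221948739914006616924740315134206338062826270980414449039723858407866093981264244264690480472072986845968659274354693972222775871517166905898268668855058776957909968139590702252479947931772193094781959133048216729979463436415829785710205784621692299512152016126011522241852227680470441111423988866922726056067849167668382616339120528983306879855716422145088035137662831237677128620170458685949327793179472983642368225881115283588900992559925247563664337053814136684525002897035701943781044800122949440212465237846550671350111493715115267772853462841847876133288670890170946533372379616926898523510178164772197063288157135682331593248011163163811181471531619123887593278682654199130680692689459469746324959843798937693857221831497751660621473231950537002929473139802356182775066086435873956607382786919898732090806140452558945131189986375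7842243487725018509383321020954238839617720426148249830453236079570259305982541989265998318596328727232011916733464237578679762651141927119670363484454871816366158082001593430435574775800546694611462633522908797158706245168039876117440611548665187715393220384784117831270109457785027951126655847309752704229588327986027799613854587853596063170574438149895532569662041280411776794234866488630651477868742001023516084084291931278009228118267960073095018744342852453653305794989343840502418859751016821900694132359093527734000287072986962757430805158300154193705706358730471493122751060308403999672831520925763626831247407797613703074639961184347009240459815805899677977156902087585953196129360217345834816166735610821590296973521051022467689539971868577058416334901432021889696335839338926603378202397399667072623767850266832096747203054531488953168067654618349708475034446395818433961573275946210435635656823937343278914137875151246389703620163879067048280212839443193447081978652911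8191019287064981032336026349657049365413974081866469644798149115891763621211030001056753479447768656180730914661590394882906164521043293769337323537484436252968156777563364562032661415567853233252718834116745689429036679895197281521165265549129682320985170970041456053173794463299025012179831684694120097034674033435746204524573839797504128925496841994876676380541746913813105100001181648156148175309632529022703320504874383478236997368960981013505805108112903172655013972673158172293879090699168182294422617654303024222588064039032455342771071561566296594641279216164456836438409716159394227755273165877911816895839798952188248116712311705520998195577843352827944035893792469613360022032929953120240054581898090674861439174825614772177397639714235638542537166891023138479455580749226508162877471678239730539881392536463134125897240738477588794232370733198819607192927731211630499958117984099138019504767029337340807286454698984735506439411343768969810872627410674904171658888990774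5199975110338210874996708976716707420274731273170456627177387413714598261984925658455435138308855164857394850753342603186406811054017234098193690868292216824177588768726452111923551419714998782650747736513118522127432920785677557134592276032729702282556963147242504078785581678070890904336190411359054755306189685803535999208401584016066414070769064516374340817485961215300914161810679855154019186386425686174290926543564487687308428091029762184317663634930677889024214834724328090906580201758797678764752925141341860235237041345399018135749676350808836690847434651586468175951449901481100237141757526432820227733634125228517440285689379300952159713156146574489742705681298280650750378245442699469520230665525674301599094045987577933081232057882303041203331160630964632883634581725204229481667902909553445265376570239444849892946476824759153567929331271721220791987314639517701591799302381160263577721267277324506231780857117711933034531777258267137355086577025573766571795629135546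3743590309210158439813133282778466939014816365946192696005016566427598138228959570961935431333473394398973929917709024945613196594360531864739967073453512376252567905221692253678768531115634747428563255170463588621262317891717198026242040521035657417387778064644666760689214520894597338740290387857685152457217071465470329151792782175159057555325422756819675264647351035530815086556372133247057408313398971850998815230574841454061199695054665631874449037715712658699253043058709195631968797763446725468460793244734108971418907962996786094853602039951339255273707287663055377699844554856841457661543184474543517910558160329259322613457487043663754523864783604677235562237279046653815372270997485413234271543098561949550626679426305152783577627245987062600498182489520470676544891467674934513126161142455661738290487790294770341361389392516636436774652892862290353022822547796878830274900884985186845418007629269789647212250910398606657243489174771565842525846479801417905028880009671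8369563987842989160853299362538941350029683103448655603388823876940555373551755626026230772449577502635063774443923658485114577157333682563095976051237717894952058944752840100998675756280031730986304348355314674329326188195748424138255492304150775285209398523637548645960230789425036969922229466251548819490957293091926255173903922673246446458469056984981198334513852100706069371370422973419141565640431856805075907874531628236452024078350913286094075813619421639858175451287880904221734128660406700328017342035271669861076964903697620488279928655237721816796668303654511840952766108886564845203146375277482533762912156342154725319053570622183008524051569331249368445972150720409722388157849220376486976939040332140948190486527891646302925394787965933971475363294640275721758361199320326324134187027651488499152676282014088724685733397212341230246994047507858434997682830438386971578727219630108006598753119633834087568013285432183015621774008627743560007876352454655961928878009986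42530661526182660577575414356606929800572072587535185675183662702894070510743816445242166929519969174546304687143494057189463024774043460276639237162118881029844173741367431533732868977303583289172589099050551782396882789111640324423076430115308234162446280423841054099545805120390053868829661626621343887553018536244948950514914639576401547517120635663790418639629805001125417193135672952132890334966963985546343476949309247083157783434024378442578704674172353827526645482044124756158461698461076112857116181241258380891529239219257747818346223238158919644425785026141893104826849578757763166023222706179160880844698246954447820236917066468924958203542433471615313053634589325574155709125474328931927566011610603945053379607044680466688344809291067228197754602838844097461540336102796807686451408282239314650815152506642000533725921163071805148875257273959023763276797469762925887488)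

noncomputable def cp1 : Nat := (nat_lit 1101604657373845742755896747248957129945978442972769077868764848755546493002032914216270828773041717706202880815543595091806279979311657053851246798610297132975071424385891539398145129992545812012844847753832872511821479686702504551623662192679922928086607471026733145950878503828042021662130933841558585571771082065945865827268808259806803276437863963306199445180096099181669756463342050717724423129749668256596339240279810765484450884510030223330594724451980940105989478746527432513527720332289630089040579960627252514777960875413506132147267573574815249679484936352341364654252277131741176440954328354541032757890920159419481361436940004796957690452775481763270720050022726872851477305455910484743540151304789637060170710988907925826275843112905962356142888338637568295207549151518624878185811365738036865905762811907000265138501440485288447169368841320133303695059716616407131921251468533933447746983054049185618222692510131884541363767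8058784603292305097195466857020816146613163142234177317091849844800505819529008833992416251899762058349664902783669289690754499824488097903138907227181633753596966938618872650526452440368341974192342306761013844213351482082929588790290386996428778271509082480301760516976644833467713210420868045545831104150002016375388380925565103735879749257709279861633484390482295938196547016707456792976285351219915772293131803535565503939015343587510569600363546745124427290786780054020473701228303473828805779460978020279282068654253953438615481853051709498582311429426192946397093597854282664654096875066566574188527294251102919880553995006846841133611610293375578612912738158271976599997754792744722742667486052353599392339754387145158026076202111158990913181972468530217029793831003775373851633339448470250476210943441874542148476135503902780790814423534522192986074730274795967633535308968451041942450367746480551447060098877485358276630801761151519282670542642655242424717923568522836581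2721769652323992197682366785870168324238705527802940908499071995749744766491291813273381395135713372685027155886010594974105532559798883714378421446005043857364794500332609468521970915200840878111193186469854649532890657728614676419370825844333540782098392154305777125435271412447290487947048037557773018584467374921212697303226343164219695459554691822922646057708706294582976684132312835001221426563989163052661141932306928684432125209333302459635992189747524212667346260927099602233400741308068665134519520962800837454101587134581570625140062662044342911386200083364734688195900137241677130510803160978582414246596496985358253489211860238954464676348489834140988568515095735567816915304693149615695666367099851644687569923934308453363624846644006391979486511958865868495161105102599542453401152951651245994013813625778795697404047462793753284467481199063242753614774078412066374149275732347530929484775880898595895198777337458730515751369425631384146954171806375670592730523528820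8730412367968045190693116936517778075440118927900254473498699318452515438019162043785344124781935854427272800013894741721700170517167612495561042382053561000422369193377203415935366081558240949060457695875241423967780739755694569568611247819513204866867785569601917034525897234992653019388768488573485306148967285234624097499374806361733821784281440605975800935421728308795335759822393728040042334083140358628598319485776178312043925981639968745098842074410378967203347889797748661709227193503386688286772581430994582666468586480812915223276227876360908642973586145894585166848021370960474924219067522583521821180495237221000094005773334769769250388539074879005683013677128122224222694073022588800504679547373340595405775992940646946158188080165676248961357575846553876175661340678648953053456236203045563306297096227518915230889605797670807824631662168014961201990004570640602647936406252291055543656749781607630319697655025696480051749663412536771567921812824630926090546760537227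9376587976144788428211187295203743285045488122954461960068165200289576412912353532324004476001318583279895634432460795436219392434721689988853536736212294442437955506024202199115460048549417437658841341588408819479796181233790429043595065807634744168001419715386925453635624346436129138411183451907213956795673430362321813123848703959948133554033962064087741433688083458646836745551984202558879321117137220556090506812585562378333749353992439038075105156580493188063306814549144830085242040329979826177273182973306416172686210202923403001382742496224188347985092067741278407080471226856868666024068055911129518780594569461729186300525633598453254524210524695692069749491650916724358719851677840926298871237095686562648574225132870104633699221813799343717561922128320686960369758058251047671544923188853737363598286040443587353623142908120519326695167313693127796069524341609357941041496091883010190074265700055254498154186052214405913892484340475519839630234928655213172066494307870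9920588020155944325552463096635930841342405094304598332841366512734478751695475042131223557391547573792249957307468276986106298064582900205860195221089517185241760698473820590553536448003562494568684369465122233864486897803680633948166605494865728324125384883525740415068391311502882126774868908643921196649078838938977292568277501450947804634122491699101509507827831461820410202935370061769598731958638284632036447227840251411713715731472187040930069598567777910779097572527561632668205980830695585666153243010928729976250014263223244554251549688483138942923266232054515365610838708239939699234307641069861295998120704241951142965760220609349866078998155035928193658675128612073780492723434496353031726031463614996473429063013197233279603431563049591994236736900819747156114860418818948216746529674818679333294200268697905306947333265931894271113799272254424297961540715126389533242862248393545888066944465336478665178922955561439984979959762407706915196406953120603391854497281562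8215364666354519653697916696471376040547232695909681407063539718899025958123188580930444406153059062369500826219947785762570725001030637341432711704694976718359349466829136701596317374258853468336703436849077197177148812241934401901424839840489949335124534477780080915891060156225874700759386504557426551181746136305283414030205101557308543417146819017017657876061684766164502354891209634223995200248607945696181166908147852332281557799700523223368766611685249029762241505636085568900795822105945609404911900121438353398136915775288357769981215264185870664867649175691261402735238592637188434621550429314836575437419113797631290939697409267444995176652063369181942505855468583067792034756376044617077809161217262681131571400123544572245742241904125245957737726719567248721293181820317043879446119150999201734644002448106809578331941613067514706910189265314273861211613947886643637973552250701029445358422419956181887512552567996827132365447667489293346609254420849110008939237253847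5433714268215503720809221844566325601968243786461737708989973375114368361135055948789715215686836937078116790597478073038975066993888396149172620476056119773671515771192986850122358804050171904695929920095757212484009831952698076381277235559372075892628072746485653362474902201756873328636229856566429649625136566349000989173157013211243727349205843138467893416313384578947603652364008177053370491920399967761277678105954115312166884251672017224685448892366915456882835450979137925122062025003015406703510157620520103521700255533477824149467580696208943177171157703431614896533880381901532160447959288162175738472319700462578407913782344943580859193592531223106751558352500747223120337391191800491074501946105349590558251279190758943354101734144243761213455491410458873954650350273624086785163687603851521374604215885400495586035684339486273194488653532790256304723406042192675975426326013958430141617086552169574314515287012606807306591367709579995427767016516987670194845803975273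9816899760681898321522103365279414956238513949913872999583172227957567280539578560503415916142948717291599411585885122023118672742378336384816526078204144400873886286996349695826725540747545519418475886422596523242864183864771618044176713701736977905972161484764442584265797021875355778019632360496286834402903140121062330321555617343927336001205352266401304614608075571449016142693888836617596687327868953689216752012695821691541618244876945646496413555650376017840392383846804103049469843542635084778572277574826525086667199740295876714188161143861896981268846367324016047361015460838130791397394594177968250426003362712435777360763602423730258941362528292813673709704871105441518444854999777582888940396244268191239807140693235955139745816268912835473618714310691451025876120537148272910799162425232477966993119203188330228841033417676803342106720450354852339212346378330090130356070483119842263543252396229467168899864194458336866138948577211313587911092869635104871485778184823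0413233001420504245305748121988808084600040391681835973305283441413571815751274865367428710001822242863098715457141853946128899455622237628371514669472594581167958175971688620388569457781478542374518604734042417611836228254956700090999980350469294261838790026134595812149249670257569002983824965462643113183005370424040906484449256914279872267229372790882296293235328286735681459399487018543507291255452196732993167952206520560087110437469120926398071977107992722160935366160565432980179707912269075635908398042316909590381935554995500763184224598673361698291572565161195568321523535101063814392278214956640684528530140311749863162681139309310593939109906011394382474786106436097590074484458914350124064846275561943674735536520068600599112834782243729069675834904536039702560521891833720941135321880477031085505437737574839940563694505095936719856838919326608053427984995108134125512790228718465093190159276275662868096363473914566712669086002906731419105136733658403477291035898108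6699762474715817007202426798524476435035212291446992070028004533809851518615778292749238922793394310205871088243313841815553111231142876253532953815286932233116565727969121510668702632328463724005151322883918802257612164641544765372922687109781625303887683878624408636149928609319264534053524709278696542872211625374882686317962409810628036939573199049151868738059681933685558343082615114652623811117310606908546269859416296669530227553742605943863231172467583540938919768083363222028690861868079073429666325288004051644781038492295640209433850346749459157081343959481575246497886906650410464397101121981607468555156362010803005188655353663602443982889613240329353950983020195233610538105940742483651078350783742016317777247467685425850027001055242446527816944657901333738891265419897611608444398638325581070527657388930329724070408999413869018846340257527736492266609074454614860372913039322040884614483673726124055871582051500106037116552142572157176748497095749348963651146543688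8892367492505925493271647119680852206384463400178913619782161548330458247514812492406910910865560610101783003490517317076184317794673800792985169137141810298651240712252124653557793020130684184020686598872135610738870955630109929687349700828070748321190744696712725875163483341674803691605394580217240904721568559264421148813115320469652496392718318077263654389727250366620303095545056118225930469958184262232919630970142487112435317918834814809154350326620237228982186004498243596610106582492207031831663115212817415112030172853495860469017832057833608209129037395106495334400773780857734390623497850663076858294284731850547569913613684414197317037677037722361580986461234384452941582716872018931398747903532426959156230545498649144494220010749656322312449667498090387030456053482286472773829091852927039320380576110799704412733925587746843658849889842420619610377161386108441037839600364695438973254567671927091029945201695705064982486305813840151898867267855916687966146499918250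9958483161308420831643726349308221964107362906378468556021841129142378464878505002692570020771652071364801006368419969001779668158293685201372276139158853013654056014023703447166797507580803932498209319297972403594198597667098394024510329795476224057852467908317452582167224501844465373531467116962070849258577164318744831710122487122856902326470149200020086523035157249490161275381587273826299445125707835039991044551399441897173851782606294674173481327926603137893523740159385500419794323701739071312341703905658944950086854659084302246949913286304215305544632100255121051704561995475831342684715445284150144358215469050869366157156970965441023381217119588902616569467247444939213962407534820551478479796584309177914278762151270059659487664071251846917215761421123576099374442888807044565092467237021483726784768149469062294923909936559729890837717449522421979446661580978732766269407155757088499634141209248020044876498547749257202939900432358406501959109656528091817544544944602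5966435528729180291312344202374457490550780517061753982048284848181452913162542718890801304444190866488712108809460602814006267077233870540305374572855693807765118265875224340533940780278941618180069764670107150766468844213236681472292966573392079498910630826502096145007662789867497761378491095198623994772062236911565258147265855700751468027622027327857126938696142052640316270964415560730762159614729579579397145383163837338980134656580073572053889601058861801813188386377598841798969725840216394812357798659876902836142376928267683804660778496798765577487103923253837471449198521565120553776405747660761310743732025494114311954107313883048174977325492757180086571869743396098776902974724419883990548601279708194499354546095613660438097425303885292649685943751841532221021008056616864352480104409997715488887000258009225271341848541200378673566331304605101873065315441617976485807074017885198099347176080127688003423909641500004094911634702094962887094357093574190353047115142553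6277321565809404690411086257937578966352982337043443235917253618590412656784506391695016463885404145754123276483282639414533810798217231625770071869766465088568266206494552086048489884723731823324197467427347821867350663468665574337246522032487592320124502572687003626093236469022821424252295438635103243258484730394640162823610287681467294039449627005891479336461949848098627069574497961284968854955029195614643007999375749007932219501953207616619715271276696793598029911298222430522483451923683250653426894063846153169660767425324799405771371067965355116161465463571140788138402622263808168922326747512208421806151415998218121108236565584967850673661521887730338762986967552449977953228540942419125397740375070796193333763056829004626811267283826569196123183544732004151777042969338437638853072666839778540231519587944005852760994080371696124360402682223032635854290124165655222874079344322879791645195697963730734377014250682681651640459690756870240274557814878691853165342436994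0392816152153702547679211565124047448636622917469270542511104230580713326879423991045042150120294280032836401373057187153057957973829338073715010141039383062630479752514598337429701873386146669649819951186957629599510273593592570241255926565125324693104265912840060201129465368861275141432873322287869343080455080505978629908494310848237711624479246374222833754213111336386360110207559483869325398116942264110888932429625899759510164967896301504873347969497903423473229087330179578666709264158164387435761263551869741511362034185277017110229215995567297293809812162056957678251840395354830027093653832785837081337691650034011554946287773290062062032847961547637226426526926771873388999639477775698206662345551668611093368703820951540538633102325457059877723004503654142104707128527798249409448001451438479507070063809454691582539143912744481641399974358003877066288819152917551139879162388504039934954718841407674405810818341252473818272455494141826679250049822642634464273832126532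5551077574608928760256242850094351847252062145224179875311161615256243281377941552725568930027652165292077430356388501247043846825244440658222571070010315422053361005578066163234864735186600533540501511291606157558025145809477128260304754079941504248385582898656370626430033345038520494539338404223015952269325364498989772412224662416197515836296093641448541500690545907574761514861631145789285089845452109102998748819632799103021231496216697987878994880593339934418290081782130708858554777320052661132569231907903243993586093653030625656596088872526936663490728415468095856280087740561854800213093561523971788401855933382062200213953314062747554336769954736045886962217173776240746014745980421616889986429683970987054017949355262721825677716696090155001037471994856845738236567190466398133903243081800888085623375517821822612329240329581035288368913431591631119726248553591813895025748776254359120108038644791403709751323364979460312429400921008376901252172365432938246994593985919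329486044683979888435664389529033738298396771253586003988857339437490071868029169291699491390765115128202654871578310732215904757975762607145023452025801628427459565988649768147559146868152648329784146749111511852637631095640923414220487289142215106059082970405846449383798130190031839879620718040151145528390310636299711270771153730439100640644834399221635753459834695233235567990235443284868436251494270629958160612716740319899960893904479462262278856629572330785606110778851591902590277929678682162448093442692971482066245692466085702276600559760185420436468597032587698429447580319210783892831522710936221034479616)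

noncomputable def rc0 : Nat := (nat_lit 1000157352307194046435284857087310599782697942018838711292143109959672614626042646568417149325773582576616831218832520813273160134717531216592684924783008236663704764960234467887984749749703364307203972267209261404346554668311009754298997403542100503596917400717844791762765931770371529795931149317242919887955408229000225431046324555391900430570125373775283202159739842554977391428113141090562011108201018951845976898044058543603397840601650059937758540177461220761441489109745121531264841795697046219289377503037240726790928345105040668313903077360735790938699248998793809979371202520337544083480376383432701337361600507934710881458220355018966317081712273643595688522047422442452690971216801163361421418984228835038218271503222239394586779272930029746175101936116711150033564310782658496112171513884084404563313725771293705644102296993611827919403673000684984099680522811765870012687462655139318702420593970748489303169619582831008895811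4299502835083186590867330055216430325014786004806832226858437359681743998097789019740805077936275541841600879768712823019807561321158355168050074196480943361369031291074295140583513289365854481902912579434118111542914902585037918630163387812051090906518846685994806858724440131950196858302067149515796023299842002019110574774163478592969865799127134521083955694019879091194647239323789192595075050545859953492209695394590972785952468784624981263884144740581373980369846289735431904789939726292819020709284066061658818320266750777447906366222693414872738843541245309033742313721990448829605308119506565853005221308905727453222714629943405047180863763688042462499972654573806538594120122894222972446535682028815382324934527384323616331629468498332541500344654108546639165759240490929179978063947158624722394526812565387156139492599350102134465973574108485949898023465983167536241876295603319657761399551936488460624086705414557323103276202547432754535953426729412517884611775890603948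5439901790657204252343049720186305017867144037471407789789967850620987197884949736847599508949698028284837972747113351700835612525596893902978416155000238514054773730353125826803518183997957910881568489370432641170707308324896397254230718961636740998783269280200076990242410093702729934632687215804729724227377557462220792810117361128049584255654779524139162373909192168204142805392118951461919194358404917163462093259096233370048647222024597576892096083361448697058064078679800020711738147711145551403979350163110809124107565367098959230941983454293990287868873976700816640975085143057759660861164772786258813130541497583490456291324054477115983154580078758074970027274849891010791880251088613264707285926571907434166013320481263554296165671597803775481100382487324149310937921055730467361136942363542649647416736250823655360520192777802668883791434882614300204906946342618055129822403585631803718649039191286207182436861927123517499882194223063372453874404241038199047576993631924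0098479441566278653526706892923549020812067477240243234093197743074992866711489102149003881496940357695596181158622427368726151743153346093133031473517043531521525655993842572404823135388510408572897064386643538041433429888423049390441672665110831087968069439699655497367935663003522393785276781063937853751341253763256929667783615673229287940226638928788760847516736428064807161844743139002712680753747835939933962809147404421551863084827305621874870690209512158380930017901083520176278821846009076451540459535138667688152563663613739475635530121854049007570956838782484025044808969778495279187029158246820295600810543177194716464861336396475352129676962738688359317643538749604607267567607117535617250071438109264299164115124468071866321832933590901915637353922006653211601186049355390341925868919644562240624121279830941510241959364949155246634555629074063410411387748380267850930800560145175510389746984976213869811281702682716048746087095922965398764896529001733949345300804389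1665089547997397996985612202455816821443028403469100287350087801992563656931799142321695165895722806926235519193234455663972999059515275882882742583911522871086246219935799628835036180986500784693275718945812664808737187624432451339686181473745443610165333537900663876684770586783074794539105181020130646259610324340768883973183534611488824712906374065903830064467644465521388065419823566431343036948582993236536006529436228758300729651300988064758899564486013201458032440444041240930660777115116163480621172638590036471351645423071454246790774930258246128222712382667803448657180625174088881449031310724636391775673641246051350067273366886912027433281966865936738060615936303440311560266395623598743426970905773330595055886136940315377598464307416466391246843152998897588094018213115929646853365466666224090040251931188296333611599371002816235924381577738209170863255661892936112994940658004279997381326150408750032938310733705859572568859858380175723622985700422897771388678141201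4968461489046594527082349961736965164961492357654471330773642610890322397324095372842716599279974181796166428066309422458220019472491550978932751700549982748555554348444271400799072638160406839079033858311679621493087012736871134267849576591602837515323759605542572815180035776195268181755136171773293706288875759577785909360980535530266351525051547622889934790657562510586289467210303319325487758915407335821226562948083148222782265397635097183193331800847945933350164274034655518072144240541620682822019848672144931532321506256527659339684646540810475224659444779523203020722406931735076876913690547539757772816519860237715110251716848370896059907502085504067995599089760215747416286600712964400088845494329782853366370899974876977224497638320617588897858743183682288801803782493161757118076320146725086200335233249162927471351156099543627181219757610737526327247097661477694134117519946775517995971037739639902244252822443902961032699215344365062829116295599268165909793447449101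2895067078203304067502181850921921977335611677137137793128210260457648642165025909887977308771987592587162013917275502690468118228049300756328403780158447081745902770515868808251603795321013980584096520016108082197813766036724990206173350937846451517076307465073185888265356728872438110800564966299372064707279706980082842733738446792917156106351642494894370318796626126811807527318812742276231190231838936887170072513881389921007634384106536823272095249957571925216656879429060215627343501168732155457934904485421881394484502513671307471356285683557642051695809557945711134163250858028475219458049314345293795492317065857505554303418385298065124341865226112667768688413373966327193337683486636206666369306039312747718653369129957487489974075395555843117979658696293389333943471679577369912328943895878435228376410445913678394919908071981559525505601988848302912234690138190692750428537382688069352151831527239729901686506616364657059080770359389443247874199335952770709787425622143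1212768934225054448828133331839821638363194310453678391835853901207976334467707254313935859313249669657837048239956462340986599823164818689699628130885615671039450384133476190275529047549382103233214492256039994857718193820767625580357883332361415722403083593729335040766618825305167783463126139041769584355987358797618731063258790576368549803688923898903859547422542912320203802687910335731308144407390604755480880810756793121653605066880593552771286084787954513367150017260301539873176696628608527826868494125223705560388379302942930492941938533142938877859051944006674089738019623149004987436945918446774383376269400501849300986949460456831161503172042479350759774262884430501331959496465377056363129758671991383055068455095673431412914270487339203024418942911441382715219521332562244605983313702222041365244896155719794495239127925252148040312967407687020110333238134296292276323839767821220456341511723403873791107151186587483243058870478857924681323901025199893281071002876970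2818217364241499775989731331781063371062722149795825091234405240492155498540610812308989874678501010306211991518415557408379860537797732149175618942510736593537514014235658148180999397572225384627673176810477079641363347283697739737045395203262876396812741719126961077992841079973180190274760616351658218340829114725920080229284982230160573596629182432408487201900855788537822056873794981505865842420332598158144286433799241792675899814366361060813023649568638926778553348090400290021681733642234576509218921980360052233875555247959719092424240996458887097490183385488755756563844964963730465240555040845204905401214615778808239682773401796239413675243988694729966685585874471250656798053064766703805109679491934920946334534910074223310605034836627645635156972631775295353415879808942054691361522443005076784802491814504595106987427221586412517706667489328921232031669651877946029336586901765725160332362651386518412660739252847109589476323754059796438482802250980375035194087215569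2801049904193850289384388209979560707164078841964097684891717988274156370646653382753539934184100794246639497922281717954892223816245270214503195877670068333048595792474969973040001323442104213481936098088881634712038256164320869267390430038298823145386971623948686812231784319097352871734177464151118092197272559549159020757226370182716321728499586324783559051867746451562379075367302688907775769482854748402992510798454012848424752426946953501581390542940754672990669729296569966956704574581817963734230276216737411670680476990086613344733047296037245152155637431059391611703351772854977815884260355488743974271738448034183865763169843355343173194934410383557148442294764120822183902670465014993647207139335033145663493742745250846480842349890842072967772953196257916710487798571752656439283497374240743461968021127037937515600235232152754524106684097802996402924581275759020051961039182271339252199251608845656517140659976504759391835294065563829892198955691884209501898298446916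8870846136882456951421641389043624370157737368234874507384428285458593873584654449209411519608471602680562325946997805918429647483358458630494939057326117787398333727482874927062931759372673821138565284937490241364884904566842108188763085230069339662294877640508471654255319175851503028853647152457566973568840413762569645095061472832878863590551552989774405722823252140707327610523232793932270645726665327942599057900634806195431958051013443916556801766019236591110916830626444825755858033981985559705909682464087519732283484303750949412950568332605958605662913079692522004201947797403438845143341928183118786212969732401865661823046410273729866474883472302159014166574789732221732176447231894987809927887159931507257363929416654501855954942315916595632065474223171899293274695844546912959489329737564267418367223215025505531820380204716958512896800579775979804974458856089424458778693126614324989596508821056168073659628448160183530997975483943254627999342927106470440105850762479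2242903818770992879304069252391992133070551863432670258887343156756170455155070085072005422872278828786579005042297959125104503532055052011539686318779338757838578813584208915918323856957398636366027667230968989666900985223434630932647546563250714657495024894184969457330296083871319542040757979033175904684877508004619697366609723672530519302847109753193545672658223014402942957685415302288758902690944287508997219846819659181219347911132706395932041786070591028523252582849517923670189215602841439254093800565205019277224203089734758858455351037359275527845981050237791394292241480910190177481988881031629886879044870339469515229896337741591327995002541743457604096617123051643145894544826697874796166065963107885141240118959252810582541606397323105492210994040661915649934428535794057120432036602293470943075268038562165044615672235817356260905400873464360557441969036531671560889611913213599869686407728480133649477136891665080209214285304554372410422874082181400047919160969332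0227042386097025175944184392622153548450202556121100706007986723628442085889621611332924098869012080386877250700418946909588306691978884598995153609180832667047428261607595254795366762931723825933029707530653648298174445928272682030850225192422905771651267462264034674980806518467787707739132470440315512542584832145405883716180607928533469295629283455789378552796699891847222811045307636460294829178521142339621724272188300558400377700888117975771992922181677945532769386511992313052552064157746013891792811015400302878935290478277360959538361113941409415985223758550048073212809301993117119312514506880681495970300751955262898163768477678095407582323936008438054162749400035276157272344448595360538338671601876630018271282665380325823245305328352955401241164124689888646574082791680570878187275831637676688962326157921935019352084569587364461386587250582440486012452756230343647550590012355497484021927575678275183673976786971035047576561048736886086095030051072794828555991365408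0183029550037347206948627676939990046841486794578028800753885705455848897788780455918094262338358174900336910438010181629957992272381270619055438359157751063407813975590703824629725011501121710988232825264088984720537866972276029556205674569485934126911374017168139068957691433000566081022571616907679540374811657286100555895826682513306754615789497865002239814859456159915760316218218199148221010020102364820688377564726611811012840948088475832433976469496290992305015769466287301075023691532697516390093018647975847875722567418375647265037356062385062636983150641398805639309516038827471866209340421301311586623077340517366350379395641496607376618500119102988737599812541226752746763873363058286320545010546977756522186782173403636733526088514830862616157608726272442256027992785986078518135831347782790299819689664988551011862223174734937015475244992099276097651172290246123556862997597901462525238693811250703272796201455537187123616145092354690482922410815062306831007179114631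0766330948095969975602568436576833379649020909989781501945879544796339041178771524331579178325930526920707971193024006413938910205691376669453481443688153238415381068191607587489055603884105959128011699422595816885008737260146702811601461435538017079153961835271718439637429797726325920693431495656922213150732652015099288060953573142853342560640292123135599522566049946890082320120446880423094192931457070505645504951266457428766789309022709081758240648694775198649574050889953415322538069174907769518689437135791245762479882999512200559812671136886499658366807104766355415156379642114269548906497818847534579321210020822371188456677168484289018714070717747396682934781420842968246940205771020502348091508368385711080242408637830390888856519413634496727249342962385661383729007559861055759178478582582233687337606808697397104355392346713310396824215515288099148190809783263459355897374802671888182231126838652456557222584145347092086711762557856946498686389820141865650903346361344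0300644658861468944872657286614406735141849581559480143198617209515697783266852544055595840153101892118428375232451925384948632261618419253563971679841816033031262593111864220173118793058030263512834098835543575639132804982430551017118250737647570978234877907283807328878561809440246141927049275499170410956343619145190598502670744425131647386626854996062284223561582413944736364995749226001104116798691073567198337967283878718056760019268667020868591673191060784199184684564663827722451320825226194582449573404983387352570922837975130502633201630730056549783276261473084166301736791254527180509951784767774834012235841034053071365984261961545737330134287307762934950748048246854911141387442628616948421317750842369482085567293434488023200738952916220384010147987380574697892573086628818586271385768676742440035501566994593936125251415675370257405473860144605923217798562383153462393101333152241590703763000158041412200925289399017774707621200448287969486217841337090003993044204245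0529463455707242999598752834577670099839353117573283918012170404826289912485415231478767244642890075798622289307605076692485728230144909515854149609737066656647540340787598655966641083563201150464680073525218903132600191733276750777794125107753268523721228913574257595732958526758989825516159585029136998801443603088845064455254370469286744636175798886240472482256603399105403697851494507472193453331142534110146582261978881846378199634696752093494671137668086460331569880108514379449794063545100875749727921551311549232862457918661907811738941704272345634219088306741799731443105507605201517367679396638546397671993567478206602970374186716986207621752313675000445474932749844708275018669412351391171454991602368359672415939308023800249990192365871381493139283728066920179681470655831190427441973204998006124232424675316362095733279342597660632541275838183210785152412064599284458759599937726025170235643768951613005462975880312002576635902108551988248490059819529300311679497175226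995574013938413310880067322197037248414466800595339383210759297047519582203874518069711563162108540842924709091339632734068962000804631649662123787886694455916086541127175101730136738558513722314454646435458572390312836685314772049530902656423172713011797442539650253208241878478914079899100943653603905152867834660755094529634187855268227720180896095102608551117770240731985719453122786819307106755657193862647618077782070218739600694846289782850209749474503855270913082955978417035840566106778757211723583182166525694098363398078451488247542558856653907147547822209716615937334732673469323218615246649615239138508800)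

noncomputable def rc1 : Nat := (nat_lit 1000530362502917932711219476424393265065894627802732021481998574725627150771385283909533892906514354536279677084733125241000432271952127359938627294640964773739311541544008033441849958023506408067739128949558953086786699030300442783224708059724164057315145055614855675915544166055353628641636692575088277712745927236402181461023038466566607938941723454027436552500182296120867901715477815395101007373093996823950205336276911578985067142655032565273032652170708758501821149431939339564801871855665731384265782605615019362484798049418363680975661980291755899537021155680340800116435512319529651283860149147029795484305843020247631307087177261763999447291150270011445205566372498787681849792093315382197556660646387377677021475922799428942625447176740120800513777908996591600549483313231053183321880726324474705476172438165297691000057830464573640817717275308094499289999927218363204090758219526842433958047844871688476477126372750177962287294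5725521106638802542970046202413694538219637505375152813851810035899708609158412022191570785031545870324112439784956663079490093378479687279360554263875190848591895180587649892097059651508350747174878492138913170493567056613869256009258711012427828028962409562904505685589405707254552404332285651041627918957871920441834786803676196858690259189651014908325266088463732454481497753333350855136104536256716068112188027960010001666878314632759079669769625974185844558330754153821621271570242099912959452511791351961126511195928154018109410110423652563483889590157516203543694747710028701750369951263763855748583600139973915630459113835792462277612009132555382551132865179099399669762736674840691512983395519375035441308568551095289752716981669849714136784635822815994510944160974654108691596426467714085164084943765359211387847890736820269451013875028055595700419673804168612099007859247774436760332598159766326676950495857757258091078334988716339873291582816444232984334943914014703171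3334557680401090928928576105790715864439348821245360504422717530503246005062978767642403610536234912857654004102144116482563170684453040769333965198731698901385500135018014066499517185546428120847473135016526455975963716702064178873983238417835253545599062119802949655983216749492518803186357925102361728362790178734964594949283906539279974657338584690574488901786475600295056292322300976390776662590365318010444795608913079181752577206544858571258612770819974854052771188104523686250548046296806026201123891645937555979670817500906594965761813676718662993836791769080871034847685664464992107997400682093093077830278973836606755097698871220146022459183604728823192363029121215820516481096606743699049229185444475507973338033660957228896508747313717845489409988404099117407739324115088899016769362818371796366373568337063191173976712195267652421922112897524960479771598215700789894849625682258813656823336513479834241955866835581902365199201206117822712720701164444737079014624617894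8432915856443995821241581406692565222379219705019560190463960811634566244240104863625447485827658361653711375651732792290039120020573174110675995044916896584322478061706387057286667145755788542993410309504010874974384245826177421143789945836850837473926496177459731039125995411919944704639247620796183886690060299245894080870867731645235352035256285551149850296581274687907035683452016004430021361017589948689275142278010469868027355466908929706331074834366882570658040880463852465450907602043866370862139689534274920117194081158317655633605897409101795450750097214320043495630105162283243954825635498146043489589825905580248852908840918335642673598525050705316129420464284935784782458595334133268501286433785544030634017879903655882396060242570418597974114326298703179025290969095995618229759364881402058596400564996249572398761728712758381409514910332188444491710302464105966830831313983630896057358172987130882515928277170810709838115603197468194114136361660112370869049019590376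9071287235728155757776655264043994876441359743666368850694210398781394805925917416176751664294149064839138474462985582030840501740915451684000056325213363709795966406745178716316001934294568834003277797349500890280597307578056765186801646224842448615665331466495030203202590801720627716954702491381340631361550746497544378301092482579368928008153890949861989060420213868485706151479584621942346652878781941439048145875908769899008173443081854305361292220936372274237076069745012230384580861384799363770537809805132732465715242310326599642971548795699540782652889025432445964217612733438024861875801320982856724292169319485095080590156731612155618358717432267388146115698145008975462512527399565734314317561152787655693307722536235501077299836382765800207878310842365548537934679812052707347391877256011796147688696958659533158655767001349585394439391337380146564886096546270145750322549781545406457871096216144750310368958632762045752742986368203265159765854339108499307930049657642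3790541768850953072331076616713578866393659439865611553948202302565737681138268634998366786346932934169430389206798888296920288555815225650835696589017609981830043307256863903818376298657731485464086842106030294220604379948236215883925226177165395684971176450788021430570435809091293821374468957077442303890658144327514893379046294511873992187230725901208775118214296607818994635724929844899472390812999885825920438934637056889925838784844026754120719437691601153034260908915879841835551031543620697863420890851517416867899711298486958326917543031166421742882362122230574902771761159766605738328625549048704312175260044099033813720697066568662230172587995763697145103821363466000937029884715426178734302088935544329426775326558263293036076107193821771784115706725758462161993610969234134220146722257635144282342200731566050537689490285892041785293987395477116408448526849081246519252025371639999268954858640363604972283568857633825332072676814266917400180964313117093261215272646727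5798635738397275336364398150270566954382998992167484881482768293449725337036057343996371433270258665142660028654102512022057591441281776651093059907286358499437037777589552886115635033955025581830241965335933968081450434655203106382785864360117568793125146602479944180008053296918407975857199606224742894527713497375881171122995576386509331092564008188333811027821638564563840778022032059970943869583853252239796417301991577681791278037005119700388964878895679216829248911226205659738513110962309737174420158252034836987853501766887528197553200200719865316218421856415845714710524878303279591505728434072228175979151221193800252384283508172205125947382756853116902226954900574362104654549081237710904130801793985667179414628207472911677639703703727604913720322644286093820272932436027649559785190978129097809536256026285449801365595652255497304679276587778874597574876114396321824548159058162738415481403250913346316721953876478113818202542234830182496735762957786381457009024018649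4559007305176863167554191984873643114162099052159799787126549793209074738448319006327504892972331201694791359242726464088735668764926080986404032467855730343673991746587946728519481421996872173025385804939158141863934846159818948053329196477362660886761029706538290759685370712105415538835370855376723399138262154167091792794776069001928173514193648273643402372067336375719893346969397190971909567913058183476536227282372506664470254379462596209248952573884726879948974630805849134493635886978573550868876836775685444155174409076107417559878626499549888740413689092594481905094582840341977137832331922212170653924022943494829396750667220821083763738567828441729994000713559307011787047734087778314660600141681478241761754034990982290886075416281725487946658107693998309854665056025180434064513189901579965448618463804357476705000484501146604696997582117443593331116436303248825848773714398092584011165619299171651271508170232527309802649619112892040166801269173239497274847286336884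5991101202004064585506300624862825360062583927521777408532950576250059497026543658074647264535293000634539035685479439989513883672642473456941642038279522331549484076364124616591837105009050484720469536305707440994923381545749382188213810884116338754535375276905578276735247977779184843245498693486000144012915964502634471402251712554767774631524977979553588820998620585016854696317717993352140557104490358473197546290151223395483402541998143605763189582527581446910139050331505247701665978130354478276889305332620164054741042447817842738499399294405328087800257773020369535962713176694059972660034163014145431467091512610024347687229385241007693112382882826570362668696436273236464580766581959891254450258625704230272475198224031004745534689199689535265047152999815947041525471775709185163341163731501809494035515184302400305887636566965594238129750259891197653890919333250099365614088472557212770915963631142980370234398399950959654728851204489721573631144521860818053510743319383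8208763317041054972808216203228386290017562151159506124255999872416500347841450431209483582646924492643161411648644329811545928077310322380089576623219932569796069966592271639111373835867920465931030062264395817087136327984857346057305736584171142105524064459645777351440802094257644818721463248121436024241825839000541741051584409376786462389085106453121548689095024103747746836456737222193477341842856977941447901652743772004425974378541588392478493023399644461634658800572679316252135633101967590942204107795331938075661649182150612672954928931370790296140287591129408592794544690860074272033383999266401452182009392892637902143221984171056065307832147013810626043102137387636723539242071692826085799751761798747248657401925836531524757237204986586963534283212374258013902708391464337267682240167446026351415683523914973365754876020523875921242641014149786848551870755300066695269994759025650792166612641879948976140561651242135990141297956204629229047709626677000861959729883138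6087342759400603025215404451869088213988837029079222543614697392637327178723730847913757060269002864453634076290928677858888413208758018630319765437542111569546916830393656716211370895994856625345096344740719756336933355635743877007881162287970415283590231339794475900832469142117661278341648899616612083982940684108967312484674626034774048726303305761240161920887848951468312216395253141192078372519785465158469431839411376425049035351901378660637617533928413930254686324409168094245298262491356822312187737286465181227920534784911341611983607732725141698806810653245983836175350842625137246714404225792498152064492696024835821954065606931112099999162598316693730285800804291816108473164965432820885142532388286440087462475019664185950338754130650173083799150145177460846455170674344087981488286520663424034150221759460412208914191107838244373811869458924040926618305219311143579803357429355397510479787685597312144808361450682235016570491792928370065797304464150124149651113820992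9476336847588689641563851395480859801763659674383305879852268792679790104016624560080496291443397096935787534528665016734168869386736954991532218366108681191741773103468396581172234605034742041656192680408603455268884524425431651454743565002066275247279621620365607429871737789039522686991002357095618190115918460654000412089799088950074889008809961497268227474285702130174143969997912756882743426198876143026532409850892582261351335654622312990811787261304033501888948301046098348455076915461586576634086900495777948589607481130497536735110516191206794481823954273906147938895082071466580517971732679543361313373744269604616885781402732898854783588646924462398706557572288550340127954058748952358352200125109079282942691987669453102540985977478262965327464696351146795468840975284518481389315665137588698154036795090950685375316102275923455471805820995155534999920751361174173664630818263436075502790218652259250189795590018190719804923342253363837589974707956766323386125531540144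2848168391144868103333374607372163152124099590014897932984156576073665574226040749122766776283295580579076854989370681497519695282655520490260975732441218759296984927407760603005611762189229752739741891933115520380068592456853478549257102645072203632921953135083085979321370839285834445103247644393420295602227378434301088288600643961723186757489081321617329981460149897716672237076426415447020474491131403521893214589747130550915495571178622035576776340567588631326678002717004062947581502459960010104667291916656366596853991086279317159098145117589721737844414227773533257746261955022797293544732022432549121364485472533810881660197469615099001779406006892564593582089876650943715175714658024546379342595904994160412584410164176155671236386794168802155518823853084718304580205736344533729765991568334659794157980662315968771073530559600382416408104785386741352051661602295918391971708279984883635888613296861595327861860581252199398717549976406306642338541644136292931327110760342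8819241998907644994615188242078882586170001719721580960144464737356628373155641945128663311229576990599307947189775122184671479989502716610058265894061204785700702680040776983922997006946021264193368451158078547773926087999284626302036804182626451951694714347708439038978089319505728178778378731134577218443976856482393210869219573921556898770035983247705255015952215396827329638259542257675448676277706388371003148869640809688342720905846762482599394131856932585020978516688654352280954412729969342601052423575120425335156524800675610061121270992813549607422994216827518200221535444386775120509254969829701225770829741460015198724539165417667039142346890748208405277134149437047721103050503824103757980460560893466377355683362210687945378532652462552397420808729280938139130528169607164661197899944864312269105182672921695459257912793785164563942132799263354965397237747533486012610740675156800686912600841722726101129843396622185973568367528539690512701051104023379142977305928494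9448938417544853641196608308706067916622797602246365326103919785061573074912289926449533698402970905974861001830828688791019265660654960239760939016752681510438982487436862072800413278842364097758801361084996689888443541378327347804843862632173754442799820067347651847203517911087361476198339352499250923552266108704863566132241875385609042339407396728574690316645722232059276102204831318264741184436357937837112819000820079483548662634882676927716830183367636163152457867973038562706426974983299513504706650152634916952277903805942523356703646152168817487093391112277763223936804683131319751818623166226227744019147515607349783421009781672514598902562816543712517861362861932111852890232076285152804885885948952385559293658415610865736585859686856636497993913246872112576591227560826564340750865543962603297898912102325347027096015129542969615685381484301816680118146301243270110318443576688306020437792896475751739068958906412452609010791336450411290462155905530993847160382579180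9489093325163606961685116092982525386556465370257828682857546248371811514728208139735708170544818157846648904689540584869191503755192831204450150553181477402241390774565667096619263929951539173651981524443723112095953665177341266041654309491782713364379366142660520789595939738554323955879371247512355866490808351336163558175926704691104516287699594421560290392602581233686706096409141251937890836998612152397097904210452315607833367176296620973523207910800198429677142264451273635241812865012219626399594927489795134922819626638766923691930898628609230934368340930386294984037091421087820239647369495946161730612809754242650023108995318875323553245792024392047604592964774147061168463829199646925862729981630874967474753634257867862335911701094727620976128314966520746004955517517681173448790184172357637057054874391573459518726309647135577753812282101253498370685022660180485312980971932033055480664607776709848934943031021549105199254835062987879630353063365658563631184750308418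9806452038046870459575672409881385676685525051044776842450869623326844775503292067287545110623433321392592057147524174538524794897158566921954241824629212461099579858419445538539583458435643029349677427551376475167463370940578760992853126047780669990006610159900852247061960724669519099934652229816355382797361332901059206260547218527236514788346375955873921112145182530499585567986387032514247228799624918029520471531007117312513992198947924545013406115537017762060322249460906772463039673076344386709243143014047653616496824345517571742798689573745410320254458589620381798040987671972175780391530542024085716678162285962564273879793256398895845382122381328791101140149792741843548334696414359723851233892098986573053979143333617853188169368463374186378247009785324482218147143823381017446672597554315167252435427091826806695589999977916211611246897365797934155572678316784706864003145392229640246615624579061701101047318721561648587974124784747429395277180920274350955790191987986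577473139944046027249348963450678269180537655984994803287540241021095110886275697419706066440745700191101576206414487161802977388960752635820312836226555180931576225453045334792190901755430620406811447933328244965416646610104878584788464268351865399122650665706961479866382900723026274502658524053161526494372387608345304584718818117038247276851182950086790838404159715928231851104917403174066117056295458371859191807579648247777649765833303987240063207502384528806632316018064440196540743019307971543993364017036533790746924238390429446957230306688020853744600238424224319283685967354787340269437978918377431257579520)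

noncomputable def rc2 : Nat := (nat_lit 1003218034665449612299031123883194797514408244065720357901965856229991215230725046129319032344252007329800811635337143944818882293505445434123621063678798390098072612016310635083277645877840708376694363778569656227474306763469292849072948472862727282053672877219830813754277344135066365627926805765839988180596478424783006521165424666504687328171763639502820583141211755031612657941549013717009739929303730942907810550871063201128084874133693291052372632151654357764309561086750395389887710161256581372811617246093660355768075529322872791005575556437716042821846288597805191924802904221860456892168094871659900605970307113817927011767368041579842378601019985618165445572935587128873937391773429390181075908912691492479583032985196748972876933899695197469475425606380578872335664113050946947448339518565963570367863731915355918011172196990407165050025604742560723207767160446262761817915162776848110639493349287987189359031854178627100752057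9860626340759274920660860573403373875935570242126932047575813946133567034782121808477753156781401926239640832402558301834190425449321445261340705891300192766569365951584454956041434549426872510992387458022618397276515480287520024562929695857608600283900718880514870094034045300808357383333043857131754203951562605176575582543079616308375928322811908365814149936287272911298352431554365033726382487808056278750432404072352136785038732585025081839079435017643469439294365502993658104616860596332875213164875482492716941631468974737361883350048173030080532332095835692166881362747109880310215494799717247082753494981039062649958548223889293710128963622838289796632218092639619080653243214183723833017491722997545828043973772287220188208883986238156958741812810810157500995718261325922189968288192607763331094705672214375887919610102392561503128478034578483448810497170306367887266016445053355334153242986842632454156425080270901348829914642457333496261116790666893791979213429092503777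3793261743393257770350971612889092198026475025701775968019346198445195563535898531094000316142853329593831086841457267468081259580930127580837168013895187474582007161655821113401424161260154770353378143867824514877258599505518877028093058193489385082370795995125519649367545023282172865414136967394422619312547169121313449628900650462376587745227094865277340913403266693363199785846743286522969220240790953344416851919880952627446681324756113622125330922645547830715640339658927666870187328379348639945728830835781275250890477959979056043202193397342700589556152543154938104536697901864374724382940201620873571828777940743266349191768158139069563835539694424064161400462431072662206603608191127946315917393222624996940625990513491913868228647012110085266638120599522941640880928386637723535420542237871162218848905673345994157734968629738627961906696315329566712031562606107948937610419326526280975301082172335155883129124208378748055310654199488639705942763539525050107650971743506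4344032659100664165718794509784730709606166665767795266597238484402554700050889727395635703422259530367692541808963095559202612220295754620861370624041701871936944985046489316931164068107391530946516347728804798519284094482072158738364223144550548110029081543032857202449957864428817697066648055825110422555446595663187984169354483376875832438295461044189078263095994063940612519826818609738993470449960492013274692870728769778856447126228826151892041853950000445339284393841873451502873413177581486436476175363446264515067790696234043471944329502161520567362234043572633831141055475549576670283980018742705211095209219251586885253771384097198877668872962923882602664621377791416289422878060596769166223379879532626558460130849820189597253383571749242927246430727692008102191733799850896621116339464730780506466403725396569885119275024999082867964206003066879973156745753963678726545212957853478931033053540906985124237839218469254281610184138403448007977600757595465267994975069173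4695348740872531326193308734109988088156726201532316393301197203079453021478408274028245369488949835142160360862096866994968814823921421995533648369103686389711879910584613847169033846506044807702482905252124536992899264383459251224972983934105636639788465983614089063868683779858713496037289608744837236258957596154777700947175821202587167591666619982887869143349407731013653494224901148451672874683390964659332168644245749404241400363607006810726581552081674095987388069684109374201732170749666204089773304878862002808683582326117417070051368069316547824103865892652946619003731720800947558128693478582713300163536380601349985202177575333579713470809252975266347601456716707259348340780412254782805412739795605021143558411232760505317294262814097270524920910486261393880268334364464069127488648696802017219168868233974021762890381369783517324424551344572684690241946678039846694234177920303120265730216474218099322225379055656511407392532807767494230964125370672892609289705049094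7046183208017358087655738824846488299773288672019965917021561277586238183128628786013743109232521258427990897649340425248818722982472379521579067782863738284196011174688242277826255851228793652100343492593064878182712870771733550590845086369817252496736754056027458282119195306073565021371366394828380281723208993644262670182738935717254568137715366083784775295561731718959729761783236681106565457702353242600046205695026705770146827951961174771116415700418318808176069215073398140264142159708594781261604003828044211789118737281888353115578412522659895439425711701384820025925091448603135090953608852539725267438443258904267090656013723252862385294838719593610629192205943817550565955146712748126115408926337798654532660687157216123872149791192223216607881336276156075887699811162447541042047309574450924754001489449554424920126020279316221622265750641061845720544296865815904759764963934053391260854694037030310194960558259437936775342445406697771230373933273067578801687724739300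7020240784485899172467341906228723373052355844695753364054705289359328329372796085777435035483908939194729974539019595304355382235291062087107850465845108429154755317285201794484972475642338573823837100170939444947744596796356505617670045994715301522592396786157353032248560186656520211687151389054534565272937341961571750024738268708328776428477258488177025436914614762435651374377531257948416439186517381746860545777670015224856651289791659174610371683343485744279454158103463723623392907129227526049065672245080808877053872937710224293154996866988206242882836270637286998355775648873468594700362353255493861885394842990766780055481007680682810238321806774169290308903242278884555870166411466999061664868295606372529566870467983702950815963623044730773799052996658086191858637325346380361906741112582317728859147475966158715766010311469312004095520829352401590190366759127598858277151267177190601682016244160437773406712333672953003276336578039698809926357069084621630197862297280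2459841264254311769367292694347214620563268311744693692183048766379127370129342250030416696685683249253715972578102357535891364288557942916679275072824445774641753682117201246123131173263612816199380310639091054617439845296410245848092481528341508114522685327482890662927577017310436442462199661451538580582988241961500453997766709346237352804680604781798220374332393558976508342577500480031555868090024556305095561470108422213005050472783110952266854603594240974453743611474011571177158944805693522161357810603028327676486359118803855602315593741249100055942556967902075715608867245905737370074152513728636779141886330822822429481157090573516368583716727387105434474872569589078943144252366799462789657603857785058854264590858135548542418560486233332799379803404112090441880817630096429044806910446789653610112783900941533416014401873891045993612732674698531717858130416576394011546475181972981505343798225053505341120493508823058691138216873922595695795783351456146726260904088720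7428708964774522609051049813687501571577076193653714391362557884020142399413284017419370976534410156668125730225282764485080823502480097761308199009055650029849892292599298953209740715851831690709095403590376194139118202310375779958702799017148880893908143042970845763594327256228984680222321851763242940748782843642720452599745131122140689267169312179644551411175522292830096832291709922394400670214448561415210171595525881355531015894653902835826811784756398103624756812182985258235727717329753350283926523281681342363578132529124668880547070024836372893931808697905831120841777324373297703588226317777469172891701726676415443060980072115993097148833150601639428757294947429181245163423299543225627036897783398627438131441794169076941834278771804997731053905608118649084490135104437819282861966247680759737933288833041074079730611950589965183762088856107773886173308987916127485769856885292868377302990650082733270707522125600660869391743488620512994161090689578267221510182397069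7601450671964601821774636226580936025725896731345581128762871784292678826518886790869621427785685867171669152791177266330146612140723432066110141992484893127257298984212049856713977317609026182153680983830403132998303346660837298577825281875207936420880647036942927117412289972553060150069462781813435773521744098046263089946487836357515680312907152305657806971782375105474604294674735315756216228887763457499216193764954937113332439409981847532722984368060988234351799782974514246037331983070772179662536269263039143373564097739160153191698593209156236744982546172080233770745197718335951258925810091965431442793721786827007782649558043621490273786862865738846261055486339173343260775300415435973678435839164196553751095330528746856203299809222990035381629646001263629664745604419143238983993315961765030121399659085391136547768510707125634382637425544006967138101303207147026959137855796015183574295172260575910466166928983107118346944304412797831610913934717260486429855002499478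0592418778396753767525051367426860588481838724603821418471434186819865619216652991797160807725761457989222255920078455354708088437198138137003148641460718051358547289289040440189447750994947431131830373143887455280979951979873453851365089164924507833773293921353376513414096818419150735624126683120849090983663458799485830418924723055902448759526364457931649985988557907773671951917172717057660985110270963896078847343863445660304312455326959277355419028286083629270478964852981725465708758856281678225580224331023115730085221207148075595043025163440413524198476314820211497895631526969757809271677705014704501587030844300550489485949903779248710811349526878461667155746559043875739917321287224968170450004801604979750781648051375480918556441614184728847261591284790527563274838258996509445366193134948298072605643577170725722226092175951272357866771174906257782491815233409872497312608020033447673503931536070680094858662130114706260751522979615865130629708668868955119515081303460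2922821701320093303619518614790386455375549357057058530959763683758461876916694222789702702956968621045218804939046161329830818376675437251856776213498976334965517838338334092355182163053092213550643538044569261678422814742864659785278877585488105518986613061672897602298904880285846502586773450933016854753851132920612233072561346294896287076494463976513502437927041809686397799175376820748582942060368045556750492501433018892772694539840968060997795756084294593408439094488510946057004786538485354623284881797237661222227639744748966097946711428456715826723499529356062141586780602260013735866339025581761665789121117615400493165152106827541583114752227588531265502775072471661703824321882059109360763785367592693709231406649883445754234060513995598874529934610160179108110174600755583559225951094279494938046150661433747514209041768911003487406450927844729089116057843330782803760818468082106454841906970939063691427741335813186754257319102847287855481732083037132567478126950734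5062606258649633473544752887503361471450663187280280599059030591519523445170387852790889919116625785266392216838324868973826640589772060620520714311943212081784986272944853334056133855870501517759289688816094758706867274365475570941802150945421692245218388127311678939273653741501928113852740973635745912367702710745125569432297949992118832283918274044723160242726125246009171791336044494973065324569450814775697692328498404979429092237331167255251048788185483153246090404985461862489520313802344055273434446069944369823949077967184865836299604056510986419135014052696557797578096482194885734572886942936502488165011418626488508014022026999665145592307922008964409914074860110338724361127334723045848367628283601375107318251667547438199925565793382560859694920327617133854590260328728891499593053201215411524315073511667337959966573406428952545726108428880245193576393796563810581119447688319811309692423469087428497508381693075237838830835906383815130432844875486948033268462193924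8471301001403237067767234749355902854247779729499324300276181241031027277834976695049469985409293315999414947714474526012194207100724989597984934248929815882997354664919839135448487364592131671291594863348980262756080487561643926203902865182277630025704553989649321678907659255720110879487347348869512624105018877013299505380949585549423958068335795254302456020823673796366180661438892359671663704514754435816369093969829192254239501454845881583196018729791598753582537869027485986209984082371518026593857346920721880416926822214575638190980873982521604202100371142407406474246313958103230557938306142035379386102246440274079778447117366394324571510831986348709017696512435467885986003339994859715359477963468536019931936204333123584302295889559641298993576560730727005190103565931207578417010394757677971613059459452080365118526491203759967517642484828072860237642248108990475701369252183314649368225996403589209748669703462829427559471793932999182766837460009316060243680059868306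3827852340190051716490445881623700601862495426349555832159497314400518085591873907340513449326751222319182612725993923300299305992131413324080307752634243436806278663688655364816441204497451826453342338361288016605023163216959437896109225813762970033479230611002353902804143563845821752827747955619002340439815706153005774189393553985271224852060491483648932413711320767395945738485695061563642118665643923088558093643424976661761322377315306506058190485361336481219804203318684434678026771902131351837097096698651608560031810031773340469299798675681516537602356430127860314631042239153584803523111800665650818104018289675730850907978689808771976773032833253979946738322773771447897251870049155561350023736974496703538548414256578788706827223423689029709494773099320857831513625787236224507474344864504860773430200363105888584958015228671823439742022649903943924338002750109292160328634931052596787052385102830172838398879824381908046171921407604052801342714464138682526410211803926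2645811108928281750713939226405832644890090358192553045801388500445290521625921856397464150450617630130672144850934268091752511817237592712318278658921372172434444748110330995851312628081279891773917430368534942007495379679063224472675244847724482893174370377685924037792043894712822031972531261061139000709620293825151553513845795828594068814790199976028994118679657710802301370011188912960366971625818474812043321566188398810119148523574923535515176264210134149872265098761342714876519714176292754508442076009365382021894042657758006086294640264411599992343074951883861778894022206445431550522065701764202402696459468063621839658959134381628452633688751278562943821501479697773814439593474070414500538110318099103054415559763948303024045338602358295075235566755470433363953766276533019659461127731371701079390563996492793786971155606695351215965085966378785275533691365643660990013867765370949304393855548619337557032599244097924859052102577744942704699822470019715157398650647713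2746187047295860816440726770067697706076055397755358664188120825428892104511024413459981276485161748940558568084003219182325160906717559348532676783249080240713484762616320433043746586356245813179631574187294292846690478815088662826448133428857980949728656316977211667035748756715853467006623539628197812089538800133052211124881787575987739442398185266789887251787059131577648461908520989039166313647379281987942320594499525072853135173089773121084989569271314026340722792707053446189808871934289872524137935851260886853164186026416132271688137697325358863807516925703648332999011393631874011512931648212830431228316823106076709215867668881516554631368787941943232599322297047194431361180869643729469163249215910808318299280799775801647669086889299001524935187235594629083384809765730553680704688973936253559288981865584371545750935406676724692805698547092738524016462100673899201687039712427595885929858870149808060206563901468491086375501814487103198987421353033276328944522147509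353454912801852385751145707617202982475231177874305102227846996937096403585961911875923754029218840033080351449728330758450871955267227695744568063590325485383284452213646784519619536855887396869430852402670307448913009217492069271819838443667220927968168098680823304047926862447854784630270731937176848551623207835064846102463379888169924529394641812964297097078661721290667832095313950314235493969388799812635309161049463726796897521038161901245397720976988487124335770267584905947859049233193972404262542575959616325497542866516386937856849164203012229813553597445450481742906591494546593081628459492392500832763904)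

noncomputable def rc3 : Nat := (nat_lit 1005926431976208559479625628205690148548266123059383935750680494845317555414623426810156776186970812240096938624426343105352963900717229010923350057433006066463168717590911741729008519579974185789865921115403954220321142893447018196647584242810088046084980092746901218158961788227877874325737763617756439671186927048311737047850663946770415037842896496725693605771727207270963465794123709586344303262437888356479848938415725712678889887007212199625256089648009211167239966416750299088684814901313167903558401201313205183693609112152785632250024902088077595770031311088611133296165944447357739879758097891133332572377908574845476026950335593896194131039970447811263908213976062062299468648681027997143926931330397722341749823441007935294351844156429468508088961177422480351236999316129594226209443865705892871585287055541349835115817078890823363272662977564766838104202938948165969610209842109672893805574414314490453690388135720415546729377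8718276167813723619856735288138019790975401092735818652036679994404751741884425282403297566328615990967443583294711633614599454704158526335656706259444153442584289140993582552518825398037582981345861886913962455076790526962325779158993053678090845460503390148670469758712055327211034220172287444631707342540545988748835794177835635818957832162708066031322165473432886570809665858153641732112408805790717149883287159012658020565055118718334555541873048271896467005459747584069623412731745208452159895825677720691069046236317894438726010778325414519436414923006657028806014695700674746721119229381812485772589857291110994714630665658155694656469954680755633580471179408824564865002017738811638420382790610924572072414646766869619143111868024280035390169117865978120631756487842853747112941550613578983314802612153519267944705666556364941604660044643994789684328655881084750642154156745698326107346974803691317026726730696593360255518739732783651789179250576544375005434475978630682612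0024523842290359166494212981784285362533577571280189486799964626990492178305877277630552740974243374594219680407081397092620814156486659854321567746412893931854440550962398990745871304486642698966085396323531120631891480034023243126740575760153773396864924571370639885990268728450667960710903389472727578487756840088208495025162435552229138755398936223956217082980506890664362247026597525259063204059188793266020029786604412627663790461327670314442427590286423706540648056625845569215619828735048560659937949541799433261177772941879612066924493017787024245636844935061417802336570109453038805809369649655108294880162742065336764070426196500269908505902880645798875630237139703694534373547192454180657097318810320674110359472357212964819008429744565937951803129258823729775672280681898113898376211688148161220886307353318366098399960648774622759762173155529056160293195299628762053857478768377142499236169487333783883259791241202321204438294900121659885104517295976556992317607235960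5387335815570213341666607005124301395350533297636336754538687698508034342923266352880533943375074513358453212854796930305002830179420977481513843682546277919180082423810983888357685555691895132155272335932687818123260578885553843380100510068847175191084645964730024102408051314578383062160866465036295056542940882178063005969344367157965836146826005361498725373828074984354821912190836462255162750953604502080270241812319513717485581237266098796069141378912011330123814993335681863449132227982602832538480222578134233761114205683970938033629688358310839719830730923331715877254090662305625927749436419218928518024207873274580917127393295953420227478813707872647717908588690697767661031913145510857990762995019337463476945369082767713088918438133759392801549187882779602347192849380140290652757996459235691840453356908828954458057126791717279090762965251091015603623038472485179632081453617115759324258768930414814475366901397974498630370325164251855057994683032994147962189800355641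8259380971960458568695676442346878167455724959127702371674074633193432353992017110630797318515871079802932404243831077689473418818979433320637530976219675987430365058170304762922738347108792924758906134402071472612441181082459668262140907757091738065104833235035351865263426872528491118481335708870218220028770138454409341115548263877862403767698171373467758377346142728997299207297998579829055491435178395891476427118219204139369106567397432742407240413031870023310993472456899853718528565020669413221509733570879982745273221674410810824267451690100998740349917383832182577348535915800805544513226067893788214715051600019659905157786684878661695607940184661931825217549416748100130068583804918592063083132217298821472912970425679472947964681777302066964741196760262770523882864638109304294608957955079956798903848016815262364039876444023683225375910367307634153885041460416547015103239905086547909539976037875935354476727954785984587259204412920554948578158700750120033032262424805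6504646229017921902660483410180434327011219574437679800815952345516174219562959987285543555950096789515097201176903002096052542835876101823560597086222154554192912076741307380244342245478525793563596407877372135318590996960542227332236997273693980169109742967176686356276469003512585998687510450001039216946871788372844689511072309259802971234933413777418409259717396617937035653775696882889750446167268585512902237228672067658926379870452218235967715153409281346885331287604324129316650850996571659027953562189813030550212892904532119300972595958591366309835626959131686316197651029860402352135330426745302140680599262911899611917873935110974285895980940877869555308946907865529881843650350625264677169498672924033122372080657351030503742773905635301856374394410262011720327492139581815580774835951649984586474339942138709911447908527991106241591038629350380635753385144387550526965421858418259404174435535098575432182467530455866742455841660997501858687047950206181217678755705851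0345241553578754210072327633962614808287777466930688291814934846403330149648184069901381159358125737070241677547915873461156840048273725469719256619627882837568110719701464950142085983212001704956554799247740912960316614523579195423758162406521618646222149430066448227794209131224447991510399425209908228523819807727054692802692538069275787284267016754095507618209484994348568550472454184493350567635285160574004183080456779650850651371543310806177123435601765464895619999477732480262322531005889700895517670680220651699534101329331169969201387857521291098824442979515732188962444356337310583938870735121904674598086344893764709035636045600945724885425700835911120882925306296897897885114654776684099372590044487669586704502538189705560914100190067699124720719140338295575449953269357153016146672235664079609288632342634109969167959369665779238904142190624298915494218681450568779424598179695019357059842666605447697356037913367945737480346860281193760471753645504682593053045531138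9232409048280394033216103323000107942142371219086671201999665278525525756225880532838139782068220745280041979707450439987905577073450951067852766198190270137616080415616973507469385241182695259793638786188262806104131356606420132882606611015229821783752937300096116121000303451707616134200073608312199890289091255102023890151049895250427947660419433444351960471968797157892344274005821865743165870818047790383903565996776883563974281959279454109619210088716298646800282095136781367055959014863766593651087534912143535680559000010541901530944443696027132189024379851896167202925682106711784883525940510072940713592664545639537325283535013996437837067855803770984311321338764424059017240318952315352496175063182908363487884521171499602862238674382254600280022027499931941534889420254086955128127539349086255538258117260080739485011724205951675083440215900962135356863664504769731504048056578972703478688000040113985753550347768776487593695554644727060503452827765813506518415572964148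8329027758264275729227866000119295261886065161230460502239305829593702143239217699959873661227593162762794718332789695255497362606078192888354887470250592447426438015130863246991184088912438125106418201788063257331110747138258534081946404145259204645908678198477515927253475114822885474425262721271082039703137153875958057126423109231454806935937008889654316794058058962880881879492983382823631836843511131258613213695382642249555722255997694306884471015216024296399009338339104703784849807182995786186955037656090009683566980501250008748364188746327790865944283759072965351571497883189670245105258624219087110035468627539208479855846818226853610272248367383759588196371196411714734769837062509453803767076700235650738444296201943128207214793644030958013473067175875229680899401651011977243803945888577963619057959699130881786578779035609564828654354749478463439397526193390071697937403589741114713325709336133223386503832144564589201900395555071519084396435815844042993878563788090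1718408088672864677172141357254042068765556203575728762557960356187596888201473434155363495366722450865748258566189494721202109264604360246380995624289711516354616053804372213647404724458717545665269520182738514799069322277550333525760236637793849790192277911945453267510360016923154877536395671081749659952431707720164576165097028021300656614898469840653600039254299076592108895968082420424957679876579807911233954561365045463314841825859552117602884922888639525006034234025118176368232727085748191907285965388628897453015253155493336510506184776952645019076745342849803512007146111112239390678799866092727666896232146575608236179728477674076310822914240178516262288700040655347126097688199114449826108778836834292478541941786073339495508715425527269630920449308337410277593410697474641972470032968408371027696630888770568435845157749149421415128934154520188276019256028315933138545624112910703171945167314436031424704272147456434317711668761577343392697951906017136114581526981305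5655562093040253340018343805076765699258961225819691853277530619857255395868794718740535161117134452849885690369742409480352637759814552194440522126895918674350319724369646714244921070546580907738196802496349955283828505286628568304608018294870565585410193731332994596478562924134458788664576349991735960266493000855053477645797204107776781947047917808733106209249657169962490464228314741572359626711624333859081691823023305516412350890503609235791608033098562041099700641566879702216521433824696427914583210550462026512257885485054187061047863363468969838344387999494914407026332602873960546629703415615812210587494721030204830238187438733550421415022393502045836493317831154447236969919493382314788805909469144458770956337166624832669130237369450611780316489710935471407517724882983716845568827940877316803584383847296885485600119606428566245767000650913151288354145319403585667489020121967129234576267774549348998956546237187458906613488648474701518155783175974235608821026442151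3297064800369484568933567251139125619593344000611341544133258101576742530663620111897496286938711632070672696640909938119422376520963807759192805800120605750874168352396061440740598249279771679340971357652593386953110193045076368463579144559881068438926388260785226755269118066070899971959300043541795102642439628186313427003843769299395508744547446457619762903932015193842690815557221738709274198046098379144777467857110039981762474099061968046926891011488953510427423529381677245637774878918494360084272172456321314862446604473807676400278703255426641666976927175324605665748605925716331271480894443110719156304853333189656101341807409915642051742284264467926886875246444360492079593839211792049580919963121719618144301520409451541498573943659246088027200078423911897811610177628039079228136712782224339788525800010277186326683434914002451921644035274472840332125524462201971728424373539942112894410756784007401971217511131421319778076273928434416164694041491019181894760928838673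3525204533590372548957177874934094830608925012518508843516313161422377051100062499070706415835247924244597832829105280109740798574462437551173637499175601980592103183662299825593737362323170466339604769683078473863941517875620645134431234007653341143778570973863379973726668953381744008927157052523747836673343898649123976703396247339728992863353245794187459112274543156854793475897515792110470282498021171047506081932002455669013623015345431232267585223605740573367368467389169924207805208895557354973986842115691861042306720850574960499474110848285420457152517942246047208850446097338905910813940014187443698187825292993519556517332553452673414247419145676701616328799882159334059744311316265871506161014381176794520241038508663047793101262747643232266481880630594235517634477692381520213877665950412734817543043930951355844510832044659606149873578651210501297347565954078742553455883477495322347348984699605183087883777913950017306153812966492890582386706024149372067051885856010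2374670337233063566793187961982444827551672683437608727870349731969074449737914766244055989022747597838791970452479965731798481289558877469062974342102941082795435505775255725400766435040895034312473688189333991465005371676677937563915742776192962685289541666892820772288516668305229531657875817320549669550241851558271696651328966420989329444227812501675008023033322641406535333778734472620402751713953685929030173767132593693337697648590569251356246783483009615326475385293194275993114283206093124755012259468072627087091745456917215667574028782503616141206058601045248451224628071816178629279554356254244016309942331720932557876343537781341595733118733520062148292509210053999279191570074625653679420257776342259110726704762916960508350646194884330237150875131876679762532509771041101969704855126869454820385933512093017533845793265790564915375157622681188858694826786746637543922086871302670253477309131837005465506739364725647409281902572780831431091300567825901682490750467302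1820685989703470541604337157428022997286342209743601397844995587815084258487130033162465029042473087615239471879070599832289237296811484680699260997697727741785001450423799551687733037644752215651727862620778663506176929479199641533748761782438007004530349145305123215059910185028941703489233811704212455736686921605352235149846422639630380115586451645213458195921850094086438378271083468399886955813528154362871334640214692735215741872392194846539564081962464543403473365893926579806914278315807806972865290208708177152454737690166493974325851828456200653593726285789120822524844694450169898604992675851308744711541697799044293814099645665183305462845515015374147783232098212215333489819049510863545405146024285360393126513452820472048386749222579604141481688737729948846888435096156296663026655196213858246736566870418136794982914361045488638240439605886200206469505163004500173589284372697639335767535475519374997458705579140882149955909775357110166073281605948917234011579745763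2769364248801322106644410428636281286672976621367976541999665725018531632998196256381987990341136218373787324205471721037138469404313480766959763319514988813677140957601273831642228165192752307949503264263559289584719018537350027661132677908054942838010388457994989660789012923068544569949385675432759157568743517857417899533908729607921907382216754809799045506716859081805124497914537619061507970191690043945623480845980349695151969196714685199223431436474297963480122837366011931293908603093393808247855143052097054626815454774816394706875314664120396873591877321946129219604495091657172084907711185599507722452840898494633962399385679269684825209405620042473546338751935118159781451402099920455494278935199492119476017169036895941385971543243257764569878693780796727206725499304399691776726463812038939248841792856102838810047167716059501760076726384739411974284138588171022395749524534913145176018776823346501230049057096262261334592275760475138729680084600633784120559806360367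9109261192618113928988003062866347743047223866273327800485482664945490038911158467928958329912008677631569573240277914180130293475316799694958609668341924098622639773461420319043249094089735459662660383299735663706221657751139783512562567711845749640693617058509432588089997441040141890373259320908241092386726725086337943012392827718126252179378032092973201863705948097317942162109098424148142863677759282719932352585100850901842499540015957110666087768624206274275555626210727616342715977110319290488422799401760370630473962055192688790679216493453301689971520178813879316335419232628651449922417916097638320829432568245768313042330604560575099607285154233669032305711384755239658413446179481188091580097046944891642047197635118571033840561588358640513844789069118327640651146552995751917906934573083790107597451067407526691923618917193508513832070431124988889604285223645858813337831666680904099739493112167394277056853326440231477314557244421666467323722223689391297205345626066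877955732889726970513598317665625054798904890409886220437736860638433322635208986565362898272623768365673163551494792066049375131917643980134834836199132008788811537163654221738920698919891042037209078102876916215371540077787490607181204011511433864398442097708175436175389869364845320938907567494259941519963843294500866169114035520551195752850098826917881904814153205288246244644103557641115745247285411078768907049221297486208698956659045926307913208781315366725291420058661559677896356503072490997823883773304820180466334559285531698755579248201889888865370295430137245635439861085469786723061385678709578220437504)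

noncomputable def rc4 : Nat := (nat_lit 1008610718361692661079743555993508227230026439440487393432554345978815046117741825255685207107996243155297505843823192137388245440748619248362662410427681647823705313015537911119972460957853663713297017811743896637838253974964415706807007685477382404219177470903679630841844232543215551896567049801342341944658596620346764907523579510112136692160074085010029384200080388989681688964885006460498614443555637929256154550425278166518833764862897159604465239862336442597490088640074447527496990357594503290872602358544763142976111482859169049585501369578787956400830219637408442012605297463554806230675255997697815863860697543342160074171614491877438897447889574085672733894307733507328796521136468371150941079164888986038099892963100968102776448068643709351910761673053466879831865719989075187003706551461387703844167208702223769837100906094200110945276303520918372575113860447241192991344262681483316404596985900387759035073479611814688177901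8180895071545710971096134406339176261980367220604160873916898753044695944128815553272548568094669815726737128559709292801800914921780789916498155337677420036704328585292188354676363160504554645714978087483985636254049342133803790904750236166937293628221013122276038669316572935452192764355515363136678077432914330980918916041233372282684075036926665054651156518850880019592763743119739185051117726740078350457234263519575669583642794296039269735103299058762442175708716347325223485819238340684280807361599786093403782833495075828917176660578773166080710474749674413434824484942527193625610817030619029955939667218910175596785055751907150758181932183253592048855313305260348053758188202871357559791301671187886943463101692102876628869626483434632169148331279236952425495269404375777275388784606254185688468705906517365728033096493052179139570085487377940028534539112098306249938441824214461967377983255735592998439116094423419801128512708393027760290858759392293424818312571433487168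4591387710580889655698774078051345747088077113803889372361695093107103034302558487780286650309512321799795951794775241322023095517298941465372999297920283228930855181728492808481249982078955432170179984096017413419858830788953427245385619346639004007082364435288556399651177717989020646404379743133564501895838936534466983928216702115660027340327698300291142593220531624859776868874549260593117162836181506994709890503312665619697394658183877984252035831151990759341663261603566236583015988353826917114834726327709491194699126835224211352274302442904018653236588188702574305385927355559616981120577638403040273694068026197810851399367523413637709967620166709904691155923176415202677223524946946334768231742304144602635320093753416465434407759390748056966883216795715985896895563855449449725292364306754474222081246572873317545775649611811746800665544333846477788691925940284329882337119310018595485079973990635310799045800699734879989253837102397200824758829558497286180011146901542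7108882170378819823116183699500772750660369303395085349090049348958950544110795799468555415643942787004385632041345346602551754820155238275555821389556754098699439255296707948542658143957917081094819427919491124251613825829120659563321269343300589494665486740144604483226589262628489419129299119598891315393438826296887727922745782473579800429271487751809771370123623100051157798953777346954945302340742669085239930204351460566981014679726421152392832917336326046073885217375689446952072392286846377778879650677489577537202512554737341914383489525577363865915370194903594911663797389580191577408385477916687321839305702366614018643005227984620453137104483686981718653808924282605583976899935498006699039498356031066345193532472747947339506984822702021313049681611728809143137582239392465196129784622039373397740266278547399069822325253954454315407624059896666998422405509677470591740251096202729958688293805596795419956963504836912375151410660899140462499068957893646793072346244551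1630746854227935857012736657189996972475228029668497797378475596395737152387566316341578060461857119001921757548074997050784318982754510066924954309450561979717363842854653901285862990040875853368369394410554927415442675402062116806906863322693372943480077886390235546478092038023414369976642875148318813457390552512739524141562199132823985885673116543727373037472918007283173135233863752839137820859856672725610084799569974079246660360759488756032834852739557571223494072239984794430013091400853642387266933769340330659449826186787694189154125830934945185634229531180146735968267098398112018633442131821230993377809463713180215748111324364133408466263409320731540712349025767389028661755322167863675508988904586667455419611744746290565929564468304904017172612933454107520968763517145459951432185507719493388816771281616035322601385758325440203676708145663770004199361500214543007706842988008099426028410969451310722741014019570348351385906653109236574320105538387644731790475002385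1116333090583426302272593911558853198317554259679343052959874377191108855607210451728332082980734063996263482477246648874324970606077902908280571156971861062771814783370878885470912855615724927335581591930487500464764686999355051702480094567110843414336253212179992635352445587913366807211685883732989035021546791266224774079414044879532093053771247130416295722637492726336642897654884183456101162015568815905090363056277554588643949020814500497203087800850458355399485100064329033622936110185079578369378094510000347472335207117112785311182450711614954328379920750496984469162354421402234778324495631259638242635506253856029185152530031046291981376633009314680909245812079981442629420101320264752588822056458709882927627666241764048804760464671460100023489387235528522280425601359461241507585005126781631491923478886612430248914887217327887140153398384775276817543816585118801485484933418859959580881070254048238745199290851312634512080596214956185253460818039034063141171591766276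2392274067504525384907797089657773806883460010854017967774119562008633993103076425686801467815384745688614370787440992578809126170579655637701526563956460137385671348203898141250992148766324128917941715716342525118212025796021402836835528368234762017330604837041305961771793948051327436143748145181988416106134184193696897280852149242068811540306340963928980029638214979937274072707777961728599850999771039921626756914936038586819551447952817209393966603315981703196292186534792848711365966043698855085027346143545315915572464259310952940751110415027616220059973764142357888578977150603761271178072051054801580869838689345654112500015538406917831173551043648244786276963028918441125595675137750722247173485774700308546964709049445967096634845069352907668875781941950391233105272865801814642014911460829241562318191272933962777626941300932590563866798019955138489117899187328281894152277536787365687938974386922133169195650249641343112224520091801130847124322997672349925179263814449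1907070796830300377263287788630926698882714545733153066362003291439266453271265778914316678416436569987715187737722207834945750237720671302119113765325950371460347820607644377962143625232595656062501903860088836802564971674044440201227394489635742557196827012368904551639135671421333491002253257870770427011238530841330916993558993520516461719002495583357339299533223805823780840915066960053155051796352500405056109147329519558217119153379635010387975935769217322948088395317727397726506024130154551882758140060562126079323623097872471059346799453701167592611374421677466011847858714304026376334863327407049909977913706714056350824817672221960492052641273638779732558188169058493203159935440994557162501444014984113957195789774938298400624677985371289920699337755877832248479459723350545119316853806656906578829855150476854270716896303406542334909181775654048890895106634947946138527444378925810416208187005288521691647400013270646850181290441905559552652463254818210796125514835804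1487390222853522233636054232934097662080391840798333968547845891300142802532144676181216200035608212675449234267978192244074757781939176316337296362335559795081081233000434083770625932180130519376209291726515370018915116523291686619713821676239789172239193304480797287733504716672834769313256454281115600549074384859650136135587635195204777078072058088874787909973868240657358734294187572710031277507391550626165933700693509877726019648646663499599972332674586035328528388234536903691376492354981264976994875309719207312614623424505384897709661428304653261818960558204550620342412920032589825894992103239222508414480812254508438693997644543737923141173559850095260810870896622521762348740767109292704537710664255788577762431117598860781452603605411139163433030977096060741016896416814259264595959118546944952954833994520962329746499365856916060294384896445282886305859879042339188398471111393051685393869211049449628205239549466651428415230705385805146610086916949798867171826856191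9041924108057826435363639102078419304069824391940538382721553780743963305618211941619243775238822526823149585332074040527861273119832486523688350341348792795791362026076577097461441902404105427390428415625159481757318684759078821735291149315077437632005758651645190470735208813914584723780084796240771530224943522688062463033180507862660869403903562678124250197903956009729993155795004988792768684548894191219453166514828434333970918394755975775456162555351578309902705881223806404031006612246498144206635908190684458841969048478310220838937720015317536211050815388626938416020160198658793709917700313348223674853798174433607792478801289877007465305090879100608923729997682047502537280991914758321356141957746608620667687726265367512426607343460269934278875829778249740481855581485654223519864298038932376798808405820875174399784548827315402391194200914996700809825206035760423588227463637893478947633662608264371032066546263170455190992170218738286131055832675560500032866759932973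9109435162607739846980387288427689247100428497941439503576981141075955198752425074264709231250040889979431024008614472088420919067266113323057298881914161659522923280805201684796966140410731106890190610154354120673872464431130009752119409202227859737799176352223219546153860890302188411281341799484768321211430704633572275341912263300773793881646371289179300296806557346708919946771694961747794319834843469659528181115038041630626445365993244695333839299100470794080590084509102354114572872717928505910148327164250205801386178426301813650981374797257074219496319227874826270962984846787672548509926368175948180883993657981665575833831099672615038932706397807821234687475627871210351713330042430493290068283005225597412604104013622353592521421940819463345258107343018092269594817493969528984885578880621492325300168850821238500728442963469305674050278725529924629945223292370023748835063022099547411756277525148508169047480311892768434810048141340632868411149008581182310621794177061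9772992861158585788748548698810284079145516857355339384379830627144299923154679729515928946621307738742869961324898173800126952267447933295897020605582160134919688298494920720757324689010815611311293202677256707075122558971599770515642096856916474699834245365112143253034525680332367031163669124438131426727029834212511645475402540953782041465037807806094656487843363481797809588062035202366913613910399340575458901633220978873498343891232366750723573756022404040706433812196631508168784789887511630481450551275653167236907964793216906389467648036885612384806528610032071262310513636069363076373665534812279717495543241476472100489370984864835443839767822459115300788496821508362701944065437204862375486240071915267727380712784336370407273286267186022412252892598852915630658314640101068680141515297634635314717609027015932576081142255665971236989682465576698178402177387004010335334487540984025034036257247449531927638453705785955983566995757890860921267038692314046731569355348009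3624567655984903422943297872057708512578911872720484530033196030601754299383501301944683372201962687883746406063207161122761798578336535931444962381453395503456104510522321067076484482943860905058209769793579283754623213951232112293647492071592965329990257527012764176596867951051503218596833774649066915803515157890086738602372843258204494342315268915986034050959953434381381110198122580223311942991998090718661786763380281153645800534790133677699415862980624123252210833130607526940638541008995254120090522458135539838336263889608524048467057223610966960645399981062185797407346269778758219373823621001291434543248798482720331403905281894955577659395456006431973641670752608585720095479337678920179212003678589377144712690995078871102125666882431177858113008165784638130188316730364811178715868099009696057018016490559767773078940643266728801032248018486605738904017641162688863379602459030895013198895635595949453535138974306234101676976372377539267441620265351694797267478165780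9499893216467355007680392500865688271603278918271473667745315340929940033786804807213420995076851676417710739621709466523908074751489307957725962981253661876579063781224101601808618975725701457006709834663633324104140955523251627398865414112810884335719067671869898143547953130594539751665375008425532729948762336688888586130863422390640267362971066498378618097532755736852982109971786278805245428596831803280512213311055770748210915162190144870441646624440225175247647916967641222237564806965582939729303394847423638811584210009733297860368804060716810112999211977439336022447282405931964231141853500134222563247545899184905872345821694703698134217902377095709630417075739346039679008410112357984600274405761505955976759279732891622024843205195439744865133007523874082967512203609104423598278574739065088536608230851041112818030695612598311675972626376673321089525376882310994843437838962566198057665092038257377626854763932771433135254720002060417604293500838567171659227911642086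1628427747784510884560821647358492504990913224832701944260551718467703260914065096359967848034569152391023678835256356932593349267828455748919567248028401439742429313363688745534327310606924670062927726807700552473542330310802231701333105475456774945352392537020413427628176868498648478681768596712333355936493144221063322124990562391117620988579405983670646542917282236851615807592178798951201645582981116778501213817126110933343826384878607035313784471377422815818969558026765670137909963288193469265711789723028999624514490933544927481472983044556179311988633515942965656117238245311096361430108709005863534847205943637256561955784153770049628547314154471041369555630675623240067924889019432148098352906038601004382455023297552111002709905871139199504684742359259113312134193141946355062768722346758876122032928784096839722399257788331785878619539883025041363149107116992252636638378987641721917933880715089175066160805258153272941929293560317852802416196640064900887180585803990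0699083388523446368163334985141076696176015208380263603319094647747218552149803397468618184651648626827499484918389435578247504273366145752146448912966397737089867417601335047522430822419889366395491157096473681756896222064485683706958522320498205277836451795561674475468627019550904591751136711499673628246398146976829833561523276802357001349097059509006941993390129976294493483387238933792465313958623611745205350501461310886942276992455752133770508107718244805538241302262476541191515165799400957380159254813316767863584805856679356309763824584392509572570335817452422802521178310728056858189211730704551947656862685707938939004242005372191322138755730684212956248667321967056915298867662012002353284728347217346406843711222067649513932567253583768530182534124577505231725552536919635450041455767813585879541659085428590775934702275580006505610229746115665343671363329685873398129198509513580874116017486422641359347487397290983540552781332945903726252397975869722296120966597519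1681415913271453271548111884752559562465288958466283905686282429043304250025760984158606221179564405562790733160137089196700170681933539119808542843160917367350849357081105548224331621920272746294016229121099316151029796969814451835365594483763679447095818406418386134051653530854354173908066062462220468447050155702357495269051436712695036867266494206383315942876998274115279035854182184687536967705392678353190162567475808498300981841067474891169647402069245315596878689710490061632855173310195555302387151180926845721349933145817513642360983647162889469361833511625491302552973471635020442696606609995812739901311749737554639926980134245988955045858361192523409375378142482398777854485443468013070420395480475743579206733795838826366064560102922382549986127967104426732763696238413544287984939631202015296256218319614592555768859934517691556880798086948596598408936696169755468117422182244452401753609161585343997213049292250043976644863193089546611132062783039645092038538766063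207420271286381952971623587938027038311123260713026526617688891980753056655037120878249421096836752247887315565378498177832205189223530328077945002292612034445734523346925405482076171869487154367729392780036025216140769420415926294217954083873923093371688976334056658587465957615390694827543221209299098775282578412048582594996552303699533385521501558847785215647608685440185459200122162031192678582542855331485855611265097286310824360666441949052140870840574957792732838528702228146664305954046925055840927953946678355494540994231658129289981153382968689406691541191037152394306679553838422701553649208363152597581824)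

noncomputable def rc5 : Nat := (nat_lit 1011274427774481423658385873715056537035889777767528484765559406465307072938605720722308771145738577989292358256293459040405502608081703557348417082633811840109885512092742012592923231331016065159412547689738907191378107376675548635953762556513117366401862913054170223528563000644987040358041910873310082868377178155016819041071471605319096109199491422935720840867406658286992048038119650340265167114694767428427721212936368711677916317995555771977506849546936200502671407577389913223986219000458629887043870345050515696919742993326565912097169443890797865265250027063955124624377801765514370528565342866557643348405804847014653787521354988987126038916808130443064457684438072515079823090053203470023536123557920140917436775778871772824901411598226500822159320399462431273387561719687393815868102207947777718194743128830791781458403114251544158187746126517392551409812557976904784692359165985565282045557331270822897217138511678564990055234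4588594857231085281076254598721816550167292463775785761460247833557754146916160392400118212474277954630140284485394843856022998872469355854164116059005463362084911159335263038775819838953667034055823802289340886837484256639945213136421461400151828315478682964198832049464820975879881678891690033585823829563353544830903456428442534630871360510997958878358412825889577020823119621131306329455450239132528153533248993642086568410302159045812943200055451082853199815903575486094183188955071628553894072130954781285670317039330548502871146485971023469725091287076269839847289972453136657278072298578918634910545770388900177695804867081583979226323937232169164954980719764049981092540571666884328189877259470533240098508136542699982352160910329610132205057740822210027548005856424221652385219425257340469560908810670776096582938197252370847026985194351176479677813616386087756356757590422363206620564931432382583635897888486120893374759617912601389337902313823714830509825745429098705899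1648102641340001513729815834398603260266526981331639823267538726744816305644320219776454208045921895900651489967056233108381084412001492494273925968385641095135319256209489061029114703189718487725000471976896431635440140467880026735240299821071881322208454967884793198192194663105799156990949308700500514427639399294967004691258778769297586199464471770240694302143490986599157760245781714598233230924599257030600187807761897577263470235795518383182329066391033964155506215710163869650896227420717255854638187607833515098039425000597175701342360359578723427394447940454755589135722360695040437419754081746923562829009807247392569384640457522774651841971600784869975818081091676746302359107044525884017506337492566693993044290041712613871249585202540385579278769141809057197263560402694157104731651468564089834587066030858995724498687487413123996530628184570721976839770945284475767310031903402528485555126267849737242143916306795120505243167631635611702175001957866817977994686697295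9092001938834111164572577021213388344488177772491781969217373583111807792202309456148925504043675999327037828201341861244339892327734180483093798063221587594673606614619050699094350696597800643519599556266058896185289570064415874651950962514536752470107419962985423140688042156595553927177280467579298765249793316596022330650296752056354608340840845261743527878608347252950320786355011575843149557097903408949518205969295002757518574848153945814813501367633048431587287031579449325642195404916755133622646090952758515061623330320117165452792280534368359846884638562181792182884668299040434490819723866403796283077729038175943123398111477305601432841972300116805029630696158841678305865337574893400747712119070356911815922361789424930571622112692855149607545061432396275952404804289081044169433556089547506033292672513071691201381530325320783126581361338935369656289772963646402870380198087458842563306210696033807202499526921805964819137020240049880572029310229832235238689943472334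2647589471809260603257592527609982208066498645421139145603219188059028297405788381265924122201943936864763317674723102797908478578163864624671867174252825537095209304510292562013773415048770569017563905717759145300554863195275608166119037356009033808681736595877934960142177800424088198638929507384654930423096721927229798261951734461802359448555313560160869675712391266838591784901761222100715795450970985121787721187034846304722216004018081456808071310744812329443805084724709088999929703468135314384269425226038497577487868457151353411048367210707819135973460964806601966155576726983457926308058691433663227930343593542541055185514890435336152626715605235879762441926631624578931327934236581938635011283911021566812441794836000373892364052081411884930128266628687236959939654177207569391401978012944394113388345803902970911322645010349301836251040292679897096071478698312042802562512327665268966978484751733992614141665702672355174103850099445935447314683328966663595376131685207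8400596605917243492258525895645504404428902272915625222092009390301943870134078194021173842981683645389617394115839195374117358298240693884344133708532671439561058735870155705323900155619796318211338740632230344186542123942875625977375141727187603435253871007865947399946683791370315672173733043754124607236450761800744567910966728896191699979962113444197541184260945100854140151223540617724085505158234075978996689043928829792530028503521202562019125065778748665908970208028300626851700288792258699002902475234871391676605715195791345367935066651543545562762795313956901991454694851988221120370280587405010543287505374391841029263522666168514187818413223967658098814509405538385554119315283514931635143022526930977522214005174961744410383390058677573647339113073922613458085387420325950916989048965692356464002516336564961464794640040122786148726049384266207917197081898945429524687978102186288207253428041285802672124016140305932040709877211088489204112628737436506231801070618116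9684926973371010516522493106566683436724354961202598627526101435282191939130319655837394691698444267294852537813383176922155290718710374278651309133225423256863824143981445229791311194408181489855766300199701166843654745382039991814442300967760741157578024038636874871462527883338384483503914681476725039274108200284809534091932497296838980996202105887298422863128528332976259699361575638842107119325008696276680131954297888591040166918649657013606909190431563955220211432491379471263166087831393928187337250787159820839465417775751798004232176333325925718108861622614568576223440194264112901433153884374833258334009039367916843830530547675720457459392139644810655563819023556356530280401939262614302026096118474583267427957259488794539880763869008792692979201610063285743774205260775198518893472485049005906225760579444857039568652588578315030773499457052260402327540451914662287351758931719177546123750828447227073917448696741225664543291202662149243634796676880684235573008079920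5380872793905441794106763030443710977788235143550563280415283855964877690460813321982347262127597896800992108685188752602000763848678844523173333235834146908200508955264854446022395643364203433073721606525338138567689805949543168598346716628900912826386226868751259015097764892694491212457702217151726461049294665080467094087419871544622212398841520450657701856316994299597473557372719406257581810964929107417152304581828685301348676239304885881509038755601581698457632957106457457300060829698602188304521305855856659124184071054101778433206313401484515698589839558810813121355520526894488199232467162404077506939403723718136072609379074505772240033619665543270029182260267866581227084753130629457575996223667941654144856519599545169155615889769366992428809811633903888618311442530625651621828866515367810755155649895017970199886973988712065195138430402282441262228335497458282209630145139287436159498140948088906600748540509264116883063251767586786239520329462683336131134415461603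4387261090635362068816362235777106305025439393802947244728981965355398328796843990958917896200738634555387098294272389048777272932231103119702752674459198479045945113812792846589233329383066429704190611316292553703801971653454523501401205122621205693749765890124877134024654217665176696453246699207113148866668421143646519635812693838034776393844304460385588999286433872552376535253798088827135754904806674904381199174685775191231383075495251574263967073984562560011386593068507960900498136875196863207666012679649771859304003773804346371891520231236824784170229921627960837237201383669604401737149488730860609479624669451248126793412963254282920215599680978670878714112142615385841992653981633093664218944481261348062400053253752590964665448836321865108180638162519553346875941587272004532840600467104954747601539012387167712624149140835157777454335464551820076647618688662422018850029236608258024387443417311019856666556329695317752278486233961336596854954332068367450097595049932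2636090323290381344885729439693591089538269689905772724263437301115773730139207458445288196504754300398564898607981827494887801355585694120081983631661695708129045654866525700722682150628633661940925241782643922034737230006551864199256136666619454510944377703564424606283328688294160872829955466591834840840509525372303191687754731387045992699743829455332477489423482995077351423617781756100407059002127188750955329973331403577722467415180977186682369251881893617403591947037392275376424903332032272233715919442246395120364800944230135432624042429263741229087743126557920463379773588892273263902137384139965337301280836849183724829804884697704469232346649541764626330330939961526266437097954853538981187695375142444240096367502674575979236003205241273564398301664000249311169835530514471934065096821328330481192000313718945097241600035084585969001108401555020602735289501484524016373542095356933681883719094395316767261292861030127677804490496240122991284114216873443202024769306307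6521991313440552488910164452578336318344057233999055192356043949439117630770822795183480801807415205943506131228539815107724391082919803130406076303046470246553000038703210641716787043601515608194579652149253108942353421358119209795140249706180234584071879021116500375999554741981852028810151566858157619313629566893053830199591431812016502325422814002688501215234848879034062647427362965007719884555685019947555998617764784723337034180389162504453945839588121867237776896602744603331764619378756884886714895393581320845585344404071519822785998097989151505880211649131940704512310805520220315459107493507348717096106798420446722789002185484984578320097125140522787115486764330371691657272171749543223941836749320329262269226028462068403808170495419256231456931770937015186600494821257033398274096311850839891454469255019819843963558550922931913691233142975995172919606745724758359444337596914550125463153164989822821158538783452743113283053549856548523843184530136209544890941586756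4377936826986843538155329942862075952568384430932829812822936463746160018038686971245220878779899776064910315645413248636294080225289597712481039892630255984747227001739332654067345223130986530212988018058111267983927171788693780909097927625665289901018683685478011306349275537196398012995447688178986570054798028985387643178427611217785762269415336733836620490546969660328778847459908055000062316834316977788683729714627802152177761880781376393416899083088427035820720485507652479370520674293103253640389111028946959954910813555498292330184666361922236396933834018495861751040938753333279848619313623803390762648864472358889192108259581917769670620938452022148299418081395305393200160662993519566010277758799201991517951728347099885995389934894836099888542449548231285747766253060986618086237283028817396997243238644065626017882104080319631493792896041414217494901395647298059523155799688504241246580554012163871026658171876623250661101847307801665648761224024995411123667949291765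9946409755200028767901568069756857056228907581430065962637243735010391530254646179359049229718189792677266688293858285456884618052540214277403703688830091676472043383532669912673676178963208376271266764700268728405633046898721844780258546297099264234602981285157865515981355094737038818384687340596979452842651683564927331518905374367786881399199579147414516392375696023081125697700622308514490820780511620209395146159611471268869309437996870904983843465110275597782865537823197726486025427154152875851715407380572983601586127503130837358338646483709069271291961812250363599965277813174963875613481292749544641338386930859074576169541365537730243664624391708080082356848060481076266016937830616503337845983948031904851997838439555238619054486229342988559157473234501280014552660217682728885352516210869177212881290955214385930540884086286046591794037820771910274432563356167728087328050173680270419508156040597909086090106868327432833248424851114711271158020488465797935314352311860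4745504943461978543055710288471544168076339046102952741404602290037810944044129069024662698746050177938608419902411522328440857339775274353400950879276956494844023433946337340574143878530808241975559249404599782551059201052287263075873106885945579710292178281236432514677776895302998448967490008994032508965470161518902793762762275989958886168935793801350925756354342527534823636699148964150540831525493419847924800250465700657071075086906151820165450078280119239391310572085905811874344042211739950552897632932038134928565621441709092491164485955021168908537302246935639558180989514482752836474991490885237688555862416903349248916591935324512330302889998267198694026804548116135797119504753264524991880703489611334934177731763371308066558705958718720746836140254699805623732766015653707573868009400797839323098308305924067238717818842064437354366114426140583506159481364689200352531090940088729022046635536023861210930875605404141986214923544686371124728829462652592575077060913816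1267034392154353502087453914007093935794623137203375608545565580372415768260847999022701479544300531929587113126222010638258733953648873664546983107751779707393969035055368492228051734781450683092490041401197586135322736683596907882617040490932224267441666518505598195455777984574114908882913797418302298893849659164809216927688261406779895330609347326616370638938871510184995493498232011899591942555471616125328175796502510832907174066777157582127655325640023180401957201244002802203081705415775150388211133420343313715556951153228092661012792011341323495812148239299469317000568977195481784031902422439082531142364125275951582883869320315391544341739514075822214572383097131892568566596539453709343423151202037219054944374114003880877811569728618980737293445861634756841483273926189824149266960893188564117657203872150024176357265018965459468487726267355469932082080080353156242272595713614690746482471476870132335595457008165780741430391161360047633638213896457890530381697452748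9618148312690468936526593811822877461268443851733412873090572682682906424854528944280522636364118083579830261660170974316812644779887722968102623823427431684427298488648818672523367112920428198113987408648463359771255055233594433356572882347945000487243839130219645226067769733182666160480219055704790520282262911007699110289966042334421482064056472823259234364641525898104385587133609569487228527224736565505633862863144443402396296833979514833032856158554186378989348014628319140896890200315534505812356628630571326034453364471948282389478014492974860789782552869321755736574521312356674855338374158285242925304188703833843228527072039393126530365376823390881606676293438567033748447204110223418183555271641937392840261623489225885559833159247448743721000527071595317340536388422549259542418224436908671926281837061960940019716992900987567619175852531995904574140260397495753504257623033172542633360503178497424145635199315734891096518838265024089076479518703557671270584196292342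7894849466484887603566476278621207335260003980486130568265043281158050721126933916895973138165285647541043278188487954094345741583205252876770334645317466523589610637342449713417916873399296971229133272746951422799861649764701259701570648496002353289078422402560796422990524328174954389155876435945671433388252792570323385666158864794132816312995865907371770841125115147690581189634261583591421273285182459614784184253574537323275194095254809482676400863860482738989493275250891834083325041019534699693488962561324739437834099054844131456868547417982843160174608761797223307887032861942478146477035309072738610314322460441064018932582610630045226255953849190627543458359274835852481797387061128955250084016614324851125716163478024319985278816108913707577349865415267571390191497109309695978105240009749501537872419222298407757746468820786538864482456974574501655724931500988417208080917646470248667686501598607792569191378927865200329168780328418277467010616608730672538259925732595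727866941674989916698609331937139743750941603003825955446923281710668632324474148422771898114047711089145696494848156278946475072983791187939515618153791781357217736307490189187686962360857715234998083475461124617724612184354658051763278746952128080163040847853443283137362171199701713737786237244819179164876235963970334513701121052802590487872814897090613642659516063342307295225432593818907276033054903749226038115308616450393494588193642075996189538849473806799618065475357511911905856224151865847403462883588463980344081167965192517208258600671946937379717664525314995403819076607835521909264714507489641907617792)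

noncomputable def rc6 : Nat := (nat_lit 1013918156712816289620383292614992660219494488579282168473712150495643386280394423609821280441982180836012129569475344574048449338248940771015209481820911892042210351069968718910765181101433862480137995214204330967466459386313787122474408047216949652815917743328385603806532731502040581659614143577964012418404222073926229794456020416346931960325324100683060059195420702881023507959998422798180543343472904846264287629758446148614998872372607964763014679668714044064286945622394711878288920481243298458387022139204760338476409240406414264835267562587840611064389886228703557105473677936952364407538159116632771292580489118425799376528917038733747532044877886255121294128038313021831683084783665199235350098498579453720245406830891799330790939911001248113569755164462094880441075331367599066163692019330663389310594646844318596278791449309236008404597438060913894576480686942280789180934266485108759380931949506153725923494394634856800642987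5213516969986824550511219623460050646373032575200774592799412513832200375902860401559490004443472580752153401100115657053225410915504945737421262076719412618392616272617330437958478112459189226276169345288285745014216276020883017053400509147629250230453574294213202650701199305657073071583317051564716595982854401087059579995202530517753832935513234373212361927186613235472964826706643645922356281349442147079910769335354404603991388992789306577076516571913335170152134897365349840484112985015930404051863421570363965576793225819774794290360878763613907825366671132161596415167498523774236786118916259458148565510780994648620715372597043012331095997604536213995657220638737866919594379741690704749165957806619997064974215912269302698628765050770182719143479063935694307535904694393603091093314336022955125914340501167812352320895722519127991789375438164967108750786550973861448606334047407626142234923207205958604668304413731949158745683507152610352953229926231711190665477736201827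0510750647147085390973341350316657066821775514174220321864629353539149812517956724875232360535471588212032863719502429090817937101663708606233182438403582978278029468422455394240670854458108680197873075744401584596969132631387376346300539040976829092400571580358976732685817988391554714472311458343156922336428531727655488336810890832557913185424760572210867831543484204640119285668820229208178390222155561589420600311032760478801536027362821283975560895542082411719337594197510392358108690273669172554597987664809798967937767860204817460585294970012169848489281871522471029561673030337865816925756405930638783677978610063736504893484387752508026293226146895908531206005144151700470830029025840080269033721725069658999974623352023993932346458182169456272927354869061937630689231893586551877780641498225337974278118414659022177158347818646559287173988260648713027641173009032569113998566761549023689288623669534318575154205137550457789099990390104667023386851889708926700059665162087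9863009074196819983924530979932576385150025804055294235803629516071420537667744408203489738581750084730645367181798598778701037811568268180754256275937023499930585539083904919099121684368972139828282159139101123942022178763289114631977420598716285878290582080300853165942854670913365708116350255571378584762943811639807122151368589242054292882112535111105724996094149235527272826998969843363285825883033084786833794275678202787639065970621062192671124884090149170016006001987964014496019449477989927672974601170981592832109069557950524031787780391016443543244692542596779720772893674171052563898284156973796724828366226005906865906328371279639736442998803005567675546696810527160663252592784759332420892148902733493725874770296025980333300962653764465109747709251674468296492290013812978853611157636696075884066036401432684296816785345806012320169615673827948177375185449998788104822687998717168591757007456801606693315022163598322531980374155231126640409724838904858478506324401847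6312858601419830777600859159203943963382733548235768547199137515882892200279179739351511846008195084534174635081199216859761354969267811013460197461153018223074501335357957762941652156466582820036619289785202000470880337602759912317727200026002953483968650973881545052442189720324911554358323223816214243031610912366643216194860484358571363467623332651956637639533069978400488737397177971027975274554436194482854165614330416813805602632588427227944131083398035453490929979626844397452879173306232708105055876821624713915078436262065645606486032646189252798857953236557809463819203160226400383494772782975576049123893144931498069579460918623562788657643125815961596379610910390505556470484988817181127373016169891912544587927653962748955606736100244101030219635663696597810421436312623504454482072092730827638688537856830980516384907000100729336450576444150806057064370098582427737539732583972586157405574967243459661931043763715735735436200977546087345790311452956315380536977456832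1464983017883041756192649232760454615893474368072184542315436601682331632471621290492690371310828421736068689281752013238177200074044240307173498622852336584709106784964592170317440514941105315524020371088523576624313354619265623065165432496187413459121950809618698837111398729894924011988975121148445018892618210580843367465115811487872505508020004164440931799397451741408197477660341216300332176237887949988092685564968477697490373454491799866997160403357734762774015321523904165786147627704392332292668114547166755290451539874447444549158558739152847638993111570072836412675219351102251450781310396388800073727765218381946881767099292983585117198503346571200923295539131417733325053448137731198853476874236252410395378379596136995780946919038730610094280641710572606922315736180832757245250785126486996041104220670802593063101737655755768012616716290620761988896378406443071663752237536163169662874523169756250570076403139609528738922386201705758948225442339493736433151590773819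7985087051822496104426735142927352928411398277314596180185731713253203332698870470313227303099836922715801701264234421662772458624446507153374850572140406847607674883608346710998132674469005226933681065149797442841262873791701297066805737457004415858868028349976471869347162723739974077438762966393304963788982820819134771712586768065003437897794486417295200160064908159835665191571237992621355717306066801992349913352343611168078580927193649699290608105653063160309817878132729321767832099851804334134417996023613672467305888556849173505148841887431733150245907690760147771326905661482906338404236828533962848108714586362001052680693158261346630688101739834925864593053956911952605803346257988665595691630928138468116007888763159212523670498819575734180888329050310063792373466300379590057030543156573457259648509855309214792140364788933143707399099884201955929990172714537855275632198034253251086609552806553725173366231751883427173548152087840861853949695100884232206960259101795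8154288246499212401694603264162620562039506446001504382640053561985373994894543925203256656259898994828726726840511768338002345091684242122140389323781036661077649828056881302778577896628844233526838271913783609376521469837228145255094676829990385648393254697448692908894200678172716005775556796897526155409127651190023161262397215234009370799968159253000403545675737183949789601044239731110109638943976358334874765395961653206950417927216320503785675294371896528826603582985309258102574150303198536325820282233807559589127581750444135044116502323066320829666910980144948927519047705953959653929855408853571881591834031665455551316394374624761352194516625767256658902481245864441193774033553693856554443378268873018952687831384354837974484258088399898870728245226396445638396292044777473014782263901469595707986046300536823547303256607542547367901363417969342241163550513228819343884237932948558203413946537688320555568339675558427354402587424222215843996828449029692780358025809450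2014573242180246597060999707213167278738402694413201367259050638839305495631257355570290056791727562586236721597865244517036638930692546495290261415678153969418733703606550809091173291405059633343619143214346003976606166023186316563230210897686839367086813427480957157127901045760443258190600520973961142670706016003984559046204587069611806981708969710119597237986414396700608856830190866852394801980598979914470912558458770218916921467360801047933008094155234225785534798225190599539970888829755906691584182999293404576241059581737249484538004572446577630669906148601667667504727321116853686298632581344836309016402317532768671200352527805031349283249438567700960620332292107428014096335062892632325926853729892809417897973882906746576757547115023450891906118394187614091006219154844179453180658639236945316542125244634145013638436924332553109140562106235713408724430820683213506739918307104520766275626709220278572873458238582163949009111309635035507345068364187005060942348958700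8494542913117326918891086449791031522693674010855559819819537032182213384370061780559968936043402632593529361018238202948368181274377567778717373373777408552326478026264567884178041370945732015333104126520584846734332592364729030179431944231387451391435018937381382446608779876782631238314130437341207786525079278654741199286109488913112313910363056150909710364541362194499894178233453973564265880843440447720079686970219111453482926590769854280232357661391733238610585454964751543295143707716865228359165608402149371431960758367488716647578816505836661018615784362216899988209259662869123067931368586109519852093238676642475361224097756114141733738864932982506108443380202775501373523035369447350024249115787633163575884070310115246696356055295214752182781385421974400669740050469891469707349442243995471787651196211741984265237070269326827424612659826483740997028963387337681488847399277268189581281958706849073431585147571800938659655081082188078239372000851231187896678023492523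7950248980225078783705286233179575618554789171280365388550506008463807791382293198933752316904360296722741033000521712506425937596443698631592619480006528045264479498491779762216580404275439274806164280858392111293070482570968755211254382380978226262130524932850444162202259415915322364417328810578632093714219211160161281335377593146735052738728596459701305360708222706373249199249746275920616022310701838716588844612961721012950771934201701385856839878073645834561822944455570358194371661591493507343301540149667093803648386622375593507782201815734798897797073557294039835306625860840469677220830175842418333409925935668377091413516243132756767416546406496736207603639841096175723841729455398538166821602401007080914253159693330900977287119090829175534234502452059984160374180126930088360775706610413651609838983404885180862202271142138370750806020958274930332920083637569085400143172999061274548637193837165923110806184559690346996265823812875508358863977374851374061181118718418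3265911073430477268413313028268607799916823193329282140810314352601335221001073540693947317612240791528580111160267779807174588058998899759056731093484621104292733663122641885133106424964517396444263601955614562012470443164729274160649513837652509947824519348989181854843833838120748879969192007270714266891968245849095356717937445663146261128418141487292751262932871408750196824831990546366777436264238919086381249968133369914607047340903490911853761126135163820927222838437984270157163018203219639371361106551299131109782178300854708483207918217521172823506471617198452956369650921179185147657554393875813930601383201038134741886146407676001535838562967492467663773605118883356698980404863032311136988764707492542728983877754547346157134186007795930434655369408414642540380544982380112781448476992709822768114139584964753190610340091974631119137903706434946329772550022249552896190467267768913230121147866184385315684164446128250981929733836307209657899967526765191701637062836474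2303820607688246015068819281504456892023986077939308501322012727757548755583690204703740294656130167324556496927603461925267284590625225647659601638396739585033141870567374461456553676080950664238007053995492307389702222969390805676036893553121805584649550505118113588789659933820262333091955017538441398656245898864434339877738758397622454415615309675972281447732027663815503753324783143030847614761576494983655016968855076552360291100999330884861309023323239342149023854051358249334338237679712369916270705478659377112820196015838465529877643206641523811815438773403792632632090592153363934634964620554568266477321723268733784038928241730880759819258931504091536520656294063068178029961165257952507621782223115070549894153408872664899028983826967080768328852764821083984565180025122507689159678250205795514204913330713965626702481390469143101353309646943131975828305468080858224305135424052627971935245196706394088540967754534932673572473668486925720861303750404030003474747941490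8034773510967242177033332660119276674749682330061638235446159876532591001701846759657519106828661826699020260967645715312995296742385403926935553333063463684630847319829465406778055606331609430507197516004683024969524233921294045125577964371438013290070673837635310785161498529040877703959784082113193580890868223939967156381728009321991531719150798359595286401857427366132599864269397846449760223157531088518558294170821812205726467159509327884135217814987459921955831536051616609163322350801900590401209167287578859794607831171946112055770554200575947848471584083571127498136625202254987172850051174316027693370716353350228249311810805482684437005939420688556067777423898835259369859141863803406705429274919612581214734247576192914220062553323852615886926117253411418294660143254991879024797398750385525126151234081253103285244815626270634218481755226348595419606433684229381395225297333630561563728684662687679516822414787070866580406865597862846310623775371835601778117706083531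9781918955600220903920309964571192700110965694611791666716931975378507207586443601970116710946323435948751482887723189710350055372911861751591947054507401446279950574172960784476151211616349242118457357799614429509818082575822825483260516592188581525533968945032151191064580201523256670382845490865642273977282917135924098448037403497023205703556544683062039920905673436753472155904269970178012735861623893047700148012427156809635717662915867341238742765288512981665296696111911617120466955624442795069189228198278110720612278390338408149477690354944623637314427809380365618502351487620719814596301992867848113854577305706087630412388192707424187894773556069147612511278620137087575450832533312919701047798105430671112864998586288307580588404410342920091868855710274628887589384550795405344293121920367848401262681696863522342402422641651254513834050370238667519600278434773583303835678277833840908638324920921503033533153808041550426191233843142897737409855561997487063199844338187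5232919502010772500925705941977580674558134857197209405341941928236902333377998951904513292965581716274397711329704389533238146826678151681383628249790993854270482985438627242848694003734374950121309775353234024111753223367740464128592495108573495858800864509376787566339783600265146412076641550307742585055601020466051800834704855367865732654723564357644426132085437891522333679138809707868926564987998448328073480851343077972178717021426209305562558222943083815892684358453282139975381506918179749300151192843136750825742658322075954743390072644316099720153449213499715371465933336224524027523600634714373212358764325372475726052409731527585506266789275320570748765250141538582856727654925463077712436591076548795837646828532882021195505624894828625686443790968501540223205147197022617181594862095984006516950475333638150927147994443425225936405624905441696312714347837723536813898885088697560442072120449100137613544134715722408149550305873592296556207715728278299633717664711274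4405145177107175112646361634100174024662755027183949163030700349625417203991187356681995974774235455854547875195906657202326753192678478183613706713273338707875359635885772575318444764400036121121385895764444489990204636010441217233694173959129664066473479431985269580532109810241060279431266018998142891102312595257260248889002743612355804305920547286144939956891938430035374130910863048952404752739007062675939744948125515081525772679202526930780486267207303029364214966481373886565654890622803977347047068072839363142051012414513894261707239435750471519891798513062444907390525210876525094054648610180385899185328134238494371899266347228737468585147732497875712861236319208608915446349360643231502385442161491388912891266536163008767394573252597645141941345035060884009907298946226819517163392484463350019881246500592396062890410396798063844940881135097090099797550789793576289084581742679765581527344328746533485743496343518163289092797268932012966475681215513897719120009015668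965802625540572836389626804776900368658002945877176642862144555531387398348160495933157090690705271805286650272917883510248986951149554437927646627415188218592833790787329051609213269865967838236366926805055361296017487081919346485686942669002859683131979377557793301476535260051133504318784317046153628255847493211732202500499307686472306422543417156505948021386278074844585668211110534580931788571005890009323260394194649282751614165319982975891265535012852277843837930242930182229179679204308184879717010774203350938162641311664020415621263708688942410082616010233075961304953554982262186846939484274570919124402176)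

noncomputable def rc7 : Nat := (nat_lit 1016543408065915723615950073486955386796661269409115606316109827345006993768856545563195037177606701548635979136484542405591685513215197783260431135656066154185389004827072010533501899131638838546009090379009314839911306962434233714489991996545921758300088260388917050704499218376156926841091760996689769373461530303282761325779935417977421731580731824610562758975039420216314598466540307792949624895892825130228386556320479806751559007398725119186825125406169099737996110122762719417218989650609609545788340773251477975520359264776324556866404187081485360044865879734395269492291952172023334887496947882365246226793131477174472324594165065680226521769272474536564798406447178943062138233253891452881291343650180393424949204109440464947950822574013866811612960785521836281635869443990430882555417688481390304181214357405291393896595499003484791586989042173205066539884333141244462030091321918173644198663827745819320484959451014268209454958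4001661844229499576349169154366940460937885797191359464548977444817162470639187782357094516767755491135975680659916760453570264273655471123973083439844260337911010755934393147794409306429845850671806793185086113024691274786988419208797478732074823544442093775491532306238942218764773221809801521429727933079588659023152807571370159805228612660694182363796754475491602513698646713651457702291320061365781223685163122649177103293021763687114748943197417854023537461862699092101112411982828487148842798861114155922331764516636291042018594293493480883290009847687016205062125566546934128057013751549883607808367209745538844021193960782845484636266929806283026293345482990269539244027483969550375013412009233943301566457859742174063820565065730326487662113383712310228349130335735365813492733948300284000177943270946199324714795031508754037366412857243794746945605080824898389151769300359829049577888810221139346402550142943618129073620539819130266062831533497946029745679620400850428245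8131966472583342848885036879419808210900047527332609916632891100249556482326617176489568815201863338286455406562568091485184867517626665155770745924724650418105278336901959214984648825146551661879601821041965275538652524425733126427001554723206232752629880896628901150542667548013266094551348839141474838870825417190595812254259070626527973804148019614957014935354577917668889091934651349011993001608565534993613990731739227538245798173430948358635714275266240534622291640235366047984667702800647852865721556821354542188091987541007169443961207353403925681839136481461405519637633825300360382238712149994917934494871389653995459393477298495931280218953900785935910019915483942036671168369958544925418887184018044062271599014681147355610651834262488687471620976348966416992263069553695149773603944714955808312823663606571564323667774531079430068472307610228107096697801309908994408792098175514602856811595669628020616879482808921614153163562116661715768577390083719264118836205603327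1969097621892384246605455005752909790126110565895503775784772724241715181804297533099905103389271783212565717576690177424325688429308748944230781289342013212576943971368703603279152683922540234519272652814283047084924504551172411205488070788932549034511583358561010220018288465010742321200988583482606730213595835912642581990157585951554600326391093503226095798482740773575072158610125738958279700425551643578126107758934899527958903497637923265738053096066843969499515593282376701790722196282861222519374947763866507327730883014395673748657051876813453978600290310472600834527247955899603723832068260333856991386698454897038105160338465294229271841814533644715495851627834610520795976906576501039028669623800437196183100054982263651084508057939232068749810941632041151375879392447947674651693800925425548993814758853889599795381505655877375460362419329972108972845462166364809331743261212682218519391779759051609784828096687323323412333975516966758948383629785451798342233330143384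3695790299748096828658463666999613006655665947660672144271175442786426621505376258047007137841444059293800973439198138355271662049453457768293073338793456775720116281221187261370002347101377543809120015133471328976740263117907088326372208383742339259303211963674078967580344024957383032822309453980969474576631635032652657982905651560898325004708139303138311633932722251694085234941987962130868099865623522746920083927675150413289023620467223007899603059779425887954758592677102583300008545822886971621606724301372307130388813415433874396249135638927791469688613999463749309395636256683817557791964275351617495330262418889933933517298608424428292692120375263271749251998390015928949478214365128984377874419595073512295422774899274762895917993835758331349388701776164900479961521373622754685860642757945997106292163640129225237377713714940477246076767111431077828951825760754218821985085774722955218885498766766588022870341691695107824676491545406287566780988798180319594235017560467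6165105640786564236692466407714648410241591254637277380579733410942520493203091363165821129139498664007226175000935765571015038153471361619005007552375736252261796124856182345130469572982417994348781707760337094512710786804325527304175790528546228152237080053628006153883372236202972137229024059462143321911503383370215872475446578502726157413783152072709231735706723253600441972925201765253788910439497897614137672923184931656755672483031922727775412981246996823027067120273847176221194407184844507344623889415692239050252856977350791053080900019208922026549201820580550842578404171676112837302633998312275018542263220083891516044635294965865239333624429299246382567284918606263994390927779230383333859962796023930252598266949316074051649465099672263462384890924420001466108315982455635097248062373791618629358139661558420282968304934739064860493553938274658147359392983628152139200067786446732287627800852501228370030786685850704631570708306248716956394369716301687235761440722904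1654742639351957768728909256133860556503340771211122975746818991797759947692439256289731643859727402016930957167447620099363110898642463192403119016604751560310049674169718179901019176594752541436529611231315872560154502384787298819672755240599310895857100438343380414586587740751346851617209207696344850071032140736722427732421780107044389193807162163405681083566749110823756904775972519308985813128339305656043719290048197494234362916666768089710198176412034863321532495673731190777627823340543952049263083565213207537905945486643816179423025501090328477735135259802385443303260499837060577200116310030223613279040947401275375475102076409407318764944590919955721230323444168231489402107265144858337490731001739597494953231293836198195115255267985225156304010258958173955064960682478665910324890863581496874007850555713911083731316349509892031408105188649660710388999438764128659633316325468632619703707645511657394300143130691155746101030697259687927875683607949777612526366447159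6734555592624861720505392162761153448281426077421832139150322502467162646361652135610133719073141454365609215276255535750760125941333639921794175678939702601425702634874135836688979105907561468721990687055798025754479695490577964239774756423734782810437188966769293194518015319503698306877021659799333234865661333893096734350415791656890120466293815341161972252581742533955658011355565711895044401948871289744329084498605496049188851036224841976036575630984781182993863118939019115896045624506548792935096052926615591902658773948329653421381056381678335050590435815667151466014815458794135741111126404320426335298425116131026761034517580001080351674180805076115973460114418670477519548194159830033157479970138138462481248387599086466039545418330301074543864207724631858194737168715891639072235411443096165381879572060268187289204089525499915109957929014594825621101337178176293564475575965519746959664494783804840364920074568435693800777876637446248011361786561497577574539934784791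6618749932160633799469428012997686226586466454239023993761699078722542794771941664554171679815411024796981400766215009311551089735165770090833678913039508236922111225560124231655805212249693764622932446073170705426302340768594412444822090294666621032599660938041535167110848985700739081525594643690088434624304996031856407353889608071648437497137015497041217153263321139490384798240707714653209999329091087698026211779504517287661631597990474988568608527730461325537342142036403971494803412628881662454144179416997641823222854670085705249626808572487737080609262176936544043660698296529873295021220304610813551011477159996866414965966586403768771928866366534108459149231261700084941028747964130133669795727081493543418820900142821329594244117506541817022491192254061987413607832260432007358457629099125900252801371430498083687725486081733971535414198533063773466992391037466559400856769296655374055214469554682576273332176613340991116530653432954165224020762453021418224535724850737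2107406687078783446117675908365250943453673557115812583315381537613337330350819626295092891222090224837033617563803346089511501213651078352249879180159277683030418559407846676853086834311200703655033874887922734061749518649746664774765194830517470610362525478272188306192846006034599471147066916676032746070459405283281082881693462037130274918713817418017786946585523344779218727049943098195030954507505873396341884529401920664073753233587640423687703790474479005303007656841487514154660920828458154136219053160832528476114235127433531409697775524712894493257605193589481416058471516814044220249513622232652286695420159385902900491309959617327098677710415964037228998689313845787414218383546361816137973092941336971778653179655373134125042289046008290027808837964899319229833097738940351831816866340397443742294985409705592110735477545287073621180852769295057701220025322315552473110423145123606048863718541437534030311782291972296138650952139527249186568020620345376442008393800858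4963805001074492875594307763536814210963071807448095089766618179079390073217351659037630718900416304752308583283715967034262491119378454619934817090764596308572645286681893427920957692389245438474607284452653386951552779834808139539948134700013342072623087419793091433736196063838463584241175591615939011854152771472796393181195199997516902304710243282955634295127130360075562505919665793604297829437011516897499015294170686467957166195646806483397309947051061661539237033453672029576182192443403970525156636198246640909341119385095121142214231011862021619246824755956291172804886866828179742651210595618606109124165799394564139563750281773886773288710897341679277705514195973096098053626489372826542132258950609106989433650332163323841642583860124967232152355815762436583255830600644291182899269193596370492264557554721585966128558122820928042862873244572664896552584157672930239296039777504961367877901843419790013411389286899576823646001257724283189743220886936721014821583721427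5681139585432929699898035842181211792304664245357373508320037730601140621394629266768106627218841497034862130823808173835684127952390052637005080778354499494240990285945357016668417432407832547962621428938290390119249368562900431080707829324129781941832181213892712106121803090476798221283847086794515506631683326083486323502559268431362897044944200762816228773044407158180174530035057718606945176349707115696049897099214772361455708531098613447058910478744018988838109608120098150456534309148356050893052857242316647176836520550791922430014392237699045131727121006538484158133465109739061202880003488882059831547455946589342938615469914482454928499430087928773770717445363732708834779445138427203029175893357935282145224804047168383030708616373569102546230160343151670826528275186269079601294500188717133743564523968848882936065055174059574464258910685733729560034248444304065489729780564600708811186749284465469806114958583750898909612162732321205582152959391245779195100148616166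6854157484068313832279514207539401906980915228389620999016035259103910384825946579828465213988321518799869300134289465431553157750758781627200847284591003076918303046116684712883752440038237244905305732735617473918904364823770472200506503596561979239011406494187359921633146233282916457538614131463264420325765907724342065679470807069359778052461859221539707379302990729656958880597114263287121386837832932121251441442182822283140541119814856886230194997780274171257190949000216326963575975319892348355011880448995863761058332710352783677435255971461208884287918005941814809343805786768007963707133221911021594302338048765985072752224992252589954278942404989211422198216298947373704579153002049859978095337682218762514370831343206701778904226499029607359421991252091031380244253655390648936214992864033584860127291988915183011354688757682270895926255078550001771968360363583243309539954736817193622010985629236878669618118064769574951790756506733388029409666890298642556954452620421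3152366800463203671277212149440631986678678565309015965587086122466118334093684080337571805065043166456636690368545020335575570004089670088860915708062898549982212138020876785473536881508399293176733052846124078898950611193740393123428673018505856994840090746268980115641152410100840715018469788827939871538570044195197139122710984000609872540836909378856138222506568078060072813804406256665930858906026528095113723545523238421939270932228956520038929542995542945260667664972236398186982289972541867128512365982257033276235231524272298765100973334852780365154659987099822049060670183005896496021439065200665040563591888342377997854099445407797845658080704116296965722085159494834667999373872534290967585261953573369978764193307100605311491359555379386247433883896652977283260198614578899380028836279808317823142232797205072792592683366015861669387327210409797440478759941736072070217198320133088416418358436574870204608895897044273859745379503774429773375811889490654323993976966102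5236866780697097959528787081042029318753865732614358594639625957993168276007426248305732467773953370544112688683573958383306931078852007373121984646866664705118722048729431003555991219984727462690444646630542398969504458520074510708375881301617916263415953302628196350546219097839636164040127143644909590239100211800865993192376547123174633633930259257225117593629023034090710291037577689631934264422125653392090955817232057729165361999020832505309196287542863187893261452773472978488281786620051219140708606176918923710871146514691124165667912221038725821868204037621306336965044950192747303523519197622204120603953538214955719396047424241238344237496504094044966228476743902489317645790688525060614578479713839100744383018095166505938812067428676677365366069764353273732138894674461238598580624812962354144858349508672699432448346865109409537468908067856161507483375431976944564038808629741387359703406364459858190411996886993661844326590870575837041892017065971246709404423853212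2231999569377099959716170222763403548039934325869824952535350463947394899833786318660958606051992212019313528536434598168130705859159992379594703668440793056592807917055676134358870363247134433702995596787335264889004259341026097178724517595528409866801079549125367116087681599913566719572819586310348920208074662462446034987235571062174306562691865540035447579885134378498338809704800023676961851695994713575396691331006217682246739893237616384128755139825217141965063655070269495943943682922992290626783214978968430388284105205722344357028176116315870900480422929667894158662732880234776388550819373428868547249972275357030562855177725168807652762252357886308454134515784101900869090562089819881393494977712602482106015828846812313355755821057574856803162612555034890358779677588339863142596444186326162473180664961888754771772890157160837653405189781667973106126376420930683748082496338638224939811599349601289248421264398563920148914539513497519726081520030729410866483681506879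0461266873379503485905960043738258180402297776588472932426943683327943374489673919821949733580652111994168028598167847368681519086629096966683668647800691679144533993290007986070591579079860517203918432724309198392478131565496085959912435477259018550641812316252932310481716119372678968622731440876713149528144641330621627831770310183681533894315847991825062607621015408571335302021366510041649615963671296575032816139833573078250396043509116885628781568904001343136384243700113192488847916361925422546086098227881721701573321669140730595335955930861541707517416091914520791530009757325532051843568809857889846246807567166809148706274357293480821606999635716015898320242536316715186909894979523207630756481393581097967433916474528223029928750373706537689018249346240880257179077127293130258608422068277901013918555072674459427547314868285290701701287014730286589419745627937697306486450194922523269780256076774923121765065029273197932814658809287578825406029208807442790377794254833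504193586109877495633492437142259348920778360143416813429156455722855757703344761772229899222589149149991968087042005426131414579944744517729856621594586998881759465781490972771413539078939321994591225688336543536616445311250926893328179002587948392529452536646909420362113288716188681927458694865926608863055390660625886511810807378432624339076696921738596741040254418849446774785079866026127657562923183174877600497887561137493566476779032118492566017625062505714506894640936360409216426059876177831716789429162381553074102806758580793262635505811764345197626832603299201755067488080498820873271304348556116241678336)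

noncomputable def rc8 : Nat := (nat_lit 1019150321051878343182743447186624677325976985937919903942441603571949582197605798822914208316554724762445103857528282771536565743807417495854779752879112204504694124111922557067321293642151488862070883551083116497106394361821005297433535797337345956274431207177459470313993488331962083191552369234466959193874613988324502586651318463151469272927052074215382268842043031464225293797777060280345332292863249325655865054510293172894768786243148622414725783274950136524811517151435878350758313031246141756514135148814290470166312837587570653392009076840180188466823808812105352885101823148466526306590207043905768347137814216491802095752672885250019332123727927707056603015325027892394784508312341496444386086939141512702451038445996083965966637125269721337708235909581019580926486975146290938923726185636590003596634663260853013085587803053668970955515705260289901487228799155547104953880236154716021542268741839621934759988334691011799163069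4771911747317473224838061982289893567636103332884487589689491267963776001497906063482748534634222996684826537117983358747955942032501577589711948585244438160622341394986420081678204844930276251888212826039419751765416617554763044092560451278004841024743604060442141207609384472563156321923193561139481931337278319971846870389233811031000284750249824683001346891576216480051688367362004753966286493852426825934691261086070140884362011737943293136618047317958417833631018984678112775108059870458456573891672076832669170324416646064605601545578558779155828617205826471347237756593829567324511018967871032649151676895403929876381191985790949738958987900056894798125289098354845538930339755933652222081792492264806182004236850942080345239644415278398547514926468055108793451205452470949759190988034852935495153591339930403908653692202489242607303398035607734186900510046506251585518966328126739584964549894647927376421172111124080124095130252126406685912565002399304856442839331008488040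8412505666198164307922393125034036425103900558877253184822672585580640921714366082215276674968511409620617333109562626126840834743605851685943879132551843133906423489891275110379690846598684771738170986483575377662089249024580571478725228003032348991129119485246852722222584446546369675223207623593080845779000556779869035869933327780688878776966585024331990416252513723076128957692589211232390600470382581624530442510422494320046219745222906193197468707527627601208773861249554156720447970386814297946312485143066880355018554063453851801902920443904222998083378847494602698096146766680947693034141188030410370661001201097475700254306228316846004682401103763733497563111597116010154706699984019009011962175401915070159725090964771885680087693884261154947195116386500259217595946470822648525850975062334284791518902708626406595267149656247841008924801096481904476926595931790528486581034669901371076152629665890721500966881502711149258619676302178640343209552002337737714247637555876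0166497809588277061451235719859048152375866276606686389090167571723135645193220560137716256566534458143261776550909098994007517781180379814157227900555585702363671977034088419474748327874101386185698757835676598975570394290891672009829430873762187372758522569778254741475643278054940995444511809213424804300878394373847153465037596507852723580423549285749956981484098394506328825956550563356446568344567663483918055755749546745803456455045984347111532750573373241185658153531748461459257306808197776923027992960377225945518016571666344912840392897283290183409589821226234099935262727149223928254643888094446167103966832026847164877022565273496637040860449205372502606186699137662112876886613001969883547456184372314497850923571947981313740572165564132609139398156519783583154599030130283514825690712971927383283504550571293748141719347428647861659807666196342827297908894280356473659720976243235073597389350491634868800253663650847995485391381807564355122683804687580945436076556864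0355367243800643844253221282409782994879763706692576127223618783920341300297582492244513380555801143966630070617968825815441558752916572083989966075312584761739351076608189572355247881802173601144973351581035229984438897071243384594223415070425315555928088126927614519126277335548786951838894014486882262290353798821981267396898379880539034564936388466105532963489851762493060220973999835277037964401003710591933118411083922211828009788756604636622536987766036534828382024341361348299672314521427935595542388714807785417463526588095865127120999610321716240572459893741171318695845802932212632286166094753110638477301282248870064230563333578215704777949720453352214677843368337515914659830657533927127455223354985597201581034436405210922075509530793173454758747442441704437335241165139710090930524378302422766894269221085131582809041515058917755093225956932239096365433596797890406605056798672852372041712268305966053772892664547385700319394854549585711948255649085543269123121614386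9068022805801461820938802336174833515539672686748207504807066928251835206080059955375142933282465350738705046985928554164251727736373521165928630120450999971260305672652708181123001672818817982835592140332108265238704413749115947790391865379884253727854928008231412345268210086947047142554360127217413062984429819597424044480332771625242788333557479003199215734016640635277547966702238009312360252086238862342920496075004945131546975549352984655467732451235394577394006994033211087042376198906358920999144946053170840849826615396701271572029346835079029130549626010482662918149153444353834528109528729455660579519712823763555262260758120573230728936047821290942434692797047843093200888649405242145630039233218374271297991840222563364587504154754175774711759041330406258045137968444610701351183697868187817440575886201763140334037631205706071200325127228152532413365073504530970298211548379823134094722381859385744378437019066028735901720515116692672074795057801928620461328687820905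8383222670807361517971218973914822878863462764675624878339802628475661152881607056844939789103110395644387515523687215459192224003154328832357355718673356523021202644633776235635664576993615369846049970638394075976898592622169943544243633107517419103824645433644086301602446178622408293320613624037926757057359692921008175564377120462976904468439183146278466301671405967168318295679040729846751115983315190648890775154251689037768978388716238730568741273352155744829739067632755999453420520236717091165061070114787496104309151442583441348360645782201997807459918300185875921451552390258625178217281394624856355680972389381025506191840128846400167810073318622461396189833853971216477271822026647722417009391307562772583024149481408215908772800437785627619198621760406119488850912401339612151556592996657841856832238061224855781201720420067222115888591140403842119454534198758371240048105094520946414253995032561170422245251111291981030243204090694929211590720039656789340003148326270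3029609160620790017593287518159492868885619822906328714091417860338273274202685622191120684492348034359715661111810046685920188400545483217179565666613103161317556413368679659028448123437682095077676488026662521877150423910839059584075802995286667477810901660701326257657388485220426305713781366082805729147813611546589208123138541915972859773281467635826465428382233530040002004684693412487633261103184337271951710439452597078708661943770215125367139135323266395906803861089956839779326774714407765966640785248884387337370200189876171875161483346976692090719890827364634181832404530489362721242503373068593071166740418843309873903521476187173906078170381622031390129303438320816082291900395762765978324611279504416808281017267159740947626167230880709275734206992874354875667030231541175856680450532823749193078096517837356597090504948424373031175219480323975431599837350449393576923994087173031516073329017023895178401981883491723090072411507697299631666393173412394316339390082435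7201872847899261732160478135855359082987982910907123459310397292874958859328621013556169528295139570399081398114123778875280457207800781716556529937937827998991953670266424081776462567179470189895811921891159053269291707682604853508929574699895983373099357435021818106289538347406806794886239171489599239167362746706066194880743310630006326535042565815788603644570981775050824487695757998123479788461839978894922186291951345226752361525467017190336606266249043525313767000629911106595261079152689694099265623958600286721922141517302602722989074617806598804066920646441354015256232555076800782344885365702056446904447542853664019193265279470772865225435956018498755722626554913846902688278771992380859181390762346042274407907116838032615672466933784540285681059098005784440093675372554947096236457561952181281799339954684961313426606745584305191389123633117109668614566871450446227434159276843345440439979194808563420607851133055791716743934072573006748048857787939952625079050415025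8276334446621756501275476961974610094087786992469773706918325875595319231235988330511618378059838311733333888401946565190030512192830958273804604760815059233582302409982105813222294663444513610593143654396269051319861738758469511251207225033537557311971542794157660055119754478529142060314995657926434721597422689461281975421101239508437888562164421931668160182707322527729532328652046305396830351093223931538894899009466456735148503329722752516665102826713617924641848115308393052604150382088212324431425050486233649791832573838979938489954173120094762537230942151248167755794803579112597170379066928816731359947771964774949920776187115679793124967636546660884500735823561299616934362748078491552732625014713350478425564220014390126973005056914953406591036794149549832473070882424493586632128732122335762537846070398842807594033906091857267726199007957132225162801917202484083985861563499478194443841046736696205387551704009245137022486964822794906840904083829358962580403987974993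7415526010751305970097023304403606058902903440210561276476387671920227777945012762921689649069991542442241396963033940487532592450719920736813616974671617671100869311862480731730001839821284989290185256186736575924306769267546256548329570712422733962245249619354505235575109918585041998746431883023574748603828643355063220065894292726774868450530789686639593505698504605685463815133098418144543684648125065201975233989802654248277682901081299187907000043237220992766366709706483278043033433252350524968065213367483804402659598201663727710959142083234242771594893209879381641404986224685844548655813408694314046444759199254071682666678957108977352507553084391851890296348956364372976665565541556640099491008616470490922899400695073048329755635963351843426481082798466111863287783184624366640746180693362026237363171692628579882233817538707899539784365967769774698777084292082995753104852714647974243058795055123402292334028925726550326347876916857442379132530724438868394823753462818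2028322661013873408690717801958761502005034974557911134788331352759166366828704057818382048617675346145755978753442508188216624551579775722332072873325051337762860220714155916118028171237821819797496148725901300519673093857417183499768184133914317621790410412316998392484767152055538464289419717082504306831155202274266534559742139306723530971172261253680730755538203833167415570158239374361762869161687907948847562241251682836312287616586274617266460526340692658131293670797287497479923717620342188108752654272863695931026054220161249389317643177389557041626171618860008460320773089747689455558052084535967867190543581205156524817496015354853696161470560366569554763851058744220145280608241925019063860531322000838573852125226135664544192119127521359595176908444635837161151829565129713834288205417269413113145559414847244701675720867621645223496222194904024516136879738723442424233221175039383414299002868520256411389648513448312921760383070127698357689715265222001636754704051469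6437325502568065239865420896650217600394087489018684840019719148686645456200016948739578117753462731482559699829082983423752760720044801650906389804168217616486713776337267842120201683153350483840048530746305593745490157873742129717201465461605147466932471748412347727621546349419856724138189348266688844942208214690785179075443472282351904785639910383511149807740597857822882642945675200089042775086339920975722531055746256868302960076054019723418056145571541498093376942617107237531006677632524420297415446960798798765267314867137038891679993660751038858745768157545447961313903769760936606621182538020240064048311310252719884460480049909892517569858345676706571728657431289330444879654048240170815854578765884233651838143412549545534553915983025037515613979559188076587513450943662496808376530344416764226355366823922228034984986685503584076036436999223655629608073374077240084216505463394687104788479828031773547711399698205774376102522002136450665915516647101333484025969710989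2667720060425582026075443487262082033270976514504335093404154908094147974424618940376596569183753161609869768447140936776451036108782528603083008405343936826753104878787425386822288470145188594205795765210160523174174198405390478099617994361786446593387056496034097082308841283024912489050419300785454983471874379144722982085867703132214060715819905194739373079298501080498933527340221317385135476377466026036000843252763254842586698116765371442294992465118038045439767722742605443539051369744008769494800311277475203093681146835307543786882642782289587942896699605426070339349469422274480574044328536034187809499320777842524114938466665070356550399446521520652044582643593288270714501038133775982729337419281055115813430398471954222803214742634556952362680008018997831837940856109473833110106564168500535671517432869434482993052085117488375154463268347276759882485478288870021279788165620455161508475536906294767557472307198568011718910127934149441801038449045844054059657063625461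3985327138683285082015578912675911740996908750486433339618704399501915864892549307004632304379727270520429875905060686976758795712801398217041076190843764411880226516878445096416213235538898882001484203124266916847450408002182943701918975516120075776860091303703374808019520999435432114331663896747014687674496330334230340881380859411275528766457719396331160182722046055289649106953700434873995165717245129037139426748587234610049185756755544138357458029094409387124966496906633383524906081879479071372520507174558186143382634016396624622555882822213498304372474450347158998354263482677784346882368208686489410094382733594762033972170284558465158865294392159902108627193766208849010029227212254034021159723201070857501029839430508394368501023125341113350356559262781553664472013286598696390098263836325399587345812772151114715872946443708738958567072485520969696550567294045710671969166653989312420180622553757204974001313730198500466860359645887525884678605612004677513172009668011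2205369853830179035155548502231749627264116258085319246742088148596001516222460523754759071496986674515235117462504127262578995835026478304100297394446904312466897424643023358145377339626031105754239544466512604837584593280908054395861572219923174009456601093997189132526953054411318770237050838377309575573493066360304383405110835156883836618796336245124637069410485031060462296108566861421092214840354499624022414715578774309518204529954008295540903159001336679500886813793790144331662389804596326532826939666860137465239965049591255225060617817223483863627553570243855979140131806990532151816601676859259711190657509869029582100153779101248510430575093749922984740577749871665512135451271408140585766528145687776455263065409286321985426535769773699136641912804816284780315652246373610461689203262301011641553287186949250543009038621399348674595966209048907609097890656329493296715479294898378830444075145203013307423356253937182522310481877595693602109153737743850022740864463545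5296189297896026213747883722070165704689726427247855420931489835005178118874089286364589412779988218663592208272684857862503789902497642682864730191483963138224239570194781274961449336533619706048529123329840263646370995245873323288036693051796814602587437457170702798804147150606753342715345716694188952834379202464825012611423297725734074675560354255927753708978961882544990139814245961659645536993110075393748630255599957567493924241064251886387642718157551827111988831127948381148096787790389681088193311929823931868096059039791326833987821579854541956415110679052275795220635350564863883249942695527560941095643472460368394585494474468407385887410037746812215144704134318642858323998225923116405990785001722310018865043367567712931691070151453414658336044998529041730997547982869108071835328437260591521419044227792016547956485700887192187018692778338380685056562728035024815445578144844084005831493771346443240470247032503185584697322397530018186813990458083533288583627894506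183744482193540798069018484675007647403328705035782028218365482085729874939709158569631519245798065692701323939383896716475494056542484260412337660085497138499140359766220316528379674285007797152362804987262230069762482271338829945686548181599021971226121436166840186018419103161701810640291464828152340619464601986119273414505471556158697112708513264537514401020027759404922392098350884752005836388434908155952544367191997388887148946564810499273779901986617549539546292147014027858903826556854020720550134441687118913908188481445548176590138878114197205974609249817794942954117327580931069282513207164418271133827072)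

noncomputable def rc9 : Nat := (nat_lit 1021739013368147295416218819387786156514053702042204385084034406064571970649160616521453831770225953590178521724913591243392013625876244363259903955939459682437301707704708458255875015773900646990564872940692364883588445590720186390582854101437172542611192741577291256405163435903732240531441110931279888455548965401724167909125542390536005542440228966727920343795188018364215934656656940711094832251114142911267767201687296477408373727397561613760408041600639986200469429010561415132310182145301009752147197073341551645039551790185059108794299305271109091462540891246656542322749730005166959227571655958085068270822805035222423697724203198822585669366497271246407254179881228593720036493621508978530285837491774729869823003419306357955189929524288278073468894355536306525490171796915108402658391008650688655643789003469941793424983659292922791611721066664147348248749917318907579103762975844069584080996578264721697004904707457281332915920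8049098453271438005574539157163269943345124661633949862643342277104803379549869922664581370890398658598425743115947547910764833379296638271678834255345244339965597594741233296635680453532242911933416936016934837537397077788679812222314599157364543415642344784861845271980761167253394179404669281298107385424302534045195976757512624539341952030272135990493992477580950443843529826327734216529646144461254118495879151672733174850686903138724935918187190157391016504574859787608669037891031926050524400796004153377556344870442172108953937749285812682499591638597256529348133943608800080281965083094959878444238730309649188144227866251861463847264073011270473953570731566864569696449788804184049458868197658357018362774507837068982698939517753478391566938849298451740893847505241761068347121426336295783383528434464938037045118276857679816886311276507153713139585857904378364988294365546242614892652783241163290496675866857910521437588432283150254252501799066811103972712642734926654330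6952851986756691073548132415622740228067400126180557399595735629991032869105380909894835863583823802280769719298799527953207272983308111334763878069266415743915049253798525542306438426750275647965322689973418082619642438497075807879331511477839425928375944225647716953839980237464251840233867248156933155483502888932414753422957180497764746234208685193423014077777166231560377255030749455268732857446199241809563247347810055494179639713994170832406362352161920749661741491896313436678689890501934425277338696732519760799842518940966233315825690902095341390133128104136197581132187828637516459240112109132293970008576744288490493000840939324366327054598613547131148771395632059482338921227458180922204370416937886150852381094217685449513361013300490434669346195688604395047396987190142491362990248895845092011505876657153800863919330271650205265294511835330689557332033624345932149854450848584412487102175435975080675126550260105408777445921785219317132564555188048330936763342599900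5755772839817582059004531936248375546911044363722735924453548336459464978577132813392935386226829412534969908220151275242560406571608417697158574381652699733751213163638471679222255857304296653308730855315580324178029081176530170334388286704676256002015352617134548209081614890337329995643147209060676151319847871553299928907477150173779083963633833041027724402628512041781642567901833230186489191998873489724698506666974848134460007532914349022466684137928875538121736179295230482048634274190791925969148727265147159901119083354362626759240261722706269161358214403723512482221243379574174272350335362390793217573288370578417532568049849049820373331246229283566884491485354608946066123329983477046002376843879984456274868828790995238856092514984060494505117385596709110735726263573588196041816399390651113386653484112390612427592667241453702840008172643990864360428791228917830474148951262707139942006912764349278312053187373330507862785879222644368180396572920235376142024120848011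0023765116769129249850453280844285917746566519220717344082848019751725125248855767417898493426991628771710875319833236421717146072014784426242911410009082655409790410245136070096155568868479661822100320853158578387633847395078460265619199201618245351818706298997266062892095304394622977198312470086631302986793068972187160040136038098613856436998702546439241163940703000517740737630869538774209438464916114679246312108722718051692399624608814658050572337747382237037934818942495130481683722842094457897573342878100460894736693765601804742966245258414546217996178329553119092760494520734759357899876087698299485885994393115581747018057930192525411053488034679035174643596469578313598059986243490718195213838362518559932795121067138552158220297309830902703907705911328252325521678232350897408683845353067753590177667039862323957930980112229478432552233095420276868381831652871137939424745673143972896950642865746328343904795183136270621341212336541553015487445510729329950643237663995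0264118250983794728406715577147704934424915085176893196808224362610876653427634389173854297739613618477529328298886012751729813375881862407534871953429626016890219641412160691798200970708241512104398394811049806815052842115840176783153310700279445033942591929842606304377604360964215780267613744172406040970121550739256708741476593199400208266689101456758269003634792215513762958488555210519967620210895462230393840053213126089070308231247911516326880572612810955283789468683538466812733455450608614628378814375062796973278346467979222059306652249736440189091278779365571843784352504869319157707936781178538105683424887428691445334268143235659869603238380618728498874479194587619383510467931196719490312498303226979970383832891467526680838995224950740939676742763817230067974896835658801493834665712278354899529834164778915205867515897920792105476935347621026518345779533206600535950666902633231665003515674939349618387372129684977645230918446025597253853073202004631453142913849523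0541081157583568472484186915999650656193184259745515957270833939944374823355961787858203057829465325381928444459923545807607491728066688625486806523439858431962948171316892508473515588432368777389785435565912359994888104572352328070590355540363531146934067685947005816261882513753297893100760206103440968809870014245130343369173885981167993457405520716626382488150546269602361002234961593799712432452969444216308963789497715565822615274343558087368296912761552940288114712088519603305188140496355004285089627866240313393744553833511952375408822730647044824510338761999559075381256946969491660105654864007410826806767179627693291311387501811286633848937239359927051642899806239830070294523946779755853592248472953045785455564508984611273976128731564870822118082030490262314694868024469910574633014749060668487676369120586088727583465340463199666914266140885005083614186987376136811303939407454300176631647457383641994729744759834097095329574096426003767662125086354982085364303404142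3889568420799674398685842039190703614170045284898167368303076299879282891739831451930077764836588477861934846730615682283139547407828052805666382656266654659924649729807323428013019950305005967238209151259846850747963420502652161270516521696981647631813034877319343259545938541613496895107969077794789018918332256811487791147678842348865828920801211654197305727429312818196211689949766336995683570120141869836873075454728557790753484403103232529449411083226754526281838162287352945404746209444796394047725054348056333880956889243844956257900550756858125859824034340651655657209407216279825556384351382336794696009571693918215664380367317891955620959775944845589262958477300036803388606252882522618982280944306976395648396667256235118323000773803211990648664063481398861620705641190963720099071603651844241830123249075422617189634116841349731909807641234113104852919441913918056003815568069416386237658289227900800690088781380254683367461991051522715436919119021631156792989460074743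1733953243878452409293351748188914587813259028404400347726162698014844176782946507811407165513184960894180818128934369043837392623200400651090123976055048588888748019624850782658452666245297130863715672265342127684202648581173816516146938590521161884638040231444020490217810491761884961746406430399361475342574551741623409152688967315266158311033603377606597817279636694498040429080404092200781188060801250407084236665736912088909329792766972321016460643325800334199364367453906189997537733135622598014386757937336660292124075298142900850223296713257879471648345816104866253541537292753326212453574941729974706103863805121381083185312925712771166948916269022969566739516622205729702262661849855762899428998022872126577353688838497139004613301679013472301396382318321618524258730831024820171415254549309443413570559955584102439184784217719289947326956559801216698021456084541748753840819712670765702537017316464256673567360699864501069571845210540820169415940572478361591979341304665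8326366155013486546614395237262293258242775853032485511634404870829711307544653766983367309801158077022172365619442089334099198942021661890517376267100607764553301062215719069022702707573340046339011285429736656099316233132340980508031044550323317460173583689326806403885352117587379646297956930023722316163847317344740952758563211658425261778086259917003466246707007832193879366923495667263947666247658548324390566703962232031461803975675847402604087136881572473684195031349506260282117832218349783042968814406648515714245610061852498927139526326280736571745999786070050658228150776562017342839928977081960602624991586183722783833197244484993322265781734888644244647399138354426319762604429769021575001627167532243567674043454312220700365493878082967498444625699322273993237918967401774917483801969000307938903661221362078721815824073208331516467385259009815109737328248668592302728144127304794391890730351604596993899283932021433297509980414089251860862040963419140323984931098098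5221980712104521548810767340663114172462230660386114965951467417606224603446788919408938677936016316270269386172631600214402832365608143327340561729168783835190850462160416490527259421099470893266684957026646467963652068726639944535882568082457492765138313270613583048315149409844709050988320878721791675213983422062647484265830373769113262308490201980128483562256450936769314671959399284726999208790622549180574295917998203769461963010513531437934463867899716043610787400946825233786074914532659731764058054150865941692970527901833302346752591386507661899712219694413636978729873651848171361616894158121948086909706957328284376893334397680371871415116444475399198332777536068937508656032842786821200711203356702351161825854389633632360530141019129472466679303622287944495119603183608203769094074785772605819243351845482669058879740036676223310833036151349268467856008083756373032088245268245767362822538710415616413581578055429390384963959520444383756672992909369234093271945645451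7872089049338158456110706977259547318606801504513556720303076563424692813392245047709382020133596905586655975433101050129271582165586529475635847634915246459482933640406074760107951695037484114024516726485107272140610957750113172142865421281179090605572930157021329977740844788806520493537038221078020016521937938731390733886586162223660062025470584995881984373488089143573926315365857456844603283370642717882764920262869507559757010285794944080866146217427197491024482434899355034997716192980007283715874714477635212219904734125478426356791049484495714099736997091512223067233109114639247505275656233471671038711274636678760247816673120112827497185884996638837991169993156325982634138313803415041628087599197966478690661659927293146752426662971228856860750687710580021013748946487269765428772174428332638709400759068437053478797159281177373995116742959699376732929771781183917161988383426674345228113655570624663535888208353398928973745101640026648233721850813395094571077340756405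4461708982165860172802337779002793828132266399719744436470023713299851109876802745750082627241387405379382796831422884121143462455973656509230287623551150087806947215519150026027361601959086980903203535550357259687245835536253702903687765140299118930197239424118909971356231761342046564243690458108569787081027107875559221700923056958297213786470807432474905629862333386255019437093616978595744186348643474545671449120673960558961690723122991969268131780344604353864020691710921166543222044791665673201122237769683399252496618313757708540978856780546038458671740603287629946756505504024000887438748898531760961701911889347433403500136993062224503568143973413040982984688665701694573681800898098627700264635085386960148195483941690932040739468653589863575303590568743981081236801953057052096584096454295160408686708903033666556448146459857969821440422374550901525438556322297765267614503550679260482261596611250942602752048878223791828842219920094088618820129328601877388263838688399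4582304166737337879072703745764298766755976374192563885391206813781153892833282743462410818853576780212524569578494413886614845296031927758827707731549506646061043027829187164645731939099799905098384091176126549395337233162792807997998963696486748818705851310440451571832719827196087355486815550678449652818520109915970796925366315136596696135695251372434662112121888287259339533831936689959098352646395732762472454777336111825586384604191461636494771983030744476321781603598599576552525463038018369629330344908090343153637128948326961397107098215988048160789947212712018332099702959307627959834925271131433810320527376752548299637186546421893265307128119349787792921978374614322030543387476720047921948831542033867245686324181311858455152116394104377610996338474946205095447300796477205476553014600830129131984009521264288233180999836406018712128555653843056278509454735131328456319520489330052009028190482053080526644240804354388698725160361043291586718370849754010717871847125023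0191215554672122150982469338283200470993750151507404953633852589630718778191835888395375258811255051785983878586955008231294096361411261790284523473267584457350459572115076596176846856577441084661157460925421481498561160882261191027984408496658370918133957755706452059294248066721097008131669017294284782426804997353976618701012890430461413637136733381649216506152877973657077646194306796027282339757456732420960393844789223792260598881497298905011412459301347447129053386489283523799962910825079272094801880587934443164885129396278112781602631515711147847978038892778177310016331943224771063063669392223075097508234156378390027712121736326691940946333601126344205068458061876757510646084089406039516842177840412591324974741289077174867419579397411111246315159217682389389805424217476182673836190225684190146394698225049521438611051963193511616889275672080720462197320116209839325549794980392266376966127956374783934183905318584029459885424036901699538589789256580388690206198429492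3157273104822010767307041056085505899422251928715344481517440036916143623112623500206735147349780318422450435220250714093366619593510819935051895830024923928260975415114839073818783632969683701875022268702007751588606567583815681099444721666715075495053289098751156769495927715803378624909086257576980638358739629655114530195730977513566258668782355423082578914794382216501188934719156897140706943903882131799242794048530942835169487955844129086613013619045521476676179584152227711158561627978034752683720632575120428578003719550101001381238867428556277908291190115363866851385885998194346417238019112748894414270962286680867339507986175502378802198985124484446622267070500583971952415215273151655987557832399687530085387531753689008327449260091699738291080898382844155767418179669182248662815197950777088557791895669812322064612961683024588241038302562993673089563468781318325601808731482184972546763251648821650353085791854916074440324083163287185511179150068756145671574664464366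0549937964540593730275728279167782886872796277110385263851392787184992603278315527860129648864936354687607014408669585831265870932682144347894096064961573394375805002902497277658851803735874881221287730697982149187950367665722434794392661836146916060251634092721469688012114538345506549670881040664956382016158635564671096333778296526915391551692005458303818216372464931046166793598637341619417081886368972778091710536929739094738333284192864476104918188967607033682281122787172311667162894187556932385435657640802291534452431262882171866494775051878150216915835238540526215879597324001021131881137785415308631440476846702725453794750740462812187061240250968261807941982300187154329218079232474692492504235572401413858229916250829095938681825367786998428937704287131152507865195455962345488723727347732472837532258906128598595308876231134309756184313135146332181303575747921670798673109274402166697471002784473626410005521988649618928400500461665338567956313061441943256368619120848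881620493777421116295014013915692667809761531640598986892167790796156703340272230013787894330119952268140065978168148844109623605746801323877615238366926531814345491264695236600327629710700916995706162030130216260414310924422838352767506695495608176285659176410865025616236979982036494543036582080817816498635152161611015941618613255258075918159757973299226932786249118602658753429687388033216574932728740260507988275372383249936490244220726577380797892018192173880099451050237326434555589752068034614998623675547382627833020544321771458425552638458054715576855373681607708720638283637485135035823497594073969586077696)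

noncomputable def rc10 : Nat := (nat_lit 102430927625031599193798746353984780658145478382268390554016661825097741968239968625569189169391010355884880310223509521258869201387274201949423209410791510440470579896818646705489998576319422919971423093774278520531178344161305765953305555055814629807068101532492424545759790887460285446804414816213375573732306261083408828483192723539439702740741785556804057887142842364502727266505345547114301789099964024156326408732181636376964915818214459073099697068213318967003017369850494563486050828362938922603493845149865937133656183690450586869689892251522495263586836997134673848787356403562132361122402088453310792338998389193298594757736067303091574760820740335116044683851446272658046041382686950929083659736950696668438801104345663475957089226650774668377533478998195937568087854127506227827412169611055360484404174646105099643487727071784971855710872711340003891647012757082949001781620616349513611283936587053373337615166026554536226350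4193835480290481289321095110774137034793636339665727536396095729043070154065860133442946138796887060278086263060748887741094404036830056215849904291094053420793686280410084151324132540912226660053248299924284143024118342505184269621529335070767784788928276368287224573154459807200814954933731814845691671082019300150807927627109681388695626388092124789958804787443207987117816374872274503630244865664554962673673202385761169821341732501821061071019446143488462798363801583708924148214951054360204289811679208517703878553324744868075897629056945288134359891857600732368148309206962569383890190834268341941493996040501604498531465438765341877497420969780092543696822533796911226601218455987495336319713714153957011130165614127613686828775679813821458154475351867299006644112395145871096768627606795220189454851745747231503211158529983898931846749848476857668556241806196873031088356299982913190940244678335669976787394491059362790058682280604120608046045865082438563397874568978032725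7103556428871705264078206156036605953496499748295298892016174469253356726250963543670769821069011722640231959462277124815608562272641784848769802098618326342825213456280058717181365410069118434082387747705329506118113045450393462554389146795176265975641070362528320897965182456536289174663504950703072499502767564121247306410555084291945532387528755557272873288137813962869347486963511574615620895252765366306507811945009931574937584370532957581284901684990488231117182381830958299651383891876484248144367655622285388378175674273804850983772159898908000139465479596672302237455716944798069376780119853488892988503479959995668229041003982141092122671448927700055214298474191256963598439612771695451383988292787497161618908177894334881439814880531612168722742307272681535188633545270747047126274331097927107546067999753637187259442097956702738524325427052152547805791978845538415312104394597414841655276246843764937548663089330798988887443613659260415938741499209574820088883153429412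3203831929928958698908093194637372329777619533871369052014135258864974577155342360451682942428750712350932934786956839960950571178395046959897693711917727199186187080259784467678136297766100266224055983169047203626262177083988309815484187252522913842906491155292191941575589934881320653114713923154949996305556780892823085396834134394382796784703084727351327011536080355795776981281744299298051616820805775756895535067542203516550342851800902568393059453239032794652126823212949556104229481442563073314591149296853011330609071599848310641258793734916653948264306558651064345227496059133463761500257973554479533406814203502960361733749629171029004885418458445279806601562246730493256130484222844559534514620131330745884454052972236776676017028360430852092318704953384231478080124166140594257813015031237360152320112433378796233911559710951774211954957004966197408639906641779141133848753592084506445442318813492884357415583567700536506487943636182780222523917357799113094351781789894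5948906655490470764062452388477524808479120656156527669582374583968834605717511999228356067488303193549667786167050872196709083301182689698227377244213053684130783476282344735079975518558779479383937142578830581667535547294429539702189839521885261982589627601025264919986628100493674630303579084106505474601606050396004623570124065873098844593783247635820187728841467466685598407574597170260921554205359965516578012709586446763731527174382246836682440839006354512705801933798027874483105975468114258105615572156079884095820624925321148303522079952467554484029861143897503463356060534256307995880698803902325202100119890480753949271849333639507854889927718046123337312090258338444342404652130917247679526998091724770810167677528264483380035146223126181734259708742706092328482767331698148953402147823199042821226855289699397171462206413824984873428922501554817092872101571666981822340003818970220945362359959834546756916859856056672815572269817465186342198515149532871303875297060497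9642236836657014152613440415415937123049067459805277248037392307035426127755541930696310891986562909089586014755343516712246035364962530770095951592200051484494071015739926305734055912459302724552792142504719083518536326010677746254981360170936132735920127104839127697002408424927656202201162316885453765089807721265566083520231284304726390082115518814655440942157135790960005256010744355964495280572609802851663092285942709085671413699539106090577325152373735004664641919714796302701156451041178930151250563355894934229194499508578243577481334406118059728968510099215858444908916275312547071519985836497025571461448609533633826764352358360030231893937830787137391044914299593569205358262947748967515718980788394288896095757788510956518392813735937192599651438192518254842252759811778129611091768098154014732140412989088505229547165387939696495841070533017460987545044682936187057055599224597644457165796308909121165186252676825920621518849049304661748175917860763964970679045562801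8958957971919238593184795538727073681618438624663508275135616077060546537962478858192571225355774154619918582251672208782499898640093919153107822822827059919191825261843235462779198043876349111153813380831896327995068878087054724335264450543088408574063598004721815425857121089201537083058167276036034135112131124591893720180726477958588684252049540983693157670991625981473540156930921889583686687581795251295779018337567176497143673095973009487487772269862917147266557989678407447108549066185909511328711019567156090746008884541450435306015025125310695704461908404267410377796483372895050865905535085240833501980750966121196251603062132796966912494423359453711612818105867456171686675792159351051835309307979004595417384585027096136538027196345908793917990792912530526797226310494481842623004910505756037435466360367122517438610162565938219663592015658083114076990294836024664892667864505609257509105381964829345568744541005551045301203731207500369031912870561218759269885816179609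4170766055772641466512427086183844236807560002622604802842284201155321637372852964039644548518899587788618420575357739869995272410418963328939219707090488861196180183525760831979361907610320803942899066687091484563676737748803668184140198888199798713875888597446202123253663739280534215551676983893972306328565967799755872753277195266144701308552773780184285535882866564109183922336507440313998733412530527256820100601245905477595720257624252895918467928784558940168655187863537830033363909767607479515189129379683053645782034330626069119444801191931701439892571636510052449377934307251238306139231970293740251036717967572291429348699526895750754374491681840351274441807336010272637401823214776148845467940264678244417450237633054291671847738187727418536351391933777936852501306028444632531488203947312818920941883793192852117790067803052376260351381983424228665981566610391029641837909682645883804425438302208540282070136819298319056601844958241071880419771327801878047075345589665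4044148326878112653766732484382235303361556803816279254169839489901202286130486657466843188246735402519360946730449792533828466817584976261090741910080481082511300571932454412050691246284021699929400669116538171242102569565734354561046284931254117710966334465656361522822633645605408597064406524647162190767701052220940027346534444612819975316644180766951571249857927992580327745791455066664652882876276883999098244353013947093742060643588106220762554704701732103405580032500213636079344407620640220097214359065091906236442777048262798418963370004352236147294787315633152586260148304507433633883001212400821773727899669117642406969897938185377120234495935966263124151703470217197483285955740933988990035722209291607136614670776008780669196645070845111934845153505030893643347218163505403541462231697558649295999775900151383921425777921616554962672638870322566679773281386168798746721804949618783488933993021246564587305311165320978431123661169339685231822649940779614581725711942320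8321015297412955405673868573240435447499295335849279184893135628882451995913532556903069948182523366381003360965510573051905561860552306418747082824645532176041115466132421709387225452959936579396400005270805651963407753344094126281928065469219060562638056241976925035815196088855042335497506828642884534627803801244716163571331402706866252202400158344210245839115512388822492616484782332523844447397939139980582876671198305947731357459399654312020047210963533456865559993629848843093557125834768011391430957506599163126285375403207727143774860038201710903774821496048726855663936991108984483593538532191747769890488180575920706117859760534168706836347092175401374260762939262966101054432592143302641970689878368612275070802013106088178635317899481055765118966553963188679947440145248990192137364883004851583847275764058120008871567573640600971440818663259967010363544680435675395936118976456941568373679116928367628910304815930878221516528202903908163882480987008161271511501803109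5325562979511017627248749935296176722526457201181304518545909434247107612567491031046952163059726424152636138119202304112891822781570557847198720666155561083915145956731025006623378663469574377536383472001464086640646230381488564579706099721891017523273840390024204047431434568817198656689547593702273936714462907762883018103392563426995826453310834630583567019465434159467272233195963865427756159715965822569654654768906823148929595053125519028818467780130396961093367026222193955856344081634287270277516464209093890511160885263895950873773885349494614327568286060037826346133301064861816059203064524129825445987118010146223296451610539691061377719987467955168251295729357653501131799320147861450353193807583986562748020217660595613530018225380757475105102075815543041071331599661345677729047155477587451918557110093893678892053187403797910886838046696495414495137545501894043042876276457181804083432056810566747089201694436875936388422597582756950229711733976021225158631987713540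3136609765779793560886482830279064640861134628448495267772089419819501484039527994377851101872891915033399684326669349577659254474767603158310378270479650930982581328231563681805860229487041708316256439517434291922117721600940767700221297647162628839818674766368194887778613709019364461376082233347250670071386383309659912508682063631036113545996496130728823113497392482456983080153782466888774981981942018556546667829932762149425493197380538524152942938316504929580364691153804306210528818601759379600511964509820602043662336752396995614596930848855764408519021499856597138684523095411295250240629400939042374824174797139408307765973297587927239478736173097243426782180386060236839569905105573519876639829164028869639867834639695191306617184279662259954442402932911352799642772199689786578825548063500669194951810203341648941031779810963187627269431233519484475000548513929494703381757596915207574734334665327090115751447305313511687282837657218191285013508992023587471117418644817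9738640684365940337505155388747147607412114224573251232343353470458363558129562076414139802887885608215216607926131327108773194991553889135830859417662106359102889619320454878668693812964373199351285782564283262235054968313032536217084519114810423940428098754526111280123020409719150077964115822155155066147485631147891705641360873082582360012224039413903733188784499898504525141928675157732403179832001463719359807100313253317934015203815274762565271141512368866299418803548178854387026399691797822155948665440028797927946540282131963002512493620684631247051882401159817801428566216591875650114008401515361952545712976149234398333417877670108575985644313340844554449197417419462291621088122197965561630282035007762540741511919989347920468201852903173878783013772333900004037076177540660875512523446461377814895702485121364732453451184731968111336746669645789856391512026839241476252331648955424561298909672237654688526387732926474743199722968914881903410942164819619581299032013567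6168188428095371221067863238349436771110890934231788389363760271415703876635735240280526975258869693807780633149088814239032984894865553015897439641149804469881605432610016060721277795060426314869411666764810215591202198404322048939351593910449665261633296319859813389899562809175977099172425435182805889518064507365110036689077312487319251166046545321351737201543452019540191223572369805592039728340875328158160086053781642974163477417846195065402152899605829728218396405148958251547598575569799747403994860038213638105258974877621165244396121494109546721896421646586051899255212132656669663512761097729358824442271259770141022299766200920018612557720890954574283210372124535109104222934982794354644897204931687794533844846855486064106168176542590683675041650876021791502599503268401773393409973758994240351117363009317073098701392542463668957934371322787853401541594801466490555312690884651726829134146242877954882583784231642400970420219430102808135066207567204170109943721636770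6374205618768469702468633864030177309451441757970491886592561329356504545584369479849712788343300279908035941928582108667753185037050401983999647329660517017650827127550573017289062304656668376258480982422294399793677059795257405829288113920457674736693688733761378501822289050733601165115257010780799860402734074153818568157576132936651555234997816732120134968858447128189742308537540311529095653296070771265565644455450234400226015151921107490310243320009186603603338047231633490164743803431637241478974990862703061501394968627989668051739812830621037294434414448118953532554056246419139429543325952590551658417442705494703041071929041535283740461232995787586172107537822391999717947262260711077136640489347510805138206928690168962596407635099311727753004280709424507583639513911967538791792462040710368574898781949737836960999901289290477358011237923531430166333375254691797669033407324535726302802233123514261137391526978095090176571275679029215168596997144269562438633572896063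1249074576054127035442346481130073454739449198876419071599299372024026919616021107716583776577459623764644728333601289692965802181939084620178031255853131412030928583225019637893633522266956538105876493110777362052905485427581800509100636990466060194957900842342367635724106159313916085705632081683352009289267294000156661452830495258629892126419590330413539483286897661834047091829954021767009396568930319030226745410266198169434233814687009884984652474605490192346059717680830494748838295495469069696865157997322810598377794717786127497357148971093917082629160075847430637658505384532174055306924610621657343204500909199216753644022975089496251292215805096054606259606843354724300439355334264122919800268421487014880878189583897930200407932460475780101662752017872610304348764938556515356364613755224005667799511936780370417005914276482461458605672516283348699022136088909300657594978281724085716562638294520601622288931888766829168163275479720004902236783501920733473138620196495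5366442133072603951147343170961183566836497046872467636477842506613731248912711124326020700446590946816276886650599064493098930602470081751954191118032981259807377771625965166314118189566165263199884076648874807767548010466224377649511480212651254554565092806453248659483153818545230247770949830205143216321744758981839083877442193117471396372103798299253030543596996950829968298675846435311319623267759413056714043570932127973254938283253678419452516082761926416142635491830482047166288468642276630082783384236889474292522373396253239956897495824220816206606890193835455457909031474081649861704424564150718921473682001532053657840269028130188584797165841817584551820926428054668251804619756662296697868372729194306109979259248433539846341118421810427996339415962366683338010603854721400279004855178493008915547669516872211007913835656481034771628765102929466136973377844075705275124688709452274499216050727283698751752019213098360717499104871078014293110731707508993562936137744324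5358216438395258893951736894616637620295978339733522697189717580710507849205660931112263180772052778905408365681222739088186158714321151664147639069674983218650136585372075930624731387972536225089952558908480634329814340771609555567367018057628266947650213717608144542693179674494204572449443721188823437869583514319523286050244061014421665990130701669750838425145713890657781906533319331523853024345048050780603967702812361715279804912340640023874179220135410741386713750777269315705703342871238003742173529521563481931537930307438237301756065588581460817371116386559930687056615174111967933976973419228983642141229056)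

noncomputable def rc11 : Nat := (nat_lit 102686089066518808445470891872920333104175363422240067250686817090037808505601987256397892027843077750187547252745108609743060260407438362574335142370232466153606768965303124275606891614436744665596843424206479472566974368352647069839206607672872316605921480673032163353064750804531685669516587551896334522082238297238419259902244469195031052209628922598136877997668701050903904382419691061777083119312463158304666799806311688210031504024918367227066437305989565908620451443804398870429255852562366934976906894668741863770431156887034715366741696607163498851360424144602688493432334584379191802299718920671599027925134848191332944511763113993590513145349370243476641923372993758220380764201826984235453669192609780661114594559739328534023782616736314781495383403555584663268210023583372891070134672357086037981451029877218077756175966330780059961367661318557048125679233777527311774970171572444693316528834408261127268062493171276692523655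6452733974290754344619968190265438538910517822115534018445189842870715724851659427281810006067396228876798243907462098869283324265552034185234778200279273001563188262300415463241639596293566083917315863463479940672880075851183980135243776405790415668184505089856896117161630501227856177649850018497266307098833826746212478407668030101640482330780516061127879834216296540003048832519879037673868651058212689782380541665478143470096505902798897370096422866679965183628513843287875706333256818820235740774625225640933222855875611626486469531913854938043157100218120438566026943212665076983757275726295428522226325668966482378213468264368519033989659268815944432651787262883531421930201122673402275594713324088406651280286400692552221462696045979897514553738736580946487673170788901132438668546419031688320219152772335833920786601748223910005348156341015125779799510085857652535160362630158628592477087254583188880160871286891344441827011429647164366071034042393423011063376204200422867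4724280928078301783821699447497043277997123784134921442948268392309687743608011831945128630728543334786654175734023384445503482404510596822847794038086323912805203703907056182642976855639188356203203018493412898657014344527205632561225699837305495616841839976012194306946342053548473947282825810712234815666277553366024051352511134203684645839232009381166371471700969398751215102938347585315688147897373080921255779133760707863876728450458312568602466147570561819688815050732695429861266665482045368595526333412233008113349825829067445998456743068997918030648676940363407286959118849489884152919415434087555610588818275515831285870472848036943092931303108857583612397141803663332865842768426501706507320654575101793455397859465551575637799026222086241407354596099879301376941764228485840083747499165459735841459711052224577528963322087588968796578283863234046059406814209453999512764932730663402240424710406832569387893266171082440188505386746995421403635505043801852357029023272804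2620824352667443888964976557188444537837358240089401400950484538120151430799306114546677269921712692584122235444023167456054985227273730725804735215255327188552499717740863424199115852805642289496933527983724505175991287423739133426960737552613776937344309463666522707841815684081415433918507766602711996676635729837288201571805085717275900016048690103726538963316039533340133518776901778473108471307949009657882462656647791509160149920053954449593907345598570580005296015938801806429455939066172797670691240181337166118630293109516727798750957411727197037230188633973576931008283809309555104457209327770917677211760238378400723481527358160137743577699494366983524500060940331181564407201137179789050800780861834860265202339969288594610325577579427796290364898641740422321298426791078679278200241695010649569219512321393774924285344156109492862961299595823618315707134539795073647698698926597195257588755132790570508327342091496395677971582470599350287339843586387749740174086568215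4290263638634061689601248781620723754665802129710678806229527733327025453278584512812026747689958102452557200087861385699965825090868093803303810431263218613923322338585746261945674384054614145699717216612010889735659226442922534149077348631488409653044583837233294643231360623489455151586805401618349328036519345000693128885488906025904007885849373843132086715128555735198840913811193582162300875082285177130718207835820844585788863250316981184816770936543346881795713551846263006982904113241123872937917009877684089488621412080321940650912103959286258641401934500901721864839563880876111786907069662420155571017117926343935473818918662354406486528803901798974441657037014617169545772597177868703118365035032971819227075671028959090275513948572955622497640812156091850038788501569286106166537069289801083947511750859443697533872811462294628548121975097806133960371881334763456881763086898498794561510429644039906412060335050821767783398950528699734940125741501519390304922897724274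5951088912361090453868044658753442484873045604486331259267258730898962924058969534265499743427953245491607421153852168412856549866132081711709259744993450604269365362889409327380850869730581006643581768596505140439092424753710020572395177087304170913081967828152786648246505874860063274288542073758528838662996751583765643814396210863951982408210619486406255485624868844016897535061405636174855893411499142425472598813359526920455958247140938593748226023228615140228571320428800849930490991388575119170341399043392999291432682583854428700146298138822342089766225316064359136047842670845027463783700000505907429684777036512119694527964939752592303938954625957607279175107142981022146313523018980656532277876163122889761252083729420669920909661336418275905955235808952301143408905736304092319850413811923278172729248179268594122470379625772784380514205032045578116763504575991259419105819893328222803225753413012853116525215792506155157773958432893783973702439677045105544482922810605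9799561692326159147816053877326134279896216870987692023331802807139282235271289993484132614752645745606325233290167103852745492062086307920612367116490487087327419035188484484182909451271232546020073257494806052739974458263717305286918377635074175507761279055820316546103721380492996263216059199812622461714894553079372742162806801138070328929715699311939167276249022158009772783050164288285386737152497412195614468693872828541932909321546327075113289779947403472231362867756005380877833558037406589750909803187554284241428232335990528125661350764796483943424038159478654644638538943270315283616360136072893752222196597050856996920612258168825456863253268463184168546266088879117838729172121841884243635082329923218173034633742944784393164968084949325996210410432808430491270123701694747932023482056709981632110129121390380817815843824992717135407123275008415549969392238474930924394000693269899618563434092609860534258881312458892470856922311895593003072932359605463963196451328866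0173840290412429081649328095035610454710696760938179232906276272138201579164197621502350820463517487172667236493979999927177724601318253349655186380335931499558953388900707041100953132468946514956905143084314977193567979907872088518334070840698802978034788501244612133942831542081049437390489161767469804052902147253083753770161417769245635522173691139969260405401302473463401767129130218193670386846129184609047979086787379289684821675268538494846982216748692651557095445722213761014183391694200505204759213095650031647229618361027757540531445175190740946870383694760460844696902436185162025549695081430943565951949765836662308938342786783168831951105656168163753849391593192394782063759379534898615087889067113910430563587791213415527513669756701204407059088175933225839299614844576775031974219388181398644603604458497392274406222768019032111025683411385997270712940889494178071152939116563425390023884391872539532047720422293073010504690376261767688975641090929755348816565174168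4554141467340498188014701621089452787358882048825517773140641820892271895228043264245653113116813435528299019517367353753098685855531370520539710684694464265661372756851887176222992120139676335665832425597518978065273678846466519156185623858887319964242019201075408009019732248161824604824581782697292341543013404294847041805537879089936953274791568385581922685014383680839460144749461803809188269818669885378165240734337400221826046544066609956892843803334396014008475047713125195123601705265309168967423488064746363202436052699484034909321160995505407977859252143703057319756956522222981188281398581604910971086981406368109021140776448573693060981890092153421512749313641584227848261534256561943763047204269028896886963764075425098340543712313947999714027216697505406034550428358617544959853708673849893794146930521400691627278400305792894740893704157587748389265464509884311677585252156281629368683108701488503925558949600746950805096336739399812441686368602792755595189919802567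9986241356870404861650353023937513011756369754156564889408079625128381740092576091441906678076507326115431558257373481371002973298808687850366403243898117133439382112308045732967934128967127490549191294647894707493494596659191902880492312814031415742582349100329198443122295868022890869116507023533597002483767890150977121343482353145889986734788404651297909117663181400324226178081459834706293666689453833486300315386753986704595506762029838848315336221630034083903303615354522445381912068329854547383027094174626229022325571554524427317406714364320293740696228969723373014120616512679692432855872400827321421901103911783065657682252633453775014575297012288371250884123400941009221342971487459464419326708903547899531236455303255294250788287088111019543146206873505872857989639849721085395362660316565804403454346737286467381181354894947764446994063583709211570983147572502754901628700319741944283483290510165043048766012757194152427919981517228041636628330558698181263183888883759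4161112087095385499255448615591226479243845490652367456877874768406048523115228931837426967661364620368296786114862162585759002467246298903590323438788286780532544912682938177533301444415400102669631325689179962115106570114842757755432540831954420618597955024478655427234839819190932665286317875117223989271264147447720297075121066562190029464078751764917601608090913713807771641918813380268639091888864347678096230093386000312370401965585636837146906586121409853746386667348138299178031725658380824192912112593393421950192517700831317115543465522692543069106379632871184379024856146951157370042316539322702894526234656302299926499656744980118001392489376361097284642735123924143949877920520927093126956541478710013711095624282498793316221503701943098370871893102057690817839527078756876783514211240594317638012312591874233527942820454035689040618324557475242923339114959714998670919666213877394535197723035694255681743042613145671340220215852876660423135722836669212298706936502346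7094218974653256325935897903017792761602952285143323672304382010576082409102767441145898598590296208987111079740605217091505275363365088448509782545151589304793952272594612716451920446453874835070673429214301758107335249528659858323364627204418476739636005787646639777014415491208221767480532627898049821322185246384958279877916062846331822199248692442960891108465529461227693780343315582040442370393075235187760772104992133030525443345166287028062371154203528818521424956896438449425133538382259585604569824523226612316251411535537039252940701542229264249561491638255306503352216387345251969354362732658052839081496691910998748043623786492199581582073830907822707560315303184848160065226707649166716377998736429882771736515653809192823222173408231974746138080463207534805300124592796447851877977012299864935735030566647973910302640277930320040959109245193937904440442141830519390425820425172717711728276836464784006341015109121727575056382198501004606346605728863433254663926329883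6679056901546547557092429753377680804551247988145728136013986829252265978065429554471369614812218107871775924067245648231127634344443055738245068080452065092410065990005543101015289055837688276619657201801257343042649057473842372207735193055404549703026556208226392280192718730257488833116513755085574094721350448033263667101831579528282104406222514953363869580381444735830806680425592831261203469565940788292844808888832733283813708169623737514798504320123547747552832290353443125660730820336593390171933940403731674320750859017801554686362649284538966131662462395008603937527570094249841178541164167207567185269427370655661666465311607769503466186882084523167525553542118310208221251726671954027471555047893168016074053321482574564182731113473822847201120180125918065420671574117300427949021940156449617839985971934508269012598784724183959388482996675778144440781948738524994220675797892665664146737236796203831157153104917813609283007058394148353067973444901739605625185988253401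9010848016339841764407459812192971782249543717916673765921070101154934017676017011015120814086318660576344568240264306400252721507971249914278455631140334442906837839219168766940445008151612788018058760849733794413128928754026461316919646132563398944632375061030504603731393739895291584661313458762090006553746789596866704303283422093663192789884066592070820503314073289377400725915070579641147867737764743208037857011865810822054371955156742240941559844372051444949543810951972176681048560089996566723359885631442398909170868998505852991090026334502395005060899184227555331981492682837245089896435821299582129854583289338450290777580559756014555467261748781172823432973648802402951727691296154975314620954779511213299453507652289956767239322976283985210932513478647337045392014162146935522378869178209244740505004963529548623953035690038136699882313005545841139565256246933411941679918783512704953158349275960234455661302915582424008208508736395797325212506606846110321155561912502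5334965472525568884947237354949773367636942999406400629867222348500839258091094551474289401475843537357016491801208297707567507255665100384889808854553903173774816145869447117853353495844010419810417218076116290906260358020035048338423883364932752751620089042002647072048549842913575256403104548042779192116120169464042832632352942024839905229510207967434622104008670778777960041193043884426570544015471113080752538854373662177690654731840041632728338771046850146566443733017470056122231524495725036270963135302591986589557595420312258711603999808777097228715748706395802003904320951264188079204321376575548912001831415402527201146310645844596021513236447804207501000934206198825757271696160837651302471945321879382277960128456822717005776133611159016057580824267322857896410856646272978627954241003057440948258841289822195910661176219107490598643763002160735874173178734637640136861402283686781411219273950166337340918889582495456087208161866279386198385345488480808342670064216996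8198723613354430159331750284827468450047218981213187330859259617862556644128892011180027124851844347351209259168512020718717498624205262086965250738022127158889470338463619886163683714138033924545939666053991492687189346852743799456245467521088841993004088507949275223679320870042450816139078711393817725923245042087335019855976456111580208671779537951036855832729468587593494900954184563169734270137790426071941186371057837850225200574630889410682942436260473421847279230597016263234062889305323608802674757950158499139569399101037115133545269664841322573882855794644209114078566118196991862729742159183930316011482631289687236057726543112383553540883316296360488980073134002945241687595028834613661005775134145140514909951829216701399851679623792032071504393084866852413070053620723194470991874012582745601057407230046349495708360083282095307670375627526618498783330343086011210161274032397926954388237617119033438869397248239209005993879010888485054766193450590646527310114281971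1017540394957011713340368086002404080272030409099816661289661062572587330963901061148526991705966299708443729344745973908227895367701267919141073000503742336497580604545871655218611875592301061244730988291296221061749227882911824701186515327976637909563149335833312432536175641716272236149502207625854692065376398511550744027149769498400623180677279495258398107976164303699521705967584875078386713247580216115520109295357907069355250963526986864675061671386661269611175528638087989238334386036034339491859940891756905622415475666138221405677417247146867946077768446231743916418805610608943571108758356300185575491759946532122088278658046532844548432764886126017385814808475441439600772195704012300389854141737581644773650754083594750564277957785812339667838276849675459757221000286921178863091936681860068447257658002421413526047614410837639907876376609618349222631501399595903057380851819388177377154760754197473563255997525461454699176715273179176439653390181330073895055474857231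2757839804539379279500231393460392383981821159834797188789521866344708632950426918608544992996288043035769387465358696069129218541133656394760227084270234868414762158493295840599572004503108948714510675777730125151561871623195696250291494676660694682954778125772572312920594094296244907974653040287249996202641287264659990128964810009189495272650311844084852266453960721783096970525625763148105163760182243703304553300132543578933505856530755847505158051587469704920961480725680311657647804927561494469316275569252395484873708825720931492474620851393990998450665322145526546733743773357446951527907927178631174485442560)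

noncomputable def rc12 : Nat := (nat_lit 102939364913226894341900136818608071684182837430118621135545063148336902044156266488357929896887317704550168719972302823143356134934033701155414626498594765714670261641801013380869247097382091965192918596154962224788926736155934348295502948405478257021923951266708573092329393606240361503696098375255119221009849502971042563424487066747447342901958990318509713347875912041574672816231555635581206353874228099058835629243438419248358000254572951501220950222260413917461393172883890389970288829264157294224417820045492858336349973570781191306633315246917717019589881695650599163317684155547820572458336243236421983979061876731614964419635782392883373719139028268032844325411143346772495966617799288666900499743902036440567284555773693602316794726346245079052809399510216006812646499028353726069819791336635944895432379252215915670229612947192152332199238181756065768774353251870324513794253269333660195657421233212147930650837086299938084898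6128812171334978049961570949947846029771337212716642908357185979794785444340296775084147257241631965441568946778218591195099774217542695100414565156179013770272157996045056812137639733880770012562054480505789230123681724692882301335386454512813622597161724606979804248996691270525942395534729805994361586753318331921540599145100070671516261528991127173204662280688324015536318427010914198837648195015695144311159985030918578959721111974266334474826021438233286799727418596579811428023938714787299056167734915988489338337898784106532554251637012935668656354963386201534499941601655686012672585335358271587179162775690847566300829600271050499705746384161319245081297768906973316142064317949772784126664862902020295057762470985204265962038045510824915883326165971310549818634803376152202740977351008431313655026316578269438828155097467306055424617475613767470434144290096490860295329199198121822991596266395063632857543231877594985445151590736024993081257981281264381378587713316717097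2493399616597929720946343895698642985924922597633110238807412801757799127399616363016450661634238949891149915334469577711975370581870585894868305918836971285454444876623082207448744290445937815491341631172835037792404894076151509606700933479177594474627677077028599000162290515335783515903969050974006261464829239381672512686764063365941080605286330488219019852370904905644661383178002690704344399909577772060462766914505227675186409978175803657944739171324302926694316669946950837583393257370133852834207814277311053033003595256164962836987375228767184990763691236525335924409716392641242121042647067910904027941151683203034500203862770528962991323024399623368244430126624978939310191973575458657053022837331353658835952479058754269266258029318231736484771894009909270939842590372705960492271975282629440210786322429932410082454091337219061145433197971526244766162268111984178915076077809382201152056416036839433242536591920141808341801528692776378580351405550033536060358302247933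5557860072248809936466812740895814409515674555621158118726324699693399678161145073158603318276283029889686321142862555900912906276541554435538306482187972046417797775122137033687148795058338215465260607722769590373450423061531143039768639142927997529656524614502269006810159511059709489798159652018036478462612229741382498186867843852599533510107664754404712347760687908662437518237891647882396027971811174152362323692392452056393797179839137803046801138984583546865267944858422674921769924039441349093489304005745784684129497494688208411750385251117644662175976223688065343685523967734070116113381566814042138567022702443573853103829171469809920809065777632182121844983387499614139142898330004861377476678231115564549840300206217472882857972493267735700930513035341382828622213069923262932449773605959380124869205690397094881697813074293630812061014155446175495088465627517991643680810991143440688451174226270615556374029011242241253059581749603354093719074484892243114287576581641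8678567146100816489318261048270877786175376319926347904889887884774787943438488008803075031274666638937996705973053999926938029696546334989229376752331109595520339363000242738732371672401881218127830800003001853814733705529882047604726326113512041548613510629977546142833836322880127839549685024206776296172058503330641570973939326921849862968978035521117431335023059929521938683873724222881238989520653066511023558480233789783195259144931870088466625103495039852008675516947301850089069796435085822663270895135392601856827862642862870626414423002995942662168207272066074513600831312454828789175207148633880258052397166695189111858416071802836241610970968747134208609715515111857482443881100752001446461837873372442574192934039824300046680511596094962104497588309301856731391851828542897261755710068540977823869652257063054953420641657123825528201831998792416769319885997383082131782418135589451440471780396838144924236528714351236217473399846331928371916965878679440481856388591448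1207751729944862060632155258894980725412128676469153582202226336374891231616142546874285378446757249904570508359881833542898849063596589248138281997896251621757490050632093959638956962430382092939224525341876389949245489936900206965343398783862288261539281808914190968417999445077855443295534117366518383395672526020478391268683216392543262096114540863574901627662035343282888455667047666754147135778572700237254397087029827978314467885289499708120271382102977514278041335134739655510007990476490813093124463358068063306468563765808771405464416506063666951809362285426552652104322910462731488960636065479295245556381008543575757357083683487975354297994666819638457905833253116607997397223322785471647842714909477079292536035406140785056032485660075089141968388485414405118934622380465997083353129593801027948447393640628995942614825542452046402188909766772992275272556438062828938614508326669597222755459959000386773452803447096543701531271992282847103574308072402182528885595119604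6930724215662847783880193552802119736847237613742182624781521162207742490465413152643535782012931627366389837179259620725009949183585113764685172824118477319909451246373025926754164697559334260275237208079153298281485145625360781786111901452914643729760689645606360490063968742638377072446605544236322268399082014812013988498979436584591263683071225608544123110134100803573499060225976147895544574451317099612201139633891946860778124456106359828545586300166715522400223372193485060729278446004547230253132436603563439807213994889484690722557813929120168616091667553133036562375085677873065684019017180581476600581328317976814158494345254853911722426953259629700431921913577458561036641393741899982436880207329307859571781837136300911142694838554720933147280579340608987286325152815450311243703360777100777693544141319561137352349664511550294490633925061269230243059462677130069079263785019079985502441764912146064958035228283686950853832647810191290836677815693453300878682430848761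0773978528240999300341134454625624677553364254329307890041383658323141916461759665916533870675236129799259039247072580658054776630447702470507226301971099911447600507536589156271358880829450870647860902208026708734604707594026392162124373008143826462196804144007023804638399679770641323092595029732232118896861949484313891059633850398052926821994637519203795110811170277869715431587828025528092475150364361897955796978561720874465427882924068922392605219266887634284559169665766881887472912217065772398733764533701454062498392057920673624726078296220795014897715289169947067689668209930203168877278645675128980277133550538766377445503360807674076631866803694428512055376642268853142358529540938887293081817453146520959468085198633162840888838647644203907789407120874047589112641107560290583718466626271461076643954303607384345158525662727499373798236439801378629731791727155007098835967938952912109012281039559588816876820997378351598087580202838674474226674009033447577981815655514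3329737201977599426967549636594585392092836123583436185398989615368153999513948004741581393687106141280980286642661924351562868268634067042527631117598708951145170530611149336083080546401163291414566595669167351476503681616081602152729620697353052971296466892390149749926336053042719417489353130452509018549725469598458805225412739418518670080470788214422023107534392517791699740490687727086527614632600756041338944272304964482771885415400482887629567002217518626658829164275964451498850986230352219109151142703644758317948060887764744064892226880134702048538579725873411212486373517890278660977139740125833303823071306077987818700358314085801169999157983172676378530423707608960522178995313068825318806433637431024847047310407106238732201015042834588779210142815322829501971922247686146950921614584359387727439941325341109497486595937838278422908036293725037705249239664460950951847612028303126141228247531314639355960729528935187880476930940380588177738652970831809847889043407323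8178558649830769341589185011764394932775562965621158643711848374337372664889435849290386997782474814540164648588036615766974613436557409507006869854655118199575094136382718920120750778381470284626065847095052735601012009027966578749524594004176422166049899978574133015503780901220344927391125259759466368202000922770257990149532760457195925591427215681942551601316109515260734021461905055000193500429112721548275650222866704710385686508934224438294745396189318674513221971839006395216211883267513809596832230015238987891864653894959535430723661047585600030293064169670615783071894368808222862464524518080657237161139806351311794566743096748803754005397038394000701217454030247090742684677966629626353672425169344919522983956007468200996490211390011219908470372292852934552370354110033971653514531608683793159935361793198567971285932457552320590998255723433069534659386331725955314664356541635400192069475311755393164405999843059138601825995539522939303872874093953354801046782392262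5109085366316603524595154998122125952850501105717951117664779921160260905464580679257769630503150855222580668993850028578622873576395144525900947696986681213427619151321669874719363722055541977796786856835968767428175975942747379219979670044635540126696591066367537655661458422552129716466872113293185454956976452230783020058010316742927260953349713317268121712928502022487889390360858904408447736518948039264433121035771227561237242751391107009147109576952563364318910431033593075855269626611599149110307790523275429333843900343615008357050287054100253232714899896385720687589081562804304432848811148749983927303053471804911513418927606735066043601242661331567951568190787277903350207000434015384510204238385728944461717001513261267560456649769151669079487999399471237714805759487809186003824627506106037453397509613105652359817240800754741199869206561816995213146990024702691393279823026482426142553759270024735117658488012963685874013772061537910574547267828108178038062237457743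5311722179171345647580597699724994044520329678477898105739850178688901449912712964397054143836825491125884202520288596219489069933001085554788722887979393136999486408909845573349881247544046660710010601459039073417488613398142869444578441323715670223934470555876573260709571187930054881898049789185900963936351378231510210274548565663765659510665478353836660809111010449950126889299627733123365306744916996160718996171570376925007462581896874462971717794293149385689094385292164661660160668132208484765013008646885958855007393001547495375035038633338430224761650522443915076185858265125330362641104932726818421655429212777712035255073180411612021559108017605429004008563427742145457826131416317004352160519598528934573442701961314693659332661547932557720657534652901138475249208852089005828313709369773513386066504982856643526897035399906833386696334846228264447141837592796464057853665252834151249439511838086517443048619452516942000659495172795745973963225464720775482060521562706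1173087857037725963584181158121716861606249498921674381128403338048095768648122612627963939265337244225328255206414622610666622083744456001338745516495497084763173387438658825233758511534967532524181291715145937879547075259610366165124796373225907027836873941577386807097554373318572283182951833044957281041199764028527625477163392946850136427199176312429605974272521820145695149874708854640487821999684700254527695500268845973522065232130312910125069060473695141471780753571591322187920342099389422441515747991186534694553680890368640413168004519739783252151085362423392750091110001593525212574821175004485597147876283307954491608229142638614438315960788474731845906699217478085597837270139173064060390660349451324801723537756794068145573078318039852829966770585696362024967381352778496777081986129615881605270083094120710184020532982268528070352559688506496068675018724366070208167896714532885841129689895736053081068083660236518180392066953424712703770057799396911649231463467812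9913386251906132879846135623823005711843929139473107498141291606023130493237442330481102897132899713735247588024925605658734274452780092369266290041498664881374431902322083857837270231433258895298086172181325794267776878008818029722964891262839007630053205665260844758291748762503271877709095107624874100007917308085506785099659316793860190276782328739356547889570325285518459526700799305869405269247003282796565221090768671157315782054182235596934232577077106069590063514421470757743628403643073295148165713170776663543006669505249575535624126819827702432417352521174564227363574279016274605706926247112702501451822303436469817428119191530229352090704510221728262913419282355397539596210641318751621790386555074156994602002173388632032690032311267090577124076559216929338887553767359592725618231619652260060686857211890573408956697263429242863412160120428588735511465002652287136943143473395764368715127473683510932384495743280355165381100754647426457175563364654037841282651003357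5092614526542341529035304034586179151860225955812386130285974256209553695921981958688112628929737481637894520052105263470593044410453868099149437837083070142047624381335780059457707666563493608559854819108214390407984863467519349192465531335951906180077187015651039990595429078224605263885117966070028090201445554241302551311481453098668426235947910649787576997394464935646099542413687096487461892758801975712831964377053860493934648960453279076495034142350171745512570740942178947549221240219265301736719378271517181006395150896616473809669540650195392610438750524327268819110002020996880268528278274731555257533749958756942003076487750325672684049591809577047150968086445651687305964097547668779498923529499276806514784879968432968859633591197460686563593989908379512145179189813052058004416228905562811661813736530161238644695738622493842497733930166824505616109535911631353218401981053064433356247578512572427253956927063117417822887335126066421613684279620537443037849661008623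6396264494614766389929923432809132029060798964363653841483996272892289723253110590670690061511956737577141998764042651560646924812695316229395294771251463296358290423865299608527186329740081117317618132742110372163987999519103196707820427656292471260663792066077392508351066798148470667048740059267522906818962694331172274514100866361882936785266472745111644159140903343458051397462018862495835343029498486141877537073376945807808046352348642237701031844590721732578188611151012304466735353221764390777352436636359806971756668679852752621991869989672598531724107051280605981071194970223261969124321701765718426351377100293182566514556588934483645135274030277183481927897141956225448742392451987482749172585802512057206411379910162509580395556495064744789685042504113025606637033694911419082036483367218875664597954341776418831493002444353106487624191268514051299685612361083986730840191290922688257046921463144393233243544236237657453621714980387169930373627322111559509024334902170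3640922554089639387662251212018326452653426239180846325472942568406410846083892979381535961470107921738087449504947603533606944262394519906936181917787549240918390415466647675271545387593016207407747941936500684629366927749008941535391347020966241861793995398143223228199178757348041873990959202482134319440292869824724361957475525377776138784801985674868097553329068558391600280238081945776742750663102741447024955163815466141493427749279136269641444008324184772997510503215227847655445946851576254215148359392637299391863343938751515719388317862742726676971709964085339652349463678940705248782859937813349283836237229619956829418251442394838406949558153770807747750969094968557112217713473539584549203053952995409021537229095035927158916494580324778783278534615220982067533303181224280563433534946621509959746369090138600395661932207212957792134065252016469868186426259189960967878671502832736452375142353333596363252801177978639519261290750062638609840220897519052948158598426016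6253836238328512865347949763593281967345699886411218586568597458145612111592104497897519991616958845761846758857528668834246955501130348715130949870865220391382489946292663535382282528681463557275929118122195080086116269376666117981576397297269555635107209289464815525050974069809343041887088679078709381081059109355306117333487301219301755367855203654090963208857797777913377132233597800598042742370373926458112346877710995844400408517565018011986685857390210003098572398031785321959219745187358936843405352018555998821497953062554142231778895194209100282845270617582118438247188908534971040393072731285993888961003520)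

noncomputable def rc13 : Nat := (nat_lit 103190731654943454044257362558254589340792782433116720164285361268970258104645543823676480846728365583205206520869670024596193494045926521571103396976718662616024766674045499870969618432194892745069527108631958783727876247087581248350477520706864210945314397617964264167346265674686155909865409726597483913985405884553784399203267606389140484142725338154196851736372619112756543881920174335519366128938453842911174286106128226211291868867252664512596039434753252222120871794302424750973100027259478375104576641448822263294056603133746263276372268513459265518898284062628965148354019962210139693692728807916467612488662534007369331570760164084861625403048619827032938719957971695666177587831943829976724834818195059385217930287661352084381069603264916998417903577801382406158790325511385338190785286323505538691813782385198340952673830012266181950262319396686314384831496941932061087770318574162047420706489425905064480128177913566376025408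6541645273253201470996661434616277684858864936950298558171023537704464067406893968043642046321118034181997003279695282118479792597737133971755454810816425712019589161889378427303005397711594416469045764068768243301405706541342931004308352938584003677372971228436669014925942223886004046967606847398055476309610276432138034867906338684785151473238161101731346643732261073566141065117511962464323874935902855926109834184497190435069917119875816751109939735275232630360232819925267923320120571550099835324980067347081355752159178051262400418672133491685881836441819917743335710667119832204215248223889039377236988637913045238056396799609689411726710514300086773717523773264459203130258634475716675545597873613879598664934411336621005560506934061515107701397146023859582272615551724836490894280296714973704438859656604028082279777108132943134327627542965756174565297944956698383458032709650067201039539410020031160277110766924997232762778263787847899315503827175089262129300567629396634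3549744127745417607679138190035973444043144891267907398796197208762572554940556183044663876015265679738992165779050855761733435951258108614898242277157668538117952203239439231042634792147511092733260775579195609639408642246113528869158315341970593192945568763886772078238108689826911609802893378615512339623156972580207995801915255986174723123627696531305469355559991520943895742911637712903998088371280489415452260806732417140035470842742744739924441608048870723829158657531821551375867785681928854931626434588318738442722353712017705485416747458662653660487634817814479673187084387994584444366953192610573811967504754253606158387840630826243581379067724735989771011617637306454189251711214312862643071507290610791798158942843436392265656059324489806230812231510699870443313311902700116401265358229754049374785853689330665064760804731933415231077360624222103667806607165811656316401300412680770075191146553562152944937539273489717578542534032355218704684712477868912610224969517281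6586656448967792622326658676049741127846073701086331978026131992114620456325870080395640575766975101678525911814841753961009662210725768352851600589964693708780166560544001665670581180085016141957444935897940494034378016927873288177094384126377100290995057274394774777502737987849021249665580206069812778033980229082524819349230542186635028190114256735680554745768986097021652124927240761448668156060903017577766438353308903703303733088639289903596609893566927912898387948950821871562501891583915386727436027247206851189006950223927474693624859659435926859863658278613735592860928428061683720340948313508146744239182565641077439769652640210434698985873670780729862714512533438497052216566126770077692521222783215878020628301029025473418458456545072673269920362052467722815477620606247633657302699350158708741740458717683767257215161239510652140030913143470230947198928081120760024516336900280670082856185701116492087496695271993447143828450031873651026338894417231841422758781722603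6970234590968206490528968509397292387512837650996052418004955865903276253927954349811189409112855525237481163627914890381310755149759407821937636208364673221139675148590262765969115722787477158055538274210786171345899476207265685085046437784310650230474804961931013079758828627238947994438677356496410818318426154532442792179761812519311107519630943294466673356698983190057351323268732580430313607644393846325261631834095821401799899965965320757275648405131000243063997276566575263812542342368423848966364197885818992440443544090024639582212390526773488260439496748931393366099012063801625940555798925669135065114926753127389952382686702456746734030372920388111433940979053505106903275213658321051927106310196233058054263529062062548383684571615670871046623854579819838924900276679298832273365194637008788047419275642036141263167662880891352195243338000033749939933609115380840780015260444514093489841115907950794861159269604165657030495853194603676609884177390643022055994505922386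2170652656017239832587773224485536995388289090433268589153736528626898838716709044678880730445689321069245379291643200900904435451225727515043732129779064594352604823885308478986105216316696111395606010783428409220662839683218100200174096103556834464539648772063254476816764562278840403339445614035957652406426187581658546677498897670370975323797496926475261226463362286962969883989456576125598088878473098452296615845765614130889275810505936169823009435282913599689475333892510062661998393095352720051175293257836048561450910185200259118649828461120342633685191075331505882518702836816233037173161272223649051513395034904498338067812624023995707472031892084255521360922276604427961182553015687413410357660669988350969995332259839185833543443212213380550705845684349455219736410823015036085288470158770927810533257695139351832032323918623671576479023339288249687863947483876389828792499431832129788675452865212936162485165699798214431601927977566489670914159705256485091700866254809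7436160222973021835249892645886913422374083191717768450841861402940033831412254033578121187579306035334261043295938270738375704814027584831703557704447485301133770205500679802551424158618977023882886891357695915851748356818465702605074349641988871869989451940874888706682856873999064908119757943873160228442573687114486367914691842563086342406094357084047956437734724303524336996928064848599799573398445468096711023658732622191134475438314380009533427456818101110280462855384541851375422215882869169099204582960829182255768248984081265441611681784307148690687428698899719687087139121654202989626257716921235198000452414853448957654764254047704021346528826003771212163608109648033779758921331164530394392515725377066655257667081669244671498789288071968708889230674963154751988639350805291111702623095974112059042099398624160392082251552938697296657691832667825673701093514186997480612007955613135410085070469518791526854905379097918129251628605705795851989115197073862061415977243269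2248211060996490431015359609070107524539613838198099252835914808481776676828963111712252304844106030512036874483023269449154963152670469417857027030606844201517150409262126252750495279384627160179533481782090679759421683418489333423567862472374509168997870705545114823030003207765606992591593922738268397497377839161039535912156277876009980280094967513766566754518212837525859234586506727304487003818652959448234136313891154734046577729063198253555747342364239108861296904676822767474098390618382864780155284103793002947973992687508129804159878759934229947743621739755336276549888155599356240611752209996327201742816501827903121522586684546951847317896706059433234868937538396047897057432958467546359147862617234207600117328474684375322555777283435872633746056556535127310397370472319357986355768062696629054523683673112896304394084742259236097361697721091245549415597896884262526023650247711606664282521481604317979518660228016909518900285023283391493270536772149967692899727755449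4139643952778747528621093053508610812666875556920575966772583601804403410107156450135243103852514499516675382320959564378299073641669822904833510296862089655153711638165226642508130730369546808455289830503635943216297742376945943792369329432349770239777437904623454412257415278904143824409766721881951418633228314628193812227027554965806968586527158872657785436029824110844870412927812385479807262298457060136563472189541019586846613771312370509547313878950599874529302186765976422866857593642617109110842505714038280656387164875427170256649881701957676587589505630622362524361844873647326252368666000846645845854742972509707062119466888401338333426840243578559316047766957306719793050442552189467405280314775853324216462534437056156821338985777675292925455953331074966925890095433768675994139893940962128750835961886357033644061025170660131853307042044402462484457720927642121639784830450536438460875928627877534839550702367350804916730096460033260317035357123439573951255379537128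7467325537932520899903247597066305566647815445792095693675190942098435616543546638641639926322292847815936371155692183697484538134115651856259490160673521629763078346150325076364119286593992630596075732189429109610000689549309836726944358980743621835727444960549868351620629641807216674956539362441121805959194207649431673956064165104613814702195118361971133384173970318652784266522818784142146483838328932524968306882820447632066682323420334355416040649496175011675765242773240971730371289345799218471322206834687758896396657537844586857839819723424944122636810041402339684942895701873352633519138965206282397207123786462221555602624360414035624130015776254361765375946585114166039415078884552476373794021092108391327642345729110898643398751201293979215382844723616314228007913416132779594569781405452693636252471093773251459188131364870748568491876204799831943927294276632643981980709263584675794440443700555249028542668613518480565012681534166964197418697135900225484185644824251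3043088346000857019354403816320859616866950053746697202394146912987923975303791538212699523111031562371447262932765479785400668970842105441283659556788024718889225191589173158817080559544251269030026317525127507500334973577298188618754830990381415789505338411670579756941567477622427592166034996471252227878696288078360902856125926939077180652068453629530983682849560521286011365751949857834934269570248150536610572537343001144267700205681418854834567252024383251765461803655084662100729609120647657171600462617955118937201797354238348279939262813330014586592332852499407477889964835281422234387828968784516696679642896771631693152423014775734053188685400284697304144528021790436133950103337864427565281738798024292884160116414370804976704641207347158395788373888801982729519638451647037606498845648136452910870302975481269216167814182132065418381671054457662467818108127477934684033046470095517190607526615710176440259793757624802610079558206466683278199354565040855361423172105773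2890172686157664152893931454372064605013853768661454588544976578635516058471255963970681964263151362348286251690299822655749087949185070237033553478530724589989519772983998174844613518267021716169393423998149623812316873172209793341764980868164014586518175032121270968039065707147251378121528613991690645039648263329712406637660064158029136586893234916346583526430401080198848697254360237384031786617967423623782282399867227586267634404757415788256692561226745809976415793134258549245823496937760416168010539986651697869846892982041509644560424193213567544702175689952726874332288588614612316718526294448710659017411327716595937735032354220673685492895734540448648019540960838778381146634912163808650692839438191092360868122938021343629746993880497978397604971697851058849945955701021058357239527040507295431618898431036318629539647225302196383518106170937074609678910330689507008452141578348503226769736306777371199004773849403876289693328801715800622528092720078049247131149432448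6532713520279387692037672203056683136904213044794189903382748310481014818227523785123817586138030946446178403814159215031262412684839281051357323175037606522997906318438121344501483991542385546946144544901474918384157663113280023833454453174905011287385443304360865588858409255208048920926809424656816013929125703004426601935437037062131108444439396629112341776848526752595113793411833232732576424213786758676971220109433712234880336664958039211891427057861791017256170918747346370861613786450689978985139457456562163316832657477762818882966336692040631738406304864390545495115775080004776693602308348593898113666618828651460828631433186656688591410651672610413828180820577697671900008643134450769123252462602028043816689264976953850136206434353120883399091937790307676297818404425320402058065798144273559648605395200744479044548231918132957568338949488596167979828029485789275310348016393209690208853402890698225575669866969538163026256075544796590218584844027128313923010870108170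6724468063545557033937056182026296585361780208242408764591562509223898204905384163839526480009182969440345771678872219056266244147825665220660515986306049127580921519007997436460347332931083374169448406477721699315914216136066811470756199972942118530298217411536770797165444230109548508689072168746148447410536466287424444550324588371718650123397820099873379079990858673329988531661406480638840745069350847628829398999472475481246572807589504323205622678160905343918715642361536245330147319616458671264449996506443352562150619426745323562376948044617913066091389183435206981366662121334320307200518385541028693794239843393797724364507584828976211135309469943388160851617710001527561735820963714940848556929539845113799509989557172160838703303293257109038192557311146685747565340726724753640737931274957885713459009698469607786523076458717391829292888946398198683648121596524661797092883656317556942688647496902922203148658433694630171991737650666197838564058762272671163531635462672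5134464202359309677493084260560960982510644102973316000048188181183549623756237587878232331641338255211008231673727354133436525899551917630162368044669670083557464535275881691400539792570682418969539600526753807730195925662722417572572513428242887547830866499869379065308445243962679430194778876537838540570019734211280034028862043720616149406474219028000640057160262620095695032617638773223447028396831336432687459318419336007257497929999326764155738380415536601640738202345164580869137437096778008268068073323964805169925205489824221480289420352148697731675682643896264409158464778400546301844662711555226707066311998251199862018372785988111388689985509727402745168796262195420381881837269167808257847816268968533244366957858085876104034263116170342827100980111609150272698046758006341718736224928107910207914750047736050086850301920350198328387972279035027674604253155610829387596541508677758178416423984929674220663131071162866351168516083115914574878712314292336548791704463745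6182630215727582792119686393470775365352145170931245238151529409477520572127842140311142926677962456636411568764234699496991370146403940130112084468961449501774888558334555609445729341534191612399196808025433852650762183531104019553473279784349828184178619932869615122426366095025373013345530941315611562350004773128554338038321006736067374731360692610947480480747031042217272890725969482626077443893852068734713710773019799178133813463872160292226956943883367595993884464413913352867614754828233181721830742845256799543743404281328879358049332343960196750485345416331415967456630951333478397986846562403697538946538151923295291275206313971601027712616381982898542813823780847379743969876552719835549437506067282744880685464771598400697267229523152365874418351033702832837938441013543084532869609753395077630960360770532475457355229216493918366037200714090016234254559823878774578859181522971516724889604445917689064730782804620118678071605288743232227786474247012495583642465377560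9755867486505659405076867525751253686264297059400610012901108630341236989223671767239197668923957747301632765428010161787637283329677585788151602689265187637263931285100468575165596750912317882036943536489021431192961002586619945687650215095075795169456708511013929937250318030564908922979043688506294140154648338861126048034947574558691720020863993506184868626284617453055500970106278923885639013825169763683161272347470358572851650734236468420332050049769556998998021259313839672910557217926457616466053879830353316382248029429534891160805366476383914137957996645900520619124565299366560693188610951265782529945698447401612377546864783768100130914710065696852425140468865837159518693205908666942496691344362671506373668816537747385219595996318621598910323567469018837668726140763262764065259814222681426791461476502540538335137165120997909308460756267381504846480253282767465762000899836848328157224826033065460945358847158462032574435373215675246678877291306907080608679295803074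4112307231338736804651765229814207462958703924292622494122759553143943718459344498786671514816811204179125842861943855578083534983820678062403889071689892475806453733932983944581343674520868726792233760300930494369858033209252285443501618477729059707706649734252658631610843457865380210212934717828857649701491408664876269319123807823700718225054471957032697140371653605538226249636446504983383345910567949462594301383602784212455296283709039559507646793475868905393775304960121139294522595755843745780338946318940888523204769686750943759825084559891206699264093070214967839888234604958336457461374889940734208991297536)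

noncomputable def rc14 : Nat := (nat_lit 103440172282259415724214020962265654257017700334402946751705370603711063065634544536081104562056904171301653587182925727942660855318313590916885576212855115677056718948756785348691891353448954727903077354648831890777537837901782080792875708787311886258455301305324667314182603786235927299919526855661991003820619387307754271099927040684512136526306174269560138235665424837339897815400860656148562668497667721658629214791608068639256859675997758345367665635861054907288691366394288480341346922142080109208764493657011744375323964991043722791420574745924903464670711414202655853921123887492523034381303662115777047899247971284725723147328686656110870332958887893658526235295913619640507207512727242479934894681401368289453564349745997598313983837423927086261786552324337469439998930956557663840329901575408198694155892297180876979854885246655925916980735766212940880459149272965864619000932778579438080827763896064355320446341424477072508601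3255220582900003639011179475061736472757246081363960740879795887967882489163051159993421086036840030950544920101655340259194358132270779128287600054700740325339775132157945253206451564504041185013521052152529363459496286350265539638274247045853308033577065498192666218011178019801004643356093969998422944428442187062783339837371521514814359704642048776007549556562680885430487258498723788944078712277124752174067062639711315179623778653058535408015632090011346094949127952964576979258348748246258559286596523052113102971575860614378190385056863904836335169774141803275954811515338285487149765926389087886234742318230631233507145278856581723776104752029692591511287774939648869754534297147801211981767999325130533603376397401842260234400816149984623184086881326495411751599402316788535539493014754941641910546456514590307139001397716811451403634000592704659045081018932187481055085336040670889257502608836703300291907035538074160700123023786930802360952193872351499272625406077350967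9921583401976690339087780033066214538954764766482088519971827978901738440367939209127010888897974966077706304767006821823530759006636576309759987926104811358502310909853109773350322605989613972044747528019936197564791488840389526219446492009909187412585692384787902363222996936504199426546280855679018411842757935454424383364561670511490781851653642814298740234011653234356318048420953761324522968193711889823226258153464689038364585148085377962608494898841304329387970773474766628220154846852029176898983957256829837748025144624875969580560151846331030780120327082215141247857764953713779081242889184242872505801127462081589272839464918889743448514085762428325349743245227745257761941916809343514519181226814399422204032115731787678238805832763102002211069846580192278101747971522023392670233046859075241332432691644473055844631361535844253038411701818671514232931189524848925110761180648229151170525559420298325856897893346759737793007181099269135696078404644246399051487173655286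0754002482451287014545215494734441783947477932366160127072168806564075038439666710344866057367952719147598860485336218740305674140730000567416528359008861269196864610452198259754256838099938721152024372117155190408106981438265963422182504635066765743845891924668616806999986032656335949857731864560494202089927205986404515338667658910438374372426203385310097849825151339977424244179177797592274464462187023775796512218880057864278068977709932859503533590050735261713248057444284734289102582426033587258648346900830852495044900636659928881684536588823829249837961269333761464679800151647208401762831497336752208654386128644226071616753118922010328110789466273125441474432617603393523717506127542606276185291792762235199345687402978288693755966292905949347148315779836328193741523896244328298557654087509238952203294448849971611263985794478003896925501502482860451859479075056531754410021751040562615958911370124496597771743487535501549450860591051234134663506650141451600267138460842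7078395776829653221546026909771707906096800040237796100539249319549960571734414659287971935805149921463538726125207268352406639522275801382394480686430564682830365348662622538038643109097542294360109974468722816888119779974812697036729175310605426862288936563484554866113843362925232018186187118122690270790395737111825403801393268480440873248756819442458798349019383037281090241430951543371581517171128747558340655392277349946986989804876548294983770161681755184490761081755721502707348906085091567104737708785815607319698842774196171977354000225360370895441838045803977700498247853781622191524758477402464160676604815468897220789918943722806324000960306780939867163948770094654877955919660363800951084131640890958074103625289322654993882768020424989324716104963389971194744568079098446115014223274147214926660376736706425510678096595967060543601122154811697308781198807114627509494469439043469590268479354493997298621140450908579168014009418370215228385760295711776624070808186668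7262140282190427478312033807196871837831767868600453243945972225568669819278562498643093278126837036383485089247646031368679200353768693754228223037132465412711373271797456278181816826263132598759393604175361276113859741042288294362227447229860895049020308960438271521726996693023356199301707227291932633064919721865231842431640925905093417581834342868015961935411423666670972522505162450325832749395192007860560449460388330346763572816665157429886140680794516401428428814179479313249090322425817198660346271421220491706973042738276979717827947607338359965336557470819695554608810873838060582327754469445679102199600104314941297793866118377714862053108434831728363491033527877454592465609856237570101267961872318641916349069807193174038501844008242664873809359920805315465380103196200732793659582231358039066915614551222084381165659440085782115467069427603584907007548055499547556231868133879698158155671225715514442443168272277040949026378215255183038527920991131381900643901156525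5691481626744200852656323129384099278069297572805002642490742594415100163226539603536838436195665522091852752564445003200579454279919303100327142623581262316071048453262135768581074963203227484228881361202925756620928054328215148352534801643841791155604066564071274962097922445603124695489870779761453069341111635753034364808773321087547324102609858369038703294822951754271519307502623672919757249242655217380577106808117284171775382024082542907469659378248219118369439298046450606076505944362005270155726383734857189838146092475756111283710222805358433909996778160935335570582856659113830294692087073597607489444238378566531232106072152923678316596339730337183083994264590950511723838263526536922499443163291163801288600843827078621015055204859486166694912029416347981127506776421830003670327244472484457708708318979908289103673840900342771324222897362538278194042739605192540301083473688827151669618634832721923840135424444637034879266119431046287424532703096851528454662064689304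0778146113569491405816624671631656915798035662775432989440981714247036242145344752170467888667111358232825427083437712692634171543263473636668442627653887868847846305646348568816620167865020710615057798924984776279976810715878710455410542634987452489609824362716418295994444201590232706667171811593303864509506691814264374252091537633819218820078032763114694816675851646660758810908082733795510547800440518327660815175318505820862088019801614761546151750503409511301313656761741858185311143487480717566724572225633201857643971158739618226134046416999844830502493240834882466509720055231803444059670926168335885022250177675027503897961650441256080691965721715305586495864182428273889692468836032784252167482156382004810134166286727275093424178891466126019208052922995566456501184466425522357217465076653853693791998018525800738370339433249193400533658613597626499622096392819435072505519313794461121813779312976550553671794986454383507188551989134863090861641669219343836481907772988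6403947927429449590011849937349301542328300566383826130087871760665290537157045280745464159164774326902212083382181936557153251920775102309058586946446294502089829896551650375476268368746030555717100038142276942479594758005521154450000290274366923451395328673722059990068146477112123828205341370758368040217639574481338096772329307580674944699526778219649269869939660823937623787528906872536673027718456039652538107512140984117739690915484850819033189414343716634177896809357087675989512616553062996577504623390141215716375429758168665324646232930235382716656135491179807836513745758639364186704472911508562196782148444567379113657084035875712278583342793105765923269365586290456357943696272293681120335183788827017784428714296892193769348356773907146574149692810291950975442681878391657616826144228427164194849835315041233989964259583649559823396306807589928845519227235902617037632707601669437691248569663417717706920350315812346672686405784972266882368251907949196901509434366223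5559296462468577171517838517467221256516160524695288185553863746210236340671036497098579317447539961729954591249755865048280793174348852026201892232456837464894210717985843304475068712942092117008477010674897159891994115449305902314204074046526611866712915927050100974989357999832647842251547209827713041925412406666073019122467692244651561262031965170898348364519063398644356619401613530016327485461518250979989253666773787325060055917155381812415835211277190968460387960734460633253231162513890837192530550991741809630156942838683968385246566780027413079281631306984622786995663285106632583347198219324457226194239961711592852597084819405729464304848712950930841668505764092193171755060212555300943991488723647620551098826868674916683600541090055495183270327669736354303350639666453645800541359924442151486619331394925992061389654373804608382940796695848706320459301380468059161705823216463918130944462288750670380069763377932024360148143294925348761133793437907837989504695705491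2196185056187049259890849397408312390767506249153005029344823777145096490666610031802443389285577852340833216682451825472155079835821465583463454825246674172081592363211548580019827857649809762494572581850766767140862331210994740163687522530321384101946537085297727063996662596906414090889516660980891064774156134236997573883098407837827921178963439033118727903981124074445954867335607483156624088087646879323325236716057907319029827091551292437636377642645550071823253101174152550074951720376493578511046001161597601366549225523670203156217278588637510215867941085343744828413225569324506473634457415299357788961437771095583448568937895342092147227985336134355776722751563792958836322207809396098489063270804429939178956434161432140545125089113362598633385884385163668383831599286115190970713953220734879921740283191898587562805544940041897459481046225724811545009201239302977597821361911517222215246028825561287303145995446442735053685505337919517004559256341863112102013690003835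5172840280769639984561448422912227970114695660472977118700403414733189825256005545458072993292103884802273518859849006259222831304837114800020101977218328476211620025418252791358092287167195776348146100582693195629855540010731960010417347414070770000011164697283654048542088024295706837640842613015185549948575399064281840357062900313538278034518427137733302828120388652747612994641955273457109252811568659499337622903899998754919750160609705612711531802577289868461026974042998886410757201321991616554417723297251655289898008173144571722369690339655813844955275087522575190782930677772302271986781931475060443381696152731657015375752920772126337278376402759020666276720845335077141427376713850652176788859811494531521713032669183847362413795304255735813623505785381630565940450112111100509420033215493769290541933002909563183610221050117455749075267997353817869370818664313518245671431133293578759788974074497055812543246472128724312639241858828800840571331228604983108939715123885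9486663985272268024552109686160359798537813928845406525340193575794541770703031193138620770999727471060216033665102055081899617735001880533484931599628919078491746478425188363292355540306866403149748337385596960257105457114023944205499048792225650450922819083659821250194742786341943986175896269464157743215295623116562620567541288778593304102481625675043976069834214959230981979301679948689593481343898915085674664317713275228083775602340560569184298021105523237521909755367283157309714632223145499995645208352446059129111441375247270002745765470451128899723850476754268719434636678228281937111173251049504000537712510201591199169095588535789367525975293903838204788349173314302600980689435862449153619040471106055798535500460477873802459898599226394701618521341550748029937406096633505880450987867141149553911678035699028834818046689444831737975477828937582698224179786480053737055876174000159390223670571060149150126974876919169695399269381158340534083521328654335540758522276101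0694004826238016907125189221182831997313999484487265979710222445015999352677878923667877654316441009433540012987733044776001130562597436251937087464460432148565318137336902016722816919982461330697711675594645781519859990060407040083476459269002297138962612720547658212431003536248307076074087191842013013696914853361219934198154637069028897828337654242096001210926068974219900510384853379481437512812041565973557108038479343768075816995126741575339894916930143524287995091038075616407228229813714238861440258132613391103638171541661721624626340903107617046479585143580330367027310854385463049684869159271332268763884240700777606986312209874327395417478102834800600681232477428991598486566108846689607423505250168053601194081255966116057794131062706042945313202807800928274768920543643476143786037311592377161562027731589341648916539355317163513093721202231304306847100151697229818573869559632617320827373935330988216924484734044390321774480566147087922083309311545299899409459541425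1789255925892820752087944115853550048654006426309493345819392520788657720749536111199350221055296654650760402215685224838232769220569839116056627614254856457999318120858314078125444397375223814733165839043768032358993402318836378417785968938144975606378213000767418006855442219922057496693759947624297849820270140496970836450277116341570987381519988804569076320516949142844113866934266002574685334410676975729482879332077146055955965106188412987218743349479733593907629069239021700397619470136904843777111548772752097153289150146056588113252162864073914165378681297051303270131609130244737226244916468285284438193016149702915829520645248837771996320378643251748539281278132012911856421405033112963443086975317055458206315179649670124774994049922813848247118895272556629546030460833509129489156309367727885516034642669069273190647304656721146038111453506933869869076293552579466555964764702224231918099585784081887574279562766893593667797466224833908961920839501228335898811874356905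5120184586125904903961327748749896779792758223264201168279358595850902978447153443818657811206191643168808349065279012382570396781056895789145826227401289084846129788082910042540722605042405863132542839004001125814281240506382645838766181338486582966260762703301874325782079387641693186838805802974210649479523938514935083069424025146536217631784850843757555029859580244083903540823977388201947002543633984926130845742238321462924136535540182381946333642032110672029592249965996001950712872895305306506067995597841077283479601155322926273781882259071305251247306500232813208746476509948427019537282278724948796379064407339958496799928349445807910702772701093261748571899851831607862882728479454212281028374356246862090371416116512977526099367951290786014584972678613845830471884393101658687787123028525525923770756680509427224535405205737203065201822033187018019668887949402991222419854631971137582877082083131832175651227067991702762655782417307256614128600454912875966073225894864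6380518046839455110154991578897260614446847069132359307859109776849317881070247019936609196604373105386720418696954645846226775129532816031007075865788146631282394307204228748468967492070261131629730448637040175910624452235248192480679250532896376745277989307298154404616755073446277277809338541679792462710056987781049249299280916757852704672466286372870752511197921769338426711184667688044876192326264269473837917859079933133691726705947318768348698183594844162386687224426581414566510605497480123343940094750529654459841059531981875064151400851519301240863340239270668773327226345822414570306722341301295779210056852389745535924003985074733691220218950465975117868041416667851081523344385092552627460602841603457454060246845401337404416568701871063638775059759505735431808490285556504940603425738564063737068969816471909235219321082972862004258896910067593963719096102011711780137288887823845698526247647589005221680309432280958349505262446893923098386950723913003867974251005970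2902634966296807899961288326631251846200967664485977920994630143221637908342585874913881744907887398531212436090305425319335893127040527912455587550765122872989895509242974181262710585451127539898805813402689925601203533434778818690695312015221115625954492181662895838383760467436808037189187994652913458371883327965553908175274673647708113514274569000833886358190687289912825437104768720271122877413620541595720643446220904846454443066942893867641821368447387893156242591402204177272228695415839644380945604563077247471169021615676753665867985730373080066045948572959524144252978650619371579667622307495967290178928640)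

noncomputable def rc15 : Nat := (nat_lit 103687665842352440731923235394554597980742988153333726763489529189715001743874993151783031897811021409427831018392356309789296258622442389048020399764731154720008878422546767137089568519107323008090192157034784420883724121262700583906392824874972384240318428195424413014834569884323265259878164617227727887783413819097475391073005642287408174439504517769972012311068611698174212308188431571984883911365567197006175072981936480773564815769811109390417770841001979464495288457335319628765543894741769468628416678440836648509514378132325120052937183472553589355028095468358815317517786969745166851383704347371725740918498247020886474276481486516927160336662667799021225774877486779603546554594659102504441432064313681693927674276587882719369096127724940992694504383838159961691626548226281070826942482908971246276806209309399750866058788501812127174117058625578270967472994553024412871036981339859981780594051420838286044522881995009908792640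7896888780696275329208815451539293007876442926318614446679451423424718142895343984788059557362221477295186205386404825747419705600280130745981432025972454335186343201849497905109193210277638118846949546675389485829366349736925865349204022770704649043099522217630850927584445517751498611464663175049223345878722551860818987618203341211129007212821433617100302796957668395920159553811217775241333212178185969385994922256122116616517951032086990012315129266129382731807699029250539203692839931984647127179208868764601348740537968144788583435628688680112424813993266142324067256723461095521609497160289577669931105353417367699040961725990458609551016666580895793187672679901444362216151188409302809911148624102007141902760629576219941649865580001904121958900969638324750481984622698091767808144216882272287072695401396461128886718086489034250113001025945220126058980121917812245514701067856712056977179113597687179507526102175115287500411733971187905209818006171874806796918890620744853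9691895174468143291433776724493823101857283786626758990003468333895475464631922130688147691044843130483203511011430765274461943985356949234293226103551536253282586768609899762065709468321837958545424903558198795010407880518458035218483852271410324213863433788165207485371598563274299104818710060298043974180588681006615241617197560226114676290175110621385388578366693383122639271577336326162678528834856009168947206140020311414137440539016332059905336197737164594691724867154524985802078975996935460720933984867284889023564355096535170528839879743248341117788365788691237367081046375467692614226352935757516470910540328052770266662616667984094082633132778862003432923722862143070167900726268337023437704521152164823242812058914635301909906351990461195002506679403099902801506586973113882430711905086872756536444688981885760266951103670211085161321587397161249651494294367022478919031406012320322770176228424830135355085960476572664593357664005282611200858423214426258493389018024075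7523002657627086926213469823860074687327025841636037435246306424074621974091312472628309268371389327899482093202299658640625182966274587003890562154815700465424135637343411367491979394189603320300881537816418892451771543214524467973671801426671231307667383194370086585814125038145368714641080158749711019312989135285337403443068018089711367790566536086695035790170106734739038379152357838329434212291557435463267316987278728137425501055319629960352023541180257668977167742156022630376778415421067735481461741199656768356620019160616376171743761462375881917054813831169706437886913491915478123962949605989159600110795326742500792314969122943756539937747565469239033526424984072907484127900836019050140660954532406873993661625281608671165164975525064966430393020100603424931676353926653288697011687698679112435787979480650151235134680340325726148684824402386972456584865915883535275156732864604490469866285553969665560192999897353986781742567832883275070386373470622234678241967362374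4754511601070373071939055888557095228942589281736578376729720946323223365488782315771522709074244817451132853268684274318550033408665066908829346474366959455734008856203957395951166346800127041569521820308340243296499805316253767433787984186252820874222512797757682995309710599221036719228514609843171452730818862017007317101612301592341715570602812031797570434186786269816558429337601151162306460970343396248045832643554570510187328987160844545688053321250274500790005082975173988235526609896550335799392814347292415186429360928881299661268202858277250303781208576705781407421512045387472868438323720132006802222105955923518913548865502433603657311368389905544554394036205230559407215356570008475791227953997730132363075305732402337926278653614608185244713266706099790081639629175832804724470835983986562335075095798151961034460167560163884905893567817553604966054789152204792259297342845671196507407035283701439434206203872154095227281296851534792350603670728578140223643437243158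3772514929122429250647283682317301289829570776136250990016320929624097914500138358365142599364911166166471661320166368063092140237567616186267239242035591788015485055449826186045562455345078663948377750645811643347789671945656520007961005080781125528017865128106992983141129282615364439716145903367792737743808016411483178511164689705848603430277201453713611082862296593975000828123003208022876522274789829406949923741317080138460763483969942572221332243500508845438245247658849675218757892977695996709051281993666447672444119567789724166336887386477963413751187285094478954465548818450738287556273014701551130624305546627111202304938670431665490296942594041123295537397595986745004620292471482842334789119956246394025307051721542661494786381954529063643767890672631196611283723994366007207992761489069693013093358884065268666517984980230340603051691928778061658899804169989245004816187651513839034976848189746204729401588109620778667507530557649048862081951892761668102812569872102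6794673227007980087436706507026718161998629539574732397120958533370080626274157069713693623148872920558709830039115987884269873855882715837710519524620395101159896041460813669830336940744262893979263725576089191712192623229739992502831483307547871963767125528166855924902177670733678624063784847482994660775320332310786996722336638730686312456117174343583213087677585926202669444095202233417601616121220192040217497725653436622083414496566424947434299135402594357257288754969935816422591452843639413187963670032952289917256996521667309340722113259366673395022008963565849859575044311869098784346464085503640648365428026280640740225456265997773043871212175382768856137607831088603341705014242394981046851413265660289810723039703775056573104749630142463218877304158974142394100297545437138247917025423351986019808641096071405457973348244585670312684291526666307927393534949875450328345141081533090785025603087628780331446604135181177990488557222000334163458251669283517260138347019241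0327715604264963016757738006713890585518191696376474332244724221550338073218407564017068823395816104723869955653509119224453639099304566732775426784335784391765364920844896957898706619903571753189028379826889538972316668532699340505038962125883564810132951294108505821641292699843765793642073606911753908026133368945555015988199934478240118619499905585079787054060690876906254788841404103019392814439906521709529893046989975292322660074743473291928772604426276589367247881871218951154218467730364615235170390943515020512617847592522043773226884600540907379485579564649285800146329872923090457903536749767390479373393174133878272490654029958737748416402794454577543609363396627950338569510598486756218829058571064846162103950049333342929131719417669110643249109966458605576987978039220106787806995813197734828164442600159103526656706560937745037800771447968022003204283106715763511501643757700369921125136774403338599573514906301232380336375482685632734982045412718024154273115835302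9142117394100421178209340498861664835340709264342871854233964484017644173823055862237368082689459973588056462192523177114685527396789711290135500556974450680190617361285426449801853800472523397291485183433050548350344093304640334050426869374395897042046101829142900156080910121133790713077182531434843301503630535477352114812859476887609896922367829650342820788333273763625484459597346550525091805266997369204789474183222240630100966076755036467641561256201935477153617018311462231071665064893810951896159267110680487002354836851586400037818975289376514819609025782379072834890429954227455817185822533105683627830833221392653163511162196598137789034700631713326329047808826230630449409783139573349998879675814596231970762316288286418722294356858583008956634503354255877393446627140798435407331357614381245016056840422388806933357405754880990703233415170337014060090630788201547310814003245546797889318727267861544093151899483778932171429157693412845397055479757313034525457258881262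9366186635899595027005700129588096486988903533278107833876468202324267998009145745120215300714430954647946361739581479267283175371650861683759801860934229545664545540299720511383266971985444917655261000457441415442540456657190564193619710655405108238903391274490827747671752966694533896957755843109226185053884380862431580991477716185340487178692724970518432486909379219530158324761787898123178530162920339645756102142768014856980361309570619737973032058363873653970653864630632409268168691875362246184364680724017720778301583803879186860082185386237506190252107670723234169470052006868170543192297500897931205591385746348036810149042351780678604086556715843690137531922313883693364684397570708184595014337118572677246649914244685461635157229971151568362738424006868853129343256016962601684351783544553516163718952090665932217195855688131776235389767088185297950665417710335068275355210516023851828664286434443663936621463789116902546203510808491944111446866783219746293115520343946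1144417572411851414531149914015637247110173709034371306794317936104412272182213393544061457320733099456100067141070886955486074285539042089377025169232997857536844478319893453059485283468299103686015802765181920676505699712511317635162908412572960365924655850699730246105549605141029743854406093847993746869619366580771334570780908348342393381254575093068587333194357548378534390432962141405389326785541680541106778540410032502456019275423573762137553625876813817556148380224162583479713327854423320539159361145149243616304810546175293823693476645136645658329925311040558192997188380990013025838391335468874810958415426977275069683114266635839468439421348802590855815030487764867597652155388204780724584789574903715351535814195749860449981797901346983538965084789204233799555515736169843538716766551871766702773425470805180927538136004593871004908447201202930987189529528185595745725010879359403340689825887955900954424658344260873942307484491081911731256639729238909877309964714480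1265006273796679502771614660430742113032503326818328787016479595036390167599758204627686953086150094611330748926065010816520332337504341326800080912429206464059160467169483372379755789598746692427628586128910476672974647679814768084906436869251217911311091141862549856081143600350746389951834232341073890022858646513245387806266317135651742893626956081633414404187725192860846754085170883250742805060790490536117797212381162225567327627735522633521661516529321148661848773974698681148287260691602437229806634623302731673187047194857449085231977428164584701985505658076700499342134890410138407758508919544194132089338762937696001042751001351776336000963070847392723224481774828780543292866913793439080568293960382485696839752052327952023565434049634316946247742529755781225087606298495633909378434650142612791243712246237203355691269232265983345477418620139534739140047224359980099168688235305302589293032317057466683944200552753490418701251501011303005969843442361430102068866751018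7485427279471075371914217740795889294449087670482785112095591886247523732626523415661596456594564787424140512183538019496628628436629631727808844744630903995606410128057533383051868624830601391196686836798063489478907118323653387848451986914778249106990256279289122896856640216340619905799039025535611489128862718851561636790374929921888617213937533057200251496745522999108014232677286166754448067244270292134296291201156420561076283083125525334111325263259385060874356101750294016973955678219003438131097428735794399687662994927453908565588801792134180851107357839535214847951589838601071905610352965880149671242568978977426922469907948715678941929880031072411676291114861883053252355329731547464868641574316281384344686202026164103155011129813869890589322822720819788114946924465080228814052041881765955733836042526409875116620647680910867395506719096866084378115393489304700432089167977276846815749206655169501632026644159155525559253471230607138489397953688765457665503119221134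9751390478661166786194044884121642183100658496833850814265333457511271530217661355775581827479534002036011755351577492365122872581855301241911669176592142551036857868609049100434549677282669970741053609049729029686551385195614656085045122260074673275460790091580249372406807766061676893300469181478055387028054371523759826606151777404073058239176223093216511527204416141456923697828007475704812043826273679801361253461680973962637586706137104894433493874598742491386939398392651697028103320219238629564940734517332462397316396963911899580717804433592608191931962285885121987473375716522920281807395648735558072326193324426074722674449704574664440492763634120209335489773570751747865403576220526232985246653423406163381654656258358357646248928003009920786550027979128268202190857199309651741982489593966761218063609274721942349640802872077261848182390194797022256968072306899071290894682268514888263499342396148637218937215706867586116955894324257873412965324783436433602564974621198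6637392536572989259177363953192018155718821929362699096140106438758969801412758384800437157202052637950047904003914279488009634588751034871500970330826814469510489425119439345572343271753134215227019765797579457594902515369264592508411058884464045676944121813101940691092097370490885056084111408547910485323159644236496888298467545480955313110468327482861010323081177500623401446840411811311245564269075371803076318984724181658914659380891812025239727211711112150379267003510040214738965760221403503629733450429168603571053577206091343345191187994101766926507796690816137631448331788204757268420906780872053940309483598751319096394176483048041127245216425867345400551842518674783627030350156108387141676367454234970583108944720086090699966325508777920641415693700688254943539443582923208512498937635449510325309978872118762588379726033287545941613183505372809958179873255461852999952610445981680940219265492127777665877114295604072260335293401766175330641096879297548525063404887166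6796125155959239966396404370766570035492858270567705580733510996678157292134776709398836539321162684291300538807382701948815076413335974604903315562843319100001094646523249060185485962860462692761986235348573688777998775136955384525320573688603911727465545450140104505886868301158985455002499390033614804147997051963866140538497330847102489039878526599645597765970042777598990381838822077450642388070318994152067885032112066489947968845897589102346944350492442692440047331264396117900796209149831001096256188469471186592124297114426828093507352611548256868422585794862060251223626211371322139483608495437894971258014245414764136597738533787656739025832211468167880663541539250472305045975116173969786640677364091645280658213391469596822103630688829163232689050143972326394689585754582159886413289515485166304011460819047642848447976541267842940441632522057731993981402103735777203560707752359780898379956192903792469811631471458179610384328748094981798826334911403520341995490779310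4728039627440311782511687199508447157924454718373647658151937141477821481500652524137652119427749239886773112653037414850403681013547764502993928343809682446662627398137431637821737063689691559158583187823450727032228653751141669273398337745508371652867646267291814432243427786194359330837412113170741464911009962556846267894957342070561127495376664484896108627241801267306034630409649234077643005218618495968128243103546786521446618081016548032387571538724185156902167862952115008650250770396225438179807452126821876584493939079927212736761876771451105287510372744272220355282329405911437406228334538666552154762415628255985431145740623756760621861385224134584939742299032743672659006240026486151025012902240639026321282029783942431082542488032241665753030523429547365348560435805451112221650562974747754002539645909854755769134014090475196973542685765710033742997281820677405381723802983344192402162072715906859201584206071706124369461873333481035851701124062652356230447143826939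5479124624674236213093416701260335038338860590979334811140692944346989936934979358809424169131988159562691680453423871641225949252055005682503711126797444020716818309755725489397891506059439454156304714707023926254135798789183992666196609757108100488581317142667068222841867218054609895988612283815255964875492968223124583033424683812033412813386695299272338244434359737728119154975807414093648785403711982192623455065264193145562595692822030635189608165483710696715236620744314489524592655942993949492705973301593706840134495524044572357645115834213018173945785423518835327682374345497585202571576745363416757412298752)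

noncomputable def rc16 : Nat := (nat_lit 103933190441110540563433385021066477624783787391977007198208011406774590990312372820541173253866972690449861040366148422332030523194712829838786699554861553970660034650791211373476695937531464020881694479574404128637871985088204082230174364302225970754065770779029948256738965930495642832617517956128297633955555762873797461582618203540358734109588505394390256900333582665239586472954283879971497874562185284620908387888513894149907198531420767627209450847766236469526010457636841516817929144555475698130679449622491811727021669468709398285668741519928093654024317000514770441341189801705548572566115449011566285494747467918520338485315118512404793062284988553224520905486937340239893476858378850246188980097158709655548876556293064720090196948208120439448446083572489271440867990895952603899351057113318508568140724288990239601789263844825935734785081614339359172461585064958518480192284671174533339527549701504332940842215889342510816555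3002961817515483603909269058660458721745813689351575275300292415119429522285560118416309033045286780891097387850438508495877978912607995097614302053825425573207839526032167405258270189371812691694187187139476960672814176105713588878478576323807466057095067675269876062667135917877214253637031030281378892727887569882639113748438204328322577195958652306079139960656518758792748163413481746075923190315920561644393101701925746405288486153421155381850216602592540979423971699283648887658187898135273775896357204530944498496974072019149191685071855315758793013744536477599395894794479356084265633723938548443169300501952204438824998603502711381025075954037182773430908206053314446320059002310348022256203008452626338556046264775077276918833266060030608713178067478951175663380402727175726812095550013266264551577591398997208364622724906351647646035323589620057091479421711340984955126807296513752240627974450350592136809875675651011365190546381840599249653272546932025670193766891672426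6579259084084426543436505168446694292510645171233915834817106141454900225336099560111716873223525350651318987014277897458527247090400106145165581616346165783816578981818888679147009130409214883979193952583322467947216209235328201347753073399359268790805446923468443008264134656071522887991474255962300381412315707579693512496116892951785979174039440999263473415017605864283604452093528094917938137182279822717134410416590507810315759482819419739943673663830901038146807503487524014812204778169645664574898896924675832486519896556222272318958256302971690288582842125589523369999267126858206953916365109862624282296030350157838616909030470928286772746028891277868948149751845951672100464893205258387149677012055110703010171448600302676281876274016155715567625470153185739113841532508000708004925321022513089120480160817867471509481679482287847045841897633485548961699534498964423878714496345304727608388570756161905736920581722222249850016432294921016034723417198080029036736029763121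3597205904255020855959679684413917812758946871275295222807913630630025863838701124638520200612574608559098306281041362541380767485198198958091560583821367761991925550939163617276215481729108994179538292634952843218485557555468421579576660403111665924621494765608747714922139665599788657317720926628412251582371395822796047587385599919826477937524173087009020971965904664941292191730897547458267822591524294010319582595541682284262845153807965091465190978833869997707830596343088426917140819774032736682768052541971966209715589830380432188270392780061813925380916821149695227922700888486687638936244415347962399111188756528561426632608460301963214091122587626867003655376462568162248629161335559986518375201946402865886207185186886735382041395961668135410530149313986126083579864025543617763095462601281039204324690829911112631192593975988724520051739051959205126102698247524602709225200229504168510964580120440447287943860431776349528200009556158782689380745581087430085240353077591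1807525366736527297314834045157987188154483821130727680890842773941485557247671544690385496839456847170015528067483851984358445460380611006542490106718943437203718524960196831374890842389338902027756863276743863141378213128871175875148958379120898988140006881118191406570408201169068319800799546356700120255480672285509982181593751967814402724209794963083124826481047051193534616515466482271339630599369880459286376438596586197058368755982761663937212596324447760448368190856407629243517751482722015558346531684611131131992510282544935668603131989177069714215261289390168175901871060027157834750772413340803634374524681756668320039988436062294860868606577463852257764578815530295311954194599572689397804503437412805703139945978526902284546087339031757110862751772856559046980816376047866425625411083096476634761297337465685961190513868652040530618333499023523780873956333593945446740233967592381068106527586033806641817117627618926706296035786740885171005710047743121526884515863422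7232292573296940632929376431143402654777958148365401672149683229002882261976392708667190425884106360605327287792589758529519928436284357302290508826899418944857433908641610568838323289973664806565133065284165849758148494647134300978524691274668210286700101364710811181475585982691995575578251034132625346112221024555508258752393281088198388784370189998476338320657357751269198733741102190434539573854034546247781116178130203331081808715901910148635097595758075918314321188726909339396995186017386489281313121550911005597757465412399521266862272161770651812070803313960662006043144605710973069053805965349533520965875947172568360686007601938017997607986558728700010180195866252630737080741033656532493243941597541774924511571419639427492311839830954621105205191979970855719430488720275180106002315351921247763552426300179233076191216754741926224138153014995158932285675015864921774385028152656033200857063234079220433287293342209992702528745120971719022845108194205982280429101194765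5504612919936620532961832104760368676108616103105094517080001476533547072589920400213102812171786225968682869724457260147156277654134783224623441625702130860437762400542777347402437222888541370848703909740036043926071925540020823221374882207202887774477634585635556067309411230698254091145782464775408427772128868166087904699934492951853579890098587904082370022288567350108382774083246317223302878716304933691455684625621421146227237446884178199074981754484909467079138972238573385439880751569478465765582684526918885283713332865255767557980030020120895410833502847533431912255740159607401747544512761379300934949605326812709946256540410158207618811009980955904615415468475563083794718610347554642695881721111782929714609541734603496473022083400050930007453884705127285869301773550400223851734518976435143270872821591395919550530937808093785585361485737873632112362054149675998859714964486862196214628725977400387924721472511832721163857855303408112411876753939051330583107109968118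0553661850753541494774433841312287584415197968730684764179850884904222074879506270404092529779334204681778655742540312725339831348497552666191503916499846857571792179635025283327021954709246420617316374170866833072876282159875165034759941592267318906939015932748627371913005814941918980231461895310904327190804934284570154217535480482611428125908090490754242237305512122838682601354334351417346153248498041084683162903936810654228304445199721370000331506078475356909508977297118612018602979126428306247827436326549723536746698575311568865213782949234956849445182209944566392040213066562731583179735003516483178919526005269299536011498722499575708027083441469380432860785831544687526254573691187324829556430723338555421943534219872561763978256712580921177331901872106717838870283573129085002635377193050930266127355279660023490013534870919811122335997882558506186967777455619182768720287961841842222471977809654427781832001745785541051354913800221353121212409678990627092809841384641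4800122196242143152123020296516967649814621809786779445442568855606493893618174635552076806318781787301367227777459569650183621979393987589191418846416999234903109148158780965131073764241574767210317790556421467703615724471427195453567426308385436968954115784172938933649599409028326879203268460556413921661880703610198359839039960334173988767143805251552840935507957535738902167081337036697439743818571862806492986800392031972341547537101511884097741775946784469417351477143243209802361222168525991072668019452118425962335268649798603236485540386333093209809707440294638796251626177027275397189221773550127062923577530708293464207780527398408719437735392593243607463383217250159247449754934702866613083205540882353566583380407423274598123461826441288379231231402388405347318850737856574504970163953900407005534609842375553869986922816445955019735864584788793449010076201070755536704189693448253193991359330883003606806525776089003570812068211002126772657983748354241447827730210517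8759965225012759590462409407779821690967008018056724571823274423922308224588233602730704341984556973640992197397748880914168799222262154537453025535629512909116493607921245024840238024775194222294445704150609804380890557758476368444274014573250151031251534459193159100946958706636480207360762004666725857155757153080533477954588708906749666887074238430298955925515279295991491045261248953590180289020306042738317199455459666773482280251829221115276560592614586306363000366605975700900411456874096384724991120756073286179761108432805604565876442390844470250314240605718818243596329450873673308682568762518023913282695298580213734157397895141585087688518121135611112279764767795685944307112678416689173152267286637089462879218013596387426003821278525509732328269675603012479235850944718803431239282995770643583958451482136223958403567569974982602371826996001754675218708441797944555701668270320423690064178664486525423308046352752865774848515852914096386261191144271722584055530598591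3780233126476837806497720838483780086872601529275355889930779957888226464608720977680851429285635580891896883511241085757643047357344667052426622419221912058723614097085173560861112927325310142457351515548145576829661150387026313113185484342419196321209100593123455359059348062515896330305009480440688354260366407827795408022978647469691369120218171469274339380487509268781191235415605154239371854078636687536219582587589818947405643264883727128156388602676862039605904729820344863640931067794982788632849905118664905666506003729090488317087252052623160983440543229230449590754358374487417675325939709311929199178306955560736450348467449028143676967626173317006545055979289369132416208786801794216700527590638585665608176011657534399329789091305409733695992232995008732084697461885454474845446573537199746094322286656298279940987913037204156225636401088166037707686795780523634449759013809109065018121686145741249291514128290234817025099101049142214787718563860000326366326924824102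3127998720600970251291557183169086958209542448606355724780224861704393303703184074917010440449121381545752135243061669263368393520131708329389759677538262531571359379111723182273022104242985108075959846286523883479056531974580191678842130722595477933624107338167409441945686800050232409172460959052305337055365616585961504608605870171653516487434994051088118513170822833040850917389512070753853650586764617019833377568566962357100269086958257804071265782650850642703946121656223122522324096293918224126096782932010877403989576405768597939583755586424275036332922136945588459173066713805751641024451949472505351758947309733177964260058899933069596807967774097953994858902130952547314939460907285303625120662447766041925833279368915722923737646784252280552349801137052351252061196153773189045295104440813786920663023433502453225946897104593875374702460247036090128163521790340447939365995011238127271944413288825923902212076499289288413403033968973217733374451298184619008057123782492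2079474299701499734004238650440924502940360245966573656801469671633650019998206941457849957583841512642974380195481131938368185124311003612886069722018205508698787957413066549636149197510709467246689817830713993779136580766670601009450647460975497938498243624844495836176120774380861622107396342518540094186450849802372254831579736241873768947869363534078501539362751144238645126551683132610714269668390397551403657777025762789074418795173241402615080759988211148939696996932075970193221945082350687075138987200535198998380767058384580794036951680416912117435016603945613421982056148253833712539738372995840092443938380049762738886516918301152462492075727140302531761692853973040966377251080183630443079622591088306876370690723583997370932799276258115804405682981714270883230182352800364162573382546723265215392450590253528070590613197940025786026393823721487009381642689826741769367142361650385740653381235200390312842020097938712103866500884707606242841754702791188363734197981165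4651358152306074944140189462596421113480311076633185464850566909885360669260069283125000070998178136108357074542467571601155444271466589313144805346810660499868038395494479439358696919771931108224601070998092663384275108975772162104575835811070438292633643062525530672406741431468264334762215292332764256884694673473645434928819104229957955559510257921209042547142697037158293960170249378987039749152631701600159598904614645405033973016626269435392311058930609604991860012692389368794712087149675832250899145688306592274658272649913682751465372508610588449182292084465750295642429354378788040551493347004045310038777075469648005615759773864037426820318218158915697452135702646949206762712855042593182791623906659414867992875795375609753912574006540995652436580154282368252403242356209814463043412338730829109541153865023910776258987518787202240900543306746521129423116930695140816530630819554419991167426824020526167881492605607940205252526125830523840843054640086624504352331183036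7205840809620029671165333980732815007184901027227399547252197721251441754635357144405520580176219660320925713545573355283086486282575612547784216190805476185453521287411338326897610556044782311116025908840388124119322058666811495514236780248619268497088357168024917462513697951484653536720250624404541017426046690119808686089934600033476023833567400516972670526937198720399163181605742462652770391907617649397219188999502459070908280232327270009840375471495753762921687785415735398850283509416167750021366988588916839689758716241519259918635214123364855556193516248246238895803871175463757227512650706703237732810860954379879815171561267089615314990363829657199340962430950561318791458102338422319796674319061303504652902968591100228362216497177950417148688956055421299508499955774390359704025068213347193576127439187770712155193829530303034245908480472121804207562842448627032542602114794950133828116393245498682571526658879377505354680503820110656161568544699546622814410456742443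1347135778995442902171768664516223420153347576418428969714255865300491692096751687757175502642213667040691609305870198921921214348566433224317836515649278888393092708839409544056868354103277783139767669217582056788591192419112792827007633179820665855488955002850563645345170490439384248156186692067572148821474926502498740940212517158055046631187814209726751286281591239861291395316059134418861702288436375843500814647613271105778346994327115387113759143143573858023906846529574209711845518211718205032081418148327666048792258819916134185649823991083402084309592098137364117075387551141850940092942553430426941800991476962203849221389571445318043554078287355239180826609954884148149039245327899784348822036039993343342677080307390725741760129866428058876407632301805935271830746102958615985135936075872428199653999097749753752279461946431193313930514732783307114437636699957712978033753895964039038046129236086120021071486737625951890614337718770276092868164805507353199022161044007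1170250880213012551584755500397502038050494981228018711956509020226555011401395573028026887817771335283117843741772332789850610680142092346457897592997993324048491708330347812662347081415035353889789180806215229826973824620514187582672833363030481660275207328607713746406015324309815935628849037158917274985668320919925770577837469893346792662198130077740441677077943192538108177118909421331301418264744117067973047135185785403626210665509127762800930056641992811748125264619768644232068986545664504590003625646428219327947049076956048695718276600371223295032175352252001888398896608962593193329449552903216343847762609272314212815793709846924216035483505071449780051049375011242446004811515380287613626475470984639561971806299749287772231455622043986123481383038830424373431604496382516240620002032273202669798438031302537009225052614900276286322064707162219974670575750303576655165288884996526430353302137634971157297858618943842506927485489320518973611223292110905990040516309102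6012565766928624512426274196237199129949498240987881529384265874984172566391677606469792635103949526231175037450711175610168838619719733330811404769943470562253876298267573364809779251487381520969351668160306838783054946294974146972300018171361279963230950227314497373996754702203191860523728174558365764269335080653912735987708261567309335298538407393103329976271046193402399042230489753613590027989627479617909168040065478701749259819571938376807416249348878922606392277350303545206319716930724298557858607183333691505578344299455498134793746458849990232558916830097930450687560248176743992972814507805607254353248256)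

noncomputable def rc17 : Nat := (nat_lit 104176726987304362202297449486063379466115442411993418633475537572918462046985203711291504890110781300393482967853087793451266884285452007886438320886931480246187734943189396017949941012083289128824523534802024650449013045371966082448864546472401432583026582351534820212909216647414842632422096404256610241091622095167835692786527910630063766881971828780745312300065352031843841161807880468822597430377745331981071586564374750408705898895397721342546915208230020979869737908366957602602716881190152811680106696864086300110107657327760789025396947381962832398961829055811686780451110047216494316134795732997988758078087950740991943176045138173958527145939017528333118843004772895282145664362675696188300051339348752522492627009722652367284777328140550314894966047014685743423612097892032159562575639649506904120693749830593463971404100466766600514313449482511042455402416505254354781214072215683445457516663928767791319351002236976493355510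9794011386627627363982339834231214702155682239020719370003507915901878609830285587312668521879497141997024084141399097895074114629575767547829636517271138799198258909642168141088996997629037585526954736474626245188865475080172947301803979710206069742929357148651257526960559358529880123519338548728287611421001812987554320357317095104283192517372233317816067300025461615082794534692974749800040858373560213804332563680036247166733006549089231101814202784066228474447128174649981940819063343418888351627678586716893687339104612758113540017948373971230611721811301358510238051596881530271636024476248056416914257978281975148622710263580365916405844120776585329260057318549386762853825794777113854923396762226082583407718917336212954122475090525884903798152027676524399140824199122389997345305038627518319452762253290337310912739426419261798527627358599603360096530414477718129752450024639868766434009109536312691994980552735000793458577203520663143392808339270965356397577963746321961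9885127667909337273231278256977156027628557048037911491147243358847526802356938056395414043061336994809335632796562600663898952968308202250287122168278073193590504234669831164481685460686135646950113434494850825567955436919623234074524007078734575175249142874000062324373255480029915885507100237764819747068008148201806889190726907262465543832190053459665520352011021321261506268563425002831817374291969352668328336742046753505404555699783906303967083020904803729480293803797623553842079713040287043150371667350666393119358916056813879863133629354145621435879336087202536813814275789849779426342839684018006234903912430646787714358885824211069060959940855024379672964365508300744610425159853507115356226951511113194858295548680509394070836995638797254200206462877994061734912694182976285273699800042088661440980155840964115089317067138942247110575740427935040600944247088676041008820901575595457314934730324902714803240309937908319427709899854903609746884152927244554796201910583437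4067122702992880475615850265004405655489736076370473934634202569672421838729609939369993073731366692443367874589909659336114175869302777784003716252600627009386716579296850565532644365977542692581636279036686618045516255560578232656532264688582065563429961244280977213562952750367718255941910063715651572304216401944490539382969147983481886139928896989737776514313891362233961143926945411447503948708358692692590143710367196116128202114801639820307793098040722620779383186838558033006125903691874645463655266844287701002112653287919194020032462447283160800454751492935096276650449614360309454999131890280914419294452653974156472230263251491634434580959767031175726618715938208823734843589654989750482319928575394767353638640141655234517707725750857719927691329644590055608662199084258647115990680083390492785526147352252206027786024816063357390180268487988844130605898283842211536205573173681829143320168233568383984964062385285782278774691523139747591522973821129018711121917142777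4043819502314594740389295811018796676518262031121735518927628390123371146280903261804489045928305197985912115655462044006396686058833431624044183868466364061738402408551766474069620072910910827630128453687403860311701418980087338460878999879345012465126995866531741651566980335309071962968521349392347941828646029117365416638795482299041610256045077599817477272812524824120972966600023094617136169727254690850441252353351212173142818380221814428281845391832286611098839608671150697425848627909555648094233415944187999933816548911363305530310129257435203444038077483950124538191199240525595782316589555353124737020965359365039839654696746139910025382568798231797300529527460318145584840958133976007314406613913080743813958860534231738856243344831208279193866672719328324235419114983986310820319196977055798119095193033334921268029931086135909110640856350310943774061218960943411796361012225155845371734508141559922423971116785239543261697404789273208602401086409890416712085888709762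2635861202371122910548478899052764524508627412128523827889784653976252883044229569748610269966482696347433059069343658136804082382772893248828605086002125895321925038266990876813725537584336267145077438981956247906565643940392078175880164866867320142781166821390647412823767017245630302384378059526749744153739648402317945041123608442125955698913569494099997524930950166402640052260661258816811260763515900247871303686286292880989642605062104917878594893015284746628844244978116771056892545159229002535789404968618506972523595129704286413866121968039329341615903373688689214538780768026901296676699434112500685525400906844280631128007169524855239296891384295597655897692132202870487284453185180115853566730789359559725178859557769622981270989473943203880791209099095086661694594960352909492245443488901729014290482618687234264129932576128005692938173507600728831102743759251840016657342401441947685049555299078377742230893570665633349398206911902580247881565529324088238715139149688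1585177175461040510197596341408852132681184029657927163139879454142394604221724933596030277265348107241748746924891597011389054832751638416048040269124589839721516540550114488735911685331355441394882062357971548520749498567615991172161097138272798981705801605375836416498362349369930580539791284675221496094855111194904510084545930454281128379228320402437356366250390538788751220156968606318964551304758499731563512982849227206619240897163162838066385325304058359458479762282696530482315040049055805585284407828357485949775925870320368071634040898761112693425940413437429134682696462337062975166625597507577837508130618667130990486639792258532681719673001998362825111574632363474171832129770217999588724220312967944739809617160123641616680405145740399839786569660539354419968205857228684918943126095961865863721762333786967430505639671798135246779202985727077235356041258441163430894481097054550555104345598808393917840446608716013355173284721122431533583035738518572364127912842866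6878961225752499236767168079258745919271440716807422510792680711100069749680368038082742135136254015492136734756491799105056864798306987657311865453968693924940628595149127065307809772772033115916996747310189081949444992749809264956348679420029538680486954054699680302986488272073734647620937599073976952036504872408291244913949897853707035592561898012545596771986846870148044872989012901962326176559027605072223161511565961860551064986857490978153039698299484204426069307811673801994891859032539967927512291290733602501002237282322397103930190128127129774233241906112195985022849361850445311420442925539334213897631683396053317471940121225673156675701341512099362841904217053367384468119578680117350231279604263928877869624579170819057883625995648383022654172231762493895407586932239094763817349133170423912695596277474357512035499534251246281736044362747285613446832686445498740181553047070275132696959825295482803625777054883999951630088119655824976310640144779352703792870907016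0191781186563261675557919725918952025685491126668188881220225728959560481928160759830230303549063461134979041400537791216132261854847654113090127103091114669854521464255296727595608416581136079376382219646512840841675765336716060374656447406050373168973901987762104539579636691284764840861161852422125054796918860526884922377872637547027199569177221488352379133474243046540434140255433519970963165128531500334951148582302679955313589021573449602097061721805544624011272118477424427558481569655658941149366618059793504343884048618938325621976466429813404449534724085705004234685186341873351983621685216256020639820949212793932421694459867597550873286191738113932831454291003883660496918172097556830729029995309873053344729406677693674954619553730563695691184557395975575152793523452910604742547690616816372552080575822464857634941377168722433134217130887096636133472039423948480531873712683842303322346356452777947041654063177746709367527887821330389115525234706129336415772845864573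2236078546982506331074150330941380523974715646206450935867383800650032650423218939247181000358954842432609697793867457983067604566539113554761052475185818094219911240392481397305345533222218801470915176296986764851336043590742869986129701180602067405649230077304483238371517624932683718073564090035151948027592650643196414690962371347965733276475891859116513250204184359686557148372397267970001020885180103393463398340240561675789227236579110579509960725041004548158369706982149360705837488187714331024968170725364483569946684404721525630253915370494283249030324300976743471292193906656074070812957091088239988745899158126680358441264519662362072095531340535607946885566432443314847697057576024309925047588198256032316812890043082959962924673906851393473016381732510781936581537775804146918744053268515986135355862473783708276724934806401801896841717493494373363804547610574776589821041751941945707330066894541262915542654994361916970478003294053868910714638889342707379919362917278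9964097745293669112451681508404882583236681883399165617074919092169054806544489747505038452309771683951732794184641410117360822085269026917765456342772566375883638518753899278788380573711867734991176675134045754805208179636409079164442678465628837112625030667341601294728913559096035061058886706594526113123714059697805786206592249659112720071234646760587659443141343249037731101344690131536615821528465438086409027335848095961145487765959732738908018562367139053121207477965534562000465698863953398628468660143809379298054999599948898689501148524824392117564127044046015610610402547571029364729070491639365449016815638749747433288651027919145837840223747556579363623568249156470141285034652476604395059146219387499308391491865247419064093302876055356397669731293978546692206861842088371152351835060634147067158817072310747000050593544292411007355670778508350329686401523231671117608698521776101257620997594602207053689797993162797584174257205298221068419237049411192103299997185601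5091275153173217699811150673350223703654797653976160295956078416438446476056807109696203509058277855265965023498292588696373366135208769292971318553225930774601745771196466022604308396655617637898387948971149239276813449283595288467698756312278500160184917814122964139058371113329349843985775958911846367902904515225428641461100340792600457209988672285912417633236618873956849251651647435258025889431403919696399449005474105916772626447943458593467610127641586757462519004986437465864801035911056341002051683535870212785150190564733118977713982724174566755807984649693875765286377986288654983242434381508563586201363041123554850175468950890658292936934019886487823789402599308131704920452781574537778627687595869266314462985028280501606404640158619539168591999668027357975156183908264880476896713473978264654794642869823763101495209873270880989472673619073830986175391499112495966201467898467134747535208154668076355086158301867990311711939455063917121792093194780410574240567874863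5394611100718343859961011758778242710058324986516666462069663679490967952408410793012848194179677854398331330046003085658580749755713627259758432897469021095470901599081271334525290997806842531546556798060292455399480165777923286943084378226268808191090821605492536237535697263601825343434611019126967945457525054496752522710412453815078838017551919078024076903103842107485625205788957323886274341401193941180249007607084306110433860695805704151016994938257778350792103255170463114276587549296791339705904395214759863284173790918254424328246748557884908050515654554241475520093190188003657122530865703681617000950818572324242277610098752530713772664109926072940848766758001922100300429899906223363330145180480421342204490382342834489735563242762235552384411459910143889893781758398390668419605408894464568081289433299148391119814477827229179969112481807279838910734754043087803890749381350841630617999549569566199132152548034120539457099421757166941216977159943566665862305008619527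4311218243539776529759512624031143249621189344276099286021121587433062977548946553534189757037021797090530803561746668380047844489100430722960037978624662241553991298508118156475960983358910514286258583637814640748925752113431569746016748708041147962668930330236201561536831393227373489360782358277349692874656260927279013227582246039470012596824996733742833993166461355928332008093302771004047132104915952954462188235677649862090596995173427844303465706651744693687468730653224432206109280798048505151984664560658805904845709680288364617439500351695432229400363226466720693063395124336551768241991195612198258333021852508993484019449137154322335059447647007168796007625308202878413014363627903850519357431297857253897870326654506695928881392253211465360721471546692727817899597206049869570135029703453519280890577998839665299515984403431216950658919032732682583242788916994304360794155896504402544358551344872867749838633101663449273945497600570213492857972654331052090554205325337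5488398707003481292693818694548714295082440079650157758152078610708580491665670561854632976061160668487860463877057525006749114980116757879516712070810897195114049185436479261682668742195573896336059442184880249374668627871803689473871307226170278828863768993491228938402976173114303378479707730525866811537333501158497929956030264823041994425070664831304800385361085807230394140550728268558995314595905632837916663634179842937125806920574580429093742533574479274326814458799531897004940651039562682069023040017059584339658922270229369124597757715303677242734826626565792091561181525540583483004725414941778625648333629315597174402125138501206271864297737327148708494768553158591285265760632512478503081474952844669535598931028496793993096066072752236599855086746448838430273922379056902750070738683765757770589357157505050384459856474929548247650293575631536363169077570242879958153381518933332074001429883070660045205463148517473479412362000867105647355861675618676125307780424769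2697820499790559555855134195106474652873127920410445883506788520153578923562918955038699797650434347249196268332695028785192423397173137600015189789885058998355165695073219514405592291490190589422577519236238150559136985863367099311253236907989212516910962385127744005386404801636181825536197350627862601886827061103945639807429279843154331530916253013458142090866571879048987164506131235213757694453344100678582001629722731582962836868117623979290022581680933079074710972214414010068613726137212378537955374692997002915164647088349044752829505664238340566829158376148227901553059189966387949890865014499598641759430899049653875028273320719543208133881185022042282288882894098131008160763960188752766426648736949175211367060968041132305018555801124845708685950153881639820552720284890964441969766271983310718341829084557648247788562734875225403323461322045912968817864360436101889670574174522030818750245709360596825011142249070830712399606774557114005778028792652425388442925103538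0912693581711173017941675267249324416463306154427086619320372412535172161368968611890116179265070426289372600170175764650431221348160723937710216998998537259745858988051260662617061585414596236594700265526336661786930548005131597771547575134058741489748306942515133478186686318531819109424738794755630431576626348133924920313464563546207716839484482516007215598527087376750293090587665164504767294012672323509604195227295320921108734341355528736537537840729789391254159940585674205611378353353293914076800517738790794300302268806426071388118764622580641619966884554765584322994128484638231309781830496968167905716105964104310525315270100973346399304932735398699342489886314257941303954643662363190686324181842218504636931185213920077401321305995198130392734486826994702650823756860418012244447378108192298830881967591628386081166448297509012539812595183834984284739187593451217660708200105969947808648954081679891869890028692901855822803686253078957630776449293444816322732769111657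7941954571350590160909095100488937891211081049665163295473283011949589800295456139487048664747080580999541161150245183324505641651039886242043621841118629727858401009172930934228155355131650922185535135260824981016887587463236985731162176797576799006438673299546474669610247309387833950784995497378851227158537641570108082879833679706915837196075480173974224772288404232128860947891197259327542250065658184163817689099198557933118606747068712301233106216236210639755885119207976062686820084613760179399744530780841386798468774256763276126999339066479731822249550795048641948176089323405291662662166725605698010148241408)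

noncomputable def rc18 : Nat := (nat_lit 104418262035978421903657327972692399236357278515525581413473974834727402056169447319984405336681631639069062843862001180142775556455111940707770656711177425594577649363309836218550544373841335682702024589751726402370060478885100142725182529193828542617211687042150097628920031199468533342818451105734233923369951179047066097599556159632841132974036311136825624535972553555605185799636840338808242597006424099187956626833000655633687787389513470582927699476276050287790705402848568275753143175096957026009178774861906469189721152742214870510738178996771282595608454416410925289106938243300761571659768632665009236839784214277786311725015851743061126628134249135239436172590382363251259145086457004481282838766015734520654751666105153495919816890708002609568254113989855222294799085994371581672728282958376324257386839500298280242243171714701886135883212885720854537085054508781243085561069796985785828929520666445567862697826125521553261450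7677661414375518747239905126050582675180697890052149023089219029445613899954830888347519062254512989121576380767248898371416724020303818492747650364894660577057923386703452674005624405849789077234004976549564100263713483489295520972429011123676717475265432422722872809650454763309745539231115252132677922036041008367913616675369563875701579556937251605253065401130455703763787851998099548628450485381404296398051457461114686021405019241126941781223740059495586012140684107107324601325426551751576955063987923906903089689531452512936013189290753043757128685365931073936430492494342750490000377075922925284904002840261493020333830522126606380686053073564138563397687227838117015048870628198354592867802132091578040752118570854074924591808692679609816847031640007505550360829625232491813452423957916330283672245900027753627067891055703760896033493743587864546165995733895885736756323095337877976540749065754085230943996839671340582910034914900693660137384185335024134548533372508131305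3326525498955942048241295272429171322578964494933338178077371215096105456914798913968148028501727469982015827794994426551150388878688046222038566059420808848337654554309123203872046901296471608662526765516843550620162307004037420960860981740323897783116198100928979622224262412989534976161031480446296952411792453555274476385435108546678605398478999177545622706548965366020837796815259260211547601752408143259548893808637733768307117017868969004419470666086968020557283706733472242505353206369926321979731348904047728825750874301058093917993619071761871705077743663202050508380277675849555242451282652512554647586268322267942612089777680707374893975166943911634289876078031198260390183885552015229674748374526808816778959271930526716311074560834840953706946761190804269459135123585183863565338484132780320729693403293155531377252643962585490897264168885107568394512190776339839701263809043460324245632888568890675468252099304871995805555232970127905579464938510735336695296777295406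5396262738633067599752210706895119943645285247987908125651888144645740786885356401956641574250140457637735229650727467795859584696705283353231186584757592988764008497841379151162533730898185182345526351994539550223517245693039025405945327513123066235581497082685903488146029705609309670719130821004185062990395653852191417234174845376560622646019281918969435845609943873880615213264761670808593187968529600587881745395108902622492085260199941079753743975742394515688024095171805143621508973030370039989933068007144348050254017744248787720116255152600631716987784440295522071089071326304163897105514931532830373250584542494128955457656344917771138899044310422280915633176361914737084807987581115419627498468105139358690622814275371602580869696009186844108846824989054424044718430075229143918154466540893179065894801832000496371160324635976926989416731283988585604065489505700006173583085713711381644429838133888523929989236367080947034871986705148264328391439680597884609299478950699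4168422795037768582320399356443315452708919406803791809746960241091453960015130121809387019077738776679412420760585896652222007883473079314508464067766578984332276984037477193336189917580449615207440751866535876702373058281955101066457815940213158461528245341636733267383183134704144515718917851083576074512221962797581799786630468969743802424396283779658017882918860848414634514799583819932578569686842820043969445619134660997342745378216514704420149116672674490963453558490573936326301648576666407546767757839910880163253866779558952190986656429434913535719897254243163530123073919828371771774721938410642335037125785540957673933757366001355620930130831135565357199551269596769114507381373588363532395047505730613727667302943124294653851115332423550782717483576900320689615415745332342998624772623110180423163096299490260539272313569192360807563628535582286256599751832650919621389840066358892789181470828089878849223305402844155651762341112931852625633268106846575346347240187662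5287576148513000034624098536022499259008698136855421520413659488128646122622996859941785052397613728874329610865131591999635268113418237879363851740332486418573575775126799795838337022700773873743266938779290361393690554128138166863490646020104072088548778733457225076390211577751705204244336298464529952063814511411053111863736378879292770267108957966800074091128452791746574179339081405744278743297834431807181449916092016395526218130226936783673200569742448876570541596681532399362273854039516956599508020914152125092695192019927151245944840536439770002720716820310979277026252980482689604564231557970403747926107077699004903068846588109948613931041157959496372997797994723406910537059542856093323272494072459680377966888268984981667801110253967927240905840357891439876475166610579020783684374059697084247193788391645207479855838007610301725893433747398184627280476856113527163454408474617735674230441032677391740789958101583085925631040875904752761230825846316733138984932018700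7582973864606798760038679673402022937307360811765289414659780245712840668997425556662224867972366738298827913130269221684444950547134055887006318405714162674504863496373441120650324447303162125110850679291673193959003697228482680340955197350490415373151452141583829984104594319894160613531427820325626517125108029806474539540300443082862599233682517671250488069901037340396895460019179631785930188404902202448626922374569547172291962900103045551753529609933633043642960918039189376652686463093406445609965139984908715211740942604873658309842282652788891726505673571485442877497884376692314708894439084765266740363302990912366371626686379202760855693968962053816468899596045975228988512207056077579157800483991906965945701262075244819538971773314874458662231108536244775629706241705375823874643260745386729024163960497642809844310999120158251466960996787550694694911142178869430404266939740470784993361088175868914495727711383255561969769821329572640838832156763542389559162011372226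1941195285466637191063915135948387160199181915179340258541007074915388157553751563207682296221660435134865392367177215893083980799714448003573290510379125450283693761241390274549961525705577433699941730637837936179807895546680253743786166038544229314207963525105206455346705961003498741496484509238378448738861500989804262924066779954897899824786779524559050392937008854632640449818728587059405970604058865647534744147744069014625390070510580067340872004624926326185439918967414460580365183447710733943835024961175753122364865851742920567063503036942215133727956400476687974811047877881017226955944709843054952453316906862151615947875384189005254385500335742171508487221733511966868177557474355580916510224857412026383246937058643682522960350357437259610846513212681484806271506718646421337285935930876445270266333854741363102954283180429597117062006396228617096423125901504790780200464096508494601895671993404002629103473885868401351920620649572036690047061398440012674325817858674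6894394752970367153205986334201188216312662758122396719198954646493845489295102520333977496674789054536366655406141466615901702277061751349238534645527323331861272214840254873824367107437720554743818133048224770552393977072622597502887142033045539319974064210712459603337358373765248321783236915586699977875701614484256853511321960395546219864512705393454741348961884812933968631938950266161217457582266118624355114305832177461908802505250651014760224965422015873544980085438399846468293942379227088839012000302903045161215264556582545619982796863903936235823903025417525456665079723254348432763844745339575643820659118281790136583979903385556275458673183787727893112070580988485158979256905122965710640217543511851326855295725699722911174836079034932635212157263264888065777777358012843719373048289745098871804947101982627536182852319640762818541908435665165408322839096373334162355779440371897843648981353076143719693085472150477223226738789953793775780318354862766218423099123272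8090043445690392022427679769600728019726776207620474081813452566300109146894672630271264481185130393153015945084061348624678050644336082380742980481537372027729141220230326626147183220925585512218769883408105303015284006985219176846090327152007156985480495333638411350577675276408675571408391448602044245196756842715662211036835865320286276047251356649784040634925623801813282355328756065096571950070138930476604006596526440054252141501546432332951809243193465121768765269109382713776990875343151349979051244976112361602000233800592786862849424598120557857060403857333327718161567323580951675546585916993021677059148872338660378486278220776665184388413104164448363237371499839281970611915961257680544019560064355154758442154213080169750565665938164334163576375962556448480233460735699406042615954458433919968507876134356492232733553215212272780028504611665256808589278571836371729467856170712503853540072595141501238571039559440737787746245439335463277132844049867164355732844760852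3136319543690626389900011015824706148705345190640992321106391185538551443067070041172077184513358050150872355897647300621370177237384686387785905631757543273765655313603070880296841103273245474636804117087582283434346447178859687246123388248245037805509951065922564182787256287724499034139403234558370239910146069165636013566386618270276855586571114019912123782927278198980585857025263049133495196942339156062050066759023574117044601919558374809586395216376884000347973263991877674735649622183350756017166650893987156990106238866811291032252934736731296227596346527618037177260602339593258275071773504463490761337255784430933827709483345331383845390388775363951012126195117066877088822493619669010291481843635712312701468670969401882536708050830041691965498726889126850639276023372692107741340183754549695392128029756461799867936984387848615898683206539860324457915219460721009249422319488000376445705784171503313556654780087055040058500203287412538663160565456379796340777277588941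3643717929339910166161331894375654259727819119494110523577848443884202107107488095464681890224259079140393136362627679760987583573504344773638492207537404467403178084940140036936727857937792682294176951322074111893858871353449199769209898396979797713447307390202247475459679659909842005950338095443473781367778540026910991108024412392894574054111310452393788184102808078475728412782809965958854805449474326860742591474705168866791664661743518869791347683410688096656786109133089658035109963265744049329604088789587299226333967472062055659818818428427573641915011874399254701728018114503719287026791486311340909105282772330282094043400943906246456807832461387159673807153792612360091556648801218154099820178974582759575203707827816714890766913174519235023161577534013087582855089363152684002387007989437210815329347472209498221524812827399466861970375109252465010283868825859728899491365283228698839772444600448627547245381238468566568755477015380740262519992108394371281704111514297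4782509340500098636838038710858788273713739282307955753477946485381343653756681226938602822179925692747332020233471609302696751006681195844808601493485339418021192284543174085953870139763852213909985897805286028589056767483150249567346786521748825215355232330852833145878216659774244070042550423911933062047771816925539399783807194734915009443032651434259650683064482792675798797640268458223612240838165657479681973013841843944972438048397871836008542665106586613855688235371683710266681865654974518349478681286685788532014619447256945931345960135156654356945681493646475880090647583824219172784680005787845813554643360883729916033163626038445832305477951407537952485305758882459466638027013669891186328139304059688942688409501859498120475182304185038241485257058705450720599876929950054976524885609599435350484235081596750990063416846857703786789116111677644684176676674921337039340469573026908373910984541975116221934810229480637181476273921313813891541105192162010736760617919389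9079940025426602923634850190816850187642924003178727061653499779132925700810523354462457395473133009261390828315850143294835884314586200177196047669487672018033254191885077179028360835338562569364009913663793656717109192679235334268562906860623513269570648338560937093479380381346228373055375399635033457604120807022680387202163846742354356615156379326732409980560686419534813694691733989995544055551039871868473931730390877794917721553863599011597156600710115773983078652401985518286531593256808402254320869738423927019870851525274742195051938347325502868067062470266141181074389400473133022593196071262765995507189404589779236812626560937002778981308128735722916993682723908650459655221535886493114890018434104071609428272522463584577498065780540660399146637838221611605830803398172936476959994130058196429316053082517494668558653653118082039177424931680974848466987669725314851393439188124623791524016272724310636963245943660842847081287169116379758888396153564929742947645480595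7353094531173504248098220320560811379776864641229277121710713293588847981346873277397351664354463974200145819375611899067049609351249469427215393221571873491075261714575021873111133107819187246657936182232551522926605551197982055264128982899109274876531088473360213327500235213576658210196470129621676174688230322644978425908041448545539217303852418736891880924080619646313800846735662782399433575287654914125145366564809350603771202224039244049429442316900065297891302463011651198426592380738357870274028116191089672337369583763751613673947594150113951233002378738604046847505780254022599538173301117906518737649624820387230943410520911402724191741111113342418753742865954151815302740958867284548538995779580460539001875858370770329297283190723826886639774731167579600745331315451900605261723828700764425624120016506990463921927819005492356437480360857730559582428769946787986308961856757927796333694172110392803454984059476124676701622732070495741382682924422765828701055994894680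2148307911943784346556607812199354102852648991933421256692444422180700141553600253363787080208587149357499084061064663419126693575373268715748342486351883738640250682720640212986916790449253191793700083772617028164718125760693202160326196729390172994025444092512737612571379473038362167630445359851763367363593664030721349389389938385984894123323697563322709891582421914936611941914875596105854271195589596950572986707360183384800226221434800897828761005641665311755250403849408048475594603855428475609490880166688198280224759605113628181370627599995820610118388279863559924849493177313929348361286096197530829306601175122028432494722483981560727318812400709059403539155910499440559154737109364449620534472278212014206734257421633602198045527805767473960958261055026821776080352006723859635010413617760962541334827009773829167618004210727434383355021003156814642524560783639264809423388606560398222137399109715655080093957073789900036797188444638720812240075032223237913806498787760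5677144329094508049742146925026780007636432903591095410505621723945887467195749361813567198097033002281835560715489277297639877631705320637347042039064436226804215347063129981904243244959139064911678183698969403442430493824019269520097518850676785845858344930237342118510987266476700826320090894396846099493915295605934057414571828085681957983088115360791458098733724036014802280625825338762486422602090870433962366768141190261492203112249609820027524726988563134064976194140623158335015744343224834360772826796883889195154834820199342872420347312035611638315359268072563610502949164481733616459944310477909823249936879068604711507132569681083354739986622496444628982495016718815922461924295196784319608409450039757101283793776500822817417369880971357216628824046912837725233565680448977791547846294979926539493663982472862807665162402820227512115445146263038102210861681851443119047029254772903106238619993134059047542255584515515372132566174525281970624902817291847604724675281846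6513281901755060174946003302867035651751392159729071197609813576919435810400027659689031443477567703011654175187838026167807805020667537751686120296156286911388249233007999325691665899016974473580626433226875324776475462152026314055003786633421864136444882239009499671712608682457284494075973823703166824306729002059696607707717927025387538272834087414127477903867911242284438111617535784099525195986542850010738446019686089000167106304973437109552962248406362705265444916790971921144353163349794870204149505773801783205853987736862445045215122278040033600957053590716461462506053662366135728868488063426719346205917184)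

noncomputable def rc19 : Nat := (nat_lit 104657783778181327951200669812672205587588835097534201830648693320346580065563176822017569144300852850293788600896223083807142830756868252025144323035528772266170523988627058882216993824830017022677852099081467604491944216611835193150119320023711109915013072404809368112461059889846554692966986845417683792036995631874135485609410328753279028624577728560912950256420397774209981233609054938846277884007704713578132023201042832420870291683377236938802561718653070962178158202596955421293291253797782551858651866924426657362376009769283853476740835252190614252404713788101445221060749938271407617628023167248593438856073889658520770473325077522451116855669464570802581644209618462426369420475408365561937747132404186957161044094608568361402201367724735795511862276086333903214428608192396993622036791010883640266807328742700728726839070266341133145126992786420942654779836389378108482999182937925492825613455352288523712057867212995781771903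4948168899173677834973025876303966472036690024080754380919172107406402880020549922274719871703955483027485154644811737368020964842667236834137811519532773316100405904328510553075947250373605599974095828876443804237064779798420062547653118507455285877540515087036540812077152126712425183053132088883482809647888750584146038438082148353153450747572867954250311163659064410553374402855894265815281673365554043279153652316480040224294782158068840954153928210589305789267604520345057122296109943536938094801089643412533508932565125484871832283246869729451202413077611430710960585449265022384793460323172606426921522294921481172374112507011126816203366357394947668726222664866386388009308547172206888834586978883654998682715917182968036265132749244868514825141248234342618867478006020384312628615909284826367163758538615611782451612871331937014062282100581444885712908202320466228533734665760848074957842368997602998608433657326289131709543669960977387276674257683748746658805693108117167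2339482596317191530580124414585864066268811835591551678231546369977301031479019196875502925532801952579527299401895214401773554599622347000978742876389981275879119687437177571335394673656352284232343970180749392613887720436923226506487833445772878258011584591648718383973858940238881203651806156883924822690120986058690926663369996285518001504742856590299642203391588097713059336719564657953964863558659396886552093234245640152150186655529844785997638922961677294833727813032050776032205941281765794407313624914184252457548534330628118228924587632743106936101423340496004151865240294974467583574551029928403246500002188757184643864451609017966427107710316792398144162633407894785492589633803660199540916625645675933064248729638076131343153484051403524858889785998395150219616743272478606912929078916215126486760006837244061145335720551976035105864363570428907100348421392027912227530290266045170868147137551768825962996722615090641047945214991116338152933602849808753635566910355562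0694637770985133323600919260178320715199998674245974356249754072165972626366312107767391589560164179608453599318421872212470018758055235430691984475732726824639094686009861698847890225537348933346227363297033982843746797622899304420225268685426063345919652453333733423431387464532257671446989587905007299217933377765731756544233391005486929423005076622803512459136511386056025185489965694547968383720076622607835486503392492120367437559755886516979081625939667516519633504017819334782186821815742554363266158224283423071930675638204896991962529646275549840466298806291553032132138248953791230621083593320534359176594578376263805019404159596908739311218618731179495099023494723418031208863214728458764078499999265633890237496683211185385887613128048358529679590009879431012370092632528740461110137430468831450826508223963234714390296980566479724747774900726050800015856355435542283209605417912344274529458514776963583981951558761888865071760095559915760077583723386504303501795989495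4943493691945713771160554803312050362029146246957406488458565767120250527150635219233945274551185061627773225331210865583923464480512539031320367284680842506751039273707439038248620993464231331872969361078756116272013085115289798431881916140060235035522933800539090888344911586631455152950780395410318575927464402882772114670233874020705354657911058765497020131156946833507391162064159944359601615801610109699138872020591148833598195290783198072489103375906045165845200271102729100691587708200484721032666683006758078957710513790732155008559087843902695340378394193168632982993274519444060934494368120871235867860278235427230240484064852344781412313216066902068562357083325167548242210621654914586454451905027715966425957483027640546475285958247479356418724656975049810223398571135928884522399829050621874266243964408913623706122212304345439872473291409015916000877231538858271570971190042469790782693087505605733481608166507098787203775570034517016339183056174247436877262455478697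3928885205602499114413621943634852972340142762525220261885087928941984498173876208421918170749421748045044203119135040482261243634886542836962713442762780278782764634987530354352880909052616766863717038657619519351417680920683519314258954780411024994629319860815890592578903496158815133276834232349598009704095107407283416556813561670545041174392710382663900003965219835844470170396191541691682986828917264708346531370389071691423457171529449648826304259754924610581239193933673286085269556262658453043510362531632895804461952591822415556281860050683898808464230820496854896789163676877372667571808866404188922666618191548665497759034343170438054641208306172556363417349707704154026371262219313130864503217667411026864027491032347890757889961273263887073555706042394157393176776555337188392320756403104730097171211683307824487171447990500218791661483827405538479651455850782137602966408933978600661391062021138561961565603436686453569104441459130834483621114410426230959598029474059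6533839704205647224928029404849126984901490645950512939395364375482820496102418836046383124696861229510052748752986855202321919148941953272687283197486770973268661617720194862473405857037817549411356055838504693755741392499983234651313832773954972257602630190541367766344438445492607657620199537027192091300398443214843458467894835344550796222461667921124611690615020649777472942678500759334366087497073158226177933015618386131396581372911229297350283263565926937772607653824579557960106808431612019517198198577776388749239690895046757337971869143632685211966784397663040918920912121211202402647139408026068341914652176419592795605061201310163927145390688568000107461061152733439230429242665421597072178237839561026871016934856649517331513059018407240301877161050510527709248785299320692156065482287024910147448497127154386368127579060524840567616573903072578636254475234482812186958645889123304221500943740889845875112438254908796576068339508896081380092477593731785515194383741060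2496382485516088349225273523923283916633674702969363484940809566307751639842743654517296341709774126308452522695747708179847599515844124105607406140507631788506118649320111062673984000472556338339838660880051371228544052291598401065245804502345265674579432716832533148585696501813674646215520890177473299274701658096696712398672156683040238146729264527478592519567937200401537110880957652682372256643971439969095091956711458419142988233589199624779104859825529938340628710297770686324787714842534536975097117474983649276953153633405425199408727977165146714353392936087394978492853935640487547936008294914316493777588016735604255063704831103869653617724820490013345307567185885026853128363479101203519658266283429277237159261271041270196754495387153681864414530680348823747686836802462548739165058384076205898757917190177164976345661625016123614615615964539836270149468869517880297832654885382456603004419048096900937414493711838578138016866742340884070605206702930740613066824697874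0968774351287564460327000836400356710525745613598300567656327963285135057352883806143865126653432555735048664920589097751665828743493158085587593531946519912813194585755425427935237354432290385440588855112146219598480215123442315599396599971268970650102556904035474507677763324074312888294661865604286216315381528086450467916706790123629618185886617065512421285489628070190885353217238588897546254103752426225099289279277344251145699289412544811521241938253453685564223993537746551990455125544063088073018813199480934485267657809009097863902288977731347042579001624896375283650653471132530824784673478503343252801718699137388985667985426928433367749494505755678247653211979098018798691951948871155491409927742039838608702416110894868000434480171825718933816638163671118530946638059320957875255666244237586064405398138189247705802977399578964422067894498937698241895823679481579427167653272347379309875909667269195499197277009866235575895886852455628517668762910319426639047189555517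3352704751549352514388458064352108071538033595042650059828652320133771129022123339993124980387460991937135897286374975187891821072345422880815993760658752941346747740135556299869901243183514438431743895846749004352935381658840260277517054489234916491374632231709480269827334396356170061534853632112747120412334844615517943936826626968139443163992941403567577629407104964607778167866847767828377986049919761077967480266168464201011231150763562297209372418748624957713851157755957865962589613478016637206475673667830251243049404860968144739923779363346699170079356886131571046137410411525196226849466058901926134602558633328371148559900758488559899832688950908415274563096525518504038951167217505757050573935790303427559146959635951689674964280792078048670493821925290697179208317288700005017280572947794867982375506561151005084184877712526093957544654458411587447469490766486643131377710907727180608736466706598423758088303693307136098489475981610954716097245681016024228347165075729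8397162258116877289430857532664986022862635415417836559093037757606116219992736089786106761384196414856665587878212439008703846838588071559103884463691779643809076917796888551427501393816105534126944109755893163974171534047213751253602571043335010729968968184113950068670607899324587942742463910453624820562405439471089202891756600499438138221190545841240596985643309253213656854231234917276478908266095829456899433544375614917636334534963795563923812223511113307156065569907731607820325320084993126626717574083714638059516543986265848062718533308308813819999741245357981785608012805946012095369902096794013963536862807454526544147279466216695817612324956778353222389935576100122959401335009127264186450893037547736258281833785432295770818151877393275694564500191002236283825807870888382906054123345365497156974016532733968674062574291329935590998206901071074603878220931367830918375472746078271667638719741922967568056050824511261042256522099398991860500655030934058040775259495268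6692993692753987499870711733333628753347620137900934266479196884465640548156931494963034423004003444509830252347274289050198389815017961362301928923897244516598909251604319008794253616013362239159988092507116529811785239574951443181696314583292504935430338581480750353759341584837169277514941872256896156028126707198685844642565094247521619951378695227429631975610676456935469956153492382776100173881994131400217186957460840007722962085056661920574747236093147894296538540414777959669219382506885692917625509753929514973052794359561875542095882994730554496251792343675987132215811704628503900568321019845564099914590487337028179108445957092305356324066133762373496661678164462430759277858704525010612388834273140391871219844180221795816193235738997626418287184456752381029114952747358979987727613885433169217105630509621933422517689151740992144115642467001585860315902744506576007314141838914880524835693586334933309548273556760813253038707379332653307199130029785971591260962939574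5483190663892838042374636234891938588660985359979734960970670311671112343139223369080857040758268316917523706796150008974094715030462046309933367571638127339666052273440128972321881368624609250322218306665619956592911753678543230806114586888260305548013869044904015855781069921785933528974742270374159627588073197641488673228689652964136129854293905806917468805327175487664913913474090737638494562440671817768000351844528293133598081967448315097255302225761780344439800045361675198950418778945875938232888526967276307320977830303108712624222568534800551360916833577929933433135300544181838564004031979752487201716524816674586333189337451822830958909471897336131406116619316815474787681735396494407626218754011716579591084412242471439354097271059177865965675726453563894041696910598094209388716938461699188616255090562809287752804187099991697278589438007173537152592392846161108242780008838278549086076848583742590273178199788024896158701294485114992136313973175618947875929722051413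6435130042304180413598603718480705704340189567897207910815413687875111815154155993707418512788405633989037689890622276126375551346856078476316631969515060521016688605286697565918682715737595375382848008445767406401824708336350696424844567252043441093986684033455008112510511138296209850054709197484137976553939194682675126933089413272406788460799215865040179667726772499661571399295777598322475191617321184033497095953145367822706156017839204756359125925253117808891051136070737090370646699663986136417481221347318105846024040651817611415414497009473203368237148000393606052947975725169599049861855656070682863858808397778392646429539398568869796609938536297804137235944975727853499502004959053907008219487457262371317093119412026396513635841576381646845485755286655097911065599353459257830597071646529875354902491724707107307333538172528151733526133657223088362201457712143345358622835553626128852103875676694185252946147421312516276562615524609228065966400087128156922744458443859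1762220081233968186377430046854772641705874778464485423286994899141176762414593656991893434852079596084708185423096738763399627903017319426947195031686331097582076236344531981742129936438268140968722564845000759903884753125777925535738258998414325650323961815259396965401447566651635767773667139921883717499082414156116972530428460257163805400407984319653710850871905658574937087809372674915367916173157686952002875947936205434638374829756527285650549646725889149832583918025581624936660757384374391722135519769040855755496214516206093770083066203924821188844032162729508272752355451603472793717224831024873722161492779625560532492244709223481347039696407258375724848979236846753696553415322545246238492333237257082732672336213164125801125672839261615416396785874489545625614321239838312672454550862373558218260279997637588650886572338412203838649565485962908423287094307490791585031323516078562099326282327909689154912059274803377769649168210169066974852562415930926655133338862463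2930180704206349637479049163446982418321990972113755627727168646473668064617754658604182624140995303287970277989342738013244024195683896351437367868916806033757870633928681078028150348212846432026520413191708718657704069205653891395950503533369948653093284624458638388566351241806622116798922884543322132281737741630814320674758254214958113684022405089728044310564367820281180806695026815840906161339966644634768595832305624658413123484523259864499283989057998026878940255016787404791078285554994453040976684586448339424973191026424918996931070490275422304383538206191942724511063852982292906850748748605043333557896396578377408373575296520493426904775759294165258950334231413066663477412453991166268218673178614522342121957516008369393855261163324342425692657567078635874712130087406891122804735457048325156804249516776585799603873667050699404904638187633615130301416476381718665092944364976402955284023054612012136800741205419268926696675667991013924962960642751838161621669668788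8462216917614846330235692607080058647415479013352432545111714183664810577903627011810782566251073291254453737578040459096453639061693203575819942539060887960349600077767496845051110300057568712132975309326542041476131666039283364845792117162476001741280933679445508720892298312517594608819527492614110998820330192190061752144336090319165685509549277790690518021535079331939286179881799955384653211481126877015252362233060223594296225118255121948334349687124868545768328388819901434520292444219643504275385660497735002934479960020114598537680487760021450264231752600563790908702381685156857648443940624779307880889585051941338984771063672739273336881269007223183174929173028336142482327027688309488407864307388447245135797803211075928791924778046140489178422036873076876759585721919706802471092097341118883761795817593276816700339819310245474114772948230438832769663417291129700105506452669080867308498652520021264161485892214884950153245078681894846815520975869306482070511261194636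0690935883346882410864043566094868003552101351370246353637758664593120571156944732166530558906190371857481269879242989821672988847168209465296050403614673693623022784310442582828147742494577529228919892464572292910453384582327133990936855319010257142644640374875149910619049599246587371065163151762661139867450831332385481760045720011201522460061844297191974266245479664579594311581719036740760916175607471430012176489075436887253979939904581916055831594774220422580395219350364455460833692588954901379910884716504357006270906058483247778568325077975913071627301844003622999980582004043685625864501313055619545693159424)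

noncomputable def rc20 : Nat := (nat_lit 104895279598807143552679529862256202918783888016460582512787022413185556697286907264652658531996790997930922419871683514952719464359790701427037853283263348387043829078072125479407897179534375820320830312763605658853265382516691312267663305121085698382260348437757445511235872826649644267970655616563639314782393114041492925477058995451624612493045323393643309676066128978405079738669822501645966811523251996536844346524002556592294755642014479000454587866045712693937700713005731213964474788997024244423768213774262813032804299756989400872727706355523538424922176828279346264217225246055565136581649659611159774661477942984018682786785541050252872336146823842614319923679063512241589772433037513918974966098457716813906874448805985161519811447581678461639871922119817906092898268580784500151577985185078432753101884112027998329378848658586564136922033889742042471217437694781666698342852860112966754575437050012388938927034683191912642035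5328809794488410019621227929742473570479722168227437534373439391570157892204802445944623349109037912355459964337503672775833316574735343259707181195309598361842446843982751401057001192132240880545919437174064562898134664529606637420892832978601782571490293132238043127757229131090338408029937972138918054626491143477642139218176277446645507195949951505606714663113402732630834684844978493431739117721728114126219953892159965447715391939336263302738433742473096003501682034234081452552735729300589478568164842129708192338325366425403774460375731745269726968593173385676006809588273257556218087378504052838224797799010708197871982424939002069408277923268278718152001654390461024433093471185781524554624525214127759368927498914654894821012783721925392665126352620938031960521804366813682463839243392331415278613624682450509186970638846587407890758071263104819032554859275951540582342199298663446762677339421668044111019682206666407339483192939563123560300612137079989522108135020318676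6227502716017072669990654018911237128463056096249507608505353329313987000918403736956582899766041599895296546308255649360167726791969379664734877121918911956959586507010304745388890706322572532022972113114674488499777875551816300309515354706637516908516358365726817037673925387554785553972063092930146998214759293655735725971923045912369872515625439696135875282394960205143586546200101821253968204238103301629273282616115022911269103516848931892433971939300955524935703731397616010346892240618986546440265652412109739605104188643565532146744469286789040304530621979641324320205250042663727501338232923659773196644453611730270830867548957558857485359538387552828887523982773755401804439282513905132732820869453095289712845388608234617276491868540079699625546889182626306743312352390985283175852392091166535723287184332947580275799099449455407159012121668330761151724458934436771859189972702686099020327063750815287761958689606678529415560440716526355748221523567312000799367854813743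5943030952701653543170318388110857842525032845614769133492786617559221357166849660439739701915599502971333403859646280462590043427516894279747766273346754783711294076080368525862588541180075199098118679560718702224036222437425147798561336556994353523685615538002403788981713921502413354387219170187051351863735772118834618920807742883978255549069857558068890844295113342146857847363995413392637360121326132416014251730678285120451050413211502395399798186827035552796205000126194475642015654432604085702523653598964265713146872244834394489064489276798327014097690150643399340809976401795369596598794875559074057810364506989806553214955347427585353010493670152043171371985733041268749274832503742478728737104536897862414062516714230103216963055181446255735469245786214223924899470287912596320798134119639246980977981201381427603740996331301609394935179522696156993437749796614360741305233304977117847805604341891623228612379225122476528800078856499948548935465339539138450197578890061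4176772246913201932000077007375833097042208550449238666939084254766189511740411189318423979076510346224750019378949380423013692716663886853438499163394494863631214011054918386383202719353323650869552239376810935342692139396903440696199887972982064566574895882014617815372198552285730542621517998713833930170283951922641149345391376072055615915827121736309819188733283072593640082416038743193127635236130854982370577632503717953532259954694425866026392243824649611211949971015724227608636042893348941269570378395639719780879980641819202558229899974073213559950723159619262238957076349715524936297451203013757324037934050296571115414766130040028510748419646018782607728008561767619484063318777871248966861909798530056311282894763292119252101688641716877047764431441987448607523537777336643661232843694333641927158147028779665808296524761716985201510333104306120639452556847315924535872600628355274309421022699702419261630246544623493667919026846561645728576485476098880353160632298821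9158661357999032659465006261770388291357360375520046778680752265278967093534699663506241610667817446276836889817348819286382194425724554549626981648128054297784186332319468285795329334723733446253465103913700314380356030688679607724405351859837728533862805486283142268704894890652976105732731911741984096630454675142397381582721485747741245596154294650125546278779680950501742568186093028882594246640891720916488287990417782443336596700326915208750084667234347684883526065936587072506457622969728129250543196254999017111895697647047117062120029723051211784946666221100410206786870363191165720073375526413146096602480996839957771705411687530911590775067133765297795681810607607120844919359278688457831273143376683824455601840115132542408980649490692909849030339825231120596789001966432735183455953427108939810601886867551121238536721837680872361398030827280873786041937334480479952253907977307290097288751841201683543490291472994484822947588570051470846268355714773791315151065924760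3298228522011509416808386619791063878916182619297843233579360214342145114328986996637171857350899997340134622373318759540327599140162282903579529991596906232836917640779697906241023327625788792562658923092012948033395951968240826852709375172821709379372068031832779608944015868199764863404319183802966071509200442854029876965513118623300569681147924590649940209712527693027529498618909861089419326825485714290127994027647986385831823053137283998085522212354479414404753257641753387054791440534460725568111043617440610512103925399103591009171951471728983664670197464671901889662994906939464927850822035453549000184301731707993067222612706415350404919562077517660538445516512131902943240217111212706979850856430533245954877740349703619826663870649816268636583050422469255712224475851676634560715079052807616097938831079785720641931170710877995870173443264244836368612608255986404651208360245201276184909943076530980521607759232893336449282470983423504083119206846300786816534323715877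2190771299983891409203738764068944077935311625783076858841705465903942956782175086703665769386553379671684741468107536743305055148363300374663731591734778545751123878433429706774318700012567062063065351128294191690295877905891264919297119880911452098828913453599425497805264674009498622614919557152956385995416899424807276420034582884019366717189260038405746293815909247417976076578633587159386174535891600390194056691143047059138996904281316722130567641528172872972245655701861273055619709601333408189410804285440697041419211625662187288680153763907941543328684523645399537953949242918566667625523512766308475468064826867346725117896574877285973326964939481437768954266368995597672310777340820071816216757183150855763366764826461762657341164610981037819810484762342758894719636689347928569566056038482615932872846865963084346614812631004788235555250218939276936756384934912095944555230662078987677207848227981124229539531997910441302950320470710426861661519847451974356205442418651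1831012113800857910875680445827550250964348554428934944947584480865989559531140795790069035217842703527162312561288426759006505743147668556413830857689762239938545224900249992905979310248009066601223228034520939205036526621662899044455142640476122765032679478336548974261708251062732878458910065750893526644251771184232066395632505365361032590183502972037568588932864507462149202223841237695567127817411536496405353507164704269560306732114379193799116085332978365054725069124745875889349716966897753314950031832091892929984564773870171480586258110833874428195067536323390043708793877487044248177418091746684676256488889916073258152909432756810411354036122457179067249682150311154757148580588827721627452039731999992395692310192522457768257377461961656740065512123947107151363353375818468435627898658561643996719652640340905961607768671715506922476770047209223720115767198709870566382450502535133934926247357808493212637649055140532915051674128009934674994374477747508382794088142581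3854826830110316001084577149580739481857322306558092411614653205561063556070412014895305923982842696916384355358224933406308014772174865031549124350236707797790123803160942110635967224265588662756756340662182952592024492042594175376962567970689617710380965800311929199243293423479062264186605870208919584060812739780203626013023560436546584212721813948789745589621213036190161029737290457150760436100678372622474574942833346916378365575575585635859490301099128935889780197988253004990362782527399588401628359736529559564401114224352540859018485869691549599006936601013842026581973764309788057650756948973322678050490704961934673715139694312408853993372744136581472907064898841457006761194127779228907263127445506696932697487349240868114328886691015218814765050771651778384687764274061318467807557293980383309710169120590430790278997883909868788640037665760775768130712529211429552868505507733050307315109450432229216309572764899252614185749411558116446668022911563629797236526501298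9977246721712505874063667679485008301571476774302781619141229933505827499063861390045757052821829267141122602406958766113252455118424191294247676823317856906692123150375739969312655840343541844972329641089090245714281311265900367960727830830884621820247510380397825959220835097347487335162071227845524280694675708630191651611151220348514013423485501987044309005504338499340102161389378312474053126404942110742523297064902000930055591928452509303004557247905795640791845316000661055282912654014328298801456237973318585114707319616885538509137115616995188992907734136607822548561782970654899688009371431471083559730966749809599514479486433124255941266201294575446917347332333084781679164324855478798185611886220871046148321628983841347719754486448560183223197623571091514860122467235782805782984570877800858255635873593551561613315983267058931903337567865998932002270698577519532727880549349742417691065994728505880943767708183925026278472385413332290774595175787030570642219590474569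0895482700626544863006565391354907580174147510164792658511412771564978489563004835682984299053134201900078580981489405201970668988030618614677951066362219431643918450686154070721854957578904302006259830077640376821652855683852559862510173717456699290231143002663532563965709758582498035595734504103263998963902575742523355565910621474405497122049865940527645461564894490011050643834223824719862411649494145949204573817175353109702148518363306258922064576338362725882555806304228723738598580847279897915469755018877317235773396819561427661479002030755301967476024330642460198309605216748897688706956583288043522691302651356347177287138868508945533225658118826654960963004502935959654924896819295042770387249186105163307080248691641759087396342809513845207563004504446996133962006514700494948089906265599278050683231735848370594627227271117563769000570387214255043310533252697750872928427261651734331251236240096191605890702674834095928020680565726577432801655748885011063387859034998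7264334617055962827419884147848608464303947594682528766599845239213152444608242221217952974690244584268640676973137958539383651706902775381480301112680043655710596922463440999792655922666061231575420329334524765723472583655694038928121636651652819488315238475978778376154436376943652781663342897854677006429094523015966639653381129610862865107979653779375847139148416577198009584196217557270985223817310214079407261381593444121827314836225778037964383407070943628600060206850966901436216599516949680812971383990243615743331344646186717468746294815418357380240281797712971680617807349814716472486769492481385303644533093772392115526123360777997908656364609815812828361532041818143353628606016847025555509544427867677181112661938825418422584110555071035809240593694834613888765753935804208893024695530514524934725518681914153758671119475373165273797982956231184141794179945982091611560109957060217179689035426068282176093125581862347430123742113022329724600930198320274836101021195453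9202510924702901712038136809616321789460221216088277819417616999690281263638875217967557786100912429495585460490945867839599955760248200433050868926906905720384330944699239514563882140186781017076877443027392514719806723544051901432177236668973247915322934139605512063304937912292659693741241403537255744633700036749037957989653405484221846712567957848590388032855039890561383922750833590754242618488144802607207970435167042347838974603869258259322406839354792194692859039261819143045504994342542266848397670934317437493265112545987204173193175880352232032087226668892144726626308288090022378615659988697868603647128273459232941525829096341384326926249786684979837231302424477924334406703038749329770986174452133974526133537630053641540136562359293820690766981407278505566948886565572876746710963491299658625905423160589737977923173250237149117126170389967979312837721749556527556542907059622332190861800891358097425055980020767295649955029684524232355873467319317426701174623128060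9550147330733734772564558338725731144748913869352725509143604131241705660236800061276635305803899124443811648337195256464610878146068686022263509262626395598838800081282162735088387071194649270992060243682386263749813406560738191936788197053419106316362155965508406342912362873462400320559672527440223563726998897003811113891020258752990533061274296493404350700011168244389802561336384369290780661414988973543208280368687221157226195052599662489507589138369452301199709605566922984307653642510927799539284888750835600567993820255369173550988300826142031859790709371954851050779429050584232911563448124182240470696302612769304465486397907038919754911010209742113494488376862424028998356010501420804592325320784534323645759203446612939194153047170419651149878607560702435382277318305508634415901756105694889917754042336037795095030701398470954171066933166075410009610479383971204397699594502191253693128709150434444556659995448778634308697644603257745142546705551145660807063344813807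2468398191821221548888665072730119174210293306754861376910266938979523400769453828950996211027937759531442444617390221769352553339703273259332146829930904651765916775725033187901837025257973461879453245195411625975635130349350874829755985144573322702440358152474226165747192410912089446651315274972843213841567645974862745783879135698983597731554861130654940329755833989177949398128663585393825408102904625273473000430729646918734034774674797986705121193402534871882886461244333892717585415902974372110370629522166678521711930548747078071304332997055627472928655077280032890947860067569299001678983858562417994124152448406987230628959076869259401290630954463547934851195774590626493945407290878381584975634751007823094170069181810939979927875414670791176653065066161113013005495480309420116246541997478386170285257025008952154884058096887234208436860004725047711874422306194383601221340943628897119536320421853487823527666877579463401734361318699759124261730742587934850147848320214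0760967622268883356939442087246161519286867541983543329558214594234311801577907962478278406895812702839350640707499531721603707520103674126516070724620956497849556022473521406330732858777461813983364899083150824901757617692424219275617270318018047724929685322891314525338712003185505889481951890143339414887873777049321562714856137363157940269502933446022597716313702961601717276531498254423226288364734017604386389722783639097716856731398059485776015936743857557390549049393464949524096243282609810818400522892739326818313155440316852374823702539279030882288216327873015535893121446058752717309995305418960456047648784360382419652604885759586121850020672971931461455180663464041380818828724897957450378222694352845699149282840420120962982094153670791703905546496635119958027686396113242580313375062369610646612677074025503024603075616466161271461059316476639520529137776020000440484585972408851333126669174616978464659751757389741103487926920678569934719215000139983720967360877789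4679717835413374426114988568008899734833081742981432499670757897149988703063377538032836725969814074339326611051065741701672084994641529283915523975950122223853558048786827981691857852619821676312493620384231156387311974693779209262891317039176198581250143892266961243180047814857643284040315974246034964842538033871799801550521388871955289653206995080353615820655319409103557814702455799250302662871205313432853464913559586427353287210499047520672545699983114705556586812556614390184468619002179001017682032339314396163305385731940902216072607908896308607961592673134048202115200088049845964406402445747028163890774016)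

noncomputable def rc21 : Nat := (nat_lit 105130736726230014020799439815564212138001565141131999409787840428501325374744685652008197301602889056745246680742792442404760543944683367953106304597992721666340616519309767078163743323885105688590967024665154521808681831521938834376614099519697731551377605128025895342964538205442950140829116575971764728863983039371320375970383241524201939184765990972915289821007272035386758811090696422714307881376029514773035705161320963984694946385265224316094433360479350550211491658845175569176843610936829051350828153682727439578760770571769724695204749190102017929827778663028610453582292828120491808500806471778533612589938346301725272189777195641746857530549565598020957630479988003297318986202140110450902632743869279359321098995716914170385871352514542501792263798551231958909936532423812293812507632196660897076711508623473286446103760475796317858988437722752606376749716570420526166582912518815633641450954270120078204089462464624318169330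1915613803849283365764207639856660807017419023200491267047094833020658341460078976116618314678231086715823510159265721016786330966642590518169872598565657069027795351215848610744845516165526345726455971653530683194410338466627031008745539779664796950497148879557420700785717462020600038124683061699870233711779318281072381855963781900529720650003228168846895558847550997237968313682432421463089769848719248664327281938597436070182307541197502909037957185230467735704790029001700526019497198401296396332006796813844439268095618803210712974796809514995077441301915382968147578873456843406062565362105927972464036944365608770260195747174261203797123917492089913020279388529852290323177167380552373279070215134174524201821724876656440470373917630166194070778081009985352852496016182400744300750156657160886241472506308011521713626584858211105320742468741301557349632819184948826901235094727365630520843535821658098281669722148967394499409930028190494826215680226804547555471560053939697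8962530578616541990423872933709040577485287966168441685522722630081311803686822724259810283768176359822553935311868607762801826412055969824555922729871700938304089959289956117548850783982402845413772929016212775214784756038945456652819650103377371823626761287072243051141636525369502163648170412942862245329807975313498521160939722139092171915947526283762095847930589538585789132564665875281179788561969159930195172399639831625017411545083682593696655601709223632183283640349503333466966401568378045299868467716233946438209135163843841660471511573531323728826796994774445292360797413932732785028992619457660050572883209131247344524590285031590616652026914420452851771663557981138891725931448131252566156433469974730817094656014427524312378553955248068920746930115030782146679427197275383777857653292308734527597195428891481927349679077418092954281051219010124591662558504838724407281781125922325042580205173000535772896203797886861330201461419339081630809392688583638130768484317068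1196491509493476860901245984410008123093164774441533364717901306465466227961725195703566802499747327393526527413306531051917531173763657223183554674556111256482033873289214751784713295744588964394923926229317975269963671588597724655834903730945867938003469198833212665028814795152800400536096080424851086348109751135820392638783730925759477067450333682131615117535398131043260190565648586286698776830946120575151452403800024841518657979516138158043872492663278662925624493526114209614240330686704406281011462593958608702099488929184183169332387801128482894196434540206875210854671801375151714534362200055665883837404501696405796770027648303322440445784575837986376562100886517042835370655917082709915030716915726304465054671405648626817784229702072550358337673436846426468611478332708037193686620400940738753551389050908854933544904835957457023303018703146503716540236341606751329476643409822987220899542929841829033703173212187367681106404742907763312421751644629205176360742295209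1129863223079763969845899632156415745146369787542905193984587715519520987780401719466836303603842445573699874501575866827638613394361302941223697314048511549920230417674736217551817150461490895910818197339332951839473460299663193494667127172471951029247365139594122717748322244369349590855469771798018015391441699418931227779170356098488860819029873867657974678967336331457905719764735461929345786118201846258923266772405304460790519685128008890750599182895167855346597625611549066394443024352628242770213774993913802118019117905985830876924067836226584672708089796129771103743999963904036153882484756379278113675451066313827977816555784730424900918242303567547565318480374113417909696685632647813283140149196494932159186325034226481680565741216369541818022285623905282878403851746097578820631533257739258225780787468770693429527088956513413793020215182043595637602587751525255616865150845962762823794885483063137191431160065684080509040504020870850450830675790969089858516563393551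3965835044238003744002429016710855257789724639019268768029883631886003253360285824557738146617334092001283657469446821202544069219209244112286749946779718375580516463471601202188840622708930481658082103578291562198403941211458575132701265866797685999002085601700224526571614969638138007134212271293875737771505746463434575014394541198283023154074304657912333418600043909701028214732794148886250616444149535556757170931170559013712687999378942560789399722798256212301605453722513830555873252898985701082241129402768614943532060028550929784065072362353210900528177727004957482065081148835236014761202546259432951020473349637156934605284063580981187627660527293645040381288755674173982716321957070063410578972077941043976750706563927602785288604025524003769829280551281374394687448535782128770581947998146927302053034019640224325592143959023272290643680962430227991647625811493387701123090480337184110421337489871541194484693574228029641858508678863352550307719982866797087267380464906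4908400609912494362788087631616968911954963822960178612406976801810768024454539760881553174034206288487926681640965574679167948698166992275723221415355317742479125110735836085370780306602809970980026672021896910886407242544106375399872683289162988432532745679700852130083465262455221663298236953019619466211798154957241666639255070696488434362721434231826631879276812552245959933938154074634188567957538161158378987828276564578076725531737404871242836611993796577222515038715047177789604176001869135174537534242234062146862290833077871961221975580754155452096481073891517623471545276738876962466900703017131172765693242753802826474869137926392381330485531771097335475922919859461170918097373870491971700447630222640996372995239973937751486190290471928881021387743940825049984155796442375388886395811948269071811589053649843783748700257176195591183765980974559494049609503506395215458132555207779253607577529723358466707429241695253739646091158992643921238938483308504323676676513008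8206031338245521211419835890130463934313445029612749618735475046916464443566886027746337367659680134524374006701672680887888334291489644984753559388654865591311297652773732031161422618936775986502945421014782243850551286570906970714199127392776617690222205947264098518755288811026091583814968618800825127932936176981869785580249118830798004971042535301783101385254690262003651811665654758921819978964807517202165022897729599430923096515883350491924583965755263485503265440593788315242429796503629292201101204449826155194996879179135424939928646734239837598825934848133966251938091444198389342143611259678954565710572311618489970625491520403385395583051026668804978474184075336392806605823865368044331420431411268454042928425735258106276788711531988874281587657844928843046836906079250087528131635048111681134029806175560968510711136219323781636863585055587784142175758823426589243112238205473502177108623904032735926554648252177855999248254225459847956027783945940557239053137508263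8821164073077927318209869277445339471151483051400973883826991151549207214954834849584089216268515699114819963126602629060306386959832983264965681627028906111038066495926274986978508310434179512997835970993361629489992330777668080987788100401742503849131683575871733979254263160344194320088021689852427203003203936453800996777267046849854063285118618584168359415528022695475917151664951009106387163287849025002827315246817091840238999142831397352155128574039007678197378577723395039222622942365549612759710673045725939878127623451859638913624320410266075474038670894157852320155393458992864445408310050726685162152690222899943764261932635169622065198610920562306228631763969393127606553937089401700804189231615938188935965387999058845489871747204247641739190015470571327953740957542073786569083273533579883850188514902656524839546669016686934248035748625439644899326660615756255799186701445740397660855967377449734765625116874272623062353864921689192162441610206002993510906356684622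0651106675670162562881319416975932605357419583553200750021134656260405332595664023918558519409990693750040626175017682217389773524700117991642916498854663736869368996254155376682068442772610700814784302970349050637722893026045644882290923996036307419762212322028238544254838786543624878406211465814113577722900982204180818304408064074185721151733290170615264008286344257045880325493123362571057616839578497291394483695732734887988379693723504736221078936803599728813936161046201337439390236576074192213843575664291738363301438102519172158487829628525157424162471137867759500484403551750307607480694097578790000843775807172743143647066236730181691315247238058864425141387362953783831777073447824128190178639140716996221343204858153717411324241126424760553303536294539269637108912294866922077919035706380980103922932465005296246664148205365768570404214504715959811838848112574432909082273720002225698763909821010926776806201732296797675860221465712516561727519229490426161309604086781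1725321526632950316146673439006360206436498777483933586457169857864710967209111931968179979622032448637620349916536840974892107132629081767352406541998759564517830646979482789586965983063646667074151672969397859377008872906536333844278647204995730064045419751957330812735611192879280445046401744179607730139320438549919742387408778025628053118046181741176328368543560314826894143910034855952228697439257663987107266856039969694955358167360282315940236177795846739495531501765691058040341341617889608935944609591865581734619626943446976365247237068607820689170288592738498834326397788927288072718057434144712610212798358482702011940356302856117435876738587129266649887355235469300728744487174668131341303328422642693830217474458671599521917291853588866818763994907705009204333356855794233569276786455905717065158384128984984969273568725866746680570461787466979651205828063611104463712371788376639264310242236683750913749441950312874972271773372992391657415520160132234907884277620091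0552234801243672043741382451055763083725575804378010055469645191568190447030545942241531125794623209285154766635413313433268743597979282432993930236719065195257734753431007258393396107323944791928512076136794278893349255453980699058256674697423902389184782634661928096152544617790222708826786961884883657602762070758360186618767879977694465255091868696373255490689957931016892471384668251306086467811411426841388050840267385501077948938485576954324448758828075294392531363215756018764847134535919543089335278734248586496316370230980361381770034735009047499851267238519572479707059695186708576394673535556504693361023621580247356000947546102970935456414738172548368338380494491170781282305734318605357782167962092887410545529429997696678511497515268253531032012791514501141455219404424745074385382594757064614114626167973458584287580959935011458294729803853868960178305624284100906694396153037244642822483010557553122635574254459706954701421495284040323772341897676330743983587916575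3838343747335592242363021331340554219139514965533465378953841721973038745396280539712578596978134306753885460495658615037708890382932398996463935525256186405094974344451956483208547723411489490874526739204174973041774615305795309733419954993889278670390637368266271797137332068388393192191176208687263227594532273691985586160002226759013383580290362991626041713056860209570691852781499994982664289689765985402614499183745886975371784145623468146754509416035515224798803220147771328351135089538342152918233231607672585032903551144026110419920170451541564778057925308150345872680963343933085124693318743404181341215555507068399259468764211662135270453512112744575899822204751822231352265136690557800793114641026233844530122244091765022874251224682003338075686135859567753653327655185695328305177830473331785178065169456966370508696824467179210159497576416173041390403370696349635323336977934343344065250505446321189642984130479582791654839832729215355828983767542268911275193852902410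2535025036953713644439334908655204383847878083979021555491001838920560759504308644697727763812712772493911653156164170730797223883562588593781664248854044831940445931282344379099096186914103756886627295225431924193654508011371874633060558436242885883134307411031044894302855676846095612280699319825252230787139491519258180608034128909507834339615346610691659508698680885276489995908721458042287559697983986699039274093446166107463734607267972395689077817199206307056316355910557209007528054551533395447936606529652946223958814068483605658542414795523192354184221614178722723058922197193107589559445146455553909988930789975631927665159467152086372357507109374545848310586918382210555396124458782524457523299098389573370545706518510407680507739442333708565913663210188514581142419372918258130605147257551603422552108455415013346522069016813301907384236619364587388737195486481849751345658107627180854422495170307529998267669331048184096966150835241658189040046186529880218028895637528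2129062741386928210210452307963417455616737017177267062513135394297543404401116172423494834844125929752702230148809852649821892077271367811550719582302740399537251052861443887847397097488218019597086398930399016553512498951908544982227367604729197994148618705520720543834580331389363261101566084120184983997020133699702262798582276067533467540356260105063838068090823954390848791954922168195127257190182890733635965214797358749563074351035702760326149694157507890275698930515600661304454137412912846686546410960090394290222126548827214469117942051122049661308442233947197205493054234951190712365417084297367151000114941259188690937824509933267259130010265949308256024721539740113838113395586323330743212194196706105349756435237088293782346844759533373188538856449785621949960560002882308116270431378030570322188437791869813941783763900322703058080667936834660512023655876150494615865795438995445766585100597151977046181882092669965482483269947769593667781732743514655813596524951346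9923766022041797450590110978369059441612010201430020862662256191587812722181429204297769221594050538563198321416847705501021617213364232029802242668029676862567118443876278132205464450646836080005897675061217215404650936532251941832631754779354667202743797868254461656471413971886554428951718106841322890194524556519185573676717770348734287511288534708977529797446189965070049754901905622626086757782537075810135157888924922982271288424035486451738647120561998588890791734219094303966170678442271784565387973254388078923925977006407623493641179932386755183206745071610863231206411367907005458590864524747361496648724614224665793945053655593546078525618937037212517333547307191185657731742735344246384693317567737713739775323378785915134665552959421928007870688060821656306224361200690928412782597706593455838479947158525343839811387888118324457960285458493135365229260775509889703140773384422438398641199286727102016706469783192986683524572465329749797545276347451631453426415994053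8960464057236973851546801078295318250167437555166770106615851670650665536765061645631157260562367392092322513271501345749772618791040340341665946604918081683889322649230548727230459244016879936803764485469960413108279305524977910694936793315274029776253682244817699952284907321811091984381056127350278199101862538860497364700347739023105595730377504393789530846504174630349168330184768872741812291631379262575140231698257652461352518867359847814751312601114955329630806672258005368376951333618581918367807038999773398892878548476648534712155028038296636346958371422187763709070850616227091030676979736546012504304305498774253879393073140259177146451322369124476069211816455311977949770377125563599445315332356465211028019924066112283562724256770604478528944426657733459983031977567480962248440035962074837575430276334857517457550361232905651708532440773539098300947232535097879934187882539429341411922357814656250429206860704570201674490318990995729743845953388045341178325370754640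5351185402355554303399634233192102812932790468453483733290742075818840554205952537030029630232117803796527152552686976423594067873983440493798495252761114148691775879235314142570191214123566555107441119496528074847604494690745343883169658945251878501440215198323585798483070244948124094455200893647479080049484146454767284158050093510168088923185244371087968655841111886514464848058005912449289684831762415615856336177885046178662035394841774623521329416560357975869824947498768022919519657934764606436559397277130283696167062735690652987596882449946515926734624944898764184387948208197525937126817234984032480706691072)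

noncomputable def rc22 : Nat := (nat_lit 105364144068725939139365838323411944265350271710546543499497326116596442200495314331335946126562053025545502504306526949238162843812343073856204381741753970474853631753038185729019471131688731019903003286865111389821938820193858168531806577751333755676113147694497811388303805867336154696762071365635084379179700129638781885752316910735504500046891308214972998844511326516625379981339811960995921788705638176153786239863592917698370572973360033859954893676914530422526433409727790594395145392793627663754336849124904361502004986055659988414483593321729601918225578813538382461300117235224259151436893397829008871223280281592959772875792497862361288235990069241053261114425187311193393717461422167197241770988458913908191538854082010126670596333167863533830296362689203982237897910982634990548959521409666288027591859265239962122051920880916870997872343260557973727391345503560381133986850747096239660999370081560951119996954458908407895583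0095346608732812387581031934428474672182901264022935687927925904042518244295441091848141806565166842235266008382085325870118327456207792986123618959734499086064835070277647975132842817199147997367581953881403087134172202904661562654125698584760038135556620210399270503588736988079723155719095116654059051996655892473591121805804537392265002994266399339789673024740410750715944456452868564796853531142236880946280696245811023297075370037733888790791941113093721504603845290920080913944248676851880893889838077440971715556102540069649212361420147342503430490961072873587998991606266085042731767970574527558320682618669482681938096416564757299555061656138549475311174136758244666818556625514845175751295173526375455589040685285215368793662715035189732474612022575866462728836607909136976122134438299191389570944036005704026821777120759501118773155594425473358233905633713997716883242240970170158430951273185941215625754306416106284568703432432223579020111653062732279885540639906529538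3006786026674950760754858079429286776375187967531253889833495074076930093391472553318095159135653364002278219011913364830814856312973151704821232021953102968468812494865466145286637841496979668998170519864888856073589655798356275616524073481717184761289703375920268033736480952964214457634328369862700231677001356064271982626923980209547118407345948541003418399670191348570716745546967743895750082770577564085415730532579562727101051849468714761355182551486196308118992441949009486660338048814528248671546146131504702646102862948374831229643580642313322487445854751652711315137099729486552460045841967906058217768170853440287214473439888403695349535450447693108159322754355182087077288381353277400234625400459757499606070316658189074300665819937152411176081494986914849536079082784524983204502576128977008459485822407467845868380199715609227575021515796107359434906131695395337328533971140647535097016595608840958639479945865487038980270907226110809163732609877802125118265665216794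5306562811793591056844714917716398344760706872724507213689974504919031576909674294328673132071888236273916737202876073190732213034311662647461768133095009779609303444681614840879138998108879764863445787954351035336440012585795643193805277556835883224599652560555003878344686158290876759012094525281920234451650058875252382995272480273791151251818427733390014295202285181495676086008310852693590805811730838067400528569079912628722265337596710115213549823434263881417068554244400341178135354924479654135561848000577850131462976982251648656909361068261445089797395946404978233580118693121672258869243739283183492172858970872681774451750580094325702260370048869143407212226875365570482380677267681470860102734498250332957340247126805125504440078649270443319038008958721914482848313027723291502309568552291326469409467371765038624207512387321558825589924069387197025903694714820485550908316117677039338345354498526855018894942952374485465797080682510756586120612082421701267909793868035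8074680619789870564889681098069824038897060410481200081546668909785557255360530797894196318022484460209961457548534917475413507165028268679957041297972277515810929686933336241303549076917877183850369071809933009839525246108972703262654138991486233101478550054589727578610765582004310021220023322089076488993058743308681888263701862795495256815853315801247755011165927070613770143192557817423508803190779965653620307597985575295168058258536617112765263755230875076418782683546489394210985354688425167052784807197288804077659072925451915326194170359478490562911715247192242439840638046257371384563714016216337959712197293976227767364480735977823627476787104598810214059535230911146902932579637559052851441405494886638265306435211554115140760892164299061593174700682683976089424967276079996944456570246124086909890158651863091254411501350232942150577769125123465339889891345881195018398943235560530809671909961561979659875553152007242798082065356968257499502396304129779018281455860228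2138127938177047302823550350489595803457430291143997842142820829164376186160441250256240963929800423697277213867141401013727506928655642996123734811685931757606005914546930468025704162625285546443805471216220267754793583998064823256033716122826640732385566485190410311142812031910177445389779942968821015240577843440681831353331560876093584323613453364704184291565935533342871872307908417471043474110112344723810491937518759791298577346169697828724767286712722792499907630106896330255488835879388696382406651853509224545498528384043456521672967879440115529704820729365270040364862394951324636926477389152667009710809495761735697128379923104406538464991479395313098080497674283462834129325145579988296034899838784322104533595941916796966888088459702646211565755434984679285422547534414529114292005195337825338028630002553600202548916975075793564491539677623148468888144001846306554494244952457160679438629412371954136237048896620412950898543010064321269748977450458022309742149468294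9162233870778932040066786253919996185971643514215019817831179165478157899404703096018985315056633543582599122438854508312409735906109350103149442769897485830193480442509928091683720147607312927051361169341077599406014759354562813589952905683955561943780858340847842366012491215148107878324089821723346174522776352852346897646397061031901706238706610906959306946398539858944522375758271532337659067271369765208865574475569279450053834583781554853260232286743085923869535443508570577799116022380333414776131856388642517910111321526856088099064973973668866302081602569184566935217191918603194493544887852104289785269731748982211388585320932000421777224168071341426842319114631661693148628672407894104981099499843076816821900378866851729249785646614055901941237027658678747324793443737505870887546389468320317433830480446353742371601497103345644635649220532799094252962654285462456573049311654137776494284695205497430740526072539233414716951535798492415890992655832244735172602573757999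2908953007767966203757203894810261391778920122905908716541238624923024644751223620456966453079363995924683642805788114871482469118438604072310917444049689747251844065831212551898262598969103965343808664003460916496466384461129153216795609462267789065497580378398048253047202099459965404690593688580673725873501687668083404602757474032739509807605712963751897094052872650242286321849855448350212350594330782594080623195654856578350191959406589114458085773218432772843280566333307647382981673226965049355532840798363496311909140927171363439931332546625241902153211656294397120373805372172372119183228031683901037122115971577893787184108158580880807615635895294376394259784614840469927518631167737818018362594313101745782519176559919080260870873264070017036051837351735116292673175908406384181165606730164896708575534201070025085845257415757833746756123796641002573020328295655078823289539036733888034277105752408381785357067440263608191478469830194461564033655759132677659515442989232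6863735606893840382992907983492560229546485700410989387534587855423139420930553752488294640365656661236616344883767672019985320444411731812606820901894866962674879784568180829731189502517941897339563825744832648724745036764423008033444027248723940461374547032152213816870913417063514196190137774539773614775464720538423345737957377568154536703884124521924693140486246979079050008327048134096858769617635935418051172466250233743190257387501901564284855347631093833159811503693279345793801448149045454744262070841482286360106393641401027052358072291904024035268202324621769753787528902564587399761992495128428026535765887424554966409676699208564354541979731676850447118081834198788067729461810599188530383545330987341348529778835174012972984693777311003491406067166136192567218861415818976191721559237626626328894191271468732662605118352153892682574835760135639570092780636995820491157955578808320013418118259326938586785207366949518578357348624196751237575811370952474443325321935330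1175306223015766609143124637552214070893577987160096694848948048062212000593803566925889671597052764863958248791059919633715355515406181827837557939232466888940896731146901123497974528600748437811474995225519031994505090853187077879056016537404369665669824418830167810898404694137082586484176382738840136748850625580242619902235974976286514897561636732456507183129584924847276228354099704861569478752836974026346526902201261226910387661868742235426690018017503496059108656267908138863326446347214289256922781648606132100083044843572791084699799731826944139261209635247579660705501639327148853112900740188932422187772044596720501485253670585328842639110435452101759610712938986168349928678118869441738882827365159411493113421135970820311303225344117261932876462114981025995231472933900514826847090721430066478365318047823494596353542068986769420153269630235639699800760693793886242609686554477112995508734254505587129237639917092674978857939841126343344262717638367070954977036370533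1947534070714910857986974306863115740219013914978465668755215597556391065551771180459237740935428628345116657976369554460918723212821643607633169576582302246742787627947076148705353390666293556810843570466207244976874773090562714909173993487524935953598902220767663648567746155568430096849183409324525277555986989600637690893515331216557869646307309654303777889019549206709342800975338758013726787533822614731909254978759833723890125023769503227733295425242014726947764166709874269426315127833800225605210753246260198941890744263320917227054310695636678101281903114246039175272158210664702934951102346345703150864869909895048310244975494488310685704642001125560006195496409148286474767106576884507545330379584516018792460355750555129032588240788260165109789411560433119284713171752862625932431553158267712900881775955394065611696694636376198825982347008338002759063854297621033042630574209876143621108211122451716202939365630173251558939291009811884412627868636455336947686745101135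3401106619520301319407314639585120824992266964080835081055030861424791923164474869252017323087360788382804837247091043364526404128803519179414634046805793015069670749831226249131944262964058846211474586505691174000910572404049517773691301863687971441279223246377368448234708323166809249523672759027725127667318457461125555432054962877369806805699118380916356843855123170957110119957316178584623622037170054330466285849571534675228352530558130717488703861900497690233281399452058422213629661501354771948016198700996234740736947302259736070562795451284100325289188471937272852154018880444389179593537954839079445433844352525733886064783064527546009979912668270504634271785317820544917609071067441683342226788456924741777043062069737746965325177796386526342459642086748193973243115550653394225061086288753140832165242887446454609382468092624856221860802371137560533954440908928597570285894526854689366975868774666359694201712531858067873215733650673530471375466684166324126179751300159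3811908545781328258239371510865456598154608367090349945742403854180413120989578768586847391044464098146026908685935730793952145050365726242148917055863074535203397878761661612179056578163738130662611628084254388795500821904876283686957285774203338996998874389072603400253125660373250607324769506255741661618174523757825809209528380936072480173140292402095574013693078922552168393892466879943887569398196836111670737137746213408644750707769273058599820046262827892400264027766837595800183654943623597439886659979191109772401737432793633311169204946243328391828584098397424992542802206148693609706528326579477742745697497464994835557406378580581983550228848014240362195819548890685494656210098710443675654423230385614773106919614325748206053896998157062471159530550343634572747696782988634488883643230049335977424682028105582584104929263415794646439788483078053299556228575066609994979973143479375412025020576058575404462394155331565500458890533760336945781451529738748792594884044278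5661107951610229013294676835008416640424272690449682301957445359521509304838283817781819709581426377920737101343603901150504245697416356801594980846466479166063033943852074725243140005910914414993468924811981966757769352944499885786584748141103181570447028249903200994796517584505504363669043182426006185171705204473856008289427894895995185748832846703563185057591268422451775146168556540459100207657027460055632495129935644296995273429803232490568177593227512959664447244010115001759980809293423512483438372494759220334161810082072255020029037048064030480964076506121504118394620336008859152624102075059879718144871594574870620687801099915906266790818927081400551261220328113508470710208741405526009927116938160945103524792201692234943942899796326570278670192370448299577224530378216694060465297026838035694264302595804412173922116076448031795786784932793283355219538614378088158205638384848924281537601476246808429783289299436932718368042063384048159005113636747368253396884840234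6693504777135773114133505449111360187146863625132385953524578001762470453635429484570086047698758421405332683220223212295221859123701908770512133580679788072573248705235861252673995984310938136408636651171595942115594484802503462388991683960709313762749661101457487602827499807148209319691982037167500958565650123041317120103278326101595254055884933678074028582425245712795563224745155635747457624439456795007591907526137525929235696923889675814564300312655252167330855148052038210851707502891159740924764775154858578377423518320883904031982634560166947451578030423818694249631741340358432033819974872246931595490634478068195486254243109568266294958933494714114440722667369551242199740273144554484311218738401938078603202565509747718272138691461295027166436846026154222039887561583011843222083485399143877899048865028021201678003403941846762645112744752449681625726577704460595523035111397015216707245968729873170095018771702762891128843163440527336964766097773846791866228193889394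8189631980613397345699018855708423115628686877533757287079163125794704115756085717233886120726812189285018872111312060254268439910789182877135346944936279949599123423144330061300258265561541076985951227592171792599710079919668883903542726705468755440486556871808813353021760948963548589725334427365012339781227908706836449939136293394228828359616008996103916285318418438019629014093069877846436668370836135704385939114983969285471802143432328008365675166598590502212504893563418793971106482933869232478735344473227122952291878732560778851467619352928134239750747551711802826524308698397616793778450618710825102764117491311806524678976488922176153497265767013617402679962098000099609532862010475566220435964382717291626300118330215999468921820590693746658173800746673870714160089919597026424309437438327075401807303830036191177438914614786261291553892462838896296897451508812007802121482112673795704170330386775626964129286819722318226361761535536446206850643824820022542120614893182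3767848594191545098213684485655932535245907344965225201511638515865683233103341085461178812597461886607382026394053663151676508925531811336866460321954666998264192936099237274108820083494184881967589995587953369743392825828980924632032675775444758091087778639566935120871198909977822090289065957919271277672986196439843515421599595285583456940580500003642243118234353965909682861710408558898371827357063756547655097790333554957548088061666882889293925100773848286006224947486633667749741664915996092386322267337761987553235367773344549424104203298262740689610727250456701608028660703860482910234511457820290913267538699773085988989425884432805447435303603527681221282805074653499874112236770926985604545549048520590303130315288267793061899506675515176827284141298754460986757012238278188831351987359777584719280168671717613017584255134942390238217324771377135448904222460788301569221156078204272824854960721305483436382508103504387986347623935031692009780074782662919072551424685317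1052206156349453899892354798640619429889436973120008274461092617631229983404842036965434240584802607282190951395722749433482258529754663078180678996841714102724252685493352168161263271313938490258622525612149101511222457729088406063217260553054119791977053186373545750423782099007312455201115500125405837917619071324513206397366456846667122374966966799411634385827059356293551836696243663282344908933584975116219020054974906257126154695386373927886366502435599195343668260083555753076348017891339284994694003016817838890695218802150744603590579921981326622838998191207149384180627683993373640672527004977157459364806656)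

noncomputable def rc23 : Nat := (nat_lit 105595495531206059502251257328579569936821584965156978931556543415157022033399186103075198233097979515448061911678313402918415553191778700322036872486400667313104445087101180493605841947974396314152547675400338134228036679645427126695622844500259482549534400743379272495721435686782389530069788674569778224926149466187053623576722353384820270506698207424277895623559591448388941343244523175076554051096481186580338310681803940296525698141432981408706313336787198505498939123129584902851563666267595685467906436362801412026990518053092595436422931267238802613657162370628755337227326132708397213385393193521401456086166007037544460567475446004331879320922867466281983116364576292287184738699180993569280014862094127976318879791761031122228273395644486852641303535680109826539256397686891246395584783363357834294060188806378241543945678678849569366923632773500960864874780578585150420698225448454200174513094089396739056827315106924761066709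4292622095216964793785796534383395601196776129826714152436091356737584725739206354600864400342511853276391657866467262325760898675291386832849784982871659235308928014702588624645603775705344797804632716136776884029707539472630576817563340560624557293461593507069529931577726560962835155658854455143553124397735148093090705365211688893149674916468612989081755160752136114333754699882624610670544653870089817327214936448161289970365468473998224346329018407967366979200594272480535067910091037949452088418450457890822885370961075753460311477855331209965075240823294356979449194330600845814827367360212439416065933299841295042888094891710862824704866760674928397069900480041653521868384278166827323900106459142077315174485741404559019622040724331196297835265992463904250913094080640084321570327518551980551114038887773336931703986948952777769465670749062405163370474613075935080690680255142633169263554172119882224012115374289081826682286059210175090579750681229305120580000664006510911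9456656437853133101932647417688329574732638551384471328464687833687758643079149162011139494254762105550341426566174544282266458734629492680191241555382807958517625434806986094834500765917115094007310176027640904180770763878137843483821210918243741096875243812839516234387053559466156130843097653684261579609951108779002114278311086542802921773735668316579975273605932777352912664403027577953209118655664045806100164093036509441551058310873800450213605080210573677929415692915281855050871244110643232396682223636379239191595152753227367212041114670452686687274303904435460538956378489448485286616031402505649977100251357814849870690720196365177575146340385921205856610153184264796592342317383846131091295253688687852928448527411761584792097082028474669792946747619126679227660187676232211525313555621207007397522393447206999512751586447585362153851103801212041104887341368764642279724183090323712780676799076411016802838933093847448115431423048567741460297256054668515585426778052011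0268146161968038924063016207658096250983382421402046791167829165567579876337095661014402928566595105642922548069612059148763627420893240343835470279440556482211371091172658157706949940104487111682461546148841709803018555613309650705888830628656370336790424512466815447086927783668408848828499093630201582590489768360601981318676608995187293567353848476872355618568938895850022068341438732026444569835239733906199496533699461822715428409553093654478095970070359063933129077842893130196667256736543677604484237183374214419018863593687364654479185431697866578681254930922825715635516502947682743781886547861907407166681658227109624738075203264359778183768828530405096732187399118596679292822744715895811455171284091093360951031206367844406370758529684957378398966834611224802766426105931020643190030670521720074700264172404446360847830927247083347669078593819778135329680881593823538143660966662968777516606166790983155244502974052455350334020128280110544464135265690916678734804777496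3230019373543289394905689608785538989261347795619687089508609922588292603529658354818717794387007035166574634658435761088473710849638692222501719537071837767536266457479419343681802385718204316148135985708829232123688236410617650063134259230569579529678980333509221251810280955627825819278993399949183666887915597045591889741959234599337973162961733477239509351890504742135876589013470498170312261514621342417387159188124528803758063803998235760198262992919407076567947988808986287086069287819528458069711970886987063731770075708932488848488540693523713229362823101664883494561126297203606141363872039920141186370005279906478946514755601134008336087996152474762261099734226830215807455121816683696620838763849393494530686332011470120173683346629886447472105011390964188319968218080320340542333791263339541708365647527506833931250773280196202459600692278405356211609678432063851100845318879256228214648843554481500492442795604385836130612394430738570936539892010341083800740053906065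1071555835707876220213270737740808798457288362878431260415887821824564236193536649650011813718801287787297531731611594206881157540313812656481264790047875446521926502848623627520738057887793455552109548161940888218931705534254335307368041376050476993110654701784085822434606556760901172246446121196111335239629738380333388680183518807719169775239128964279529628940443545851673871075484602502455594241597925694200744229848484875223819870747042541745776359171822370056257896581113379895460191142103586662669584248726177967275124682031788599489196997281133706989265914825422916442232896632376773592657401377069771452469385380916180815679548595805706182160423451477628520474352183225267560901861536878097359923479045763177100707658156401100277157270511205487996634020277847568089073070691168362507853224113423767390981251919040384270494682818193772922711890664841891182678605821608089396469012312560935596771246816156185041899698226231232449221168425670098528578793121206871671375303469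4232083372348695396380014975056972330536678132159200372217661949905966270180486413138416000945777820654251238688017705999798661949055945641920981482911390932891561295907340050174299268379701203172759547796636776486372868251388455714185344723960306757506503396392619612293126582058839819213771830392921869389532522686442092227995480300866755954228601967593807834474901445817500047879179753056116543543041205979617011854233630318589742242730852104656496046006926649586352314777422730669448048291094154205207651498390032454609245094479809530012850964560916068505932248010520889527994171909543977081517050740633837057500395945424627484302081538524588371313447300078303369515326232466995872487380558860242788483810353495203271448942529533808749340689763333437675139008682154135488891861066531890763521169125410620218167027388462440106805684017538794921136841731357014039750682574320717278031248629914650753593010633419961094278729370965845339416164187632007301406036094811882471140570592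8000825940130324957619050215642816549453168398206893430673105334377049081731029265595067674392076660050113269570446808145261356553670084095801362025083934181965660022209004108446419032801728799616371164379054029008742886994904004158842981814849948631085088079467485923966989489741954248809344669954575152157100199689167879413215612874654730623333347967120533535345236066674742444938357847201646714183789647886938280372210074848711568553979889345959473435450253381376867484264929870101191662863117811497698898008867477636258791280337422148858156823412865589024832797720941822622680852493095246624704660058162470547006802947264321073388119853841009391652619446015608452786103964693913120977355766312534683810966770274699242374780736306461313732934713565770305446842883094518674216254295748290202908363452978062599844164325249611664724962952223966483541548997220843051088216770407512065702837770555619474010985594512713641977513204550346380189551434656094220152770361997760460050990111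1516019157033140220352695849791371873303810219119887823613141897292776143044517191826827257490968501013487891506189470795974570819737202640280293194123954389247667154697338948836819682050158767155656359520877108767414197359490374360390925577662741917258042566092739607371565080960175827774990416775844648923826066050235626319107323540773552587107353221952878711384023152026575169965532245107819353675241402481307762377101820771144988305185479214903385427665951823884618259865341310577453757635529733976719225441862019916217317787686052719404873145495852564119813174316202339582636216031664715227247764100564153401882250183583716115249714006410750027967596765053973142012516686563607881341861701703850954419363464662856298884840785317172052758538053793939934299686903425242085461951949390602284012680657350667828533515721204032284041238030557536434789064382795354060819913927205726973890713353130219979858947617505673965804145446984517822952189271180893538085529970520959865009201791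0050412191194489386014026544250275527671195256415521918243284733483358682637504315137452774274486177140570496469964630559714674579818449333996127407535330995179020117751830021042135276960060227581565808772884644656291453063342022508128582131268666284823835720931012539269152408553555829766514526910141483676219031998974727773218193045359162530733473724226655618202042842956248731427234849900297065215431859645148826753205980780607596939421436592640364789012486854623671172666411853727146370383153188792951987914086113676269405165907061811527005599256423936360366162854868810630496572115563359514327253288698060838791415297977077461199438579248184007485409835788226554688953126180828749996694944464377131635473480060536882445987181152552523118397039173003508840342065676200627986334600878048992708812040988690982438006244702687311136822419340999753988491660043426980005283012100039043925201231401811065444965251054607377716135280477868504590101008508406697360986705201872033965392141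4744474467283189621316868836994246817994646535086756313685394963747816392084780340879012475726262702500475946894586427094642457960631819862538933992875724941427641100038021563770316677160867223318131304366530272848780732183676267123814139460847901454563397871170895176813716157838509132017209174267353916040893040102018180827041837451658891682675557606450043953426658130185920502349316898829708148018564067699311863534677304133863129465170112275273270125987460477513615723312148146280931040696592934055429151421516725187768015471377817567959974877023821091681979860001956527063797266060505232140387735210993491827435343787998008504450902304213292401827407936128990501593166503375929685855308363049420859221984655857636646483300160471421448432312942907135807453482624228522180631115242020679215140880958643590501544135511742423353485577744674826463306760260589553411239875919528930693726754931130604598472206964128262239064202501456728429542657580556328983095310731448936344116069989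7423910193080075009420192120918820065514643026954225130906646370226600405467593890131229746546928179189112787598868323330531458342263631019517578155362796377976217018141002838947950309332023498557111481168263582511787658271156846208645276640252610884208377418426769329903195094287361934833232061298462291762363491967444821572080225097201219241132169387102579510704177732415434234328236082330026524344547724929991519276671216676815473203193676991879768455010570866979887415115636049392183733915126016951776064601118450688077553044712242034183854943449958697000695303106588962309290401022575737832347465352061986453736267196034338204910101313329344789506908190482341681005024075001528683891335055235291426175712121672564199585215907953483973944103207737481498196075926303959164006896431451260729866894087477350502246275793012352978578031488081979636011818311559044831027099914567883419868897497391336118556756984025260054078800390166257863866810772946885347959395813569537418866885967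4493416683963414466670903029110003846312201606909733835338053307658319820152428696730622353622905940882752228424352515192751305975116105736210006213779268777713493215115626059463327455155980962501088432290491423113240644424526896455769039893725819292199576609859770103016925752606553932887779383816340068548581570076409940121942864190036668972029703961654470797146271377164784057600186358635288669887104686008827336158989687861131364513286293939769428733753479630421031099668085354450321035402471276662832058373998474020771602472414751551651942221300173684382379843296291837208556233402558778208042633466705034436263883273801508921774987033636205400426180827273799281353111868520070853802398017701178788449259331100560203233862636392200405035520149530099602213718038767628495604514407320747843598172546408080857134507528475869009404738018849156892541381262129891981492686190038338014016654520840546880829191299115172714147098575621555101055051121751916622803131192836424271144299493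7522501919983698112011302698333381455286612138346960756842923809458956204225878292859476198444449556588965515497413497851208694870836504300405936136910089314315803650295134192752376258080507449236500674427292847850395698724302115291694827726978021593440445667244063093720464303407019233116855383464369493210813096425511873783349171060265907609067133738250264333748589658822328904582469453468016250388256012703298834672307221527420853471457436034235627178750655822008030519247678028075651744139132517929848845974804120864042496186683064317600788101403628386660235425994874314639433188603324125917179920392904944064072974289181034713658005997409279592489653308162992449619499347257366699184077691016724815961436131546097952213612737969532801293382725427151391083705281331208081101131349868032609372309987327088934752671660639193256472407397372996531549715372295959612857543070009412750248085767450364749496718532240890662073302783734506129689968705017595910976246656666745422970711228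7692654667633197196506955393584136581244230904033662507361569160622489951354800848324378366750266404772857989097665799263832326344010502379363736249611241096978630621398143887209692326565657085684020699913611015328062350330215323781644096953065074408741058825056743322562289977651217030080682167720155555445835526619754966870323213286608078638145251668142195436438251815590886035733493942412790771448329093717190383898391433648097080690016303323212482384072443581035022326385019235438211415459819367929185766798330241517422042561351082888194465436997557518483494072726382817984043300702562639447308785812313087161308365285034753188599355406519334647329729621042114108940770418068682332859215257210223880555400490621560299323975912490102097399081620776479297379853516549522589425361908207259729119845352084640289016679253924600582810249261621038338086043058275893205336847431102901752522398407522935209919886242878159230929103020037699914053057039384636959150442955056652421695893520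3858685976893684828554437056307215394717355648596710863621517938107370460413279767133001308938289296236573915971937910911938345790409090545999690902868984604800635799484571578191705359445287607882855283907711740383452550539970571522145641522373981617877391543738622258508313108523521642494329259978280129178554923332859185395945765411911290616976864380424063264293215728512325427765689342060791453370943797377649607767217487844281307791143701813785137234468430601034049963841785244691984760620730389246344330594819854402243448245618869727206525307086230315498133675613540438365547027048027651398356738877502756423737864413390876916458578765667601433127528732070261641648077689635602365941841432592167604069411595247137094827473794707109866839582447601141077265478676924185063478189666282567057499240799424326287057353237450179524989606119680708828834968265434803754664205543040442727658958465411319008190361741832569801106803044909692612444241050183852981692182230287253481333846354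6011213541703143576249386902459222320794062664891760355123613637031744554770022950203955386944995019201878844693101863262490124239351461747579652051169760952252720180054762442497531802931512078239363623362533846300104516678300010244986916136389450084656067984794160339642940950038522880702281356795205548066397761273729252599308779050642959358517885634971487039532290843021163465315248311818468472250405198832770435505559261477452878088043055691541518522718485698949811267670512712867306147931195585601793552429990517210885248840833451228990645003382019247432046082900303524038435841531194575189608160486951251660309312198955609742560136372895747529139188051694701864994056833654348479136397832842350972989035346629222581243195406318093775483620141947227625438353490917344131359534873382742065010379342668730548453337841635783067882844188036240048634000928425487992696628267685525803596140990917935980070434943753212126782462594109267019253755237718910141378105560767672218440292368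1992661520641878090755212309271591410255484203138197231030392702346671375681509614031352904431773104043665629097709415750028868457378111489669033376255026931519694238985309889419362887395971268962878308102423197171642099624806711549833291251137380158248139680612730435890884312462082477620701511224779593697107441561141436027078223793868849521266456208428307464832498952834660596179954401629760724788010538908781293740620345427855188955530144231441568957197710140432540923371605720214307597585445252261398915779529402754434376868999845132112074303210378403281368844047352463578440598273869546978838418337310396811051008)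

noncomputable def rc24 : Nat := (nat_lit 105824780165452070587227362962438344901040008723927249308117792181350207679689610210936499718166457284129001858202093787537560250140345887457363817739998193947218958333283351181755494194465670330163026169661038471214237947092438151764112203966597333857732383831087092201317957389812809679403579654234874634439347367927290341029106061063014414588746479843197277073995059903949928359114190591066702751508559624601624691691480475874124539746412506712104153597318729815534237199810155241095199224154044071242541753726628006862190362951753310284312721136233854035644257501792623551852210906041087360302862399556242934166384712266844734545084794754867434681503868007734670971026408756675660305348062345650247550810658821892750627200779827857904542214283383019557275593322410603649440196942383663636746358042518568039399235684993708247421823432116060860598479066857873765325059554105638835514993178854150348987052279889980369809371784695973044457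0459485044634435115791599096656816186642395196697012247253328090020694012752699020907097435381241423850751735143250006132753687663127517415272499528886634349399723930602023139114004500781513422921885109145448783392434232049417831048319660194975310794841691173050816378057168239232633087987643225086333420818628256915586747643787421335754762472098563823830672316123628705675635299222095736527725974356705209717935028315480273361888409859743960052847560721281317108296548356421847356804430110363513566097777418602667877393405235839573847100255232078540892594046012502214935509100593981773931135952031608490148167601517910283915234466056055998130529527087374483784415069114423642834370086877331073642164097677087660408222452618234861795225027559688066704616989579469542537467686502763444789433727483082202374658502982803678991601029262042277699922520302462872652768091713787127992062195562371795638113666462105535232032385667118316400341234397566924982803742788610029388618007244644816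4319801680897600763066827502154347973522394984124432482218196202144480881930514676100710498719439576460571207875126138886134512571991376746272320623272647332252646391790250535315233607180871672755906662666011159717167945333005030885427823495166971045402081075397783256831237953466705111632508934648760729178011989736342272379531603237385737439639673756027259008799209019556794998044001470463639276791057805214204544095873661257370660588650456291814314669529901030666086046876852934497888150476227650315152801273006141510961348223120137714573018889629053627511998536057478409611641350265290326253660771607954441193107799899888464857832161572633197870838363939698735913231496350780748939670114348091526758769065045193566474649827331132117847266507591545888820162793774894224967188945466140884657279321768948090064162104271309311919506463335914027073982435899195692858875657983666940007384313421554567273040579960193923978412781590860966392119577202353351424453825221451114815300806880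0495641862749607093289338563926759075158927463705102133248645422262522378396786073544306780809538007262446538078095155832600215349408988241495116283582866259267568805279797113841431774607946636875709711664130993873624239821985917425533627234387545894626613065648996060443985910056089978242861176985047375439108907652616924028525446818937562354471941710124992734567059235456932634864550712408558285371972386674640357828313519198015895678704680266609142263765662290047705853051325917397745624692018573759123376443875572223837271449399966484660105786079799264925273556215533699442356934224984293862789254911927352369561642976486541596406052110239239232947446739871486792635817705193458741732128184663188007296741057758179446392006445486118470981427638316697727872046607619574558453471387979638067411048181292362969329817434187103916860818826279615329239059495084736696363558497589605334039305925684011539329276755642445914513877666362462371236303917842721264591098623676598012589387053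3957838990533560721846455046387964438467642323006877522903736535707405879253334908139481416649401524555392926397443211393765018948589870353694238777707606388015994447347192512693279134434005303745845282701305738781711004981562170518462777698917428521203075745637799398591257444787992517960064013352314128636816927594299876215596484298987071935673170756571048957340148505557745062671457957634897483234003048374588802052809523173715984023195586561230344618919565474472858623056655121029592080194949870011579719385606281658064029033381721131055900067702389746865955892679083536064052992904276579005256656387445893123981408906045596879744498510109337122581137854612212546665934240886052673086048018964225055052303241855382609351051480677594465303162991969517354438064482969971000632960745467924478620789000913827231835087092894238066968584793163836298903058313308203053001142028322494209971104118231823501119620653332728653433889814648533853345398048504842600950172864101102092725896438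2838191527892304693412874212560931094614462958636949529834911680251590663897959368338966146075915940702757021157005359534140408737757439672802381517062637088125263536274067290184429403974910565300745848474361918012520596444633747815300125868873256654585767702446367916537292807910165966552906263992786978274196367570594415156395154124859470791624428676858765713685591864682266805497935807438905706668523272588253497830666226427007531724268665771075895049462334089843385755677236622139922623366932668610661370221069240971993398402168389149464114731159343449782164141923294980424412698486525215925158463485300464644473394405666263041584746809332750980299689837893163611921537927029303689492472355599725124252248228098743572198787450320919596123956629246206029144624262129914690139021412436651351304673023552411385029451964647455170289815160062547860750571464964205906435853968157363937338927300424368849241935864201687119412860024551948879250548700087895362553397379959411587215512974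9593523844467010633676649513997398514242293313975293355614723110050053405715889006165436382792195269246239487942097538263890519743001566758535749063656972769272811348079525789484388418022069407006910560473311327931187112776170536580088472642435722931403050445617613906281947622039702726432059385168420812524017118393498658542433219182463739587026601498810869347384313341523764566551975418216865092920775804718248302960442243622266322908735964709609049265464024475067226761589001089550951870313722273570120948248134461460824671064717907192075344723909587222978472027718540877120289015264569229433779942345791372431197280405672282695288576004075428720056453269403596080398838967897049646218008746414328021407068046478986308436686119418582218010364840532947208745218346374390094645462390400878477973427271459514607852814382406953520458051336747900921663097105751215193201176404937205436317005871282439099706404973043041386064946415061060776170035122045175298153658976528815291075176400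0418446746736058586312856497567362092118012459775025965599547122070321654952781199051553864343190921644903803640923108562816373460263958478090221871937931515220819137350174636666372271434525092988266527164692801522145372400816141836436718374083814364091972107365503197019014415394975539547406547844939897341287397258808534085588949156653390892045901481221249906949337753222551393663364664260162976755514801652777245273164373731713920241135173273312439317359733624530494490622927248947467229170096590377933195065764710551693949525589084634135070805409925294999077720219982820167979309624368222007574898069992866811379198507101981090323586196875790888533016280176052191798399389825344904874970753060374567969189649055287088412485351572146870742365994202782709974638716426795099440338608648032584731475226915478934061086062415727035394203959354143646185514458676812955428366432423044398012030617899199141458360776472235578830196978565270143206478751405048899943003252481261632060049684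6630651514529280639783051990786142028316952759136084624543364641852878186684828529742483223635771107534606715602471418393429289810209199634247374327704259745093422989319531735151104231365283371607983262038627846494896335951629651164975589561230536865349175168891695302912828907124166455340207002300663982954544069726690676848928200752394335803153921641969321340954704557286185392249925532954578963030512741288633307776168546463662216559397660198308297965483554502181978303992046463252836337261553215078285367840164741221669841043664651314455489148166206673424117035742631375645361572984664726818253184567355718982316487759841058206619125238233006892518010303710535484608222276998628154564939638558658794227845511141805674458649158071977732290118826533541128524073821262019071969042612654852115891089832084011376762284936813284135679343099523764382647080354525187672272455495099822750631722104074923809629489257458475524883894131067849382256283860170609529384824846132839242933123474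9721249328117170700162599149318515450668587015750025258104972318127686863271935186181809962525512419871365251938535698238627834781711966057067455841122148492034045849695315783532382923336476511686722409795550401446463171390389164914756820651206826541719697400804571748991646516236750044723792783963406837983703905880077443879444631307056658460858980639792163109041933824040369077615283554794344220645501841573640837285497832463877144584352689197668767087308084252258614196050702399712216356150066673971341879716685105925099463159812071089830025348617355760578969409468430306885923446372353026051182247791088051059935694447981348729591272494061143621534794674744312990532447456068801807544396247846533862778846094248230553850909594554801874767471766424568663269346821739124979957017797598587356251115125132700722962192186374832490270961176111083123247218309350606315403697459710211192480062924721892832669376023914496789082549626839753062613264578972148828747398899292297055540838927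8036495264738699501134205167770141053693211478666582974397281427136525456338239992054638782543643033327902516491317120111938083646350078465713964366242182506354308811504557621190675878853237406526683066979568490760776084774688827945755493289665640463674803489571023794818478250538389711668009918549589036250346178100292906636811954097232015165579513606433089376177347782842290816938049460832479980269685240191986906983181723650096283134432167591981258385738562919717601674400143695647652783724593978003532147912118329101663387593059210206424983244475946015912753273499007346856679654863932127617029303266492736414283570822201813827213017698428380791167335744902705866855333439920024147416921659028205232602589067039332919276582993558411491841096791205743285491751879598912921167810802925604549619758406929796207304544610191419861347289113378698765064772961620682968212395177304163894495870847780263079213020019161038020234706243763411596399200783152573902140904585862820196419350116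0864895131310310501205520359227797306625037375793848184189179786126227856873109326303167070176947341998630530451595340256169570533066250710736213689385941489164808099949528676372237347983266285473167979182074648489297221573363177521922758211905633717535026892005145891748886390951444730394543704411397998013986067944363060858988028249719103115921955424686877023081233155181271561226425698050787187541267453211143689384368920964212609593773027011301009847729392183673860842688555653438821967368673337951626396282893823457390280970466406917662601491533955768474299578483344499650322933224625156963037968786745252605134373028679190180233777058271969449048967208577973581206773488301545852121836934706300329211204340421040267762383010142114827380147476714330863047729023311926262808296155445848306632231257720925612280983235634137841634848215630894278085112693693004745615495297108987733753705080877185880122182643720098871420210988978562341336979219614046216276971110717251409898603999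0824540104712786229803828734781746952698783154952887281659666568280360516603419894532209844789653690599595181033359457939505804280002945845737367576632032293783597166025968372752721253929474497425004255187298613324430586380734398322164031132919493533400434111095327789105084857579099342771082737524093740864572465103334216094831489817040517548903227621819391278759594113367495449412398311455376996597999112042610460623672583023875289329172916253609450305986782511484086277711378991833794912381733036888283441986939949731245990173012574452239067313112790959298979643199871842015004604358291800634669256374364142605768193540372888512133929851193942851893850279076642123702488120283662985276591423567972802689034799154478083830862702943754916067614285944377962172631500592459310835865400990407437647142425905466057089828941529193018868859868396731496482608859622398860291678911335661319249963176180752500394247643259808169178165053629425346110300466925859770602431558851800489626401974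6559274775535318622017489603793196237044456562175340959159970641701991328685638917681641529398496702115342466197082726289708185601538662639475711181160069891254599434643185420780162244760488710994690217592900853443730402822839776588193298066970708802106749084514876575032824391896853698531813200771000834254887464298062826488978432736173395630922346521376701004574831910198098507453722218753506438548099971268530271043654471309835433515224182480023016938580858812109509788148844850044620580986962223745676881830774983513090309628913335746792484893175028972275007607617798227956686407854924766758380877044758049149550217470123678678281442703387127831965257932661681563412527358599731862602422043557021685136241597183620220062722757409047677809795111339072285468679273940767102718091448190443147408546688900682724816542132907371770699296510632692957860518018744363130416051182636962932372727308212836629154928408960263089445055176157270463118598035612606416477050960657094510879268047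0689177360451188659708360320931475172368397992941020048835190218059451741711170951780030798240250755123188239200517350159255252322102407557489372990262239980574408176414396115167423983424422872870412230247672502049527091937296488659978210702305744804189037733335655181959132553431620611911692196161821298931511042700093655688308684849767285237574071156028607534235350529756629043496544396377778955727599630457692618815425936256847696083776721395828150842352892243811937622967360267583338774077738311809375195654491292121630766133857502005644689309087875204286247376158445930926410056234486995136016183847928189551841298262989119356019701541987404082005241053423739329381299331978761908088188617976413777018146524551305847655040292286817485458673798490372493569338601546035459845963552212925996720301432383190065597085745845995918718714891492016133962250651366881800896198015431349584596457395674985268056304164849291378292133604059658885648746190318502811377051197182465822704444697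2735277580382151489810984965309514936375188652747571508025066026908995246833918105565104212058592431468065702656534233879383730721164248743344900559822652999403089877391627986265359155515245200425654082694974310302204386143774294410236206535472311615232860240459852084814739656980684670955998537375917321000321632016686845203215733032595060979275733022820564854430228040053118424747442632284539552119733180733488942777546823123293963557499768279665345603461153642966228801593133879153972140228715498212578699365225040356719714004981445111127637920579554633165795228682877924937972187322442894743368328128680796653547339092875305373214475719253831037495265608034770226369231634561269844690820765158427491323164369491182195514462101789345426284443411629588652802203461596110784824292399089457715376900475610514798599719263747869932167944999843503624629854181941116114801047302157750848888318790585002363207698116972504362622283745886823876435196727055792904905228158994506299481907878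5233715902001296946056863674529112161329101361519251191225048070875185035723378839378196573917604156794479107897107465486892044394510913308889127571789916543381744472081718406123015484957093762345222722572587355866713507690399045651697120833887229678354500318977823184878794183727832043605571337486114517782216533163412586740086933119476804798242066227790975694330714019158316256297584729422889369363742596460085041450201034122505613301443485382554673484175660512911505036617833344880553959400321704858451415697514688816581035918334735818854870533118717961842014338733215698058045943690685554648889999291791476251270772327064047711550998555008300836125063649635947932848080599726770932203920849400569655351564814639906493754836522833030022562918760432105300675445755317713851356283666836955096016795994030149595119414374123203439833100996606879951426755194731354074522866457277423759176642438117765794611990040456978301915076129046602268606176558109348451137199175163544869369104335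7894248796371659932683754004802534934106317396189063565021563551412160985401548883852827235160100130099161754420164740672566381335558630010826815026369918837706053709504870064914289041943443314361725040594919743412257553252642073876887749440636029948113692594354673618264157747286632610044363528868677719577110853945284786830005554501969824289957931804069023841102884164911727585734643834482558310572340045491035175598990490734802795784837030765631014175150065254497850054300066946665548008913861849040197623759413817575296885672740699459073044379631983776035534036319336479623701762309187840298762594834367042419687424)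

noncomputable def rc25 : Nat := (nat_lit 106051990658156481363367191400471641196907848910010811891314073778612622849621242532271420992775405228437144348123787618070427360429383739211262270146734117135785345674076303216519596721153806478490697118272104040032907774031902466853754833183916305088595025414697818032713965081268858221401195953788302871945405284908683216762723459881612081573201849267999462831057817856786677637184020918742115330894589020992626481725474498846356279970854304761308220074102847007539978535420275930145530583490381701155351151694706076004895564141906831367712855261298133743618983797127541989052649123180677275338662892899171959711632134681238080334404659494656165684651739649329934698647872479194090906825119073059922080145730750030533522894495247917771884692699359518499386248373942443726037152453492186560850416370221340224456398201159452215098929235886006117884343536997575480047502317982516813389602976615128954528595142150175362697138560900329541953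9181588657739320341312846097219319679705253463103956657892585180704361291060681778913242665221640731948408646735104539945811689336732864727824249753507977385782664274896231639185795957444594954488881072155133552513792623763182172093596890964550257749711520893438106023723174397677499236773228441609738348913621464137357083817995999692964609681966949404594816052506272316947094443076214591989726249426605342364362778670926383377815337623554761666234785086420137747375612970902531960639926292395733251701931983986423948867242440296339377553556836122811725392191340879771022209402474431674996943281777896598671144087804242247593049776044924661314040351566184339307231110659996220333000083995151656358889363552454851060873628994721922333999906404016732000594791420828760477669556223118050221746756220940190496691282096815268054097175750275745129628488732520912890372952126052477410613156852512644500724777397464869464944417590952671989529400157363610982601599630188928200133366042105238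4223088409152473152162178416375513443114814793128956573177331268583922673506979858648403930152139351287186945877201600387197613455987090590346952207455436787777449974517819216051445670105784681782739562859647433998519418748711762925447151416083013846030971920505636874618271890144907819105371205325289553555625338425043420035556081171971983455543067693720290405875701792354048621122990473788693154873287725142363499186873561926021923247198410804087756692979885180389177199827245034144706831947259585813787487624802837993975827588292262236583246566783812611804747135504297385327743492752505991437692516853523285116733491572016563273337149861150364303378428921281987876411215397551473769628480301350262611508462844630408666959873165097294722501812597910987086951780679233731633665403112356036748290060080647126691585550003291539376648611866571250519641529887791262205243217367416649083439555307769138517152919681301423814139424241454374137634444625748077122981967923190436661323205333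6732452981907515970194000511769797556244501841565390773126559225941111215163734961547079473429948289995761597751675586552711599367923878190126479148942766808348457199425105778601789297830259028428148066175519804625005734030392623847826185690556158653185229020077003052719097820851692778851953723417154300985708859263869350543633920967031070558332310074867328690211318190962417159831720067330773764450014814130205428767239097247873956092218587426512930969017420996456228217191593699296499853868428915628806846247684099058006569158145105008357046039533927713155789518633352084032962722965389445227284521644737363155866917025289394691959706307058195655174613531573188567975220932275611304375295657915617956442780497952002364138170412199865987386545972350579888963985970810016348666835251441934724922610260985832316621449383833575919502876221878734494992059130786248818353434875037411791787264823141634284640319194143772811361210696925629648864614120018545827770392319723356752650597674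3218933276889904307655800866325864763455156653161159168251233872791318911154543413826320647216976443508293689176859486586783232013418506614477125779149341913845132737625020564295869280080443011565403697237230054831006442435217939070307892626146080486815518513207310978389184299606150217087227725292550882938805844443432900518962083898627082734659376062174732369880281932938867716793464161297893050916749632473292059634347127398769263036259387852717280121712219252397088454935916522486353552430799801030346387300530393339320402040148317997565246561158944070837282258117441497291680011814987684870007457087520801646256629779686850237794728874071915762146064328004009545913531923884276633009920975932298094195977157856886329708074610458129071188267802044216926776062458698553980114358384454649390169491870920966139053333766918293008502516108062072854197589311523309606513481600367537195843518155646313032349877926561130793230440847884079401131362008433781856054011501669078722596900026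8721150609342925102782424993018868986311236411568698014211327670593234704820695101326264579678401977027658567600290650640982682823982581728112043326655484094419200770615266803137519416540502684557376213848174596369409166264491485018458521648461731712042452571072932267195851290391178051100244499725865939666331019839167250609275054111968447129161719231859757597569870303360066945713664965219856265217574951233125980736828689196297119853108159235825043577951853797441304471956869582986557462763629857060355635545556131723276013606239935344746053791353396834451160853305408995941297849218066619343805039931724508179538887410606302690756539696136653896243335233860626349863501187149567830157593386590557719459077887194222985925911163880753750659539093984323429059965948800501122106597710533681187586489180777945185878550793511531043262177791464471984301356668837062933241812204762795686140138749273604078398601134244861242978860888698929495172621710610625220308349611676557618256196787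5040445561946549814767316109245231527007579620453594889822665472209854734964235700344576665655483264815589178988768217277814432135616177246194778472867841240301548513111639688793130517250548383914315098494204671349493262425194884033265166854595280506412335663021919327708408958085539593620780901298464859772154568934657694204382150404701034487373138690582878383824880047619113653861237780356732716110760503628861642232258477757807820923834419592385787851378936430316743575919813004054872731416467070753113983814630691069310234159155261477692981509594642500443642235929521433114173684370265310940822212366341281573518987840256740840799008295935631730320602477314554320821589440504659438920665869107733652314508809870966874095326980724775922220105348463966149701380809492996219232280467773703822698191009804530473206331303894920764657392348612909696723505045391660965450467993459822262328606131048340933764566237939515223771925673600607120921509754848282856978341081394468754868483368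6612203664076487691570920270463973416456017525717012036723692610246952501136870712340089714204592012527197536146465087363176504538764450578157071999686135322743214435365332704855000629744629720995954127481345894131228059350766308473846333504248793199226756715495902275964739039196770203060436691957442048167549301409044201375104746685283351067731635037690106637492127495410920191408380840862407013084643883245782253993095080322558000118886292113596025196975371922964610765742400092245903828035125231427361720128363110356321030432754661994951451657732156426293806700181851760980862481485888450246360926345501972594316697241484180161938549605252989094657011714647945332056462259024644975557253976504464413013023623266658093152170002696315267538547031547517164169543430113439639854626170987363800803340395361521567741692045702297345688238891046505268725898645896631628985072185802477165946443148620801451981527241045313517757392578870990882040580482031644440732945357988467770094835170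9019728378709180297504617699578196517721773541592631163906035489159273189534458353262607606160673401400508301937079382613833434671623907373457350915523027474137391163764402042141848705139130064225026042805458949532099802790663250926051473945394278785999836579360369382317325650079069522482814745719335946232326501987054874737153569033172541419538145923079815964385989736110114624783501181220821425793465900292714000754155498846778902314374809671099220275508088861591787626696789059702828944755651653799119347917943483483843324166710337046883840637988594393147938151715420645763872775870359413991783691544348987433547639793486601311970892743780181437522360857149697587565283182662318740449850522085104229669935347486930712166404536218021901905777278528809314628454006196066048590532416061871277562714024544513143623954176683970087317176383596805294590158920821103646882379322381794744640941888018039049132165350323611065949571139802451457702295905268962991518461453352872388047056801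8253978467098162368606500352382555662469970865693649669358234116121016993885173109109930861083688041300169734163187997841465014036011384061370532177350053490189535815104448265569162525918946088890609796490781212819830893970007768599729329186707219957274615638949307090890251599532300505945412001701737007163392718266154582359360959288860936457468433246272635371524100048539587659394099409232163066531531610665153213024125109403768022989427854117226438332956633266448129757489746572435163858158009482341258993376936429342659580637627935002461721956825722024487924413200250012568433254367690742289319328226169112203037403641587074841160354904659378676430717431631701962452084506005860982663352227203318128343072446008404453408690045116544318004035123890520823373629332660430924830193652991255998302729159578587352433346502076175499491763622554674618440135765877771473791434727538739679133869705517096379117285904573937267046903182398827566106988245400047057967670719930562063474343185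7704984400500443462628696119220368321368011936954191342935637262304137398001025818685413375314153116219070274709078493337203514738568075115577258137428032754398886531263536458798616081199115540574878637011860678257355683613525612231359418780817953162445717199448766973393737578809541471440384727112099743060341658771798598014647730556199547577946777702145919061107048930225796907480316296871787122278459941888977384544393449642043911602987255495083385081869625723272777353639110030846505100200201843693054584473792785320356640633273670388940301604545937472048264917030650111976842103950089649855744821653663742894139037733441031024697961880168665229354767724344107159005395067549083593409646506218103661540103788737090549920856469802639491474661638874279233602592391752949862920152748127185832114418319329081191776677891780693238692520432666664867800797003102349999293551551376605907173726244987600707734426047113556851469557894078766590301619701508726569862585921595329839855453680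4302299935198751016474751768147285331988984606455713129978379892857622379539319294574473335099098002544775189471277350953161285523889727501007963182964499258585975703270003134602245464526097632799221945760006891582148974852954605512571536765423643977589460966202397970938200531986982875290494659185064144787427210162263649422896583549272879344346729787848331593659354009996459153654233618496401383747943363483461529933382046809502096405257102964147277857063517558774116481985944074749214782242996528545856535264826792852435231348168043744989763219493119253728303299182369325253772383115305868853503773280124932534590792260114036704610922055990277040574398567448463584829640189724990411401055545497502556622784072011165887771490852878379798294121640129898325015025580957012321259034727133182632256819057645074369531950407274981032669765982604303237304158380109648940859914339459819435050559493781612709490136793894178118781405431606186957490288897506347036340349738008834977372498556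1048115657591836291501719519147612655869397837686174981597321619563794094650277816338603938781624541446234409532554083430580922659057098742573050129485562458128982146659659094670032304086423898285011779971903384170156690302888640347567894901278395280752408247989570231327424587321681282816187319046692561192567728664871934443346840729379083877947798993038651672697175799096856603851910404653404260782224400323415933918978932532102239238059901780138818691620882045325810667721927828838696725469410231550400484044179730884265663668308805947850652330438284574007801340009418295331384089519486569138195119399732515163357785994770679623290621575504113978464856688752602509336318009044138993110328856527546164784416917842386907251869570480760197093226382962549074533212832271918148624888198393140271764313716743414094087227223955020453356770088380419006442235082388122957755448915468063926795480917158632195874289969114418986040739984907291576144453042480777197055360033094580942673737524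1693777380696499122392061861232938177283774800584156352588184947680875174262503975200796285441439568374119443046443280476263818736987057097694310661889214186157372584054088515956598376187079430327134337887784320949333246140649363565525968988522547781486810131671452666450167354501933554911493586649046204879252347564473522287424770709000545549304901300736890339844777553421890643448070202977190463249688532644334130007689386408478553161045418551082301418520133570249684357415362770825195904857062962445462541815374644387376841412740277118364911664798697469127391017738772903009279315511935762083790602367503346289288608771085558073130839928136105121228382037852559460515733923767492332702262506933813308701678107731539472303714765529857062835812383413726231695746307505499448012186093048377247185399916953783200173193905920574578933445070788432760003851116726726477548188195728849643587773352928643558642620538515621137095582816937109341028902208048844627717720429837811438248468120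2697390627242364641949975022088508140032288647829385133597684198486739257927686916369539564993086968835442410589121888452786578039226844636855351725215709825361320741553459952132374122232440707906598955766896911955312664954266094317216240946047696834976280154115120848497021853167126778528235218210268618571492908120903781750912812031060846262298793481968280113170175682352126615364007990928507337132625764263474014553477272596106366874737887182833105872145579233353297441525908283084138050931930389509568937131846876741681857360965961828066623302085236347504133399585443932128297264003065471856316209812064168180242149642447139730380466060571169878932628105326215403834493370105930856400526992562361854595493384132422110278467755772369924229171074144942102682187859594811645988623258660859605891833862892635696378188771533671958367550581679668590337195665406656142733756554452404548742015624981113194810526012610875222383996193410708657705161737699695274308014548896550025166191606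8523480996441231428236425985315691104411874481759696685399804522409149232541114732500493518806290368232750161553673503803147541031171308135260870283143182726439086720826709799902329289527839313689734584565495136408617040876171008229298507925775256549806177378333643548953941119603403660216376382804688528259693676561340442852425977402596875760476742437958003945922400847861212949306771735284228975095451683233179260077314822641910048841236712312535359661907691123241838692434140441902008729848175079105019258813213115541570273016798406010675257332302238947666369048998729461350949105639205707484010015777600198917521883407267770541509631517695983949303458965450401399591437263775965457147298356056615879316285707746964369918469354638058615566190354567093131853990358966740983644477048982082740524155619949976715007844835953262400030562454518801595677683905889956331603357733273117731384899102469562857997746828198827601163059399309235884654474401271190850521681790675328154317181229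4452070740311567597913511038762844746498195195062170740256899098397433357188912650094406894304963787988249655510743208201339694619146694439679437856127728736195140451673897889761056539079457586108033622858776277892208801341124638498120115861556605798658052378076341728681847730875634051832819407806018742717967718857087864035893856564449604396111397884068796448249829241304520686750880608080036474462561510947664855235643519189470468150137879793388253952027761131738553645155783531800577962027418779865119315219874728325337238034701839379922033746813159982238720853031737625382757040703843862808229809530886324861897490781009187275970248222069366190732387073533034627913868758804089692059410789742408613750222147253708955124942162212656524847993393189326013856716245332044831619781486724613980692530906280096946441713505895907565098256083763653903467481364359069922714554296157294039342808683743335384264100150090627218233667524983888911615225879021294837496943920010196495411575219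1080636742787218851185196959934711798327730559579718400932680647280053044805001321964150902715103123745780393363579010600483288944440926255412766089436409702425883515188287988903895396678717887051230457844210548548700255680968797250300475507619823434070967534628825296246237471623915675074120939232358714699375442800083400342663149752393129167660996079182640099088730114088932586336965954661398510802430791747444413602238893043929278989545186076206439440265069855769083898705838898060497390998263991661395883678065704767406734904268782970509185441685122570167987589943716173246109276403707621740476705950932719517040640)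

noncomputable def rc26 : Nat := (nat_lit 106277126681416303247871890412520980088568850319522749905844051886686377615850314764173429707358089564437065253194170978806284624602160385208539492627256449006466802101747403543278792304011562229843519761766965037212307048508383925074084503009270460217712568784726994822273012431949641779696616979657379484741279955040753139271033575704968095982130663520674648758885351759393601915581584703508273594168355838140369037460756021405074268700075657408456134854093408723322278682894505867470761171607220759498429519582409465018861142810755914688232428334741661197852033561842282691756324376468802922165012211684157806818202444964496063593909266460385576528555117324114592463460762800426795908172951353866059131473375300470655199813258297923455468627619098111755148745062484203765964363076987745348124458380917347862464192868950750865278826361236187939083479665256511077126457430498061978125852066578766077921975777732726471134979584749835112696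4223684610628376566761914122254974957912807333996660389445142881204487225016489672043647751563194917035001302769815396182297754331077452243730198381510621387701323997567756415959556371513324932986174717783219804678655408957557894342026756455760293430839429708391251213480059662765359576458017690485286926354401554635188872024632831553125336902603354955174606060538576801055189556310768287041225829099610849033448804309500146278239222721633523109311544353162567765969148970666689940304927187776338863951455350612565205942403525403657798459664094630260666440061741792225525473148929033992811799850234338036511646877481809285743314913312427189358265105026844077398574551219244685194533199234081593198778859165028376129851890883651480467436251934784678103071081499424693841944373456833865987007867084221261752653448462829046091843255314844199633105441759132238805438109614134290719770199258874382004219965628116079520317916761092980514619061249866939073052364091195973815581872756344606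8192742589551682995733388341303965728849959053115729921161765204073969717201299025930375243617231994543631807338883179653290369313654437123136706820556237247511411935919912344183962892970396434653831982312619890815023665479301973442562379841300918347692317264586461681528916074409934776552794412762605137170514720928209974728530858024954260745167947842948516883679264088053775640306382999754977353990426515344631390485247790292561016866582903272072006568842070939043847746754070541953783212798003481845402096327144919103957979845523193271864165943333800444225832665391026434348514031641802395981994719912566487034280429360937932262219802684955922864919872304421140463291873494463753758324814157808647906181679214983283862234942984836183461967019435927507845084842079477236461330922191476074417627550954353968390092708427968168452794756499049583104682079619651396385011826369633194922565649473979503586433703851293901267688167630900624582953155148422134811897724449424583323671149486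8670317585473208244311974440988316990592266790526564811490677661486724449214566997305566029875876784291884712722983451652359689372701434101397445585711415705622854099207447632294242974448828686278534090154789833754387076760038148572696254099741377276474513726799490787876576235083978096712762493342046520843597239839027098932732702081739772382952487359028394024686214921180262714569508992111033094039334588745859673895393011367021254942623588672785616812487221982874173709016085698020248662824736877753885816924846213800617596727789195933656171073844044538055730986428401821962188204566205270830504638828271922813978459998049649925720061438052880183357403417141026467301493113113602985151702927812711987963789594389705383451526528364573732614195407339741942670812523509548534671666235403361094216439859722753316403489952693941365941447503660867489209032359361215850788280010003378020591167255397065645524291561755760054656421508562808438780180733584020219590906288999313341274445901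2995146289666193380037031244787704741626058896980244919935568565443386585378960509765831484570636975726060344671622056701662855194220666902406251129813081770574984786052318263417299283839968530583879340957681435507307171386263058950958458673481954369618515700941011448442116604689887318723091151876148339290046730127103494028004138833956654864054601896516366685875274835019083106670515320581020016020836681443811558168026254081940422494436330580959976121157731092937036793373728477461958735180395044006818425331390929107199821393767469498504895038325331188296070372839299869660363747642121847952396924233265080369843368478104500371459079364620036059376907968205639268086459009936593919547098994929644099600426202690604234023668409336043307952999554609430232448368903411128695669323925037218660904319173052252839302005631728105694076170363007417851244170409873383633827446625877275090741615833052195016671978464602607179842091248833842582440265537044247105582558076805097177055171026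5934899273872555805903509901756496373171918305869838511098863108023946029239089736951622696096769319527032720986925452543538610622354157798947118036280140214871133006336391805668860915573343106251202122718446293876376496323626772135702452610923050282235960993922651773171747308331598445751849369654767653583919256406952576575883597933274304857370674779264052345884108786581049544531129969481275792125377683271040910576638121619362812845126530237107279601044575111350293049538779684823448429029886570581470739587306213331386120049669207814711078480264997195455917795445672451888615551029834886086441760341624185273564955605979860930671497011024579052923831266692417580264320685434482609816717269112991210725317981648311869657919140991329890032156037399648223348238276065090533653801160572820226317779605668168145064677418824141860489236702673121934318630311005368638868646651719867578260216235424428506575952237214300746082283090148978481087555182907063911553027423233432009236898561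6156832059457938480016891693409207557971329920488694654300307860194152077027516777562682461284980795373585730591412731596343764308499027094205250077375139288844979560263931296751678258950034287991550897342897282775823296701833216489142843333162856105201100379730831509047908172260574781165175363390351425364719542084158456938275671620814614983976534930097454186108277709492294344406133845639516773193465990375180073110777613361647799814960416225094302524589476165509243178672001826069328595262271876065468115353772425514708572198034018340229736525805840789057353970079376182447655990081977154640163621139929062023385298829592402316665846800089375713188185289895869255150062988676109418007104185213205717293700225785901105306093928969788637310932451639388590549829092550878219852278492961193422153369750222095860096645302832124412634009892089926569118092681230117327420363854274828648764719258141340621694669212638948657461856091980785760978942498994613279452420490104028894225782279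3494655939227930899703488277485587139533061915896627323188372845134488742231534282365809785399590533016299845306335379228702912065355364353016321202532343958521223158429875481080971194395479601684943516186430991874987110050673326398955313134908179294996021612057970854670897257389907797618520614690731997525820966913948198086620224255176944252132919493704521524985314535032693765905271083399168605287779031970696250948604996625030619218086325832268118817011202127666879287872455549502265295910359727553052020029156442116967364018788221697401998701950257989378558797950480890057816821132933523761512896702201204810134445718244890138430832112245167404843482849098417572814863227192792597194340358093671671761358879998235053689059043569394646218068363606852751783477444709318560096632589226476141523326631866729513330117456511009348896534102365492346706637532886102772106509010843407126521700474644367541945636668526161189205346502993171008428640457765897705800539581405499420546530919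7437846886508832476158826465434977658064822874367473819205676905877878764062083995968065611624506372213012797320197164418092164170373344360701034402957672913650276388103036484575831193290842150711606981576656980269222808072202108342091380373736113618180587057952745087678696407043057491713915717909371741435643937739318716644779895462361240610025795309967006268526621949919774740872571699287172770891597903646345085340374393003009992907837758142162246758485959606967662409171142273013417983193351853739334204394474326342897365678730208585415051333549940831120527951062895360689518855942061014489675218041451430389016240289584628719575418607094554985079500387355243982281872840879217786019560117312555648020765563385640646425109166576318878397524873822714247096572410917664837357604762877951960506104095109547159222607276651846867285665415303029116493205977341387665338700218911741974800075088013368149217271494800031115320768693672715897218042798627102764542386796397698003646205970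1298363402228483758959183247640984727045060052200600194754322445262903700176626333883632311719517246302084579410748414316590710206823170046695820270544616160917029958631255572028333136275049639387599223361805916954158417635304969180454565430010590111166964037069410584527213007077395400712545658450253947191052024634737368948928170174625955819382664892647155374449757267167331724361680172335719599643545410072823046313071666887099753137923988401813907106145463836831181417942533821149834962766281115939778602011931867598510433849788515002036961569803233467226586134375463663398208845206523008071901904012432117765970471607152373154659761372150164453975997275080570419849160261761012731204719784931027563342207566066670927031707492166355554803832520757899264418662768820988541227157585458380615581686993135443606060903470489517912417475108940563146658387707671860427763079469363670989134318908504383232006463101443429236155085139389552010546731244154970262971086694821046408730888630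4808512821663801414353995791377495338237177028483706228727315941046231882083098441198043029703540255364656693407868191827990681558056004838768830131440580021712950566413123593469852804976518427379772047034202792008349949413743585437808530535763270474055033992278355632860844804777485041585557170934707190790898330456201955059427389399836570689275104854160566236384338803826920537319265398791220909230752521173456920232910582401417807893164226099117566367926932874542275947643576522823410725294845759940642114936251008986041840650133376293039896884226971051350396974686463716508361925408358005255402725165957347062628527013467701757729508035492989774700254126350912400652860642158351545433760644234365842027969860968814745808246984645977426265921354727223068083303283845196560572576250410443059461868977898648431026440002039707952372831270171468772051457176080140760706629775274294168339501721412497170915228579988287352318251033395195042044466751807385428534966125748219363568912572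6119718391579232630935695316019149097734870949812591787912769325874750630472846337245533504780777649369357226946915095758143048041280736515511275345838927284296390266540223349832951353440607581493937486127305230621403859607403586880402319319725123825839834760479048831124605440274754661337326997071272071351952897422801852746249569405151519747602348740201855725304849935287130402209626185426378914132155829512558023090833405250790508336075712314613948260359980637015046818946735192332422874876736413537412850483738652546518179641768865411345040353687339856236769736611725092830268050040934372982967669491331262075418932664384596642776443599748067442782481207182354667445675237198543652982611039165617215852437170903672045243815671739940398481362151805836232790806886420415602724495157093285541102979098693696461292771302308810573520168753740865555282756815788702821712362362203123047988978835014066528176335051871720431718505062453873451524981430189803661467896816845107089641211762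0238278170486592850613668556303113241946906209746399553931377307504101713420925744869166297748384038718661444518612879043841383043541109555275776464380556441334278506760019879831246902463144341648052939221084392079546612957921326149150785026620825218757726106008485736340106251370757215014887814567394865796255461507037757626628723292637106524427246305538586174210499097505800353721931194232757007769946472350015228453277831251297976347563273544288577974457068506567430508493472021208814725762826962523954591492976642510580551790613682177730673787731210209856472245611228584565705423337247986269958048953079388638195802729411713750537026033129440059909744378614347106614408618475205030655451498915163664530463671827154386180248239143488458760817187144434906709738268012298178125395845829977228253045150216903848945036749627427812001979385938859633059409580660984150169387028836237230077607984188829871018112972972225046184806635120571403477801304405271080289498007904486900323053813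2359418185396476138216082981114460544650619159927986819876535296299704775818208795457321361964224612877656406510021461667869245703286665490073490515073528497878620010715811176598226960333032163585232194982188840696721933516857774500024100889690596836671781223794906769233050538545302091897150632976735845882698826011880337925988321305976482861339221554681689860671790543679454532924650381675475672495621199766853283814933346333425620765526258212147369679335238230681126753605427435508994745972277290338651954944345420540391327078793107394024832100642992107117036021154800480517941827209555958252729024422046931688621222796056613322407182260053650333622059708016471393198538092189967917004311575696741469337743832733056412137936022127987661649229707898092747060114617427191313538138638442143495658937510044598838936009299941627936351504122658546932130211246950617382533391768008785284265060602794157834769007032318369814980376644786488945380777992563455056307206125407980523748189077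1930257263413227151058536769222339980621461938315663787140921569982186038984601047088441965885828121791248699582583475007258987268526424413967962699338224856063607541014077061176791234033423561241143419159276765321014368042824232191902470313386037465457229807072931688346852256222819761686675917808143930683968445877149031445100268085973614315401147550522273531252593316318226026489363714026324995496694382828253196705407578998900142820185873747143619391137782411807536658814397710473830937307077476588932541307317390478491389075304147605434411207908125296876486987542046227290314469377210831820574617740034336068054510875461557295048266569148136710201379573660850994587847826515988415883635290951636928558364400928577921964711010528844110011877266240456555944001422720245944182245954906771248809290008914314213411370783367124716931882061997403415903280253764125554668323717875879099741450486478218343293502591629780720031032876900987099291205988950945744213106286142367216846342997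2621339419355893651798453889918198899345135290744235802903757621288776344464333582923269171523733155128061660701382972223915397926093614707071206116410772516347259656616185199747697067840507359857535782039375493503427535327179580467040585061770260807944017464508871154453414994624471475765695070395847225433906448524261021872941898165750618491027183781772571445220494095769598134359109074249522834465706933917278838404976164692579231399338360935594169756821565103410164935766420420502443272934593206641382457076232738115802470399300510063739669370694984620150861205588278637585935034600840592032715436964600273325869459262938293778207230745996429837726938604365859050795365264271860405928173663738484910124130037965752222346135406547732993178646853237029077916127407032596538277852929330707012717496191103056520644248149755217451230176844824066144597998292984957694069211682113553594140764841441699332300198514773823432643439908129437482593574273608015795997377643326667253256062059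7156097222373348346588620006431313758725005220468379485309101432365063384573298679713322634932559606834163848084087559760437271615802066718735107779339609077320749584317364401131422538901552310602714167940791915062701992752197632675555934132998813532369723922490476359264198256824225738480978303346179450384814354487407754501324408912394630793406096212268796456229067840488301097754306458907421751326735750547822745706573940100524597634869180010717133455734745541910428695593405013098403018427747610517475803325108584814002065975738664231943317849869284805323684023100632927896489218650645928339912259574403353472426137861515003188270007787919330287496926910540179719706828524905434375637028687860906432366238251385581755912309229587526224825692079973692758507284595495898454825674294168872984049434317309469069209762470116152733079834456167790143344106934498779805958355084435500577279168246095422623289013457160932827123223026817423644960426285313901123163192209005921349587816237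2843071844325900879021054621011519195178888077667197658118774672563578435915766595339582390370510834454920105361087169420866931130314108883339146284253718757178364786408772226599888149434399353245901022535848333780148169348556879248914415425769818168681451358703852308230791533941168052717356301799746892133366495637348390620701143450583335075201976167804711764567423323837786655134963404064394148095420675342768328587115876812166661499601809585242272548771369902250465463016285855190016948757573239442844093610256365497583787775088196162403966686641748188062568513169399478647780187698020212029399995345115508824342528)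

noncomputable def rc27 : Nat := (nat_lit 106500188558277327658017338868408060361175681045623072012745741318871070787401702897184093021542534677445737074231869610722512326295894752209887106995998781824891607572446229397221038378149265515429068875747149280678876670668366208590986283325162600307541126434846278446649980959704414775220078349740794554750718413036633385488044418577007179729530836388674794035642432100815258625602511767392034345210097809100207900949982880163512580220955744529951752720021012840173650444221906395818408195626228162614113273523032294532228303102050277245398111451034659012344285219321206448129975279608222175646286988845194313324484106628846048747459265405514519302029821597280499232845842869825162216953481599055226182912004142127146248202913766722203624334743064795160070829834975406110159418517064989275208412551456334332435241661204968751896232024220664801946582709839143871051665619665600913953231107106534048219642740826040991784160773861925290602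7826448153555784947610584958688820317573258762241192389032892850418215058090389031848547327798297883834159955804556759876868410477810446066428253076398476315278880974163692652471765558332102470454934611565013004885710663987347001320452505564615741771246950760903511918515492936477025877436204562070242918623587126341966004014519870575021911849857617710462286726968152843073442159849131105591301921861237407357675542791026065531076693850810900847700593132454599784993620325406899978877049236400463410246159957231141778843573332311357434186433803530270958942608665612004396121908251118624069343048894254582621626458818041232653882706655731932083791246293091838282028106844872481940763523473273903297208392378189736065633201459202330448899925586955138560851115779373058720663575997110628266507933620383641913550702512343502245174450098063764608240408489833729784612648305659871509233964181073669455044998110127002310260592170105628195980342584567930014872571192946406318413581613013695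6039621321104538506138535582825172291246637673497293949578975186085050893865998196263103580268704491414602673584914471229373438782251228765892279499980360903716794958367043032639475569018009952455516689813083699183446982059140882044057301996811476995192193238378695697739516742892988670523060969873949871194582022753133823330251012211895364634467108634610662084149284228247784608523463736893991127079694610563173442393579197170257473981451254901029601471915362948250593695808933798465523408126437863982420068695580397489151756603714814069430912202454546780738059923171542495624554271150151524248838839580943894142372785960064505845596368164016602620251485836545114207172243803962975817137837096803368856495459302401993872146932097996021657183985322937904172855874778738823166275667673606773048640977220937316447458369311883086629839001049336773289503789313440012552344748078931451711937100789173840731443208808158592493783319680110102209037381603386296476891200309322341576180582277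3090051724354392831459091105514083528307475438890733584540537534148595255163461562571681935978901828809896085957655322576136920361290718303762557492268451131211702608577432201555801320099297818315662446767560382712473350908025330687678509391202581060840709514296329270221879717664832324723903460260100396876728337657466006433841480490411078519108062865760636717412927403274898668556114522131645904461958509431877125352149851017792143878359147473517135247846122747851975101251901827592085340755130813866193894110891038066013962299469308286475583226642341508056829850437083158131233058575880019181745933428596858284433510630307682533948149226408878300260399504065906058159078949330711724545188681005424505819223593730625266575589908796148411471073484525457638778561577332468072957320800511166831809584314056137404674729447287758950798589778733838436813656701716516143445261316037524418994895066184316385346821102382971253901936890872376383647256599184690036972511386857540624274371328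3126355206788328669398252245453104053581491555241213013906368134320109413225842683487053375892695048627755393001479762591874850378669472971293277912252432096166986840482365569172603892703062785857590975016290784679659974352846975830802804434643657380467058091237064087738065731931712100168508274442783948840557782991851168595415766837806182246715864005273724405381000715266519328006661974481590057360142868054863835889079392322654737979816987670515207911437791198490685457680014970306640254364563410768965633992614908441445453262841788484611806129934940465464445016783954558075851899343947360735189006032928698216938254960276432959588801909865117256635447674369027341240217140799689580656190986966642373427044295993621228813367111677440113880387541387495676830073470781475545457968870532298904964824454598768501793309874132578590290324465280701774510510609413678648219115230861896221402024465031194383211935088277517706078857106558999178234875872098979278150781838506428425114111691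2844651632477549129861080720744510065053618599967912163265556006564928081864768323466695871030182449963952931855108437388729022721866463335375194871719011839157426932188084959305450122452086878183442504773712168997202599643971766692424516355996157906275658934757146784235250188284981153787407167506915258703911506835108456948187789452197651952306813650300348403612646611289947034056395271541338799787802444124255631362555686845710855988129904102925971382405129240323361942667774324676774024765760444812890508771246835549722921610259534997052999219031741180180716102742543192428872386065795336016576514770102385359827835805976408181807830460483100788702099455067041484609662506589839361333286379801854800321808969300190392365788585622675755737593794778668536926776390637345902913716338121224994349588474583085351460505771151397701495843664150819327804785663489315789774134747786764905396779007305706473246519232430184693781290082627710850751980250149006545407416092209379629519396322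7046034599874749236177911038729207777677460455313288539421041368160065679244521161917022293412623143869174546019620514970108303824672996057926529374375744988727825488808639942782543916611418506873958697778842355267251985925182035386582866888728378512395783867325852971494139846041494942661658010057231725024842008876570667959492190285003154439622508491469665423872245054788677442389443366184249913690490040867861123294671543737074377529891027949330780389320695946951293168554002319001877776733226620199100020459780545936084842007193610933284344287771672630985725046564230092011918373802719368681768478457091674334005335602325993791415466151634872162876371102437254596063454678305288520388600023514906929450068795193844883030177728996311577560451417182735089603364997685084358416726720427550510832804615320869799967551259520901079882983707737406042896958301097076914371969405724985219241539641535688864311654521841186650324550637464296265715897825633629823801124724951558181349446739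9978194892760779273807423156669226851759902115028638467379652736623630788748382232724753515982150086066877454183953078400072307262862336865473602134878478055842829547291267555180075513102802211384550729309259469903738665659650715877555789398006196491940471448922762626595529006565250583458772361966868617515139299499617080226904046781298038541032994522912709013114187840032729216621318623183743701671398408264058155397049638002392215613898998139273613475930955335384670041484181767987668917352336299884004352369261288295301430883220233309102709741616532623196090793493313207580678728557281481517989375503403038423230669449112498135275172183578123447283831520297333851010638860765590644833877217263746923503923498401595473848863479278519592562764283584076443030668737883338161473798118734685996847517851763117093124227693492837274947067891750533898786915870240797600307098329153105334882494488691901528468856469241761646936254981696786094898421654081257016278175991495498222238577371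3002268656613267184651166703139016141373321751230743557169395635542002897505655969335166747204666370555267981938588723911350543341171238897412663893789476916412339061318698238254705923424119116427246454786334571639019315507432879828382214619293356222606606117586623115089856594344934108631708087877979969941256891777480998072085541074814654350617685215822408173047402300226723011593463429449718691228470202109140114099804347352983946885635897640019512980102962055180628804710103693326975166909139687329534721415017200713058585238884026139918776974983639557693188072245940670626759734618475906721624223992372253211620321413746610421984857700660855678012805655733398644459162457142642722750976769175712076262728321478009089662323862487735153439220061917948249470799898849454824581953494335612851507098661188574817041022623815529794654666530236887614970983256953696107638366735305553032211510740782175439867819802555507299871278687320064368273739694731446300326509799161184479886324078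2654248255245342136588102031876902836136102120711329894532279813751927184780253333759547870450896689058157507796976448928919997944376025716653553654309251486812622556007713339810121178570957259184684911596059641061754578767668710089092314458184110775415372000225790000870163667081917695946728392206642472918433570462726486619092344374235019676412135407892879966440246147185183812861692338343473525390012427377959110467427290642560501876179304959897916568376770203496875166649294040208326281054447213828209099976684571013141909715399591346661129704167662037469392413257164126377956667069719300095479652289058344525892132345972700961068902855180214551095397565094434727703487451481380165334806442637786876852745301708173397550219649499929173431028768541614445854960029287904385280266475499423429967713271972721385808028308147586068543505270257389589787377323465216170458308685517263013200052263425631326864286362044347644994945281365475260779410145881293939397471424770453818080225806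2469069847190268151211410792411855150202199058893952128915463620218317409567021353946302559755416079135664813653661641299121868733041037488693728135023415249203954720645199838940976006535562988988705056852517975099928238547530251542599756676133314135646592027545428640407779873250639094898174431702017465030052158610452474201818456141127421067007160409589302117645066086858423430369225079503084474378501379767362723271519549539343387765910123697723151144803704609086373931137698582400517741904474845612317759215566008250239494964775734610857105129264528015345102871245132919016133904636654383063444695624430261801489408968219055779835021968888320124393220808525721012709443167877158332512436457894491038203993113882415385766112130499771054966065987671734949542721278064163079061393680898447512907295680945415526423763197702051381184955557614843504282379771575931153295140050996082182326893177068670352833671696654439027606726547284567017686763170147832010460249464818784216438446562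6826397736222452399910649151852636900030039625396918834312758479542898636838938060924685210054577168169190228810324448070039273007261382717159716916466652965173126765984068795425772040810255834422453736446889228493273244159329883365242221880806881175416191090116321795506838452849346462060343605778423408190658608992376716108312274040322316650524422046120109338953568784842504942234274811803156719217849576833587002259999089345322392771849979611241681389555840894918707495811481212061570452483317310644852950226464284580530737694226603804458885032269207544222878926036530502602152035800696703712651311843819076427360380333557353835589614943880405219264154965201252981864994469339811457536429631054840175881939408437786713369432740120859264011124327069033622091687899947975239189268693499494245840171707761875136328993685450862964052841451527707415619635596548312512596598879426031773801909495565538935840756485703449162279362534387327790809471450685406996073181328293031009317683917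5910536721417546114230404803395118454721233313550984180249140325922749060687241854259480237595587662154181218825355633547266428420798909660779563400427191026705106830187855929035934647924051815267421735632836696835404874519900912507826577992022382678797551697285686414194784379410785528966213890674910403098958204305837689822581986962081740457352083020595266891961535156934187354117151305189169807829547732314011242755929456728103067039037870750978381195333712503998895920438865857741168018992405177719301405866325015105073960963352996431040747937882277724821915078106161349510497180435799071771906302552852389065975374596467434358841223115532301549567240458499108463258590109075336508832809054638925911505823697461055331466828013907636617855327271490304794727064796862621702290313049102043946731092880016709042280394261557711707804467107414540413831728753486457104536338031164688767009148182848838256007904004467414419005904844383412168529207203102849838296669564578958835356270858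9730761906886008978439586303406898247738347405701419960546388145343600889299766799100713704468760627992053001620984103484387575944999918259155998985441555053047203979547542300570992416727783336762943333942402874455934719255111753961514636624405413862736911683094174385618654924605961372817636549018849895231678427278162312978984760173883476343659541027129465087856374593774450918168147941029224051261521592039521380241694558685627105231961177533368918878446821560055503843161087809030830642908424096489710537015937062754882112970230903978416546516758216361031859327846851068038353222923759352797529375888787247996465280083421799066213461386215189730302692153761111063647656233721842348478821385186175730238403047643618094412795675365411971538729097710843487687127734095052736533853796368918576506384554852426606702868038156672518205639853048012224283293885630237087608168634132314828685666055007487336577261644955391851331659340060029923969802862739879919366958935334080957968919994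2109516176704368628094225912214787817834643548309864425462081095611642568603279068366309371260590121774757276502153165611555971103109850492678330002789130275360706566057702659769293204200360410875333845996373541056594205379902019119175421603438121719034691196223506840183261300677088406450224869788571287359102517706898284075703091452230983070255190059392228575080303309724887721807726409929372067723515512848107711912703663510136661659284898904982614855101816993505712666212783277776410038901093127997239017393577821235035081489273424374162538732300741035483610856191133680878758700140389868577995629718736892357070699759545846246847033349749603399253348027744721828900849156334291361164313580237138396241743624203218124351280293706822092052551761469623365282140519188575355089961015912655906622123909335357406010291779464672883899182099418822669330784387891153544931766710770653662156969320964175942396943523732434052304552765971474422076235112127213607398605470789825746001887684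9183103824806771310362456687824511438204784885353930417863187591858006180567793033819858393472473311957723022937081404217645335475279660311587133899661489094395042688678011592332775077147075633976603204811301655200867018189682092253023071233289644157823147861270950994406522689420365184632862445934395012967646286818780458671499870978844973793748264527592167365881769886935069284542881512270740432652760694716224580289317440880981289891391517818644995349983667388096073547792621493249980600459690671050801261578088910847808783429906507409512738294940511272037207639461532511678184468023339335900281652830921351494913032189021341142467764897325372397211920097172521275907832740517817136486498941909982553531133210118862267590358080042162670527429886627326445290324232943312375218547482517680138220426575989791448578439300161322539422349082117544388796760424171690380398489284151170365814176692285976693885153615568184846289441604011260379430537209640050421561283946647155413232617785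6241286761383469587143035564487885761935556884630465373787828560180136122048898521097996917631769563467584469567302708065530845243531025410717377267110269291713220343268959372869076265689673004732063934883410926431594407006142817751480278949136729913352336180210137139058394850997871754269177719787205141516286726169288540576902343025733299163906427840899219036824646623501546653234827801302235605769850823786674799962706862364159141724182833674934957343385113688715321215051873312327828943953347541053886614895725730335551043752415853886710844434515728316146378874886991313763371604394640208843187306647223201135975114683363891067497123013188428202660088445061071036625094604011177880178530142689307099673259964851258396238417783631644039246982551626285642472187231253677178083004027292607995777712896611674430356120772072696009137176846469634016903785106219600108388121586672764286218122540620905119460039413605690589150172762433992104372631471978396124067238260195295289540124127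6404421707888854871122386965671421231625901825589968293065811698335550746103887143674929804320099490807844019209656723222011390822605649047657700035591798271706884959420388866746086865475706180052402044974009551184856651038818737701586150414813077219027341168909741196758070885697542360967560116117746192289487786688434357972241842248989247072178736428155469922357902064831861539764140912971475738155994462967038031021664946073899992843636505053428368660383928196382401463352246607031944343166402083086373842024160239394808257998716836668573155078341967515374858264875725823224379954390166143019789428192380325290049536)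

noncomputable def rc28 : Nat := (nat_lit 106721169174977625480060834274304716025059113854523882733213541600091993766038211887644782959704026850449655761758827945899422966426768919151642543190812456797697906056676266463991233059859389360504430219583268823591873609051518418727895616188424806008644023394303205311492180305619839696705549231041690238587031063031464308056019066975569475522254620399195950369142435270997058883806976374030053109132093984878213804056679483106555669876642227655976345957942601404723033327042964037313760375804442229472304018099723328157198245199599212544416328140592496685625682899873118776195410159754152915165306595760746634198463261335714894931757134073131140091233177019289137630354748394890088418063927444449035438848640741969542802534197370162170083665562161937475931705533435402902220109399717015563577054926793970637305549291591919530814265850403823552943034060093126837964914212318323620706044349797694573921234807859692070532899191753666789866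0133910638552247307211166332238552122967430035139326327325447137291051194769305758045461598324043801938598170312463653344248970344377423327665200837874819793136591957464684164945126451942283138470589202847262521433556087006495601218523551126815366801032430314915375809649261994395511170690836180056035668426467243668329847348197113236360480504077079887634801663424344402626051487208418582485516200790175798119021501534442122511467076223717232782388703872569876675871149863817353744514163303529446882980300447901631642587913977455607347730065197618711868073591223076361477574246314634399111745367350628688223977086367748379379252353994332111222250314613249381949255747167105322350965544216777489331667134517447134787268772142892790441820542549529897392523791390531457647601082488050101069987277328362384874652666392205125691663356923364827936167529381514910084134159900144990114661234087942772691958411997756255184258572814046489750766308679747662269119044896199725499770340503413294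1752036188830939754891885201830653835309611204395882264420128146169711859474175765474248164772821708286271127459232173410440217283801193513017163383787122025476903824991244711829521256918352597506076071260533000349680238776709353556868654305455429584697394578426540805405670750646785182984708042747720231055853683422862631384655794628504239187071768193839003445104335876153808682595666399323870754601523940111519099447959679791280445928366478814125441856180049735893296847562307427269117876866746857763164885098580074178064138114850022410989930525235770915158928487967622308076281247983491653729541245590003580607229820481304379785064097605084984938619948146506154136841428368997742218293436543064507718155282304638825704248855633353250448394364121534140553717229023652081359039071459166341089595835319365558861765014279772341712557743156869537998628272762400585401278961667348601196690609209041975847506409970038542087368496987506005979012687552579532796190606121535296165304002483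5311004531732929973661755402976724344290377738608075030967497005737472367657128563059566281275677164039713878288866821790631316386742295880592578705038130553570386877357857308492948066714177126332816232961844086880997017869957912022673457921014611259695474430963034758799900811039080262512692776285163568812065537561244533246993357110178623907596932230769087542090612617804793798811386803749357754799483594898996396456508810722615302190966097815337691483181273809254480154570377748740850690320056543604194128242950084591806723744251715833686015823478061487431333510075621365991327360682670334318055024192607112621224300115722976075033346646108271398416464939869612072368944509547946109863695158073823164821793560986050564598112601063434967097635270141694135344043096744807683592192569980199103254548678988642428880298825670714766922436515218140728041849043352440923286917919862423492823688265991106437083667067405481988272869975531197955932871759296050629455198412409980119033507871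6853162828076344737248158850604027892289019416833754713928577757623787370917131646395692399949137662237851914036921566218315685020890172452252120985833721635099195319987549326189081010832492571302294187108327535444307414584223686846392449658050301999536532690809195784093079684456521628503709855593529725908356300159628482054387002807831950999256166389736025064896686732017994708263926881324859396570413876880913615406871966824496428269812062365888551730645994945646271223930723805212255263820984303428364433579806742485895901770498936383989985371333462544255737571298309887641574253269778045712001793090612714214237086758686218193011185206263443117929312486560642216142993068156222860780607280708261350410994342496369249352365761848511224455331139295748818284350524053267905496993305654142339871432377985360579036024049167286931797306814291901517332773714623907048141882471218907145420497087566518156196027148524731851302725719421852114766632702362987075575011553611760269414063974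9371530717677913613706468304122472536395998867088976765107794206092903013871067856930676622727306883126069265605745429722495909803202228657326255052426924296099685753864672626576600780690611498530742401573847694969090697670078789170354983691841412235133766207306051281001944014110765798857466944471109898105395074897230806860195667257122985305240726947283663332700275027685103061356225820632692158645302077365836542908213025740184873004253125882457563294738308265285600181114579868945961748867703387782763359775026593311230243219367600162784498290495585057669680360670564039931646395227850889929485808004772501916800158807392546074598289199429757402700132519953643673873988564841347069941122381850950113923828974106371908260468059159835625708711244442745256626636669993337490858466464906885794361670688195956902312900716233153461733232445161722078235910034784217594556748194500697063824237292157074128370015307951118959193308175227191539678461594458045860372273120800872772546525724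0088683651559532650837009489887589439294767447819086878438587990416944102802100241452021639159913737488444495884284937833729468868800237153184957896575209986943151978526314562878978451120201878812973047178975225926508554978539500084945993912520339166513544589042156752556177985935132214704169694501835508320347050074163595425456565205553247979283524862265576108136493474824746478161985651026144763904798515433871338580928670798499510664580971407675401099445467669052172985460030030953745979763959536895094283817291072895496041386934070452555958271202278171551264074887967683830812730286602053313582141004048960328851597571874775595820911395552096719071063012859046036272778391134919759384674174070227202536898003086600537235202870305162628913125789909133296848547363989524421936239286199233518584613450852651476531403226528904055768230237541254396981977909546598380390363929920865525156616273694207272632157971403479094904603173244047408075692602433050357606064588346509593929718863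9381617344777343601742097911529947309724139049823098649379932123465122743269523263726710062381052403834660439880047264800737712040573430425272187444326570499486327498135167174803058470233063268855455454037940768540064099010924566726189354274494616845778074589219353320169435567502686029889119809974024016204730410707435775763476779938995697877382434422626512731201159005317574716375480272398115146543286470840364448289319566230930077967184797258918930443649747120830450679518716235134724643977091023711745946632390533598766318317827704986260007415024653718307669992860669824429477194649249415223907733156463403898964440322010654865253873367090685871617066487583656736022668744539257452383261450697298028771872806909262142323323025226771984834376684855587825202445000168370687015976352407066650522705194642996453208812916698428486727272236644438868501413216291673357534928315120902345966195518030379866318625792425664884092276485902532611565311521752700140457284938614990657120074962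4815934744287299942225040212238494439927452818241585507148340091905606333694397492454698530733790525993058502732386847797229207109203638246435213691733684546587486121225430191873538583905496459997820706836232328413445348876709112469994395376337157998930829248991178774133239707227837937045676731429351293323901087546868062730474263292092210453964533961399854243622076230178663063245546846836010887780477520649191583867105574886782511314257963263337987893139772477419018546985905159447134212868258642779639633143047090233383447044597209437932134661740592572290965275740248026989072547026418780594365274587088461052663819871381482074766235655011872280123960674296210911293486988182483357388868538974005531635836906311840195720379264180020424115966962560483047424016333623815884995701854469024603915561620144995578403771089409340738558239798812071340097321739704883288086707406826412717696601549014562419334162668544655391134555770595202762814957553524633150228616198283017984418495507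4249238860676163826096309284523027522078048366361764078636190876526625986285043446036089354632746318453319930895657573769406872950296535616083825876989981701464845190242463731559468352376419676733878051992413843051392638149923000398640178436763849517063875999437262850771859988761519362150379865433752556401107219140722744133970161607438281149871888019754333145645094734389439097099473146611074041623214877043679303823929952110269847462111725566368926999002063321888174693422549987438118194073931754500083364247489477607058196282158898169411490864884597216499094128883514512335803659641993818735456395236172046748114607772688679648820737147924531176402114015396737553383125408283962068920412466882758405616719013388294067542406051295821382432190090675584336911303813995614539807287218233692359994463788974819233540300040231333213192456732038556844633131554092894329992050920526622584991067243595587711721931731053460250453960371815267552244015238068110576859369367558009819214839433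2138526814328420418610950391300023949069125902886417446545829951685867084137761140028671860203732081923097774632923400060288287747278978195640627724123654637775839720610966333754797719215422839019483619578927856841931657477995967052473725624876254599436786506894674108709219038131033496649998742814835170521136635302504183372810758989994288457705943427206225802400647393906136409245007134055637687485800344393579639659991675501420811984457000743212694618603728119456305207392551938574702723053453648789630912753821934398091837205019073440544365351787419431407408946275800240569052888993217037360941940317696832122740023486154244135367447656955442636843930584391662196622949395716221607830415304153017113848068575630346297413675365566181673574763333654884794190890967304055148560923848861226207695751022577702777202169211726262165043612479482727442054583630926903976998514796417262765539228834512819854851757178558709813635622528072488177245767126597434056378134162324467104439297868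8572314336685340203673226018125934338375103170971127117587774526465902182441080604079163536997086595181128031438385387585485755438679218401196033039467389623935500146787677489291253598238542206244697959885782668793260927660241811396756207558660387219908388727867824017826747964501091991550262594510698662919260896424800415077386887482616716767409856991398730782510825809291984425223612153564994832079125318866899685074366263562337649286157710846471964982433055561319797586453672702259808786232434450547552851066492771411847889697976466566213032912542712042479677407039052753741965419464524397371702157633489188629278527531871929756465991164654450581962101188030188503296207807867283446429634547559463253851972736723311559773714572291773986674723743258127336128682802648698665006412356559229676017757213351107267722614870424950674431053157594162914739453433711097357440110150497277961984671164481553206018138353524302019261775944620478715538479792853258916525449003339565536503775800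0530448653054279974553314187148825050277896340429258627710627381481760934900973571964243809050403443601697887301838651732683425824705512135333196125996285830886678968172215220166108265688107050110775484864021373752635188867268180844597127136784385068525316363705110754513281098019867215166111600191537133483408986631733538866344706432866434955081178070478810771461343899846942100504346138179082139099921341149221331994764316736597815665103428260795256409646720771023205879472871818540633321941315707514491549812298917306089714702766974891505263817343718283116982872335109559662580186978824229502066780901640652646616531914687286334360023857181815153222188272163141514952253233965526098371880757162948137194933369053120793128866952549430864151146429056738538269975495859272327724357061736973398379270614665704686452858935376204491117061480637366934315971233885889185700554846973782556497534101052331143423329778081274805969736605734104847192837407935623566748382147693050987408406080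5072151300209525355915447356682479779398434665544600621345417160722603309887658415390295998457051482450868479345133291836076590555380085776954949005797693855614233702904345728940504500039889309103289667031991051615226721431632685554871244158924357438745452509341866875268741601090863723855022557944953252760272083056586081731853944618731014573834584140090769123525508778437722196091936813331117924843584649009634827846555487508064556485651867533721622687043650762400178215763292979106767430856897134894483504603575293454746812761965333736142618668146826119468991560786805869179742152736371196536911709141273014048729595186302237680841419292788495503381781868081279041652422963694386916267025174390399573184350042196916068969433547125209552207507987375226316556581552049732747261702088051635865047881019066023326743459717457114454486232063653452952960146993860398876729005870018040866991426639605616750780843757373515358892616339720343709832223090094985062819649763754376775069294451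3179928901316053319625941275995262357319757901990619927336304389474033407578416286106182429255737047076599812803883776302790600446947491994059083008196520161226623889759409029003990034719705206527922416503483987365962582278061572612355746163515869229520349739439677066062180663114089903720011482201643652351829563640393846902169370390138811772876171379295340975611284830668452714210890853600960009971067146618580021004448526499103565752641054409182576961201706714773166886350086729747726576385326949469181313948243480723817797424491706189773229294041151555661179534057468979517142683762560927116752496555236687065153408402232543141800697391514042051019329842581854626212937700817622402500149851230924893575347494225645527084512108839279212467111479754732850928945791851139322065768732665798436243323772395490402894458638334100228159819282185668842964232375368448439534728474129401977901262695517386754018945280329520615653269605804760737645134286257763699119040985729145286880943140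6293864229126847100926151602340224088212349658359399360226850130138895269629839360668324246889132700942610187636443534106676571307438001936789098454443976580454004727910638571271251026448986284067913946796615087153308147143599567097814134343724637751880140413411223951599951163046340821435079193437339138544972904865871256862433463618113621250198935536823116080574576531091148862474941024930092983439783377040359791110874444375506881766104447188773455441264540342814784688700730452886395192919086051907053773331490852937730636921066645613270230743053291978222888148443871543705344881890277685714471516687083634441557195552461880002446836634417382264553502992465148867334472239776480012584445819110820288831119734505373448615516295923896876279887044915382500875963560272162979443107369705031000682908586951288625423281001560787698154538168780868869101041245339409518908813120563801744265761002916434200408876362415953506981166520980392265311947940837770016509937540896225148052952199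8777006126554691124726661463057429771666059988676210661653932632562537743690320114232258633325697157823485189402705997903238333379060006473932618197472117966673874607145976039589584801977002781272966186399121689860969151935425044615088852879453355383972126691716974178014691351498654034653222320908735500849710093420749111167048016767337129476013377338338885367303398795449122848224048249203458645932630214618167860136888061637406596380217410343514409114008299181679928090108932299874000347142391237643028477366276716321064043203176633467770932470681927353177716791293053553324195422252818086287645484935539049950452959950873836891970442456850318570773598263502568978840554340681106431879752222115855832192844967983875934567180473821870169053297015407590472172942418775451167884684095582723183925888904323263531163716699507589209060114219833583831323162174316671688134697979286143594637394356592626421001834082794439856503968342542884303238576155999031816557564022356398516991698124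8758961040564482824862781327714171441123197589444594221685524537563537036220287053942462261360064053917009233259869205492763991063418782285231018497694388117440485360992890933066602711544089919191947880263425292447202599166734319454346214801399578253377639802424769118099868375869452202629468704763977951579928908730966613966685320761673992948950198840439224554660903440100482336746788026606695714042726132024756875740957097455551779440243682570168848227106537880466086906467932140769280400225364849150725681316228013771616838222978975849695027805507209085055813760914920219092092058278546585301748056591680054574972928)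

noncomputable def rc29 : Nat := (nat_lit 106940067582074480887105601185620514543729240283667519923265864541582672741859670438337985512039577725171408725091928702688684685396337047319350257231104940561622282348391163199130908874469314657082554960965392638391559462379177159152951977338987323808269270673278731135366331454721515538135854586306667043501201417017678658812771539690767663741855377092812930933644020736643352295323975009429600160676141048480070339974737109986166185895562562711704021981323805184003479046768052997129687525833176667511533333804005882716409031301478652502342337125431773586013263191778918673863510276040139818098373482059780202287379237868159682542301849775840472933658128538448737916371277151674099476771501868984236530358549839920336136815407216330156756261682957919401638151091645831756494622487271634636820170378897820605613543045583082854657122310151731277532294343875770064816928498098549890928828565555378335234519696599805362372063194367762029822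3216068719358535250753845600370162887130920000636824160241320970777023862683598593745636036898832396953898503703343249005479146329921289977400980928411021743611173710653243276538971098106504484656381677484114686539845657808904389830978553214741190374126803394899477153296730527616441124518955604514083340714411993844233213293798184884924198560578180110035699669189868011266258982331558322025712418201132580605030500386539988047550157833804257587213259983271407719365476098946910163422278071934809842818919057112044866299775548197289296046049549871823357858416137865576307986214334902931168018190311451080882268796027079517325304720848925412341174499596604543294032862419503453443562067519869099477233549824097332511987919192431848060610498643110743485670048506257783290884134648137720854515599177226027491662444004849678478681216611270661685993441367191302187513986096656783838731805116654940075604528887125451949465313251449384601716465961873897657292452843348605746885054084434653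4854711435068500842433804297858646989904805901241771400219946375711639154391619952038258098842764751400560482910471669366417086053733334283534655635371352993992211830038374310017460817428884848657309077988138246939415069054643619392042892814929370016002217963613237209218122564665587357844195392725224653646986265982514355727659284514146930759312893109984702480636992702721442102009374575808306406789790332909542027129782597015141732119905277798615700991125641161597486532895507650157842834937065722922863395921619074093236675087188229661274652560991669977025672591883375215541814481292781920771519173852047067747736556911717948201239345611998431036915437813354974216805559979754407482381964241257998849324505145358103512683581271293253529169819106995073714413561732333568068655398719399513036936148242195733136926824281943454993308803848371626858803502114732966967978840038240202630656905226635275280832126375205963690884999159439142275286416939329531497847221066503178319588162249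3176797685090857373104033063696789922995925178784947741122065992672356756142136030931991990361841791332578415631612905371989941077152743871566245535399400325707980925110134015401687652005182906036460116505664210257585329968483991202355956843686654150006817422827950210736698371961456898471504143028694016004527274209958469741162258116392547473429441836571389687272837014443778976651063785138502557681657498152148547873780888695668511842430811546840111737617979378620510113401889685723699687338322477685980894932274890781233943815280686017930143454479966366972384540202683374551205794808108506266035128911352781507174581972935000615333634987713488156443832255880307138203442926975701738342798932222876120003611526226394155237202849906736424091001547847932405294853089363639542673173257343419763529996635113865078370028589982302055359589970629815191395289907804815542636662149063342348024291013925375228800755455458628757990175961322348641080251687621077830053396339261134826517710584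1552131278582976591279299243170748433153193605745101919978639419594281354073171668988191279938449349206847129578530434790523449247622604023960646087344764401026248383733345070161178012065073380134856377453784412138069700557328162074882421083553711090047668769119330871919750682803322557473483084056408259845959654631398211470245604840594496114601087138166678668689629801439607267097206989940082709576026457027841277939094207193861319088636619894587718088930925343638339023873020324882711462864065616058005423526367527897914665565630965222094076052430430615066029723890267348698182684177802534511798684964974145737736771335274398490749367553603805843186116837183201417034286334809274352029110471413441161400683675336763852802571470285074862361292511550430354434682161679829679307867624320964459915740628287665797757882722013769953821768227959495065806666733065733524849951744932818040734837694330800417557488281467406793220464344919635431520270331737851341429656838660075784810861151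1129967570085630405709739247650435651403870201197671964492107012062417113130966572206281770576850940772396869194054517816903262111779907394621367108241487430369101772783455823881372558271103647851208308048753366982172839255481277623969510665771871831262628912511279318823231381605224393554207795181312285571152883908292722885419313475994759209934294265538981812711846366506931143417203538987930411805557659986092727939835052616100950893025663427552687737817050282982972118269340054527313171278842183414554611602223810820843848530699369171907814322160103507303706796647864909968421152843433649758703325012827503305042931804953549425374367164455371729545241208502814820827902569629378640952121171592918776141141650769911725577906170967972290568307761546559140035441287850457555805321656599657291526698496023410035581230299203896035381979937238242824312307250486102955139966539102976199649153098794234332119264906567061420150940207918857484623133214268587036053161740018825505798953046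1594246071557686606741627290028299469634850908997005235678118307531761750258680452424044961805708602044620715260699525053359430240975657794911671351198810383399034332925683407422159428345791559509210255211377892892684518205410616344895921045196151780226480503674469536785226696115402281353754219354882244458121908458483883902053285358500924081965175226032249838290820229001122094136359970829657665047134086372614196117665380800642462967844444534375940208085842794753671380031570715383554715660516085900909207661748780677594843694040313179734564338063953107414097899064589357697734966819098641495746911777395121765233188341112357854918266036314168193251984067278810927611781832210773477584950977231327112443467685530457282649962564260045787704992122121600839129099441615032790989660559013942086255946900574794702271491921563488425678661526095486904260915284738347079122833939860551879882576076814797590605013804023021882769067657376610600149881058183206945643501888240503061638044624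4710266106483157139686140557947926616800649448324435369352664841080997034252843681061766700952462437827928878881299588859207429643767719238789833675837110148976640560829670222675941247066058939558930050417856144911108026593493854090100165877639883697220018396995237460553246104346583654102016655455703250448597926652200736897533671613855375623416479507870640970886912089320650727356168864641165231531877092254588473418034212465229914872499072994894297236434498313949185436601933012623348952300638606444940696446237729056564024116627607036309072685995575435349789047761988056465451732010651289780247414949427702047913719613033173415684134016369522377402342697864256288762009262021649783274205577450466321289372911773396142537513895855030448726140265118861666623616582214483432875187588014076496074191609227888299342600532821841764975927427142131854585000313849165654763080830910076106439642734274603966379129849065543925306909264790794324931320018178764530692580762865679490438494867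0847144178849126941462325158396629331396996866282452664808259180887992849689119688582961134600324042069420060669068491129181051371344059621241345369510139379347483484984407487827854062501838008524474250477255845869227832495555702417086578658115686341508753765644220883935563340252475664854918078403024114908527312296966347638040650689840284487228942600501778440644897675788194350301487776500770460930835654239418083962707343644128802524210800065814702785531033689336781162280306093461916828063091331494692981385931967298648234597958229833116582836439080730412496428447925648711809260026737363028687002922094507119732977621432782138750099116747099009699805992336592371780809516239596933892029343696930804586898247004407969398721800153655735553697642722988641890255722618479563866111240691998671123316802298613077892297089803765971335081727468006620977331308762421812222782580261835017565170416437452953009207478559686997389488203050556680027088223079393614856274007535817852352106701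6218585345570390854812621230114835282489778692504594774100073988653155545807494324988055772025079784690938114006147806374716501498332023091941905266206354842956987341414976482155448310881935843514706844536007168355367977201033091035744686712572485495793350789179423115396872477639114057448816110198266812037609756512830448346645443045268903359355799476174577018131793702998663032710557500304546588491307423576619980517814595788049685300633509307062567475229367673145825581439366245553411829873972796602365603815703850582981618837784131234186629187510966561662263705421520639655523604614982985801821854901232622057193192215632817866021463990191216335907068627941021608490061901953090495002517553465994117193116830574323420734719301145463292188861889344110488430335083093565711685427206460430980578441728753832364138834602033419451570964452036617354481012790231022653770457250178655917112869789577387294142067807882911229482150569118111701958205055740896715584342569957380065471466581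0623068242335365079361097813157039567721538399923877301837792503728404323140067977594426643089897116017090875897185656973189129235661571130474655262562087830116427122389578188885345094890498948805308149220428375149540330958826014435602822781557553528380747232376157601651373161651288473645898413384551839165672386155779178415915001237645825116599436878148994562535565525016735756176869368532577977602097096652761338159245753768621057956463278527380373294283846012080898954520637061550530541906087937250291413971553312429528571467674046820281132708475214631691403347240694511148279765193666078343392304939081480982989650397230670575154397782145429887237316063784391196664369977166270717204014267116291346105797673284868694891962673376168720361972321303299323493127125485358165866443122903673719997881333613945796106588720448342057509637738872006224484060556023131638789369217701220504852280717961368724110192685387030833498155212866731884442201777325014206067528386776928087315929650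2779411442874138944663598469830439019879550335994984411359304665619631103489562891083380301032870394548155964496501479302279649192615454630033940639904683605443176015845458108627106391234789149540271209973998576417012102505560996369655445888135980151924318733794718079709539140385411133991423239143850101694603951906656194175893534719959300757378332084273005553608893305512346839846277562665219915204286206990005073408532819857359636628348365983888655442584008168176989315290326397506938496794434977595743742438721726365016753051637921962290191764104854759073918796147829307009629121632590794974691787332445570274390691208461332499593846889058130814948297072357952695876011052112232902315657835212211257613968321326063715874159593042740667834048536668782975149373419585252586926215364568513120656822174185713526048268467928579270455085699408478029188284535093142117224739891121957202914045855194862302553199769658244443627487595150003866607532838526811712262221988518478011567769701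0884034089529764408471912669354212797278003035310181681496517019596172581239913088152849760106234917425229051096186662467357595708416133853248355822832701894359916138482946268199060005382424615706580972673268433179955205499902736841505230525590451580143694952805034891018142408879006894244595070994130367800890478556109054314137180654214885265354644273856702567045299175726265993196903978747409520177492964270542405733446223607776904669909301608949168896671850464808913128426813575830774282551457799438468663136002506404383461754966199021608290002202969059804462411359339736933410268101868637570898412919705183926317624144310637669474756655529481094737405378698024769779325671316292701689833524375506448206434333023326310183177095488397173855044820215025176132350785927277981852122106358827759383349475392056810570768014475630501140995454893825530511179572873947082145194158720811046823937974764231522950306687284519389160459600200533521329482232238345823227566724876214339279506035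9003203796073505557413113806560405848459915701358520179119278643211018085890708782736017225192910560831236819638207749539958231707390110640676140941467713464869886817354668578423607302132967844617217392823448035278126747965627008665907262785083010419983950410636835676123416165488589802228030985426501971323557190090480838629558334154986391315198787198313925412425402028073521866920560496896926741092705662669853364060569835103280837376813714790656469677849567836417661560545990991420140867227923643955227727608393879271979501542478384017109535026521557217002829449533745209936416883523577414902691464147542434722311466658520233282085109377576972136038762044091875912881096115861732498377220436024653662946252494473767014338805301406036803324819265391363667687488777234730556864889919318523885794752907823644294194945574589289643908106046090620841633775423373475039066025702748335827071148217449165150146572979226811351016904829687462055478319048507065330115467524892654012530005185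8013100426479680597783052868703420779241840744361376528243557342291671246684968674416533703133248241634055324893009560790154944837891723825144761771498967514603169201540393724458385073763496863572126829531901213877270587315321072794813430374936491248998190014107240133227292113540956383960656589962036321722900742737344842694287392652642524718364836371524496365896598924233415462314462240382844002289712327146157324911827485367793987134495682082407327503312280947389507231514304361663078289376933015098730947723216735902897261210983295173897589961657423676296538362521743163712893331373675865023214934520018044677625870902885506402631222473870943775965089767148126686627938699830024940664422786797202606202489262246288286272229383779287875562834600113172130534373894819428591064914950277993884932962730048957550484817670861526102411576122745064522038507591784313582384790852939079679396595547397280875713474271457700515915153278301806445195482283141073730190162916274267276303526381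3885999541129565928717209134880559483522988356333601442018901297218795165872936743752557359206757923415727203457425061359327822199803173820035023628104174762766302169361341912560777391971514214404591090521147732095168470458874620664359572687527867245337944100209982854450465255898830299343959117732563933690712549664316619109056816042338117325831405915183371786949782830254642592806212318570029069183653311745495461357197634405511347458524559411474183400956236367909426434832231678157694051777335293049236844563141636104872465730160899695293021827261353326121446109175031065646960675144166950740309748139959124884443689483120255775014389295737658366109153993854190551671375546898883067543678661217374225512503417592514078799197440405828443079429248275135325482345169984369986271091474078783095606088676879131827342882356822102000278991483920617956341703581222013608508816908703016542590032389286893404487852714745505929445758800759287114352665482853932575664515232162456925971989229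0789347039196074090547207370253921876328108710407170026394607855805733148220613027981961238162522212152747253129971776516723273601622383852959551827283660010631233914401544334423959480583410540586046432933341046094575145331520579628326242059554713017669904194721016738109478632077183924652358644943969441434972666315694703798303290866106602459198329899037135331684236614934474407310542091799311904759322152892552352782509972605606403294618606803446443335047587869878257281112618693437907301135290331578623059101192934646291798982723974946308244240597674354853118569622847991973623762261714788194516448439081873723536441554503858412542229666873944959196205442177303908692415739215969144105579728895564492303494716389363546946406703637808434924312727405431409618627296221009894051287430336975571219825500256460068270004697688375634258205645407358104182901696009254941864709643668638704790022540329312119924310653116096683626614895688142492987716297314308315879375245445873312414676626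4819424344065149015132869287397399335432026819030000668964608192614980437171192842991396896461147945819957786799940463050287545288778619137520789793730257845405380306388412089678698348486425483165619292404187529593381755041371280323950397472569957040932457759431093927456149383723892849789442798065956414003697614366159998860148850254818674466476612212051939913748776861140318141406438610983032374172009905613364285204684007035131977089015619540101256006826918246187004197194564911239799258896797668630798140777449317272823041893360147484725338624790309700834708156838948553223072461636219880972052452327217897471475712)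

noncomputable def rc30 : Nat := (nat_lit 107156881729510358807829818609235664752379305079655822240639872710625222732549145875304412435496317828730455082440452889802980708060122784977326439218183859827605082800560014478310193666408627138185749454436839694959912436366067752072732486576885453484466969054678971223566145293612952747584107573945927209557255592729757131992934549891772485905274332554467485528321136383899581576690698862242664585725240438526719877516068901451537804892596064716487546325643779400200963063013758111729826986611203528650427239143695477516971860416165694310740714542977035256020016863371665012500447813430356086685187263230152287811065560458701229039062386213940406690965724187829809544303216397761648327032954615392776914473582135631529410706412982283043708289699268380737102463748916749478071094794383931706760646598757315483035648389299940229266282575850202658354785800360188538718844021501135729316149454793842745449512846319750438617645143421870874976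1889808376234499919603743331973531597526260521999678822378571453811201110198782625121808942274560488712450076544441484455282315914663291506339104339824660837068076502129276666099725296236910276618928436252860681139187552346545720690431079758955385232448222957758126547631770087273111548852887323444384890518513540388936816022880829205551120572324120153529770552252639412715256950952138114557990196553148322566483817356771957740713282759354851684567056226306011768967324135357002110041348332908436630528592870343360291329557695520667756179592396506214266380083918289433065787977823071519047097154876812538692762707601629524383961522073460476141341728447897554562614010499064613353630789757544864444946589076961394316075906646968417293732705427101340572427117317690466868877220111743833326744089977320608321467306243391842191187735940700833444941256267984338570485447633816285743409247160186592314782263707334227888049509222582126898978907775728264624021515254048725654262621036510775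8781174701325065616320384787944337067898927280001632735784608063954058590191877100004632684665714123811326707459554942679837479263218278682266310925402942141322487164900899010256845691843882494983850463662173766602826153127589666321520031215292084416136193209830589229670266712934179288599647167628226956155989051186373819569933355579401931197798123093122361281167707492229573595153712145615452971292250207449630851672384340453338961183065790272637177163645199817314661322873484261083283388110158981372473603997468995839352885768233501457298310497419559660964154779753198245956019092906874080387733228335280930816208307791768951441257306941005292207403006613958983350404123216806028131544754289955275581589500085179507507260119386205865235643844637333246349401874983561313035586282176850939746956375583477779384148008682319253068785624812670019748337890031339817624498153601767867540172652022276517391761151975908705838616216232379205589460241616103664605149216704357154483801012464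4554168573365531119014345167123603085073264451434598953736688264692819518365349402848431359805088002881948627593776144126986738405167280701742185876653115375102027816688369767221076575936935440079122153578173692920407717022501455919083172850784876104143913992558210649415096184802386943687390919116756063401921951825476698986025113253611771946344922207434092190670195969641936025648784072199873089437719910365642733757791979542798692221785300883997757031798783562611378197898546016110815085125413024619816134369066574584383891075272554528876594312512710146988937336614003875178821448669198367891686159174101373139638627027587809799547344626791773471682558916516936538276839974325157177482511791199046058037342278343137006168545917905268651713024814052249574979935354629831182590048672497010208600927193106304776712724838516178626181523659559783758693918944536586968385768665051023770598969722468052475458380642586811686311071506692471408434495633655195332535836453918740816949830193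7266874977068347418277806786443956975676080860104798555150410853148940867712425695077960181815762047430453475518892595231183730461218697666687040240402616782931946431997835598277088801402001102918898348878725420186573050486096750985927785971618258160586243358918410726609793283538630383375228842213344734887738571328608295739799460329940328463777239409638819115603958564791066065405531364878618637954861166135946395268817767408175779647252066645705431823837455512934358428670530082790323312324860261640181665377234727567735882237580301403996110574590617840977223116101609977060053609031988627095806053422435133968631022762484127636073609126441420092526472279986462955735185021418578429154073421701962804537895938464053343702950417050017455662949257207386416250967340515717707593368808343865304857914052821732533194998155980617165689034745624749714723141047342094775579044377896246705114451927468118042864773347108305526303444748588255840307910999633694497161266808082843644287862646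7764330287570054681354380241826301500690971523832222084889235645455266765272078089945256607379726805389939943186452330203221005248285494858766571055013523236829602568955218721765878896237295988391877734021820765079936190517668514065333475671032748995263464189021770636718190101297742184884883977191951564344899848615553120970004675804357358502415761942374751939105615031931034054913774684273370292139677100828196148817658582398694366791770284597053140991162935399855248665915897548766706081947207654606435597416576586669692911696673545708727612700174484976289921307972868034255872908445124976610683576652665790716619886641195342445544947147439614405663908938235329225457731950628194415638660281476565802897281161666598148497639154107802387647591622992792664482822013690938130478844064473362303627285860610526596799661890418853968321595441623357107766919509576807521024072220594180833002455184899402399724006488257993431354640538138255062963232006547088740262149613435420068517449433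2628204857977148338634140918735779839488962403672100082738519942563704583999213742694019594498461868988706225992408236523156330729176754091781035309906767250174399945830429041950624804876142223351533509785292256830055646437628139911697491110398943908129749536193874275695959076891987321882550041102323600120051080085672885152032956344613470293871395890372833061133076085149854623462160032851325822559811478446664172047614484351183219434345415282165669424749277962435022438976912553604950152850204519894726268609452891812658560835250451828250748874612110320891920088133464482937056355165292442134022533411341404845167216404051750513101683323674317692688527132736341707056428432952447771949199782767163721086657368586374456090280587671293886707227975647576025796263446878611269828130430710647729920771058315199278685703763678902501916448696750011297330882295080552818988921795852160255887721163107462187383134927733443956571949361841912338846119324937642759143331983065296478841883973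8119453626825746137513309232036662497326156841962890083698504437662376976761212231212688083795080967923937661265947233325939142073993074491475733705629604876174080381686951626504131622949529465857677579131356431992577111809405682999050000881058103357535863502481101679223677472480154476064919851855943385436668690377246995371959824832320501278334615195686847839336688390430047652959250615638886562882911930588641190096875757238435832636487550200219815350559006843885630238745640818124059133002383699956403465646191802908153930399804468586107146866465172200688312733825053444996133745574925400190955514015080318920011886576267615827375195294469951862385311047022711131996316862022202055223942544764164155626194418325581736556872249442684444803210446971670681130016317829653432135857410932729711132883521172716354964287984285770044606721059825608766332132972052759349748027786737206777099901301704735804891502825642504819726076619384406726395674760175946468336890952751366137389337376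8691249772519378542010200261138241185765247071403329276895289018036660813245371984181555326575369220752966069622003828179614482045426302149370034746743738272437543807473954290665906068676417158731979261351486007488236187831242303523884164823861920271229216188962242643260990157435454268634947827531305765840973512610865248742533219156920654430626964835408737380076249934694704198995508142632010010015181900540863790810017611197588592976103509950208899210878447765725894121358501558775908697051261533583556514693107308140283426599428902963924864133514917470562546525075156253851745995539827040246889359713165351472392733945965559253169483092326113638560644517626408134789147773914180798536552612780860326736991294137707487271285220166516234458356247494443613800470317726194479091900629040143452803536289614112581329881671585848656419143107801671741115079626923560643199732475680680373448278272967000401035605220601305907999096894142577801983762208753120211191218576567732318202253790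0232848371607251457193853326691600349979607786767888577916863381067600010559993096721902780398076621057304104641773503354645788188070861934165231972330960145593914088875256015962794891077039073366611950348006309861643479506113382750180815101916305482472322630515423916458312894424109322844007305672070030496155790851429566976608474138262552802954496827049901355995556364487112954047834073363018608128029664015370495455286436843628996600676682267867663290754301486133437917523753790712351533897821446406998176010064582909306457825441894115240946186194361287856335001450796728662503923438095220880468594025024836458673518176307072760839644256571642367413133352201240605031282582026227818719690416706482047538968303045747460147648274743656840156728376693606753618620615091431598656284833877579958351347590293663608354241606394768872975615530145165254785663849982081506521668337103554213592153856699994627093646477386168778077008235839876957306546565741181311872084802417665066098877444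3537617221758627059000520062278582464232240598733442765220611437027286334898214189211732068870063738244086947412554704410563921338893648766434985779051321714506676304816647947273663144556567135146458905818379879312282152135509608018161133400640505653132856515381888279962508782375196196472110806333932088694775583453675301384685153477785496809593121508290450862480289855862808572003756539780190844908171609667189457663310065458419731911156199371880273624906957887508081299363688310258141728621404045171101407001888193616471661424135707250620826522128930029796343602103985653512908234676998352072938520459348838458289018463283602293611741967931299699531756545025622530627742760120678387533177848491500603338282063389860139232921356874226509385305395699435294597244209797033816896470979956728216546808933799358239724053996661765757494330748975046562950018717011824734341264859254382891958236171975418143629637040375128110712920227644945270030357215315859591370599072964586944182478969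1878754980082649583056579343242079612028565547097873221431053831686749608710550790597566656180885904220849529148361786108008633541459297741358141168244365855685812154248077408551350335898322485014344682763175296736287918196010016438061401856270618122128805538218535857572992441710684946233370922678828215595870759566535354675701327088170562635931446747296220990899582724771213094322964427396235991974332507133851878783247739044584194622379179390206951495123018999869774540570147781946288405314488266173426372859881698221294793683129376647022567089516684943251953866443258356547318744341093814015475961412348061241833471442434952506602813454695931373031052912058544022786441145403244308819377082683788816350801367791460959016511140627318577849339793512113437581006327049223616572383326980813832150674296570932772460441079535525169996102046350908175643357364468670514843205066789673895709432179253683089230093779567625204576989424551032949344429400448268717200428195785405634803091719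6878953619278874008478463001761418021079380498341515758909994589114640413000165468300418762106046980940564467405306578765833620144116230162915319127511545579527437732631206167923184239889022288516139457597073178754440544936899313742726540483847058708524930819338932347243105078215938053573014446720047392298845749949601764945444608648964998164650866629048189746508873936404798365583942601683968474194148693380797333572570575548784630724629911893213002598268868491084773799228826013617346851801787562202872774255883070653967077706897946897334016203708761054037490794199062543109695641841440590494477582086145781768999083207980626497319383891386126115421208766492991744965773036788419835466460347071990374966573907934963737663812770048029060137478998652051355486207273083033524309532668111680744789150692299582902524375997367857230218084923864371039354424729617192605069314280261900907613962697129354593182220969662760290704221506287144509604875858008751127271463503072656262837985196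9412554810697023505374650026749908454599324579369534138237169012943164270434521505923423539330568355271705902888512690120851091415639448968085604833804601495200649303301042809081878329588886174576904761478697793646322553850125812574099528105032902559845949509272697279070301082653275416577139400846521904869799785653950724113489662606214504588571654926621195037931963530049210878618345501704300501354085513864214942728424429827327159021404328609799602551518960789375611625355723292581182779076910704186876878938562885737324748409962168800030772385757476175801360592237225266938569997557725445302070009816367185997739613755010318878525398721965353199130223279346200738756685115996216738112658295629065495361501926503537270881198515664759495733777385495331712174483735518435293572391938415887963001522343773001782819993166225652470130527636478640680995828056629793151809298982525985017252534380300752504555019021020313110030825943002671265351579453222616934536637775128053317827972602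2293342864902311896792937785893948432279200062373155427586744212801128863365970096927293699404099297238421779500049113395786405956447372589831871259765796073675229450473117950591175833560675734683594114498457154143921429618161934958444475161384212719005078775264338039728873473801061639780750417214239210262836754686278477539596751832157445230343826375901878225489951847909203474997238950544165070721938250917460020727674839288086438542915320289797966757353207605267951751833473066714836508917089876844849059982531715435021153538617454848300007703620833057479559522763583120129302241262631440565736888357936232801275162720863740596015035526306768721945660755402862953414310649984940952279867555179455812058858716438795402070964176650564618726251157313898523491037102510757130133007033395878538169196584203747352814004135601721098459893214365797318124105108885242521753095619308137122319829794119038992033468671318758093028690074608892941564446025974415686786082043976059947781912117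6466134123400538181966116036920684284820743107768988064857025204678229649287343417861274581977431192770965172959668787051468552217706829695782576958800311709316682627025118128338038856828450647469996137255898879145691169179682355914324163308928267499139779727617242321129319240032440268530086084810652736958092012531896965925903589029320947821025234357500619933116765473925928217645769923205668599387649835877161503125914992238444644459671450001956914195507317501312989959855067404735351351179746701952384128330390152207876676184241667193164408085892953622904411408644400221797825983819278588425480766355639824707753910964020067169853373581379238451659221902781434176670304638392627332952306163447543005321393361757194970355821260257475072936862064423862036884911424684101359096891882594643598414336471146052275754940107180763466688076164686187726827266827837871926380342296064557501601353534453623583387489829330950798392454423764394516625925248256961347233633584532753274263158714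8960958403394539919574695751755130127836939399331721068408306936819634279029507213248350889373166406469536451292867250367943922159422880712372716488202285706209728326154754209886514620648569530027874264254695658567027218958238560790750052294433709984103836475530379788972169080177012113593662474516921440722261481659864763881884002368223244251147653451724775439759542385616514652250455498133752509088495543921767829093032173525706216195578716688608083365872675107682942489254265674439772022902295094589572128206195803024203106428952787145106264122623805219215935762462363961717811215888359405939675707271880367116373150651914372948745805304013972920654423874702810067346635915066973181347159284458495797382791916735588452048281085219171783687218575262139359127353489570456396463063093627247922056128820313233889065159736767620602185409034453457224381986209961060630538802249919240673400150937072053675124244839439436345976060039721172845610509938043883210752384832587673246998389499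0293274254048027667877882106643717822821128699150335509220763482677519904339892865085019962170037518437746028846075425787401488313870974598686515084100202309121209694782941728484583992391802864895882137765386569760406019080710452056270652634801988399303213981756007705272161433075087235411720501375977500970423566216309224053834622407765065743455430799668238113002440348853621318869911244627922995172255253759889904984632193335392432194473500129782645735638488386419990280975003889774145602009237644022951608423396924242150936573174949804410837939412342184464232529030409243646473781163648458818556636207153527390208000)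

noncomputable def rc31 : Nat := (nat_lit 107371610684390446320318059197477285803703535658570890581958614774918895379109777156922074879511395001241852637726374951197222439052265944551148178128459688029964981154483572922853054070391500667305548234527862368349677839833598510015505170176882964884650473608238075772824093804265865277459195381164174897851442079945500493039236092886381133000374961852568379945742611038422025541356634030836107557957782537354851314204004910028447298256574238059455860781228211915166873297658905110530377710547282890942073150201110837516896294593044822977044962221502179513191687532976487903250737540507472479542356557493720240956376647906163165180629055164054714664725532294574373370910750646106975169496605392375915944795388062577469324097586648801442883038273517008677979599501257056239585919477971862039579289651789008318517519678965369102740342143713848384323159412301462348522726994415791125021223233119344991629717736700149999941424904429536958018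5897468555437002202745255795292792170095872758626391803635084561245886733425982482815988361984624195356000544358432408334554947179128571203967920052597379113169233478003716761115770023235491966795354733130287901233471594103183396676626730577590989339989626410903582218586923095958158668211109054941160538583008896533239570352418660077243486436112720285747831898249671433295940468504068546383156664629825669523526058173193356185977041714722744798639052418899315476342490568442005292270018488526211795533149747935090630334898342406253589638230998835189433401856750626663765865428368319058742190577559084331985319278689058468835040424705310382073543046016984002017561405868225320807706356569550605303045226111925051338258129693287576768989442467530238117030026502073978690395962340386321759190864385099410040418152428978726185139019200636396954793585088704015098576758495857188547925851574565686070782372911457201931575643084461407696735802629107660098750073425058430319328973520200601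6028983570595602172434187423905552792394351454539524559026452597240731822341914254150373273133859853146121829129620329988149342353171419706696677109832492632338484802768318531759500649268771332129278286485591645867218474428031623358302062524060416329229595893577576148493931069161692578629436544708995786824275143083256659712779126080829136509477300291806366542814742511435125469563061933761307514788184079159983445602250537587620748942442889932200972618646331853349938359492235267882698182038803564048670258151404329474914331640848710625081412050390546386486515568939476406283984441385896749158628001514944286797299772551154485229401019945248148275610234051683927206664340027371957393566564660627125918774105364543298639351631285126826908243921459437031486898313260017026826636690158030907754233724976398983275172714790723681643753095229338878032153194741485319835991541572695155656382404422574103737539063036160578162765503776450611411367617229777531685814040416047610389871117223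3229718682136793258331300549590294446716593072833054440246223258892333775062364635526349221613523045489962685629094430847813711823908568805869938535196323818595156129697524999605988418495660105991975659289589963424607745596498073056900920328002328516983001226717875549195575914117134897278121463126411759146323254337031104537191763730902574731560691835431637381635280330627432958603216259237108641098278551543196769824334576092082812982219503621354558948819373429689093028836579656581203810264210977600781804168328771555489480543429364254934239688480915688389870383559953705471867315360257659265820852490300127140866458882117204918123947771671843357894309113870010777978494314476584021919772906939727468194634032375970516332711220497062593447683033597503464960948605050260480626673989703001281462698253089332034146876553919710965304842159256724046549538505302225737446276181839502897261462877320813380034565670520767406508929392469858777918030780777505376970075413791026573894877847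4924991375010665792090737066765141773416046297749867380968135882158712526458846347599798588896215419330794579314573571485313511380959129439738521155213529057313235432496673214803605946494953455633210319088005855760272753143501906705238441194036663671273495529542178460751513814292615561704212546271228950264839421943380156590937683954799596202393666742935900353287542763965194992914842418984130263582363416663369445397216063236277527761026635041923278660832785752836441974355132134691850250529572734983120252169852211210241472903277869031229606489519593626252991143401983531322840102934868782624177807582732070193000456221292968256638593809670023218350714663209278200526010038032539441647061115417611303225605077178303262699995861250312551633806577140353546225883532093416107484005077579667673460698970991959213732381274606560314107425264160084638712834094978266218925922648699042435903086001076724097264901589626104866724187499523168053053031487263637508078051855318954417391734585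6495557420876749501403298405777018903598730171969652959509457961024318309474246738052702385858485136648069263451991307238222841936134778798237464554899760485865240985908223872388180565247367531376207340289388314394643834073919276208246980205958812536488322421588322639377248776635485205354826034559237171932208264724516505928454868048921406711220652710678634069083692005762380103232071258833326335400752627052081069048272688700548985230905695298262901863535033184307399967145785785039876299942871195535661954236052575314012424596651519593322140291354816747814617201941436188966849797146053527951987017139621180751704485322785810154499247424578189348890474739613379938675374566748032769347726376155715883302416216620794504024512546508665641456313757117498458039376269685583762359856415769822131752858068913019350350223698898285318012047730477537844672865956670236747329891446664709032621881366429796710970474625345139715125243439408039831584257670956050048838988482946662413151965779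3307340697390379987641357494426395965231172051910873376387311190276613941302340950036364619937791412363041367256420453289496412260895348676717982629881675125103479787421494362392463981356778584654072246048389222606538448347138960620220708948372004985599379456009065023736278833542555527245761260545476646180789452681727731426391877628535336735825914178451293083257474074556010059230941859591958828186489944613248766619003176856578579190987806091919483024238646525357337492820838601734403076966508790125626598035201417373612851358155500510165120517802026764011057471883255226823656448124240472595317810509258525167785037083094915423563051295731495135498257854513784693481189205554611051226707034348134351555959048994071028771850508957871881074361752746505135607117916062091873924117308682369725665606353456178656280094166876835064387226215937301246772601060840585612038705063982050013525873837572646445279003293627656583780477134711587214724787888651891119641772516263193900196490339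5172787379403218615479349866875538735060733199924747474972301815760210154281344031695022090637932560037687855730873566807726218221291318685017110529058537864995603887514670284970834036865291581504502259205400091744259070594501066620390983412593489006701224245374405041348049167582082860357783130694637688128177372389732418500967456139608767772551088073993446569175647506011992196791441479274024851467835488827998503989650997451757674503669831538808519968829168435289354907295491336008201734751360865348559988438669432599091048404916647862816191064744926547944205984586055824087409560648204976815325263425409655833538118847003596944694129450204319062713060283997610152225505085595812685029974474596277838602072004209623055228195386614467101486298651184631069798114943764148228453188476228308690487274692640249342724885294580718623793303852213631150931340615691427920245987755258522980740413971515560833689106189890013660921598897805431466248017270013869510941595575649612888842163058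6456790032361494968524159781914676686212461983063736637024914644419682913435819327252092397437291105666627484855447826139402805432210356464595123327597521852440416317672039580215129502998214571503696223654452184274898285542072168917542538802732585029016694898784754790103160743197898549730961008818881249897625579779454525464166820594261981188441308317386655972768470332553875647974951827257808601343874900627351780662741244940628663243742151388972675560168360848206451737882123954434708100758568425298139887071349231042545799504478355862880835301722411204309777941696227264121849226134364185256755978869194432855025407462007256449654323858007327903356386874828699593815833855521435166061836097690644471254654730312961133628109524505667932794759603004121347716514262806943823749563536899766831054425549041159002918468438589269844649115094919737574377142454257660420094556957912801143801993100206327318602389662986523556351774454504836208286525843650087920830829636017591411170594630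1821850442154901225370212165647616854863366665133293481197432128958480848767164301518068198931293466833494214546684574295785886894812340363551643729419006850832301537683384127087469333666520754249412105040928574506259269873681127084207614912557295817115257881100825461403071015612857645136642924134271243547294622956219760966443655614803805318660144586339206722913572060389647474903941748587526100528140670453625068583373796373881580387182211217635808829653576038434635526210384537053050356535161191929940256541072733549306713877666906188465001453707539295878565788008325039796951936428325201551040276237624169308768366952168765709101540748678614237207565105262159401689376757233567394881906606428772839506100291219433078274117779301599305260188867545521711043945837152685589101241433793742760784399806385075921325759347541410462300809277954633539696736156136435220435678590702650456086925168847380356178284162576049186263215988886448862981680385452349867896050251715739576708748859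8240797312334881683118852059641198370819376926941521892845126880102596215565926021785273635760931811658345629799743052465660407884041065532310118309274817663760242291648712329244851949857683024195679035125037752122628125640876694082789669921098812251698491900756016641634642506177664065029185107974327463414831019674561646014327718826990645475670457441751410032608133267622628564589836732689810561750331363509572538545341855789759175470325223864690016550499042085265774001694660015680806673071548128784453391258838628240327670087683510296402116842013303406722893972559456378093029810985503681590782167818954232876437957420140751988145685411820137199400757676331638831241738292619047108179579266231733676662538278827302992730631420803025285607862844642384735724303047975600599207949994928200221096426562448801502394158341761501034353667804837034659022233240047491448449060907627252001241049786736279455233594869076613414938773364212393317467925660257003083333614407854535194699368093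1702957951527617615853088017148906574260186466916438315440824806189860053137354091897850268751561411095292160341873388574038422457756626675497800923230986591604256223192549323117381667212357319055456798256111183861208577668193664948552359186762616517871254451914545112853224959720355359794341942962959680506059895639669027126330037004165812524271112767035930813782178554283455239560259430578904555065456341816394325081960067330595204927280777941833670714092929538050320234807093767673087945780768829880665812083627800937208532854237776918766129578903553079267167103102544908172854287464123230529813124451280553070197943338325415213442402727089440505349259311550337519956522927187634384647510554056082764229430078381926824181665052669103448902344167779542528536491706859922423853860933787977981293267450413585763783799438812794651684455639054808323663354997081968865713899747972286475003049144762553157969927160018411720065871329315144838214422453904137108190723693205567436589931329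3171452149925034696071275087257918773342661565289376210183654519793412436254469758258216128787119976093583645074483704304791358447517560157104832080159021253630418377967370911407977105821342511772647502936186111638917193127922112180751741208285789385541866577645675547560973959286705273694891861175032789010911985275696634844727891536929543590837905484083658404602492474004253529235380351336109485447436869706026544417853050102025012394338811976622230452193366697274638354262226833353793164515641934035647778141895132188595683014557233896617475220777049991416395670093396982237798732251344136686211743465528381474570510185190440873301590338270460334642499450095343659219553715771501321750523213277199775646556707375756584716478851489921356963252658208183208342787115015323561140868545761627504501854216978976161947442242270075816053095859385727203560901471163682008418212883008923100010755130410093367272649778230017088983850352305836510411554121129199478875379917144599093230919261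4833168171145971265816636048527243078025152789599935509140996392937718370881658446608364344083394073661441272911256216882838079690563403760880005616501118668327177633621281151994105155053488656027287339550060615772365713784430584742455911090113206403681564868676688133589387949377182556160557925261502728466048768744461420136865465261694715149159691481308490069215176900666165815854108622975712564866682786405522650635990848958815795434241771611071712275339223036429441692724561470907678706008807489778406830285760942195905857966073298904733247054670055835750662173004709452066087946423473024847402327548756435093690341641583493176561919038911028934102981474301443655601548005592951209951131730382220780754800249295611598365282969454179291890223680055894518272921719059301166171337546092443907806456486108937217080511967387106746547540424877787809891151278509865058039442760303363294531062854379226732383271228236745472522602918157582400382609397434683205503494844119981887129148466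7847343490968051606223385099049658959145114442575835294361367693241807381177312220057090133761239533823729366867121492929271621009247545300729954860672481151065501819382676021968713382076274354661505133892695763639175272251885654183227171404804003252159829696510346206082090072816203107572442626160035461873235567993781664864145512294255865118438169381407387581444400990523176900342319831205907213944505018860568500562105321959283994586033122287748737041363451420930656885406849768006410878526385394198924527527134741533881848271995123293479986396412610758087838374221967745748690610306783115273597151368705459466260900036418171069784443558207338241212492449742569537227315466611763342535374719336677880336716860393187515831693681701541179599575891236340548779113676422168607890009683148590756649858725662433302839041577669148271358768486423809791439403298025832341275763550606105844761295869986863112265945501823631255538641814214407734193114968290296516728649923217103609934768010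8751203041095368197074042416243244902494371559588710195132132876733916326307453892540141210759025174897152879881871933720161945863205676562896988222013168415474435502342066215384423426323218677516983452178763632840829760072030315995742124070561338646594451115793420017931500495215334955001235408769153735984174619042793111335664532790047275560231966342488034289233352458529045946370034622943538409211165796850565062897692016487134428456972693843507208069212087003357532951219779775094306749124213272740373169275253312362562291542798466222255014301305912265870769090173701814978812935832328830743166450147184937564563410093597780095293054051706417633768273368059249274986442318190585415062751081129260028593105879717812285647348414541475917954021943961316580956989103464656887235359943905688420265061478096123310426645477214051618988622293714719404198381495320744775227836030879115862700257387377481806956057544805660784443345016976031393334905725700618760217223606515621690375248549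4160763522472159317177906799051356628895046055042369486391186530740065230801795844247054052900224146969953037434756125860828227954291547036309936642944819582613504663018288374264466236971100654585317347826795477250312189994370568183002839231625421729427071879280226427977968959668292924288311069881988380269211903901893606171582463618119382829871774188523541215495923435122791485111544321984422262067057500470412496300480312389025023902017127221464491111550990589646285287398753010933961044704500476814847026351646773033957656879657452168001553518935034711844587057516380388636223239299522301422246745796961590475902645349757237218237763170471878254885534256524484276506250399330683537455552231623726622357905059822588490094370281801671278806655159751118248054122325178381433653874325619767598645077778148508892694520625148771537323267121348452103048644305479433067393342125063529394134404052847527152392725067777565138169239864402021701278871318914958780256410051380192644347913283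5292510776520214598207975932500565233975190006669744306631061653498003786144846343943233889730549111985948039185217048811185578736290130072176157438454335532937653101796844982807797965494943247808078246333442021642041692755589631898024283799321700531042783286635400110286444030668447983743009544876952278550791912012905375367794532307639938213488392343922199424620193851782060619373187895959174114014465546633218437947831683850056372339514167239324900261284929812961639177757861609237699370590284749739212040543384027669296039854932556148651674299427771294344440229437453200552546227058583658658097784394823175707295744)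

noncomputable def rc32 : Nat := (nat_lit 107584255808309768323094995845644269925244272577196245440112328331068218373180749707929760813730192861758410597812397906005507459425089031080670578462878226231983932903398172561932358408099187600626705377038926141518772446847325608137380877259529017563642549642263494407736072264435330374105227227257134293966128536959741593265369679543680154215197815331125438637363475623607370228610974761223894509625664452057658158879295355988623440610255392783974751991575559187694733056558640151482836365595449186190456005806566846458724431165974791594776215373467465056246705671206283042790705841452060510545565073233060631352152212792958807958136408398639267782360453520189824332177636425431404535304491551024439530939927063690304015306143169927168381313795398548968077006609112433054328078569722381216704806623269879395095455422867698373337438064724289859514346014553095017171679296700065093868841617862860374496433573390570253797917004724095856248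9135642317699690263523970435996224226266278086557139516574595106201881370662155718537757920167848516274651949886288475111519793614655421042842294223806121822687727198976963187117265695219882960449710202228042196655921964752599675867615096802657980788830899276266749073145655561367848066502859266546796490234785872240191391826575109198116505534760509326352105553571734178039632373646205643101713166901752796800107833506943434209491151997062860656756447440181108535084670156453477015537531641815711803975025245086767193443315717480603876093154538305065886939281586514584992834605994696753983891342138944814471597089274015593131186458989041808884905794481690087720013118114139286634198909589840846378617826981211727364716271634997211624798747594819509275616913458998352719393821105239887511032806789932380467270406381709567742089013603052345036214060419636943396739857378356062244836778013897746755730240917189171378195843264119808979633232589108167951368888309123016840049756758336527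7423377970148878359837279990233549636574515699050387881999767264713809460829185994084178712200990645799065539413787221531345475209928905793378702412670897093432458041299158661625903568131534784153261340872182108694241721815429577018209216280314722122620686294711050780885011709993399151225246645465014423331723639822619962347666970595674612642243056655254183599091208547222825943970014720328950014471997492147053941383965195030909692799349978666681218087160955837835446211537596374604101404344766418892615750215722324164913187945873913050703481144297946756939535283564753491550943245722575928042331032916267332427672324326731107658235983963879394861961834425997231235121898494856613592714749907791260801048791618681453281636603645400741285585876024319626147402899946353274318700975800637204782386632236367565080725591250940592056257304618352101549485521829938347276508721958013429334453971980728953554683027162216778898490163992044809524013423776749472596243821831902723967146654250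7670417389937000846383213861716624671468783967746701711490806808980809334741954233442582518307615034321455276798941805618947271056841868661106175412319235176409471946444122855089906724212439386764419126467166910330013219555942329400406159102932669247297828868925532200996111501023071645450101043876337681938068044440627861436469930002180074098056836081671709104204608766510194696474583748811898454624168945022351850646507791816499294930912507946011929403071993029563477262658274831654684521245909393578708271963421372656314133529895989965446151453725242996366540297501368366562294337419916341646059913942757893973220248051825932971548536397909438488091712104476581580431888087262782611106850195165194807342757717092717335444606103724259905335872533618683911993786960106724837211901665986807764179473259239353857716263242324446752576524395547402352110694984809227385090459233065994369419805921682867699415052212445876955102633859708072134501930663184063486020874627402701737593880167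9224426829096293265797506016323251135276273305418321394345417176336442682557122314776363975835791025370748995454713832318931412298714017384083181597789126268416147361869347372410336808523563370086480996649452424427344222387536717595632633664958536036801190063164153311838944880312096216338703576756504438451024170596224439816425127872521342801317214211922986978017789711338569963568399318119609506176207790047875192792445941439148769099534361127324189262029165154751684879837796213730072868904707568226869830772241842123249901363325949048580594764745542030432035948765911178868395086483585161865550523787043934457892994598702222252603785087464793984197883108572664782222986669375145686622772700377600695167203477980360349489274920008037682374662102592172885322590881345495409048710724420460208921413707888574576833983263035391011312622904607969536579130122116953287332945310299369087062802037317292783954106969711595469215063533644291341938375436940758025451625151167152822725250080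5637766989855400167229115986505637789908682648401735178451240574423464351928937795030295921397558098897684906338734428222927858302986058475654466363656626710269452665281103024401291346145530925325351546043967680289584794565617594366985854539636870206126133194230821350124393664745383643462991071366497537260354341026678709073440561593323280610788297116872819838296293250746039732010841385569567699856281594652500092691361626431208476366865569334487160687868537599422570067176890068941787858846595226358816519102112995297789221695521735462771664250219628222730274312871374077705620250054335800053031447821233614476022056668300894447794620045360329846853562360754561747325624535721373876677308791853057459192302377993895872795730162571042084708211448502965659913955054740476047347177297961421097484388550168107499111418272289806285829505622602986263118913357754968007913959511769905721273301683749520565920175815675222840968829592823922914099802714515539418502269214231708332030744000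6003184443601200874431861934555527941336616443751529987490495674646994633900188068451573293448983556411774345508950070614900570895706838671553219858559583127199560664624420832542285134931938456815154622465270035598880181434651549985468687404897211362053129027664613147076597357011201494165804763570838259283015831562848084484866028373973022864344430663757669448287923925760739623902826759368866065399784031996193507976044914875981884399136467684117085201726466549749710057806471780524401460034257681851411542768808926306153492521792159877432142076098271230824112633154645105742969398628319193562865781545786505723481921067007853669530789647858285848585412364255959016341270703258871403835247275817830695599652602834346285714506985872960488827324644511918116328954678639969147348326445516782777802019269424349381460200032975313276606889460041661341284225735934425623984395643178633292307792004958388357832327641916273706282433393916490611651251336118274273431769285437468966309984307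4192017124754818947913905935655995083573170566903208828310106470093212683462136787010921224430403428573784653669132839552530354443200647238381084557997008785879667607930132007279117426309711374737912013141878959138852730257211601797189177258540522201319512766221980676425163444561645385932066570556877347390679509525240722884126124097218965589607162802884970726135015715751353573648291195267502242734990173831527125792523913144630836049551791878062169832503213371135207305535420777362184355821472534870408998472323286779695286157483285969426627542917359060494004173687084992419392106454726116399457555954045320067417795148552854972738727758488016896813912476790092378360403888587224187954268442040523199699640212334629530244906497894066886865484894664988380429742825677928853501679844867824000451428301639434508627467149056860438646102971967409610400618925175359115451466069141487551415041776860046058854639432253982454328045029911930612112054868573661425065222281787709324698901251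8618059500548137109440618811099717666853077886890719174838001090647833226421123281389989469302317214174350315988070645967356114383399035148544521808248626983801248947337419430212807540108696638687356629825640067330348841810903014981916538722840052677542134496120857703480670339622935997999024503329179893129539949117939028320546530170114791088893544380417459719633644838530834015634334425265665500529173804031004298833382394032896829303645588647981393947938651516609128807174506908035251837023995825798546640305352724994453883948648808834913964734931652283459587692949718029209077968944307099805216669885183522668826070750235009671342995241716840925483727578649314521764837711804123094050547789334803282027161350876795650604454046151013064246798360468485048287353136854679952601623408671920550379637463559639439353248915891584048639695529182762138181210431046493165156032825228666432412664439134494131561796703419919564358107315271413315677881335657385484884904274843696084675522085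6573548832555331688281271183791259800354216315386528516628845375886516774343168022410722919210810650883951991116626130303822787071004861024426006473898902885622887130645476399105313339443538031810164159166780483571725157108465937373048805483487038810528447373643128996278518567332515099776612845597133753004946866535630036726634941276969087143700447991580419088786496902089683820510186416573516988225786052409747181365786380986848650923552457116306607376698241425209784387809698691767862692270408681653889277780977770443638359617085136932769308832430307468279813292396174788986324292759732372341282987467636598870126411323889825076122348281501488189585961640611165822459057143499338137588669208374415556349348002693597575132340711008857332828518084554402120837100205612577732301803155109895482273674572099289161334518701728369002545442924348560406436177396462837012020752463611685766720787638761665996132175433219270827101527082617494052229292996521461422736123888380260857926558182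6321159098236189134751969013713673448883042532128899468718044919498754643702715140891991508320117107330997330882636474007043316449139630880023478585473707918298308259914428572862351677805697224450329598238556870306331655239458492228657461782890144288974021873953041845577403870832811560956250797153856218092147864890710275923832790931869433780051845114293709524407931641048933885773938741382749281767522798398727057432945137411291184051572876266281717275457720283744607936503848223046180413450274011226574848669630585077248485635409429889148810734132080274649049440209396965835359722975942631492706045221645003681321358396019046504344907352813559215238407801295333423824130077904607373615363704594885756975423254575630123389997225260346698730153857481677591630049780251811769177540567342903492021619425442413094570310611181604365415110234310279857944177384733281404315264256085905933593441983431901876745792404608649411007524026426759898753232860755043910604319271642433839597013351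8580808999632572426834549286791048023132872786603678817563094381202177267159199774225216933291784627635596087509403328538205009785347668938997155618808677599655755777831800816478298850743412325654937114053461785696599371474806483408208120281451552568015702977637600215449842389563801915656752589234489180478846271763327293674470674310499363314032753949455678208639640230232244368071060408679835784203341081313882611545529108004043664047787491605184408225750671181725017675096250112471112364147053824255708821269614319093438034606462751494520063191850001314411675462279141507300444071215453039388184522766176630086450765666066708878618000834667312133687148668090421454451251748222787438577941931613371116185642095343696285171804473087327436588449688894245354095621742254301145470562006552241725828875311122639227563193535944759620497120197721831994294028938717244284966734142783371594031909954638574723076972067568038432042143900453258726466530052396076146591343403019243332582979016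9185332040058112090565237809473209258427293113029130385753904389517390481138959523012385178734882630189483874728477213920460888477954406291316115129462319127830403192914785337937406270246824214137059670356674922138299278201976515730288441432319412761977085830991866859400715952454432604144994513519279074100884777571178270963797767666876528196227290378046094397835700099320764096640942608124941102443178952892235743544061309963578528800882459957614795417709574987062793774796367009027745273613427826811103544503685444138908146109106367315787738550072541935051388063869486953725546703441484922099230497036045822653253802390339788635688204172489401066721445482097023137267992705995092554500102027085242448194263633206250663675300821205974518174266972727850937004657900547258093057748040725827799328796657007400446591320602096845649575616359449067568419415705308310344344767751266156000398338019473294107055098051331882338332739442931515069768335424199394110178600150209817404401361768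7231482946634174034285865223173235634207852406256326319277021698601224832515599043946112764182605033617056247852809105230977089433842994189266344801353166439145142089962606024680354256403345212370887444639473976240378666052864927004495273878337235528739119600575265416421291249409508477679064315036819683110817760544656235371724979703674838609012999227807726512613543594659229740257972175953249176526193718679792357021271637305329674366526289768218833830458425272372231348542859101468846539125538592826571831494626783531692455683426251939610631511344991097049191874365905746093979095558261767881315878554699646544688850624602268211638557522633951608706164044233652303533901881980246455685551613582835259077919221875488856626283437083837336714874122139211845466642511754179013253353374999973688109322151240741295687948280150124937512837579502933862976039391909181480966374152735521346530374905337255536827736706221496771624105240136817227238382783472675970598041915290761817808554569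2245399600655409806857918116968036311275999981445693144769471159924607954816034767258006389903724154127456054277886611945143856302649088984745266142611830597893813604765839716273094739345161704123540746574524190002109099558070718397602945688136169886268586781008976254039024427921261777284822510985114737668617102407152318291469438651712827690010422743318719694576953071597018244850543591272312401096323214687264938384442968981879978391881977957808077119035671783148935307395990617634498610855143216439572280077879802183548061999167754909330344057994314163090165244286466622332006839632780319484928014625482527646714993391355834494906337091555790197875825281094191470293092978508451836106125688941070707653190806866045138137409334771357522936751220960349428206400329363205955110307393592951632990840917799118444276202018474890927017461163792266898090113918569248485684845578253751461910228581221330764811554345431068628612375191334118540925405389237288634097403358497085206982923562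9301981697816122947713185128400335495687551614533480968345179353541767193568043523716224960356140508366544822762058823290459226355475755017712374900226977922630973555666491205638708281118032915636980148026840590643645920814099101010378122055636933075982452142190038843942827917069072664430025575618034200688847561197008014402512327094389728891319112679958946817290208186799392637662837674754778291653740500081243728101054736790694504651986809690415950402665327441345703263108178978730795755895796665722858673535094325120919040545927324794449536713142855224826771977756414990950618381952162819200919143533142543657844317014986649116090339502481803979390621060045184395112012895760535168662160215836596105324032555449776306493512657660245805366569300346973603017842964567780628392080981881312738051061050987449559541677524497346761988604365929866429998206804948069681291255741305090838014537784551919303478560461859469879993890366053572243480491479851268681647071948423787136692070829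4843315474062472679000098931061148220630435728392622774361843470996601019066174091237575782506900292489228400992298402080847762477431011638228049372521083218528130583392300117741907672291455434769360859889233019696221016073001374823542779016022415268428823003734855986624143532256920857299117269370863279903680650216000754680779762609157189105029314622180777638859635859137513220462467172799468966150952565599258071871526733248769498564873813560024994631303602372085210396564083746696092125496562845711680253813970109204740972633656156831180666203481986248583528947912106404935407279310893507787600603170300367633406696120741909266278756719570566354440175256251010181575080421120835524247837142253522436482635906779949952326191567799590004515452774857130772900373342554253085343056764558672638051245375770057879438544793714769309209091292426026779534931334582888298475874394564707070795269387425042902677530099447834738415480996226218076411752163296399365771012447465799624517663347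8812969646522264784345985541391808379293939602625737866482002937603683511763630391587270130779858897157969169051784409990608721210978355036789719909778989296912117677242739179954916599630634701885103014033723943808629807569038427256941519845471376355290298981538553579332578750906639306840828374027415573320389550827201918651211100693853759849428161632942727433090498931867888055316662958631681171459710537742890121300004800586258713371992114498709166875202745057961859743131661198968667176103139173028666384668130842195976549539823303635702733024796096848766466186395751792910827808766841322695114172286901041873551360)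

noncomputable def rc33 : Nat := (nat_lit 107794818883216305331225904647328741242171202408837089722473197965074030792196657743920018385280200614409806223907585125782515263851085117066011610325621272045095331088212589292999941649802190876259372643119953528828000781690591032680226574803930032252856225260569127530923613749200238512628678557655906244223868995455127062778553752095266623498734354808588103975492608596654154031716478074798715897716227765100524722036466785021360587383768067427927938491402247889854430786091890675180938892870617753796859079295761613206102433037587181460229790087378935555569922049010797429098749448648053743419529648710775323296191014389930215649071209083724650660134654476544169831111541744848108863525853610711621498759371398948459772948255748394893839251885169783846198234441301726544870459002463551392958787749455393488248913719718486893383698474369206968950645002434641687303746975201286073565082558089588435794574321795775977739167989709140199566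2824757334271142110257080788434332515783937167807142183285662762253365284563979646735097302152150161682791391815832960469738466197277258604445092528301371514248206475943762697409230304868393247111043223884935405577415291715690585317877330704494369654977028192009152913445671408293125385363708004633166882435495671883309475829460845773605320585785815555752453619573025374654654036628331194868884902924116246110281112645861901826573499593883345419457741682193514834889256924157125123473345222289057431645413714360739697823660346237632534529529311458080665971583987701310850572573430874794022913870446144516209833258233299313471818281752773800097569120429812486869552736926744051192761151610553696509475735589344551646797947507510217443612723024836883848116874602673377096708827935941951326719601028351268093731877169284264320775281029260626723895311247071965606275210854203221695473456888926619271199682627201104088690425359755849691262718564983395969396554482444332445856262337663653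9693276445065234393401174518680874316120613640326436654401139908375387464188518269780749578621323512284004234757866443668051313195060390978810056661662175802853957628447446725702169774249601883597365314923590226958697197832390372722499935200015733300574534622244855845229260194294863431003374666996793064672977820766512852442745431051048889605880295968238627539695852309688060212701843576730209713021927051144889221579129768022172977702870186301641293162425324852290600141470447289394643179850541767383456019662787275300152212779711526135577254152404195015778125393149356085709476223990655487975368112479976537945323767485251427472434331100981906940156096748632207085160802312243696351644062263179345344327419742374703641867584863729627569109039846991370758148748107322698886929321778219194501097186118078997460136632041661273437977199969195680520268917485707746262421191486846375943171072304162796157589754399625126642852131745026518630729286693571556035625279473396531722558371715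1029047549216478019628366983350483570789559894017283177875004790108783938412608328968867448763669914009539079546634790935405617555776641022650530722973290502281549379834107005259624190787053352534859827554467954355026369915250902357696413718930328108341922931805436974833728597178914816332435993842680877298770506046996760852919760693332286040294521587647039769012889747209737362293998716931511738781541352631798693702184685659227412215847071532820110577364629043764968270390997120696141694187943280171074176696201561656120684288554782003876960021567406752450406180420726138792849965640007415555879250476184042323887116744658782269221695164283688663385319031250910682215126538560162400560680770894799251894365193078615004298783693395774792584420367594295237847096138978534041893844602063679109593123627573201219910040664324948300694294049353522093559111898826775064371432296394777473907912201429733990654330098371385637735705911992998877623993778070249914349907916568330380969377857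1859124983310514655928724478790995165364764636299920408837859997089343617337606132647438460118244724997357262399697347727305451922124402382860901742915848617864205962029635308681315979488832392204204950421026828441460089814228996936318051675499436438021473025846362362876780006968301068811689861283389078949684308204988920261646516514676816974202623920759436333492168388118680953609085270119706878247294220539535177192541581299386854514518294669376684126585236916591350844132756521978626098394305485371193319269311949481297080521720453700444643188090117230289228325066806682684485979317802045719099275187672054634493698988762534377372469299346694277297785026217066102899627002468005584072330376497670743540349612070467348366735588787451552141668246685595228315205643115309687409690943361751248413592266709535925786850387103005223598025327947894738588162188120793398494172824827373347899098836771903889813502377491695056541165892240894868282970703807032479520501911174976688845626288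7960832710699409239336914782677230798939640962810446092140646448968845274037215299419817094200711600012996207503719883415257108696064430290452415263547948530443415646759800840068302394385755391067682461410588794236039327689711218172169623720405146798786069404662081075647434145972083757772532670343995983282896404322852319979621445580115718386966768996741969554069974617402105419552645429422659299236232225613977493347519136194242276886571478589343093406131685691867451561045034231111534774060035180381715293898205378337555208437670172065167555925441375254274846038193498455873355151574098399311169953051453298654742923634221996930625026111110607928244161293069478709711132427492401899538118836777034730635418869985107800891975712920928653109751064662582763494800815977042187035677160084723690180270457733248048460446794960189395422377492081005017473593888677139941412645475624200762600835364240116715074784645153571258701839647561349171533863623193961219379713809048826011241848930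5289110863375463631194334402013764524542971584519890546946219754406045078612315031447443260941540708653637190331244928810212555314939011921162999936765091054901237928286190539250337280776615550085333323917851749566701639511872111707806237142953580551543791053240203970939825655033489196289155704145409594274259625474643196192658649101800901007880809597170137320366023331680445066539628754731221037291573479996145070609926959842419573460695217429112426893019406544900655318308801446165777433747819065060161200694035180628495822488278323939005067910058901413274050540454627246778677073959348825805143833870501581819017132712618421350384903522933753939905181493391701333614977697753905294895087806739255090078910318667850581246440355894359642413475058593248656540288365394568330068035607093595047415361385740242111972535137145515565493308780761257888984230673723197593651161057138015424624752508722359086737848566090818146755431428597099561896050384949999987398217584167311104734259217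5343617705256778949042748234492587293976295109762661088599819388985536912413699331783029642877114512062016836156901931859845291284604409608273891778395928133463615423983044822815296371203676846052855894944494046602305342790703223441989309498342576853288857287170929733654345774447058494984481878620063117535441295618343182752813869898860456593270613617017183089852365757196573107859235212973483122523570204458411751896585157088089805470895031650393297302962962482033447384028734301389788660226778047695931678019856319282458206422153184147775512962877004177332344697603860216792393226181919478953688992727770690104201151565354859256438316824784078034730084019755078131484236538498795162628430072190092748277370911899769603606546330966338987232095732458928923385973732801346750357141606988496073875779024229205206747365170005865280943185817596491880286209198250899350225545780936245394127763039143546474351627450878562742957465873629298146562909823345843933720831979948792678794938857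1581630221171352322315022847556910116218106085394189939491869243199241564046339459702493374453540261444599840566211741246822018242376582308037632587230042860941711632974236830408359206881739604840678842790769439116122067938478043481052142297050004118826782176826798559499231009927333854388047700185219179516089119464236590511892661611900837088456793030903619061248896636691515634982654223968595563589859565050277142576292144085984842244723842614873252876330532451168848541506165814319514277740143751578503692988015092884131110631275361652139816302958277109925651259698792590533551770376581547232767896226576701907782936304387261017774596333160574077480686627745888781102612859102061025172162819519426424591437228278045244342103276752987926191378498266448777806892274451533709283358471169644171988521129400341142261260229023248034650237922134669593866057876141599549878834970023950004551833543097477120620423988475099350957745802439972147288813994178420852129792743657226179872848113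4536951907805139717813026440434630015368436349468150517167623008777650180048332952006318188340860046682437968302645490894350757119975540212000620551912712829014173938729787008115990638852440484908562399541280990904580919872182304439392537688020649195013334796662392301251793963821419001426549186785168981499463705760522997427068548063408773551974625569342011195012882033295750531974092136406804676014056359450734251521858199325558821581927174587204429012007577217847483551249282213944445911519230337241718689856034010123352089060704968760551387769058349427788917266708020532233653562317678852305143306836910483315498027749072550320554642665184152327605062343075036638235459868658169206848202636298065937981257673985774571298823758251038835185791892689405853358053685993727372274316807633879215397347750931248201943476039852207709898872992145284171923750838104222606770448981752561361197685922053824036868138792063378194802444082963067353285453595185061596020342871242736544786510392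8217995776029956384071703289278149308703722521759213966035433942274479384517338149025122855600544578272682208785848648212960983630662113538731093248109469368446869345920653803648740576182523233891983284945741305093385487743730103779255026166197255745632682841463385260016801412587682807882273189048466280593199842601958099623436740638849086292729254618877281010165326476580284725880539868459377383248519246135506133089742499773704706172372230162429000714935202430240114699093093232454625625522281030236379909584177637549287909718458090478132446891109609774223923612981517128888512002886293419264176841874462022808869704905216544500547399930226531775395303427836307353308768229123523572552804729734787915513916343386287159925317348816655077839248397174180351979082860982507311435258603210170406839444242104243115793043090096330255218434493407254524247623546162297047795564649635071798009369502360139190042570492385342222340881794281390756725986214912011594987226241902987673862870817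4309998939150460294671030317516953713728611850380950336820951688182786734636742227534439691894078374613369190272467423870021119609891383002978489569132861238031175230492586753574503908145928936783867378707824892124619466884125167643498237172040294254542928408624150036692231372656089122505137117419100347632796363524534174677161577061395136527241935943782455713873840921426542309404590214768901242882307547991212726548030494923474483083990306375979004879408134429056470496305940843146887343801158124317058835183518690474504700046766828245169688180110382545231577529067289672068814292355597287116368957803975249193958130629660744999209102708246392680661209913849035754168124672533639005971838595394245687806641117631388633666208865576540079052526883202756742308130132444885780077124219324466575110081113512025235486620658250764126238526479777182956527996638594140864151055093375049159004008650066299288547448810797173274525640498319414680009962190276238915905541630895685945813824275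5012802466817948526602559666126504086916609536842633549871600826572050587696532627870884082980698580867118875129102620079221211427621049282330408730661272265395164751487335288192773234970547970810853652284414177742936109440672801747051625463676552589898474702019647466121490526221615214987432255142996608979640057207571839090669678624009165011239528923485867453288244581621494490493477827053028030017723878870464435484657473839808024723704238378890102414643228962598249108692894780194293227928952857695383778849907365254507413785193453738589858867857798193895352432971465972285405763575942844195944391051447977270320049253886087898247550295842822762562309871194594622041347363446267756759388388502637260592310425632570034299650959780504851602486680613674988327595756461254363444367986816814991620217986488752337751219547351777210440646973083139081086836319848293831208916264406928352523834731338361958492108213817441512939013145749737164190297546355890621565596506727397375531418730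9092856141976075383397822981714333230469936807959599188567492678444420860366377118171800772081718104009184772219925369847080543684987928160137122268458862483427567176834910211965907682355278526657068074651487109832126637368473980867998295158998559126702941242372609306324279447568060440123642840340390713782059796292756601222583322744631142441600493363931335096210059374938965642775210516348911769564840427754636492080047779680209796848726778735534737399329330314178128448770036357041837260701859233605662506804123987057119504134161141134361481973889384252231203574217582658285875553447902215462954441775313944259872705665174997179452543379966084858997119162047115835662224149669293276068900743702266793117373072142676836525380001379787170109898720366611119845037191880541875709116762438330110204645958199708713345066153967721147297856503689421180302601511529445743320430992204341125487661215590736640995598812472179043030253933481806441735647818351556417547049158890026834989969703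4132907214057416067129697162370694292467681914632435395115870503607347451462730138813072033615422906637626681739359272601933201459382160082171050118171386288802071761032346658344240278473265148563742034605736301177463168895644269880366840106919121823252212235967577133862489954025134710355034825805039011418749453047896079345390625148675293431206790311073371973761384535380411663759269150560421819757759731487537837210243344374261979474572725988610384612507971854794044771721618433997987270257312739800426989887759726529937846378300533750791090370281251545923881376260699655459514285967718568554756827809614782073765510260285374885465288739975505287719201628710397860928307296694704497358546954513277229419471755393831732716722695868258780695636908691349592360435003553704020338018969702707240717266336108003012914434408414939262238807574740961885704039855489933288190512924329822092944907576812903424852363881758589627573440730739837106532795337612063488112953423253693771265332691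7003019856982969279499790384603874304593288732598427514769476723336467951961229536544953216440734018859143121626589528888825318351774912364330950316625313175924538139603880811258172127457801806836225801490008585218053951331270002440749497894640505356561503568448392368467802739705082162447140078339720311706353547278757428617216772678195571713183492643123547998692974915040650406584745621416485728029724008771211346859561402506098283662672726408599614405884122519852579397449531205915187649120703572145643160675647368886882965293543097374112635703748129947722019322535320930755152810269426956189222647307079672203705792447421957445172848715690150356638136435553234725885272570724936854432889918908622826389715184157709562217635230368232552227862600774749858168608646282308475910280728974702204983449350334904835057937041526552060698511395369261309710360770654301474616250666820737504018762459222149911378948893450066197313867713851597866623996799063683310529623627951599797092712170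2448697016106021398546257536314352281428585339916733322398355958168554374820637228363895086562624842001299972534367907014948198207914586258127543793987689044437311395576631859543684332542317286028609522265746865521161919258024825688814999778084494447361918047917616013884285932941443927694660026705185504277245390085308625808711556011276705385589013517393520183744548526652489613907500770754897912423824854846561703440831606478538597733523234424148293943794633220240289615993339602387322504576279685885365172800660634479785534243991480604648224227885266402190765115599262196857328394969014519707584903651781045220503462584809479119805193947033941421601472503616263913488775911137307825972958644324190353499605086815323586122732416411374300704120014945492533053706319349231353989692809519201064605907838805885411245078280355262156352924596663316994635275004945489660408093871806450377806725351609528745826537817024028475908116083307259584735928413090705050216708836165709508659711508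0674532454202942866421129400466340933100661126207998082296696625304702913056130336886333784986170219150552845981669543443241267733642594428324368252171355149316051294180937488608225742356861529324202973290184820970223622008844067093046878215727643130099912949259323141480669682605986989241636141150628964529144789235837851228997313333216186380893214048806930799181377466460190686523966824753023539649660129193117736768445163410070397340739359182380317331137414121240548637591173939296436372563242908022870320263963592958547910840075820090863975512782039415109914524742966938102773121316103998185885260031840404342046720)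

noncomputable def rc34 : Nat := (nat_lit 108003299303974243019637813713074376546507487839941238222595637593797881043285510189212652319196431475002265288593428938863626812472053273496804492943027212832459804336021560938739701254668409327468660825710744855665319884146414073458523124891560776862591435618187845520430987599894928790680936802406371019139893281308226823070061378881941826819518087543654350345250731674371377340401078298972871394663286373078937397428021105877166123294197901143564901140951263334985160630360268945097262971489104503087091644965679087203211674836910080227536310578176097739048503407201893106045679948691104666463972296240724531327852345659253218404107824923096506114100129464549321768430082800703379755599905095922118700163235527958754101437256992922709666441772708938995088210823263321899948227136781092882817532614499818006320301531341150326104509354427714011251545349910112487599113149121407103449596966954717656130473985544052094619729998691471028846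5308495790136847259354193921233065901443622330872912089803972473080897282716441776919308464798249475089302672459251795470998237455358150209057376493933208272259968088064357068830504206907145907959451260381063221331799239034761240952061738799581580122664369756445025686222505505831376892728167924147910894617703658463525246618360011352700447977766621711206384707615673697866238574161340062203275485174794364534959139933218237447257319958907690719502195794379902137564997249850773205082731770973506020109253473635308450047167630628142697168720663541116660051492535762334910986295390146770336751559396099815109982199603157883525284144368148189313547400667233538976430381201470553006494797070187122164447547421533593249156101127905393462427155898769833962197142053235790138263179552938957008747081082877967574485304979991167692077343149234817649404023644740878903777571302541222680537144310862280824553132005722865059240934760912712701854846955361644541349872060534621378464307816044050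4609570155863288171696157758224075933274315323146838408395349766260762051105242068462244673783883767076920517224345577511152024963811127426768409191522256487981447198006982750914969728644376314413277426434966048304568968084584610158797500470875395703451879768196040009880160546445018648766913447336782616163798617459542895206224856699363980848899044884241359743197752760939614765880276216716802146674841090679098689656933045478748231325405325401387712361271690573848997988348801069155183745255745112252061251979127977491276402174530150262437850816621008162607928061572460963118955358506929324204018858258092573286277511203234925203853387930120411604583907380402761330339408647495033274364239930739444463159890494542959262546907203337679831606772092245721346625781639990147792185858418572550212989263386662157318231744536900658157437582072660325678064680994349312314110937299447808695985127806855416181877458122870204312011124353344616272065738828948524083802093436912890952899146290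2806629286260682676665991045478053366175373667602391003614971715848898118581341918471385831510707137099344580925872919101214132817193628095362207404670018290671393339488049577035278846246819476573549994032443614396036685002638281387293025471106300236206729335068163813580541944925502508666522848641895214526895076193776345967486779945173247914904749034955595672066924197754494045024050044142632178149405317237122788400721889889745091970160127775141011374443380439691142359718699248348677924613409554236139940855529282205953520984135274778938280541822359868844193756323699153772221670812052589184869887081248761554271972121572740822113601895239080148121309007036521014393813554364828714585700162538408039220073266978936384624112897592830799325520288519078879257010661812696484798092046393443626471466954993326168676161119614507736098665630463739164316381721819620361227570630932154622669308416544705245035188507233733522693818538549788921849209049089095390473876353384027176578208949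7132461234496167567753097665439351155862496815747742854545221585674179032525940807233138485667523748665778005462415591082364459850349273439247489322456839704383800205276007206267650126873218598796630317050878769770934615143459575038405903614172053904839861339409674394805112273103820949213059061224487363499198963236843529626663986941209681854407548157682046120313760104636572494737957310506677750708443661510436055409087814877375043516331302793196039785999074541218624396415850664343961751487369574945362400680679056995003918372169374115752606712451286918639565431700175499801300818439545833840079526826156989560912506693936795199929697590245081889779547957349964960304051693256532646445288144783260199567125077401177925484456416823444514872785754569262214350244116734724681965203989949687040594347337329848952563584126844591942467331612628512892174783003160901759998258315782780432465906363623565030848728886235230612163738006231106142931870468599780348909350395127220610470347999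8876214008744093392349960291035520077090946766560496045180127114662099581633446141754623768839538951452875533499922532880604065327255461083550543809674313252209157826621708992866488744136612477932635446850469280482517362889774167428521720744639283817266580948083334020763590207216700841794525191599055084453763307852493801594696975788897257376316945843290269432049548491829850060019731069370636551643715245681918358834912253302382983342866775810093095279255990414009494081409090461749870599690334976695019899975458426888475476398680594114601832367135450326880837392478377316196452103716047322806443967676351147887635942665042233826090830835390878740798840103691890568634577295682251892476822592447678601100212589689925150395562743496216039986262700396159706767104649989229551019543774061223760794992293123376180124629144238643170589114258066473373602027952327950642785125780646564903724856973075010130300789161800112532625344642682963765384033234204717635799956396607292239621448191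9253852844468337268164076276091767276571953812703243874955236713163273049374833610677327214105476449123066327231041706256023301039012639549064400269692683335882116430627341184023727473406549155658285038016101416964647068615110923311509528569973025687798855952076622479441391974507815286723241311269317222172865676964591351975546971465337734438431054753512958897324977077234211920726973433873677950955047837882741231002472915762370583628100561026854935089389419129971937856848754366362753341302663120509798569795500708358837759711216450520209128513201982299761848978615073250994594501048545957368416963958806211058041509974739751803760106916640657196064528285982075300412353368817959387737994101421104813967227686685178254879868486862680890820076411675320729974158066118233924261006763608408333739434725909847436502687816737067763141544524367258109387425094967741760242559628097541048991541931284438766617133742174742314023512591745014624072579326487800993828417006001163463342553499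9020105175260769889252627412153372298055664377598769861614934218181679846229922197242270241251042672544808160268601686984446436830243293850098945621341505973859081870210053044890949476595885454060004102209080213770851892780889595316893009082735914327048596758429659975454762326569074466240555434854732301934711957260585365666755321315711416756961399562961158236616677854508729061857420169245663230867752367909645977481549106151076311683528843807874334899399135777439069557510697575427751226251910099335363628844122806624960374212127274705654308896375248443594286143937249388272321523718427630531417239219689609587050978941319813371638014144238810643189223361287607476570957402775125068452030062069779912973681626482652630180284294636454119386374719802782592477495592765935069780177622311382141386781385840151545432939781955222439206616906515030940513328652192619507268304901210034229062283569800721642163254640312971751984769288520913208337507347718306668670355720257823945353389014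6451816033107946529609090903906550237095452775465542854794186504574360780477525611068541088588666301841664832138745362555438860550702026977723669408914775099485519586208490254129730244739215855185803839887850448865233900437487751116583459397707506697230812461261539770422030924156204359990057498651891358538000406215283372027307825055647688669196959969508552415619501511729913049142380368143420866529253265722925916642641003638320400123225267048473288427021989447255401540034833846126292843027614268866523903789929669665867216402818857067139617141559614621275379078480150081237634805098751320116425006069901035331696835175585766749243668749819867371889239418884185170289462433392203704913792232882594280340575186120599797546554819812674082436944515905643831385213138421771771143703087701612358142012171715812764998874888825644905407478423304808305490150214245676287475669579667383467396941942499125644052869435767942960740112121377751570560478895076294156547930054928195035782151660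0362356647741721979778481733411954796188180158051828220995535041581000204484410235625817022534051091408184728844368920990362462503582098454793254639182759313306490281377895186931012508405605867295470094518407015641823846569198923704878587892612574110421585180675927085046575928945534124022397390175604694856002674307804819575887574840406372262418725940241205552593818998953010965354476787731032936333516556682479476294828121796969633999775733753022700122392928910921099547301149551304442198551018243103203064089935252442190031690843137986834646770121239598504390027070111909729380169566035238435801841449570568518928667122063873183487351856123113510072454652859655917888245414924215538105494155270440966604412272513027524776372099511228036254596929096321098756830857654058657918171577402483905393480162435122634646241286259994971221231784031711856779213697467469758985229373490256697801625326446330539771297576876303743869795654569271771994830890433610424074650760831156803998653155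4816052436707563451044628778401583404132654638772158426126303829432879623593952335976683955044002829722649329418118309145261189293001021687209309873213253518552452889329541758190788957590924964804517601409605761695106605043677512993078067537315463452151315528101586848167720326516440691988558975597158122013693830186050747758883532508904908870619971091479596421132197064651441562464614450525675054787495282333153615139625362197573392945763375932794286629180197730860483866925491449008468762651034189782188055348291064264614002409656811727543622833484697090709276403909788512858918985230369180802629316161232770050436787880994138663776458859634555027239311893805635952107375224788022366893414574405559898080492259599715993116783460983748846426701603517475345433466248496956847687655962088494002581421205252300158219743160762440079634466648179250525588329712776867989617565379387592750289702032048470007272349829234056640844605985020590346652682215888880498990137092200625264350324136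3816203698615698622324531673856506316612716351653467317978014995322958123679113513543098471318128575595878096420896464987257576626618493441842848707471850922486398026232019157314620454997170873079314546732113904824352557427015398823682942518197438810927266272379465927370406021272707520781615821491532294782251955336583706741700666632354904130110151488602001743741323026686644491001429333974853733656423143752134536858999417050046247359166340383711730355350142349764832140994967500437262328689498050538361000901591550165073537343433982561407193172287142620841679803461022593829937187941808260698611991250977436856426410905266780764237334620133307979403760009479136250684953894369039836942128846620117933839471665819659053995896418218947154272113301293264997819974888969882255632850856043716121994228561909105788498882623495273567599076027931735868326448186155820908501229538481929031236575548170849744798488752386226568235429940979866219020910259658621947997326801539129421988780487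2029755141749561387676177174919772717198921716301657373691747070070895409253544052824110843715237581007932558458580062284993062702123789176899424599380955703461417802408294876046211846362267990632451526404588160530240199661190104125619464885431611318601014271423773628150167571674726168804526141272322271542564636083568100872678677526608898412999544878922640604294590429135962951071560398303791443247470378652875892809938960588318075117910551706605485983219298994840429319982729546725483248401037054418646490389231800176959414591177976945419730383576471226962042950412378215529401577953914993249547485033214089488059821671165673620033591572763200886805026591967731835124657971319964514840550944867837002649056391307503275621837899860517881360318406045409858428885326693632203708228143069429494651579825452101786448352848680445124927532116564672036112040271446112881648496406993432180034123605349320771738036069124741900480864315232843033763706647291255315980859411194180049153085487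1639133516835995825974448016359683890977587833888499140507368035846707858902797421139356943391258453602419308669300340605991112771421525431556119029741910738004478596497880591409836022100780771296792743573523768601562882084845214147396797507731159677529129420533773053816498596868340390564553952809683390563656601878507820598701344307338307466625377198596479353008049897662631434895240024000068956354453932985239148403359585506502723659827996202334769976253291167234262720510916857243233045660724689795951390463677375718364707205182460917502986810689856370146061875919753375902624669146004569208718972718654487676316170539293215381587028006729629581141459013702507542798520936178716611118011634814915957199744545726755626814791373723584312371630075234270516985161099091460212470361324342769357654835652973476570680377453731194614005244940722947906354687067980046656620323450821670668644793728203141912500247854583460818142169024653641819218156264253915012918966137098050514149863884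6899220377012135552456487282868441158278153159982219870888804603251799915401297685512597253815735064779644681313670454191732492931387395449818459799954417241227972755408159311865088425060715044664149162755786051281460698421808036758384449235331609307895134626361888473521575097947470708648043822214019951346637596882975094946632904333014274569236528809219427036098574770905067733845866958245596494240903409443211532011702113683512622498061091562612243898662176272391752183081332429461198430088820027478136096859609195471319258947721115948133180787163605923644570728179477868232663050197349785094736194274066834207970690259672326890746400121315914155539340665076339490199263531722862308448401720880774788907928384790007783173413360932659523575610766573392781092116222561026594024614874289995342639485524862691001847749466472508902598431631767392321048568188057730520913299922788286378308647940075618248420276197717614808145410897418044164316176607042909135158270532765193234425001030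2498666348231458283877321776007104948761802246831379577452438579274878811762655798706264389799583727161676966009381521449891431830709296163559528197249181600877103189558234129711340161821342358881100060326919176573889752276063072169845401936253659635809278299340708200869628817966521072534209833489126293529223686240827876735475097888497547275262101387826928106895746994983460610548703373397063087386201692608558177918984398542551942894517122028238271352461822436617755153039125527875507911592607646994003716540315499019188222631249382262589356791113130765033829554702344854207183204433907722945786424038137335140105050601226535565006515567406002417437848236028313687223910479257140381081279011162768789115812165936560076863754900391318255923554731544359416310971203983359192590944544462898709511046430656300281064241784186171332181659825272519637439031427520461236679436459991215059141702555936883215757911841131959333055390803993309608073834614416991687642899116608920164538906843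5757809171488872547379107423979681749273173835813441513404535147555884288557810386695516745633869574783066091383289176350389518471731321804679474030320521032386713853500553270036382013948556240186716398637124174862303318592112649510176868628227987943461361288328348396589027328121671290247698010118669007279168788737494628029696432603502717937373585247875627163288643015820532126655860657034734700067124816019251709810982278336250074465921769336656861078859508548294711771653122616828940538941503441595087649500889900256326547249703156104022949346919672352401586942026301554198664359710436038568070887437362101164256608607529465668350222400071169113168731365148516253372914854554645143402231067161619223032022056312651139846022455766442180386970805917915078502834334087067367060621168355978577473065588208411130696869889966567310999098181857739090592947056299671302482924863557715818485803176539065830417103204105620726713989718651055508098471770083728213474269693963231775244206035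8482460906324119924935336096200049882946587693725502910770782064728285097616890361361234577259897399938262837784688464054250639733816152181745034595210772627471342310583479339224039733121040739357798822619565673813008127189436107453132631414338881558018293498944553464911636692482738825317311342752930397756804977847501732307762404197983149994463915814170437388359094487860003600308090991543436208188988293739876650017304366480131747302776484873268338686193123344222180042997315780629095877397864080419423158184609358291923537444089946962044840573828341541695292167449792390881056904391932571277666103613736819863060480)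

noncomputable def rc35 : Nat := (nat_lit 108209695731926014856631115236276861632669276326898241412188503483672529841459047780845777474722667117512612456966121804548213387915776285829569998018776757604353520173981422615107465898357214956113458621370656245556501485090048189017393529433286442668920708449062606851425077224620585234656568138684049872449018576886526859092507553490859074804152422980141605851841540463782297082684590424909155751380146906344435854338225633492285591073248026348653431375065032552760788860149377586193029935650392345387260153474924746653267693819265560304999738750237057714961685052769603098195247618795959058723031979682698468236029900635056633743530649513226967541853313765488174605873982172100551835028478965555544328224111522506846566411229454286297619776268343192622186559539262819322427116565974541803344470495158956821525241872586274366497961087104131915934300984154635254446982892016354348559075520416212930306207206123314414807239111421054283453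5178474209182621144229804031606739258114167236082224193828279628316906518222827044360104761344510473508548494756034564194572510216725115701240208873573719698635849615617708239611364226003680667969181883274642934642910062668813284295587002713777302735921531466365693778643645819168311087153749052168182562496757867620504772897385854078877543682773420309121604034567321270392827055597667410330130780412811163448520259445429471087509734686929320549191881164005670529813811043450731549721169417447504981858106758503163091348333819635752840197409688462806121530558221586133540728057760150218119852468993377381423176950929498695060352675072125143936359919228168740229113995610088650511055419753608440884913484256318648482244433388357057058964137205024299175013806548816655581229281260670810034419192797628639012879704391015749068641241276798814409458006645516731159298519252995145921794825159379322163539375343671180662263223406520195962666237484439789888563250945302235362722104009525920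3868784170650175059919146829914006839116011088665567402613819221115271601295108294040960503066899680397621809345891224258585064645724464175348949807511357813080096564700305855847924020418785233270757290384372965966894337575055196696741512845666808136307572804359292384104000948277206190911592893834119599005992519747570234091865238850048279311909577469993871067298680876686618668834688157094916040632587554805123382033273703909495243312114741405485515826187745850687818102581762952546591742540688080321517680586264937201511865517131985239938026823392607755014228030199600570589876003276801338029539254358067739985410467741586889832416700438657139523380772135020866745921721342690381610785372786101906580736903019884178624018157945939135732351437447691368528654120625897931699695918030353046254657210526600737572095323820911844173176327525643329470972964035641453295709706231451187162892815855450237845570227953661947052940554652453788766283065152327855842025966087467822566709664145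7111048044681126201300141850769265935072162883997607315970314945833711509939484289155679309576252904623275618134235857136960099534781131132038517459367208122215358317757333858107037578021887326263236163189103240868653476651786357342285443708788168590383209076020401618964226942376304506712362677356755727811062803413109615260891598587620845881286616703249938468716733775467098708047845338621890433939821331345048852387444214284642666776102204729808289210316576251663139499042391343310119380439269622976371742047256924579303384059990930927723266976983691046724906305325321277414780789210075910671282199588951628756299566748469282675138003853281157897245532053829874498101249820275307782723616507246907343392646639312907346063341398688311574679424680578361388665185500391906974422622446648313922083320484940232011462694630090485813714204486726615522145894160925805915319085355456760337704918733429421948812817447741872125420165718850395856093476637921215673274200865035091367372721156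0853505576209682397590082615538045791198925929812748136919102174121352889692528460460251657633642935663795665262117359574114470213964428575073010768058366935816110740753369328280410516730011371159508616685218075352025470740959111233303320453959937829984815939702292542670400125238739567764688179215319002836197794661034869041306808665586674887992233804654575820782723627912287433287043005120971590881245683916381567650765296368762434395907619301489946268064637231447672211453572702925348853657745256016595551777380824106203905775518942705778376504389486727219808114156810747193814459158480122084521403972131861226598846989365108766177135839894027466670443806021891757568237846617952612058791009752757824200315934721194172740974321547751360853076313399944150257824087504733862448555338534628987687093994437523748939851477457063562149259767058254680755464093007865997901771727905632414615622033318422710363228418566332250002022845874645638820476229071779588138686464286239095848070683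4809110529440800769843377592968553268584353473578358462061122007353450559885175322073977378698853458234105242529072849633610489858953787193526396836182738719730450659393062840117769002483761994293337293900259095756698920109768707960292617507580780082494348162643560391058609257444699470515495484112070193944272579487848037158096213605337138967564352480899228529418386035610437945921586867417259581114520015151214450391988435547091714346610288179625068052674096592690522019674911768585268353869288443794406222789439219302310379797992812666122426565382661368313311301803653951971119181296592047126029752428850616347182805244687589125302573160179708386644119572554549837943574413631567849002459752384890242528814103235894950661558443906572709084276724097641531913950989743508830916848945561014864145887826918837861495591304343228064673113807307862648826039487383828367707112033070846613408413591659909195893899894793152980262246496368259755143660844195579273607376430465955541560004174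6348688454242995974487458372324034789374553887115542127555297359717766152043219512700015044085184764973083755295446110338371742061755980638376236609082196319626137551916783109175290130241815731459283065451531375452494274722502355050191707409188529168126308684889937249590698824932880254110662741076985982925472810349984206200376006224506702608988843251433672232658692102481406824910078003314350221884293936022513462810111611540729093665884456724484055299100585115858087890571677026258936653141444600989452936671540468909103418513099268247826820992849641613665843205376184699017755294182661838464348729161885089273339780292743892059465958027234863317797746753780464056443391906736098019933390780515555487569839301788248306157659028935082365323220825167293292643396423282565783685183795330858743850075242342757318455198081083486232957542934980743347061011668245711704219189719146512714102488678716410903926631908730927365983717711863307358032546497179664495259728294505242876893266880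6479349452925335627151188675646086165866304994871774950749473420395109204656112185798830525939922997021451842673523466406858017821423052484371141159951558770478668519351069427172475869959926580063482974764212119659650505057909512625550631708354781493650339201571499511870298848579258694877571218810982174350372020073067335340890673005123775825741262071799441246665224753553084375279517485957117879752730464896358659912146230993148396953386524741676347322853133005865540776242373018153332798133543912117248533688396501406755251076673253177625863148481671487315262023468592180497646290292214593189792492890138309439339309410154084008445835340354480829639501240683684891799294236101459735920427548023853252065052740613671598786638275857302718666304773031128709956701068120221295468572352000677624813886113136193805456887321030706236746801958614934847044816703144774323621737847858032923861868442596058411674175073938798477219997791866961037937194394485063703001445248682643658230709215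7511469696212012860201250180923265556056563410402249327334570277762037824090323084241968336781603781501911428536216390305806105990447831539264462436827200476140095056307092817404678220630310995154797565459639063373799836428739577381378528036312274725038918150176410538523809815764741088524367318533402208362441069576903151410329094952566086919622353831496819315586832146898589152634603070623936180304081704567050779818161770744803147335153355757271854944971355305501930613558490773196214472428424155489533289080742723911327395579800982790678206605296097335444347236704646214892249019679347901849027858178392853875998057677425162112997404724889755087644230591334833093649052405374000412824154446562584184689399948649028084308304064943298467766980081241459369364783440737279676053379453369416195863191995341123948644518664503189762713417198870550064377519543568085790488107688750208381341110331025259169786670109133308185261553301413567807092571571613301220446834183104286096861698054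1320756811237927720878138885341675380422076445090154123939383272444676439468984802925050992490798698338335487364392446634203730613651127599698687220366997807329713174866286679916562570779917866077440353052868679158275530948406479776048101795506251568012109424352224471740948336497425549893284773305983284949182698342355837779563119099324588955803003376655723429898821248714583894783224576344508297018587791418113418710616152286000178366293430502423709232664521493311022248677305369762927218482710682353751352747747402782976329249121199957476607126057327301664057623321396733080926475967377664717155391272594393583610741422905024889021547168678329999113945993407835093003335712454660372673117033521513644068088315755312393633124733316415450207108243316664766392332632073248508254765188552747304057035076051463697249142779100182237612606627616386488383189956892988933579620848505895115985691665076317695282937129247115627991879374688767254236522796384733723728334520967858294867033677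0571696762103598716541239458947697457526209717709714703717883903809537611868914980928330836677281963953409051801299787793450805226527328084524595361449561144128272435526850295870964802579155512292896542894246642433976401488946577125551141723121218929353584051529405493815690664153377269665146823388488426195170364794406589262370689116087104667614184326027101719721496738161901211518720007377235235261179835987021165579643465828611992426011844215961249553518294919865307522759607697600864573935040042482526170988293700374697122492128567072036607530695171039769665643791063623432028549393185941188001249463282062989429962389959897391491562658270089550579617883496980864449839741484386547446095225252884222565876010752462519492542496613760675722789996077071169111037932838148839746742555689384020550354704241780516015756954293588137231076776871739853020974815232736402371430426270208321094992818087814623702383590061607593362001999644755609918986234133346031575166300106399488151688611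1642752592248427276041640376322202860931727923756883970439971807214868712136070984036435206319435539682393601039490350858491730950038438307056333191474968541049422939937481053972136887191096404893553299754350534031259649701396687744735696733804789430848443302434444268216954909294283255056810322154472365299066622431883180995065175227098232604892106872202563705629688024534974618389383031917010785135670133469441844661799132466272618360477199308373708719015039765674210784998397840327787212180522524261594176536008817471463067039184692839078279628896638977427876741650894917468993639977236756995825234933321891098253078138311455875252316773184145316992989835866592469219990485707133606505311940001934994995535434160321688841051563584456036334581244865996230658571850913795568138647090400306245049190208160073238725233701544731906311762743449489808508513334796584851464155856930492919571434585862628361680505605483932076511993835594638306897720212549521718403124448617662939323442538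0440199627927153471568815553286049835904311522759707820947497307344012981410653505661652335589657334768955172300158351393409052618239118779467361499896367934093940379670966661786173725871272067745959087237461499228425133804606423861176655867629111787787749365192307192067718726530544780038975122344647491742930567584945167352443716613348799163145126095489032754905000479609606242307309602962178263718949001739578553803945803706535145494332475986621504115604312743949375958039147287513639152329957802719916337340801774705051334870179267364637567900180292519018097159979107072643012393334381458690247078255054229682284292899179932460390320241342975221677061803124207335415436389590956392555605177305518749812606345403803618942630900100548867456307658257710858208483875588173026364920651384189612425189546008433605992506018639853359411724241817156850741564081619403743777492522090550464164587624376995349580005032637610597227470593635537731122156729884213604621594891020921172385473244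6768096101724260886305510497431084745004527534860004366104302532782329294346734445289469013901486961695432582096843624179407057065277982299307883969258319510324882097018798019138368067514378737625767844634381993156460251643034496491276824827885987758081148801375300086196670432980103700087657147793750422955509539703748005406698983773470370503258919087967640569403075513952733587267099171107226419937358251464376451964888457155299680312371085808916633913685313438127887079155926416780147861860915003965879546044711062384422108229216738337712633948788129791858212897442184821136201466011843180322845641587077764544195154189211870612299477856076524601908748732442614446986997500482306702767328229715558751295265442262613346620068955680732216364777739155221472369125042240349805057358494699366273069997799035949820991542627914589030255222352243969715584087373886652893995884461934362128468949042225104314076778920631432745337251813272669584097454346003473790879994020677286242117114806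4113074041032681043558941334919864371740545289396296068268659740145578066351582696177544864267300732987905310938127386799946583904425424471836647078303626715483556697499417043312933408599729416169417993095129002334200932019044451912366271697155531348853962575199726731981398540853356372277246965490228658226610045036631246839951070513456350958131416494030359665369945263433204252461709975596334201582943593607001883217315435525588328046421065622005094914176771031677229315126091929990171844175614002134612322082516845882770041104154723797851175426719764420313552946581303739677456613291648727146406601784188627102384280738964041084864789050763915609983638977149868205240169952497715577610357997001584010627435348923677766581937222000059071030619253947683628081715431963286299820187940977609344840919864665164824375148947037494070152500338670015283349046103457264466361121936147648196177342483397089586480593892735899650660150142881584525173465120670487234339371999527963297251168655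1740910297318478492768858492481966517781862954276041630281852737432869845391327871577230069837189602040176982296790738432874590994859577705687573899842549661740771058192618710095766236499681028179893896789249861411614486493104757767895364988422004441400337488048935968682135159778846440959495950268234630352247008514388099526517464628921196319598021897243068676266402913936165553502269324428052505886529702592535354451808386442754897020309558227240252346984781633959549955847951497024909275622939946070498838241171826880916626118604328695632441795851825580493394079669325635521876018504248395252173142794657091534467005975075515290803396196525073277405951804207617373319598112136337215171745517639830535285382845171194594036056089300977143602413699115911150617449698772105750848428011409651767503906124571521405218400815726058610373667235814716949398481370774005278736702430989295649229664958497381396737909273782300702134817902918507624637140994427910373724997702230404644077445495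9944887765326696105377686055370035533212981886043922065720919945215051106236530778516021434459996410743151348937039027654965494208767212862487892778153448442199498702635621905752132384946893023674294890398845767120503449267812337189447137282487846430947633954588626482866403260949407368819478837855859448922575043582809078325003872124728048977318861878084260151669256127928719811479178750597079491904419292921735393880111618522516492140141786265234393350183769860742324545448221626865684626852318395982192321524241777245733949973076079824495101799118298761833454263311579569483482841473987215060991460902566205991631627478648407454780402597248652176461334242761722143496702427115410066133035536899813712868960053079141666460721662599514556347353168191467766825551311964539928614815473555369681882992783640929639589293109577588438843910414121933388116788917933948851309861507970395981881662262257462873891379467441739805884906393066159282461362711915775096988122102352384394529237480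6065064111953948887771867462647577500155037392935365818952147333325634073607489095754887765430962607455811865623205497924899206878208337549685457137637619163973272583278026702640503333400104756904255966546222411094848786867747606653964046692809036957821372788090729957046480576902587106800277095584750254717787476859097470485232418463779676022882247862534998720847733478988397384655751664514303054737642322096736270437423281417535003850067482997866569160541582999215938160418010249888884296158156305599157953707510954462682830172195452241044254585614410649598063989111583323880637567094038183479765341897437729395834880)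

noncomputable def rc36 : Nat := (nat_lit 108414014159861814347000770688244349475947036902555794325574109399571071458280533940740120634894469360065953185220343582039858956847373086451539340706736135552047424209394911354307073504607683293375278273474445373820857921659107448708660147368523796832531343836044032321531398973062753734724631856776423797375736622519885614066651238454038050769146756486382118255606959210423680002095520172227844539382906670669335399755101778498851152775432660100263801112829692861998344529079261252101007470244102135703423067914211798671688604445520596113796423146667904859956013678355579416937506754133898752530247402420798281650323072870222447576719288711882419968475415738149563407472753800111377503459191494087026757834494445660213366946291686418397615378654993942787175360662916998085451382253680116887092144164842430744018338940089414491558493744978939003932267146834502338474738216187153400635608527199167607234247561324807855418677639718809489250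3994412501268568212175827246280276607179957296001783145358209867772213773840743487788964045281121665653315979412097537517483639200476958169574619166235659262575621882939920031884320457043037897171711546692224701778574788091297637905209672880521715432782890402832790011148627807320589820496752873046602521044456499072316533506403572394163411667936804984682384671039063445124907257945704597103421903486387087464259817905775889617121376844711053396148481936403854021006794713100629777479594653760756921496133996510096567556409118122363020154769646613390134648595331111035574333451041399443061852986415103394309216650578416411274780089624198739204328062626614386184739413294064631848554032537019180874468151799244055571427513741791737268638224676584481640803328505755341765635974882841086356456765227924924537537429584958457205920745224991808704371373472390798104650493733095394278059474206937649147912110895112434808123334302755820108582664266424065722210233702628357963696898267384851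4587198285574650832242207487594246061543493921859784218719551566066384665583443731754303076106118823338039854781766015680178217109080865061604750640034169569275063905736361288200925470550058343500467987917620280472489962641385638499243486689943042176300208589125773156345062422648145444415081717180301413278777760952994902012063264634716978883273443062330540475755791281851693082364485183789441641920817972843247307983703980255887381810995987532656025381464355912792330954340086253712463797929770036863991860513463886053582601983140546362040785040781636058286600119333579613044829094026109451158944088985774421368346723636372904662275441168379775088559685176744388715425108645275788150014612765376294860360038475135757763880115368625868258867006879937966829421720962415673631376510849979247807474244327430458938110006321082846434223735287540888868798325206780968425501496731653220833419170593048278931115613879336823943314649171017086878655593052780990679202876233489120011911620762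6228223907659315004064300627307359513161060924705238515438449733007327962953903947879996349259137502300555963358479283555898211522965891364500376016775727518577226210437992226488608171806011407541665159534613468083248747495948098566887377820157511481545599469909027213828160388858779369347073559229474015980735921196866145619510391152160257088846647974078443811950381762219842255483261952785055052347978083685184244209119631938320736186243390369897404572427160990975344841825056892200770827520383171449216389449899536283691861685331115280182528974509363794540757107544418626243681151784984279112324945177573361030340005223863360133409784321918494260703265980518863852927580271773527366046150336253593094528163947979971134906977601079321330335525643178588390438595286304615857501219686132187924739715145421824574656344661738407264003100802389618803016075302660956535278152219357453318077744002918134586125962491965798946255960599604109646394706322763354908050482687293870301483889373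8849955074286543513346561277835993487725594783039504838686795843619398759395745497307549544089086689314358059031592427141229195391694400655250615323377192366402959879500372242906971787949010587621460165518050072864149921176950835332690519099890014985420384996359188219619762146397738524765582310649392501697892541054735124833391762117713351801663799996974445548805011578309373247749726272651477726073621926925950292183383519960002602759462236801225393931425419727448231853049283571240428707672139954866742047270204347268343562886170692445663776608689065878574294325695215765628373819689222200001914521210123297839928997678926937876208105996496089653305994506926784303076567812848395914248912368510937947467255679333002363867887837163434586773983831873147507816012930413205324130650708640615401383779506642677351945850038527901994416678970066514891619835147518381955763565676075592129522399693306188279811754677681653935912560870367366809736620299621915645342467125065454710447148744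1424814235254168776287907760044960908644685818573130950726978683736435685889263144334349180229776910933987489508997473761653497275881138968234309744948428657765629633677147331553319043981480765735233507139747438463873494207364154205507102051252362011942575189310708329863052242549975677408541630553259252766579830771437497961174518662481045554909051747636132314026308481266304825020082487928745727655416728137785613204263138645330516532108392620464063171000654856634468828749422522449678383681376874473873183573764833229844027224174370096021617784465556016446135392476431715060862980279772716725144492946605359872556542084117103914748446718588254298514959824632088468605940633078823170138885116383282744135985926829816790927017730366082933056732900291832877624384653707877700369856842327251887499255141505380159764362873267064510139744189642715782140948514088655582738277734577592019397265498311709011796936752874071603181169469703428922014256865302951071139738005387665967356636452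4004647132542117062810436615805637697118597792999727977650822808340235826640524319040876222187410911258261628276621601408429431523127010231582956786054141970092909415307734509021804071397778623589863381768483032311788787787345184264975218976620172020134111396198295848541649039311008229072598404115337573731125182372131697605051174976485362344449572816445645221741833476029747011040019111478261172300461603188066366361270698869647309435493900656039848038261971467709155713832176793508601755334695995707582905439599107141524817625614627785935900170249863295059951586041097048268757735003922805185496830724486007294027325081055723999884477949695424729624903516245449669727205586181076108441817008609493350549639135045533941206445748761752194864595444717660806423219261890848106655365608569082232935417673948913493877688569305539243926111902438850926375301953797861813327919266815739321796181555100161793740864546036756856935438951459321547965626100387354816150602972372094530394336783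3308628364077242595249250227352303018697452577814433442031096871519061128995692256471160495224517885597889706666977611130411464641129310797941398643264780933474817928669284500784781294581068379005285549453822072779787805057259895046029844107114577124211438636876032493931518560249896554336018551761568558595883600723350039287391957891730726529328184730833171359685007277343524263460358501654485477500463466314805916703420410141529740008717293294547900125075917839050182748094430251405661574930432461661367838718965670373810594927023867511252228459730583757503422533318485245249912095921575741561768831577613080424228030860322781190629366925582948180824002406368899682706768825500124365439999235597211014067311968097460138034860975159087242142474535170522189446184272068495695261513212150321387968560432036228499465700737598979534106316006659313699063588530691333292227690483904817323251928176814010062426729913852689184945749265387311308046209070427806794306337838711896606046925978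5636920000350330475923434167262696710151291775942872734100427429568373659598115832944965232641863448927923711439655077867230706142912387456774744769587217220903297885383253044820519665650926962791282830779701663393993049592449869478421761624123392368393182236322779052585167234943894916220892822029051583522222280236915650307047215914014053554633398712396242714096702508202493143738770234849488783769725396828078323067447378821449589417137007690239522374845982982677372394559265770446315248551405828685551817834286949875883202305740194745364592777172444497652228499428327813999272071696904435334566013803342050924010574234043376843454055041155396999599166628218566827147435814831537266822032128076023079919931838523099169098268968481034380610134346392850770669702850301133269814618739972360136349360968614406649291227430559174717925263732517797009252064231558324992193217731426902455344169630984536510572989032194251312465165929121090207111944108994349301303060992192805877001599287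2433250499968176784600615866695116201196694253265190534277583298118687441182948282516630174008918759665070870094309826457608607746352878450653998681336485183809266358450131213637737654035027710443068356274412352296841882390743261400361863517561694669005904457659430756038291616592116220244387015065323052135723853851178609668976921941690915046936013626310377988821370028344660260502935729315439004399432343987131914109051406754285336748882820486612752122514444871851600848152224862220321936699306756811304563000538615209941006263406417890139373740312499847760952078447708742746985834926629792044766514998813867422409740771583472003824580255188407638835159962590817729016469496007908361253759648683247027709902147786532608592319630882231590218177224178416582774396361970431607947195032103473124131222218169398127977784120032339212419646566295179902803140272698575243957964484568511591573717679414342296915892710363722850726129013771508292015371282024568030389416893091589818978519995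2720862372237284332360981317906944037642502852201856596350920594687828465740272119118979575872907372787809578838337394050863234381588295558908753974068545514198800322484611203151377555277585712318580017562510128594517837920592038648262681419206332422705648347965438761532087504361392930510940654902251921486247856697333461488859733932022021058565674680590444811103860921280424810677675354405128635123404356287407296240013710857965081350012628043426338801315641772933232781470470064407511012783757238920301222347666250343838984300497473588308015775199588604624641986179260086839193448714666672526053534177809595085366428194609824383650096998766716787946825506918712385249227825110000247375451038430992583138842092072457297390319288675362804559004869871975719841628852443099344619616952088664386580433382220528318141239067901339715060691791055839732509061750816470392777041642573671674206597684306950895352000198687465522080690237112732694804955184821827364068131533178735343391147464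2085776043779810229050364865662159927797368230139293065240507540211668246963171665220682466925169672457835650293814084684796066606945013064541995892785931055900335637427985960501543638008673985164375590849038875332966588533820015858853863264300465637841667689313794693884213428907377084632499061789474638299710465713344760960109522325046033903310656924964470283384946423198897435633951137240572111972956312395598922891565095287039812255330799789293949434077264335751323428431851610611880777605085428722229480832358760075180768531116951655437431239751918768737825115876730458070360116552560485495394964122228518718041983328628601091984796277689960860946761486556674836768290526392220026191118643185648608806546553500775513087778288199577956841852576377638477490457936542593315464551383522439197731566760152652787505182957914750489106740915447815489515819773230246233416735386254240946951422059440357329128291775875499018196051625751326417778972097480491823440295612529733456686607855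0986045022843283620022879521787287390269230895281763376718483947756058610080665496343893596045507990303249421251878413322437599674724836323474354504316211073803218440984932786027651928423473326042964388172258219513460126369936728891610265495181641008793468338038484679120905540743809263729379364041539542011841366400287859194724878369731450053592389296261267375410023697967009839343096516397724078799857869961279832501847497727567529772170910016460096271244968923007507944031456581705500129145981705090033247418270411807262043491898269265185672684933005339369097396275257671184419949723279801799003058850235700369760872714983923820668877373538896035882717846623359810345741754047601221813526713627705586122707399509082824293211211366094818663166886393917799971148995179962167699604048517889661748096489543966255026704723351780102076304761927015568032294073403287911679146703528283603313134649447733358132277489136560906572906045680588360031779617381254350664565546453998425904297491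6643418708639958665714782622373774924709955472462310391100966549736657343506217262235521216622371220050819882738609573151978746458751628468867239217821987733217533035161760181150717460182623652965162886846241439331829449024079320299370205589311007768697959558405900664525727024292476263240561774155039835598291695422729005012881154860430314674188937929549484211043393391936627498425489943166674595500126276528722575554482773595163650657196814397043216461932771913773290133456159524144387170422327197109344748286421973030553833246713042835355025881805586642605028732224347278212696293981435623513420068168326976809972553224080948370851533820090526131690897455970616112909113362533813329739432580429540274624435459513446667596359025845349211889798253988127594040159651471917834318913975083845149728448678168597615478262675751235262375360075046708972205863179527404185522552606812556864485847143521580153852885791472038926494185771400625304447429358075448759469660013442189361878474314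7955826031962068018704402840842295213667576253953813721457096430264985268042783580079647536930858750425460893363464058447872737088658044682095593331406861096422838805036875981155732944827267926131571923266140903781515352487756488609087175170918727566279418077141802957398518866112925156329470303523199783790442647550802647664298047487121881764368869106932800444049651128204336419558320142638996699948845715884202914382614921425213595823649566283420668323949253794516994895763283195217426220352693056161275000707342295061528254185077904821607101702480974938797148154356650355419374557691015203553429225765034488949817892367833284936038260854737697101965585613915799822184429451326557120806804946614413355191275471919519514911044227050425705817621088160895603543349672433891997554332642898072961129618890021953666573444732027999196948938946535798816685274439926677146385399391987679379228376660430324799459809606830796633310230228075400112565181176543361689127054112838343863598407677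5561075312540046957758855262013133975028025455677534567302637101473625350188959805904957060087499301990101313566455718346191086806934214419858269066720563333074360602558660622645527695660848309155251647857126837153492994216286199025020801682087663001384183379222535993514512177392828335901137484338309410778620966115619846673101569272411450176486235549766216044687172995148562108784020775542778342502110537543436116868538362509077378657961325964193428577590948993126214895599466488734766432220063004648343068423521729081013445140522243457189060414826290299965887395133799008906645424453138338458939023581171296874872381466814072589810663255092594942569761263697078783482897233426120782759493457261771435001702987113531333346731868656973666605396986609534886360234299266670666703584181939725975585090827763376005131900606835951338352396190991386418030424198140916304077024056003905877395774528979502078055887176311347085223951792716428508763662481877497224972545042198639400747432576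1784289692275064921220612718389198851386315440895020139681443671652394694476212283563060488326098003943657109796851088686905021004799473077200770038173265446467447877853081875395003819036649725051628156019405257061964350024571674955266970835523136798131364378769698227753165317252533979887656792346514386623070532789109171162516484806288475926966866489392527488037069642771198954954150834133432840009283921816571280484888486685275791618174470853238370733301829861906885962972746601559864096282802758139892160241581738985712096182073491208558745043070901438841429120882656167301577390811160465234219417828861353679152687668415545590965413058129647224948541873435729073771176332614338578375478433020330394825187306287153806454172104504876266245688618705191690079889583136034331313788774336714704927923893797526526494796711506723464924092201136875523737015241845723417626907209265365676109219378654842575910602709023841806459352657875599410100141673420479608422131385272746373386559933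2431704720061104327623035315936920970899091496156618893378497455386527116461432629761444875558908951997310717925569483903637513110410627455012421566152763468887799656402755541693033934918833823197858463233394179245197813929392816202642131258384865908623761049778674045079139433910055734463810444174174056781481465807241112199983331728527880037327410392536804657389094082878138869472487468844380358693417746493500901166436112722049983049521007087927209718215186401433607445329181642762083926815498955749085969817274342174246544289772089863310992447783247941082015915490914307208222389005306434119933113822011751086948352)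

noncomputable def rc37 : Nat := (nat_lit 108616261188406646627867070954427295883127814848362104329372559026724913069614862772475023395910988607046897035141463828382308107952964110280880394340042747672601302984301475624975241388490049953564077973765557122525053521809477962822147387982877124429079904323281494799456101237225277050056709197062137294325156535526946744586830702704250589043813499555152539671542190725778197163932363109874561093090456479748296845249447860270673479538072403802622253329704710697092271504328536325543360433698561566509228843192148597146840483699154572034639631657671987565938462582289075094174621465674509849979150992433757473196541674135648531739091190169476313730640999534247668109942323426023386945687920373759539489308330082061811327403908492055573173259274753850234435265138740487116343296161367610694689602918879146660000880426738531233821464163687778596135574236381679862047728003092327199465900442258380081942161672208291417489768216480098225436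9196473839158535576247869546525202893384197142368904421680646906892836228949352020359111476798413356897051847053947588645837088327361506577163160612656999482664853089396153497765234877804573805488101304388543107201955600200494276503889624477938291759659467077487400615179683591476187385604086916452166971738586660921362122010991971846846581694447880465763921759796781864859271769291463512291525583510158780829894598733729016045758481337171767935717003790533636176037174499000686033266638476115751718460734974925546606230269351673675213209630515713165846440480988907232995599773672752980020015069174407330265363961616011222445069279506097307222993394389308406895078834480265765322935593252709941496904973843129097605529991586899523634700168999735459161429483538271721363732333471000033184625977106898045073104881867563218303937185781281561332032243399711510095722393537732085333319827205702217645296872411895237259965391920517930894986075755555410652414520423764846479803766149652160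3273514623335175742318203098542676765213319281496494709096077473410278026199126421237885391986883846238098996273258187534718859906717695195740511341211411317570283249708078232034203295451138559250366838522928794579909293680566199341785279517305664676196096730923342981867285892652724652344726699673065568568108088695171337099806223280005070692497004169550647894164804938490730574234120397089853630170381563516838898419318913148326018632099581296000567013121101452658554068185197836516806709423937458433238070339627144292566810925974318763820924610246326599190987073078713014513204399927201126332850261341712459466720284218746535825039738823686957962579656550540675540896862200716484560208048714730926675285397380008328377997178001131356284498938019666110907434796345534435084870616514011592937274431957674453840331998669945796840876599858965922199695774573198151144672346805807186477819780790240954458482367818952385340645849497737269333055644634443938541909643479365935287106614117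2990321564366903699529346274200658966757211170748196440098173084347066034004544204807459608298031829247871770537319408000607250287051494378022862029223308684705832180925350572208364689531593661646065112853444983235448401109158633088042817086874278710359349969207130482390720235787354004501517274655144604566640442416186810686930562026069758277305665258193679398666227695478546650374262179031422612091587916221397649199254436007052312323711980765298852156717524436604018137180749271432307951393750559841084811287302227480179091191856813008016529674527364172687624180164051597164228238571321822983476374852586629716729489585353713511912270886756161190045279289846352696624987910619206064560937661774199553712071818908903055226233535770934127198232337010822578017389370475511997484292332653876634493223429720253343139687155192558005245064349786723091168423462158308222668389995326083562685411266820389768604382608285840167921934145479204477722921121837287069385225068467608235887295798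3711446307436009572205315821521898486960563336634571038561870992148455185849189293846576081445535675426302796659519853856391901504678705927332080211649588373600852731317033079508998701296563407220542839174964754659765479062965292806652997030010079567019349353338675650905698627242092560558235068622460310371351711525626479898600672174089881152520157809474799515607025469850200324559245913604314192190622763418851214888907155047209748075649824458417152532660806831298063254731444405059264971539614435579384282643167559892147726987112837783101681005074267771980710884002307277373836836273565642741650120426755301890838304182404314737216389498278259212026248132523325691894326853214290632666456838784165428536565964741884876175426174167419576640678841912697775884002196365626601243314856929539837738299915126689381756751629106075905903997190636611808857091578383647454079952070569286595805383682017883548257325574160732167654527487950744613737362657945320632611318285003800695159932866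0588134740379067212813550984788281700236125378477263393887000891266654661162719802264613202657639713015563321661244356277349545268528713029710522759036643136911322834868834203525316975990105659575088480967499283774400119854690965632654285224914159158403535702630341381644158123609576943722466684370776989609626655688950580025922051688555868304712348256597960815043306537841647916090141418448610726289331259611629620164431325826021704295510284188335679812995928974848601370927320349116681459964541636903200577552780658308133238245496098033007881392617260654874793808553941080618026611698939430489838533696253386653211653132633591007093578781017808769328079159469911280305603740029742508535654127438095002929826636145238175674529186368587940748649104514999192232793430243279277448787476818858430602463599654607396178457403725226210207817029763978111710492736266681600942992797147509603378736704993058018505053939548140787941469639444995379385954633981286053653482832322120941035682205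6185924049293962902157325168409066625696309222015952148708889798951100182374442063822351556362517067072245466859610679686399120828140775278956035490106012251320740880839679671545947579535293376105309602549381791983881128346328685840169732464317329135238515650969403202820520999472607363446453886649285967760346122265446370959852807508979618123380846077501979053072096497464861686933008330596382226192967545413818177860541430051039503835673930580395120201711530519480569564200366603943956637946169974368022451129965647922534954866904432375459833376450868571779748450109916179400638660290993050912437751502368774643658784317310883651232734601613599323096130180895391830431280201508893398007957974439891550983213164449060687773230699577490774660006767797750206666236123569403658836168957011488119783004126867606074343901961642913858272113577111547149637669522408889993211679929506426763467250203887430036140098543459237990734386724272531751686450718654456491871564362365573639721499203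5732028531063349149009438316317718236827388854255002515890142918880931448906120049287109795824459661983818077797255123564813153703855462417331984017947555721374160086279133711815861374613028324253846495813250579235169928579630127489252682190112664306561778407728943466235826502008670760956641170637103931577652534314611273671474317499290850262886213022391967178468102588626429610941867345549874343514277072284334787379019395462858205850980140461433619866593333131796044630584616900525026730307137534357246252851702949353355311967256193165600815309591219158312214064001484902752838337488632399868520011313326022044975872561323843047393628507231878693531449673679974261515555002741497284011633765290425724909151476728831264814850193630894903066777636044330772246035390837502461991684517088156098122611704542601559819191453112552959131292203163708135021740524028424062883145155790108189059737305073482146435402826713490268954641284499954118394955700925402794406934638874921443266811573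5562176919168559609184973225309589779431031098917084659494490228287017368720120575792638425507044527911130831799015228876377410015121627099195064792386270692434451770626175873357621163287423084290005461943537877352738927238597679253102527246246228427728083198554274677085825397019771189655476614254362639976788440311209679490846214555879840112500552763398775401033512734107529537140777525976967678464909374845195442333658227595202421334589290895879258953204116492479220060833928302526181897754286569125630667892749092341691792438769933810843089013032886803742883817278781290894914922183520044371072238480154719087530655018601934471546688161315558677649113724534217398312654745767920712664544190181759416462244121974724420365549576904227105378676258529100245804047269596420007545624290604620719612087405881114238529299434468552898206193151700020286747343645866623502698180636390529444094100886919699263930862669795291380335844052194688056218970338321894702122219277743204047467960944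7700361933105665801977924636562861907578806667641695978491277265313942189834171874277859829220013160662418789230147576299848052797891586794481802737205253720502965152941624635476622043144996673209892374632421947894990020610378959246153644370783834254715301692417428397346771822965831076908999156575210845920504302712991915331666176038233563272758964165262613856288456389579104059789418742897534469674920432636911802713438563959395293327224137320410648835994267069974390945028794110742326235498096915147952381923295391723839642100158474595713126653241881669637103580094927658718249183501740236847368158785363603167113733777634672710738017278563139638845030220823417961479130228144326636811268987317403370695749901339586359434884787427462391669183087312949369068908614399314683658531232079103055812082017475399031782276698507314924845184076137047744074863711603065531724035258441343169266274963677168807753770724433984177458604661335080769705421204146341149029185294511739360947921689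9703573131080610950823747195480071679637912304336470735923045876441219957272934810103563322848595759720651440130497183632835557274604109135996764614857705616274623768819132608934802468710688683753940913283749789872080984509013218442773360425994711797619006272095134083398869073071945387986575835080570499791716677304857124761330005194822749426094127656642467052356758992678433109465659558662198396929015410482800339320337943281953025279865174512062475915979116749326058238064793639226444537465327766594854530377015720649918950388117529548338633376800215642712779234300454775208438506882267530049648403776393902084174227971930197893795361950559011631111100930481288855117594204964663796570792778256621857808722995247216624438517013314591933915594668826682656755848650480771179554928441048111352634637220733148497310148026121898992822445625452449632875583954169834522495243407324656557678898360146390234899114177526283435208734666589883736907942839272783360700152242345791194629330232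2441723860584802946385907310803516595107165383521176033030086407924683929135701342813024250580964314800277660634586997899365576487708491584158861288812114735183700366854943078213751115519793427419367516631785373285185952037505919365448013173850227544269356873029076113586953628348090137734359769972312137559394990483309475402793615086925472325328364117104323928572824560966601985863668223732138008609745997273449534998050191806985570555201007872000573330968688032424218123788298474705431155626162721424751939682703771952325264690064202248296001789596323728207029151943572692410160770471614714286172176936262516461871997620367434065070300959456896286172423864637251845618389533849043507422754647909750198148803156836075213608207034895466277508778202872126555908473391855332260176407595241434804434513257700930571183405780403301171335137505491600214457149517099580867778248403235677132904090042300587361078074968740583068582603425866429830611429815454323046060074905180602141692923813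5813730426615789768482450650471657221352596745755068838189106037078817605051272386493197274816006536574217525417069274065214658404394318128571501109218302755510364472464657164835810336025106833482595777021164060924261182549778400028413501723283838120372234340529425763483089901480515691097767541684047983648761587718839540465063856739487210893334420617387342817891762939478426568077383584613196099048053070601757496547975118285576725186495319303473715404736878005080220508263749989784010110648812908317408539746154449805223388425036076752747386671171455211779396565783058710071704503707764369847226432638130612926349572043500234703347178501327697144400764363267776921661636759846803728169061607232939911450194446161497724818557289065346438281694333143943657237521169466969017295058674793574089845502877673026390428516801084557700130527270507774975991577958657650164521440122059757677163450367709111318437677710033003350579196325374468907715136870503596831891595885260698497406774538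6828672828158271241320051130396338385751209618260118164789340663900723040427001569583983944245025107379280647935354531480286988547463544736492037218156512210677156491678911525042881884924561467657953991838964333081764229439047890381292390506668376813884644958730319706259442527930435190954376846050779432483017170281059267865599672277129988205198165302838704107359469194207216380281352862267943273947538027816555373258202568556274631634513158772443917863532735349364411596506066826035647294616817076682690081843766449923267488994967527633834398389554066189255681666792066989852316727251970595457176702473230379304197044383699357957459729509245380340001015319195923351761927213631749791418034747895593532134320361005308342876762067424811684363276014535666507652028034794151955372660922668651161814900350925852457711360148942946486864743716356153188088954957671162285624924655490716603220770797796059808118386523798490166066934769363905946283827045419710369722771090417767905932010851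1143090690990825371387482232358234888622769927523373859854170720810509967556835308249217857197265184229690373976371374050550451219964221194638774026216229442575025933348146010244975454856286099554797216443870922190956326357781930589368101210880218716206693425279355368535947552322968092461584036819886166739546587906666346724432413159683994805306575936846550270512524531124772502730182513784789821879756953297930071529643296145779239925180369821122103474307676836890716357529319259623117614523554911501899533486025964383432662787387537719650717669858839347685224147206166295925234837834122604052117736336774243855531616421408221546366775864549286000586469489015557510806005765740663578187084218707540772214307107291915671616679185853022862894921897570016910983371372086152328719188545466918262910268908105768171393108590334699688042708523291861477139055869886918561446481741286385457385054002050571312547570535359366071892901330616057822395106859310484247330018237074678418698417833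3061862247123287786869920452987550813691858044441625860765188790442124257601915320963569676351733392128830170625647556196245615817634661465376631959269044813706792341750935541311234751081453875274695333098880883202739588603389327108312863431802218919370764985781259573980937167407648570811622040201542664796468226125330629931867960149829213019392317421628135301924532629943317742990923723561542006597622843718146642012340471082313750407639991384268396144622505090723775088332229061415979849718771803116351939545495365100895423697219345573092259661578513496701701638077584815602572408250493907132649977765625016010740311334772912030866578280460518881798132922376891642619127252022974873168676554252386843154569367546200128259204284149497008691245110197394219707448441021856791742069114878537350269986378135998126873145252759540178954044419139258735793670274869492140913667993890346677749910196267574420174088328154435582103030991022732029222225686411025809728323526627713014420158508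8590561484847980573254127264039913818937247049038816916374795046683616190947703638116861390348258544567034286423046588417208156538257892486227852369890594941274232986424461268758880077309193893418986094354821755403145622196151499550757346798980945749332822058194662445243631846487819355997236270193620007584939496168570340448545829584433601797095254251072478106666917302796517292844368359696717915317122175079208145099579107619463570817478367752463041159655832174313223643244251978209192257258783610718285136127276704824008695526172243965734006727235905141964936139807640777227671374751649393406419867852393745458310607723077514459147514946956199582913900746170841847221748657951677784786959916409879442461956203672480588252456619734701388441107113837733952347470804522774853765544625818707879291137397418744196966228342834170770133495278314046020690991853417763760619386875939422399851142546005350728899234131130805658873414361399920390432920833223782199175973348053069326177474565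1216431634025976192914871939762688615911413757977322976216833275398779473699910526542718404455413227379982805793679964401753970600569661631017590656395169062233219618006370199723427213559241716506821807118070793155693451808961097690935932550724241438996779083827858134166347121926903800656753229747937764223760847986440053360143849756827841319581519478297511927022611043116447047317883523154723660792620398472278344232050069855707527245786294155599405609249685106420777206302583534456564180959507466047451434082880002997536417895312084537176737441113624180251024489935937306207535380266364944100193462108923642031112192)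

noncomputable def rc38 : Nat := (nat_lit 108816447413573894548855862045795345774762137470283133474795016882110100399356354783145024458449739403362545389278277933232599216889095090197287507469779243347854463783025482645398697731501843679004051888011597518951997705263810779547793914385082574911879213728677234960004539296104265678801670114621675439746117109220933724610655549583585623356131170775779024892946198454616137939385969053904464310348435683248835523132503801074904518950253305933172145598575009847625682196671446663531265496844455297809986830936122560342197110644918415640379872394803466582210943916144446236122675020974169503807261640315144202350882552999117407823930819740622572516286351387399774031575678371145746069593898226332239481717709961647295882285886550979499086454396456487097071713250525323716831048395921019194321684358629259376105444591114841088058853458183912055529012882689868678294863766617053066222683539683455844949201745752509660829743971167362036532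1647510442010315336332791027063527338014492457188904277120801398929615693121310628787869483089703926478363087254306372301513749587604576020414312372646026223214631008201912306497581026410472540818320573366891404318223929219317843607076641921116549461932813077687952456694216871148025192490678063190646859988131984014287192176815504266886953435504472688469881970898273080126331537483493926128194958803933859187486666429834228663201968516001176365663427878260860886884305995951260805080855593600943400887808371726137335300783078927195527861909573550305557488558383423576373110499572843259880779092631145040098943933957957005046652383651644321786272118542174473382803526179244551013941932152006953410340637253862522004044688840863439435737489245136875168327268643821471342230618333979717720149982984487589289728120958378391316601745634091687193514302489468849390066266189268416931698240099348553447867282508297090870331946209801746146291543913599440041831106958471666021083716912981801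4729239518377819574759190198750488392201545698799254662336684491478866841307195271367455365205726060356872467103449751844517362646642006019290193275413529769050723402402729091422520655949566157842505763107400003186996270437767927671290718909607637530288072089644135517248353117059858298008245558622987685465439997051257994056832660179594487296460144668333127737300138637014077572009031977009223810934296785358737169400284936728994098620938673145597998070577071339513230207121577674971792711853728175407765698892038139872313173763950928372620518695877646608060452073323969437741570615910598731381892477149723584482548129166270845648633412485280056532666404368814882825423010252135103188596315051763637344426886968855049629261127608834543499322668919982491307968340556422524960192309818269883568785234949851680329523096224182376915868118027751952034938201197594249454560281151494634203483723937133056814664928788920163502716851462512953278260031821124353329586653115900407425897245591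8708760014133241239685421328020141339103857174692557767415695566298502427271407688255411201048916726567831874563481644898793788144257963797664851604573016513379266638439099013938302081437421249310264017398552941683980069926205698353432579952736916526976923855648885012015473380266215575663166081969121492300899375799082436487828364567572582492649098080437087268497171149624994461084754239825783465058158241944610797305521249166587061073742874863174055820501245103057076300495589954057752160390158726482373000549039365182228353770439820925444519950098100900508263547169060539530907907527565731686530247528475511560483279622969966954381197830273867015561508349936233012674571268860386844953555461490421714999291321326861062834923724983266640116129872014809288800762677914725989782739702198054820316002923966194910135708894369173110799120316762487833548214613207385252634847490361886877302291396132241380068573327984124994475332012545216585064924201901920050178318244062247007540405126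9643798731543273592059176819564287454837086722591022297157945560596876245602649836292892768350562265685569778583953368015956437026210205907928408402738124007809100336865365503475839169398888332533681778421721922558114728624494667180038979297780992619958797208856541646780288624427201816855571644600186638012707103099686597186338389951448970367430977047441858100514388450595899982771474240272295600594727903086281867684583978697129535835748666553093579436553021732796188016785742572933177235685711631078697085103745693736727153250577240613695912802795593157741642244849999800417647638907342116324760158340725361077093487057205290288418478568041785895189216870406226594667482764213908864024207856280582732868982015132711423937932934500733447921599229463387246501261371350226764356705497657381782531931099998978334679284319474041786519852828677767152391904710753473093168861197107798019418964853383927285395466507209290378036122911404527816774319080255026628049606528530090909044277880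6234018676649609907106410825888404466987722468031173221108099103884832381023017659514275329686721179764533254789019113694446778488841639561048997429494527957981610313358900375695857749515518294158510937718266438038353142551234332740879430840396760948194326251216646555387662542533506029884859365076339355360754860197104510149239167663643711208686369554185869738031233246942240487167712316669795329843806973238536952881497598287162420029644023722446556186932485687082721375139608297853073452069319074062306375651840824065738120018879517072910323671298899000862048839843162214284702044362681348827788932193373692671147033351780260325951685964845574996183140048658485963010136106124435565763383435563668384309351286951183662030101563564380024523724206830186076851379864910605043841837431126571220597611437842060615145732641363033792387722614907388984984686138802145190381051550948966092851128546395916200248728373246003676061053864565657635012537992630754995583246325016874589108907260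5695958020866037773982588872659266160145529745997234063986363039256305958481759059628964583590520033950560220470305848331423832898750430852182026136567963261534138483571418177293525308656558862552902690954421900447573994459197428698082489600016291002188534050013194453526295126076991670199420800188762609796697701522394912466637017226875874817366412436556735456700779917066570529591410665700460885470788438942640270819540095459735545435782215883137204299082285739794144310153804973173083048929937148018231429531172803524150324665320085738276592603827595812126091144928644722873157794106915033464821389236227736339485119303516637409034144447134738705440766363859284512451559488156698056528286282231744710381223743652094897942293016061046019097055487824675903615521287844239073282381569570626870047106313188932556969890021868159358730123570591702087461801514057889919636103661008565105219516665781034612739022493485276772294857315532354027742255087256812290458035371929372923460463620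9876724443555897623177601290967666324454654754378468100270615305406096634628732021254706351333134381676150647786425606593163355456399484667607088829353453621853695526998361415522695484667987527710049412332959455106225672667357514925022587285599327714134599337970325450210804584501502652063008760033083005088623083645403455229182471823706385880011430089726566903484110591961760252688687382866565687032185769786774864771183688151139519345744545834698896230089134557057672556488326019436125117193292471593735189552821388126219716337084377666062811775982863619532717972931901387685762452836656935727235199667748929592285085646265182020375728812302759258922152740481052514543299640562536688484402713417191176740423594824187658115403626818445472413236021252012086412767050216653720110277698790366593224759244824852345378639262332322086080383705304273310936438440782721896755191423027975540393599085906353899450202546996176201147091341242805027452647037959909922659801771497117686979493749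1103571339824182221966719074833726197498563809167109337591975582731121848172001526717553646968710232725572507725573976115941783829014166758482126854415468440111664192711188707548462589098252526604838485181708180101190775868306672233234117775209674189787381673672100463142303566223648704213824017268111575857627592305134219590877160556849014240772377696367929728774496609615935141273238011252187841978938661810070734574688640171994909545623068444156554027478944284154740069818160859368761883968335566288587699747607247136459415130418517389800083960176115500401162348754550222943358227114194963499394865920245484572430102177613008962965633758794086158085496471154796912286021739156958705846272123913390037240824680917204607794484591951577296531290843855973975909228572267868386678508706765249291048978908504337249812344065185533138058163753176114628964251519612268371723043568843844254278720395868075129510821560060216051684693121503212560225805030997718063416504451783528882262541971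7682846352070775438429873517478253475192304708008783630837187814890212224862294696279746136248263496623948176280148556175428729249648108619676609798431421469449135146283852755220236731470008712126742759537719641784543052125552225243009891377260732050897264231118205619769257114895534292935889241995397287015409140228320782025552062113323910767857558938483258085286377625093087511751198152350062417674901036381330895715331552100318333098812832911196789418863347597970099161199997030903938054477077887733799561407212498420851760764368799554713468441872718746895464655024978797776211045310125047621584919244690455973489070065573521508757277108191259358487770601280646464516550158279237490415301764903712102114663038031764379498507827459732093816482622347465801427401280225498922784417563781959759547850942993502198416374912940873216871160618659631471534115010640576237269861397654690178399280934584504573972502301544460447740527266308358416626684086972732648475020595917252879881405306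9088242358894306833433266311022534477048797234443096800563649290598039838701466194232524454887770700785109526492283378164772777807767978038054795433422378995404064686341281948195698786756315479214982485245562671621798741902481464602733474620938684519121468098957806492034466403564099053979629521631807702543196792998236221513218811981410097565893117490057260044212680795914415207630323848504115654861629411219690649771595985733179394674579325452776965267033067096431862287280129785044796277856597596669831090073509277398190716430034688669046161378180599364049906677124012072541416554410598855731016183620598408896091233077018663298254275068029366686075282031726389331569232613099776533446409233401142116744621310948884746202633439295677657307914695468475893075948443553586526817360985832475253716691187130991414232367553754329772489617147333807504266331015569894141343751977654435083701595404120950369288607420942969226956724433799426823204784321052049620386401244652566491984980695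3858095699518926146629364307457641130699600647934289421023417060430780535085027651901399155865390681417160130361624642185621862233409843469906420813441602589052869215387263741741864984720776577315826104202402589675531140097735717531046286048328559999893691288113060697805771838530798667890079122654961862075405661162119279043580220046406308092678627010188563093542613918609187998511148247958622155000633687228299355674157065556532836699377534224963076880393311898599236696249956557024814917558316224739716562442475335614150321768392984363909428490590128971019291439613136378515181977874722625514534150178819420082465047307795332354838908967598375323197885178195806984092757839224055782271265721401076614758342194031114090429795222279988264116306363766050723319856552978499342012996015938739290882189918062433863092434159670644970662768268131294223188385118438251599979617802624862858463005923919243310007871683894524614764046261890877886263894207299674941763567733746546310518009590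4163308273158991297026996045036290594528935492729561896192291242543263760968249986954675889190670698161669511893188441436036216204752671901691796609687678406238988936058717830076585169182774404510679568582240068669850157339146163290128650450100227587020188139885871393110924062011461660842127172445730862510761589102938616202238652631774479159739318717747267182592456889408562604831328365346461513644250677524659952014858533964566678391360559402088210452777440039723475210613187899837767076371567050440101504839996804400665025890861180247821168677770638847752123880425365767143210009957110473241090146526427165698751489878007276864028528824573483928855318046649207483249306576229920458114662785066395658378868323642345498953119280547567396557506765611585537485587933036269280534571813194685151483823462658311532833291660691169581293983443520697996239647390087349752189735888022654660927937929568690834419834460039744626955538467737855693415470098295195482489833455130514312619980716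6166584247060206627044024411849063333770381698778615853012750095513704595367585520329488732299683591324409026826860525159871154221487937907264237555126352533683970927431905091663331195232589482948163825706651906268315076112055294764961750812363114236535377908631266871074918749875261393834393629791282273180451867704675785505119803359656524637610679165444462007764492387790548749060216082914379964244743883271709716571921648555217706429358264857151921444711328789508695169570971684366489199029025691240079878348556443876955532852353730185342787015395223493155349621587970292784355576291516416977215934727307075432676504819258710711529408623771781778821119282357714052752882480537099439398126065057453160902195571106752496317943914985209089398908873051300829106287218717961640705426763875042821176894995093235873477895107394548410012111346547405063763803585715126707508502623793450652880929176453654389720083190485792341302848114783090201755755545042543785176959990750992736130985503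0325717732159867991623505612675485133754701714151393669196131987589577556566648169223305737928805205819735994963857902194985566260283381368524722825331544404312738718192016905041934363890451120116039910299635685041132851814445113514494976300514115462615790266100379029424823565867201322517940857334187990563004892818110283181166418920643392337388894298126781965282247781649994398094158578040536045412532394476226136362580042701376219632247057797994281297469898411767171021441718627938398682551743601286323248943002037656803280095365232751153068441624340998840157267079412923161013413278839063296064855537129481202801706299092159344925028568569038251195913779908817779035228409196919005365306738053323874920044117884278106417859265587365768846147944501642148656617286472169972269079663817493691817893200188411450949256429000558919550673287620595765664148960700876538518991534176665256440307065003414041915154927196075732454332043573367075849458145951944410081827040636005620253272642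4148399919025094453440182778310055413936915346705215989611816571847621475257020043216020290421312713658808233375451353654510678871420676533425914551552319025833639603532882832800636414416542741348069523854802706683857224619397842248679652774970812569292971485437603554140125359545065328803427377783365375717967166902252867278173912701621637305681882671063603452269034668756779504115199950504350017660061027499475842744419580831341377985534385919851571118068356268679774165226963598513088965868875994959849969924553392088576939602725693946085338010667832723636825162070714355572778641088201748047618344751664121570329785240479767647955205280034048231806106339907568574367550304076673347821489202425741591864726646085871810434826500173480806592077233451418358757439694712914083132330154179325486626901761791801155026214803721428317029424962817565044353564506135356589026943790660683790484695376380599710795936789262714288594261206995105357697641334534807569234722653206327518973432383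3591864449870387691203947051888926709979520873349673598245952481119966165998116001918576605347326859019038223981291142942918990523677071918151733291485658051818995498456729777962787763984570009346827045386840653812192590165455027278385548179316305802177042409629755006452771131815529216896192408228072527736629852186955895638334034291307557727280139275116196124580345231506164297064666691585925436839170154452559554369089862026542222823890118364938437847215867836205227611688079999957104902853973827716486800218994733622560754499994281196560905605212527673346000156886463419863107948803435272552429177288046508817361186088029383230850170066450982147050392453258661286770172522851045518649530285324535502344830359022619791722769497835727571981437592885712958667628233261809746310090013930383834117193975502887897284099708951173429161550208468883129677524220207441720788823692459377081381168194816060012246402593568450558461784498850998914839962480869025311007957642383927653557210934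2552119089549609406146309412159676747312028531112928996349429160847086391452188512994545199497124500896800287404375064526425132275754135829974458504939815835038446515648232358498621295699070874748664925109596026173767308609191595787632109401000133853054392785061538131176988575713838933447111451065215890122854091883017154075292234510310255228565858706286997425470858876840647258369416135130793301446941192147779481191478416324661031111993420764162147021142207790046366496269723342667272447818000179201452287931698139416182714425552257921723391736337475186296135773294483761942044687544073608991504834687135002390429696)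

noncomputable def rc39 : Nat := (nat_lit 109014574060894727311922672187665442632884752526337495325915416513604815610703763990445448322334317778157898019819854344522747328917931674886219072557536065626461821495581110838597396404834622533623108884026465425864229093538340431912424437822810396103421324088539006218433196087745957874342443998031411034573884116801251523755087941047624625269403418210045459675468499239573273052250496177559201748239356992342978721544493342440212512918643435167352385005475903248001287723495705943911306999236765266386621994377515678534914660403888457649450451267911148275870631969423493722505236923147745123511797107865815274222986832799713758350332068609338465211035233125819135053572015871372657877288700355452733987394461840064682678937992946943603521503691142688245083511005910891108843847802854619326708337932242998764694737110199658547386936076838619837727463576124936425849784502111275550497467400907959205963019173675827733392264298155292722391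4220547402627634440651841160470944840346267614022811292398050123938661572858959503679769453123699205024609038006319317459641330189338458332131640569216997812724131962230820521642684119087862692737547947204373096241776126630058593062999071935594073508643941595413215624486006086320279462890580267681176760898505619292486013495519785550583288303783008775821012728462035484060033473458639040475197044987914751673776973166477095749929255236219846835823144738575996434611103754543270461434016650459189872350349520762234470149015102668885464556517615096405899678802168699685998947502390824727282494608853853933227858637020188557524375085656816760702190749077783284656977929666633772593039062112533939766530771034495597167412180396972647950668764002093179654056396644421519140871963470391728619746482548677462411474752294427778198526151731382332028283260129406409909187552295659284963494063448911483263463649359461348711648519150222393392000233476397670160877553877945999525090169768772589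8226097162914585069799696786012619694033916164217325943264228379210230229590396756869046085156072750223956991352095853699718086953760845842339840438582663337767105351468621736781379592253939209444341869812258979729495737262435916723584035435977871621666003817828588283406909063445095921906364459156311846270572639112057647291105046373167229365971884189470293519635835896433366308195913389543228301712222357983119786301220755780488890742221160904984952795922762088876097732700423154782550393793228091902330373937211790519095630529776101897474760241124101152984463514257247578229941210411710045371469015748456214127573535604640710111142079388621559415036451274633402152741630802152276929955397744873767626325470082629922873202739186983121769408846289706674531432453323872032060250928815293232054541679426383183296324659267518948958796639366162122295256051168477325588776659195046206364535926870228868934862870250862777360217651668185154720134164994567738395517456147960339493935056504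4156942784605430542961749050496512053413202477977105966202798969636178045542540864912631060323623158551695966636383550490932331330051286951086001289597224920969817188252070591715954584750493131257147175140868972265002492054730680027843701099269511351884800174120133276978453491635035510429420047769664235729069469340348366422438765668722068973964261768131676702861666914102532403728129824682485262691371889153457696591640410065254769432391153724702258423165114761527266647168938435096803862617692106674280012707878901640649306152535157388833632533943748253094390368292251882293737478456673406544034286247762099820701652208587636800292955325866156306358460806584881052946317191171844793273440018526685876168533043462544072849627159196308158539783196607877279067875101913613464211106339745597271752147495638472681177670658122696744646385541501754761646366380647746660594353470424499701331581572574313675168031369279352239442202332547607320615526529735505061719898909725387838293345753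0368272752710776565489484993891173709531044016744788923195267386267272027652476752738637198106356808061875222878860489028391065090230009281355649648274876757390876661132212748069020637383082920725132112213955501755721863260114273643041202478028560470148392756005389214919178004253482182730798584630541151191444104433233308216385696067657905833313826533002429874173229638838416452296988307333576059082627930378996129047447185651829370269193890197992902170359487690458694597965833513614155026198997061543195544675974229330780148236637836616468820766463364755419269609172162416099996659259264887819897306850514828763742429514703105844523357619629106677338323179158749710665209402395749556214923272198511154045292680519373622367676037471542846762785911698459657307305929788509795665534915535387068715617101800455566670235820992789073634914914704940522204695125447294053612539023554507563184997950880748342201434474282799244868439132747445780144705151063647290742150601003044842044177035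6291698673802386741526081647138792452752909266412774251559760754651962512013806697910212040144693397815604680101841605059933108625994797324797667475632489040129024605057303755386969874964458882907399049458276558748238120645891567672100931342813081178940383161093937335646221241311754743072493532538186618455561896076528038916097569184999709246272593952826039569107394587278884283558032687835644510101720699705303092411650753924106722008678262842719600106506633107431357930516052228964741883717737304613446493627636176871243626577187059663268765133811294030467612797985521408423813538508521769562370129715313523460144973919659260624312051881820038316639938695304948953569085792699832037879867375030209768309848865646783103066239211337552425990061375907201436472407477623120160689878913366721376395493018020334065572305151420812565521189634240316884861359240104757362063809258006487156454298153091456012188511993418761500099990017304970453539273614404808775494725335892409433529019538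6172896540926589947042884754252853800379648977035077396091548907138866005534809215410447802967699665348089927682403245079631087830426550139585325431878325217268987208114839808609108573043203652700392413147696494141296414502281948842263650436483033553116909996971994555446784495997513581121024968736218679517935204378312466204265807469954788586276619220445352562964529697905498413502596593421201012831052378153024460406880895406450747420898252331721466917322458559861781486198716154026798647182477441984806120108907705044465371975938070346305843313005308781692480531292907624459944560297629658224089240625633428091359903206438015763555582788027072370021206769552708185270538984362200693586560778940071766092405913683861187431128317360142799428498837396133064281205135407581629007882274886483279722424640654040055345381432034556476700938307044501287498795487111894166785630468485139112997303225160838588591496484491088697311985835999815065917151256663863300109497486413734296328997101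4113089071566068988317695817791471946481929970729536927093843929619285270644164245912853555000740109193041898368672207762286074563852526450204143302235888171465202272229097875933315888269326191577136103579699456812811768752121966253419029755509840120197651401038867361945865062406269598354166133836316636559054917834361039893185245894896145609455949482421911117093678498102389547680746289870618617596881038555235230892226968186833211839653292519197421740100121677322654725370728961825667885506491173192263488139880677163481424397214960921291575396016064564563299613503263606286467994914415636424687769028863944427140315845150065333616595975409155169311255017813553219460177246553972884592587335956554330548646266471703011696825975290591128992251531238042751199929005529372457772269167190468603713738100711421889765053641969554228889470230290506966591161582326754128803165829825936530862565575615652752184231054762055786898188222133336828083157876345576431554432130852731243315995774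1169443973005083967148811736324092598994867455149584222815324544527387515598538053900383346998200131845041368307277814995741034679158970554501043549717155433386772664158306307552440526862744909263266849187924895343888820708411373321761498481698861055696513769969211846286262167318527561436852269951707398353541587376525939665913636203985838606751390888736882869961267613405955773245287797325732779204237041445047548028412322247917683618153347439897652758196676845078367728219600579851690733757953030631787507094323257558247364960146841171618390237836588665971220925088149452808119153412435283120327040905121233965791444187558081898080990146409206495270470185049512338937904912218313273885471460800459280515988361703072602079676765352128930585532093603203407987519316601269632108807820571147422343880015563981032179408244249870299501118269767830003665537978457290511096476890701409134393838554476051573298851375150506445553681611595817569938409484626664933997105818118220370209195499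6466323668387122153817348139601126780017867386387736553047232334921989702171697426104529344637012434929658950929118732962038552087335830000618662215685788854322586842367946988472443216859390291025214984028080008054583802339962511512633485011754800664372882832498144535393202604934347587665978577448685152997081110123878413913746790144173647917235856908639584749476843067882669717522279081073520366987294187160486740638836583376860167676175199653269755713722520488513364677357140886157793563197148017674825305537494845209820345094013594705237626334539741400205591983543779815086541700105515478321421267507624620099584766855732002266678277809314555891773661931265737674149055908877129479456193397521227170681946701876559715109067823912387217029520627662293179922630732485219725851805516421674572098450363957600407329108227099501491396845431203574336418784006659024995402030566832498966044554343309973824470815348371866388643342215263674880929170790690648996762766601224515002985902166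4588025497435013437016046236680373340915410171146529790691456593309530205125745042378242621896537682303948609042803614647039191413991025468472517299401824318261324572006804703450440643301518963011720101642658204164000501210562823781388137415150222287673204674096186151256538242964984281214003597095868751756905661582916706149571213122155097529157379740566151198004145121610428426296381220332305989928399286427466431524495029446169816577893254839577388704228744411161127017011792087897365514220379755998509540748278243891921086593977523557133842065590990812843475468880283007553604980898994998398691530799979497270696571417212021435003883313793282284536643975192598093536411811085294546750282566481211045946793007809737524751412119970668617527116662021478922935679576024096142394037430771249427530006847391463161564703998453063831029706333433718269049089658350909605686700154310230718546028861402423067390019733401812547863673707136946293360493787753579791512792312920205714136522349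2498922881163201150473896421578572875799275155160521702228483197091696040920743267409716696924189392722024466171877916242840330121733048554124106260666159279118410035455343544760154631785362392674652296272444658566269264969527293451731762432926524652783452351272935752690566248392189162393924268900092996226670248367337313908739078779029286899522056761919403962897602092723535976373119194078269156248901163177324307039053566105209203973636778374997884633012282702705769518887045195695523917282457634241744229013357698827093445196481287883826665732840965078795880739303424205849671804974198684808155261731992670785629941805005078074699816823637244159404377379150165631373565832348945284070581591601150197017115171481709531239132045846557159543429546914831180324119728629410359359314975034731358967403233033259291672521993113322036071102749397271874718450305723584521325918139667250453460242665813860545887293323509745744862844722517457695786526787767297741834588907787882172075763019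0477958970227586239232067550816254852575535267200419300956948391202227996332361216985538300642388280815469339790109825699651666473618120814174339403309168697065664682739943805860365949846924129097755269342523444476871857496792478577693569892179211363515340427763790604997724357162720634950690082316247775347238623692711176377163424730758838833254870364640128287339987142781891029961386450434652928011323288950982217503890515730844513947859911952986584128401152225548525477757260803539402587857015959701006787845148782555557944163659131899785028951091159816651823647232492879698839318692497836539221048154164122105441445867981919957830367502190214259273176409582402674743563275852019508767765349619080926614329064864421215680567734568584649322485791018706813629066039896053649388626123355738254608129547771833077753991930662102254207030865302121488291798201109955323815337063789725157028362946255800414219841794581551946179330999672235133849058173053043778397653110089729734196504812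0412141147267388802632483942935077605653764422811057105526776667094832871461343297240486008674405403110460911782819653164779233786671644013227519452955138451619988590380799622400794735214091765097835336121715113578214838709297305503384081830744092863306854675038711062340724958522458884625526759622236819918899825840757569319346314579146397891592144873810970068234373498048428652802374105844793332293216829529144227211166968787217118879219107462329712149723867806817206875100211168433268273881740028762488271285786515322644085458322610755001198392287024045160164489119102850106754420224086006988582109390721261064540944534044908927178472080473748482411102305535277048994087783579615869872722201323613474044349628360368217998821625546871633452366692572432806283495680487795782605081048993584298831818748040687469647703094331720680414248740145202027178896245867941767869003809770773017779298321169704489367461302197424662921482713974714999245004662303364062983926536746136890004938098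3228888800547793433186609681912749697198190120091933437225675876197684378438712412451468657292645284545517547475073600926224929617420686078133749714249573603216249832349168615989495090381188381973905358572743884250357124077385392897079442155667398090666276526559727409627681072687533691964620855531218141521650080825420388421593109834944733116031655223156148307737097882907798695179362628761271236576492711466595851780510478183174693729906857056554701286276455909166445565738964820792129456687237148748733338463736810725413500189293931565456162560905450320531695615247840297082453257461486785853175138039868327614349715822370077058134494721139825243091993050053849450481904574221889197801274780894479864172268935869422800915413544089700658595345176615302049768195573039453952070066869597838184184427730882919026514606523405239450883804136194419719299071481595801770116934886717901501500528861906757389843208395290522253958101631983955704273597723746247902678301019968985169609352220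0392657240815080800095397953233174848041109138573818092631046675145798564902789914300445482911654785061210649032280923438026891706904270215535478985758673734615371709518868810443803982358036214282883960867881071705102609492224333054328540793573687077889560719799840833227556794833215250366992848711220345778576683573509273128913536510636580041902676239509316062553414107621889041931025507487763560437424350161634229795221860831309742482599411494443497987701795445275374474289864259167756766107478552304771025144632247713363712063025452627623518345352865680914989170782851144686200608813162569911300118479291237802622776568172246799483418553545254359220611438013166834682179834633794798505544639822834753958697896551210238165082634694838537025810676247552782107070865992879707626862023069668972359040365078917222293780709213199204083265969206557913386329104138094635672976533996936163812293990676521961356454955356910195973353057899404030471077417709876573141288746730140799769694539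5776076908605240760299812996152214928596140767387908118414367019863630271298952057923031568846073852846251224405935049343911524414501402514156906741460656475520997665046029413839596443908096652436219379729588111978078195655575817649218551967533826346312400505118758887157075209373182077388333016231413461950879513103478852923933437725519879418003298153991775332106014810394506041728324532845411416915168348226674219257738828767492661818486022967809979850627280734002312844926856935303899810226429370757053541591987410833468255114730547487637222922747975088981201042916962570029201266651576524963878783766357538178681355168278698128949548527001590833457318654417596075588900528815492470003326594568062894094696779170168493782944269690430033235334475983382645394198033134277274769463473964180778424088471007344583807696405903930741231697699217981293347099700715547567966388968165751330264273739934684294884189705040374214012474408506443072351646451980489378866805955351000816978836039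0991309588778596798912393418035939816398250355352541212230741720470044558639698632595699904429320445269384828789739984909087124404570560614962448946670605161994460131913790463233466726768863919767965203005643272531882950547067635259707045415838104559856837875422298788753269847506069528342398290503809236299704248186112335218108837713680829483561486998703511300789802021024476900516531193945403997201483640708735013064616641290091371340634550320127451652042206144715496242128192569415032424622087100353992482475476704162196858354382126152752708708472204796338362225141279898848331341269804312553371299661389071940321280)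

noncomputable def rc40 : Nat := (nat_lit 109210646180267417033632214064023577036189479191234996633102288486920864671425799546967936559163213750316973838131368332390589881561919485316065217575700663967136613476021532675158316429537541234779662017423165766010072172879181837579130079586387988464991218893317335521587138301617046803877987636487521596237012372729041723747967957456399282140433769237844870133093885949290718018580990616462139441130181958154750767163192948202457983603056466887872091785617943717667019203961066744193523756166499297218533353435039104743865313956449260999310118905675292474105223176375647850936516953794942212364059697760088526048809146389092808509726882093443024254347707868455351145689527732684957241424427316190935016085111629704173253874045462926187137137632353921926727371536110112482500623322173173669236136317544721659426938770950800695240052799962102530631405297834308573098909914672210249221393637664202225869993648839386885190562624918441454061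8192613710548702655727623426489811914053722032521307126442159989515483683791594291288012705589132306951912618281896506365274167954978266654684475520068519722028795229912757215840838314915849951808578442465199206395711104642749262212321159871349584636546320013167273212778168730138716492535372447598739442993010534260153440332261615379219493552975090928077265178088184582260991064129688041539633200878233827304982558694594134907127507838976727315225548193626683264193877173126633635781182600293398077227598732655177240624354265086522275235096408136721174933123486067492846193327290285736451162445156818283151464649055134153849987356229300074101137108541718759236038726213969410665966035110614596747085863943642518887457095383678857205890187355770057342558652984252491588686594813995038664271617990886744758084431860914970081837994126239413110687566848571675059453364001854016248006282783087520833490771732251885556868270843148429508286572003009961895428293519743214026470833757013805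8990467179275774358657072432426641261350095109166857802057891317634826289836881590597407341849805038287207234985239080283264679353339952378086548265523912311175534607662753830605463277010819177487479318674706327284555510316595203094647407986622923496573285166203815087819763998470923223322186973789007029981470883780758091126328577632537879985342717234540534970240748013692282106595513589053216915972144223137029738333306201158565101671147190104975153624342629820911314279275713525835564309920288054064484854070000153849253796043384453221589696866425180635090723802574961378096753635193758174889749891514218951123309546057179939555170703257419643646249245319450365398354572795975178845591164313747826392621827852730758100886645948206009470608713262937995509610168351740950660681379682974395150993252078946297501104491242265384921257175988658352856504819117412987144898357726882815706154486129012941477407852466703571951724760988287952206582668260669806030596259007912111950970915648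3141022202189594788234292287250006337475717334827287302700030651045099787995015355763102128587411642511921317989581679523617779358679568278225462584108990149113563186605464530379630071894843338804740320562666115515443262339454587498181753265415107626502888611391675569064813299691864614166327307404974751768408757868099299320662139213393865506463547846600429906520405784409105503225051802925434656686666164327763027655641626280693365752973155158148730855969118473995089897237886167320311106203101417868150990396269299839903103528079571856480185059863621179248362965797671526746786490147439684208883960466348299272981108073465618180292439485665509306491104524280644733157247358511092565572517107515966300377248608481264494181499560271647600940426895562745501791378410755945335244337162837981107576985216534100643925384438266614262897652598727419113422236159586095845077426378790936523714953088390031089548861941272161262152622453522561394749322211645618549718671342926395654030945025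0348108929090137033381658779364423371940621731209449020159749969577251832682513352179975501723117322375783902650025416155733325161312682059561566805565550774442685513076961536761732024690759619943091812614362938798620786234289176209021053661617853048193304628438411278678859284860130014015656834207732634017277191911554620761863118185467222724174020873316193786026926270027593383937282413948702945498002936318995972282700304240886865762405002142368596143460903151639747635380780375317965326949469028658687218728328179766253554549333496300415670905583422706164794125673080496342320783049360897711618629706160960125962254731246938403029605244166195887880600192449170901045414811377481338519786628991167891454311959708926223395403058393782427888217126407134209455668154722826726460798332770428887904525707914517743291590825976997204061555829840315412223228732642034568489269595893840281179239175628247882966730419471992178002685195348576461077773936595362247968037516090867664282923109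4879354212135396607308983420743580361508474634975281501736496152184518301828406119834792580164066995833226173409422426059007331643973871118192411800211642624712958581402845582690853181699187648842652953843655963144395797690578472903974853153730494800125819900221223105600268775981393486709839489570207990619169335676352184799308697732542297681978108801898301048899009599302233668661637123653952406750028343802993099051696459489692167633831001594737870752362777937160062571175091939650792082002330208363578131466005769087676813881769577941486329203610365948119357104708717932582954607915317133150966789046713604504950612269852058669101439056045881236298922330771634612026159073491097463324127874047187797470087555554775930958203595686607746689748831016344594746365372159975983434907004525435608735556818694379618516795097456990414264607696688698107316207063525490294172974806174897826972683554914563201947841000491683885161098516795768487016581797023224862975717534853721484860103280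7503196460261091648639707828369375159109667707248576319906279922881241377664999807838549531240737176492334659369489945985361087387916117330544150390968819634466674109193874010702324894726855042374975022274937572465745788321388855859825967727515674802192138457712317869283847903840591612945778090496380133967876715037609742020110177923413599836627092116618213566841592167441196089858477505520243236452374341263776270344505483623567057568610626329505454440780011367079698405293394812563450976592420831804842619981720621564826506486805998455464274784538136704779632007495948800431189029562601707772414520378930261462084397828297588668884626079178523224083810745528254866716951028456640939647670842490547726441892694206860990897802015404180204344747258488463541102973229734756019363434400442301600430294705705543282295722661124345823419084318985193159885217707446536801140965438222187494934028727760352685979568565405623098188934006024600197928131950819649122823432397174060167284076527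2377155689826440392561985824344241123992454519482384724688417170396223757210445177109421285394433217103890178221662675868117113044977283964164378946582578487830336474860237682490703023220965745619746215778009137007558574731297150824550522354110721699662127850286826028025134951099154885141501943360093497884540735540863483209602233881235748844910022753970784820164138900510140025654427809339748566267119172849041413827221625742619778156035842082506221731023484628566834278650701808354265055007915331946556302052885099467217218656638569190772672251211273478702023378842236087927667954916242816908426453622263087385178684444936507853754783247208193219288226157404275192862816142528148699795187048736070287264684882654488913986868424756718157552936653236640166252928001253540263284643342248447349670139389142480377937956449337709804651278334702876593187441321084487720432269657931715923260885269896640882309725774846576109692536128721143336540433645856501050103222526369323475389935669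8868441061314169149617506355282661499404237210438448408683564578858581682537138184422106469401837634913094400639054444440379762217861117057235829717368346471481454199136367270030653721615509118235529314320851130892591472324118098076670333318264497515651057589512718897224276327008382462395963366622334160965901437969016508233572418366329701969735927101799117173252066004992749905365459567596148776687976676858891536823115391163891307084650469425077687175304878636222608054521539147667781467141451716683477921791420178694862141495898006499684453359892795493068334661303597683418380247996505503661992506951142007715228596819780687603871746357072826977286851744434152279356495836619872226729597130346721852121221229856984693397918254544050263126882078701574888123000914814966009615200384307742009256899414949468968635374498239492075374060212682666259238097505454964188282315419686864682309093927408551606477269395101852988610970641816725287278849457922317294650326676035213470304505114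5462699771272307016776473684913192616986803734003787472938252306043933431123790354795261361711310294232189624490759230557016508432301672893714598658814636033466538730999700573465838957098526851424984085643606554280390056242783863697328082377604996004586714500033890495631044341907678479882797558205666040339075544526791414305012969405403788257439920866662985050857217381297180902101129815131230269221348287634706164444153243063707732393013227844872066133795091852246545618553620683058500525404005768460819065355396539839441491078183305797265076123751651009794318137872828039391398598661871157438239369390305757876184707377806590771383257989659232403969871994327189750896317154397737754905248836038713928756094158521964460550323650876245739727898494352362431010772627203254795228965151815802091890284144860314611141269726811654508131541631342889313344671171539986104231193546916758828216356159432402655331820302488999087693186548274449471731623054057837085398143899713397113554204659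5483739150910295525169288173491909242056996745347615549910373005704077808438806419241449005142154399057365222299409808617290483679239446523477704612040256484873981051845220683677623917072468594427682606912384073839673920034183642121614861916221573865008028589551753190545905374248272991965288782279354705638708032404290671385029847894613644758504143982792002751959113327054912589537637783698435571269296073550472594177769564720845203701583626149006872947627177749621567260878055175545551584756604325450140912544647842411178518305316358733721833523327801769777649460830165632327043523458466408251917233542138758955425855339047913142874044363582485009826872025177859254056984773162753188567424451461493237745216393943047661879109521410062327924832054236725763937981324757271021949091566127888019825595740997454926056130487349649758262023746569206103344951188752514806099595985894036994419354337396627540081287174210901956235013122597871696018347763121774345089040867630503730879994430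1293072697389012993902289920001109818482558174449516046682668137456882863710400393089979673947885899988136253294294836369739329211317982473919360183673628034513928266622221151602024976712101982332101181093647506932379335198631486750967723503118442358926077827047441473712300153829185310525403412754107986436514491890169102414693174230264308586289276317677157110935967065604955164992983123396086558616154704411538371659759239326584844332946493994737508635974058046787767662755685677321217076515352537309333653190680353110104049947210227807301013334141727746769166065610156905968368513199188053962823337326118950468733391847982183168834836945247667823612219421670115928120305860961837349206520875807995018039071319475087425059620503691896607171172346042392007758229884423512671120119376913273048458236483174490429126669054490312384828256489437727633218061125114084766506987176763959076308858849183246797728757378089643854891337692601525817018307002695187703006854134929724393621646295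2378281964111192699990826855136315424919366594313847322597967142605109807696614559350514553455597360255668243509596513463186598681328203970628473879585146987828932645866766473552380304140935098719481921037861002438221884520931458480929938713441896191707511012891549179998603638499291387294477584498072236837835098675312854068900648747363946465963654823449989574762332603191803887197312665622922813693007149939441829347130726695543462862358742838560784864414605158061300559548060593204723190399590172625281616124613865851008875383328740758529989724993402100821420066324787200670399584319103250266250766946913542735607215661807554728955903627946590864700586755501707144160511635840485407629472258164411045013619970869260996639664743806615644752970324154194491431429909153015735175763294859187497147173958788917840264280381488106175691284050893892364089712176809782391993402672441827750687045306139651399041818373159359968260775428245128388395164823666380302375376647123546035555067425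1424663559511108724580964170736547049822417259004565857727475918067874827984766285879629047111770599521587224897266150152110883542176300326728878365782071942669587324107408106888456043885750115408456770175174361040978354825632855610303766488152549938931423829157325191322038234552998093060719828948802650113891551525229518220986652081298454895172461707183619366639579759403264254290448691367744294502773143745386705278140140896104068000328182452472832630867624718819976801076229482811901695126433422516844944992615240278377700531550417604179435420351792066288530140724320217670282856169778692350551061134085237954896871223894788961971886595978972871981771255423689804379767317609466715505140225067105640616487186445973747238199663883259900666732781330100908804619973212246795349273914111524736062375776621040087907692299443015047775441851368506061221400524386809000841681615123039343663606429627356302508096796782121576769086792640664218590651850364137626027663290153638109985469258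0570986438585429741975809094736063954968820178895843297470408874260288164211230324709641419982675926372721610057451887172455459197115857533213951610687334317543770598149337359432619779735504940471875264412762525454563608109921049692020324590481439746463105941987283035301578743507844291944007715545241800001427665159381788230588914199784827201751292305409500425395273438256573176805310197463222493343541563897270643701907533278738308371074070142009906600408319669184212565407055456437248084640846256591463989267817079930285410188778912028851478454491676306335526773916195600250480983631394906538594115537828436824252776087858822017087190665635398140628995741911707103723352276389522417539438684471511796278729900608987664212742353886655620831292564058992757309448857888116868313508132323243514294392049089359233906347893183842809946996363032872283358623560135681143386414222038638664939277931798017200683619144980255922448222511466722362586158877086438355305011181848106892186038648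3810018648623093293798279024070302693489814859074921442765624613517311352256445287350548686320106113426302353283023256135718464891883773943403795628468424758429293175910840895336064107750104143229219235154107476147077259887981274573942685006636920713754677541176417955230593454909652269629759925452410777642913682350040217099872748253937110554777584304242523652329737304511564548186524245832062240689623353536155294545620628143456224960387537725488480722955339795157615712453754871181262562075137831392251896493903264848039008462485244544803844208900663620375801066054996134379021338676846728429370103361355929371312138873453204239798437776717456262374190804842153806232708213945490445177995367014654455927767936952462075983314538085888829684967739226363792477241926692602824086616813441263132979670863847372281450485827783476915325036125065616810967720860519002137822554921552995773664716823296974154634023314765574895769972478383693893539011307991097471567194354737189478460645674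5405164413085770662328333101584765224892276667088250579239606121983703868363921630029708697560997676983864521823840109329347891787493620942968176699906795161146448251019106867085776396781244079978404678622871896121378945827819137502434836469667490173198092416469897501376880159316607802040077611448681147809735514952372020374872468878550432630390723912674202440387253944605439891177011942068050935863203896855724813995166246472428457227219947598460473374186769315766115928495310799343880721919870408665565706565267569163384123549927891288754485728447188587625711968607722570238155367255512029132002912623651015009828720526438386248561589491974122638972943062890012025220038049715296644224968713823165113753133609524973957200734643659344688977865520450600709962835595052056083014145828466621184092735379255720956950944177405970267322788505803498278822034634391501390721481663561827251475095096012783181493240621572531804006345751625210528913755188602005759917695239492303942295615981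1964772279815446524934595666006790330792765007410821529946431657481187048879353753195772384561464386474468732819315080117167196344093190326925702669937248003289020329662129956441265720744868808196273921373140891570665253959680244876171084510008199126433874399215009395831539841967378041371437684153933047082093080216834279385154999090720987527379270718253477423189805653941580607185621344765716949988522497480040838437047432921265742509607638750730335556491579603597233459310930947577617539239097591679011929885533750575245855123987879632007063669190669692423505189260600799593397114382003819934368524998442006316318720)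

noncomputable def rc41 : Nat := (nat_lit 109404670615784804968997182252165361206619459547887353999210484017224924780501907227949044380710180331612303313205317970940267380536971964862989655438836097010478132362379071181076995613089073117500081400164376880348419156455321035593128095541399969691216878292448630189158044432277629069201469106970666403896027510288972567428435645435312652320395811531072669246022917853880096871450078387385135789676703055188553739861140850016939418366424647685725072279432242516222659927628529542761786868723918442423715561201360672364579152346859508075659001835245811028198525315836149969327765714781099436403613446738063135570958696822947720090653266237854081122556988459195707713578134259157212741165488188021758664168766404319893351337775014110715908345387903927306504576453312036297876475199792810780086568303377685075208485665341138042764327807570963366107658327935834581766637362748943936503194731425943617096265669400974073104278292874239592553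5425178311872977717051209590702842891566174975896067488522712259430012293900927750639623723656556711952657146406936850674825144587292836411260216996936273686022758395609318887248280764230515590166124399470003816079043499143900503880259549980503388880827708750162749946063396682398962183261063591709500207105751690386625307378491327526218546720601044170388511168880166868369957144565977518899873312823255758602811326394790331845649094459749409251541600468786316869610342568265732580121051458265970162851641885065269750487997375782917241743812275370535807497082414515318476339039981787520752705122269734506454699551995173262300270953857213254341288759427505852050598105661779290779724006387944041613747967138561441559912748122678886579034883705674341631580985185259710720034242696085401846744729685644605585746340615263092775449364002365800903824616112397522022614311988349626531885683416871777177146387809114378128073716287569437795918571301066861627896477963213946630929376416335751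4270164050062465345675311835714239011242687976591487268492212411186204512947945218915524157292054070815724061480776587991487547935281462463869476126017945068001874947271547844951166281618754188486208659282477357318253669932030436158619909624211055081590885233926340267020557911613711569089260490245918121341310055865215400244963540125472779762309505717052767819392390929315935046392763846242134604623611814936943188205387753471268403979294590720165532030950910670424838266123089037798544344773701048881238620825838468524619175335183767711755818294640169158329619841597781107962055169118119165834996147584101308725507884963862893485050440702232198841251829628813701739858400605766294299509940556976372595301097497225868059997758950617892650042407950167780509115533386194100403260774005210726236109900919884875955002898920375477756559805738045575064528474829938078246450553602136374089434972131880393720003108776634728127902148663732834167310640145034989178974813710019374975711779791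0731135692658632966562258014359573143335763918830802279564278483683569373594685765426957253952205599615158658980404820846809835561993354759393536134360894021854898089651232839173929057166156513238270149760444345019292791602843518995849313342039854336808093626575068865210503428735641270438841057699797510848190571295619641362082876079386100149005901008869655862592932455209344519435023705647266987330840626893879620523269111889353598407021248067995458437723082060989885137096724525536967695607726393395210746856139174588582257449305289803812618973238328218530941922517118890484838883848708014350025856574814214348070915171724515137812183286639347562269391268270919436001216450461752482520286912227841514350912016191975626106394627614506417245211249816258951048334182472156791393159751449746140737052823752308242087145840517943355959144321772177495079266634210726204261470401434759382070636861714812560535842647783788717754729716534385778246895546497758899726722510850677788048846477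4787850990080007625373990155923063570317115643818455841332237863790630336519979804109976500837093827324200255314571519652820060670598738110667439266404336010816263780032013439441960495793968438470445370638278332548234608280334906508779139891670807726126871575988693279187620196391991642881746717830691653274449023972568829411388095794999280578667295668346984303922091444811915258411957722857502453037880494147504803354377223141833260879901661779165297045449061748319140496027043438686243831350312652574796151366595363716205948614189550796526770535289413274976629181352010459797160187918848398457130711151025167114501553145905265976498749489510266579183813729304522160011661386097204478608433621541567274146426003205940036769504116228396570252196080259942450868416031865206863265642761676656218181926728564634484178629157494153653746905217494021391715016532775643929057169392552888769441140341524691895908874344350596301324441841969863018212391528761270386558506791287525953347860464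0030740770747697335712917410015056723399444068527843664146003959846491750799679222434461587267807224687169790923742051385315394383478390575919868602653698319196859444103110400610463420626193678213261623829167107424669782562285120621181284993206470426107369394975606784817914871103519286039321153403240326141919587322248690098655947463337495058768389764692049069343200502642977012403485734361948583436535858154185885000608603793193872962921584956389236185814277256657617929785167328653793366880739630859866276843117739427846257677054839878446687589926513001131635049599330349001258881768019549712980203902621130455061201300583569341287181653216068038222631920760790476275177665916775193574044222110789298886735132503353957640002366567884497595281769958794199023251479475937058479344581056146241943634145191538113998145008164508969051233300791904081011381951149271773523193042993314652877105687101987313523135678831572528474990107035903701855517381701161027396141146170463266144991677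0158016069870281484315779319802645698031583999224042545533541960504575892087889781480104034097925917374406792231550988914866241121156427122380403286090408364331534535463502560204160102682185922566876330035623818058774674140047956015152643675482658648358781183032010293841849850064297035939722100881437578420053225900172501332506313324402548174027256062702338874158109572380174783308063563005696360580209611907305829003928876770534135296940489177322715685784737525372835628939648404411708873191792759761193017369729743443157588449774011187194840658349619146391651283038637724122666001184013451784370896283423374394495621597241007752474707279675369081165638899770510480360252554803421941605065950468747674009009108179063855463831341866286621712398305274574753985045300147609786926781394178397751965151716417545390801898570096394195170566965995254294060409123462426347871457758303421413863490990984593519193825508995246275014396475388334890335931599919591393633472680969705581233442041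8276147563712638887839320560212897238388373649146095414892809947494432909700352183314625978286331312695667649255198157242726565849707432034251799946561166794102020912295512810446569419170379163386043786729262884976782260121269971687588591420324454174864311592600064610126523446336446461684894106131901022584481239235314436829578942469086446125681552748480511872367456809724708422285766428980414199109170197552429488393680291102305394064377399296206457815796384755611795026478620966218290118313526341549427505608741087802953548810138781561690410575455073774295509609988331693468178023468936238999486190735980470372159774598409572382535062361552788666801990480003585132067468599239064004463075286309150574124960908779007493395255595475260557906680198657551632579148598467906073502565989975366154269211881756537049750327551660803357058593579015737419145099015153496297430661943371189606729465412627715838405242130415183389363976151056263341459452330434549117677502101520611657673155296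3017699766684334619033561193534253732168318753780367202583477004426339066770808691932261462786383591450827621570259344194289695763396691418491889918844171407106641999230789635228866190585552977807938736174416403333043122147747003534154818749176613675775464524194450251808349892383573650979701614515843733859212375402960247942495193455528709623510773997627032427887836692848247633803198187078023321672463249379622741577450369366697066713016228564171840298906876911288143870513328142658428881994895405860064451361406356189870957125124609772762215913557814075040679809878430225926202244826454865111111373304787701243372825590825829353104459500575899625815530465822677199929283506091440666323821497012693176846959832377107646494640636147853085304994822365725067975350861473263219695562250433068336868930883114723518243989035852427203200992374914420359948295922948149398236499404587469448186814868698152774761096138928202021308266141305670077981952239651671120843026578807640678781322927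9375046340579508255502110238737008799053492024176137717907045364084580321570055971106924483786678151511546722299471270834863437001654624042838740375586425603752369622897064771499989189831541079645320007725536192364081516872910685442430517669911313600587625469523515024802358258813815263313383470451583283561359670997979411480379411563390039566129078523552524164853502966883674978964991406318985017139844876913708258413898776396961095015676818066774599581231782673782786991610444676420851875876757140185325481311669705204467602207063832138851837078123503939029491323778550465061589554504854026390744052078600745296694851387485765007078906571448844988722967847773980084973384235100552305302811293904040444068223012903375600858169085090718881776853741266063866018080960251648747983066481732327071513201414113372810149497970946482456771909746119185352593939693355442130940005330824866692543440544111462886484020395015590700987397051524818416521895453827426671634236623063076298179727995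2821946823385982131064068394810744754907441911706557938572502772161822541486989786482168101385930121291329709160444671250548440046743964965091805729517252826879256615279454448423817512795173628178252981101248602534428253224932667634530845556783738291639795535048670518145578997567181010586709721984308021278026655947122073923832336325438799106967606899538826062992923149650199016089408459662044898670155767447412595196563203488441954427675537567565520734383074679807671021068122179768931886011110849303497914832409296075510376693102966701109240496199637099724638463394447013511243334645340081271076550916450204513737623765861254429816730003501014424477550374562600980570196710621103533953657529545408905888670717333336604290873314018207102629218444707010954896301199854738824816017680871912110932083715670628966608767149727670224062708241435529492230807758315950609706697736008064035009367661406474199256754706195776631481059634159183672213919061160548368348593678833533437631774682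9716160422577617434661289057030928041574846093309595209974054738465513367496421741690458351162496254680646117259695010842071696471495270356548744238781530750055560910269360422192528180147746545882863557036156827324829029731199344948235562117482504612250738224088593052420025385374893760711886773540281255900376847328254454695428333588670890904893354908023562060407418692482836685002941821899547952304372022013223760701278383104711399813314923672652835251099098189401114125712959239448464432371907858859517288832681241217397586438212651552697262566895919532638489106962837960552394248800398028619546386180234449728899152723298629079529437353963977388831142657589759289935776462865045433611798956034799320000470949110986313846482868381984083098977679742818244729684285534302831761656753180054284706592722924846427669782786519432303493559409018653662764215366333931755634184404288993239709882469465707682296852185365340951429253251426135829130708855125771292370132777325838106308978725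5704273335870324120853017288289212349339955541994430131533578479612130408071311364100199055478400368712332081124839772063969880003262653743815562130118158473764964537586514892613131291088437594056747403117929252369121555980086547152463366936964978232819406200634565467863342045333420380484073911816517681432657780369524715009710717370717238590742603039925587346490227827834751611073517955595156155166959774903925042783873416969994666888245174197360183120788229940786724593867023305801249453813115849033996704679340436207605883412787118975478920189914996941800904270089297273387102566427893443203454260286553643873545652478197510628130651667225229979274672383447711166540133772371512621659174404561746119482052611697972187715889395935583761121304417312845271414825153578586505831492069660770868899730167562733674371929225976229038661165204105753196287155276807439605705168462363825418348203231934489195602674990235667587321747902376576343197300582138382480459244050790712882124007862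4000743882258685013172786088942149142547857221451374610707910807528019280368611267653043248814975312004575486663951460130792668058672893080411621184309918974922765410448318183370328600424484691288957116632035440447074855213004464357928004813767659734079124950272581112103020926494267620702383588475263180244825441306530192049764001135441132735250999394704848633066220715952473020447417007253251811835492321541428826139210574112863608119945299685467559706203070143784625272498490309704615778527334289290816949656395273191558840876542302035616134613519652717392091495974137693984969797120906817441426170043528365046836967785834766800713507279726422927764454604153770975307354968628504027657837609076273661173424015285038142211797263021640076732885740850187878584611875952116532928892792709445299539834002618163233955544186812389979573890603099855743996037089867185320553346762864403185644163270540206535011269990829693718557524310429312129400291104641269131478799867189441320514035041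8562071734379883442140352556170326148121840005926102254099520006446390147542372348454335761471013738618707030331270843866864534126505944971523607446147363964938037811569834255240633523945270603196268911687418139188031900796645279792255689863846397889131265547742861200117476828720519870462409327760055199114215569758930625014600727550898815060731496530659514476590744236051483633121427702110653147204029436323160464982448971869438252447697393324720719142760389716353709894121820901291530462231486711400381014311467504953780715622320158953226741905655226512699153989426801797000846760675724432221633059893419326487857983347686709285672958038482532336255455440764861113188094228858149927066169733523107899235315324364390858492646948197826521279064732908690056549727335184811544539233314011846205422880293145546699254962368282876526794883712225575298273366307687539645587033030650617306330868885146916899977613092220555465832128701462113739078097217353063102401316104307777178536688465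3742141205037649041048490876896720531556980136039775147089931861997585866989362754427367892792875895099045925203709703344328288780119507483788824818559057341292632138251849995013025636629788465596327998038140182326853998577683795132426565400914556498565527433956361401137930249402836670890811765100602964416496763597217341725675347332752588037985051275178163388108908240383828164590849147027083321708477257788545075215598000881016292931367123765445907977478170315545737408948388392838928318021872197095229489220188852513658049101249036901290174964317354533529800145015311938101488212932630385039464650502733028323259658611623431361211284338178719205687958298900964102368234174129981313384978170650749642121970981146476593719319789459550380780244409907043964067124051804518481701076049916072538556822025635369456502637981667954274940130500079621762692880003589043671822358988479548102966595769311736400328503662577036791054669625615312743386742357568437300771447094444877262143752640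2056179488368058704639333875966275698775015392719257127767009267034726969541463047167656148830361980265984150606292667428229411671278932192021634849449404075690610492668733721697639385763230012545193945260069292373271523330053202365186332494862534581098258860938475926114904062096349073385060553751389104161469755177465776931091097535482205494185618730763334022676766561694514634725599661845729111103567269608930919954888960355926570057523209057417105016417547283445207375559397325965740983396145247296485439554836279998288615966754372777414111948760085850467959401601125799948104197963764209497177533595723738151527383149432729318159331360455027185699183527452215155186299750477150954903782293213772860396607476019303490282532966366535519282723614870502463768340651079381785948283432499159194319153940682500517290209458004183093038106395331747265807543725052629656970557387776804614905811700477997595665843727855248831694573683251502294481277289178660989093883368935130753567866852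0160236337528529558166512140954794069994242899376046502506687016181870030031335910644853724641580449358557865334131690998007894335833135350476622222729278028838597038812597762393416859944766217928183777996148644604752058194442108997274901662855150434568691087614179544032531312262577651409433762623869838142419736418250126700664933871260712581741884416931237055791516142965869418491664142176838181598523984241729245745778622541844482568213579943306965520014348144001861867336508852664077655852017226807561103310765350890122679714625838707701034677222806450019942871214834264552315253016267748268504510657129236343554048)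

noncomputable def rc42 : Nat := (nat_lit 109596653893431541000165742766269947208022752357244975419199597537621833468612163970415966304183940250620019170225052445293765818610480042763397425345961171995910740164875378213447845829992098634723451459329952837109639420931924796203093407404305756359259298445236625607275244817129426943905083268761372585142817115800052007519929076150193543013514331142576103843373900060829864677546016377663761430694735939863337130547393421750409927345498455775174104732552862471620645050557744165366480126597128208621559271075373123496047637500574588932727588797335136347109250121259398267237873678166795829350014564147039003988959490890301710371532341930505819505043556300966390031618923930371911806345869045135044740928499407497229386071463199436747884020956826759250157797859542644477803283015920731516664888509337713643554475181628826894785532909101936005504740162789943939707768926187696721570969412783015448331044794309013836182492866332949183385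5191863280209862319677460091723862030417428858748237453945071234950771006614613282126477566873185269413230961257205091796530237127030535119246661990705942563201608839062668931147316358213970389714996394505993557002136592465047796900986480331375353514375051354832762402758844064499906847957780888162000234080788664452932593995077242742835804671808200857703208770809771564516736457818247687488180061628361091164845023030219882611807118825633284182361529062588252646490190195158878345175642316702945806561292092122913618016550413332728348791726766233054292259089892378236444432928475432670588437002164735223865967697897304049925310054940363829421270358866159593733569639341349389286975148909026708911279160121197052076078821048479875061383774034347967631164650825148282385194229742479920956846202059377709552076847918104820863583821989006909611517953505493428481619310118592493231590933005670515992530373671727611980580108578142344223144857203150114916257027467320061284325310739137709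1693626663726545598640242975037225093867895665923498069156435404532831627026163226293447889343874473674321037025322186324231170402310166551177634251878972292789056748485383937367965875426346813201317552630575388291436865159260880038871956678293423181763226029078779168485900223472474891077562701648797480833986812549864757414517777408219195371468401763547549283430846334961658455497749626163868585735764742519228234876596897531050742395677264870219068359370667274534966435752330285221175053266463378943662714753649730325933966350842883806362339889277536643181501655089801231684222836304560339678109429792924689555166909426423779395741751078652026297452190839300286728922723300049068152944201041234466460226916431592456637266283895589155612571373094218220301632612662352194972238252671143508622137322509935684795788330116475747852190508745322034822507219214265179248404223175540113848141592273358487004315154591755167785380066582097876748907696836309157278285989032410358039574360593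6283531120789686160523471680930463413172286002702126064639522183566997918287741274492933347130018964221663972416622133251164125568286163043855970596772606891184708083442328433931483645973726032505722280269030308180519069800044626798149816431726700821725240892630655676231044713824528776713225015325719073880610025551466098204705442848489630753014685576884167874944685377503994900781343085071256214321745161294636653393488435916160714701997329932616870705366339918743726836551852274898808139239342548205719549220037307152155711647055844410200150680365123763230024554323967608261196481465906652544182699665455673628484097852664023309649509643487516363192280376255952050116321310753689752726421228828755050692388797752418311411105072270811531808836411642447218264228669173255343697493794273789823810334162249532761821192760828681708225273855565039149286399416664024575843468004155919030124546934917344070597670118433827294491393298391054535738423794523134316770488966696895838165732059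5289766010467457820521094271523636137699651550464393744062714962309105111748899171768156665834686141588125167609898182159656561420200279714726791922144766066134238178397992847518159355885192344937982218691318519851664699479986704811638241411603950185061743907833256349387650120584561430869503012608958644484501985069066706302662821235448001693978786095678270394476664735586155570843154889905080054153332389584876681898240167182178223244640141439678622724370294891301351251349944744811692637058343165293807360015785038752164667584527524173567446335533553172849224460894754005004698221304206901473862734561695416735007059465693222728587988799947752817080813560374367095160858194473883678937364310297848475696997170896522412569655994746032227405390237097076093979474562384564192585300683891208420529831885811350788403809712996251786419625851806282626299433269267473913741378756323936667767991233853794993632436831734940964752051507901136713839526732873832896986050959466356152098847077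2054448895158343669175799300369492820321204009796098806289203346900147149592297219569410371279344360215451169921055222410647279523979548018380882423742013057948563681377252850895585030598838968026160882632898356358785311879797654622845100660835493459133649656330062211135454423574690338971741178669097162690617395464244178367822425980493040629172488961725099360458221687379482467490088881502199116445551898938360665026778736851274290673069984300790651426040239767895868516320572240003240625090192156444593029500518732546158739964541613783899991735558888224515276960062659157927764843813084158264161294451261468010051595860280478641060835040531571917776466859154664346948332089128646101495410621001425572794823133742434009094793525659484594844995930794824967219617051249886091678210226859375381049375103744240609977290675782282023392259715310447207741278793639888337642829043146688090812329894937305505425762648919597839640990643485848153893755825725467035376652682976135567007727303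2854228468163952578446291651370633863374923040220469107814845661327460487761526053737349455240780514365152178990610738951001737149208133832792481966863129464363469117563209269430236745787172107105861682237916632523632127159603005822016856674845694019973265011490258247664572328216031499327443462390457038555559912844061527540280474958002494797077676121751641596509307298532091281683054103450761429365512715170151515339865833961400392241433022051985688601684615719955141513546031311513343828431299496076626341301659852263052974388488361414346440893843941444797957178676730619093175574641046068922854073030435769147177922826325401960280350710817776189370601710286390542082425897860226729048318802050397871742198088793908432881767462180443600028035086995095962056416405306026735074212129328369600406245539292164930311174695243291608426491379138052095589295200753005885187369054166004512316381047709824889563028896487595017563447407987768338454594724202292756899677431044676550610557870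7949610548450408651787081010888013608638414940182224236303897901704059220377545496989677950956987505652318293088113797384352487769953723974436594869177352668060051604866392615304858927232408005482174331146094964585559290320599433857909615267275759199857451161157359876406928426917726460082056516161169524313808614042983743622942730436927801036057809317436269172209339631584033581971167025771601091925573822692967230684880634958747474024887357957881008952222045253315262027677228419965094740367625942139516118012122756190560318058402836363528650355741571942990568491012656638702943869461286974447212964754840304051397045368790428963567709555458714181704677647308126214254545849938775683627394314548332740124640694458290180295766708230634305862525136579254341331536703179583978777301265009431658461295734055063989204496559394091721803926845315111512450279159061083398905983307905674114388299945150841838496997191985563087759786728748383461331531923457680336501081263550184520092741896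5131023227773145055419015127785684424857175819705327843313305179945230539845471690760955009269151535590253333522046991967735789380368800040272490276414096404051361810728259139931500808102482983539362804693937151688022641710595137971704924086776687993823415034008958432615410929558684019952412563382215564720763746802662281961457654841899197898855910583049501080549178418056176024414423606639142865313558300007072915607471934066338464236772738893321289492701595325526578659312854735948071947997153467431073042228415055605840958862726414896747088434312393992489091106943992290734229881469181483941010039590919984058302744858137009813694075914622900677028254384953483597894190283326492792351086737899788464325582044502170895487693447334197613722816756242528279779727397622405117843751621090181219992952878277096609447240743389427339360562634531263969803409445431716744787022925753719446649299089073459282048421188437439803206924597225483982094121477425172825788613810094789930689846759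5233531988425190439040779375921096459452543358474577004626969861220497492707740821445181258100779271519708501352120167257561172508033062422846297293251835679182260996577008548503810994507772804256715984812460560280824057456198093497624249570232678823393643192145889421505876020932789847531653820910788599291975644247870719567244993469130173983480682821635871648357633567777535273827900114090957296304123996615601119487917218606602179142551397259145036291914465963025192549646001611601592507374973103188592783530224210323318893732745616979282991886668442300074125906748600429472410223003361139483766531380237168324976842084777594322767035540913294762464981555660847201781941998957083887669614978029895931205867216710737269650653776191284043442319160854264031639687344821586506922422211837863089244659612710602022441572466430849611811937920222117880429602688864348216304404631542909950439693272920997081754084425628190350632044511870129622204434999121246977114785316838354455515447576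8356238619937269586418447495409543750766831581067060449834076975664945487562700932670925586922978228140437779167619702973239487819634217179330265795027674167349660882884090134209823850164101456972870665252381286121288021318850464058517807755106549695253547489574039442997243543448702047609680388690698484281375957548660511865454256617716935410032894025542307179770418496479723030635121365675118429547989346442102540015583819144421719082046993411810059487920314037305371942178673492710319999543093655735921925997888885220252105341299778074028289564238637148430659586929160652529193214124147443828286998611712782994794088784060709074902677808035350493054969674614147773437446600080114812222017601230615195989390587150988366774256258115129686363109535422922435048871714890142528265178729893077056563656055727926380940401644503307062929966132064726748319538104919931109063551181459640779488242659887465112679697049333860076378614495303248568462240469441762040898515297424392228725890824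3175448888942942199232797558248276916936017142604946417064743210142744460401337477641800322070712196234568562386080821878218423634907482537451347100807241195474935838262382373926377965163306033536637290710005364343140633659165520664855758803472418929475912773283115240808723801256001029407057403968122807204165989768045925942337598814048084649121609353205479517403940275236608928806299242863416210714359418373544927130445190480961576345172976213660912573888186516663765023425510960037327811028906230865232955658668062784754466987545441024598578757230975662819662808059638109771839946719716264969699098378906579140958659961324420978487276247829737139006424246784476563581192965207410384977380453497660474260933147310587600848692310871301653073338263403592788360273342503758252165572351615914327794041632775727666126193459184041636387511374608635655850122587746147905866896476690501779090560197986070441537755984579370204616164182119358849922052351892344431644575932188058176632492402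3398112893977825610336286812029187537256397697008532548593935079213086721047350125484400610561633155311102286874815120409419902380811161311340727333763897751864993833633668948499787587278848127692005256887218277047530187062493408006251270338589570631681507878648263330808373876301390467808824187512792890207719813514942772147419705604065737101361567274259018443376913679860594195070070575870907984606252226893616729470260091248338511241996568698489551245602130274252019069404856175896051951387239332007817353427405299325450607477095415210038212620480266138830008719010308563710152517695771204666978776441730620433944905945686079019114873696039104452657385284022897557532789296747865592657067252424418571057259266704584738906871627048509536842146387221719855489514607565657684529328192409181728041319433477989504056533897618799182850569139527033746309278476873290196551937211074292882761774279970249974389873205515977704529535535260138343213167159058796934354251527347904360875335665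7873967668796456534739674337304779983502786183488007422755469806315185117649866306451280088646292539079092080235253012450902780256301891869212922881826076193691768143779698087771342849604134418621014901104941447321063577101605395517485175371252426015344501087564636553144591921118438732354953596243680375302406218270034190927415899719661426619662383975506350622712831193021531425504672751299241425045531921148524801058813065007634905170720182070151595856233593327013611832878208521058974956245685996678149788533025032390782349928861659339146015769105214135017248800299095538707481407491836824137115459802822600190720754676766403393386311391930142057747368192180048780998855854695702432025429567381488396506116823565389150271346173290243796408774249040871177928575348344905702199296361315808706599071158753381219641947789585611255379486856893177765998177827957333967023579104500839140331073148848691359012277525552289674448534163675202114976504330795565805429198621019740587401814703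4957054559066282597798898039026332944764844153907369882847809170674062024903327388503407681723315070611921977942708297692268152653467457866095351722870399791052210748407071531456329539896339883574241191221808445163383568722072619370839950905530930183323118513537700040428827935904610098010606630082664431421439120049348377538616237803787027838475294499528401197183024114191111283682122245584910903783964247091804498633196463895508520737438060762543248877945520468958859997180989254148442948407909819320390968636036263373020576120375626234645693290208232672602996198748836239547499455029266899256526216068140437874729947146450670548877036278324492364755396025428927867230900655733753200289609728157025009317314300173112894184538332615134390246433915368418803605541369667897487080501576889384961777685959437515963476223101146788635406344147258837028421538260837548387804056123248335483424626012222936188629504269524958506580368543902687103960645641922137175552679410747670770213404278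9118177234226127895190445813842291591752215743130351961679372326767390015576622071001440911923125986722989299715010793101636086905114352080949851504763147321264028346684873662532097546439510480496228667961633028449521275777053506222091900194417609561968336318435870323854858020908383305345593520060858626643738101208818461480371046651638329593361281461472191313189207742716524952444924835885762392906921140133899368415126570526224934395016325137404668990467857952502579042537727736184141187340792815471864760829632194578449488999678760575995660201525208831766784371833606963438755641572718111206231216664092138264736710783840470261000800550855685629801138502823499121033416179652999980473028319984348549805674964639533773826523245252814824695971776901607527078335160060079689946501980265760136400299327961748287779419064338261421823494168854850127447221458035018861812352688661307044684165758657335017955708495446673757588466979513236759614319156471963729686106925506331558354360783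3617459732795935313446997698534277803471517069181816204452758944282885794229597250195132653481560643101839570836152659763507072905671607075568546444969309629512639970588594267498409304540337679924442020303187795897225100896603496665292245491159143830488909246817035536653699489278843985644003054664052246948980492175107523666538104785186516102015798958232686963462608257694889004178888782148871706927111955327307342094625545471815499005336553752018103416428014206607681458249770192286492980590065471168471066427769372447272820557197149718931968796209506217424042385580644667662509258550687777203289000679841662545052228226825247066019927016990376239983281013677285977787845522021648865590577997036759840551360570627753602030197656249936978871660572070011224694945715369334066616963068410978342703737563264289419295463615117287608076572135750619149118748770283028153040978826696947275258227125340311907923120464534518747680902162628852806660035983434526305949250418027841665212297702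7471934292511021796714533124917923101887351875562780524661691869166903586419523310662094619771390924577804128309545971841553208237409331030587172782928643059798901612077032638832502166345602542635363781624268175899087201937494801544358212217532660251323045347916130233126918200845613436336119007446995229639426512702840028762448793737084941701317344214220380556219426689525283292236173898898692643770811046552516357164151960597624100162529092980775899235757836892203517511284925935762753350442376814549095373064791796648317088459398126991118379469130151313710883987564603567651624225769272604881173389528911078133596160)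

noncomputable def rc43 : Nat := (nat_lit 109786608128320643695834212410229447743088055325952219445632276845733048065261661456426217942021408404205039480023715870276967653164669437167073359773397803223545989721257214512902393219487362628939661683423987123474413617489623091189158301555864043820170784063477525364968347016553799326205883244862328569150415406471436423208474405262978360272003440535058616156459922870525882721693709888070273913470350210153418502759387930517285371991562799715723495868173152917769449066957090362160622406947387546696103862129038446908853777973874097679717223341606155884083100196277351996689732933499987326676820853294896882140770436315624473905175116253825410128796105506737324357500715757955727760494462191074945042291137102723622369450410465265811141812018186809271984170338781747048565842917327165797638200449547799594921662337946254784420529581568133077449856282981746873770922877633308791581915051600760298227438694716323265568313274785807592047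7853029679121817997927407912813949297968149804383106463480843859851642594781278955401879284872600083105688670430597774383387745888245682405282857294968734091163090677882780988959309132428259444807216137158851528511869958246584269431948555948082570894794308625139740358941706421299335703279475967309428933146976371310645264091006135485983366513616097745557244083418499978327609667483695335560940634314385890944177846753848304510693286761913651883514048970813414086285130776214638358040589948601386094997296129748818122660969894872540643165597595605237994092915842806416080747575955474128901554110137386148835287358800360463266538282896119654154700578226325176913897911715284855309937014041321738524535770637992653754218583869932057612830656479449560892679229499578328165015503653362601850789001783009640938101464071832753291510430667893019033501911890608066374038399373803249778815187478119863158020975242373711194439434494248732788249773149602376306313155398242798938447690269988428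4063173032434555468185457424663634995682023030482923247499471771197757487273088612035717217304854181052406077349030806546038622007585404302796670584334526762085743848671712287420037476296102910348365989247343291964136653058629537948724488870527147441543858750407616170885988349680945175248645676663658208470337019219227756358577167315144395817825224066503071054809864587592145225776036188275575746958795847272431805831472414634464751709108380144964252774973539640632997251834020895564518125780650011270605148568925444789278394360510323724358215620710925268566590093679861056785404123260788608453533282633999351438085795136773834681206528139672535480806901802301454354830522786532287731573586131136866824948176925382950757938002348818207750365692847308656852028249755387589658255970206208824438348748400774523511320754837045905338652539580632776524291955784683757688853547391618137192716261317079083364383677471078534830831055992839503569149731455849483073302576639739847099530853686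7387926546465867630179918288536308396057462713193310501985333170331012771901466865880192637365330895072302024244298947955437778054352813086928794970732741007538172724690553340473410799794315239592663045401370537075314374494577775816495722866663486050210239518623951637265421928226865401854310128942578100668852469091857938525090980599225297452979877099980435255777484862671160227231442597688859911274147568016042201103396531568293227830981448845354447414535278222714732101198735707879874721127719946177337472722546364616768619273032663008412300884489063133466439174115508066330803034043072321838089283745890306266762045534316330019617064903139546965651602572685514087369347401295333370723609129403880471639476434888276210222333385658013141864733083708428224402491489842803232973604519846410915500763751008893144673982720401759892870445713988415048874647563844851444079510850693686139452236780818848115255327165418038492713387431261348838621983361336860128147628932974919644547135351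6572347212442633569504129514687248299846356908740000839944474199124232535268491195510314413739614746855152994327180563119384690075119287093482420329244127726522732158827271543672882012353085815291613470543800918256937370238358860020624202410028130110598320321016293859925771974057409067450177511418745801532631327477405031249098222919075014048445073298496883866981021963479767537778419010322167465515773894379462561419691225342228255290225011081057660396752826280430054320861968212774749609570914706019860527893119170443337746086810836400928760668906477503966120208584070890452960455202065516069102901395851861240126725766328861127001402208448000375111066277321809705208737526066909842751053938842665685753694126105665624009621751723141673817111294510518619517855135827210862707058582203885583559039813613208644697901851219000714827655041555647291880431100155004739550598894980870556153114651889127341512171542841514534444847603937995975155639769353262780449715325685033921031439259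1173809707772396600144394644132275611892850850039806730263491607572000183639727792136108836112638982794400642891988805338300363032744094022402030096617175492011956471293046634399994356950096191368701654566748920643129499748715011676104168528075820766281640205574174161420899652508889601626397730447726031680642084259777577311639176462253752756683970313227835062167535939523147988427518499163934485282000751420759410839346131750493533520197412198417381077691933231459766359602010701814382260184672251528505782589157304332373002604335778645165376479475507016891285674458672301939538678116355640577115482507091404895705702578126878108468364364343036097118601340016408295859342795171269702725388530912334417492290032985009910757467951745590505612492010247119976382339559521039158416576797346508737652287487574249331656895366641581830141448802139554602460014300189160565821618100922028888407256046395567192334223540901165123411060991647212229095308334997914257178665196040257525581980464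4249921612316106420795750090789685790050761177151847325246294720648315155205146711469094857718734917398117856897022895419172657421881488414340242995247276256171916261835478744596940324917552737419804306392504281474379675065818119484490859963680859826466599849724866072682337408072262505461752386219174286455563394376428960603034774211288558254142639310235360833717099115550349084968306603153335089038085580003152588707071489623069330000473716078558281396079873747205616422105613952353924931568488390845907688914439873234235900564111529707139916875064466686559415942063842658208063779076489519953553936468025738503529292798810313413879292101031102061561406111677716607475035577063709995236600984678031443011133101588511029660020907834991184310418285160019188235736981482432826256369123912388277865404895758513174399840261338786377920365775458749473014685602921681579049337800897181259884326905166379576367234760557434940150130602015284957560224616361111161342517313340992969584439554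5916704426195654793531618235084964304611330809120282658057239491882442986424756431711942705250682086657161987816164821037998658445005364657168682875232184432616443430916450339244576812031460135420724421823850686753236675609993620974223407962768402851485733126388084863450382911624450395795454645305843873187306642115220092711176889356355260046684577818493935753581745867109614450925225810182578661608320200244639380784805065745963685273490217924500786321014727930699148294667787898802377447628257350696755242910649578490690527888559817987119919501937153203283001801183030653801400211958221148119948317406071873483469285198260856219097832617536906015884242819068755544730419771535721688062702898068778035660066632682334490617088258833499740522820276471063178212514663086069595303948105977867988388140240756046754411750820630909544579401062393442541044988010204107751382506143090892978177486888327158185308443222426861950035853764682941923900225100967442156885446433513124233594673731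5162947365338846489376066749832453212225749720759737203846753244557999213954105359183189513648654392140105013889067762760946278758542226534961220622235504795067916629122746598261715491085645965331399693864768585048091890272461761048397226261774737179997191423629694225397977665411943520552493597817572175328068552564842962203405085980450199304284546421927180175162668443925934964784646078569537412252867688512390543678667780703365472684613566470674598521998304104609663542616132242856602250728743662075896238073329919428688458403257658767526498198271317762050885276627070836869292333487998579097336872904565373114313198124176566782920069067974598912342065038410953960635943522111987756648931964131517966563411440234632788850817042598858995733418116775323120744837630060434043970116818592002389128092604852885760045532751372915812088804895963871650424046201295408226295195091450781445682857039514446016151117523407446048599625716772064743104863119716865083252080420547576867588886823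8933228356642177859167095290475605495970405828437934498182219793107309915540544459212954871793930741631309393612715452350525444712017528232945689535663094820253553543857164149142681356841418278902334925897261464148794211369589580994370711033713917252611429952028617989463551385446649754675410810067795179014181903444193487763514431390255642201660705974562296054318066359569187107419286181494449385708250791159511699239423042880838532336509624050634114356169248741648854420147841286872658576242894363661652382942777859809871016100997107062679408027459271348890195723686825786084844282189697511162654738567480846037903621820311517061304011320699982874915035004369277422234557688947072532242478629701431123684518090206689327706805341711613923617764657564240285914622499047564535947332250761566716498827716003335896881787172494596295095091680899910116004003181284363648793976059836092733997376000991413798351923111809805713945212184652016012356124341916970381010463355275949075082049664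8659500504138951200241541379863627460739924502797998918477837286639437946826359855285954299632289386199173708631805050772738089230154547035559759889762227932845341632885800940541021206078500100603495938530941858889061556541597709193408502348759640473475062002915207647758525264086124898655344687279020529400282321384594563969924447349053670106849734425071660156853409243087241030790631403473820543177526703509947349614553860374880563402165287691949729574058931810547764010747307808611828978675065058446725224321301918463942411577100399202296103967541166414570843673893672775139372491964832163789270472778799496619193362428381633510148426404616280802405440823512081318349547408409475712102288555952563580618876649113606957308722589869817110220851049749179972456183457588129692347189092996710851014901251358464637273663924026471817953444554888043043740209865378324373592754328904429371467511839995223860519207585556920278196206570873479160514632586972117694891452476765184477813070389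6323253636117190289940782934565072185898129112026893962883388440693360990800300027345696178940142140820378486104492186270927856301427582502885197721981576104791541585754043442190757007553463803063702934190324986113517376072804126881524799058430691799313303116011865036488367655750612871337395944024758440867307379553074167781508869903776876164763275420002913152870837200379239066621496419704035699423348959353787535111502168175730845158569088619991836667643269086196883240418142569208286740758327959360825173252789324779549407426936731903691201836306511905509566616974083358146289717241692242338308586632104297950914946353680431725734758525260939700002365470158924005544522005342940165774590489128720773755184441193870731125018840844500827921997309668718344089424357231290718992885052695437282966017138266428663042294646641135502478051028579997150428690159152528807770835400173213519105734158579333526435898881348074672066154663821021195837419533223406408994481242236444184113930034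3587102062017635585650357974939417321592954360854679535036756277573068743166036942838877858361891267078500468936068409295414729886138755182636961237382055775357353024686021264240920785112397568111750711318399415380144577801148908976829648195567069692002622901105730437941647276065078776198734077760905076486068579071000088621537191876682343989219735810383152418278934026226291765200346107885019591362225540412896183384460118682695138635979499087177113657489262910781414757242779723134349733241084019566126278492070899752316916634163130356817907688635199104993350519331099300570083273749157251784231730302968541779292686046693939387861658814687942680820498398985056861380549541856759000512351807871454903986957640233298743054506217451988798881112810342969797567934379531726805434357857254931840325103902592007009190499974138898428628429919633836550774810370827197379205502227809301261991815814632104523733799987837863980374390804783093236229282434351039832193277128435192641747515242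8598581248211618162273128837981013914081051115473485620092639353383086153605902152951594833147979679211045048328106406122420527742015488870827061161066768788218835955936727841379947865165272917960586980908483503436775048031753822530266114449167481594870690841926459930877459940322134873884839702929781481233166827647075503666084392540184956066384553709711304210146283231498970201596447000159997451244627464893800328968288430583630702157137443360354287692156124210481234534822794971789000282954443798772439162777772109806456582886566094001326653750603716927205331091725402638238208940023989972786176678975700016368213037977297802073518951714690847016456775787138340372286887230461947608224037716644659073788740965248165272043636310209643683677370003588350722596341601283139882703409019228186735913311852895179349822309420819231053996752524704825673526876011912278196994799350906408879580819045087511984763599145240675701649699716985630961940573292584919068527010646022007352363168524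0761956690366452563282536126719204031515445790723196733180004314962819191003830086726481654378593863410943003285145371051656960498796797421271585567892972164310028059353851002105589859556599256760843781775098112959509386258903159404939253418086673480494198138943140333018289989221807416345092327219350293374246270589499177488928414007043226622375061725429153091777388154523757074343255218393634864156749632255495450071308766092733608364384977384344826164018388446528025185158161787647901212989195930281426523409584702241049467241882739838191559625957068805688778165311024956782237755246366222698525142175722834856399301356178979642026381901299246839324496652375262564336827685584095723859624046365159610824261837191895434460690755789377815190499772667212508460065246171560402180378715208086716433932801293624788492217043118432061941159525066137345983594516017200793573105586589657322851066071897846523213226221240279818628867369638983448025917337921298346820367255511177879623120590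7434517591706556527285671266348724133864583062595868154542841302041024131473565709586048240482334360731023553802743224438886738009712117891385384308107613871453949438494262146139527677247607286277431970716026418913038863665176257199989673818637362061536164167696402048638909340079314923005388300123792705579467161759500942051371468751165818566489078898921684307476146011878429647666118046480575756918511687181593302548082705851162296331182730730240342608644074420591471219585567914682899336281638874629106300602061634263741658779168794991456110611303234724742297879442463912227824465091037416909155636152625342057000722281779240629040284404575784224595260407306229655485046608597547666537212662702037535096561647486688263672299741430067496052509331513840809905727834888700049677536303669884386493950435396816889225360027435629051146486225187830980635202005570664191804367103048686951777231969813297210098879670595418135807077076431230045891100600288876426550852217595225213508335094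3020263353330912844890551480521428530007403842718241391772297664512764365624592916893563255604016848411639663906786181121229078207853670360605898858111579364596784448448849749815188776245116339468680001457942181289710085610000212907513960179574404358943809148074577715658435134319051359238507561595519721445968722402859729639182548311938457877482452056258654603410388377620810255785802736454653470136359437608359607779952466965923786652676928405114790170722736564413879624831238986415216936443521214808833353019240644767571684062762678666829889101069575315791154507398644818374304822112007943840343601039616988280932156137470824904914692975331197352431458276457232479017423421941861885941569570946950512934194815464982178025494600403518788020241304282859980032335577309666017809009390484280953442624575483107716369706095396949491585314565868303709554821588505743715767693089347890467766935153200842427589118825881189232510313318256379411989963432410054583559482733216308401787015893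7049844491265861533532726559543418055058149319824577433769057950511998258771424520306173777579744629513264700042540038016053700803703357534725881875138861289793551228157451843436988355959024347302168930790635494014455189772665330344687484372231016799193546707845915303748222714362523965337332542663675422299460294027126374770821113082336909720007416063300594075927930338813946330275992601968985505126574025541957913706486109642733964735993838887643410952165976592858481978169449110070542973321774010613883524668997582292240040012493487836415955164227121656261989079907437489231325953975887052662655680275205422040743936)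

noncomputable def rc44 : Nat := (nat_lit 109974543502005734494322312733456167964255430290341009084894937875011798271849992127935762235563197221064518059128895712736671869958215935567344480201800535835088721648450961414464165222167754125674951482985506811264852201213605697491826543583031079647340367105135039195793030292667650424384283220784798032172540724354877013683469559178142131027344899822454092204785698645614897267863410326995756253128436379029320678182881007515966875456415097663961653871480773331273302869345490300769658961402429993151822958919726445596980669692469037763599882045920424110832597975393896053882286585138436322763518942552122966217855431791566393407135713049501911785050070411991136841513503257331675810786061786788554259882729390971766498133072015415870322564970694335348216008668318640239886894606735535328587079010730564205087559777408133370868299641141477232506941953056011634883894149410350223268183828247048643748731156146894831117616523852772765816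8579978900560393384934128853668597281672419905907087173725088338595705276823501005557258240452219820177492692429335395470149412315273542641542667821168411782704666475424781725845910219351076994229913037516619184624200472438724101262115335615337429066491236878078352019595468156106761648773131357790535481968486215521782614171662880352730156961738789488617577874329670178200059504869909360284760743707549047578727224332288735145580388215302559618958164712283545532799032697327134708569850136850836107930875175177527288520494944875072287504882581231611236329171798168783613109394145544828677644729073285026341214365800406467101273699156875451603315202091274074665020373297821040776195441105181459300750690048938971462577650345361154459029380725226450326894809037013288166989242122771678509585722318365859099021359259987346767069611521239016038810110457186751728392860529037174300485399007692430259804176093440457480873542474870802552209279400933769517950566643824902263380218738829239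9278356058224417592459198566313268119113040257835195522370403676830407620158775749435343362632628058393221282988470641749213425297652802999771519309302155578917210572938099946750107533953740307018319424321613698450250057699779790624424726702027554574812489800908182169143789076110763067735204264554976247772367861427871233729445726201379263397938434144659109982070332781132600128857762383166632821747997968798158064258476849418346435487799057990342246220803350849924883182393690508913442746952333934781866411358972920669366422997099287225244293981328734332848407759738130954140316331803934630753891358870803414069135796498745903417185162183290659298026219767563119216350823798278233155207475906296595498189277705838054891670290083521768776319279950521174850815028622654573181395144390133429199815154900467936875655948674470322045145405326470278127665465121954882892860604618748502856386611649153466932818962040326529692984482790669899662342372439353415695167207913014800807265532076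8390992916307354951924825713902680766262514288177142486801950254616524723937334964852656643000750339943945266548829294551012177737719422469176847820284100890387742848085725600022790582530176187655481832243891698607771266806091605262403976756532740044830650828851754225051403472159687709710369646043717323065172579161964880338418124227737958266613479734502859583046525939558713206158468518811460613581037124887834528651713325622974920704404210208021482886796331554946307102825521059859299776351732269212115598050893062139730689651587819786092198544238142248553728960300690570305144272404670688579291078457207318872224102362643847371941379625141438368209671629465263120865624694089508298408381717660970856139868933722243101339772316836959663023327019364497776048184658302995854614991617029112947072131081479285453109580666016126511256857110355099930250012849381154014817612456103405216192340575020616154770091309727029313946017892488035838684303766653341117519792267064272186018157393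6623746180744706987674675362716972299559887135483833467055256285543563958870111168964475991785175322913485951402633726865324517002585821487950019352999573845872330797683968689883570319516355586863501339720695720476197568466074792383425841515682915163031594343424474730324269792818358704628496497642876574781613501879507224426074796913433398845469330675323883689383935779326866377079476467567904393576818982978380416898579213121637982881267298628397144153175491832292148128283758858397022852478707572576610670999409755016462962717941549355957875695858447671910438040246647025994258121548731914201781911037085462685535230625487536806292367078650085494402666166562558877841883071228161879512666004010755208967333420346944340657584117913366217549404808800454195058332241679706987514868253004608357751742773615758997477864083002219902158313910869765670116757525812247726006410894299166029897153980751417594214725636277535301732644897670582415821736153718684954459011878727475424654224785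5389343206389596045901191822988852533473805160059278079792835023020754259897434107790357225534360886117030395198252798404672248312778417449332633827454481605522585144110413324572464138803709118331917693418069416138648278990064650954597986332025672894525864057858704294859073606647403776238227254221090512038589583469698590922466122279445252444545761842644684384643581941601206243947082478690004642320876151872330820422967591273765058073048496425029213953651455796990094409870603203820190787695894530478009237266843633902633292080785847492656508346290118846088803188374209018848632463984499819680901200744995849792303322401432084774189889981423808362404579286852290342474431550938240610576812094293778961240586079067288438168959470550703698805281417379616433239762898516015881029821464008880245043624826798635299045215465829422256494347529484707724542273136339941071863906726091991555396827525082011551143486170888391130176317442338000882115014104556384361572299687393270983012192935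4884061977948238698558888712183433401843207757017643039857168596016371730609719353122683139086744359851773975053294269564850570163114883585074414448247258948433486793614822379484711732171321094254255935898977476174230670137338207427379156944121609241959273086577673223407814069604079014457959038116779493480925153164573960995745256930102925989999851090255103436486145328355439744600202052177134080277144288153687292243139618667954054299553720825901680804073288676225121907278745656894147810092803658743261944200317138562090305902984333317415590212637341431230746607812972238550354112408799456982224722945472784770051804001724823802911915039736905586123001720888935106717905294808671047782598884479286483505541673727599025832612900722132732730333234206951980584395610499503161916815678005800410284670635938691598023208961205732185102073894813713495292899396063595048969383221706453864108120931619559676417199699098324183369211759222775458245366332797494213022310738274621177385946865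0208181823831983230667553309586180625643357919600062580269295490344629063763232461119644164203592888018709229124969045572793835549963380977858977950913683780624361138805793947708959870761352092662954128277745081931035930468819419516765026486725203467309064451198786051948892097868540517598109472277924740825327472401723938134717924909026528453581227785030820759175454285425967922325463616000009519506856006746606658037504716052994306819450061167453449986241619384302602985294400069328565322870497420672134487400587281754477037662140881595586948044469325015031877564848928555015801322236627416108991699691133620841210965570603541236667496801501063200498092591275814323445584154743210646513995462615920442380717420979372683285804860138569085930601092056516095568955024566592499373578118573217348368365294066836204906038067899713866698443169983708724969222356284545892684896219402340758766502579053182307150333436972680352553768556545848058500494037117757740593895426028893849586235366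9735963755854365350770246712116723677553421560789114537715460674751646457429303710207940828234653800346349300278682858333893132740047667449661499347383658669311659054176969738744343431550177566550320852390907613130708497219615769325922004535846248288716636961859746499230358042148906963227249541209646961059462762072079975235635053076241442387330626711673709890059115882749204310996629836567763509408999698306542044105784638502554843910903383000905346655060554222837550350804362462979512787827236726639211180865777454958970146595737983813751014512526555133511863619597197151673343250517481816660394512637495361286263388052907296949269210449977110304613417877904004144876819312665253195738170898245950322238230454954595820904725947185438808966178047210196864818467020267079191119269480512727365582645864862873848603792611224989401983531112478805285134053850697086999751659559595527652140924343733861481486488088788852682262744889954591449441735584915902112239567349832200346319348470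5526685572606296305835020310166904460073857936479418050905034447672892746260835041013037568253721297741619184624394966339078828836577904832281035910479751087207629716347889584110663916608305562901303412629447663679991030587394238567694170760794318643781417954742150043432885089226691670196815222161123202075952724540564971416716569270995169333202803491784112687282473829344251203939429508741441647872401097112392987022496225836719222181901567798598638955323882506606100793669236489608580606414966692264119998043151210946544102641147648883797621964555179827238820126121379100400938718547025193357404352034709437687347811234393213274221168819423575747090950888039019365941225168739436928444806585595301142109301553247955798879168642441229268256187207037924260329474145757304293338846149755106221377108191855151202648262733538601838694566063666173345889809956793703329115155773648463314227603554858788230112126899193293717174496626076284109652985374004446372871411184549163526649538348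9890985883257923917662037482629224991841357534260850958191051253485966025504757212423958544924642987898369674086527271899103766369735309387284116327364490127060841484615692340004670427843804194575452557192868388450993497142027872972575266746391535824120672074778160290374106762591185585695663334026179171074369506409009261289178179923483445640985797088645803424380452931922615630593184565524298827991846216985424693434428136206977637468417338876443316412114248942893386568088173442851874706586781739549862305687046520066657888286044003566014394472614496528212933560713778216640820743215305205970077927656629705260831944038435126665573265961107755617114435247506986694186235328527012193967903174301088398846485984244793729201983375674830658990423429607026627522240972036470955033334010509864650687287274036797335156369935861853871148403791521456006083015001942817993111291703837826073012248495328045135219312188702079854991407474064427834493635498870085071133665942937067913963014120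8345450198153182829662397357439252207167396533315287258592983620987610705626000924371129679078967303473752333379350350653074744899455157874447614534146625554803402464288572619566391645045588744973348878953335774861049312910861419205780497932944205185092760628652026222833435574967417903479515808064807506030930790421166769852879526657992894690532232388415822122228084553562034611794263557996818251251736267597742667145000869212875193113211988793944849399108008344799821203065855610362382368639600317974324267737756245706212551601300618540796065804927769599811905564773319950870846541998517908245277354746509990087071891551488679874228874980134052708942604771688231116820018202951601943118259255320769325984874451325954629013179999194931088077450524109127589185393818803365477381420174687528932449746613255586147808886753582365312987127933785745990427582146837132478762194706548157808941210736530672326484335882932323908571082828593431076786079733681661323516301121570704364006865756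4652322592691061620944056019804865414232704835225959968753016538560034420858323480815544332993865696999732445181840721668506489835076227691018393328502047714078512622385581699028497172520439906174950735083936817202549106935222054540058602982109967986512594537664514088742270472337435336674589247656583597872992381746466674977295802374703230147967960980963815006695303445906194741838229689999532392122281534904442029328165662549579635288890123757613761383115339557564935579635255593923909665925392217462203675010954095837376668669506893308957729503683422644263041341662196097247049631760628610832704286345900789937431928512054767673248070990383344702674290332228874728186470547914591012312804093648833590268174324090778768953585693509287914630272137330054850507084605138500492534250431709279307052440418569111462695649567577461997319317844081753100379305874060479468441910478048310474970294487367709557677380919863738116306537675118195605233731199440647400684998164492167415893754172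4379431021958323228845116868864181527696470722260933122221425743138486600929598010951157150088944344653784249468156189418192687000795608989080482172467877911983146573503421136311016182921399324539795356632898150568781094556732565840823628376099684934640282014609190413481682854475235959751338006633528202519136364070500798664860721145246988666437239314926674854525927847594565197254508730149037849410068946139291804992633330004551508559814774176419067037966843662710057374803943094777143477846628217300188285935440530032805882701026759165009831951710071161806071225690704507812867621642901702419922464585904175027427508487230035459411118508594283091711423781430613185632086148538984008565427158647178364833332469658683367535078907860316217841212874256170678053872658920063461639682387062593916547679418109382017326515836272768646067686726814896422616033707282626975255352862595943045592940185361248862760452709755902005530076820283695761625636159804514367598349169930866612724191604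4032331908364004105033444303751611024556321443304486914290615563185434208935743055710030843476801692196253402266169115568906181649861008459230138389146113622619622164475616496334471271304207456811610094193854182148908355703594891563348502536724869178253752924951570418294334973928130509873419547865499825855825274600461695873447901846625053761079125033466884971686751428006059878007863943430500698519677815421555355144366693020789225054142026664524556451345794381799328496429971370895985127402999300844421703355777576484519583824076670943477919875316316842890399855205452020234739063551915261704675655203781333839758389578066848251605496073533905506136809167140109379879747420335521428129991877949633504092239872966754986124472162005355171063784473442588114110783052585654091301906322515757476958090469574425146757372071530798694654574609986408199265578028908159973424231319241300380156023193655411070731935941183391271207506730601560115672370551716810660491457084662245987841687374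1194332970894962420667110598020649065101979778001537399848035695234547918555244220087950701792652559683216936858456649038288565951973137813550817857074937530835210365432193760738854553372307265529792095891775351179783002051823089135044743765251430876504951742949867421602566471629218382741789551983215058483263434335562329090493375488251220997926981692296326423071307134407104091643492551815356785806751039033332478206182671096961003866802199747053695851155028709859279943389588300068331153403524394938762985958584683051398751575510948779342603417630116908680365387505199171747198667490629710072581814200158039930532776503211612248777114986563108171193234089521761485840903901929942906164248342553297184382597330039852076812649363338935600866733441140632246363645879785593740770209115975503189252719100942068450316313742653883760522633945874227843092199236289378298817889092978470854259154376509583938040456168802909370638213435799630940374564996415274392004139457278682947535262398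6389119704867776181568098324689582920383077879151811624908120497165520884671718148178048239093704549884121193676289636138746533639750835167652881434912789590823046022402788839621702011599784608199520412279959377828827814581287518099929754483177756509124369024867483760822020904029053296908299691773283105419928942911885329763383506693092644054741233493335105733026004313099009297527833217664833425730802118876848318523641778345920043321841396544332810194002809917725236300291319213720996557860483855774932040520701885608176626978535451212626761810628285094260286664742542412391919988068857663378936009813984721685907556185299480642669056010414777601526618762018213208247120466713429802472047716559655447818093476438499170255560470940992621812945295339272470115002003629824845406453315883098697521981224534578420343844739231115460987821958969386654734730649127842677233359577303645315546460642934546855167201442191941872679645171092099986127743978029467687493547069026505341190687592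2969121610322127416571906367828274879492484062369401836155723230870910955457726725352202255833555102570378932971921707721478263664623407915510573543952200134417857226976944482844532438497568328580709453620735535190671848406406661505806660482557799454171528577629280070259974079147013931778227219343437234849812011417716651995372995974135843352727192533985775477952626657729717387472784722116008215958100253677319554292532325741369344694612594654970290997538053912696287700714339246899065718376171577529483647927860835632236615980449524528473792457920019775690017631977993411904007820047170761689555048778472471033544704)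

noncomputable def rc45 : Nat := (nat_lit 110160465737384574275589674724895712994597844297276907786876484875554649300203291421627082877304171770620288081554359509180627997931165705385124679861029713297507142438589153939814512999254581201284484775383287251182147968670250455162366219267992292808660747102673314595087850382804202166213093384155858557177108206594586582726880825980680327643786396330619944518009609918166975646334205071772442312974966825659633924027981076548445088451003022333059472445198094010598947874652743251352772033228963008904057996062725251477796087541350613214726757357481524967948493635234136465425227713174117644095432835454103275789092015941948136143694000479695769045277548176327072005002272687285147730545591048474354015130478963706017071098890792582627584311290596235614288833863756829520754915151862487818581136573803686590576281190700026513850144048528844716936884132013330369505971661640713192125146853393344774698305404918561822269251013188454136376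7805878460329230509719546685702081614661316314223417731709184984480050581952900883399241625189976205834966490278366928969075449982448809790313890722718163375359696693861887265052645244036834197419234230676101384421335148208292958879029038699642877827150908248030176051697664483346771321042086804554583110415000201637538838092556510373587974925770927986163348439048229593819654701670745679297628535121991577229313180353556550393901534358751056960036354674512442729078678005402047370122830347382880577946097802027928206865425395343861548185305170949858231142942619294639709359785428266465409687506656657418852729425110291988055399500684684113361161029337557861291273815827197659999775479274472274266748605235359939233975438714515802607620211115899091318197246853021702979383100377537385163333944847025047621094344187454214847613550390278079081442353452219298607473027479596763353530896845104194245036774648055144706009887748535827663080176115151928267054264265524242471792356852283658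1272176965232399219768236678587016832423870552780294090849907199574974476649129181327338139513571337268502715588601059497410553255979888371437842144600504385736479450033260946852197091520084087811119318646985464953289065772861467641937082584433354078209839215430577712543527141244729048794704803755777301858446737492121269730322634316421969545955469182292264605770870629458297668413231283500122142656398916305266114193230692868443212520933330245963599218974752421266734626092709960223340074130806866513451952096280083745410158713458157062514006266204434291138620008336473468819590013724167713051080316097858241424659649698535825348921186023895446467634848983414098856851509573556781691530469314961569566636709985164468756992393430845336362484664400639197948651195886586849516110510259954245340115295165124599401381362577879569740404746279375328446748119906324275361477407841206637414927573234753092948477588089859589519877733745873051575136942563138414695417180637567059273052352882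0873041236796804519069311693651777807544011892790025447349869931845251543801916204378534412478193585442727280001389474172170017051716761249556104238205356100042236919337720341593536608155824094906045769587524142396778073975569456956861124781951320486686778556960191703452589723499265301938876848857348530614896728523462409749937480636173382178428144060597580093542172830879533575982239372804004233408314035862859831948577617831204392598163996874509884207441037896720334788979774866170922719350338668828677258143099458266646858648081291522327622787636090864297358614589458516684802137096047492421906752258352182118049523722100009400577333476976925038853907487900568301367712812222422269407302258880050467954737334059540577599294064694615818808016567624896135757584655387617566134067864895305345623620304556330629709622751891523088960579767080782463166216801496120199000457064060264793640625229105554365674978160763031969765502569648005174966341253677156792181282463092609054676053722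7937658797614478842821118729520374328504548812295446196006816520028957641291235353232400447600131858327989563443246079543621939243472168998885353673621229444243795550602420219911546004854941743765884134158840881947979618123379042904359506580763474416800141971538692545363562434643612913841118345190721395679567343036232181312384870395994813355403396206408774143368808345864683674555198420255887932111713722055609050681258556237833374935399243903807510515658049318806330681454914483008524204032997982617727318297330641617268621020292340300138274249622418834798509206774127840708047122685686866602406805591112951878059456946172918630052563359845325452421052469569206974949165091672435871985167784092629887123709568656264857422513287010463369922181379934371756192212832068696036975805825104767154492318885373736359828604044358735362314290812051932669516731369312779606952434160935794104149609188301019007426570005525449815418605221440591389248434047551983963023492865521317206649430787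0992058802015594432555246309663593084134240509430459833284136651273447875169547504213122355739154757379224995730746827698610629806458290020586019522108951718524176069847382059055353644800356249456868436946512223386448689780368063394816660549486572832412538488352574041506839131150288212677486890864392119664907883893897729256827750145094780463412249169910150950782783146182041020293537006176959873195863828463203644722784025141171371573147218704093006959856777791077909757252756163266820598083069558566615324301092872997625001426322324455425154968848313894292326623205451536561083870823993969923430764106986129599812070424195114296576022060934986607899815503592819365867512861207378049272343449635303172603146361499647342906301319723327960343156304959199423673690081974715611486041881894821674652967481867933329420026869790530694733326593189427111379927225442429796154071512638953324286224839354588806694446533647866517892295556143998497995976240770691519640695312060339185449728156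2821536466635451965369791669647137604054723269590968140706353971889902595812318858093044440615305906236950082621994778576257072500103063734143271170469497671835934946682913670159631737425885346833670343684907719717714881224193440190142483984048994933512453447778008091589106015622587470075938650455742655118174613630528341403020510155730854341714681901701765787606168476616450235489120963422399520024860794569618116690814785233228155779970052322336876661168524902976224150563608556890079582210594560940491190012143835339813691577528835776998121526418587066486764917569126140273523859263718843462155042931483657543741911379763129093969740926744499517665206336918194250585546858306779203475637604461707780916121726268113157140012354457224574224190412524595773772671956724872129318182031704387944611915099920173464400244810680957833194161306751470691018926531427386121161394788664363797355225070102944535842241995618188751255256799682713236544766748929334660925442084911000893923725384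7543371426821550372080922184456632560196824378646173770898997337511436836113505594878971521568683693707811679059747807303897506699388839614917262047605611977367151577119298685012235880405017190469592992009575721248400983195269807638127723555937207589262807274648565336247490220175687332863622985656642964962513656634900098917315701321124372734920584313846789341631338457894760365236400817705337049192039996776127767810595411531216688425167201722468544889236691545688283545097913792512206202500301540670351015762052010352170025553347782414946758069620894317717115770343161489653388038190153216044795928816217573847231970046257840791378234494358085919359253122310675155835250074722312033739119180049107450194610534959055825127919075894335410173414424376121345549141045887395465035027362408678516368760385152137460421588540049558603568433948627319448865353279025630472340604219267597542632601395843014161708655216957431451528701260680730659136770957999542776701651698767019484580397527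3981689976068189832152210336527941495623851394991387299958317222795756728053957856050341591614294871729159941158588512202311867274237833638481652607820414440087388628699634969582672554074754551941847588642259652324286418386477161804417671370173697790597216148476444258426579702187535577801963236049628683440290314012106233032155561734392733600120535226640130461460807557144901614269388883661759668732786895368921675201269582169154161824487694564649641355565037601784039238384680410304946984354263508477857227757482652508666719974029587671418816114386189698126884636732401604736101546083813079139739459417796825042600336271243577736076360242373025894136252829281367370970487110544151844485499977758288894039624426819123980714069323595513974581626891283547361871431069145102587612053714827291079916242523247796699311920318833022884103341767680334210672045035485233921234637833009013035607048311984226354325239622946716889986419445833686613894857721131358791109286963510487148577818482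3041323300142050424530574812198880808460004039168183597330528344141357181575127486536742871000182224286309871545714185394612889945562223762837151466947259458116795817597168862038856945778147854237451860473404241761183622825495670009099998035046929426183879002613459581214924967025756900298382496546264311318300537042404090648444925691427987226722937279088229629323532828673568145939948701854350729125545219673299316795220652056008711043746912092639807197710799272216093536616056543298017970791226907563590839804231690959038193555499550076318422459867336169829157256516119556832152353510106381439227821495664068452853014031174986316268113930931059393910990601139438247478610643609759007448445891435012406484627556194367473553652006860059911283478224372906967583490453603970256052189183372094113532188047703108550543773757483994056369450509593671985683891932660805342798499510813412551279022871846509319015927627566286809636347391456671266908600290673141910513673365840347729103589810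8669976247471581700720242679852447643503521229144699207002800453380985151861577829274923892279339431020587108824331384181555311123114287625353295381528693223311656572796912151066870263232846372400515132288391880225761216464154476537292268710978162530388768387862440863614992860931926453405352470927869654287221162537488268631796240981062803693957319904915186873805968193368555834308261511465262381111731060690854626985941629666953022755374260594386323117246758354093891976808336322202869086186807907342966632528800405164478103849229564020943385034674945915708134395948157524649788690665041046439710112198160746855515636201080300518865535366360244398288961324032935395098302019523361053810594074248365107835078374201631777724746768542585002700105524244652781694465790133373889126541989761160844439863832558107052765738893032972407040899941386901884634025752773649226660907445461486037291303932204088461448367372612405587158205150010603711655214257215717674849709574934896365114654368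8889236749250592549327164711968085220638446340017891361978216154833045824751481249240691091086556061010178300349051731707618431779467380079298516913714181029865124071225212465355779302013068418402068659887213561073887095563010992968734970082807074832119074469671272587516348334167480369160539458021724090472156855926442114881311532046965249639271831807726365438972725036662030309554505611822593046995818426223291963097014248711243531791883481480915435032662023722898218600449824359661010658249220703183166311521281741511203017285349586046901783205783360820912903739510649533440077378085773439062349785066307685829428473185054756991361368441419731703767703772236158098646123438445294158271687201893139874790353242695915623054549864914449422001074965632231244966749809038703045605348228647277382909185292703932038057611079970441273392558774684365884988984242061961037716138610844103783960036469543897325456767192709102994520169570506498248630581384015189886726785591668796614649991825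0995848316130842083164372634930822196410736290637846855602184112914237846487850500269257002077165207136480100636841996900177966815829368520137227613915885301365405601402370344716679750758080393249820931929797240359419859766709839402451032979547622405785246790831745258216722450184446537353146711696207084925857716431874483171012248712285690232647014920002008652303515724949016127538158727382629944512570783503999104455139944189717385178260629467417348132792660313789352374015938550041979432370173907131234170390565894495008685465908430224694991328630421530554463210025512105170456199547583134268471544528415014435821546905086936615715697096544102338121711958890261656946724744493921396240753482055147847979658430917791427876215127005965948766407125184691721576142112357609937444288880704456509246723702148372678476814946906229492390993655972989083771744952242197944666158097873276626940715575708849963414120924802004487649854774925720293990043235840650195910965652809181754454494460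2596643552872918029131234420237445749055078051706175398204828484818145291316254271889080130444419086648871210880946060281400626707723387054030537457285569380776511826587522434053394078027894161818006976467010715076646884421323668147229296657339207949891063082650209614500766278986749776137849109519862399477206223691156525814726585570075146802762202732785712693869614205264031627096441556073076215961472957957939714538316383733898013465658007357205388960105886180181318838637759884179896972584021639481235779865987690283614237692826768380466077849679876557748710392325383747144919852156512055377640574766076131074373202549411431195410731388304817497732549275718008657186974339609877690297472441988399054860127970819449935454609561366043809742530388529264968594375184153222102100805661686435248010440999771548888700025800922527134184854120037867356633130460510187306531544161797648580707401788519809934717608012768800342390964150000409491163470209496288709435709357419035304711514255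3627732156580940469041108625793757896635298233704344323591725361859041265678450639169501646388540414575412327648328263941453381079821723162577007186976646508856826620649455208604848988472373182332419746742734782186735066346866557433724652203248759232012450257268700362609323646902282142425229543863510324325848473039464016282361028768146729403944962700589147933646194984809862706957449796128496885495502919561464300799937574900793221950195320761661971527127669679359802991129822243052248345192368325065342689406384615316966076742532479940577137106796535511616146546357114078813840262226380816892232674751220842180615141599821812110823656558496785067366152188773033876298696755244997795322854094241912539774037507079619333376305682900462681126728382656919612318354473200415177704296933843763885307266683977854023151958794400585276099408037169612436040268222303263585429012416565522287407934432287979164519569796373073437701425068268165164045969075687024027455781487869185316534243699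4039281615215370254767921156512404744863662291746927054251110423058071332687942399104504215012029428003283640137305718715305795797382933807371501014103938306263047975251459833742970187338614666964981995118695762959951027359359257024125592656512532469310426591284006020112946536886127514143287332228786934308045508050597862990849431084823771162447924637422283375421311133638636011020755948386932539811694226411088893242962589975951016496789630150487334796949790342347322908733017957866670926415816438743576126355186974151136203418527701711022921599556729729380981216205695767825184039535483002709365383278583708133769165003401155494628777329006206203284796154763722642652692677187338899963947777569820666234555166861109336870382095154053863310232545705987772300450365414210470712852779824940944800145143847950707006380945469158253914391274448164139997435800387706628881915291755113987916238850403993495471884140767440581081834125247381827245549414182667925004982264263446427383212653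2555107757460892876025624285009435184725206214522417987531116161525624328137794155272556893002765216529207743035638850124704384682524444065822257107001031542205336100557806616323486473518660053354050151129160615755802514580947712826030475407994150424838558289865637062643003334503852049453933840422301595226932536449898977241222466241619751583629609364144854150069054590757476151486163114578928508984545210910299874881963279910302123149621669798787899488059333993441829008178213070885855477732005266113256923190790324399358609365303062565659608887252693666349072841546809585628008774056185480021309356152397178840185593338206220021395331406274755433676995473604588696221717377624074601474598042161688998642968397098705401794935526272182567771669609015500103747199485684573823656719046639813390324308180088808562337551782182261232924032958103528836891343159163111972624855359181389502574877625435912010803864479140370975132336497946031242940092100837690125217236543293824699459398591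9329486044683979888435664389529033738298396771253586003988857339437490071868029169291699491390765115128202654871578310732215904757975762607145023452025801628427459565988649768147559146868152648329784146749111511852637631095640923414220487289142215106059082970405846449383798130190031839879620718040151145528390310636299711270771153730439100640644834399221635753459834695233235567990235443284868436251494270629958160612716740319899960893904479462262278856629572330785606110778851591902590277929678682162448093442692971482066245692466085702276600559760185420436468597032587698429447580319210783892831522710936221034479616)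

end Vale.Agent.Lib.P154.PChain.BE.S8
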