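import Vale.Agent.Lib.P154.PChain.BE.R8_5

set_option linter.all false

namespace Vale.Agent.Lib.P154.PChain.BE.S9

open Vale.Agent.Lib.P154.Chain

noncomputable def pc0 : PT := (PT.nd (nat_lit 15126150) (PT.nd (nat_lit 14882400) (PT.nd (nat_lit 14639118) (PT.nd (nat_lit 14557842) (PT.nd (nat_lit 8552154) (PT.nd (nat_lit 8552076) PT.nil (PT.lf (nat_lit 76) (nat_lit 6) (nat_lit 1) (nat_lit 3) (nat_lit 337) (nat_lit 105) (nat_lit 338))) (PT.nd (nat_lit 81120) (PT.lf (nat_lit 76) (nat_lit 6) (nat_lit 1) (nat_lit 1) (nat_lit 338) (nat_lit 105) (nat_lit 337)) (PT.lf (nat_lit 152) (nat_lit 3) (nat_lit 2) (nat_lit 1) (nat_lit 337) (nat_lit 106) (nat_lit 337)))) (PT.nd (nat_lit 81120) (PT.nd (nat_lit 78) (PT.lf (nat_lit 4636) (nat_lit 6) (nat_lit 61) (nat_lit 3) (nat_lit 300) (nat_lit 179) (nat_lit 301)) (PT.lf (nat_lit 4636) (nat_lit 6) (nat_lit 61) (nat_lit 1) (nat_lit 301) (nat_lit 179) (nat_lit 300))) (PT.nd (nat_lit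 78) (PT.lf (nat_lit 4788) (nat_lit 6) (nat_lit 63) (nat_lit 3) (nat_lit 299) (nat_lit 180) (nat_lit 301)) (PT.lf (nat_lit 4864) (nat_lit 3) (nat_lit 64) (nat_lit 1) (nat_lit 300) (nat_lit 180) (nat_lit 300))))) (PT.nd (nat_lit 81198) (PT.nd (nat_lit 81042) (PT.nd (nat_lit 80964) (PT.lf (nat_lit 4788) (nat_lit 6) (nat_lit 63) (nat_lit 1) (nat_lit 301) (nat_lit 180) (nat_lit 299)) (PT.lf (nat_lit 5016) (nat_lit 6) (nat_lit 66) (nat_lit 3) (nat_lit 298) (nat_lit 181) (nat_lit 301))) (PT.nd (nat_lit 78) (PT.lf (nat_lit 5092) (nat_lit 6) (nat_lit 67) (nat_lit 3) (nat_lit 299) (nat_lit 181) (nat_lit 300)) (PT.lf (nat_lit 5092) (nat_lit 6) (nat_lit 67) (nat_lit 1) (nat_lit 300) (nat_lit 181) (nat_lit 299)))) (PT.nd (nat_lit 81042) (PT.nd (nat_lit 80964) (PT.lf (nat_lit 5016) (nat_lit 6) (nat_lit 66) (nat_lit 1) (nat_lit 301) (nat_lit 181) (nat_lit 298)) (PT.lf (nat_lit 5320) (nat_lit 6) (nat_lit 70) (nat_lit 3) (nat_lit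 298) (nat_lit 182) (nat_lit 300))) (PT.nd (nat_lit 78) (PT.lf (nat_lit 5396) (nat_lit 3) (nat_lit 71) (nat_lit 1) (nat_lit 299) (nat_lit 182) (nat_lit 299)) (PT.lf (nat_lit 5320) (nat_lit 6) (nat_lit 70) (nat_lit 1) (nat_lit 300) (nat_lit 182) (nat_lit 298)))))) (PT.nd (nat_lit 162318) (PT.nd (nat_lit 234) (PT.nd (nat_lit 78) (PT.lf (nat_lit 5548) (nat_lit 6) (nat_lit 73) (nat_lit 3) (nat_lit 297) (nat_lit 183) (nat_lit 300)) (PT.nd (nat_lit 78) (PT.lf (nat_lit 5624) (nat_lit 6) (nat_lit 74) (nat_lit 3) (nat_lit 298) (nat_lit 183) (nat_lit 299)) (PT.lf (nat_lit 5624) (nat_lit 6) (nat_lit 74) (nat_lit 1) (nat_lit 299) (nat_lit 183) (nat_lit 298)))) (PT.nd (nat_lit 81042) (PT.nd (nat_lit 80964) (PT.lf (nat_lit 5548) (nat_lit 6) (nat_lit 73) (nat_lit 1) (nat_lit 300) (nat_lit 183) (nat_lit 297)) (PT.lf (nat_lit 5852) (nat_lit 6) (nat_lit 77) (nat_lit 3) (nat_lit 297) (nat_lit 184) (nat_lit 299))) (PT.nd (nat_lit 78)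 (PT.lf (nat_lit 5928) (nat_lit 3) (nat_lit 78) (nat_lit 1) (nat_lit 298) (nat_lit 184) (nat_lit 298)) (PT.lf (nat_lit 5852) (nat_lit 6) (nat_lit 77) (nat_lit 1) (nat_lit 299) (nat_lit 184) (nat_lit 297))))) (PT.nd (nat_lit 81120) (PT.nd (nat_lit 156) (PT.nd (nat_lit 78) (PT.lf (nat_lit 6080) (nat_lit 6) (nat_lit 80) (nat_lit 3) (nat_lit 296) (nat_lit 185) (nat_lit 299)) (PT.lf (nat_lit 6156) (nat_lit 6) (nat_lit 81) (nat_lit 3) (nat_lit 297) (nat_lit 185) (nat_lit 298))) (PT.nd (nat_lit 78) (PT.lf (nat_lit 6156) (nat_lit 6) (nat_lit 81) (nat_lit 1) (nat_lit 298) (nat_lit 185) (nat_lit 297)) (PT.lf (nat_lit 6080) (nat_lit 6) (nat_lit 80) (nat_lit 1) (nat_lit 299) (nat_lit 185) (nat_lit 296)))) (PT.nd (nat_lit 156) (PT.nd (nat_lit 78) (PT.lf (nat_lit 6308) (nat_lit 6) (nat_lit 83) (nat_lit 3) (nat_lit 295) (nat_lit 186) (nat_lit 299)) (PT.lf (nat_lit 6384) (nat_lit 6) (nat_lit 84) (nat_lit 3) (nat_lit 296) (nat_lit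 186) (nat_lit 298))) (PT.nd (nat_lit 78) (PT.lf (nat_lit 6460) (nat_lit 3) (nat_lit 85) (nat_lit 1) (nat_lit 297) (nat_lit 186) (nat_lit 297)) (PT.lf (nat_lit 6384) (nat_lit 6) (nat_lit 84) (nat_lit 1) (nat_lit 298) (nat_lit 186) (nat_lit 296))))))) (PT.nd (nat_lit 243516) (PT.nd (nat_lit 162162) (PT.nd (nat_lit 81042) (PT.nd (nat_lit 80886) (PT.lf (nat_lit 6308) (nat_lit 6) (nat_lit 83) (nat_lit 1) (nat_lit 299) (nat_lit 186) (nat_lit 295)) (PT.nd (nat_lit 78) (PT.lf (nat_lit 6612) (nat_lit 6) (nat_lit 87) (nat_lit 3) (nat_lit 295) (nat_lit 187) (nat_lit 298)) (PT.lf (nat_lit 6688) (nat_lit 6) (nat_lit 88) (nat_lit 3) (nat_lit 296) (nat_lit 187) (nat_lit 297)))) (PT.nd (nat_lit 80964) (PT.nd (nat_lit 78) (PT.lf (nat_lit 6688) (nat_lit 6) (nat_lit 88) (nat_lit 1) (nat_lit 297) (nat_lit 187) (nat_lit 296)) (PT.lf (nat_lit 6612) (nat_lit 6) (nat_lit 87) (nat_lit 1) (nat_lit 298) (nat_lit 187) (nat_lit 295))) (PT.nd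 (nat_lit 78) (PT.lf (nat_lit 6840) (nat_lit 6) (nat_lit 90) (nat_lit 3) (nat_lit 294) (nat_lit 188) (nat_lit 298)) (PT.lf (nat_lit 6916) (nat_lit 6) (nat_lit 91) (nat_lit 3) (nat_lit 295) (nat_lit 188) (nat_lit 297))))) (PT.nd (nat_lit 81042) (PT.nd (nat_lit 156) (PT.nd (nat_lit 78) (PT.lf (nat_lit 6992) (nat_lit 3) (nat_lit 92) (nat_lit 1) (nat_lit 296) (nat_lit 188) (nat_lit 296)) (PT.lf (nat_lit 6916) (nat_lit 6) (nat_lit 91) (nat_lit 1) (nat_lit 297) (nat_lit 188) (nat_lit 295))) (PT.nd (nat_lit 80808) (PT.lf (nat_lit 6840) (nat_lit 6) (nat_lit 90) (nat_lit 1) (nat_lit 298) (nat_lit 188) (nat_lit 294)) (PT.lf (nat_lit 7144) (nat_lit 6) (nat_lit 94) (nat_lit 3) (nat_lit 293) (nat_lit 189) (nat_lit 298)))) (PT.nd (nat_lit 156) (PT.nd (nat_lit 78) (PT.lf (nat_lit 7220) (nat_lit 6) (nat_lit 95) (nat_lit 3) (nat_lit 294) (nat_lit 189) (nat_lit 297)) (PT.lf (nat_lit 7296) (nat_lit 6) (nat_lit 96) (nat_lit 3) (nat_lit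 295) (nat_lit 189) (nat_lit 296))) (PT.nd (nat_lit 78) (PT.lf (nat_lit 7296) (nat_lit 6) (nat_lit 96) (nat_lit 1) (nat_lit 296) (nat_lit 189) (nat_lit 295)) (PT.lf (nat_lit 7220) (nat_lit 6) (nat_lit 95) (nat_lit 1) (nat_lit 297) (nat_lit 189) (nat_lit 294)))))) (PT.nd (nat_lit 162006) (PT.nd (nat_lit 80964) (PT.nd (nat_lit 80808) (PT.lf (nat_lit 7144) (nat_lit 6) (nat_lit 94) (nat_lit 1) (nat_lit 298) (nat_lit 189) (nat_lit 293)) (PT.nd (nat_lit 78) (PT.lf (nat_lit 7448) (nat_lit 6) (nat_lit 98) (nat_lit 3) (nat_lit 293) (nat_lit 190) (nat_lit 297)) (PT.lf (nat_lit 7524) (nat_lit 6) (nat_lit 99) (nat_lit 3) (nat_lit 294) (nat_lit 190) (nat_lit 296)))) (PT.nd (nat_lit 156) (PT.nd (nat_lit 78) (PT.lf (nat_lit 7600) (nat_lit 3) (nat_lit 100) (nat_lit 1) (nat_lit 295) (nat_lit 190) (nat_lit 295)) (PT.lf (nat_lit 7524) (nat_lit 6) (nat_lit 99) (nat_lit 1) (nat_lit 296) (nat_lit 190) (nat_lit 294))) (PT.nd (nat_lit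 80808) (PT.lf (nat_lit 7448) (nat_lit 6) (nat_lit 98) (nat_lit 1) (nat_lit 297) (nat_lit 190) (nat_lit 293)) (PT.lf (nat_lit 7752) (nat_lit 6) (nat_lit 102) (nat_lit 3) (nat_lit 292) (nat_lit 191) (nat_lit 297))))) (PT.nd (nat_lit 312) (PT.nd (nat_lit 156) (PT.nd (nat_lit 78) (PT.lf (nat_lit 7828) (nat_lit 6) (nat_lit 103) (nat_lit 3) (nat_lit 293) (nat_lit 191) (nat_lit 296)) (PT.lf (nat_lit 7904) (nat_lit 6) (nat_lit 104) (nat_lit 3) (nat_lit 294) (nat_lit 191) (nat_lit 295))) (PT.nd (nat_lit 78) (PT.lf (nat_lit 7904) (nat_lit 6) (nat_lit 104) (nat_lit 1) (nat_lit 295) (nat_lit 191) (nat_lit 294)) (PT.lf (nat_lit 7828) (nat_lit 6) (nat_lit 103) (nat_lit 1) (nat_lit 296) (nat_lit 191) (nat_lit 293)))) (PT.nd (nat_lit 80886) (PT.nd (nat_lit 80808) (PT.lf (nat_lit 7752) (nat_lit 6) (nat_lit 102) (nat_lit 1) (nat_lit 297) (nat_lit 191) (nat_lit 292)) (PT.lf (nat_lit 8056) (nat_lit 6) (nat_lit 106) (nat_lit 3) (nat_lit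 292) (nat_lit 192) (nat_lit 296))) (PT.nd (nat_lit 78) (PT.lf (nat_lit 8132) (nat_lit 6) (nat_lit 107) (nat_lit 3) (nat_lit 293) (nat_lit 192) (nat_lit 295)) (PT.lf (nat_lit 8208) (nat_lit 3) (nat_lit 108) (nat_lit 1) (nat_lit 294) (nat_lit 192) (nat_lit 294))))))))
noncomputable def pc1 : PT := (PT.nd (nat_lit 405600) (PT.nd (nat_lit 243204) (PT.nd (nat_lit 81276) (PT.nd (nat_lit 80964) (PT.nd (nat_lit 78) (PT.lf (nat_lit 8132) (nat_lit 6) (nat_lit 107) (nat_lit 1) (nat_lit 295) (nat_lit 192) (nat_lit 293)) (PT.nd (nat_lit 80808) (PT.lf (nat_lit 8056) (nat_lit 6) (nat_lit 106) (nat_lit 1) (nat_lit 296) (nat_lit 192) (nat_lit 292)) (PT.lf (nat_lit 8360) (nat_lit 6) (nat_lit 110) (nat_lit 3) (nat_lit 291) (nat_lit 193) (nat_lit 296)))) (PT.nd (nat_lit 156) (PT.nd (nat_lit 78) (PT.lf (nat_lit 8436) (nat_lit 6) (nat_lit 111) (nat_lit 3) (nat_lit 292) (nat_lit 193) (nat_lit 295)) (PT.lf (nat_lit 8512) (nat_lit 6) (nat_lit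 112) (nat_lit 3) (nat_lit 293) (nat_lit 193) (nat_lit 294))) (PT.nd (nat_lit 78) (PT.lf (nat_lit 8512) (nat_lit 6) (nat_lit 112) (nat_lit 1) (nat_lit 294) (nat_lit 193) (nat_lit 293)) (PT.lf (nat_lit 8436) (nat_lit 6) (nat_lit 111) (nat_lit 1) (nat_lit 295) (nat_lit 193) (nat_lit 292))))) (PT.nd (nat_lit 80964) (PT.nd (nat_lit 80808) (PT.nd (nat_lit 80730) (PT.lf (nat_lit 8360) (nat_lit 6) (nat_lit 110) (nat_lit 1) (nat_lit 296) (nat_lit 193) (nat_lit 291)) (PT.lf (nat_lit 8664) (nat_lit 6) (nat_lit 114) (nat_lit 3) (nat_lit 290) (nat_lit 194) (nat_lit 296))) (PT.nd (nat_lit 78) (PT.lf (nat_lit 8740) (nat_lit 6) (nat_lit 115) (nat_lit 3) (nat_lit 291) (nat_lit 194) (nat_lit 295)) (PT.lf (nat_lit 8816) (nat_lit 6) (nat_lit 116) (nat_lit 3) (nat_lit 292) (nat_lit 194) (nat_lit 294)))) (PT.nd (nat_lit 156) (PT.nd (nat_lit 78) (PT.lf (nat_lit 8892) (nat_lit 3) (nat_lit 117) (nat_lit 1) (nat_lit 293) (nat_lit 194) (nat_lit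 293)) (PT.lf (nat_lit 8816) (nat_lit 6) (nat_lit 116) (nat_lit 1) (nat_lit 294) (nat_lit 194) (nat_lit 292))) (PT.nd (nat_lit 78) (PT.lf (nat_lit 8740) (nat_lit 6) (nat_lit 115) (nat_lit 1) (nat_lit 295) (nat_lit 194) (nat_lit 291)) (PT.lf (nat_lit 8664) (nat_lit 6) (nat_lit 114) (nat_lit 1) (nat_lit 296) (nat_lit 194) (nat_lit 290)))))) (PT.nd (nat_lit 81198) (PT.nd (nat_lit 234) (PT.nd (nat_lit 78) (PT.lf (nat_lit 9044) (nat_lit 6) (nat_lit 119) (nat_lit 3) (nat_lit 290) (nat_lit 195) (nat_lit 295)) (PT.nd (nat_lit 78) (PT.lf (nat_lit 9120) (nat_lit 6) (nat_lit 120) (nat_lit 3) (nat_lit 291) (nat_lit 195) (nat_lit 294)) (PT.lf (nat_lit 9196) (nat_lit 6) (nat_lit 121) (nat_lit 3) (nat_lit 292) (nat_lit 195) (nat_lit 293)))) (PT.nd (nat_lit 156) (PT.nd (nat_lit 78) (PT.lf (nat_lit 9196) (nat_lit 6) (nat_lit 121) (nat_lit 1) (nat_lit 293) (nat_lit 195) (nat_lit 292)) (PT.lf (nat_lit 9120) (nat_lit 6) (nat_lit 120)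 (nat_lit 1) (nat_lit 294) (nat_lit 195) (nat_lit 291))) (PT.nd (nat_lit 80730) (PT.lf (nat_lit 9044) (nat_lit 6) (nat_lit 119) (nat_lit 1) (nat_lit 295) (nat_lit 195) (nat_lit 290)) (PT.lf (nat_lit 9348) (nat_lit 6) (nat_lit 123) (nat_lit 3) (nat_lit 289) (nat_lit 196) (nat_lit 295))))) (PT.nd (nat_lit 312) (PT.nd (nat_lit 156) (PT.nd (nat_lit 78) (PT.lf (nat_lit 9424) (nat_lit 6) (nat_lit 124) (nat_lit 3) (nat_lit 290) (nat_lit 196) (nat_lit 294)) (PT.lf (nat_lit 9500) (nat_lit 6) (nat_lit 125) (nat_lit 3) (nat_lit 291) (nat_lit 196) (nat_lit 293))) (PT.nd (nat_lit 78) (PT.lf (nat_lit 9576) (nat_lit 3) (nat_lit 126) (nat_lit 1) (nat_lit 292) (nat_lit 196) (nat_lit 292)) (PT.lf (nat_lit 9500) (nat_lit 6) (nat_lit 125) (nat_lit 1) (nat_lit 293) (nat_lit 196) (nat_lit 291)))) (PT.nd (nat_lit 80730) (PT.nd (nat_lit 78) (PT.lf (nat_lit 9424) (nat_lit 6) (nat_lit 124) (nat_lit 1) (nat_lit 294) (nat_lit 196) (nat_lit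 290)) (PT.lf (nat_lit 9348) (nat_lit 6) (nat_lit 123) (nat_lit 1) (nat_lit 295) (nat_lit 196) (nat_lit 289))) (PT.nd (nat_lit 78) (PT.lf (nat_lit 9652) (nat_lit 6) (nat_lit 127) (nat_lit 3) (nat_lit 288) (nat_lit 197) (nat_lit 295)) (PT.lf (nat_lit 9728) (nat_lit 6) (nat_lit 128) (nat_lit 3) (nat_lit 289) (nat_lit 197) (nat_lit 294))))))) (PT.nd (nat_lit 162084) (PT.nd (nat_lit 81042) (PT.nd (nat_lit 234) (PT.nd (nat_lit 78) (PT.lf (nat_lit 9804) (nat_lit 6) (nat_lit 129) (nat_lit 3) (nat_lit 290) (nat_lit 197) (nat_lit 293)) (PT.nd (nat_lit 78) (PT.lf (nat_lit 9880) (nat_lit 6) (nat_lit 130) (nat_lit 3) (nat_lit 291) (nat_lit 197) (nat_lit 292)) (PT.lf (nat_lit 9880) (nat_lit 6) (nat_lit 130) (nat_lit 1) (nat_lit 292) (nat_lit 197) (nat_lit 291)))) (PT.nd (nat_lit 156) (PT.nd (nat_lit 78) (PT.lf (nat_lit 9804) (nat_lit 6) (nat_lit 129) (nat_lit 1) (nat_lit 293) (nat_lit 197) (nat_lit 290)) (PT.lf (nat_lit 9728)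 (nat_lit 6) (nat_lit 128) (nat_lit 1) (nat_lit 294) (nat_lit 197) (nat_lit 289))) (PT.nd (nat_lit 80574) (PT.lf (nat_lit 9652) (nat_lit 6) (nat_lit 127) (nat_lit 1) (nat_lit 295) (nat_lit 197) (nat_lit 288)) (PT.lf (nat_lit 9956) (nat_lit 6) (nat_lit 131) (nat_lit 3) (nat_lit 287) (nat_lit 198) (nat_lit 295))))) (PT.nd (nat_lit 312) (PT.nd (nat_lit 156) (PT.nd (nat_lit 78) (PT.lf (nat_lit 10032) (nat_lit 6) (nat_lit 132) (nat_lit 3) (nat_lit 288) (nat_lit 198) (nat_lit 294)) (PT.lf (nat_lit 10108) (nat_lit 6) (nat_lit 133) (nat_lit 3) (nat_lit 289) (nat_lit 198) (nat_lit 293))) (PT.nd (nat_lit 78) (PT.lf (nat_lit 10184) (nat_lit 6) (nat_lit 134) (nat_lit 3) (nat_lit 290) (nat_lit 198) (nat_lit 292)) (PT.lf (nat_lit 10260) (nat_lit 3) (nat_lit 135) (nat_lit 1) (nat_lit 291) (nat_lit 198) (nat_lit 291)))) (PT.nd (nat_lit 156) (PT.nd (nat_lit 78) (PT.lf (nat_lit 10184) (nat_lit 6) (nat_lit 134) (nat_lit 1) (nat_lit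 292) (nat_lit 198) (nat_lit 290)) (PT.lf (nat_lit 10108) (nat_lit 6) (nat_lit 133) (nat_lit 1) (nat_lit 293) (nat_lit 198) (nat_lit 289))) (PT.nd (nat_lit 78) (PT.lf (nat_lit 10032) (nat_lit 6) (nat_lit 132) (nat_lit 1) (nat_lit 294) (nat_lit 198) (nat_lit 288)) (PT.lf (nat_lit 9956) (nat_lit 6) (nat_lit 131) (nat_lit 1) (nat_lit 295) (nat_lit 198) (nat_lit 287)))))) (PT.nd (nat_lit 546) (PT.nd (nat_lit 234) (PT.nd (nat_lit 78) (PT.lf (nat_lit 10336) (nat_lit 6) (nat_lit 136) (nat_lit 3) (nat_lit 286) (nat_lit 199) (nat_lit 295)) (PT.nd (nat_lit 78) (PT.lf (nat_lit 10412) (nat_lit 6) (nat_lit 137) (nat_lit 3) (nat_lit 287) (nat_lit 199) (nat_lit 294)) (PT.lf (nat_lit 10488) (nat_lit 6) (nat_lit 138) (nat_lit 3) (nat_lit 288) (nat_lit 199) (nat_lit 293)))) (PT.nd (nat_lit 156) (PT.nd (nat_lit 78) (PT.lf (nat_lit 10564) (nat_lit 6) (nat_lit 139) (nat_lit 3) (nat_lit 289) (nat_lit 199) (nat_lit 292)) (PT.lf (nat_lit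 10640) (nat_lit 6) (nat_lit 140) (nat_lit 3) (nat_lit 290) (nat_lit 199) (nat_lit 291))) (PT.nd (nat_lit 78) (PT.lf (nat_lit 10640) (nat_lit 6) (nat_lit 140) (nat_lit 1) (nat_lit 291) (nat_lit 199) (nat_lit 290)) (PT.lf (nat_lit 10564) (nat_lit 6) (nat_lit 139) (nat_lit 1) (nat_lit 292) (nat_lit 199) (nat_lit 289))))) (PT.nd (nat_lit 80730) (PT.nd (nat_lit 156) (PT.nd (nat_lit 78) (PT.lf (nat_lit 10488) (nat_lit 6) (nat_lit 138) (nat_lit 1) (nat_lit 293) (nat_lit 199) (nat_lit 288)) (PT.lf (nat_lit 10412) (nat_lit 6) (nat_lit 137) (nat_lit 1) (nat_lit 294) (nat_lit 199) (nat_lit 287))) (PT.nd (nat_lit 80496) (PT.lf (nat_lit 10336) (nat_lit 6) (nat_lit 136) (nat_lit 1) (nat_lit 295) (nat_lit 199) (nat_lit 286)) (PT.lf (nat_lit 10716) (nat_lit 6) (nat_lit 141) (nat_lit 3) (nat_lit 286) (nat_lit 200) (nat_lit 294)))) (PT.nd (nat_lit 156) (PT.nd (nat_lit 78) (PT.lf (nat_lit 10792) (nat_lit 6) (nat_lit 142) (nat_lit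 3) (nat_lit 287) (nat_lit 200) (nat_lit 293)) (PT.lf (nat_lit 10868) (nat_lit 6) (nat_lit 143) (nat_lit 3) (nat_lit 288) (nat_lit 200) (nat_lit 292))) (PT.nd (nat_lit 78) (PT.lf (nat_lit 10944) (nat_lit 6) (nat_lit 144) (nat_lit 3) (nat_lit 289) (nat_lit 200) (nat_lit 291)) (PT.lf (nat_lit 11020) (nat_lit 3) (nat_lit 145) (nat_lit 1) (nat_lit 290) (nat_lit 200) (nat_lit 290))))))))
noncomputable def pc2 : PT := (PT.nd (nat_lit 243594) (PT.nd (nat_lit 162006) (PT.nd (nat_lit 80964) (PT.nd (nat_lit 234) (PT.nd (nat_lit 78) (PT.lf (nat_lit 10944) (nat_lit 6) (nat_lit 144) (nat_lit 1) (nat_lit 291) (nat_lit 200) (nat_lit 289)) (PT.nd (nat_lit 78) (PT.lf (nat_lit 10868) (nat_lit 6) (nat_lit 143) (nat_lit 1) (nat_lit 292) (nat_lit 200) (nat_lit 288)) (PT.lf (nat_lit 10792) (nat_lit 6) (nat_lit 142) (nat_lit 1) (nat_lit 293) (nat_lit 200) (nat_lit 287)))) (PT.nd (nat_lit 80574) (PT.nd (nat_lit 80496) (PT.lf (nat_lit 10716)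 (nat_lit 6) (nat_lit 141) (nat_lit 1) (nat_lit 294) (nat_lit 200) (nat_lit 286)) (PT.lf (nat_lit 11096) (nat_lit 6) (nat_lit 146) (nat_lit 3) (nat_lit 285) (nat_lit 201) (nat_lit 294))) (PT.nd (nat_lit 78) (PT.lf (nat_lit 11172) (nat_lit 6) (nat_lit 147) (nat_lit 3) (nat_lit 286) (nat_lit 201) (nat_lit 293)) (PT.lf (nat_lit 11248) (nat_lit 6) (nat_lit 148) (nat_lit 3) (nat_lit 287) (nat_lit 201) (nat_lit 292))))) (PT.nd (nat_lit 312) (PT.nd (nat_lit 156) (PT.nd (nat_lit 78) (PT.lf (nat_lit 11324) (nat_lit 6) (nat_lit 149) (nat_lit 3) (nat_lit 288) (nat_lit 201) (nat_lit 291)) (PT.lf (nat_lit 11400) (nat_lit 6) (nat_lit 150) (nat_lit 3) (nat_lit 289) (nat_lit 201) (nat_lit 290))) (PT.nd (nat_lit 78) (PT.lf (nat_lit 11400) (nat_lit 6) (nat_lit 150) (nat_lit 1) (nat_lit 290) (nat_lit 201) (nat_lit 289)) (PT.lf (nat_lit 11324) (nat_lit 6) (nat_lit 149) (nat_lit 1) (nat_lit 291) (nat_lit 201) (nat_lit 288)))) (PT.nd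 (nat_lit 156) (PT.nd (nat_lit 78) (PT.lf (nat_lit 11248) (nat_lit 6) (nat_lit 148) (nat_lit 1) (nat_lit 292) (nat_lit 201) (nat_lit 287)) (PT.lf (nat_lit 11172) (nat_lit 6) (nat_lit 147) (nat_lit 1) (nat_lit 293) (nat_lit 201) (nat_lit 286))) (PT.nd (nat_lit 80496) (PT.lf (nat_lit 11096) (nat_lit 6) (nat_lit 146) (nat_lit 1) (nat_lit 294) (nat_lit 201) (nat_lit 285)) (PT.lf (nat_lit 11552) (nat_lit 6) (nat_lit 152) (nat_lit 3) (nat_lit 285) (nat_lit 202) (nat_lit 293)))))) (PT.nd (nat_lit 546) (PT.nd (nat_lit 234) (PT.nd (nat_lit 78) (PT.lf (nat_lit 11628) (nat_lit 6) (nat_lit 153) (nat_lit 3) (nat_lit 286) (nat_lit 202) (nat_lit 292)) (PT.nd (nat_lit 78) (PT.lf (nat_lit 11704) (nat_lit 6) (nat_lit 154) (nat_lit 3) (nat_lit 287) (nat_lit 202) (nat_lit 291)) (PT.lf (nat_lit 11780) (nat_lit 6) (nat_lit 155) (nat_lit 3) (nat_lit 288) (nat_lit 202) (nat_lit 290)))) (PT.nd (nat_lit 156) (PT.nd (nat_lit 78) (PT.lf (nat_lit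 11856) (nat_lit 3) (nat_lit 156) (nat_lit 1) (nat_lit 289) (nat_lit 202) (nat_lit 289)) (PT.lf (nat_lit 11780) (nat_lit 6) (nat_lit 155) (nat_lit 1) (nat_lit 290) (nat_lit 202) (nat_lit 288))) (PT.nd (nat_lit 78) (PT.lf (nat_lit 11704) (nat_lit 6) (nat_lit 154) (nat_lit 1) (nat_lit 291) (nat_lit 202) (nat_lit 287)) (PT.lf (nat_lit 11628) (nat_lit 6) (nat_lit 153) (nat_lit 1) (nat_lit 292) (nat_lit 202) (nat_lit 286))))) (PT.nd (nat_lit 80730) (PT.nd (nat_lit 80574) (PT.nd (nat_lit 80496) (PT.lf (nat_lit 11552) (nat_lit 6) (nat_lit 152) (nat_lit 1) (nat_lit 293) (nat_lit 202) (nat_lit 285)) (PT.lf (nat_lit 11932) (nat_lit 6) (nat_lit 157) (nat_lit 3) (nat_lit 284) (nat_lit 203) (nat_lit 293))) (PT.nd (nat_lit 78) (PT.lf (nat_lit 12008) (nat_lit 6) (nat_lit 158) (nat_lit 3) (nat_lit 285) (nat_lit 203) (nat_lit 292)) (PT.lf (nat_lit 12084) (nat_lit 6) (nat_lit 159) (nat_lit 3) (nat_lit 286) (nat_lit 203) (nat_lit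 291)))) (PT.nd (nat_lit 156) (PT.nd (nat_lit 78) (PT.lf (nat_lit 12160) (nat_lit 6) (nat_lit 160) (nat_lit 3) (nat_lit 287) (nat_lit 203) (nat_lit 290)) (PT.lf (nat_lit 12236) (nat_lit 6) (nat_lit 161) (nat_lit 3) (nat_lit 288) (nat_lit 203) (nat_lit 289))) (PT.nd (nat_lit 78) (PT.lf (nat_lit 12236) (nat_lit 6) (nat_lit 161) (nat_lit 1) (nat_lit 289) (nat_lit 203) (nat_lit 288)) (PT.lf (nat_lit 12160) (nat_lit 6) (nat_lit 160) (nat_lit 1) (nat_lit 290) (nat_lit 203) (nat_lit 287))))))) (PT.nd (nat_lit 161850) (PT.nd (nat_lit 80886) (PT.nd (nat_lit 80574) (PT.nd (nat_lit 78) (PT.lf (nat_lit 12084) (nat_lit 6) (nat_lit 159) (nat_lit 1) (nat_lit 291) (nat_lit 203) (nat_lit 286)) (PT.nd (nat_lit 78) (PT.lf (nat_lit 12008) (nat_lit 6) (nat_lit 158) (nat_lit 1) (nat_lit 292) (nat_lit 203) (nat_lit 285)) (PT.lf (nat_lit 11932) (nat_lit 6) (nat_lit 157) (nat_lit 1) (nat_lit 293) (nat_lit 203) (nat_lit 284)))) (PT.nd (nat_lit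 156) (PT.nd (nat_lit 78) (PT.lf (nat_lit 12312) (nat_lit 6) (nat_lit 162) (nat_lit 3) (nat_lit 283) (nat_lit 204) (nat_lit 293)) (PT.lf (nat_lit 12388) (nat_lit 6) (nat_lit 163) (nat_lit 3) (nat_lit 284) (nat_lit 204) (nat_lit 292))) (PT.nd (nat_lit 78) (PT.lf (nat_lit 12464) (nat_lit 6) (nat_lit 164) (nat_lit 3) (nat_lit 285) (nat_lit 204) (nat_lit 291)) (PT.lf (nat_lit 12540) (nat_lit 6) (nat_lit 165) (nat_lit 3) (nat_lit 286) (nat_lit 204) (nat_lit 290))))) (PT.nd (nat_lit 312) (PT.nd (nat_lit 156) (PT.nd (nat_lit 78) (PT.lf (nat_lit 12616) (nat_lit 6) (nat_lit 166) (nat_lit 3) (nat_lit 287) (nat_lit 204) (nat_lit 289)) (PT.lf (nat_lit 12692) (nat_lit 3) (nat_lit 167) (nat_lit 1) (nat_lit 288) (nat_lit 204) (nat_lit 288))) (PT.nd (nat_lit 78) (PT.lf (nat_lit 12616) (nat_lit 6) (nat_lit 166) (nat_lit 1) (nat_lit 289) (nat_lit 204) (nat_lit 287)) (PT.lf (nat_lit 12540) (nat_lit 6) (nat_lit 165) (nat_lit 1) (nat_lit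 290) (nat_lit 204) (nat_lit 286)))) (PT.nd (nat_lit 156) (PT.nd (nat_lit 78) (PT.lf (nat_lit 12464) (nat_lit 6) (nat_lit 164) (nat_lit 1) (nat_lit 291) (nat_lit 204) (nat_lit 285)) (PT.lf (nat_lit 12388) (nat_lit 6) (nat_lit 163) (nat_lit 1) (nat_lit 292) (nat_lit 204) (nat_lit 284))) (PT.nd (nat_lit 80418) (PT.lf (nat_lit 12312) (nat_lit 6) (nat_lit 162) (nat_lit 1) (nat_lit 293) (nat_lit 204) (nat_lit 283)) (PT.lf (nat_lit 12844) (nat_lit 6) (nat_lit 169) (nat_lit 3) (nat_lit 283) (nat_lit 205) (nat_lit 292)))))) (PT.nd (nat_lit 546) (PT.nd (nat_lit 234) (PT.nd (nat_lit 78) (PT.lf (nat_lit 12920) (nat_lit 6) (nat_lit 170) (nat_lit 3) (nat_lit 284) (nat_lit 205) (nat_lit 291)) (PT.nd (nat_lit 78) (PT.lf (nat_lit 12996) (nat_lit 6) (nat_lit 171) (nat_lit 3) (nat_lit 285) (nat_lit 205) (nat_lit 290)) (PT.lf (nat_lit 13072) (nat_lit 6) (nat_lit 172) (nat_lit 3) (nat_lit 286) (nat_lit 205) (nat_lit 289)))) (PT.nd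 (nat_lit 156) (PT.nd (nat_lit 78) (PT.lf (nat_lit 13148) (nat_lit 6) (nat_lit 173) (nat_lit 3) (nat_lit 287) (nat_lit 205) (nat_lit 288)) (PT.lf (nat_lit 13148) (nat_lit 6) (nat_lit 173) (nat_lit 1) (nat_lit 288) (nat_lit 205) (nat_lit 287))) (PT.nd (nat_lit 78) (PT.lf (nat_lit 13072) (nat_lit 6) (nat_lit 172) (nat_lit 1) (nat_lit 289) (nat_lit 205) (nat_lit 286)) (PT.lf (nat_lit 12996) (nat_lit 6) (nat_lit 171) (nat_lit 1) (nat_lit 290) (nat_lit 205) (nat_lit 285))))) (PT.nd (nat_lit 80652) (PT.nd (nat_lit 80496) (PT.nd (nat_lit 78) (PT.lf (nat_lit 12920) (nat_lit 6) (nat_lit 170) (nat_lit 1) (nat_lit 291) (nat_lit 205) (nat_lit 284)) (PT.lf (nat_lit 12844) (nat_lit 6) (nat_lit 169) (nat_lit 1) (nat_lit 292) (nat_lit 205) (nat_lit 283))) (PT.nd (nat_lit 78) (PT.lf (nat_lit 13224) (nat_lit 6) (nat_lit 174) (nat_lit 3) (nat_lit 282) (nat_lit 206) (nat_lit 292)) (PT.lf (nat_lit 13300) (nat_lit 6) (nat_lit 175) (nat_lit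 3) (nat_lit 283) (nat_lit 206) (nat_lit 291)))) (PT.nd (nat_lit 156) (PT.nd (nat_lit 78) (PT.lf (nat_lit 13376) (nat_lit 6) (nat_lit 176) (nat_lit 3) (nat_lit 284) (nat_lit 206) (nat_lit 290)) (PT.lf (nat_lit 13452) (nat_lit 6) (nat_lit 177) (nat_lit 3) (nat_lit 285) (nat_lit 206) (nat_lit 289))) (PT.nd (nat_lit 78) (PT.lf (nat_lit 13528) (nat_lit 6) (nat_lit 178) (nat_lit 3) (nat_lit 286) (nat_lit 206) (nat_lit 288)) (PT.lf (nat_lit 13604) (nat_lit 3) (nat_lit 179) (nat_lit 1) (nat_lit 287) (nat_lit 206) (nat_lit 287))))))))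
noncomputable def pc3 : PT := (PT.nd (nat_lit 243126) (PT.nd (nat_lit 81432) (PT.nd (nat_lit 80808) (PT.nd (nat_lit 234) (PT.nd (nat_lit 78) (PT.lf (nat_lit 13528) (nat_lit 6) (nat_lit 178) (nat_lit 1) (nat_lit 288) (nat_lit 206) (nat_lit 286)) (PT.nd (nat_lit 78) (PT.lf (nat_lit 13452) (nat_lit 6) (nat_lit 177) (nat_lit 1) (nat_lit 289) (nat_lit 206) (nat_lit 285)) (PT.lf (nat_lit 13376) (nat_lit 6) (nat_lit 176) (nat_lit 1) (nat_lit 290) (nat_lit 206) (nat_lit 284)))) (PT.nd (nat_lit 80418) (PT.nd (nat_lit 78) (PT.lf (nat_lit 13300) (nat_lit 6) (nat_lit 175) (nat_lit 1) (nat_lit 291) (nat_lit 206) (nat_lit 283)) (PT.lf (nat_lit 13224) (nat_lit 6) (nat_lit 174) (nat_lit 1) (nat_lit 292) (nat_lit 206) (nat_lit 282))) (PT.nd (nat_lit 78) (PT.lf (nat_lit 13680) (nat_lit 6) (nat_lit 180) (nat_lit 3) (nat_lit 281) (nat_lit 207) (nat_lit 292)) (PT.lf (nat_lit 13756) (nat_lit 6) (nat_lit 181) (nat_lit 3) (nat_lit 282)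 (nat_lit 207) (nat_lit 291))))) (PT.nd (nat_lit 312) (PT.nd (nat_lit 156) (PT.nd (nat_lit 78) (PT.lf (nat_lit 13832) (nat_lit 6) (nat_lit 182) (nat_lit 3) (nat_lit 283) (nat_lit 207) (nat_lit 290)) (PT.lf (nat_lit 13908) (nat_lit 6) (nat_lit 183) (nat_lit 3) (nat_lit 284) (nat_lit 207) (nat_lit 289))) (PT.nd (nat_lit 78) (PT.lf (nat_lit 13984) (nat_lit 6) (nat_lit 184) (nat_lit 3) (nat_lit 285) (nat_lit 207) (nat_lit 288)) (PT.lf (nat_lit 14060) (nat_lit 6) (nat_lit 185) (nat_lit 3) (nat_lit 286) (nat_lit 207) (nat_lit 287)))) (PT.nd (nat_lit 156) (PT.nd (nat_lit 78) (PT.lf (nat_lit 14060) (nat_lit 6) (nat_lit 185) (nat_lit 1) (nat_lit 287) (nat_lit 207) (nat_lit 286)) (PT.lf (nat_lit 13984) (nat_lit 6) (nat_lit 184) (nat_lit 1) (nat_lit 288) (nat_lit 207) (nat_lit 285))) (PT.nd (nat_lit 78) (PT.lf (nat_lit 13908) (nat_lit 6) (nat_lit 183) (nat_lit 1) (nat_lit 289) (nat_lit 207) (nat_lit 284)) (PT.lf (nat_lit 13832)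 (nat_lit 6) (nat_lit 182) (nat_lit 1) (nat_lit 290) (nat_lit 207) (nat_lit 283)))))) (PT.nd (nat_lit 80808) (PT.nd (nat_lit 80496) (PT.nd (nat_lit 78) (PT.lf (nat_lit 13756) (nat_lit 6) (nat_lit 181) (nat_lit 1) (nat_lit 291) (nat_lit 207) (nat_lit 282)) (PT.nd (nat_lit 80340) (PT.lf (nat_lit 13680) (nat_lit 6) (nat_lit 180) (nat_lit 1) (nat_lit 292) (nat_lit 207) (nat_lit 281)) (PT.lf (nat_lit 14212) (nat_lit 6) (nat_lit 187) (nat_lit 3) (nat_lit 281) (nat_lit 208) (nat_lit 291)))) (PT.nd (nat_lit 156) (PT.nd (nat_lit 78) (PT.lf (nat_lit 14288) (nat_lit 6) (nat_lit 188) (nat_lit 3) (nat_lit 282) (nat_lit 208) (nat_lit 290)) (PT.lf (nat_lit 14364) (nat_lit 6) (nat_lit 189) (nat_lit 3) (nat_lit 283) (nat_lit 208) (nat_lit 289))) (PT.nd (nat_lit 78) (PT.lf (nat_lit 14440) (nat_lit 6) (nat_lit 190) (nat_lit 3) (nat_lit 284) (nat_lit 208) (nat_lit 288)) (PT.lf (nat_lit 14516) (nat_lit 6) (nat_lit 191) (nat_lit 3) (nat_lit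 285) (nat_lit 208) (nat_lit 287))))) (PT.nd (nat_lit 312) (PT.nd (nat_lit 156) (PT.nd (nat_lit 78) (PT.lf (nat_lit 14592) (nat_lit 3) (nat_lit 192) (nat_lit 1) (nat_lit 286) (nat_lit 208) (nat_lit 286)) (PT.lf (nat_lit 14516) (nat_lit 6) (nat_lit 191) (nat_lit 1) (nat_lit 287) (nat_lit 208) (nat_lit 285))) (PT.nd (nat_lit 78) (PT.lf (nat_lit 14440) (nat_lit 6) (nat_lit 190) (nat_lit 1) (nat_lit 288) (nat_lit 208) (nat_lit 284)) (PT.lf (nat_lit 14364) (nat_lit 6) (nat_lit 189) (nat_lit 1) (nat_lit 289) (nat_lit 208) (nat_lit 283)))) (PT.nd (nat_lit 80418) (PT.nd (nat_lit 78) (PT.lf (nat_lit 14288) (nat_lit 6) (nat_lit 188) (nat_lit 1) (nat_lit 290) (nat_lit 208) (nat_lit 282)) (PT.lf (nat_lit 14212) (nat_lit 6) (nat_lit 187) (nat_lit 1) (nat_lit 291) (nat_lit 208) (nat_lit 281))) (PT.nd (nat_lit 78) (PT.lf (nat_lit 14668) (nat_lit 6) (nat_lit 193) (nat_lit 3) (nat_lit 280) (nat_lit 209) (nat_lit 291)) (PT.lf (nat_lit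 14744) (nat_lit 6) (nat_lit 194) (nat_lit 3) (nat_lit 281) (nat_lit 209) (nat_lit 290))))))) (PT.nd (nat_lit 81354) (PT.nd (nat_lit 546) (PT.nd (nat_lit 234) (PT.nd (nat_lit 78) (PT.lf (nat_lit 14820) (nat_lit 6) (nat_lit 195) (nat_lit 3) (nat_lit 282) (nat_lit 209) (nat_lit 289)) (PT.nd (nat_lit 78) (PT.lf (nat_lit 14896) (nat_lit 6) (nat_lit 196) (nat_lit 3) (nat_lit 283) (nat_lit 209) (nat_lit 288)) (PT.lf (nat_lit 14972) (nat_lit 6) (nat_lit 197) (nat_lit 3) (nat_lit 284) (nat_lit 209) (nat_lit 287)))) (PT.nd (nat_lit 156) (PT.nd (nat_lit 78) (PT.lf (nat_lit 15048) (nat_lit 6) (nat_lit 198) (nat_lit 3) (nat_lit 285) (nat_lit 209) (nat_lit 286)) (PT.lf (nat_lit 15048) (nat_lit 6) (nat_lit 198) (nat_lit 1) (nat_lit 286) (nat_lit 209) (nat_lit 285))) (PT.nd (nat_lit 78) (PT.lf (nat_lit 14972) (nat_lit 6) (nat_lit 197) (nat_lit 1) (nat_lit 287) (nat_lit 209) (nat_lit 284)) (PT.lf (nat_lit 14896) (nat_lit 6) (nat_lit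 196) (nat_lit 1) (nat_lit 288) (nat_lit 209) (nat_lit 283))))) (PT.nd (nat_lit 80496) (PT.nd (nat_lit 156) (PT.nd (nat_lit 78) (PT.lf (nat_lit 14820) (nat_lit 6) (nat_lit 195) (nat_lit 1) (nat_lit 289) (nat_lit 209) (nat_lit 282)) (PT.lf (nat_lit 14744) (nat_lit 6) (nat_lit 194) (nat_lit 1) (nat_lit 290) (nat_lit 209) (nat_lit 281))) (PT.nd (nat_lit 80262) (PT.lf (nat_lit 14668) (nat_lit 6) (nat_lit 193) (nat_lit 1) (nat_lit 291) (nat_lit 209) (nat_lit 280)) (PT.lf (nat_lit 15124) (nat_lit 6) (nat_lit 199) (nat_lit 3) (nat_lit 279) (nat_lit 210) (nat_lit 291)))) (PT.nd (nat_lit 156) (PT.nd (nat_lit 78) (PT.lf (nat_lit 15200) (nat_lit 6) (nat_lit 200) (nat_lit 3) (nat_lit 280) (nat_lit 210) (nat_lit 290)) (PT.lf (nat_lit 15276) (nat_lit 6) (nat_lit 201) (nat_lit 3) (nat_lit 281) (nat_lit 210) (nat_lit 289))) (PT.nd (nat_lit 78) (PT.lf (nat_lit 15352) (nat_lit 6) (nat_lit 202) (nat_lit 3) (nat_lit 282) (nat_lit 210)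 (nat_lit 288)) (PT.lf (nat_lit 15428) (nat_lit 6) (nat_lit 203) (nat_lit 3) (nat_lit 283) (nat_lit 210) (nat_lit 287)))))) (PT.nd (nat_lit 546) (PT.nd (nat_lit 234) (PT.nd (nat_lit 78) (PT.lf (nat_lit 15504) (nat_lit 6) (nat_lit 204) (nat_lit 3) (nat_lit 284) (nat_lit 210) (nat_lit 286)) (PT.nd (nat_lit 78) (PT.lf (nat_lit 15580) (nat_lit 3) (nat_lit 205) (nat_lit 1) (nat_lit 285) (nat_lit 210) (nat_lit 285)) (PT.lf (nat_lit 15504) (nat_lit 6) (nat_lit 204) (nat_lit 1) (nat_lit 286) (nat_lit 210) (nat_lit 284)))) (PT.nd (nat_lit 156) (PT.nd (nat_lit 78) (PT.lf (nat_lit 15428) (nat_lit 6) (nat_lit 203) (nat_lit 1) (nat_lit 287) (nat_lit 210) (nat_lit 283)) (PT.lf (nat_lit 15352) (nat_lit 6) (nat_lit 202) (nat_lit 1) (nat_lit 288) (nat_lit 210) (nat_lit 282))) (PT.nd (nat_lit 78) (PT.lf (nat_lit 15276) (nat_lit 6) (nat_lit 201) (nat_lit 1) (nat_lit 289) (nat_lit 210) (nat_lit 281)) (PT.lf (nat_lit 15200) (nat_lit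 6) (nat_lit 200) (nat_lit 1) (nat_lit 290) (nat_lit 210) (nat_lit 280))))) (PT.nd (nat_lit 80496) (PT.nd (nat_lit 80340) (PT.nd (nat_lit 80262) (PT.lf (nat_lit 15124) (nat_lit 6) (nat_lit 199) (nat_lit 1) (nat_lit 291) (nat_lit 210) (nat_lit 279)) (PT.lf (nat_lit 15732) (nat_lit 6) (nat_lit 207) (nat_lit 3) (nat_lit 279) (nat_lit 211) (nat_lit 290))) (PT.nd (nat_lit 78) (PT.lf (nat_lit 15808) (nat_lit 6) (nat_lit 208) (nat_lit 3) (nat_lit 280) (nat_lit 211) (nat_lit 289)) (PT.lf (nat_lit 15884) (nat_lit 6) (nat_lit 209) (nat_lit 3) (nat_lit 281) (nat_lit 211) (nat_lit 288)))) (PT.nd (nat_lit 156) (PT.nd (nat_lit 78) (PT.lf (nat_lit 15960) (nat_lit 6) (nat_lit 210) (nat_lit 3) (nat_lit 282) (nat_lit 211) (nat_lit 287)) (PT.lf (nat_lit 16036) (nat_lit 6) (nat_lit 211) (nat_lit 3) (nat_lit 283) (nat_lit 211) (nat_lit 286))) (PT.nd (nat_lit 78) (PT.lf (nat_lit 16112) (nat_lit 6) (nat_lit 212) (nat_lit 3) (nat_lit 284)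 (nat_lit 211) (nat_lit 285)) (PT.lf (nat_lit 16112) (nat_lit 6) (nat_lit 212) (nat_lit 1) (nat_lit 285) (nat_lit 211) (nat_lit 284))))))))
noncomputable def pc4 : PT := (PT.nd (nat_lit 162630) (PT.nd (nat_lit 81354) (PT.nd (nat_lit 80730) (PT.nd (nat_lit 234) (PT.nd (nat_lit 78) (PT.lf (nat_lit 16036) (nat_lit 6) (nat_lit 211) (nat_lit 1) (nat_lit 286) (nat_lit 211) (nat_lit 283)) (PT.nd (nat_lit 78) (PT.lf (nat_lit 15960) (nat_lit 6) (nat_lit 210) (nat_lit 1) (nat_lit 287) (nat_lit 211) (nat_lit 282)) (PT.lf (nat_lit 15884) (nat_lit 6) (nat_lit 209) (nat_lit 1) (nat_lit 288) (nat_lit 211) (nat_lit 281)))) (PT.nd (nat_lit 80340) (PT.nd (nat_lit 78) (PT.lf (nat_lit 15808) (nat_lit 6) (nat_lit 208) (nat_lit 1) (nat_lit 289) (nat_lit 211) (nat_lit 280)) (PT.lf (nat_lit 15732) (nat_lit 6) (nat_lit 207) (nat_lit 1) (nat_lit 290) (nat_lit 211) (nat_lit 279))) (PT.nd (nat_lit 78) (PT.lf (nat_lit 16188) (nat_lit 6) (nat_lit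 213) (nat_lit 3) (nat_lit 278) (nat_lit 212) (nat_lit 290)) (PT.lf (nat_lit 16264) (nat_lit 6) (nat_lit 214) (nat_lit 3) (nat_lit 279) (nat_lit 212) (nat_lit 289))))) (PT.nd (nat_lit 312) (PT.nd (nat_lit 156) (PT.nd (nat_lit 78) (PT.lf (nat_lit 16340) (nat_lit 6) (nat_lit 215) (nat_lit 3) (nat_lit 280) (nat_lit 212) (nat_lit 288)) (PT.lf (nat_lit 16416) (nat_lit 6) (nat_lit 216) (nat_lit 3) (nat_lit 281) (nat_lit 212) (nat_lit 287))) (PT.nd (nat_lit 78) (PT.lf (nat_lit 16492) (nat_lit 6) (nat_lit 217) (nat_lit 3) (nat_lit 282) (nat_lit 212) (nat_lit 286)) (PT.lf (nat_lit 16568) (nat_lit 6) (nat_lit 218) (nat_lit 3) (nat_lit 283) (nat_lit 212) (nat_lit 285)))) (PT.nd (nat_lit 156) (PT.nd (nat_lit 78) (PT.lf (nat_lit 16644) (nat_lit 3) (nat_lit 219) (nat_lit 1) (nat_lit 284) (nat_lit 212) (nat_lit 284)) (PT.lf (nat_lit 16568) (nat_lit 6) (nat_lit 218) (nat_lit 1) (nat_lit 285) (nat_lit 212) (nat_lit 283))) (PT.nd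 (nat_lit 78) (PT.lf (nat_lit 16492) (nat_lit 6) (nat_lit 217) (nat_lit 1) (nat_lit 286) (nat_lit 212) (nat_lit 282)) (PT.lf (nat_lit 16416) (nat_lit 6) (nat_lit 216) (nat_lit 1) (nat_lit 287) (nat_lit 212) (nat_lit 281)))))) (PT.nd (nat_lit 80652) (PT.nd (nat_lit 80340) (PT.nd (nat_lit 78) (PT.lf (nat_lit 16340) (nat_lit 6) (nat_lit 215) (nat_lit 1) (nat_lit 288) (nat_lit 212) (nat_lit 280)) (PT.nd (nat_lit 78) (PT.lf (nat_lit 16264) (nat_lit 6) (nat_lit 214) (nat_lit 1) (nat_lit 289) (nat_lit 212) (nat_lit 279)) (PT.lf (nat_lit 16188) (nat_lit 6) (nat_lit 213) (nat_lit 1) (nat_lit 290) (nat_lit 212) (nat_lit 278)))) (PT.nd (nat_lit 156) (PT.nd (nat_lit 78) (PT.lf (nat_lit 16720) (nat_lit 6) (nat_lit 220) (nat_lit 3) (nat_lit 277) (nat_lit 213) (nat_lit 290)) (PT.lf (nat_lit 16796) (nat_lit 6) (nat_lit 221) (nat_lit 3) (nat_lit 278) (nat_lit 213) (nat_lit 289))) (PT.nd (nat_lit 78) (PT.lf (nat_lit 16872) (nat_lit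 6) (nat_lit 222) (nat_lit 3) (nat_lit 279) (nat_lit 213) (nat_lit 288)) (PT.lf (nat_lit 16948) (nat_lit 6) (nat_lit 223) (nat_lit 3) (nat_lit 280) (nat_lit 213) (nat_lit 287))))) (PT.nd (nat_lit 312) (PT.nd (nat_lit 156) (PT.nd (nat_lit 78) (PT.lf (nat_lit 17024) (nat_lit 6) (nat_lit 224) (nat_lit 3) (nat_lit 281) (nat_lit 213) (nat_lit 286)) (PT.lf (nat_lit 17100) (nat_lit 6) (nat_lit 225) (nat_lit 3) (nat_lit 282) (nat_lit 213) (nat_lit 285))) (PT.nd (nat_lit 78) (PT.lf (nat_lit 17176) (nat_lit 6) (nat_lit 226) (nat_lit 3) (nat_lit 283) (nat_lit 213) (nat_lit 284)) (PT.lf (nat_lit 17176) (nat_lit 6) (nat_lit 226) (nat_lit 1) (nat_lit 284) (nat_lit 213) (nat_lit 283)))) (PT.nd (nat_lit 156) (PT.nd (nat_lit 78) (PT.lf (nat_lit 17100) (nat_lit 6) (nat_lit 225) (nat_lit 1) (nat_lit 285) (nat_lit 213) (nat_lit 282)) (PT.lf (nat_lit 17024) (nat_lit 6) (nat_lit 224) (nat_lit 1) (nat_lit 286) (nat_lit 213) (nat_lit 281)))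 (PT.nd (nat_lit 78) (PT.lf (nat_lit 16948) (nat_lit 6) (nat_lit 223) (nat_lit 1) (nat_lit 287) (nat_lit 213) (nat_lit 280)) (PT.lf (nat_lit 16872) (nat_lit 6) (nat_lit 222) (nat_lit 1) (nat_lit 288) (nat_lit 213) (nat_lit 279))))))) (PT.nd (nat_lit 161382) (PT.nd (nat_lit 80652) (PT.nd (nat_lit 80340) (PT.nd (nat_lit 78) (PT.lf (nat_lit 16796) (nat_lit 6) (nat_lit 221) (nat_lit 1) (nat_lit 289) (nat_lit 213) (nat_lit 278)) (PT.nd (nat_lit 80184) (PT.lf (nat_lit 16720) (nat_lit 6) (nat_lit 220) (nat_lit 1) (nat_lit 290) (nat_lit 213) (nat_lit 277)) (PT.lf (nat_lit 17328) (nat_lit 6) (nat_lit 228) (nat_lit 3) (nat_lit 277) (nat_lit 214) (nat_lit 289)))) (PT.nd (nat_lit 156) (PT.nd (nat_lit 78) (PT.lf (nat_lit 17404) (nat_lit 6) (nat_lit 229) (nat_lit 3) (nat_lit 278) (nat_lit 214) (nat_lit 288)) (PT.lf (nat_lit 17480) (nat_lit 6) (nat_lit 230) (nat_lit 3) (nat_lit 279) (nat_lit 214) (nat_lit 287))) (PT.nd (nat_lit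 78) (PT.lf (nat_lit 17556) (nat_lit 6) (nat_lit 231) (nat_lit 3) (nat_lit 280) (nat_lit 214) (nat_lit 286)) (PT.lf (nat_lit 17632) (nat_lit 6) (nat_lit 232) (nat_lit 3) (nat_lit 281) (nat_lit 214) (nat_lit 285))))) (PT.nd (nat_lit 312) (PT.nd (nat_lit 156) (PT.nd (nat_lit 78) (PT.lf (nat_lit 17708) (nat_lit 6) (nat_lit 233) (nat_lit 3) (nat_lit 282) (nat_lit 214) (nat_lit 284)) (PT.lf (nat_lit 17784) (nat_lit 3) (nat_lit 234) (nat_lit 1) (nat_lit 283) (nat_lit 214) (nat_lit 283))) (PT.nd (nat_lit 78) (PT.lf (nat_lit 17708) (nat_lit 6) (nat_lit 233) (nat_lit 1) (nat_lit 284) (nat_lit 214) (nat_lit 282)) (PT.lf (nat_lit 17632) (nat_lit 6) (nat_lit 232) (nat_lit 1) (nat_lit 285) (nat_lit 214) (nat_lit 281)))) (PT.nd (nat_lit 156) (PT.nd (nat_lit 78) (PT.lf (nat_lit 17556) (nat_lit 6) (nat_lit 231) (nat_lit 1) (nat_lit 286) (nat_lit 214) (nat_lit 280)) (PT.lf (nat_lit 17480) (nat_lit 6) (nat_lit 230) (nat_lit 1) (nat_lit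 287) (nat_lit 214) (nat_lit 279))) (PT.nd (nat_lit 78) (PT.lf (nat_lit 17404) (nat_lit 6) (nat_lit 229) (nat_lit 1) (nat_lit 288) (nat_lit 214) (nat_lit 278)) (PT.lf (nat_lit 17328) (nat_lit 6) (nat_lit 228) (nat_lit 1) (nat_lit 289) (nat_lit 214) (nat_lit 277)))))) (PT.nd (nat_lit 546) (PT.nd (nat_lit 234) (PT.nd (nat_lit 78) (PT.lf (nat_lit 17860) (nat_lit 6) (nat_lit 235) (nat_lit 3) (nat_lit 276) (nat_lit 215) (nat_lit 289)) (PT.nd (nat_lit 78) (PT.lf (nat_lit 17936) (nat_lit 6) (nat_lit 236) (nat_lit 3) (nat_lit 277) (nat_lit 215) (nat_lit 288)) (PT.lf (nat_lit 18012) (nat_lit 6) (nat_lit 237) (nat_lit 3) (nat_lit 278) (nat_lit 215) (nat_lit 287)))) (PT.nd (nat_lit 156) (PT.nd (nat_lit 78) (PT.lf (nat_lit 18088) (nat_lit 6) (nat_lit 238) (nat_lit 3) (nat_lit 279) (nat_lit 215) (nat_lit 286)) (PT.lf (nat_lit 18164) (nat_lit 6) (nat_lit 239) (nat_lit 3) (nat_lit 280) (nat_lit 215) (nat_lit 285))) (PT.nd (nat_lit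 78) (PT.lf (nat_lit 18240) (nat_lit 6) (nat_lit 240) (nat_lit 3) (nat_lit 281) (nat_lit 215) (nat_lit 284)) (PT.lf (nat_lit 18316) (nat_lit 6) (nat_lit 241) (nat_lit 3) (nat_lit 282) (nat_lit 215) (nat_lit 283))))) (PT.nd (nat_lit 312) (PT.nd (nat_lit 156) (PT.nd (nat_lit 78) (PT.lf (nat_lit 18316) (nat_lit 6) (nat_lit 241) (nat_lit 1) (nat_lit 283) (nat_lit 215) (nat_lit 282)) (PT.lf (nat_lit 18240) (nat_lit 6) (nat_lit 240) (nat_lit 1) (nat_lit 284) (nat_lit 215) (nat_lit 281))) (PT.nd (nat_lit 78) (PT.lf (nat_lit 18164) (nat_lit 6) (nat_lit 239) (nat_lit 1) (nat_lit 285) (nat_lit 215) (nat_lit 280)) (PT.lf (nat_lit 18088) (nat_lit 6) (nat_lit 238) (nat_lit 1) (nat_lit 286) (nat_lit 215) (nat_lit 279)))) (PT.nd (nat_lit 156) (PT.nd (nat_lit 78) (PT.lf (nat_lit 18012) (nat_lit 6) (nat_lit 237) (nat_lit 1) (nat_lit 287) (nat_lit 215) (nat_lit 278)) (PT.lf (nat_lit 17936) (nat_lit 6) (nat_lit 236) (nat_lit 1) (nat_lit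 288) (nat_lit 215) (nat_lit 277))) (PT.nd (nat_lit 80106) (PT.lf (nat_lit 17860) (nat_lit 6) (nat_lit 235) (nat_lit 1) (nat_lit 289) (nat_lit 215) (nat_lit 276)) (PT.lf (nat_lit 18392) (nat_lit 6) (nat_lit 242) (nat_lit 3) (nat_lit 275) (nat_lit 216) (nat_lit 289))))))))
noncomputable def pc5 : PT := (PT.nd (nat_lit 162240) (PT.nd (nat_lit 81120) (PT.nd (nat_lit 546) (PT.nd (nat_lit 234) (PT.nd (nat_lit 78) (PT.lf (nat_lit 18468) (nat_lit 6) (nat_lit 243) (nat_lit 3) (nat_lit 276) (nat_lit 216) (nat_lit 288)) (PT.nd (nat_lit 78) (PT.lf (nat_lit 18544) (nat_lit 6) (nat_lit 244) (nat_lit 3) (nat_lit 277) (nat_lit 216) (nat_lit 287)) (PT.lf (nat_lit 18620) (nat_lit 6) (nat_lit 245) (nat_lit 3) (nat_lit 278) (nat_lit 216) (nat_lit 286)))) (PT.nd (nat_lit 156) (PT.nd (nat_lit 78) (PT.lf (nat_lit 18696) (nat_lit 6) (nat_lit 246) (nat_lit 3) (nat_lit 279) (nat_lit 216) (nat_lit 285)) (PT.lf (nat_lit 18772) (nat_lit 6)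 (nat_lit 247) (nat_lit 3) (nat_lit 280) (nat_lit 216) (nat_lit 284))) (PT.nd (nat_lit 78) (PT.lf (nat_lit 18848) (nat_lit 6) (nat_lit 248) (nat_lit 3) (nat_lit 281) (nat_lit 216) (nat_lit 283)) (PT.lf (nat_lit 18924) (nat_lit 3) (nat_lit 249) (nat_lit 1) (nat_lit 282) (nat_lit 216) (nat_lit 282))))) (PT.nd (nat_lit 312) (PT.nd (nat_lit 156) (PT.nd (nat_lit 78) (PT.lf (nat_lit 18848) (nat_lit 6) (nat_lit 248) (nat_lit 1) (nat_lit 283) (nat_lit 216) (nat_lit 281)) (PT.lf (nat_lit 18772) (nat_lit 6) (nat_lit 247) (nat_lit 1) (nat_lit 284) (nat_lit 216) (nat_lit 280))) (PT.nd (nat_lit 78) (PT.lf (nat_lit 18696) (nat_lit 6) (nat_lit 246) (nat_lit 1) (nat_lit 285) (nat_lit 216) (nat_lit 279)) (PT.lf (nat_lit 18620) (nat_lit 6) (nat_lit 245) (nat_lit 1) (nat_lit 286) (nat_lit 216) (nat_lit 278)))) (PT.nd (nat_lit 156) (PT.nd (nat_lit 78) (PT.lf (nat_lit 18544) (nat_lit 6) (nat_lit 244) (nat_lit 1) (nat_lit 287) (nat_lit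 216) (nat_lit 277)) (PT.lf (nat_lit 18468) (nat_lit 6) (nat_lit 243) (nat_lit 1) (nat_lit 288) (nat_lit 216) (nat_lit 276))) (PT.nd (nat_lit 80028) (PT.lf (nat_lit 18392) (nat_lit 6) (nat_lit 242) (nat_lit 1) (nat_lit 289) (nat_lit 216) (nat_lit 275)) (PT.lf (nat_lit 19000) (nat_lit 6) (nat_lit 250) (nat_lit 3) (nat_lit 274) (nat_lit 217) (nat_lit 289)))))) (PT.nd (nat_lit 546) (PT.nd (nat_lit 234) (PT.nd (nat_lit 78) (PT.lf (nat_lit 19076) (nat_lit 6) (nat_lit 251) (nat_lit 3) (nat_lit 275) (nat_lit 217) (nat_lit 288)) (PT.nd (nat_lit 78) (PT.lf (nat_lit 19152) (nat_lit 6) (nat_lit 252) (nat_lit 3) (nat_lit 276) (nat_lit 217) (nat_lit 287)) (PT.lf (nat_lit 19228) (nat_lit 6) (nat_lit 253) (nat_lit 3) (nat_lit 277) (nat_lit 217) (nat_lit 286)))) (PT.nd (nat_lit 156) (PT.nd (nat_lit 78) (PT.lf (nat_lit 19304) (nat_lit 6) (nat_lit 254) (nat_lit 3) (nat_lit 278) (nat_lit 217) (nat_lit 285)) (PT.lf (nat_lit 19380)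 (nat_lit 6) (nat_lit 255) (nat_lit 3) (nat_lit 279) (nat_lit 217) (nat_lit 284))) (PT.nd (nat_lit 78) (PT.lf (nat_lit 19456) (nat_lit 6) (nat_lit 256) (nat_lit 3) (nat_lit 280) (nat_lit 217) (nat_lit 283)) (PT.lf (nat_lit 19532) (nat_lit 6) (nat_lit 257) (nat_lit 3) (nat_lit 281) (nat_lit 217) (nat_lit 282))))) (PT.nd (nat_lit 312) (PT.nd (nat_lit 156) (PT.nd (nat_lit 78) (PT.lf (nat_lit 19532) (nat_lit 6) (nat_lit 257) (nat_lit 1) (nat_lit 282) (nat_lit 217) (nat_lit 281)) (PT.lf (nat_lit 19456) (nat_lit 6) (nat_lit 256) (nat_lit 1) (nat_lit 283) (nat_lit 217) (nat_lit 280))) (PT.nd (nat_lit 78) (PT.lf (nat_lit 19380) (nat_lit 6) (nat_lit 255) (nat_lit 1) (nat_lit 284) (nat_lit 217) (nat_lit 279)) (PT.lf (nat_lit 19304) (nat_lit 6) (nat_lit 254) (nat_lit 1) (nat_lit 285) (nat_lit 217) (nat_lit 278)))) (PT.nd (nat_lit 156) (PT.nd (nat_lit 78) (PT.lf (nat_lit 19228) (nat_lit 6) (nat_lit 253) (nat_lit 1) (nat_lit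 286) (nat_lit 217) (nat_lit 277)) (PT.lf (nat_lit 19152) (nat_lit 6) (nat_lit 252) (nat_lit 1) (nat_lit 287) (nat_lit 217) (nat_lit 276))) (PT.nd (nat_lit 78) (PT.lf (nat_lit 19076) (nat_lit 6) (nat_lit 251) (nat_lit 1) (nat_lit 288) (nat_lit 217) (nat_lit 275)) (PT.lf (nat_lit 19000) (nat_lit 6) (nat_lit 250) (nat_lit 1) (nat_lit 289) (nat_lit 217) (nat_lit 274))))))) (PT.nd (nat_lit 81120) (PT.nd (nat_lit 546) (PT.nd (nat_lit 234) (PT.nd (nat_lit 78) (PT.lf (nat_lit 19608) (nat_lit 6) (nat_lit 258) (nat_lit 3) (nat_lit 274) (nat_lit 218) (nat_lit 288)) (PT.nd (nat_lit 78) (PT.lf (nat_lit 19684) (nat_lit 6) (nat_lit 259) (nat_lit 3) (nat_lit 275) (nat_lit 218) (nat_lit 287)) (PT.lf (nat_lit 19760) (nat_lit 6) (nat_lit 260) (nat_lit 3) (nat_lit 276) (nat_lit 218) (nat_lit 286)))) (PT.nd (nat_lit 156) (PT.nd (nat_lit 78) (PT.lf (nat_lit 19836) (nat_lit 6) (nat_lit 261) (nat_lit 3) (nat_lit 277) (nat_lit 218) (nat_lit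 285)) (PT.lf (nat_lit 19912) (nat_lit 6) (nat_lit 262) (nat_lit 3) (nat_lit 278) (nat_lit 218) (nat_lit 284))) (PT.nd (nat_lit 78) (PT.lf (nat_lit 19988) (nat_lit 6) (nat_lit 263) (nat_lit 3) (nat_lit 279) (nat_lit 218) (nat_lit 283)) (PT.lf (nat_lit 20064) (nat_lit 6) (nat_lit 264) (nat_lit 3) (nat_lit 280) (nat_lit 218) (nat_lit 282))))) (PT.nd (nat_lit 312) (PT.nd (nat_lit 156) (PT.nd (nat_lit 78) (PT.lf (nat_lit 20140) (nat_lit 3) (nat_lit 265) (nat_lit 1) (nat_lit 281) (nat_lit 218) (nat_lit 281)) (PT.lf (nat_lit 20064) (nat_lit 6) (nat_lit 264) (nat_lit 1) (nat_lit 282) (nat_lit 218) (nat_lit 280))) (PT.nd (nat_lit 78) (PT.lf (nat_lit 19988) (nat_lit 6) (nat_lit 263) (nat_lit 1) (nat_lit 283) (nat_lit 218) (nat_lit 279)) (PT.lf (nat_lit 19912) (nat_lit 6) (nat_lit 262) (nat_lit 1) (nat_lit 284) (nat_lit 218) (nat_lit 278)))) (PT.nd (nat_lit 156) (PT.nd (nat_lit 78) (PT.lf (nat_lit 19836) (nat_lit 6) (nat_lit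 261) (nat_lit 1) (nat_lit 285) (nat_lit 218) (nat_lit 277)) (PT.lf (nat_lit 19760) (nat_lit 6) (nat_lit 260) (nat_lit 1) (nat_lit 286) (nat_lit 218) (nat_lit 276))) (PT.nd (nat_lit 78) (PT.lf (nat_lit 19684) (nat_lit 6) (nat_lit 259) (nat_lit 1) (nat_lit 287) (nat_lit 218) (nat_lit 275)) (PT.lf (nat_lit 19608) (nat_lit 6) (nat_lit 258) (nat_lit 1) (nat_lit 288) (nat_lit 218) (nat_lit 274)))))) (PT.nd (nat_lit 546) (PT.nd (nat_lit 234) (PT.nd (nat_lit 78) (PT.lf (nat_lit 20216) (nat_lit 6) (nat_lit 266) (nat_lit 3) (nat_lit 273) (nat_lit 219) (nat_lit 288)) (PT.nd (nat_lit 78) (PT.lf (nat_lit 20292) (nat_lit 6) (nat_lit 267) (nat_lit 3) (nat_lit 274) (nat_lit 219) (nat_lit 287)) (PT.lf (nat_lit 20368) (nat_lit 6) (nat_lit 268) (nat_lit 3) (nat_lit 275) (nat_lit 219) (nat_lit 286)))) (PT.nd (nat_lit 156) (PT.nd (nat_lit 78) (PT.lf (nat_lit 20444) (nat_lit 6) (nat_lit 269) (nat_lit 3) (nat_lit 276) (nat_lit 219) (nat_lit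 285)) (PT.lf (nat_lit 20520) (nat_lit 6) (nat_lit 270) (nat_lit 3) (nat_lit 277) (nat_lit 219) (nat_lit 284))) (PT.nd (nat_lit 78) (PT.lf (nat_lit 20596) (nat_lit 6) (nat_lit 271) (nat_lit 3) (nat_lit 278) (nat_lit 219) (nat_lit 283)) (PT.lf (nat_lit 20672) (nat_lit 6) (nat_lit 272) (nat_lit 3) (nat_lit 279) (nat_lit 219) (nat_lit 282))))) (PT.nd (nat_lit 312) (PT.nd (nat_lit 156) (PT.nd (nat_lit 78) (PT.lf (nat_lit 20748) (nat_lit 6) (nat_lit 273) (nat_lit 3) (nat_lit 280) (nat_lit 219) (nat_lit 281)) (PT.lf (nat_lit 20748) (nat_lit 6) (nat_lit 273) (nat_lit 1) (nat_lit 281) (nat_lit 219) (nat_lit 280))) (PT.nd (nat_lit 78) (PT.lf (nat_lit 20672) (nat_lit 6) (nat_lit 272) (nat_lit 1) (nat_lit 282) (nat_lit 219) (nat_lit 279)) (PT.lf (nat_lit 20596) (nat_lit 6) (nat_lit 271) (nat_lit 1) (nat_lit 283) (nat_lit 219) (nat_lit 278)))) (PT.nd (nat_lit 156) (PT.nd (nat_lit 78) (PT.lf (nat_lit 20520) (nat_lit 6) (nat_lit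 270) (nat_lit 1) (nat_lit 284) (nat_lit 219) (nat_lit 277)) (PT.lf (nat_lit 20444) (nat_lit 6) (nat_lit 269) (nat_lit 1) (nat_lit 285) (nat_lit 219) (nat_lit 276))) (PT.nd (nat_lit 78) (PT.lf (nat_lit 20368) (nat_lit 6) (nat_lit 268) (nat_lit 1) (nat_lit 286) (nat_lit 219) (nat_lit 275)) (PT.lf (nat_lit 20292) (nat_lit 6) (nat_lit 267) (nat_lit 1) (nat_lit 287) (nat_lit 219) (nat_lit 274))))))))
noncomputable def pc6 : PT := (PT.nd (nat_lit 162084) (PT.nd (nat_lit 81042) (PT.nd (nat_lit 80418) (PT.nd (nat_lit 80106) (PT.nd (nat_lit 79950) (PT.lf (nat_lit 20216) (nat_lit 6) (nat_lit 266) (nat_lit 1) (nat_lit 288) (nat_lit 219) (nat_lit 273)) (PT.nd (nat_lit 78) (PT.lf (nat_lit 20824) (nat_lit 6) (nat_lit 274) (nat_lit 3) (nat_lit 272) (nat_lit 220) (nat_lit 288)) (PT.lf (nat_lit 20900) (nat_lit 6) (nat_lit 275) (nat_lit 3) (nat_lit 273) (nat_lit 220) (nat_lit 287)))) (PT.nd (nat_lit 156) (PT.nd (nat_lit 78) (PT.lf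 (nat_lit 20976) (nat_lit 6) (nat_lit 276) (nat_lit 3) (nat_lit 274) (nat_lit 220) (nat_lit 286)) (PT.lf (nat_lit 21052) (nat_lit 6) (nat_lit 277) (nat_lit 3) (nat_lit 275) (nat_lit 220) (nat_lit 285))) (PT.nd (nat_lit 78) (PT.lf (nat_lit 21128) (nat_lit 6) (nat_lit 278) (nat_lit 3) (nat_lit 276) (nat_lit 220) (nat_lit 284)) (PT.lf (nat_lit 21204) (nat_lit 6) (nat_lit 279) (nat_lit 3) (nat_lit 277) (nat_lit 220) (nat_lit 283))))) (PT.nd (nat_lit 312) (PT.nd (nat_lit 156) (PT.nd (nat_lit 78) (PT.lf (nat_lit 21280) (nat_lit 6) (nat_lit 280) (nat_lit 3) (nat_lit 278) (nat_lit 220) (nat_lit 282)) (PT.lf (nat_lit 21356) (nat_lit 6) (nat_lit 281) (nat_lit 3) (nat_lit 279) (nat_lit 220) (nat_lit 281))) (PT.nd (nat_lit 78) (PT.lf (nat_lit 21432) (nat_lit 3) (nat_lit 282) (nat_lit 1) (nat_lit 280) (nat_lit 220) (nat_lit 280)) (PT.lf (nat_lit 21356) (nat_lit 6) (nat_lit 281) (nat_lit 1) (nat_lit 281) (nat_lit 220) (nat_lit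 279)))) (PT.nd (nat_lit 156) (PT.nd (nat_lit 78) (PT.lf (nat_lit 21280) (nat_lit 6) (nat_lit 280) (nat_lit 1) (nat_lit 282) (nat_lit 220) (nat_lit 278)) (PT.lf (nat_lit 21204) (nat_lit 6) (nat_lit 279) (nat_lit 1) (nat_lit 283) (nat_lit 220) (nat_lit 277))) (PT.nd (nat_lit 78) (PT.lf (nat_lit 21128) (nat_lit 6) (nat_lit 278) (nat_lit 1) (nat_lit 284) (nat_lit 220) (nat_lit 276)) (PT.lf (nat_lit 21052) (nat_lit 6) (nat_lit 277) (nat_lit 1) (nat_lit 285) (nat_lit 220) (nat_lit 275)))))) (PT.nd (nat_lit 80418) (PT.nd (nat_lit 80106) (PT.nd (nat_lit 78) (PT.lf (nat_lit 20976) (nat_lit 6) (nat_lit 276) (nat_lit 1) (nat_lit 286) (nat_lit 220) (nat_lit 274)) (PT.nd (nat_lit 78) (PT.lf (nat_lit 20900) (nat_lit 6) (nat_lit 275) (nat_lit 1) (nat_lit 287) (nat_lit 220) (nat_lit 273)) (PT.lf (nat_lit 20824) (nat_lit 6) (nat_lit 274) (nat_lit 1) (nat_lit 288) (nat_lit 220) (nat_lit 272)))) (PT.nd (nat_lit 156) (PT.nd (nat_lit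 78) (PT.lf (nat_lit 21584) (nat_lit 6) (nat_lit 284) (nat_lit 3) (nat_lit 272) (nat_lit 221) (nat_lit 287)) (PT.lf (nat_lit 21660) (nat_lit 6) (nat_lit 285) (nat_lit 3) (nat_lit 273) (nat_lit 221) (nat_lit 286))) (PT.nd (nat_lit 78) (PT.lf (nat_lit 21736) (nat_lit 6) (nat_lit 286) (nat_lit 3) (nat_lit 274) (nat_lit 221) (nat_lit 285)) (PT.lf (nat_lit 21812) (nat_lit 6) (nat_lit 287) (nat_lit 3) (nat_lit 275) (nat_lit 221) (nat_lit 284))))) (PT.nd (nat_lit 312) (PT.nd (nat_lit 156) (PT.nd (nat_lit 78) (PT.lf (nat_lit 21888) (nat_lit 6) (nat_lit 288) (nat_lit 3) (nat_lit 276) (nat_lit 221) (nat_lit 283)) (PT.lf (nat_lit 21964) (nat_lit 6) (nat_lit 289) (nat_lit 3) (nat_lit 277) (nat_lit 221) (nat_lit 282))) (PT.nd (nat_lit 78) (PT.lf (nat_lit 22040) (nat_lit 6) (nat_lit 290) (nat_lit 3) (nat_lit 278) (nat_lit 221) (nat_lit 281)) (PT.lf (nat_lit 22116) (nat_lit 6) (nat_lit 291) (nat_lit 3) (nat_lit 279) (nat_lit 221)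 (nat_lit 280)))) (PT.nd (nat_lit 156) (PT.nd (nat_lit 78) (PT.lf (nat_lit 22116) (nat_lit 6) (nat_lit 291) (nat_lit 1) (nat_lit 280) (nat_lit 221) (nat_lit 279)) (PT.lf (nat_lit 22040) (nat_lit 6) (nat_lit 290) (nat_lit 1) (nat_lit 281) (nat_lit 221) (nat_lit 278))) (PT.nd (nat_lit 78) (PT.lf (nat_lit 21964) (nat_lit 6) (nat_lit 289) (nat_lit 1) (nat_lit 282) (nat_lit 221) (nat_lit 277)) (PT.lf (nat_lit 21888) (nat_lit 6) (nat_lit 288) (nat_lit 1) (nat_lit 283) (nat_lit 221) (nat_lit 276))))))) (PT.nd (nat_lit 81042) (PT.nd (nat_lit 80418) (PT.nd (nat_lit 234) (PT.nd (nat_lit 78) (PT.lf (nat_lit 21812) (nat_lit 6) (nat_lit 287) (nat_lit 1) (nat_lit 284) (nat_lit 221) (nat_lit 275)) (PT.nd (nat_lit 78) (PT.lf (nat_lit 21736) (nat_lit 6) (nat_lit 286) (nat_lit 1) (nat_lit 285) (nat_lit 221) (nat_lit 274)) (PT.lf (nat_lit 21660) (nat_lit 6) (nat_lit 285) (nat_lit 1) (nat_lit 286) (nat_lit 221) (nat_lit 273)))) (PT.nd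 (nat_lit 80028) (PT.nd (nat_lit 79950) (PT.lf (nat_lit 21584) (nat_lit 6) (nat_lit 284) (nat_lit 1) (nat_lit 287) (nat_lit 221) (nat_lit 272)) (PT.lf (nat_lit 22192) (nat_lit 6) (nat_lit 292) (nat_lit 3) (nat_lit 271) (nat_lit 222) (nat_lit 287))) (PT.nd (nat_lit 78) (PT.lf (nat_lit 22268) (nat_lit 6) (nat_lit 293) (nat_lit 3) (nat_lit 272) (nat_lit 222) (nat_lit 286)) (PT.lf (nat_lit 22344) (nat_lit 6) (nat_lit 294) (nat_lit 3) (nat_lit 273) (nat_lit 222) (nat_lit 285))))) (PT.nd (nat_lit 312) (PT.nd (nat_lit 156) (PT.nd (nat_lit 78) (PT.lf (nat_lit 22420) (nat_lit 6) (nat_lit 295) (nat_lit 3) (nat_lit 274) (nat_lit 222) (nat_lit 284)) (PT.lf (nat_lit 22496) (nat_lit 6) (nat_lit 296) (nat_lit 3) (nat_lit 275) (nat_lit 222) (nat_lit 283))) (PT.nd (nat_lit 78) (PT.lf (nat_lit 22572) (nat_lit 6) (nat_lit 297) (nat_lit 3) (nat_lit 276) (nat_lit 222) (nat_lit 282)) (PT.lf (nat_lit 22648) (nat_lit 6) (nat_lit 298) (nat_lit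 3) (nat_lit 277) (nat_lit 222) (nat_lit 281)))) (PT.nd (nat_lit 156) (PT.nd (nat_lit 78) (PT.lf (nat_lit 22724) (nat_lit 6) (nat_lit 299) (nat_lit 3) (nat_lit 278) (nat_lit 222) (nat_lit 280)) (PT.lf (nat_lit 22800) (nat_lit 3) (nat_lit 300) (nat_lit 1) (nat_lit 279) (nat_lit 222) (nat_lit 279))) (PT.nd (nat_lit 78) (PT.lf (nat_lit 22724) (nat_lit 6) (nat_lit 299) (nat_lit 1) (nat_lit 280) (nat_lit 222) (nat_lit 278)) (PT.lf (nat_lit 22648) (nat_lit 6) (nat_lit 298) (nat_lit 1) (nat_lit 281) (nat_lit 222) (nat_lit 277)))))) (PT.nd (nat_lit 80340) (PT.nd (nat_lit 234) (PT.nd (nat_lit 78) (PT.lf (nat_lit 22572) (nat_lit 6) (nat_lit 297) (nat_lit 1) (nat_lit 282) (nat_lit 222) (nat_lit 276)) (PT.nd (nat_lit 78) (PT.lf (nat_lit 22496) (nat_lit 6) (nat_lit 296) (nat_lit 1) (nat_lit 283) (nat_lit 222) (nat_lit 275)) (PT.lf (nat_lit 22420) (nat_lit 6) (nat_lit 295) (nat_lit 1) (nat_lit 284) (nat_lit 222) (nat_lit 274))))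 (PT.nd (nat_lit 156) (PT.nd (nat_lit 78) (PT.lf (nat_lit 22344) (nat_lit 6) (nat_lit 294) (nat_lit 1) (nat_lit 285) (nat_lit 222) (nat_lit 273)) (PT.lf (nat_lit 22268) (nat_lit 6) (nat_lit 293) (nat_lit 1) (nat_lit 286) (nat_lit 222) (nat_lit 272))) (PT.nd (nat_lit 79872) (PT.lf (nat_lit 22192) (nat_lit 6) (nat_lit 292) (nat_lit 1) (nat_lit 287) (nat_lit 222) (nat_lit 271)) (PT.lf (nat_lit 22876) (nat_lit 6) (nat_lit 301) (nat_lit 3) (nat_lit 270) (nat_lit 223) (nat_lit 287))))) (PT.nd (nat_lit 312) (PT.nd (nat_lit 156) (PT.nd (nat_lit 78) (PT.lf (nat_lit 22952) (nat_lit 6) (nat_lit 302) (nat_lit 3) (nat_lit 271) (nat_lit 223) (nat_lit 286)) (PT.lf (nat_lit 23028) (nat_lit 6) (nat_lit 303) (nat_lit 3) (nat_lit 272) (nat_lit 223) (nat_lit 285))) (PT.nd (nat_lit 78) (PT.lf (nat_lit 23104) (nat_lit 6) (nat_lit 304) (nat_lit 3) (nat_lit 273) (nat_lit 223) (nat_lit 284)) (PT.lf (nat_lit 23180) (nat_lit 6) (nat_lit 305)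 (nat_lit 3) (nat_lit 274) (nat_lit 223) (nat_lit 283)))) (PT.nd (nat_lit 156) (PT.nd (nat_lit 78) (PT.lf (nat_lit 23256) (nat_lit 6) (nat_lit 306) (nat_lit 3) (nat_lit 275) (nat_lit 223) (nat_lit 282)) (PT.lf (nat_lit 23332) (nat_lit 6) (nat_lit 307) (nat_lit 3) (nat_lit 276) (nat_lit 223) (nat_lit 281))) (PT.nd (nat_lit 78) (PT.lf (nat_lit 23408) (nat_lit 6) (nat_lit 308) (nat_lit 3) (nat_lit 277) (nat_lit 223) (nat_lit 280)) (PT.lf (nat_lit 23484) (nat_lit 6) (nat_lit 309) (nat_lit 3) (nat_lit 278) (nat_lit 223) (nat_lit 279))))))))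
noncomputable def pc7 : PT := (PT.nd (nat_lit 161772) (PT.nd (nat_lit 80886) (PT.nd (nat_lit 546) (PT.nd (nat_lit 234) (PT.nd (nat_lit 78) (PT.lf (nat_lit 23484) (nat_lit 6) (nat_lit 309) (nat_lit 1) (nat_lit 279) (nat_lit 223) (nat_lit 278)) (PT.nd (nat_lit 78) (PT.lf (nat_lit 23408) (nat_lit 6) (nat_lit 308) (nat_lit 1) (nat_lit 280) (nat_lit 223) (nat_lit 277)) (PT.lf (nat_lit 23332) (nat_lit 6) (nat_lit 307) (nat_lit 1) (nat_lit 281) (nat_lit 223) (nat_lit 276)))) (PT.nd (nat_lit 156) (PT.nd (nat_lit 78) (PT.lf (nat_lit 23256) (nat_lit 6) (nat_lit 306) (nat_lit 1) (nat_lit 282) (nat_lit 223) (nat_lit 275)) (PT.lf (nat_lit 23180) (nat_lit 6) (nat_lit 305) (nat_lit 1) (nat_lit 283) (nat_lit 223) (nat_lit 274))) (PT.nd (nat_lit 78) (PT.lf (nat_lit 23104) (nat_lit 6) (nat_lit 304) (nat_lit 1) (nat_lit 284) (nat_lit 223) (nat_lit 273)) (PT.lf (nat_lit 23028) (nat_lit 6) (nat_lit 303) (nat_lit 1) (nat_lit 285) (nat_lit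 223) (nat_lit 272))))) (PT.nd (nat_lit 80028) (PT.nd (nat_lit 79872) (PT.nd (nat_lit 78) (PT.lf (nat_lit 22952) (nat_lit 6) (nat_lit 302) (nat_lit 1) (nat_lit 286) (nat_lit 223) (nat_lit 271)) (PT.lf (nat_lit 22876) (nat_lit 6) (nat_lit 301) (nat_lit 1) (nat_lit 287) (nat_lit 223) (nat_lit 270))) (PT.nd (nat_lit 78) (PT.lf (nat_lit 23560) (nat_lit 6) (nat_lit 310) (nat_lit 3) (nat_lit 269) (nat_lit 224) (nat_lit 287)) (PT.lf (nat_lit 23636) (nat_lit 6) (nat_lit 311) (nat_lit 3) (nat_lit 270) (nat_lit 224) (nat_lit 286)))) (PT.nd (nat_lit 156) (PT.nd (nat_lit 78) (PT.lf (nat_lit 23712) (nat_lit 6) (nat_lit 312) (nat_lit 3) (nat_lit 271) (nat_lit 224) (nat_lit 285)) (PT.lf (nat_lit 23788) (nat_lit 6) (nat_lit 313) (nat_lit 3) (nat_lit 272) (nat_lit 224) (nat_lit 284))) (PT.nd (nat_lit 78) (PT.lf (nat_lit 23864) (nat_lit 6) (nat_lit 314) (nat_lit 3) (nat_lit 273) (nat_lit 224) (nat_lit 283)) (PT.lf (nat_lit 23940)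 (nat_lit 6) (nat_lit 315) (nat_lit 3) (nat_lit 274) (nat_lit 224) (nat_lit 282)))))) (PT.nd (nat_lit 546) (PT.nd (nat_lit 234) (PT.nd (nat_lit 78) (PT.lf (nat_lit 24016) (nat_lit 6) (nat_lit 316) (nat_lit 3) (nat_lit 275) (nat_lit 224) (nat_lit 281)) (PT.nd (nat_lit 78) (PT.lf (nat_lit 24092) (nat_lit 6) (nat_lit 317) (nat_lit 3) (nat_lit 276) (nat_lit 224) (nat_lit 280)) (PT.lf (nat_lit 24168) (nat_lit 6) (nat_lit 318) (nat_lit 3) (nat_lit 277) (nat_lit 224) (nat_lit 279)))) (PT.nd (nat_lit 156) (PT.nd (nat_lit 78) (PT.lf (nat_lit 24244) (nat_lit 3) (nat_lit 319) (nat_lit 1) (nat_lit 278) (nat_lit 224) (nat_lit 278)) (PT.lf (nat_lit 24168) (nat_lit 6) (nat_lit 318) (nat_lit 1) (nat_lit 279) (nat_lit 224) (nat_lit 277))) (PT.nd (nat_lit 78) (PT.lf (nat_lit 24092) (nat_lit 6) (nat_lit 317) (nat_lit 1) (nat_lit 280) (nat_lit 224) (nat_lit 276)) (PT.lf (nat_lit 24016) (nat_lit 6) (nat_lit 316) (nat_lit 1) (nat_lit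 281) (nat_lit 224) (nat_lit 275))))) (PT.nd (nat_lit 312) (PT.nd (nat_lit 156) (PT.nd (nat_lit 78) (PT.lf (nat_lit 23940) (nat_lit 6) (nat_lit 315) (nat_lit 1) (nat_lit 282) (nat_lit 224) (nat_lit 274)) (PT.lf (nat_lit 23864) (nat_lit 6) (nat_lit 314) (nat_lit 1) (nat_lit 283) (nat_lit 224) (nat_lit 273))) (PT.nd (nat_lit 78) (PT.lf (nat_lit 23788) (nat_lit 6) (nat_lit 313) (nat_lit 1) (nat_lit 284) (nat_lit 224) (nat_lit 272)) (PT.lf (nat_lit 23712) (nat_lit 6) (nat_lit 312) (nat_lit 1) (nat_lit 285) (nat_lit 224) (nat_lit 271)))) (PT.nd (nat_lit 79872) (PT.nd (nat_lit 78) (PT.lf (nat_lit 23636) (nat_lit 6) (nat_lit 311) (nat_lit 1) (nat_lit 286) (nat_lit 224) (nat_lit 270)) (PT.lf (nat_lit 23560) (nat_lit 6) (nat_lit 310) (nat_lit 1) (nat_lit 287) (nat_lit 224) (nat_lit 269))) (PT.nd (nat_lit 78) (PT.lf (nat_lit 24396) (nat_lit 6) (nat_lit 321) (nat_lit 3) (nat_lit 269) (nat_lit 225) (nat_lit 286)) (PT.lf (nat_lit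 24472) (nat_lit 6) (nat_lit 322) (nat_lit 3) (nat_lit 270) (nat_lit 225) (nat_lit 285))))))) (PT.nd (nat_lit 1170) (PT.nd (nat_lit 546) (PT.nd (nat_lit 234) (PT.nd (nat_lit 78) (PT.lf (nat_lit 24548) (nat_lit 6) (nat_lit 323) (nat_lit 3) (nat_lit 271) (nat_lit 225) (nat_lit 284)) (PT.nd (nat_lit 78) (PT.lf (nat_lit 24624) (nat_lit 6) (nat_lit 324) (nat_lit 3) (nat_lit 272) (nat_lit 225) (nat_lit 283)) (PT.lf (nat_lit 24700) (nat_lit 6) (nat_lit 325) (nat_lit 3) (nat_lit 273) (nat_lit 225) (nat_lit 282)))) (PT.nd (nat_lit 156) (PT.nd (nat_lit 78) (PT.lf (nat_lit 24776) (nat_lit 6) (nat_lit 326) (nat_lit 3) (nat_lit 274) (nat_lit 225) (nat_lit 281)) (PT.lf (nat_lit 24852) (nat_lit 6) (nat_lit 327) (nat_lit 3) (nat_lit 275) (nat_lit 225) (nat_lit 280))) (PT.nd (nat_lit 78) (PT.lf (nat_lit 24928) (nat_lit 6) (nat_lit 328) (nat_lit 3) (nat_lit 276) (nat_lit 225) (nat_lit 279)) (PT.lf (nat_lit 25004) (nat_lit 6) (nat_lit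 329) (nat_lit 3) (nat_lit 277) (nat_lit 225) (nat_lit 278))))) (PT.nd (nat_lit 312) (PT.nd (nat_lit 156) (PT.nd (nat_lit 78) (PT.lf (nat_lit 25004) (nat_lit 6) (nat_lit 329) (nat_lit 1) (nat_lit 278) (nat_lit 225) (nat_lit 277)) (PT.lf (nat_lit 24928) (nat_lit 6) (nat_lit 328) (nat_lit 1) (nat_lit 279) (nat_lit 225) (nat_lit 276))) (PT.nd (nat_lit 78) (PT.lf (nat_lit 24852) (nat_lit 6) (nat_lit 327) (nat_lit 1) (nat_lit 280) (nat_lit 225) (nat_lit 275)) (PT.lf (nat_lit 24776) (nat_lit 6) (nat_lit 326) (nat_lit 1) (nat_lit 281) (nat_lit 225) (nat_lit 274)))) (PT.nd (nat_lit 156) (PT.nd (nat_lit 78) (PT.lf (nat_lit 24700) (nat_lit 6) (nat_lit 325) (nat_lit 1) (nat_lit 282) (nat_lit 225) (nat_lit 273)) (PT.lf (nat_lit 24624) (nat_lit 6) (nat_lit 324) (nat_lit 1) (nat_lit 283) (nat_lit 225) (nat_lit 272))) (PT.nd (nat_lit 78) (PT.lf (nat_lit 24548) (nat_lit 6) (nat_lit 323) (nat_lit 1) (nat_lit 284) (nat_lit 225) (nat_lit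 271)) (PT.lf (nat_lit 24472) (nat_lit 6) (nat_lit 322) (nat_lit 1) (nat_lit 285) (nat_lit 225) (nat_lit 270)))))) (PT.nd (nat_lit 80262) (PT.nd (nat_lit 79950) (PT.nd (nat_lit 79794) (PT.lf (nat_lit 24396) (nat_lit 6) (nat_lit 321) (nat_lit 1) (nat_lit 286) (nat_lit 225) (nat_lit 269)) (PT.nd (nat_lit 78) (PT.lf (nat_lit 25080) (nat_lit 6) (nat_lit 330) (nat_lit 3) (nat_lit 268) (nat_lit 226) (nat_lit 286)) (PT.lf (nat_lit 25156) (nat_lit 6) (nat_lit 331) (nat_lit 3) (nat_lit 269) (nat_lit 226) (nat_lit 285)))) (PT.nd (nat_lit 156) (PT.nd (nat_lit 78) (PT.lf (nat_lit 25232) (nat_lit 6) (nat_lit 332) (nat_lit 3) (nat_lit 270) (nat_lit 226) (nat_lit 284)) (PT.lf (nat_lit 25308) (nat_lit 6) (nat_lit 333) (nat_lit 3) (nat_lit 271) (nat_lit 226) (nat_lit 283))) (PT.nd (nat_lit 78) (PT.lf (nat_lit 25384) (nat_lit 6) (nat_lit 334) (nat_lit 3) (nat_lit 272) (nat_lit 226) (nat_lit 282)) (PT.lf (nat_lit 25460) (nat_lit 6)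 (nat_lit 335) (nat_lit 3) (nat_lit 273) (nat_lit 226) (nat_lit 281))))) (PT.nd (nat_lit 312) (PT.nd (nat_lit 156) (PT.nd (nat_lit 78) (PT.lf (nat_lit 25536) (nat_lit 6) (nat_lit 336) (nat_lit 3) (nat_lit 274) (nat_lit 226) (nat_lit 280)) (PT.lf (nat_lit 25612) (nat_lit 6) (nat_lit 337) (nat_lit 3) (nat_lit 275) (nat_lit 226) (nat_lit 279))) (PT.nd (nat_lit 78) (PT.lf (nat_lit 25688) (nat_lit 6) (nat_lit 338) (nat_lit 3) (nat_lit 276) (nat_lit 226) (nat_lit 278)) (PT.lf (nat_lit 25764) (nat_lit 3) (nat_lit 339) (nat_lit 1) (nat_lit 277) (nat_lit 226) (nat_lit 277)))) (PT.nd (nat_lit 156) (PT.nd (nat_lit 78) (PT.lf (nat_lit 25688) (nat_lit 6) (nat_lit 338) (nat_lit 1) (nat_lit 278) (nat_lit 226) (nat_lit 276)) (PT.lf (nat_lit 25612) (nat_lit 6) (nat_lit 337) (nat_lit 1) (nat_lit 279) (nat_lit 226) (nat_lit 275))) (PT.nd (nat_lit 78) (PT.lf (nat_lit 25536) (nat_lit 6) (nat_lit 336) (nat_lit 1) (nat_lit 280) (nat_lit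 226) (nat_lit 274)) (PT.lf (nat_lit 25460) (nat_lit 6) (nat_lit 335) (nat_lit 1) (nat_lit 281) (nat_lit 226) (nat_lit 273))))))))
noncomputable def pc8 : PT := (PT.nd (nat_lit 161538) (PT.nd (nat_lit 80808) (PT.nd (nat_lit 80184) (PT.nd (nat_lit 234) (PT.nd (nat_lit 78) (PT.lf (nat_lit 25384) (nat_lit 6) (nat_lit 334) (nat_lit 1) (nat_lit 282) (nat_lit 226) (nat_lit 272)) (PT.nd (nat_lit 78) (PT.lf (nat_lit 25308) (nat_lit 6) (nat_lit 333) (nat_lit 1) (nat_lit 283) (nat_lit 226) (nat_lit 271)) (PT.lf (nat_lit 25232) (nat_lit 6) (nat_lit 332) (nat_lit 1) (nat_lit 284) (nat_lit 226) (nat_lit 270)))) (PT.nd (nat_lit 79794) (PT.nd (nat_lit 78) (PT.lf (nat_lit 25156) (nat_lit 6) (nat_lit 331) (nat_lit 1) (nat_lit 285) (nat_lit 226) (nat_lit 269)) (PT.lf (nat_lit 25080) (nat_lit 6) (nat_lit 330) (nat_lit 1) (nat_lit 286) (nat_lit 226) (nat_lit 268))) (PT.nd (nat_lit 78) (PT.lf (nat_lit 25840) (nat_lit 6) (nat_lit 340)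 (nat_lit 3) (nat_lit 267) (nat_lit 227) (nat_lit 286)) (PT.lf (nat_lit 25916) (nat_lit 6) (nat_lit 341) (nat_lit 3) (nat_lit 268) (nat_lit 227) (nat_lit 285))))) (PT.nd (nat_lit 312) (PT.nd (nat_lit 156) (PT.nd (nat_lit 78) (PT.lf (nat_lit 25992) (nat_lit 6) (nat_lit 342) (nat_lit 3) (nat_lit 269) (nat_lit 227) (nat_lit 284)) (PT.lf (nat_lit 26068) (nat_lit 6) (nat_lit 343) (nat_lit 3) (nat_lit 270) (nat_lit 227) (nat_lit 283))) (PT.nd (nat_lit 78) (PT.lf (nat_lit 26144) (nat_lit 6) (nat_lit 344) (nat_lit 3) (nat_lit 271) (nat_lit 227) (nat_lit 282)) (PT.lf (nat_lit 26220) (nat_lit 6) (nat_lit 345) (nat_lit 3) (nat_lit 272) (nat_lit 227) (nat_lit 281)))) (PT.nd (nat_lit 156) (PT.nd (nat_lit 78) (PT.lf (nat_lit 26296) (nat_lit 6) (nat_lit 346) (nat_lit 3) (nat_lit 273) (nat_lit 227) (nat_lit 280)) (PT.lf (nat_lit 26372) (nat_lit 6) (nat_lit 347) (nat_lit 3) (nat_lit 274) (nat_lit 227) (nat_lit 279))) (PT.nd (nat_lit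 78) (PT.lf (nat_lit 26448) (nat_lit 6) (nat_lit 348) (nat_lit 3) (nat_lit 275) (nat_lit 227) (nat_lit 278)) (PT.lf (nat_lit 26524) (nat_lit 6) (nat_lit 349) (nat_lit 3) (nat_lit 276) (nat_lit 227) (nat_lit 277)))))) (PT.nd (nat_lit 546) (PT.nd (nat_lit 234) (PT.nd (nat_lit 78) (PT.lf (nat_lit 26524) (nat_lit 6) (nat_lit 349) (nat_lit 1) (nat_lit 277) (nat_lit 227) (nat_lit 276)) (PT.nd (nat_lit 78) (PT.lf (nat_lit 26448) (nat_lit 6) (nat_lit 348) (nat_lit 1) (nat_lit 278) (nat_lit 227) (nat_lit 275)) (PT.lf (nat_lit 26372) (nat_lit 6) (nat_lit 347) (nat_lit 1) (nat_lit 279) (nat_lit 227) (nat_lit 274)))) (PT.nd (nat_lit 156) (PT.nd (nat_lit 78) (PT.lf (nat_lit 26296) (nat_lit 6) (nat_lit 346) (nat_lit 1) (nat_lit 280) (nat_lit 227) (nat_lit 273)) (PT.lf (nat_lit 26220) (nat_lit 6) (nat_lit 345) (nat_lit 1) (nat_lit 281) (nat_lit 227) (nat_lit 272))) (PT.nd (nat_lit 78) (PT.lf (nat_lit 26144) (nat_lit 6) (nat_lit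 344) (nat_lit 1) (nat_lit 282) (nat_lit 227) (nat_lit 271)) (PT.lf (nat_lit 26068) (nat_lit 6) (nat_lit 343) (nat_lit 1) (nat_lit 283) (nat_lit 227) (nat_lit 270))))) (PT.nd (nat_lit 79872) (PT.nd (nat_lit 156) (PT.nd (nat_lit 78) (PT.lf (nat_lit 25992) (nat_lit 6) (nat_lit 342) (nat_lit 1) (nat_lit 284) (nat_lit 227) (nat_lit 269)) (PT.lf (nat_lit 25916) (nat_lit 6) (nat_lit 341) (nat_lit 1) (nat_lit 285) (nat_lit 227) (nat_lit 268))) (PT.nd (nat_lit 79638) (PT.lf (nat_lit 25840) (nat_lit 6) (nat_lit 340) (nat_lit 1) (nat_lit 286) (nat_lit 227) (nat_lit 267)) (PT.lf (nat_lit 26600) (nat_lit 6) (nat_lit 350) (nat_lit 3) (nat_lit 266) (nat_lit 228) (nat_lit 286)))) (PT.nd (nat_lit 156) (PT.nd (nat_lit 78) (PT.lf (nat_lit 26676) (nat_lit 6) (nat_lit 351) (nat_lit 3) (nat_lit 267) (nat_lit 228) (nat_lit 285)) (PT.lf (nat_lit 26752) (nat_lit 6) (nat_lit 352) (nat_lit 3) (nat_lit 268) (nat_lit 228) (nat_lit 284))) (PT.nd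 (nat_lit 78) (PT.lf (nat_lit 26828) (nat_lit 6) (nat_lit 353) (nat_lit 3) (nat_lit 269) (nat_lit 228) (nat_lit 283)) (PT.lf (nat_lit 26904) (nat_lit 6) (nat_lit 354) (nat_lit 3) (nat_lit 270) (nat_lit 228) (nat_lit 282))))))) (PT.nd (nat_lit 1170) (PT.nd (nat_lit 546) (PT.nd (nat_lit 234) (PT.nd (nat_lit 78) (PT.lf (nat_lit 26980) (nat_lit 6) (nat_lit 355) (nat_lit 3) (nat_lit 271) (nat_lit 228) (nat_lit 281)) (PT.nd (nat_lit 78) (PT.lf (nat_lit 27056) (nat_lit 6) (nat_lit 356) (nat_lit 3) (nat_lit 272) (nat_lit 228) (nat_lit 280)) (PT.lf (nat_lit 27132) (nat_lit 6) (nat_lit 357) (nat_lit 3) (nat_lit 273) (nat_lit 228) (nat_lit 279)))) (PT.nd (nat_lit 156) (PT.nd (nat_lit 78) (PT.lf (nat_lit 27208) (nat_lit 6) (nat_lit 358) (nat_lit 3) (nat_lit 274) (nat_lit 228) (nat_lit 278)) (PT.lf (nat_lit 27284) (nat_lit 6) (nat_lit 359) (nat_lit 3) (nat_lit 275) (nat_lit 228) (nat_lit 277))) (PT.nd (nat_lit 78) (PT.lf (nat_lit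 27360) (nat_lit 3) (nat_lit 360) (nat_lit 1) (nat_lit 276) (nat_lit 228) (nat_lit 276)) (PT.lf (nat_lit 27284) (nat_lit 6) (nat_lit 359) (nat_lit 1) (nat_lit 277) (nat_lit 228) (nat_lit 275))))) (PT.nd (nat_lit 312) (PT.nd (nat_lit 156) (PT.nd (nat_lit 78) (PT.lf (nat_lit 27208) (nat_lit 6) (nat_lit 358) (nat_lit 1) (nat_lit 278) (nat_lit 228) (nat_lit 274)) (PT.lf (nat_lit 27132) (nat_lit 6) (nat_lit 357) (nat_lit 1) (nat_lit 279) (nat_lit 228) (nat_lit 273))) (PT.nd (nat_lit 78) (PT.lf (nat_lit 27056) (nat_lit 6) (nat_lit 356) (nat_lit 1) (nat_lit 280) (nat_lit 228) (nat_lit 272)) (PT.lf (nat_lit 26980) (nat_lit 6) (nat_lit 355) (nat_lit 1) (nat_lit 281) (nat_lit 228) (nat_lit 271)))) (PT.nd (nat_lit 156) (PT.nd (nat_lit 78) (PT.lf (nat_lit 26904) (nat_lit 6) (nat_lit 354) (nat_lit 1) (nat_lit 282) (nat_lit 228) (nat_lit 270)) (PT.lf (nat_lit 26828) (nat_lit 6) (nat_lit 353) (nat_lit 1) (nat_lit 283) (nat_lit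 228) (nat_lit 269))) (PT.nd (nat_lit 78) (PT.lf (nat_lit 26752) (nat_lit 6) (nat_lit 352) (nat_lit 1) (nat_lit 284) (nat_lit 228) (nat_lit 268)) (PT.lf (nat_lit 26676) (nat_lit 6) (nat_lit 351) (nat_lit 1) (nat_lit 285) (nat_lit 228) (nat_lit 267)))))) (PT.nd (nat_lit 80028) (PT.nd (nat_lit 79716) (PT.nd (nat_lit 79560) (PT.lf (nat_lit 26600) (nat_lit 6) (nat_lit 350) (nat_lit 1) (nat_lit 286) (nat_lit 228) (nat_lit 266)) (PT.nd (nat_lit 78) (PT.lf (nat_lit 27436) (nat_lit 6) (nat_lit 361) (nat_lit 3) (nat_lit 265) (nat_lit 229) (nat_lit 286)) (PT.lf (nat_lit 27512) (nat_lit 6) (nat_lit 362) (nat_lit 3) (nat_lit 266) (nat_lit 229) (nat_lit 285)))) (PT.nd (nat_lit 156) (PT.nd (nat_lit 78) (PT.lf (nat_lit 27588) (nat_lit 6) (nat_lit 363) (nat_lit 3) (nat_lit 267) (nat_lit 229) (nat_lit 284)) (PT.lf (nat_lit 27664) (nat_lit 6) (nat_lit 364) (nat_lit 3) (nat_lit 268) (nat_lit 229) (nat_lit 283))) (PT.nd (nat_lit 78)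 (PT.lf (nat_lit 27740) (nat_lit 6) (nat_lit 365) (nat_lit 3) (nat_lit 269) (nat_lit 229) (nat_lit 282)) (PT.lf (nat_lit 27816) (nat_lit 6) (nat_lit 366) (nat_lit 3) (nat_lit 270) (nat_lit 229) (nat_lit 281))))) (PT.nd (nat_lit 312) (PT.nd (nat_lit 156) (PT.nd (nat_lit 78) (PT.lf (nat_lit 27892) (nat_lit 6) (nat_lit 367) (nat_lit 3) (nat_lit 271) (nat_lit 229) (nat_lit 280)) (PT.lf (nat_lit 27968) (nat_lit 6) (nat_lit 368) (nat_lit 3) (nat_lit 272) (nat_lit 229) (nat_lit 279))) (PT.nd (nat_lit 78) (PT.lf (nat_lit 28044) (nat_lit 6) (nat_lit 369) (nat_lit 3) (nat_lit 273) (nat_lit 229) (nat_lit 278)) (PT.lf (nat_lit 28120) (nat_lit 6) (nat_lit 370) (nat_lit 3) (nat_lit 274) (nat_lit 229) (nat_lit 277)))) (PT.nd (nat_lit 156) (PT.nd (nat_lit 78) (PT.lf (nat_lit 28196) (nat_lit 6) (nat_lit 371) (nat_lit 3) (nat_lit 275) (nat_lit 229) (nat_lit 276)) (PT.lf (nat_lit 28196) (nat_lit 6) (nat_lit 371) (nat_lit 1) (nat_lit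 276) (nat_lit 229) (nat_lit 275))) (PT.nd (nat_lit 78) (PT.lf (nat_lit 28120) (nat_lit 6) (nat_lit 370) (nat_lit 1) (nat_lit 277) (nat_lit 229) (nat_lit 274)) (PT.lf (nat_lit 28044) (nat_lit 6) (nat_lit 369) (nat_lit 1) (nat_lit 278) (nat_lit 229) (nat_lit 273))))))))
noncomputable def pc9 : PT := (PT.nd (nat_lit 161304) (PT.nd (nat_lit 80652) (PT.nd (nat_lit 546) (PT.nd (nat_lit 234) (PT.nd (nat_lit 78) (PT.lf (nat_lit 27968) (nat_lit 6) (nat_lit 368) (nat_lit 1) (nat_lit 279) (nat_lit 229) (nat_lit 272)) (PT.nd (nat_lit 78) (PT.lf (nat_lit 27892) (nat_lit 6) (nat_lit 367) (nat_lit 1) (nat_lit 280) (nat_lit 229) (nat_lit 271)) (PT.lf (nat_lit 27816) (nat_lit 6) (nat_lit 366) (nat_lit 1) (nat_lit 281) (nat_lit 229) (nat_lit 270)))) (PT.nd (nat_lit 156) (PT.nd (nat_lit 78) (PT.lf (nat_lit 27740) (nat_lit 6) (nat_lit 365) (nat_lit 1) (nat_lit 282) (nat_lit 229) (nat_lit 269)) (PT.lf (nat_lit 27664) (nat_lit 6) (nat_lit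 364) (nat_lit 1) (nat_lit 283) (nat_lit 229) (nat_lit 268))) (PT.nd (nat_lit 78) (PT.lf (nat_lit 27588) (nat_lit 6) (nat_lit 363) (nat_lit 1) (nat_lit 284) (nat_lit 229) (nat_lit 267)) (PT.lf (nat_lit 27512) (nat_lit 6) (nat_lit 362) (nat_lit 1) (nat_lit 285) (nat_lit 229) (nat_lit 266))))) (PT.nd (nat_lit 79794) (PT.nd (nat_lit 79638) (PT.nd (nat_lit 79560) (PT.lf (nat_lit 27436) (nat_lit 6) (nat_lit 361) (nat_lit 1) (nat_lit 286) (nat_lit 229) (nat_lit 265)) (PT.lf (nat_lit 28272) (nat_lit 6) (nat_lit 372) (nat_lit 3) (nat_lit 265) (nat_lit 230) (nat_lit 285))) (PT.nd (nat_lit 78) (PT.lf (nat_lit 28348) (nat_lit 6) (nat_lit 373) (nat_lit 3) (nat_lit 266) (nat_lit 230) (nat_lit 284)) (PT.lf (nat_lit 28424) (nat_lit 6) (nat_lit 374) (nat_lit 3) (nat_lit 267) (nat_lit 230) (nat_lit 283)))) (PT.nd (nat_lit 156) (PT.nd (nat_lit 78) (PT.lf (nat_lit 28500) (nat_lit 6) (nat_lit 375) (nat_lit 3) (nat_lit 268) (nat_lit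 230) (nat_lit 282)) (PT.lf (nat_lit 28576) (nat_lit 6) (nat_lit 376) (nat_lit 3) (nat_lit 269) (nat_lit 230) (nat_lit 281))) (PT.nd (nat_lit 78) (PT.lf (nat_lit 28652) (nat_lit 6) (nat_lit 377) (nat_lit 3) (nat_lit 270) (nat_lit 230) (nat_lit 280)) (PT.lf (nat_lit 28728) (nat_lit 6) (nat_lit 378) (nat_lit 3) (nat_lit 271) (nat_lit 230) (nat_lit 279)))))) (PT.nd (nat_lit 546) (PT.nd (nat_lit 234) (PT.nd (nat_lit 78) (PT.lf (nat_lit 28804) (nat_lit 6) (nat_lit 379) (nat_lit 3) (nat_lit 272) (nat_lit 230) (nat_lit 278)) (PT.nd (nat_lit 78) (PT.lf (nat_lit 28880) (nat_lit 6) (nat_lit 380) (nat_lit 3) (nat_lit 273) (nat_lit 230) (nat_lit 277)) (PT.lf (nat_lit 28956) (nat_lit 6) (nat_lit 381) (nat_lit 3) (nat_lit 274) (nat_lit 230) (nat_lit 276)))) (PT.nd (nat_lit 156) (PT.nd (nat_lit 78) (PT.lf (nat_lit 29032) (nat_lit 3) (nat_lit 382) (nat_lit 1) (nat_lit 275) (nat_lit 230) (nat_lit 275)) (PT.lf (nat_lit 28956) (nat_lit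 6) (nat_lit 381) (nat_lit 1) (nat_lit 276) (nat_lit 230) (nat_lit 274))) (PT.nd (nat_lit 78) (PT.lf (nat_lit 28880) (nat_lit 6) (nat_lit 380) (nat_lit 1) (nat_lit 277) (nat_lit 230) (nat_lit 273)) (PT.lf (nat_lit 28804) (nat_lit 6) (nat_lit 379) (nat_lit 1) (nat_lit 278) (nat_lit 230) (nat_lit 272))))) (PT.nd (nat_lit 312) (PT.nd (nat_lit 156) (PT.nd (nat_lit 78) (PT.lf (nat_lit 28728) (nat_lit 6) (nat_lit 378) (nat_lit 1) (nat_lit 279) (nat_lit 230) (nat_lit 271)) (PT.lf (nat_lit 28652) (nat_lit 6) (nat_lit 377) (nat_lit 1) (nat_lit 280) (nat_lit 230) (nat_lit 270))) (PT.nd (nat_lit 78) (PT.lf (nat_lit 28576) (nat_lit 6) (nat_lit 376) (nat_lit 1) (nat_lit 281) (nat_lit 230) (nat_lit 269)) (PT.lf (nat_lit 28500) (nat_lit 6) (nat_lit 375) (nat_lit 1) (nat_lit 282) (nat_lit 230) (nat_lit 268)))) (PT.nd (nat_lit 156) (PT.nd (nat_lit 78) (PT.lf (nat_lit 28424) (nat_lit 6) (nat_lit 374) (nat_lit 1) (nat_lit 283) (nat_lit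 230) (nat_lit 267)) (PT.lf (nat_lit 28348) (nat_lit 6) (nat_lit 373) (nat_lit 1) (nat_lit 284) (nat_lit 230) (nat_lit 266))) (PT.nd (nat_lit 79560) (PT.lf (nat_lit 28272) (nat_lit 6) (nat_lit 372) (nat_lit 1) (nat_lit 285) (nat_lit 230) (nat_lit 265)) (PT.lf (nat_lit 29108) (nat_lit 6) (nat_lit 383) (nat_lit 3) (nat_lit 264) (nat_lit 231) (nat_lit 285))))))) (PT.nd (nat_lit 1170) (PT.nd (nat_lit 546) (PT.nd (nat_lit 234) (PT.nd (nat_lit 78) (PT.lf (nat_lit 29184) (nat_lit 6) (nat_lit 384) (nat_lit 3) (nat_lit 265) (nat_lit 231) (nat_lit 284)) (PT.nd (nat_lit 78) (PT.lf (nat_lit 29260) (nat_lit 6) (nat_lit 385) (nat_lit 3) (nat_lit 266) (nat_lit 231) (nat_lit 283)) (PT.lf (nat_lit 29336) (nat_lit 6) (nat_lit 386) (nat_lit 3) (nat_lit 267) (nat_lit 231) (nat_lit 282)))) (PT.nd (nat_lit 156) (PT.nd (nat_lit 78) (PT.lf (nat_lit 29412) (nat_lit 6) (nat_lit 387) (nat_lit 3) (nat_lit 268) (nat_lit 231) (nat_lit 281))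 (PT.lf (nat_lit 29488) (nat_lit 6) (nat_lit 388) (nat_lit 3) (nat_lit 269) (nat_lit 231) (nat_lit 280))) (PT.nd (nat_lit 78) (PT.lf (nat_lit 29564) (nat_lit 6) (nat_lit 389) (nat_lit 3) (nat_lit 270) (nat_lit 231) (nat_lit 279)) (PT.lf (nat_lit 29640) (nat_lit 6) (nat_lit 390) (nat_lit 3) (nat_lit 271) (nat_lit 231) (nat_lit 278))))) (PT.nd (nat_lit 312) (PT.nd (nat_lit 156) (PT.nd (nat_lit 78) (PT.lf (nat_lit 29716) (nat_lit 6) (nat_lit 391) (nat_lit 3) (nat_lit 272) (nat_lit 231) (nat_lit 277)) (PT.lf (nat_lit 29792) (nat_lit 6) (nat_lit 392) (nat_lit 3) (nat_lit 273) (nat_lit 231) (nat_lit 276))) (PT.nd (nat_lit 78) (PT.lf (nat_lit 29868) (nat_lit 6) (nat_lit 393) (nat_lit 3) (nat_lit 274) (nat_lit 231) (nat_lit 275)) (PT.lf (nat_lit 29868) (nat_lit 6) (nat_lit 393) (nat_lit 1) (nat_lit 275) (nat_lit 231) (nat_lit 274)))) (PT.nd (nat_lit 156) (PT.nd (nat_lit 78) (PT.lf (nat_lit 29792) (nat_lit 6) (nat_lit 392)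 (nat_lit 1) (nat_lit 276) (nat_lit 231) (nat_lit 273)) (PT.lf (nat_lit 29716) (nat_lit 6) (nat_lit 391) (nat_lit 1) (nat_lit 277) (nat_lit 231) (nat_lit 272))) (PT.nd (nat_lit 78) (PT.lf (nat_lit 29640) (nat_lit 6) (nat_lit 390) (nat_lit 1) (nat_lit 278) (nat_lit 231) (nat_lit 271)) (PT.lf (nat_lit 29564) (nat_lit 6) (nat_lit 389) (nat_lit 1) (nat_lit 279) (nat_lit 231) (nat_lit 270)))))) (PT.nd (nat_lit 79950) (PT.nd (nat_lit 234) (PT.nd (nat_lit 78) (PT.lf (nat_lit 29488) (nat_lit 6) (nat_lit 388) (nat_lit 1) (nat_lit 280) (nat_lit 231) (nat_lit 269)) (PT.nd (nat_lit 78) (PT.lf (nat_lit 29412) (nat_lit 6) (nat_lit 387) (nat_lit 1) (nat_lit 281) (nat_lit 231) (nat_lit 268)) (PT.lf (nat_lit 29336) (nat_lit 6) (nat_lit 386) (nat_lit 1) (nat_lit 282) (nat_lit 231) (nat_lit 267)))) (PT.nd (nat_lit 156) (PT.nd (nat_lit 78) (PT.lf (nat_lit 29260) (nat_lit 6) (nat_lit 385) (nat_lit 1) (nat_lit 283) (nat_lit 231) (nat_lit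 266)) (PT.lf (nat_lit 29184) (nat_lit 6) (nat_lit 384) (nat_lit 1) (nat_lit 284) (nat_lit 231) (nat_lit 265))) (PT.nd (nat_lit 79482) (PT.lf (nat_lit 29108) (nat_lit 6) (nat_lit 383) (nat_lit 1) (nat_lit 285) (nat_lit 231) (nat_lit 264)) (PT.lf (nat_lit 29944) (nat_lit 6) (nat_lit 394) (nat_lit 3) (nat_lit 263) (nat_lit 232) (nat_lit 285))))) (PT.nd (nat_lit 312) (PT.nd (nat_lit 156) (PT.nd (nat_lit 78) (PT.lf (nat_lit 30020) (nat_lit 6) (nat_lit 395) (nat_lit 3) (nat_lit 264) (nat_lit 232) (nat_lit 284)) (PT.lf (nat_lit 30096) (nat_lit 6) (nat_lit 396) (nat_lit 3) (nat_lit 265) (nat_lit 232) (nat_lit 283))) (PT.nd (nat_lit 78) (PT.lf (nat_lit 30172) (nat_lit 6) (nat_lit 397) (nat_lit 3) (nat_lit 266) (nat_lit 232) (nat_lit 282)) (PT.lf (nat_lit 30248) (nat_lit 6) (nat_lit 398) (nat_lit 3) (nat_lit 267) (nat_lit 232) (nat_lit 281)))) (PT.nd (nat_lit 156) (PT.nd (nat_lit 78) (PT.lf (nat_lit 30324) (nat_lit 6) (nat_lit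 399) (nat_lit 3) (nat_lit 268) (nat_lit 232) (nat_lit 280)) (PT.lf (nat_lit 30400) (nat_lit 6) (nat_lit 400) (nat_lit 3) (nat_lit 269) (nat_lit 232) (nat_lit 279))) (PT.nd (nat_lit 78) (PT.lf (nat_lit 30476) (nat_lit 6) (nat_lit 401) (nat_lit 3) (nat_lit 270) (nat_lit 232) (nat_lit 278)) (PT.lf (nat_lit 30552) (nat_lit 6) (nat_lit 402) (nat_lit 3) (nat_lit 271) (nat_lit 232) (nat_lit 277))))))))
noncomputable def pc10 : PT := (PT.nd (nat_lit 81666) (PT.nd (nat_lit 80496) (PT.nd (nat_lit 546) (PT.nd (nat_lit 234) (PT.nd (nat_lit 78) (PT.lf (nat_lit 30628) (nat_lit 6) (nat_lit 403) (nat_lit 3) (nat_lit 272) (nat_lit 232) (nat_lit 276)) (PT.nd (nat_lit 78) (PT.lf (nat_lit 30704) (nat_lit 6) (nat_lit 404) (nat_lit 3) (nat_lit 273) (nat_lit 232) (nat_lit 275)) (PT.lf (nat_lit 30780) (nat_lit 3) (nat_lit 405) (nat_lit 1) (nat_lit 274) (nat_lit 232) (nat_lit 274)))) (PT.nd (nat_lit 156) (PT.nd (nat_lit 78) (PT.lf (nat_lit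 30704) (nat_lit 6) (nat_lit 404) (nat_lit 1) (nat_lit 275) (nat_lit 232) (nat_lit 273)) (PT.lf (nat_lit 30628) (nat_lit 6) (nat_lit 403) (nat_lit 1) (nat_lit 276) (nat_lit 232) (nat_lit 272))) (PT.nd (nat_lit 78) (PT.lf (nat_lit 30552) (nat_lit 6) (nat_lit 402) (nat_lit 1) (nat_lit 277) (nat_lit 232) (nat_lit 271)) (PT.lf (nat_lit 30476) (nat_lit 6) (nat_lit 401) (nat_lit 1) (nat_lit 278) (nat_lit 232) (nat_lit 270))))) (PT.nd (nat_lit 312) (PT.nd (nat_lit 156) (PT.nd (nat_lit 78) (PT.lf (nat_lit 30400) (nat_lit 6) (nat_lit 400) (nat_lit 1) (nat_lit 279) (nat_lit 232) (nat_lit 269)) (PT.lf (nat_lit 30324) (nat_lit 6) (nat_lit 399) (nat_lit 1) (nat_lit 280) (nat_lit 232) (nat_lit 268))) (PT.nd (nat_lit 78) (PT.lf (nat_lit 30248) (nat_lit 6) (nat_lit 398) (nat_lit 1) (nat_lit 281) (nat_lit 232) (nat_lit 267)) (PT.lf (nat_lit 30172) (nat_lit 6) (nat_lit 397) (nat_lit 1) (nat_lit 282) (nat_lit 232) (nat_lit 266))))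 (PT.nd (nat_lit 156) (PT.nd (nat_lit 78) (PT.lf (nat_lit 30096) (nat_lit 6) (nat_lit 396) (nat_lit 1) (nat_lit 283) (nat_lit 232) (nat_lit 265)) (PT.lf (nat_lit 30020) (nat_lit 6) (nat_lit 395) (nat_lit 1) (nat_lit 284) (nat_lit 232) (nat_lit 264))) (PT.nd (nat_lit 79404) (PT.lf (nat_lit 29944) (nat_lit 6) (nat_lit 394) (nat_lit 1) (nat_lit 285) (nat_lit 232) (nat_lit 263)) (PT.lf (nat_lit 30856) (nat_lit 6) (nat_lit 406) (nat_lit 3) (nat_lit 262) (nat_lit 233) (nat_lit 285)))))) (PT.nd (nat_lit 546) (PT.nd (nat_lit 234) (PT.nd (nat_lit 78) (PT.lf (nat_lit 30932) (nat_lit 6) (nat_lit 407) (nat_lit 3) (nat_lit 263) (nat_lit 233) (nat_lit 284)) (PT.nd (nat_lit 78) (PT.lf (nat_lit 31008) (nat_lit 6) (nat_lit 408) (nat_lit 3) (nat_lit 264) (nat_lit 233) (nat_lit 283)) (PT.lf (nat_lit 31084) (nat_lit 6) (nat_lit 409) (nat_lit 3) (nat_lit 265) (nat_lit 233) (nat_lit 282)))) (PT.nd (nat_lit 156) (PT.nd (nat_lit 78) (PT.lf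 (nat_lit 31160) (nat_lit 6) (nat_lit 410) (nat_lit 3) (nat_lit 266) (nat_lit 233) (nat_lit 281)) (PT.lf (nat_lit 31236) (nat_lit 6) (nat_lit 411) (nat_lit 3) (nat_lit 267) (nat_lit 233) (nat_lit 280))) (PT.nd (nat_lit 78) (PT.lf (nat_lit 31312) (nat_lit 6) (nat_lit 412) (nat_lit 3) (nat_lit 268) (nat_lit 233) (nat_lit 279)) (PT.lf (nat_lit 31388) (nat_lit 6) (nat_lit 413) (nat_lit 3) (nat_lit 269) (nat_lit 233) (nat_lit 278))))) (PT.nd (nat_lit 312) (PT.nd (nat_lit 156) (PT.nd (nat_lit 78) (PT.lf (nat_lit 31464) (nat_lit 6) (nat_lit 414) (nat_lit 3) (nat_lit 270) (nat_lit 233) (nat_lit 277)) (PT.lf (nat_lit 31540) (nat_lit 6) (nat_lit 415) (nat_lit 3) (nat_lit 271) (nat_lit 233) (nat_lit 276))) (PT.nd (nat_lit 78) (PT.lf (nat_lit 31616) (nat_lit 6) (nat_lit 416) (nat_lit 3) (nat_lit 272) (nat_lit 233) (nat_lit 275)) (PT.lf (nat_lit 31692) (nat_lit 6) (nat_lit 417) (nat_lit 3) (nat_lit 273) (nat_lit 233) (nat_lit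 274)))) (PT.nd (nat_lit 156) (PT.nd (nat_lit 78) (PT.lf (nat_lit 31692) (nat_lit 6) (nat_lit 417) (nat_lit 1) (nat_lit 274) (nat_lit 233) (nat_lit 273)) (PT.lf (nat_lit 31616) (nat_lit 6) (nat_lit 416) (nat_lit 1) (nat_lit 275) (nat_lit 233) (nat_lit 272))) (PT.nd (nat_lit 78) (PT.lf (nat_lit 31540) (nat_lit 6) (nat_lit 415) (nat_lit 1) (nat_lit 276) (nat_lit 233) (nat_lit 271)) (PT.lf (nat_lit 31464) (nat_lit 6) (nat_lit 414) (nat_lit 1) (nat_lit 277) (nat_lit 233) (nat_lit 270))))))) (PT.nd (nat_lit 80418) (PT.nd (nat_lit 546) (PT.nd (nat_lit 234) (PT.nd (nat_lit 78) (PT.lf (nat_lit 31388) (nat_lit 6) (nat_lit 413) (nat_lit 1) (nat_lit 278) (nat_lit 233) (nat_lit 269)) (PT.nd (nat_lit 78) (PT.lf (nat_lit 31312) (nat_lit 6) (nat_lit 412) (nat_lit 1) (nat_lit 279) (nat_lit 233) (nat_lit 268)) (PT.lf (nat_lit 31236) (nat_lit 6) (nat_lit 411) (nat_lit 1) (nat_lit 280) (nat_lit 233) (nat_lit 267)))) (PT.nd (nat_lit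 156) (PT.nd (nat_lit 78) (PT.lf (nat_lit 31160) (nat_lit 6) (nat_lit 410) (nat_lit 1) (nat_lit 281) (nat_lit 233) (nat_lit 266)) (PT.lf (nat_lit 31084) (nat_lit 6) (nat_lit 409) (nat_lit 1) (nat_lit 282) (nat_lit 233) (nat_lit 265))) (PT.nd (nat_lit 78) (PT.lf (nat_lit 31008) (nat_lit 6) (nat_lit 408) (nat_lit 1) (nat_lit 283) (nat_lit 233) (nat_lit 264)) (PT.lf (nat_lit 30932) (nat_lit 6) (nat_lit 407) (nat_lit 1) (nat_lit 284) (nat_lit 233) (nat_lit 263))))) (PT.nd (nat_lit 79560) (PT.nd (nat_lit 79404) (PT.nd (nat_lit 79326) (PT.lf (nat_lit 30856) (nat_lit 6) (nat_lit 406) (nat_lit 1) (nat_lit 285) (nat_lit 233) (nat_lit 262)) (PT.lf (nat_lit 31768) (nat_lit 6) (nat_lit 418) (nat_lit 3) (nat_lit 261) (nat_lit 234) (nat_lit 285))) (PT.nd (nat_lit 78) (PT.lf (nat_lit 31844) (nat_lit 6) (nat_lit 419) (nat_lit 3) (nat_lit 262) (nat_lit 234) (nat_lit 284)) (PT.lf (nat_lit 31920) (nat_lit 6) (nat_lit 420) (nat_lit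 3) (nat_lit 263) (nat_lit 234) (nat_lit 283)))) (PT.nd (nat_lit 156) (PT.nd (nat_lit 78) (PT.lf (nat_lit 31996) (nat_lit 6) (nat_lit 421) (nat_lit 3) (nat_lit 264) (nat_lit 234) (nat_lit 282)) (PT.lf (nat_lit 32072) (nat_lit 6) (nat_lit 422) (nat_lit 3) (nat_lit 265) (nat_lit 234) (nat_lit 281))) (PT.nd (nat_lit 78) (PT.lf (nat_lit 32148) (nat_lit 6) (nat_lit 423) (nat_lit 3) (nat_lit 266) (nat_lit 234) (nat_lit 280)) (PT.lf (nat_lit 32224) (nat_lit 6) (nat_lit 424) (nat_lit 3) (nat_lit 267) (nat_lit 234) (nat_lit 279)))))) (PT.nd (nat_lit 546) (PT.nd (nat_lit 234) (PT.nd (nat_lit 78) (PT.lf (nat_lit 32300) (nat_lit 6) (nat_lit 425) (nat_lit 3) (nat_lit 268) (nat_lit 234) (nat_lit 278)) (PT.nd (nat_lit 78) (PT.lf (nat_lit 32376) (nat_lit 6) (nat_lit 426) (nat_lit 3) (nat_lit 269) (nat_lit 234) (nat_lit 277)) (PT.lf (nat_lit 32452) (nat_lit 6) (nat_lit 427) (nat_lit 3) (nat_lit 270) (nat_lit 234) (nat_lit 276))))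 (PT.nd (nat_lit 156) (PT.nd (nat_lit 78) (PT.lf (nat_lit 32528) (nat_lit 6) (nat_lit 428) (nat_lit 3) (nat_lit 271) (nat_lit 234) (nat_lit 275)) (PT.lf (nat_lit 32604) (nat_lit 6) (nat_lit 429) (nat_lit 3) (nat_lit 272) (nat_lit 234) (nat_lit 274))) (PT.nd (nat_lit 78) (PT.lf (nat_lit 32680) (nat_lit 3) (nat_lit 430) (nat_lit 1) (nat_lit 273) (nat_lit 234) (nat_lit 273)) (PT.lf (nat_lit 32604) (nat_lit 6) (nat_lit 429) (nat_lit 1) (nat_lit 274) (nat_lit 234) (nat_lit 272))))) (PT.nd (nat_lit 312) (PT.nd (nat_lit 156) (PT.nd (nat_lit 78) (PT.lf (nat_lit 32528) (nat_lit 6) (nat_lit 428) (nat_lit 1) (nat_lit 275) (nat_lit 234) (nat_lit 271)) (PT.lf (nat_lit 32452) (nat_lit 6) (nat_lit 427) (nat_lit 1) (nat_lit 276) (nat_lit 234) (nat_lit 270))) (PT.nd (nat_lit 78) (PT.lf (nat_lit 32376) (nat_lit 6) (nat_lit 426) (nat_lit 1) (nat_lit 277) (nat_lit 234) (nat_lit 269)) (PT.lf (nat_lit 32300) (nat_lit 6) (nat_lit 425)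 (nat_lit 1) (nat_lit 278) (nat_lit 234) (nat_lit 268)))) (PT.nd (nat_lit 156) (PT.nd (nat_lit 78) (PT.lf (nat_lit 32224) (nat_lit 6) (nat_lit 424) (nat_lit 1) (nat_lit 279) (nat_lit 234) (nat_lit 267)) (PT.lf (nat_lit 32148) (nat_lit 6) (nat_lit 423) (nat_lit 1) (nat_lit 280) (nat_lit 234) (nat_lit 266))) (PT.nd (nat_lit 78) (PT.lf (nat_lit 32072) (nat_lit 6) (nat_lit 422) (nat_lit 1) (nat_lit 281) (nat_lit 234) (nat_lit 265)) (PT.lf (nat_lit 31996) (nat_lit 6) (nat_lit 421) (nat_lit 1) (nat_lit 282) (nat_lit 234) (nat_lit 264))))))))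
noncomputable def pc11 : PT := (PT.nd (nat_lit 160836) (PT.nd (nat_lit 80418) (PT.nd (nat_lit 79794) (PT.nd (nat_lit 79482) (PT.nd (nat_lit 78) (PT.lf (nat_lit 31920) (nat_lit 6) (nat_lit 420) (nat_lit 1) (nat_lit 283) (nat_lit 234) (nat_lit 263)) (PT.nd (nat_lit 78) (PT.lf (nat_lit 31844) (nat_lit 6) (nat_lit 419) (nat_lit 1) (nat_lit 284) (nat_lit 234) (nat_lit 262)) (PT.lf (nat_lit 31768) (nat_lit 6) (nat_lit 418) (nat_lit 1) (nat_lit 285) (nat_lit 234) (nat_lit 261)))) (PT.nd (nat_lit 156) (PT.nd (nat_lit 78) (PT.lf (nat_lit 32832) (nat_lit 6) (nat_lit 432) (nat_lit 3) (nat_lit 261) (nat_lit 235) (nat_lit 284)) (PT.lf (nat_lit 32908) (nat_lit 6) (nat_lit 433) (nat_lit 3) (nat_lit 262) (nat_lit 235) (nat_lit 283))) (PT.nd (nat_lit 78) (PT.lf (nat_lit 32984) (nat_lit 6) (nat_lit 434) (nat_lit 3) (nat_lit 263) (nat_lit 235) (nat_lit 282)) (PT.lf (nat_lit 33060) (nat_lit 6) (nat_lit 435) (nat_lit 3) (nat_lit 264)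 (nat_lit 235) (nat_lit 281))))) (PT.nd (nat_lit 312) (PT.nd (nat_lit 156) (PT.nd (nat_lit 78) (PT.lf (nat_lit 33136) (nat_lit 6) (nat_lit 436) (nat_lit 3) (nat_lit 265) (nat_lit 235) (nat_lit 280)) (PT.lf (nat_lit 33212) (nat_lit 6) (nat_lit 437) (nat_lit 3) (nat_lit 266) (nat_lit 235) (nat_lit 279))) (PT.nd (nat_lit 78) (PT.lf (nat_lit 33288) (nat_lit 6) (nat_lit 438) (nat_lit 3) (nat_lit 267) (nat_lit 235) (nat_lit 278)) (PT.lf (nat_lit 33364) (nat_lit 6) (nat_lit 439) (nat_lit 3) (nat_lit 268) (nat_lit 235) (nat_lit 277)))) (PT.nd (nat_lit 156) (PT.nd (nat_lit 78) (PT.lf (nat_lit 33440) (nat_lit 6) (nat_lit 440) (nat_lit 3) (nat_lit 269) (nat_lit 235) (nat_lit 276)) (PT.lf (nat_lit 33516) (nat_lit 6) (nat_lit 441) (nat_lit 3) (nat_lit 270) (nat_lit 235) (nat_lit 275))) (PT.nd (nat_lit 78) (PT.lf (nat_lit 33592) (nat_lit 6) (nat_lit 442) (nat_lit 3) (nat_lit 271) (nat_lit 235) (nat_lit 274)) (PT.lf (nat_lit 33668)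 (nat_lit 6) (nat_lit 443) (nat_lit 3) (nat_lit 272) (nat_lit 235) (nat_lit 273)))))) (PT.nd (nat_lit 546) (PT.nd (nat_lit 234) (PT.nd (nat_lit 78) (PT.lf (nat_lit 33668) (nat_lit 6) (nat_lit 443) (nat_lit 1) (nat_lit 273) (nat_lit 235) (nat_lit 272)) (PT.nd (nat_lit 78) (PT.lf (nat_lit 33592) (nat_lit 6) (nat_lit 442) (nat_lit 1) (nat_lit 274) (nat_lit 235) (nat_lit 271)) (PT.lf (nat_lit 33516) (nat_lit 6) (nat_lit 441) (nat_lit 1) (nat_lit 275) (nat_lit 235) (nat_lit 270)))) (PT.nd (nat_lit 156) (PT.nd (nat_lit 78) (PT.lf (nat_lit 33440) (nat_lit 6) (nat_lit 440) (nat_lit 1) (nat_lit 276) (nat_lit 235) (nat_lit 269)) (PT.lf (nat_lit 33364) (nat_lit 6) (nat_lit 439) (nat_lit 1) (nat_lit 277) (nat_lit 235) (nat_lit 268))) (PT.nd (nat_lit 78) (PT.lf (nat_lit 33288) (nat_lit 6) (nat_lit 438) (nat_lit 1) (nat_lit 278) (nat_lit 235) (nat_lit 267)) (PT.lf (nat_lit 33212) (nat_lit 6) (nat_lit 437) (nat_lit 1) (nat_lit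 279) (nat_lit 235) (nat_lit 266))))) (PT.nd (nat_lit 312) (PT.nd (nat_lit 156) (PT.nd (nat_lit 78) (PT.lf (nat_lit 33136) (nat_lit 6) (nat_lit 436) (nat_lit 1) (nat_lit 280) (nat_lit 235) (nat_lit 265)) (PT.lf (nat_lit 33060) (nat_lit 6) (nat_lit 435) (nat_lit 1) (nat_lit 281) (nat_lit 235) (nat_lit 264))) (PT.nd (nat_lit 78) (PT.lf (nat_lit 32984) (nat_lit 6) (nat_lit 434) (nat_lit 1) (nat_lit 282) (nat_lit 235) (nat_lit 263)) (PT.lf (nat_lit 32908) (nat_lit 6) (nat_lit 433) (nat_lit 1) (nat_lit 283) (nat_lit 235) (nat_lit 262)))) (PT.nd (nat_lit 79404) (PT.nd (nat_lit 79326) (PT.lf (nat_lit 32832) (nat_lit 6) (nat_lit 432) (nat_lit 1) (nat_lit 284) (nat_lit 235) (nat_lit 261)) (PT.lf (nat_lit 34504) (nat_lit 6) (nat_lit 454) (nat_lit 3) (nat_lit 260) (nat_lit 236) (nat_lit 284))) (PT.nd (nat_lit 78) (PT.lf (nat_lit 34580) (nat_lit 6) (nat_lit 455) (nat_lit 3) (nat_lit 261) (nat_lit 236) (nat_lit 283)) (PT.lf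 (nat_lit 34656) (nat_lit 6) (nat_lit 456) (nat_lit 3) (nat_lit 262) (nat_lit 236) (nat_lit 282))))))) (PT.nd (nat_lit 1170) (PT.nd (nat_lit 546) (PT.nd (nat_lit 234) (PT.nd (nat_lit 78) (PT.lf (nat_lit 34732) (nat_lit 6) (nat_lit 457) (nat_lit 3) (nat_lit 263) (nat_lit 236) (nat_lit 281)) (PT.nd (nat_lit 78) (PT.lf (nat_lit 34808) (nat_lit 6) (nat_lit 458) (nat_lit 3) (nat_lit 264) (nat_lit 236) (nat_lit 280)) (PT.lf (nat_lit 34884) (nat_lit 6) (nat_lit 459) (nat_lit 3) (nat_lit 265) (nat_lit 236) (nat_lit 279)))) (PT.nd (nat_lit 156) (PT.nd (nat_lit 78) (PT.lf (nat_lit 34960) (nat_lit 6) (nat_lit 460) (nat_lit 3) (nat_lit 266) (nat_lit 236) (nat_lit 278)) (PT.lf (nat_lit 35036) (nat_lit 6) (nat_lit 461) (nat_lit 3) (nat_lit 267) (nat_lit 236) (nat_lit 277))) (PT.nd (nat_lit 78) (PT.lf (nat_lit 35112) (nat_lit 6) (nat_lit 462) (nat_lit 3) (nat_lit 268) (nat_lit 236) (nat_lit 276)) (PT.lf (nat_lit 35188) (nat_lit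 6) (nat_lit 463) (nat_lit 3) (nat_lit 269) (nat_lit 236) (nat_lit 275))))) (PT.nd (nat_lit 312) (PT.nd (nat_lit 156) (PT.nd (nat_lit 78) (PT.lf (nat_lit 35264) (nat_lit 6) (nat_lit 464) (nat_lit 3) (nat_lit 270) (nat_lit 236) (nat_lit 274)) (PT.lf (nat_lit 35340) (nat_lit 6) (nat_lit 465) (nat_lit 3) (nat_lit 271) (nat_lit 236) (nat_lit 273))) (PT.nd (nat_lit 78) (PT.lf (nat_lit 35416) (nat_lit 3) (nat_lit 466) (nat_lit 1) (nat_lit 272) (nat_lit 236) (nat_lit 272)) (PT.lf (nat_lit 35340) (nat_lit 6) (nat_lit 465) (nat_lit 1) (nat_lit 273) (nat_lit 236) (nat_lit 271)))) (PT.nd (nat_lit 156) (PT.nd (nat_lit 78) (PT.lf (nat_lit 35264) (nat_lit 6) (nat_lit 464) (nat_lit 1) (nat_lit 274) (nat_lit 236) (nat_lit 270)) (PT.lf (nat_lit 35188) (nat_lit 6) (nat_lit 463) (nat_lit 1) (nat_lit 275) (nat_lit 236) (nat_lit 269))) (PT.nd (nat_lit 78) (PT.lf (nat_lit 35112) (nat_lit 6) (nat_lit 462) (nat_lit 1) (nat_lit 276) (nat_lit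 236) (nat_lit 268)) (PT.lf (nat_lit 35036) (nat_lit 6) (nat_lit 461) (nat_lit 1) (nat_lit 277) (nat_lit 236) (nat_lit 267)))))) (PT.nd (nat_lit 79716) (PT.nd (nat_lit 234) (PT.nd (nat_lit 78) (PT.lf (nat_lit 34960) (nat_lit 6) (nat_lit 460) (nat_lit 1) (nat_lit 278) (nat_lit 236) (nat_lit 266)) (PT.nd (nat_lit 78) (PT.lf (nat_lit 34884) (nat_lit 6) (nat_lit 459) (nat_lit 1) (nat_lit 279) (nat_lit 236) (nat_lit 265)) (PT.lf (nat_lit 34808) (nat_lit 6) (nat_lit 458) (nat_lit 1) (nat_lit 280) (nat_lit 236) (nat_lit 264)))) (PT.nd (nat_lit 156) (PT.nd (nat_lit 78) (PT.lf (nat_lit 34732) (nat_lit 6) (nat_lit 457) (nat_lit 1) (nat_lit 281) (nat_lit 236) (nat_lit 263)) (PT.lf (nat_lit 34656) (nat_lit 6) (nat_lit 456) (nat_lit 1) (nat_lit 282) (nat_lit 236) (nat_lit 262))) (PT.nd (nat_lit 78) (PT.lf (nat_lit 34580) (nat_lit 6) (nat_lit 455) (nat_lit 1) (nat_lit 283) (nat_lit 236) (nat_lit 261)) (PT.lf (nat_lit 34504) (nat_lit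 6) (nat_lit 454) (nat_lit 1) (nat_lit 284) (nat_lit 236) (nat_lit 260))))) (PT.nd (nat_lit 312) (PT.nd (nat_lit 156) (PT.nd (nat_lit 78) (PT.lf (nat_lit 34428) (nat_lit 6) (nat_lit 453) (nat_lit 3) (nat_lit 259) (nat_lit 237) (nat_lit 284)) (PT.lf (nat_lit 36328) (nat_lit 6) (nat_lit 478) (nat_lit 3) (nat_lit 260) (nat_lit 237) (nat_lit 283))) (PT.nd (nat_lit 78) (PT.lf (nat_lit 36404) (nat_lit 6) (nat_lit 479) (nat_lit 3) (nat_lit 261) (nat_lit 237) (nat_lit 282)) (PT.lf (nat_lit 36480) (nat_lit 6) (nat_lit 480) (nat_lit 3) (nat_lit 262) (nat_lit 237) (nat_lit 281)))) (PT.nd (nat_lit 156) (PT.nd (nat_lit 78) (PT.lf (nat_lit 36556) (nat_lit 6) (nat_lit 481) (nat_lit 3) (nat_lit 263) (nat_lit 237) (nat_lit 280)) (PT.lf (nat_lit 36632) (nat_lit 6) (nat_lit 482) (nat_lit 3) (nat_lit 264) (nat_lit 237) (nat_lit 279))) (PT.nd (nat_lit 78) (PT.lf (nat_lit 36708) (nat_lit 6) (nat_lit 483) (nat_lit 3) (nat_lit 265) (nat_lit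 237) (nat_lit 278)) (PT.lf (nat_lit 36784) (nat_lit 6) (nat_lit 484) (nat_lit 3) (nat_lit 266) (nat_lit 237) (nat_lit 277))))))))
noncomputable def pc12 : PT := (PT.nd (nat_lit 81432) (PT.nd (nat_lit 1170) (PT.nd (nat_lit 546) (PT.nd (nat_lit 234) (PT.nd (nat_lit 78) (PT.lf (nat_lit 36860) (nat_lit 6) (nat_lit 485) (nat_lit 3) (nat_lit 267) (nat_lit 237) (nat_lit 276)) (PT.nd (nat_lit 78) (PT.lf (nat_lit 36936) (nat_lit 6) (nat_lit 486) (nat_lit 3) (nat_lit 268) (nat_lit 237) (nat_lit 275)) (PT.lf (nat_lit 37012) (nat_lit 6) (nat_lit 487) (nat_lit 3) (nat_lit 269) (nat_lit 237) (nat_lit 274)))) (PT.nd (nat_lit 156) (PT.nd (nat_lit 78) (PT.lf (nat_lit 37088) (nat_lit 6) (nat_lit 488) (nat_lit 3) (nat_lit 270) (nat_lit 237) (nat_lit 273)) (PT.lf (nat_lit 37164) (nat_lit 6) (nat_lit 489) (nat_lit 3) (nat_lit 271) (nat_lit 237) (nat_lit 272))) (PT.nd (nat_lit 78) (PT.lf (nat_lit 37164) (nat_lit 6) (nat_lit 489) (nat_lit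 1) (nat_lit 272) (nat_lit 237) (nat_lit 271)) (PT.lf (nat_lit 37088) (nat_lit 6) (nat_lit 488) (nat_lit 1) (nat_lit 273) (nat_lit 237) (nat_lit 270))))) (PT.nd (nat_lit 312) (PT.nd (nat_lit 156) (PT.nd (nat_lit 78) (PT.lf (nat_lit 37012) (nat_lit 6) (nat_lit 487) (nat_lit 1) (nat_lit 274) (nat_lit 237) (nat_lit 269)) (PT.lf (nat_lit 36936) (nat_lit 6) (nat_lit 486) (nat_lit 1) (nat_lit 275) (nat_lit 237) (nat_lit 268))) (PT.nd (nat_lit 78) (PT.lf (nat_lit 36860) (nat_lit 6) (nat_lit 485) (nat_lit 1) (nat_lit 276) (nat_lit 237) (nat_lit 267)) (PT.lf (nat_lit 36784) (nat_lit 6) (nat_lit 484) (nat_lit 1) (nat_lit 277) (nat_lit 237) (nat_lit 266)))) (PT.nd (nat_lit 156) (PT.nd (nat_lit 78) (PT.lf (nat_lit 36708) (nat_lit 6) (nat_lit 483) (nat_lit 1) (nat_lit 278) (nat_lit 237) (nat_lit 265)) (PT.lf (nat_lit 36632) (nat_lit 6) (nat_lit 482) (nat_lit 1) (nat_lit 279) (nat_lit 237) (nat_lit 264))) (PT.nd (nat_lit 78)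 (PT.lf (nat_lit 36556) (nat_lit 6) (nat_lit 481) (nat_lit 1) (nat_lit 280) (nat_lit 237) (nat_lit 263)) (PT.lf (nat_lit 36480) (nat_lit 6) (nat_lit 480) (nat_lit 1) (nat_lit 281) (nat_lit 237) (nat_lit 262)))))) (PT.nd (nat_lit 79638) (PT.nd (nat_lit 79326) (PT.nd (nat_lit 78) (PT.lf (nat_lit 36404) (nat_lit 6) (nat_lit 479) (nat_lit 1) (nat_lit 282) (nat_lit 237) (nat_lit 261)) (PT.nd (nat_lit 78) (PT.lf (nat_lit 36328) (nat_lit 6) (nat_lit 478) (nat_lit 1) (nat_lit 283) (nat_lit 237) (nat_lit 260)) (PT.lf (nat_lit 34428) (nat_lit 6) (nat_lit 453) (nat_lit 1) (nat_lit 284) (nat_lit 237) (nat_lit 259)))) (PT.nd (nat_lit 156) (PT.nd (nat_lit 78) (PT.lf (nat_lit 34352) (nat_lit 6) (nat_lit 452) (nat_lit 3) (nat_lit 258) (nat_lit 238) (nat_lit 284)) (PT.lf (nat_lit 36252) (nat_lit 6) (nat_lit 477) (nat_lit 3) (nat_lit 259) (nat_lit 238) (nat_lit 283))) (PT.nd (nat_lit 78) (PT.lf (nat_lit 38076) (nat_lit 6) (nat_lit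 501) (nat_lit 3) (nat_lit 260) (nat_lit 238) (nat_lit 282)) (PT.lf (nat_lit 38152) (nat_lit 6) (nat_lit 502) (nat_lit 3) (nat_lit 261) (nat_lit 238) (nat_lit 281))))) (PT.nd (nat_lit 312) (PT.nd (nat_lit 156) (PT.nd (nat_lit 78) (PT.lf (nat_lit 38228) (nat_lit 6) (nat_lit 503) (nat_lit 3) (nat_lit 262) (nat_lit 238) (nat_lit 280)) (PT.lf (nat_lit 38304) (nat_lit 6) (nat_lit 504) (nat_lit 3) (nat_lit 263) (nat_lit 238) (nat_lit 279))) (PT.nd (nat_lit 78) (PT.lf (nat_lit 38380) (nat_lit 6) (nat_lit 505) (nat_lit 3) (nat_lit 264) (nat_lit 238) (nat_lit 278)) (PT.lf (nat_lit 38456) (nat_lit 6) (nat_lit 506) (nat_lit 3) (nat_lit 265) (nat_lit 238) (nat_lit 277)))) (PT.nd (nat_lit 156) (PT.nd (nat_lit 78) (PT.lf (nat_lit 38532) (nat_lit 6) (nat_lit 507) (nat_lit 3) (nat_lit 266) (nat_lit 238) (nat_lit 276)) (PT.lf (nat_lit 38608) (nat_lit 6) (nat_lit 508) (nat_lit 3) (nat_lit 267) (nat_lit 238) (nat_lit 275))) (PT.nd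 (nat_lit 78) (PT.lf (nat_lit 38684) (nat_lit 6) (nat_lit 509) (nat_lit 3) (nat_lit 268) (nat_lit 238) (nat_lit 274)) (PT.lf (nat_lit 38760) (nat_lit 6) (nat_lit 510) (nat_lit 3) (nat_lit 269) (nat_lit 238) (nat_lit 273))))))) (PT.nd (nat_lit 80184) (PT.nd (nat_lit 546) (PT.nd (nat_lit 234) (PT.nd (nat_lit 78) (PT.lf (nat_lit 38836) (nat_lit 6) (nat_lit 511) (nat_lit 3) (nat_lit 270) (nat_lit 238) (nat_lit 272)) (PT.nd (nat_lit 78) (PT.lf (nat_lit 38912) (nat_lit 3) (nat_lit 512) (nat_lit 1) (nat_lit 271) (nat_lit 238) (nat_lit 271)) (PT.lf (nat_lit 38836) (nat_lit 6) (nat_lit 511) (nat_lit 1) (nat_lit 272) (nat_lit 238) (nat_lit 270)))) (PT.nd (nat_lit 156) (PT.nd (nat_lit 78) (PT.lf (nat_lit 38760) (nat_lit 6) (nat_lit 510) (nat_lit 1) (nat_lit 273) (nat_lit 238) (nat_lit 269)) (PT.lf (nat_lit 38684) (nat_lit 6) (nat_lit 509) (nat_lit 1) (nat_lit 274) (nat_lit 238) (nat_lit 268))) (PT.nd (nat_lit 78) (PT.lf (nat_lit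 38608) (nat_lit 6) (nat_lit 508) (nat_lit 1) (nat_lit 275) (nat_lit 238) (nat_lit 267)) (PT.lf (nat_lit 38532) (nat_lit 6) (nat_lit 507) (nat_lit 1) (nat_lit 276) (nat_lit 238) (nat_lit 266))))) (PT.nd (nat_lit 312) (PT.nd (nat_lit 156) (PT.nd (nat_lit 78) (PT.lf (nat_lit 38456) (nat_lit 6) (nat_lit 506) (nat_lit 1) (nat_lit 277) (nat_lit 238) (nat_lit 265)) (PT.lf (nat_lit 38380) (nat_lit 6) (nat_lit 505) (nat_lit 1) (nat_lit 278) (nat_lit 238) (nat_lit 264))) (PT.nd (nat_lit 78) (PT.lf (nat_lit 38304) (nat_lit 6) (nat_lit 504) (nat_lit 1) (nat_lit 279) (nat_lit 238) (nat_lit 263)) (PT.lf (nat_lit 38228) (nat_lit 6) (nat_lit 503) (nat_lit 1) (nat_lit 280) (nat_lit 238) (nat_lit 262)))) (PT.nd (nat_lit 156) (PT.nd (nat_lit 78) (PT.lf (nat_lit 38152) (nat_lit 6) (nat_lit 502) (nat_lit 1) (nat_lit 281) (nat_lit 238) (nat_lit 261)) (PT.lf (nat_lit 38076) (nat_lit 6) (nat_lit 501) (nat_lit 1) (nat_lit 282) (nat_lit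 238) (nat_lit 260))) (PT.nd (nat_lit 78) (PT.lf (nat_lit 36252) (nat_lit 6) (nat_lit 477) (nat_lit 1) (nat_lit 283) (nat_lit 238) (nat_lit 259)) (PT.lf (nat_lit 34352) (nat_lit 6) (nat_lit 452) (nat_lit 1) (nat_lit 284) (nat_lit 238) (nat_lit 258)))))) (PT.nd (nat_lit 546) (PT.nd (nat_lit 234) (PT.nd (nat_lit 78) (PT.lf (nat_lit 34276) (nat_lit 6) (nat_lit 451) (nat_lit 3) (nat_lit 257) (nat_lit 239) (nat_lit 284)) (PT.nd (nat_lit 78) (PT.lf (nat_lit 36176) (nat_lit 6) (nat_lit 476) (nat_lit 3) (nat_lit 258) (nat_lit 239) (nat_lit 283)) (PT.lf (nat_lit 38000) (nat_lit 6) (nat_lit 500) (nat_lit 3) (nat_lit 259) (nat_lit 239) (nat_lit 282)))) (PT.nd (nat_lit 156) (PT.nd (nat_lit 78) (PT.lf (nat_lit 39748) (nat_lit 6) (nat_lit 523) (nat_lit 3) (nat_lit 260) (nat_lit 239) (nat_lit 281)) (PT.lf (nat_lit 39824) (nat_lit 6) (nat_lit 524) (nat_lit 3) (nat_lit 261) (nat_lit 239) (nat_lit 280))) (PT.nd (nat_lit 78) (PT.lf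 (nat_lit 39900) (nat_lit 6) (nat_lit 525) (nat_lit 3) (nat_lit 262) (nat_lit 239) (nat_lit 279)) (PT.lf (nat_lit 39976) (nat_lit 6) (nat_lit 526) (nat_lit 3) (nat_lit 263) (nat_lit 239) (nat_lit 278))))) (PT.nd (nat_lit 312) (PT.nd (nat_lit 156) (PT.nd (nat_lit 78) (PT.lf (nat_lit 40052) (nat_lit 6) (nat_lit 527) (nat_lit 3) (nat_lit 264) (nat_lit 239) (nat_lit 277)) (PT.lf (nat_lit 40128) (nat_lit 6) (nat_lit 528) (nat_lit 3) (nat_lit 265) (nat_lit 239) (nat_lit 276))) (PT.nd (nat_lit 78) (PT.lf (nat_lit 40204) (nat_lit 6) (nat_lit 529) (nat_lit 3) (nat_lit 266) (nat_lit 239) (nat_lit 275)) (PT.lf (nat_lit 40280) (nat_lit 6) (nat_lit 530) (nat_lit 3) (nat_lit 267) (nat_lit 239) (nat_lit 274)))) (PT.nd (nat_lit 156) (PT.nd (nat_lit 78) (PT.lf (nat_lit 40356) (nat_lit 6) (nat_lit 531) (nat_lit 3) (nat_lit 268) (nat_lit 239) (nat_lit 273)) (PT.lf (nat_lit 40432) (nat_lit 6) (nat_lit 532) (nat_lit 3) (nat_lit 269)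 (nat_lit 239) (nat_lit 272))) (PT.nd (nat_lit 78) (PT.lf (nat_lit 40508) (nat_lit 6) (nat_lit 533) (nat_lit 3) (nat_lit 270) (nat_lit 239) (nat_lit 271)) (PT.lf (nat_lit 40508) (nat_lit 6) (nat_lit 533) (nat_lit 1) (nat_lit 271) (nat_lit 239) (nat_lit 270))))))))
noncomputable def pc13 : PT := (PT.nd (nat_lit 81276) (PT.nd (nat_lit 80106) (PT.nd (nat_lit 546) (PT.nd (nat_lit 234) (PT.nd (nat_lit 78) (PT.lf (nat_lit 40432) (nat_lit 6) (nat_lit 532) (nat_lit 1) (nat_lit 272) (nat_lit 239) (nat_lit 269)) (PT.nd (nat_lit 78) (PT.lf (nat_lit 40356) (nat_lit 6) (nat_lit 531) (nat_lit 1) (nat_lit 273) (nat_lit 239) (nat_lit 268)) (PT.lf (nat_lit 40280) (nat_lit 6) (nat_lit 530) (nat_lit 1) (nat_lit 274) (nat_lit 239) (nat_lit 267)))) (PT.nd (nat_lit 156) (PT.nd (nat_lit 78) (PT.lf (nat_lit 40204) (nat_lit 6) (nat_lit 529) (nat_lit 1) (nat_lit 275) (nat_lit 239) (nat_lit 266)) (PT.lf (nat_lit 40128) (nat_lit 6) (nat_lit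 528) (nat_lit 1) (nat_lit 276) (nat_lit 239) (nat_lit 265))) (PT.nd (nat_lit 78) (PT.lf (nat_lit 40052) (nat_lit 6) (nat_lit 527) (nat_lit 1) (nat_lit 277) (nat_lit 239) (nat_lit 264)) (PT.lf (nat_lit 39976) (nat_lit 6) (nat_lit 526) (nat_lit 1) (nat_lit 278) (nat_lit 239) (nat_lit 263))))) (PT.nd (nat_lit 312) (PT.nd (nat_lit 156) (PT.nd (nat_lit 78) (PT.lf (nat_lit 39900) (nat_lit 6) (nat_lit 525) (nat_lit 1) (nat_lit 279) (nat_lit 239) (nat_lit 262)) (PT.lf (nat_lit 39824) (nat_lit 6) (nat_lit 524) (nat_lit 1) (nat_lit 280) (nat_lit 239) (nat_lit 261))) (PT.nd (nat_lit 78) (PT.lf (nat_lit 39748) (nat_lit 6) (nat_lit 523) (nat_lit 1) (nat_lit 281) (nat_lit 239) (nat_lit 260)) (PT.lf (nat_lit 38000) (nat_lit 6) (nat_lit 500) (nat_lit 1) (nat_lit 282) (nat_lit 239) (nat_lit 259)))) (PT.nd (nat_lit 79092) (PT.nd (nat_lit 78) (PT.lf (nat_lit 36176) (nat_lit 6) (nat_lit 476) (nat_lit 1) (nat_lit 283) (nat_lit 239)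 (nat_lit 258)) (PT.lf (nat_lit 34276) (nat_lit 6) (nat_lit 451) (nat_lit 1) (nat_lit 284) (nat_lit 239) (nat_lit 257))) (PT.nd (nat_lit 78) (PT.lf (nat_lit 34200) (nat_lit 6) (nat_lit 450) (nat_lit 3) (nat_lit 256) (nat_lit 240) (nat_lit 284)) (PT.lf (nat_lit 36100) (nat_lit 6) (nat_lit 475) (nat_lit 3) (nat_lit 257) (nat_lit 240) (nat_lit 283)))))) (PT.nd (nat_lit 546) (PT.nd (nat_lit 234) (PT.nd (nat_lit 78) (PT.lf (nat_lit 37924) (nat_lit 6) (nat_lit 499) (nat_lit 3) (nat_lit 258) (nat_lit 240) (nat_lit 282)) (PT.nd (nat_lit 78) (PT.lf (nat_lit 39672) (nat_lit 6) (nat_lit 522) (nat_lit 3) (nat_lit 259) (nat_lit 240) (nat_lit 281)) (PT.lf (nat_lit 41344) (nat_lit 6) (nat_lit 544) (nat_lit 3) (nat_lit 260) (nat_lit 240) (nat_lit 280)))) (PT.nd (nat_lit 156) (PT.nd (nat_lit 78) (PT.lf (nat_lit 41420) (nat_lit 6) (nat_lit 545) (nat_lit 3) (nat_lit 261) (nat_lit 240) (nat_lit 279)) (PT.lf (nat_lit 41496) (nat_lit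 6) (nat_lit 546) (nat_lit 3) (nat_lit 262) (nat_lit 240) (nat_lit 278))) (PT.nd (nat_lit 78) (PT.lf (nat_lit 41572) (nat_lit 6) (nat_lit 547) (nat_lit 3) (nat_lit 263) (nat_lit 240) (nat_lit 277)) (PT.lf (nat_lit 41648) (nat_lit 6) (nat_lit 548) (nat_lit 3) (nat_lit 264) (nat_lit 240) (nat_lit 276))))) (PT.nd (nat_lit 312) (PT.nd (nat_lit 156) (PT.nd (nat_lit 78) (PT.lf (nat_lit 41724) (nat_lit 6) (nat_lit 549) (nat_lit 3) (nat_lit 265) (nat_lit 240) (nat_lit 275)) (PT.lf (nat_lit 41800) (nat_lit 6) (nat_lit 550) (nat_lit 3) (nat_lit 266) (nat_lit 240) (nat_lit 274))) (PT.nd (nat_lit 78) (PT.lf (nat_lit 41876) (nat_lit 6) (nat_lit 551) (nat_lit 3) (nat_lit 267) (nat_lit 240) (nat_lit 273)) (PT.lf (nat_lit 41952) (nat_lit 6) (nat_lit 552) (nat_lit 3) (nat_lit 268) (nat_lit 240) (nat_lit 272)))) (PT.nd (nat_lit 156) (PT.nd (nat_lit 78) (PT.lf (nat_lit 42028) (nat_lit 6) (nat_lit 553) (nat_lit 3) (nat_lit 269) (nat_lit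 240) (nat_lit 271)) (PT.lf (nat_lit 42104) (nat_lit 3) (nat_lit 554) (nat_lit 1) (nat_lit 270) (nat_lit 240) (nat_lit 270))) (PT.nd (nat_lit 78) (PT.lf (nat_lit 42028) (nat_lit 6) (nat_lit 553) (nat_lit 1) (nat_lit 271) (nat_lit 240) (nat_lit 269)) (PT.lf (nat_lit 41952) (nat_lit 6) (nat_lit 552) (nat_lit 1) (nat_lit 272) (nat_lit 240) (nat_lit 268))))))) (PT.nd (nat_lit 80028) (PT.nd (nat_lit 546) (PT.nd (nat_lit 234) (PT.nd (nat_lit 78) (PT.lf (nat_lit 41876) (nat_lit 6) (nat_lit 551) (nat_lit 1) (nat_lit 273) (nat_lit 240) (nat_lit 267)) (PT.nd (nat_lit 78) (PT.lf (nat_lit 41800) (nat_lit 6) (nat_lit 550) (nat_lit 1) (nat_lit 274) (nat_lit 240) (nat_lit 266)) (PT.lf (nat_lit 41724) (nat_lit 6) (nat_lit 549) (nat_lit 1) (nat_lit 275) (nat_lit 240) (nat_lit 265)))) (PT.nd (nat_lit 156) (PT.nd (nat_lit 78) (PT.lf (nat_lit 41648) (nat_lit 6) (nat_lit 548) (nat_lit 1) (nat_lit 276) (nat_lit 240) (nat_lit 264)) (PT.lf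 (nat_lit 41572) (nat_lit 6) (nat_lit 547) (nat_lit 1) (nat_lit 277) (nat_lit 240) (nat_lit 263))) (PT.nd (nat_lit 78) (PT.lf (nat_lit 41496) (nat_lit 6) (nat_lit 546) (nat_lit 1) (nat_lit 278) (nat_lit 240) (nat_lit 262)) (PT.lf (nat_lit 41420) (nat_lit 6) (nat_lit 545) (nat_lit 1) (nat_lit 279) (nat_lit 240) (nat_lit 261))))) (PT.nd (nat_lit 312) (PT.nd (nat_lit 156) (PT.nd (nat_lit 78) (PT.lf (nat_lit 41344) (nat_lit 6) (nat_lit 544) (nat_lit 1) (nat_lit 280) (nat_lit 240) (nat_lit 260)) (PT.lf (nat_lit 39672) (nat_lit 6) (nat_lit 522) (nat_lit 1) (nat_lit 281) (nat_lit 240) (nat_lit 259))) (PT.nd (nat_lit 78) (PT.lf (nat_lit 37924) (nat_lit 6) (nat_lit 499) (nat_lit 1) (nat_lit 282) (nat_lit 240) (nat_lit 258)) (PT.lf (nat_lit 36100) (nat_lit 6) (nat_lit 475) (nat_lit 1) (nat_lit 283) (nat_lit 240) (nat_lit 257)))) (PT.nd (nat_lit 79014) (PT.nd (nat_lit 78936) (PT.lf (nat_lit 34200) (nat_lit 6) (nat_lit 450)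 (nat_lit 1) (nat_lit 284) (nat_lit 240) (nat_lit 256)) (PT.lf (nat_lit 34124) (nat_lit 6) (nat_lit 449) (nat_lit 3) (nat_lit 255) (nat_lit 241) (nat_lit 284))) (PT.nd (nat_lit 78) (PT.lf (nat_lit 36024) (nat_lit 6) (nat_lit 474) (nat_lit 3) (nat_lit 256) (nat_lit 241) (nat_lit 283)) (PT.lf (nat_lit 37848) (nat_lit 6) (nat_lit 498) (nat_lit 3) (nat_lit 257) (nat_lit 241) (nat_lit 282)))))) (PT.nd (nat_lit 546) (PT.nd (nat_lit 234) (PT.nd (nat_lit 78) (PT.lf (nat_lit 39596) (nat_lit 6) (nat_lit 521) (nat_lit 3) (nat_lit 258) (nat_lit 241) (nat_lit 281)) (PT.nd (nat_lit 78) (PT.lf (nat_lit 41268) (nat_lit 6) (nat_lit 543) (nat_lit 3) (nat_lit 259) (nat_lit 241) (nat_lit 280)) (PT.lf (nat_lit 42864) (nat_lit 6) (nat_lit 564) (nat_lit 3) (nat_lit 260) (nat_lit 241) (nat_lit 279)))) (PT.nd (nat_lit 156) (PT.nd (nat_lit 78) (PT.lf (nat_lit 42940) (nat_lit 6) (nat_lit 565) (nat_lit 3) (nat_lit 261) (nat_lit 241) (nat_lit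 278)) (PT.lf (nat_lit 43016) (nat_lit 6) (nat_lit 566) (nat_lit 3) (nat_lit 262) (nat_lit 241) (nat_lit 277))) (PT.nd (nat_lit 78) (PT.lf (nat_lit 43092) (nat_lit 6) (nat_lit 567) (nat_lit 3) (nat_lit 263) (nat_lit 241) (nat_lit 276)) (PT.lf (nat_lit 43168) (nat_lit 6) (nat_lit 568) (nat_lit 3) (nat_lit 264) (nat_lit 241) (nat_lit 275))))) (PT.nd (nat_lit 312) (PT.nd (nat_lit 156) (PT.nd (nat_lit 78) (PT.lf (nat_lit 43244) (nat_lit 6) (nat_lit 569) (nat_lit 3) (nat_lit 265) (nat_lit 241) (nat_lit 274)) (PT.lf (nat_lit 43320) (nat_lit 6) (nat_lit 570) (nat_lit 3) (nat_lit 266) (nat_lit 241) (nat_lit 273))) (PT.nd (nat_lit 78) (PT.lf (nat_lit 43396) (nat_lit 6) (nat_lit 571) (nat_lit 3) (nat_lit 267) (nat_lit 241) (nat_lit 272)) (PT.lf (nat_lit 43472) (nat_lit 6) (nat_lit 572) (nat_lit 3) (nat_lit 268) (nat_lit 241) (nat_lit 271)))) (PT.nd (nat_lit 156) (PT.nd (nat_lit 78) (PT.lf (nat_lit 43548) (nat_lit 6) (nat_lit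 573) (nat_lit 3) (nat_lit 269) (nat_lit 241) (nat_lit 270)) (PT.lf (nat_lit 43548) (nat_lit 6) (nat_lit 573) (nat_lit 1) (nat_lit 270) (nat_lit 241) (nat_lit 269))) (PT.nd (nat_lit 78) (PT.lf (nat_lit 43472) (nat_lit 6) (nat_lit 572) (nat_lit 1) (nat_lit 271) (nat_lit 241) (nat_lit 268)) (PT.lf (nat_lit 43396) (nat_lit 6) (nat_lit 571) (nat_lit 1) (nat_lit 272) (nat_lit 241) (nat_lit 267))))))))
noncomputable def pc14 : PT := (PT.nd (nat_lit 81120) (PT.nd (nat_lit 79950) (PT.nd (nat_lit 546) (PT.nd (nat_lit 234) (PT.nd (nat_lit 78) (PT.lf (nat_lit 43320) (nat_lit 6) (nat_lit 570) (nat_lit 1) (nat_lit 273) (nat_lit 241) (nat_lit 266)) (PT.nd (nat_lit 78) (PT.lf (nat_lit 43244) (nat_lit 6) (nat_lit 569) (nat_lit 1) (nat_lit 274) (nat_lit 241) (nat_lit 265)) (PT.lf (nat_lit 43168) (nat_lit 6) (nat_lit 568) (nat_lit 1) (nat_lit 275) (nat_lit 241) (nat_lit 264)))) (PT.nd (nat_lit 156) (PT.nd (nat_lit 78) (PT.lf (nat_lit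 43092) (nat_lit 6) (nat_lit 567) (nat_lit 1) (nat_lit 276) (nat_lit 241) (nat_lit 263)) (PT.lf (nat_lit 43016) (nat_lit 6) (nat_lit 566) (nat_lit 1) (nat_lit 277) (nat_lit 241) (nat_lit 262))) (PT.nd (nat_lit 78) (PT.lf (nat_lit 42940) (nat_lit 6) (nat_lit 565) (nat_lit 1) (nat_lit 278) (nat_lit 241) (nat_lit 261)) (PT.lf (nat_lit 42864) (nat_lit 6) (nat_lit 564) (nat_lit 1) (nat_lit 279) (nat_lit 241) (nat_lit 260))))) (PT.nd (nat_lit 312) (PT.nd (nat_lit 156) (PT.nd (nat_lit 78) (PT.lf (nat_lit 41268) (nat_lit 6) (nat_lit 543) (nat_lit 1) (nat_lit 280) (nat_lit 241) (nat_lit 259)) (PT.lf (nat_lit 39596) (nat_lit 6) (nat_lit 521) (nat_lit 1) (nat_lit 281) (nat_lit 241) (nat_lit 258))) (PT.nd (nat_lit 78) (PT.lf (nat_lit 37848) (nat_lit 6) (nat_lit 498) (nat_lit 1) (nat_lit 282) (nat_lit 241) (nat_lit 257)) (PT.lf (nat_lit 36024) (nat_lit 6) (nat_lit 474) (nat_lit 1) (nat_lit 283) (nat_lit 241) (nat_lit 256))))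 (PT.nd (nat_lit 78936) (PT.nd (nat_lit 78858) (PT.lf (nat_lit 34124) (nat_lit 6) (nat_lit 449) (nat_lit 1) (nat_lit 284) (nat_lit 241) (nat_lit 255)) (PT.lf (nat_lit 34048) (nat_lit 6) (nat_lit 448) (nat_lit 3) (nat_lit 254) (nat_lit 242) (nat_lit 284))) (PT.nd (nat_lit 78) (PT.lf (nat_lit 35948) (nat_lit 6) (nat_lit 473) (nat_lit 3) (nat_lit 255) (nat_lit 242) (nat_lit 283)) (PT.lf (nat_lit 37772) (nat_lit 6) (nat_lit 497) (nat_lit 3) (nat_lit 256) (nat_lit 242) (nat_lit 282)))))) (PT.nd (nat_lit 546) (PT.nd (nat_lit 234) (PT.nd (nat_lit 78) (PT.lf (nat_lit 39520) (nat_lit 6) (nat_lit 520) (nat_lit 3) (nat_lit 257) (nat_lit 242) (nat_lit 281)) (PT.nd (nat_lit 78) (PT.lf (nat_lit 41192) (nat_lit 6) (nat_lit 542) (nat_lit 3) (nat_lit 258) (nat_lit 242) (nat_lit 280)) (PT.lf (nat_lit 42788) (nat_lit 6) (nat_lit 563) (nat_lit 3) (nat_lit 259) (nat_lit 242) (nat_lit 279)))) (PT.nd (nat_lit 156) (PT.nd (nat_lit 78)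 (PT.lf (nat_lit 44308) (nat_lit 6) (nat_lit 583) (nat_lit 3) (nat_lit 260) (nat_lit 242) (nat_lit 278)) (PT.lf (nat_lit 44384) (nat_lit 6) (nat_lit 584) (nat_lit 3) (nat_lit 261) (nat_lit 242) (nat_lit 277))) (PT.nd (nat_lit 78) (PT.lf (nat_lit 44460) (nat_lit 6) (nat_lit 585) (nat_lit 3) (nat_lit 262) (nat_lit 242) (nat_lit 276)) (PT.lf (nat_lit 44536) (nat_lit 6) (nat_lit 586) (nat_lit 3) (nat_lit 263) (nat_lit 242) (nat_lit 275))))) (PT.nd (nat_lit 312) (PT.nd (nat_lit 156) (PT.nd (nat_lit 78) (PT.lf (nat_lit 44612) (nat_lit 6) (nat_lit 587) (nat_lit 3) (nat_lit 264) (nat_lit 242) (nat_lit 274)) (PT.lf (nat_lit 44688) (nat_lit 6) (nat_lit 588) (nat_lit 3) (nat_lit 265) (nat_lit 242) (nat_lit 273))) (PT.nd (nat_lit 78) (PT.lf (nat_lit 44764) (nat_lit 6) (nat_lit 589) (nat_lit 3) (nat_lit 266) (nat_lit 242) (nat_lit 272)) (PT.lf (nat_lit 44840) (nat_lit 6) (nat_lit 590) (nat_lit 3) (nat_lit 267) (nat_lit 242)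 (nat_lit 271)))) (PT.nd (nat_lit 156) (PT.nd (nat_lit 78) (PT.lf (nat_lit 44916) (nat_lit 6) (nat_lit 591) (nat_lit 3) (nat_lit 268) (nat_lit 242) (nat_lit 270)) (PT.lf (nat_lit 44992) (nat_lit 3) (nat_lit 592) (nat_lit 1) (nat_lit 269) (nat_lit 242) (nat_lit 269))) (PT.nd (nat_lit 78) (PT.lf (nat_lit 44916) (nat_lit 6) (nat_lit 591) (nat_lit 1) (nat_lit 270) (nat_lit 242) (nat_lit 268)) (PT.lf (nat_lit 44840) (nat_lit 6) (nat_lit 590) (nat_lit 1) (nat_lit 271) (nat_lit 242) (nat_lit 267))))))) (PT.nd (nat_lit 79872) (PT.nd (nat_lit 546) (PT.nd (nat_lit 234) (PT.nd (nat_lit 78) (PT.lf (nat_lit 44764) (nat_lit 6) (nat_lit 589) (nat_lit 1) (nat_lit 272) (nat_lit 242) (nat_lit 266)) (PT.nd (nat_lit 78) (PT.lf (nat_lit 44688) (nat_lit 6) (nat_lit 588) (nat_lit 1) (nat_lit 273) (nat_lit 242) (nat_lit 265)) (PT.lf (nat_lit 44612) (nat_lit 6) (nat_lit 587) (nat_lit 1) (nat_lit 274) (nat_lit 242) (nat_lit 264)))) (PT.nd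 (nat_lit 156) (PT.nd (nat_lit 78) (PT.lf (nat_lit 44536) (nat_lit 6) (nat_lit 586) (nat_lit 1) (nat_lit 275) (nat_lit 242) (nat_lit 263)) (PT.lf (nat_lit 44460) (nat_lit 6) (nat_lit 585) (nat_lit 1) (nat_lit 276) (nat_lit 242) (nat_lit 262))) (PT.nd (nat_lit 78) (PT.lf (nat_lit 44384) (nat_lit 6) (nat_lit 584) (nat_lit 1) (nat_lit 277) (nat_lit 242) (nat_lit 261)) (PT.lf (nat_lit 44308) (nat_lit 6) (nat_lit 583) (nat_lit 1) (nat_lit 278) (nat_lit 242) (nat_lit 260))))) (PT.nd (nat_lit 312) (PT.nd (nat_lit 156) (PT.nd (nat_lit 78) (PT.lf (nat_lit 42788) (nat_lit 6) (nat_lit 563) (nat_lit 1) (nat_lit 279) (nat_lit 242) (nat_lit 259)) (PT.lf (nat_lit 41192) (nat_lit 6) (nat_lit 542) (nat_lit 1) (nat_lit 280) (nat_lit 242) (nat_lit 258))) (PT.nd (nat_lit 78) (PT.lf (nat_lit 39520) (nat_lit 6) (nat_lit 520) (nat_lit 1) (nat_lit 281) (nat_lit 242) (nat_lit 257)) (PT.lf (nat_lit 37772) (nat_lit 6) (nat_lit 497) (nat_lit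 1) (nat_lit 282) (nat_lit 242) (nat_lit 256)))) (PT.nd (nat_lit 78858) (PT.nd (nat_lit 78) (PT.lf (nat_lit 35948) (nat_lit 6) (nat_lit 473) (nat_lit 1) (nat_lit 283) (nat_lit 242) (nat_lit 255)) (PT.lf (nat_lit 34048) (nat_lit 6) (nat_lit 448) (nat_lit 1) (nat_lit 284) (nat_lit 242) (nat_lit 254))) (PT.nd (nat_lit 78) (PT.lf (nat_lit 33972) (nat_lit 6) (nat_lit 447) (nat_lit 3) (nat_lit 253) (nat_lit 243) (nat_lit 284)) (PT.lf (nat_lit 35872) (nat_lit 6) (nat_lit 472) (nat_lit 3) (nat_lit 254) (nat_lit 243) (nat_lit 283)))))) (PT.nd (nat_lit 546) (PT.nd (nat_lit 234) (PT.nd (nat_lit 78) (PT.lf (nat_lit 37696) (nat_lit 6) (nat_lit 496) (nat_lit 3) (nat_lit 255) (nat_lit 243) (nat_lit 282)) (PT.nd (nat_lit 78) (PT.lf (nat_lit 39444) (nat_lit 6) (nat_lit 519) (nat_lit 3) (nat_lit 256) (nat_lit 243) (nat_lit 281)) (PT.lf (nat_lit 41116) (nat_lit 6) (nat_lit 541) (nat_lit 3) (nat_lit 257) (nat_lit 243) (nat_lit 280))))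 (PT.nd (nat_lit 156) (PT.nd (nat_lit 78) (PT.lf (nat_lit 42712) (nat_lit 6) (nat_lit 562) (nat_lit 3) (nat_lit 258) (nat_lit 243) (nat_lit 279)) (PT.lf (nat_lit 44232) (nat_lit 6) (nat_lit 582) (nat_lit 3) (nat_lit 259) (nat_lit 243) (nat_lit 278))) (PT.nd (nat_lit 78) (PT.lf (nat_lit 45676) (nat_lit 6) (nat_lit 601) (nat_lit 3) (nat_lit 260) (nat_lit 243) (nat_lit 277)) (PT.lf (nat_lit 45752) (nat_lit 6) (nat_lit 602) (nat_lit 3) (nat_lit 261) (nat_lit 243) (nat_lit 276))))) (PT.nd (nat_lit 312) (PT.nd (nat_lit 156) (PT.nd (nat_lit 78) (PT.lf (nat_lit 45828) (nat_lit 6) (nat_lit 603) (nat_lit 3) (nat_lit 262) (nat_lit 243) (nat_lit 275)) (PT.lf (nat_lit 45904) (nat_lit 6) (nat_lit 604) (nat_lit 3) (nat_lit 263) (nat_lit 243) (nat_lit 274))) (PT.nd (nat_lit 78) (PT.lf (nat_lit 45980) (nat_lit 6) (nat_lit 605) (nat_lit 3) (nat_lit 264) (nat_lit 243) (nat_lit 273)) (PT.lf (nat_lit 46056) (nat_lit 6) (nat_lit 606)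 (nat_lit 3) (nat_lit 265) (nat_lit 243) (nat_lit 272)))) (PT.nd (nat_lit 156) (PT.nd (nat_lit 78) (PT.lf (nat_lit 46132) (nat_lit 6) (nat_lit 607) (nat_lit 3) (nat_lit 266) (nat_lit 243) (nat_lit 271)) (PT.lf (nat_lit 46208) (nat_lit 6) (nat_lit 608) (nat_lit 3) (nat_lit 267) (nat_lit 243) (nat_lit 270))) (PT.nd (nat_lit 78) (PT.lf (nat_lit 46284) (nat_lit 6) (nat_lit 609) (nat_lit 3) (nat_lit 268) (nat_lit 243) (nat_lit 269)) (PT.lf (nat_lit 46284) (nat_lit 6) (nat_lit 609) (nat_lit 1) (nat_lit 269) (nat_lit 243) (nat_lit 268))))))))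
noncomputable def pc15 : PT := (PT.nd (nat_lit 80964) (PT.nd (nat_lit 79794) (PT.nd (nat_lit 546) (PT.nd (nat_lit 234) (PT.nd (nat_lit 78) (PT.lf (nat_lit 46208) (nat_lit 6) (nat_lit 608) (nat_lit 1) (nat_lit 270) (nat_lit 243) (nat_lit 267)) (PT.nd (nat_lit 78) (PT.lf (nat_lit 46132) (nat_lit 6) (nat_lit 607) (nat_lit 1) (nat_lit 271) (nat_lit 243) (nat_lit 266)) (PT.lf (nat_lit 46056) (nat_lit 6) (nat_lit 606) (nat_lit 1) (nat_lit 272) (nat_lit 243) (nat_lit 265)))) (PT.nd (nat_lit 156) (PT.nd (nat_lit 78) (PT.lf (nat_lit 45980) (nat_lit 6) (nat_lit 605) (nat_lit 1) (nat_lit 273) (nat_lit 243) (nat_lit 264)) (PT.lf (nat_lit 45904) (nat_lit 6) (nat_lit 604) (nat_lit 1) (nat_lit 274) (nat_lit 243) (nat_lit 263))) (PT.nd (nat_lit 78) (PT.lf (nat_lit 45828) (nat_lit 6) (nat_lit 603) (nat_lit 1) (nat_lit 275) (nat_lit 243) (nat_lit 262)) (PT.lf (nat_lit 45752) (nat_lit 6) (nat_lit 602) (nat_lit 1) (nat_lit 276) (nat_lit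 243) (nat_lit 261))))) (PT.nd (nat_lit 312) (PT.nd (nat_lit 156) (PT.nd (nat_lit 78) (PT.lf (nat_lit 45676) (nat_lit 6) (nat_lit 601) (nat_lit 1) (nat_lit 277) (nat_lit 243) (nat_lit 260)) (PT.lf (nat_lit 44232) (nat_lit 6) (nat_lit 582) (nat_lit 1) (nat_lit 278) (nat_lit 243) (nat_lit 259))) (PT.nd (nat_lit 78) (PT.lf (nat_lit 42712) (nat_lit 6) (nat_lit 562) (nat_lit 1) (nat_lit 279) (nat_lit 243) (nat_lit 258)) (PT.lf (nat_lit 41116) (nat_lit 6) (nat_lit 541) (nat_lit 1) (nat_lit 280) (nat_lit 243) (nat_lit 257)))) (PT.nd (nat_lit 156) (PT.nd (nat_lit 78) (PT.lf (nat_lit 39444) (nat_lit 6) (nat_lit 519) (nat_lit 1) (nat_lit 281) (nat_lit 243) (nat_lit 256)) (PT.lf (nat_lit 37696) (nat_lit 6) (nat_lit 496) (nat_lit 1) (nat_lit 282) (nat_lit 243) (nat_lit 255))) (PT.nd (nat_lit 78) (PT.lf (nat_lit 35872) (nat_lit 6) (nat_lit 472) (nat_lit 1) (nat_lit 283) (nat_lit 243) (nat_lit 254)) (PT.lf (nat_lit 33972) (nat_lit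 6) (nat_lit 447) (nat_lit 1) (nat_lit 284) (nat_lit 243) (nat_lit 253)))))) (PT.nd (nat_lit 546) (PT.nd (nat_lit 234) (PT.nd (nat_lit 78) (PT.lf (nat_lit 33896) (nat_lit 6) (nat_lit 446) (nat_lit 3) (nat_lit 252) (nat_lit 244) (nat_lit 284)) (PT.nd (nat_lit 78) (PT.lf (nat_lit 35796) (nat_lit 6) (nat_lit 471) (nat_lit 3) (nat_lit 253) (nat_lit 244) (nat_lit 283)) (PT.lf (nat_lit 37620) (nat_lit 6) (nat_lit 495) (nat_lit 3) (nat_lit 254) (nat_lit 244) (nat_lit 282)))) (PT.nd (nat_lit 156) (PT.nd (nat_lit 78) (PT.lf (nat_lit 39368) (nat_lit 6) (nat_lit 518) (nat_lit 3) (nat_lit 255) (nat_lit 244) (nat_lit 281)) (PT.lf (nat_lit 41040) (nat_lit 6) (nat_lit 540) (nat_lit 3) (nat_lit 256) (nat_lit 244) (nat_lit 280))) (PT.nd (nat_lit 78) (PT.lf (nat_lit 42636) (nat_lit 6) (nat_lit 561) (nat_lit 3) (nat_lit 257) (nat_lit 244) (nat_lit 279)) (PT.lf (nat_lit 44156) (nat_lit 6) (nat_lit 581) (nat_lit 3) (nat_lit 258) (nat_lit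 244) (nat_lit 278))))) (PT.nd (nat_lit 312) (PT.nd (nat_lit 156) (PT.nd (nat_lit 78) (PT.lf (nat_lit 45600) (nat_lit 6) (nat_lit 600) (nat_lit 3) (nat_lit 259) (nat_lit 244) (nat_lit 277)) (PT.lf (nat_lit 46968) (nat_lit 6) (nat_lit 618) (nat_lit 3) (nat_lit 260) (nat_lit 244) (nat_lit 276))) (PT.nd (nat_lit 78) (PT.lf (nat_lit 47044) (nat_lit 6) (nat_lit 619) (nat_lit 3) (nat_lit 261) (nat_lit 244) (nat_lit 275)) (PT.lf (nat_lit 47120) (nat_lit 6) (nat_lit 620) (nat_lit 3) (nat_lit 262) (nat_lit 244) (nat_lit 274)))) (PT.nd (nat_lit 156) (PT.nd (nat_lit 78) (PT.lf (nat_lit 47196) (nat_lit 6) (nat_lit 621) (nat_lit 3) (nat_lit 263) (nat_lit 244) (nat_lit 273)) (PT.lf (nat_lit 47272) (nat_lit 6) (nat_lit 622) (nat_lit 3) (nat_lit 264) (nat_lit 244) (nat_lit 272))) (PT.nd (nat_lit 78) (PT.lf (nat_lit 47348) (nat_lit 6) (nat_lit 623) (nat_lit 3) (nat_lit 265) (nat_lit 244) (nat_lit 271)) (PT.lf (nat_lit 47424) (nat_lit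 6) (nat_lit 624) (nat_lit 3) (nat_lit 266) (nat_lit 244) (nat_lit 270))))))) (PT.nd (nat_lit 1170) (PT.nd (nat_lit 546) (PT.nd (nat_lit 234) (PT.nd (nat_lit 78) (PT.lf (nat_lit 47500) (nat_lit 6) (nat_lit 625) (nat_lit 3) (nat_lit 267) (nat_lit 244) (nat_lit 269)) (PT.nd (nat_lit 78) (PT.lf (nat_lit 47576) (nat_lit 3) (nat_lit 626) (nat_lit 1) (nat_lit 268) (nat_lit 244) (nat_lit 268)) (PT.lf (nat_lit 47500) (nat_lit 6) (nat_lit 625) (nat_lit 1) (nat_lit 269) (nat_lit 244) (nat_lit 267)))) (PT.nd (nat_lit 156) (PT.nd (nat_lit 78) (PT.lf (nat_lit 47424) (nat_lit 6) (nat_lit 624) (nat_lit 1) (nat_lit 270) (nat_lit 244) (nat_lit 266)) (PT.lf (nat_lit 47348) (nat_lit 6) (nat_lit 623) (nat_lit 1) (nat_lit 271) (nat_lit 244) (nat_lit 265))) (PT.nd (nat_lit 78) (PT.lf (nat_lit 47272) (nat_lit 6) (nat_lit 622) (nat_lit 1) (nat_lit 272) (nat_lit 244) (nat_lit 264)) (PT.lf (nat_lit 47196) (nat_lit 6) (nat_lit 621) (nat_lit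 1) (nat_lit 273) (nat_lit 244) (nat_lit 263))))) (PT.nd (nat_lit 312) (PT.nd (nat_lit 156) (PT.nd (nat_lit 78) (PT.lf (nat_lit 47120) (nat_lit 6) (nat_lit 620) (nat_lit 1) (nat_lit 274) (nat_lit 244) (nat_lit 262)) (PT.lf (nat_lit 47044) (nat_lit 6) (nat_lit 619) (nat_lit 1) (nat_lit 275) (nat_lit 244) (nat_lit 261))) (PT.nd (nat_lit 78) (PT.lf (nat_lit 46968) (nat_lit 6) (nat_lit 618) (nat_lit 1) (nat_lit 276) (nat_lit 244) (nat_lit 260)) (PT.lf (nat_lit 45600) (nat_lit 6) (nat_lit 600) (nat_lit 1) (nat_lit 277) (nat_lit 244) (nat_lit 259)))) (PT.nd (nat_lit 156) (PT.nd (nat_lit 78) (PT.lf (nat_lit 44156) (nat_lit 6) (nat_lit 581) (nat_lit 1) (nat_lit 278) (nat_lit 244) (nat_lit 258)) (PT.lf (nat_lit 42636) (nat_lit 6) (nat_lit 561) (nat_lit 1) (nat_lit 279) (nat_lit 244) (nat_lit 257))) (PT.nd (nat_lit 78) (PT.lf (nat_lit 41040) (nat_lit 6) (nat_lit 540) (nat_lit 1) (nat_lit 280) (nat_lit 244) (nat_lit 256))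 (PT.lf (nat_lit 39368) (nat_lit 6) (nat_lit 518) (nat_lit 1) (nat_lit 281) (nat_lit 244) (nat_lit 255)))))) (PT.nd (nat_lit 79170) (PT.nd (nat_lit 78858) (PT.nd (nat_lit 156) (PT.nd (nat_lit 78) (PT.lf (nat_lit 37620) (nat_lit 6) (nat_lit 495) (nat_lit 1) (nat_lit 282) (nat_lit 244) (nat_lit 254)) (PT.lf (nat_lit 35796) (nat_lit 6) (nat_lit 471) (nat_lit 1) (nat_lit 283) (nat_lit 244) (nat_lit 253))) (PT.nd (nat_lit 78624) (PT.lf (nat_lit 33896) (nat_lit 6) (nat_lit 446) (nat_lit 1) (nat_lit 284) (nat_lit 244) (nat_lit 252)) (PT.lf (nat_lit 33820) (nat_lit 6) (nat_lit 445) (nat_lit 3) (nat_lit 251) (nat_lit 245) (nat_lit 284)))) (PT.nd (nat_lit 156) (PT.nd (nat_lit 78) (PT.lf (nat_lit 35720) (nat_lit 6) (nat_lit 470) (nat_lit 3) (nat_lit 252) (nat_lit 245) (nat_lit 283)) (PT.lf (nat_lit 37544) (nat_lit 6) (nat_lit 494) (nat_lit 3) (nat_lit 253) (nat_lit 245) (nat_lit 282))) (PT.nd (nat_lit 78) (PT.lf (nat_lit 39292)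 (nat_lit 6) (nat_lit 517) (nat_lit 3) (nat_lit 254) (nat_lit 245) (nat_lit 281)) (PT.lf (nat_lit 40964) (nat_lit 6) (nat_lit 539) (nat_lit 3) (nat_lit 255) (nat_lit 245) (nat_lit 280))))) (PT.nd (nat_lit 312) (PT.nd (nat_lit 156) (PT.nd (nat_lit 78) (PT.lf (nat_lit 42560) (nat_lit 6) (nat_lit 560) (nat_lit 3) (nat_lit 256) (nat_lit 245) (nat_lit 279)) (PT.lf (nat_lit 44080) (nat_lit 6) (nat_lit 580) (nat_lit 3) (nat_lit 257) (nat_lit 245) (nat_lit 278))) (PT.nd (nat_lit 78) (PT.lf (nat_lit 45524) (nat_lit 6) (nat_lit 599) (nat_lit 3) (nat_lit 258) (nat_lit 245) (nat_lit 277)) (PT.lf (nat_lit 46892) (nat_lit 6) (nat_lit 617) (nat_lit 3) (nat_lit 259) (nat_lit 245) (nat_lit 276)))) (PT.nd (nat_lit 156) (PT.nd (nat_lit 78) (PT.lf (nat_lit 48184) (nat_lit 6) (nat_lit 634) (nat_lit 3) (nat_lit 260) (nat_lit 245) (nat_lit 275)) (PT.lf (nat_lit 48260) (nat_lit 6) (nat_lit 635) (nat_lit 3) (nat_lit 261) (nat_lit 245) (nat_lit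 274))) (PT.nd (nat_lit 78) (PT.lf (nat_lit 48336) (nat_lit 6) (nat_lit 636) (nat_lit 3) (nat_lit 262) (nat_lit 245) (nat_lit 273)) (PT.lf (nat_lit 48412) (nat_lit 6) (nat_lit 637) (nat_lit 3) (nat_lit 263) (nat_lit 245) (nat_lit 272))))))))
noncomputable def pc16 : PT := (PT.nd (nat_lit 80886) (PT.nd (nat_lit 1170) (PT.nd (nat_lit 546) (PT.nd (nat_lit 234) (PT.nd (nat_lit 78) (PT.lf (nat_lit 48488) (nat_lit 6) (nat_lit 638) (nat_lit 3) (nat_lit 264) (nat_lit 245) (nat_lit 271)) (PT.nd (nat_lit 78) (PT.lf (nat_lit 48564) (nat_lit 6) (nat_lit 639) (nat_lit 3) (nat_lit 265) (nat_lit 245) (nat_lit 270)) (PT.lf (nat_lit 48640) (nat_lit 6) (nat_lit 640) (nat_lit 3) (nat_lit 266) (nat_lit 245) (nat_lit 269)))) (PT.nd (nat_lit 156) (PT.nd (nat_lit 78) (PT.lf (nat_lit 48716) (nat_lit 6) (nat_lit 641) (nat_lit 3) (nat_lit 267) (nat_lit 245) (nat_lit 268)) (PT.lf (nat_lit 48716) (nat_lit 6) (nat_lit 641) (nat_lit 1) (nat_lit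 268) (nat_lit 245) (nat_lit 267))) (PT.nd (nat_lit 78) (PT.lf (nat_lit 48640) (nat_lit 6) (nat_lit 640) (nat_lit 1) (nat_lit 269) (nat_lit 245) (nat_lit 266)) (PT.lf (nat_lit 48564) (nat_lit 6) (nat_lit 639) (nat_lit 1) (nat_lit 270) (nat_lit 245) (nat_lit 265))))) (PT.nd (nat_lit 312) (PT.nd (nat_lit 156) (PT.nd (nat_lit 78) (PT.lf (nat_lit 48488) (nat_lit 6) (nat_lit 638) (nat_lit 1) (nat_lit 271) (nat_lit 245) (nat_lit 264)) (PT.lf (nat_lit 48412) (nat_lit 6) (nat_lit 637) (nat_lit 1) (nat_lit 272) (nat_lit 245) (nat_lit 263))) (PT.nd (nat_lit 78) (PT.lf (nat_lit 48336) (nat_lit 6) (nat_lit 636) (nat_lit 1) (nat_lit 273) (nat_lit 245) (nat_lit 262)) (PT.lf (nat_lit 48260) (nat_lit 6) (nat_lit 635) (nat_lit 1) (nat_lit 274) (nat_lit 245) (nat_lit 261)))) (PT.nd (nat_lit 156) (PT.nd (nat_lit 78) (PT.lf (nat_lit 48184) (nat_lit 6) (nat_lit 634) (nat_lit 1) (nat_lit 275) (nat_lit 245) (nat_lit 260)) (PT.lf (nat_lit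 46892) (nat_lit 6) (nat_lit 617) (nat_lit 1) (nat_lit 276) (nat_lit 245) (nat_lit 259))) (PT.nd (nat_lit 78) (PT.lf (nat_lit 45524) (nat_lit 6) (nat_lit 599) (nat_lit 1) (nat_lit 277) (nat_lit 245) (nat_lit 258)) (PT.lf (nat_lit 44080) (nat_lit 6) (nat_lit 580) (nat_lit 1) (nat_lit 278) (nat_lit 245) (nat_lit 257)))))) (PT.nd (nat_lit 79092) (PT.nd (nat_lit 234) (PT.nd (nat_lit 78) (PT.lf (nat_lit 42560) (nat_lit 6) (nat_lit 560) (nat_lit 1) (nat_lit 279) (nat_lit 245) (nat_lit 256)) (PT.nd (nat_lit 78) (PT.lf (nat_lit 40964) (nat_lit 6) (nat_lit 539) (nat_lit 1) (nat_lit 280) (nat_lit 245) (nat_lit 255)) (PT.lf (nat_lit 39292) (nat_lit 6) (nat_lit 517) (nat_lit 1) (nat_lit 281) (nat_lit 245) (nat_lit 254)))) (PT.nd (nat_lit 156) (PT.nd (nat_lit 78) (PT.lf (nat_lit 37544) (nat_lit 6) (nat_lit 494) (nat_lit 1) (nat_lit 282) (nat_lit 245) (nat_lit 253)) (PT.lf (nat_lit 35720) (nat_lit 6) (nat_lit 470) (nat_lit 1)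 (nat_lit 283) (nat_lit 245) (nat_lit 252))) (PT.nd (nat_lit 78624) (PT.lf (nat_lit 33820) (nat_lit 6) (nat_lit 445) (nat_lit 1) (nat_lit 284) (nat_lit 245) (nat_lit 251)) (PT.lf (nat_lit 35644) (nat_lit 6) (nat_lit 469) (nat_lit 3) (nat_lit 251) (nat_lit 246) (nat_lit 283))))) (PT.nd (nat_lit 312) (PT.nd (nat_lit 156) (PT.nd (nat_lit 78) (PT.lf (nat_lit 37468) (nat_lit 6) (nat_lit 493) (nat_lit 3) (nat_lit 252) (nat_lit 246) (nat_lit 282)) (PT.lf (nat_lit 39216) (nat_lit 6) (nat_lit 516) (nat_lit 3) (nat_lit 253) (nat_lit 246) (nat_lit 281))) (PT.nd (nat_lit 78) (PT.lf (nat_lit 40888) (nat_lit 6) (nat_lit 538) (nat_lit 3) (nat_lit 254) (nat_lit 246) (nat_lit 280)) (PT.lf (nat_lit 42484) (nat_lit 6) (nat_lit 559) (nat_lit 3) (nat_lit 255) (nat_lit 246) (nat_lit 279)))) (PT.nd (nat_lit 156) (PT.nd (nat_lit 78) (PT.lf (nat_lit 44004) (nat_lit 6) (nat_lit 579) (nat_lit 3) (nat_lit 256) (nat_lit 246) (nat_lit 278))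 (PT.lf (nat_lit 45448) (nat_lit 6) (nat_lit 598) (nat_lit 3) (nat_lit 257) (nat_lit 246) (nat_lit 277))) (PT.nd (nat_lit 78) (PT.lf (nat_lit 46816) (nat_lit 6) (nat_lit 616) (nat_lit 3) (nat_lit 258) (nat_lit 246) (nat_lit 276)) (PT.lf (nat_lit 48108) (nat_lit 6) (nat_lit 633) (nat_lit 3) (nat_lit 259) (nat_lit 246) (nat_lit 275))))))) (PT.nd (nat_lit 1170) (PT.nd (nat_lit 546) (PT.nd (nat_lit 234) (PT.nd (nat_lit 78) (PT.lf (nat_lit 49324) (nat_lit 6) (nat_lit 649) (nat_lit 3) (nat_lit 260) (nat_lit 246) (nat_lit 274)) (PT.nd (nat_lit 78) (PT.lf (nat_lit 49400) (nat_lit 6) (nat_lit 650) (nat_lit 3) (nat_lit 261) (nat_lit 246) (nat_lit 273)) (PT.lf (nat_lit 49476) (nat_lit 6) (nat_lit 651) (nat_lit 3) (nat_lit 262) (nat_lit 246) (nat_lit 272)))) (PT.nd (nat_lit 156) (PT.nd (nat_lit 78) (PT.lf (nat_lit 49552) (nat_lit 6) (nat_lit 652) (nat_lit 3) (nat_lit 263) (nat_lit 246) (nat_lit 271)) (PT.lf (nat_lit 49628)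 (nat_lit 6) (nat_lit 653) (nat_lit 3) (nat_lit 264) (nat_lit 246) (nat_lit 270))) (PT.nd (nat_lit 78) (PT.lf (nat_lit 49704) (nat_lit 6) (nat_lit 654) (nat_lit 3) (nat_lit 265) (nat_lit 246) (nat_lit 269)) (PT.lf (nat_lit 49780) (nat_lit 6) (nat_lit 655) (nat_lit 3) (nat_lit 266) (nat_lit 246) (nat_lit 268))))) (PT.nd (nat_lit 312) (PT.nd (nat_lit 156) (PT.nd (nat_lit 78) (PT.lf (nat_lit 49856) (nat_lit 3) (nat_lit 656) (nat_lit 1) (nat_lit 267) (nat_lit 246) (nat_lit 267)) (PT.lf (nat_lit 49780) (nat_lit 6) (nat_lit 655) (nat_lit 1) (nat_lit 268) (nat_lit 246) (nat_lit 266))) (PT.nd (nat_lit 78) (PT.lf (nat_lit 49704) (nat_lit 6) (nat_lit 654) (nat_lit 1) (nat_lit 269) (nat_lit 246) (nat_lit 265)) (PT.lf (nat_lit 49628) (nat_lit 6) (nat_lit 653) (nat_lit 1) (nat_lit 270) (nat_lit 246) (nat_lit 264)))) (PT.nd (nat_lit 156) (PT.nd (nat_lit 78) (PT.lf (nat_lit 49552) (nat_lit 6) (nat_lit 652) (nat_lit 1) (nat_lit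 271) (nat_lit 246) (nat_lit 263)) (PT.lf (nat_lit 49476) (nat_lit 6) (nat_lit 651) (nat_lit 1) (nat_lit 272) (nat_lit 246) (nat_lit 262))) (PT.nd (nat_lit 78) (PT.lf (nat_lit 49400) (nat_lit 6) (nat_lit 650) (nat_lit 1) (nat_lit 273) (nat_lit 246) (nat_lit 261)) (PT.lf (nat_lit 49324) (nat_lit 6) (nat_lit 649) (nat_lit 1) (nat_lit 274) (nat_lit 246) (nat_lit 260)))))) (PT.nd (nat_lit 546) (PT.nd (nat_lit 234) (PT.nd (nat_lit 78) (PT.lf (nat_lit 48108) (nat_lit 6) (nat_lit 633) (nat_lit 1) (nat_lit 275) (nat_lit 246) (nat_lit 259)) (PT.nd (nat_lit 78) (PT.lf (nat_lit 46816) (nat_lit 6) (nat_lit 616) (nat_lit 1) (nat_lit 276) (nat_lit 246) (nat_lit 258)) (PT.lf (nat_lit 45448) (nat_lit 6) (nat_lit 598) (nat_lit 1) (nat_lit 277) (nat_lit 246) (nat_lit 257)))) (PT.nd (nat_lit 156) (PT.nd (nat_lit 78) (PT.lf (nat_lit 44004) (nat_lit 6) (nat_lit 579) (nat_lit 1) (nat_lit 278) (nat_lit 246) (nat_lit 256)) (PT.lf (nat_lit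 42484) (nat_lit 6) (nat_lit 559) (nat_lit 1) (nat_lit 279) (nat_lit 246) (nat_lit 255))) (PT.nd (nat_lit 78) (PT.lf (nat_lit 40888) (nat_lit 6) (nat_lit 538) (nat_lit 1) (nat_lit 280) (nat_lit 246) (nat_lit 254)) (PT.lf (nat_lit 39216) (nat_lit 6) (nat_lit 516) (nat_lit 1) (nat_lit 281) (nat_lit 246) (nat_lit 253))))) (PT.nd (nat_lit 78858) (PT.nd (nat_lit 78702) (PT.nd (nat_lit 78) (PT.lf (nat_lit 37468) (nat_lit 6) (nat_lit 493) (nat_lit 1) (nat_lit 282) (nat_lit 246) (nat_lit 252)) (PT.lf (nat_lit 35644) (nat_lit 6) (nat_lit 469) (nat_lit 1) (nat_lit 283) (nat_lit 246) (nat_lit 251))) (PT.nd (nat_lit 78) (PT.lf (nat_lit 35568) (nat_lit 6) (nat_lit 468) (nat_lit 3) (nat_lit 250) (nat_lit 247) (nat_lit 283)) (PT.lf (nat_lit 37392) (nat_lit 6) (nat_lit 492) (nat_lit 3) (nat_lit 251) (nat_lit 247) (nat_lit 282)))) (PT.nd (nat_lit 156) (PT.nd (nat_lit 78) (PT.lf (nat_lit 39140) (nat_lit 6) (nat_lit 515) (nat_lit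 3) (nat_lit 252) (nat_lit 247) (nat_lit 281)) (PT.lf (nat_lit 40812) (nat_lit 6) (nat_lit 537) (nat_lit 3) (nat_lit 253) (nat_lit 247) (nat_lit 280))) (PT.nd (nat_lit 78) (PT.lf (nat_lit 42408) (nat_lit 6) (nat_lit 558) (nat_lit 3) (nat_lit 254) (nat_lit 247) (nat_lit 279)) (PT.lf (nat_lit 43928) (nat_lit 6) (nat_lit 578) (nat_lit 3) (nat_lit 255) (nat_lit 247) (nat_lit 278))))))))
noncomputable def pc17 : PT := (PT.nd (nat_lit 80808) (PT.nd (nat_lit 1170) (PT.nd (nat_lit 546) (PT.nd (nat_lit 234) (PT.nd (nat_lit 78) (PT.lf (nat_lit 45372) (nat_lit 6) (nat_lit 597) (nat_lit 3) (nat_lit 256) (nat_lit 247) (nat_lit 277)) (PT.nd (nat_lit 78) (PT.lf (nat_lit 46740) (nat_lit 6) (nat_lit 615) (nat_lit 3) (nat_lit 257) (nat_lit 247) (nat_lit 276)) (PT.lf (nat_lit 48032) (nat_lit 6) (nat_lit 632) (nat_lit 3) (nat_lit 258) (nat_lit 247) (nat_lit 275)))) (PT.nd (nat_lit 156) (PT.nd (nat_lit 78) (PT.lf (nat_lit 49248) (nat_lit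 6) (nat_lit 648) (nat_lit 3) (nat_lit 259) (nat_lit 247) (nat_lit 274)) (PT.lf (nat_lit 50388) (nat_lit 6) (nat_lit 663) (nat_lit 3) (nat_lit 260) (nat_lit 247) (nat_lit 273))) (PT.nd (nat_lit 78) (PT.lf (nat_lit 50464) (nat_lit 6) (nat_lit 664) (nat_lit 3) (nat_lit 261) (nat_lit 247) (nat_lit 272)) (PT.lf (nat_lit 50540) (nat_lit 6) (nat_lit 665) (nat_lit 3) (nat_lit 262) (nat_lit 247) (nat_lit 271))))) (PT.nd (nat_lit 312) (PT.nd (nat_lit 156) (PT.nd (nat_lit 78) (PT.lf (nat_lit 50616) (nat_lit 6) (nat_lit 666) (nat_lit 3) (nat_lit 263) (nat_lit 247) (nat_lit 270)) (PT.lf (nat_lit 50692) (nat_lit 6) (nat_lit 667) (nat_lit 3) (nat_lit 264) (nat_lit 247) (nat_lit 269))) (PT.nd (nat_lit 78) (PT.lf (nat_lit 50768) (nat_lit 6) (nat_lit 668) (nat_lit 3) (nat_lit 265) (nat_lit 247) (nat_lit 268)) (PT.lf (nat_lit 50844) (nat_lit 6) (nat_lit 669) (nat_lit 3) (nat_lit 266) (nat_lit 247) (nat_lit 267)))) (PT.nd (nat_lit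 156) (PT.nd (nat_lit 78) (PT.lf (nat_lit 50844) (nat_lit 6) (nat_lit 669) (nat_lit 1) (nat_lit 267) (nat_lit 247) (nat_lit 266)) (PT.lf (nat_lit 50768) (nat_lit 6) (nat_lit 668) (nat_lit 1) (nat_lit 268) (nat_lit 247) (nat_lit 265))) (PT.nd (nat_lit 78) (PT.lf (nat_lit 50692) (nat_lit 6) (nat_lit 667) (nat_lit 1) (nat_lit 269) (nat_lit 247) (nat_lit 264)) (PT.lf (nat_lit 50616) (nat_lit 6) (nat_lit 666) (nat_lit 1) (nat_lit 270) (nat_lit 247) (nat_lit 263)))))) (PT.nd (nat_lit 546) (PT.nd (nat_lit 234) (PT.nd (nat_lit 78) (PT.lf (nat_lit 50540) (nat_lit 6) (nat_lit 665) (nat_lit 1) (nat_lit 271) (nat_lit 247) (nat_lit 262)) (PT.nd (nat_lit 78) (PT.lf (nat_lit 50464) (nat_lit 6) (nat_lit 664) (nat_lit 1) (nat_lit 272) (nat_lit 247) (nat_lit 261)) (PT.lf (nat_lit 50388) (nat_lit 6) (nat_lit 663) (nat_lit 1) (nat_lit 273) (nat_lit 247) (nat_lit 260)))) (PT.nd (nat_lit 156) (PT.nd (nat_lit 78) (PT.lf (nat_lit 49248)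 (nat_lit 6) (nat_lit 648) (nat_lit 1) (nat_lit 274) (nat_lit 247) (nat_lit 259)) (PT.lf (nat_lit 48032) (nat_lit 6) (nat_lit 632) (nat_lit 1) (nat_lit 275) (nat_lit 247) (nat_lit 258))) (PT.nd (nat_lit 78) (PT.lf (nat_lit 46740) (nat_lit 6) (nat_lit 615) (nat_lit 1) (nat_lit 276) (nat_lit 247) (nat_lit 257)) (PT.lf (nat_lit 45372) (nat_lit 6) (nat_lit 597) (nat_lit 1) (nat_lit 277) (nat_lit 247) (nat_lit 256))))) (PT.nd (nat_lit 312) (PT.nd (nat_lit 156) (PT.nd (nat_lit 78) (PT.lf (nat_lit 43928) (nat_lit 6) (nat_lit 578) (nat_lit 1) (nat_lit 278) (nat_lit 247) (nat_lit 255)) (PT.lf (nat_lit 42408) (nat_lit 6) (nat_lit 558) (nat_lit 1) (nat_lit 279) (nat_lit 247) (nat_lit 254))) (PT.nd (nat_lit 78) (PT.lf (nat_lit 40812) (nat_lit 6) (nat_lit 537) (nat_lit 1) (nat_lit 280) (nat_lit 247) (nat_lit 253)) (PT.lf (nat_lit 39140) (nat_lit 6) (nat_lit 515) (nat_lit 1) (nat_lit 281) (nat_lit 247) (nat_lit 252)))) (PT.nd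 (nat_lit 78624) (PT.nd (nat_lit 78) (PT.lf (nat_lit 37392) (nat_lit 6) (nat_lit 492) (nat_lit 1) (nat_lit 282) (nat_lit 247) (nat_lit 251)) (PT.lf (nat_lit 35568) (nat_lit 6) (nat_lit 468) (nat_lit 1) (nat_lit 283) (nat_lit 247) (nat_lit 250))) (PT.nd (nat_lit 78) (PT.lf (nat_lit 35492) (nat_lit 6) (nat_lit 467) (nat_lit 3) (nat_lit 249) (nat_lit 248) (nat_lit 283)) (PT.lf (nat_lit 37316) (nat_lit 6) (nat_lit 491) (nat_lit 3) (nat_lit 250) (nat_lit 248) (nat_lit 282))))))) (PT.nd (nat_lit 1170) (PT.nd (nat_lit 546) (PT.nd (nat_lit 234) (PT.nd (nat_lit 78) (PT.lf (nat_lit 39064) (nat_lit 6) (nat_lit 514) (nat_lit 3) (nat_lit 251) (nat_lit 248) (nat_lit 281)) (PT.nd (nat_lit 78) (PT.lf (nat_lit 40736) (nat_lit 6) (nat_lit 536) (nat_lit 3) (nat_lit 252) (nat_lit 248) (nat_lit 280)) (PT.lf (nat_lit 42332) (nat_lit 6) (nat_lit 557) (nat_lit 3) (nat_lit 253) (nat_lit 248) (nat_lit 279)))) (PT.nd (nat_lit 156) (PT.nd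 (nat_lit 78) (PT.lf (nat_lit 43852) (nat_lit 6) (nat_lit 577) (nat_lit 3) (nat_lit 254) (nat_lit 248) (nat_lit 278)) (PT.lf (nat_lit 45296) (nat_lit 6) (nat_lit 596) (nat_lit 3) (nat_lit 255) (nat_lit 248) (nat_lit 277))) (PT.nd (nat_lit 78) (PT.lf (nat_lit 46664) (nat_lit 6) (nat_lit 614) (nat_lit 3) (nat_lit 256) (nat_lit 248) (nat_lit 276)) (PT.lf (nat_lit 47956) (nat_lit 6) (nat_lit 631) (nat_lit 3) (nat_lit 257) (nat_lit 248) (nat_lit 275))))) (PT.nd (nat_lit 312) (PT.nd (nat_lit 156) (PT.nd (nat_lit 78) (PT.lf (nat_lit 49172) (nat_lit 6) (nat_lit 647) (nat_lit 3) (nat_lit 258) (nat_lit 248) (nat_lit 274)) (PT.lf (nat_lit 50312) (nat_lit 6) (nat_lit 662) (nat_lit 3) (nat_lit 259) (nat_lit 248) (nat_lit 273))) (PT.nd (nat_lit 78) (PT.lf (nat_lit 51376) (nat_lit 6) (nat_lit 676) (nat_lit 3) (nat_lit 260) (nat_lit 248) (nat_lit 272)) (PT.lf (nat_lit 51452) (nat_lit 6) (nat_lit 677) (nat_lit 3) (nat_lit 261) (nat_lit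 248) (nat_lit 271)))) (PT.nd (nat_lit 156) (PT.nd (nat_lit 78) (PT.lf (nat_lit 51528) (nat_lit 6) (nat_lit 678) (nat_lit 3) (nat_lit 262) (nat_lit 248) (nat_lit 270)) (PT.lf (nat_lit 51604) (nat_lit 6) (nat_lit 679) (nat_lit 3) (nat_lit 263) (nat_lit 248) (nat_lit 269))) (PT.nd (nat_lit 78) (PT.lf (nat_lit 51680) (nat_lit 6) (nat_lit 680) (nat_lit 3) (nat_lit 264) (nat_lit 248) (nat_lit 268)) (PT.lf (nat_lit 51756) (nat_lit 6) (nat_lit 681) (nat_lit 3) (nat_lit 265) (nat_lit 248) (nat_lit 267)))))) (PT.nd (nat_lit 546) (PT.nd (nat_lit 234) (PT.nd (nat_lit 78) (PT.lf (nat_lit 51832) (nat_lit 3) (nat_lit 682) (nat_lit 1) (nat_lit 266) (nat_lit 248) (nat_lit 266)) (PT.nd (nat_lit 78) (PT.lf (nat_lit 51756) (nat_lit 6) (nat_lit 681) (nat_lit 1) (nat_lit 267) (nat_lit 248) (nat_lit 265)) (PT.lf (nat_lit 51680) (nat_lit 6) (nat_lit 680) (nat_lit 1) (nat_lit 268) (nat_lit 248) (nat_lit 264)))) (PT.nd (nat_lit 156) (PT.nd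 (nat_lit 78) (PT.lf (nat_lit 51604) (nat_lit 6) (nat_lit 679) (nat_lit 1) (nat_lit 269) (nat_lit 248) (nat_lit 263)) (PT.lf (nat_lit 51528) (nat_lit 6) (nat_lit 678) (nat_lit 1) (nat_lit 270) (nat_lit 248) (nat_lit 262))) (PT.nd (nat_lit 78) (PT.lf (nat_lit 51452) (nat_lit 6) (nat_lit 677) (nat_lit 1) (nat_lit 271) (nat_lit 248) (nat_lit 261)) (PT.lf (nat_lit 51376) (nat_lit 6) (nat_lit 676) (nat_lit 1) (nat_lit 272) (nat_lit 248) (nat_lit 260))))) (PT.nd (nat_lit 312) (PT.nd (nat_lit 156) (PT.nd (nat_lit 78) (PT.lf (nat_lit 50312) (nat_lit 6) (nat_lit 662) (nat_lit 1) (nat_lit 273) (nat_lit 248) (nat_lit 259)) (PT.lf (nat_lit 49172) (nat_lit 6) (nat_lit 647) (nat_lit 1) (nat_lit 274) (nat_lit 248) (nat_lit 258))) (PT.nd (nat_lit 78) (PT.lf (nat_lit 47956) (nat_lit 6) (nat_lit 631) (nat_lit 1) (nat_lit 275) (nat_lit 248) (nat_lit 257)) (PT.lf (nat_lit 46664) (nat_lit 6) (nat_lit 614) (nat_lit 1) (nat_lit 276) (nat_lit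 248) (nat_lit 256)))) (PT.nd (nat_lit 156) (PT.nd (nat_lit 78) (PT.lf (nat_lit 45296) (nat_lit 6) (nat_lit 596) (nat_lit 1) (nat_lit 277) (nat_lit 248) (nat_lit 255)) (PT.lf (nat_lit 43852) (nat_lit 6) (nat_lit 577) (nat_lit 1) (nat_lit 278) (nat_lit 248) (nat_lit 254))) (PT.nd (nat_lit 78) (PT.lf (nat_lit 42332) (nat_lit 6) (nat_lit 557) (nat_lit 1) (nat_lit 279) (nat_lit 248) (nat_lit 253)) (PT.lf (nat_lit 40736) (nat_lit 6) (nat_lit 536) (nat_lit 1) (nat_lit 280) (nat_lit 248) (nat_lit 252))))))))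
noncomputable def pc18 : PT := (PT.nd (nat_lit 80730) (PT.nd (nat_lit 79560) (PT.nd (nat_lit 78936) (PT.nd (nat_lit 78624) (PT.nd (nat_lit 78) (PT.lf (nat_lit 39064) (nat_lit 6) (nat_lit 514) (nat_lit 1) (nat_lit 281) (nat_lit 248) (nat_lit 251)) (PT.nd (nat_lit 78) (PT.lf (nat_lit 37316) (nat_lit 6) (nat_lit 491) (nat_lit 1) (nat_lit 282) (nat_lit 248) (nat_lit 250)) (PT.lf (nat_lit 35492) (nat_lit 6) (nat_lit 467) (nat_lit 1) (nat_lit 283) (nat_lit 248) (nat_lit 249)))) (PT.nd (nat_lit 156) (PT.nd (nat_lit 78) (PT.lf (nat_lit 35492) (nat_lit 6) (nat_lit 467) (nat_lit 5) (nat_lit 248) (nat_lit 249) (nat_lit 283)) (PT.lf (nat_lit 37240) (nat_lit 3) (nat_lit 490) (nat_lit 3) (nat_lit 249) (nat_lit 249) (nat_lit 282))) (PT.nd (nat_lit 78) (PT.lf (nat_lit 38988) (nat_lit 6) (nat_lit 513) (nat_lit 3) (nat_lit 250) (nat_lit 249) (nat_lit 281)) (PT.lf (nat_lit 40660) (nat_lit 6) (nat_lit 535) (nat_lit 3) (nat_lit 251)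 (nat_lit 249) (nat_lit 280))))) (PT.nd (nat_lit 312) (PT.nd (nat_lit 156) (PT.nd (nat_lit 78) (PT.lf (nat_lit 42256) (nat_lit 6) (nat_lit 556) (nat_lit 3) (nat_lit 252) (nat_lit 249) (nat_lit 279)) (PT.lf (nat_lit 43776) (nat_lit 6) (nat_lit 576) (nat_lit 3) (nat_lit 253) (nat_lit 249) (nat_lit 278))) (PT.nd (nat_lit 78) (PT.lf (nat_lit 45220) (nat_lit 6) (nat_lit 595) (nat_lit 3) (nat_lit 254) (nat_lit 249) (nat_lit 277)) (PT.lf (nat_lit 46588) (nat_lit 6) (nat_lit 613) (nat_lit 3) (nat_lit 255) (nat_lit 249) (nat_lit 276)))) (PT.nd (nat_lit 156) (PT.nd (nat_lit 78) (PT.lf (nat_lit 47880) (nat_lit 6) (nat_lit 630) (nat_lit 3) (nat_lit 256) (nat_lit 249) (nat_lit 275)) (PT.lf (nat_lit 49096) (nat_lit 6) (nat_lit 646) (nat_lit 3) (nat_lit 257) (nat_lit 249) (nat_lit 274))) (PT.nd (nat_lit 78) (PT.lf (nat_lit 50236) (nat_lit 6) (nat_lit 661) (nat_lit 3) (nat_lit 258) (nat_lit 249) (nat_lit 273)) (PT.lf (nat_lit 51300)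 (nat_lit 6) (nat_lit 675) (nat_lit 3) (nat_lit 259) (nat_lit 249) (nat_lit 272)))))) (PT.nd (nat_lit 546) (PT.nd (nat_lit 234) (PT.nd (nat_lit 78) (PT.lf (nat_lit 52288) (nat_lit 6) (nat_lit 688) (nat_lit 3) (nat_lit 260) (nat_lit 249) (nat_lit 271)) (PT.nd (nat_lit 78) (PT.lf (nat_lit 52364) (nat_lit 6) (nat_lit 689) (nat_lit 3) (nat_lit 261) (nat_lit 249) (nat_lit 270)) (PT.lf (nat_lit 52440) (nat_lit 6) (nat_lit 690) (nat_lit 3) (nat_lit 262) (nat_lit 249) (nat_lit 269)))) (PT.nd (nat_lit 156) (PT.nd (nat_lit 78) (PT.lf (nat_lit 52516) (nat_lit 6) (nat_lit 691) (nat_lit 3) (nat_lit 263) (nat_lit 249) (nat_lit 268)) (PT.lf (nat_lit 52592) (nat_lit 6) (nat_lit 692) (nat_lit 3) (nat_lit 264) (nat_lit 249) (nat_lit 267))) (PT.nd (nat_lit 78) (PT.lf (nat_lit 52668) (nat_lit 6) (nat_lit 693) (nat_lit 3) (nat_lit 265) (nat_lit 249) (nat_lit 266)) (PT.lf (nat_lit 52668) (nat_lit 6) (nat_lit 693) (nat_lit 1) (nat_lit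 266) (nat_lit 249) (nat_lit 265))))) (PT.nd (nat_lit 312) (PT.nd (nat_lit 156) (PT.nd (nat_lit 78) (PT.lf (nat_lit 52592) (nat_lit 6) (nat_lit 692) (nat_lit 1) (nat_lit 267) (nat_lit 249) (nat_lit 264)) (PT.lf (nat_lit 52516) (nat_lit 6) (nat_lit 691) (nat_lit 1) (nat_lit 268) (nat_lit 249) (nat_lit 263))) (PT.nd (nat_lit 78) (PT.lf (nat_lit 52440) (nat_lit 6) (nat_lit 690) (nat_lit 1) (nat_lit 269) (nat_lit 249) (nat_lit 262)) (PT.lf (nat_lit 52364) (nat_lit 6) (nat_lit 689) (nat_lit 1) (nat_lit 270) (nat_lit 249) (nat_lit 261)))) (PT.nd (nat_lit 156) (PT.nd (nat_lit 78) (PT.lf (nat_lit 52288) (nat_lit 6) (nat_lit 688) (nat_lit 1) (nat_lit 271) (nat_lit 249) (nat_lit 260)) (PT.lf (nat_lit 51300) (nat_lit 6) (nat_lit 675) (nat_lit 1) (nat_lit 272) (nat_lit 249) (nat_lit 259))) (PT.nd (nat_lit 78) (PT.lf (nat_lit 50236) (nat_lit 6) (nat_lit 661) (nat_lit 1) (nat_lit 273) (nat_lit 249) (nat_lit 258)) (PT.lf (nat_lit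 49096) (nat_lit 6) (nat_lit 646) (nat_lit 1) (nat_lit 274) (nat_lit 249) (nat_lit 257))))))) (PT.nd (nat_lit 79482) (PT.nd (nat_lit 546) (PT.nd (nat_lit 234) (PT.nd (nat_lit 78) (PT.lf (nat_lit 47880) (nat_lit 6) (nat_lit 630) (nat_lit 1) (nat_lit 275) (nat_lit 249) (nat_lit 256)) (PT.nd (nat_lit 78) (PT.lf (nat_lit 46588) (nat_lit 6) (nat_lit 613) (nat_lit 1) (nat_lit 276) (nat_lit 249) (nat_lit 255)) (PT.lf (nat_lit 45220) (nat_lit 6) (nat_lit 595) (nat_lit 1) (nat_lit 277) (nat_lit 249) (nat_lit 254)))) (PT.nd (nat_lit 156) (PT.nd (nat_lit 78) (PT.lf (nat_lit 43776) (nat_lit 6) (nat_lit 576) (nat_lit 1) (nat_lit 278) (nat_lit 249) (nat_lit 253)) (PT.lf (nat_lit 42256) (nat_lit 6) (nat_lit 556) (nat_lit 1) (nat_lit 279) (nat_lit 249) (nat_lit 252))) (PT.nd (nat_lit 78) (PT.lf (nat_lit 40660) (nat_lit 6) (nat_lit 535) (nat_lit 1) (nat_lit 280) (nat_lit 249) (nat_lit 251)) (PT.lf (nat_lit 38988) (nat_lit 6) (nat_lit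 513) (nat_lit 1) (nat_lit 281) (nat_lit 249) (nat_lit 250))))) (PT.nd (nat_lit 78624) (PT.nd (nat_lit 78468) (PT.nd (nat_lit 78) (PT.lf (nat_lit 37240) (nat_lit 3) (nat_lit 490) (nat_lit 0) (nat_lit 282) (nat_lit 249) (nat_lit 249)) (PT.lf (nat_lit 35492) (nat_lit 6) (nat_lit 467) (nat_lit 0) (nat_lit 283) (nat_lit 249) (nat_lit 248))) (PT.nd (nat_lit 78) (PT.lf (nat_lit 35568) (nat_lit 6) (nat_lit 468) (nat_lit 5) (nat_lit 247) (nat_lit 250) (nat_lit 283)) (PT.lf (nat_lit 37316) (nat_lit 6) (nat_lit 491) (nat_lit 5) (nat_lit 248) (nat_lit 250) (nat_lit 282)))) (PT.nd (nat_lit 156) (PT.nd (nat_lit 78) (PT.lf (nat_lit 38988) (nat_lit 6) (nat_lit 513) (nat_lit 5) (nat_lit 249) (nat_lit 250) (nat_lit 281)) (PT.lf (nat_lit 40584) (nat_lit 3) (nat_lit 534) (nat_lit 3) (nat_lit 250) (nat_lit 250) (nat_lit 280))) (PT.nd (nat_lit 78) (PT.lf (nat_lit 42180) (nat_lit 6) (nat_lit 555) (nat_lit 3) (nat_lit 251) (nat_lit 250)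 (nat_lit 279)) (PT.lf (nat_lit 43700) (nat_lit 6) (nat_lit 575) (nat_lit 3) (nat_lit 252) (nat_lit 250) (nat_lit 278)))))) (PT.nd (nat_lit 546) (PT.nd (nat_lit 234) (PT.nd (nat_lit 78) (PT.lf (nat_lit 45144) (nat_lit 6) (nat_lit 594) (nat_lit 3) (nat_lit 253) (nat_lit 250) (nat_lit 277)) (PT.nd (nat_lit 78) (PT.lf (nat_lit 46512) (nat_lit 6) (nat_lit 612) (nat_lit 3) (nat_lit 254) (nat_lit 250) (nat_lit 276)) (PT.lf (nat_lit 47804) (nat_lit 6) (nat_lit 629) (nat_lit 3) (nat_lit 255) (nat_lit 250) (nat_lit 275)))) (PT.nd (nat_lit 156) (PT.nd (nat_lit 78) (PT.lf (nat_lit 49020) (nat_lit 6) (nat_lit 645) (nat_lit 3) (nat_lit 256) (nat_lit 250) (nat_lit 274)) (PT.lf (nat_lit 50160) (nat_lit 6) (nat_lit 660) (nat_lit 3) (nat_lit 257) (nat_lit 250) (nat_lit 273))) (PT.nd (nat_lit 78) (PT.lf (nat_lit 51224) (nat_lit 6) (nat_lit 674) (nat_lit 3) (nat_lit 258) (nat_lit 250) (nat_lit 272)) (PT.lf (nat_lit 52212) (nat_lit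 6) (nat_lit 687) (nat_lit 3) (nat_lit 259) (nat_lit 250) (nat_lit 271))))) (PT.nd (nat_lit 312) (PT.nd (nat_lit 156) (PT.nd (nat_lit 78) (PT.lf (nat_lit 53124) (nat_lit 6) (nat_lit 699) (nat_lit 3) (nat_lit 260) (nat_lit 250) (nat_lit 270)) (PT.lf (nat_lit 53200) (nat_lit 6) (nat_lit 700) (nat_lit 3) (nat_lit 261) (nat_lit 250) (nat_lit 269))) (PT.nd (nat_lit 78) (PT.lf (nat_lit 53276) (nat_lit 6) (nat_lit 701) (nat_lit 3) (nat_lit 262) (nat_lit 250) (nat_lit 268)) (PT.lf (nat_lit 53352) (nat_lit 6) (nat_lit 702) (nat_lit 3) (nat_lit 263) (nat_lit 250) (nat_lit 267)))) (PT.nd (nat_lit 156) (PT.nd (nat_lit 78) (PT.lf (nat_lit 53428) (nat_lit 6) (nat_lit 703) (nat_lit 3) (nat_lit 264) (nat_lit 250) (nat_lit 266)) (PT.lf (nat_lit 53504) (nat_lit 3) (nat_lit 704) (nat_lit 1) (nat_lit 265) (nat_lit 250) (nat_lit 265))) (PT.nd (nat_lit 78) (PT.lf (nat_lit 53428) (nat_lit 6) (nat_lit 703) (nat_lit 1) (nat_lit 266) (nat_lit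 250) (nat_lit 264)) (PT.lf (nat_lit 53352) (nat_lit 6) (nat_lit 702) (nat_lit 1) (nat_lit 267) (nat_lit 250) (nat_lit 263))))))))
noncomputable def pc19 : PT := (PT.nd (nat_lit 80496) (PT.nd (nat_lit 1170) (PT.nd (nat_lit 546) (PT.nd (nat_lit 234) (PT.nd (nat_lit 78) (PT.lf (nat_lit 53276) (nat_lit 6) (nat_lit 701) (nat_lit 1) (nat_lit 268) (nat_lit 250) (nat_lit 262)) (PT.nd (nat_lit 78) (PT.lf (nat_lit 53200) (nat_lit 6) (nat_lit 700) (nat_lit 1) (nat_lit 269) (nat_lit 250) (nat_lit 261)) (PT.lf (nat_lit 53124) (nat_lit 6) (nat_lit 699) (nat_lit 1) (nat_lit 270) (nat_lit 250) (nat_lit 260)))) (PT.nd (nat_lit 156) (PT.nd (nat_lit 78) (PT.lf (nat_lit 52212) (nat_lit 6) (nat_lit 687) (nat_lit 1) (nat_lit 271) (nat_lit 250) (nat_lit 259)) (PT.lf (nat_lit 51224) (nat_lit 6) (nat_lit 674) (nat_lit 1) (nat_lit 272) (nat_lit 250) (nat_lit 258))) (PT.nd (nat_lit 78) (PT.lf (nat_lit 50160) (nat_lit 6) (nat_lit 660) (nat_lit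 1) (nat_lit 273) (nat_lit 250) (nat_lit 257)) (PT.lf (nat_lit 49020) (nat_lit 6) (nat_lit 645) (nat_lit 1) (nat_lit 274) (nat_lit 250) (nat_lit 256))))) (PT.nd (nat_lit 312) (PT.nd (nat_lit 156) (PT.nd (nat_lit 78) (PT.lf (nat_lit 47804) (nat_lit 6) (nat_lit 629) (nat_lit 1) (nat_lit 275) (nat_lit 250) (nat_lit 255)) (PT.lf (nat_lit 46512) (nat_lit 6) (nat_lit 612) (nat_lit 1) (nat_lit 276) (nat_lit 250) (nat_lit 254))) (PT.nd (nat_lit 78) (PT.lf (nat_lit 45144) (nat_lit 6) (nat_lit 594) (nat_lit 1) (nat_lit 277) (nat_lit 250) (nat_lit 253)) (PT.lf (nat_lit 43700) (nat_lit 6) (nat_lit 575) (nat_lit 1) (nat_lit 278) (nat_lit 250) (nat_lit 252)))) (PT.nd (nat_lit 156) (PT.nd (nat_lit 78) (PT.lf (nat_lit 42180) (nat_lit 6) (nat_lit 555) (nat_lit 1) (nat_lit 279) (nat_lit 250) (nat_lit 251)) (PT.lf (nat_lit 40584) (nat_lit 3) (nat_lit 534) (nat_lit 0) (nat_lit 280) (nat_lit 250) (nat_lit 250))) (PT.nd (nat_lit 78)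 (PT.lf (nat_lit 38988) (nat_lit 6) (nat_lit 513) (nat_lit 0) (nat_lit 281) (nat_lit 250) (nat_lit 249)) (PT.lf (nat_lit 37316) (nat_lit 6) (nat_lit 491) (nat_lit 0) (nat_lit 282) (nat_lit 250) (nat_lit 248)))))) (PT.nd (nat_lit 78702) (PT.nd (nat_lit 78390) (PT.nd (nat_lit 78234) (PT.lf (nat_lit 35568) (nat_lit 6) (nat_lit 468) (nat_lit 0) (nat_lit 283) (nat_lit 250) (nat_lit 247)) (PT.nd (nat_lit 78) (PT.lf (nat_lit 33820) (nat_lit 6) (nat_lit 445) (nat_lit 5) (nat_lit 245) (nat_lit 251) (nat_lit 284)) (PT.lf (nat_lit 35644) (nat_lit 6) (nat_lit 469) (nat_lit 5) (nat_lit 246) (nat_lit 251) (nat_lit 283)))) (PT.nd (nat_lit 156) (PT.nd (nat_lit 78) (PT.lf (nat_lit 37392) (nat_lit 6) (nat_lit 492) (nat_lit 5) (nat_lit 247) (nat_lit 251) (nat_lit 282)) (PT.lf (nat_lit 39064) (nat_lit 6) (nat_lit 514) (nat_lit 5) (nat_lit 248) (nat_lit 251) (nat_lit 281))) (PT.nd (nat_lit 78) (PT.lf (nat_lit 40660) (nat_lit 6) (nat_lit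 535) (nat_lit 5) (nat_lit 249) (nat_lit 251) (nat_lit 280)) (PT.lf (nat_lit 42180) (nat_lit 6) (nat_lit 555) (nat_lit 5) (nat_lit 250) (nat_lit 251) (nat_lit 279))))) (PT.nd (nat_lit 312) (PT.nd (nat_lit 156) (PT.nd (nat_lit 78) (PT.lf (nat_lit 43624) (nat_lit 3) (nat_lit 574) (nat_lit 3) (nat_lit 251) (nat_lit 251) (nat_lit 278)) (PT.lf (nat_lit 45068) (nat_lit 6) (nat_lit 593) (nat_lit 3) (nat_lit 252) (nat_lit 251) (nat_lit 277))) (PT.nd (nat_lit 78) (PT.lf (nat_lit 46436) (nat_lit 6) (nat_lit 611) (nat_lit 3) (nat_lit 253) (nat_lit 251) (nat_lit 276)) (PT.lf (nat_lit 47728) (nat_lit 6) (nat_lit 628) (nat_lit 3) (nat_lit 254) (nat_lit 251) (nat_lit 275)))) (PT.nd (nat_lit 156) (PT.nd (nat_lit 78) (PT.lf (nat_lit 48944) (nat_lit 6) (nat_lit 644) (nat_lit 3) (nat_lit 255) (nat_lit 251) (nat_lit 274)) (PT.lf (nat_lit 50084) (nat_lit 6) (nat_lit 659) (nat_lit 3) (nat_lit 256) (nat_lit 251) (nat_lit 273))) (PT.nd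 (nat_lit 78) (PT.lf (nat_lit 51148) (nat_lit 6) (nat_lit 673) (nat_lit 3) (nat_lit 257) (nat_lit 251) (nat_lit 272)) (PT.lf (nat_lit 52136) (nat_lit 6) (nat_lit 686) (nat_lit 3) (nat_lit 258) (nat_lit 251) (nat_lit 271))))))) (PT.nd (nat_lit 1170) (PT.nd (nat_lit 546) (PT.nd (nat_lit 234) (PT.nd (nat_lit 78) (PT.lf (nat_lit 53048) (nat_lit 6) (nat_lit 698) (nat_lit 3) (nat_lit 259) (nat_lit 251) (nat_lit 270)) (PT.nd (nat_lit 78) (PT.lf (nat_lit 53884) (nat_lit 6) (nat_lit 709) (nat_lit 3) (nat_lit 260) (nat_lit 251) (nat_lit 269)) (PT.lf (nat_lit 53960) (nat_lit 6) (nat_lit 710) (nat_lit 3) (nat_lit 261) (nat_lit 251) (nat_lit 268)))) (PT.nd (nat_lit 156) (PT.nd (nat_lit 78) (PT.lf (nat_lit 54036) (nat_lit 6) (nat_lit 711) (nat_lit 3) (nat_lit 262) (nat_lit 251) (nat_lit 267)) (PT.lf (nat_lit 54112) (nat_lit 6) (nat_lit 712) (nat_lit 3) (nat_lit 263) (nat_lit 251) (nat_lit 266))) (PT.nd (nat_lit 78) (PT.lf (nat_lit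 54188) (nat_lit 6) (nat_lit 713) (nat_lit 3) (nat_lit 264) (nat_lit 251) (nat_lit 265)) (PT.lf (nat_lit 54188) (nat_lit 6) (nat_lit 713) (nat_lit 1) (nat_lit 265) (nat_lit 251) (nat_lit 264))))) (PT.nd (nat_lit 312) (PT.nd (nat_lit 156) (PT.nd (nat_lit 78) (PT.lf (nat_lit 54112) (nat_lit 6) (nat_lit 712) (nat_lit 1) (nat_lit 266) (nat_lit 251) (nat_lit 263)) (PT.lf (nat_lit 54036) (nat_lit 6) (nat_lit 711) (nat_lit 1) (nat_lit 267) (nat_lit 251) (nat_lit 262))) (PT.nd (nat_lit 78) (PT.lf (nat_lit 53960) (nat_lit 6) (nat_lit 710) (nat_lit 1) (nat_lit 268) (nat_lit 251) (nat_lit 261)) (PT.lf (nat_lit 53884) (nat_lit 6) (nat_lit 709) (nat_lit 1) (nat_lit 269) (nat_lit 251) (nat_lit 260)))) (PT.nd (nat_lit 156) (PT.nd (nat_lit 78) (PT.lf (nat_lit 53048) (nat_lit 6) (nat_lit 698) (nat_lit 1) (nat_lit 270) (nat_lit 251) (nat_lit 259)) (PT.lf (nat_lit 52136) (nat_lit 6) (nat_lit 686) (nat_lit 1) (nat_lit 271) (nat_lit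 251) (nat_lit 258))) (PT.nd (nat_lit 78) (PT.lf (nat_lit 51148) (nat_lit 6) (nat_lit 673) (nat_lit 1) (nat_lit 272) (nat_lit 251) (nat_lit 257)) (PT.lf (nat_lit 50084) (nat_lit 6) (nat_lit 659) (nat_lit 1) (nat_lit 273) (nat_lit 251) (nat_lit 256)))))) (PT.nd (nat_lit 546) (PT.nd (nat_lit 234) (PT.nd (nat_lit 78) (PT.lf (nat_lit 48944) (nat_lit 6) (nat_lit 644) (nat_lit 1) (nat_lit 274) (nat_lit 251) (nat_lit 255)) (PT.nd (nat_lit 78) (PT.lf (nat_lit 47728) (nat_lit 6) (nat_lit 628) (nat_lit 1) (nat_lit 275) (nat_lit 251) (nat_lit 254)) (PT.lf (nat_lit 46436) (nat_lit 6) (nat_lit 611) (nat_lit 1) (nat_lit 276) (nat_lit 251) (nat_lit 253)))) (PT.nd (nat_lit 156) (PT.nd (nat_lit 78) (PT.lf (nat_lit 45068) (nat_lit 6) (nat_lit 593) (nat_lit 1) (nat_lit 277) (nat_lit 251) (nat_lit 252)) (PT.lf (nat_lit 43624) (nat_lit 3) (nat_lit 574) (nat_lit 0) (nat_lit 278) (nat_lit 251) (nat_lit 251))) (PT.nd (nat_lit 78) (PT.lf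 (nat_lit 42180) (nat_lit 6) (nat_lit 555) (nat_lit 0) (nat_lit 279) (nat_lit 251) (nat_lit 250)) (PT.lf (nat_lit 40660) (nat_lit 6) (nat_lit 535) (nat_lit 0) (nat_lit 280) (nat_lit 251) (nat_lit 249))))) (PT.nd (nat_lit 78312) (PT.nd (nat_lit 156) (PT.nd (nat_lit 78) (PT.lf (nat_lit 39064) (nat_lit 6) (nat_lit 514) (nat_lit 0) (nat_lit 281) (nat_lit 251) (nat_lit 248)) (PT.lf (nat_lit 37392) (nat_lit 6) (nat_lit 492) (nat_lit 0) (nat_lit 282) (nat_lit 251) (nat_lit 247))) (PT.nd (nat_lit 78) (PT.lf (nat_lit 35644) (nat_lit 6) (nat_lit 469) (nat_lit 0) (nat_lit 283) (nat_lit 251) (nat_lit 246)) (PT.lf (nat_lit 33820) (nat_lit 6) (nat_lit 445) (nat_lit 0) (nat_lit 284) (nat_lit 251) (nat_lit 245)))) (PT.nd (nat_lit 156) (PT.nd (nat_lit 78) (PT.lf (nat_lit 33896) (nat_lit 6) (nat_lit 446) (nat_lit 5) (nat_lit 244) (nat_lit 252) (nat_lit 284)) (PT.lf (nat_lit 35720) (nat_lit 6) (nat_lit 470) (nat_lit 5) (nat_lit 245)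 (nat_lit 252) (nat_lit 283))) (PT.nd (nat_lit 78) (PT.lf (nat_lit 37468) (nat_lit 6) (nat_lit 493) (nat_lit 5) (nat_lit 246) (nat_lit 252) (nat_lit 282)) (PT.lf (nat_lit 39140) (nat_lit 6) (nat_lit 515) (nat_lit 5) (nat_lit 247) (nat_lit 252) (nat_lit 281))))))))
noncomputable def pc20 : PT := (PT.nd (nat_lit 2340) (PT.nd (nat_lit 1170) (PT.nd (nat_lit 546) (PT.nd (nat_lit 234) (PT.nd (nat_lit 78) (PT.lf (nat_lit 40736) (nat_lit 6) (nat_lit 536) (nat_lit 5) (nat_lit 248) (nat_lit 252) (nat_lit 280)) (PT.nd (nat_lit 78) (PT.lf (nat_lit 42256) (nat_lit 6) (nat_lit 556) (nat_lit 5) (nat_lit 249) (nat_lit 252) (nat_lit 279)) (PT.lf (nat_lit 43700) (nat_lit 6) (nat_lit 575) (nat_lit 5) (nat_lit 250) (nat_lit 252) (nat_lit 278)))) (PT.nd (nat_lit 156) (PT.nd (nat_lit 78) (PT.lf (nat_lit 45068) (nat_lit 6) (nat_lit 593) (nat_lit 5) (nat_lit 251) (nat_lit 252) (nat_lit 277)) (PT.lf (nat_lit 46360) (nat_lit 3) (nat_lit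 610) (nat_lit 3) (nat_lit 252) (nat_lit 252) (nat_lit 276))) (PT.nd (nat_lit 78) (PT.lf (nat_lit 47652) (nat_lit 6) (nat_lit 627) (nat_lit 3) (nat_lit 253) (nat_lit 252) (nat_lit 275)) (PT.lf (nat_lit 48868) (nat_lit 6) (nat_lit 643) (nat_lit 3) (nat_lit 254) (nat_lit 252) (nat_lit 274))))) (PT.nd (nat_lit 312) (PT.nd (nat_lit 156) (PT.nd (nat_lit 78) (PT.lf (nat_lit 50008) (nat_lit 6) (nat_lit 658) (nat_lit 3) (nat_lit 255) (nat_lit 252) (nat_lit 273)) (PT.lf (nat_lit 51072) (nat_lit 6) (nat_lit 672) (nat_lit 3) (nat_lit 256) (nat_lit 252) (nat_lit 272))) (PT.nd (nat_lit 78) (PT.lf (nat_lit 52060) (nat_lit 6) (nat_lit 685) (nat_lit 3) (nat_lit 257) (nat_lit 252) (nat_lit 271)) (PT.lf (nat_lit 52972) (nat_lit 6) (nat_lit 697) (nat_lit 3) (nat_lit 258) (nat_lit 252) (nat_lit 270)))) (PT.nd (nat_lit 156) (PT.nd (nat_lit 78) (PT.lf (nat_lit 53808) (nat_lit 6) (nat_lit 708) (nat_lit 3) (nat_lit 259) (nat_lit 252) (nat_lit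 269)) (PT.lf (nat_lit 54568) (nat_lit 6) (nat_lit 718) (nat_lit 3) (nat_lit 260) (nat_lit 252) (nat_lit 268))) (PT.nd (nat_lit 78) (PT.lf (nat_lit 54644) (nat_lit 6) (nat_lit 719) (nat_lit 3) (nat_lit 261) (nat_lit 252) (nat_lit 267)) (PT.lf (nat_lit 54720) (nat_lit 6) (nat_lit 720) (nat_lit 3) (nat_lit 262) (nat_lit 252) (nat_lit 266)))))) (PT.nd (nat_lit 546) (PT.nd (nat_lit 234) (PT.nd (nat_lit 78) (PT.lf (nat_lit 54796) (nat_lit 6) (nat_lit 721) (nat_lit 3) (nat_lit 263) (nat_lit 252) (nat_lit 265)) (PT.nd (nat_lit 78) (PT.lf (nat_lit 54872) (nat_lit 3) (nat_lit 722) (nat_lit 1) (nat_lit 264) (nat_lit 252) (nat_lit 264)) (PT.lf (nat_lit 54796) (nat_lit 6) (nat_lit 721) (nat_lit 1) (nat_lit 265) (nat_lit 252) (nat_lit 263)))) (PT.nd (nat_lit 156) (PT.nd (nat_lit 78) (PT.lf (nat_lit 54720) (nat_lit 6) (nat_lit 720) (nat_lit 1) (nat_lit 266) (nat_lit 252) (nat_lit 262)) (PT.lf (nat_lit 54644) (nat_lit 6) (nat_lit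 719) (nat_lit 1) (nat_lit 267) (nat_lit 252) (nat_lit 261))) (PT.nd (nat_lit 78) (PT.lf (nat_lit 54568) (nat_lit 6) (nat_lit 718) (nat_lit 1) (nat_lit 268) (nat_lit 252) (nat_lit 260)) (PT.lf (nat_lit 53808) (nat_lit 6) (nat_lit 708) (nat_lit 1) (nat_lit 269) (nat_lit 252) (nat_lit 259))))) (PT.nd (nat_lit 312) (PT.nd (nat_lit 156) (PT.nd (nat_lit 78) (PT.lf (nat_lit 52972) (nat_lit 6) (nat_lit 697) (nat_lit 1) (nat_lit 270) (nat_lit 252) (nat_lit 258)) (PT.lf (nat_lit 52060) (nat_lit 6) (nat_lit 685) (nat_lit 1) (nat_lit 271) (nat_lit 252) (nat_lit 257))) (PT.nd (nat_lit 78) (PT.lf (nat_lit 51072) (nat_lit 6) (nat_lit 672) (nat_lit 1) (nat_lit 272) (nat_lit 252) (nat_lit 256)) (PT.lf (nat_lit 50008) (nat_lit 6) (nat_lit 658) (nat_lit 1) (nat_lit 273) (nat_lit 252) (nat_lit 255)))) (PT.nd (nat_lit 156) (PT.nd (nat_lit 78) (PT.lf (nat_lit 48868) (nat_lit 6) (nat_lit 643) (nat_lit 1) (nat_lit 274) (nat_lit 252) (nat_lit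 254)) (PT.lf (nat_lit 47652) (nat_lit 6) (nat_lit 627) (nat_lit 1) (nat_lit 275) (nat_lit 252) (nat_lit 253))) (PT.nd (nat_lit 78) (PT.lf (nat_lit 46360) (nat_lit 3) (nat_lit 610) (nat_lit 0) (nat_lit 276) (nat_lit 252) (nat_lit 252)) (PT.lf (nat_lit 45068) (nat_lit 6) (nat_lit 593) (nat_lit 0) (nat_lit 277) (nat_lit 252) (nat_lit 251))))))) (PT.nd (nat_lit 79092) (PT.nd (nat_lit 78468) (PT.nd (nat_lit 234) (PT.nd (nat_lit 78) (PT.lf (nat_lit 43700) (nat_lit 6) (nat_lit 575) (nat_lit 0) (nat_lit 278) (nat_lit 252) (nat_lit 250)) (PT.nd (nat_lit 78) (PT.lf (nat_lit 42256) (nat_lit 6) (nat_lit 556) (nat_lit 0) (nat_lit 279) (nat_lit 252) (nat_lit 249)) (PT.lf (nat_lit 40736) (nat_lit 6) (nat_lit 536) (nat_lit 0) (nat_lit 280) (nat_lit 252) (nat_lit 248)))) (PT.nd (nat_lit 156) (PT.nd (nat_lit 78) (PT.lf (nat_lit 39140) (nat_lit 6) (nat_lit 515) (nat_lit 0) (nat_lit 281) (nat_lit 252) (nat_lit 247)) (PT.lf (nat_lit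 37468) (nat_lit 6) (nat_lit 493) (nat_lit 0) (nat_lit 282) (nat_lit 252) (nat_lit 246))) (PT.nd (nat_lit 78) (PT.lf (nat_lit 35720) (nat_lit 6) (nat_lit 470) (nat_lit 0) (nat_lit 283) (nat_lit 252) (nat_lit 245)) (PT.lf (nat_lit 33896) (nat_lit 6) (nat_lit 446) (nat_lit 0) (nat_lit 284) (nat_lit 252) (nat_lit 244))))) (PT.nd (nat_lit 312) (PT.nd (nat_lit 156) (PT.nd (nat_lit 78) (PT.lf (nat_lit 33972) (nat_lit 6) (nat_lit 447) (nat_lit 5) (nat_lit 243) (nat_lit 253) (nat_lit 284)) (PT.lf (nat_lit 35796) (nat_lit 6) (nat_lit 471) (nat_lit 5) (nat_lit 244) (nat_lit 253) (nat_lit 283))) (PT.nd (nat_lit 78) (PT.lf (nat_lit 37544) (nat_lit 6) (nat_lit 494) (nat_lit 5) (nat_lit 245) (nat_lit 253) (nat_lit 282)) (PT.lf (nat_lit 39216) (nat_lit 6) (nat_lit 516) (nat_lit 5) (nat_lit 246) (nat_lit 253) (nat_lit 281)))) (PT.nd (nat_lit 156) (PT.nd (nat_lit 78) (PT.lf (nat_lit 40812) (nat_lit 6) (nat_lit 537) (nat_lit 5) (nat_lit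 247) (nat_lit 253) (nat_lit 280)) (PT.lf (nat_lit 42332) (nat_lit 6) (nat_lit 557) (nat_lit 5) (nat_lit 248) (nat_lit 253) (nat_lit 279))) (PT.nd (nat_lit 78) (PT.lf (nat_lit 43776) (nat_lit 6) (nat_lit 576) (nat_lit 5) (nat_lit 249) (nat_lit 253) (nat_lit 278)) (PT.lf (nat_lit 45144) (nat_lit 6) (nat_lit 594) (nat_lit 5) (nat_lit 250) (nat_lit 253) (nat_lit 277)))))) (PT.nd (nat_lit 546) (PT.nd (nat_lit 234) (PT.nd (nat_lit 78) (PT.lf (nat_lit 46436) (nat_lit 6) (nat_lit 611) (nat_lit 5) (nat_lit 251) (nat_lit 253) (nat_lit 276)) (PT.nd (nat_lit 78) (PT.lf (nat_lit 47652) (nat_lit 6) (nat_lit 627) (nat_lit 5) (nat_lit 252) (nat_lit 253) (nat_lit 275)) (PT.lf (nat_lit 48792) (nat_lit 3) (nat_lit 642) (nat_lit 3) (nat_lit 253) (nat_lit 253) (nat_lit 274)))) (PT.nd (nat_lit 156) (PT.nd (nat_lit 78) (PT.lf (nat_lit 49932) (nat_lit 6) (nat_lit 657) (nat_lit 3) (nat_lit 254) (nat_lit 253) (nat_lit 273)) (PT.lf (nat_lit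 50996) (nat_lit 6) (nat_lit 671) (nat_lit 3) (nat_lit 255) (nat_lit 253) (nat_lit 272))) (PT.nd (nat_lit 78) (PT.lf (nat_lit 51984) (nat_lit 6) (nat_lit 684) (nat_lit 3) (nat_lit 256) (nat_lit 253) (nat_lit 271)) (PT.lf (nat_lit 52896) (nat_lit 6) (nat_lit 696) (nat_lit 3) (nat_lit 257) (nat_lit 253) (nat_lit 270))))) (PT.nd (nat_lit 312) (PT.nd (nat_lit 156) (PT.nd (nat_lit 78) (PT.lf (nat_lit 53732) (nat_lit 6) (nat_lit 707) (nat_lit 3) (nat_lit 258) (nat_lit 253) (nat_lit 269)) (PT.lf (nat_lit 54492) (nat_lit 6) (nat_lit 717) (nat_lit 3) (nat_lit 259) (nat_lit 253) (nat_lit 268))) (PT.nd (nat_lit 78) (PT.lf (nat_lit 55176) (nat_lit 6) (nat_lit 726) (nat_lit 3) (nat_lit 260) (nat_lit 253) (nat_lit 267)) (PT.lf (nat_lit 55252) (nat_lit 6) (nat_lit 727) (nat_lit 3) (nat_lit 261) (nat_lit 253) (nat_lit 266)))) (PT.nd (nat_lit 156) (PT.nd (nat_lit 78) (PT.lf (nat_lit 55328) (nat_lit 6) (nat_lit 728) (nat_lit 3) (nat_lit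 262) (nat_lit 253) (nat_lit 265)) (PT.lf (nat_lit 55404) (nat_lit 6) (nat_lit 729) (nat_lit 3) (nat_lit 263) (nat_lit 253) (nat_lit 264))) (PT.nd (nat_lit 78) (PT.lf (nat_lit 55404) (nat_lit 6) (nat_lit 729) (nat_lit 1) (nat_lit 264) (nat_lit 253) (nat_lit 263)) (PT.lf (nat_lit 55328) (nat_lit 6) (nat_lit 728) (nat_lit 1) (nat_lit 265) (nat_lit 253) (nat_lit 262))))))))
noncomputable def pc21 : PT := (PT.nd (nat_lit 80184) (PT.nd (nat_lit 1170) (PT.nd (nat_lit 546) (PT.nd (nat_lit 234) (PT.nd (nat_lit 78) (PT.lf (nat_lit 55252) (nat_lit 6) (nat_lit 727) (nat_lit 1) (nat_lit 266) (nat_lit 253) (nat_lit 261)) (PT.nd (nat_lit 78) (PT.lf (nat_lit 55176) (nat_lit 6) (nat_lit 726) (nat_lit 1) (nat_lit 267) (nat_lit 253) (nat_lit 260)) (PT.lf (nat_lit 54492) (nat_lit 6) (nat_lit 717) (nat_lit 1) (nat_lit 268) (nat_lit 253) (nat_lit 259)))) (PT.nd (nat_lit 156) (PT.nd (nat_lit 78) (PT.lf (nat_lit 53732) (nat_lit 6) (nat_lit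 707) (nat_lit 1) (nat_lit 269) (nat_lit 253) (nat_lit 258)) (PT.lf (nat_lit 52896) (nat_lit 6) (nat_lit 696) (nat_lit 1) (nat_lit 270) (nat_lit 253) (nat_lit 257))) (PT.nd (nat_lit 78) (PT.lf (nat_lit 51984) (nat_lit 6) (nat_lit 684) (nat_lit 1) (nat_lit 271) (nat_lit 253) (nat_lit 256)) (PT.lf (nat_lit 50996) (nat_lit 6) (nat_lit 671) (nat_lit 1) (nat_lit 272) (nat_lit 253) (nat_lit 255))))) (PT.nd (nat_lit 312) (PT.nd (nat_lit 156) (PT.nd (nat_lit 78) (PT.lf (nat_lit 49932) (nat_lit 6) (nat_lit 657) (nat_lit 1) (nat_lit 273) (nat_lit 253) (nat_lit 254)) (PT.lf (nat_lit 48792) (nat_lit 3) (nat_lit 642) (nat_lit 0) (nat_lit 274) (nat_lit 253) (nat_lit 253))) (PT.nd (nat_lit 78) (PT.lf (nat_lit 47652) (nat_lit 6) (nat_lit 627) (nat_lit 0) (nat_lit 275) (nat_lit 253) (nat_lit 252)) (PT.lf (nat_lit 46436) (nat_lit 6) (nat_lit 611) (nat_lit 0) (nat_lit 276) (nat_lit 253) (nat_lit 251)))) (PT.nd (nat_lit 156) (PT.nd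 (nat_lit 78) (PT.lf (nat_lit 45144) (nat_lit 6) (nat_lit 594) (nat_lit 0) (nat_lit 277) (nat_lit 253) (nat_lit 250)) (PT.lf (nat_lit 43776) (nat_lit 6) (nat_lit 576) (nat_lit 0) (nat_lit 278) (nat_lit 253) (nat_lit 249))) (PT.nd (nat_lit 78) (PT.lf (nat_lit 42332) (nat_lit 6) (nat_lit 557) (nat_lit 0) (nat_lit 279) (nat_lit 253) (nat_lit 248)) (PT.lf (nat_lit 40812) (nat_lit 6) (nat_lit 537) (nat_lit 0) (nat_lit 280) (nat_lit 253) (nat_lit 247)))))) (PT.nd (nat_lit 78390) (PT.nd (nat_lit 234) (PT.nd (nat_lit 78) (PT.lf (nat_lit 39216) (nat_lit 6) (nat_lit 516) (nat_lit 0) (nat_lit 281) (nat_lit 253) (nat_lit 246)) (PT.nd (nat_lit 78) (PT.lf (nat_lit 37544) (nat_lit 6) (nat_lit 494) (nat_lit 0) (nat_lit 282) (nat_lit 253) (nat_lit 245)) (PT.lf (nat_lit 35796) (nat_lit 6) (nat_lit 471) (nat_lit 0) (nat_lit 283) (nat_lit 253) (nat_lit 244)))) (PT.nd (nat_lit 78000) (PT.nd (nat_lit 77922) (PT.lf (nat_lit 33972) (nat_lit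 6) (nat_lit 447) (nat_lit 0) (nat_lit 284) (nat_lit 253) (nat_lit 243)) (PT.lf (nat_lit 34048) (nat_lit 6) (nat_lit 448) (nat_lit 5) (nat_lit 242) (nat_lit 254) (nat_lit 284))) (PT.nd (nat_lit 78) (PT.lf (nat_lit 35872) (nat_lit 6) (nat_lit 472) (nat_lit 5) (nat_lit 243) (nat_lit 254) (nat_lit 283)) (PT.lf (nat_lit 37620) (nat_lit 6) (nat_lit 495) (nat_lit 5) (nat_lit 244) (nat_lit 254) (nat_lit 282))))) (PT.nd (nat_lit 312) (PT.nd (nat_lit 156) (PT.nd (nat_lit 78) (PT.lf (nat_lit 39292) (nat_lit 6) (nat_lit 517) (nat_lit 5) (nat_lit 245) (nat_lit 254) (nat_lit 281)) (PT.lf (nat_lit 40888) (nat_lit 6) (nat_lit 538) (nat_lit 5) (nat_lit 246) (nat_lit 254) (nat_lit 280))) (PT.nd (nat_lit 78) (PT.lf (nat_lit 42408) (nat_lit 6) (nat_lit 558) (nat_lit 5) (nat_lit 247) (nat_lit 254) (nat_lit 279)) (PT.lf (nat_lit 43852) (nat_lit 6) (nat_lit 577) (nat_lit 5) (nat_lit 248) (nat_lit 254) (nat_lit 278)))) (PT.nd (nat_lit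 156) (PT.nd (nat_lit 78) (PT.lf (nat_lit 45220) (nat_lit 6) (nat_lit 595) (nat_lit 5) (nat_lit 249) (nat_lit 254) (nat_lit 277)) (PT.lf (nat_lit 46512) (nat_lit 6) (nat_lit 612) (nat_lit 5) (nat_lit 250) (nat_lit 254) (nat_lit 276))) (PT.nd (nat_lit 78) (PT.lf (nat_lit 47728) (nat_lit 6) (nat_lit 628) (nat_lit 5) (nat_lit 251) (nat_lit 254) (nat_lit 275)) (PT.lf (nat_lit 48868) (nat_lit 6) (nat_lit 643) (nat_lit 5) (nat_lit 252) (nat_lit 254) (nat_lit 274))))))) (PT.nd (nat_lit 1170) (PT.nd (nat_lit 546) (PT.nd (nat_lit 234) (PT.nd (nat_lit 78) (PT.lf (nat_lit 49932) (nat_lit 6) (nat_lit 657) (nat_lit 5) (nat_lit 253) (nat_lit 254) (nat_lit 273)) (PT.nd (nat_lit 78) (PT.lf (nat_lit 50920) (nat_lit 3) (nat_lit 670) (nat_lit 3) (nat_lit 254) (nat_lit 254) (nat_lit 272)) (PT.lf (nat_lit 51908) (nat_lit 6) (nat_lit 683) (nat_lit 3) (nat_lit 255) (nat_lit 254) (nat_lit 271)))) (PT.nd (nat_lit 156) (PT.nd (nat_lit 78)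 (PT.lf (nat_lit 52820) (nat_lit 6) (nat_lit 695) (nat_lit 3) (nat_lit 256) (nat_lit 254) (nat_lit 270)) (PT.lf (nat_lit 53656) (nat_lit 6) (nat_lit 706) (nat_lit 3) (nat_lit 257) (nat_lit 254) (nat_lit 269))) (PT.nd (nat_lit 78) (PT.lf (nat_lit 54416) (nat_lit 6) (nat_lit 716) (nat_lit 3) (nat_lit 258) (nat_lit 254) (nat_lit 268)) (PT.lf (nat_lit 55100) (nat_lit 6) (nat_lit 725) (nat_lit 3) (nat_lit 259) (nat_lit 254) (nat_lit 267))))) (PT.nd (nat_lit 312) (PT.nd (nat_lit 156) (PT.nd (nat_lit 78) (PT.lf (nat_lit 55708) (nat_lit 6) (nat_lit 733) (nat_lit 3) (nat_lit 260) (nat_lit 254) (nat_lit 266)) (PT.lf (nat_lit 55784) (nat_lit 6) (nat_lit 734) (nat_lit 3) (nat_lit 261) (nat_lit 254) (nat_lit 265))) (PT.nd (nat_lit 78) (PT.lf (nat_lit 55860) (nat_lit 6) (nat_lit 735) (nat_lit 3) (nat_lit 262) (nat_lit 254) (nat_lit 264)) (PT.lf (nat_lit 55936) (nat_lit 3) (nat_lit 736) (nat_lit 1) (nat_lit 263) (nat_lit 254)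 (nat_lit 263)))) (PT.nd (nat_lit 156) (PT.nd (nat_lit 78) (PT.lf (nat_lit 55860) (nat_lit 6) (nat_lit 735) (nat_lit 1) (nat_lit 264) (nat_lit 254) (nat_lit 262)) (PT.lf (nat_lit 55784) (nat_lit 6) (nat_lit 734) (nat_lit 1) (nat_lit 265) (nat_lit 254) (nat_lit 261))) (PT.nd (nat_lit 78) (PT.lf (nat_lit 55708) (nat_lit 6) (nat_lit 733) (nat_lit 1) (nat_lit 266) (nat_lit 254) (nat_lit 260)) (PT.lf (nat_lit 55100) (nat_lit 6) (nat_lit 725) (nat_lit 1) (nat_lit 267) (nat_lit 254) (nat_lit 259)))))) (PT.nd (nat_lit 546) (PT.nd (nat_lit 234) (PT.nd (nat_lit 78) (PT.lf (nat_lit 54416) (nat_lit 6) (nat_lit 716) (nat_lit 1) (nat_lit 268) (nat_lit 254) (nat_lit 258)) (PT.nd (nat_lit 78) (PT.lf (nat_lit 53656) (nat_lit 6) (nat_lit 706) (nat_lit 1) (nat_lit 269) (nat_lit 254) (nat_lit 257)) (PT.lf (nat_lit 52820) (nat_lit 6) (nat_lit 695) (nat_lit 1) (nat_lit 270) (nat_lit 254) (nat_lit 256)))) (PT.nd (nat_lit 156) (PT.nd (nat_lit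 78) (PT.lf (nat_lit 51908) (nat_lit 6) (nat_lit 683) (nat_lit 1) (nat_lit 271) (nat_lit 254) (nat_lit 255)) (PT.lf (nat_lit 50920) (nat_lit 3) (nat_lit 670) (nat_lit 0) (nat_lit 272) (nat_lit 254) (nat_lit 254))) (PT.nd (nat_lit 78) (PT.lf (nat_lit 49932) (nat_lit 6) (nat_lit 657) (nat_lit 0) (nat_lit 273) (nat_lit 254) (nat_lit 253)) (PT.lf (nat_lit 48868) (nat_lit 6) (nat_lit 643) (nat_lit 0) (nat_lit 274) (nat_lit 254) (nat_lit 252))))) (PT.nd (nat_lit 312) (PT.nd (nat_lit 156) (PT.nd (nat_lit 78) (PT.lf (nat_lit 47728) (nat_lit 6) (nat_lit 628) (nat_lit 0) (nat_lit 275) (nat_lit 254) (nat_lit 251)) (PT.lf (nat_lit 46512) (nat_lit 6) (nat_lit 612) (nat_lit 0) (nat_lit 276) (nat_lit 254) (nat_lit 250))) (PT.nd (nat_lit 78) (PT.lf (nat_lit 45220) (nat_lit 6) (nat_lit 595) (nat_lit 0) (nat_lit 277) (nat_lit 254) (nat_lit 249)) (PT.lf (nat_lit 43852) (nat_lit 6) (nat_lit 577) (nat_lit 0) (nat_lit 278) (nat_lit 254)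 (nat_lit 248)))) (PT.nd (nat_lit 156) (PT.nd (nat_lit 78) (PT.lf (nat_lit 42408) (nat_lit 6) (nat_lit 558) (nat_lit 0) (nat_lit 279) (nat_lit 254) (nat_lit 247)) (PT.lf (nat_lit 40888) (nat_lit 6) (nat_lit 538) (nat_lit 0) (nat_lit 280) (nat_lit 254) (nat_lit 246))) (PT.nd (nat_lit 78) (PT.lf (nat_lit 39292) (nat_lit 6) (nat_lit 517) (nat_lit 0) (nat_lit 281) (nat_lit 254) (nat_lit 245)) (PT.lf (nat_lit 37620) (nat_lit 6) (nat_lit 495) (nat_lit 0) (nat_lit 282) (nat_lit 254) (nat_lit 244))))))))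
noncomputable def pc22 : PT := (PT.nd (nat_lit 80106) (PT.nd (nat_lit 78936) (PT.nd (nat_lit 78312) (PT.nd (nat_lit 78000) (PT.nd (nat_lit 78) (PT.lf (nat_lit 35872) (nat_lit 6) (nat_lit 472) (nat_lit 0) (nat_lit 283) (nat_lit 254) (nat_lit 243)) (PT.nd (nat_lit 77844) (PT.lf (nat_lit 34048) (nat_lit 6) (nat_lit 448) (nat_lit 0) (nat_lit 284) (nat_lit 254) (nat_lit 242)) (PT.lf (nat_lit 34124) (nat_lit 6) (nat_lit 449) (nat_lit 5) (nat_lit 241) (nat_lit 255) (nat_lit 284)))) (PT.nd (nat_lit 156) (PT.nd (nat_lit 78) (PT.lf (nat_lit 35948) (nat_lit 6) (nat_lit 473) (nat_lit 5) (nat_lit 242) (nat_lit 255) (nat_lit 283)) (PT.lf (nat_lit 37696) (nat_lit 6) (nat_lit 496) (nat_lit 5) (nat_lit 243) (nat_lit 255) (nat_lit 282))) (PT.nd (nat_lit 78) (PT.lf (nat_lit 39368) (nat_lit 6) (nat_lit 518) (nat_lit 5) (nat_lit 244) (nat_lit 255) (nat_lit 281)) (PT.lf (nat_lit 40964) (nat_lit 6) (nat_lit 539) (nat_lit 5) (nat_lit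 245) (nat_lit 255) (nat_lit 280))))) (PT.nd (nat_lit 312) (PT.nd (nat_lit 156) (PT.nd (nat_lit 78) (PT.lf (nat_lit 42484) (nat_lit 6) (nat_lit 559) (nat_lit 5) (nat_lit 246) (nat_lit 255) (nat_lit 279)) (PT.lf (nat_lit 43928) (nat_lit 6) (nat_lit 578) (nat_lit 5) (nat_lit 247) (nat_lit 255) (nat_lit 278))) (PT.nd (nat_lit 78) (PT.lf (nat_lit 45296) (nat_lit 6) (nat_lit 596) (nat_lit 5) (nat_lit 248) (nat_lit 255) (nat_lit 277)) (PT.lf (nat_lit 46588) (nat_lit 6) (nat_lit 613) (nat_lit 5) (nat_lit 249) (nat_lit 255) (nat_lit 276)))) (PT.nd (nat_lit 156) (PT.nd (nat_lit 78) (PT.lf (nat_lit 47804) (nat_lit 6) (nat_lit 629) (nat_lit 5) (nat_lit 250) (nat_lit 255) (nat_lit 275)) (PT.lf (nat_lit 48944) (nat_lit 6) (nat_lit 644) (nat_lit 5) (nat_lit 251) (nat_lit 255) (nat_lit 274))) (PT.nd (nat_lit 78) (PT.lf (nat_lit 50008) (nat_lit 6) (nat_lit 658) (nat_lit 5) (nat_lit 252) (nat_lit 255) (nat_lit 273)) (PT.lf (nat_lit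 50996) (nat_lit 6) (nat_lit 671) (nat_lit 5) (nat_lit 253) (nat_lit 255) (nat_lit 272)))))) (PT.nd (nat_lit 546) (PT.nd (nat_lit 234) (PT.nd (nat_lit 78) (PT.lf (nat_lit 51908) (nat_lit 6) (nat_lit 683) (nat_lit 5) (nat_lit 254) (nat_lit 255) (nat_lit 271)) (PT.nd (nat_lit 78) (PT.lf (nat_lit 52744) (nat_lit 3) (nat_lit 694) (nat_lit 3) (nat_lit 255) (nat_lit 255) (nat_lit 270)) (PT.lf (nat_lit 53580) (nat_lit 6) (nat_lit 705) (nat_lit 3) (nat_lit 256) (nat_lit 255) (nat_lit 269)))) (PT.nd (nat_lit 156) (PT.nd (nat_lit 78) (PT.lf (nat_lit 54340) (nat_lit 6) (nat_lit 715) (nat_lit 3) (nat_lit 257) (nat_lit 255) (nat_lit 268)) (PT.lf (nat_lit 55024) (nat_lit 6) (nat_lit 724) (nat_lit 3) (nat_lit 258) (nat_lit 255) (nat_lit 267))) (PT.nd (nat_lit 78) (PT.lf (nat_lit 55632) (nat_lit 6) (nat_lit 732) (nat_lit 3) (nat_lit 259) (nat_lit 255) (nat_lit 266)) (PT.lf (nat_lit 56164) (nat_lit 6) (nat_lit 739) (nat_lit 3) (nat_lit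 260) (nat_lit 255) (nat_lit 265))))) (PT.nd (nat_lit 312) (PT.nd (nat_lit 156) (PT.nd (nat_lit 78) (PT.lf (nat_lit 56240) (nat_lit 6) (nat_lit 740) (nat_lit 3) (nat_lit 261) (nat_lit 255) (nat_lit 264)) (PT.lf (nat_lit 56316) (nat_lit 6) (nat_lit 741) (nat_lit 3) (nat_lit 262) (nat_lit 255) (nat_lit 263))) (PT.nd (nat_lit 78) (PT.lf (nat_lit 56316) (nat_lit 6) (nat_lit 741) (nat_lit 1) (nat_lit 263) (nat_lit 255) (nat_lit 262)) (PT.lf (nat_lit 56240) (nat_lit 6) (nat_lit 740) (nat_lit 1) (nat_lit 264) (nat_lit 255) (nat_lit 261)))) (PT.nd (nat_lit 156) (PT.nd (nat_lit 78) (PT.lf (nat_lit 56164) (nat_lit 6) (nat_lit 739) (nat_lit 1) (nat_lit 265) (nat_lit 255) (nat_lit 260)) (PT.lf (nat_lit 55632) (nat_lit 6) (nat_lit 732) (nat_lit 1) (nat_lit 266) (nat_lit 255) (nat_lit 259))) (PT.nd (nat_lit 78) (PT.lf (nat_lit 55024) (nat_lit 6) (nat_lit 724) (nat_lit 1) (nat_lit 267) (nat_lit 255) (nat_lit 258)) (PT.lf (nat_lit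 54340) (nat_lit 6) (nat_lit 715) (nat_lit 1) (nat_lit 268) (nat_lit 255) (nat_lit 257))))))) (PT.nd (nat_lit 1170) (PT.nd (nat_lit 546) (PT.nd (nat_lit 234) (PT.nd (nat_lit 78) (PT.lf (nat_lit 53580) (nat_lit 6) (nat_lit 705) (nat_lit 1) (nat_lit 269) (nat_lit 255) (nat_lit 256)) (PT.nd (nat_lit 78) (PT.lf (nat_lit 52744) (nat_lit 3) (nat_lit 694) (nat_lit 0) (nat_lit 270) (nat_lit 255) (nat_lit 255)) (PT.lf (nat_lit 51908) (nat_lit 6) (nat_lit 683) (nat_lit 0) (nat_lit 271) (nat_lit 255) (nat_lit 254)))) (PT.nd (nat_lit 156) (PT.nd (nat_lit 78) (PT.lf (nat_lit 50996) (nat_lit 6) (nat_lit 671) (nat_lit 0) (nat_lit 272) (nat_lit 255) (nat_lit 253)) (PT.lf (nat_lit 50008) (nat_lit 6) (nat_lit 658) (nat_lit 0) (nat_lit 273) (nat_lit 255) (nat_lit 252))) (PT.nd (nat_lit 78) (PT.lf (nat_lit 48944) (nat_lit 6) (nat_lit 644) (nat_lit 0) (nat_lit 274) (nat_lit 255) (nat_lit 251)) (PT.lf (nat_lit 47804) (nat_lit 6) (nat_lit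 629) (nat_lit 0) (nat_lit 275) (nat_lit 255) (nat_lit 250))))) (PT.nd (nat_lit 312) (PT.nd (nat_lit 156) (PT.nd (nat_lit 78) (PT.lf (nat_lit 46588) (nat_lit 6) (nat_lit 613) (nat_lit 0) (nat_lit 276) (nat_lit 255) (nat_lit 249)) (PT.lf (nat_lit 45296) (nat_lit 6) (nat_lit 596) (nat_lit 0) (nat_lit 277) (nat_lit 255) (nat_lit 248))) (PT.nd (nat_lit 78) (PT.lf (nat_lit 43928) (nat_lit 6) (nat_lit 578) (nat_lit 0) (nat_lit 278) (nat_lit 255) (nat_lit 247)) (PT.lf (nat_lit 42484) (nat_lit 6) (nat_lit 559) (nat_lit 0) (nat_lit 279) (nat_lit 255) (nat_lit 246)))) (PT.nd (nat_lit 156) (PT.nd (nat_lit 78) (PT.lf (nat_lit 40964) (nat_lit 6) (nat_lit 539) (nat_lit 0) (nat_lit 280) (nat_lit 255) (nat_lit 245)) (PT.lf (nat_lit 39368) (nat_lit 6) (nat_lit 518) (nat_lit 0) (nat_lit 281) (nat_lit 255) (nat_lit 244))) (PT.nd (nat_lit 78) (PT.lf (nat_lit 37696) (nat_lit 6) (nat_lit 496) (nat_lit 0) (nat_lit 282) (nat_lit 255) (nat_lit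 243)) (PT.lf (nat_lit 35948) (nat_lit 6) (nat_lit 473) (nat_lit 0) (nat_lit 283) (nat_lit 255) (nat_lit 242)))))) (PT.nd (nat_lit 78234) (PT.nd (nat_lit 77922) (PT.nd (nat_lit 77766) (PT.lf (nat_lit 34124) (nat_lit 6) (nat_lit 449) (nat_lit 0) (nat_lit 284) (nat_lit 255) (nat_lit 241)) (PT.nd (nat_lit 78) (PT.lf (nat_lit 34200) (nat_lit 6) (nat_lit 450) (nat_lit 5) (nat_lit 240) (nat_lit 256) (nat_lit 284)) (PT.lf (nat_lit 36024) (nat_lit 6) (nat_lit 474) (nat_lit 5) (nat_lit 241) (nat_lit 256) (nat_lit 283)))) (PT.nd (nat_lit 156) (PT.nd (nat_lit 78) (PT.lf (nat_lit 37772) (nat_lit 6) (nat_lit 497) (nat_lit 5) (nat_lit 242) (nat_lit 256) (nat_lit 282)) (PT.lf (nat_lit 39444) (nat_lit 6) (nat_lit 519) (nat_lit 5) (nat_lit 243) (nat_lit 256) (nat_lit 281))) (PT.nd (nat_lit 78) (PT.lf (nat_lit 41040) (nat_lit 6) (nat_lit 540) (nat_lit 5) (nat_lit 244) (nat_lit 256) (nat_lit 280)) (PT.lf (nat_lit 42560) (nat_lit 6)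 (nat_lit 560) (nat_lit 5) (nat_lit 245) (nat_lit 256) (nat_lit 279))))) (PT.nd (nat_lit 312) (PT.nd (nat_lit 156) (PT.nd (nat_lit 78) (PT.lf (nat_lit 44004) (nat_lit 6) (nat_lit 579) (nat_lit 5) (nat_lit 246) (nat_lit 256) (nat_lit 278)) (PT.lf (nat_lit 45372) (nat_lit 6) (nat_lit 597) (nat_lit 5) (nat_lit 247) (nat_lit 256) (nat_lit 277))) (PT.nd (nat_lit 78) (PT.lf (nat_lit 46664) (nat_lit 6) (nat_lit 614) (nat_lit 5) (nat_lit 248) (nat_lit 256) (nat_lit 276)) (PT.lf (nat_lit 47880) (nat_lit 6) (nat_lit 630) (nat_lit 5) (nat_lit 249) (nat_lit 256) (nat_lit 275)))) (PT.nd (nat_lit 156) (PT.nd (nat_lit 78) (PT.lf (nat_lit 49020) (nat_lit 6) (nat_lit 645) (nat_lit 5) (nat_lit 250) (nat_lit 256) (nat_lit 274)) (PT.lf (nat_lit 50084) (nat_lit 6) (nat_lit 659) (nat_lit 5) (nat_lit 251) (nat_lit 256) (nat_lit 273))) (PT.nd (nat_lit 78) (PT.lf (nat_lit 51072) (nat_lit 6) (nat_lit 672) (nat_lit 5) (nat_lit 252) (nat_lit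 256) (nat_lit 272)) (PT.lf (nat_lit 51984) (nat_lit 6) (nat_lit 684) (nat_lit 5) (nat_lit 253) (nat_lit 256) (nat_lit 271))))))))
noncomputable def pc23 : PT := (PT.nd (nat_lit 2340) (PT.nd (nat_lit 1170) (PT.nd (nat_lit 546) (PT.nd (nat_lit 234) (PT.nd (nat_lit 78) (PT.lf (nat_lit 52820) (nat_lit 6) (nat_lit 695) (nat_lit 5) (nat_lit 254) (nat_lit 256) (nat_lit 270)) (PT.nd (nat_lit 78) (PT.lf (nat_lit 53580) (nat_lit 6) (nat_lit 705) (nat_lit 5) (nat_lit 255) (nat_lit 256) (nat_lit 269)) (PT.lf (nat_lit 54264) (nat_lit 3) (nat_lit 714) (nat_lit 3) (nat_lit 256) (nat_lit 256) (nat_lit 268)))) (PT.nd (nat_lit 156) (PT.nd (nat_lit 78) (PT.lf (nat_lit 54948) (nat_lit 6) (nat_lit 723) (nat_lit 3) (nat_lit 257) (nat_lit 256) (nat_lit 267)) (PT.lf (nat_lit 55556) (nat_lit 6) (nat_lit 731) (nat_lit 3) (nat_lit 258) (nat_lit 256) (nat_lit 266))) (PT.nd (nat_lit 78) (PT.lf (nat_lit 56088) (nat_lit 6) (nat_lit 738) (nat_lit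 3) (nat_lit 259) (nat_lit 256) (nat_lit 265)) (PT.lf (nat_lit 56544) (nat_lit 6) (nat_lit 744) (nat_lit 3) (nat_lit 260) (nat_lit 256) (nat_lit 264))))) (PT.nd (nat_lit 312) (PT.nd (nat_lit 156) (PT.nd (nat_lit 78) (PT.lf (nat_lit 56620) (nat_lit 6) (nat_lit 745) (nat_lit 3) (nat_lit 261) (nat_lit 256) (nat_lit 263)) (PT.lf (nat_lit 56696) (nat_lit 3) (nat_lit 746) (nat_lit 1) (nat_lit 262) (nat_lit 256) (nat_lit 262))) (PT.nd (nat_lit 78) (PT.lf (nat_lit 56620) (nat_lit 6) (nat_lit 745) (nat_lit 1) (nat_lit 263) (nat_lit 256) (nat_lit 261)) (PT.lf (nat_lit 56544) (nat_lit 6) (nat_lit 744) (nat_lit 1) (nat_lit 264) (nat_lit 256) (nat_lit 260)))) (PT.nd (nat_lit 156) (PT.nd (nat_lit 78) (PT.lf (nat_lit 56088) (nat_lit 6) (nat_lit 738) (nat_lit 1) (nat_lit 265) (nat_lit 256) (nat_lit 259)) (PT.lf (nat_lit 55556) (nat_lit 6) (nat_lit 731) (nat_lit 1) (nat_lit 266) (nat_lit 256) (nat_lit 258))) (PT.nd (nat_lit 78)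 (PT.lf (nat_lit 54948) (nat_lit 6) (nat_lit 723) (nat_lit 1) (nat_lit 267) (nat_lit 256) (nat_lit 257)) (PT.lf (nat_lit 54264) (nat_lit 3) (nat_lit 714) (nat_lit 0) (nat_lit 268) (nat_lit 256) (nat_lit 256)))))) (PT.nd (nat_lit 546) (PT.nd (nat_lit 234) (PT.nd (nat_lit 78) (PT.lf (nat_lit 53580) (nat_lit 6) (nat_lit 705) (nat_lit 0) (nat_lit 269) (nat_lit 256) (nat_lit 255)) (PT.nd (nat_lit 78) (PT.lf (nat_lit 52820) (nat_lit 6) (nat_lit 695) (nat_lit 0) (nat_lit 270) (nat_lit 256) (nat_lit 254)) (PT.lf (nat_lit 51984) (nat_lit 6) (nat_lit 684) (nat_lit 0) (nat_lit 271) (nat_lit 256) (nat_lit 253)))) (PT.nd (nat_lit 156) (PT.nd (nat_lit 78) (PT.lf (nat_lit 51072) (nat_lit 6) (nat_lit 672) (nat_lit 0) (nat_lit 272) (nat_lit 256) (nat_lit 252)) (PT.lf (nat_lit 50084) (nat_lit 6) (nat_lit 659) (nat_lit 0) (nat_lit 273) (nat_lit 256) (nat_lit 251))) (PT.nd (nat_lit 78) (PT.lf (nat_lit 49020) (nat_lit 6) (nat_lit 645)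 (nat_lit 0) (nat_lit 274) (nat_lit 256) (nat_lit 250)) (PT.lf (nat_lit 47880) (nat_lit 6) (nat_lit 630) (nat_lit 0) (nat_lit 275) (nat_lit 256) (nat_lit 249))))) (PT.nd (nat_lit 312) (PT.nd (nat_lit 156) (PT.nd (nat_lit 78) (PT.lf (nat_lit 46664) (nat_lit 6) (nat_lit 614) (nat_lit 0) (nat_lit 276) (nat_lit 256) (nat_lit 248)) (PT.lf (nat_lit 45372) (nat_lit 6) (nat_lit 597) (nat_lit 0) (nat_lit 277) (nat_lit 256) (nat_lit 247))) (PT.nd (nat_lit 78) (PT.lf (nat_lit 44004) (nat_lit 6) (nat_lit 579) (nat_lit 0) (nat_lit 278) (nat_lit 256) (nat_lit 246)) (PT.lf (nat_lit 42560) (nat_lit 6) (nat_lit 560) (nat_lit 0) (nat_lit 279) (nat_lit 256) (nat_lit 245)))) (PT.nd (nat_lit 156) (PT.nd (nat_lit 78) (PT.lf (nat_lit 41040) (nat_lit 6) (nat_lit 540) (nat_lit 0) (nat_lit 280) (nat_lit 256) (nat_lit 244)) (PT.lf (nat_lit 39444) (nat_lit 6) (nat_lit 519) (nat_lit 0) (nat_lit 281) (nat_lit 256) (nat_lit 243))) (PT.nd (nat_lit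 78) (PT.lf (nat_lit 37772) (nat_lit 6) (nat_lit 497) (nat_lit 0) (nat_lit 282) (nat_lit 256) (nat_lit 242)) (PT.lf (nat_lit 36024) (nat_lit 6) (nat_lit 474) (nat_lit 0) (nat_lit 283) (nat_lit 256) (nat_lit 241))))))) (PT.nd (nat_lit 78780) (PT.nd (nat_lit 78156) (PT.nd (nat_lit 77844) (PT.nd (nat_lit 77688) (PT.lf (nat_lit 34200) (nat_lit 6) (nat_lit 450) (nat_lit 0) (nat_lit 284) (nat_lit 256) (nat_lit 240)) (PT.nd (nat_lit 78) (PT.lf (nat_lit 34276) (nat_lit 6) (nat_lit 451) (nat_lit 5) (nat_lit 239) (nat_lit 257) (nat_lit 284)) (PT.lf (nat_lit 36100) (nat_lit 6) (nat_lit 475) (nat_lit 5) (nat_lit 240) (nat_lit 257) (nat_lit 283)))) (PT.nd (nat_lit 156) (PT.nd (nat_lit 78) (PT.lf (nat_lit 37848) (nat_lit 6) (nat_lit 498) (nat_lit 5) (nat_lit 241) (nat_lit 257) (nat_lit 282)) (PT.lf (nat_lit 39520) (nat_lit 6) (nat_lit 520) (nat_lit 5) (nat_lit 242) (nat_lit 257) (nat_lit 281))) (PT.nd (nat_lit 78) (PT.lf (nat_lit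 41116) (nat_lit 6) (nat_lit 541) (nat_lit 5) (nat_lit 243) (nat_lit 257) (nat_lit 280)) (PT.lf (nat_lit 42636) (nat_lit 6) (nat_lit 561) (nat_lit 5) (nat_lit 244) (nat_lit 257) (nat_lit 279))))) (PT.nd (nat_lit 312) (PT.nd (nat_lit 156) (PT.nd (nat_lit 78) (PT.lf (nat_lit 44080) (nat_lit 6) (nat_lit 580) (nat_lit 5) (nat_lit 245) (nat_lit 257) (nat_lit 278)) (PT.lf (nat_lit 45448) (nat_lit 6) (nat_lit 598) (nat_lit 5) (nat_lit 246) (nat_lit 257) (nat_lit 277))) (PT.nd (nat_lit 78) (PT.lf (nat_lit 46740) (nat_lit 6) (nat_lit 615) (nat_lit 5) (nat_lit 247) (nat_lit 257) (nat_lit 276)) (PT.lf (nat_lit 47956) (nat_lit 6) (nat_lit 631) (nat_lit 5) (nat_lit 248) (nat_lit 257) (nat_lit 275)))) (PT.nd (nat_lit 156) (PT.nd (nat_lit 78) (PT.lf (nat_lit 49096) (nat_lit 6) (nat_lit 646) (nat_lit 5) (nat_lit 249) (nat_lit 257) (nat_lit 274)) (PT.lf (nat_lit 50160) (nat_lit 6) (nat_lit 660) (nat_lit 5) (nat_lit 250) (nat_lit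 257) (nat_lit 273))) (PT.nd (nat_lit 78) (PT.lf (nat_lit 51148) (nat_lit 6) (nat_lit 673) (nat_lit 5) (nat_lit 251) (nat_lit 257) (nat_lit 272)) (PT.lf (nat_lit 52060) (nat_lit 6) (nat_lit 685) (nat_lit 5) (nat_lit 252) (nat_lit 257) (nat_lit 271)))))) (PT.nd (nat_lit 624) (PT.nd (nat_lit 312) (PT.nd (nat_lit 156) (PT.nd (nat_lit 78) (PT.lf (nat_lit 52896) (nat_lit 6) (nat_lit 696) (nat_lit 5) (nat_lit 253) (nat_lit 257) (nat_lit 270)) (PT.lf (nat_lit 53656) (nat_lit 6) (nat_lit 706) (nat_lit 5) (nat_lit 254) (nat_lit 257) (nat_lit 269))) (PT.nd (nat_lit 78) (PT.lf (nat_lit 54340) (nat_lit 6) (nat_lit 715) (nat_lit 5) (nat_lit 255) (nat_lit 257) (nat_lit 268)) (PT.lf (nat_lit 54948) (nat_lit 6) (nat_lit 723) (nat_lit 5) (nat_lit 256) (nat_lit 257) (nat_lit 267)))) (PT.nd (nat_lit 156) (PT.nd (nat_lit 78) (PT.lf (nat_lit 55480) (nat_lit 3) (nat_lit 730) (nat_lit 3) (nat_lit 257) (nat_lit 257) (nat_lit 266)) (PT.lf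 (nat_lit 56012) (nat_lit 6) (nat_lit 737) (nat_lit 3) (nat_lit 258) (nat_lit 257) (nat_lit 265))) (PT.nd (nat_lit 78) (PT.lf (nat_lit 56468) (nat_lit 6) (nat_lit 743) (nat_lit 3) (nat_lit 259) (nat_lit 257) (nat_lit 264)) (PT.lf (nat_lit 56848) (nat_lit 6) (nat_lit 748) (nat_lit 3) (nat_lit 260) (nat_lit 257) (nat_lit 263))))) (PT.nd (nat_lit 312) (PT.nd (nat_lit 156) (PT.nd (nat_lit 78) (PT.lf (nat_lit 56924) (nat_lit 6) (nat_lit 749) (nat_lit 3) (nat_lit 261) (nat_lit 257) (nat_lit 262)) (PT.lf (nat_lit 56924) (nat_lit 6) (nat_lit 749) (nat_lit 1) (nat_lit 262) (nat_lit 257) (nat_lit 261))) (PT.nd (nat_lit 78) (PT.lf (nat_lit 56848) (nat_lit 6) (nat_lit 748) (nat_lit 1) (nat_lit 263) (nat_lit 257) (nat_lit 260)) (PT.lf (nat_lit 56468) (nat_lit 6) (nat_lit 743) (nat_lit 1) (nat_lit 264) (nat_lit 257) (nat_lit 259)))) (PT.nd (nat_lit 156) (PT.nd (nat_lit 78) (PT.lf (nat_lit 56012) (nat_lit 6) (nat_lit 737) (nat_lit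 1) (nat_lit 265) (nat_lit 257) (nat_lit 258)) (PT.lf (nat_lit 55480) (nat_lit 3) (nat_lit 730) (nat_lit 0) (nat_lit 266) (nat_lit 257) (nat_lit 257))) (PT.nd (nat_lit 78) (PT.lf (nat_lit 54948) (nat_lit 6) (nat_lit 723) (nat_lit 0) (nat_lit 267) (nat_lit 257) (nat_lit 256)) (PT.lf (nat_lit 54340) (nat_lit 6) (nat_lit 715) (nat_lit 0) (nat_lit 268) (nat_lit 257) (nat_lit 255))))))))
noncomputable def pc24 : PT := (PT.nd (nat_lit 79872) (PT.nd (nat_lit 1170) (PT.nd (nat_lit 546) (PT.nd (nat_lit 234) (PT.nd (nat_lit 78) (PT.lf (nat_lit 53656) (nat_lit 6) (nat_lit 706) (nat_lit 0) (nat_lit 269) (nat_lit 257) (nat_lit 254)) (PT.nd (nat_lit 78) (PT.lf (nat_lit 52896) (nat_lit 6) (nat_lit 696) (nat_lit 0) (nat_lit 270) (nat_lit 257) (nat_lit 253)) (PT.lf (nat_lit 52060) (nat_lit 6) (nat_lit 685) (nat_lit 0) (nat_lit 271) (nat_lit 257) (nat_lit 252)))) (PT.nd (nat_lit 156) (PT.nd (nat_lit 78) (PT.lf (nat_lit 51148) (nat_lit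 6) (nat_lit 673) (nat_lit 0) (nat_lit 272) (nat_lit 257) (nat_lit 251)) (PT.lf (nat_lit 50160) (nat_lit 6) (nat_lit 660) (nat_lit 0) (nat_lit 273) (nat_lit 257) (nat_lit 250))) (PT.nd (nat_lit 78) (PT.lf (nat_lit 49096) (nat_lit 6) (nat_lit 646) (nat_lit 0) (nat_lit 274) (nat_lit 257) (nat_lit 249)) (PT.lf (nat_lit 47956) (nat_lit 6) (nat_lit 631) (nat_lit 0) (nat_lit 275) (nat_lit 257) (nat_lit 248))))) (PT.nd (nat_lit 312) (PT.nd (nat_lit 156) (PT.nd (nat_lit 78) (PT.lf (nat_lit 46740) (nat_lit 6) (nat_lit 615) (nat_lit 0) (nat_lit 276) (nat_lit 257) (nat_lit 247)) (PT.lf (nat_lit 45448) (nat_lit 6) (nat_lit 598) (nat_lit 0) (nat_lit 277) (nat_lit 257) (nat_lit 246))) (PT.nd (nat_lit 78) (PT.lf (nat_lit 44080) (nat_lit 6) (nat_lit 580) (nat_lit 0) (nat_lit 278) (nat_lit 257) (nat_lit 245)) (PT.lf (nat_lit 42636) (nat_lit 6) (nat_lit 561) (nat_lit 0) (nat_lit 279) (nat_lit 257) (nat_lit 244)))) (PT.nd (nat_lit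 156) (PT.nd (nat_lit 78) (PT.lf (nat_lit 41116) (nat_lit 6) (nat_lit 541) (nat_lit 0) (nat_lit 280) (nat_lit 257) (nat_lit 243)) (PT.lf (nat_lit 39520) (nat_lit 6) (nat_lit 520) (nat_lit 0) (nat_lit 281) (nat_lit 257) (nat_lit 242))) (PT.nd (nat_lit 78) (PT.lf (nat_lit 37848) (nat_lit 6) (nat_lit 498) (nat_lit 0) (nat_lit 282) (nat_lit 257) (nat_lit 241)) (PT.lf (nat_lit 36100) (nat_lit 6) (nat_lit 475) (nat_lit 0) (nat_lit 283) (nat_lit 257) (nat_lit 240)))))) (PT.nd (nat_lit 78078) (PT.nd (nat_lit 77766) (PT.nd (nat_lit 77610) (PT.lf (nat_lit 34276) (nat_lit 6) (nat_lit 451) (nat_lit 0) (nat_lit 284) (nat_lit 257) (nat_lit 239)) (PT.nd (nat_lit 78) (PT.lf (nat_lit 34352) (nat_lit 6) (nat_lit 452) (nat_lit 5) (nat_lit 238) (nat_lit 258) (nat_lit 284)) (PT.lf (nat_lit 36176) (nat_lit 6) (nat_lit 476) (nat_lit 5) (nat_lit 239) (nat_lit 258) (nat_lit 283)))) (PT.nd (nat_lit 156) (PT.nd (nat_lit 78) (PT.lf (nat_lit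 37924) (nat_lit 6) (nat_lit 499) (nat_lit 5) (nat_lit 240) (nat_lit 258) (nat_lit 282)) (PT.lf (nat_lit 39596) (nat_lit 6) (nat_lit 521) (nat_lit 5) (nat_lit 241) (nat_lit 258) (nat_lit 281))) (PT.nd (nat_lit 78) (PT.lf (nat_lit 41192) (nat_lit 6) (nat_lit 542) (nat_lit 5) (nat_lit 242) (nat_lit 258) (nat_lit 280)) (PT.lf (nat_lit 42712) (nat_lit 6) (nat_lit 562) (nat_lit 5) (nat_lit 243) (nat_lit 258) (nat_lit 279))))) (PT.nd (nat_lit 312) (PT.nd (nat_lit 156) (PT.nd (nat_lit 78) (PT.lf (nat_lit 44156) (nat_lit 6) (nat_lit 581) (nat_lit 5) (nat_lit 244) (nat_lit 258) (nat_lit 278)) (PT.lf (nat_lit 45524) (nat_lit 6) (nat_lit 599) (nat_lit 5) (nat_lit 245) (nat_lit 258) (nat_lit 277))) (PT.nd (nat_lit 78) (PT.lf (nat_lit 46816) (nat_lit 6) (nat_lit 616) (nat_lit 5) (nat_lit 246) (nat_lit 258) (nat_lit 276)) (PT.lf (nat_lit 48032) (nat_lit 6) (nat_lit 632) (nat_lit 5) (nat_lit 247) (nat_lit 258) (nat_lit 275))))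 (PT.nd (nat_lit 156) (PT.nd (nat_lit 78) (PT.lf (nat_lit 49172) (nat_lit 6) (nat_lit 647) (nat_lit 5) (nat_lit 248) (nat_lit 258) (nat_lit 274)) (PT.lf (nat_lit 50236) (nat_lit 6) (nat_lit 661) (nat_lit 5) (nat_lit 249) (nat_lit 258) (nat_lit 273))) (PT.nd (nat_lit 78) (PT.lf (nat_lit 51224) (nat_lit 6) (nat_lit 674) (nat_lit 5) (nat_lit 250) (nat_lit 258) (nat_lit 272)) (PT.lf (nat_lit 52136) (nat_lit 6) (nat_lit 686) (nat_lit 5) (nat_lit 251) (nat_lit 258) (nat_lit 271))))))) (PT.nd (nat_lit 1170) (PT.nd (nat_lit 546) (PT.nd (nat_lit 234) (PT.nd (nat_lit 78) (PT.lf (nat_lit 52972) (nat_lit 6) (nat_lit 697) (nat_lit 5) (nat_lit 252) (nat_lit 258) (nat_lit 270)) (PT.nd (nat_lit 78) (PT.lf (nat_lit 53732) (nat_lit 6) (nat_lit 707) (nat_lit 5) (nat_lit 253) (nat_lit 258) (nat_lit 269)) (PT.lf (nat_lit 54416) (nat_lit 6) (nat_lit 716) (nat_lit 5) (nat_lit 254) (nat_lit 258) (nat_lit 268)))) (PT.nd (nat_lit 156) (PT.nd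 (nat_lit 78) (PT.lf (nat_lit 55024) (nat_lit 6) (nat_lit 724) (nat_lit 5) (nat_lit 255) (nat_lit 258) (nat_lit 267)) (PT.lf (nat_lit 55556) (nat_lit 6) (nat_lit 731) (nat_lit 5) (nat_lit 256) (nat_lit 258) (nat_lit 266))) (PT.nd (nat_lit 78) (PT.lf (nat_lit 56012) (nat_lit 6) (nat_lit 737) (nat_lit 5) (nat_lit 257) (nat_lit 258) (nat_lit 265)) (PT.lf (nat_lit 56392) (nat_lit 3) (nat_lit 742) (nat_lit 3) (nat_lit 258) (nat_lit 258) (nat_lit 264))))) (PT.nd (nat_lit 312) (PT.nd (nat_lit 156) (PT.nd (nat_lit 78) (PT.lf (nat_lit 56772) (nat_lit 6) (nat_lit 747) (nat_lit 3) (nat_lit 259) (nat_lit 258) (nat_lit 263)) (PT.lf (nat_lit 57076) (nat_lit 6) (nat_lit 751) (nat_lit 3) (nat_lit 260) (nat_lit 258) (nat_lit 262))) (PT.nd (nat_lit 78) (PT.lf (nat_lit 57152) (nat_lit 3) (nat_lit 752) (nat_lit 1) (nat_lit 261) (nat_lit 258) (nat_lit 261)) (PT.lf (nat_lit 57076) (nat_lit 6) (nat_lit 751) (nat_lit 1) (nat_lit 262) (nat_lit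 258) (nat_lit 260)))) (PT.nd (nat_lit 156) (PT.nd (nat_lit 78) (PT.lf (nat_lit 56772) (nat_lit 6) (nat_lit 747) (nat_lit 1) (nat_lit 263) (nat_lit 258) (nat_lit 259)) (PT.lf (nat_lit 56392) (nat_lit 3) (nat_lit 742) (nat_lit 0) (nat_lit 264) (nat_lit 258) (nat_lit 258))) (PT.nd (nat_lit 78) (PT.lf (nat_lit 56012) (nat_lit 6) (nat_lit 737) (nat_lit 0) (nat_lit 265) (nat_lit 258) (nat_lit 257)) (PT.lf (nat_lit 55556) (nat_lit 6) (nat_lit 731) (nat_lit 0) (nat_lit 266) (nat_lit 258) (nat_lit 256)))))) (PT.nd (nat_lit 546) (PT.nd (nat_lit 234) (PT.nd (nat_lit 78) (PT.lf (nat_lit 55024) (nat_lit 6) (nat_lit 724) (nat_lit 0) (nat_lit 267) (nat_lit 258) (nat_lit 255)) (PT.nd (nat_lit 78) (PT.lf (nat_lit 54416) (nat_lit 6) (nat_lit 716) (nat_lit 0) (nat_lit 268) (nat_lit 258) (nat_lit 254)) (PT.lf (nat_lit 53732) (nat_lit 6) (nat_lit 707) (nat_lit 0) (nat_lit 269) (nat_lit 258) (nat_lit 253)))) (PT.nd (nat_lit 156) (PT.nd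 (nat_lit 78) (PT.lf (nat_lit 52972) (nat_lit 6) (nat_lit 697) (nat_lit 0) (nat_lit 270) (nat_lit 258) (nat_lit 252)) (PT.lf (nat_lit 52136) (nat_lit 6) (nat_lit 686) (nat_lit 0) (nat_lit 271) (nat_lit 258) (nat_lit 251))) (PT.nd (nat_lit 78) (PT.lf (nat_lit 51224) (nat_lit 6) (nat_lit 674) (nat_lit 0) (nat_lit 272) (nat_lit 258) (nat_lit 250)) (PT.lf (nat_lit 50236) (nat_lit 6) (nat_lit 661) (nat_lit 0) (nat_lit 273) (nat_lit 258) (nat_lit 249))))) (PT.nd (nat_lit 312) (PT.nd (nat_lit 156) (PT.nd (nat_lit 78) (PT.lf (nat_lit 49172) (nat_lit 6) (nat_lit 647) (nat_lit 0) (nat_lit 274) (nat_lit 258) (nat_lit 248)) (PT.lf (nat_lit 48032) (nat_lit 6) (nat_lit 632) (nat_lit 0) (nat_lit 275) (nat_lit 258) (nat_lit 247))) (PT.nd (nat_lit 78) (PT.lf (nat_lit 46816) (nat_lit 6) (nat_lit 616) (nat_lit 0) (nat_lit 276) (nat_lit 258) (nat_lit 246)) (PT.lf (nat_lit 45524) (nat_lit 6) (nat_lit 599) (nat_lit 0) (nat_lit 277) (nat_lit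 258) (nat_lit 245)))) (PT.nd (nat_lit 156) (PT.nd (nat_lit 78) (PT.lf (nat_lit 44156) (nat_lit 6) (nat_lit 581) (nat_lit 0) (nat_lit 278) (nat_lit 258) (nat_lit 244)) (PT.lf (nat_lit 42712) (nat_lit 6) (nat_lit 562) (nat_lit 0) (nat_lit 279) (nat_lit 258) (nat_lit 243))) (PT.nd (nat_lit 78) (PT.lf (nat_lit 41192) (nat_lit 6) (nat_lit 542) (nat_lit 0) (nat_lit 280) (nat_lit 258) (nat_lit 242)) (PT.lf (nat_lit 39596) (nat_lit 6) (nat_lit 521) (nat_lit 0) (nat_lit 281) (nat_lit 258) (nat_lit 241))))))))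
noncomputable def pc25 : PT := (PT.nd (nat_lit 79794) (PT.nd (nat_lit 78624) (PT.nd (nat_lit 78000) (PT.nd (nat_lit 77688) (PT.nd (nat_lit 78) (PT.lf (nat_lit 37924) (nat_lit 6) (nat_lit 499) (nat_lit 0) (nat_lit 282) (nat_lit 258) (nat_lit 240)) (PT.nd (nat_lit 78) (PT.lf (nat_lit 36176) (nat_lit 6) (nat_lit 476) (nat_lit 0) (nat_lit 283) (nat_lit 258) (nat_lit 239)) (PT.lf (nat_lit 34352) (nat_lit 6) (nat_lit 452) (nat_lit 0) (nat_lit 284) (nat_lit 258) (nat_lit 238)))) (PT.nd (nat_lit 156) (PT.nd (nat_lit 78) (PT.lf (nat_lit 34428) (nat_lit 6) (nat_lit 453) (nat_lit 5) (nat_lit 237) (nat_lit 259) (nat_lit 284)) (PT.lf (nat_lit 36252) (nat_lit 6) (nat_lit 477) (nat_lit 5) (nat_lit 238) (nat_lit 259) (nat_lit 283))) (PT.nd (nat_lit 78) (PT.lf (nat_lit 38000) (nat_lit 6) (nat_lit 500) (nat_lit 5) (nat_lit 239) (nat_lit 259) (nat_lit 282)) (PT.lf (nat_lit 39672) (nat_lit 6) (nat_lit 522) (nat_lit 5) (nat_lit 240)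 (nat_lit 259) (nat_lit 281))))) (PT.nd (nat_lit 312) (PT.nd (nat_lit 156) (PT.nd (nat_lit 78) (PT.lf (nat_lit 41268) (nat_lit 6) (nat_lit 543) (nat_lit 5) (nat_lit 241) (nat_lit 259) (nat_lit 280)) (PT.lf (nat_lit 42788) (nat_lit 6) (nat_lit 563) (nat_lit 5) (nat_lit 242) (nat_lit 259) (nat_lit 279))) (PT.nd (nat_lit 78) (PT.lf (nat_lit 44232) (nat_lit 6) (nat_lit 582) (nat_lit 5) (nat_lit 243) (nat_lit 259) (nat_lit 278)) (PT.lf (nat_lit 45600) (nat_lit 6) (nat_lit 600) (nat_lit 5) (nat_lit 244) (nat_lit 259) (nat_lit 277)))) (PT.nd (nat_lit 156) (PT.nd (nat_lit 78) (PT.lf (nat_lit 46892) (nat_lit 6) (nat_lit 617) (nat_lit 5) (nat_lit 245) (nat_lit 259) (nat_lit 276)) (PT.lf (nat_lit 48108) (nat_lit 6) (nat_lit 633) (nat_lit 5) (nat_lit 246) (nat_lit 259) (nat_lit 275))) (PT.nd (nat_lit 78) (PT.lf (nat_lit 49248) (nat_lit 6) (nat_lit 648) (nat_lit 5) (nat_lit 247) (nat_lit 259) (nat_lit 274)) (PT.lf (nat_lit 50312)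 (nat_lit 6) (nat_lit 662) (nat_lit 5) (nat_lit 248) (nat_lit 259) (nat_lit 273)))))) (PT.nd (nat_lit 546) (PT.nd (nat_lit 234) (PT.nd (nat_lit 78) (PT.lf (nat_lit 51300) (nat_lit 6) (nat_lit 675) (nat_lit 5) (nat_lit 249) (nat_lit 259) (nat_lit 272)) (PT.nd (nat_lit 78) (PT.lf (nat_lit 52212) (nat_lit 6) (nat_lit 687) (nat_lit 5) (nat_lit 250) (nat_lit 259) (nat_lit 271)) (PT.lf (nat_lit 53048) (nat_lit 6) (nat_lit 698) (nat_lit 5) (nat_lit 251) (nat_lit 259) (nat_lit 270)))) (PT.nd (nat_lit 156) (PT.nd (nat_lit 78) (PT.lf (nat_lit 53808) (nat_lit 6) (nat_lit 708) (nat_lit 5) (nat_lit 252) (nat_lit 259) (nat_lit 269)) (PT.lf (nat_lit 54492) (nat_lit 6) (nat_lit 717) (nat_lit 5) (nat_lit 253) (nat_lit 259) (nat_lit 268))) (PT.nd (nat_lit 78) (PT.lf (nat_lit 55100) (nat_lit 6) (nat_lit 725) (nat_lit 5) (nat_lit 254) (nat_lit 259) (nat_lit 267)) (PT.lf (nat_lit 55632) (nat_lit 6) (nat_lit 732) (nat_lit 5) (nat_lit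 255) (nat_lit 259) (nat_lit 266))))) (PT.nd (nat_lit 312) (PT.nd (nat_lit 156) (PT.nd (nat_lit 78) (PT.lf (nat_lit 56088) (nat_lit 6) (nat_lit 738) (nat_lit 5) (nat_lit 256) (nat_lit 259) (nat_lit 265)) (PT.lf (nat_lit 56468) (nat_lit 6) (nat_lit 743) (nat_lit 5) (nat_lit 257) (nat_lit 259) (nat_lit 264))) (PT.nd (nat_lit 78) (PT.lf (nat_lit 56772) (nat_lit 6) (nat_lit 747) (nat_lit 5) (nat_lit 258) (nat_lit 259) (nat_lit 263)) (PT.lf (nat_lit 57000) (nat_lit 3) (nat_lit 750) (nat_lit 3) (nat_lit 259) (nat_lit 259) (nat_lit 262)))) (PT.nd (nat_lit 156) (PT.nd (nat_lit 78) (PT.lf (nat_lit 57228) (nat_lit 6) (nat_lit 753) (nat_lit 3) (nat_lit 260) (nat_lit 259) (nat_lit 261)) (PT.lf (nat_lit 57228) (nat_lit 6) (nat_lit 753) (nat_lit 1) (nat_lit 261) (nat_lit 259) (nat_lit 260))) (PT.nd (nat_lit 78) (PT.lf (nat_lit 57000) (nat_lit 3) (nat_lit 750) (nat_lit 0) (nat_lit 262) (nat_lit 259) (nat_lit 259)) (PT.lf (nat_lit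 56772) (nat_lit 6) (nat_lit 747) (nat_lit 0) (nat_lit 263) (nat_lit 259) (nat_lit 258))))))) (PT.nd (nat_lit 1170) (PT.nd (nat_lit 546) (PT.nd (nat_lit 234) (PT.nd (nat_lit 78) (PT.lf (nat_lit 56468) (nat_lit 6) (nat_lit 743) (nat_lit 0) (nat_lit 264) (nat_lit 259) (nat_lit 257)) (PT.nd (nat_lit 78) (PT.lf (nat_lit 56088) (nat_lit 6) (nat_lit 738) (nat_lit 0) (nat_lit 265) (nat_lit 259) (nat_lit 256)) (PT.lf (nat_lit 55632) (nat_lit 6) (nat_lit 732) (nat_lit 0) (nat_lit 266) (nat_lit 259) (nat_lit 255)))) (PT.nd (nat_lit 156) (PT.nd (nat_lit 78) (PT.lf (nat_lit 55100) (nat_lit 6) (nat_lit 725) (nat_lit 0) (nat_lit 267) (nat_lit 259) (nat_lit 254)) (PT.lf (nat_lit 54492) (nat_lit 6) (nat_lit 717) (nat_lit 0) (nat_lit 268) (nat_lit 259) (nat_lit 253))) (PT.nd (nat_lit 78) (PT.lf (nat_lit 53808) (nat_lit 6) (nat_lit 708) (nat_lit 0) (nat_lit 269) (nat_lit 259) (nat_lit 252)) (PT.lf (nat_lit 53048) (nat_lit 6) (nat_lit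 698) (nat_lit 0) (nat_lit 270) (nat_lit 259) (nat_lit 251))))) (PT.nd (nat_lit 312) (PT.nd (nat_lit 156) (PT.nd (nat_lit 78) (PT.lf (nat_lit 52212) (nat_lit 6) (nat_lit 687) (nat_lit 0) (nat_lit 271) (nat_lit 259) (nat_lit 250)) (PT.lf (nat_lit 51300) (nat_lit 6) (nat_lit 675) (nat_lit 0) (nat_lit 272) (nat_lit 259) (nat_lit 249))) (PT.nd (nat_lit 78) (PT.lf (nat_lit 50312) (nat_lit 6) (nat_lit 662) (nat_lit 0) (nat_lit 273) (nat_lit 259) (nat_lit 248)) (PT.lf (nat_lit 49248) (nat_lit 6) (nat_lit 648) (nat_lit 0) (nat_lit 274) (nat_lit 259) (nat_lit 247)))) (PT.nd (nat_lit 156) (PT.nd (nat_lit 78) (PT.lf (nat_lit 48108) (nat_lit 6) (nat_lit 633) (nat_lit 0) (nat_lit 275) (nat_lit 259) (nat_lit 246)) (PT.lf (nat_lit 46892) (nat_lit 6) (nat_lit 617) (nat_lit 0) (nat_lit 276) (nat_lit 259) (nat_lit 245))) (PT.nd (nat_lit 78) (PT.lf (nat_lit 45600) (nat_lit 6) (nat_lit 600) (nat_lit 0) (nat_lit 277) (nat_lit 259) (nat_lit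 244)) (PT.lf (nat_lit 44232) (nat_lit 6) (nat_lit 582) (nat_lit 0) (nat_lit 278) (nat_lit 259) (nat_lit 243)))))) (PT.nd (nat_lit 77922) (PT.nd (nat_lit 234) (PT.nd (nat_lit 78) (PT.lf (nat_lit 42788) (nat_lit 6) (nat_lit 563) (nat_lit 0) (nat_lit 279) (nat_lit 259) (nat_lit 242)) (PT.nd (nat_lit 78) (PT.lf (nat_lit 41268) (nat_lit 6) (nat_lit 543) (nat_lit 0) (nat_lit 280) (nat_lit 259) (nat_lit 241)) (PT.lf (nat_lit 39672) (nat_lit 6) (nat_lit 522) (nat_lit 0) (nat_lit 281) (nat_lit 259) (nat_lit 240)))) (PT.nd (nat_lit 156) (PT.nd (nat_lit 78) (PT.lf (nat_lit 38000) (nat_lit 6) (nat_lit 500) (nat_lit 0) (nat_lit 282) (nat_lit 259) (nat_lit 239)) (PT.lf (nat_lit 36252) (nat_lit 6) (nat_lit 477) (nat_lit 0) (nat_lit 283) (nat_lit 259) (nat_lit 238))) (PT.nd (nat_lit 77454) (PT.lf (nat_lit 34428) (nat_lit 6) (nat_lit 453) (nat_lit 0) (nat_lit 284) (nat_lit 259) (nat_lit 237)) (PT.lf (nat_lit 34504) (nat_lit 6)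 (nat_lit 454) (nat_lit 5) (nat_lit 236) (nat_lit 260) (nat_lit 284))))) (PT.nd (nat_lit 312) (PT.nd (nat_lit 156) (PT.nd (nat_lit 78) (PT.lf (nat_lit 36328) (nat_lit 6) (nat_lit 478) (nat_lit 5) (nat_lit 237) (nat_lit 260) (nat_lit 283)) (PT.lf (nat_lit 38076) (nat_lit 6) (nat_lit 501) (nat_lit 5) (nat_lit 238) (nat_lit 260) (nat_lit 282))) (PT.nd (nat_lit 78) (PT.lf (nat_lit 39748) (nat_lit 6) (nat_lit 523) (nat_lit 5) (nat_lit 239) (nat_lit 260) (nat_lit 281)) (PT.lf (nat_lit 41344) (nat_lit 6) (nat_lit 544) (nat_lit 5) (nat_lit 240) (nat_lit 260) (nat_lit 280)))) (PT.nd (nat_lit 156) (PT.nd (nat_lit 78) (PT.lf (nat_lit 42864) (nat_lit 6) (nat_lit 564) (nat_lit 5) (nat_lit 241) (nat_lit 260) (nat_lit 279)) (PT.lf (nat_lit 44308) (nat_lit 6) (nat_lit 583) (nat_lit 5) (nat_lit 242) (nat_lit 260) (nat_lit 278))) (PT.nd (nat_lit 78) (PT.lf (nat_lit 45676) (nat_lit 6) (nat_lit 601) (nat_lit 5) (nat_lit 243) (nat_lit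 260) (nat_lit 277)) (PT.lf (nat_lit 46968) (nat_lit 6) (nat_lit 618) (nat_lit 5) (nat_lit 244) (nat_lit 260) (nat_lit 276))))))))
noncomputable def pc26 : PT := (PT.nd (nat_lit 2340) (PT.nd (nat_lit 1170) (PT.nd (nat_lit 546) (PT.nd (nat_lit 234) (PT.nd (nat_lit 78) (PT.lf (nat_lit 48184) (nat_lit 6) (nat_lit 634) (nat_lit 5) (nat_lit 245) (nat_lit 260) (nat_lit 275)) (PT.nd (nat_lit 78) (PT.lf (nat_lit 49324) (nat_lit 6) (nat_lit 649) (nat_lit 5) (nat_lit 246) (nat_lit 260) (nat_lit 274)) (PT.lf (nat_lit 50388) (nat_lit 6) (nat_lit 663) (nat_lit 5) (nat_lit 247) (nat_lit 260) (nat_lit 273)))) (PT.nd (nat_lit 156) (PT.nd (nat_lit 78) (PT.lf (nat_lit 51376) (nat_lit 6) (nat_lit 676) (nat_lit 5) (nat_lit 248) (nat_lit 260) (nat_lit 272)) (PT.lf (nat_lit 52288) (nat_lit 6) (nat_lit 688) (nat_lit 5) (nat_lit 249) (nat_lit 260) (nat_lit 271))) (PT.nd (nat_lit 78) (PT.lf (nat_lit 53124) (nat_lit 6) (nat_lit 699) (nat_lit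 5) (nat_lit 250) (nat_lit 260) (nat_lit 270)) (PT.lf (nat_lit 53884) (nat_lit 6) (nat_lit 709) (nat_lit 5) (nat_lit 251) (nat_lit 260) (nat_lit 269))))) (PT.nd (nat_lit 312) (PT.nd (nat_lit 156) (PT.nd (nat_lit 78) (PT.lf (nat_lit 54568) (nat_lit 6) (nat_lit 718) (nat_lit 5) (nat_lit 252) (nat_lit 260) (nat_lit 268)) (PT.lf (nat_lit 55176) (nat_lit 6) (nat_lit 726) (nat_lit 5) (nat_lit 253) (nat_lit 260) (nat_lit 267))) (PT.nd (nat_lit 78) (PT.lf (nat_lit 55708) (nat_lit 6) (nat_lit 733) (nat_lit 5) (nat_lit 254) (nat_lit 260) (nat_lit 266)) (PT.lf (nat_lit 56164) (nat_lit 6) (nat_lit 739) (nat_lit 5) (nat_lit 255) (nat_lit 260) (nat_lit 265)))) (PT.nd (nat_lit 156) (PT.nd (nat_lit 78) (PT.lf (nat_lit 56544) (nat_lit 6) (nat_lit 744) (nat_lit 5) (nat_lit 256) (nat_lit 260) (nat_lit 264)) (PT.lf (nat_lit 56848) (nat_lit 6) (nat_lit 748) (nat_lit 5) (nat_lit 257) (nat_lit 260) (nat_lit 263))) (PT.nd (nat_lit 78)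 (PT.lf (nat_lit 57076) (nat_lit 6) (nat_lit 751) (nat_lit 5) (nat_lit 258) (nat_lit 260) (nat_lit 262)) (PT.lf (nat_lit 57228) (nat_lit 6) (nat_lit 753) (nat_lit 5) (nat_lit 259) (nat_lit 260) (nat_lit 261)))))) (PT.nd (nat_lit 546) (PT.nd (nat_lit 234) (PT.nd (nat_lit 78) (PT.lf (nat_lit 57304) (nat_lit 1) (nat_lit 754) (nat_lit 0) (nat_lit 260) (nat_lit 260) (nat_lit 260)) (PT.nd (nat_lit 78) (PT.lf (nat_lit 57228) (nat_lit 6) (nat_lit 753) (nat_lit 0) (nat_lit 261) (nat_lit 260) (nat_lit 259)) (PT.lf (nat_lit 57076) (nat_lit 6) (nat_lit 751) (nat_lit 0) (nat_lit 262) (nat_lit 260) (nat_lit 258)))) (PT.nd (nat_lit 156) (PT.nd (nat_lit 78) (PT.lf (nat_lit 56848) (nat_lit 6) (nat_lit 748) (nat_lit 0) (nat_lit 263) (nat_lit 260) (nat_lit 257)) (PT.lf (nat_lit 56544) (nat_lit 6) (nat_lit 744) (nat_lit 0) (nat_lit 264) (nat_lit 260) (nat_lit 256))) (PT.nd (nat_lit 78) (PT.lf (nat_lit 56164) (nat_lit 6) (nat_lit 739)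 (nat_lit 0) (nat_lit 265) (nat_lit 260) (nat_lit 255)) (PT.lf (nat_lit 55708) (nat_lit 6) (nat_lit 733) (nat_lit 0) (nat_lit 266) (nat_lit 260) (nat_lit 254))))) (PT.nd (nat_lit 312) (PT.nd (nat_lit 156) (PT.nd (nat_lit 78) (PT.lf (nat_lit 55176) (nat_lit 6) (nat_lit 726) (nat_lit 0) (nat_lit 267) (nat_lit 260) (nat_lit 253)) (PT.lf (nat_lit 54568) (nat_lit 6) (nat_lit 718) (nat_lit 0) (nat_lit 268) (nat_lit 260) (nat_lit 252))) (PT.nd (nat_lit 78) (PT.lf (nat_lit 53884) (nat_lit 6) (nat_lit 709) (nat_lit 0) (nat_lit 269) (nat_lit 260) (nat_lit 251)) (PT.lf (nat_lit 53124) (nat_lit 6) (nat_lit 699) (nat_lit 0) (nat_lit 270) (nat_lit 260) (nat_lit 250)))) (PT.nd (nat_lit 156) (PT.nd (nat_lit 78) (PT.lf (nat_lit 52288) (nat_lit 6) (nat_lit 688) (nat_lit 0) (nat_lit 271) (nat_lit 260) (nat_lit 249)) (PT.lf (nat_lit 51376) (nat_lit 6) (nat_lit 676) (nat_lit 0) (nat_lit 272) (nat_lit 260) (nat_lit 248))) (PT.nd (nat_lit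 78) (PT.lf (nat_lit 50388) (nat_lit 6) (nat_lit 663) (nat_lit 0) (nat_lit 273) (nat_lit 260) (nat_lit 247)) (PT.lf (nat_lit 49324) (nat_lit 6) (nat_lit 649) (nat_lit 0) (nat_lit 274) (nat_lit 260) (nat_lit 246))))))) (PT.nd (nat_lit 78390) (PT.nd (nat_lit 546) (PT.nd (nat_lit 234) (PT.nd (nat_lit 78) (PT.lf (nat_lit 48184) (nat_lit 6) (nat_lit 634) (nat_lit 0) (nat_lit 275) (nat_lit 260) (nat_lit 245)) (PT.nd (nat_lit 78) (PT.lf (nat_lit 46968) (nat_lit 6) (nat_lit 618) (nat_lit 0) (nat_lit 276) (nat_lit 260) (nat_lit 244)) (PT.lf (nat_lit 45676) (nat_lit 6) (nat_lit 601) (nat_lit 0) (nat_lit 277) (nat_lit 260) (nat_lit 243)))) (PT.nd (nat_lit 156) (PT.nd (nat_lit 78) (PT.lf (nat_lit 44308) (nat_lit 6) (nat_lit 583) (nat_lit 0) (nat_lit 278) (nat_lit 260) (nat_lit 242)) (PT.lf (nat_lit 42864) (nat_lit 6) (nat_lit 564) (nat_lit 0) (nat_lit 279) (nat_lit 260) (nat_lit 241))) (PT.nd (nat_lit 78) (PT.lf (nat_lit 41344)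 (nat_lit 6) (nat_lit 544) (nat_lit 0) (nat_lit 280) (nat_lit 260) (nat_lit 240)) (PT.lf (nat_lit 39748) (nat_lit 6) (nat_lit 523) (nat_lit 0) (nat_lit 281) (nat_lit 260) (nat_lit 239))))) (PT.nd (nat_lit 77532) (PT.nd (nat_lit 156) (PT.nd (nat_lit 78) (PT.lf (nat_lit 38076) (nat_lit 6) (nat_lit 501) (nat_lit 0) (nat_lit 282) (nat_lit 260) (nat_lit 238)) (PT.lf (nat_lit 36328) (nat_lit 6) (nat_lit 478) (nat_lit 0) (nat_lit 283) (nat_lit 260) (nat_lit 237))) (PT.nd (nat_lit 77298) (PT.lf (nat_lit 34504) (nat_lit 6) (nat_lit 454) (nat_lit 0) (nat_lit 284) (nat_lit 260) (nat_lit 236)) (PT.lf (nat_lit 31768) (nat_lit 6) (nat_lit 418) (nat_lit 5) (nat_lit 234) (nat_lit 261) (nat_lit 285)))) (PT.nd (nat_lit 156) (PT.nd (nat_lit 78) (PT.lf (nat_lit 32832) (nat_lit 6) (nat_lit 432) (nat_lit 5) (nat_lit 235) (nat_lit 261) (nat_lit 284)) (PT.lf (nat_lit 34580) (nat_lit 6) (nat_lit 455) (nat_lit 5) (nat_lit 236) (nat_lit 261)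 (nat_lit 283))) (PT.nd (nat_lit 78) (PT.lf (nat_lit 36404) (nat_lit 6) (nat_lit 479) (nat_lit 5) (nat_lit 237) (nat_lit 261) (nat_lit 282)) (PT.lf (nat_lit 38152) (nat_lit 6) (nat_lit 502) (nat_lit 5) (nat_lit 238) (nat_lit 261) (nat_lit 281)))))) (PT.nd (nat_lit 546) (PT.nd (nat_lit 234) (PT.nd (nat_lit 78) (PT.lf (nat_lit 39824) (nat_lit 6) (nat_lit 524) (nat_lit 5) (nat_lit 239) (nat_lit 261) (nat_lit 280)) (PT.nd (nat_lit 78) (PT.lf (nat_lit 41420) (nat_lit 6) (nat_lit 545) (nat_lit 5) (nat_lit 240) (nat_lit 261) (nat_lit 279)) (PT.lf (nat_lit 42940) (nat_lit 6) (nat_lit 565) (nat_lit 5) (nat_lit 241) (nat_lit 261) (nat_lit 278)))) (PT.nd (nat_lit 156) (PT.nd (nat_lit 78) (PT.lf (nat_lit 44384) (nat_lit 6) (nat_lit 584) (nat_lit 5) (nat_lit 242) (nat_lit 261) (nat_lit 277)) (PT.lf (nat_lit 45752) (nat_lit 6) (nat_lit 602) (nat_lit 5) (nat_lit 243) (nat_lit 261) (nat_lit 276))) (PT.nd (nat_lit 78) (PT.lf (nat_lit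 47044) (nat_lit 6) (nat_lit 619) (nat_lit 5) (nat_lit 244) (nat_lit 261) (nat_lit 275)) (PT.lf (nat_lit 48260) (nat_lit 6) (nat_lit 635) (nat_lit 5) (nat_lit 245) (nat_lit 261) (nat_lit 274))))) (PT.nd (nat_lit 312) (PT.nd (nat_lit 156) (PT.nd (nat_lit 78) (PT.lf (nat_lit 49400) (nat_lit 6) (nat_lit 650) (nat_lit 5) (nat_lit 246) (nat_lit 261) (nat_lit 273)) (PT.lf (nat_lit 50464) (nat_lit 6) (nat_lit 664) (nat_lit 5) (nat_lit 247) (nat_lit 261) (nat_lit 272))) (PT.nd (nat_lit 78) (PT.lf (nat_lit 51452) (nat_lit 6) (nat_lit 677) (nat_lit 5) (nat_lit 248) (nat_lit 261) (nat_lit 271)) (PT.lf (nat_lit 52364) (nat_lit 6) (nat_lit 689) (nat_lit 5) (nat_lit 249) (nat_lit 261) (nat_lit 270)))) (PT.nd (nat_lit 156) (PT.nd (nat_lit 78) (PT.lf (nat_lit 53200) (nat_lit 6) (nat_lit 700) (nat_lit 5) (nat_lit 250) (nat_lit 261) (nat_lit 269)) (PT.lf (nat_lit 53960) (nat_lit 6) (nat_lit 710) (nat_lit 5) (nat_lit 251) (nat_lit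 261) (nat_lit 268))) (PT.nd (nat_lit 78) (PT.lf (nat_lit 54644) (nat_lit 6) (nat_lit 719) (nat_lit 5) (nat_lit 252) (nat_lit 261) (nat_lit 267)) (PT.lf (nat_lit 55252) (nat_lit 6) (nat_lit 727) (nat_lit 5) (nat_lit 253) (nat_lit 261) (nat_lit 266))))))))
noncomputable def pc27 : PT := (PT.nd (nat_lit 2340) (PT.nd (nat_lit 1170) (PT.nd (nat_lit 546) (PT.nd (nat_lit 234) (PT.nd (nat_lit 78) (PT.lf (nat_lit 55784) (nat_lit 6) (nat_lit 734) (nat_lit 5) (nat_lit 254) (nat_lit 261) (nat_lit 265)) (PT.nd (nat_lit 78) (PT.lf (nat_lit 56240) (nat_lit 6) (nat_lit 740) (nat_lit 5) (nat_lit 255) (nat_lit 261) (nat_lit 264)) (PT.lf (nat_lit 56620) (nat_lit 6) (nat_lit 745) (nat_lit 5) (nat_lit 256) (nat_lit 261) (nat_lit 263)))) (PT.nd (nat_lit 156) (PT.nd (nat_lit 78) (PT.lf (nat_lit 56924) (nat_lit 6) (nat_lit 749) (nat_lit 5) (nat_lit 257) (nat_lit 261) (nat_lit 262)) (PT.lf (nat_lit 57152) (nat_lit 3) (nat_lit 752) (nat_lit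 4) (nat_lit 258) (nat_lit 261) (nat_lit 261))) (PT.nd (nat_lit 78) (PT.lf (nat_lit 57228) (nat_lit 6) (nat_lit 753) (nat_lit 4) (nat_lit 259) (nat_lit 261) (nat_lit 260)) (PT.lf (nat_lit 57228) (nat_lit 6) (nat_lit 753) (nat_lit 2) (nat_lit 260) (nat_lit 261) (nat_lit 259))))) (PT.nd (nat_lit 312) (PT.nd (nat_lit 156) (PT.nd (nat_lit 78) (PT.lf (nat_lit 57152) (nat_lit 3) (nat_lit 752) (nat_lit 0) (nat_lit 261) (nat_lit 261) (nat_lit 258)) (PT.lf (nat_lit 56924) (nat_lit 6) (nat_lit 749) (nat_lit 0) (nat_lit 262) (nat_lit 261) (nat_lit 257))) (PT.nd (nat_lit 78) (PT.lf (nat_lit 56620) (nat_lit 6) (nat_lit 745) (nat_lit 0) (nat_lit 263) (nat_lit 261) (nat_lit 256)) (PT.lf (nat_lit 56240) (nat_lit 6) (nat_lit 740) (nat_lit 0) (nat_lit 264) (nat_lit 261) (nat_lit 255)))) (PT.nd (nat_lit 156) (PT.nd (nat_lit 78) (PT.lf (nat_lit 55784) (nat_lit 6) (nat_lit 734) (nat_lit 0) (nat_lit 265) (nat_lit 261) (nat_lit 254))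 (PT.lf (nat_lit 55252) (nat_lit 6) (nat_lit 727) (nat_lit 0) (nat_lit 266) (nat_lit 261) (nat_lit 253))) (PT.nd (nat_lit 78) (PT.lf (nat_lit 54644) (nat_lit 6) (nat_lit 719) (nat_lit 0) (nat_lit 267) (nat_lit 261) (nat_lit 252)) (PT.lf (nat_lit 53960) (nat_lit 6) (nat_lit 710) (nat_lit 0) (nat_lit 268) (nat_lit 261) (nat_lit 251)))))) (PT.nd (nat_lit 546) (PT.nd (nat_lit 234) (PT.nd (nat_lit 78) (PT.lf (nat_lit 53200) (nat_lit 6) (nat_lit 700) (nat_lit 0) (nat_lit 269) (nat_lit 261) (nat_lit 250)) (PT.nd (nat_lit 78) (PT.lf (nat_lit 52364) (nat_lit 6) (nat_lit 689) (nat_lit 0) (nat_lit 270) (nat_lit 261) (nat_lit 249)) (PT.lf (nat_lit 51452) (nat_lit 6) (nat_lit 677) (nat_lit 0) (nat_lit 271) (nat_lit 261) (nat_lit 248)))) (PT.nd (nat_lit 156) (PT.nd (nat_lit 78) (PT.lf (nat_lit 50464) (nat_lit 6) (nat_lit 664) (nat_lit 0) (nat_lit 272) (nat_lit 261) (nat_lit 247)) (PT.lf (nat_lit 49400) (nat_lit 6) (nat_lit 650)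 (nat_lit 0) (nat_lit 273) (nat_lit 261) (nat_lit 246))) (PT.nd (nat_lit 78) (PT.lf (nat_lit 48260) (nat_lit 6) (nat_lit 635) (nat_lit 0) (nat_lit 274) (nat_lit 261) (nat_lit 245)) (PT.lf (nat_lit 47044) (nat_lit 6) (nat_lit 619) (nat_lit 0) (nat_lit 275) (nat_lit 261) (nat_lit 244))))) (PT.nd (nat_lit 312) (PT.nd (nat_lit 156) (PT.nd (nat_lit 78) (PT.lf (nat_lit 45752) (nat_lit 6) (nat_lit 602) (nat_lit 0) (nat_lit 276) (nat_lit 261) (nat_lit 243)) (PT.lf (nat_lit 44384) (nat_lit 6) (nat_lit 584) (nat_lit 0) (nat_lit 277) (nat_lit 261) (nat_lit 242))) (PT.nd (nat_lit 78) (PT.lf (nat_lit 42940) (nat_lit 6) (nat_lit 565) (nat_lit 0) (nat_lit 278) (nat_lit 261) (nat_lit 241)) (PT.lf (nat_lit 41420) (nat_lit 6) (nat_lit 545) (nat_lit 0) (nat_lit 279) (nat_lit 261) (nat_lit 240)))) (PT.nd (nat_lit 156) (PT.nd (nat_lit 78) (PT.lf (nat_lit 39824) (nat_lit 6) (nat_lit 524) (nat_lit 0) (nat_lit 280) (nat_lit 261) (nat_lit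 239)) (PT.lf (nat_lit 38152) (nat_lit 6) (nat_lit 502) (nat_lit 0) (nat_lit 281) (nat_lit 261) (nat_lit 238))) (PT.nd (nat_lit 78) (PT.lf (nat_lit 36404) (nat_lit 6) (nat_lit 479) (nat_lit 0) (nat_lit 282) (nat_lit 261) (nat_lit 237)) (PT.lf (nat_lit 34580) (nat_lit 6) (nat_lit 455) (nat_lit 0) (nat_lit 283) (nat_lit 261) (nat_lit 236))))))) (PT.nd (nat_lit 78234) (PT.nd (nat_lit 77610) (PT.nd (nat_lit 77298) (PT.nd (nat_lit 78) (PT.lf (nat_lit 32832) (nat_lit 6) (nat_lit 432) (nat_lit 0) (nat_lit 284) (nat_lit 261) (nat_lit 235)) (PT.nd (nat_lit 77142) (PT.lf (nat_lit 31768) (nat_lit 6) (nat_lit 418) (nat_lit 0) (nat_lit 285) (nat_lit 261) (nat_lit 234)) (PT.lf (nat_lit 30856) (nat_lit 6) (nat_lit 406) (nat_lit 5) (nat_lit 233) (nat_lit 262) (nat_lit 285)))) (PT.nd (nat_lit 156) (PT.nd (nat_lit 78) (PT.lf (nat_lit 31844) (nat_lit 6) (nat_lit 419) (nat_lit 5) (nat_lit 234) (nat_lit 262) (nat_lit 284)) (PT.lf (nat_lit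 32908) (nat_lit 6) (nat_lit 433) (nat_lit 5) (nat_lit 235) (nat_lit 262) (nat_lit 283))) (PT.nd (nat_lit 78) (PT.lf (nat_lit 34656) (nat_lit 6) (nat_lit 456) (nat_lit 5) (nat_lit 236) (nat_lit 262) (nat_lit 282)) (PT.lf (nat_lit 36480) (nat_lit 6) (nat_lit 480) (nat_lit 5) (nat_lit 237) (nat_lit 262) (nat_lit 281))))) (PT.nd (nat_lit 312) (PT.nd (nat_lit 156) (PT.nd (nat_lit 78) (PT.lf (nat_lit 38228) (nat_lit 6) (nat_lit 503) (nat_lit 5) (nat_lit 238) (nat_lit 262) (nat_lit 280)) (PT.lf (nat_lit 39900) (nat_lit 6) (nat_lit 525) (nat_lit 5) (nat_lit 239) (nat_lit 262) (nat_lit 279))) (PT.nd (nat_lit 78) (PT.lf (nat_lit 41496) (nat_lit 6) (nat_lit 546) (nat_lit 5) (nat_lit 240) (nat_lit 262) (nat_lit 278)) (PT.lf (nat_lit 43016) (nat_lit 6) (nat_lit 566) (nat_lit 5) (nat_lit 241) (nat_lit 262) (nat_lit 277)))) (PT.nd (nat_lit 156) (PT.nd (nat_lit 78) (PT.lf (nat_lit 44460) (nat_lit 6) (nat_lit 585) (nat_lit 5) (nat_lit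 242) (nat_lit 262) (nat_lit 276)) (PT.lf (nat_lit 45828) (nat_lit 6) (nat_lit 603) (nat_lit 5) (nat_lit 243) (nat_lit 262) (nat_lit 275))) (PT.nd (nat_lit 78) (PT.lf (nat_lit 47120) (nat_lit 6) (nat_lit 620) (nat_lit 5) (nat_lit 244) (nat_lit 262) (nat_lit 274)) (PT.lf (nat_lit 48336) (nat_lit 6) (nat_lit 636) (nat_lit 5) (nat_lit 245) (nat_lit 262) (nat_lit 273)))))) (PT.nd (nat_lit 546) (PT.nd (nat_lit 234) (PT.nd (nat_lit 78) (PT.lf (nat_lit 49476) (nat_lit 6) (nat_lit 651) (nat_lit 5) (nat_lit 246) (nat_lit 262) (nat_lit 272)) (PT.nd (nat_lit 78) (PT.lf (nat_lit 50540) (nat_lit 6) (nat_lit 665) (nat_lit 5) (nat_lit 247) (nat_lit 262) (nat_lit 271)) (PT.lf (nat_lit 51528) (nat_lit 6) (nat_lit 678) (nat_lit 5) (nat_lit 248) (nat_lit 262) (nat_lit 270)))) (PT.nd (nat_lit 156) (PT.nd (nat_lit 78) (PT.lf (nat_lit 52440) (nat_lit 6) (nat_lit 690) (nat_lit 5) (nat_lit 249) (nat_lit 262) (nat_lit 269)) (PT.lf (nat_lit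 53276) (nat_lit 6) (nat_lit 701) (nat_lit 5) (nat_lit 250) (nat_lit 262) (nat_lit 268))) (PT.nd (nat_lit 78) (PT.lf (nat_lit 54036) (nat_lit 6) (nat_lit 711) (nat_lit 5) (nat_lit 251) (nat_lit 262) (nat_lit 267)) (PT.lf (nat_lit 54720) (nat_lit 6) (nat_lit 720) (nat_lit 5) (nat_lit 252) (nat_lit 262) (nat_lit 266))))) (PT.nd (nat_lit 312) (PT.nd (nat_lit 156) (PT.nd (nat_lit 78) (PT.lf (nat_lit 55328) (nat_lit 6) (nat_lit 728) (nat_lit 5) (nat_lit 253) (nat_lit 262) (nat_lit 265)) (PT.lf (nat_lit 55860) (nat_lit 6) (nat_lit 735) (nat_lit 5) (nat_lit 254) (nat_lit 262) (nat_lit 264))) (PT.nd (nat_lit 78) (PT.lf (nat_lit 56316) (nat_lit 6) (nat_lit 741) (nat_lit 5) (nat_lit 255) (nat_lit 262) (nat_lit 263)) (PT.lf (nat_lit 56696) (nat_lit 3) (nat_lit 746) (nat_lit 4) (nat_lit 256) (nat_lit 262) (nat_lit 262)))) (PT.nd (nat_lit 156) (PT.nd (nat_lit 78) (PT.lf (nat_lit 56924) (nat_lit 6) (nat_lit 749) (nat_lit 4) (nat_lit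 257) (nat_lit 262) (nat_lit 261)) (PT.lf (nat_lit 57076) (nat_lit 6) (nat_lit 751) (nat_lit 4) (nat_lit 258) (nat_lit 262) (nat_lit 260))) (PT.nd (nat_lit 78) (PT.lf (nat_lit 57000) (nat_lit 3) (nat_lit 750) (nat_lit 2) (nat_lit 259) (nat_lit 262) (nat_lit 259)) (PT.lf (nat_lit 57076) (nat_lit 6) (nat_lit 751) (nat_lit 2) (nat_lit 260) (nat_lit 262) (nat_lit 258))))))))
noncomputable def pc28 : PT := (PT.nd (nat_lit 79326) (PT.nd (nat_lit 1170) (PT.nd (nat_lit 546) (PT.nd (nat_lit 234) (PT.nd (nat_lit 78) (PT.lf (nat_lit 56924) (nat_lit 6) (nat_lit 749) (nat_lit 2) (nat_lit 261) (nat_lit 262) (nat_lit 257)) (PT.nd (nat_lit 78) (PT.lf (nat_lit 56696) (nat_lit 3) (nat_lit 746) (nat_lit 0) (nat_lit 262) (nat_lit 262) (nat_lit 256)) (PT.lf (nat_lit 56316) (nat_lit 6) (nat_lit 741) (nat_lit 0) (nat_lit 263) (nat_lit 262) (nat_lit 255)))) (PT.nd (nat_lit 156) (PT.nd (nat_lit 78) (PT.lf (nat_lit 55860) (nat_lit 6) (nat_lit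 735) (nat_lit 0) (nat_lit 264) (nat_lit 262) (nat_lit 254)) (PT.lf (nat_lit 55328) (nat_lit 6) (nat_lit 728) (nat_lit 0) (nat_lit 265) (nat_lit 262) (nat_lit 253))) (PT.nd (nat_lit 78) (PT.lf (nat_lit 54720) (nat_lit 6) (nat_lit 720) (nat_lit 0) (nat_lit 266) (nat_lit 262) (nat_lit 252)) (PT.lf (nat_lit 54036) (nat_lit 6) (nat_lit 711) (nat_lit 0) (nat_lit 267) (nat_lit 262) (nat_lit 251))))) (PT.nd (nat_lit 312) (PT.nd (nat_lit 156) (PT.nd (nat_lit 78) (PT.lf (nat_lit 53276) (nat_lit 6) (nat_lit 701) (nat_lit 0) (nat_lit 268) (nat_lit 262) (nat_lit 250)) (PT.lf (nat_lit 52440) (nat_lit 6) (nat_lit 690) (nat_lit 0) (nat_lit 269) (nat_lit 262) (nat_lit 249))) (PT.nd (nat_lit 78) (PT.lf (nat_lit 51528) (nat_lit 6) (nat_lit 678) (nat_lit 0) (nat_lit 270) (nat_lit 262) (nat_lit 248)) (PT.lf (nat_lit 50540) (nat_lit 6) (nat_lit 665) (nat_lit 0) (nat_lit 271) (nat_lit 262) (nat_lit 247)))) (PT.nd (nat_lit 156) (PT.nd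 (nat_lit 78) (PT.lf (nat_lit 49476) (nat_lit 6) (nat_lit 651) (nat_lit 0) (nat_lit 272) (nat_lit 262) (nat_lit 246)) (PT.lf (nat_lit 48336) (nat_lit 6) (nat_lit 636) (nat_lit 0) (nat_lit 273) (nat_lit 262) (nat_lit 245))) (PT.nd (nat_lit 78) (PT.lf (nat_lit 47120) (nat_lit 6) (nat_lit 620) (nat_lit 0) (nat_lit 274) (nat_lit 262) (nat_lit 244)) (PT.lf (nat_lit 45828) (nat_lit 6) (nat_lit 603) (nat_lit 0) (nat_lit 275) (nat_lit 262) (nat_lit 243)))))) (PT.nd (nat_lit 546) (PT.nd (nat_lit 234) (PT.nd (nat_lit 78) (PT.lf (nat_lit 44460) (nat_lit 6) (nat_lit 585) (nat_lit 0) (nat_lit 276) (nat_lit 262) (nat_lit 242)) (PT.nd (nat_lit 78) (PT.lf (nat_lit 43016) (nat_lit 6) (nat_lit 566) (nat_lit 0) (nat_lit 277) (nat_lit 262) (nat_lit 241)) (PT.lf (nat_lit 41496) (nat_lit 6) (nat_lit 546) (nat_lit 0) (nat_lit 278) (nat_lit 262) (nat_lit 240)))) (PT.nd (nat_lit 156) (PT.nd (nat_lit 78) (PT.lf (nat_lit 39900) (nat_lit 6)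 (nat_lit 525) (nat_lit 0) (nat_lit 279) (nat_lit 262) (nat_lit 239)) (PT.lf (nat_lit 38228) (nat_lit 6) (nat_lit 503) (nat_lit 0) (nat_lit 280) (nat_lit 262) (nat_lit 238))) (PT.nd (nat_lit 78) (PT.lf (nat_lit 36480) (nat_lit 6) (nat_lit 480) (nat_lit 0) (nat_lit 281) (nat_lit 262) (nat_lit 237)) (PT.lf (nat_lit 34656) (nat_lit 6) (nat_lit 456) (nat_lit 0) (nat_lit 282) (nat_lit 262) (nat_lit 236))))) (PT.nd (nat_lit 77298) (PT.nd (nat_lit 156) (PT.nd (nat_lit 78) (PT.lf (nat_lit 32908) (nat_lit 6) (nat_lit 433) (nat_lit 0) (nat_lit 283) (nat_lit 262) (nat_lit 235)) (PT.lf (nat_lit 31844) (nat_lit 6) (nat_lit 419) (nat_lit 0) (nat_lit 284) (nat_lit 262) (nat_lit 234))) (PT.nd (nat_lit 77064) (PT.lf (nat_lit 30856) (nat_lit 6) (nat_lit 406) (nat_lit 0) (nat_lit 285) (nat_lit 262) (nat_lit 233)) (PT.lf (nat_lit 29944) (nat_lit 6) (nat_lit 394) (nat_lit 5) (nat_lit 232) (nat_lit 263) (nat_lit 285)))) (PT.nd (nat_lit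 156) (PT.nd (nat_lit 78) (PT.lf (nat_lit 30932) (nat_lit 6) (nat_lit 407) (nat_lit 5) (nat_lit 233) (nat_lit 263) (nat_lit 284)) (PT.lf (nat_lit 31920) (nat_lit 6) (nat_lit 420) (nat_lit 5) (nat_lit 234) (nat_lit 263) (nat_lit 283))) (PT.nd (nat_lit 78) (PT.lf (nat_lit 32984) (nat_lit 6) (nat_lit 434) (nat_lit 5) (nat_lit 235) (nat_lit 263) (nat_lit 282)) (PT.lf (nat_lit 34732) (nat_lit 6) (nat_lit 457) (nat_lit 5) (nat_lit 236) (nat_lit 263) (nat_lit 281))))))) (PT.nd (nat_lit 1170) (PT.nd (nat_lit 546) (PT.nd (nat_lit 234) (PT.nd (nat_lit 78) (PT.lf (nat_lit 36556) (nat_lit 6) (nat_lit 481) (nat_lit 5) (nat_lit 237) (nat_lit 263) (nat_lit 280)) (PT.nd (nat_lit 78) (PT.lf (nat_lit 38304) (nat_lit 6) (nat_lit 504) (nat_lit 5) (nat_lit 238) (nat_lit 263) (nat_lit 279)) (PT.lf (nat_lit 39976) (nat_lit 6) (nat_lit 526) (nat_lit 5) (nat_lit 239) (nat_lit 263) (nat_lit 278)))) (PT.nd (nat_lit 156) (PT.nd (nat_lit 78)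 (PT.lf (nat_lit 41572) (nat_lit 6) (nat_lit 547) (nat_lit 5) (nat_lit 240) (nat_lit 263) (nat_lit 277)) (PT.lf (nat_lit 43092) (nat_lit 6) (nat_lit 567) (nat_lit 5) (nat_lit 241) (nat_lit 263) (nat_lit 276))) (PT.nd (nat_lit 78) (PT.lf (nat_lit 44536) (nat_lit 6) (nat_lit 586) (nat_lit 5) (nat_lit 242) (nat_lit 263) (nat_lit 275)) (PT.lf (nat_lit 45904) (nat_lit 6) (nat_lit 604) (nat_lit 5) (nat_lit 243) (nat_lit 263) (nat_lit 274))))) (PT.nd (nat_lit 312) (PT.nd (nat_lit 156) (PT.nd (nat_lit 78) (PT.lf (nat_lit 47196) (nat_lit 6) (nat_lit 621) (nat_lit 5) (nat_lit 244) (nat_lit 263) (nat_lit 273)) (PT.lf (nat_lit 48412) (nat_lit 6) (nat_lit 637) (nat_lit 5) (nat_lit 245) (nat_lit 263) (nat_lit 272))) (PT.nd (nat_lit 78) (PT.lf (nat_lit 49552) (nat_lit 6) (nat_lit 652) (nat_lit 5) (nat_lit 246) (nat_lit 263) (nat_lit 271)) (PT.lf (nat_lit 50616) (nat_lit 6) (nat_lit 666) (nat_lit 5) (nat_lit 247) (nat_lit 263)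 (nat_lit 270)))) (PT.nd (nat_lit 156) (PT.nd (nat_lit 78) (PT.lf (nat_lit 51604) (nat_lit 6) (nat_lit 679) (nat_lit 5) (nat_lit 248) (nat_lit 263) (nat_lit 269)) (PT.lf (nat_lit 52516) (nat_lit 6) (nat_lit 691) (nat_lit 5) (nat_lit 249) (nat_lit 263) (nat_lit 268))) (PT.nd (nat_lit 78) (PT.lf (nat_lit 53352) (nat_lit 6) (nat_lit 702) (nat_lit 5) (nat_lit 250) (nat_lit 263) (nat_lit 267)) (PT.lf (nat_lit 54112) (nat_lit 6) (nat_lit 712) (nat_lit 5) (nat_lit 251) (nat_lit 263) (nat_lit 266)))))) (PT.nd (nat_lit 546) (PT.nd (nat_lit 234) (PT.nd (nat_lit 78) (PT.lf (nat_lit 54796) (nat_lit 6) (nat_lit 721) (nat_lit 5) (nat_lit 252) (nat_lit 263) (nat_lit 265)) (PT.nd (nat_lit 78) (PT.lf (nat_lit 55404) (nat_lit 6) (nat_lit 729) (nat_lit 5) (nat_lit 253) (nat_lit 263) (nat_lit 264)) (PT.lf (nat_lit 55936) (nat_lit 3) (nat_lit 736) (nat_lit 4) (nat_lit 254) (nat_lit 263) (nat_lit 263)))) (PT.nd (nat_lit 156) (PT.nd (nat_lit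 78) (PT.lf (nat_lit 56316) (nat_lit 6) (nat_lit 741) (nat_lit 4) (nat_lit 255) (nat_lit 263) (nat_lit 262)) (PT.lf (nat_lit 56620) (nat_lit 6) (nat_lit 745) (nat_lit 4) (nat_lit 256) (nat_lit 263) (nat_lit 261))) (PT.nd (nat_lit 78) (PT.lf (nat_lit 56848) (nat_lit 6) (nat_lit 748) (nat_lit 4) (nat_lit 257) (nat_lit 263) (nat_lit 260)) (PT.lf (nat_lit 56772) (nat_lit 6) (nat_lit 747) (nat_lit 4) (nat_lit 258) (nat_lit 263) (nat_lit 259))))) (PT.nd (nat_lit 312) (PT.nd (nat_lit 156) (PT.nd (nat_lit 78) (PT.lf (nat_lit 56772) (nat_lit 6) (nat_lit 747) (nat_lit 2) (nat_lit 259) (nat_lit 263) (nat_lit 258)) (PT.lf (nat_lit 56848) (nat_lit 6) (nat_lit 748) (nat_lit 2) (nat_lit 260) (nat_lit 263) (nat_lit 257))) (PT.nd (nat_lit 78) (PT.lf (nat_lit 56620) (nat_lit 6) (nat_lit 745) (nat_lit 2) (nat_lit 261) (nat_lit 263) (nat_lit 256)) (PT.lf (nat_lit 56316) (nat_lit 6) (nat_lit 741) (nat_lit 2) (nat_lit 262) (nat_lit 263)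 (nat_lit 255)))) (PT.nd (nat_lit 156) (PT.nd (nat_lit 78) (PT.lf (nat_lit 55936) (nat_lit 3) (nat_lit 736) (nat_lit 0) (nat_lit 263) (nat_lit 263) (nat_lit 254)) (PT.lf (nat_lit 55404) (nat_lit 6) (nat_lit 729) (nat_lit 0) (nat_lit 264) (nat_lit 263) (nat_lit 253))) (PT.nd (nat_lit 78) (PT.lf (nat_lit 54796) (nat_lit 6) (nat_lit 721) (nat_lit 0) (nat_lit 265) (nat_lit 263) (nat_lit 252)) (PT.lf (nat_lit 54112) (nat_lit 6) (nat_lit 712) (nat_lit 0) (nat_lit 266) (nat_lit 263) (nat_lit 251))))))))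
noncomputable def pc29 : PT := (PT.nd (nat_lit 79248) (PT.nd (nat_lit 1170) (PT.nd (nat_lit 546) (PT.nd (nat_lit 234) (PT.nd (nat_lit 78) (PT.lf (nat_lit 53352) (nat_lit 6) (nat_lit 702) (nat_lit 0) (nat_lit 267) (nat_lit 263) (nat_lit 250)) (PT.nd (nat_lit 78) (PT.lf (nat_lit 52516) (nat_lit 6) (nat_lit 691) (nat_lit 0) (nat_lit 268) (nat_lit 263) (nat_lit 249)) (PT.lf (nat_lit 51604) (nat_lit 6) (nat_lit 679) (nat_lit 0) (nat_lit 269) (nat_lit 263) (nat_lit 248)))) (PT.nd (nat_lit 156) (PT.nd (nat_lit 78) (PT.lf (nat_lit 50616) (nat_lit 6) (nat_lit 666) (nat_lit 0) (nat_lit 270) (nat_lit 263) (nat_lit 247)) (PT.lf (nat_lit 49552) (nat_lit 6) (nat_lit 652) (nat_lit 0) (nat_lit 271) (nat_lit 263) (nat_lit 246))) (PT.nd (nat_lit 78) (PT.lf (nat_lit 48412) (nat_lit 6) (nat_lit 637) (nat_lit 0) (nat_lit 272) (nat_lit 263) (nat_lit 245)) (PT.lf (nat_lit 47196) (nat_lit 6) (nat_lit 621) (nat_lit 0) (nat_lit 273) (nat_lit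 263) (nat_lit 244))))) (PT.nd (nat_lit 312) (PT.nd (nat_lit 156) (PT.nd (nat_lit 78) (PT.lf (nat_lit 45904) (nat_lit 6) (nat_lit 604) (nat_lit 0) (nat_lit 274) (nat_lit 263) (nat_lit 243)) (PT.lf (nat_lit 44536) (nat_lit 6) (nat_lit 586) (nat_lit 0) (nat_lit 275) (nat_lit 263) (nat_lit 242))) (PT.nd (nat_lit 78) (PT.lf (nat_lit 43092) (nat_lit 6) (nat_lit 567) (nat_lit 0) (nat_lit 276) (nat_lit 263) (nat_lit 241)) (PT.lf (nat_lit 41572) (nat_lit 6) (nat_lit 547) (nat_lit 0) (nat_lit 277) (nat_lit 263) (nat_lit 240)))) (PT.nd (nat_lit 156) (PT.nd (nat_lit 78) (PT.lf (nat_lit 39976) (nat_lit 6) (nat_lit 526) (nat_lit 0) (nat_lit 278) (nat_lit 263) (nat_lit 239)) (PT.lf (nat_lit 38304) (nat_lit 6) (nat_lit 504) (nat_lit 0) (nat_lit 279) (nat_lit 263) (nat_lit 238))) (PT.nd (nat_lit 78) (PT.lf (nat_lit 36556) (nat_lit 6) (nat_lit 481) (nat_lit 0) (nat_lit 280) (nat_lit 263) (nat_lit 237)) (PT.lf (nat_lit 34732) (nat_lit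 6) (nat_lit 457) (nat_lit 0) (nat_lit 281) (nat_lit 263) (nat_lit 236)))))) (PT.nd (nat_lit 77454) (PT.nd (nat_lit 234) (PT.nd (nat_lit 78) (PT.lf (nat_lit 32984) (nat_lit 6) (nat_lit 434) (nat_lit 0) (nat_lit 282) (nat_lit 263) (nat_lit 235)) (PT.nd (nat_lit 78) (PT.lf (nat_lit 31920) (nat_lit 6) (nat_lit 420) (nat_lit 0) (nat_lit 283) (nat_lit 263) (nat_lit 234)) (PT.lf (nat_lit 30932) (nat_lit 6) (nat_lit 407) (nat_lit 0) (nat_lit 284) (nat_lit 263) (nat_lit 233)))) (PT.nd (nat_lit 77064) (PT.nd (nat_lit 76986) (PT.lf (nat_lit 29944) (nat_lit 6) (nat_lit 394) (nat_lit 0) (nat_lit 285) (nat_lit 263) (nat_lit 232)) (PT.lf (nat_lit 29108) (nat_lit 6) (nat_lit 383) (nat_lit 5) (nat_lit 231) (nat_lit 264) (nat_lit 285))) (PT.nd (nat_lit 78) (PT.lf (nat_lit 30020) (nat_lit 6) (nat_lit 395) (nat_lit 5) (nat_lit 232) (nat_lit 264) (nat_lit 284)) (PT.lf (nat_lit 31008) (nat_lit 6) (nat_lit 408) (nat_lit 5) (nat_lit 233)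 (nat_lit 264) (nat_lit 283))))) (PT.nd (nat_lit 312) (PT.nd (nat_lit 156) (PT.nd (nat_lit 78) (PT.lf (nat_lit 31996) (nat_lit 6) (nat_lit 421) (nat_lit 5) (nat_lit 234) (nat_lit 264) (nat_lit 282)) (PT.lf (nat_lit 33060) (nat_lit 6) (nat_lit 435) (nat_lit 5) (nat_lit 235) (nat_lit 264) (nat_lit 281))) (PT.nd (nat_lit 78) (PT.lf (nat_lit 34808) (nat_lit 6) (nat_lit 458) (nat_lit 5) (nat_lit 236) (nat_lit 264) (nat_lit 280)) (PT.lf (nat_lit 36632) (nat_lit 6) (nat_lit 482) (nat_lit 5) (nat_lit 237) (nat_lit 264) (nat_lit 279)))) (PT.nd (nat_lit 156) (PT.nd (nat_lit 78) (PT.lf (nat_lit 38380) (nat_lit 6) (nat_lit 505) (nat_lit 5) (nat_lit 238) (nat_lit 264) (nat_lit 278)) (PT.lf (nat_lit 40052) (nat_lit 6) (nat_lit 527) (nat_lit 5) (nat_lit 239) (nat_lit 264) (nat_lit 277))) (PT.nd (nat_lit 78) (PT.lf (nat_lit 41648) (nat_lit 6) (nat_lit 548) (nat_lit 5) (nat_lit 240) (nat_lit 264) (nat_lit 276)) (PT.lf (nat_lit 43168)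 (nat_lit 6) (nat_lit 568) (nat_lit 5) (nat_lit 241) (nat_lit 264) (nat_lit 275))))))) (PT.nd (nat_lit 1170) (PT.nd (nat_lit 546) (PT.nd (nat_lit 234) (PT.nd (nat_lit 78) (PT.lf (nat_lit 44612) (nat_lit 6) (nat_lit 587) (nat_lit 5) (nat_lit 242) (nat_lit 264) (nat_lit 274)) (PT.nd (nat_lit 78) (PT.lf (nat_lit 45980) (nat_lit 6) (nat_lit 605) (nat_lit 5) (nat_lit 243) (nat_lit 264) (nat_lit 273)) (PT.lf (nat_lit 47272) (nat_lit 6) (nat_lit 622) (nat_lit 5) (nat_lit 244) (nat_lit 264) (nat_lit 272)))) (PT.nd (nat_lit 156) (PT.nd (nat_lit 78) (PT.lf (nat_lit 48488) (nat_lit 6) (nat_lit 638) (nat_lit 5) (nat_lit 245) (nat_lit 264) (nat_lit 271)) (PT.lf (nat_lit 49628) (nat_lit 6) (nat_lit 653) (nat_lit 5) (nat_lit 246) (nat_lit 264) (nat_lit 270))) (PT.nd (nat_lit 78) (PT.lf (nat_lit 50692) (nat_lit 6) (nat_lit 667) (nat_lit 5) (nat_lit 247) (nat_lit 264) (nat_lit 269)) (PT.lf (nat_lit 51680) (nat_lit 6) (nat_lit 680)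 (nat_lit 5) (nat_lit 248) (nat_lit 264) (nat_lit 268))))) (PT.nd (nat_lit 312) (PT.nd (nat_lit 156) (PT.nd (nat_lit 78) (PT.lf (nat_lit 52592) (nat_lit 6) (nat_lit 692) (nat_lit 5) (nat_lit 249) (nat_lit 264) (nat_lit 267)) (PT.lf (nat_lit 53428) (nat_lit 6) (nat_lit 703) (nat_lit 5) (nat_lit 250) (nat_lit 264) (nat_lit 266))) (PT.nd (nat_lit 78) (PT.lf (nat_lit 54188) (nat_lit 6) (nat_lit 713) (nat_lit 5) (nat_lit 251) (nat_lit 264) (nat_lit 265)) (PT.lf (nat_lit 54872) (nat_lit 3) (nat_lit 722) (nat_lit 4) (nat_lit 252) (nat_lit 264) (nat_lit 264)))) (PT.nd (nat_lit 156) (PT.nd (nat_lit 78) (PT.lf (nat_lit 55404) (nat_lit 6) (nat_lit 729) (nat_lit 4) (nat_lit 253) (nat_lit 264) (nat_lit 263)) (PT.lf (nat_lit 55860) (nat_lit 6) (nat_lit 735) (nat_lit 4) (nat_lit 254) (nat_lit 264) (nat_lit 262))) (PT.nd (nat_lit 78) (PT.lf (nat_lit 56240) (nat_lit 6) (nat_lit 740) (nat_lit 4) (nat_lit 255) (nat_lit 264) (nat_lit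 261)) (PT.lf (nat_lit 56544) (nat_lit 6) (nat_lit 744) (nat_lit 4) (nat_lit 256) (nat_lit 264) (nat_lit 260)))))) (PT.nd (nat_lit 546) (PT.nd (nat_lit 234) (PT.nd (nat_lit 78) (PT.lf (nat_lit 56468) (nat_lit 6) (nat_lit 743) (nat_lit 4) (nat_lit 257) (nat_lit 264) (nat_lit 259)) (PT.nd (nat_lit 78) (PT.lf (nat_lit 56392) (nat_lit 3) (nat_lit 742) (nat_lit 2) (nat_lit 258) (nat_lit 264) (nat_lit 258)) (PT.lf (nat_lit 56468) (nat_lit 6) (nat_lit 743) (nat_lit 2) (nat_lit 259) (nat_lit 264) (nat_lit 257)))) (PT.nd (nat_lit 156) (PT.nd (nat_lit 78) (PT.lf (nat_lit 56544) (nat_lit 6) (nat_lit 744) (nat_lit 2) (nat_lit 260) (nat_lit 264) (nat_lit 256)) (PT.lf (nat_lit 56240) (nat_lit 6) (nat_lit 740) (nat_lit 2) (nat_lit 261) (nat_lit 264) (nat_lit 255))) (PT.nd (nat_lit 78) (PT.lf (nat_lit 55860) (nat_lit 6) (nat_lit 735) (nat_lit 2) (nat_lit 262) (nat_lit 264) (nat_lit 254)) (PT.lf (nat_lit 55404) (nat_lit 6) (nat_lit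 729) (nat_lit 2) (nat_lit 263) (nat_lit 264) (nat_lit 253))))) (PT.nd (nat_lit 312) (PT.nd (nat_lit 156) (PT.nd (nat_lit 78) (PT.lf (nat_lit 54872) (nat_lit 3) (nat_lit 722) (nat_lit 0) (nat_lit 264) (nat_lit 264) (nat_lit 252)) (PT.lf (nat_lit 54188) (nat_lit 6) (nat_lit 713) (nat_lit 0) (nat_lit 265) (nat_lit 264) (nat_lit 251))) (PT.nd (nat_lit 78) (PT.lf (nat_lit 53428) (nat_lit 6) (nat_lit 703) (nat_lit 0) (nat_lit 266) (nat_lit 264) (nat_lit 250)) (PT.lf (nat_lit 52592) (nat_lit 6) (nat_lit 692) (nat_lit 0) (nat_lit 267) (nat_lit 264) (nat_lit 249)))) (PT.nd (nat_lit 156) (PT.nd (nat_lit 78) (PT.lf (nat_lit 51680) (nat_lit 6) (nat_lit 680) (nat_lit 0) (nat_lit 268) (nat_lit 264) (nat_lit 248)) (PT.lf (nat_lit 50692) (nat_lit 6) (nat_lit 667) (nat_lit 0) (nat_lit 269) (nat_lit 264) (nat_lit 247))) (PT.nd (nat_lit 78) (PT.lf (nat_lit 49628) (nat_lit 6) (nat_lit 653) (nat_lit 0) (nat_lit 270) (nat_lit 264) (nat_lit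 246)) (PT.lf (nat_lit 48488) (nat_lit 6) (nat_lit 638) (nat_lit 0) (nat_lit 271) (nat_lit 264) (nat_lit 245))))))))
noncomputable def pc30 : PT := (PT.nd (nat_lit 79092) (PT.nd (nat_lit 77922) (PT.nd (nat_lit 546) (PT.nd (nat_lit 234) (PT.nd (nat_lit 78) (PT.lf (nat_lit 47272) (nat_lit 6) (nat_lit 622) (nat_lit 0) (nat_lit 272) (nat_lit 264) (nat_lit 244)) (PT.nd (nat_lit 78) (PT.lf (nat_lit 45980) (nat_lit 6) (nat_lit 605) (nat_lit 0) (nat_lit 273) (nat_lit 264) (nat_lit 243)) (PT.lf (nat_lit 44612) (nat_lit 6) (nat_lit 587) (nat_lit 0) (nat_lit 274) (nat_lit 264) (nat_lit 242)))) (PT.nd (nat_lit 156) (PT.nd (nat_lit 78) (PT.lf (nat_lit 43168) (nat_lit 6) (nat_lit 568) (nat_lit 0) (nat_lit 275) (nat_lit 264) (nat_lit 241)) (PT.lf (nat_lit 41648) (nat_lit 6) (nat_lit 548) (nat_lit 0) (nat_lit 276) (nat_lit 264) (nat_lit 240))) (PT.nd (nat_lit 78) (PT.lf (nat_lit 40052) (nat_lit 6) (nat_lit 527) (nat_lit 0) (nat_lit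 277) (nat_lit 264) (nat_lit 239)) (PT.lf (nat_lit 38380) (nat_lit 6) (nat_lit 505) (nat_lit 0) (nat_lit 278) (nat_lit 264) (nat_lit 238))))) (PT.nd (nat_lit 312) (PT.nd (nat_lit 156) (PT.nd (nat_lit 78) (PT.lf (nat_lit 36632) (nat_lit 6) (nat_lit 482) (nat_lit 0) (nat_lit 279) (nat_lit 264) (nat_lit 237)) (PT.lf (nat_lit 34808) (nat_lit 6) (nat_lit 458) (nat_lit 0) (nat_lit 280) (nat_lit 264) (nat_lit 236))) (PT.nd (nat_lit 78) (PT.lf (nat_lit 33060) (nat_lit 6) (nat_lit 435) (nat_lit 0) (nat_lit 281) (nat_lit 264) (nat_lit 235)) (PT.lf (nat_lit 31996) (nat_lit 6) (nat_lit 421) (nat_lit 0) (nat_lit 282) (nat_lit 264) (nat_lit 234)))) (PT.nd (nat_lit 156) (PT.nd (nat_lit 78) (PT.lf (nat_lit 31008) (nat_lit 6) (nat_lit 408) (nat_lit 0) (nat_lit 283) (nat_lit 264) (nat_lit 233)) (PT.lf (nat_lit 30020) (nat_lit 6) (nat_lit 395) (nat_lit 0) (nat_lit 284) (nat_lit 264) (nat_lit 232))) (PT.nd (nat_lit 76830) (PT.lf (nat_lit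 29108) (nat_lit 6) (nat_lit 383) (nat_lit 0) (nat_lit 285) (nat_lit 264) (nat_lit 231)) (PT.lf (nat_lit 27436) (nat_lit 6) (nat_lit 361) (nat_lit 5) (nat_lit 229) (nat_lit 265) (nat_lit 286)))))) (PT.nd (nat_lit 546) (PT.nd (nat_lit 234) (PT.nd (nat_lit 78) (PT.lf (nat_lit 28272) (nat_lit 6) (nat_lit 372) (nat_lit 5) (nat_lit 230) (nat_lit 265) (nat_lit 285)) (PT.nd (nat_lit 78) (PT.lf (nat_lit 29184) (nat_lit 6) (nat_lit 384) (nat_lit 5) (nat_lit 231) (nat_lit 265) (nat_lit 284)) (PT.lf (nat_lit 30096) (nat_lit 6) (nat_lit 396) (nat_lit 5) (nat_lit 232) (nat_lit 265) (nat_lit 283)))) (PT.nd (nat_lit 156) (PT.nd (nat_lit 78) (PT.lf (nat_lit 31084) (nat_lit 6) (nat_lit 409) (nat_lit 5) (nat_lit 233) (nat_lit 265) (nat_lit 282)) (PT.lf (nat_lit 32072) (nat_lit 6) (nat_lit 422) (nat_lit 5) (nat_lit 234) (nat_lit 265) (nat_lit 281))) (PT.nd (nat_lit 78) (PT.lf (nat_lit 33136) (nat_lit 6) (nat_lit 436) (nat_lit 5) (nat_lit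 235) (nat_lit 265) (nat_lit 280)) (PT.lf (nat_lit 34884) (nat_lit 6) (nat_lit 459) (nat_lit 5) (nat_lit 236) (nat_lit 265) (nat_lit 279))))) (PT.nd (nat_lit 312) (PT.nd (nat_lit 156) (PT.nd (nat_lit 78) (PT.lf (nat_lit 36708) (nat_lit 6) (nat_lit 483) (nat_lit 5) (nat_lit 237) (nat_lit 265) (nat_lit 278)) (PT.lf (nat_lit 38456) (nat_lit 6) (nat_lit 506) (nat_lit 5) (nat_lit 238) (nat_lit 265) (nat_lit 277))) (PT.nd (nat_lit 78) (PT.lf (nat_lit 40128) (nat_lit 6) (nat_lit 528) (nat_lit 5) (nat_lit 239) (nat_lit 265) (nat_lit 276)) (PT.lf (nat_lit 41724) (nat_lit 6) (nat_lit 549) (nat_lit 5) (nat_lit 240) (nat_lit 265) (nat_lit 275)))) (PT.nd (nat_lit 156) (PT.nd (nat_lit 78) (PT.lf (nat_lit 43244) (nat_lit 6) (nat_lit 569) (nat_lit 5) (nat_lit 241) (nat_lit 265) (nat_lit 274)) (PT.lf (nat_lit 44688) (nat_lit 6) (nat_lit 588) (nat_lit 5) (nat_lit 242) (nat_lit 265) (nat_lit 273))) (PT.nd (nat_lit 78) (PT.lf (nat_lit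 46056) (nat_lit 6) (nat_lit 606) (nat_lit 5) (nat_lit 243) (nat_lit 265) (nat_lit 272)) (PT.lf (nat_lit 47348) (nat_lit 6) (nat_lit 623) (nat_lit 5) (nat_lit 244) (nat_lit 265) (nat_lit 271))))))) (PT.nd (nat_lit 1170) (PT.nd (nat_lit 546) (PT.nd (nat_lit 234) (PT.nd (nat_lit 78) (PT.lf (nat_lit 48564) (nat_lit 6) (nat_lit 639) (nat_lit 5) (nat_lit 245) (nat_lit 265) (nat_lit 270)) (PT.nd (nat_lit 78) (PT.lf (nat_lit 49704) (nat_lit 6) (nat_lit 654) (nat_lit 5) (nat_lit 246) (nat_lit 265) (nat_lit 269)) (PT.lf (nat_lit 50768) (nat_lit 6) (nat_lit 668) (nat_lit 5) (nat_lit 247) (nat_lit 265) (nat_lit 268)))) (PT.nd (nat_lit 156) (PT.nd (nat_lit 78) (PT.lf (nat_lit 51756) (nat_lit 6) (nat_lit 681) (nat_lit 5) (nat_lit 248) (nat_lit 265) (nat_lit 267)) (PT.lf (nat_lit 52668) (nat_lit 6) (nat_lit 693) (nat_lit 5) (nat_lit 249) (nat_lit 265) (nat_lit 266))) (PT.nd (nat_lit 78) (PT.lf (nat_lit 53504) (nat_lit 3) (nat_lit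 704) (nat_lit 4) (nat_lit 250) (nat_lit 265) (nat_lit 265)) (PT.lf (nat_lit 54188) (nat_lit 6) (nat_lit 713) (nat_lit 4) (nat_lit 251) (nat_lit 265) (nat_lit 264))))) (PT.nd (nat_lit 312) (PT.nd (nat_lit 156) (PT.nd (nat_lit 78) (PT.lf (nat_lit 54796) (nat_lit 6) (nat_lit 721) (nat_lit 4) (nat_lit 252) (nat_lit 265) (nat_lit 263)) (PT.lf (nat_lit 55328) (nat_lit 6) (nat_lit 728) (nat_lit 4) (nat_lit 253) (nat_lit 265) (nat_lit 262))) (PT.nd (nat_lit 78) (PT.lf (nat_lit 55784) (nat_lit 6) (nat_lit 734) (nat_lit 4) (nat_lit 254) (nat_lit 265) (nat_lit 261)) (PT.lf (nat_lit 56164) (nat_lit 6) (nat_lit 739) (nat_lit 4) (nat_lit 255) (nat_lit 265) (nat_lit 260)))) (PT.nd (nat_lit 156) (PT.nd (nat_lit 78) (PT.lf (nat_lit 56088) (nat_lit 6) (nat_lit 738) (nat_lit 4) (nat_lit 256) (nat_lit 265) (nat_lit 259)) (PT.lf (nat_lit 56012) (nat_lit 6) (nat_lit 737) (nat_lit 4) (nat_lit 257) (nat_lit 265) (nat_lit 258))) (PT.nd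 (nat_lit 78) (PT.lf (nat_lit 56012) (nat_lit 6) (nat_lit 737) (nat_lit 2) (nat_lit 258) (nat_lit 265) (nat_lit 257)) (PT.lf (nat_lit 56088) (nat_lit 6) (nat_lit 738) (nat_lit 2) (nat_lit 259) (nat_lit 265) (nat_lit 256)))))) (PT.nd (nat_lit 546) (PT.nd (nat_lit 234) (PT.nd (nat_lit 78) (PT.lf (nat_lit 56164) (nat_lit 6) (nat_lit 739) (nat_lit 2) (nat_lit 260) (nat_lit 265) (nat_lit 255)) (PT.nd (nat_lit 78) (PT.lf (nat_lit 55784) (nat_lit 6) (nat_lit 734) (nat_lit 2) (nat_lit 261) (nat_lit 265) (nat_lit 254)) (PT.lf (nat_lit 55328) (nat_lit 6) (nat_lit 728) (nat_lit 2) (nat_lit 262) (nat_lit 265) (nat_lit 253)))) (PT.nd (nat_lit 156) (PT.nd (nat_lit 78) (PT.lf (nat_lit 54796) (nat_lit 6) (nat_lit 721) (nat_lit 2) (nat_lit 263) (nat_lit 265) (nat_lit 252)) (PT.lf (nat_lit 54188) (nat_lit 6) (nat_lit 713) (nat_lit 2) (nat_lit 264) (nat_lit 265) (nat_lit 251))) (PT.nd (nat_lit 78) (PT.lf (nat_lit 53504) (nat_lit 3)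 (nat_lit 704) (nat_lit 0) (nat_lit 265) (nat_lit 265) (nat_lit 250)) (PT.lf (nat_lit 52668) (nat_lit 6) (nat_lit 693) (nat_lit 0) (nat_lit 266) (nat_lit 265) (nat_lit 249))))) (PT.nd (nat_lit 312) (PT.nd (nat_lit 156) (PT.nd (nat_lit 78) (PT.lf (nat_lit 51756) (nat_lit 6) (nat_lit 681) (nat_lit 0) (nat_lit 267) (nat_lit 265) (nat_lit 248)) (PT.lf (nat_lit 50768) (nat_lit 6) (nat_lit 668) (nat_lit 0) (nat_lit 268) (nat_lit 265) (nat_lit 247))) (PT.nd (nat_lit 78) (PT.lf (nat_lit 49704) (nat_lit 6) (nat_lit 654) (nat_lit 0) (nat_lit 269) (nat_lit 265) (nat_lit 246)) (PT.lf (nat_lit 48564) (nat_lit 6) (nat_lit 639) (nat_lit 0) (nat_lit 270) (nat_lit 265) (nat_lit 245)))) (PT.nd (nat_lit 156) (PT.nd (nat_lit 78) (PT.lf (nat_lit 47348) (nat_lit 6) (nat_lit 623) (nat_lit 0) (nat_lit 271) (nat_lit 265) (nat_lit 244)) (PT.lf (nat_lit 46056) (nat_lit 6) (nat_lit 606) (nat_lit 0) (nat_lit 272) (nat_lit 265) (nat_lit 243)))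 (PT.nd (nat_lit 78) (PT.lf (nat_lit 44688) (nat_lit 6) (nat_lit 588) (nat_lit 0) (nat_lit 273) (nat_lit 265) (nat_lit 242)) (PT.lf (nat_lit 43244) (nat_lit 6) (nat_lit 569) (nat_lit 0) (nat_lit 274) (nat_lit 265) (nat_lit 241))))))))
noncomputable def pc31 : PT := (PT.nd (nat_lit 78936) (PT.nd (nat_lit 77766) (PT.nd (nat_lit 546) (PT.nd (nat_lit 234) (PT.nd (nat_lit 78) (PT.lf (nat_lit 41724) (nat_lit 6) (nat_lit 549) (nat_lit 0) (nat_lit 275) (nat_lit 265) (nat_lit 240)) (PT.nd (nat_lit 78) (PT.lf (nat_lit 40128) (nat_lit 6) (nat_lit 528) (nat_lit 0) (nat_lit 276) (nat_lit 265) (nat_lit 239)) (PT.lf (nat_lit 38456) (nat_lit 6) (nat_lit 506) (nat_lit 0) (nat_lit 277) (nat_lit 265) (nat_lit 238)))) (PT.nd (nat_lit 156) (PT.nd (nat_lit 78) (PT.lf (nat_lit 36708) (nat_lit 6) (nat_lit 483) (nat_lit 0) (nat_lit 278) (nat_lit 265) (nat_lit 237)) (PT.lf (nat_lit 34884) (nat_lit 6) (nat_lit 459) (nat_lit 0) (nat_lit 279)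 (nat_lit 265) (nat_lit 236))) (PT.nd (nat_lit 78) (PT.lf (nat_lit 33136) (nat_lit 6) (nat_lit 436) (nat_lit 0) (nat_lit 280) (nat_lit 265) (nat_lit 235)) (PT.lf (nat_lit 32072) (nat_lit 6) (nat_lit 422) (nat_lit 0) (nat_lit 281) (nat_lit 265) (nat_lit 234))))) (PT.nd (nat_lit 312) (PT.nd (nat_lit 156) (PT.nd (nat_lit 78) (PT.lf (nat_lit 31084) (nat_lit 6) (nat_lit 409) (nat_lit 0) (nat_lit 282) (nat_lit 265) (nat_lit 233)) (PT.lf (nat_lit 30096) (nat_lit 6) (nat_lit 396) (nat_lit 0) (nat_lit 283) (nat_lit 265) (nat_lit 232))) (PT.nd (nat_lit 78) (PT.lf (nat_lit 29184) (nat_lit 6) (nat_lit 384) (nat_lit 0) (nat_lit 284) (nat_lit 265) (nat_lit 231)) (PT.lf (nat_lit 28272) (nat_lit 6) (nat_lit 372) (nat_lit 0) (nat_lit 285) (nat_lit 265) (nat_lit 230)))) (PT.nd (nat_lit 76752) (PT.nd (nat_lit 76674) (PT.lf (nat_lit 27436) (nat_lit 6) (nat_lit 361) (nat_lit 0) (nat_lit 286) (nat_lit 265) (nat_lit 229)) (PT.lf (nat_lit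 26600) (nat_lit 6) (nat_lit 350) (nat_lit 5) (nat_lit 228) (nat_lit 266) (nat_lit 286))) (PT.nd (nat_lit 78) (PT.lf (nat_lit 27512) (nat_lit 6) (nat_lit 362) (nat_lit 5) (nat_lit 229) (nat_lit 266) (nat_lit 285)) (PT.lf (nat_lit 28348) (nat_lit 6) (nat_lit 373) (nat_lit 5) (nat_lit 230) (nat_lit 266) (nat_lit 284)))))) (PT.nd (nat_lit 546) (PT.nd (nat_lit 234) (PT.nd (nat_lit 78) (PT.lf (nat_lit 29260) (nat_lit 6) (nat_lit 385) (nat_lit 5) (nat_lit 231) (nat_lit 266) (nat_lit 283)) (PT.nd (nat_lit 78) (PT.lf (nat_lit 30172) (nat_lit 6) (nat_lit 397) (nat_lit 5) (nat_lit 232) (nat_lit 266) (nat_lit 282)) (PT.lf (nat_lit 31160) (nat_lit 6) (nat_lit 410) (nat_lit 5) (nat_lit 233) (nat_lit 266) (nat_lit 281)))) (PT.nd (nat_lit 156) (PT.nd (nat_lit 78) (PT.lf (nat_lit 32148) (nat_lit 6) (nat_lit 423) (nat_lit 5) (nat_lit 234) (nat_lit 266) (nat_lit 280)) (PT.lf (nat_lit 33212) (nat_lit 6) (nat_lit 437) (nat_lit 5) (nat_lit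 235) (nat_lit 266) (nat_lit 279))) (PT.nd (nat_lit 78) (PT.lf (nat_lit 34960) (nat_lit 6) (nat_lit 460) (nat_lit 5) (nat_lit 236) (nat_lit 266) (nat_lit 278)) (PT.lf (nat_lit 36784) (nat_lit 6) (nat_lit 484) (nat_lit 5) (nat_lit 237) (nat_lit 266) (nat_lit 277))))) (PT.nd (nat_lit 312) (PT.nd (nat_lit 156) (PT.nd (nat_lit 78) (PT.lf (nat_lit 38532) (nat_lit 6) (nat_lit 507) (nat_lit 5) (nat_lit 238) (nat_lit 266) (nat_lit 276)) (PT.lf (nat_lit 40204) (nat_lit 6) (nat_lit 529) (nat_lit 5) (nat_lit 239) (nat_lit 266) (nat_lit 275))) (PT.nd (nat_lit 78) (PT.lf (nat_lit 41800) (nat_lit 6) (nat_lit 550) (nat_lit 5) (nat_lit 240) (nat_lit 266) (nat_lit 274)) (PT.lf (nat_lit 43320) (nat_lit 6) (nat_lit 570) (nat_lit 5) (nat_lit 241) (nat_lit 266) (nat_lit 273)))) (PT.nd (nat_lit 156) (PT.nd (nat_lit 78) (PT.lf (nat_lit 44764) (nat_lit 6) (nat_lit 589) (nat_lit 5) (nat_lit 242) (nat_lit 266) (nat_lit 272)) (PT.lf (nat_lit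 46132) (nat_lit 6) (nat_lit 607) (nat_lit 5) (nat_lit 243) (nat_lit 266) (nat_lit 271))) (PT.nd (nat_lit 78) (PT.lf (nat_lit 47424) (nat_lit 6) (nat_lit 624) (nat_lit 5) (nat_lit 244) (nat_lit 266) (nat_lit 270)) (PT.lf (nat_lit 48640) (nat_lit 6) (nat_lit 640) (nat_lit 5) (nat_lit 245) (nat_lit 266) (nat_lit 269))))))) (PT.nd (nat_lit 1170) (PT.nd (nat_lit 546) (PT.nd (nat_lit 234) (PT.nd (nat_lit 78) (PT.lf (nat_lit 49780) (nat_lit 6) (nat_lit 655) (nat_lit 5) (nat_lit 246) (nat_lit 266) (nat_lit 268)) (PT.nd (nat_lit 78) (PT.lf (nat_lit 50844) (nat_lit 6) (nat_lit 669) (nat_lit 5) (nat_lit 247) (nat_lit 266) (nat_lit 267)) (PT.lf (nat_lit 51832) (nat_lit 3) (nat_lit 682) (nat_lit 4) (nat_lit 248) (nat_lit 266) (nat_lit 266)))) (PT.nd (nat_lit 156) (PT.nd (nat_lit 78) (PT.lf (nat_lit 52668) (nat_lit 6) (nat_lit 693) (nat_lit 4) (nat_lit 249) (nat_lit 266) (nat_lit 265)) (PT.lf (nat_lit 53428) (nat_lit 6) (nat_lit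 703) (nat_lit 4) (nat_lit 250) (nat_lit 266) (nat_lit 264))) (PT.nd (nat_lit 78) (PT.lf (nat_lit 54112) (nat_lit 6) (nat_lit 712) (nat_lit 4) (nat_lit 251) (nat_lit 266) (nat_lit 263)) (PT.lf (nat_lit 54720) (nat_lit 6) (nat_lit 720) (nat_lit 4) (nat_lit 252) (nat_lit 266) (nat_lit 262))))) (PT.nd (nat_lit 312) (PT.nd (nat_lit 156) (PT.nd (nat_lit 78) (PT.lf (nat_lit 55252) (nat_lit 6) (nat_lit 727) (nat_lit 4) (nat_lit 253) (nat_lit 266) (nat_lit 261)) (PT.lf (nat_lit 55708) (nat_lit 6) (nat_lit 733) (nat_lit 4) (nat_lit 254) (nat_lit 266) (nat_lit 260))) (PT.nd (nat_lit 78) (PT.lf (nat_lit 55632) (nat_lit 6) (nat_lit 732) (nat_lit 4) (nat_lit 255) (nat_lit 266) (nat_lit 259)) (PT.lf (nat_lit 55556) (nat_lit 6) (nat_lit 731) (nat_lit 4) (nat_lit 256) (nat_lit 266) (nat_lit 258)))) (PT.nd (nat_lit 156) (PT.nd (nat_lit 78) (PT.lf (nat_lit 55480) (nat_lit 3) (nat_lit 730) (nat_lit 2) (nat_lit 257) (nat_lit 266) (nat_lit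 257)) (PT.lf (nat_lit 55556) (nat_lit 6) (nat_lit 731) (nat_lit 2) (nat_lit 258) (nat_lit 266) (nat_lit 256))) (PT.nd (nat_lit 78) (PT.lf (nat_lit 55632) (nat_lit 6) (nat_lit 732) (nat_lit 2) (nat_lit 259) (nat_lit 266) (nat_lit 255)) (PT.lf (nat_lit 55708) (nat_lit 6) (nat_lit 733) (nat_lit 2) (nat_lit 260) (nat_lit 266) (nat_lit 254)))))) (PT.nd (nat_lit 624) (PT.nd (nat_lit 312) (PT.nd (nat_lit 156) (PT.nd (nat_lit 78) (PT.lf (nat_lit 55252) (nat_lit 6) (nat_lit 727) (nat_lit 2) (nat_lit 261) (nat_lit 266) (nat_lit 253)) (PT.lf (nat_lit 54720) (nat_lit 6) (nat_lit 720) (nat_lit 2) (nat_lit 262) (nat_lit 266) (nat_lit 252))) (PT.nd (nat_lit 78) (PT.lf (nat_lit 54112) (nat_lit 6) (nat_lit 712) (nat_lit 2) (nat_lit 263) (nat_lit 266) (nat_lit 251)) (PT.lf (nat_lit 53428) (nat_lit 6) (nat_lit 703) (nat_lit 2) (nat_lit 264) (nat_lit 266) (nat_lit 250)))) (PT.nd (nat_lit 156) (PT.nd (nat_lit 78) (PT.lf (nat_lit 52668)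 (nat_lit 6) (nat_lit 693) (nat_lit 2) (nat_lit 265) (nat_lit 266) (nat_lit 249)) (PT.lf (nat_lit 51832) (nat_lit 3) (nat_lit 682) (nat_lit 0) (nat_lit 266) (nat_lit 266) (nat_lit 248))) (PT.nd (nat_lit 78) (PT.lf (nat_lit 50844) (nat_lit 6) (nat_lit 669) (nat_lit 0) (nat_lit 267) (nat_lit 266) (nat_lit 247)) (PT.lf (nat_lit 49780) (nat_lit 6) (nat_lit 655) (nat_lit 0) (nat_lit 268) (nat_lit 266) (nat_lit 246))))) (PT.nd (nat_lit 312) (PT.nd (nat_lit 156) (PT.nd (nat_lit 78) (PT.lf (nat_lit 48640) (nat_lit 6) (nat_lit 640) (nat_lit 0) (nat_lit 269) (nat_lit 266) (nat_lit 245)) (PT.lf (nat_lit 47424) (nat_lit 6) (nat_lit 624) (nat_lit 0) (nat_lit 270) (nat_lit 266) (nat_lit 244))) (PT.nd (nat_lit 78) (PT.lf (nat_lit 46132) (nat_lit 6) (nat_lit 607) (nat_lit 0) (nat_lit 271) (nat_lit 266) (nat_lit 243)) (PT.lf (nat_lit 44764) (nat_lit 6) (nat_lit 589) (nat_lit 0) (nat_lit 272) (nat_lit 266) (nat_lit 242)))) (PT.nd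 (nat_lit 156) (PT.nd (nat_lit 78) (PT.lf (nat_lit 43320) (nat_lit 6) (nat_lit 570) (nat_lit 0) (nat_lit 273) (nat_lit 266) (nat_lit 241)) (PT.lf (nat_lit 41800) (nat_lit 6) (nat_lit 550) (nat_lit 0) (nat_lit 274) (nat_lit 266) (nat_lit 240))) (PT.nd (nat_lit 78) (PT.lf (nat_lit 40204) (nat_lit 6) (nat_lit 529) (nat_lit 0) (nat_lit 275) (nat_lit 266) (nat_lit 239)) (PT.lf (nat_lit 38532) (nat_lit 6) (nat_lit 507) (nat_lit 0) (nat_lit 276) (nat_lit 266) (nat_lit 238))))))))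
noncomputable def pc32 : PT := (PT.nd (nat_lit 78858) (PT.nd (nat_lit 77688) (PT.nd (nat_lit 546) (PT.nd (nat_lit 234) (PT.nd (nat_lit 78) (PT.lf (nat_lit 36784) (nat_lit 6) (nat_lit 484) (nat_lit 0) (nat_lit 277) (nat_lit 266) (nat_lit 237)) (PT.nd (nat_lit 78) (PT.lf (nat_lit 34960) (nat_lit 6) (nat_lit 460) (nat_lit 0) (nat_lit 278) (nat_lit 266) (nat_lit 236)) (PT.lf (nat_lit 33212) (nat_lit 6) (nat_lit 437) (nat_lit 0) (nat_lit 279) (nat_lit 266) (nat_lit 235)))) (PT.nd (nat_lit 156) (PT.nd (nat_lit 78) (PT.lf (nat_lit 32148) (nat_lit 6) (nat_lit 423) (nat_lit 0) (nat_lit 280) (nat_lit 266) (nat_lit 234)) (PT.lf (nat_lit 31160) (nat_lit 6) (nat_lit 410) (nat_lit 0) (nat_lit 281) (nat_lit 266) (nat_lit 233))) (PT.nd (nat_lit 78) (PT.lf (nat_lit 30172) (nat_lit 6) (nat_lit 397) (nat_lit 0) (nat_lit 282) (nat_lit 266) (nat_lit 232)) (PT.lf (nat_lit 29260) (nat_lit 6) (nat_lit 385) (nat_lit 0) (nat_lit 283) (nat_lit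 266) (nat_lit 231))))) (PT.nd (nat_lit 76830) (PT.nd (nat_lit 156) (PT.nd (nat_lit 78) (PT.lf (nat_lit 28348) (nat_lit 6) (nat_lit 373) (nat_lit 0) (nat_lit 284) (nat_lit 266) (nat_lit 230)) (PT.lf (nat_lit 27512) (nat_lit 6) (nat_lit 362) (nat_lit 0) (nat_lit 285) (nat_lit 266) (nat_lit 229))) (PT.nd (nat_lit 76596) (PT.lf (nat_lit 26600) (nat_lit 6) (nat_lit 350) (nat_lit 0) (nat_lit 286) (nat_lit 266) (nat_lit 228)) (PT.lf (nat_lit 25840) (nat_lit 6) (nat_lit 340) (nat_lit 5) (nat_lit 227) (nat_lit 267) (nat_lit 286)))) (PT.nd (nat_lit 156) (PT.nd (nat_lit 78) (PT.lf (nat_lit 26676) (nat_lit 6) (nat_lit 351) (nat_lit 5) (nat_lit 228) (nat_lit 267) (nat_lit 285)) (PT.lf (nat_lit 27588) (nat_lit 6) (nat_lit 363) (nat_lit 5) (nat_lit 229) (nat_lit 267) (nat_lit 284))) (PT.nd (nat_lit 78) (PT.lf (nat_lit 28424) (nat_lit 6) (nat_lit 374) (nat_lit 5) (nat_lit 230) (nat_lit 267) (nat_lit 283)) (PT.lf (nat_lit 29336)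 (nat_lit 6) (nat_lit 386) (nat_lit 5) (nat_lit 231) (nat_lit 267) (nat_lit 282)))))) (PT.nd (nat_lit 546) (PT.nd (nat_lit 234) (PT.nd (nat_lit 78) (PT.lf (nat_lit 30248) (nat_lit 6) (nat_lit 398) (nat_lit 5) (nat_lit 232) (nat_lit 267) (nat_lit 281)) (PT.nd (nat_lit 78) (PT.lf (nat_lit 31236) (nat_lit 6) (nat_lit 411) (nat_lit 5) (nat_lit 233) (nat_lit 267) (nat_lit 280)) (PT.lf (nat_lit 32224) (nat_lit 6) (nat_lit 424) (nat_lit 5) (nat_lit 234) (nat_lit 267) (nat_lit 279)))) (PT.nd (nat_lit 156) (PT.nd (nat_lit 78) (PT.lf (nat_lit 33288) (nat_lit 6) (nat_lit 438) (nat_lit 5) (nat_lit 235) (nat_lit 267) (nat_lit 278)) (PT.lf (nat_lit 35036) (nat_lit 6) (nat_lit 461) (nat_lit 5) (nat_lit 236) (nat_lit 267) (nat_lit 277))) (PT.nd (nat_lit 78) (PT.lf (nat_lit 36860) (nat_lit 6) (nat_lit 485) (nat_lit 5) (nat_lit 237) (nat_lit 267) (nat_lit 276)) (PT.lf (nat_lit 38608) (nat_lit 6) (nat_lit 508) (nat_lit 5) (nat_lit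 238) (nat_lit 267) (nat_lit 275))))) (PT.nd (nat_lit 312) (PT.nd (nat_lit 156) (PT.nd (nat_lit 78) (PT.lf (nat_lit 40280) (nat_lit 6) (nat_lit 530) (nat_lit 5) (nat_lit 239) (nat_lit 267) (nat_lit 274)) (PT.lf (nat_lit 41876) (nat_lit 6) (nat_lit 551) (nat_lit 5) (nat_lit 240) (nat_lit 267) (nat_lit 273))) (PT.nd (nat_lit 78) (PT.lf (nat_lit 43396) (nat_lit 6) (nat_lit 571) (nat_lit 5) (nat_lit 241) (nat_lit 267) (nat_lit 272)) (PT.lf (nat_lit 44840) (nat_lit 6) (nat_lit 590) (nat_lit 5) (nat_lit 242) (nat_lit 267) (nat_lit 271)))) (PT.nd (nat_lit 156) (PT.nd (nat_lit 78) (PT.lf (nat_lit 46208) (nat_lit 6) (nat_lit 608) (nat_lit 5) (nat_lit 243) (nat_lit 267) (nat_lit 270)) (PT.lf (nat_lit 47500) (nat_lit 6) (nat_lit 625) (nat_lit 5) (nat_lit 244) (nat_lit 267) (nat_lit 269))) (PT.nd (nat_lit 78) (PT.lf (nat_lit 48716) (nat_lit 6) (nat_lit 641) (nat_lit 5) (nat_lit 245) (nat_lit 267) (nat_lit 268)) (PT.lf (nat_lit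 49856) (nat_lit 3) (nat_lit 656) (nat_lit 4) (nat_lit 246) (nat_lit 267) (nat_lit 267))))))) (PT.nd (nat_lit 1170) (PT.nd (nat_lit 546) (PT.nd (nat_lit 234) (PT.nd (nat_lit 78) (PT.lf (nat_lit 50844) (nat_lit 6) (nat_lit 669) (nat_lit 4) (nat_lit 247) (nat_lit 267) (nat_lit 266)) (PT.nd (nat_lit 78) (PT.lf (nat_lit 51756) (nat_lit 6) (nat_lit 681) (nat_lit 4) (nat_lit 248) (nat_lit 267) (nat_lit 265)) (PT.lf (nat_lit 52592) (nat_lit 6) (nat_lit 692) (nat_lit 4) (nat_lit 249) (nat_lit 267) (nat_lit 264)))) (PT.nd (nat_lit 156) (PT.nd (nat_lit 78) (PT.lf (nat_lit 53352) (nat_lit 6) (nat_lit 702) (nat_lit 4) (nat_lit 250) (nat_lit 267) (nat_lit 263)) (PT.lf (nat_lit 54036) (nat_lit 6) (nat_lit 711) (nat_lit 4) (nat_lit 251) (nat_lit 267) (nat_lit 262))) (PT.nd (nat_lit 78) (PT.lf (nat_lit 54644) (nat_lit 6) (nat_lit 719) (nat_lit 4) (nat_lit 252) (nat_lit 267) (nat_lit 261)) (PT.lf (nat_lit 55176) (nat_lit 6) (nat_lit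 726) (nat_lit 4) (nat_lit 253) (nat_lit 267) (nat_lit 260))))) (PT.nd (nat_lit 312) (PT.nd (nat_lit 156) (PT.nd (nat_lit 78) (PT.lf (nat_lit 55100) (nat_lit 6) (nat_lit 725) (nat_lit 4) (nat_lit 254) (nat_lit 267) (nat_lit 259)) (PT.lf (nat_lit 55024) (nat_lit 6) (nat_lit 724) (nat_lit 4) (nat_lit 255) (nat_lit 267) (nat_lit 258))) (PT.nd (nat_lit 78) (PT.lf (nat_lit 54948) (nat_lit 6) (nat_lit 723) (nat_lit 4) (nat_lit 256) (nat_lit 267) (nat_lit 257)) (PT.lf (nat_lit 54948) (nat_lit 6) (nat_lit 723) (nat_lit 2) (nat_lit 257) (nat_lit 267) (nat_lit 256)))) (PT.nd (nat_lit 156) (PT.nd (nat_lit 78) (PT.lf (nat_lit 55024) (nat_lit 6) (nat_lit 724) (nat_lit 2) (nat_lit 258) (nat_lit 267) (nat_lit 255)) (PT.lf (nat_lit 55100) (nat_lit 6) (nat_lit 725) (nat_lit 2) (nat_lit 259) (nat_lit 267) (nat_lit 254))) (PT.nd (nat_lit 78) (PT.lf (nat_lit 55176) (nat_lit 6) (nat_lit 726) (nat_lit 2) (nat_lit 260) (nat_lit 267) (nat_lit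 253)) (PT.lf (nat_lit 54644) (nat_lit 6) (nat_lit 719) (nat_lit 2) (nat_lit 261) (nat_lit 267) (nat_lit 252)))))) (PT.nd (nat_lit 546) (PT.nd (nat_lit 234) (PT.nd (nat_lit 78) (PT.lf (nat_lit 54036) (nat_lit 6) (nat_lit 711) (nat_lit 2) (nat_lit 262) (nat_lit 267) (nat_lit 251)) (PT.nd (nat_lit 78) (PT.lf (nat_lit 53352) (nat_lit 6) (nat_lit 702) (nat_lit 2) (nat_lit 263) (nat_lit 267) (nat_lit 250)) (PT.lf (nat_lit 52592) (nat_lit 6) (nat_lit 692) (nat_lit 2) (nat_lit 264) (nat_lit 267) (nat_lit 249)))) (PT.nd (nat_lit 156) (PT.nd (nat_lit 78) (PT.lf (nat_lit 51756) (nat_lit 6) (nat_lit 681) (nat_lit 2) (nat_lit 265) (nat_lit 267) (nat_lit 248)) (PT.lf (nat_lit 50844) (nat_lit 6) (nat_lit 669) (nat_lit 2) (nat_lit 266) (nat_lit 267) (nat_lit 247))) (PT.nd (nat_lit 78) (PT.lf (nat_lit 49856) (nat_lit 3) (nat_lit 656) (nat_lit 0) (nat_lit 267) (nat_lit 267) (nat_lit 246)) (PT.lf (nat_lit 48716) (nat_lit 6) (nat_lit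 641) (nat_lit 0) (nat_lit 268) (nat_lit 267) (nat_lit 245))))) (PT.nd (nat_lit 312) (PT.nd (nat_lit 156) (PT.nd (nat_lit 78) (PT.lf (nat_lit 47500) (nat_lit 6) (nat_lit 625) (nat_lit 0) (nat_lit 269) (nat_lit 267) (nat_lit 244)) (PT.lf (nat_lit 46208) (nat_lit 6) (nat_lit 608) (nat_lit 0) (nat_lit 270) (nat_lit 267) (nat_lit 243))) (PT.nd (nat_lit 78) (PT.lf (nat_lit 44840) (nat_lit 6) (nat_lit 590) (nat_lit 0) (nat_lit 271) (nat_lit 267) (nat_lit 242)) (PT.lf (nat_lit 43396) (nat_lit 6) (nat_lit 571) (nat_lit 0) (nat_lit 272) (nat_lit 267) (nat_lit 241)))) (PT.nd (nat_lit 156) (PT.nd (nat_lit 78) (PT.lf (nat_lit 41876) (nat_lit 6) (nat_lit 551) (nat_lit 0) (nat_lit 273) (nat_lit 267) (nat_lit 240)) (PT.lf (nat_lit 40280) (nat_lit 6) (nat_lit 530) (nat_lit 0) (nat_lit 274) (nat_lit 267) (nat_lit 239))) (PT.nd (nat_lit 78) (PT.lf (nat_lit 38608) (nat_lit 6) (nat_lit 508) (nat_lit 0) (nat_lit 275) (nat_lit 267) (nat_lit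 238)) (PT.lf (nat_lit 36860) (nat_lit 6) (nat_lit 485) (nat_lit 0) (nat_lit 276) (nat_lit 267) (nat_lit 237))))))))
noncomputable def pc33 : PT := (PT.nd (nat_lit 78780) (PT.nd (nat_lit 77610) (PT.nd (nat_lit 546) (PT.nd (nat_lit 234) (PT.nd (nat_lit 78) (PT.lf (nat_lit 35036) (nat_lit 6) (nat_lit 461) (nat_lit 0) (nat_lit 277) (nat_lit 267) (nat_lit 236)) (PT.nd (nat_lit 78) (PT.lf (nat_lit 33288) (nat_lit 6) (nat_lit 438) (nat_lit 0) (nat_lit 278) (nat_lit 267) (nat_lit 235)) (PT.lf (nat_lit 32224) (nat_lit 6) (nat_lit 424) (nat_lit 0) (nat_lit 279) (nat_lit 267) (nat_lit 234)))) (PT.nd (nat_lit 156) (PT.nd (nat_lit 78) (PT.lf (nat_lit 31236) (nat_lit 6) (nat_lit 411) (nat_lit 0) (nat_lit 280) (nat_lit 267) (nat_lit 233)) (PT.lf (nat_lit 30248) (nat_lit 6) (nat_lit 398) (nat_lit 0) (nat_lit 281) (nat_lit 267) (nat_lit 232))) (PT.nd (nat_lit 78) (PT.lf (nat_lit 29336) (nat_lit 6) (nat_lit 386) (nat_lit 0) (nat_lit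 282) (nat_lit 267) (nat_lit 231)) (PT.lf (nat_lit 28424) (nat_lit 6) (nat_lit 374) (nat_lit 0) (nat_lit 283) (nat_lit 267) (nat_lit 230))))) (PT.nd (nat_lit 76752) (PT.nd (nat_lit 156) (PT.nd (nat_lit 78) (PT.lf (nat_lit 27588) (nat_lit 6) (nat_lit 363) (nat_lit 0) (nat_lit 284) (nat_lit 267) (nat_lit 229)) (PT.lf (nat_lit 26676) (nat_lit 6) (nat_lit 351) (nat_lit 0) (nat_lit 285) (nat_lit 267) (nat_lit 228))) (PT.nd (nat_lit 76518) (PT.lf (nat_lit 25840) (nat_lit 6) (nat_lit 340) (nat_lit 0) (nat_lit 286) (nat_lit 267) (nat_lit 227)) (PT.lf (nat_lit 25080) (nat_lit 6) (nat_lit 330) (nat_lit 5) (nat_lit 226) (nat_lit 268) (nat_lit 286)))) (PT.nd (nat_lit 156) (PT.nd (nat_lit 78) (PT.lf (nat_lit 25916) (nat_lit 6) (nat_lit 341) (nat_lit 5) (nat_lit 227) (nat_lit 268) (nat_lit 285)) (PT.lf (nat_lit 26752) (nat_lit 6) (nat_lit 352) (nat_lit 5) (nat_lit 228) (nat_lit 268) (nat_lit 284))) (PT.nd (nat_lit 78) (PT.lf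 (nat_lit 27664) (nat_lit 6) (nat_lit 364) (nat_lit 5) (nat_lit 229) (nat_lit 268) (nat_lit 283)) (PT.lf (nat_lit 28500) (nat_lit 6) (nat_lit 375) (nat_lit 5) (nat_lit 230) (nat_lit 268) (nat_lit 282)))))) (PT.nd (nat_lit 546) (PT.nd (nat_lit 234) (PT.nd (nat_lit 78) (PT.lf (nat_lit 29412) (nat_lit 6) (nat_lit 387) (nat_lit 5) (nat_lit 231) (nat_lit 268) (nat_lit 281)) (PT.nd (nat_lit 78) (PT.lf (nat_lit 30324) (nat_lit 6) (nat_lit 399) (nat_lit 5) (nat_lit 232) (nat_lit 268) (nat_lit 280)) (PT.lf (nat_lit 31312) (nat_lit 6) (nat_lit 412) (nat_lit 5) (nat_lit 233) (nat_lit 268) (nat_lit 279)))) (PT.nd (nat_lit 156) (PT.nd (nat_lit 78) (PT.lf (nat_lit 32300) (nat_lit 6) (nat_lit 425) (nat_lit 5) (nat_lit 234) (nat_lit 268) (nat_lit 278)) (PT.lf (nat_lit 33364) (nat_lit 6) (nat_lit 439) (nat_lit 5) (nat_lit 235) (nat_lit 268) (nat_lit 277))) (PT.nd (nat_lit 78) (PT.lf (nat_lit 35112) (nat_lit 6) (nat_lit 462) (nat_lit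 5) (nat_lit 236) (nat_lit 268) (nat_lit 276)) (PT.lf (nat_lit 36936) (nat_lit 6) (nat_lit 486) (nat_lit 5) (nat_lit 237) (nat_lit 268) (nat_lit 275))))) (PT.nd (nat_lit 312) (PT.nd (nat_lit 156) (PT.nd (nat_lit 78) (PT.lf (nat_lit 38684) (nat_lit 6) (nat_lit 509) (nat_lit 5) (nat_lit 238) (nat_lit 268) (nat_lit 274)) (PT.lf (nat_lit 40356) (nat_lit 6) (nat_lit 531) (nat_lit 5) (nat_lit 239) (nat_lit 268) (nat_lit 273))) (PT.nd (nat_lit 78) (PT.lf (nat_lit 41952) (nat_lit 6) (nat_lit 552) (nat_lit 5) (nat_lit 240) (nat_lit 268) (nat_lit 272)) (PT.lf (nat_lit 43472) (nat_lit 6) (nat_lit 572) (nat_lit 5) (nat_lit 241) (nat_lit 268) (nat_lit 271)))) (PT.nd (nat_lit 156) (PT.nd (nat_lit 78) (PT.lf (nat_lit 44916) (nat_lit 6) (nat_lit 591) (nat_lit 5) (nat_lit 242) (nat_lit 268) (nat_lit 270)) (PT.lf (nat_lit 46284) (nat_lit 6) (nat_lit 609) (nat_lit 5) (nat_lit 243) (nat_lit 268) (nat_lit 269))) (PT.nd (nat_lit 78)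 (PT.lf (nat_lit 47576) (nat_lit 3) (nat_lit 626) (nat_lit 4) (nat_lit 244) (nat_lit 268) (nat_lit 268)) (PT.lf (nat_lit 48716) (nat_lit 6) (nat_lit 641) (nat_lit 4) (nat_lit 245) (nat_lit 268) (nat_lit 267))))))) (PT.nd (nat_lit 1170) (PT.nd (nat_lit 546) (PT.nd (nat_lit 234) (PT.nd (nat_lit 78) (PT.lf (nat_lit 49780) (nat_lit 6) (nat_lit 655) (nat_lit 4) (nat_lit 246) (nat_lit 268) (nat_lit 266)) (PT.nd (nat_lit 78) (PT.lf (nat_lit 50768) (nat_lit 6) (nat_lit 668) (nat_lit 4) (nat_lit 247) (nat_lit 268) (nat_lit 265)) (PT.lf (nat_lit 51680) (nat_lit 6) (nat_lit 680) (nat_lit 4) (nat_lit 248) (nat_lit 268) (nat_lit 264)))) (PT.nd (nat_lit 156) (PT.nd (nat_lit 78) (PT.lf (nat_lit 52516) (nat_lit 6) (nat_lit 691) (nat_lit 4) (nat_lit 249) (nat_lit 268) (nat_lit 263)) (PT.lf (nat_lit 53276) (nat_lit 6) (nat_lit 701) (nat_lit 4) (nat_lit 250) (nat_lit 268) (nat_lit 262))) (PT.nd (nat_lit 78) (PT.lf (nat_lit 53960)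 (nat_lit 6) (nat_lit 710) (nat_lit 4) (nat_lit 251) (nat_lit 268) (nat_lit 261)) (PT.lf (nat_lit 54568) (nat_lit 6) (nat_lit 718) (nat_lit 4) (nat_lit 252) (nat_lit 268) (nat_lit 260))))) (PT.nd (nat_lit 312) (PT.nd (nat_lit 156) (PT.nd (nat_lit 78) (PT.lf (nat_lit 54492) (nat_lit 6) (nat_lit 717) (nat_lit 4) (nat_lit 253) (nat_lit 268) (nat_lit 259)) (PT.lf (nat_lit 54416) (nat_lit 6) (nat_lit 716) (nat_lit 4) (nat_lit 254) (nat_lit 268) (nat_lit 258))) (PT.nd (nat_lit 78) (PT.lf (nat_lit 54340) (nat_lit 6) (nat_lit 715) (nat_lit 4) (nat_lit 255) (nat_lit 268) (nat_lit 257)) (PT.lf (nat_lit 54264) (nat_lit 3) (nat_lit 714) (nat_lit 2) (nat_lit 256) (nat_lit 268) (nat_lit 256)))) (PT.nd (nat_lit 156) (PT.nd (nat_lit 78) (PT.lf (nat_lit 54340) (nat_lit 6) (nat_lit 715) (nat_lit 2) (nat_lit 257) (nat_lit 268) (nat_lit 255)) (PT.lf (nat_lit 54416) (nat_lit 6) (nat_lit 716) (nat_lit 2) (nat_lit 258) (nat_lit 268) (nat_lit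 254))) (PT.nd (nat_lit 78) (PT.lf (nat_lit 54492) (nat_lit 6) (nat_lit 717) (nat_lit 2) (nat_lit 259) (nat_lit 268) (nat_lit 253)) (PT.lf (nat_lit 54568) (nat_lit 6) (nat_lit 718) (nat_lit 2) (nat_lit 260) (nat_lit 268) (nat_lit 252)))))) (PT.nd (nat_lit 546) (PT.nd (nat_lit 234) (PT.nd (nat_lit 78) (PT.lf (nat_lit 53960) (nat_lit 6) (nat_lit 710) (nat_lit 2) (nat_lit 261) (nat_lit 268) (nat_lit 251)) (PT.nd (nat_lit 78) (PT.lf (nat_lit 53276) (nat_lit 6) (nat_lit 701) (nat_lit 2) (nat_lit 262) (nat_lit 268) (nat_lit 250)) (PT.lf (nat_lit 52516) (nat_lit 6) (nat_lit 691) (nat_lit 2) (nat_lit 263) (nat_lit 268) (nat_lit 249)))) (PT.nd (nat_lit 156) (PT.nd (nat_lit 78) (PT.lf (nat_lit 51680) (nat_lit 6) (nat_lit 680) (nat_lit 2) (nat_lit 264) (nat_lit 268) (nat_lit 248)) (PT.lf (nat_lit 50768) (nat_lit 6) (nat_lit 668) (nat_lit 2) (nat_lit 265) (nat_lit 268) (nat_lit 247))) (PT.nd (nat_lit 78) (PT.lf (nat_lit 49780)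 (nat_lit 6) (nat_lit 655) (nat_lit 2) (nat_lit 266) (nat_lit 268) (nat_lit 246)) (PT.lf (nat_lit 48716) (nat_lit 6) (nat_lit 641) (nat_lit 2) (nat_lit 267) (nat_lit 268) (nat_lit 245))))) (PT.nd (nat_lit 312) (PT.nd (nat_lit 156) (PT.nd (nat_lit 78) (PT.lf (nat_lit 47576) (nat_lit 3) (nat_lit 626) (nat_lit 0) (nat_lit 268) (nat_lit 268) (nat_lit 244)) (PT.lf (nat_lit 46284) (nat_lit 6) (nat_lit 609) (nat_lit 0) (nat_lit 269) (nat_lit 268) (nat_lit 243))) (PT.nd (nat_lit 78) (PT.lf (nat_lit 44916) (nat_lit 6) (nat_lit 591) (nat_lit 0) (nat_lit 270) (nat_lit 268) (nat_lit 242)) (PT.lf (nat_lit 43472) (nat_lit 6) (nat_lit 572) (nat_lit 0) (nat_lit 271) (nat_lit 268) (nat_lit 241)))) (PT.nd (nat_lit 156) (PT.nd (nat_lit 78) (PT.lf (nat_lit 41952) (nat_lit 6) (nat_lit 552) (nat_lit 0) (nat_lit 272) (nat_lit 268) (nat_lit 240)) (PT.lf (nat_lit 40356) (nat_lit 6) (nat_lit 531) (nat_lit 0) (nat_lit 273) (nat_lit 268) (nat_lit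 239))) (PT.nd (nat_lit 78) (PT.lf (nat_lit 38684) (nat_lit 6) (nat_lit 509) (nat_lit 0) (nat_lit 274) (nat_lit 268) (nat_lit 238)) (PT.lf (nat_lit 36936) (nat_lit 6) (nat_lit 486) (nat_lit 0) (nat_lit 275) (nat_lit 268) (nat_lit 237))))))))
noncomputable def pc34 : PT := (PT.nd (nat_lit 78624) (PT.nd (nat_lit 77454) (PT.nd (nat_lit 546) (PT.nd (nat_lit 234) (PT.nd (nat_lit 78) (PT.lf (nat_lit 35112) (nat_lit 6) (nat_lit 462) (nat_lit 0) (nat_lit 276) (nat_lit 268) (nat_lit 236)) (PT.nd (nat_lit 78) (PT.lf (nat_lit 33364) (nat_lit 6) (nat_lit 439) (nat_lit 0) (nat_lit 277) (nat_lit 268) (nat_lit 235)) (PT.lf (nat_lit 32300) (nat_lit 6) (nat_lit 425) (nat_lit 0) (nat_lit 278) (nat_lit 268) (nat_lit 234)))) (PT.nd (nat_lit 156) (PT.nd (nat_lit 78) (PT.lf (nat_lit 31312) (nat_lit 6) (nat_lit 412) (nat_lit 0) (nat_lit 279) (nat_lit 268) (nat_lit 233)) (PT.lf (nat_lit 30324) (nat_lit 6) (nat_lit 399) (nat_lit 0) (nat_lit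 280) (nat_lit 268) (nat_lit 232))) (PT.nd (nat_lit 78) (PT.lf (nat_lit 29412) (nat_lit 6) (nat_lit 387) (nat_lit 0) (nat_lit 281) (nat_lit 268) (nat_lit 231)) (PT.lf (nat_lit 28500) (nat_lit 6) (nat_lit 375) (nat_lit 0) (nat_lit 282) (nat_lit 268) (nat_lit 230))))) (PT.nd (nat_lit 76596) (PT.nd (nat_lit 156) (PT.nd (nat_lit 78) (PT.lf (nat_lit 27664) (nat_lit 6) (nat_lit 364) (nat_lit 0) (nat_lit 283) (nat_lit 268) (nat_lit 229)) (PT.lf (nat_lit 26752) (nat_lit 6) (nat_lit 352) (nat_lit 0) (nat_lit 284) (nat_lit 268) (nat_lit 228))) (PT.nd (nat_lit 78) (PT.lf (nat_lit 25916) (nat_lit 6) (nat_lit 341) (nat_lit 0) (nat_lit 285) (nat_lit 268) (nat_lit 227)) (PT.lf (nat_lit 25080) (nat_lit 6) (nat_lit 330) (nat_lit 0) (nat_lit 286) (nat_lit 268) (nat_lit 226)))) (PT.nd (nat_lit 156) (PT.nd (nat_lit 78) (PT.lf (nat_lit 23560) (nat_lit 6) (nat_lit 310) (nat_lit 5) (nat_lit 224) (nat_lit 269) (nat_lit 287)) (PT.lf (nat_lit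 24396) (nat_lit 6) (nat_lit 321) (nat_lit 5) (nat_lit 225) (nat_lit 269) (nat_lit 286))) (PT.nd (nat_lit 78) (PT.lf (nat_lit 25156) (nat_lit 6) (nat_lit 331) (nat_lit 5) (nat_lit 226) (nat_lit 269) (nat_lit 285)) (PT.lf (nat_lit 25992) (nat_lit 6) (nat_lit 342) (nat_lit 5) (nat_lit 227) (nat_lit 269) (nat_lit 284)))))) (PT.nd (nat_lit 546) (PT.nd (nat_lit 234) (PT.nd (nat_lit 78) (PT.lf (nat_lit 26828) (nat_lit 6) (nat_lit 353) (nat_lit 5) (nat_lit 228) (nat_lit 269) (nat_lit 283)) (PT.nd (nat_lit 78) (PT.lf (nat_lit 27740) (nat_lit 6) (nat_lit 365) (nat_lit 5) (nat_lit 229) (nat_lit 269) (nat_lit 282)) (PT.lf (nat_lit 28576) (nat_lit 6) (nat_lit 376) (nat_lit 5) (nat_lit 230) (nat_lit 269) (nat_lit 281)))) (PT.nd (nat_lit 156) (PT.nd (nat_lit 78) (PT.lf (nat_lit 29488) (nat_lit 6) (nat_lit 388) (nat_lit 5) (nat_lit 231) (nat_lit 269) (nat_lit 280)) (PT.lf (nat_lit 30400) (nat_lit 6) (nat_lit 400) (nat_lit 5) (nat_lit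 232) (nat_lit 269) (nat_lit 279))) (PT.nd (nat_lit 78) (PT.lf (nat_lit 31388) (nat_lit 6) (nat_lit 413) (nat_lit 5) (nat_lit 233) (nat_lit 269) (nat_lit 278)) (PT.lf (nat_lit 32376) (nat_lit 6) (nat_lit 426) (nat_lit 5) (nat_lit 234) (nat_lit 269) (nat_lit 277))))) (PT.nd (nat_lit 312) (PT.nd (nat_lit 156) (PT.nd (nat_lit 78) (PT.lf (nat_lit 33440) (nat_lit 6) (nat_lit 440) (nat_lit 5) (nat_lit 235) (nat_lit 269) (nat_lit 276)) (PT.lf (nat_lit 35188) (nat_lit 6) (nat_lit 463) (nat_lit 5) (nat_lit 236) (nat_lit 269) (nat_lit 275))) (PT.nd (nat_lit 78) (PT.lf (nat_lit 37012) (nat_lit 6) (nat_lit 487) (nat_lit 5) (nat_lit 237) (nat_lit 269) (nat_lit 274)) (PT.lf (nat_lit 38760) (nat_lit 6) (nat_lit 510) (nat_lit 5) (nat_lit 238) (nat_lit 269) (nat_lit 273)))) (PT.nd (nat_lit 156) (PT.nd (nat_lit 78) (PT.lf (nat_lit 40432) (nat_lit 6) (nat_lit 532) (nat_lit 5) (nat_lit 239) (nat_lit 269) (nat_lit 272)) (PT.lf (nat_lit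 42028) (nat_lit 6) (nat_lit 553) (nat_lit 5) (nat_lit 240) (nat_lit 269) (nat_lit 271))) (PT.nd (nat_lit 78) (PT.lf (nat_lit 43548) (nat_lit 6) (nat_lit 573) (nat_lit 5) (nat_lit 241) (nat_lit 269) (nat_lit 270)) (PT.lf (nat_lit 44992) (nat_lit 3) (nat_lit 592) (nat_lit 4) (nat_lit 242) (nat_lit 269) (nat_lit 269))))))) (PT.nd (nat_lit 1170) (PT.nd (nat_lit 546) (PT.nd (nat_lit 234) (PT.nd (nat_lit 78) (PT.lf (nat_lit 46284) (nat_lit 6) (nat_lit 609) (nat_lit 4) (nat_lit 243) (nat_lit 269) (nat_lit 268)) (PT.nd (nat_lit 78) (PT.lf (nat_lit 47500) (nat_lit 6) (nat_lit 625) (nat_lit 4) (nat_lit 244) (nat_lit 269) (nat_lit 267)) (PT.lf (nat_lit 48640) (nat_lit 6) (nat_lit 640) (nat_lit 4) (nat_lit 245) (nat_lit 269) (nat_lit 266)))) (PT.nd (nat_lit 156) (PT.nd (nat_lit 78) (PT.lf (nat_lit 49704) (nat_lit 6) (nat_lit 654) (nat_lit 4) (nat_lit 246) (nat_lit 269) (nat_lit 265)) (PT.lf (nat_lit 50692) (nat_lit 6) (nat_lit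 667) (nat_lit 4) (nat_lit 247) (nat_lit 269) (nat_lit 264))) (PT.nd (nat_lit 78) (PT.lf (nat_lit 51604) (nat_lit 6) (nat_lit 679) (nat_lit 4) (nat_lit 248) (nat_lit 269) (nat_lit 263)) (PT.lf (nat_lit 52440) (nat_lit 6) (nat_lit 690) (nat_lit 4) (nat_lit 249) (nat_lit 269) (nat_lit 262))))) (PT.nd (nat_lit 312) (PT.nd (nat_lit 156) (PT.nd (nat_lit 78) (PT.lf (nat_lit 53200) (nat_lit 6) (nat_lit 700) (nat_lit 4) (nat_lit 250) (nat_lit 269) (nat_lit 261)) (PT.lf (nat_lit 53884) (nat_lit 6) (nat_lit 709) (nat_lit 4) (nat_lit 251) (nat_lit 269) (nat_lit 260))) (PT.nd (nat_lit 78) (PT.lf (nat_lit 53808) (nat_lit 6) (nat_lit 708) (nat_lit 4) (nat_lit 252) (nat_lit 269) (nat_lit 259)) (PT.lf (nat_lit 53732) (nat_lit 6) (nat_lit 707) (nat_lit 4) (nat_lit 253) (nat_lit 269) (nat_lit 258)))) (PT.nd (nat_lit 156) (PT.nd (nat_lit 78) (PT.lf (nat_lit 53656) (nat_lit 6) (nat_lit 706) (nat_lit 4) (nat_lit 254) (nat_lit 269) (nat_lit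 257)) (PT.lf (nat_lit 53580) (nat_lit 6) (nat_lit 705) (nat_lit 4) (nat_lit 255) (nat_lit 269) (nat_lit 256))) (PT.nd (nat_lit 78) (PT.lf (nat_lit 53580) (nat_lit 6) (nat_lit 705) (nat_lit 2) (nat_lit 256) (nat_lit 269) (nat_lit 255)) (PT.lf (nat_lit 53656) (nat_lit 6) (nat_lit 706) (nat_lit 2) (nat_lit 257) (nat_lit 269) (nat_lit 254)))))) (PT.nd (nat_lit 546) (PT.nd (nat_lit 234) (PT.nd (nat_lit 78) (PT.lf (nat_lit 53732) (nat_lit 6) (nat_lit 707) (nat_lit 2) (nat_lit 258) (nat_lit 269) (nat_lit 253)) (PT.nd (nat_lit 78) (PT.lf (nat_lit 53808) (nat_lit 6) (nat_lit 708) (nat_lit 2) (nat_lit 259) (nat_lit 269) (nat_lit 252)) (PT.lf (nat_lit 53884) (nat_lit 6) (nat_lit 709) (nat_lit 2) (nat_lit 260) (nat_lit 269) (nat_lit 251)))) (PT.nd (nat_lit 156) (PT.nd (nat_lit 78) (PT.lf (nat_lit 53200) (nat_lit 6) (nat_lit 700) (nat_lit 2) (nat_lit 261) (nat_lit 269) (nat_lit 250)) (PT.lf (nat_lit 52440) (nat_lit 6) (nat_lit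 690) (nat_lit 2) (nat_lit 262) (nat_lit 269) (nat_lit 249))) (PT.nd (nat_lit 78) (PT.lf (nat_lit 51604) (nat_lit 6) (nat_lit 679) (nat_lit 2) (nat_lit 263) (nat_lit 269) (nat_lit 248)) (PT.lf (nat_lit 50692) (nat_lit 6) (nat_lit 667) (nat_lit 2) (nat_lit 264) (nat_lit 269) (nat_lit 247))))) (PT.nd (nat_lit 312) (PT.nd (nat_lit 156) (PT.nd (nat_lit 78) (PT.lf (nat_lit 49704) (nat_lit 6) (nat_lit 654) (nat_lit 2) (nat_lit 265) (nat_lit 269) (nat_lit 246)) (PT.lf (nat_lit 48640) (nat_lit 6) (nat_lit 640) (nat_lit 2) (nat_lit 266) (nat_lit 269) (nat_lit 245))) (PT.nd (nat_lit 78) (PT.lf (nat_lit 47500) (nat_lit 6) (nat_lit 625) (nat_lit 2) (nat_lit 267) (nat_lit 269) (nat_lit 244)) (PT.lf (nat_lit 46284) (nat_lit 6) (nat_lit 609) (nat_lit 2) (nat_lit 268) (nat_lit 269) (nat_lit 243)))) (PT.nd (nat_lit 156) (PT.nd (nat_lit 78) (PT.lf (nat_lit 44992) (nat_lit 3) (nat_lit 592) (nat_lit 0) (nat_lit 269) (nat_lit 269) (nat_lit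 242)) (PT.lf (nat_lit 43548) (nat_lit 6) (nat_lit 573) (nat_lit 0) (nat_lit 270) (nat_lit 269) (nat_lit 241))) (PT.nd (nat_lit 78) (PT.lf (nat_lit 42028) (nat_lit 6) (nat_lit 553) (nat_lit 0) (nat_lit 271) (nat_lit 269) (nat_lit 240)) (PT.lf (nat_lit 40432) (nat_lit 6) (nat_lit 532) (nat_lit 0) (nat_lit 272) (nat_lit 269) (nat_lit 239))))))))
noncomputable def pc35 : PT := (PT.nd (nat_lit 78468) (PT.nd (nat_lit 77298) (PT.nd (nat_lit 546) (PT.nd (nat_lit 234) (PT.nd (nat_lit 78) (PT.lf (nat_lit 38760) (nat_lit 6) (nat_lit 510) (nat_lit 0) (nat_lit 273) (nat_lit 269) (nat_lit 238)) (PT.nd (nat_lit 78) (PT.lf (nat_lit 37012) (nat_lit 6) (nat_lit 487) (nat_lit 0) (nat_lit 274) (nat_lit 269) (nat_lit 237)) (PT.lf (nat_lit 35188) (nat_lit 6) (nat_lit 463) (nat_lit 0) (nat_lit 275) (nat_lit 269) (nat_lit 236)))) (PT.nd (nat_lit 156) (PT.nd (nat_lit 78) (PT.lf (nat_lit 33440) (nat_lit 6) (nat_lit 440) (nat_lit 0) (nat_lit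 276) (nat_lit 269) (nat_lit 235)) (PT.lf (nat_lit 32376) (nat_lit 6) (nat_lit 426) (nat_lit 0) (nat_lit 277) (nat_lit 269) (nat_lit 234))) (PT.nd (nat_lit 78) (PT.lf (nat_lit 31388) (nat_lit 6) (nat_lit 413) (nat_lit 0) (nat_lit 278) (nat_lit 269) (nat_lit 233)) (PT.lf (nat_lit 30400) (nat_lit 6) (nat_lit 400) (nat_lit 0) (nat_lit 279) (nat_lit 269) (nat_lit 232))))) (PT.nd (nat_lit 312) (PT.nd (nat_lit 156) (PT.nd (nat_lit 78) (PT.lf (nat_lit 29488) (nat_lit 6) (nat_lit 388) (nat_lit 0) (nat_lit 280) (nat_lit 269) (nat_lit 231)) (PT.lf (nat_lit 28576) (nat_lit 6) (nat_lit 376) (nat_lit 0) (nat_lit 281) (nat_lit 269) (nat_lit 230))) (PT.nd (nat_lit 78) (PT.lf (nat_lit 27740) (nat_lit 6) (nat_lit 365) (nat_lit 0) (nat_lit 282) (nat_lit 269) (nat_lit 229)) (PT.lf (nat_lit 26828) (nat_lit 6) (nat_lit 353) (nat_lit 0) (nat_lit 283) (nat_lit 269) (nat_lit 228)))) (PT.nd (nat_lit 156) (PT.nd (nat_lit 78) (PT.lf (nat_lit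 25992) (nat_lit 6) (nat_lit 342) (nat_lit 0) (nat_lit 284) (nat_lit 269) (nat_lit 227)) (PT.lf (nat_lit 25156) (nat_lit 6) (nat_lit 331) (nat_lit 0) (nat_lit 285) (nat_lit 269) (nat_lit 226))) (PT.nd (nat_lit 78) (PT.lf (nat_lit 24396) (nat_lit 6) (nat_lit 321) (nat_lit 0) (nat_lit 286) (nat_lit 269) (nat_lit 225)) (PT.lf (nat_lit 23560) (nat_lit 6) (nat_lit 310) (nat_lit 0) (nat_lit 287) (nat_lit 269) (nat_lit 224)))))) (PT.nd (nat_lit 546) (PT.nd (nat_lit 234) (PT.nd (nat_lit 78) (PT.lf (nat_lit 22876) (nat_lit 6) (nat_lit 301) (nat_lit 5) (nat_lit 223) (nat_lit 270) (nat_lit 287)) (PT.nd (nat_lit 78) (PT.lf (nat_lit 23636) (nat_lit 6) (nat_lit 311) (nat_lit 5) (nat_lit 224) (nat_lit 270) (nat_lit 286)) (PT.lf (nat_lit 24472) (nat_lit 6) (nat_lit 322) (nat_lit 5) (nat_lit 225) (nat_lit 270) (nat_lit 285)))) (PT.nd (nat_lit 156) (PT.nd (nat_lit 78) (PT.lf (nat_lit 25232) (nat_lit 6) (nat_lit 332) (nat_lit 5) (nat_lit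 226) (nat_lit 270) (nat_lit 284)) (PT.lf (nat_lit 26068) (nat_lit 6) (nat_lit 343) (nat_lit 5) (nat_lit 227) (nat_lit 270) (nat_lit 283))) (PT.nd (nat_lit 78) (PT.lf (nat_lit 26904) (nat_lit 6) (nat_lit 354) (nat_lit 5) (nat_lit 228) (nat_lit 270) (nat_lit 282)) (PT.lf (nat_lit 27816) (nat_lit 6) (nat_lit 366) (nat_lit 5) (nat_lit 229) (nat_lit 270) (nat_lit 281))))) (PT.nd (nat_lit 312) (PT.nd (nat_lit 156) (PT.nd (nat_lit 78) (PT.lf (nat_lit 28652) (nat_lit 6) (nat_lit 377) (nat_lit 5) (nat_lit 230) (nat_lit 270) (nat_lit 280)) (PT.lf (nat_lit 29564) (nat_lit 6) (nat_lit 389) (nat_lit 5) (nat_lit 231) (nat_lit 270) (nat_lit 279))) (PT.nd (nat_lit 78) (PT.lf (nat_lit 30476) (nat_lit 6) (nat_lit 401) (nat_lit 5) (nat_lit 232) (nat_lit 270) (nat_lit 278)) (PT.lf (nat_lit 31464) (nat_lit 6) (nat_lit 414) (nat_lit 5) (nat_lit 233) (nat_lit 270) (nat_lit 277)))) (PT.nd (nat_lit 156) (PT.nd (nat_lit 78) (PT.lf (nat_lit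 32452) (nat_lit 6) (nat_lit 427) (nat_lit 5) (nat_lit 234) (nat_lit 270) (nat_lit 276)) (PT.lf (nat_lit 33516) (nat_lit 6) (nat_lit 441) (nat_lit 5) (nat_lit 235) (nat_lit 270) (nat_lit 275))) (PT.nd (nat_lit 78) (PT.lf (nat_lit 35264) (nat_lit 6) (nat_lit 464) (nat_lit 5) (nat_lit 236) (nat_lit 270) (nat_lit 274)) (PT.lf (nat_lit 37088) (nat_lit 6) (nat_lit 488) (nat_lit 5) (nat_lit 237) (nat_lit 270) (nat_lit 273))))))) (PT.nd (nat_lit 1170) (PT.nd (nat_lit 546) (PT.nd (nat_lit 234) (PT.nd (nat_lit 78) (PT.lf (nat_lit 38836) (nat_lit 6) (nat_lit 511) (nat_lit 5) (nat_lit 238) (nat_lit 270) (nat_lit 272)) (PT.nd (nat_lit 78) (PT.lf (nat_lit 40508) (nat_lit 6) (nat_lit 533) (nat_lit 5) (nat_lit 239) (nat_lit 270) (nat_lit 271)) (PT.lf (nat_lit 42104) (nat_lit 3) (nat_lit 554) (nat_lit 4) (nat_lit 240) (nat_lit 270) (nat_lit 270)))) (PT.nd (nat_lit 156) (PT.nd (nat_lit 78) (PT.lf (nat_lit 43548) (nat_lit 6) (nat_lit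 573) (nat_lit 4) (nat_lit 241) (nat_lit 270) (nat_lit 269)) (PT.lf (nat_lit 44916) (nat_lit 6) (nat_lit 591) (nat_lit 4) (nat_lit 242) (nat_lit 270) (nat_lit 268))) (PT.nd (nat_lit 78) (PT.lf (nat_lit 46208) (nat_lit 6) (nat_lit 608) (nat_lit 4) (nat_lit 243) (nat_lit 270) (nat_lit 267)) (PT.lf (nat_lit 47424) (nat_lit 6) (nat_lit 624) (nat_lit 4) (nat_lit 244) (nat_lit 270) (nat_lit 266))))) (PT.nd (nat_lit 312) (PT.nd (nat_lit 156) (PT.nd (nat_lit 78) (PT.lf (nat_lit 48564) (nat_lit 6) (nat_lit 639) (nat_lit 4) (nat_lit 245) (nat_lit 270) (nat_lit 265)) (PT.lf (nat_lit 49628) (nat_lit 6) (nat_lit 653) (nat_lit 4) (nat_lit 246) (nat_lit 270) (nat_lit 264))) (PT.nd (nat_lit 78) (PT.lf (nat_lit 50616) (nat_lit 6) (nat_lit 666) (nat_lit 4) (nat_lit 247) (nat_lit 270) (nat_lit 263)) (PT.lf (nat_lit 51528) (nat_lit 6) (nat_lit 678) (nat_lit 4) (nat_lit 248) (nat_lit 270) (nat_lit 262)))) (PT.nd (nat_lit 156) (PT.nd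 (nat_lit 78) (PT.lf (nat_lit 52364) (nat_lit 6) (nat_lit 689) (nat_lit 4) (nat_lit 249) (nat_lit 270) (nat_lit 261)) (PT.lf (nat_lit 53124) (nat_lit 6) (nat_lit 699) (nat_lit 4) (nat_lit 250) (nat_lit 270) (nat_lit 260))) (PT.nd (nat_lit 78) (PT.lf (nat_lit 53048) (nat_lit 6) (nat_lit 698) (nat_lit 4) (nat_lit 251) (nat_lit 270) (nat_lit 259)) (PT.lf (nat_lit 52972) (nat_lit 6) (nat_lit 697) (nat_lit 4) (nat_lit 252) (nat_lit 270) (nat_lit 258)))))) (PT.nd (nat_lit 546) (PT.nd (nat_lit 234) (PT.nd (nat_lit 78) (PT.lf (nat_lit 52896) (nat_lit 6) (nat_lit 696) (nat_lit 4) (nat_lit 253) (nat_lit 270) (nat_lit 257)) (PT.nd (nat_lit 78) (PT.lf (nat_lit 52820) (nat_lit 6) (nat_lit 695) (nat_lit 4) (nat_lit 254) (nat_lit 270) (nat_lit 256)) (PT.lf (nat_lit 52744) (nat_lit 3) (nat_lit 694) (nat_lit 2) (nat_lit 255) (nat_lit 270) (nat_lit 255)))) (PT.nd (nat_lit 156) (PT.nd (nat_lit 78) (PT.lf (nat_lit 52820) (nat_lit 6)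 (nat_lit 695) (nat_lit 2) (nat_lit 256) (nat_lit 270) (nat_lit 254)) (PT.lf (nat_lit 52896) (nat_lit 6) (nat_lit 696) (nat_lit 2) (nat_lit 257) (nat_lit 270) (nat_lit 253))) (PT.nd (nat_lit 78) (PT.lf (nat_lit 52972) (nat_lit 6) (nat_lit 697) (nat_lit 2) (nat_lit 258) (nat_lit 270) (nat_lit 252)) (PT.lf (nat_lit 53048) (nat_lit 6) (nat_lit 698) (nat_lit 2) (nat_lit 259) (nat_lit 270) (nat_lit 251))))) (PT.nd (nat_lit 312) (PT.nd (nat_lit 156) (PT.nd (nat_lit 78) (PT.lf (nat_lit 53124) (nat_lit 6) (nat_lit 699) (nat_lit 2) (nat_lit 260) (nat_lit 270) (nat_lit 250)) (PT.lf (nat_lit 52364) (nat_lit 6) (nat_lit 689) (nat_lit 2) (nat_lit 261) (nat_lit 270) (nat_lit 249))) (PT.nd (nat_lit 78) (PT.lf (nat_lit 51528) (nat_lit 6) (nat_lit 678) (nat_lit 2) (nat_lit 262) (nat_lit 270) (nat_lit 248)) (PT.lf (nat_lit 50616) (nat_lit 6) (nat_lit 666) (nat_lit 2) (nat_lit 263) (nat_lit 270) (nat_lit 247)))) (PT.nd (nat_lit 156)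 (PT.nd (nat_lit 78) (PT.lf (nat_lit 49628) (nat_lit 6) (nat_lit 653) (nat_lit 2) (nat_lit 264) (nat_lit 270) (nat_lit 246)) (PT.lf (nat_lit 48564) (nat_lit 6) (nat_lit 639) (nat_lit 2) (nat_lit 265) (nat_lit 270) (nat_lit 245))) (PT.nd (nat_lit 78) (PT.lf (nat_lit 47424) (nat_lit 6) (nat_lit 624) (nat_lit 2) (nat_lit 266) (nat_lit 270) (nat_lit 244)) (PT.lf (nat_lit 46208) (nat_lit 6) (nat_lit 608) (nat_lit 2) (nat_lit 267) (nat_lit 270) (nat_lit 243))))))))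
noncomputable def pc36 : PT := (PT.nd (nat_lit 78390) (PT.nd (nat_lit 1170) (PT.nd (nat_lit 546) (PT.nd (nat_lit 234) (PT.nd (nat_lit 78) (PT.lf (nat_lit 44916) (nat_lit 6) (nat_lit 591) (nat_lit 2) (nat_lit 268) (nat_lit 270) (nat_lit 242)) (PT.nd (nat_lit 78) (PT.lf (nat_lit 43548) (nat_lit 6) (nat_lit 573) (nat_lit 2) (nat_lit 269) (nat_lit 270) (nat_lit 241)) (PT.lf (nat_lit 42104) (nat_lit 3) (nat_lit 554) (nat_lit 0) (nat_lit 270) (nat_lit 270) (nat_lit 240)))) (PT.nd (nat_lit 156) (PT.nd (nat_lit 78) (PT.lf (nat_lit 40508) (nat_lit 6) (nat_lit 533) (nat_lit 0) (nat_lit 271) (nat_lit 270) (nat_lit 239)) (PT.lf (nat_lit 38836) (nat_lit 6) (nat_lit 511) (nat_lit 0) (nat_lit 272) (nat_lit 270) (nat_lit 238))) (PT.nd (nat_lit 78) (PT.lf (nat_lit 37088) (nat_lit 6) (nat_lit 488) (nat_lit 0) (nat_lit 273) (nat_lit 270) (nat_lit 237)) (PT.lf (nat_lit 35264) (nat_lit 6) (nat_lit 464) (nat_lit 0) (nat_lit 274) (nat_lit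 270) (nat_lit 236))))) (PT.nd (nat_lit 312) (PT.nd (nat_lit 156) (PT.nd (nat_lit 78) (PT.lf (nat_lit 33516) (nat_lit 6) (nat_lit 441) (nat_lit 0) (nat_lit 275) (nat_lit 270) (nat_lit 235)) (PT.lf (nat_lit 32452) (nat_lit 6) (nat_lit 427) (nat_lit 0) (nat_lit 276) (nat_lit 270) (nat_lit 234))) (PT.nd (nat_lit 78) (PT.lf (nat_lit 31464) (nat_lit 6) (nat_lit 414) (nat_lit 0) (nat_lit 277) (nat_lit 270) (nat_lit 233)) (PT.lf (nat_lit 30476) (nat_lit 6) (nat_lit 401) (nat_lit 0) (nat_lit 278) (nat_lit 270) (nat_lit 232)))) (PT.nd (nat_lit 156) (PT.nd (nat_lit 78) (PT.lf (nat_lit 29564) (nat_lit 6) (nat_lit 389) (nat_lit 0) (nat_lit 279) (nat_lit 270) (nat_lit 231)) (PT.lf (nat_lit 28652) (nat_lit 6) (nat_lit 377) (nat_lit 0) (nat_lit 280) (nat_lit 270) (nat_lit 230))) (PT.nd (nat_lit 78) (PT.lf (nat_lit 27816) (nat_lit 6) (nat_lit 366) (nat_lit 0) (nat_lit 281) (nat_lit 270) (nat_lit 229)) (PT.lf (nat_lit 26904) (nat_lit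 6) (nat_lit 354) (nat_lit 0) (nat_lit 282) (nat_lit 270) (nat_lit 228)))))) (PT.nd (nat_lit 76596) (PT.nd (nat_lit 234) (PT.nd (nat_lit 78) (PT.lf (nat_lit 26068) (nat_lit 6) (nat_lit 343) (nat_lit 0) (nat_lit 283) (nat_lit 270) (nat_lit 227)) (PT.nd (nat_lit 78) (PT.lf (nat_lit 25232) (nat_lit 6) (nat_lit 332) (nat_lit 0) (nat_lit 284) (nat_lit 270) (nat_lit 226)) (PT.lf (nat_lit 24472) (nat_lit 6) (nat_lit 322) (nat_lit 0) (nat_lit 285) (nat_lit 270) (nat_lit 225)))) (PT.nd (nat_lit 76206) (PT.nd (nat_lit 78) (PT.lf (nat_lit 23636) (nat_lit 6) (nat_lit 311) (nat_lit 0) (nat_lit 286) (nat_lit 270) (nat_lit 224)) (PT.lf (nat_lit 22876) (nat_lit 6) (nat_lit 301) (nat_lit 0) (nat_lit 287) (nat_lit 270) (nat_lit 223))) (PT.nd (nat_lit 78) (PT.lf (nat_lit 22192) (nat_lit 6) (nat_lit 292) (nat_lit 5) (nat_lit 222) (nat_lit 271) (nat_lit 287)) (PT.lf (nat_lit 22952) (nat_lit 6) (nat_lit 302) (nat_lit 5) (nat_lit 223)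 (nat_lit 271) (nat_lit 286))))) (PT.nd (nat_lit 312) (PT.nd (nat_lit 156) (PT.nd (nat_lit 78) (PT.lf (nat_lit 23712) (nat_lit 6) (nat_lit 312) (nat_lit 5) (nat_lit 224) (nat_lit 271) (nat_lit 285)) (PT.lf (nat_lit 24548) (nat_lit 6) (nat_lit 323) (nat_lit 5) (nat_lit 225) (nat_lit 271) (nat_lit 284))) (PT.nd (nat_lit 78) (PT.lf (nat_lit 25308) (nat_lit 6) (nat_lit 333) (nat_lit 5) (nat_lit 226) (nat_lit 271) (nat_lit 283)) (PT.lf (nat_lit 26144) (nat_lit 6) (nat_lit 344) (nat_lit 5) (nat_lit 227) (nat_lit 271) (nat_lit 282)))) (PT.nd (nat_lit 156) (PT.nd (nat_lit 78) (PT.lf (nat_lit 26980) (nat_lit 6) (nat_lit 355) (nat_lit 5) (nat_lit 228) (nat_lit 271) (nat_lit 281)) (PT.lf (nat_lit 27892) (nat_lit 6) (nat_lit 367) (nat_lit 5) (nat_lit 229) (nat_lit 271) (nat_lit 280))) (PT.nd (nat_lit 78) (PT.lf (nat_lit 28728) (nat_lit 6) (nat_lit 378) (nat_lit 5) (nat_lit 230) (nat_lit 271) (nat_lit 279)) (PT.lf (nat_lit 29640)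 (nat_lit 6) (nat_lit 390) (nat_lit 5) (nat_lit 231) (nat_lit 271) (nat_lit 278))))))) (PT.nd (nat_lit 1170) (PT.nd (nat_lit 546) (PT.nd (nat_lit 234) (PT.nd (nat_lit 78) (PT.lf (nat_lit 30552) (nat_lit 6) (nat_lit 402) (nat_lit 5) (nat_lit 232) (nat_lit 271) (nat_lit 277)) (PT.nd (nat_lit 78) (PT.lf (nat_lit 31540) (nat_lit 6) (nat_lit 415) (nat_lit 5) (nat_lit 233) (nat_lit 271) (nat_lit 276)) (PT.lf (nat_lit 32528) (nat_lit 6) (nat_lit 428) (nat_lit 5) (nat_lit 234) (nat_lit 271) (nat_lit 275)))) (PT.nd (nat_lit 156) (PT.nd (nat_lit 78) (PT.lf (nat_lit 33592) (nat_lit 6) (nat_lit 442) (nat_lit 5) (nat_lit 235) (nat_lit 271) (nat_lit 274)) (PT.lf (nat_lit 35340) (nat_lit 6) (nat_lit 465) (nat_lit 5) (nat_lit 236) (nat_lit 271) (nat_lit 273))) (PT.nd (nat_lit 78) (PT.lf (nat_lit 37164) (nat_lit 6) (nat_lit 489) (nat_lit 5) (nat_lit 237) (nat_lit 271) (nat_lit 272)) (PT.lf (nat_lit 38912) (nat_lit 3) (nat_lit 512)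 (nat_lit 4) (nat_lit 238) (nat_lit 271) (nat_lit 271))))) (PT.nd (nat_lit 312) (PT.nd (nat_lit 156) (PT.nd (nat_lit 78) (PT.lf (nat_lit 40508) (nat_lit 6) (nat_lit 533) (nat_lit 4) (nat_lit 239) (nat_lit 271) (nat_lit 270)) (PT.lf (nat_lit 42028) (nat_lit 6) (nat_lit 553) (nat_lit 4) (nat_lit 240) (nat_lit 271) (nat_lit 269))) (PT.nd (nat_lit 78) (PT.lf (nat_lit 43472) (nat_lit 6) (nat_lit 572) (nat_lit 4) (nat_lit 241) (nat_lit 271) (nat_lit 268)) (PT.lf (nat_lit 44840) (nat_lit 6) (nat_lit 590) (nat_lit 4) (nat_lit 242) (nat_lit 271) (nat_lit 267)))) (PT.nd (nat_lit 156) (PT.nd (nat_lit 78) (PT.lf (nat_lit 46132) (nat_lit 6) (nat_lit 607) (nat_lit 4) (nat_lit 243) (nat_lit 271) (nat_lit 266)) (PT.lf (nat_lit 47348) (nat_lit 6) (nat_lit 623) (nat_lit 4) (nat_lit 244) (nat_lit 271) (nat_lit 265))) (PT.nd (nat_lit 78) (PT.lf (nat_lit 48488) (nat_lit 6) (nat_lit 638) (nat_lit 4) (nat_lit 245) (nat_lit 271) (nat_lit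 264)) (PT.lf (nat_lit 49552) (nat_lit 6) (nat_lit 652) (nat_lit 4) (nat_lit 246) (nat_lit 271) (nat_lit 263)))))) (PT.nd (nat_lit 546) (PT.nd (nat_lit 234) (PT.nd (nat_lit 78) (PT.lf (nat_lit 50540) (nat_lit 6) (nat_lit 665) (nat_lit 4) (nat_lit 247) (nat_lit 271) (nat_lit 262)) (PT.nd (nat_lit 78) (PT.lf (nat_lit 51452) (nat_lit 6) (nat_lit 677) (nat_lit 4) (nat_lit 248) (nat_lit 271) (nat_lit 261)) (PT.lf (nat_lit 52288) (nat_lit 6) (nat_lit 688) (nat_lit 4) (nat_lit 249) (nat_lit 271) (nat_lit 260)))) (PT.nd (nat_lit 156) (PT.nd (nat_lit 78) (PT.lf (nat_lit 52212) (nat_lit 6) (nat_lit 687) (nat_lit 4) (nat_lit 250) (nat_lit 271) (nat_lit 259)) (PT.lf (nat_lit 52136) (nat_lit 6) (nat_lit 686) (nat_lit 4) (nat_lit 251) (nat_lit 271) (nat_lit 258))) (PT.nd (nat_lit 78) (PT.lf (nat_lit 52060) (nat_lit 6) (nat_lit 685) (nat_lit 4) (nat_lit 252) (nat_lit 271) (nat_lit 257)) (PT.lf (nat_lit 51984) (nat_lit 6) (nat_lit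 684) (nat_lit 4) (nat_lit 253) (nat_lit 271) (nat_lit 256))))) (PT.nd (nat_lit 312) (PT.nd (nat_lit 156) (PT.nd (nat_lit 78) (PT.lf (nat_lit 51908) (nat_lit 6) (nat_lit 683) (nat_lit 4) (nat_lit 254) (nat_lit 271) (nat_lit 255)) (PT.lf (nat_lit 51908) (nat_lit 6) (nat_lit 683) (nat_lit 2) (nat_lit 255) (nat_lit 271) (nat_lit 254))) (PT.nd (nat_lit 78) (PT.lf (nat_lit 51984) (nat_lit 6) (nat_lit 684) (nat_lit 2) (nat_lit 256) (nat_lit 271) (nat_lit 253)) (PT.lf (nat_lit 52060) (nat_lit 6) (nat_lit 685) (nat_lit 2) (nat_lit 257) (nat_lit 271) (nat_lit 252)))) (PT.nd (nat_lit 156) (PT.nd (nat_lit 78) (PT.lf (nat_lit 52136) (nat_lit 6) (nat_lit 686) (nat_lit 2) (nat_lit 258) (nat_lit 271) (nat_lit 251)) (PT.lf (nat_lit 52212) (nat_lit 6) (nat_lit 687) (nat_lit 2) (nat_lit 259) (nat_lit 271) (nat_lit 250))) (PT.nd (nat_lit 78) (PT.lf (nat_lit 52288) (nat_lit 6) (nat_lit 688) (nat_lit 2) (nat_lit 260) (nat_lit 271) (nat_lit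 249)) (PT.lf (nat_lit 51452) (nat_lit 6) (nat_lit 677) (nat_lit 2) (nat_lit 261) (nat_lit 271) (nat_lit 248))))))))
noncomputable def pc37 : PT := (PT.nd (nat_lit 78234) (PT.nd (nat_lit 1170) (PT.nd (nat_lit 546) (PT.nd (nat_lit 234) (PT.nd (nat_lit 78) (PT.lf (nat_lit 50540) (nat_lit 6) (nat_lit 665) (nat_lit 2) (nat_lit 262) (nat_lit 271) (nat_lit 247)) (PT.nd (nat_lit 78) (PT.lf (nat_lit 49552) (nat_lit 6) (nat_lit 652) (nat_lit 2) (nat_lit 263) (nat_lit 271) (nat_lit 246)) (PT.lf (nat_lit 48488) (nat_lit 6) (nat_lit 638) (nat_lit 2) (nat_lit 264) (nat_lit 271) (nat_lit 245)))) (PT.nd (nat_lit 156) (PT.nd (nat_lit 78) (PT.lf (nat_lit 47348) (nat_lit 6) (nat_lit 623) (nat_lit 2) (nat_lit 265) (nat_lit 271) (nat_lit 244)) (PT.lf (nat_lit 46132) (nat_lit 6) (nat_lit 607) (nat_lit 2) (nat_lit 266) (nat_lit 271) (nat_lit 243))) (PT.nd (nat_lit 78) (PT.lf (nat_lit 44840) (nat_lit 6) (nat_lit 590) (nat_lit 2) (nat_lit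 267) (nat_lit 271) (nat_lit 242)) (PT.lf (nat_lit 43472) (nat_lit 6) (nat_lit 572) (nat_lit 2) (nat_lit 268) (nat_lit 271) (nat_lit 241))))) (PT.nd (nat_lit 312) (PT.nd (nat_lit 156) (PT.nd (nat_lit 78) (PT.lf (nat_lit 42028) (nat_lit 6) (nat_lit 553) (nat_lit 2) (nat_lit 269) (nat_lit 271) (nat_lit 240)) (PT.lf (nat_lit 40508) (nat_lit 6) (nat_lit 533) (nat_lit 2) (nat_lit 270) (nat_lit 271) (nat_lit 239))) (PT.nd (nat_lit 78) (PT.lf (nat_lit 38912) (nat_lit 3) (nat_lit 512) (nat_lit 0) (nat_lit 271) (nat_lit 271) (nat_lit 238)) (PT.lf (nat_lit 37164) (nat_lit 6) (nat_lit 489) (nat_lit 0) (nat_lit 272) (nat_lit 271) (nat_lit 237)))) (PT.nd (nat_lit 156) (PT.nd (nat_lit 78) (PT.lf (nat_lit 35340) (nat_lit 6) (nat_lit 465) (nat_lit 0) (nat_lit 273) (nat_lit 271) (nat_lit 236)) (PT.lf (nat_lit 33592) (nat_lit 6) (nat_lit 442) (nat_lit 0) (nat_lit 274) (nat_lit 271) (nat_lit 235))) (PT.nd (nat_lit 78) (PT.lf (nat_lit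 32528) (nat_lit 6) (nat_lit 428) (nat_lit 0) (nat_lit 275) (nat_lit 271) (nat_lit 234)) (PT.lf (nat_lit 31540) (nat_lit 6) (nat_lit 415) (nat_lit 0) (nat_lit 276) (nat_lit 271) (nat_lit 233)))))) (PT.nd (nat_lit 546) (PT.nd (nat_lit 234) (PT.nd (nat_lit 78) (PT.lf (nat_lit 30552) (nat_lit 6) (nat_lit 402) (nat_lit 0) (nat_lit 277) (nat_lit 271) (nat_lit 232)) (PT.nd (nat_lit 78) (PT.lf (nat_lit 29640) (nat_lit 6) (nat_lit 390) (nat_lit 0) (nat_lit 278) (nat_lit 271) (nat_lit 231)) (PT.lf (nat_lit 28728) (nat_lit 6) (nat_lit 378) (nat_lit 0) (nat_lit 279) (nat_lit 271) (nat_lit 230)))) (PT.nd (nat_lit 156) (PT.nd (nat_lit 78) (PT.lf (nat_lit 27892) (nat_lit 6) (nat_lit 367) (nat_lit 0) (nat_lit 280) (nat_lit 271) (nat_lit 229)) (PT.lf (nat_lit 26980) (nat_lit 6) (nat_lit 355) (nat_lit 0) (nat_lit 281) (nat_lit 271) (nat_lit 228))) (PT.nd (nat_lit 78) (PT.lf (nat_lit 26144) (nat_lit 6) (nat_lit 344) (nat_lit 0) (nat_lit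 282) (nat_lit 271) (nat_lit 227)) (PT.lf (nat_lit 25308) (nat_lit 6) (nat_lit 333) (nat_lit 0) (nat_lit 283) (nat_lit 271) (nat_lit 226))))) (PT.nd (nat_lit 76206) (PT.nd (nat_lit 156) (PT.nd (nat_lit 78) (PT.lf (nat_lit 24548) (nat_lit 6) (nat_lit 323) (nat_lit 0) (nat_lit 284) (nat_lit 271) (nat_lit 225)) (PT.lf (nat_lit 23712) (nat_lit 6) (nat_lit 312) (nat_lit 0) (nat_lit 285) (nat_lit 271) (nat_lit 224))) (PT.nd (nat_lit 78) (PT.lf (nat_lit 22952) (nat_lit 6) (nat_lit 302) (nat_lit 0) (nat_lit 286) (nat_lit 271) (nat_lit 223)) (PT.lf (nat_lit 22192) (nat_lit 6) (nat_lit 292) (nat_lit 0) (nat_lit 287) (nat_lit 271) (nat_lit 222)))) (PT.nd (nat_lit 156) (PT.nd (nat_lit 78) (PT.lf (nat_lit 20824) (nat_lit 6) (nat_lit 274) (nat_lit 5) (nat_lit 220) (nat_lit 272) (nat_lit 288)) (PT.lf (nat_lit 21584) (nat_lit 6) (nat_lit 284) (nat_lit 5) (nat_lit 221) (nat_lit 272) (nat_lit 287))) (PT.nd (nat_lit 78) (PT.lf (nat_lit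 22268) (nat_lit 6) (nat_lit 293) (nat_lit 5) (nat_lit 222) (nat_lit 272) (nat_lit 286)) (PT.lf (nat_lit 23028) (nat_lit 6) (nat_lit 303) (nat_lit 5) (nat_lit 223) (nat_lit 272) (nat_lit 285))))))) (PT.nd (nat_lit 1170) (PT.nd (nat_lit 546) (PT.nd (nat_lit 234) (PT.nd (nat_lit 78) (PT.lf (nat_lit 23788) (nat_lit 6) (nat_lit 313) (nat_lit 5) (nat_lit 224) (nat_lit 272) (nat_lit 284)) (PT.nd (nat_lit 78) (PT.lf (nat_lit 24624) (nat_lit 6) (nat_lit 324) (nat_lit 5) (nat_lit 225) (nat_lit 272) (nat_lit 283)) (PT.lf (nat_lit 25384) (nat_lit 6) (nat_lit 334) (nat_lit 5) (nat_lit 226) (nat_lit 272) (nat_lit 282)))) (PT.nd (nat_lit 156) (PT.nd (nat_lit 78) (PT.lf (nat_lit 26220) (nat_lit 6) (nat_lit 345) (nat_lit 5) (nat_lit 227) (nat_lit 272) (nat_lit 281)) (PT.lf (nat_lit 27056) (nat_lit 6) (nat_lit 356) (nat_lit 5) (nat_lit 228) (nat_lit 272) (nat_lit 280))) (PT.nd (nat_lit 78) (PT.lf (nat_lit 27968) (nat_lit 6) (nat_lit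 368) (nat_lit 5) (nat_lit 229) (nat_lit 272) (nat_lit 279)) (PT.lf (nat_lit 28804) (nat_lit 6) (nat_lit 379) (nat_lit 5) (nat_lit 230) (nat_lit 272) (nat_lit 278))))) (PT.nd (nat_lit 312) (PT.nd (nat_lit 156) (PT.nd (nat_lit 78) (PT.lf (nat_lit 29716) (nat_lit 6) (nat_lit 391) (nat_lit 5) (nat_lit 231) (nat_lit 272) (nat_lit 277)) (PT.lf (nat_lit 30628) (nat_lit 6) (nat_lit 403) (nat_lit 5) (nat_lit 232) (nat_lit 272) (nat_lit 276))) (PT.nd (nat_lit 78) (PT.lf (nat_lit 31616) (nat_lit 6) (nat_lit 416) (nat_lit 5) (nat_lit 233) (nat_lit 272) (nat_lit 275)) (PT.lf (nat_lit 32604) (nat_lit 6) (nat_lit 429) (nat_lit 5) (nat_lit 234) (nat_lit 272) (nat_lit 274)))) (PT.nd (nat_lit 156) (PT.nd (nat_lit 78) (PT.lf (nat_lit 33668) (nat_lit 6) (nat_lit 443) (nat_lit 5) (nat_lit 235) (nat_lit 272) (nat_lit 273)) (PT.lf (nat_lit 35416) (nat_lit 3) (nat_lit 466) (nat_lit 4) (nat_lit 236) (nat_lit 272) (nat_lit 272))) (PT.nd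 (nat_lit 78) (PT.lf (nat_lit 37164) (nat_lit 6) (nat_lit 489) (nat_lit 4) (nat_lit 237) (nat_lit 272) (nat_lit 271)) (PT.lf (nat_lit 38836) (nat_lit 6) (nat_lit 511) (nat_lit 4) (nat_lit 238) (nat_lit 272) (nat_lit 270)))))) (PT.nd (nat_lit 546) (PT.nd (nat_lit 234) (PT.nd (nat_lit 78) (PT.lf (nat_lit 40432) (nat_lit 6) (nat_lit 532) (nat_lit 4) (nat_lit 239) (nat_lit 272) (nat_lit 269)) (PT.nd (nat_lit 78) (PT.lf (nat_lit 41952) (nat_lit 6) (nat_lit 552) (nat_lit 4) (nat_lit 240) (nat_lit 272) (nat_lit 268)) (PT.lf (nat_lit 43396) (nat_lit 6) (nat_lit 571) (nat_lit 4) (nat_lit 241) (nat_lit 272) (nat_lit 267)))) (PT.nd (nat_lit 156) (PT.nd (nat_lit 78) (PT.lf (nat_lit 44764) (nat_lit 6) (nat_lit 589) (nat_lit 4) (nat_lit 242) (nat_lit 272) (nat_lit 266)) (PT.lf (nat_lit 46056) (nat_lit 6) (nat_lit 606) (nat_lit 4) (nat_lit 243) (nat_lit 272) (nat_lit 265))) (PT.nd (nat_lit 78) (PT.lf (nat_lit 47272) (nat_lit 6)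 (nat_lit 622) (nat_lit 4) (nat_lit 244) (nat_lit 272) (nat_lit 264)) (PT.lf (nat_lit 48412) (nat_lit 6) (nat_lit 637) (nat_lit 4) (nat_lit 245) (nat_lit 272) (nat_lit 263))))) (PT.nd (nat_lit 312) (PT.nd (nat_lit 156) (PT.nd (nat_lit 78) (PT.lf (nat_lit 49476) (nat_lit 6) (nat_lit 651) (nat_lit 4) (nat_lit 246) (nat_lit 272) (nat_lit 262)) (PT.lf (nat_lit 50464) (nat_lit 6) (nat_lit 664) (nat_lit 4) (nat_lit 247) (nat_lit 272) (nat_lit 261))) (PT.nd (nat_lit 78) (PT.lf (nat_lit 51376) (nat_lit 6) (nat_lit 676) (nat_lit 4) (nat_lit 248) (nat_lit 272) (nat_lit 260)) (PT.lf (nat_lit 51300) (nat_lit 6) (nat_lit 675) (nat_lit 4) (nat_lit 249) (nat_lit 272) (nat_lit 259)))) (PT.nd (nat_lit 156) (PT.nd (nat_lit 78) (PT.lf (nat_lit 51224) (nat_lit 6) (nat_lit 674) (nat_lit 4) (nat_lit 250) (nat_lit 272) (nat_lit 258)) (PT.lf (nat_lit 51148) (nat_lit 6) (nat_lit 673) (nat_lit 4) (nat_lit 251) (nat_lit 272) (nat_lit 257)))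 (PT.nd (nat_lit 78) (PT.lf (nat_lit 51072) (nat_lit 6) (nat_lit 672) (nat_lit 4) (nat_lit 252) (nat_lit 272) (nat_lit 256)) (PT.lf (nat_lit 50996) (nat_lit 6) (nat_lit 671) (nat_lit 4) (nat_lit 253) (nat_lit 272) (nat_lit 255))))))))
noncomputable def pc38 : PT := (PT.nd (nat_lit 2340) (PT.nd (nat_lit 1170) (PT.nd (nat_lit 546) (PT.nd (nat_lit 234) (PT.nd (nat_lit 78) (PT.lf (nat_lit 50920) (nat_lit 3) (nat_lit 670) (nat_lit 2) (nat_lit 254) (nat_lit 272) (nat_lit 254)) (PT.nd (nat_lit 78) (PT.lf (nat_lit 50996) (nat_lit 6) (nat_lit 671) (nat_lit 2) (nat_lit 255) (nat_lit 272) (nat_lit 253)) (PT.lf (nat_lit 51072) (nat_lit 6) (nat_lit 672) (nat_lit 2) (nat_lit 256) (nat_lit 272) (nat_lit 252)))) (PT.nd (nat_lit 156) (PT.nd (nat_lit 78) (PT.lf (nat_lit 51148) (nat_lit 6) (nat_lit 673) (nat_lit 2) (nat_lit 257) (nat_lit 272) (nat_lit 251)) (PT.lf (nat_lit 51224) (nat_lit 6) (nat_lit 674) (nat_lit 2) (nat_lit 258)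 (nat_lit 272) (nat_lit 250))) (PT.nd (nat_lit 78) (PT.lf (nat_lit 51300) (nat_lit 6) (nat_lit 675) (nat_lit 2) (nat_lit 259) (nat_lit 272) (nat_lit 249)) (PT.lf (nat_lit 51376) (nat_lit 6) (nat_lit 676) (nat_lit 2) (nat_lit 260) (nat_lit 272) (nat_lit 248))))) (PT.nd (nat_lit 312) (PT.nd (nat_lit 156) (PT.nd (nat_lit 78) (PT.lf (nat_lit 50464) (nat_lit 6) (nat_lit 664) (nat_lit 2) (nat_lit 261) (nat_lit 272) (nat_lit 247)) (PT.lf (nat_lit 49476) (nat_lit 6) (nat_lit 651) (nat_lit 2) (nat_lit 262) (nat_lit 272) (nat_lit 246))) (PT.nd (nat_lit 78) (PT.lf (nat_lit 48412) (nat_lit 6) (nat_lit 637) (nat_lit 2) (nat_lit 263) (nat_lit 272) (nat_lit 245)) (PT.lf (nat_lit 47272) (nat_lit 6) (nat_lit 622) (nat_lit 2) (nat_lit 264) (nat_lit 272) (nat_lit 244)))) (PT.nd (nat_lit 156) (PT.nd (nat_lit 78) (PT.lf (nat_lit 46056) (nat_lit 6) (nat_lit 606) (nat_lit 2) (nat_lit 265) (nat_lit 272) (nat_lit 243)) (PT.lf (nat_lit 44764)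 (nat_lit 6) (nat_lit 589) (nat_lit 2) (nat_lit 266) (nat_lit 272) (nat_lit 242))) (PT.nd (nat_lit 78) (PT.lf (nat_lit 43396) (nat_lit 6) (nat_lit 571) (nat_lit 2) (nat_lit 267) (nat_lit 272) (nat_lit 241)) (PT.lf (nat_lit 41952) (nat_lit 6) (nat_lit 552) (nat_lit 2) (nat_lit 268) (nat_lit 272) (nat_lit 240)))))) (PT.nd (nat_lit 546) (PT.nd (nat_lit 234) (PT.nd (nat_lit 78) (PT.lf (nat_lit 40432) (nat_lit 6) (nat_lit 532) (nat_lit 2) (nat_lit 269) (nat_lit 272) (nat_lit 239)) (PT.nd (nat_lit 78) (PT.lf (nat_lit 38836) (nat_lit 6) (nat_lit 511) (nat_lit 2) (nat_lit 270) (nat_lit 272) (nat_lit 238)) (PT.lf (nat_lit 37164) (nat_lit 6) (nat_lit 489) (nat_lit 2) (nat_lit 271) (nat_lit 272) (nat_lit 237)))) (PT.nd (nat_lit 156) (PT.nd (nat_lit 78) (PT.lf (nat_lit 35416) (nat_lit 3) (nat_lit 466) (nat_lit 0) (nat_lit 272) (nat_lit 272) (nat_lit 236)) (PT.lf (nat_lit 33668) (nat_lit 6) (nat_lit 443) (nat_lit 0) (nat_lit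 273) (nat_lit 272) (nat_lit 235))) (PT.nd (nat_lit 78) (PT.lf (nat_lit 32604) (nat_lit 6) (nat_lit 429) (nat_lit 0) (nat_lit 274) (nat_lit 272) (nat_lit 234)) (PT.lf (nat_lit 31616) (nat_lit 6) (nat_lit 416) (nat_lit 0) (nat_lit 275) (nat_lit 272) (nat_lit 233))))) (PT.nd (nat_lit 312) (PT.nd (nat_lit 156) (PT.nd (nat_lit 78) (PT.lf (nat_lit 30628) (nat_lit 6) (nat_lit 403) (nat_lit 0) (nat_lit 276) (nat_lit 272) (nat_lit 232)) (PT.lf (nat_lit 29716) (nat_lit 6) (nat_lit 391) (nat_lit 0) (nat_lit 277) (nat_lit 272) (nat_lit 231))) (PT.nd (nat_lit 78) (PT.lf (nat_lit 28804) (nat_lit 6) (nat_lit 379) (nat_lit 0) (nat_lit 278) (nat_lit 272) (nat_lit 230)) (PT.lf (nat_lit 27968) (nat_lit 6) (nat_lit 368) (nat_lit 0) (nat_lit 279) (nat_lit 272) (nat_lit 229)))) (PT.nd (nat_lit 156) (PT.nd (nat_lit 78) (PT.lf (nat_lit 27056) (nat_lit 6) (nat_lit 356) (nat_lit 0) (nat_lit 280) (nat_lit 272) (nat_lit 228)) (PT.lf (nat_lit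 26220) (nat_lit 6) (nat_lit 345) (nat_lit 0) (nat_lit 281) (nat_lit 272) (nat_lit 227))) (PT.nd (nat_lit 78) (PT.lf (nat_lit 25384) (nat_lit 6) (nat_lit 334) (nat_lit 0) (nat_lit 282) (nat_lit 272) (nat_lit 226)) (PT.lf (nat_lit 24624) (nat_lit 6) (nat_lit 324) (nat_lit 0) (nat_lit 283) (nat_lit 272) (nat_lit 225))))))) (PT.nd (nat_lit 76908) (PT.nd (nat_lit 76284) (PT.nd (nat_lit 234) (PT.nd (nat_lit 78) (PT.lf (nat_lit 23788) (nat_lit 6) (nat_lit 313) (nat_lit 0) (nat_lit 284) (nat_lit 272) (nat_lit 224)) (PT.nd (nat_lit 78) (PT.lf (nat_lit 23028) (nat_lit 6) (nat_lit 303) (nat_lit 0) (nat_lit 285) (nat_lit 272) (nat_lit 223)) (PT.lf (nat_lit 22268) (nat_lit 6) (nat_lit 293) (nat_lit 0) (nat_lit 286) (nat_lit 272) (nat_lit 222)))) (PT.nd (nat_lit 75894) (PT.nd (nat_lit 78) (PT.lf (nat_lit 21584) (nat_lit 6) (nat_lit 284) (nat_lit 0) (nat_lit 287) (nat_lit 272) (nat_lit 221)) (PT.lf (nat_lit 20824) (nat_lit 6)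 (nat_lit 274) (nat_lit 0) (nat_lit 288) (nat_lit 272) (nat_lit 220))) (PT.nd (nat_lit 78) (PT.lf (nat_lit 20216) (nat_lit 6) (nat_lit 266) (nat_lit 5) (nat_lit 219) (nat_lit 273) (nat_lit 288)) (PT.lf (nat_lit 20900) (nat_lit 6) (nat_lit 275) (nat_lit 5) (nat_lit 220) (nat_lit 273) (nat_lit 287))))) (PT.nd (nat_lit 312) (PT.nd (nat_lit 156) (PT.nd (nat_lit 78) (PT.lf (nat_lit 21660) (nat_lit 6) (nat_lit 285) (nat_lit 5) (nat_lit 221) (nat_lit 273) (nat_lit 286)) (PT.lf (nat_lit 22344) (nat_lit 6) (nat_lit 294) (nat_lit 5) (nat_lit 222) (nat_lit 273) (nat_lit 285))) (PT.nd (nat_lit 78) (PT.lf (nat_lit 23104) (nat_lit 6) (nat_lit 304) (nat_lit 5) (nat_lit 223) (nat_lit 273) (nat_lit 284)) (PT.lf (nat_lit 23864) (nat_lit 6) (nat_lit 314) (nat_lit 5) (nat_lit 224) (nat_lit 273) (nat_lit 283)))) (PT.nd (nat_lit 156) (PT.nd (nat_lit 78) (PT.lf (nat_lit 24700) (nat_lit 6) (nat_lit 325) (nat_lit 5) (nat_lit 225) (nat_lit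 273) (nat_lit 282)) (PT.lf (nat_lit 25460) (nat_lit 6) (nat_lit 335) (nat_lit 5) (nat_lit 226) (nat_lit 273) (nat_lit 281))) (PT.nd (nat_lit 78) (PT.lf (nat_lit 26296) (nat_lit 6) (nat_lit 346) (nat_lit 5) (nat_lit 227) (nat_lit 273) (nat_lit 280)) (PT.lf (nat_lit 27132) (nat_lit 6) (nat_lit 357) (nat_lit 5) (nat_lit 228) (nat_lit 273) (nat_lit 279)))))) (PT.nd (nat_lit 546) (PT.nd (nat_lit 234) (PT.nd (nat_lit 78) (PT.lf (nat_lit 28044) (nat_lit 6) (nat_lit 369) (nat_lit 5) (nat_lit 229) (nat_lit 273) (nat_lit 278)) (PT.nd (nat_lit 78) (PT.lf (nat_lit 28880) (nat_lit 6) (nat_lit 380) (nat_lit 5) (nat_lit 230) (nat_lit 273) (nat_lit 277)) (PT.lf (nat_lit 29792) (nat_lit 6) (nat_lit 392) (nat_lit 5) (nat_lit 231) (nat_lit 273) (nat_lit 276)))) (PT.nd (nat_lit 156) (PT.nd (nat_lit 78) (PT.lf (nat_lit 30704) (nat_lit 6) (nat_lit 404) (nat_lit 5) (nat_lit 232) (nat_lit 273) (nat_lit 275)) (PT.lf (nat_lit 31692) (nat_lit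 6) (nat_lit 417) (nat_lit 5) (nat_lit 233) (nat_lit 273) (nat_lit 274))) (PT.nd (nat_lit 78) (PT.lf (nat_lit 32680) (nat_lit 3) (nat_lit 430) (nat_lit 4) (nat_lit 234) (nat_lit 273) (nat_lit 273)) (PT.lf (nat_lit 33668) (nat_lit 6) (nat_lit 443) (nat_lit 4) (nat_lit 235) (nat_lit 273) (nat_lit 272))))) (PT.nd (nat_lit 312) (PT.nd (nat_lit 156) (PT.nd (nat_lit 78) (PT.lf (nat_lit 35340) (nat_lit 6) (nat_lit 465) (nat_lit 4) (nat_lit 236) (nat_lit 273) (nat_lit 271)) (PT.lf (nat_lit 37088) (nat_lit 6) (nat_lit 488) (nat_lit 4) (nat_lit 237) (nat_lit 273) (nat_lit 270))) (PT.nd (nat_lit 78) (PT.lf (nat_lit 38760) (nat_lit 6) (nat_lit 510) (nat_lit 4) (nat_lit 238) (nat_lit 273) (nat_lit 269)) (PT.lf (nat_lit 40356) (nat_lit 6) (nat_lit 531) (nat_lit 4) (nat_lit 239) (nat_lit 273) (nat_lit 268)))) (PT.nd (nat_lit 156) (PT.nd (nat_lit 78) (PT.lf (nat_lit 41876) (nat_lit 6) (nat_lit 551) (nat_lit 4) (nat_lit 240) (nat_lit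 273) (nat_lit 267)) (PT.lf (nat_lit 43320) (nat_lit 6) (nat_lit 570) (nat_lit 4) (nat_lit 241) (nat_lit 273) (nat_lit 266))) (PT.nd (nat_lit 78) (PT.lf (nat_lit 44688) (nat_lit 6) (nat_lit 588) (nat_lit 4) (nat_lit 242) (nat_lit 273) (nat_lit 265)) (PT.lf (nat_lit 45980) (nat_lit 6) (nat_lit 605) (nat_lit 4) (nat_lit 243) (nat_lit 273) (nat_lit 264))))))))
noncomputable def pc39 : PT := (PT.nd (nat_lit 2340) (PT.nd (nat_lit 1170) (PT.nd (nat_lit 546) (PT.nd (nat_lit 234) (PT.nd (nat_lit 78) (PT.lf (nat_lit 47196) (nat_lit 6) (nat_lit 621) (nat_lit 4) (nat_lit 244) (nat_lit 273) (nat_lit 263)) (PT.nd (nat_lit 78) (PT.lf (nat_lit 48336) (nat_lit 6) (nat_lit 636) (nat_lit 4) (nat_lit 245) (nat_lit 273) (nat_lit 262)) (PT.lf (nat_lit 49400) (nat_lit 6) (nat_lit 650) (nat_lit 4) (nat_lit 246) (nat_lit 273) (nat_lit 261)))) (PT.nd (nat_lit 156) (PT.nd (nat_lit 78) (PT.lf (nat_lit 50388) (nat_lit 6) (nat_lit 663) (nat_lit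 4) (nat_lit 247) (nat_lit 273) (nat_lit 260)) (PT.lf (nat_lit 50312) (nat_lit 6) (nat_lit 662) (nat_lit 4) (nat_lit 248) (nat_lit 273) (nat_lit 259))) (PT.nd (nat_lit 78) (PT.lf (nat_lit 50236) (nat_lit 6) (nat_lit 661) (nat_lit 4) (nat_lit 249) (nat_lit 273) (nat_lit 258)) (PT.lf (nat_lit 50160) (nat_lit 6) (nat_lit 660) (nat_lit 4) (nat_lit 250) (nat_lit 273) (nat_lit 257))))) (PT.nd (nat_lit 312) (PT.nd (nat_lit 156) (PT.nd (nat_lit 78) (PT.lf (nat_lit 50084) (nat_lit 6) (nat_lit 659) (nat_lit 4) (nat_lit 251) (nat_lit 273) (nat_lit 256)) (PT.lf (nat_lit 50008) (nat_lit 6) (nat_lit 658) (nat_lit 4) (nat_lit 252) (nat_lit 273) (nat_lit 255))) (PT.nd (nat_lit 78) (PT.lf (nat_lit 49932) (nat_lit 6) (nat_lit 657) (nat_lit 4) (nat_lit 253) (nat_lit 273) (nat_lit 254)) (PT.lf (nat_lit 49932) (nat_lit 6) (nat_lit 657) (nat_lit 2) (nat_lit 254) (nat_lit 273) (nat_lit 253)))) (PT.nd (nat_lit 156) (PT.nd (nat_lit 78)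 (PT.lf (nat_lit 50008) (nat_lit 6) (nat_lit 658) (nat_lit 2) (nat_lit 255) (nat_lit 273) (nat_lit 252)) (PT.lf (nat_lit 50084) (nat_lit 6) (nat_lit 659) (nat_lit 2) (nat_lit 256) (nat_lit 273) (nat_lit 251))) (PT.nd (nat_lit 78) (PT.lf (nat_lit 50160) (nat_lit 6) (nat_lit 660) (nat_lit 2) (nat_lit 257) (nat_lit 273) (nat_lit 250)) (PT.lf (nat_lit 50236) (nat_lit 6) (nat_lit 661) (nat_lit 2) (nat_lit 258) (nat_lit 273) (nat_lit 249)))))) (PT.nd (nat_lit 546) (PT.nd (nat_lit 234) (PT.nd (nat_lit 78) (PT.lf (nat_lit 50312) (nat_lit 6) (nat_lit 662) (nat_lit 2) (nat_lit 259) (nat_lit 273) (nat_lit 248)) (PT.nd (nat_lit 78) (PT.lf (nat_lit 50388) (nat_lit 6) (nat_lit 663) (nat_lit 2) (nat_lit 260) (nat_lit 273) (nat_lit 247)) (PT.lf (nat_lit 49400) (nat_lit 6) (nat_lit 650) (nat_lit 2) (nat_lit 261) (nat_lit 273) (nat_lit 246)))) (PT.nd (nat_lit 156) (PT.nd (nat_lit 78) (PT.lf (nat_lit 48336) (nat_lit 6) (nat_lit 636)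 (nat_lit 2) (nat_lit 262) (nat_lit 273) (nat_lit 245)) (PT.lf (nat_lit 47196) (nat_lit 6) (nat_lit 621) (nat_lit 2) (nat_lit 263) (nat_lit 273) (nat_lit 244))) (PT.nd (nat_lit 78) (PT.lf (nat_lit 45980) (nat_lit 6) (nat_lit 605) (nat_lit 2) (nat_lit 264) (nat_lit 273) (nat_lit 243)) (PT.lf (nat_lit 44688) (nat_lit 6) (nat_lit 588) (nat_lit 2) (nat_lit 265) (nat_lit 273) (nat_lit 242))))) (PT.nd (nat_lit 312) (PT.nd (nat_lit 156) (PT.nd (nat_lit 78) (PT.lf (nat_lit 43320) (nat_lit 6) (nat_lit 570) (nat_lit 2) (nat_lit 266) (nat_lit 273) (nat_lit 241)) (PT.lf (nat_lit 41876) (nat_lit 6) (nat_lit 551) (nat_lit 2) (nat_lit 267) (nat_lit 273) (nat_lit 240))) (PT.nd (nat_lit 78) (PT.lf (nat_lit 40356) (nat_lit 6) (nat_lit 531) (nat_lit 2) (nat_lit 268) (nat_lit 273) (nat_lit 239)) (PT.lf (nat_lit 38760) (nat_lit 6) (nat_lit 510) (nat_lit 2) (nat_lit 269) (nat_lit 273) (nat_lit 238)))) (PT.nd (nat_lit 156) (PT.nd (nat_lit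 78) (PT.lf (nat_lit 37088) (nat_lit 6) (nat_lit 488) (nat_lit 2) (nat_lit 270) (nat_lit 273) (nat_lit 237)) (PT.lf (nat_lit 35340) (nat_lit 6) (nat_lit 465) (nat_lit 2) (nat_lit 271) (nat_lit 273) (nat_lit 236))) (PT.nd (nat_lit 78) (PT.lf (nat_lit 33668) (nat_lit 6) (nat_lit 443) (nat_lit 2) (nat_lit 272) (nat_lit 273) (nat_lit 235)) (PT.lf (nat_lit 32680) (nat_lit 3) (nat_lit 430) (nat_lit 0) (nat_lit 273) (nat_lit 273) (nat_lit 234))))))) (PT.nd (nat_lit 76752) (PT.nd (nat_lit 546) (PT.nd (nat_lit 234) (PT.nd (nat_lit 78) (PT.lf (nat_lit 31692) (nat_lit 6) (nat_lit 417) (nat_lit 0) (nat_lit 274) (nat_lit 273) (nat_lit 233)) (PT.nd (nat_lit 78) (PT.lf (nat_lit 30704) (nat_lit 6) (nat_lit 404) (nat_lit 0) (nat_lit 275) (nat_lit 273) (nat_lit 232)) (PT.lf (nat_lit 29792) (nat_lit 6) (nat_lit 392) (nat_lit 0) (nat_lit 276) (nat_lit 273) (nat_lit 231)))) (PT.nd (nat_lit 156) (PT.nd (nat_lit 78) (PT.lf (nat_lit 28880)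 (nat_lit 6) (nat_lit 380) (nat_lit 0) (nat_lit 277) (nat_lit 273) (nat_lit 230)) (PT.lf (nat_lit 28044) (nat_lit 6) (nat_lit 369) (nat_lit 0) (nat_lit 278) (nat_lit 273) (nat_lit 229))) (PT.nd (nat_lit 78) (PT.lf (nat_lit 27132) (nat_lit 6) (nat_lit 357) (nat_lit 0) (nat_lit 279) (nat_lit 273) (nat_lit 228)) (PT.lf (nat_lit 26296) (nat_lit 6) (nat_lit 346) (nat_lit 0) (nat_lit 280) (nat_lit 273) (nat_lit 227))))) (PT.nd (nat_lit 312) (PT.nd (nat_lit 156) (PT.nd (nat_lit 78) (PT.lf (nat_lit 25460) (nat_lit 6) (nat_lit 335) (nat_lit 0) (nat_lit 281) (nat_lit 273) (nat_lit 226)) (PT.lf (nat_lit 24700) (nat_lit 6) (nat_lit 325) (nat_lit 0) (nat_lit 282) (nat_lit 273) (nat_lit 225))) (PT.nd (nat_lit 78) (PT.lf (nat_lit 23864) (nat_lit 6) (nat_lit 314) (nat_lit 0) (nat_lit 283) (nat_lit 273) (nat_lit 224)) (PT.lf (nat_lit 23104) (nat_lit 6) (nat_lit 304) (nat_lit 0) (nat_lit 284) (nat_lit 273) (nat_lit 223)))) (PT.nd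 (nat_lit 156) (PT.nd (nat_lit 78) (PT.lf (nat_lit 22344) (nat_lit 6) (nat_lit 294) (nat_lit 0) (nat_lit 285) (nat_lit 273) (nat_lit 222)) (PT.lf (nat_lit 21660) (nat_lit 6) (nat_lit 285) (nat_lit 0) (nat_lit 286) (nat_lit 273) (nat_lit 221))) (PT.nd (nat_lit 78) (PT.lf (nat_lit 20900) (nat_lit 6) (nat_lit 275) (nat_lit 0) (nat_lit 287) (nat_lit 273) (nat_lit 220)) (PT.lf (nat_lit 20216) (nat_lit 6) (nat_lit 266) (nat_lit 0) (nat_lit 288) (nat_lit 273) (nat_lit 219)))))) (PT.nd (nat_lit 624) (PT.nd (nat_lit 312) (PT.nd (nat_lit 156) (PT.nd (nat_lit 78) (PT.lf (nat_lit 19000) (nat_lit 6) (nat_lit 250) (nat_lit 5) (nat_lit 217) (nat_lit 274) (nat_lit 289)) (PT.lf (nat_lit 19608) (nat_lit 6) (nat_lit 258) (nat_lit 5) (nat_lit 218) (nat_lit 274) (nat_lit 288))) (PT.nd (nat_lit 78) (PT.lf (nat_lit 20292) (nat_lit 6) (nat_lit 267) (nat_lit 5) (nat_lit 219) (nat_lit 274) (nat_lit 287)) (PT.lf (nat_lit 20976) (nat_lit 6)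 (nat_lit 276) (nat_lit 5) (nat_lit 220) (nat_lit 274) (nat_lit 286)))) (PT.nd (nat_lit 156) (PT.nd (nat_lit 78) (PT.lf (nat_lit 21736) (nat_lit 6) (nat_lit 286) (nat_lit 5) (nat_lit 221) (nat_lit 274) (nat_lit 285)) (PT.lf (nat_lit 22420) (nat_lit 6) (nat_lit 295) (nat_lit 5) (nat_lit 222) (nat_lit 274) (nat_lit 284))) (PT.nd (nat_lit 78) (PT.lf (nat_lit 23180) (nat_lit 6) (nat_lit 305) (nat_lit 5) (nat_lit 223) (nat_lit 274) (nat_lit 283)) (PT.lf (nat_lit 23940) (nat_lit 6) (nat_lit 315) (nat_lit 5) (nat_lit 224) (nat_lit 274) (nat_lit 282))))) (PT.nd (nat_lit 312) (PT.nd (nat_lit 156) (PT.nd (nat_lit 78) (PT.lf (nat_lit 24776) (nat_lit 6) (nat_lit 326) (nat_lit 5) (nat_lit 225) (nat_lit 274) (nat_lit 281)) (PT.lf (nat_lit 25536) (nat_lit 6) (nat_lit 336) (nat_lit 5) (nat_lit 226) (nat_lit 274) (nat_lit 280))) (PT.nd (nat_lit 78) (PT.lf (nat_lit 26372) (nat_lit 6) (nat_lit 347) (nat_lit 5) (nat_lit 227) (nat_lit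 274) (nat_lit 279)) (PT.lf (nat_lit 27208) (nat_lit 6) (nat_lit 358) (nat_lit 5) (nat_lit 228) (nat_lit 274) (nat_lit 278)))) (PT.nd (nat_lit 156) (PT.nd (nat_lit 78) (PT.lf (nat_lit 28120) (nat_lit 6) (nat_lit 370) (nat_lit 5) (nat_lit 229) (nat_lit 274) (nat_lit 277)) (PT.lf (nat_lit 28956) (nat_lit 6) (nat_lit 381) (nat_lit 5) (nat_lit 230) (nat_lit 274) (nat_lit 276))) (PT.nd (nat_lit 78) (PT.lf (nat_lit 29868) (nat_lit 6) (nat_lit 393) (nat_lit 5) (nat_lit 231) (nat_lit 274) (nat_lit 275)) (PT.lf (nat_lit 30780) (nat_lit 3) (nat_lit 405) (nat_lit 4) (nat_lit 232) (nat_lit 274) (nat_lit 274))))))))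
noncomputable def pc40 : PT := (PT.nd (nat_lit 2340) (PT.nd (nat_lit 1170) (PT.nd (nat_lit 546) (PT.nd (nat_lit 234) (PT.nd (nat_lit 78) (PT.lf (nat_lit 31692) (nat_lit 6) (nat_lit 417) (nat_lit 4) (nat_lit 233) (nat_lit 274) (nat_lit 273)) (PT.nd (nat_lit 78) (PT.lf (nat_lit 32604) (nat_lit 6) (nat_lit 429) (nat_lit 4) (nat_lit 234) (nat_lit 274) (nat_lit 272)) (PT.lf (nat_lit 33592) (nat_lit 6) (nat_lit 442) (nat_lit 4) (nat_lit 235) (nat_lit 274) (nat_lit 271)))) (PT.nd (nat_lit 156) (PT.nd (nat_lit 78) (PT.lf (nat_lit 35264) (nat_lit 6) (nat_lit 464) (nat_lit 4) (nat_lit 236) (nat_lit 274) (nat_lit 270)) (PT.lf (nat_lit 37012) (nat_lit 6) (nat_lit 487) (nat_lit 4) (nat_lit 237) (nat_lit 274) (nat_lit 269))) (PT.nd (nat_lit 78) (PT.lf (nat_lit 38684) (nat_lit 6) (nat_lit 509) (nat_lit 4) (nat_lit 238) (nat_lit 274) (nat_lit 268)) (PT.lf (nat_lit 40280) (nat_lit 6) (nat_lit 530) (nat_lit 4) (nat_lit 239) (nat_lit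 274) (nat_lit 267))))) (PT.nd (nat_lit 312) (PT.nd (nat_lit 156) (PT.nd (nat_lit 78) (PT.lf (nat_lit 41800) (nat_lit 6) (nat_lit 550) (nat_lit 4) (nat_lit 240) (nat_lit 274) (nat_lit 266)) (PT.lf (nat_lit 43244) (nat_lit 6) (nat_lit 569) (nat_lit 4) (nat_lit 241) (nat_lit 274) (nat_lit 265))) (PT.nd (nat_lit 78) (PT.lf (nat_lit 44612) (nat_lit 6) (nat_lit 587) (nat_lit 4) (nat_lit 242) (nat_lit 274) (nat_lit 264)) (PT.lf (nat_lit 45904) (nat_lit 6) (nat_lit 604) (nat_lit 4) (nat_lit 243) (nat_lit 274) (nat_lit 263)))) (PT.nd (nat_lit 156) (PT.nd (nat_lit 78) (PT.lf (nat_lit 47120) (nat_lit 6) (nat_lit 620) (nat_lit 4) (nat_lit 244) (nat_lit 274) (nat_lit 262)) (PT.lf (nat_lit 48260) (nat_lit 6) (nat_lit 635) (nat_lit 4) (nat_lit 245) (nat_lit 274) (nat_lit 261))) (PT.nd (nat_lit 78) (PT.lf (nat_lit 49324) (nat_lit 6) (nat_lit 649) (nat_lit 4) (nat_lit 246) (nat_lit 274) (nat_lit 260)) (PT.lf (nat_lit 49248) (nat_lit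 6) (nat_lit 648) (nat_lit 4) (nat_lit 247) (nat_lit 274) (nat_lit 259)))))) (PT.nd (nat_lit 546) (PT.nd (nat_lit 234) (PT.nd (nat_lit 78) (PT.lf (nat_lit 49172) (nat_lit 6) (nat_lit 647) (nat_lit 4) (nat_lit 248) (nat_lit 274) (nat_lit 258)) (PT.nd (nat_lit 78) (PT.lf (nat_lit 49096) (nat_lit 6) (nat_lit 646) (nat_lit 4) (nat_lit 249) (nat_lit 274) (nat_lit 257)) (PT.lf (nat_lit 49020) (nat_lit 6) (nat_lit 645) (nat_lit 4) (nat_lit 250) (nat_lit 274) (nat_lit 256)))) (PT.nd (nat_lit 156) (PT.nd (nat_lit 78) (PT.lf (nat_lit 48944) (nat_lit 6) (nat_lit 644) (nat_lit 4) (nat_lit 251) (nat_lit 274) (nat_lit 255)) (PT.lf (nat_lit 48868) (nat_lit 6) (nat_lit 643) (nat_lit 4) (nat_lit 252) (nat_lit 274) (nat_lit 254))) (PT.nd (nat_lit 78) (PT.lf (nat_lit 48792) (nat_lit 3) (nat_lit 642) (nat_lit 2) (nat_lit 253) (nat_lit 274) (nat_lit 253)) (PT.lf (nat_lit 48868) (nat_lit 6) (nat_lit 643) (nat_lit 2) (nat_lit 254) (nat_lit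 274) (nat_lit 252))))) (PT.nd (nat_lit 312) (PT.nd (nat_lit 156) (PT.nd (nat_lit 78) (PT.lf (nat_lit 48944) (nat_lit 6) (nat_lit 644) (nat_lit 2) (nat_lit 255) (nat_lit 274) (nat_lit 251)) (PT.lf (nat_lit 49020) (nat_lit 6) (nat_lit 645) (nat_lit 2) (nat_lit 256) (nat_lit 274) (nat_lit 250))) (PT.nd (nat_lit 78) (PT.lf (nat_lit 49096) (nat_lit 6) (nat_lit 646) (nat_lit 2) (nat_lit 257) (nat_lit 274) (nat_lit 249)) (PT.lf (nat_lit 49172) (nat_lit 6) (nat_lit 647) (nat_lit 2) (nat_lit 258) (nat_lit 274) (nat_lit 248)))) (PT.nd (nat_lit 156) (PT.nd (nat_lit 78) (PT.lf (nat_lit 49248) (nat_lit 6) (nat_lit 648) (nat_lit 2) (nat_lit 259) (nat_lit 274) (nat_lit 247)) (PT.lf (nat_lit 49324) (nat_lit 6) (nat_lit 649) (nat_lit 2) (nat_lit 260) (nat_lit 274) (nat_lit 246))) (PT.nd (nat_lit 78) (PT.lf (nat_lit 48260) (nat_lit 6) (nat_lit 635) (nat_lit 2) (nat_lit 261) (nat_lit 274) (nat_lit 245)) (PT.lf (nat_lit 47120) (nat_lit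 6) (nat_lit 620) (nat_lit 2) (nat_lit 262) (nat_lit 274) (nat_lit 244))))))) (PT.nd (nat_lit 1170) (PT.nd (nat_lit 546) (PT.nd (nat_lit 234) (PT.nd (nat_lit 78) (PT.lf (nat_lit 45904) (nat_lit 6) (nat_lit 604) (nat_lit 2) (nat_lit 263) (nat_lit 274) (nat_lit 243)) (PT.nd (nat_lit 78) (PT.lf (nat_lit 44612) (nat_lit 6) (nat_lit 587) (nat_lit 2) (nat_lit 264) (nat_lit 274) (nat_lit 242)) (PT.lf (nat_lit 43244) (nat_lit 6) (nat_lit 569) (nat_lit 2) (nat_lit 265) (nat_lit 274) (nat_lit 241)))) (PT.nd (nat_lit 156) (PT.nd (nat_lit 78) (PT.lf (nat_lit 41800) (nat_lit 6) (nat_lit 550) (nat_lit 2) (nat_lit 266) (nat_lit 274) (nat_lit 240)) (PT.lf (nat_lit 40280) (nat_lit 6) (nat_lit 530) (nat_lit 2) (nat_lit 267) (nat_lit 274) (nat_lit 239))) (PT.nd (nat_lit 78) (PT.lf (nat_lit 38684) (nat_lit 6) (nat_lit 509) (nat_lit 2) (nat_lit 268) (nat_lit 274) (nat_lit 238)) (PT.lf (nat_lit 37012) (nat_lit 6) (nat_lit 487) (nat_lit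 2) (nat_lit 269) (nat_lit 274) (nat_lit 237))))) (PT.nd (nat_lit 312) (PT.nd (nat_lit 156) (PT.nd (nat_lit 78) (PT.lf (nat_lit 35264) (nat_lit 6) (nat_lit 464) (nat_lit 2) (nat_lit 270) (nat_lit 274) (nat_lit 236)) (PT.lf (nat_lit 33592) (nat_lit 6) (nat_lit 442) (nat_lit 2) (nat_lit 271) (nat_lit 274) (nat_lit 235))) (PT.nd (nat_lit 78) (PT.lf (nat_lit 32604) (nat_lit 6) (nat_lit 429) (nat_lit 2) (nat_lit 272) (nat_lit 274) (nat_lit 234)) (PT.lf (nat_lit 31692) (nat_lit 6) (nat_lit 417) (nat_lit 2) (nat_lit 273) (nat_lit 274) (nat_lit 233)))) (PT.nd (nat_lit 156) (PT.nd (nat_lit 78) (PT.lf (nat_lit 30780) (nat_lit 3) (nat_lit 405) (nat_lit 0) (nat_lit 274) (nat_lit 274) (nat_lit 232)) (PT.lf (nat_lit 29868) (nat_lit 6) (nat_lit 393) (nat_lit 0) (nat_lit 275) (nat_lit 274) (nat_lit 231))) (PT.nd (nat_lit 78) (PT.lf (nat_lit 28956) (nat_lit 6) (nat_lit 381) (nat_lit 0) (nat_lit 276) (nat_lit 274) (nat_lit 230))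 (PT.lf (nat_lit 28120) (nat_lit 6) (nat_lit 370) (nat_lit 0) (nat_lit 277) (nat_lit 274) (nat_lit 229)))))) (PT.nd (nat_lit 546) (PT.nd (nat_lit 234) (PT.nd (nat_lit 78) (PT.lf (nat_lit 27208) (nat_lit 6) (nat_lit 358) (nat_lit 0) (nat_lit 278) (nat_lit 274) (nat_lit 228)) (PT.nd (nat_lit 78) (PT.lf (nat_lit 26372) (nat_lit 6) (nat_lit 347) (nat_lit 0) (nat_lit 279) (nat_lit 274) (nat_lit 227)) (PT.lf (nat_lit 25536) (nat_lit 6) (nat_lit 336) (nat_lit 0) (nat_lit 280) (nat_lit 274) (nat_lit 226)))) (PT.nd (nat_lit 156) (PT.nd (nat_lit 78) (PT.lf (nat_lit 24776) (nat_lit 6) (nat_lit 326) (nat_lit 0) (nat_lit 281) (nat_lit 274) (nat_lit 225)) (PT.lf (nat_lit 23940) (nat_lit 6) (nat_lit 315) (nat_lit 0) (nat_lit 282) (nat_lit 274) (nat_lit 224))) (PT.nd (nat_lit 78) (PT.lf (nat_lit 23180) (nat_lit 6) (nat_lit 305) (nat_lit 0) (nat_lit 283) (nat_lit 274) (nat_lit 223)) (PT.lf (nat_lit 22420) (nat_lit 6) (nat_lit 295)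 (nat_lit 0) (nat_lit 284) (nat_lit 274) (nat_lit 222))))) (PT.nd (nat_lit 312) (PT.nd (nat_lit 156) (PT.nd (nat_lit 78) (PT.lf (nat_lit 21736) (nat_lit 6) (nat_lit 286) (nat_lit 0) (nat_lit 285) (nat_lit 274) (nat_lit 221)) (PT.lf (nat_lit 20976) (nat_lit 6) (nat_lit 276) (nat_lit 0) (nat_lit 286) (nat_lit 274) (nat_lit 220))) (PT.nd (nat_lit 78) (PT.lf (nat_lit 20292) (nat_lit 6) (nat_lit 267) (nat_lit 0) (nat_lit 287) (nat_lit 274) (nat_lit 219)) (PT.lf (nat_lit 19608) (nat_lit 6) (nat_lit 258) (nat_lit 0) (nat_lit 288) (nat_lit 274) (nat_lit 218)))) (PT.nd (nat_lit 75582) (PT.nd (nat_lit 75504) (PT.lf (nat_lit 19000) (nat_lit 6) (nat_lit 250) (nat_lit 0) (nat_lit 289) (nat_lit 274) (nat_lit 217)) (PT.lf (nat_lit 18392) (nat_lit 6) (nat_lit 242) (nat_lit 5) (nat_lit 216) (nat_lit 275) (nat_lit 289))) (PT.nd (nat_lit 78) (PT.lf (nat_lit 19076) (nat_lit 6) (nat_lit 251) (nat_lit 5) (nat_lit 217) (nat_lit 275) (nat_lit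 288)) (PT.lf (nat_lit 19684) (nat_lit 6) (nat_lit 259) (nat_lit 5) (nat_lit 218) (nat_lit 275) (nat_lit 287))))))))
noncomputable def pc41 : PT := (PT.nd (nat_lit 2340) (PT.nd (nat_lit 1170) (PT.nd (nat_lit 546) (PT.nd (nat_lit 234) (PT.nd (nat_lit 78) (PT.lf (nat_lit 20368) (nat_lit 6) (nat_lit 268) (nat_lit 5) (nat_lit 219) (nat_lit 275) (nat_lit 286)) (PT.nd (nat_lit 78) (PT.lf (nat_lit 21052) (nat_lit 6) (nat_lit 277) (nat_lit 5) (nat_lit 220) (nat_lit 275) (nat_lit 285)) (PT.lf (nat_lit 21812) (nat_lit 6) (nat_lit 287) (nat_lit 5) (nat_lit 221) (nat_lit 275) (nat_lit 284)))) (PT.nd (nat_lit 156) (PT.nd (nat_lit 78) (PT.lf (nat_lit 22496) (nat_lit 6) (nat_lit 296) (nat_lit 5) (nat_lit 222) (nat_lit 275) (nat_lit 283)) (PT.lf (nat_lit 23256) (nat_lit 6) (nat_lit 306) (nat_lit 5) (nat_lit 223) (nat_lit 275) (nat_lit 282))) (PT.nd (nat_lit 78) (PT.lf (nat_lit 24016) (nat_lit 6) (nat_lit 316) (nat_lit 5) (nat_lit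 224) (nat_lit 275) (nat_lit 281)) (PT.lf (nat_lit 24852) (nat_lit 6) (nat_lit 327) (nat_lit 5) (nat_lit 225) (nat_lit 275) (nat_lit 280))))) (PT.nd (nat_lit 312) (PT.nd (nat_lit 156) (PT.nd (nat_lit 78) (PT.lf (nat_lit 25612) (nat_lit 6) (nat_lit 337) (nat_lit 5) (nat_lit 226) (nat_lit 275) (nat_lit 279)) (PT.lf (nat_lit 26448) (nat_lit 6) (nat_lit 348) (nat_lit 5) (nat_lit 227) (nat_lit 275) (nat_lit 278))) (PT.nd (nat_lit 78) (PT.lf (nat_lit 27284) (nat_lit 6) (nat_lit 359) (nat_lit 5) (nat_lit 228) (nat_lit 275) (nat_lit 277)) (PT.lf (nat_lit 28196) (nat_lit 6) (nat_lit 371) (nat_lit 5) (nat_lit 229) (nat_lit 275) (nat_lit 276)))) (PT.nd (nat_lit 156) (PT.nd (nat_lit 78) (PT.lf (nat_lit 29032) (nat_lit 3) (nat_lit 382) (nat_lit 4) (nat_lit 230) (nat_lit 275) (nat_lit 275)) (PT.lf (nat_lit 29868) (nat_lit 6) (nat_lit 393) (nat_lit 4) (nat_lit 231) (nat_lit 275) (nat_lit 274))) (PT.nd (nat_lit 78) (PT.lf (nat_lit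 30704) (nat_lit 6) (nat_lit 404) (nat_lit 4) (nat_lit 232) (nat_lit 275) (nat_lit 273)) (PT.lf (nat_lit 31616) (nat_lit 6) (nat_lit 416) (nat_lit 4) (nat_lit 233) (nat_lit 275) (nat_lit 272)))))) (PT.nd (nat_lit 546) (PT.nd (nat_lit 234) (PT.nd (nat_lit 78) (PT.lf (nat_lit 32528) (nat_lit 6) (nat_lit 428) (nat_lit 4) (nat_lit 234) (nat_lit 275) (nat_lit 271)) (PT.nd (nat_lit 78) (PT.lf (nat_lit 33516) (nat_lit 6) (nat_lit 441) (nat_lit 4) (nat_lit 235) (nat_lit 275) (nat_lit 270)) (PT.lf (nat_lit 35188) (nat_lit 6) (nat_lit 463) (nat_lit 4) (nat_lit 236) (nat_lit 275) (nat_lit 269)))) (PT.nd (nat_lit 156) (PT.nd (nat_lit 78) (PT.lf (nat_lit 36936) (nat_lit 6) (nat_lit 486) (nat_lit 4) (nat_lit 237) (nat_lit 275) (nat_lit 268)) (PT.lf (nat_lit 38608) (nat_lit 6) (nat_lit 508) (nat_lit 4) (nat_lit 238) (nat_lit 275) (nat_lit 267))) (PT.nd (nat_lit 78) (PT.lf (nat_lit 40204) (nat_lit 6) (nat_lit 529) (nat_lit 4) (nat_lit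 239) (nat_lit 275) (nat_lit 266)) (PT.lf (nat_lit 41724) (nat_lit 6) (nat_lit 549) (nat_lit 4) (nat_lit 240) (nat_lit 275) (nat_lit 265))))) (PT.nd (nat_lit 312) (PT.nd (nat_lit 156) (PT.nd (nat_lit 78) (PT.lf (nat_lit 43168) (nat_lit 6) (nat_lit 568) (nat_lit 4) (nat_lit 241) (nat_lit 275) (nat_lit 264)) (PT.lf (nat_lit 44536) (nat_lit 6) (nat_lit 586) (nat_lit 4) (nat_lit 242) (nat_lit 275) (nat_lit 263))) (PT.nd (nat_lit 78) (PT.lf (nat_lit 45828) (nat_lit 6) (nat_lit 603) (nat_lit 4) (nat_lit 243) (nat_lit 275) (nat_lit 262)) (PT.lf (nat_lit 47044) (nat_lit 6) (nat_lit 619) (nat_lit 4) (nat_lit 244) (nat_lit 275) (nat_lit 261)))) (PT.nd (nat_lit 156) (PT.nd (nat_lit 78) (PT.lf (nat_lit 48184) (nat_lit 6) (nat_lit 634) (nat_lit 4) (nat_lit 245) (nat_lit 275) (nat_lit 260)) (PT.lf (nat_lit 48108) (nat_lit 6) (nat_lit 633) (nat_lit 4) (nat_lit 246) (nat_lit 275) (nat_lit 259))) (PT.nd (nat_lit 78) (PT.lf (nat_lit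 48032) (nat_lit 6) (nat_lit 632) (nat_lit 4) (nat_lit 247) (nat_lit 275) (nat_lit 258)) (PT.lf (nat_lit 47956) (nat_lit 6) (nat_lit 631) (nat_lit 4) (nat_lit 248) (nat_lit 275) (nat_lit 257))))))) (PT.nd (nat_lit 1170) (PT.nd (nat_lit 546) (PT.nd (nat_lit 234) (PT.nd (nat_lit 78) (PT.lf (nat_lit 47880) (nat_lit 6) (nat_lit 630) (nat_lit 4) (nat_lit 249) (nat_lit 275) (nat_lit 256)) (PT.nd (nat_lit 78) (PT.lf (nat_lit 47804) (nat_lit 6) (nat_lit 629) (nat_lit 4) (nat_lit 250) (nat_lit 275) (nat_lit 255)) (PT.lf (nat_lit 47728) (nat_lit 6) (nat_lit 628) (nat_lit 4) (nat_lit 251) (nat_lit 275) (nat_lit 254)))) (PT.nd (nat_lit 156) (PT.nd (nat_lit 78) (PT.lf (nat_lit 47652) (nat_lit 6) (nat_lit 627) (nat_lit 4) (nat_lit 252) (nat_lit 275) (nat_lit 253)) (PT.lf (nat_lit 47652) (nat_lit 6) (nat_lit 627) (nat_lit 2) (nat_lit 253) (nat_lit 275) (nat_lit 252))) (PT.nd (nat_lit 78) (PT.lf (nat_lit 47728) (nat_lit 6) (nat_lit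 628) (nat_lit 2) (nat_lit 254) (nat_lit 275) (nat_lit 251)) (PT.lf (nat_lit 47804) (nat_lit 6) (nat_lit 629) (nat_lit 2) (nat_lit 255) (nat_lit 275) (nat_lit 250))))) (PT.nd (nat_lit 312) (PT.nd (nat_lit 156) (PT.nd (nat_lit 78) (PT.lf (nat_lit 47880) (nat_lit 6) (nat_lit 630) (nat_lit 2) (nat_lit 256) (nat_lit 275) (nat_lit 249)) (PT.lf (nat_lit 47956) (nat_lit 6) (nat_lit 631) (nat_lit 2) (nat_lit 257) (nat_lit 275) (nat_lit 248))) (PT.nd (nat_lit 78) (PT.lf (nat_lit 48032) (nat_lit 6) (nat_lit 632) (nat_lit 2) (nat_lit 258) (nat_lit 275) (nat_lit 247)) (PT.lf (nat_lit 48108) (nat_lit 6) (nat_lit 633) (nat_lit 2) (nat_lit 259) (nat_lit 275) (nat_lit 246)))) (PT.nd (nat_lit 156) (PT.nd (nat_lit 78) (PT.lf (nat_lit 48184) (nat_lit 6) (nat_lit 634) (nat_lit 2) (nat_lit 260) (nat_lit 275) (nat_lit 245)) (PT.lf (nat_lit 47044) (nat_lit 6) (nat_lit 619) (nat_lit 2) (nat_lit 261) (nat_lit 275) (nat_lit 244))) (PT.nd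 (nat_lit 78) (PT.lf (nat_lit 45828) (nat_lit 6) (nat_lit 603) (nat_lit 2) (nat_lit 262) (nat_lit 275) (nat_lit 243)) (PT.lf (nat_lit 44536) (nat_lit 6) (nat_lit 586) (nat_lit 2) (nat_lit 263) (nat_lit 275) (nat_lit 242)))))) (PT.nd (nat_lit 546) (PT.nd (nat_lit 234) (PT.nd (nat_lit 78) (PT.lf (nat_lit 43168) (nat_lit 6) (nat_lit 568) (nat_lit 2) (nat_lit 264) (nat_lit 275) (nat_lit 241)) (PT.nd (nat_lit 78) (PT.lf (nat_lit 41724) (nat_lit 6) (nat_lit 549) (nat_lit 2) (nat_lit 265) (nat_lit 275) (nat_lit 240)) (PT.lf (nat_lit 40204) (nat_lit 6) (nat_lit 529) (nat_lit 2) (nat_lit 266) (nat_lit 275) (nat_lit 239)))) (PT.nd (nat_lit 156) (PT.nd (nat_lit 78) (PT.lf (nat_lit 38608) (nat_lit 6) (nat_lit 508) (nat_lit 2) (nat_lit 267) (nat_lit 275) (nat_lit 238)) (PT.lf (nat_lit 36936) (nat_lit 6) (nat_lit 486) (nat_lit 2) (nat_lit 268) (nat_lit 275) (nat_lit 237))) (PT.nd (nat_lit 78) (PT.lf (nat_lit 35188) (nat_lit 6)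 (nat_lit 463) (nat_lit 2) (nat_lit 269) (nat_lit 275) (nat_lit 236)) (PT.lf (nat_lit 33516) (nat_lit 6) (nat_lit 441) (nat_lit 2) (nat_lit 270) (nat_lit 275) (nat_lit 235))))) (PT.nd (nat_lit 312) (PT.nd (nat_lit 156) (PT.nd (nat_lit 78) (PT.lf (nat_lit 32528) (nat_lit 6) (nat_lit 428) (nat_lit 2) (nat_lit 271) (nat_lit 275) (nat_lit 234)) (PT.lf (nat_lit 31616) (nat_lit 6) (nat_lit 416) (nat_lit 2) (nat_lit 272) (nat_lit 275) (nat_lit 233))) (PT.nd (nat_lit 78) (PT.lf (nat_lit 30704) (nat_lit 6) (nat_lit 404) (nat_lit 2) (nat_lit 273) (nat_lit 275) (nat_lit 232)) (PT.lf (nat_lit 29868) (nat_lit 6) (nat_lit 393) (nat_lit 2) (nat_lit 274) (nat_lit 275) (nat_lit 231)))) (PT.nd (nat_lit 156) (PT.nd (nat_lit 78) (PT.lf (nat_lit 29032) (nat_lit 3) (nat_lit 382) (nat_lit 0) (nat_lit 275) (nat_lit 275) (nat_lit 230)) (PT.lf (nat_lit 28196) (nat_lit 6) (nat_lit 371) (nat_lit 0) (nat_lit 276) (nat_lit 275) (nat_lit 229)))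 (PT.nd (nat_lit 78) (PT.lf (nat_lit 27284) (nat_lit 6) (nat_lit 359) (nat_lit 0) (nat_lit 277) (nat_lit 275) (nat_lit 228)) (PT.lf (nat_lit 26448) (nat_lit 6) (nat_lit 348) (nat_lit 0) (nat_lit 278) (nat_lit 275) (nat_lit 227))))))))
noncomputable def pc42 : PT := (PT.nd (nat_lit 77688) (PT.nd (nat_lit 76518) (PT.nd (nat_lit 546) (PT.nd (nat_lit 234) (PT.nd (nat_lit 78) (PT.lf (nat_lit 25612) (nat_lit 6) (nat_lit 337) (nat_lit 0) (nat_lit 279) (nat_lit 275) (nat_lit 226)) (PT.nd (nat_lit 78) (PT.lf (nat_lit 24852) (nat_lit 6) (nat_lit 327) (nat_lit 0) (nat_lit 280) (nat_lit 275) (nat_lit 225)) (PT.lf (nat_lit 24016) (nat_lit 6) (nat_lit 316) (nat_lit 0) (nat_lit 281) (nat_lit 275) (nat_lit 224)))) (PT.nd (nat_lit 156) (PT.nd (nat_lit 78) (PT.lf (nat_lit 23256) (nat_lit 6) (nat_lit 306) (nat_lit 0) (nat_lit 282) (nat_lit 275) (nat_lit 223)) (PT.lf (nat_lit 22496) (nat_lit 6) (nat_lit 296) (nat_lit 0) (nat_lit 283)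 (nat_lit 275) (nat_lit 222))) (PT.nd (nat_lit 78) (PT.lf (nat_lit 21812) (nat_lit 6) (nat_lit 287) (nat_lit 0) (nat_lit 284) (nat_lit 275) (nat_lit 221)) (PT.lf (nat_lit 21052) (nat_lit 6) (nat_lit 277) (nat_lit 0) (nat_lit 285) (nat_lit 275) (nat_lit 220))))) (PT.nd (nat_lit 75660) (PT.nd (nat_lit 156) (PT.nd (nat_lit 78) (PT.lf (nat_lit 20368) (nat_lit 6) (nat_lit 268) (nat_lit 0) (nat_lit 286) (nat_lit 275) (nat_lit 219)) (PT.lf (nat_lit 19684) (nat_lit 6) (nat_lit 259) (nat_lit 0) (nat_lit 287) (nat_lit 275) (nat_lit 218))) (PT.nd (nat_lit 78) (PT.lf (nat_lit 19076) (nat_lit 6) (nat_lit 251) (nat_lit 0) (nat_lit 288) (nat_lit 275) (nat_lit 217)) (PT.lf (nat_lit 18392) (nat_lit 6) (nat_lit 242) (nat_lit 0) (nat_lit 289) (nat_lit 275) (nat_lit 216)))) (PT.nd (nat_lit 156) (PT.nd (nat_lit 78) (PT.lf (nat_lit 17860) (nat_lit 6) (nat_lit 235) (nat_lit 5) (nat_lit 215) (nat_lit 276) (nat_lit 289)) (PT.lf (nat_lit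 18468) (nat_lit 6) (nat_lit 243) (nat_lit 5) (nat_lit 216) (nat_lit 276) (nat_lit 288))) (PT.nd (nat_lit 78) (PT.lf (nat_lit 19152) (nat_lit 6) (nat_lit 252) (nat_lit 5) (nat_lit 217) (nat_lit 276) (nat_lit 287)) (PT.lf (nat_lit 19760) (nat_lit 6) (nat_lit 260) (nat_lit 5) (nat_lit 218) (nat_lit 276) (nat_lit 286)))))) (PT.nd (nat_lit 546) (PT.nd (nat_lit 234) (PT.nd (nat_lit 78) (PT.lf (nat_lit 20444) (nat_lit 6) (nat_lit 269) (nat_lit 5) (nat_lit 219) (nat_lit 276) (nat_lit 285)) (PT.nd (nat_lit 78) (PT.lf (nat_lit 21128) (nat_lit 6) (nat_lit 278) (nat_lit 5) (nat_lit 220) (nat_lit 276) (nat_lit 284)) (PT.lf (nat_lit 21888) (nat_lit 6) (nat_lit 288) (nat_lit 5) (nat_lit 221) (nat_lit 276) (nat_lit 283)))) (PT.nd (nat_lit 156) (PT.nd (nat_lit 78) (PT.lf (nat_lit 22572) (nat_lit 6) (nat_lit 297) (nat_lit 5) (nat_lit 222) (nat_lit 276) (nat_lit 282)) (PT.lf (nat_lit 23332) (nat_lit 6) (nat_lit 307) (nat_lit 5) (nat_lit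 223) (nat_lit 276) (nat_lit 281))) (PT.nd (nat_lit 78) (PT.lf (nat_lit 24092) (nat_lit 6) (nat_lit 317) (nat_lit 5) (nat_lit 224) (nat_lit 276) (nat_lit 280)) (PT.lf (nat_lit 24928) (nat_lit 6) (nat_lit 328) (nat_lit 5) (nat_lit 225) (nat_lit 276) (nat_lit 279))))) (PT.nd (nat_lit 312) (PT.nd (nat_lit 156) (PT.nd (nat_lit 78) (PT.lf (nat_lit 25688) (nat_lit 6) (nat_lit 338) (nat_lit 5) (nat_lit 226) (nat_lit 276) (nat_lit 278)) (PT.lf (nat_lit 26524) (nat_lit 6) (nat_lit 349) (nat_lit 5) (nat_lit 227) (nat_lit 276) (nat_lit 277))) (PT.nd (nat_lit 78) (PT.lf (nat_lit 27360) (nat_lit 3) (nat_lit 360) (nat_lit 4) (nat_lit 228) (nat_lit 276) (nat_lit 276)) (PT.lf (nat_lit 28196) (nat_lit 6) (nat_lit 371) (nat_lit 4) (nat_lit 229) (nat_lit 276) (nat_lit 275)))) (PT.nd (nat_lit 156) (PT.nd (nat_lit 78) (PT.lf (nat_lit 28956) (nat_lit 6) (nat_lit 381) (nat_lit 4) (nat_lit 230) (nat_lit 276) (nat_lit 274)) (PT.lf (nat_lit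 29792) (nat_lit 6) (nat_lit 392) (nat_lit 4) (nat_lit 231) (nat_lit 276) (nat_lit 273))) (PT.nd (nat_lit 78) (PT.lf (nat_lit 30628) (nat_lit 6) (nat_lit 403) (nat_lit 4) (nat_lit 232) (nat_lit 276) (nat_lit 272)) (PT.lf (nat_lit 31540) (nat_lit 6) (nat_lit 415) (nat_lit 4) (nat_lit 233) (nat_lit 276) (nat_lit 271))))))) (PT.nd (nat_lit 1170) (PT.nd (nat_lit 546) (PT.nd (nat_lit 234) (PT.nd (nat_lit 78) (PT.lf (nat_lit 32452) (nat_lit 6) (nat_lit 427) (nat_lit 4) (nat_lit 234) (nat_lit 276) (nat_lit 270)) (PT.nd (nat_lit 78) (PT.lf (nat_lit 33440) (nat_lit 6) (nat_lit 440) (nat_lit 4) (nat_lit 235) (nat_lit 276) (nat_lit 269)) (PT.lf (nat_lit 35112) (nat_lit 6) (nat_lit 462) (nat_lit 4) (nat_lit 236) (nat_lit 276) (nat_lit 268)))) (PT.nd (nat_lit 156) (PT.nd (nat_lit 78) (PT.lf (nat_lit 36860) (nat_lit 6) (nat_lit 485) (nat_lit 4) (nat_lit 237) (nat_lit 276) (nat_lit 267)) (PT.lf (nat_lit 38532) (nat_lit 6) (nat_lit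 507) (nat_lit 4) (nat_lit 238) (nat_lit 276) (nat_lit 266))) (PT.nd (nat_lit 78) (PT.lf (nat_lit 40128) (nat_lit 6) (nat_lit 528) (nat_lit 4) (nat_lit 239) (nat_lit 276) (nat_lit 265)) (PT.lf (nat_lit 41648) (nat_lit 6) (nat_lit 548) (nat_lit 4) (nat_lit 240) (nat_lit 276) (nat_lit 264))))) (PT.nd (nat_lit 312) (PT.nd (nat_lit 156) (PT.nd (nat_lit 78) (PT.lf (nat_lit 43092) (nat_lit 6) (nat_lit 567) (nat_lit 4) (nat_lit 241) (nat_lit 276) (nat_lit 263)) (PT.lf (nat_lit 44460) (nat_lit 6) (nat_lit 585) (nat_lit 4) (nat_lit 242) (nat_lit 276) (nat_lit 262))) (PT.nd (nat_lit 78) (PT.lf (nat_lit 45752) (nat_lit 6) (nat_lit 602) (nat_lit 4) (nat_lit 243) (nat_lit 276) (nat_lit 261)) (PT.lf (nat_lit 46968) (nat_lit 6) (nat_lit 618) (nat_lit 4) (nat_lit 244) (nat_lit 276) (nat_lit 260)))) (PT.nd (nat_lit 156) (PT.nd (nat_lit 78) (PT.lf (nat_lit 46892) (nat_lit 6) (nat_lit 617) (nat_lit 4) (nat_lit 245) (nat_lit 276) (nat_lit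 259)) (PT.lf (nat_lit 46816) (nat_lit 6) (nat_lit 616) (nat_lit 4) (nat_lit 246) (nat_lit 276) (nat_lit 258))) (PT.nd (nat_lit 78) (PT.lf (nat_lit 46740) (nat_lit 6) (nat_lit 615) (nat_lit 4) (nat_lit 247) (nat_lit 276) (nat_lit 257)) (PT.lf (nat_lit 46664) (nat_lit 6) (nat_lit 614) (nat_lit 4) (nat_lit 248) (nat_lit 276) (nat_lit 256)))))) (PT.nd (nat_lit 546) (PT.nd (nat_lit 234) (PT.nd (nat_lit 78) (PT.lf (nat_lit 46588) (nat_lit 6) (nat_lit 613) (nat_lit 4) (nat_lit 249) (nat_lit 276) (nat_lit 255)) (PT.nd (nat_lit 78) (PT.lf (nat_lit 46512) (nat_lit 6) (nat_lit 612) (nat_lit 4) (nat_lit 250) (nat_lit 276) (nat_lit 254)) (PT.lf (nat_lit 46436) (nat_lit 6) (nat_lit 611) (nat_lit 4) (nat_lit 251) (nat_lit 276) (nat_lit 253)))) (PT.nd (nat_lit 156) (PT.nd (nat_lit 78) (PT.lf (nat_lit 46360) (nat_lit 3) (nat_lit 610) (nat_lit 2) (nat_lit 252) (nat_lit 276) (nat_lit 252)) (PT.lf (nat_lit 46436) (nat_lit 6) (nat_lit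 611) (nat_lit 2) (nat_lit 253) (nat_lit 276) (nat_lit 251))) (PT.nd (nat_lit 78) (PT.lf (nat_lit 46512) (nat_lit 6) (nat_lit 612) (nat_lit 2) (nat_lit 254) (nat_lit 276) (nat_lit 250)) (PT.lf (nat_lit 46588) (nat_lit 6) (nat_lit 613) (nat_lit 2) (nat_lit 255) (nat_lit 276) (nat_lit 249))))) (PT.nd (nat_lit 312) (PT.nd (nat_lit 156) (PT.nd (nat_lit 78) (PT.lf (nat_lit 46664) (nat_lit 6) (nat_lit 614) (nat_lit 2) (nat_lit 256) (nat_lit 276) (nat_lit 248)) (PT.lf (nat_lit 46740) (nat_lit 6) (nat_lit 615) (nat_lit 2) (nat_lit 257) (nat_lit 276) (nat_lit 247))) (PT.nd (nat_lit 78) (PT.lf (nat_lit 46816) (nat_lit 6) (nat_lit 616) (nat_lit 2) (nat_lit 258) (nat_lit 276) (nat_lit 246)) (PT.lf (nat_lit 46892) (nat_lit 6) (nat_lit 617) (nat_lit 2) (nat_lit 259) (nat_lit 276) (nat_lit 245)))) (PT.nd (nat_lit 156) (PT.nd (nat_lit 78) (PT.lf (nat_lit 46968) (nat_lit 6) (nat_lit 618) (nat_lit 2) (nat_lit 260) (nat_lit 276) (nat_lit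 244)) (PT.lf (nat_lit 45752) (nat_lit 6) (nat_lit 602) (nat_lit 2) (nat_lit 261) (nat_lit 276) (nat_lit 243))) (PT.nd (nat_lit 78) (PT.lf (nat_lit 44460) (nat_lit 6) (nat_lit 585) (nat_lit 2) (nat_lit 262) (nat_lit 276) (nat_lit 242)) (PT.lf (nat_lit 43092) (nat_lit 6) (nat_lit 567) (nat_lit 2) (nat_lit 263) (nat_lit 276) (nat_lit 241))))))))
noncomputable def pc43 : PT := (PT.nd (nat_lit 77532) (PT.nd (nat_lit 1170) (PT.nd (nat_lit 546) (PT.nd (nat_lit 234) (PT.nd (nat_lit 78) (PT.lf (nat_lit 41648) (nat_lit 6) (nat_lit 548) (nat_lit 2) (nat_lit 264) (nat_lit 276) (nat_lit 240)) (PT.nd (nat_lit 78) (PT.lf (nat_lit 40128) (nat_lit 6) (nat_lit 528) (nat_lit 2) (nat_lit 265) (nat_lit 276) (nat_lit 239)) (PT.lf (nat_lit 38532) (nat_lit 6) (nat_lit 507) (nat_lit 2) (nat_lit 266) (nat_lit 276) (nat_lit 238)))) (PT.nd (nat_lit 156) (PT.nd (nat_lit 78) (PT.lf (nat_lit 36860) (nat_lit 6) (nat_lit 485) (nat_lit 2) (nat_lit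 267) (nat_lit 276) (nat_lit 237)) (PT.lf (nat_lit 35112) (nat_lit 6) (nat_lit 462) (nat_lit 2) (nat_lit 268) (nat_lit 276) (nat_lit 236))) (PT.nd (nat_lit 78) (PT.lf (nat_lit 33440) (nat_lit 6) (nat_lit 440) (nat_lit 2) (nat_lit 269) (nat_lit 276) (nat_lit 235)) (PT.lf (nat_lit 32452) (nat_lit 6) (nat_lit 427) (nat_lit 2) (nat_lit 270) (nat_lit 276) (nat_lit 234))))) (PT.nd (nat_lit 312) (PT.nd (nat_lit 156) (PT.nd (nat_lit 78) (PT.lf (nat_lit 31540) (nat_lit 6) (nat_lit 415) (nat_lit 2) (nat_lit 271) (nat_lit 276) (nat_lit 233)) (PT.lf (nat_lit 30628) (nat_lit 6) (nat_lit 403) (nat_lit 2) (nat_lit 272) (nat_lit 276) (nat_lit 232))) (PT.nd (nat_lit 78) (PT.lf (nat_lit 29792) (nat_lit 6) (nat_lit 392) (nat_lit 2) (nat_lit 273) (nat_lit 276) (nat_lit 231)) (PT.lf (nat_lit 28956) (nat_lit 6) (nat_lit 381) (nat_lit 2) (nat_lit 274) (nat_lit 276) (nat_lit 230)))) (PT.nd (nat_lit 156) (PT.nd (nat_lit 78) (PT.lf (nat_lit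 28196) (nat_lit 6) (nat_lit 371) (nat_lit 2) (nat_lit 275) (nat_lit 276) (nat_lit 229)) (PT.lf (nat_lit 27360) (nat_lit 3) (nat_lit 360) (nat_lit 0) (nat_lit 276) (nat_lit 276) (nat_lit 228))) (PT.nd (nat_lit 78) (PT.lf (nat_lit 26524) (nat_lit 6) (nat_lit 349) (nat_lit 0) (nat_lit 277) (nat_lit 276) (nat_lit 227)) (PT.lf (nat_lit 25688) (nat_lit 6) (nat_lit 338) (nat_lit 0) (nat_lit 278) (nat_lit 276) (nat_lit 226)))))) (PT.nd (nat_lit 546) (PT.nd (nat_lit 234) (PT.nd (nat_lit 78) (PT.lf (nat_lit 24928) (nat_lit 6) (nat_lit 328) (nat_lit 0) (nat_lit 279) (nat_lit 276) (nat_lit 225)) (PT.nd (nat_lit 78) (PT.lf (nat_lit 24092) (nat_lit 6) (nat_lit 317) (nat_lit 0) (nat_lit 280) (nat_lit 276) (nat_lit 224)) (PT.lf (nat_lit 23332) (nat_lit 6) (nat_lit 307) (nat_lit 0) (nat_lit 281) (nat_lit 276) (nat_lit 223)))) (PT.nd (nat_lit 156) (PT.nd (nat_lit 78) (PT.lf (nat_lit 22572) (nat_lit 6) (nat_lit 297) (nat_lit 0) (nat_lit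 282) (nat_lit 276) (nat_lit 222)) (PT.lf (nat_lit 21888) (nat_lit 6) (nat_lit 288) (nat_lit 0) (nat_lit 283) (nat_lit 276) (nat_lit 221))) (PT.nd (nat_lit 78) (PT.lf (nat_lit 21128) (nat_lit 6) (nat_lit 278) (nat_lit 0) (nat_lit 284) (nat_lit 276) (nat_lit 220)) (PT.lf (nat_lit 20444) (nat_lit 6) (nat_lit 269) (nat_lit 0) (nat_lit 285) (nat_lit 276) (nat_lit 219))))) (PT.nd (nat_lit 75504) (PT.nd (nat_lit 156) (PT.nd (nat_lit 78) (PT.lf (nat_lit 19760) (nat_lit 6) (nat_lit 260) (nat_lit 0) (nat_lit 286) (nat_lit 276) (nat_lit 218)) (PT.lf (nat_lit 19152) (nat_lit 6) (nat_lit 252) (nat_lit 0) (nat_lit 287) (nat_lit 276) (nat_lit 217))) (PT.nd (nat_lit 78) (PT.lf (nat_lit 18468) (nat_lit 6) (nat_lit 243) (nat_lit 0) (nat_lit 288) (nat_lit 276) (nat_lit 216)) (PT.lf (nat_lit 17860) (nat_lit 6) (nat_lit 235) (nat_lit 0) (nat_lit 289) (nat_lit 276) (nat_lit 215)))) (PT.nd (nat_lit 156) (PT.nd (nat_lit 78) (PT.lf (nat_lit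 16720) (nat_lit 6) (nat_lit 220) (nat_lit 5) (nat_lit 213) (nat_lit 277) (nat_lit 290)) (PT.lf (nat_lit 17328) (nat_lit 6) (nat_lit 228) (nat_lit 5) (nat_lit 214) (nat_lit 277) (nat_lit 289))) (PT.nd (nat_lit 78) (PT.lf (nat_lit 17936) (nat_lit 6) (nat_lit 236) (nat_lit 5) (nat_lit 215) (nat_lit 277) (nat_lit 288)) (PT.lf (nat_lit 18544) (nat_lit 6) (nat_lit 244) (nat_lit 5) (nat_lit 216) (nat_lit 277) (nat_lit 287))))))) (PT.nd (nat_lit 1170) (PT.nd (nat_lit 546) (PT.nd (nat_lit 234) (PT.nd (nat_lit 78) (PT.lf (nat_lit 19228) (nat_lit 6) (nat_lit 253) (nat_lit 5) (nat_lit 217) (nat_lit 277) (nat_lit 286)) (PT.nd (nat_lit 78) (PT.lf (nat_lit 19836) (nat_lit 6) (nat_lit 261) (nat_lit 5) (nat_lit 218) (nat_lit 277) (nat_lit 285)) (PT.lf (nat_lit 20520) (nat_lit 6) (nat_lit 270) (nat_lit 5) (nat_lit 219) (nat_lit 277) (nat_lit 284)))) (PT.nd (nat_lit 156) (PT.nd (nat_lit 78) (PT.lf (nat_lit 21204) (nat_lit 6) (nat_lit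 279) (nat_lit 5) (nat_lit 220) (nat_lit 277) (nat_lit 283)) (PT.lf (nat_lit 21964) (nat_lit 6) (nat_lit 289) (nat_lit 5) (nat_lit 221) (nat_lit 277) (nat_lit 282))) (PT.nd (nat_lit 78) (PT.lf (nat_lit 22648) (nat_lit 6) (nat_lit 298) (nat_lit 5) (nat_lit 222) (nat_lit 277) (nat_lit 281)) (PT.lf (nat_lit 23408) (nat_lit 6) (nat_lit 308) (nat_lit 5) (nat_lit 223) (nat_lit 277) (nat_lit 280))))) (PT.nd (nat_lit 312) (PT.nd (nat_lit 156) (PT.nd (nat_lit 78) (PT.lf (nat_lit 24168) (nat_lit 6) (nat_lit 318) (nat_lit 5) (nat_lit 224) (nat_lit 277) (nat_lit 279)) (PT.lf (nat_lit 25004) (nat_lit 6) (nat_lit 329) (nat_lit 5) (nat_lit 225) (nat_lit 277) (nat_lit 278))) (PT.nd (nat_lit 78) (PT.lf (nat_lit 25764) (nat_lit 3) (nat_lit 339) (nat_lit 4) (nat_lit 226) (nat_lit 277) (nat_lit 277)) (PT.lf (nat_lit 26524) (nat_lit 6) (nat_lit 349) (nat_lit 4) (nat_lit 227) (nat_lit 277) (nat_lit 276)))) (PT.nd (nat_lit 156) (PT.nd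 (nat_lit 78) (PT.lf (nat_lit 27284) (nat_lit 6) (nat_lit 359) (nat_lit 4) (nat_lit 228) (nat_lit 277) (nat_lit 275)) (PT.lf (nat_lit 28120) (nat_lit 6) (nat_lit 370) (nat_lit 4) (nat_lit 229) (nat_lit 277) (nat_lit 274))) (PT.nd (nat_lit 78) (PT.lf (nat_lit 28880) (nat_lit 6) (nat_lit 380) (nat_lit 4) (nat_lit 230) (nat_lit 277) (nat_lit 273)) (PT.lf (nat_lit 29716) (nat_lit 6) (nat_lit 391) (nat_lit 4) (nat_lit 231) (nat_lit 277) (nat_lit 272)))))) (PT.nd (nat_lit 546) (PT.nd (nat_lit 234) (PT.nd (nat_lit 78) (PT.lf (nat_lit 30552) (nat_lit 6) (nat_lit 402) (nat_lit 4) (nat_lit 232) (nat_lit 277) (nat_lit 271)) (PT.nd (nat_lit 78) (PT.lf (nat_lit 31464) (nat_lit 6) (nat_lit 414) (nat_lit 4) (nat_lit 233) (nat_lit 277) (nat_lit 270)) (PT.lf (nat_lit 32376) (nat_lit 6) (nat_lit 426) (nat_lit 4) (nat_lit 234) (nat_lit 277) (nat_lit 269)))) (PT.nd (nat_lit 156) (PT.nd (nat_lit 78) (PT.lf (nat_lit 33364) (nat_lit 6)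 (nat_lit 439) (nat_lit 4) (nat_lit 235) (nat_lit 277) (nat_lit 268)) (PT.lf (nat_lit 35036) (nat_lit 6) (nat_lit 461) (nat_lit 4) (nat_lit 236) (nat_lit 277) (nat_lit 267))) (PT.nd (nat_lit 78) (PT.lf (nat_lit 36784) (nat_lit 6) (nat_lit 484) (nat_lit 4) (nat_lit 237) (nat_lit 277) (nat_lit 266)) (PT.lf (nat_lit 38456) (nat_lit 6) (nat_lit 506) (nat_lit 4) (nat_lit 238) (nat_lit 277) (nat_lit 265))))) (PT.nd (nat_lit 312) (PT.nd (nat_lit 156) (PT.nd (nat_lit 78) (PT.lf (nat_lit 40052) (nat_lit 6) (nat_lit 527) (nat_lit 4) (nat_lit 239) (nat_lit 277) (nat_lit 264)) (PT.lf (nat_lit 41572) (nat_lit 6) (nat_lit 547) (nat_lit 4) (nat_lit 240) (nat_lit 277) (nat_lit 263))) (PT.nd (nat_lit 78) (PT.lf (nat_lit 43016) (nat_lit 6) (nat_lit 566) (nat_lit 4) (nat_lit 241) (nat_lit 277) (nat_lit 262)) (PT.lf (nat_lit 44384) (nat_lit 6) (nat_lit 584) (nat_lit 4) (nat_lit 242) (nat_lit 277) (nat_lit 261)))) (PT.nd (nat_lit 156)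 (PT.nd (nat_lit 78) (PT.lf (nat_lit 45676) (nat_lit 6) (nat_lit 601) (nat_lit 4) (nat_lit 243) (nat_lit 277) (nat_lit 260)) (PT.lf (nat_lit 45600) (nat_lit 6) (nat_lit 600) (nat_lit 4) (nat_lit 244) (nat_lit 277) (nat_lit 259))) (PT.nd (nat_lit 78) (PT.lf (nat_lit 45524) (nat_lit 6) (nat_lit 599) (nat_lit 4) (nat_lit 245) (nat_lit 277) (nat_lit 258)) (PT.lf (nat_lit 45448) (nat_lit 6) (nat_lit 598) (nat_lit 4) (nat_lit 246) (nat_lit 277) (nat_lit 257))))))))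
noncomputable def pc44 : PT := (PT.nd (nat_lit 2340) (PT.nd (nat_lit 1170) (PT.nd (nat_lit 546) (PT.nd (nat_lit 234) (PT.nd (nat_lit 78) (PT.lf (nat_lit 45372) (nat_lit 6) (nat_lit 597) (nat_lit 4) (nat_lit 247) (nat_lit 277) (nat_lit 256)) (PT.nd (nat_lit 78) (PT.lf (nat_lit 45296) (nat_lit 6) (nat_lit 596) (nat_lit 4) (nat_lit 248) (nat_lit 277) (nat_lit 255)) (PT.lf (nat_lit 45220) (nat_lit 6) (nat_lit 595) (nat_lit 4) (nat_lit 249) (nat_lit 277) (nat_lit 254)))) (PT.nd (nat_lit 156) (PT.nd (nat_lit 78) (PT.lf (nat_lit 45144) (nat_lit 6) (nat_lit 594) (nat_lit 4) (nat_lit 250) (nat_lit 277) (nat_lit 253)) (PT.lf (nat_lit 45068) (nat_lit 6) (nat_lit 593) (nat_lit 4) (nat_lit 251) (nat_lit 277) (nat_lit 252))) (PT.nd (nat_lit 78) (PT.lf (nat_lit 45068) (nat_lit 6) (nat_lit 593) (nat_lit 2) (nat_lit 252) (nat_lit 277) (nat_lit 251)) (PT.lf (nat_lit 45144) (nat_lit 6) (nat_lit 594) (nat_lit 2) (nat_lit 253) (nat_lit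 277) (nat_lit 250))))) (PT.nd (nat_lit 312) (PT.nd (nat_lit 156) (PT.nd (nat_lit 78) (PT.lf (nat_lit 45220) (nat_lit 6) (nat_lit 595) (nat_lit 2) (nat_lit 254) (nat_lit 277) (nat_lit 249)) (PT.lf (nat_lit 45296) (nat_lit 6) (nat_lit 596) (nat_lit 2) (nat_lit 255) (nat_lit 277) (nat_lit 248))) (PT.nd (nat_lit 78) (PT.lf (nat_lit 45372) (nat_lit 6) (nat_lit 597) (nat_lit 2) (nat_lit 256) (nat_lit 277) (nat_lit 247)) (PT.lf (nat_lit 45448) (nat_lit 6) (nat_lit 598) (nat_lit 2) (nat_lit 257) (nat_lit 277) (nat_lit 246)))) (PT.nd (nat_lit 156) (PT.nd (nat_lit 78) (PT.lf (nat_lit 45524) (nat_lit 6) (nat_lit 599) (nat_lit 2) (nat_lit 258) (nat_lit 277) (nat_lit 245)) (PT.lf (nat_lit 45600) (nat_lit 6) (nat_lit 600) (nat_lit 2) (nat_lit 259) (nat_lit 277) (nat_lit 244))) (PT.nd (nat_lit 78) (PT.lf (nat_lit 45676) (nat_lit 6) (nat_lit 601) (nat_lit 2) (nat_lit 260) (nat_lit 277) (nat_lit 243)) (PT.lf (nat_lit 44384) (nat_lit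 6) (nat_lit 584) (nat_lit 2) (nat_lit 261) (nat_lit 277) (nat_lit 242)))))) (PT.nd (nat_lit 546) (PT.nd (nat_lit 234) (PT.nd (nat_lit 78) (PT.lf (nat_lit 43016) (nat_lit 6) (nat_lit 566) (nat_lit 2) (nat_lit 262) (nat_lit 277) (nat_lit 241)) (PT.nd (nat_lit 78) (PT.lf (nat_lit 41572) (nat_lit 6) (nat_lit 547) (nat_lit 2) (nat_lit 263) (nat_lit 277) (nat_lit 240)) (PT.lf (nat_lit 40052) (nat_lit 6) (nat_lit 527) (nat_lit 2) (nat_lit 264) (nat_lit 277) (nat_lit 239)))) (PT.nd (nat_lit 156) (PT.nd (nat_lit 78) (PT.lf (nat_lit 38456) (nat_lit 6) (nat_lit 506) (nat_lit 2) (nat_lit 265) (nat_lit 277) (nat_lit 238)) (PT.lf (nat_lit 36784) (nat_lit 6) (nat_lit 484) (nat_lit 2) (nat_lit 266) (nat_lit 277) (nat_lit 237))) (PT.nd (nat_lit 78) (PT.lf (nat_lit 35036) (nat_lit 6) (nat_lit 461) (nat_lit 2) (nat_lit 267) (nat_lit 277) (nat_lit 236)) (PT.lf (nat_lit 33364) (nat_lit 6) (nat_lit 439) (nat_lit 2) (nat_lit 268) (nat_lit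 277) (nat_lit 235))))) (PT.nd (nat_lit 312) (PT.nd (nat_lit 156) (PT.nd (nat_lit 78) (PT.lf (nat_lit 32376) (nat_lit 6) (nat_lit 426) (nat_lit 2) (nat_lit 269) (nat_lit 277) (nat_lit 234)) (PT.lf (nat_lit 31464) (nat_lit 6) (nat_lit 414) (nat_lit 2) (nat_lit 270) (nat_lit 277) (nat_lit 233))) (PT.nd (nat_lit 78) (PT.lf (nat_lit 30552) (nat_lit 6) (nat_lit 402) (nat_lit 2) (nat_lit 271) (nat_lit 277) (nat_lit 232)) (PT.lf (nat_lit 29716) (nat_lit 6) (nat_lit 391) (nat_lit 2) (nat_lit 272) (nat_lit 277) (nat_lit 231)))) (PT.nd (nat_lit 156) (PT.nd (nat_lit 78) (PT.lf (nat_lit 28880) (nat_lit 6) (nat_lit 380) (nat_lit 2) (nat_lit 273) (nat_lit 277) (nat_lit 230)) (PT.lf (nat_lit 28120) (nat_lit 6) (nat_lit 370) (nat_lit 2) (nat_lit 274) (nat_lit 277) (nat_lit 229))) (PT.nd (nat_lit 78) (PT.lf (nat_lit 27284) (nat_lit 6) (nat_lit 359) (nat_lit 2) (nat_lit 275) (nat_lit 277) (nat_lit 228)) (PT.lf (nat_lit 26524) (nat_lit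 6) (nat_lit 349) (nat_lit 2) (nat_lit 276) (nat_lit 277) (nat_lit 227))))))) (PT.nd (nat_lit 76206) (PT.nd (nat_lit 546) (PT.nd (nat_lit 234) (PT.nd (nat_lit 78) (PT.lf (nat_lit 25764) (nat_lit 3) (nat_lit 339) (nat_lit 0) (nat_lit 277) (nat_lit 277) (nat_lit 226)) (PT.nd (nat_lit 78) (PT.lf (nat_lit 25004) (nat_lit 6) (nat_lit 329) (nat_lit 0) (nat_lit 278) (nat_lit 277) (nat_lit 225)) (PT.lf (nat_lit 24168) (nat_lit 6) (nat_lit 318) (nat_lit 0) (nat_lit 279) (nat_lit 277) (nat_lit 224)))) (PT.nd (nat_lit 156) (PT.nd (nat_lit 78) (PT.lf (nat_lit 23408) (nat_lit 6) (nat_lit 308) (nat_lit 0) (nat_lit 280) (nat_lit 277) (nat_lit 223)) (PT.lf (nat_lit 22648) (nat_lit 6) (nat_lit 298) (nat_lit 0) (nat_lit 281) (nat_lit 277) (nat_lit 222))) (PT.nd (nat_lit 78) (PT.lf (nat_lit 21964) (nat_lit 6) (nat_lit 289) (nat_lit 0) (nat_lit 282) (nat_lit 277) (nat_lit 221)) (PT.lf (nat_lit 21204) (nat_lit 6) (nat_lit 279) (nat_lit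 0) (nat_lit 283) (nat_lit 277) (nat_lit 220))))) (PT.nd (nat_lit 312) (PT.nd (nat_lit 156) (PT.nd (nat_lit 78) (PT.lf (nat_lit 20520) (nat_lit 6) (nat_lit 270) (nat_lit 0) (nat_lit 284) (nat_lit 277) (nat_lit 219)) (PT.lf (nat_lit 19836) (nat_lit 6) (nat_lit 261) (nat_lit 0) (nat_lit 285) (nat_lit 277) (nat_lit 218))) (PT.nd (nat_lit 78) (PT.lf (nat_lit 19228) (nat_lit 6) (nat_lit 253) (nat_lit 0) (nat_lit 286) (nat_lit 277) (nat_lit 217)) (PT.lf (nat_lit 18544) (nat_lit 6) (nat_lit 244) (nat_lit 0) (nat_lit 287) (nat_lit 277) (nat_lit 216)))) (PT.nd (nat_lit 156) (PT.nd (nat_lit 78) (PT.lf (nat_lit 17936) (nat_lit 6) (nat_lit 236) (nat_lit 0) (nat_lit 288) (nat_lit 277) (nat_lit 215)) (PT.lf (nat_lit 17328) (nat_lit 6) (nat_lit 228) (nat_lit 0) (nat_lit 289) (nat_lit 277) (nat_lit 214))) (PT.nd (nat_lit 75114) (PT.lf (nat_lit 16720) (nat_lit 6) (nat_lit 220) (nat_lit 0) (nat_lit 290) (nat_lit 277) (nat_lit 213))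 (PT.lf (nat_lit 16188) (nat_lit 6) (nat_lit 213) (nat_lit 5) (nat_lit 212) (nat_lit 278) (nat_lit 290)))))) (PT.nd (nat_lit 546) (PT.nd (nat_lit 234) (PT.nd (nat_lit 78) (PT.lf (nat_lit 16796) (nat_lit 6) (nat_lit 221) (nat_lit 5) (nat_lit 213) (nat_lit 278) (nat_lit 289)) (PT.nd (nat_lit 78) (PT.lf (nat_lit 17404) (nat_lit 6) (nat_lit 229) (nat_lit 5) (nat_lit 214) (nat_lit 278) (nat_lit 288)) (PT.lf (nat_lit 18012) (nat_lit 6) (nat_lit 237) (nat_lit 5) (nat_lit 215) (nat_lit 278) (nat_lit 287)))) (PT.nd (nat_lit 156) (PT.nd (nat_lit 78) (PT.lf (nat_lit 18620) (nat_lit 6) (nat_lit 245) (nat_lit 5) (nat_lit 216) (nat_lit 278) (nat_lit 286)) (PT.lf (nat_lit 19304) (nat_lit 6) (nat_lit 254) (nat_lit 5) (nat_lit 217) (nat_lit 278) (nat_lit 285))) (PT.nd (nat_lit 78) (PT.lf (nat_lit 19912) (nat_lit 6) (nat_lit 262) (nat_lit 5) (nat_lit 218) (nat_lit 278) (nat_lit 284)) (PT.lf (nat_lit 20596) (nat_lit 6) (nat_lit 271)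 (nat_lit 5) (nat_lit 219) (nat_lit 278) (nat_lit 283))))) (PT.nd (nat_lit 312) (PT.nd (nat_lit 156) (PT.nd (nat_lit 78) (PT.lf (nat_lit 21280) (nat_lit 6) (nat_lit 280) (nat_lit 5) (nat_lit 220) (nat_lit 278) (nat_lit 282)) (PT.lf (nat_lit 22040) (nat_lit 6) (nat_lit 290) (nat_lit 5) (nat_lit 221) (nat_lit 278) (nat_lit 281))) (PT.nd (nat_lit 78) (PT.lf (nat_lit 22724) (nat_lit 6) (nat_lit 299) (nat_lit 5) (nat_lit 222) (nat_lit 278) (nat_lit 280)) (PT.lf (nat_lit 23484) (nat_lit 6) (nat_lit 309) (nat_lit 5) (nat_lit 223) (nat_lit 278) (nat_lit 279)))) (PT.nd (nat_lit 156) (PT.nd (nat_lit 78) (PT.lf (nat_lit 24244) (nat_lit 3) (nat_lit 319) (nat_lit 4) (nat_lit 224) (nat_lit 278) (nat_lit 278)) (PT.lf (nat_lit 25004) (nat_lit 6) (nat_lit 329) (nat_lit 4) (nat_lit 225) (nat_lit 278) (nat_lit 277))) (PT.nd (nat_lit 78) (PT.lf (nat_lit 25688) (nat_lit 6) (nat_lit 338) (nat_lit 4) (nat_lit 226) (nat_lit 278) (nat_lit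 276)) (PT.lf (nat_lit 26448) (nat_lit 6) (nat_lit 348) (nat_lit 4) (nat_lit 227) (nat_lit 278) (nat_lit 275))))))))
noncomputable def pc45 : PT := (PT.nd (nat_lit 2340) (PT.nd (nat_lit 1170) (PT.nd (nat_lit 546) (PT.nd (nat_lit 234) (PT.nd (nat_lit 78) (PT.lf (nat_lit 27208) (nat_lit 6) (nat_lit 358) (nat_lit 4) (nat_lit 228) (nat_lit 278) (nat_lit 274)) (PT.nd (nat_lit 78) (PT.lf (nat_lit 28044) (nat_lit 6) (nat_lit 369) (nat_lit 4) (nat_lit 229) (nat_lit 278) (nat_lit 273)) (PT.lf (nat_lit 28804) (nat_lit 6) (nat_lit 379) (nat_lit 4) (nat_lit 230) (nat_lit 278) (nat_lit 272)))) (PT.nd (nat_lit 156) (PT.nd (nat_lit 78) (PT.lf (nat_lit 29640) (nat_lit 6) (nat_lit 390) (nat_lit 4) (nat_lit 231) (nat_lit 278) (nat_lit 271)) (PT.lf (nat_lit 30476) (nat_lit 6) (nat_lit 401) (nat_lit 4) (nat_lit 232) (nat_lit 278) (nat_lit 270))) (PT.nd (nat_lit 78) (PT.lf (nat_lit 31388) (nat_lit 6) (nat_lit 413) (nat_lit 4) (nat_lit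 233) (nat_lit 278) (nat_lit 269)) (PT.lf (nat_lit 32300) (nat_lit 6) (nat_lit 425) (nat_lit 4) (nat_lit 234) (nat_lit 278) (nat_lit 268))))) (PT.nd (nat_lit 312) (PT.nd (nat_lit 156) (PT.nd (nat_lit 78) (PT.lf (nat_lit 33288) (nat_lit 6) (nat_lit 438) (nat_lit 4) (nat_lit 235) (nat_lit 278) (nat_lit 267)) (PT.lf (nat_lit 34960) (nat_lit 6) (nat_lit 460) (nat_lit 4) (nat_lit 236) (nat_lit 278) (nat_lit 266))) (PT.nd (nat_lit 78) (PT.lf (nat_lit 36708) (nat_lit 6) (nat_lit 483) (nat_lit 4) (nat_lit 237) (nat_lit 278) (nat_lit 265)) (PT.lf (nat_lit 38380) (nat_lit 6) (nat_lit 505) (nat_lit 4) (nat_lit 238) (nat_lit 278) (nat_lit 264)))) (PT.nd (nat_lit 156) (PT.nd (nat_lit 78) (PT.lf (nat_lit 39976) (nat_lit 6) (nat_lit 526) (nat_lit 4) (nat_lit 239) (nat_lit 278) (nat_lit 263)) (PT.lf (nat_lit 41496) (nat_lit 6) (nat_lit 546) (nat_lit 4) (nat_lit 240) (nat_lit 278) (nat_lit 262))) (PT.nd (nat_lit 78) (PT.lf (nat_lit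 42940) (nat_lit 6) (nat_lit 565) (nat_lit 4) (nat_lit 241) (nat_lit 278) (nat_lit 261)) (PT.lf (nat_lit 44308) (nat_lit 6) (nat_lit 583) (nat_lit 4) (nat_lit 242) (nat_lit 278) (nat_lit 260)))))) (PT.nd (nat_lit 546) (PT.nd (nat_lit 234) (PT.nd (nat_lit 78) (PT.lf (nat_lit 44232) (nat_lit 6) (nat_lit 582) (nat_lit 4) (nat_lit 243) (nat_lit 278) (nat_lit 259)) (PT.nd (nat_lit 78) (PT.lf (nat_lit 44156) (nat_lit 6) (nat_lit 581) (nat_lit 4) (nat_lit 244) (nat_lit 278) (nat_lit 258)) (PT.lf (nat_lit 44080) (nat_lit 6) (nat_lit 580) (nat_lit 4) (nat_lit 245) (nat_lit 278) (nat_lit 257)))) (PT.nd (nat_lit 156) (PT.nd (nat_lit 78) (PT.lf (nat_lit 44004) (nat_lit 6) (nat_lit 579) (nat_lit 4) (nat_lit 246) (nat_lit 278) (nat_lit 256)) (PT.lf (nat_lit 43928) (nat_lit 6) (nat_lit 578) (nat_lit 4) (nat_lit 247) (nat_lit 278) (nat_lit 255))) (PT.nd (nat_lit 78) (PT.lf (nat_lit 43852) (nat_lit 6) (nat_lit 577) (nat_lit 4) (nat_lit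 248) (nat_lit 278) (nat_lit 254)) (PT.lf (nat_lit 43776) (nat_lit 6) (nat_lit 576) (nat_lit 4) (nat_lit 249) (nat_lit 278) (nat_lit 253))))) (PT.nd (nat_lit 312) (PT.nd (nat_lit 156) (PT.nd (nat_lit 78) (PT.lf (nat_lit 43700) (nat_lit 6) (nat_lit 575) (nat_lit 4) (nat_lit 250) (nat_lit 278) (nat_lit 252)) (PT.lf (nat_lit 43624) (nat_lit 3) (nat_lit 574) (nat_lit 2) (nat_lit 251) (nat_lit 278) (nat_lit 251))) (PT.nd (nat_lit 78) (PT.lf (nat_lit 43700) (nat_lit 6) (nat_lit 575) (nat_lit 2) (nat_lit 252) (nat_lit 278) (nat_lit 250)) (PT.lf (nat_lit 43776) (nat_lit 6) (nat_lit 576) (nat_lit 2) (nat_lit 253) (nat_lit 278) (nat_lit 249)))) (PT.nd (nat_lit 156) (PT.nd (nat_lit 78) (PT.lf (nat_lit 43852) (nat_lit 6) (nat_lit 577) (nat_lit 2) (nat_lit 254) (nat_lit 278) (nat_lit 248)) (PT.lf (nat_lit 43928) (nat_lit 6) (nat_lit 578) (nat_lit 2) (nat_lit 255) (nat_lit 278) (nat_lit 247))) (PT.nd (nat_lit 78) (PT.lf (nat_lit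 44004) (nat_lit 6) (nat_lit 579) (nat_lit 2) (nat_lit 256) (nat_lit 278) (nat_lit 246)) (PT.lf (nat_lit 44080) (nat_lit 6) (nat_lit 580) (nat_lit 2) (nat_lit 257) (nat_lit 278) (nat_lit 245))))))) (PT.nd (nat_lit 1170) (PT.nd (nat_lit 546) (PT.nd (nat_lit 234) (PT.nd (nat_lit 78) (PT.lf (nat_lit 44156) (nat_lit 6) (nat_lit 581) (nat_lit 2) (nat_lit 258) (nat_lit 278) (nat_lit 244)) (PT.nd (nat_lit 78) (PT.lf (nat_lit 44232) (nat_lit 6) (nat_lit 582) (nat_lit 2) (nat_lit 259) (nat_lit 278) (nat_lit 243)) (PT.lf (nat_lit 44308) (nat_lit 6) (nat_lit 583) (nat_lit 2) (nat_lit 260) (nat_lit 278) (nat_lit 242)))) (PT.nd (nat_lit 156) (PT.nd (nat_lit 78) (PT.lf (nat_lit 42940) (nat_lit 6) (nat_lit 565) (nat_lit 2) (nat_lit 261) (nat_lit 278) (nat_lit 241)) (PT.lf (nat_lit 41496) (nat_lit 6) (nat_lit 546) (nat_lit 2) (nat_lit 262) (nat_lit 278) (nat_lit 240))) (PT.nd (nat_lit 78) (PT.lf (nat_lit 39976) (nat_lit 6) (nat_lit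 526) (nat_lit 2) (nat_lit 263) (nat_lit 278) (nat_lit 239)) (PT.lf (nat_lit 38380) (nat_lit 6) (nat_lit 505) (nat_lit 2) (nat_lit 264) (nat_lit 278) (nat_lit 238))))) (PT.nd (nat_lit 312) (PT.nd (nat_lit 156) (PT.nd (nat_lit 78) (PT.lf (nat_lit 36708) (nat_lit 6) (nat_lit 483) (nat_lit 2) (nat_lit 265) (nat_lit 278) (nat_lit 237)) (PT.lf (nat_lit 34960) (nat_lit 6) (nat_lit 460) (nat_lit 2) (nat_lit 266) (nat_lit 278) (nat_lit 236))) (PT.nd (nat_lit 78) (PT.lf (nat_lit 33288) (nat_lit 6) (nat_lit 438) (nat_lit 2) (nat_lit 267) (nat_lit 278) (nat_lit 235)) (PT.lf (nat_lit 32300) (nat_lit 6) (nat_lit 425) (nat_lit 2) (nat_lit 268) (nat_lit 278) (nat_lit 234)))) (PT.nd (nat_lit 156) (PT.nd (nat_lit 78) (PT.lf (nat_lit 31388) (nat_lit 6) (nat_lit 413) (nat_lit 2) (nat_lit 269) (nat_lit 278) (nat_lit 233)) (PT.lf (nat_lit 30476) (nat_lit 6) (nat_lit 401) (nat_lit 2) (nat_lit 270) (nat_lit 278) (nat_lit 232))) (PT.nd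 (nat_lit 78) (PT.lf (nat_lit 29640) (nat_lit 6) (nat_lit 390) (nat_lit 2) (nat_lit 271) (nat_lit 278) (nat_lit 231)) (PT.lf (nat_lit 28804) (nat_lit 6) (nat_lit 379) (nat_lit 2) (nat_lit 272) (nat_lit 278) (nat_lit 230)))))) (PT.nd (nat_lit 546) (PT.nd (nat_lit 234) (PT.nd (nat_lit 78) (PT.lf (nat_lit 28044) (nat_lit 6) (nat_lit 369) (nat_lit 2) (nat_lit 273) (nat_lit 278) (nat_lit 229)) (PT.nd (nat_lit 78) (PT.lf (nat_lit 27208) (nat_lit 6) (nat_lit 358) (nat_lit 2) (nat_lit 274) (nat_lit 278) (nat_lit 228)) (PT.lf (nat_lit 26448) (nat_lit 6) (nat_lit 348) (nat_lit 2) (nat_lit 275) (nat_lit 278) (nat_lit 227)))) (PT.nd (nat_lit 156) (PT.nd (nat_lit 78) (PT.lf (nat_lit 25688) (nat_lit 6) (nat_lit 338) (nat_lit 2) (nat_lit 276) (nat_lit 278) (nat_lit 226)) (PT.lf (nat_lit 25004) (nat_lit 6) (nat_lit 329) (nat_lit 2) (nat_lit 277) (nat_lit 278) (nat_lit 225))) (PT.nd (nat_lit 78) (PT.lf (nat_lit 24244) (nat_lit 3)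 (nat_lit 319) (nat_lit 0) (nat_lit 278) (nat_lit 278) (nat_lit 224)) (PT.lf (nat_lit 23484) (nat_lit 6) (nat_lit 309) (nat_lit 0) (nat_lit 279) (nat_lit 278) (nat_lit 223))))) (PT.nd (nat_lit 312) (PT.nd (nat_lit 156) (PT.nd (nat_lit 78) (PT.lf (nat_lit 22724) (nat_lit 6) (nat_lit 299) (nat_lit 0) (nat_lit 280) (nat_lit 278) (nat_lit 222)) (PT.lf (nat_lit 22040) (nat_lit 6) (nat_lit 290) (nat_lit 0) (nat_lit 281) (nat_lit 278) (nat_lit 221))) (PT.nd (nat_lit 78) (PT.lf (nat_lit 21280) (nat_lit 6) (nat_lit 280) (nat_lit 0) (nat_lit 282) (nat_lit 278) (nat_lit 220)) (PT.lf (nat_lit 20596) (nat_lit 6) (nat_lit 271) (nat_lit 0) (nat_lit 283) (nat_lit 278) (nat_lit 219)))) (PT.nd (nat_lit 156) (PT.nd (nat_lit 78) (PT.lf (nat_lit 19912) (nat_lit 6) (nat_lit 262) (nat_lit 0) (nat_lit 284) (nat_lit 278) (nat_lit 218)) (PT.lf (nat_lit 19304) (nat_lit 6) (nat_lit 254) (nat_lit 0) (nat_lit 285) (nat_lit 278) (nat_lit 217)))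 (PT.nd (nat_lit 78) (PT.lf (nat_lit 18620) (nat_lit 6) (nat_lit 245) (nat_lit 0) (nat_lit 286) (nat_lit 278) (nat_lit 216)) (PT.lf (nat_lit 18012) (nat_lit 6) (nat_lit 237) (nat_lit 0) (nat_lit 287) (nat_lit 278) (nat_lit 215))))))))
noncomputable def pc46 : PT := (PT.nd (nat_lit 77220) (PT.nd (nat_lit 76050) (PT.nd (nat_lit 75426) (PT.nd (nat_lit 75114) (PT.nd (nat_lit 78) (PT.lf (nat_lit 17404) (nat_lit 6) (nat_lit 229) (nat_lit 0) (nat_lit 288) (nat_lit 278) (nat_lit 214)) (PT.nd (nat_lit 78) (PT.lf (nat_lit 16796) (nat_lit 6) (nat_lit 221) (nat_lit 0) (nat_lit 289) (nat_lit 278) (nat_lit 213)) (PT.lf (nat_lit 16188) (nat_lit 6) (nat_lit 213) (nat_lit 0) (nat_lit 290) (nat_lit 278) (nat_lit 212)))) (PT.nd (nat_lit 156) (PT.nd (nat_lit 78) (PT.lf (nat_lit 15124) (nat_lit 6) (nat_lit 199) (nat_lit 5) (nat_lit 210) (nat_lit 279) (nat_lit 291)) (PT.lf (nat_lit 15732) (nat_lit 6) (nat_lit 207) (nat_lit 5) (nat_lit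 211) (nat_lit 279) (nat_lit 290))) (PT.nd (nat_lit 78) (PT.lf (nat_lit 16264) (nat_lit 6) (nat_lit 214) (nat_lit 5) (nat_lit 212) (nat_lit 279) (nat_lit 289)) (PT.lf (nat_lit 16872) (nat_lit 6) (nat_lit 222) (nat_lit 5) (nat_lit 213) (nat_lit 279) (nat_lit 288))))) (PT.nd (nat_lit 312) (PT.nd (nat_lit 156) (PT.nd (nat_lit 78) (PT.lf (nat_lit 17480) (nat_lit 6) (nat_lit 230) (nat_lit 5) (nat_lit 214) (nat_lit 279) (nat_lit 287)) (PT.lf (nat_lit 18088) (nat_lit 6) (nat_lit 238) (nat_lit 5) (nat_lit 215) (nat_lit 279) (nat_lit 286))) (PT.nd (nat_lit 78) (PT.lf (nat_lit 18696) (nat_lit 6) (nat_lit 246) (nat_lit 5) (nat_lit 216) (nat_lit 279) (nat_lit 285)) (PT.lf (nat_lit 19380) (nat_lit 6) (nat_lit 255) (nat_lit 5) (nat_lit 217) (nat_lit 279) (nat_lit 284)))) (PT.nd (nat_lit 156) (PT.nd (nat_lit 78) (PT.lf (nat_lit 19988) (nat_lit 6) (nat_lit 263) (nat_lit 5) (nat_lit 218) (nat_lit 279) (nat_lit 283)) (PT.lf (nat_lit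 20672) (nat_lit 6) (nat_lit 272) (nat_lit 5) (nat_lit 219) (nat_lit 279) (nat_lit 282))) (PT.nd (nat_lit 78) (PT.lf (nat_lit 21356) (nat_lit 6) (nat_lit 281) (nat_lit 5) (nat_lit 220) (nat_lit 279) (nat_lit 281)) (PT.lf (nat_lit 22116) (nat_lit 6) (nat_lit 291) (nat_lit 5) (nat_lit 221) (nat_lit 279) (nat_lit 280)))))) (PT.nd (nat_lit 546) (PT.nd (nat_lit 234) (PT.nd (nat_lit 78) (PT.lf (nat_lit 22800) (nat_lit 3) (nat_lit 300) (nat_lit 4) (nat_lit 222) (nat_lit 279) (nat_lit 279)) (PT.nd (nat_lit 78) (PT.lf (nat_lit 23484) (nat_lit 6) (nat_lit 309) (nat_lit 4) (nat_lit 223) (nat_lit 279) (nat_lit 278)) (PT.lf (nat_lit 24168) (nat_lit 6) (nat_lit 318) (nat_lit 4) (nat_lit 224) (nat_lit 279) (nat_lit 277)))) (PT.nd (nat_lit 156) (PT.nd (nat_lit 78) (PT.lf (nat_lit 24928) (nat_lit 6) (nat_lit 328) (nat_lit 4) (nat_lit 225) (nat_lit 279) (nat_lit 276)) (PT.lf (nat_lit 25612) (nat_lit 6) (nat_lit 337) (nat_lit 4) (nat_lit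 226) (nat_lit 279) (nat_lit 275))) (PT.nd (nat_lit 78) (PT.lf (nat_lit 26372) (nat_lit 6) (nat_lit 347) (nat_lit 4) (nat_lit 227) (nat_lit 279) (nat_lit 274)) (PT.lf (nat_lit 27132) (nat_lit 6) (nat_lit 357) (nat_lit 4) (nat_lit 228) (nat_lit 279) (nat_lit 273))))) (PT.nd (nat_lit 312) (PT.nd (nat_lit 156) (PT.nd (nat_lit 78) (PT.lf (nat_lit 27968) (nat_lit 6) (nat_lit 368) (nat_lit 4) (nat_lit 229) (nat_lit 279) (nat_lit 272)) (PT.lf (nat_lit 28728) (nat_lit 6) (nat_lit 378) (nat_lit 4) (nat_lit 230) (nat_lit 279) (nat_lit 271))) (PT.nd (nat_lit 78) (PT.lf (nat_lit 29564) (nat_lit 6) (nat_lit 389) (nat_lit 4) (nat_lit 231) (nat_lit 279) (nat_lit 270)) (PT.lf (nat_lit 30400) (nat_lit 6) (nat_lit 400) (nat_lit 4) (nat_lit 232) (nat_lit 279) (nat_lit 269)))) (PT.nd (nat_lit 156) (PT.nd (nat_lit 78) (PT.lf (nat_lit 31312) (nat_lit 6) (nat_lit 412) (nat_lit 4) (nat_lit 233) (nat_lit 279) (nat_lit 268)) (PT.lf (nat_lit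 32224) (nat_lit 6) (nat_lit 424) (nat_lit 4) (nat_lit 234) (nat_lit 279) (nat_lit 267))) (PT.nd (nat_lit 78) (PT.lf (nat_lit 33212) (nat_lit 6) (nat_lit 437) (nat_lit 4) (nat_lit 235) (nat_lit 279) (nat_lit 266)) (PT.lf (nat_lit 34884) (nat_lit 6) (nat_lit 459) (nat_lit 4) (nat_lit 236) (nat_lit 279) (nat_lit 265))))))) (PT.nd (nat_lit 1170) (PT.nd (nat_lit 546) (PT.nd (nat_lit 234) (PT.nd (nat_lit 78) (PT.lf (nat_lit 36632) (nat_lit 6) (nat_lit 482) (nat_lit 4) (nat_lit 237) (nat_lit 279) (nat_lit 264)) (PT.nd (nat_lit 78) (PT.lf (nat_lit 38304) (nat_lit 6) (nat_lit 504) (nat_lit 4) (nat_lit 238) (nat_lit 279) (nat_lit 263)) (PT.lf (nat_lit 39900) (nat_lit 6) (nat_lit 525) (nat_lit 4) (nat_lit 239) (nat_lit 279) (nat_lit 262)))) (PT.nd (nat_lit 156) (PT.nd (nat_lit 78) (PT.lf (nat_lit 41420) (nat_lit 6) (nat_lit 545) (nat_lit 4) (nat_lit 240) (nat_lit 279) (nat_lit 261)) (PT.lf (nat_lit 42864) (nat_lit 6) (nat_lit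 564) (nat_lit 4) (nat_lit 241) (nat_lit 279) (nat_lit 260))) (PT.nd (nat_lit 78) (PT.lf (nat_lit 42788) (nat_lit 6) (nat_lit 563) (nat_lit 4) (nat_lit 242) (nat_lit 279) (nat_lit 259)) (PT.lf (nat_lit 42712) (nat_lit 6) (nat_lit 562) (nat_lit 4) (nat_lit 243) (nat_lit 279) (nat_lit 258))))) (PT.nd (nat_lit 312) (PT.nd (nat_lit 156) (PT.nd (nat_lit 78) (PT.lf (nat_lit 42636) (nat_lit 6) (nat_lit 561) (nat_lit 4) (nat_lit 244) (nat_lit 279) (nat_lit 257)) (PT.lf (nat_lit 42560) (nat_lit 6) (nat_lit 560) (nat_lit 4) (nat_lit 245) (nat_lit 279) (nat_lit 256))) (PT.nd (nat_lit 78) (PT.lf (nat_lit 42484) (nat_lit 6) (nat_lit 559) (nat_lit 4) (nat_lit 246) (nat_lit 279) (nat_lit 255)) (PT.lf (nat_lit 42408) (nat_lit 6) (nat_lit 558) (nat_lit 4) (nat_lit 247) (nat_lit 279) (nat_lit 254)))) (PT.nd (nat_lit 156) (PT.nd (nat_lit 78) (PT.lf (nat_lit 42332) (nat_lit 6) (nat_lit 557) (nat_lit 4) (nat_lit 248) (nat_lit 279) (nat_lit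 253)) (PT.lf (nat_lit 42256) (nat_lit 6) (nat_lit 556) (nat_lit 4) (nat_lit 249) (nat_lit 279) (nat_lit 252))) (PT.nd (nat_lit 78) (PT.lf (nat_lit 42180) (nat_lit 6) (nat_lit 555) (nat_lit 4) (nat_lit 250) (nat_lit 279) (nat_lit 251)) (PT.lf (nat_lit 42180) (nat_lit 6) (nat_lit 555) (nat_lit 2) (nat_lit 251) (nat_lit 279) (nat_lit 250)))))) (PT.nd (nat_lit 546) (PT.nd (nat_lit 234) (PT.nd (nat_lit 78) (PT.lf (nat_lit 42256) (nat_lit 6) (nat_lit 556) (nat_lit 2) (nat_lit 252) (nat_lit 279) (nat_lit 249)) (PT.nd (nat_lit 78) (PT.lf (nat_lit 42332) (nat_lit 6) (nat_lit 557) (nat_lit 2) (nat_lit 253) (nat_lit 279) (nat_lit 248)) (PT.lf (nat_lit 42408) (nat_lit 6) (nat_lit 558) (nat_lit 2) (nat_lit 254) (nat_lit 279) (nat_lit 247)))) (PT.nd (nat_lit 156) (PT.nd (nat_lit 78) (PT.lf (nat_lit 42484) (nat_lit 6) (nat_lit 559) (nat_lit 2) (nat_lit 255) (nat_lit 279) (nat_lit 246)) (PT.lf (nat_lit 42560) (nat_lit 6) (nat_lit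 560) (nat_lit 2) (nat_lit 256) (nat_lit 279) (nat_lit 245))) (PT.nd (nat_lit 78) (PT.lf (nat_lit 42636) (nat_lit 6) (nat_lit 561) (nat_lit 2) (nat_lit 257) (nat_lit 279) (nat_lit 244)) (PT.lf (nat_lit 42712) (nat_lit 6) (nat_lit 562) (nat_lit 2) (nat_lit 258) (nat_lit 279) (nat_lit 243))))) (PT.nd (nat_lit 312) (PT.nd (nat_lit 156) (PT.nd (nat_lit 78) (PT.lf (nat_lit 42788) (nat_lit 6) (nat_lit 563) (nat_lit 2) (nat_lit 259) (nat_lit 279) (nat_lit 242)) (PT.lf (nat_lit 42864) (nat_lit 6) (nat_lit 564) (nat_lit 2) (nat_lit 260) (nat_lit 279) (nat_lit 241))) (PT.nd (nat_lit 78) (PT.lf (nat_lit 41420) (nat_lit 6) (nat_lit 545) (nat_lit 2) (nat_lit 261) (nat_lit 279) (nat_lit 240)) (PT.lf (nat_lit 39900) (nat_lit 6) (nat_lit 525) (nat_lit 2) (nat_lit 262) (nat_lit 279) (nat_lit 239)))) (PT.nd (nat_lit 156) (PT.nd (nat_lit 78) (PT.lf (nat_lit 38304) (nat_lit 6) (nat_lit 504) (nat_lit 2) (nat_lit 263) (nat_lit 279) (nat_lit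 238)) (PT.lf (nat_lit 36632) (nat_lit 6) (nat_lit 482) (nat_lit 2) (nat_lit 264) (nat_lit 279) (nat_lit 237))) (PT.nd (nat_lit 78) (PT.lf (nat_lit 34884) (nat_lit 6) (nat_lit 459) (nat_lit 2) (nat_lit 265) (nat_lit 279) (nat_lit 236)) (PT.lf (nat_lit 33212) (nat_lit 6) (nat_lit 437) (nat_lit 2) (nat_lit 266) (nat_lit 279) (nat_lit 235))))))))
noncomputable def pc47 : PT := (PT.nd (nat_lit 77064) (PT.nd (nat_lit 1170) (PT.nd (nat_lit 546) (PT.nd (nat_lit 234) (PT.nd (nat_lit 78) (PT.lf (nat_lit 32224) (nat_lit 6) (nat_lit 424) (nat_lit 2) (nat_lit 267) (nat_lit 279) (nat_lit 234)) (PT.nd (nat_lit 78) (PT.lf (nat_lit 31312) (nat_lit 6) (nat_lit 412) (nat_lit 2) (nat_lit 268) (nat_lit 279) (nat_lit 233)) (PT.lf (nat_lit 30400) (nat_lit 6) (nat_lit 400) (nat_lit 2) (nat_lit 269) (nat_lit 279) (nat_lit 232)))) (PT.nd (nat_lit 156) (PT.nd (nat_lit 78) (PT.lf (nat_lit 29564) (nat_lit 6) (nat_lit 389) (nat_lit 2) (nat_lit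 270) (nat_lit 279) (nat_lit 231)) (PT.lf (nat_lit 28728) (nat_lit 6) (nat_lit 378) (nat_lit 2) (nat_lit 271) (nat_lit 279) (nat_lit 230))) (PT.nd (nat_lit 78) (PT.lf (nat_lit 27968) (nat_lit 6) (nat_lit 368) (nat_lit 2) (nat_lit 272) (nat_lit 279) (nat_lit 229)) (PT.lf (nat_lit 27132) (nat_lit 6) (nat_lit 357) (nat_lit 2) (nat_lit 273) (nat_lit 279) (nat_lit 228))))) (PT.nd (nat_lit 312) (PT.nd (nat_lit 156) (PT.nd (nat_lit 78) (PT.lf (nat_lit 26372) (nat_lit 6) (nat_lit 347) (nat_lit 2) (nat_lit 274) (nat_lit 279) (nat_lit 227)) (PT.lf (nat_lit 25612) (nat_lit 6) (nat_lit 337) (nat_lit 2) (nat_lit 275) (nat_lit 279) (nat_lit 226))) (PT.nd (nat_lit 78) (PT.lf (nat_lit 24928) (nat_lit 6) (nat_lit 328) (nat_lit 2) (nat_lit 276) (nat_lit 279) (nat_lit 225)) (PT.lf (nat_lit 24168) (nat_lit 6) (nat_lit 318) (nat_lit 2) (nat_lit 277) (nat_lit 279) (nat_lit 224)))) (PT.nd (nat_lit 156) (PT.nd (nat_lit 78) (PT.lf (nat_lit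 23484) (nat_lit 6) (nat_lit 309) (nat_lit 2) (nat_lit 278) (nat_lit 279) (nat_lit 223)) (PT.lf (nat_lit 22800) (nat_lit 3) (nat_lit 300) (nat_lit 0) (nat_lit 279) (nat_lit 279) (nat_lit 222))) (PT.nd (nat_lit 78) (PT.lf (nat_lit 22116) (nat_lit 6) (nat_lit 291) (nat_lit 0) (nat_lit 280) (nat_lit 279) (nat_lit 221)) (PT.lf (nat_lit 21356) (nat_lit 6) (nat_lit 281) (nat_lit 0) (nat_lit 281) (nat_lit 279) (nat_lit 220)))))) (PT.nd (nat_lit 546) (PT.nd (nat_lit 234) (PT.nd (nat_lit 78) (PT.lf (nat_lit 20672) (nat_lit 6) (nat_lit 272) (nat_lit 0) (nat_lit 282) (nat_lit 279) (nat_lit 219)) (PT.nd (nat_lit 78) (PT.lf (nat_lit 19988) (nat_lit 6) (nat_lit 263) (nat_lit 0) (nat_lit 283) (nat_lit 279) (nat_lit 218)) (PT.lf (nat_lit 19380) (nat_lit 6) (nat_lit 255) (nat_lit 0) (nat_lit 284) (nat_lit 279) (nat_lit 217)))) (PT.nd (nat_lit 156) (PT.nd (nat_lit 78) (PT.lf (nat_lit 18696) (nat_lit 6) (nat_lit 246) (nat_lit 0) (nat_lit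 285) (nat_lit 279) (nat_lit 216)) (PT.lf (nat_lit 18088) (nat_lit 6) (nat_lit 238) (nat_lit 0) (nat_lit 286) (nat_lit 279) (nat_lit 215))) (PT.nd (nat_lit 78) (PT.lf (nat_lit 17480) (nat_lit 6) (nat_lit 230) (nat_lit 0) (nat_lit 287) (nat_lit 279) (nat_lit 214)) (PT.lf (nat_lit 16872) (nat_lit 6) (nat_lit 222) (nat_lit 0) (nat_lit 288) (nat_lit 279) (nat_lit 213))))) (PT.nd (nat_lit 75036) (PT.nd (nat_lit 156) (PT.nd (nat_lit 78) (PT.lf (nat_lit 16264) (nat_lit 6) (nat_lit 214) (nat_lit 0) (nat_lit 289) (nat_lit 279) (nat_lit 212)) (PT.lf (nat_lit 15732) (nat_lit 6) (nat_lit 207) (nat_lit 0) (nat_lit 290) (nat_lit 279) (nat_lit 211))) (PT.nd (nat_lit 74802) (PT.lf (nat_lit 15124) (nat_lit 6) (nat_lit 199) (nat_lit 0) (nat_lit 291) (nat_lit 279) (nat_lit 210)) (PT.lf (nat_lit 14668) (nat_lit 6) (nat_lit 193) (nat_lit 5) (nat_lit 209) (nat_lit 280) (nat_lit 291)))) (PT.nd (nat_lit 156) (PT.nd (nat_lit 78) (PT.lf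 (nat_lit 15200) (nat_lit 6) (nat_lit 200) (nat_lit 5) (nat_lit 210) (nat_lit 280) (nat_lit 290)) (PT.lf (nat_lit 15808) (nat_lit 6) (nat_lit 208) (nat_lit 5) (nat_lit 211) (nat_lit 280) (nat_lit 289))) (PT.nd (nat_lit 78) (PT.lf (nat_lit 16340) (nat_lit 6) (nat_lit 215) (nat_lit 5) (nat_lit 212) (nat_lit 280) (nat_lit 288)) (PT.lf (nat_lit 16948) (nat_lit 6) (nat_lit 223) (nat_lit 5) (nat_lit 213) (nat_lit 280) (nat_lit 287))))))) (PT.nd (nat_lit 1170) (PT.nd (nat_lit 546) (PT.nd (nat_lit 234) (PT.nd (nat_lit 78) (PT.lf (nat_lit 17556) (nat_lit 6) (nat_lit 231) (nat_lit 5) (nat_lit 214) (nat_lit 280) (nat_lit 286)) (PT.nd (nat_lit 78) (PT.lf (nat_lit 18164) (nat_lit 6) (nat_lit 239) (nat_lit 5) (nat_lit 215) (nat_lit 280) (nat_lit 285)) (PT.lf (nat_lit 18772) (nat_lit 6) (nat_lit 247) (nat_lit 5) (nat_lit 216) (nat_lit 280) (nat_lit 284)))) (PT.nd (nat_lit 156) (PT.nd (nat_lit 78) (PT.lf (nat_lit 19456) (nat_lit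 6) (nat_lit 256) (nat_lit 5) (nat_lit 217) (nat_lit 280) (nat_lit 283)) (PT.lf (nat_lit 20064) (nat_lit 6) (nat_lit 264) (nat_lit 5) (nat_lit 218) (nat_lit 280) (nat_lit 282))) (PT.nd (nat_lit 78) (PT.lf (nat_lit 20748) (nat_lit 6) (nat_lit 273) (nat_lit 5) (nat_lit 219) (nat_lit 280) (nat_lit 281)) (PT.lf (nat_lit 21432) (nat_lit 3) (nat_lit 282) (nat_lit 4) (nat_lit 220) (nat_lit 280) (nat_lit 280))))) (PT.nd (nat_lit 312) (PT.nd (nat_lit 156) (PT.nd (nat_lit 78) (PT.lf (nat_lit 22116) (nat_lit 6) (nat_lit 291) (nat_lit 4) (nat_lit 221) (nat_lit 280) (nat_lit 279)) (PT.lf (nat_lit 22724) (nat_lit 6) (nat_lit 299) (nat_lit 4) (nat_lit 222) (nat_lit 280) (nat_lit 278))) (PT.nd (nat_lit 78) (PT.lf (nat_lit 23408) (nat_lit 6) (nat_lit 308) (nat_lit 4) (nat_lit 223) (nat_lit 280) (nat_lit 277)) (PT.lf (nat_lit 24092) (nat_lit 6) (nat_lit 317) (nat_lit 4) (nat_lit 224) (nat_lit 280) (nat_lit 276)))) (PT.nd (nat_lit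 156) (PT.nd (nat_lit 78) (PT.lf (nat_lit 24852) (nat_lit 6) (nat_lit 327) (nat_lit 4) (nat_lit 225) (nat_lit 280) (nat_lit 275)) (PT.lf (nat_lit 25536) (nat_lit 6) (nat_lit 336) (nat_lit 4) (nat_lit 226) (nat_lit 280) (nat_lit 274))) (PT.nd (nat_lit 78) (PT.lf (nat_lit 26296) (nat_lit 6) (nat_lit 346) (nat_lit 4) (nat_lit 227) (nat_lit 280) (nat_lit 273)) (PT.lf (nat_lit 27056) (nat_lit 6) (nat_lit 356) (nat_lit 4) (nat_lit 228) (nat_lit 280) (nat_lit 272)))))) (PT.nd (nat_lit 624) (PT.nd (nat_lit 312) (PT.nd (nat_lit 156) (PT.nd (nat_lit 78) (PT.lf (nat_lit 27892) (nat_lit 6) (nat_lit 367) (nat_lit 4) (nat_lit 229) (nat_lit 280) (nat_lit 271)) (PT.lf (nat_lit 28652) (nat_lit 6) (nat_lit 377) (nat_lit 4) (nat_lit 230) (nat_lit 280) (nat_lit 270))) (PT.nd (nat_lit 78) (PT.lf (nat_lit 29488) (nat_lit 6) (nat_lit 388) (nat_lit 4) (nat_lit 231) (nat_lit 280) (nat_lit 269)) (PT.lf (nat_lit 30324) (nat_lit 6) (nat_lit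 399) (nat_lit 4) (nat_lit 232) (nat_lit 280) (nat_lit 268)))) (PT.nd (nat_lit 156) (PT.nd (nat_lit 78) (PT.lf (nat_lit 31236) (nat_lit 6) (nat_lit 411) (nat_lit 4) (nat_lit 233) (nat_lit 280) (nat_lit 267)) (PT.lf (nat_lit 32148) (nat_lit 6) (nat_lit 423) (nat_lit 4) (nat_lit 234) (nat_lit 280) (nat_lit 266))) (PT.nd (nat_lit 78) (PT.lf (nat_lit 33136) (nat_lit 6) (nat_lit 436) (nat_lit 4) (nat_lit 235) (nat_lit 280) (nat_lit 265)) (PT.lf (nat_lit 34808) (nat_lit 6) (nat_lit 458) (nat_lit 4) (nat_lit 236) (nat_lit 280) (nat_lit 264))))) (PT.nd (nat_lit 312) (PT.nd (nat_lit 156) (PT.nd (nat_lit 78) (PT.lf (nat_lit 36556) (nat_lit 6) (nat_lit 481) (nat_lit 4) (nat_lit 237) (nat_lit 280) (nat_lit 263)) (PT.lf (nat_lit 38228) (nat_lit 6) (nat_lit 503) (nat_lit 4) (nat_lit 238) (nat_lit 280) (nat_lit 262))) (PT.nd (nat_lit 78) (PT.lf (nat_lit 39824) (nat_lit 6) (nat_lit 524) (nat_lit 4) (nat_lit 239) (nat_lit 280) (nat_lit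 261)) (PT.lf (nat_lit 41344) (nat_lit 6) (nat_lit 544) (nat_lit 4) (nat_lit 240) (nat_lit 280) (nat_lit 260)))) (PT.nd (nat_lit 156) (PT.nd (nat_lit 78) (PT.lf (nat_lit 41268) (nat_lit 6) (nat_lit 543) (nat_lit 4) (nat_lit 241) (nat_lit 280) (nat_lit 259)) (PT.lf (nat_lit 41192) (nat_lit 6) (nat_lit 542) (nat_lit 4) (nat_lit 242) (nat_lit 280) (nat_lit 258))) (PT.nd (nat_lit 78) (PT.lf (nat_lit 41116) (nat_lit 6) (nat_lit 541) (nat_lit 4) (nat_lit 243) (nat_lit 280) (nat_lit 257)) (PT.lf (nat_lit 41040) (nat_lit 6) (nat_lit 540) (nat_lit 4) (nat_lit 244) (nat_lit 280) (nat_lit 256))))))))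
noncomputable def pc48 : PT := (PT.nd (nat_lit 2340) (PT.nd (nat_lit 1170) (PT.nd (nat_lit 546) (PT.nd (nat_lit 234) (PT.nd (nat_lit 78) (PT.lf (nat_lit 40964) (nat_lit 6) (nat_lit 539) (nat_lit 4) (nat_lit 245) (nat_lit 280) (nat_lit 255)) (PT.nd (nat_lit 78) (PT.lf (nat_lit 40888) (nat_lit 6) (nat_lit 538) (nat_lit 4) (nat_lit 246) (nat_lit 280) (nat_lit 254)) (PT.lf (nat_lit 40812) (nat_lit 6) (nat_lit 537) (nat_lit 4) (nat_lit 247) (nat_lit 280) (nat_lit 253)))) (PT.nd (nat_lit 156) (PT.nd (nat_lit 78) (PT.lf (nat_lit 40736) (nat_lit 6) (nat_lit 536) (nat_lit 4) (nat_lit 248) (nat_lit 280) (nat_lit 252)) (PT.lf (nat_lit 40660) (nat_lit 6) (nat_lit 535) (nat_lit 4) (nat_lit 249) (nat_lit 280) (nat_lit 251))) (PT.nd (nat_lit 78) (PT.lf (nat_lit 40584) (nat_lit 3) (nat_lit 534) (nat_lit 2) (nat_lit 250) (nat_lit 280) (nat_lit 250)) (PT.lf (nat_lit 40660) (nat_lit 6) (nat_lit 535) (nat_lit 2) (nat_lit 251) (nat_lit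 280) (nat_lit 249))))) (PT.nd (nat_lit 312) (PT.nd (nat_lit 156) (PT.nd (nat_lit 78) (PT.lf (nat_lit 40736) (nat_lit 6) (nat_lit 536) (nat_lit 2) (nat_lit 252) (nat_lit 280) (nat_lit 248)) (PT.lf (nat_lit 40812) (nat_lit 6) (nat_lit 537) (nat_lit 2) (nat_lit 253) (nat_lit 280) (nat_lit 247))) (PT.nd (nat_lit 78) (PT.lf (nat_lit 40888) (nat_lit 6) (nat_lit 538) (nat_lit 2) (nat_lit 254) (nat_lit 280) (nat_lit 246)) (PT.lf (nat_lit 40964) (nat_lit 6) (nat_lit 539) (nat_lit 2) (nat_lit 255) (nat_lit 280) (nat_lit 245)))) (PT.nd (nat_lit 156) (PT.nd (nat_lit 78) (PT.lf (nat_lit 41040) (nat_lit 6) (nat_lit 540) (nat_lit 2) (nat_lit 256) (nat_lit 280) (nat_lit 244)) (PT.lf (nat_lit 41116) (nat_lit 6) (nat_lit 541) (nat_lit 2) (nat_lit 257) (nat_lit 280) (nat_lit 243))) (PT.nd (nat_lit 78) (PT.lf (nat_lit 41192) (nat_lit 6) (nat_lit 542) (nat_lit 2) (nat_lit 258) (nat_lit 280) (nat_lit 242)) (PT.lf (nat_lit 41268) (nat_lit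 6) (nat_lit 543) (nat_lit 2) (nat_lit 259) (nat_lit 280) (nat_lit 241)))))) (PT.nd (nat_lit 546) (PT.nd (nat_lit 234) (PT.nd (nat_lit 78) (PT.lf (nat_lit 41344) (nat_lit 6) (nat_lit 544) (nat_lit 2) (nat_lit 260) (nat_lit 280) (nat_lit 240)) (PT.nd (nat_lit 78) (PT.lf (nat_lit 39824) (nat_lit 6) (nat_lit 524) (nat_lit 2) (nat_lit 261) (nat_lit 280) (nat_lit 239)) (PT.lf (nat_lit 38228) (nat_lit 6) (nat_lit 503) (nat_lit 2) (nat_lit 262) (nat_lit 280) (nat_lit 238)))) (PT.nd (nat_lit 156) (PT.nd (nat_lit 78) (PT.lf (nat_lit 36556) (nat_lit 6) (nat_lit 481) (nat_lit 2) (nat_lit 263) (nat_lit 280) (nat_lit 237)) (PT.lf (nat_lit 34808) (nat_lit 6) (nat_lit 458) (nat_lit 2) (nat_lit 264) (nat_lit 280) (nat_lit 236))) (PT.nd (nat_lit 78) (PT.lf (nat_lit 33136) (nat_lit 6) (nat_lit 436) (nat_lit 2) (nat_lit 265) (nat_lit 280) (nat_lit 235)) (PT.lf (nat_lit 32148) (nat_lit 6) (nat_lit 423) (nat_lit 2) (nat_lit 266) (nat_lit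 280) (nat_lit 234))))) (PT.nd (nat_lit 312) (PT.nd (nat_lit 156) (PT.nd (nat_lit 78) (PT.lf (nat_lit 31236) (nat_lit 6) (nat_lit 411) (nat_lit 2) (nat_lit 267) (nat_lit 280) (nat_lit 233)) (PT.lf (nat_lit 30324) (nat_lit 6) (nat_lit 399) (nat_lit 2) (nat_lit 268) (nat_lit 280) (nat_lit 232))) (PT.nd (nat_lit 78) (PT.lf (nat_lit 29488) (nat_lit 6) (nat_lit 388) (nat_lit 2) (nat_lit 269) (nat_lit 280) (nat_lit 231)) (PT.lf (nat_lit 28652) (nat_lit 6) (nat_lit 377) (nat_lit 2) (nat_lit 270) (nat_lit 280) (nat_lit 230)))) (PT.nd (nat_lit 156) (PT.nd (nat_lit 78) (PT.lf (nat_lit 27892) (nat_lit 6) (nat_lit 367) (nat_lit 2) (nat_lit 271) (nat_lit 280) (nat_lit 229)) (PT.lf (nat_lit 27056) (nat_lit 6) (nat_lit 356) (nat_lit 2) (nat_lit 272) (nat_lit 280) (nat_lit 228))) (PT.nd (nat_lit 78) (PT.lf (nat_lit 26296) (nat_lit 6) (nat_lit 346) (nat_lit 2) (nat_lit 273) (nat_lit 280) (nat_lit 227)) (PT.lf (nat_lit 25536) (nat_lit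 6) (nat_lit 336) (nat_lit 2) (nat_lit 274) (nat_lit 280) (nat_lit 226))))))) (PT.nd (nat_lit 1170) (PT.nd (nat_lit 546) (PT.nd (nat_lit 234) (PT.nd (nat_lit 78) (PT.lf (nat_lit 24852) (nat_lit 6) (nat_lit 327) (nat_lit 2) (nat_lit 275) (nat_lit 280) (nat_lit 225)) (PT.nd (nat_lit 78) (PT.lf (nat_lit 24092) (nat_lit 6) (nat_lit 317) (nat_lit 2) (nat_lit 276) (nat_lit 280) (nat_lit 224)) (PT.lf (nat_lit 23408) (nat_lit 6) (nat_lit 308) (nat_lit 2) (nat_lit 277) (nat_lit 280) (nat_lit 223)))) (PT.nd (nat_lit 156) (PT.nd (nat_lit 78) (PT.lf (nat_lit 22724) (nat_lit 6) (nat_lit 299) (nat_lit 2) (nat_lit 278) (nat_lit 280) (nat_lit 222)) (PT.lf (nat_lit 22116) (nat_lit 6) (nat_lit 291) (nat_lit 2) (nat_lit 279) (nat_lit 280) (nat_lit 221))) (PT.nd (nat_lit 78) (PT.lf (nat_lit 21432) (nat_lit 3) (nat_lit 282) (nat_lit 0) (nat_lit 280) (nat_lit 280) (nat_lit 220)) (PT.lf (nat_lit 20748) (nat_lit 6) (nat_lit 273) (nat_lit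 0) (nat_lit 281) (nat_lit 280) (nat_lit 219))))) (PT.nd (nat_lit 312) (PT.nd (nat_lit 156) (PT.nd (nat_lit 78) (PT.lf (nat_lit 20064) (nat_lit 6) (nat_lit 264) (nat_lit 0) (nat_lit 282) (nat_lit 280) (nat_lit 218)) (PT.lf (nat_lit 19456) (nat_lit 6) (nat_lit 256) (nat_lit 0) (nat_lit 283) (nat_lit 280) (nat_lit 217))) (PT.nd (nat_lit 78) (PT.lf (nat_lit 18772) (nat_lit 6) (nat_lit 247) (nat_lit 0) (nat_lit 284) (nat_lit 280) (nat_lit 216)) (PT.lf (nat_lit 18164) (nat_lit 6) (nat_lit 239) (nat_lit 0) (nat_lit 285) (nat_lit 280) (nat_lit 215)))) (PT.nd (nat_lit 156) (PT.nd (nat_lit 78) (PT.lf (nat_lit 17556) (nat_lit 6) (nat_lit 231) (nat_lit 0) (nat_lit 286) (nat_lit 280) (nat_lit 214)) (PT.lf (nat_lit 16948) (nat_lit 6) (nat_lit 223) (nat_lit 0) (nat_lit 287) (nat_lit 280) (nat_lit 213))) (PT.nd (nat_lit 78) (PT.lf (nat_lit 16340) (nat_lit 6) (nat_lit 215) (nat_lit 0) (nat_lit 288) (nat_lit 280) (nat_lit 212))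 (PT.lf (nat_lit 15808) (nat_lit 6) (nat_lit 208) (nat_lit 0) (nat_lit 289) (nat_lit 280) (nat_lit 211)))))) (PT.nd (nat_lit 75114) (PT.nd (nat_lit 74802) (PT.nd (nat_lit 78) (PT.lf (nat_lit 15200) (nat_lit 6) (nat_lit 200) (nat_lit 0) (nat_lit 290) (nat_lit 280) (nat_lit 210)) (PT.nd (nat_lit 74646) (PT.lf (nat_lit 14668) (nat_lit 6) (nat_lit 193) (nat_lit 0) (nat_lit 291) (nat_lit 280) (nat_lit 209)) (PT.lf (nat_lit 13680) (nat_lit 6) (nat_lit 180) (nat_lit 5) (nat_lit 207) (nat_lit 281) (nat_lit 292)))) (PT.nd (nat_lit 156) (PT.nd (nat_lit 78) (PT.lf (nat_lit 14212) (nat_lit 6) (nat_lit 187) (nat_lit 5) (nat_lit 208) (nat_lit 281) (nat_lit 291)) (PT.lf (nat_lit 14744) (nat_lit 6) (nat_lit 194) (nat_lit 5) (nat_lit 209) (nat_lit 281) (nat_lit 290))) (PT.nd (nat_lit 78) (PT.lf (nat_lit 15276) (nat_lit 6) (nat_lit 201) (nat_lit 5) (nat_lit 210) (nat_lit 281) (nat_lit 289)) (PT.lf (nat_lit 15884) (nat_lit 6) (nat_lit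 209) (nat_lit 5) (nat_lit 211) (nat_lit 281) (nat_lit 288))))) (PT.nd (nat_lit 312) (PT.nd (nat_lit 156) (PT.nd (nat_lit 78) (PT.lf (nat_lit 16416) (nat_lit 6) (nat_lit 216) (nat_lit 5) (nat_lit 212) (nat_lit 281) (nat_lit 287)) (PT.lf (nat_lit 17024) (nat_lit 6) (nat_lit 224) (nat_lit 5) (nat_lit 213) (nat_lit 281) (nat_lit 286))) (PT.nd (nat_lit 78) (PT.lf (nat_lit 17632) (nat_lit 6) (nat_lit 232) (nat_lit 5) (nat_lit 214) (nat_lit 281) (nat_lit 285)) (PT.lf (nat_lit 18240) (nat_lit 6) (nat_lit 240) (nat_lit 5) (nat_lit 215) (nat_lit 281) (nat_lit 284)))) (PT.nd (nat_lit 156) (PT.nd (nat_lit 78) (PT.lf (nat_lit 18848) (nat_lit 6) (nat_lit 248) (nat_lit 5) (nat_lit 216) (nat_lit 281) (nat_lit 283)) (PT.lf (nat_lit 19532) (nat_lit 6) (nat_lit 257) (nat_lit 5) (nat_lit 217) (nat_lit 281) (nat_lit 282))) (PT.nd (nat_lit 78) (PT.lf (nat_lit 20140) (nat_lit 3) (nat_lit 265) (nat_lit 4) (nat_lit 218) (nat_lit 281) (nat_lit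 281)) (PT.lf (nat_lit 20748) (nat_lit 6) (nat_lit 273) (nat_lit 4) (nat_lit 219) (nat_lit 281) (nat_lit 280))))))))
noncomputable def pc49 : PT := (PT.nd (nat_lit 2340) (PT.nd (nat_lit 1170) (PT.nd (nat_lit 546) (PT.nd (nat_lit 234) (PT.nd (nat_lit 78) (PT.lf (nat_lit 21356) (nat_lit 6) (nat_lit 281) (nat_lit 4) (nat_lit 220) (nat_lit 281) (nat_lit 279)) (PT.nd (nat_lit 78) (PT.lf (nat_lit 22040) (nat_lit 6) (nat_lit 290) (nat_lit 4) (nat_lit 221) (nat_lit 281) (nat_lit 278)) (PT.lf (nat_lit 22648) (nat_lit 6) (nat_lit 298) (nat_lit 4) (nat_lit 222) (nat_lit 281) (nat_lit 277)))) (PT.nd (nat_lit 156) (PT.nd (nat_lit 78) (PT.lf (nat_lit 23332) (nat_lit 6) (nat_lit 307) (nat_lit 4) (nat_lit 223) (nat_lit 281) (nat_lit 276)) (PT.lf (nat_lit 24016) (nat_lit 6) (nat_lit 316) (nat_lit 4) (nat_lit 224) (nat_lit 281) (nat_lit 275))) (PT.nd (nat_lit 78) (PT.lf (nat_lit 24776) (nat_lit 6) (nat_lit 326) (nat_lit 4) (nat_lit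 225) (nat_lit 281) (nat_lit 274)) (PT.lf (nat_lit 25460) (nat_lit 6) (nat_lit 335) (nat_lit 4) (nat_lit 226) (nat_lit 281) (nat_lit 273))))) (PT.nd (nat_lit 312) (PT.nd (nat_lit 156) (PT.nd (nat_lit 78) (PT.lf (nat_lit 26220) (nat_lit 6) (nat_lit 345) (nat_lit 4) (nat_lit 227) (nat_lit 281) (nat_lit 272)) (PT.lf (nat_lit 26980) (nat_lit 6) (nat_lit 355) (nat_lit 4) (nat_lit 228) (nat_lit 281) (nat_lit 271))) (PT.nd (nat_lit 78) (PT.lf (nat_lit 27816) (nat_lit 6) (nat_lit 366) (nat_lit 4) (nat_lit 229) (nat_lit 281) (nat_lit 270)) (PT.lf (nat_lit 28576) (nat_lit 6) (nat_lit 376) (nat_lit 4) (nat_lit 230) (nat_lit 281) (nat_lit 269)))) (PT.nd (nat_lit 156) (PT.nd (nat_lit 78) (PT.lf (nat_lit 29412) (nat_lit 6) (nat_lit 387) (nat_lit 4) (nat_lit 231) (nat_lit 281) (nat_lit 268)) (PT.lf (nat_lit 30248) (nat_lit 6) (nat_lit 398) (nat_lit 4) (nat_lit 232) (nat_lit 281) (nat_lit 267))) (PT.nd (nat_lit 78) (PT.lf (nat_lit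 31160) (nat_lit 6) (nat_lit 410) (nat_lit 4) (nat_lit 233) (nat_lit 281) (nat_lit 266)) (PT.lf (nat_lit 32072) (nat_lit 6) (nat_lit 422) (nat_lit 4) (nat_lit 234) (nat_lit 281) (nat_lit 265)))))) (PT.nd (nat_lit 546) (PT.nd (nat_lit 234) (PT.nd (nat_lit 78) (PT.lf (nat_lit 33060) (nat_lit 6) (nat_lit 435) (nat_lit 4) (nat_lit 235) (nat_lit 281) (nat_lit 264)) (PT.nd (nat_lit 78) (PT.lf (nat_lit 34732) (nat_lit 6) (nat_lit 457) (nat_lit 4) (nat_lit 236) (nat_lit 281) (nat_lit 263)) (PT.lf (nat_lit 36480) (nat_lit 6) (nat_lit 480) (nat_lit 4) (nat_lit 237) (nat_lit 281) (nat_lit 262)))) (PT.nd (nat_lit 156) (PT.nd (nat_lit 78) (PT.lf (nat_lit 38152) (nat_lit 6) (nat_lit 502) (nat_lit 4) (nat_lit 238) (nat_lit 281) (nat_lit 261)) (PT.lf (nat_lit 39748) (nat_lit 6) (nat_lit 523) (nat_lit 4) (nat_lit 239) (nat_lit 281) (nat_lit 260))) (PT.nd (nat_lit 78) (PT.lf (nat_lit 39672) (nat_lit 6) (nat_lit 522) (nat_lit 4) (nat_lit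 240) (nat_lit 281) (nat_lit 259)) (PT.lf (nat_lit 39596) (nat_lit 6) (nat_lit 521) (nat_lit 4) (nat_lit 241) (nat_lit 281) (nat_lit 258))))) (PT.nd (nat_lit 312) (PT.nd (nat_lit 156) (PT.nd (nat_lit 78) (PT.lf (nat_lit 39520) (nat_lit 6) (nat_lit 520) (nat_lit 4) (nat_lit 242) (nat_lit 281) (nat_lit 257)) (PT.lf (nat_lit 39444) (nat_lit 6) (nat_lit 519) (nat_lit 4) (nat_lit 243) (nat_lit 281) (nat_lit 256))) (PT.nd (nat_lit 78) (PT.lf (nat_lit 39368) (nat_lit 6) (nat_lit 518) (nat_lit 4) (nat_lit 244) (nat_lit 281) (nat_lit 255)) (PT.lf (nat_lit 39292) (nat_lit 6) (nat_lit 517) (nat_lit 4) (nat_lit 245) (nat_lit 281) (nat_lit 254)))) (PT.nd (nat_lit 156) (PT.nd (nat_lit 78) (PT.lf (nat_lit 39216) (nat_lit 6) (nat_lit 516) (nat_lit 4) (nat_lit 246) (nat_lit 281) (nat_lit 253)) (PT.lf (nat_lit 39140) (nat_lit 6) (nat_lit 515) (nat_lit 4) (nat_lit 247) (nat_lit 281) (nat_lit 252))) (PT.nd (nat_lit 78) (PT.lf (nat_lit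 39064) (nat_lit 6) (nat_lit 514) (nat_lit 4) (nat_lit 248) (nat_lit 281) (nat_lit 251)) (PT.lf (nat_lit 38988) (nat_lit 6) (nat_lit 513) (nat_lit 4) (nat_lit 249) (nat_lit 281) (nat_lit 250))))))) (PT.nd (nat_lit 1170) (PT.nd (nat_lit 546) (PT.nd (nat_lit 234) (PT.nd (nat_lit 78) (PT.lf (nat_lit 38988) (nat_lit 6) (nat_lit 513) (nat_lit 2) (nat_lit 250) (nat_lit 281) (nat_lit 249)) (PT.nd (nat_lit 78) (PT.lf (nat_lit 39064) (nat_lit 6) (nat_lit 514) (nat_lit 2) (nat_lit 251) (nat_lit 281) (nat_lit 248)) (PT.lf (nat_lit 39140) (nat_lit 6) (nat_lit 515) (nat_lit 2) (nat_lit 252) (nat_lit 281) (nat_lit 247)))) (PT.nd (nat_lit 156) (PT.nd (nat_lit 78) (PT.lf (nat_lit 39216) (nat_lit 6) (nat_lit 516) (nat_lit 2) (nat_lit 253) (nat_lit 281) (nat_lit 246)) (PT.lf (nat_lit 39292) (nat_lit 6) (nat_lit 517) (nat_lit 2) (nat_lit 254) (nat_lit 281) (nat_lit 245))) (PT.nd (nat_lit 78) (PT.lf (nat_lit 39368) (nat_lit 6) (nat_lit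 518) (nat_lit 2) (nat_lit 255) (nat_lit 281) (nat_lit 244)) (PT.lf (nat_lit 39444) (nat_lit 6) (nat_lit 519) (nat_lit 2) (nat_lit 256) (nat_lit 281) (nat_lit 243))))) (PT.nd (nat_lit 312) (PT.nd (nat_lit 156) (PT.nd (nat_lit 78) (PT.lf (nat_lit 39520) (nat_lit 6) (nat_lit 520) (nat_lit 2) (nat_lit 257) (nat_lit 281) (nat_lit 242)) (PT.lf (nat_lit 39596) (nat_lit 6) (nat_lit 521) (nat_lit 2) (nat_lit 258) (nat_lit 281) (nat_lit 241))) (PT.nd (nat_lit 78) (PT.lf (nat_lit 39672) (nat_lit 6) (nat_lit 522) (nat_lit 2) (nat_lit 259) (nat_lit 281) (nat_lit 240)) (PT.lf (nat_lit 39748) (nat_lit 6) (nat_lit 523) (nat_lit 2) (nat_lit 260) (nat_lit 281) (nat_lit 239)))) (PT.nd (nat_lit 156) (PT.nd (nat_lit 78) (PT.lf (nat_lit 38152) (nat_lit 6) (nat_lit 502) (nat_lit 2) (nat_lit 261) (nat_lit 281) (nat_lit 238)) (PT.lf (nat_lit 36480) (nat_lit 6) (nat_lit 480) (nat_lit 2) (nat_lit 262) (nat_lit 281) (nat_lit 237))) (PT.nd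 (nat_lit 78) (PT.lf (nat_lit 34732) (nat_lit 6) (nat_lit 457) (nat_lit 2) (nat_lit 263) (nat_lit 281) (nat_lit 236)) (PT.lf (nat_lit 33060) (nat_lit 6) (nat_lit 435) (nat_lit 2) (nat_lit 264) (nat_lit 281) (nat_lit 235)))))) (PT.nd (nat_lit 546) (PT.nd (nat_lit 234) (PT.nd (nat_lit 78) (PT.lf (nat_lit 32072) (nat_lit 6) (nat_lit 422) (nat_lit 2) (nat_lit 265) (nat_lit 281) (nat_lit 234)) (PT.nd (nat_lit 78) (PT.lf (nat_lit 31160) (nat_lit 6) (nat_lit 410) (nat_lit 2) (nat_lit 266) (nat_lit 281) (nat_lit 233)) (PT.lf (nat_lit 30248) (nat_lit 6) (nat_lit 398) (nat_lit 2) (nat_lit 267) (nat_lit 281) (nat_lit 232)))) (PT.nd (nat_lit 156) (PT.nd (nat_lit 78) (PT.lf (nat_lit 29412) (nat_lit 6) (nat_lit 387) (nat_lit 2) (nat_lit 268) (nat_lit 281) (nat_lit 231)) (PT.lf (nat_lit 28576) (nat_lit 6) (nat_lit 376) (nat_lit 2) (nat_lit 269) (nat_lit 281) (nat_lit 230))) (PT.nd (nat_lit 78) (PT.lf (nat_lit 27816) (nat_lit 6)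 (nat_lit 366) (nat_lit 2) (nat_lit 270) (nat_lit 281) (nat_lit 229)) (PT.lf (nat_lit 26980) (nat_lit 6) (nat_lit 355) (nat_lit 2) (nat_lit 271) (nat_lit 281) (nat_lit 228))))) (PT.nd (nat_lit 312) (PT.nd (nat_lit 156) (PT.nd (nat_lit 78) (PT.lf (nat_lit 26220) (nat_lit 6) (nat_lit 345) (nat_lit 2) (nat_lit 272) (nat_lit 281) (nat_lit 227)) (PT.lf (nat_lit 25460) (nat_lit 6) (nat_lit 335) (nat_lit 2) (nat_lit 273) (nat_lit 281) (nat_lit 226))) (PT.nd (nat_lit 78) (PT.lf (nat_lit 24776) (nat_lit 6) (nat_lit 326) (nat_lit 2) (nat_lit 274) (nat_lit 281) (nat_lit 225)) (PT.lf (nat_lit 24016) (nat_lit 6) (nat_lit 316) (nat_lit 2) (nat_lit 275) (nat_lit 281) (nat_lit 224)))) (PT.nd (nat_lit 156) (PT.nd (nat_lit 78) (PT.lf (nat_lit 23332) (nat_lit 6) (nat_lit 307) (nat_lit 2) (nat_lit 276) (nat_lit 281) (nat_lit 223)) (PT.lf (nat_lit 22648) (nat_lit 6) (nat_lit 298) (nat_lit 2) (nat_lit 277) (nat_lit 281) (nat_lit 222)))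 (PT.nd (nat_lit 78) (PT.lf (nat_lit 22040) (nat_lit 6) (nat_lit 290) (nat_lit 2) (nat_lit 278) (nat_lit 281) (nat_lit 221)) (PT.lf (nat_lit 21356) (nat_lit 6) (nat_lit 281) (nat_lit 2) (nat_lit 279) (nat_lit 281) (nat_lit 220))))))))
noncomputable def pc50 : PT := (PT.nd (nat_lit 76752) (PT.nd (nat_lit 75582) (PT.nd (nat_lit 546) (PT.nd (nat_lit 234) (PT.nd (nat_lit 78) (PT.lf (nat_lit 20748) (nat_lit 6) (nat_lit 273) (nat_lit 2) (nat_lit 280) (nat_lit 281) (nat_lit 219)) (PT.nd (nat_lit 78) (PT.lf (nat_lit 20140) (nat_lit 3) (nat_lit 265) (nat_lit 0) (nat_lit 281) (nat_lit 281) (nat_lit 218)) (PT.lf (nat_lit 19532) (nat_lit 6) (nat_lit 257) (nat_lit 0) (nat_lit 282) (nat_lit 281) (nat_lit 217)))) (PT.nd (nat_lit 156) (PT.nd (nat_lit 78) (PT.lf (nat_lit 18848) (nat_lit 6) (nat_lit 248) (nat_lit 0) (nat_lit 283) (nat_lit 281) (nat_lit 216)) (PT.lf (nat_lit 18240) (nat_lit 6) (nat_lit 240) (nat_lit 0) (nat_lit 284)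 (nat_lit 281) (nat_lit 215))) (PT.nd (nat_lit 78) (PT.lf (nat_lit 17632) (nat_lit 6) (nat_lit 232) (nat_lit 0) (nat_lit 285) (nat_lit 281) (nat_lit 214)) (PT.lf (nat_lit 17024) (nat_lit 6) (nat_lit 224) (nat_lit 0) (nat_lit 286) (nat_lit 281) (nat_lit 213))))) (PT.nd (nat_lit 312) (PT.nd (nat_lit 156) (PT.nd (nat_lit 78) (PT.lf (nat_lit 16416) (nat_lit 6) (nat_lit 216) (nat_lit 0) (nat_lit 287) (nat_lit 281) (nat_lit 212)) (PT.lf (nat_lit 15884) (nat_lit 6) (nat_lit 209) (nat_lit 0) (nat_lit 288) (nat_lit 281) (nat_lit 211))) (PT.nd (nat_lit 78) (PT.lf (nat_lit 15276) (nat_lit 6) (nat_lit 201) (nat_lit 0) (nat_lit 289) (nat_lit 281) (nat_lit 210)) (PT.lf (nat_lit 14744) (nat_lit 6) (nat_lit 194) (nat_lit 0) (nat_lit 290) (nat_lit 281) (nat_lit 209)))) (PT.nd (nat_lit 74568) (PT.nd (nat_lit 78) (PT.lf (nat_lit 14212) (nat_lit 6) (nat_lit 187) (nat_lit 0) (nat_lit 291) (nat_lit 281) (nat_lit 208)) (PT.lf (nat_lit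 13680) (nat_lit 6) (nat_lit 180) (nat_lit 0) (nat_lit 292) (nat_lit 281) (nat_lit 207))) (PT.nd (nat_lit 78) (PT.lf (nat_lit 13224) (nat_lit 6) (nat_lit 174) (nat_lit 5) (nat_lit 206) (nat_lit 282) (nat_lit 292)) (PT.lf (nat_lit 13756) (nat_lit 6) (nat_lit 181) (nat_lit 5) (nat_lit 207) (nat_lit 282) (nat_lit 291)))))) (PT.nd (nat_lit 546) (PT.nd (nat_lit 234) (PT.nd (nat_lit 78) (PT.lf (nat_lit 14288) (nat_lit 6) (nat_lit 188) (nat_lit 5) (nat_lit 208) (nat_lit 282) (nat_lit 290)) (PT.nd (nat_lit 78) (PT.lf (nat_lit 14820) (nat_lit 6) (nat_lit 195) (nat_lit 5) (nat_lit 209) (nat_lit 282) (nat_lit 289)) (PT.lf (nat_lit 15352) (nat_lit 6) (nat_lit 202) (nat_lit 5) (nat_lit 210) (nat_lit 282) (nat_lit 288)))) (PT.nd (nat_lit 156) (PT.nd (nat_lit 78) (PT.lf (nat_lit 15960) (nat_lit 6) (nat_lit 210) (nat_lit 5) (nat_lit 211) (nat_lit 282) (nat_lit 287)) (PT.lf (nat_lit 16492) (nat_lit 6) (nat_lit 217) (nat_lit 5) (nat_lit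 212) (nat_lit 282) (nat_lit 286))) (PT.nd (nat_lit 78) (PT.lf (nat_lit 17100) (nat_lit 6) (nat_lit 225) (nat_lit 5) (nat_lit 213) (nat_lit 282) (nat_lit 285)) (PT.lf (nat_lit 17708) (nat_lit 6) (nat_lit 233) (nat_lit 5) (nat_lit 214) (nat_lit 282) (nat_lit 284))))) (PT.nd (nat_lit 312) (PT.nd (nat_lit 156) (PT.nd (nat_lit 78) (PT.lf (nat_lit 18316) (nat_lit 6) (nat_lit 241) (nat_lit 5) (nat_lit 215) (nat_lit 282) (nat_lit 283)) (PT.lf (nat_lit 18924) (nat_lit 3) (nat_lit 249) (nat_lit 4) (nat_lit 216) (nat_lit 282) (nat_lit 282))) (PT.nd (nat_lit 78) (PT.lf (nat_lit 19532) (nat_lit 6) (nat_lit 257) (nat_lit 4) (nat_lit 217) (nat_lit 282) (nat_lit 281)) (PT.lf (nat_lit 20064) (nat_lit 6) (nat_lit 264) (nat_lit 4) (nat_lit 218) (nat_lit 282) (nat_lit 280)))) (PT.nd (nat_lit 156) (PT.nd (nat_lit 78) (PT.lf (nat_lit 20672) (nat_lit 6) (nat_lit 272) (nat_lit 4) (nat_lit 219) (nat_lit 282) (nat_lit 279)) (PT.lf (nat_lit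 21280) (nat_lit 6) (nat_lit 280) (nat_lit 4) (nat_lit 220) (nat_lit 282) (nat_lit 278))) (PT.nd (nat_lit 78) (PT.lf (nat_lit 21964) (nat_lit 6) (nat_lit 289) (nat_lit 4) (nat_lit 221) (nat_lit 282) (nat_lit 277)) (PT.lf (nat_lit 22572) (nat_lit 6) (nat_lit 297) (nat_lit 4) (nat_lit 222) (nat_lit 282) (nat_lit 276))))))) (PT.nd (nat_lit 1170) (PT.nd (nat_lit 546) (PT.nd (nat_lit 234) (PT.nd (nat_lit 78) (PT.lf (nat_lit 23256) (nat_lit 6) (nat_lit 306) (nat_lit 4) (nat_lit 223) (nat_lit 282) (nat_lit 275)) (PT.nd (nat_lit 78) (PT.lf (nat_lit 23940) (nat_lit 6) (nat_lit 315) (nat_lit 4) (nat_lit 224) (nat_lit 282) (nat_lit 274)) (PT.lf (nat_lit 24700) (nat_lit 6) (nat_lit 325) (nat_lit 4) (nat_lit 225) (nat_lit 282) (nat_lit 273)))) (PT.nd (nat_lit 156) (PT.nd (nat_lit 78) (PT.lf (nat_lit 25384) (nat_lit 6) (nat_lit 334) (nat_lit 4) (nat_lit 226) (nat_lit 282) (nat_lit 272)) (PT.lf (nat_lit 26144) (nat_lit 6) (nat_lit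 344) (nat_lit 4) (nat_lit 227) (nat_lit 282) (nat_lit 271))) (PT.nd (nat_lit 78) (PT.lf (nat_lit 26904) (nat_lit 6) (nat_lit 354) (nat_lit 4) (nat_lit 228) (nat_lit 282) (nat_lit 270)) (PT.lf (nat_lit 27740) (nat_lit 6) (nat_lit 365) (nat_lit 4) (nat_lit 229) (nat_lit 282) (nat_lit 269))))) (PT.nd (nat_lit 312) (PT.nd (nat_lit 156) (PT.nd (nat_lit 78) (PT.lf (nat_lit 28500) (nat_lit 6) (nat_lit 375) (nat_lit 4) (nat_lit 230) (nat_lit 282) (nat_lit 268)) (PT.lf (nat_lit 29336) (nat_lit 6) (nat_lit 386) (nat_lit 4) (nat_lit 231) (nat_lit 282) (nat_lit 267))) (PT.nd (nat_lit 78) (PT.lf (nat_lit 30172) (nat_lit 6) (nat_lit 397) (nat_lit 4) (nat_lit 232) (nat_lit 282) (nat_lit 266)) (PT.lf (nat_lit 31084) (nat_lit 6) (nat_lit 409) (nat_lit 4) (nat_lit 233) (nat_lit 282) (nat_lit 265)))) (PT.nd (nat_lit 156) (PT.nd (nat_lit 78) (PT.lf (nat_lit 31996) (nat_lit 6) (nat_lit 421) (nat_lit 4) (nat_lit 234) (nat_lit 282) (nat_lit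 264)) (PT.lf (nat_lit 32984) (nat_lit 6) (nat_lit 434) (nat_lit 4) (nat_lit 235) (nat_lit 282) (nat_lit 263))) (PT.nd (nat_lit 78) (PT.lf (nat_lit 34656) (nat_lit 6) (nat_lit 456) (nat_lit 4) (nat_lit 236) (nat_lit 282) (nat_lit 262)) (PT.lf (nat_lit 36404) (nat_lit 6) (nat_lit 479) (nat_lit 4) (nat_lit 237) (nat_lit 282) (nat_lit 261)))))) (PT.nd (nat_lit 546) (PT.nd (nat_lit 234) (PT.nd (nat_lit 78) (PT.lf (nat_lit 38076) (nat_lit 6) (nat_lit 501) (nat_lit 4) (nat_lit 238) (nat_lit 282) (nat_lit 260)) (PT.nd (nat_lit 78) (PT.lf (nat_lit 38000) (nat_lit 6) (nat_lit 500) (nat_lit 4) (nat_lit 239) (nat_lit 282) (nat_lit 259)) (PT.lf (nat_lit 37924) (nat_lit 6) (nat_lit 499) (nat_lit 4) (nat_lit 240) (nat_lit 282) (nat_lit 258)))) (PT.nd (nat_lit 156) (PT.nd (nat_lit 78) (PT.lf (nat_lit 37848) (nat_lit 6) (nat_lit 498) (nat_lit 4) (nat_lit 241) (nat_lit 282) (nat_lit 257)) (PT.lf (nat_lit 37772) (nat_lit 6) (nat_lit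 497) (nat_lit 4) (nat_lit 242) (nat_lit 282) (nat_lit 256))) (PT.nd (nat_lit 78) (PT.lf (nat_lit 37696) (nat_lit 6) (nat_lit 496) (nat_lit 4) (nat_lit 243) (nat_lit 282) (nat_lit 255)) (PT.lf (nat_lit 37620) (nat_lit 6) (nat_lit 495) (nat_lit 4) (nat_lit 244) (nat_lit 282) (nat_lit 254))))) (PT.nd (nat_lit 312) (PT.nd (nat_lit 156) (PT.nd (nat_lit 78) (PT.lf (nat_lit 37544) (nat_lit 6) (nat_lit 494) (nat_lit 4) (nat_lit 245) (nat_lit 282) (nat_lit 253)) (PT.lf (nat_lit 37468) (nat_lit 6) (nat_lit 493) (nat_lit 4) (nat_lit 246) (nat_lit 282) (nat_lit 252))) (PT.nd (nat_lit 78) (PT.lf (nat_lit 37392) (nat_lit 6) (nat_lit 492) (nat_lit 4) (nat_lit 247) (nat_lit 282) (nat_lit 251)) (PT.lf (nat_lit 37316) (nat_lit 6) (nat_lit 491) (nat_lit 4) (nat_lit 248) (nat_lit 282) (nat_lit 250)))) (PT.nd (nat_lit 156) (PT.nd (nat_lit 78) (PT.lf (nat_lit 37240) (nat_lit 3) (nat_lit 490) (nat_lit 2) (nat_lit 249) (nat_lit 282) (nat_lit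 249)) (PT.lf (nat_lit 37316) (nat_lit 6) (nat_lit 491) (nat_lit 2) (nat_lit 250) (nat_lit 282) (nat_lit 248))) (PT.nd (nat_lit 78) (PT.lf (nat_lit 37392) (nat_lit 6) (nat_lit 492) (nat_lit 2) (nat_lit 251) (nat_lit 282) (nat_lit 247)) (PT.lf (nat_lit 37468) (nat_lit 6) (nat_lit 493) (nat_lit 2) (nat_lit 252) (nat_lit 282) (nat_lit 246))))))))
noncomputable def pc51 : PT := (PT.nd (nat_lit 2340) (PT.nd (nat_lit 1170) (PT.nd (nat_lit 546) (PT.nd (nat_lit 234) (PT.nd (nat_lit 78) (PT.lf (nat_lit 37544) (nat_lit 6) (nat_lit 494) (nat_lit 2) (nat_lit 253) (nat_lit 282) (nat_lit 245)) (PT.nd (nat_lit 78) (PT.lf (nat_lit 37620) (nat_lit 6) (nat_lit 495) (nat_lit 2) (nat_lit 254) (nat_lit 282) (nat_lit 244)) (PT.lf (nat_lit 37696) (nat_lit 6) (nat_lit 496) (nat_lit 2) (nat_lit 255) (nat_lit 282) (nat_lit 243)))) (PT.nd (nat_lit 156) (PT.nd (nat_lit 78) (PT.lf (nat_lit 37772) (nat_lit 6) (nat_lit 497) (nat_lit 2) (nat_lit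 256) (nat_lit 282) (nat_lit 242)) (PT.lf (nat_lit 37848) (nat_lit 6) (nat_lit 498) (nat_lit 2) (nat_lit 257) (nat_lit 282) (nat_lit 241))) (PT.nd (nat_lit 78) (PT.lf (nat_lit 37924) (nat_lit 6) (nat_lit 499) (nat_lit 2) (nat_lit 258) (nat_lit 282) (nat_lit 240)) (PT.lf (nat_lit 38000) (nat_lit 6) (nat_lit 500) (nat_lit 2) (nat_lit 259) (nat_lit 282) (nat_lit 239))))) (PT.nd (nat_lit 312) (PT.nd (nat_lit 156) (PT.nd (nat_lit 78) (PT.lf (nat_lit 38076) (nat_lit 6) (nat_lit 501) (nat_lit 2) (nat_lit 260) (nat_lit 282) (nat_lit 238)) (PT.lf (nat_lit 36404) (nat_lit 6) (nat_lit 479) (nat_lit 2) (nat_lit 261) (nat_lit 282) (nat_lit 237))) (PT.nd (nat_lit 78) (PT.lf (nat_lit 34656) (nat_lit 6) (nat_lit 456) (nat_lit 2) (nat_lit 262) (nat_lit 282) (nat_lit 236)) (PT.lf (nat_lit 32984) (nat_lit 6) (nat_lit 434) (nat_lit 2) (nat_lit 263) (nat_lit 282) (nat_lit 235)))) (PT.nd (nat_lit 156) (PT.nd (nat_lit 78) (PT.lf (nat_lit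 31996) (nat_lit 6) (nat_lit 421) (nat_lit 2) (nat_lit 264) (nat_lit 282) (nat_lit 234)) (PT.lf (nat_lit 31084) (nat_lit 6) (nat_lit 409) (nat_lit 2) (nat_lit 265) (nat_lit 282) (nat_lit 233))) (PT.nd (nat_lit 78) (PT.lf (nat_lit 30172) (nat_lit 6) (nat_lit 397) (nat_lit 2) (nat_lit 266) (nat_lit 282) (nat_lit 232)) (PT.lf (nat_lit 29336) (nat_lit 6) (nat_lit 386) (nat_lit 2) (nat_lit 267) (nat_lit 282) (nat_lit 231)))))) (PT.nd (nat_lit 546) (PT.nd (nat_lit 234) (PT.nd (nat_lit 78) (PT.lf (nat_lit 28500) (nat_lit 6) (nat_lit 375) (nat_lit 2) (nat_lit 268) (nat_lit 282) (nat_lit 230)) (PT.nd (nat_lit 78) (PT.lf (nat_lit 27740) (nat_lit 6) (nat_lit 365) (nat_lit 2) (nat_lit 269) (nat_lit 282) (nat_lit 229)) (PT.lf (nat_lit 26904) (nat_lit 6) (nat_lit 354) (nat_lit 2) (nat_lit 270) (nat_lit 282) (nat_lit 228)))) (PT.nd (nat_lit 156) (PT.nd (nat_lit 78) (PT.lf (nat_lit 26144) (nat_lit 6) (nat_lit 344) (nat_lit 2) (nat_lit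 271) (nat_lit 282) (nat_lit 227)) (PT.lf (nat_lit 25384) (nat_lit 6) (nat_lit 334) (nat_lit 2) (nat_lit 272) (nat_lit 282) (nat_lit 226))) (PT.nd (nat_lit 78) (PT.lf (nat_lit 24700) (nat_lit 6) (nat_lit 325) (nat_lit 2) (nat_lit 273) (nat_lit 282) (nat_lit 225)) (PT.lf (nat_lit 23940) (nat_lit 6) (nat_lit 315) (nat_lit 2) (nat_lit 274) (nat_lit 282) (nat_lit 224))))) (PT.nd (nat_lit 312) (PT.nd (nat_lit 156) (PT.nd (nat_lit 78) (PT.lf (nat_lit 23256) (nat_lit 6) (nat_lit 306) (nat_lit 2) (nat_lit 275) (nat_lit 282) (nat_lit 223)) (PT.lf (nat_lit 22572) (nat_lit 6) (nat_lit 297) (nat_lit 2) (nat_lit 276) (nat_lit 282) (nat_lit 222))) (PT.nd (nat_lit 78) (PT.lf (nat_lit 21964) (nat_lit 6) (nat_lit 289) (nat_lit 2) (nat_lit 277) (nat_lit 282) (nat_lit 221)) (PT.lf (nat_lit 21280) (nat_lit 6) (nat_lit 280) (nat_lit 2) (nat_lit 278) (nat_lit 282) (nat_lit 220)))) (PT.nd (nat_lit 156) (PT.nd (nat_lit 78) (PT.lf (nat_lit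 20672) (nat_lit 6) (nat_lit 272) (nat_lit 2) (nat_lit 279) (nat_lit 282) (nat_lit 219)) (PT.lf (nat_lit 20064) (nat_lit 6) (nat_lit 264) (nat_lit 2) (nat_lit 280) (nat_lit 282) (nat_lit 218))) (PT.nd (nat_lit 78) (PT.lf (nat_lit 19532) (nat_lit 6) (nat_lit 257) (nat_lit 2) (nat_lit 281) (nat_lit 282) (nat_lit 217)) (PT.lf (nat_lit 18924) (nat_lit 3) (nat_lit 249) (nat_lit 0) (nat_lit 282) (nat_lit 282) (nat_lit 216))))))) (PT.nd (nat_lit 75426) (PT.nd (nat_lit 546) (PT.nd (nat_lit 234) (PT.nd (nat_lit 78) (PT.lf (nat_lit 18316) (nat_lit 6) (nat_lit 241) (nat_lit 0) (nat_lit 283) (nat_lit 282) (nat_lit 215)) (PT.nd (nat_lit 78) (PT.lf (nat_lit 17708) (nat_lit 6) (nat_lit 233) (nat_lit 0) (nat_lit 284) (nat_lit 282) (nat_lit 214)) (PT.lf (nat_lit 17100) (nat_lit 6) (nat_lit 225) (nat_lit 0) (nat_lit 285) (nat_lit 282) (nat_lit 213)))) (PT.nd (nat_lit 156) (PT.nd (nat_lit 78) (PT.lf (nat_lit 16492) (nat_lit 6) (nat_lit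 217) (nat_lit 0) (nat_lit 286) (nat_lit 282) (nat_lit 212)) (PT.lf (nat_lit 15960) (nat_lit 6) (nat_lit 210) (nat_lit 0) (nat_lit 287) (nat_lit 282) (nat_lit 211))) (PT.nd (nat_lit 78) (PT.lf (nat_lit 15352) (nat_lit 6) (nat_lit 202) (nat_lit 0) (nat_lit 288) (nat_lit 282) (nat_lit 210)) (PT.lf (nat_lit 14820) (nat_lit 6) (nat_lit 195) (nat_lit 0) (nat_lit 289) (nat_lit 282) (nat_lit 209))))) (PT.nd (nat_lit 74568) (PT.nd (nat_lit 156) (PT.nd (nat_lit 78) (PT.lf (nat_lit 14288) (nat_lit 6) (nat_lit 188) (nat_lit 0) (nat_lit 290) (nat_lit 282) (nat_lit 208)) (PT.lf (nat_lit 13756) (nat_lit 6) (nat_lit 181) (nat_lit 0) (nat_lit 291) (nat_lit 282) (nat_lit 207))) (PT.nd (nat_lit 74334) (PT.lf (nat_lit 13224) (nat_lit 6) (nat_lit 174) (nat_lit 0) (nat_lit 292) (nat_lit 282) (nat_lit 206)) (PT.lf (nat_lit 12312) (nat_lit 6) (nat_lit 162) (nat_lit 5) (nat_lit 204) (nat_lit 283) (nat_lit 293)))) (PT.nd (nat_lit 156) (PT.nd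 (nat_lit 78) (PT.lf (nat_lit 12844) (nat_lit 6) (nat_lit 169) (nat_lit 5) (nat_lit 205) (nat_lit 283) (nat_lit 292)) (PT.lf (nat_lit 13300) (nat_lit 6) (nat_lit 175) (nat_lit 5) (nat_lit 206) (nat_lit 283) (nat_lit 291))) (PT.nd (nat_lit 78) (PT.lf (nat_lit 13832) (nat_lit 6) (nat_lit 182) (nat_lit 5) (nat_lit 207) (nat_lit 283) (nat_lit 290)) (PT.lf (nat_lit 14364) (nat_lit 6) (nat_lit 189) (nat_lit 5) (nat_lit 208) (nat_lit 283) (nat_lit 289)))))) (PT.nd (nat_lit 546) (PT.nd (nat_lit 234) (PT.nd (nat_lit 78) (PT.lf (nat_lit 14896) (nat_lit 6) (nat_lit 196) (nat_lit 5) (nat_lit 209) (nat_lit 283) (nat_lit 288)) (PT.nd (nat_lit 78) (PT.lf (nat_lit 15428) (nat_lit 6) (nat_lit 203) (nat_lit 5) (nat_lit 210) (nat_lit 283) (nat_lit 287)) (PT.lf (nat_lit 16036) (nat_lit 6) (nat_lit 211) (nat_lit 5) (nat_lit 211) (nat_lit 283) (nat_lit 286)))) (PT.nd (nat_lit 156) (PT.nd (nat_lit 78) (PT.lf (nat_lit 16568) (nat_lit 6)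 (nat_lit 218) (nat_lit 5) (nat_lit 212) (nat_lit 283) (nat_lit 285)) (PT.lf (nat_lit 17176) (nat_lit 6) (nat_lit 226) (nat_lit 5) (nat_lit 213) (nat_lit 283) (nat_lit 284))) (PT.nd (nat_lit 78) (PT.lf (nat_lit 17784) (nat_lit 3) (nat_lit 234) (nat_lit 4) (nat_lit 214) (nat_lit 283) (nat_lit 283)) (PT.lf (nat_lit 18316) (nat_lit 6) (nat_lit 241) (nat_lit 4) (nat_lit 215) (nat_lit 283) (nat_lit 282))))) (PT.nd (nat_lit 312) (PT.nd (nat_lit 156) (PT.nd (nat_lit 78) (PT.lf (nat_lit 18848) (nat_lit 6) (nat_lit 248) (nat_lit 4) (nat_lit 216) (nat_lit 283) (nat_lit 281)) (PT.lf (nat_lit 19456) (nat_lit 6) (nat_lit 256) (nat_lit 4) (nat_lit 217) (nat_lit 283) (nat_lit 280))) (PT.nd (nat_lit 78) (PT.lf (nat_lit 19988) (nat_lit 6) (nat_lit 263) (nat_lit 4) (nat_lit 218) (nat_lit 283) (nat_lit 279)) (PT.lf (nat_lit 20596) (nat_lit 6) (nat_lit 271) (nat_lit 4) (nat_lit 219) (nat_lit 283) (nat_lit 278)))) (PT.nd (nat_lit 156)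 (PT.nd (nat_lit 78) (PT.lf (nat_lit 21204) (nat_lit 6) (nat_lit 279) (nat_lit 4) (nat_lit 220) (nat_lit 283) (nat_lit 277)) (PT.lf (nat_lit 21888) (nat_lit 6) (nat_lit 288) (nat_lit 4) (nat_lit 221) (nat_lit 283) (nat_lit 276))) (PT.nd (nat_lit 78) (PT.lf (nat_lit 22496) (nat_lit 6) (nat_lit 296) (nat_lit 4) (nat_lit 222) (nat_lit 283) (nat_lit 275)) (PT.lf (nat_lit 23180) (nat_lit 6) (nat_lit 305) (nat_lit 4) (nat_lit 223) (nat_lit 283) (nat_lit 274))))))))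
noncomputable def pc52 : PT := (PT.nd (nat_lit 2340) (PT.nd (nat_lit 1170) (PT.nd (nat_lit 546) (PT.nd (nat_lit 234) (PT.nd (nat_lit 78) (PT.lf (nat_lit 23864) (nat_lit 6) (nat_lit 314) (nat_lit 4) (nat_lit 224) (nat_lit 283) (nat_lit 273)) (PT.nd (nat_lit 78) (PT.lf (nat_lit 24624) (nat_lit 6) (nat_lit 324) (nat_lit 4) (nat_lit 225) (nat_lit 283) (nat_lit 272)) (PT.lf (nat_lit 25308) (nat_lit 6) (nat_lit 333) (nat_lit 4) (nat_lit 226) (nat_lit 283) (nat_lit 271)))) (PT.nd (nat_lit 156) (PT.nd (nat_lit 78) (PT.lf (nat_lit 26068) (nat_lit 6) (nat_lit 343) (nat_lit 4) (nat_lit 227) (nat_lit 283) (nat_lit 270)) (PT.lf (nat_lit 26828) (nat_lit 6) (nat_lit 353) (nat_lit 4) (nat_lit 228) (nat_lit 283) (nat_lit 269))) (PT.nd (nat_lit 78) (PT.lf (nat_lit 27664) (nat_lit 6) (nat_lit 364) (nat_lit 4) (nat_lit 229) (nat_lit 283) (nat_lit 268)) (PT.lf (nat_lit 28424) (nat_lit 6) (nat_lit 374) (nat_lit 4) (nat_lit 230) (nat_lit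 283) (nat_lit 267))))) (PT.nd (nat_lit 312) (PT.nd (nat_lit 156) (PT.nd (nat_lit 78) (PT.lf (nat_lit 29260) (nat_lit 6) (nat_lit 385) (nat_lit 4) (nat_lit 231) (nat_lit 283) (nat_lit 266)) (PT.lf (nat_lit 30096) (nat_lit 6) (nat_lit 396) (nat_lit 4) (nat_lit 232) (nat_lit 283) (nat_lit 265))) (PT.nd (nat_lit 78) (PT.lf (nat_lit 31008) (nat_lit 6) (nat_lit 408) (nat_lit 4) (nat_lit 233) (nat_lit 283) (nat_lit 264)) (PT.lf (nat_lit 31920) (nat_lit 6) (nat_lit 420) (nat_lit 4) (nat_lit 234) (nat_lit 283) (nat_lit 263)))) (PT.nd (nat_lit 156) (PT.nd (nat_lit 78) (PT.lf (nat_lit 32908) (nat_lit 6) (nat_lit 433) (nat_lit 4) (nat_lit 235) (nat_lit 283) (nat_lit 262)) (PT.lf (nat_lit 34580) (nat_lit 6) (nat_lit 455) (nat_lit 4) (nat_lit 236) (nat_lit 283) (nat_lit 261))) (PT.nd (nat_lit 78) (PT.lf (nat_lit 36328) (nat_lit 6) (nat_lit 478) (nat_lit 4) (nat_lit 237) (nat_lit 283) (nat_lit 260)) (PT.lf (nat_lit 36252) (nat_lit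 6) (nat_lit 477) (nat_lit 4) (nat_lit 238) (nat_lit 283) (nat_lit 259)))))) (PT.nd (nat_lit 546) (PT.nd (nat_lit 234) (PT.nd (nat_lit 78) (PT.lf (nat_lit 36176) (nat_lit 6) (nat_lit 476) (nat_lit 4) (nat_lit 239) (nat_lit 283) (nat_lit 258)) (PT.nd (nat_lit 78) (PT.lf (nat_lit 36100) (nat_lit 6) (nat_lit 475) (nat_lit 4) (nat_lit 240) (nat_lit 283) (nat_lit 257)) (PT.lf (nat_lit 36024) (nat_lit 6) (nat_lit 474) (nat_lit 4) (nat_lit 241) (nat_lit 283) (nat_lit 256)))) (PT.nd (nat_lit 156) (PT.nd (nat_lit 78) (PT.lf (nat_lit 35948) (nat_lit 6) (nat_lit 473) (nat_lit 4) (nat_lit 242) (nat_lit 283) (nat_lit 255)) (PT.lf (nat_lit 35872) (nat_lit 6) (nat_lit 472) (nat_lit 4) (nat_lit 243) (nat_lit 283) (nat_lit 254))) (PT.nd (nat_lit 78) (PT.lf (nat_lit 35796) (nat_lit 6) (nat_lit 471) (nat_lit 4) (nat_lit 244) (nat_lit 283) (nat_lit 253)) (PT.lf (nat_lit 35720) (nat_lit 6) (nat_lit 470) (nat_lit 4) (nat_lit 245) (nat_lit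 283) (nat_lit 252))))) (PT.nd (nat_lit 312) (PT.nd (nat_lit 156) (PT.nd (nat_lit 78) (PT.lf (nat_lit 35644) (nat_lit 6) (nat_lit 469) (nat_lit 4) (nat_lit 246) (nat_lit 283) (nat_lit 251)) (PT.lf (nat_lit 35568) (nat_lit 6) (nat_lit 468) (nat_lit 4) (nat_lit 247) (nat_lit 283) (nat_lit 250))) (PT.nd (nat_lit 78) (PT.lf (nat_lit 35492) (nat_lit 6) (nat_lit 467) (nat_lit 4) (nat_lit 248) (nat_lit 283) (nat_lit 249)) (PT.lf (nat_lit 35492) (nat_lit 6) (nat_lit 467) (nat_lit 2) (nat_lit 249) (nat_lit 283) (nat_lit 248)))) (PT.nd (nat_lit 156) (PT.nd (nat_lit 78) (PT.lf (nat_lit 35568) (nat_lit 6) (nat_lit 468) (nat_lit 2) (nat_lit 250) (nat_lit 283) (nat_lit 247)) (PT.lf (nat_lit 35644) (nat_lit 6) (nat_lit 469) (nat_lit 2) (nat_lit 251) (nat_lit 283) (nat_lit 246))) (PT.nd (nat_lit 78) (PT.lf (nat_lit 35720) (nat_lit 6) (nat_lit 470) (nat_lit 2) (nat_lit 252) (nat_lit 283) (nat_lit 245)) (PT.lf (nat_lit 35796) (nat_lit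 6) (nat_lit 471) (nat_lit 2) (nat_lit 253) (nat_lit 283) (nat_lit 244))))))) (PT.nd (nat_lit 1170) (PT.nd (nat_lit 546) (PT.nd (nat_lit 234) (PT.nd (nat_lit 78) (PT.lf (nat_lit 35872) (nat_lit 6) (nat_lit 472) (nat_lit 2) (nat_lit 254) (nat_lit 283) (nat_lit 243)) (PT.nd (nat_lit 78) (PT.lf (nat_lit 35948) (nat_lit 6) (nat_lit 473) (nat_lit 2) (nat_lit 255) (nat_lit 283) (nat_lit 242)) (PT.lf (nat_lit 36024) (nat_lit 6) (nat_lit 474) (nat_lit 2) (nat_lit 256) (nat_lit 283) (nat_lit 241)))) (PT.nd (nat_lit 156) (PT.nd (nat_lit 78) (PT.lf (nat_lit 36100) (nat_lit 6) (nat_lit 475) (nat_lit 2) (nat_lit 257) (nat_lit 283) (nat_lit 240)) (PT.lf (nat_lit 36176) (nat_lit 6) (nat_lit 476) (nat_lit 2) (nat_lit 258) (nat_lit 283) (nat_lit 239))) (PT.nd (nat_lit 78) (PT.lf (nat_lit 36252) (nat_lit 6) (nat_lit 477) (nat_lit 2) (nat_lit 259) (nat_lit 283) (nat_lit 238)) (PT.lf (nat_lit 36328) (nat_lit 6) (nat_lit 478) (nat_lit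 2) (nat_lit 260) (nat_lit 283) (nat_lit 237))))) (PT.nd (nat_lit 312) (PT.nd (nat_lit 156) (PT.nd (nat_lit 78) (PT.lf (nat_lit 34580) (nat_lit 6) (nat_lit 455) (nat_lit 2) (nat_lit 261) (nat_lit 283) (nat_lit 236)) (PT.lf (nat_lit 32908) (nat_lit 6) (nat_lit 433) (nat_lit 2) (nat_lit 262) (nat_lit 283) (nat_lit 235))) (PT.nd (nat_lit 78) (PT.lf (nat_lit 31920) (nat_lit 6) (nat_lit 420) (nat_lit 2) (nat_lit 263) (nat_lit 283) (nat_lit 234)) (PT.lf (nat_lit 31008) (nat_lit 6) (nat_lit 408) (nat_lit 2) (nat_lit 264) (nat_lit 283) (nat_lit 233)))) (PT.nd (nat_lit 156) (PT.nd (nat_lit 78) (PT.lf (nat_lit 30096) (nat_lit 6) (nat_lit 396) (nat_lit 2) (nat_lit 265) (nat_lit 283) (nat_lit 232)) (PT.lf (nat_lit 29260) (nat_lit 6) (nat_lit 385) (nat_lit 2) (nat_lit 266) (nat_lit 283) (nat_lit 231))) (PT.nd (nat_lit 78) (PT.lf (nat_lit 28424) (nat_lit 6) (nat_lit 374) (nat_lit 2) (nat_lit 267) (nat_lit 283) (nat_lit 230))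 (PT.lf (nat_lit 27664) (nat_lit 6) (nat_lit 364) (nat_lit 2) (nat_lit 268) (nat_lit 283) (nat_lit 229)))))) (PT.nd (nat_lit 546) (PT.nd (nat_lit 234) (PT.nd (nat_lit 78) (PT.lf (nat_lit 26828) (nat_lit 6) (nat_lit 353) (nat_lit 2) (nat_lit 269) (nat_lit 283) (nat_lit 228)) (PT.nd (nat_lit 78) (PT.lf (nat_lit 26068) (nat_lit 6) (nat_lit 343) (nat_lit 2) (nat_lit 270) (nat_lit 283) (nat_lit 227)) (PT.lf (nat_lit 25308) (nat_lit 6) (nat_lit 333) (nat_lit 2) (nat_lit 271) (nat_lit 283) (nat_lit 226)))) (PT.nd (nat_lit 156) (PT.nd (nat_lit 78) (PT.lf (nat_lit 24624) (nat_lit 6) (nat_lit 324) (nat_lit 2) (nat_lit 272) (nat_lit 283) (nat_lit 225)) (PT.lf (nat_lit 23864) (nat_lit 6) (nat_lit 314) (nat_lit 2) (nat_lit 273) (nat_lit 283) (nat_lit 224))) (PT.nd (nat_lit 78) (PT.lf (nat_lit 23180) (nat_lit 6) (nat_lit 305) (nat_lit 2) (nat_lit 274) (nat_lit 283) (nat_lit 223)) (PT.lf (nat_lit 22496) (nat_lit 6) (nat_lit 296)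 (nat_lit 2) (nat_lit 275) (nat_lit 283) (nat_lit 222))))) (PT.nd (nat_lit 312) (PT.nd (nat_lit 156) (PT.nd (nat_lit 78) (PT.lf (nat_lit 21888) (nat_lit 6) (nat_lit 288) (nat_lit 2) (nat_lit 276) (nat_lit 283) (nat_lit 221)) (PT.lf (nat_lit 21204) (nat_lit 6) (nat_lit 279) (nat_lit 2) (nat_lit 277) (nat_lit 283) (nat_lit 220))) (PT.nd (nat_lit 78) (PT.lf (nat_lit 20596) (nat_lit 6) (nat_lit 271) (nat_lit 2) (nat_lit 278) (nat_lit 283) (nat_lit 219)) (PT.lf (nat_lit 19988) (nat_lit 6) (nat_lit 263) (nat_lit 2) (nat_lit 279) (nat_lit 283) (nat_lit 218)))) (PT.nd (nat_lit 156) (PT.nd (nat_lit 78) (PT.lf (nat_lit 19456) (nat_lit 6) (nat_lit 256) (nat_lit 2) (nat_lit 280) (nat_lit 283) (nat_lit 217)) (PT.lf (nat_lit 18848) (nat_lit 6) (nat_lit 248) (nat_lit 2) (nat_lit 281) (nat_lit 283) (nat_lit 216))) (PT.nd (nat_lit 78) (PT.lf (nat_lit 18316) (nat_lit 6) (nat_lit 241) (nat_lit 2) (nat_lit 282) (nat_lit 283) (nat_lit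 215)) (PT.lf (nat_lit 17784) (nat_lit 3) (nat_lit 234) (nat_lit 0) (nat_lit 283) (nat_lit 283) (nat_lit 214))))))))
noncomputable def pc53 : PT := (PT.nd (nat_lit 76440) (PT.nd (nat_lit 75270) (PT.nd (nat_lit 546) (PT.nd (nat_lit 234) (PT.nd (nat_lit 78) (PT.lf (nat_lit 17176) (nat_lit 6) (nat_lit 226) (nat_lit 0) (nat_lit 284) (nat_lit 283) (nat_lit 213)) (PT.nd (nat_lit 78) (PT.lf (nat_lit 16568) (nat_lit 6) (nat_lit 218) (nat_lit 0) (nat_lit 285) (nat_lit 283) (nat_lit 212)) (PT.lf (nat_lit 16036) (nat_lit 6) (nat_lit 211) (nat_lit 0) (nat_lit 286) (nat_lit 283) (nat_lit 211)))) (PT.nd (nat_lit 156) (PT.nd (nat_lit 78) (PT.lf (nat_lit 15428) (nat_lit 6) (nat_lit 203) (nat_lit 0) (nat_lit 287) (nat_lit 283) (nat_lit 210)) (PT.lf (nat_lit 14896) (nat_lit 6) (nat_lit 196) (nat_lit 0) (nat_lit 288) (nat_lit 283) (nat_lit 209))) (PT.nd (nat_lit 78) (PT.lf (nat_lit 14364) (nat_lit 6) (nat_lit 189) (nat_lit 0) (nat_lit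 289) (nat_lit 283) (nat_lit 208)) (PT.lf (nat_lit 13832) (nat_lit 6) (nat_lit 182) (nat_lit 0) (nat_lit 290) (nat_lit 283) (nat_lit 207))))) (PT.nd (nat_lit 74412) (PT.nd (nat_lit 156) (PT.nd (nat_lit 78) (PT.lf (nat_lit 13300) (nat_lit 6) (nat_lit 175) (nat_lit 0) (nat_lit 291) (nat_lit 283) (nat_lit 206)) (PT.lf (nat_lit 12844) (nat_lit 6) (nat_lit 169) (nat_lit 0) (nat_lit 292) (nat_lit 283) (nat_lit 205))) (PT.nd (nat_lit 74178) (PT.lf (nat_lit 12312) (nat_lit 6) (nat_lit 162) (nat_lit 0) (nat_lit 293) (nat_lit 283) (nat_lit 204)) (PT.lf (nat_lit 11932) (nat_lit 6) (nat_lit 157) (nat_lit 5) (nat_lit 203) (nat_lit 284) (nat_lit 293)))) (PT.nd (nat_lit 156) (PT.nd (nat_lit 78) (PT.lf (nat_lit 12388) (nat_lit 6) (nat_lit 163) (nat_lit 5) (nat_lit 204) (nat_lit 284) (nat_lit 292)) (PT.lf (nat_lit 12920) (nat_lit 6) (nat_lit 170) (nat_lit 5) (nat_lit 205) (nat_lit 284) (nat_lit 291))) (PT.nd (nat_lit 78) (PT.lf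 (nat_lit 13376) (nat_lit 6) (nat_lit 176) (nat_lit 5) (nat_lit 206) (nat_lit 284) (nat_lit 290)) (PT.lf (nat_lit 13908) (nat_lit 6) (nat_lit 183) (nat_lit 5) (nat_lit 207) (nat_lit 284) (nat_lit 289)))))) (PT.nd (nat_lit 546) (PT.nd (nat_lit 234) (PT.nd (nat_lit 78) (PT.lf (nat_lit 14440) (nat_lit 6) (nat_lit 190) (nat_lit 5) (nat_lit 208) (nat_lit 284) (nat_lit 288)) (PT.nd (nat_lit 78) (PT.lf (nat_lit 14972) (nat_lit 6) (nat_lit 197) (nat_lit 5) (nat_lit 209) (nat_lit 284) (nat_lit 287)) (PT.lf (nat_lit 15504) (nat_lit 6) (nat_lit 204) (nat_lit 5) (nat_lit 210) (nat_lit 284) (nat_lit 286)))) (PT.nd (nat_lit 156) (PT.nd (nat_lit 78) (PT.lf (nat_lit 16112) (nat_lit 6) (nat_lit 212) (nat_lit 5) (nat_lit 211) (nat_lit 284) (nat_lit 285)) (PT.lf (nat_lit 16644) (nat_lit 3) (nat_lit 219) (nat_lit 4) (nat_lit 212) (nat_lit 284) (nat_lit 284))) (PT.nd (nat_lit 78) (PT.lf (nat_lit 17176) (nat_lit 6) (nat_lit 226) (nat_lit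 4) (nat_lit 213) (nat_lit 284) (nat_lit 283)) (PT.lf (nat_lit 17708) (nat_lit 6) (nat_lit 233) (nat_lit 4) (nat_lit 214) (nat_lit 284) (nat_lit 282))))) (PT.nd (nat_lit 312) (PT.nd (nat_lit 156) (PT.nd (nat_lit 78) (PT.lf (nat_lit 18240) (nat_lit 6) (nat_lit 240) (nat_lit 4) (nat_lit 215) (nat_lit 284) (nat_lit 281)) (PT.lf (nat_lit 18772) (nat_lit 6) (nat_lit 247) (nat_lit 4) (nat_lit 216) (nat_lit 284) (nat_lit 280))) (PT.nd (nat_lit 78) (PT.lf (nat_lit 19380) (nat_lit 6) (nat_lit 255) (nat_lit 4) (nat_lit 217) (nat_lit 284) (nat_lit 279)) (PT.lf (nat_lit 19912) (nat_lit 6) (nat_lit 262) (nat_lit 4) (nat_lit 218) (nat_lit 284) (nat_lit 278)))) (PT.nd (nat_lit 156) (PT.nd (nat_lit 78) (PT.lf (nat_lit 20520) (nat_lit 6) (nat_lit 270) (nat_lit 4) (nat_lit 219) (nat_lit 284) (nat_lit 277)) (PT.lf (nat_lit 21128) (nat_lit 6) (nat_lit 278) (nat_lit 4) (nat_lit 220) (nat_lit 284) (nat_lit 276))) (PT.nd (nat_lit 78)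 (PT.lf (nat_lit 21812) (nat_lit 6) (nat_lit 287) (nat_lit 4) (nat_lit 221) (nat_lit 284) (nat_lit 275)) (PT.lf (nat_lit 22420) (nat_lit 6) (nat_lit 295) (nat_lit 4) (nat_lit 222) (nat_lit 284) (nat_lit 274))))))) (PT.nd (nat_lit 1170) (PT.nd (nat_lit 546) (PT.nd (nat_lit 234) (PT.nd (nat_lit 78) (PT.lf (nat_lit 23104) (nat_lit 6) (nat_lit 304) (nat_lit 4) (nat_lit 223) (nat_lit 284) (nat_lit 273)) (PT.nd (nat_lit 78) (PT.lf (nat_lit 23788) (nat_lit 6) (nat_lit 313) (nat_lit 4) (nat_lit 224) (nat_lit 284) (nat_lit 272)) (PT.lf (nat_lit 24548) (nat_lit 6) (nat_lit 323) (nat_lit 4) (nat_lit 225) (nat_lit 284) (nat_lit 271)))) (PT.nd (nat_lit 156) (PT.nd (nat_lit 78) (PT.lf (nat_lit 25232) (nat_lit 6) (nat_lit 332) (nat_lit 4) (nat_lit 226) (nat_lit 284) (nat_lit 270)) (PT.lf (nat_lit 25992) (nat_lit 6) (nat_lit 342) (nat_lit 4) (nat_lit 227) (nat_lit 284) (nat_lit 269))) (PT.nd (nat_lit 78) (PT.lf (nat_lit 26752)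 (nat_lit 6) (nat_lit 352) (nat_lit 4) (nat_lit 228) (nat_lit 284) (nat_lit 268)) (PT.lf (nat_lit 27588) (nat_lit 6) (nat_lit 363) (nat_lit 4) (nat_lit 229) (nat_lit 284) (nat_lit 267))))) (PT.nd (nat_lit 312) (PT.nd (nat_lit 156) (PT.nd (nat_lit 78) (PT.lf (nat_lit 28348) (nat_lit 6) (nat_lit 373) (nat_lit 4) (nat_lit 230) (nat_lit 284) (nat_lit 266)) (PT.lf (nat_lit 29184) (nat_lit 6) (nat_lit 384) (nat_lit 4) (nat_lit 231) (nat_lit 284) (nat_lit 265))) (PT.nd (nat_lit 78) (PT.lf (nat_lit 30020) (nat_lit 6) (nat_lit 395) (nat_lit 4) (nat_lit 232) (nat_lit 284) (nat_lit 264)) (PT.lf (nat_lit 30932) (nat_lit 6) (nat_lit 407) (nat_lit 4) (nat_lit 233) (nat_lit 284) (nat_lit 263)))) (PT.nd (nat_lit 156) (PT.nd (nat_lit 78) (PT.lf (nat_lit 31844) (nat_lit 6) (nat_lit 419) (nat_lit 4) (nat_lit 234) (nat_lit 284) (nat_lit 262)) (PT.lf (nat_lit 32832) (nat_lit 6) (nat_lit 432) (nat_lit 4) (nat_lit 235) (nat_lit 284) (nat_lit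 261))) (PT.nd (nat_lit 78) (PT.lf (nat_lit 34504) (nat_lit 6) (nat_lit 454) (nat_lit 4) (nat_lit 236) (nat_lit 284) (nat_lit 260)) (PT.lf (nat_lit 34428) (nat_lit 6) (nat_lit 453) (nat_lit 4) (nat_lit 237) (nat_lit 284) (nat_lit 259)))))) (PT.nd (nat_lit 546) (PT.nd (nat_lit 234) (PT.nd (nat_lit 78) (PT.lf (nat_lit 34352) (nat_lit 6) (nat_lit 452) (nat_lit 4) (nat_lit 238) (nat_lit 284) (nat_lit 258)) (PT.nd (nat_lit 78) (PT.lf (nat_lit 34276) (nat_lit 6) (nat_lit 451) (nat_lit 4) (nat_lit 239) (nat_lit 284) (nat_lit 257)) (PT.lf (nat_lit 34200) (nat_lit 6) (nat_lit 450) (nat_lit 4) (nat_lit 240) (nat_lit 284) (nat_lit 256)))) (PT.nd (nat_lit 156) (PT.nd (nat_lit 78) (PT.lf (nat_lit 34124) (nat_lit 6) (nat_lit 449) (nat_lit 4) (nat_lit 241) (nat_lit 284) (nat_lit 255)) (PT.lf (nat_lit 34048) (nat_lit 6) (nat_lit 448) (nat_lit 4) (nat_lit 242) (nat_lit 284) (nat_lit 254))) (PT.nd (nat_lit 78) (PT.lf (nat_lit 33972)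 (nat_lit 6) (nat_lit 447) (nat_lit 4) (nat_lit 243) (nat_lit 284) (nat_lit 253)) (PT.lf (nat_lit 33896) (nat_lit 6) (nat_lit 446) (nat_lit 4) (nat_lit 244) (nat_lit 284) (nat_lit 252))))) (PT.nd (nat_lit 702) (PT.nd (nat_lit 546) (PT.nd (nat_lit 468) (PT.lf (nat_lit 33820) (nat_lit 6) (nat_lit 445) (nat_lit 4) (nat_lit 245) (nat_lit 284) (nat_lit 251)) (PT.lf (nat_lit 33820) (nat_lit 6) (nat_lit 445) (nat_lit 2) (nat_lit 251) (nat_lit 284) (nat_lit 245))) (PT.nd (nat_lit 78) (PT.lf (nat_lit 33896) (nat_lit 6) (nat_lit 446) (nat_lit 2) (nat_lit 252) (nat_lit 284) (nat_lit 244)) (PT.lf (nat_lit 33972) (nat_lit 6) (nat_lit 447) (nat_lit 2) (nat_lit 253) (nat_lit 284) (nat_lit 243)))) (PT.nd (nat_lit 156) (PT.nd (nat_lit 78) (PT.lf (nat_lit 34048) (nat_lit 6) (nat_lit 448) (nat_lit 2) (nat_lit 254) (nat_lit 284) (nat_lit 242)) (PT.lf (nat_lit 34124) (nat_lit 6) (nat_lit 449) (nat_lit 2) (nat_lit 255) (nat_lit 284)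 (nat_lit 241))) (PT.nd (nat_lit 78) (PT.lf (nat_lit 34200) (nat_lit 6) (nat_lit 450) (nat_lit 2) (nat_lit 256) (nat_lit 284) (nat_lit 240)) (PT.lf (nat_lit 34276) (nat_lit 6) (nat_lit 451) (nat_lit 2) (nat_lit 257) (nat_lit 284) (nat_lit 239))))))))
noncomputable def pc54 : PT := (PT.nd (nat_lit 2340) (PT.nd (nat_lit 1170) (PT.nd (nat_lit 546) (PT.nd (nat_lit 234) (PT.nd (nat_lit 78) (PT.lf (nat_lit 34352) (nat_lit 6) (nat_lit 452) (nat_lit 2) (nat_lit 258) (nat_lit 284) (nat_lit 238)) (PT.nd (nat_lit 78) (PT.lf (nat_lit 34428) (nat_lit 6) (nat_lit 453) (nat_lit 2) (nat_lit 259) (nat_lit 284) (nat_lit 237)) (PT.lf (nat_lit 34504) (nat_lit 6) (nat_lit 454) (nat_lit 2) (nat_lit 260) (nat_lit 284) (nat_lit 236)))) (PT.nd (nat_lit 156) (PT.nd (nat_lit 78) (PT.lf (nat_lit 32832) (nat_lit 6) (nat_lit 432) (nat_lit 2) (nat_lit 261) (nat_lit 284) (nat_lit 235)) (PT.lf (nat_lit 31844) (nat_lit 6) (nat_lit 419) (nat_lit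 2) (nat_lit 262) (nat_lit 284) (nat_lit 234))) (PT.nd (nat_lit 78) (PT.lf (nat_lit 30932) (nat_lit 6) (nat_lit 407) (nat_lit 2) (nat_lit 263) (nat_lit 284) (nat_lit 233)) (PT.lf (nat_lit 30020) (nat_lit 6) (nat_lit 395) (nat_lit 2) (nat_lit 264) (nat_lit 284) (nat_lit 232))))) (PT.nd (nat_lit 312) (PT.nd (nat_lit 156) (PT.nd (nat_lit 78) (PT.lf (nat_lit 29184) (nat_lit 6) (nat_lit 384) (nat_lit 2) (nat_lit 265) (nat_lit 284) (nat_lit 231)) (PT.lf (nat_lit 28348) (nat_lit 6) (nat_lit 373) (nat_lit 2) (nat_lit 266) (nat_lit 284) (nat_lit 230))) (PT.nd (nat_lit 78) (PT.lf (nat_lit 27588) (nat_lit 6) (nat_lit 363) (nat_lit 2) (nat_lit 267) (nat_lit 284) (nat_lit 229)) (PT.lf (nat_lit 26752) (nat_lit 6) (nat_lit 352) (nat_lit 2) (nat_lit 268) (nat_lit 284) (nat_lit 228)))) (PT.nd (nat_lit 156) (PT.nd (nat_lit 78) (PT.lf (nat_lit 25992) (nat_lit 6) (nat_lit 342) (nat_lit 2) (nat_lit 269) (nat_lit 284) (nat_lit 227))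 (PT.lf (nat_lit 25232) (nat_lit 6) (nat_lit 332) (nat_lit 2) (nat_lit 270) (nat_lit 284) (nat_lit 226))) (PT.nd (nat_lit 78) (PT.lf (nat_lit 24548) (nat_lit 6) (nat_lit 323) (nat_lit 2) (nat_lit 271) (nat_lit 284) (nat_lit 225)) (PT.lf (nat_lit 23788) (nat_lit 6) (nat_lit 313) (nat_lit 2) (nat_lit 272) (nat_lit 284) (nat_lit 224)))))) (PT.nd (nat_lit 546) (PT.nd (nat_lit 234) (PT.nd (nat_lit 78) (PT.lf (nat_lit 23104) (nat_lit 6) (nat_lit 304) (nat_lit 2) (nat_lit 273) (nat_lit 284) (nat_lit 223)) (PT.nd (nat_lit 78) (PT.lf (nat_lit 22420) (nat_lit 6) (nat_lit 295) (nat_lit 2) (nat_lit 274) (nat_lit 284) (nat_lit 222)) (PT.lf (nat_lit 21812) (nat_lit 6) (nat_lit 287) (nat_lit 2) (nat_lit 275) (nat_lit 284) (nat_lit 221)))) (PT.nd (nat_lit 156) (PT.nd (nat_lit 78) (PT.lf (nat_lit 21128) (nat_lit 6) (nat_lit 278) (nat_lit 2) (nat_lit 276) (nat_lit 284) (nat_lit 220)) (PT.lf (nat_lit 20520) (nat_lit 6) (nat_lit 270)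 (nat_lit 2) (nat_lit 277) (nat_lit 284) (nat_lit 219))) (PT.nd (nat_lit 78) (PT.lf (nat_lit 19912) (nat_lit 6) (nat_lit 262) (nat_lit 2) (nat_lit 278) (nat_lit 284) (nat_lit 218)) (PT.lf (nat_lit 19380) (nat_lit 6) (nat_lit 255) (nat_lit 2) (nat_lit 279) (nat_lit 284) (nat_lit 217))))) (PT.nd (nat_lit 312) (PT.nd (nat_lit 156) (PT.nd (nat_lit 78) (PT.lf (nat_lit 18772) (nat_lit 6) (nat_lit 247) (nat_lit 2) (nat_lit 280) (nat_lit 284) (nat_lit 216)) (PT.lf (nat_lit 18240) (nat_lit 6) (nat_lit 240) (nat_lit 2) (nat_lit 281) (nat_lit 284) (nat_lit 215))) (PT.nd (nat_lit 78) (PT.lf (nat_lit 17708) (nat_lit 6) (nat_lit 233) (nat_lit 2) (nat_lit 282) (nat_lit 284) (nat_lit 214)) (PT.lf (nat_lit 17176) (nat_lit 6) (nat_lit 226) (nat_lit 2) (nat_lit 283) (nat_lit 284) (nat_lit 213)))) (PT.nd (nat_lit 156) (PT.nd (nat_lit 78) (PT.lf (nat_lit 16644) (nat_lit 3) (nat_lit 219) (nat_lit 0) (nat_lit 284) (nat_lit 284) (nat_lit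 212)) (PT.lf (nat_lit 16112) (nat_lit 6) (nat_lit 212) (nat_lit 0) (nat_lit 285) (nat_lit 284) (nat_lit 211))) (PT.nd (nat_lit 78) (PT.lf (nat_lit 15504) (nat_lit 6) (nat_lit 204) (nat_lit 0) (nat_lit 286) (nat_lit 284) (nat_lit 210)) (PT.lf (nat_lit 14972) (nat_lit 6) (nat_lit 197) (nat_lit 0) (nat_lit 287) (nat_lit 284) (nat_lit 209))))))) (PT.nd (nat_lit 75114) (PT.nd (nat_lit 74490) (PT.nd (nat_lit 234) (PT.nd (nat_lit 78) (PT.lf (nat_lit 14440) (nat_lit 6) (nat_lit 190) (nat_lit 0) (nat_lit 288) (nat_lit 284) (nat_lit 208)) (PT.nd (nat_lit 78) (PT.lf (nat_lit 13908) (nat_lit 6) (nat_lit 183) (nat_lit 0) (nat_lit 289) (nat_lit 284) (nat_lit 207)) (PT.lf (nat_lit 13376) (nat_lit 6) (nat_lit 176) (nat_lit 0) (nat_lit 290) (nat_lit 284) (nat_lit 206)))) (PT.nd (nat_lit 156) (PT.nd (nat_lit 78) (PT.lf (nat_lit 12920) (nat_lit 6) (nat_lit 170) (nat_lit 0) (nat_lit 291) (nat_lit 284) (nat_lit 205)) (PT.lf (nat_lit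 12388) (nat_lit 6) (nat_lit 163) (nat_lit 0) (nat_lit 292) (nat_lit 284) (nat_lit 204))) (PT.nd (nat_lit 74022) (PT.lf (nat_lit 11932) (nat_lit 6) (nat_lit 157) (nat_lit 0) (nat_lit 293) (nat_lit 284) (nat_lit 203)) (PT.lf (nat_lit 11096) (nat_lit 6) (nat_lit 146) (nat_lit 5) (nat_lit 201) (nat_lit 285) (nat_lit 294))))) (PT.nd (nat_lit 312) (PT.nd (nat_lit 156) (PT.nd (nat_lit 78) (PT.lf (nat_lit 11552) (nat_lit 6) (nat_lit 152) (nat_lit 5) (nat_lit 202) (nat_lit 285) (nat_lit 293)) (PT.lf (nat_lit 12008) (nat_lit 6) (nat_lit 158) (nat_lit 5) (nat_lit 203) (nat_lit 285) (nat_lit 292))) (PT.nd (nat_lit 78) (PT.lf (nat_lit 12464) (nat_lit 6) (nat_lit 164) (nat_lit 5) (nat_lit 204) (nat_lit 285) (nat_lit 291)) (PT.lf (nat_lit 12996) (nat_lit 6) (nat_lit 171) (nat_lit 5) (nat_lit 205) (nat_lit 285) (nat_lit 290)))) (PT.nd (nat_lit 156) (PT.nd (nat_lit 78) (PT.lf (nat_lit 13452) (nat_lit 6) (nat_lit 177) (nat_lit 5)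 (nat_lit 206) (nat_lit 285) (nat_lit 289)) (PT.lf (nat_lit 13984) (nat_lit 6) (nat_lit 184) (nat_lit 5) (nat_lit 207) (nat_lit 285) (nat_lit 288))) (PT.nd (nat_lit 78) (PT.lf (nat_lit 14516) (nat_lit 6) (nat_lit 191) (nat_lit 5) (nat_lit 208) (nat_lit 285) (nat_lit 287)) (PT.lf (nat_lit 15048) (nat_lit 6) (nat_lit 198) (nat_lit 5) (nat_lit 209) (nat_lit 285) (nat_lit 286)))))) (PT.nd (nat_lit 546) (PT.nd (nat_lit 234) (PT.nd (nat_lit 78) (PT.lf (nat_lit 15580) (nat_lit 3) (nat_lit 205) (nat_lit 4) (nat_lit 210) (nat_lit 285) (nat_lit 285)) (PT.nd (nat_lit 78) (PT.lf (nat_lit 16112) (nat_lit 6) (nat_lit 212) (nat_lit 4) (nat_lit 211) (nat_lit 285) (nat_lit 284)) (PT.lf (nat_lit 16568) (nat_lit 6) (nat_lit 218) (nat_lit 4) (nat_lit 212) (nat_lit 285) (nat_lit 283)))) (PT.nd (nat_lit 156) (PT.nd (nat_lit 78) (PT.lf (nat_lit 17100) (nat_lit 6) (nat_lit 225) (nat_lit 4) (nat_lit 213) (nat_lit 285) (nat_lit 282)) (PT.lf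 (nat_lit 17632) (nat_lit 6) (nat_lit 232) (nat_lit 4) (nat_lit 214) (nat_lit 285) (nat_lit 281))) (PT.nd (nat_lit 78) (PT.lf (nat_lit 18164) (nat_lit 6) (nat_lit 239) (nat_lit 4) (nat_lit 215) (nat_lit 285) (nat_lit 280)) (PT.lf (nat_lit 18696) (nat_lit 6) (nat_lit 246) (nat_lit 4) (nat_lit 216) (nat_lit 285) (nat_lit 279))))) (PT.nd (nat_lit 312) (PT.nd (nat_lit 156) (PT.nd (nat_lit 78) (PT.lf (nat_lit 19304) (nat_lit 6) (nat_lit 254) (nat_lit 4) (nat_lit 217) (nat_lit 285) (nat_lit 278)) (PT.lf (nat_lit 19836) (nat_lit 6) (nat_lit 261) (nat_lit 4) (nat_lit 218) (nat_lit 285) (nat_lit 277))) (PT.nd (nat_lit 78) (PT.lf (nat_lit 20444) (nat_lit 6) (nat_lit 269) (nat_lit 4) (nat_lit 219) (nat_lit 285) (nat_lit 276)) (PT.lf (nat_lit 21052) (nat_lit 6) (nat_lit 277) (nat_lit 4) (nat_lit 220) (nat_lit 285) (nat_lit 275)))) (PT.nd (nat_lit 156) (PT.nd (nat_lit 78) (PT.lf (nat_lit 21736) (nat_lit 6) (nat_lit 286) (nat_lit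 4) (nat_lit 221) (nat_lit 285) (nat_lit 274)) (PT.lf (nat_lit 22344) (nat_lit 6) (nat_lit 294) (nat_lit 4) (nat_lit 222) (nat_lit 285) (nat_lit 273))) (PT.nd (nat_lit 78) (PT.lf (nat_lit 23028) (nat_lit 6) (nat_lit 303) (nat_lit 4) (nat_lit 223) (nat_lit 285) (nat_lit 272)) (PT.lf (nat_lit 23712) (nat_lit 6) (nat_lit 312) (nat_lit 4) (nat_lit 224) (nat_lit 285) (nat_lit 271))))))))
noncomputable def pc55 : PT := (PT.nd (nat_lit 4368) (PT.nd (nat_lit 3198) (PT.nd (nat_lit 546) (PT.nd (nat_lit 234) (PT.nd (nat_lit 78) (PT.lf (nat_lit 24472) (nat_lit 6) (nat_lit 322) (nat_lit 4) (nat_lit 225) (nat_lit 285) (nat_lit 270)) (PT.nd (nat_lit 78) (PT.lf (nat_lit 25156) (nat_lit 6) (nat_lit 331) (nat_lit 4) (nat_lit 226) (nat_lit 285) (nat_lit 269)) (PT.lf (nat_lit 25916) (nat_lit 6) (nat_lit 341) (nat_lit 4) (nat_lit 227) (nat_lit 285) (nat_lit 268)))) (PT.nd (nat_lit 156) (PT.nd (nat_lit 78) (PT.lf (nat_lit 26676) (nat_lit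 6) (nat_lit 351) (nat_lit 4) (nat_lit 228) (nat_lit 285) (nat_lit 267)) (PT.lf (nat_lit 27512) (nat_lit 6) (nat_lit 362) (nat_lit 4) (nat_lit 229) (nat_lit 285) (nat_lit 266))) (PT.nd (nat_lit 78) (PT.lf (nat_lit 28272) (nat_lit 6) (nat_lit 372) (nat_lit 4) (nat_lit 230) (nat_lit 285) (nat_lit 265)) (PT.lf (nat_lit 29108) (nat_lit 6) (nat_lit 383) (nat_lit 4) (nat_lit 231) (nat_lit 285) (nat_lit 264))))) (PT.nd (nat_lit 2340) (PT.nd (nat_lit 156) (PT.nd (nat_lit 78) (PT.lf (nat_lit 29944) (nat_lit 6) (nat_lit 394) (nat_lit 4) (nat_lit 232) (nat_lit 285) (nat_lit 263)) (PT.lf (nat_lit 30856) (nat_lit 6) (nat_lit 406) (nat_lit 4) (nat_lit 233) (nat_lit 285) (nat_lit 262))) (PT.nd (nat_lit 2106) (PT.lf (nat_lit 31768) (nat_lit 6) (nat_lit 418) (nat_lit 4) (nat_lit 234) (nat_lit 285) (nat_lit 261)) (PT.lf (nat_lit 31768) (nat_lit 6) (nat_lit 418) (nat_lit 2) (nat_lit 261) (nat_lit 285) (nat_lit 234)))) (PT.nd (nat_lit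 156) (PT.nd (nat_lit 78) (PT.lf (nat_lit 30856) (nat_lit 6) (nat_lit 406) (nat_lit 2) (nat_lit 262) (nat_lit 285) (nat_lit 233)) (PT.lf (nat_lit 29944) (nat_lit 6) (nat_lit 394) (nat_lit 2) (nat_lit 263) (nat_lit 285) (nat_lit 232))) (PT.nd (nat_lit 78) (PT.lf (nat_lit 29108) (nat_lit 6) (nat_lit 383) (nat_lit 2) (nat_lit 264) (nat_lit 285) (nat_lit 231)) (PT.lf (nat_lit 28272) (nat_lit 6) (nat_lit 372) (nat_lit 2) (nat_lit 265) (nat_lit 285) (nat_lit 230)))))) (PT.nd (nat_lit 546) (PT.nd (nat_lit 234) (PT.nd (nat_lit 78) (PT.lf (nat_lit 27512) (nat_lit 6) (nat_lit 362) (nat_lit 2) (nat_lit 266) (nat_lit 285) (nat_lit 229)) (PT.nd (nat_lit 78) (PT.lf (nat_lit 26676) (nat_lit 6) (nat_lit 351) (nat_lit 2) (nat_lit 267) (nat_lit 285) (nat_lit 228)) (PT.lf (nat_lit 25916) (nat_lit 6) (nat_lit 341) (nat_lit 2) (nat_lit 268) (nat_lit 285) (nat_lit 227)))) (PT.nd (nat_lit 156) (PT.nd (nat_lit 78) (PT.lf (nat_lit 25156)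 (nat_lit 6) (nat_lit 331) (nat_lit 2) (nat_lit 269) (nat_lit 285) (nat_lit 226)) (PT.lf (nat_lit 24472) (nat_lit 6) (nat_lit 322) (nat_lit 2) (nat_lit 270) (nat_lit 285) (nat_lit 225))) (PT.nd (nat_lit 78) (PT.lf (nat_lit 23712) (nat_lit 6) (nat_lit 312) (nat_lit 2) (nat_lit 271) (nat_lit 285) (nat_lit 224)) (PT.lf (nat_lit 23028) (nat_lit 6) (nat_lit 303) (nat_lit 2) (nat_lit 272) (nat_lit 285) (nat_lit 223))))) (PT.nd (nat_lit 312) (PT.nd (nat_lit 156) (PT.nd (nat_lit 78) (PT.lf (nat_lit 22344) (nat_lit 6) (nat_lit 294) (nat_lit 2) (nat_lit 273) (nat_lit 285) (nat_lit 222)) (PT.lf (nat_lit 21736) (nat_lit 6) (nat_lit 286) (nat_lit 2) (nat_lit 274) (nat_lit 285) (nat_lit 221))) (PT.nd (nat_lit 78) (PT.lf (nat_lit 21052) (nat_lit 6) (nat_lit 277) (nat_lit 2) (nat_lit 275) (nat_lit 285) (nat_lit 220)) (PT.lf (nat_lit 20444) (nat_lit 6) (nat_lit 269) (nat_lit 2) (nat_lit 276) (nat_lit 285) (nat_lit 219)))) (PT.nd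 (nat_lit 156) (PT.nd (nat_lit 78) (PT.lf (nat_lit 19836) (nat_lit 6) (nat_lit 261) (nat_lit 2) (nat_lit 277) (nat_lit 285) (nat_lit 218)) (PT.lf (nat_lit 19304) (nat_lit 6) (nat_lit 254) (nat_lit 2) (nat_lit 278) (nat_lit 285) (nat_lit 217))) (PT.nd (nat_lit 78) (PT.lf (nat_lit 18696) (nat_lit 6) (nat_lit 246) (nat_lit 2) (nat_lit 279) (nat_lit 285) (nat_lit 216)) (PT.lf (nat_lit 18164) (nat_lit 6) (nat_lit 239) (nat_lit 2) (nat_lit 280) (nat_lit 285) (nat_lit 215))))))) (PT.nd (nat_lit 74880) (PT.nd (nat_lit 546) (PT.nd (nat_lit 234) (PT.nd (nat_lit 78) (PT.lf (nat_lit 17632) (nat_lit 6) (nat_lit 232) (nat_lit 2) (nat_lit 281) (nat_lit 285) (nat_lit 214)) (PT.nd (nat_lit 78) (PT.lf (nat_lit 17100) (nat_lit 6) (nat_lit 225) (nat_lit 2) (nat_lit 282) (nat_lit 285) (nat_lit 213)) (PT.lf (nat_lit 16568) (nat_lit 6) (nat_lit 218) (nat_lit 2) (nat_lit 283) (nat_lit 285) (nat_lit 212)))) (PT.nd (nat_lit 156) (PT.nd (nat_lit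 78) (PT.lf (nat_lit 16112) (nat_lit 6) (nat_lit 212) (nat_lit 2) (nat_lit 284) (nat_lit 285) (nat_lit 211)) (PT.lf (nat_lit 15580) (nat_lit 3) (nat_lit 205) (nat_lit 0) (nat_lit 285) (nat_lit 285) (nat_lit 210))) (PT.nd (nat_lit 78) (PT.lf (nat_lit 15048) (nat_lit 6) (nat_lit 198) (nat_lit 0) (nat_lit 286) (nat_lit 285) (nat_lit 209)) (PT.lf (nat_lit 14516) (nat_lit 6) (nat_lit 191) (nat_lit 0) (nat_lit 287) (nat_lit 285) (nat_lit 208))))) (PT.nd (nat_lit 312) (PT.nd (nat_lit 156) (PT.nd (nat_lit 78) (PT.lf (nat_lit 13984) (nat_lit 6) (nat_lit 184) (nat_lit 0) (nat_lit 288) (nat_lit 285) (nat_lit 207)) (PT.lf (nat_lit 13452) (nat_lit 6) (nat_lit 177) (nat_lit 0) (nat_lit 289) (nat_lit 285) (nat_lit 206))) (PT.nd (nat_lit 78) (PT.lf (nat_lit 12996) (nat_lit 6) (nat_lit 171) (nat_lit 0) (nat_lit 290) (nat_lit 285) (nat_lit 205)) (PT.lf (nat_lit 12464) (nat_lit 6) (nat_lit 164) (nat_lit 0) (nat_lit 291) (nat_lit 285)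 (nat_lit 204)))) (PT.nd (nat_lit 156) (PT.nd (nat_lit 78) (PT.lf (nat_lit 12008) (nat_lit 6) (nat_lit 158) (nat_lit 0) (nat_lit 292) (nat_lit 285) (nat_lit 203)) (PT.lf (nat_lit 11552) (nat_lit 6) (nat_lit 152) (nat_lit 0) (nat_lit 293) (nat_lit 285) (nat_lit 202))) (PT.nd (nat_lit 73788) (PT.lf (nat_lit 11096) (nat_lit 6) (nat_lit 146) (nat_lit 0) (nat_lit 294) (nat_lit 285) (nat_lit 201)) (PT.lf (nat_lit 10336) (nat_lit 6) (nat_lit 136) (nat_lit 5) (nat_lit 199) (nat_lit 286) (nat_lit 295)))))) (PT.nd (nat_lit 624) (PT.nd (nat_lit 312) (PT.nd (nat_lit 156) (PT.nd (nat_lit 78) (PT.lf (nat_lit 10716) (nat_lit 6) (nat_lit 141) (nat_lit 5) (nat_lit 200) (nat_lit 286) (nat_lit 294)) (PT.lf (nat_lit 11172) (nat_lit 6) (nat_lit 147) (nat_lit 5) (nat_lit 201) (nat_lit 286) (nat_lit 293))) (PT.nd (nat_lit 78) (PT.lf (nat_lit 11628) (nat_lit 6) (nat_lit 153) (nat_lit 5) (nat_lit 202) (nat_lit 286) (nat_lit 292)) (PT.lf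 (nat_lit 12084) (nat_lit 6) (nat_lit 159) (nat_lit 5) (nat_lit 203) (nat_lit 286) (nat_lit 291)))) (PT.nd (nat_lit 156) (PT.nd (nat_lit 78) (PT.lf (nat_lit 12540) (nat_lit 6) (nat_lit 165) (nat_lit 5) (nat_lit 204) (nat_lit 286) (nat_lit 290)) (PT.lf (nat_lit 13072) (nat_lit 6) (nat_lit 172) (nat_lit 5) (nat_lit 205) (nat_lit 286) (nat_lit 289))) (PT.nd (nat_lit 78) (PT.lf (nat_lit 13528) (nat_lit 6) (nat_lit 178) (nat_lit 5) (nat_lit 206) (nat_lit 286) (nat_lit 288)) (PT.lf (nat_lit 14060) (nat_lit 6) (nat_lit 185) (nat_lit 5) (nat_lit 207) (nat_lit 286) (nat_lit 287))))) (PT.nd (nat_lit 312) (PT.nd (nat_lit 156) (PT.nd (nat_lit 78) (PT.lf (nat_lit 14592) (nat_lit 3) (nat_lit 192) (nat_lit 4) (nat_lit 208) (nat_lit 286) (nat_lit 286)) (PT.lf (nat_lit 15048) (nat_lit 6) (nat_lit 198) (nat_lit 4) (nat_lit 209) (nat_lit 286) (nat_lit 285))) (PT.nd (nat_lit 78) (PT.lf (nat_lit 15504) (nat_lit 6) (nat_lit 204) (nat_lit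 4) (nat_lit 210) (nat_lit 286) (nat_lit 284)) (PT.lf (nat_lit 16036) (nat_lit 6) (nat_lit 211) (nat_lit 4) (nat_lit 211) (nat_lit 286) (nat_lit 283)))) (PT.nd (nat_lit 156) (PT.nd (nat_lit 78) (PT.lf (nat_lit 16492) (nat_lit 6) (nat_lit 217) (nat_lit 4) (nat_lit 212) (nat_lit 286) (nat_lit 282)) (PT.lf (nat_lit 17024) (nat_lit 6) (nat_lit 224) (nat_lit 4) (nat_lit 213) (nat_lit 286) (nat_lit 281))) (PT.nd (nat_lit 78) (PT.lf (nat_lit 17556) (nat_lit 6) (nat_lit 231) (nat_lit 4) (nat_lit 214) (nat_lit 286) (nat_lit 280)) (PT.lf (nat_lit 18088) (nat_lit 6) (nat_lit 238) (nat_lit 4) (nat_lit 215) (nat_lit 286) (nat_lit 279))))))))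
noncomputable def pc56 : PT := (PT.nd (nat_lit 5070) (PT.nd (nat_lit 3900) (PT.nd (nat_lit 546) (PT.nd (nat_lit 234) (PT.nd (nat_lit 78) (PT.lf (nat_lit 18620) (nat_lit 6) (nat_lit 245) (nat_lit 4) (nat_lit 216) (nat_lit 286) (nat_lit 278)) (PT.nd (nat_lit 78) (PT.lf (nat_lit 19228) (nat_lit 6) (nat_lit 253) (nat_lit 4) (nat_lit 217) (nat_lit 286) (nat_lit 277)) (PT.lf (nat_lit 19760) (nat_lit 6) (nat_lit 260) (nat_lit 4) (nat_lit 218) (nat_lit 286) (nat_lit 276)))) (PT.nd (nat_lit 156) (PT.nd (nat_lit 78) (PT.lf (nat_lit 20368) (nat_lit 6) (nat_lit 268) (nat_lit 4) (nat_lit 219) (nat_lit 286) (nat_lit 275)) (PT.lf (nat_lit 20976) (nat_lit 6) (nat_lit 276) (nat_lit 4) (nat_lit 220) (nat_lit 286) (nat_lit 274))) (PT.nd (nat_lit 78) (PT.lf (nat_lit 21660) (nat_lit 6) (nat_lit 285) (nat_lit 4) (nat_lit 221) (nat_lit 286) (nat_lit 273)) (PT.lf (nat_lit 22268) (nat_lit 6) (nat_lit 293) (nat_lit 4) (nat_lit 222) (nat_lit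 286) (nat_lit 272))))) (PT.nd (nat_lit 312) (PT.nd (nat_lit 156) (PT.nd (nat_lit 78) (PT.lf (nat_lit 22952) (nat_lit 6) (nat_lit 302) (nat_lit 4) (nat_lit 223) (nat_lit 286) (nat_lit 271)) (PT.lf (nat_lit 23636) (nat_lit 6) (nat_lit 311) (nat_lit 4) (nat_lit 224) (nat_lit 286) (nat_lit 270))) (PT.nd (nat_lit 78) (PT.lf (nat_lit 24396) (nat_lit 6) (nat_lit 321) (nat_lit 4) (nat_lit 225) (nat_lit 286) (nat_lit 269)) (PT.lf (nat_lit 25080) (nat_lit 6) (nat_lit 330) (nat_lit 4) (nat_lit 226) (nat_lit 286) (nat_lit 268)))) (PT.nd (nat_lit 156) (PT.nd (nat_lit 78) (PT.lf (nat_lit 25840) (nat_lit 6) (nat_lit 340) (nat_lit 4) (nat_lit 227) (nat_lit 286) (nat_lit 267)) (PT.lf (nat_lit 26600) (nat_lit 6) (nat_lit 350) (nat_lit 4) (nat_lit 228) (nat_lit 286) (nat_lit 266))) (PT.nd (nat_lit 2808) (PT.lf (nat_lit 27436) (nat_lit 6) (nat_lit 361) (nat_lit 4) (nat_lit 229) (nat_lit 286) (nat_lit 265)) (PT.lf (nat_lit 27436) (nat_lit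 6) (nat_lit 361) (nat_lit 2) (nat_lit 265) (nat_lit 286) (nat_lit 229)))))) (PT.nd (nat_lit 546) (PT.nd (nat_lit 234) (PT.nd (nat_lit 78) (PT.lf (nat_lit 26600) (nat_lit 6) (nat_lit 350) (nat_lit 2) (nat_lit 266) (nat_lit 286) (nat_lit 228)) (PT.nd (nat_lit 78) (PT.lf (nat_lit 25840) (nat_lit 6) (nat_lit 340) (nat_lit 2) (nat_lit 267) (nat_lit 286) (nat_lit 227)) (PT.lf (nat_lit 25080) (nat_lit 6) (nat_lit 330) (nat_lit 2) (nat_lit 268) (nat_lit 286) (nat_lit 226)))) (PT.nd (nat_lit 156) (PT.nd (nat_lit 78) (PT.lf (nat_lit 24396) (nat_lit 6) (nat_lit 321) (nat_lit 2) (nat_lit 269) (nat_lit 286) (nat_lit 225)) (PT.lf (nat_lit 23636) (nat_lit 6) (nat_lit 311) (nat_lit 2) (nat_lit 270) (nat_lit 286) (nat_lit 224))) (PT.nd (nat_lit 78) (PT.lf (nat_lit 22952) (nat_lit 6) (nat_lit 302) (nat_lit 2) (nat_lit 271) (nat_lit 286) (nat_lit 223)) (PT.lf (nat_lit 22268) (nat_lit 6) (nat_lit 293) (nat_lit 2) (nat_lit 272) (nat_lit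 286) (nat_lit 222))))) (PT.nd (nat_lit 312) (PT.nd (nat_lit 156) (PT.nd (nat_lit 78) (PT.lf (nat_lit 21660) (nat_lit 6) (nat_lit 285) (nat_lit 2) (nat_lit 273) (nat_lit 286) (nat_lit 221)) (PT.lf (nat_lit 20976) (nat_lit 6) (nat_lit 276) (nat_lit 2) (nat_lit 274) (nat_lit 286) (nat_lit 220))) (PT.nd (nat_lit 78) (PT.lf (nat_lit 20368) (nat_lit 6) (nat_lit 268) (nat_lit 2) (nat_lit 275) (nat_lit 286) (nat_lit 219)) (PT.lf (nat_lit 19760) (nat_lit 6) (nat_lit 260) (nat_lit 2) (nat_lit 276) (nat_lit 286) (nat_lit 218)))) (PT.nd (nat_lit 156) (PT.nd (nat_lit 78) (PT.lf (nat_lit 19228) (nat_lit 6) (nat_lit 253) (nat_lit 2) (nat_lit 277) (nat_lit 286) (nat_lit 217)) (PT.lf (nat_lit 18620) (nat_lit 6) (nat_lit 245) (nat_lit 2) (nat_lit 278) (nat_lit 286) (nat_lit 216))) (PT.nd (nat_lit 78) (PT.lf (nat_lit 18088) (nat_lit 6) (nat_lit 238) (nat_lit 2) (nat_lit 279) (nat_lit 286) (nat_lit 215)) (PT.lf (nat_lit 17556) (nat_lit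 6) (nat_lit 231) (nat_lit 2) (nat_lit 280) (nat_lit 286) (nat_lit 214))))))) (PT.nd (nat_lit 74724) (PT.nd (nat_lit 546) (PT.nd (nat_lit 234) (PT.nd (nat_lit 78) (PT.lf (nat_lit 17024) (nat_lit 6) (nat_lit 224) (nat_lit 2) (nat_lit 281) (nat_lit 286) (nat_lit 213)) (PT.nd (nat_lit 78) (PT.lf (nat_lit 16492) (nat_lit 6) (nat_lit 217) (nat_lit 2) (nat_lit 282) (nat_lit 286) (nat_lit 212)) (PT.lf (nat_lit 16036) (nat_lit 6) (nat_lit 211) (nat_lit 2) (nat_lit 283) (nat_lit 286) (nat_lit 211)))) (PT.nd (nat_lit 156) (PT.nd (nat_lit 78) (PT.lf (nat_lit 15504) (nat_lit 6) (nat_lit 204) (nat_lit 2) (nat_lit 284) (nat_lit 286) (nat_lit 210)) (PT.lf (nat_lit 15048) (nat_lit 6) (nat_lit 198) (nat_lit 2) (nat_lit 285) (nat_lit 286) (nat_lit 209))) (PT.nd (nat_lit 78) (PT.lf (nat_lit 14592) (nat_lit 3) (nat_lit 192) (nat_lit 0) (nat_lit 286) (nat_lit 286) (nat_lit 208)) (PT.lf (nat_lit 14060) (nat_lit 6) (nat_lit 185) (nat_lit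 0) (nat_lit 287) (nat_lit 286) (nat_lit 207))))) (PT.nd (nat_lit 312) (PT.nd (nat_lit 156) (PT.nd (nat_lit 78) (PT.lf (nat_lit 13528) (nat_lit 6) (nat_lit 178) (nat_lit 0) (nat_lit 288) (nat_lit 286) (nat_lit 206)) (PT.lf (nat_lit 13072) (nat_lit 6) (nat_lit 172) (nat_lit 0) (nat_lit 289) (nat_lit 286) (nat_lit 205))) (PT.nd (nat_lit 78) (PT.lf (nat_lit 12540) (nat_lit 6) (nat_lit 165) (nat_lit 0) (nat_lit 290) (nat_lit 286) (nat_lit 204)) (PT.lf (nat_lit 12084) (nat_lit 6) (nat_lit 159) (nat_lit 0) (nat_lit 291) (nat_lit 286) (nat_lit 203)))) (PT.nd (nat_lit 156) (PT.nd (nat_lit 78) (PT.lf (nat_lit 11628) (nat_lit 6) (nat_lit 153) (nat_lit 0) (nat_lit 292) (nat_lit 286) (nat_lit 202)) (PT.lf (nat_lit 11172) (nat_lit 6) (nat_lit 147) (nat_lit 0) (nat_lit 293) (nat_lit 286) (nat_lit 201))) (PT.nd (nat_lit 78) (PT.lf (nat_lit 10716) (nat_lit 6) (nat_lit 141) (nat_lit 0) (nat_lit 294) (nat_lit 286) (nat_lit 200))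 (PT.lf (nat_lit 10336) (nat_lit 6) (nat_lit 136) (nat_lit 0) (nat_lit 295) (nat_lit 286) (nat_lit 199)))))) (PT.nd (nat_lit 546) (PT.nd (nat_lit 234) (PT.nd (nat_lit 78) (PT.lf (nat_lit 9956) (nat_lit 6) (nat_lit 131) (nat_lit 5) (nat_lit 198) (nat_lit 287) (nat_lit 295)) (PT.nd (nat_lit 78) (PT.lf (nat_lit 10412) (nat_lit 6) (nat_lit 137) (nat_lit 5) (nat_lit 199) (nat_lit 287) (nat_lit 294)) (PT.lf (nat_lit 10792) (nat_lit 6) (nat_lit 142) (nat_lit 5) (nat_lit 200) (nat_lit 287) (nat_lit 293)))) (PT.nd (nat_lit 156) (PT.nd (nat_lit 78) (PT.lf (nat_lit 11248) (nat_lit 6) (nat_lit 148) (nat_lit 5) (nat_lit 201) (nat_lit 287) (nat_lit 292)) (PT.lf (nat_lit 11704) (nat_lit 6) (nat_lit 154) (nat_lit 5) (nat_lit 202) (nat_lit 287) (nat_lit 291))) (PT.nd (nat_lit 78) (PT.lf (nat_lit 12160) (nat_lit 6) (nat_lit 160) (nat_lit 5) (nat_lit 203) (nat_lit 287) (nat_lit 290)) (PT.lf (nat_lit 12616) (nat_lit 6) (nat_lit 166)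 (nat_lit 5) (nat_lit 204) (nat_lit 287) (nat_lit 289))))) (PT.nd (nat_lit 312) (PT.nd (nat_lit 156) (PT.nd (nat_lit 78) (PT.lf (nat_lit 13148) (nat_lit 6) (nat_lit 173) (nat_lit 5) (nat_lit 205) (nat_lit 287) (nat_lit 288)) (PT.lf (nat_lit 13604) (nat_lit 3) (nat_lit 179) (nat_lit 4) (nat_lit 206) (nat_lit 287) (nat_lit 287))) (PT.nd (nat_lit 78) (PT.lf (nat_lit 14060) (nat_lit 6) (nat_lit 185) (nat_lit 4) (nat_lit 207) (nat_lit 287) (nat_lit 286)) (PT.lf (nat_lit 14516) (nat_lit 6) (nat_lit 191) (nat_lit 4) (nat_lit 208) (nat_lit 287) (nat_lit 285)))) (PT.nd (nat_lit 156) (PT.nd (nat_lit 78) (PT.lf (nat_lit 14972) (nat_lit 6) (nat_lit 197) (nat_lit 4) (nat_lit 209) (nat_lit 287) (nat_lit 284)) (PT.lf (nat_lit 15428) (nat_lit 6) (nat_lit 203) (nat_lit 4) (nat_lit 210) (nat_lit 287) (nat_lit 283))) (PT.nd (nat_lit 78) (PT.lf (nat_lit 15960) (nat_lit 6) (nat_lit 210) (nat_lit 4) (nat_lit 211) (nat_lit 287) (nat_lit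 282)) (PT.lf (nat_lit 16416) (nat_lit 6) (nat_lit 216) (nat_lit 4) (nat_lit 212) (nat_lit 287) (nat_lit 281))))))))
noncomputable def pc57 : PT := (PT.nd (nat_lit 5772) (PT.nd (nat_lit 4602) (PT.nd (nat_lit 546) (PT.nd (nat_lit 234) (PT.nd (nat_lit 78) (PT.lf (nat_lit 16948) (nat_lit 6) (nat_lit 223) (nat_lit 4) (nat_lit 213) (nat_lit 287) (nat_lit 280)) (PT.nd (nat_lit 78) (PT.lf (nat_lit 17480) (nat_lit 6) (nat_lit 230) (nat_lit 4) (nat_lit 214) (nat_lit 287) (nat_lit 279)) (PT.lf (nat_lit 18012) (nat_lit 6) (nat_lit 237) (nat_lit 4) (nat_lit 215) (nat_lit 287) (nat_lit 278)))) (PT.nd (nat_lit 156) (PT.nd (nat_lit 78) (PT.lf (nat_lit 18544) (nat_lit 6) (nat_lit 244) (nat_lit 4) (nat_lit 216) (nat_lit 287) (nat_lit 277)) (PT.lf (nat_lit 19152) (nat_lit 6) (nat_lit 252) (nat_lit 4) (nat_lit 217) (nat_lit 287) (nat_lit 276))) (PT.nd (nat_lit 78) (PT.lf (nat_lit 19684) (nat_lit 6) (nat_lit 259) (nat_lit 4) (nat_lit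 218) (nat_lit 287) (nat_lit 275)) (PT.lf (nat_lit 20292) (nat_lit 6) (nat_lit 267) (nat_lit 4) (nat_lit 219) (nat_lit 287) (nat_lit 274))))) (PT.nd (nat_lit 312) (PT.nd (nat_lit 156) (PT.nd (nat_lit 78) (PT.lf (nat_lit 20900) (nat_lit 6) (nat_lit 275) (nat_lit 4) (nat_lit 220) (nat_lit 287) (nat_lit 273)) (PT.lf (nat_lit 21584) (nat_lit 6) (nat_lit 284) (nat_lit 4) (nat_lit 221) (nat_lit 287) (nat_lit 272))) (PT.nd (nat_lit 78) (PT.lf (nat_lit 22192) (nat_lit 6) (nat_lit 292) (nat_lit 4) (nat_lit 222) (nat_lit 287) (nat_lit 271)) (PT.lf (nat_lit 22876) (nat_lit 6) (nat_lit 301) (nat_lit 4) (nat_lit 223) (nat_lit 287) (nat_lit 270)))) (PT.nd (nat_lit 3588) (PT.nd (nat_lit 3510) (PT.lf (nat_lit 23560) (nat_lit 6) (nat_lit 310) (nat_lit 4) (nat_lit 224) (nat_lit 287) (nat_lit 269)) (PT.lf (nat_lit 23560) (nat_lit 6) (nat_lit 310) (nat_lit 2) (nat_lit 269) (nat_lit 287) (nat_lit 224))) (PT.nd (nat_lit 78) (PT.lf (nat_lit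 22876) (nat_lit 6) (nat_lit 301) (nat_lit 2) (nat_lit 270) (nat_lit 287) (nat_lit 223)) (PT.lf (nat_lit 22192) (nat_lit 6) (nat_lit 292) (nat_lit 2) (nat_lit 271) (nat_lit 287) (nat_lit 222)))))) (PT.nd (nat_lit 546) (PT.nd (nat_lit 234) (PT.nd (nat_lit 78) (PT.lf (nat_lit 21584) (nat_lit 6) (nat_lit 284) (nat_lit 2) (nat_lit 272) (nat_lit 287) (nat_lit 221)) (PT.nd (nat_lit 78) (PT.lf (nat_lit 20900) (nat_lit 6) (nat_lit 275) (nat_lit 2) (nat_lit 273) (nat_lit 287) (nat_lit 220)) (PT.lf (nat_lit 20292) (nat_lit 6) (nat_lit 267) (nat_lit 2) (nat_lit 274) (nat_lit 287) (nat_lit 219)))) (PT.nd (nat_lit 156) (PT.nd (nat_lit 78) (PT.lf (nat_lit 19684) (nat_lit 6) (nat_lit 259) (nat_lit 2) (nat_lit 275) (nat_lit 287) (nat_lit 218)) (PT.lf (nat_lit 19152) (nat_lit 6) (nat_lit 252) (nat_lit 2) (nat_lit 276) (nat_lit 287) (nat_lit 217))) (PT.nd (nat_lit 78) (PT.lf (nat_lit 18544) (nat_lit 6) (nat_lit 244) (nat_lit 2) (nat_lit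 277) (nat_lit 287) (nat_lit 216)) (PT.lf (nat_lit 18012) (nat_lit 6) (nat_lit 237) (nat_lit 2) (nat_lit 278) (nat_lit 287) (nat_lit 215))))) (PT.nd (nat_lit 312) (PT.nd (nat_lit 156) (PT.nd (nat_lit 78) (PT.lf (nat_lit 17480) (nat_lit 6) (nat_lit 230) (nat_lit 2) (nat_lit 279) (nat_lit 287) (nat_lit 214)) (PT.lf (nat_lit 16948) (nat_lit 6) (nat_lit 223) (nat_lit 2) (nat_lit 280) (nat_lit 287) (nat_lit 213))) (PT.nd (nat_lit 78) (PT.lf (nat_lit 16416) (nat_lit 6) (nat_lit 216) (nat_lit 2) (nat_lit 281) (nat_lit 287) (nat_lit 212)) (PT.lf (nat_lit 15960) (nat_lit 6) (nat_lit 210) (nat_lit 2) (nat_lit 282) (nat_lit 287) (nat_lit 211)))) (PT.nd (nat_lit 156) (PT.nd (nat_lit 78) (PT.lf (nat_lit 15428) (nat_lit 6) (nat_lit 203) (nat_lit 2) (nat_lit 283) (nat_lit 287) (nat_lit 210)) (PT.lf (nat_lit 14972) (nat_lit 6) (nat_lit 197) (nat_lit 2) (nat_lit 284) (nat_lit 287) (nat_lit 209))) (PT.nd (nat_lit 78) (PT.lf (nat_lit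 14516) (nat_lit 6) (nat_lit 191) (nat_lit 2) (nat_lit 285) (nat_lit 287) (nat_lit 208)) (PT.lf (nat_lit 14060) (nat_lit 6) (nat_lit 185) (nat_lit 2) (nat_lit 286) (nat_lit 287) (nat_lit 207))))))) (PT.nd (nat_lit 74646) (PT.nd (nat_lit 546) (PT.nd (nat_lit 234) (PT.nd (nat_lit 78) (PT.lf (nat_lit 13604) (nat_lit 3) (nat_lit 179) (nat_lit 0) (nat_lit 287) (nat_lit 287) (nat_lit 206)) (PT.nd (nat_lit 78) (PT.lf (nat_lit 13148) (nat_lit 6) (nat_lit 173) (nat_lit 0) (nat_lit 288) (nat_lit 287) (nat_lit 205)) (PT.lf (nat_lit 12616) (nat_lit 6) (nat_lit 166) (nat_lit 0) (nat_lit 289) (nat_lit 287) (nat_lit 204)))) (PT.nd (nat_lit 156) (PT.nd (nat_lit 78) (PT.lf (nat_lit 12160) (nat_lit 6) (nat_lit 160) (nat_lit 0) (nat_lit 290) (nat_lit 287) (nat_lit 203)) (PT.lf (nat_lit 11704) (nat_lit 6) (nat_lit 154) (nat_lit 0) (nat_lit 291) (nat_lit 287) (nat_lit 202))) (PT.nd (nat_lit 78) (PT.lf (nat_lit 11248) (nat_lit 6) (nat_lit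 148) (nat_lit 0) (nat_lit 292) (nat_lit 287) (nat_lit 201)) (PT.lf (nat_lit 10792) (nat_lit 6) (nat_lit 142) (nat_lit 0) (nat_lit 293) (nat_lit 287) (nat_lit 200))))) (PT.nd (nat_lit 73788) (PT.nd (nat_lit 73632) (PT.nd (nat_lit 78) (PT.lf (nat_lit 10412) (nat_lit 6) (nat_lit 137) (nat_lit 0) (nat_lit 294) (nat_lit 287) (nat_lit 199)) (PT.lf (nat_lit 9956) (nat_lit 6) (nat_lit 131) (nat_lit 0) (nat_lit 295) (nat_lit 287) (nat_lit 198))) (PT.nd (nat_lit 78) (PT.lf (nat_lit 9652) (nat_lit 6) (nat_lit 127) (nat_lit 5) (nat_lit 197) (nat_lit 288) (nat_lit 295)) (PT.lf (nat_lit 10032) (nat_lit 6) (nat_lit 132) (nat_lit 5) (nat_lit 198) (nat_lit 288) (nat_lit 294)))) (PT.nd (nat_lit 156) (PT.nd (nat_lit 78) (PT.lf (nat_lit 10488) (nat_lit 6) (nat_lit 138) (nat_lit 5) (nat_lit 199) (nat_lit 288) (nat_lit 293)) (PT.lf (nat_lit 10868) (nat_lit 6) (nat_lit 143) (nat_lit 5) (nat_lit 200) (nat_lit 288) (nat_lit 292))) (PT.nd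 (nat_lit 78) (PT.lf (nat_lit 11324) (nat_lit 6) (nat_lit 149) (nat_lit 5) (nat_lit 201) (nat_lit 288) (nat_lit 291)) (PT.lf (nat_lit 11780) (nat_lit 6) (nat_lit 155) (nat_lit 5) (nat_lit 202) (nat_lit 288) (nat_lit 290)))))) (PT.nd (nat_lit 546) (PT.nd (nat_lit 234) (PT.nd (nat_lit 78) (PT.lf (nat_lit 12236) (nat_lit 6) (nat_lit 161) (nat_lit 5) (nat_lit 203) (nat_lit 288) (nat_lit 289)) (PT.nd (nat_lit 78) (PT.lf (nat_lit 12692) (nat_lit 3) (nat_lit 167) (nat_lit 4) (nat_lit 204) (nat_lit 288) (nat_lit 288)) (PT.lf (nat_lit 13148) (nat_lit 6) (nat_lit 173) (nat_lit 4) (nat_lit 205) (nat_lit 288) (nat_lit 287)))) (PT.nd (nat_lit 156) (PT.nd (nat_lit 78) (PT.lf (nat_lit 13528) (nat_lit 6) (nat_lit 178) (nat_lit 4) (nat_lit 206) (nat_lit 288) (nat_lit 286)) (PT.lf (nat_lit 13984) (nat_lit 6) (nat_lit 184) (nat_lit 4) (nat_lit 207) (nat_lit 288) (nat_lit 285))) (PT.nd (nat_lit 78) (PT.lf (nat_lit 14440) (nat_lit 6)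 (nat_lit 190) (nat_lit 4) (nat_lit 208) (nat_lit 288) (nat_lit 284)) (PT.lf (nat_lit 14896) (nat_lit 6) (nat_lit 196) (nat_lit 4) (nat_lit 209) (nat_lit 288) (nat_lit 283))))) (PT.nd (nat_lit 312) (PT.nd (nat_lit 156) (PT.nd (nat_lit 78) (PT.lf (nat_lit 15352) (nat_lit 6) (nat_lit 202) (nat_lit 4) (nat_lit 210) (nat_lit 288) (nat_lit 282)) (PT.lf (nat_lit 15884) (nat_lit 6) (nat_lit 209) (nat_lit 4) (nat_lit 211) (nat_lit 288) (nat_lit 281))) (PT.nd (nat_lit 78) (PT.lf (nat_lit 16340) (nat_lit 6) (nat_lit 215) (nat_lit 4) (nat_lit 212) (nat_lit 288) (nat_lit 280)) (PT.lf (nat_lit 16872) (nat_lit 6) (nat_lit 222) (nat_lit 4) (nat_lit 213) (nat_lit 288) (nat_lit 279)))) (PT.nd (nat_lit 156) (PT.nd (nat_lit 78) (PT.lf (nat_lit 17404) (nat_lit 6) (nat_lit 229) (nat_lit 4) (nat_lit 214) (nat_lit 288) (nat_lit 278)) (PT.lf (nat_lit 17936) (nat_lit 6) (nat_lit 236) (nat_lit 4) (nat_lit 215) (nat_lit 288) (nat_lit 277)))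 (PT.nd (nat_lit 78) (PT.lf (nat_lit 18468) (nat_lit 6) (nat_lit 243) (nat_lit 4) (nat_lit 216) (nat_lit 288) (nat_lit 276)) (PT.lf (nat_lit 19076) (nat_lit 6) (nat_lit 251) (nat_lit 4) (nat_lit 217) (nat_lit 288) (nat_lit 275))))))))
noncomputable def pc58 : PT := (PT.nd (nat_lit 79716) (PT.nd (nat_lit 5148) (PT.nd (nat_lit 4524) (PT.nd (nat_lit 4212) (PT.nd (nat_lit 78) (PT.lf (nat_lit 19608) (nat_lit 6) (nat_lit 258) (nat_lit 4) (nat_lit 218) (nat_lit 288) (nat_lit 274)) (PT.nd (nat_lit 78) (PT.lf (nat_lit 20216) (nat_lit 6) (nat_lit 266) (nat_lit 4) (nat_lit 219) (nat_lit 288) (nat_lit 273)) (PT.lf (nat_lit 20824) (nat_lit 6) (nat_lit 274) (nat_lit 4) (nat_lit 220) (nat_lit 288) (nat_lit 272)))) (PT.nd (nat_lit 156) (PT.nd (nat_lit 78) (PT.lf (nat_lit 20824) (nat_lit 6) (nat_lit 274) (nat_lit 2) (nat_lit 272) (nat_lit 288) (nat_lit 220)) (PT.lf (nat_lit 20216) (nat_lit 6) (nat_lit 266) (nat_lit 2) (nat_lit 273)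 (nat_lit 288) (nat_lit 219))) (PT.nd (nat_lit 78) (PT.lf (nat_lit 19608) (nat_lit 6) (nat_lit 258) (nat_lit 2) (nat_lit 274) (nat_lit 288) (nat_lit 218)) (PT.lf (nat_lit 19076) (nat_lit 6) (nat_lit 251) (nat_lit 2) (nat_lit 275) (nat_lit 288) (nat_lit 217))))) (PT.nd (nat_lit 312) (PT.nd (nat_lit 156) (PT.nd (nat_lit 78) (PT.lf (nat_lit 18468) (nat_lit 6) (nat_lit 243) (nat_lit 2) (nat_lit 276) (nat_lit 288) (nat_lit 216)) (PT.lf (nat_lit 17936) (nat_lit 6) (nat_lit 236) (nat_lit 2) (nat_lit 277) (nat_lit 288) (nat_lit 215))) (PT.nd (nat_lit 78) (PT.lf (nat_lit 17404) (nat_lit 6) (nat_lit 229) (nat_lit 2) (nat_lit 278) (nat_lit 288) (nat_lit 214)) (PT.lf (nat_lit 16872) (nat_lit 6) (nat_lit 222) (nat_lit 2) (nat_lit 279) (nat_lit 288) (nat_lit 213)))) (PT.nd (nat_lit 156) (PT.nd (nat_lit 78) (PT.lf (nat_lit 16340) (nat_lit 6) (nat_lit 215) (nat_lit 2) (nat_lit 280) (nat_lit 288) (nat_lit 212)) (PT.lf (nat_lit 15884)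 (nat_lit 6) (nat_lit 209) (nat_lit 2) (nat_lit 281) (nat_lit 288) (nat_lit 211))) (PT.nd (nat_lit 78) (PT.lf (nat_lit 15352) (nat_lit 6) (nat_lit 202) (nat_lit 2) (nat_lit 282) (nat_lit 288) (nat_lit 210)) (PT.lf (nat_lit 14896) (nat_lit 6) (nat_lit 196) (nat_lit 2) (nat_lit 283) (nat_lit 288) (nat_lit 209)))))) (PT.nd (nat_lit 546) (PT.nd (nat_lit 234) (PT.nd (nat_lit 78) (PT.lf (nat_lit 14440) (nat_lit 6) (nat_lit 190) (nat_lit 2) (nat_lit 284) (nat_lit 288) (nat_lit 208)) (PT.nd (nat_lit 78) (PT.lf (nat_lit 13984) (nat_lit 6) (nat_lit 184) (nat_lit 2) (nat_lit 285) (nat_lit 288) (nat_lit 207)) (PT.lf (nat_lit 13528) (nat_lit 6) (nat_lit 178) (nat_lit 2) (nat_lit 286) (nat_lit 288) (nat_lit 206)))) (PT.nd (nat_lit 156) (PT.nd (nat_lit 78) (PT.lf (nat_lit 13148) (nat_lit 6) (nat_lit 173) (nat_lit 2) (nat_lit 287) (nat_lit 288) (nat_lit 205)) (PT.lf (nat_lit 12692) (nat_lit 3) (nat_lit 167) (nat_lit 0) (nat_lit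 288) (nat_lit 288) (nat_lit 204))) (PT.nd (nat_lit 78) (PT.lf (nat_lit 12236) (nat_lit 6) (nat_lit 161) (nat_lit 0) (nat_lit 289) (nat_lit 288) (nat_lit 203)) (PT.lf (nat_lit 11780) (nat_lit 6) (nat_lit 155) (nat_lit 0) (nat_lit 290) (nat_lit 288) (nat_lit 202))))) (PT.nd (nat_lit 312) (PT.nd (nat_lit 156) (PT.nd (nat_lit 78) (PT.lf (nat_lit 11324) (nat_lit 6) (nat_lit 149) (nat_lit 0) (nat_lit 291) (nat_lit 288) (nat_lit 201)) (PT.lf (nat_lit 10868) (nat_lit 6) (nat_lit 143) (nat_lit 0) (nat_lit 292) (nat_lit 288) (nat_lit 200))) (PT.nd (nat_lit 78) (PT.lf (nat_lit 10488) (nat_lit 6) (nat_lit 138) (nat_lit 0) (nat_lit 293) (nat_lit 288) (nat_lit 199)) (PT.lf (nat_lit 10032) (nat_lit 6) (nat_lit 132) (nat_lit 0) (nat_lit 294) (nat_lit 288) (nat_lit 198)))) (PT.nd (nat_lit 73554) (PT.nd (nat_lit 73476) (PT.lf (nat_lit 9652) (nat_lit 6) (nat_lit 127) (nat_lit 0) (nat_lit 295) (nat_lit 288) (nat_lit 197)) (PT.lf (nat_lit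 9348) (nat_lit 6) (nat_lit 123) (nat_lit 5) (nat_lit 196) (nat_lit 289) (nat_lit 295))) (PT.nd (nat_lit 78) (PT.lf (nat_lit 9728) (nat_lit 6) (nat_lit 128) (nat_lit 5) (nat_lit 197) (nat_lit 289) (nat_lit 294)) (PT.lf (nat_lit 10108) (nat_lit 6) (nat_lit 133) (nat_lit 5) (nat_lit 198) (nat_lit 289) (nat_lit 293))))))) (PT.nd (nat_lit 1170) (PT.nd (nat_lit 546) (PT.nd (nat_lit 234) (PT.nd (nat_lit 78) (PT.lf (nat_lit 10564) (nat_lit 6) (nat_lit 139) (nat_lit 5) (nat_lit 199) (nat_lit 289) (nat_lit 292)) (PT.nd (nat_lit 78) (PT.lf (nat_lit 10944) (nat_lit 6) (nat_lit 144) (nat_lit 5) (nat_lit 200) (nat_lit 289) (nat_lit 291)) (PT.lf (nat_lit 11400) (nat_lit 6) (nat_lit 150) (nat_lit 5) (nat_lit 201) (nat_lit 289) (nat_lit 290)))) (PT.nd (nat_lit 156) (PT.nd (nat_lit 78) (PT.lf (nat_lit 11856) (nat_lit 3) (nat_lit 156) (nat_lit 4) (nat_lit 202) (nat_lit 289) (nat_lit 289)) (PT.lf (nat_lit 12236) (nat_lit 6) (nat_lit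 161) (nat_lit 4) (nat_lit 203) (nat_lit 289) (nat_lit 288))) (PT.nd (nat_lit 78) (PT.lf (nat_lit 12616) (nat_lit 6) (nat_lit 166) (nat_lit 4) (nat_lit 204) (nat_lit 289) (nat_lit 287)) (PT.lf (nat_lit 13072) (nat_lit 6) (nat_lit 172) (nat_lit 4) (nat_lit 205) (nat_lit 289) (nat_lit 286))))) (PT.nd (nat_lit 312) (PT.nd (nat_lit 156) (PT.nd (nat_lit 78) (PT.lf (nat_lit 13452) (nat_lit 6) (nat_lit 177) (nat_lit 4) (nat_lit 206) (nat_lit 289) (nat_lit 285)) (PT.lf (nat_lit 13908) (nat_lit 6) (nat_lit 183) (nat_lit 4) (nat_lit 207) (nat_lit 289) (nat_lit 284))) (PT.nd (nat_lit 78) (PT.lf (nat_lit 14364) (nat_lit 6) (nat_lit 189) (nat_lit 4) (nat_lit 208) (nat_lit 289) (nat_lit 283)) (PT.lf (nat_lit 14820) (nat_lit 6) (nat_lit 195) (nat_lit 4) (nat_lit 209) (nat_lit 289) (nat_lit 282)))) (PT.nd (nat_lit 156) (PT.nd (nat_lit 78) (PT.lf (nat_lit 15276) (nat_lit 6) (nat_lit 201) (nat_lit 4) (nat_lit 210) (nat_lit 289) (nat_lit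 281)) (PT.lf (nat_lit 15808) (nat_lit 6) (nat_lit 208) (nat_lit 4) (nat_lit 211) (nat_lit 289) (nat_lit 280))) (PT.nd (nat_lit 78) (PT.lf (nat_lit 16264) (nat_lit 6) (nat_lit 214) (nat_lit 4) (nat_lit 212) (nat_lit 289) (nat_lit 279)) (PT.lf (nat_lit 16796) (nat_lit 6) (nat_lit 221) (nat_lit 4) (nat_lit 213) (nat_lit 289) (nat_lit 278)))))) (PT.nd (nat_lit 4914) (PT.nd (nat_lit 234) (PT.nd (nat_lit 78) (PT.lf (nat_lit 17328) (nat_lit 6) (nat_lit 228) (nat_lit 4) (nat_lit 214) (nat_lit 289) (nat_lit 277)) (PT.nd (nat_lit 78) (PT.lf (nat_lit 17860) (nat_lit 6) (nat_lit 235) (nat_lit 4) (nat_lit 215) (nat_lit 289) (nat_lit 276)) (PT.lf (nat_lit 18392) (nat_lit 6) (nat_lit 242) (nat_lit 4) (nat_lit 216) (nat_lit 289) (nat_lit 275)))) (PT.nd (nat_lit 4524) (PT.nd (nat_lit 4446) (PT.lf (nat_lit 19000) (nat_lit 6) (nat_lit 250) (nat_lit 4) (nat_lit 217) (nat_lit 289) (nat_lit 274)) (PT.lf (nat_lit 19000) (nat_lit 6) (nat_lit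 250) (nat_lit 2) (nat_lit 274) (nat_lit 289) (nat_lit 217))) (PT.nd (nat_lit 78) (PT.lf (nat_lit 18392) (nat_lit 6) (nat_lit 242) (nat_lit 2) (nat_lit 275) (nat_lit 289) (nat_lit 216)) (PT.lf (nat_lit 17860) (nat_lit 6) (nat_lit 235) (nat_lit 2) (nat_lit 276) (nat_lit 289) (nat_lit 215))))) (PT.nd (nat_lit 312) (PT.nd (nat_lit 156) (PT.nd (nat_lit 78) (PT.lf (nat_lit 17328) (nat_lit 6) (nat_lit 228) (nat_lit 2) (nat_lit 277) (nat_lit 289) (nat_lit 214)) (PT.lf (nat_lit 16796) (nat_lit 6) (nat_lit 221) (nat_lit 2) (nat_lit 278) (nat_lit 289) (nat_lit 213))) (PT.nd (nat_lit 78) (PT.lf (nat_lit 16264) (nat_lit 6) (nat_lit 214) (nat_lit 2) (nat_lit 279) (nat_lit 289) (nat_lit 212)) (PT.lf (nat_lit 15808) (nat_lit 6) (nat_lit 208) (nat_lit 2) (nat_lit 280) (nat_lit 289) (nat_lit 211)))) (PT.nd (nat_lit 156) (PT.nd (nat_lit 78) (PT.lf (nat_lit 15276) (nat_lit 6) (nat_lit 201) (nat_lit 2) (nat_lit 281) (nat_lit 289) (nat_lit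 210)) (PT.lf (nat_lit 14820) (nat_lit 6) (nat_lit 195) (nat_lit 2) (nat_lit 282) (nat_lit 289) (nat_lit 209))) (PT.nd (nat_lit 78) (PT.lf (nat_lit 14364) (nat_lit 6) (nat_lit 189) (nat_lit 2) (nat_lit 283) (nat_lit 289) (nat_lit 208)) (PT.lf (nat_lit 13908) (nat_lit 6) (nat_lit 183) (nat_lit 2) (nat_lit 284) (nat_lit 289) (nat_lit 207))))))))
noncomputable def pc59 : PT := (PT.nd (nat_lit 75582) (PT.nd (nat_lit 74412) (PT.nd (nat_lit 546) (PT.nd (nat_lit 234) (PT.nd (nat_lit 78) (PT.lf (nat_lit 13452) (nat_lit 6) (nat_lit 177) (nat_lit 2) (nat_lit 285) (nat_lit 289) (nat_lit 206)) (PT.nd (nat_lit 78) (PT.lf (nat_lit 13072) (nat_lit 6) (nat_lit 172) (nat_lit 2) (nat_lit 286) (nat_lit 289) (nat_lit 205)) (PT.lf (nat_lit 12616) (nat_lit 6) (nat_lit 166) (nat_lit 2) (nat_lit 287) (nat_lit 289) (nat_lit 204)))) (PT.nd (nat_lit 156) (PT.nd (nat_lit 78) (PT.lf (nat_lit 12236) (nat_lit 6) (nat_lit 161) (nat_lit 2) (nat_lit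 288) (nat_lit 289) (nat_lit 203)) (PT.lf (nat_lit 11856) (nat_lit 3) (nat_lit 156) (nat_lit 0) (nat_lit 289) (nat_lit 289) (nat_lit 202))) (PT.nd (nat_lit 78) (PT.lf (nat_lit 11400) (nat_lit 6) (nat_lit 150) (nat_lit 0) (nat_lit 290) (nat_lit 289) (nat_lit 201)) (PT.lf (nat_lit 10944) (nat_lit 6) (nat_lit 144) (nat_lit 0) (nat_lit 291) (nat_lit 289) (nat_lit 200))))) (PT.nd (nat_lit 73554) (PT.nd (nat_lit 156) (PT.nd (nat_lit 78) (PT.lf (nat_lit 10564) (nat_lit 6) (nat_lit 139) (nat_lit 0) (nat_lit 292) (nat_lit 289) (nat_lit 199)) (PT.lf (nat_lit 10108) (nat_lit 6) (nat_lit 133) (nat_lit 0) (nat_lit 293) (nat_lit 289) (nat_lit 198))) (PT.nd (nat_lit 78) (PT.lf (nat_lit 9728) (nat_lit 6) (nat_lit 128) (nat_lit 0) (nat_lit 294) (nat_lit 289) (nat_lit 197)) (PT.lf (nat_lit 9348) (nat_lit 6) (nat_lit 123) (nat_lit 0) (nat_lit 295) (nat_lit 289) (nat_lit 196)))) (PT.nd (nat_lit 156) (PT.nd (nat_lit 78) (PT.lf (nat_lit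 8664) (nat_lit 6) (nat_lit 114) (nat_lit 5) (nat_lit 194) (nat_lit 290) (nat_lit 296)) (PT.lf (nat_lit 9044) (nat_lit 6) (nat_lit 119) (nat_lit 5) (nat_lit 195) (nat_lit 290) (nat_lit 295))) (PT.nd (nat_lit 78) (PT.lf (nat_lit 9424) (nat_lit 6) (nat_lit 124) (nat_lit 5) (nat_lit 196) (nat_lit 290) (nat_lit 294)) (PT.lf (nat_lit 9804) (nat_lit 6) (nat_lit 129) (nat_lit 5) (nat_lit 197) (nat_lit 290) (nat_lit 293)))))) (PT.nd (nat_lit 546) (PT.nd (nat_lit 234) (PT.nd (nat_lit 78) (PT.lf (nat_lit 10184) (nat_lit 6) (nat_lit 134) (nat_lit 5) (nat_lit 198) (nat_lit 290) (nat_lit 292)) (PT.nd (nat_lit 78) (PT.lf (nat_lit 10640) (nat_lit 6) (nat_lit 140) (nat_lit 5) (nat_lit 199) (nat_lit 290) (nat_lit 291)) (PT.lf (nat_lit 11020) (nat_lit 3) (nat_lit 145) (nat_lit 4) (nat_lit 200) (nat_lit 290) (nat_lit 290)))) (PT.nd (nat_lit 156) (PT.nd (nat_lit 78) (PT.lf (nat_lit 11400) (nat_lit 6) (nat_lit 150) (nat_lit 4) (nat_lit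 201) (nat_lit 290) (nat_lit 289)) (PT.lf (nat_lit 11780) (nat_lit 6) (nat_lit 155) (nat_lit 4) (nat_lit 202) (nat_lit 290) (nat_lit 288))) (PT.nd (nat_lit 78) (PT.lf (nat_lit 12160) (nat_lit 6) (nat_lit 160) (nat_lit 4) (nat_lit 203) (nat_lit 290) (nat_lit 287)) (PT.lf (nat_lit 12540) (nat_lit 6) (nat_lit 165) (nat_lit 4) (nat_lit 204) (nat_lit 290) (nat_lit 286))))) (PT.nd (nat_lit 312) (PT.nd (nat_lit 156) (PT.nd (nat_lit 78) (PT.lf (nat_lit 12996) (nat_lit 6) (nat_lit 171) (nat_lit 4) (nat_lit 205) (nat_lit 290) (nat_lit 285)) (PT.lf (nat_lit 13376) (nat_lit 6) (nat_lit 176) (nat_lit 4) (nat_lit 206) (nat_lit 290) (nat_lit 284))) (PT.nd (nat_lit 78) (PT.lf (nat_lit 13832) (nat_lit 6) (nat_lit 182) (nat_lit 4) (nat_lit 207) (nat_lit 290) (nat_lit 283)) (PT.lf (nat_lit 14288) (nat_lit 6) (nat_lit 188) (nat_lit 4) (nat_lit 208) (nat_lit 290) (nat_lit 282)))) (PT.nd (nat_lit 156) (PT.nd (nat_lit 78) (PT.lf (nat_lit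 14744) (nat_lit 6) (nat_lit 194) (nat_lit 4) (nat_lit 209) (nat_lit 290) (nat_lit 281)) (PT.lf (nat_lit 15200) (nat_lit 6) (nat_lit 200) (nat_lit 4) (nat_lit 210) (nat_lit 290) (nat_lit 280))) (PT.nd (nat_lit 78) (PT.lf (nat_lit 15732) (nat_lit 6) (nat_lit 207) (nat_lit 4) (nat_lit 211) (nat_lit 290) (nat_lit 279)) (PT.lf (nat_lit 16188) (nat_lit 6) (nat_lit 213) (nat_lit 4) (nat_lit 212) (nat_lit 290) (nat_lit 278))))))) (PT.nd (nat_lit 6084) (PT.nd (nat_lit 5460) (PT.nd (nat_lit 5148) (PT.nd (nat_lit 4992) (PT.lf (nat_lit 16720) (nat_lit 6) (nat_lit 220) (nat_lit 4) (nat_lit 213) (nat_lit 290) (nat_lit 277)) (PT.nd (nat_lit 78) (PT.lf (nat_lit 16720) (nat_lit 6) (nat_lit 220) (nat_lit 2) (nat_lit 277) (nat_lit 290) (nat_lit 213)) (PT.lf (nat_lit 16188) (nat_lit 6) (nat_lit 213) (nat_lit 2) (nat_lit 278) (nat_lit 290) (nat_lit 212)))) (PT.nd (nat_lit 156) (PT.nd (nat_lit 78) (PT.lf (nat_lit 15732) (nat_lit 6)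 (nat_lit 207) (nat_lit 2) (nat_lit 279) (nat_lit 290) (nat_lit 211)) (PT.lf (nat_lit 15200) (nat_lit 6) (nat_lit 200) (nat_lit 2) (nat_lit 280) (nat_lit 290) (nat_lit 210))) (PT.nd (nat_lit 78) (PT.lf (nat_lit 14744) (nat_lit 6) (nat_lit 194) (nat_lit 2) (nat_lit 281) (nat_lit 290) (nat_lit 209)) (PT.lf (nat_lit 14288) (nat_lit 6) (nat_lit 188) (nat_lit 2) (nat_lit 282) (nat_lit 290) (nat_lit 208))))) (PT.nd (nat_lit 312) (PT.nd (nat_lit 156) (PT.nd (nat_lit 78) (PT.lf (nat_lit 13832) (nat_lit 6) (nat_lit 182) (nat_lit 2) (nat_lit 283) (nat_lit 290) (nat_lit 207)) (PT.lf (nat_lit 13376) (nat_lit 6) (nat_lit 176) (nat_lit 2) (nat_lit 284) (nat_lit 290) (nat_lit 206))) (PT.nd (nat_lit 78) (PT.lf (nat_lit 12996) (nat_lit 6) (nat_lit 171) (nat_lit 2) (nat_lit 285) (nat_lit 290) (nat_lit 205)) (PT.lf (nat_lit 12540) (nat_lit 6) (nat_lit 165) (nat_lit 2) (nat_lit 286) (nat_lit 290) (nat_lit 204)))) (PT.nd (nat_lit 156)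 (PT.nd (nat_lit 78) (PT.lf (nat_lit 12160) (nat_lit 6) (nat_lit 160) (nat_lit 2) (nat_lit 287) (nat_lit 290) (nat_lit 203)) (PT.lf (nat_lit 11780) (nat_lit 6) (nat_lit 155) (nat_lit 2) (nat_lit 288) (nat_lit 290) (nat_lit 202))) (PT.nd (nat_lit 78) (PT.lf (nat_lit 11400) (nat_lit 6) (nat_lit 150) (nat_lit 2) (nat_lit 289) (nat_lit 290) (nat_lit 201)) (PT.lf (nat_lit 11020) (nat_lit 3) (nat_lit 145) (nat_lit 0) (nat_lit 290) (nat_lit 290) (nat_lit 200)))))) (PT.nd (nat_lit 73632) (PT.nd (nat_lit 234) (PT.nd (nat_lit 78) (PT.lf (nat_lit 10640) (nat_lit 6) (nat_lit 140) (nat_lit 0) (nat_lit 291) (nat_lit 290) (nat_lit 199)) (PT.nd (nat_lit 78) (PT.lf (nat_lit 10184) (nat_lit 6) (nat_lit 134) (nat_lit 0) (nat_lit 292) (nat_lit 290) (nat_lit 198)) (PT.lf (nat_lit 9804) (nat_lit 6) (nat_lit 129) (nat_lit 0) (nat_lit 293) (nat_lit 290) (nat_lit 197)))) (PT.nd (nat_lit 156) (PT.nd (nat_lit 78) (PT.lf (nat_lit 9424) (nat_lit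 6) (nat_lit 124) (nat_lit 0) (nat_lit 294) (nat_lit 290) (nat_lit 196)) (PT.lf (nat_lit 9044) (nat_lit 6) (nat_lit 119) (nat_lit 0) (nat_lit 295) (nat_lit 290) (nat_lit 195))) (PT.nd (nat_lit 73164) (PT.lf (nat_lit 8664) (nat_lit 6) (nat_lit 114) (nat_lit 0) (nat_lit 296) (nat_lit 290) (nat_lit 194)) (PT.lf (nat_lit 8360) (nat_lit 6) (nat_lit 110) (nat_lit 5) (nat_lit 193) (nat_lit 291) (nat_lit 296))))) (PT.nd (nat_lit 312) (PT.nd (nat_lit 156) (PT.nd (nat_lit 78) (PT.lf (nat_lit 8740) (nat_lit 6) (nat_lit 115) (nat_lit 5) (nat_lit 194) (nat_lit 291) (nat_lit 295)) (PT.lf (nat_lit 9120) (nat_lit 6) (nat_lit 120) (nat_lit 5) (nat_lit 195) (nat_lit 291) (nat_lit 294))) (PT.nd (nat_lit 78) (PT.lf (nat_lit 9500) (nat_lit 6) (nat_lit 125) (nat_lit 5) (nat_lit 196) (nat_lit 291) (nat_lit 293)) (PT.lf (nat_lit 9880) (nat_lit 6) (nat_lit 130) (nat_lit 5) (nat_lit 197) (nat_lit 291) (nat_lit 292)))) (PT.nd (nat_lit 156)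 (PT.nd (nat_lit 78) (PT.lf (nat_lit 10260) (nat_lit 3) (nat_lit 135) (nat_lit 4) (nat_lit 198) (nat_lit 291) (nat_lit 291)) (PT.lf (nat_lit 10640) (nat_lit 6) (nat_lit 140) (nat_lit 4) (nat_lit 199) (nat_lit 291) (nat_lit 290))) (PT.nd (nat_lit 78) (PT.lf (nat_lit 10944) (nat_lit 6) (nat_lit 144) (nat_lit 4) (nat_lit 200) (nat_lit 291) (nat_lit 289)) (PT.lf (nat_lit 11324) (nat_lit 6) (nat_lit 149) (nat_lit 4) (nat_lit 201) (nat_lit 291) (nat_lit 288))))))))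
noncomputable def pc60 : PT := (PT.nd (nat_lit 80574) (PT.nd (nat_lit 6474) (PT.nd (nat_lit 546) (PT.nd (nat_lit 234) (PT.nd (nat_lit 78) (PT.lf (nat_lit 11704) (nat_lit 6) (nat_lit 154) (nat_lit 4) (nat_lit 202) (nat_lit 291) (nat_lit 287)) (PT.nd (nat_lit 78) (PT.lf (nat_lit 12084) (nat_lit 6) (nat_lit 159) (nat_lit 4) (nat_lit 203) (nat_lit 291) (nat_lit 286)) (PT.lf (nat_lit 12464) (nat_lit 6) (nat_lit 164) (nat_lit 4) (nat_lit 204) (nat_lit 291) (nat_lit 285)))) (PT.nd (nat_lit 156) (PT.nd (nat_lit 78) (PT.lf (nat_lit 12920) (nat_lit 6) (nat_lit 170) (nat_lit 4) (nat_lit 205) (nat_lit 291) (nat_lit 284)) (PT.lf (nat_lit 13300) (nat_lit 6) (nat_lit 175) (nat_lit 4) (nat_lit 206) (nat_lit 291) (nat_lit 283))) (PT.nd (nat_lit 78) (PT.lf (nat_lit 13756) (nat_lit 6) (nat_lit 181) (nat_lit 4) (nat_lit 207) (nat_lit 291) (nat_lit 282)) (PT.lf (nat_lit 14212) (nat_lit 6) (nat_lit 187) (nat_lit 4) (nat_lit 208) (nat_lit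 291) (nat_lit 281))))) (PT.nd (nat_lit 5616) (PT.nd (nat_lit 5460) (PT.nd (nat_lit 78) (PT.lf (nat_lit 14668) (nat_lit 6) (nat_lit 193) (nat_lit 4) (nat_lit 209) (nat_lit 291) (nat_lit 280)) (PT.lf (nat_lit 15124) (nat_lit 6) (nat_lit 199) (nat_lit 4) (nat_lit 210) (nat_lit 291) (nat_lit 279))) (PT.nd (nat_lit 78) (PT.lf (nat_lit 15124) (nat_lit 6) (nat_lit 199) (nat_lit 2) (nat_lit 279) (nat_lit 291) (nat_lit 210)) (PT.lf (nat_lit 14668) (nat_lit 6) (nat_lit 193) (nat_lit 2) (nat_lit 280) (nat_lit 291) (nat_lit 209)))) (PT.nd (nat_lit 156) (PT.nd (nat_lit 78) (PT.lf (nat_lit 14212) (nat_lit 6) (nat_lit 187) (nat_lit 2) (nat_lit 281) (nat_lit 291) (nat_lit 208)) (PT.lf (nat_lit 13756) (nat_lit 6) (nat_lit 181) (nat_lit 2) (nat_lit 282) (nat_lit 291) (nat_lit 207))) (PT.nd (nat_lit 78) (PT.lf (nat_lit 13300) (nat_lit 6) (nat_lit 175) (nat_lit 2) (nat_lit 283) (nat_lit 291) (nat_lit 206)) (PT.lf (nat_lit 12920) (nat_lit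 6) (nat_lit 170) (nat_lit 2) (nat_lit 284) (nat_lit 291) (nat_lit 205)))))) (PT.nd (nat_lit 546) (PT.nd (nat_lit 234) (PT.nd (nat_lit 78) (PT.lf (nat_lit 12464) (nat_lit 6) (nat_lit 164) (nat_lit 2) (nat_lit 285) (nat_lit 291) (nat_lit 204)) (PT.nd (nat_lit 78) (PT.lf (nat_lit 12084) (nat_lit 6) (nat_lit 159) (nat_lit 2) (nat_lit 286) (nat_lit 291) (nat_lit 203)) (PT.lf (nat_lit 11704) (nat_lit 6) (nat_lit 154) (nat_lit 2) (nat_lit 287) (nat_lit 291) (nat_lit 202)))) (PT.nd (nat_lit 156) (PT.nd (nat_lit 78) (PT.lf (nat_lit 11324) (nat_lit 6) (nat_lit 149) (nat_lit 2) (nat_lit 288) (nat_lit 291) (nat_lit 201)) (PT.lf (nat_lit 10944) (nat_lit 6) (nat_lit 144) (nat_lit 2) (nat_lit 289) (nat_lit 291) (nat_lit 200))) (PT.nd (nat_lit 78) (PT.lf (nat_lit 10640) (nat_lit 6) (nat_lit 140) (nat_lit 2) (nat_lit 290) (nat_lit 291) (nat_lit 199)) (PT.lf (nat_lit 10260) (nat_lit 3) (nat_lit 135) (nat_lit 0) (nat_lit 291) (nat_lit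 291) (nat_lit 198))))) (PT.nd (nat_lit 312) (PT.nd (nat_lit 156) (PT.nd (nat_lit 78) (PT.lf (nat_lit 9880) (nat_lit 6) (nat_lit 130) (nat_lit 0) (nat_lit 292) (nat_lit 291) (nat_lit 197)) (PT.lf (nat_lit 9500) (nat_lit 6) (nat_lit 125) (nat_lit 0) (nat_lit 293) (nat_lit 291) (nat_lit 196))) (PT.nd (nat_lit 78) (PT.lf (nat_lit 9120) (nat_lit 6) (nat_lit 120) (nat_lit 0) (nat_lit 294) (nat_lit 291) (nat_lit 195)) (PT.lf (nat_lit 8740) (nat_lit 6) (nat_lit 115) (nat_lit 0) (nat_lit 295) (nat_lit 291) (nat_lit 194)))) (PT.nd (nat_lit 73086) (PT.nd (nat_lit 73008) (PT.lf (nat_lit 8360) (nat_lit 6) (nat_lit 110) (nat_lit 0) (nat_lit 296) (nat_lit 291) (nat_lit 193)) (PT.lf (nat_lit 7752) (nat_lit 6) (nat_lit 102) (nat_lit 5) (nat_lit 191) (nat_lit 292) (nat_lit 297))) (PT.nd (nat_lit 78) (PT.lf (nat_lit 8056) (nat_lit 6) (nat_lit 106) (nat_lit 5) (nat_lit 192) (nat_lit 292) (nat_lit 296)) (PT.lf (nat_lit 8436) (nat_lit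 6) (nat_lit 111) (nat_lit 5) (nat_lit 193) (nat_lit 292) (nat_lit 295))))))) (PT.nd (nat_lit 6864) (PT.nd (nat_lit 546) (PT.nd (nat_lit 234) (PT.nd (nat_lit 78) (PT.lf (nat_lit 8816) (nat_lit 6) (nat_lit 116) (nat_lit 5) (nat_lit 194) (nat_lit 292) (nat_lit 294)) (PT.nd (nat_lit 78) (PT.lf (nat_lit 9196) (nat_lit 6) (nat_lit 121) (nat_lit 5) (nat_lit 195) (nat_lit 292) (nat_lit 293)) (PT.lf (nat_lit 9576) (nat_lit 3) (nat_lit 126) (nat_lit 4) (nat_lit 196) (nat_lit 292) (nat_lit 292)))) (PT.nd (nat_lit 156) (PT.nd (nat_lit 78) (PT.lf (nat_lit 9880) (nat_lit 6) (nat_lit 130) (nat_lit 4) (nat_lit 197) (nat_lit 292) (nat_lit 291)) (PT.lf (nat_lit 10184) (nat_lit 6) (nat_lit 134) (nat_lit 4) (nat_lit 198) (nat_lit 292) (nat_lit 290))) (PT.nd (nat_lit 78) (PT.lf (nat_lit 10564) (nat_lit 6) (nat_lit 139) (nat_lit 4) (nat_lit 199) (nat_lit 292) (nat_lit 289)) (PT.lf (nat_lit 10868) (nat_lit 6) (nat_lit 143) (nat_lit 4)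 (nat_lit 200) (nat_lit 292) (nat_lit 288))))) (PT.nd (nat_lit 312) (PT.nd (nat_lit 156) (PT.nd (nat_lit 78) (PT.lf (nat_lit 11248) (nat_lit 6) (nat_lit 148) (nat_lit 4) (nat_lit 201) (nat_lit 292) (nat_lit 287)) (PT.lf (nat_lit 11628) (nat_lit 6) (nat_lit 153) (nat_lit 4) (nat_lit 202) (nat_lit 292) (nat_lit 286))) (PT.nd (nat_lit 78) (PT.lf (nat_lit 12008) (nat_lit 6) (nat_lit 158) (nat_lit 4) (nat_lit 203) (nat_lit 292) (nat_lit 285)) (PT.lf (nat_lit 12388) (nat_lit 6) (nat_lit 163) (nat_lit 4) (nat_lit 204) (nat_lit 292) (nat_lit 284)))) (PT.nd (nat_lit 156) (PT.nd (nat_lit 78) (PT.lf (nat_lit 12844) (nat_lit 6) (nat_lit 169) (nat_lit 4) (nat_lit 205) (nat_lit 292) (nat_lit 283)) (PT.lf (nat_lit 13224) (nat_lit 6) (nat_lit 174) (nat_lit 4) (nat_lit 206) (nat_lit 292) (nat_lit 282))) (PT.nd (nat_lit 5772) (PT.lf (nat_lit 13680) (nat_lit 6) (nat_lit 180) (nat_lit 4) (nat_lit 207) (nat_lit 292) (nat_lit 281)) (PT.lf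 (nat_lit 13680) (nat_lit 6) (nat_lit 180) (nat_lit 2) (nat_lit 281) (nat_lit 292) (nat_lit 207)))))) (PT.nd (nat_lit 546) (PT.nd (nat_lit 234) (PT.nd (nat_lit 78) (PT.lf (nat_lit 13224) (nat_lit 6) (nat_lit 174) (nat_lit 2) (nat_lit 282) (nat_lit 292) (nat_lit 206)) (PT.nd (nat_lit 78) (PT.lf (nat_lit 12844) (nat_lit 6) (nat_lit 169) (nat_lit 2) (nat_lit 283) (nat_lit 292) (nat_lit 205)) (PT.lf (nat_lit 12388) (nat_lit 6) (nat_lit 163) (nat_lit 2) (nat_lit 284) (nat_lit 292) (nat_lit 204)))) (PT.nd (nat_lit 156) (PT.nd (nat_lit 78) (PT.lf (nat_lit 12008) (nat_lit 6) (nat_lit 158) (nat_lit 2) (nat_lit 285) (nat_lit 292) (nat_lit 203)) (PT.lf (nat_lit 11628) (nat_lit 6) (nat_lit 153) (nat_lit 2) (nat_lit 286) (nat_lit 292) (nat_lit 202))) (PT.nd (nat_lit 78) (PT.lf (nat_lit 11248) (nat_lit 6) (nat_lit 148) (nat_lit 2) (nat_lit 287) (nat_lit 292) (nat_lit 201)) (PT.lf (nat_lit 10868) (nat_lit 6) (nat_lit 143) (nat_lit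 2) (nat_lit 288) (nat_lit 292) (nat_lit 200))))) (PT.nd (nat_lit 312) (PT.nd (nat_lit 156) (PT.nd (nat_lit 78) (PT.lf (nat_lit 10564) (nat_lit 6) (nat_lit 139) (nat_lit 2) (nat_lit 289) (nat_lit 292) (nat_lit 199)) (PT.lf (nat_lit 10184) (nat_lit 6) (nat_lit 134) (nat_lit 2) (nat_lit 290) (nat_lit 292) (nat_lit 198))) (PT.nd (nat_lit 78) (PT.lf (nat_lit 9880) (nat_lit 6) (nat_lit 130) (nat_lit 2) (nat_lit 291) (nat_lit 292) (nat_lit 197)) (PT.lf (nat_lit 9576) (nat_lit 3) (nat_lit 126) (nat_lit 0) (nat_lit 292) (nat_lit 292) (nat_lit 196)))) (PT.nd (nat_lit 156) (PT.nd (nat_lit 78) (PT.lf (nat_lit 9196) (nat_lit 6) (nat_lit 121) (nat_lit 0) (nat_lit 293) (nat_lit 292) (nat_lit 195)) (PT.lf (nat_lit 8816) (nat_lit 6) (nat_lit 116) (nat_lit 0) (nat_lit 294) (nat_lit 292) (nat_lit 194))) (PT.nd (nat_lit 78) (PT.lf (nat_lit 8436) (nat_lit 6) (nat_lit 111) (nat_lit 0) (nat_lit 295) (nat_lit 292) (nat_lit 193)) (PT.lf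 (nat_lit 8056) (nat_lit 6) (nat_lit 106) (nat_lit 0) (nat_lit 296) (nat_lit 292) (nat_lit 192))))))))
noncomputable def pc61 : PT := (PT.nd (nat_lit 81120) (PT.nd (nat_lit 73866) (PT.nd (nat_lit 73242) (PT.nd (nat_lit 72930) (PT.nd (nat_lit 72774) (PT.lf (nat_lit 7752) (nat_lit 6) (nat_lit 102) (nat_lit 0) (nat_lit 297) (nat_lit 292) (nat_lit 191)) (PT.nd (nat_lit 78) (PT.lf (nat_lit 7144) (nat_lit 6) (nat_lit 94) (nat_lit 5) (nat_lit 189) (nat_lit 293) (nat_lit 298)) (PT.lf (nat_lit 7448) (nat_lit 6) (nat_lit 98) (nat_lit 5) (nat_lit 190) (nat_lit 293) (nat_lit 297)))) (PT.nd (nat_lit 156) (PT.nd (nat_lit 78) (PT.lf (nat_lit 7828) (nat_lit 6) (nat_lit 103) (nat_lit 5) (nat_lit 191) (nat_lit 293) (nat_lit 296)) (PT.lf (nat_lit 8132) (nat_lit 6) (nat_lit 107) (nat_lit 5) (nat_lit 192) (nat_lit 293) (nat_lit 295))) (PT.nd (nat_lit 78) (PT.lf (nat_lit 8512) (nat_lit 6) (nat_lit 112) (nat_lit 5) (nat_lit 193) (nat_lit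 293) (nat_lit 294)) (PT.lf (nat_lit 8892) (nat_lit 3) (nat_lit 117) (nat_lit 4) (nat_lit 194) (nat_lit 293) (nat_lit 293))))) (PT.nd (nat_lit 312) (PT.nd (nat_lit 156) (PT.nd (nat_lit 78) (PT.lf (nat_lit 9196) (nat_lit 6) (nat_lit 121) (nat_lit 4) (nat_lit 195) (nat_lit 293) (nat_lit 292)) (PT.lf (nat_lit 9500) (nat_lit 6) (nat_lit 125) (nat_lit 4) (nat_lit 196) (nat_lit 293) (nat_lit 291))) (PT.nd (nat_lit 78) (PT.lf (nat_lit 9804) (nat_lit 6) (nat_lit 129) (nat_lit 4) (nat_lit 197) (nat_lit 293) (nat_lit 290)) (PT.lf (nat_lit 10108) (nat_lit 6) (nat_lit 133) (nat_lit 4) (nat_lit 198) (nat_lit 293) (nat_lit 289)))) (PT.nd (nat_lit 156) (PT.nd (nat_lit 78) (PT.lf (nat_lit 10488) (nat_lit 6) (nat_lit 138) (nat_lit 4) (nat_lit 199) (nat_lit 293) (nat_lit 288)) (PT.lf (nat_lit 10792) (nat_lit 6) (nat_lit 142) (nat_lit 4) (nat_lit 200) (nat_lit 293) (nat_lit 287))) (PT.nd (nat_lit 78) (PT.lf (nat_lit 11172) (nat_lit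 6) (nat_lit 147) (nat_lit 4) (nat_lit 201) (nat_lit 293) (nat_lit 286)) (PT.lf (nat_lit 11552) (nat_lit 6) (nat_lit 152) (nat_lit 4) (nat_lit 202) (nat_lit 293) (nat_lit 285)))))) (PT.nd (nat_lit 6630) (PT.nd (nat_lit 6318) (PT.nd (nat_lit 78) (PT.lf (nat_lit 11932) (nat_lit 6) (nat_lit 157) (nat_lit 4) (nat_lit 203) (nat_lit 293) (nat_lit 284)) (PT.nd (nat_lit 6162) (PT.lf (nat_lit 12312) (nat_lit 6) (nat_lit 162) (nat_lit 4) (nat_lit 204) (nat_lit 293) (nat_lit 283)) (PT.lf (nat_lit 12312) (nat_lit 6) (nat_lit 162) (nat_lit 2) (nat_lit 283) (nat_lit 293) (nat_lit 204)))) (PT.nd (nat_lit 156) (PT.nd (nat_lit 78) (PT.lf (nat_lit 11932) (nat_lit 6) (nat_lit 157) (nat_lit 2) (nat_lit 284) (nat_lit 293) (nat_lit 203)) (PT.lf (nat_lit 11552) (nat_lit 6) (nat_lit 152) (nat_lit 2) (nat_lit 285) (nat_lit 293) (nat_lit 202))) (PT.nd (nat_lit 78) (PT.lf (nat_lit 11172) (nat_lit 6) (nat_lit 147) (nat_lit 2) (nat_lit 286)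 (nat_lit 293) (nat_lit 201)) (PT.lf (nat_lit 10792) (nat_lit 6) (nat_lit 142) (nat_lit 2) (nat_lit 287) (nat_lit 293) (nat_lit 200))))) (PT.nd (nat_lit 312) (PT.nd (nat_lit 156) (PT.nd (nat_lit 78) (PT.lf (nat_lit 10488) (nat_lit 6) (nat_lit 138) (nat_lit 2) (nat_lit 288) (nat_lit 293) (nat_lit 199)) (PT.lf (nat_lit 10108) (nat_lit 6) (nat_lit 133) (nat_lit 2) (nat_lit 289) (nat_lit 293) (nat_lit 198))) (PT.nd (nat_lit 78) (PT.lf (nat_lit 9804) (nat_lit 6) (nat_lit 129) (nat_lit 2) (nat_lit 290) (nat_lit 293) (nat_lit 197)) (PT.lf (nat_lit 9500) (nat_lit 6) (nat_lit 125) (nat_lit 2) (nat_lit 291) (nat_lit 293) (nat_lit 196)))) (PT.nd (nat_lit 156) (PT.nd (nat_lit 78) (PT.lf (nat_lit 9196) (nat_lit 6) (nat_lit 121) (nat_lit 2) (nat_lit 292) (nat_lit 293) (nat_lit 195)) (PT.lf (nat_lit 8892) (nat_lit 3) (nat_lit 117) (nat_lit 0) (nat_lit 293) (nat_lit 293) (nat_lit 194))) (PT.nd (nat_lit 78) (PT.lf (nat_lit 8512)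 (nat_lit 6) (nat_lit 112) (nat_lit 0) (nat_lit 294) (nat_lit 293) (nat_lit 193)) (PT.lf (nat_lit 8132) (nat_lit 6) (nat_lit 107) (nat_lit 0) (nat_lit 295) (nat_lit 293) (nat_lit 192))))))) (PT.nd (nat_lit 73710) (PT.nd (nat_lit 73086) (PT.nd (nat_lit 72774) (PT.nd (nat_lit 78) (PT.lf (nat_lit 7828) (nat_lit 6) (nat_lit 103) (nat_lit 0) (nat_lit 296) (nat_lit 293) (nat_lit 191)) (PT.nd (nat_lit 78) (PT.lf (nat_lit 7448) (nat_lit 6) (nat_lit 98) (nat_lit 0) (nat_lit 297) (nat_lit 293) (nat_lit 190)) (PT.lf (nat_lit 7144) (nat_lit 6) (nat_lit 94) (nat_lit 0) (nat_lit 298) (nat_lit 293) (nat_lit 189)))) (PT.nd (nat_lit 156) (PT.nd (nat_lit 78) (PT.lf (nat_lit 6840) (nat_lit 6) (nat_lit 90) (nat_lit 5) (nat_lit 188) (nat_lit 294) (nat_lit 298)) (PT.lf (nat_lit 7220) (nat_lit 6) (nat_lit 95) (nat_lit 5) (nat_lit 189) (nat_lit 294) (nat_lit 297))) (PT.nd (nat_lit 78) (PT.lf (nat_lit 7524) (nat_lit 6) (nat_lit 99) (nat_lit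 5) (nat_lit 190) (nat_lit 294) (nat_lit 296)) (PT.lf (nat_lit 7904) (nat_lit 6) (nat_lit 104) (nat_lit 5) (nat_lit 191) (nat_lit 294) (nat_lit 295))))) (PT.nd (nat_lit 312) (PT.nd (nat_lit 156) (PT.nd (nat_lit 78) (PT.lf (nat_lit 8208) (nat_lit 3) (nat_lit 108) (nat_lit 4) (nat_lit 192) (nat_lit 294) (nat_lit 294)) (PT.lf (nat_lit 8512) (nat_lit 6) (nat_lit 112) (nat_lit 4) (nat_lit 193) (nat_lit 294) (nat_lit 293))) (PT.nd (nat_lit 78) (PT.lf (nat_lit 8816) (nat_lit 6) (nat_lit 116) (nat_lit 4) (nat_lit 194) (nat_lit 294) (nat_lit 292)) (PT.lf (nat_lit 9120) (nat_lit 6) (nat_lit 120) (nat_lit 4) (nat_lit 195) (nat_lit 294) (nat_lit 291)))) (PT.nd (nat_lit 156) (PT.nd (nat_lit 78) (PT.lf (nat_lit 9424) (nat_lit 6) (nat_lit 124) (nat_lit 4) (nat_lit 196) (nat_lit 294) (nat_lit 290)) (PT.lf (nat_lit 9728) (nat_lit 6) (nat_lit 128) (nat_lit 4) (nat_lit 197) (nat_lit 294) (nat_lit 289))) (PT.nd (nat_lit 78) (PT.lf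 (nat_lit 10032) (nat_lit 6) (nat_lit 132) (nat_lit 4) (nat_lit 198) (nat_lit 294) (nat_lit 288)) (PT.lf (nat_lit 10412) (nat_lit 6) (nat_lit 137) (nat_lit 4) (nat_lit 199) (nat_lit 294) (nat_lit 287)))))) (PT.nd (nat_lit 7020) (PT.nd (nat_lit 6708) (PT.nd (nat_lit 78) (PT.lf (nat_lit 10716) (nat_lit 6) (nat_lit 141) (nat_lit 4) (nat_lit 200) (nat_lit 294) (nat_lit 286)) (PT.nd (nat_lit 6552) (PT.lf (nat_lit 11096) (nat_lit 6) (nat_lit 146) (nat_lit 4) (nat_lit 201) (nat_lit 294) (nat_lit 285)) (PT.lf (nat_lit 11096) (nat_lit 6) (nat_lit 146) (nat_lit 2) (nat_lit 285) (nat_lit 294) (nat_lit 201)))) (PT.nd (nat_lit 156) (PT.nd (nat_lit 78) (PT.lf (nat_lit 10716) (nat_lit 6) (nat_lit 141) (nat_lit 2) (nat_lit 286) (nat_lit 294) (nat_lit 200)) (PT.lf (nat_lit 10412) (nat_lit 6) (nat_lit 137) (nat_lit 2) (nat_lit 287) (nat_lit 294) (nat_lit 199))) (PT.nd (nat_lit 78) (PT.lf (nat_lit 10032) (nat_lit 6) (nat_lit 132)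 (nat_lit 2) (nat_lit 288) (nat_lit 294) (nat_lit 198)) (PT.lf (nat_lit 9728) (nat_lit 6) (nat_lit 128) (nat_lit 2) (nat_lit 289) (nat_lit 294) (nat_lit 197))))) (PT.nd (nat_lit 312) (PT.nd (nat_lit 156) (PT.nd (nat_lit 78) (PT.lf (nat_lit 9424) (nat_lit 6) (nat_lit 124) (nat_lit 2) (nat_lit 290) (nat_lit 294) (nat_lit 196)) (PT.lf (nat_lit 9120) (nat_lit 6) (nat_lit 120) (nat_lit 2) (nat_lit 291) (nat_lit 294) (nat_lit 195))) (PT.nd (nat_lit 78) (PT.lf (nat_lit 8816) (nat_lit 6) (nat_lit 116) (nat_lit 2) (nat_lit 292) (nat_lit 294) (nat_lit 194)) (PT.lf (nat_lit 8512) (nat_lit 6) (nat_lit 112) (nat_lit 2) (nat_lit 293) (nat_lit 294) (nat_lit 193)))) (PT.nd (nat_lit 156) (PT.nd (nat_lit 78) (PT.lf (nat_lit 8208) (nat_lit 3) (nat_lit 108) (nat_lit 0) (nat_lit 294) (nat_lit 294) (nat_lit 192)) (PT.lf (nat_lit 7904) (nat_lit 6) (nat_lit 104) (nat_lit 0) (nat_lit 295) (nat_lit 294) (nat_lit 191))) (PT.nd (nat_lit 78)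 (PT.lf (nat_lit 7524) (nat_lit 6) (nat_lit 99) (nat_lit 0) (nat_lit 296) (nat_lit 294) (nat_lit 190)) (PT.lf (nat_lit 7220) (nat_lit 6) (nat_lit 95) (nat_lit 0) (nat_lit 297) (nat_lit 294) (nat_lit 189))))))))
noncomputable def pc62 : PT := (PT.nd (nat_lit 153660) (PT.nd (nat_lit 80262) (PT.nd (nat_lit 72930) (PT.nd (nat_lit 72618) (PT.nd (nat_lit 72462) (PT.lf (nat_lit 6840) (nat_lit 6) (nat_lit 90) (nat_lit 0) (nat_lit 298) (nat_lit 294) (nat_lit 188)) (PT.nd (nat_lit 78) (PT.lf (nat_lit 6308) (nat_lit 6) (nat_lit 83) (nat_lit 5) (nat_lit 186) (nat_lit 295) (nat_lit 299)) (PT.lf (nat_lit 6612) (nat_lit 6) (nat_lit 87) (nat_lit 5) (nat_lit 187) (nat_lit 295) (nat_lit 298)))) (PT.nd (nat_lit 156) (PT.nd (nat_lit 78) (PT.lf (nat_lit 6916) (nat_lit 6) (nat_lit 91) (nat_lit 5) (nat_lit 188) (nat_lit 295) (nat_lit 297)) (PT.lf (nat_lit 7296) (nat_lit 6) (nat_lit 96) (nat_lit 5) (nat_lit 189) (nat_lit 295) (nat_lit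 296))) (PT.nd (nat_lit 78) (PT.lf (nat_lit 7600) (nat_lit 3) (nat_lit 100) (nat_lit 4) (nat_lit 190) (nat_lit 295) (nat_lit 295)) (PT.lf (nat_lit 7904) (nat_lit 6) (nat_lit 104) (nat_lit 4) (nat_lit 191) (nat_lit 295) (nat_lit 294))))) (PT.nd (nat_lit 312) (PT.nd (nat_lit 156) (PT.nd (nat_lit 78) (PT.lf (nat_lit 8132) (nat_lit 6) (nat_lit 107) (nat_lit 4) (nat_lit 192) (nat_lit 295) (nat_lit 293)) (PT.lf (nat_lit 8436) (nat_lit 6) (nat_lit 111) (nat_lit 4) (nat_lit 193) (nat_lit 295) (nat_lit 292))) (PT.nd (nat_lit 78) (PT.lf (nat_lit 8740) (nat_lit 6) (nat_lit 115) (nat_lit 4) (nat_lit 194) (nat_lit 295) (nat_lit 291)) (PT.lf (nat_lit 9044) (nat_lit 6) (nat_lit 119) (nat_lit 4) (nat_lit 195) (nat_lit 295) (nat_lit 290)))) (PT.nd (nat_lit 156) (PT.nd (nat_lit 78) (PT.lf (nat_lit 9348) (nat_lit 6) (nat_lit 123) (nat_lit 4) (nat_lit 196) (nat_lit 295) (nat_lit 289)) (PT.lf (nat_lit 9652) (nat_lit 6) (nat_lit 127)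 (nat_lit 4) (nat_lit 197) (nat_lit 295) (nat_lit 288))) (PT.nd (nat_lit 78) (PT.lf (nat_lit 9956) (nat_lit 6) (nat_lit 131) (nat_lit 4) (nat_lit 198) (nat_lit 295) (nat_lit 287)) (PT.lf (nat_lit 10336) (nat_lit 6) (nat_lit 136) (nat_lit 4) (nat_lit 199) (nat_lit 295) (nat_lit 286)))))) (PT.nd (nat_lit 546) (PT.nd (nat_lit 234) (PT.nd (nat_lit 78) (PT.lf (nat_lit 10336) (nat_lit 6) (nat_lit 136) (nat_lit 2) (nat_lit 286) (nat_lit 295) (nat_lit 199)) (PT.nd (nat_lit 78) (PT.lf (nat_lit 9956) (nat_lit 6) (nat_lit 131) (nat_lit 2) (nat_lit 287) (nat_lit 295) (nat_lit 198)) (PT.lf (nat_lit 9652) (nat_lit 6) (nat_lit 127) (nat_lit 2) (nat_lit 288) (nat_lit 295) (nat_lit 197)))) (PT.nd (nat_lit 156) (PT.nd (nat_lit 78) (PT.lf (nat_lit 9348) (nat_lit 6) (nat_lit 123) (nat_lit 2) (nat_lit 289) (nat_lit 295) (nat_lit 196)) (PT.lf (nat_lit 9044) (nat_lit 6) (nat_lit 119) (nat_lit 2) (nat_lit 290) (nat_lit 295) (nat_lit 195)))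 (PT.nd (nat_lit 78) (PT.lf (nat_lit 8740) (nat_lit 6) (nat_lit 115) (nat_lit 2) (nat_lit 291) (nat_lit 295) (nat_lit 194)) (PT.lf (nat_lit 8436) (nat_lit 6) (nat_lit 111) (nat_lit 2) (nat_lit 292) (nat_lit 295) (nat_lit 193))))) (PT.nd (nat_lit 312) (PT.nd (nat_lit 156) (PT.nd (nat_lit 78) (PT.lf (nat_lit 8132) (nat_lit 6) (nat_lit 107) (nat_lit 2) (nat_lit 293) (nat_lit 295) (nat_lit 192)) (PT.lf (nat_lit 7904) (nat_lit 6) (nat_lit 104) (nat_lit 2) (nat_lit 294) (nat_lit 295) (nat_lit 191))) (PT.nd (nat_lit 78) (PT.lf (nat_lit 7600) (nat_lit 3) (nat_lit 100) (nat_lit 0) (nat_lit 295) (nat_lit 295) (nat_lit 190)) (PT.lf (nat_lit 7296) (nat_lit 6) (nat_lit 96) (nat_lit 0) (nat_lit 296) (nat_lit 295) (nat_lit 189)))) (PT.nd (nat_lit 156) (PT.nd (nat_lit 78) (PT.lf (nat_lit 6916) (nat_lit 6) (nat_lit 91) (nat_lit 0) (nat_lit 297) (nat_lit 295) (nat_lit 188)) (PT.lf (nat_lit 6612) (nat_lit 6) (nat_lit 87) (nat_lit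 0) (nat_lit 298) (nat_lit 295) (nat_lit 187))) (PT.nd (nat_lit 72306) (PT.lf (nat_lit 6308) (nat_lit 6) (nat_lit 83) (nat_lit 0) (nat_lit 299) (nat_lit 295) (nat_lit 186)) (PT.lf (nat_lit 6080) (nat_lit 6) (nat_lit 80) (nat_lit 5) (nat_lit 185) (nat_lit 296) (nat_lit 299))))))) (PT.nd (nat_lit 8580) (PT.nd (nat_lit 546) (PT.nd (nat_lit 234) (PT.nd (nat_lit 78) (PT.lf (nat_lit 6384) (nat_lit 6) (nat_lit 84) (nat_lit 5) (nat_lit 186) (nat_lit 296) (nat_lit 298)) (PT.nd (nat_lit 78) (PT.lf (nat_lit 6688) (nat_lit 6) (nat_lit 88) (nat_lit 5) (nat_lit 187) (nat_lit 296) (nat_lit 297)) (PT.lf (nat_lit 6992) (nat_lit 3) (nat_lit 92) (nat_lit 4) (nat_lit 188) (nat_lit 296) (nat_lit 296)))) (PT.nd (nat_lit 156) (PT.nd (nat_lit 78) (PT.lf (nat_lit 7296) (nat_lit 6) (nat_lit 96) (nat_lit 4) (nat_lit 189) (nat_lit 296) (nat_lit 295)) (PT.lf (nat_lit 7524) (nat_lit 6) (nat_lit 99) (nat_lit 4) (nat_lit 190) (nat_lit 296) (nat_lit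 294))) (PT.nd (nat_lit 78) (PT.lf (nat_lit 7828) (nat_lit 6) (nat_lit 103) (nat_lit 4) (nat_lit 191) (nat_lit 296) (nat_lit 293)) (PT.lf (nat_lit 8056) (nat_lit 6) (nat_lit 106) (nat_lit 4) (nat_lit 192) (nat_lit 296) (nat_lit 292))))) (PT.nd (nat_lit 7722) (PT.nd (nat_lit 7566) (PT.nd (nat_lit 78) (PT.lf (nat_lit 8360) (nat_lit 6) (nat_lit 110) (nat_lit 4) (nat_lit 193) (nat_lit 296) (nat_lit 291)) (PT.lf (nat_lit 8664) (nat_lit 6) (nat_lit 114) (nat_lit 4) (nat_lit 194) (nat_lit 296) (nat_lit 290))) (PT.nd (nat_lit 78) (PT.lf (nat_lit 8664) (nat_lit 6) (nat_lit 114) (nat_lit 2) (nat_lit 290) (nat_lit 296) (nat_lit 194)) (PT.lf (nat_lit 8360) (nat_lit 6) (nat_lit 110) (nat_lit 2) (nat_lit 291) (nat_lit 296) (nat_lit 193)))) (PT.nd (nat_lit 156) (PT.nd (nat_lit 78) (PT.lf (nat_lit 8056) (nat_lit 6) (nat_lit 106) (nat_lit 2) (nat_lit 292) (nat_lit 296) (nat_lit 192)) (PT.lf (nat_lit 7828) (nat_lit 6) (nat_lit 103)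 (nat_lit 2) (nat_lit 293) (nat_lit 296) (nat_lit 191))) (PT.nd (nat_lit 78) (PT.lf (nat_lit 7524) (nat_lit 6) (nat_lit 99) (nat_lit 2) (nat_lit 294) (nat_lit 296) (nat_lit 190)) (PT.lf (nat_lit 7296) (nat_lit 6) (nat_lit 96) (nat_lit 2) (nat_lit 295) (nat_lit 296) (nat_lit 189)))))) (PT.nd (nat_lit 72618) (PT.nd (nat_lit 234) (PT.nd (nat_lit 78) (PT.lf (nat_lit 6992) (nat_lit 3) (nat_lit 92) (nat_lit 0) (nat_lit 296) (nat_lit 296) (nat_lit 188)) (PT.nd (nat_lit 78) (PT.lf (nat_lit 6688) (nat_lit 6) (nat_lit 88) (nat_lit 0) (nat_lit 297) (nat_lit 296) (nat_lit 187)) (PT.lf (nat_lit 6384) (nat_lit 6) (nat_lit 84) (nat_lit 0) (nat_lit 298) (nat_lit 296) (nat_lit 186)))) (PT.nd (nat_lit 72228) (PT.nd (nat_lit 72150) (PT.lf (nat_lit 6080) (nat_lit 6) (nat_lit 80) (nat_lit 0) (nat_lit 299) (nat_lit 296) (nat_lit 185)) (PT.lf (nat_lit 5548) (nat_lit 6) (nat_lit 73) (nat_lit 5) (nat_lit 183) (nat_lit 297) (nat_lit 300)))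 (PT.nd (nat_lit 78) (PT.lf (nat_lit 5852) (nat_lit 6) (nat_lit 77) (nat_lit 5) (nat_lit 184) (nat_lit 297) (nat_lit 299)) (PT.lf (nat_lit 6156) (nat_lit 6) (nat_lit 81) (nat_lit 5) (nat_lit 185) (nat_lit 297) (nat_lit 298))))) (PT.nd (nat_lit 312) (PT.nd (nat_lit 156) (PT.nd (nat_lit 78) (PT.lf (nat_lit 6460) (nat_lit 3) (nat_lit 85) (nat_lit 4) (nat_lit 186) (nat_lit 297) (nat_lit 297)) (PT.lf (nat_lit 6688) (nat_lit 6) (nat_lit 88) (nat_lit 4) (nat_lit 187) (nat_lit 297) (nat_lit 296))) (PT.nd (nat_lit 78) (PT.lf (nat_lit 6916) (nat_lit 6) (nat_lit 91) (nat_lit 4) (nat_lit 188) (nat_lit 297) (nat_lit 295)) (PT.lf (nat_lit 7220) (nat_lit 6) (nat_lit 95) (nat_lit 4) (nat_lit 189) (nat_lit 297) (nat_lit 294)))) (PT.nd (nat_lit 7956) (PT.nd (nat_lit 78) (PT.lf (nat_lit 7448) (nat_lit 6) (nat_lit 98) (nat_lit 4) (nat_lit 190) (nat_lit 297) (nat_lit 293)) (PT.lf (nat_lit 7752) (nat_lit 6) (nat_lit 102) (nat_lit 4)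 (nat_lit 191) (nat_lit 297) (nat_lit 292))) (PT.nd (nat_lit 78) (PT.lf (nat_lit 7752) (nat_lit 6) (nat_lit 102) (nat_lit 2) (nat_lit 292) (nat_lit 297) (nat_lit 191)) (PT.lf (nat_lit 7448) (nat_lit 6) (nat_lit 98) (nat_lit 2) (nat_lit 293) (nat_lit 297) (nat_lit 190))))))))
noncomputable def pc63 : PT := (PT.nd (nat_lit 153894) (PT.nd (nat_lit 73008) (PT.nd (nat_lit 72384) (PT.nd (nat_lit 234) (PT.nd (nat_lit 78) (PT.lf (nat_lit 7220) (nat_lit 6) (nat_lit 95) (nat_lit 2) (nat_lit 294) (nat_lit 297) (nat_lit 189)) (PT.nd (nat_lit 78) (PT.lf (nat_lit 6916) (nat_lit 6) (nat_lit 91) (nat_lit 2) (nat_lit 295) (nat_lit 297) (nat_lit 188)) (PT.lf (nat_lit 6688) (nat_lit 6) (nat_lit 88) (nat_lit 2) (nat_lit 296) (nat_lit 297) (nat_lit 187)))) (PT.nd (nat_lit 156) (PT.nd (nat_lit 78) (PT.lf (nat_lit 6460) (nat_lit 3) (nat_lit 85) (nat_lit 0) (nat_lit 297) (nat_lit 297) (nat_lit 186)) (PT.lf (nat_lit 6156) (nat_lit 6) (nat_lit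 81) (nat_lit 0) (nat_lit 298) (nat_lit 297) (nat_lit 185))) (PT.nd (nat_lit 78) (PT.lf (nat_lit 5852) (nat_lit 6) (nat_lit 77) (nat_lit 0) (nat_lit 299) (nat_lit 297) (nat_lit 184)) (PT.lf (nat_lit 5548) (nat_lit 6) (nat_lit 73) (nat_lit 0) (nat_lit 300) (nat_lit 297) (nat_lit 183))))) (PT.nd (nat_lit 312) (PT.nd (nat_lit 156) (PT.nd (nat_lit 78) (PT.lf (nat_lit 5016) (nat_lit 6) (nat_lit 66) (nat_lit 5) (nat_lit 181) (nat_lit 298) (nat_lit 301)) (PT.lf (nat_lit 5320) (nat_lit 6) (nat_lit 70) (nat_lit 5) (nat_lit 182) (nat_lit 298) (nat_lit 300))) (PT.nd (nat_lit 78) (PT.lf (nat_lit 5624) (nat_lit 6) (nat_lit 74) (nat_lit 5) (nat_lit 183) (nat_lit 298) (nat_lit 299)) (PT.lf (nat_lit 5928) (nat_lit 3) (nat_lit 78) (nat_lit 4) (nat_lit 184) (nat_lit 298) (nat_lit 298)))) (PT.nd (nat_lit 156) (PT.nd (nat_lit 78) (PT.lf (nat_lit 6156) (nat_lit 6) (nat_lit 81) (nat_lit 4) (nat_lit 185) (nat_lit 298) (nat_lit 297)) (PT.lf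 (nat_lit 6384) (nat_lit 6) (nat_lit 84) (nat_lit 4) (nat_lit 186) (nat_lit 298) (nat_lit 296))) (PT.nd (nat_lit 78) (PT.lf (nat_lit 6612) (nat_lit 6) (nat_lit 87) (nat_lit 4) (nat_lit 187) (nat_lit 298) (nat_lit 295)) (PT.lf (nat_lit 6840) (nat_lit 6) (nat_lit 90) (nat_lit 4) (nat_lit 188) (nat_lit 298) (nat_lit 294)))))) (PT.nd (nat_lit 8580) (PT.nd (nat_lit 8268) (PT.nd (nat_lit 8112) (PT.lf (nat_lit 7144) (nat_lit 6) (nat_lit 94) (nat_lit 4) (nat_lit 189) (nat_lit 298) (nat_lit 293)) (PT.nd (nat_lit 78) (PT.lf (nat_lit 7144) (nat_lit 6) (nat_lit 94) (nat_lit 2) (nat_lit 293) (nat_lit 298) (nat_lit 189)) (PT.lf (nat_lit 6840) (nat_lit 6) (nat_lit 90) (nat_lit 2) (nat_lit 294) (nat_lit 298) (nat_lit 188)))) (PT.nd (nat_lit 156) (PT.nd (nat_lit 78) (PT.lf (nat_lit 6612) (nat_lit 6) (nat_lit 87) (nat_lit 2) (nat_lit 295) (nat_lit 298) (nat_lit 187)) (PT.lf (nat_lit 6384) (nat_lit 6) (nat_lit 84) (nat_lit 2) (nat_lit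 296) (nat_lit 298) (nat_lit 186))) (PT.nd (nat_lit 78) (PT.lf (nat_lit 6156) (nat_lit 6) (nat_lit 81) (nat_lit 2) (nat_lit 297) (nat_lit 298) (nat_lit 185)) (PT.lf (nat_lit 5928) (nat_lit 3) (nat_lit 78) (nat_lit 0) (nat_lit 298) (nat_lit 298) (nat_lit 184))))) (PT.nd (nat_lit 71994) (PT.nd (nat_lit 156) (PT.nd (nat_lit 78) (PT.lf (nat_lit 5624) (nat_lit 6) (nat_lit 74) (nat_lit 0) (nat_lit 299) (nat_lit 298) (nat_lit 183)) (PT.lf (nat_lit 5320) (nat_lit 6) (nat_lit 70) (nat_lit 0) (nat_lit 300) (nat_lit 298) (nat_lit 182))) (PT.nd (nat_lit 71760) (PT.lf (nat_lit 5016) (nat_lit 6) (nat_lit 66) (nat_lit 0) (nat_lit 301) (nat_lit 298) (nat_lit 181)) (PT.lf (nat_lit 4788) (nat_lit 6) (nat_lit 63) (nat_lit 5) (nat_lit 180) (nat_lit 299) (nat_lit 301)))) (PT.nd (nat_lit 156) (PT.nd (nat_lit 78) (PT.lf (nat_lit 5092) (nat_lit 6) (nat_lit 67) (nat_lit 5) (nat_lit 181) (nat_lit 299) (nat_lit 300)) (PT.lf (nat_lit 5396)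 (nat_lit 3) (nat_lit 71) (nat_lit 4) (nat_lit 182) (nat_lit 299) (nat_lit 299))) (PT.nd (nat_lit 78) (PT.lf (nat_lit 5624) (nat_lit 6) (nat_lit 74) (nat_lit 4) (nat_lit 183) (nat_lit 299) (nat_lit 298)) (PT.lf (nat_lit 5852) (nat_lit 6) (nat_lit 77) (nat_lit 4) (nat_lit 184) (nat_lit 299) (nat_lit 297))))))) (PT.nd (nat_lit 90012) (PT.nd (nat_lit 8970) (PT.nd (nat_lit 8658) (PT.nd (nat_lit 78) (PT.lf (nat_lit 6080) (nat_lit 6) (nat_lit 80) (nat_lit 4) (nat_lit 185) (nat_lit 299) (nat_lit 296)) (PT.nd (nat_lit 8502) (PT.lf (nat_lit 6308) (nat_lit 6) (nat_lit 83) (nat_lit 4) (nat_lit 186) (nat_lit 299) (nat_lit 295)) (PT.lf (nat_lit 6308) (nat_lit 6) (nat_lit 83) (nat_lit 2) (nat_lit 295) (nat_lit 299) (nat_lit 186)))) (PT.nd (nat_lit 156) (PT.nd (nat_lit 78) (PT.lf (nat_lit 6080) (nat_lit 6) (nat_lit 80) (nat_lit 2) (nat_lit 296) (nat_lit 299) (nat_lit 185)) (PT.lf (nat_lit 5852) (nat_lit 6) (nat_lit 77) (nat_lit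 2) (nat_lit 297) (nat_lit 299) (nat_lit 184))) (PT.nd (nat_lit 78) (PT.lf (nat_lit 5624) (nat_lit 6) (nat_lit 74) (nat_lit 2) (nat_lit 298) (nat_lit 299) (nat_lit 183)) (PT.lf (nat_lit 5396) (nat_lit 3) (nat_lit 71) (nat_lit 0) (nat_lit 299) (nat_lit 299) (nat_lit 182))))) (PT.nd (nat_lit 71916) (PT.nd (nat_lit 71760) (PT.nd (nat_lit 78) (PT.lf (nat_lit 5092) (nat_lit 6) (nat_lit 67) (nat_lit 0) (nat_lit 300) (nat_lit 299) (nat_lit 181)) (PT.lf (nat_lit 4788) (nat_lit 6) (nat_lit 63) (nat_lit 0) (nat_lit 301) (nat_lit 299) (nat_lit 180))) (PT.nd (nat_lit 78) (PT.lf (nat_lit 4636) (nat_lit 6) (nat_lit 61) (nat_lit 5) (nat_lit 179) (nat_lit 300) (nat_lit 301)) (PT.lf (nat_lit 4864) (nat_lit 3) (nat_lit 64) (nat_lit 4) (nat_lit 180) (nat_lit 300) (nat_lit 300)))) (PT.nd (nat_lit 156) (PT.nd (nat_lit 78) (PT.lf (nat_lit 5092) (nat_lit 6) (nat_lit 67) (nat_lit 4) (nat_lit 181) (nat_lit 300) (nat_lit 299)) (PT.lf (nat_lit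 5320) (nat_lit 6) (nat_lit 70) (nat_lit 4) (nat_lit 182) (nat_lit 300) (nat_lit 298))) (PT.nd (nat_lit 8892) (PT.lf (nat_lit 5548) (nat_lit 6) (nat_lit 73) (nat_lit 4) (nat_lit 183) (nat_lit 300) (nat_lit 297)) (PT.lf (nat_lit 5548) (nat_lit 6) (nat_lit 73) (nat_lit 2) (nat_lit 297) (nat_lit 300) (nat_lit 183)))))) (PT.nd (nat_lit 81276) (PT.nd (nat_lit 71916) (PT.nd (nat_lit 156) (PT.nd (nat_lit 78) (PT.lf (nat_lit 5320) (nat_lit 6) (nat_lit 70) (nat_lit 2) (nat_lit 298) (nat_lit 300) (nat_lit 182)) (PT.lf (nat_lit 5092) (nat_lit 6) (nat_lit 67) (nat_lit 2) (nat_lit 299) (nat_lit 300) (nat_lit 181))) (PT.nd (nat_lit 78) (PT.lf (nat_lit 4864) (nat_lit 3) (nat_lit 64) (nat_lit 0) (nat_lit 300) (nat_lit 300) (nat_lit 180)) (PT.lf (nat_lit 4636) (nat_lit 6) (nat_lit 61) (nat_lit 0) (nat_lit 301) (nat_lit 300) (nat_lit 179)))) (PT.nd (nat_lit 156) (PT.nd (nat_lit 78) (PT.lf (nat_lit 4636) (nat_lit 6) (nat_lit 61) (nat_lit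 4) (nat_lit 179) (nat_lit 301) (nat_lit 300)) (PT.lf (nat_lit 4788) (nat_lit 6) (nat_lit 63) (nat_lit 4) (nat_lit 180) (nat_lit 301) (nat_lit 299))) (PT.nd (nat_lit 9126) (PT.lf (nat_lit 5016) (nat_lit 6) (nat_lit 66) (nat_lit 4) (nat_lit 181) (nat_lit 301) (nat_lit 298)) (PT.lf (nat_lit 5016) (nat_lit 6) (nat_lit 66) (nat_lit 2) (nat_lit 298) (nat_lit 301) (nat_lit 181))))) (PT.nd (nat_lit 2926092) (PT.nd (nat_lit 2907996) (PT.nd (nat_lit 78) (PT.lf (nat_lit 4788) (nat_lit 6) (nat_lit 63) (nat_lit 2) (nat_lit 299) (nat_lit 301) (nat_lit 180)) (PT.lf (nat_lit 4636) (nat_lit 6) (nat_lit 61) (nat_lit 2) (nat_lit 300) (nat_lit 301) (nat_lit 179))) (PT.nd (nat_lit 78) (PT.lf (nat_lit 76) (nat_lit 6) (nat_lit 1) (nat_lit 5) (nat_lit 105) (nat_lit 337) (nat_lit 338)) (PT.lf (nat_lit 152) (nat_lit 3) (nat_lit 2) (nat_lit 4) (nat_lit 106) (nat_lit 337) (nat_lit 337)))) (PT.nd (nat_lit 63102) (PT.nd (nat_lit 78) (PT.lf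 (nat_lit 152) (nat_lit 3) (nat_lit 2) (nat_lit 0) (nat_lit 337) (nat_lit 337) (nat_lit 106)) (PT.lf (nat_lit 76) (nat_lit 6) (nat_lit 1) (nat_lit 0) (nat_lit 338) (nat_lit 337) (nat_lit 105))) (PT.nd (nat_lit 18096) (PT.lf (nat_lit 76) (nat_lit 6) (nat_lit 1) (nat_lit 4) (nat_lit 105) (nat_lit 338) (nat_lit 337)) (PT.lf (nat_lit 76) (nat_lit 6) (nat_lit 1) (nat_lit 2) (nat_lit 337) (nat_lit 338) (nat_lit 105))))))))
noncomputable def xc0 : XT := (XT.nd (nat_lit 243360) (nat_lit 0) (nat_lit 0) (XT.nd (nat_lit 162162) (nat_lit 0) (nat_lit 0) (XT.nd (nat_lit 81120) (nat_lit 0) (nat_lit 0) (XT.nd (nat_lit 80964) (nat_lit 0) (nat_lit 760) (XT.nd (nat_lit 78) (nat_lit 228) (nat_lit 0) (XT.lf (nat_lit 0) (nat_lit 6212034366) (nat_lit 228) (nat_lit 3244374254) (nat_lit 228) (nat_lit 2731227539) (nat_lit 64) (nat_lit 4) (nat_lit 67) (nat_lit 5) (nat_lit 67) (nat_lit 4) (nat_lit 625) (nat_lit 468) (nat_lit 467)) (XT.lf (nat_lit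 0) (nat_lit 2714290163) (nat_lit 228) (nat_lit 7879634397) (nat_lit 0) (nat_lit 1717984546) (nat_lit 61) (nat_lit 5) (nat_lit 64) (nat_lit 4) (nat_lit 61) (nat_lit 4) (nat_lit 626) (nat_lit 468) (nat_lit 466))) (XT.nd (nat_lit 78) (nat_lit 228) (nat_lit 0) (XT.lf (nat_lit 0) (nat_lit 2772180737) (nat_lit 304) (nat_lit 369480939) (nat_lit 0) (nat_lit 2772180737) (nat_lit 74) (nat_lit 5) (nat_lit 78) (nat_lit 4) (nat_lit 74) (nat_lit 4) (nat_lit 622) (nat_lit 469) (nat_lit 469)) (XT.lf (nat_lit 0) (nat_lit 9514909333) (nat_lit 228) (nat_lit 1482570877) (nat_lit 228) (nat_lit 948693034) (nat_lit 71) (nat_lit 4) (nat_lit 74) (nat_lit 5) (nat_lit 74) (nat_lit 4) (nat_lit 623) (nat_lit 469) (nat_lit 468)))) (XT.nd (nat_lit 156) (nat_lit 228) (nat_lit 0) (XT.nd (nat_lit 78) (nat_lit 228) (nat_lit 0) (XT.lf (nat_lit 0) (nat_lit 4434786334) (nat_lit 304) (nat_lit 4233414392) (nat_lit 0) (nat_lit 3398229969) (nat_lit 67)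 (nat_lit 5) (nat_lit 71) (nat_lit 4) (nat_lit 67) (nat_lit 4) (nat_lit 624) (nat_lit 469) (nat_lit 467)) (XT.lf (nat_lit 0) (nat_lit 6075010408) (nat_lit 228) (nat_lit 3826914561) (nat_lit 228) (nat_lit 2287273182) (nat_lit 64) (nat_lit 4) (nat_lit 67) (nat_lit 5) (nat_lit 67) (nat_lit 4) (nat_lit 625) (nat_lit 469) (nat_lit 466))) (XT.nd (nat_lit 80730) (nat_lit 0) (nat_lit 988) (XT.lf (nat_lit 0) (nat_lit 3109032899) (nat_lit 228) (nat_lit 8089219340) (nat_lit 0) (nat_lit 1116030956) (nat_lit 61) (nat_lit 5) (nat_lit 64) (nat_lit 4) (nat_lit 61) (nat_lit 4) (nat_lit 626) (nat_lit 469) (nat_lit 465)) (XT.nd (nat_lit 78) (nat_lit 304) (nat_lit 0) (XT.lf (nat_lit 0) (nat_lit 1261043647) (nat_lit 228) (nat_lit 2268637244) (nat_lit 228) (nat_lit 2268637244) (nat_lit 78) (nat_lit 4) (nat_lit 81) (nat_lit 5) (nat_lit 81) (nat_lit 4) (nat_lit 620) (nat_lit 470) (nat_lit 470)) (XT.lf (nat_lit 0) (nat_lit 727394374) (nat_lit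 304) (nat_lit 10801597209) (nat_lit 0) (nat_lit 182838975) (nat_lit 74) (nat_lit 5) (nat_lit 78) (nat_lit 4) (nat_lit 74) (nat_lit 4) (nat_lit 621) (nat_lit 470) (nat_lit 469)))))) (XT.nd (nat_lit 312) (nat_lit 228) (nat_lit 0) (XT.nd (nat_lit 156) (nat_lit 532) (nat_lit 0) (XT.nd (nat_lit 78) (nat_lit 228) (nat_lit 0) (XT.lf (nat_lit 0) (nat_lit 6050594440) (nat_lit 304) (nat_lit 805697805) (nat_lit 0) (nat_lit 4972161199) (nat_lit 74) (nat_lit 5) (nat_lit 78) (nat_lit 4) (nat_lit 74) (nat_lit 4) (nat_lit 622) (nat_lit 470) (nat_lit 468)) (XT.lf (nat_lit 0) (nat_lit 9380989649) (nat_lit 228) (nat_lit 2084283019) (nat_lit 228) (nat_lit 482440129) (nat_lit 71) (nat_lit 4) (nat_lit 74) (nat_lit 5) (nat_lit 74) (nat_lit 4) (nat_lit 623) (nat_lit 470) (nat_lit 467))) (XT.nd (nat_lit 78) (nat_lit 228) (nat_lit 0) (XT.lf (nat_lit 0) (nat_lit 4851999835) (nat_lit 304) (nat_lit 4438289787) (nat_lit 0) (nat_lit 2778480613)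 (nat_lit 67) (nat_lit 5) (nat_lit 71) (nat_lit 4) (nat_lit 67) (nat_lit 4) (nat_lit 624) (nat_lit 470) (nat_lit 466)) (XT.lf (nat_lit 0) (nat_lit 5800908756) (nat_lit 228) (nat_lit 4479076909) (nat_lit 228) (nat_lit 1912337085) (nat_lit 64) (nat_lit 4) (nat_lit 67) (nat_lit 5) (nat_lit 67) (nat_lit 4) (nat_lit 625) (nat_lit 470) (nat_lit 465)))) (XT.nd (nat_lit 80652) (nat_lit 0) (nat_lit 988) (XT.nd (nat_lit 80574) (nat_lit 0) (nat_lit 1824) (XT.lf (nat_lit 0) (nat_lit 3435050992) (nat_lit 228) (nat_lit 8438618899) (nat_lit 0) (nat_lit 444571154) (nat_lit 61) (nat_lit 5) (nat_lit 64) (nat_lit 4) (nat_lit 61) (nat_lit 4) (nat_lit 626) (nat_lit 470) (nat_lit 464)) (XT.lf (nat_lit 0) (nat_lit 2805618034) (nat_lit 228) (nat_lit 1440321137) (nat_lit 228) (nat_lit 1440321137) (nat_lit 85) (nat_lit 4) (nat_lit 88) (nat_lit 5) (nat_lit 88) (nat_lit 4) (nat_lit 618) (nat_lit 471) (nat_lit 471))) (XT.nd (nat_lit 78) (nat_lit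 532) (nat_lit 0) (XT.lf (nat_lit 0) (nat_lit 2321962868) (nat_lit 304) (nat_lit 7406641188) (nat_lit 0) (nat_lit 1755407430) (nat_lit 81) (nat_lit 5) (nat_lit 85) (nat_lit 4) (nat_lit 81) (nat_lit 4) (nat_lit 619) (nat_lit 471) (nat_lit 470)) (XT.nd (nat_lit 78) (nat_lit 304) (nat_lit 0) (XT.lf (nat_lit 0) (nat_lit 2456009770) (nat_lit 228) (nat_lit 5131697451) (nat_lit 228) (nat_lit 4009695506) (nat_lit 78) (nat_lit 4) (nat_lit 81) (nat_lit 5) (nat_lit 81) (nat_lit 4) (nat_lit 620) (nat_lit 471) (nat_lit 469)) (XT.lf (nat_lit 0) (nat_lit 774104260) (nat_lit 228) (nat_lit 434144058) (nat_lit 304) (nat_lit 10505078471) (nat_lit 74) (nat_lit 5) (nat_lit 77) (nat_lit 5) (nat_lit 78) (nat_lit 4) (nat_lit 621) (nat_lit 471) (nat_lit 468))))))) (XT.nd (nat_lit 81042) (nat_lit 0) (nat_lit 0) (XT.nd (nat_lit 312) (nat_lit 228) (nat_lit 0) (XT.nd (nat_lit 156) (nat_lit 532) (nat_lit 0) (XT.nd (nat_lit 78) (nat_lit 228)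 (nat_lit 0) (XT.lf (nat_lit 0) (nat_lit 6491058620) (nat_lit 304) (nat_lit 1005931753) (nat_lit 0) (nat_lit 4333769222) (nat_lit 74) (nat_lit 5) (nat_lit 78) (nat_lit 4) (nat_lit 74) (nat_lit 4) (nat_lit 622) (nat_lit 471) (nat_lit 467)) (XT.lf (nat_lit 0) (nat_lit 9113097762) (nat_lit 228) (nat_lit 2754065428) (nat_lit 228) (nat_lit 83629315) (nat_lit 71) (nat_lit 4) (nat_lit 74) (nat_lit 5) (nat_lit 74) (nat_lit 4) (nat_lit 623) (nat_lit 471) (nat_lit 466))) (XT.nd (nat_lit 78) (nat_lit 228) (nat_lit 0) (XT.lf (nat_lit 0) (nat_lit 5202063831) (nat_lit 304) (nat_lit 4779838046) (nat_lit 0) (nat_lit 2090768608) (nat_lit 67) (nat_lit 5) (nat_lit 71) (nat_lit 4) (nat_lit 67) (nat_lit 4) (nat_lit 624) (nat_lit 471) (nat_lit 465)) (XT.lf (nat_lit 0) (nat_lit 5389621920) (nat_lit 228) (nat_lit 5201117046) (nat_lit 228) (nat_lit 1606272212) (nat_lit 64) (nat_lit 4) (nat_lit 67) (nat_lit 5) (nat_lit 67) (nat_lit 4) (nat_lit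 625) (nat_lit 471) (nat_lit 464)))) (XT.nd (nat_lit 80496) (nat_lit 0) (nat_lit 1520) (XT.nd (nat_lit 80418) (nat_lit 0) (nat_lit 2356) (XT.lf (nat_lit 0) (nat_lit 3393823381) (nat_lit 152) (nat_lit 300600608) (nat_lit 228) (nat_lit 8629321183) (nat_lit 61) (nat_lit 5) (nat_lit 63) (nat_lit 5) (nat_lit 64) (nat_lit 4) (nat_lit 626) (nat_lit 471) (nat_lit 463)) (XT.lf (nat_lit 0) (nat_lit 4268224776) (nat_lit 304) (nat_lit 654690190) (nat_lit 304) (nat_lit 654690190) (nat_lit 92) (nat_lit 4) (nat_lit 96) (nat_lit 5) (nat_lit 96) (nat_lit 4) (nat_lit 616) (nat_lit 472) (nat_lit 472))) (XT.nd (nat_lit 78) (nat_lit 532) (nat_lit 0) (XT.lf (nat_lit 0) (nat_lit 3830931556) (nat_lit 304) (nat_lit 4190700946) (nat_lit 0) (nat_lit 3241487279) (nat_lit 88) (nat_lit 5) (nat_lit 92) (nat_lit 4) (nat_lit 88) (nat_lit 4) (nat_lit 617) (nat_lit 472) (nat_lit 471)) (XT.nd (nat_lit 78) (nat_lit 304) (nat_lit 0) (XT.lf (nat_lit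 0) (nat_lit 5546682393) (nat_lit 228) (nat_lit 3496962475) (nat_lit 228) (nat_lit 2329631652) (nat_lit 85) (nat_lit 4) (nat_lit 88) (nat_lit 5) (nat_lit 88) (nat_lit 4) (nat_lit 618) (nat_lit 472) (nat_lit 470)) (XT.lf (nat_lit 0) (nat_lit 2823531833) (nat_lit 304) (nat_lit 7538367217) (nat_lit 0) (nat_lit 1123643343) (nat_lit 81) (nat_lit 5) (nat_lit 85) (nat_lit 4) (nat_lit 81) (nat_lit 4) (nat_lit 619) (nat_lit 472) (nat_lit 469)))))) (XT.nd (nat_lit 390) (nat_lit 456) (nat_lit 0) (XT.nd (nat_lit 156) (nat_lit 532) (nat_lit 0) (XT.nd (nat_lit 78) (nat_lit 304) (nat_lit 0) (XT.lf (nat_lit 0) (nat_lit 2257751285) (nat_lit 228) (nat_lit 5793197500) (nat_lit 228) (nat_lit 3548753610) (nat_lit 78) (nat_lit 4) (nat_lit 81) (nat_lit 5) (nat_lit 81) (nat_lit 4) (nat_lit 620) (nat_lit 472) (nat_lit 468)) (XT.lf (nat_lit 0) (nat_lit 502992576) (nat_lit 228) (nat_lit 1121420447) (nat_lit 304) (nat_lit 10091930341) (nat_lit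 74) (nat_lit 5) (nat_lit 77) (nat_lit 5) (nat_lit 78) (nat_lit 4) (nat_lit 621) (nat_lit 472) (nat_lit 467))) (XT.nd (nat_lit 78) (nat_lit 532) (nat_lit 0) (XT.lf (nat_lit 0) (nat_lit 6865926745) (nat_lit 304) (nat_lit 1339742246) (nat_lit 0) (nat_lit 3628935195) (nat_lit 74) (nat_lit 5) (nat_lit 78) (nat_lit 4) (nat_lit 74) (nat_lit 4) (nat_lit 622) (nat_lit 472) (nat_lit 466)) (XT.nd (nat_lit 78) (nat_lit 228) (nat_lit 0) (XT.lf (nat_lit 0) (nat_lit 244644603) (nat_lit 304) (nat_lit 3245894464) (nat_lit 76) (nat_lit 8464842320) (nat_lit 70) (nat_lit 5) (nat_lit 74) (nat_lit 5) (nat_lit 71) (nat_lit 4) (nat_lit 623) (nat_lit 472) (nat_lit 465)) (XT.lf (nat_lit 0) (nat_lit 5485115604) (nat_lit 304) (nat_lit 5258193111) (nat_lit 0) (nat_lit 1334824264) (nat_lit 67) (nat_lit 5) (nat_lit 71) (nat_lit 4) (nat_lit 67) (nat_lit 4) (nat_lit 624) (nat_lit 472) (nat_lit 464))))) (XT.nd (nat_lit 80340) (nat_lit 0) (nat_lit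 2356) (XT.nd (nat_lit 78) (nat_lit 228) (nat_lit 0) (XT.lf (nat_lit 0) (nat_lit 4840988612) (nat_lit 228) (nat_lit 5993318125) (nat_lit 228) (nat_lit 1368958539) (nat_lit 64) (nat_lit 4) (nat_lit 67) (nat_lit 5) (nat_lit 67) (nat_lit 4) (nat_lit 625) (nat_lit 472) (nat_lit 463)) (XT.lf (nat_lit 0) (nat_lit 2766015117) (nat_lit 152) (nat_lit 1122671760) (nat_lit 228) (nat_lit 8442082196) (nat_lit 61) (nat_lit 5) (nat_lit 63) (nat_lit 5) (nat_lit 64) (nat_lit 4) (nat_lit 626) (nat_lit 472) (nat_lit 462))) (XT.nd (nat_lit 78) (nat_lit 304) (nat_lit 0) (XT.lf (nat_lit 0) (nat_lit 93061866) (nat_lit 304) (nat_lit 5286075658) (nat_lit 0) (nat_lit 93061866) (nat_lit 96) (nat_lit 5) (nat_lit 100) (nat_lit 4) (nat_lit 96) (nat_lit 4) (nat_lit 614) (nat_lit 473) (nat_lit 473)) (XT.nd (nat_lit 78) (nat_lit 304) (nat_lit 0) (XT.lf (nat_lit 0) (nat_lit 5262871349) (nat_lit 304) (nat_lit 1136452387) (nat_lit 0) (nat_lit 4649613523)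 (nat_lit 96) (nat_lit 5) (nat_lit 100) (nat_lit 4) (nat_lit 96) (nat_lit 4) (nat_lit 615) (nat_lit 473) (nat_lit 472)) (XT.lf (nat_lit 0) (nat_lit 8473399067) (nat_lit 304) (nat_lit 1948523986) (nat_lit 304) (nat_lit 734032998) (nat_lit 92) (nat_lit 4) (nat_lit 96) (nat_lit 5) (nat_lit 96) (nat_lit 4) (nat_lit 616) (nat_lit 473) (nat_lit 471))))))))
noncomputable def xc1 : XT := (XT.nd (nat_lit 81510) (nat_lit 0) (nat_lit 0) (XT.nd (nat_lit 702) (nat_lit 228) (nat_lit 0) (XT.nd (nat_lit 312) (nat_lit 1064) (nat_lit 0) (XT.nd (nat_lit 156) (nat_lit 532) (nat_lit 0) (XT.nd (nat_lit 78) (nat_lit 228) (nat_lit 0) (XT.lf (nat_lit 0) (nat_lit 4356902292) (nat_lit 304) (nat_lit 4319389172) (nat_lit 0) (nat_lit 2588338306) (nat_lit 88) (nat_lit 5) (nat_lit 92) (nat_lit 4) (nat_lit 88) (nat_lit 4) (nat_lit 617) (nat_lit 473) (nat_lit 470)) (XT.lf (nat_lit 0) (nat_lit 5352996051) (nat_lit 228) (nat_lit 4178833947) (nat_lit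 228) (nat_lit 1843714524) (nat_lit 85) (nat_lit 4) (nat_lit 88) (nat_lit 5) (nat_lit 88) (nat_lit 4) (nat_lit 618) (nat_lit 473) (nat_lit 469))) (XT.nd (nat_lit 78) (nat_lit 228) (nat_lit 0) (XT.lf (nat_lit 0) (nat_lit 3260311022) (nat_lit 304) (nat_lit 7801870933) (nat_lit 0) (nat_lit 426422855) (nat_lit 81) (nat_lit 5) (nat_lit 85) (nat_lit 4) (nat_lit 81) (nat_lit 4) (nat_lit 619) (nat_lit 473) (nat_lit 468)) (XT.lf (nat_lit 0) (nat_lit 1927234090) (nat_lit 228) (nat_lit 6522034047) (nat_lit 228) (nat_lit 3154268039) (nat_lit 78) (nat_lit 4) (nat_lit 81) (nat_lit 5) (nat_lit 81) (nat_lit 4) (nat_lit 620) (nat_lit 473) (nat_lit 467)))) (XT.nd (nat_lit 156) (nat_lit 760) (nat_lit 0) (XT.nd (nat_lit 78) (nat_lit 0) (nat_lit 0) (XT.lf (nat_lit 0) (nat_lit 98018925) (nat_lit 228) (nat_lit 1876829878) (nat_lit 304) (nat_lit 9746056722) (nat_lit 74) (nat_lit 5) (nat_lit 77) (nat_lit 5) (nat_lit 78) (nat_lit 4) (nat_lit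 621) (nat_lit 473) (nat_lit 466)) (XT.lf (nat_lit 0) (nat_lit 7175345821) (nat_lit 304) (nat_lit 1807260191) (nat_lit 0) (nat_lit 2857382711) (nat_lit 74) (nat_lit 5) (nat_lit 78) (nat_lit 4) (nat_lit 74) (nat_lit 4) (nat_lit 622) (nat_lit 473) (nat_lit 465))) (XT.nd (nat_lit 78) (nat_lit 456) (nat_lit 0) (XT.lf (nat_lit 0) (nat_lit 505546782) (nat_lit 304) (nat_lit 3789979212) (nat_lit 76) (nat_lit 7665985313) (nat_lit 70) (nat_lit 5) (nat_lit 74) (nat_lit 5) (nat_lit 71) (nat_lit 4) (nat_lit 623) (nat_lit 473) (nat_lit 464)) (XT.nd (nat_lit 78) (nat_lit 228) (nat_lit 0) (XT.lf (nat_lit 0) (nat_lit 5701266154) (nat_lit 304) (nat_lit 5873542572) (nat_lit 0) (nat_lit 510351130) (nat_lit 67) (nat_lit 5) (nat_lit 71) (nat_lit 4) (nat_lit 67) (nat_lit 4) (nat_lit 624) (nat_lit 473) (nat_lit 463)) (XT.lf (nat_lit 0) (nat_lit 4154793680) (nat_lit 228) (nat_lit 6855990815) (nat_lit 228) (nat_lit 1200303002) (nat_lit 64)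 (nat_lit 4) (nat_lit 67) (nat_lit 5) (nat_lit 67) (nat_lit 4) (nat_lit 625) (nat_lit 473) (nat_lit 462)))))) (XT.nd (nat_lit 80418) (nat_lit 0) (nat_lit 1292) (XT.nd (nat_lit 80184) (nat_lit 0) (nat_lit 2660) (XT.nd (nat_lit 80106) (nat_lit 0) (nat_lit 3268) (XT.lf (nat_lit 0) (nat_lit 1998934461) (nat_lit 152) (nat_lit 2016056564) (nat_lit 228) (nat_lit 8324382970) (nat_lit 61) (nat_lit 5) (nat_lit 63) (nat_lit 5) (nat_lit 64) (nat_lit 4) (nat_lit 626) (nat_lit 473) (nat_lit 461)) (XT.lf (nat_lit 0) (nat_lit 810339869) (nat_lit 304) (nat_lit 3748988792) (nat_lit 0) (nat_lit 810339869) (nat_lit 104) (nat_lit 5) (nat_lit 108) (nat_lit 4) (nat_lit 104) (nat_lit 4) (nat_lit 612) (nat_lit 474) (nat_lit 474))) (XT.nd (nat_lit 78) (nat_lit 304) (nat_lit 0) (XT.lf (nat_lit 0) (nat_lit 1795801279) (nat_lit 304) (nat_lit 4841629750) (nat_lit 304) (nat_lit 4203596308) (nat_lit 100) (nat_lit 4) (nat_lit 104) (nat_lit 5) (nat_lit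 104) (nat_lit 4) (nat_lit 613) (nat_lit 474) (nat_lit 473)) (XT.nd (nat_lit 78) (nat_lit 0) (nat_lit 0) (XT.lf (nat_lit 0) (nat_lit 306413852) (nat_lit 228) (nat_lit 470799155) (nat_lit 304) (nat_lit 10167876941) (nat_lit 96) (nat_lit 5) (nat_lit 99) (nat_lit 5) (nat_lit 100) (nat_lit 4) (nat_lit 614) (nat_lit 474) (nat_lit 472)) (XT.lf (nat_lit 0) (nat_lit 5814148541) (nat_lit 304) (nat_lit 1262143994) (nat_lit 0) (nat_lit 3974134571) (nat_lit 96) (nat_lit 5) (nat_lit 100) (nat_lit 4) (nat_lit 96) (nat_lit 4) (nat_lit 615) (nat_lit 474) (nat_lit 471))))) (XT.nd (nat_lit 156) (nat_lit 760) (nat_lit 0) (XT.nd (nat_lit 78) (nat_lit 304) (nat_lit 0) (XT.lf (nat_lit 0) (nat_lit 8284222882) (nat_lit 304) (nat_lit 2651714458) (nat_lit 304) (nat_lit 222256211) (nat_lit 92) (nat_lit 4) (nat_lit 96) (nat_lit 5) (nat_lit 96) (nat_lit 4) (nat_lit 616) (nat_lit 474) (nat_lit 470)) (XT.lf (nat_lit 0) (nat_lit 4819605750) (nat_lit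 304) (nat_lit 4576816089) (nat_lit 0) (nat_lit 1871228501) (nat_lit 88) (nat_lit 5) (nat_lit 92) (nat_lit 4) (nat_lit 88) (nat_lit 4) (nat_lit 617) (nat_lit 474) (nat_lit 469))) (XT.nd (nat_lit 78) (nat_lit 532) (nat_lit 0) (XT.lf (nat_lit 0) (nat_lit 5030101088) (nat_lit 228) (nat_lit 4926524090) (nat_lit 228) (nat_lit 1422700335) (nat_lit 85) (nat_lit 4) (nat_lit 88) (nat_lit 5) (nat_lit 88) (nat_lit 4) (nat_lit 618) (nat_lit 474) (nat_lit 468)) (XT.nd (nat_lit 78) (nat_lit 228) (nat_lit 0) (XT.lf (nat_lit 0) (nat_lit 3293685989) (nat_lit 228) (nat_lit 340999725) (nat_lit 304) (nat_lit 7858469941) (nat_lit 81) (nat_lit 5) (nat_lit 84) (nat_lit 5) (nat_lit 85) (nat_lit 4) (nat_lit 619) (nat_lit 474) (nat_lit 467)) (XT.lf (nat_lit 0) (nat_lit 1464328571) (nat_lit 228) (nat_lit 7318492912) (nat_lit 228) (nat_lit 2826084091) (nat_lit 78) (nat_lit 4) (nat_lit 81) (nat_lit 5) (nat_lit 81) (nat_lit 4) (nat_lit 620)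 (nat_lit 474) (nat_lit 466))))))) (XT.nd (nat_lit 80574) (nat_lit 0) (nat_lit 988) (XT.nd (nat_lit 312) (nat_lit 456) (nat_lit 0) (XT.nd (nat_lit 156) (nat_lit 532) (nat_lit 0) (XT.nd (nat_lit 78) (nat_lit 228) (nat_lit 0) (XT.lf (nat_lit 0) (nat_lit 2262556190) (nat_lit 304) (nat_lit 435192030) (nat_lit 76) (nat_lit 9029209577) (nat_lit 77) (nat_lit 5) (nat_lit 81) (nat_lit 5) (nat_lit 78) (nat_lit 4) (nat_lit 621) (nat_lit 474) (nat_lit 465)) (XT.lf (nat_lit 0) (nat_lit 7419437191) (nat_lit 304) (nat_lit 2408668928) (nat_lit 0) (nat_lit 2018809200) (nat_lit 74) (nat_lit 5) (nat_lit 78) (nat_lit 4) (nat_lit 74) (nat_lit 4) (nat_lit 622) (nat_lit 474) (nat_lit 464))) (XT.nd (nat_lit 78) (nat_lit 228) (nat_lit 0) (XT.lf (nat_lit 0) (nat_lit 700276349) (nat_lit 304) (nat_lit 4469619375) (nat_lit 76) (nat_lit 6799299803) (nat_lit 70) (nat_lit 5) (nat_lit 74) (nat_lit 5) (nat_lit 71) (nat_lit 4) (nat_lit 623) (nat_lit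 474) (nat_lit 463)) (XT.lf (nat_lit 0) (nat_lit 5465056172) (nat_lit 228) (nat_lit 388063638) (nat_lit 304) (nat_lit 6240583670) (nat_lit 67) (nat_lit 5) (nat_lit 70) (nat_lit 5) (nat_lit 71) (nat_lit 4) (nat_lit 624) (nat_lit 474) (nat_lit 462)))) (XT.nd (nat_lit 80028) (nat_lit 0) (nat_lit 3268) (XT.nd (nat_lit 78) (nat_lit 228) (nat_lit 0) (XT.lf (nat_lit 0) (nat_lit 3330768028) (nat_lit 228) (nat_lit 7789473417) (nat_lit 228) (nat_lit 1100239460) (nat_lit 64) (nat_lit 4) (nat_lit 67) (nat_lit 5) (nat_lit 67) (nat_lit 4) (nat_lit 625) (nat_lit 474) (nat_lit 461)) (XT.lf (nat_lit 0) (nat_lit 1092280597) (nat_lit 152) (nat_lit 2981105368) (nat_lit 228) (nat_lit 8276177350) (nat_lit 61) (nat_lit 5) (nat_lit 63) (nat_lit 5) (nat_lit 64) (nat_lit 4) (nat_lit 626) (nat_lit 474) (nat_lit 460))) (XT.nd (nat_lit 78) (nat_lit 608) (nat_lit 0) (XT.lf (nat_lit 0) (nat_lit 1496482157) (nat_lit 380) (nat_lit 2277298823) (nat_lit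 0) (nat_lit 1496482157) (nat_lit 112) (nat_lit 5) (nat_lit 117) (nat_lit 4) (nat_lit 112) (nat_lit 4) (nat_lit 610) (nat_lit 475) (nat_lit 475)) (XT.nd (nat_lit 78) (nat_lit 304) (nat_lit 0) (XT.lf (nat_lit 0) (nat_lit 4610937180) (nat_lit 304) (nat_lit 3346087067) (nat_lit 304) (nat_lit 2682277074) (nat_lit 108) (nat_lit 4) (nat_lit 112) (nat_lit 5) (nat_lit 112) (nat_lit 4) (nat_lit 611) (nat_lit 475) (nat_lit 474)) (XT.lf (nat_lit 0) (nat_lit 2234477322) (nat_lit 304) (nat_lit 7559952493) (nat_lit 0) (nat_lit 945649769) (nat_lit 104) (nat_lit 5) (nat_lit 108) (nat_lit 4) (nat_lit 104) (nat_lit 4) (nat_lit 612) (nat_lit 475) (nat_lit 473)))))) (XT.nd (nat_lit 390) (nat_lit 1064) (nat_lit 0) (XT.nd (nat_lit 156) (nat_lit 608) (nat_lit 0) (XT.nd (nat_lit 78) (nat_lit 304) (nat_lit 0) (XT.lf (nat_lit 0) (nat_lit 1671435576) (nat_lit 304) (nat_lit 5542714464) (nat_lit 304) (nat_lit 3628363929) (nat_lit 100) (nat_lit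 4) (nat_lit 104) (nat_lit 5) (nat_lit 104) (nat_lit 4) (nat_lit 613) (nat_lit 475) (nat_lit 472)) (XT.lf (nat_lit 0) (nat_lit 113452607) (nat_lit 228) (nat_lit 1194003317) (nat_lit 304) (nat_lit 9639797308) (nat_lit 96) (nat_lit 5) (nat_lit 99) (nat_lit 5) (nat_lit 100) (nat_lit 4) (nat_lit 614) (nat_lit 475) (nat_lit 471))) (XT.nd (nat_lit 78) (nat_lit 608) (nat_lit 0) (XT.lf (nat_lit 0) (nat_lit 6303661288) (nat_lit 304) (nat_lit 1513576499) (nat_lit 0) (nat_lit 3236169599) (nat_lit 96) (nat_lit 5) (nat_lit 100) (nat_lit 4) (nat_lit 96) (nat_lit 4) (nat_lit 615) (nat_lit 475) (nat_lit 470)) (XT.nd (nat_lit 78) (nat_lit 228) (nat_lit 0) (XT.lf (nat_lit 0) (nat_lit 223184670) (nat_lit 380) (nat_lit 3194545200) (nat_lit 76) (nat_lit 7744164456) (nat_lit 91) (nat_lit 5) (nat_lit 96) (nat_lit 5) (nat_lit 92) (nat_lit 4) (nat_lit 616) (nat_lit 475) (nat_lit 469)) (XT.lf (nat_lit 0) (nat_lit 5219223382) (nat_lit 304)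 (nat_lit 4963082649) (nat_lit 0) (nat_lit 1089876644) (nat_lit 88) (nat_lit 5) (nat_lit 92) (nat_lit 4) (nat_lit 88) (nat_lit 4) (nat_lit 617) (nat_lit 475) (nat_lit 468))))) (XT.nd (nat_lit 156) (nat_lit 532) (nat_lit 0) (XT.nd (nat_lit 78) (nat_lit 304) (nat_lit 0) (XT.lf (nat_lit 0) (nat_lit 4577870879) (nat_lit 228) (nat_lit 5740326117) (nat_lit 228) (nat_lit 1066423981) (nat_lit 85) (nat_lit 4) (nat_lit 88) (nat_lit 5) (nat_lit 88) (nat_lit 4) (nat_lit 618) (nat_lit 475) (nat_lit 467)) (XT.lf (nat_lit 0) (nat_lit 2766831927) (nat_lit 228) (nat_lit 1180995748) (nat_lit 304) (nat_lit 7551348540) (nat_lit 81) (nat_lit 5) (nat_lit 84) (nat_lit 5) (nat_lit 85) (nat_lit 4) (nat_lit 619) (nat_lit 475) (nat_lit 466))) (XT.nd (nat_lit 78) (nat_lit 304) (nat_lit 0) (XT.lf (nat_lit 0) (nat_lit 868853196) (nat_lit 228) (nat_lit 8182886430) (nat_lit 228) (nat_lit 2564073069) (nat_lit 78) (nat_lit 4) (nat_lit 81) (nat_lit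 5) (nat_lit 81) (nat_lit 4) (nat_lit 620) (nat_lit 475) (nat_lit 465)) (XT.nd (nat_lit 78) (nat_lit 228) (nat_lit 0) (XT.lf (nat_lit 0) (nat_lit 2486291709) (nat_lit 304) (nat_lit 1099589122) (nat_lit 76) (nat_lit 8148648851) (nat_lit 77) (nat_lit 5) (nat_lit 81) (nat_lit 5) (nat_lit 78) (nat_lit 4) (nat_lit 621) (nat_lit 475) (nat_lit 464)) (XT.lf (nat_lit 0) (nat_lit 7598296575) (nat_lit 304) (nat_lit 3144204303) (nat_lit 0) (nat_lit 1112885812) (nat_lit 74) (nat_lit 5) (nat_lit 78) (nat_lit 4) (nat_lit 74) (nat_lit 4) (nat_lit 622) (nat_lit 475) (nat_lit 463))))))))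
noncomputable def xc2 : XT := (XT.nd (nat_lit 81198) (nat_lit 0) (nat_lit 152) (XT.nd (nat_lit 80418) (nat_lit 0) (nat_lit 988) (XT.nd (nat_lit 80028) (nat_lit 0) (nat_lit 3268) (XT.nd (nat_lit 156) (nat_lit 456) (nat_lit 0) (XT.nd (nat_lit 78) (nat_lit 228) (nat_lit 0) (XT.lf (nat_lit 0) (nat_lit 828909667) (nat_lit 304) (nat_lit 5285081479) (nat_lit 76) (nat_lit 5864445913) (nat_lit 70) (nat_lit 5) (nat_lit 74) (nat_lit 5) (nat_lit 71) (nat_lit 4) (nat_lit 623) (nat_lit 475) (nat_lit 462)) (XT.lf (nat_lit 0) (nat_lit 4578645620) (nat_lit 228) (nat_lit 1363382804) (nat_lit 304) (nat_lit 6161712934) (nat_lit 67) (nat_lit 5) (nat_lit 70) (nat_lit 5) (nat_lit 71) (nat_lit 4) (nat_lit 624) (nat_lit 475) (nat_lit 461))) (XT.nd (nat_lit 78) (nat_lit 228) (nat_lit 0) (XT.lf (nat_lit 0) (nat_lit 2368588510) (nat_lit 228) (nat_lit 8794132004) (nat_lit 228) (nat_lit 1068728675) (nat_lit 64) (nat_lit 4) (nat_lit 67) (nat_lit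 5) (nat_lit 67) (nat_lit 4) (nat_lit 625) (nat_lit 475) (nat_lit 460)) (XT.lf (nat_lit 0) (nat_lit 45697974) (nat_lit 152) (nat_lit 4018196621) (nat_lit 228) (nat_lit 8297446432) (nat_lit 61) (nat_lit 5) (nat_lit 63) (nat_lit 5) (nat_lit 64) (nat_lit 4) (nat_lit 626) (nat_lit 475) (nat_lit 459)))) (XT.nd (nat_lit 156) (nat_lit 988) (nat_lit 0) (XT.nd (nat_lit 78) (nat_lit 304) (nat_lit 0) (XT.lf (nat_lit 0) (nat_lit 2154922039) (nat_lit 380) (nat_lit 864052646) (nat_lit 0) (nat_lit 2154922039) (nat_lit 121) (nat_lit 5) (nat_lit 126) (nat_lit 4) (nat_lit 121) (nat_lit 4) (nat_lit 608) (nat_lit 476) (nat_lit 476)) (XT.lf (nat_lit 0) (nat_lit 7308104713) (nat_lit 304) (nat_lit 1913126802) (nat_lit 304) (nat_lit 1222498886) (nat_lit 117) (nat_lit 4) (nat_lit 121) (nat_lit 5) (nat_lit 121) (nat_lit 4) (nat_lit 609) (nat_lit 476) (nat_lit 475))) (XT.nd (nat_lit 78) (nat_lit 608) (nat_lit 0) (XT.lf (nat_lit 0) (nat_lit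 3633528470) (nat_lit 380) (nat_lit 4615098656) (nat_lit 0) (nat_lit 2292632285) (nat_lit 112) (nat_lit 5) (nat_lit 117) (nat_lit 4) (nat_lit 112) (nat_lit 4) (nat_lit 610) (nat_lit 476) (nat_lit 474)) (XT.nd (nat_lit 78) (nat_lit 304) (nat_lit 0) (XT.lf (nat_lit 0) (nat_lit 4489529167) (nat_lit 304) (nat_lit 4071465056) (nat_lit 304) (nat_lit 2079774760) (nat_lit 108) (nat_lit 4) (nat_lit 112) (nat_lit 5) (nat_lit 112) (nat_lit 4) (nat_lit 611) (nat_lit 476) (nat_lit 473)) (XT.lf (nat_lit 0) (nat_lit 2787283222) (nat_lit 304) (nat_lit 7745901524) (nat_lit 0) (nat_lit 209122694) (nat_lit 104) (nat_lit 5) (nat_lit 108) (nat_lit 4) (nat_lit 104) (nat_lit 4) (nat_lit 612) (nat_lit 476) (nat_lit 472)))))) (XT.nd (nat_lit 390) (nat_lit 1064) (nat_lit 0) (XT.nd (nat_lit 156) (nat_lit 836) (nat_lit 0) (XT.nd (nat_lit 78) (nat_lit 76) (nat_lit 0) (XT.lf (nat_lit 0) (nat_lit 1422655401) (nat_lit 304) (nat_lit 6307125385)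 (nat_lit 304) (nat_lit 3115707032) (nat_lit 100) (nat_lit 4) (nat_lit 104) (nat_lit 5) (nat_lit 104) (nat_lit 4) (nat_lit 613) (nat_lit 476) (nat_lit 471)) (XT.lf (nat_lit 0) (nat_lit 1777169924) (nat_lit 380) (nat_lit 202768267) (nat_lit 76) (nat_lit 8970949099) (nat_lit 99) (nat_lit 5) (nat_lit 104) (nat_lit 5) (nat_lit 100) (nat_lit 4) (nat_lit 614) (nat_lit 476) (nat_lit 470))) (XT.nd (nat_lit 78) (nat_lit 608) (nat_lit 0) (XT.lf (nat_lit 0) (nat_lit 6731601555) (nat_lit 304) (nat_lit 1890848502) (nat_lit 0) (nat_lit 2435429209) (nat_lit 96) (nat_lit 5) (nat_lit 100) (nat_lit 4) (nat_lit 96) (nat_lit 4) (nat_lit 615) (nat_lit 476) (nat_lit 469)) (XT.nd (nat_lit 78) (nat_lit 228) (nat_lit 0) (XT.lf (nat_lit 0) (nat_lit 603345370) (nat_lit 380) (nat_lit 3643970134) (nat_lit 76) (nat_lit 6919753046) (nat_lit 91) (nat_lit 5) (nat_lit 96) (nat_lit 5) (nat_lit 92) (nat_lit 4) (nat_lit 616) (nat_lit 476) (nat_lit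 468)) (XT.lf (nat_lit 0) (nat_lit 5555911902) (nat_lit 304) (nat_lit 5478340330) (nat_lit 0) (nat_lit 243976323) (nat_lit 88) (nat_lit 5) (nat_lit 92) (nat_lit 4) (nat_lit 88) (nat_lit 4) (nat_lit 617) (nat_lit 476) (nat_lit 467))))) (XT.nd (nat_lit 156) (nat_lit 532) (nat_lit 0) (XT.nd (nat_lit 78) (nat_lit 304) (nat_lit 0) (XT.lf (nat_lit 0) (nat_lit 3996128077) (nat_lit 228) (nat_lit 6620559167) (nat_lit 228) (nat_lit 774745746) (nat_lit 85) (nat_lit 4) (nat_lit 88) (nat_lit 5) (nat_lit 88) (nat_lit 4) (nat_lit 618) (nat_lit 476) (nat_lit 466)) (XT.lf (nat_lit 0) (nat_lit 2108826603) (nat_lit 228) (nat_lit 2088227690) (nat_lit 304) (nat_lit 7309670668) (nat_lit 81) (nat_lit 5) (nat_lit 84) (nat_lit 5) (nat_lit 85) (nat_lit 4) (nat_lit 619) (nat_lit 476) (nat_lit 465))) (XT.nd (nat_lit 78) (nat_lit 304) (nat_lit 0) (XT.lf (nat_lit 0) (nat_lit 140574446) (nat_lit 228) (nat_lit 9115553580) (nat_lit 228) (nat_lit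 2368132222) (nat_lit 78) (nat_lit 4) (nat_lit 81) (nat_lit 5) (nat_lit 81) (nat_lit 4) (nat_lit 620) (nat_lit 476) (nat_lit 464)) (XT.nd (nat_lit 78) (nat_lit 228) (nat_lit 0) (XT.lf (nat_lit 0) (nat_lit 2645506696) (nat_lit 304) (nat_lit 1896718433) (nat_lit 76) (nat_lit 7201411746) (nat_lit 77) (nat_lit 5) (nat_lit 81) (nat_lit 5) (nat_lit 78) (nat_lit 4) (nat_lit 621) (nat_lit 476) (nat_lit 463)) (XT.lf (nat_lit 0) (nat_lit 7711994115) (nat_lit 304) (nat_lit 4014154762) (nat_lit 0) (nat_lit 139257280) (nat_lit 74) (nat_lit 5) (nat_lit 78) (nat_lit 4) (nat_lit 74) (nat_lit 4) (nat_lit 622) (nat_lit 476) (nat_lit 462))))))) (XT.nd (nat_lit 80262) (nat_lit 0) (nat_lit 1368) (XT.nd (nat_lit 79872) (nat_lit 0) (nat_lit 3724) (XT.nd (nat_lit 156) (nat_lit 304) (nat_lit 0) (XT.nd (nat_lit 78) (nat_lit 228) (nat_lit 0) (XT.lf (nat_lit 0) (nat_lit 891497182) (nat_lit 304) (nat_lit 6236685315) (nat_lit 76) (nat_lit 4861057033)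 (nat_lit 70) (nat_lit 5) (nat_lit 74) (nat_lit 5) (nat_lit 71) (nat_lit 4) (nat_lit 623) (nat_lit 476) (nat_lit 461)) (XT.lf (nat_lit 0) (nat_lit 3555462739) (nat_lit 228) (nat_lit 2409206548) (nat_lit 304) (nat_lit 6150675290) (nat_lit 67) (nat_lit 5) (nat_lit 70) (nat_lit 5) (nat_lit 71) (nat_lit 4) (nat_lit 624) (nat_lit 476) (nat_lit 460))) (XT.nd (nat_lit 78) (nat_lit 76) (nat_lit 0) (XT.lf (nat_lit 0) (nat_lit 1267877800) (nat_lit 228) (nat_lit 9870360559) (nat_lit 228) (nat_lit 1105758287) (nat_lit 64) (nat_lit 4) (nat_lit 67) (nat_lit 5) (nat_lit 67) (nat_lit 4) (nat_lit 625) (nat_lit 476) (nat_lit 459)) (XT.lf (nat_lit 0) (nat_lit 3993922779) (nat_lit 304) (nat_lit 1126256474) (nat_lit 76) (nat_lit 7254384306) (nat_lit 63) (nat_lit 5) (nat_lit 67) (nat_lit 5) (nat_lit 64) (nat_lit 4) (nat_lit 626) (nat_lit 476) (nat_lit 458)))) (XT.nd (nat_lit 156) (nat_lit 988) (nat_lit 0) (XT.nd (nat_lit 78) (nat_lit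 76) (nat_lit 0) (XT.lf (nat_lit 0) (nat_lit 503863535) (nat_lit 304) (nat_lit 2288279935) (nat_lit 304) (nat_lit 2288279935) (nat_lit 126) (nat_lit 4) (nat_lit 130) (nat_lit 5) (nat_lit 130) (nat_lit 4) (nat_lit 606) (nat_lit 477) (nat_lit 477)) (XT.lf (nat_lit 0) (nat_lit 180112141) (nat_lit 380) (nat_lit 354702759) (nat_lit 76) (nat_lit 9719310001) (nat_lit 125) (nat_lit 5) (nat_lit 130) (nat_lit 5) (nat_lit 126) (nat_lit 4) (nat_lit 607) (nat_lit 477) (nat_lit 476))) (XT.nd (nat_lit 78) (nat_lit 684) (nat_lit 0) (XT.lf (nat_lit 0) (nat_lit 4978217567) (nat_lit 380) (nat_lit 1787150851) (nat_lit 0) (nat_lit 3583149175) (nat_lit 121) (nat_lit 5) (nat_lit 126) (nat_lit 4) (nat_lit 121) (nat_lit 4) (nat_lit 608) (nat_lit 477) (nat_lit 475)) (XT.nd (nat_lit 78) (nat_lit 380) (nat_lit 0) (XT.lf (nat_lit 0) (nat_lit 7189617367) (nat_lit 304) (nat_lit 2663858547) (nat_lit 304) (nat_lit 591703962) (nat_lit 117) (nat_lit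 4) (nat_lit 121) (nat_lit 5) (nat_lit 121) (nat_lit 4) (nat_lit 609) (nat_lit 477) (nat_lit 474)) (XT.lf (nat_lit 0) (nat_lit 4214575955) (nat_lit 380) (nat_lit 4796625411) (nat_lit 0) (nat_lit 1532257742) (nat_lit 112) (nat_lit 5) (nat_lit 117) (nat_lit 4) (nat_lit 112) (nat_lit 4) (nat_lit 610) (nat_lit 477) (nat_lit 473)))))) (XT.nd (nat_lit 390) (nat_lit 1140) (nat_lit 0) (XT.nd (nat_lit 156) (nat_lit 608) (nat_lit 0) (XT.nd (nat_lit 78) (nat_lit 304) (nat_lit 0) (XT.lf (nat_lit 0) (nat_lit 4246665529) (nat_lit 304) (nat_lit 4858695505) (nat_lit 304) (nat_lit 1538343850) (nat_lit 108) (nat_lit 4) (nat_lit 112) (nat_lit 5) (nat_lit 112) (nat_lit 4) (nat_lit 611) (nat_lit 477) (nat_lit 472)) (XT.lf (nat_lit 0) (nat_lit 2686170130) (nat_lit 228) (nat_lit 597020348) (nat_lit 304) (nat_lit 7462753501) (nat_lit 104) (nat_lit 5) (nat_lit 107) (nat_lit 5) (nat_lit 108) (nat_lit 4) (nat_lit 612) (nat_lit 477) (nat_lit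 471))) (XT.nd (nat_lit 78) (nat_lit 304) (nat_lit 0) (XT.lf (nat_lit 0) (nat_lit 1049363192) (nat_lit 304) (nat_lit 7135162283) (nat_lit 304) (nat_lit 2665424575) (nat_lit 100) (nat_lit 4) (nat_lit 104) (nat_lit 5) (nat_lit 104) (nat_lit 4) (nat_lit 613) (nat_lit 477) (nat_lit 470)) (XT.nd (nat_lit 78) (nat_lit 228) (nat_lit 0) (XT.lf (nat_lit 0) (nat_lit 2186759885) (nat_lit 380) (nat_lit 641927016) (nat_lit 76) (nat_lit 8127302236) (nat_lit 99) (nat_lit 5) (nat_lit 104) (nat_lit 5) (nat_lit 100) (nat_lit 4) (nat_lit 614) (nat_lit 477) (nat_lit 469)) (XT.lf (nat_lit 0) (nat_lit 7098137161) (nat_lit 304) (nat_lit 2394107955) (nat_lit 0) (nat_lit 1571599385) (nat_lit 96) (nat_lit 5) (nat_lit 100) (nat_lit 4) (nat_lit 96) (nat_lit 4) (nat_lit 615) (nat_lit 477) (nat_lit 468))))) (XT.nd (nat_lit 156) (nat_lit 532) (nat_lit 0) (XT.nd (nat_lit 78) (nat_lit 228) (nat_lit 0) (XT.lf (nat_lit 0) (nat_lit 921289901) (nat_lit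 380) (nat_lit 4220978681) (nat_lit 76) (nat_lit 6031478530) (nat_lit 91) (nat_lit 5) (nat_lit 96) (nat_lit 5) (nat_lit 92) (nat_lit 4) (nat_lit 616) (nat_lit 477) (nat_lit 467)) (XT.lf (nat_lit 0) (nat_lit 5158524548) (nat_lit 228) (nat_lit 675665664) (nat_lit 304) (nat_lit 5451512397) (nat_lit 88) (nat_lit 5) (nat_lit 91) (nat_lit 5) (nat_lit 92) (nat_lit 4) (nat_lit 617) (nat_lit 477) (nat_lit 466))) (XT.nd (nat_lit 78) (nat_lit 304) (nat_lit 0) (XT.lf (nat_lit 0) (nat_lit 3284644548) (nat_lit 228) (nat_lit 7567568427) (nat_lit 228) (nat_lit 547551246) (nat_lit 85) (nat_lit 4) (nat_lit 88) (nat_lit 5) (nat_lit 88) (nat_lit 4) (nat_lit 618) (nat_lit 477) (nat_lit 465)) (XT.nd (nat_lit 78) (nat_lit 0) (nat_lit 0) (XT.lf (nat_lit 0) (nat_lit 1319411976) (nat_lit 228) (nat_lit 3063051326) (nat_lit 304) (nat_lit 7133341548) (nat_lit 81) (nat_lit 5) (nat_lit 84) (nat_lit 5) (nat_lit 85) (nat_lit 4) (nat_lit 619) (nat_lit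 477) (nat_lit 464)) (XT.lf (nat_lit 0) (nat_lit 9400746702) (nat_lit 304) (nat_lit 711339945) (nat_lit 0) (nat_lit 1522071299) (nat_lit 81) (nat_lit 5) (nat_lit 85) (nat_lit 4) (nat_lit 81) (nat_lit 4) (nat_lit 620) (nat_lit 477) (nat_lit 463))))))))
noncomputable def xc3 : XT := (XT.nd (nat_lit 80886) (nat_lit 0) (nat_lit 304) (XT.nd (nat_lit 80106) (nat_lit 0) (nat_lit 2128) (XT.nd (nat_lit 312) (nat_lit 304) (nat_lit 0) (XT.nd (nat_lit 156) (nat_lit 532) (nat_lit 0) (XT.nd (nat_lit 78) (nat_lit 228) (nat_lit 0) (XT.lf (nat_lit 0) (nat_lit 2740263589) (nat_lit 304) (nat_lit 2826892562) (nat_lit 76) (nat_lit 6187126798) (nat_lit 77) (nat_lit 5) (nat_lit 81) (nat_lit 5) (nat_lit 78) (nat_lit 4) (nat_lit 621) (nat_lit 477) (nat_lit 462)) (XT.lf (nat_lit 0) (nat_lit 6852060220) (nat_lit 228) (nat_lit 914451402) (nat_lit 304) (nat_lit 4110347284) (nat_lit 74) (nat_lit 5) (nat_lit 77) (nat_lit 5) (nat_lit 78) (nat_lit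 4) (nat_lit 622) (nat_lit 477) (nat_lit 461))) (XT.nd (nat_lit 78) (nat_lit 228) (nat_lit 0) (XT.lf (nat_lit 0) (nat_lit 888063438) (nat_lit 304) (nat_lit 7324804059) (nat_lit 76) (nat_lit 3788739679) (nat_lit 70) (nat_lit 5) (nat_lit 74) (nat_lit 5) (nat_lit 71) (nat_lit 4) (nat_lit 623) (nat_lit 477) (nat_lit 460)) (XT.lf (nat_lit 0) (nat_lit 2395106282) (nat_lit 228) (nat_lit 3525944995) (nat_lit 304) (nat_lit 6207466408) (nat_lit 67) (nat_lit 5) (nat_lit 70) (nat_lit 5) (nat_lit 71) (nat_lit 4) (nat_lit 624) (nat_lit 477) (nat_lit 459)))) (XT.nd (nat_lit 79560) (nat_lit 0) (nat_lit 4788) (XT.nd (nat_lit 78) (nat_lit 76) (nat_lit 0) (XT.lf (nat_lit 0) (nat_lit 28204246) (nat_lit 228) (nat_lit 11018581133) (nat_lit 228) (nat_lit 1211342819) (nat_lit 64) (nat_lit 4) (nat_lit 67) (nat_lit 5) (nat_lit 67) (nat_lit 4) (nat_lit 625) (nat_lit 477) (nat_lit 458)) (XT.lf (nat_lit 0) (nat_lit 3857241484) (nat_lit 304)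 (nat_lit 2436569551) (nat_lit 76) (nat_lit 6095549094) (nat_lit 63) (nat_lit 5) (nat_lit 67) (nat_lit 5) (nat_lit 64) (nat_lit 4) (nat_lit 626) (nat_lit 477) (nat_lit 457))) (XT.nd (nat_lit 78) (nat_lit 684) (nat_lit 0) (XT.lf (nat_lit 0) (nat_lit 1836810356) (nat_lit 380) (nat_lit 1576457908) (nat_lit 380) (nat_lit 1576457908) (nat_lit 135) (nat_lit 4) (nat_lit 140) (nat_lit 5) (nat_lit 140) (nat_lit 4) (nat_lit 604) (nat_lit 478) (nat_lit 478)) (XT.nd (nat_lit 78) (nat_lit 304) (nat_lit 0) (XT.lf (nat_lit 0) (nat_lit 1539463386) (nat_lit 380) (nat_lit 7723763359) (nat_lit 0) (nat_lit 806563516) (nat_lit 130) (nat_lit 5) (nat_lit 135) (nat_lit 4) (nat_lit 130) (nat_lit 4) (nat_lit 605) (nat_lit 478) (nat_lit 477)) (XT.lf (nat_lit 0) (nat_lit 949353721) (nat_lit 304) (nat_lit 5331822686) (nat_lit 304) (nat_lit 3880393531) (nat_lit 126) (nat_lit 4) (nat_lit 130) (nat_lit 5) (nat_lit 130) (nat_lit 4) (nat_lit 606)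 (nat_lit 478) (nat_lit 476)))))) (XT.nd (nat_lit 390) (nat_lit 1292) (nat_lit 0) (XT.nd (nat_lit 156) (nat_lit 988) (nat_lit 0) (XT.nd (nat_lit 78) (nat_lit 304) (nat_lit 0) (XT.lf (nat_lit 0) (nat_lit 831607188) (nat_lit 380) (nat_lit 476023108) (nat_lit 76) (nat_lit 8947840955) (nat_lit 125) (nat_lit 5) (nat_lit 130) (nat_lit 5) (nat_lit 126) (nat_lit 4) (nat_lit 607) (nat_lit 478) (nat_lit 475)) (XT.lf (nat_lit 0) (nat_lit 5588531747) (nat_lit 380) (nat_lit 1964310684) (nat_lit 0) (nat_lit 2797847878) (nat_lit 121) (nat_lit 5) (nat_lit 126) (nat_lit 4) (nat_lit 121) (nat_lit 4) (nat_lit 608) (nat_lit 478) (nat_lit 474))) (XT.nd (nat_lit 78) (nat_lit 684) (nat_lit 0) (XT.lf (nat_lit 0) (nat_lit 6952596211) (nat_lit 304) (nat_lit 3474988523) (nat_lit 304) (nat_lit 20494661) (nat_lit 117) (nat_lit 4) (nat_lit 121) (nat_lit 5) (nat_lit 121) (nat_lit 4) (nat_lit 609) (nat_lit 478) (nat_lit 473)) (XT.nd (nat_lit 78)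 (nat_lit 304) (nat_lit 0) (XT.lf (nat_lit 0) (nat_lit 4736334629) (nat_lit 380) (nat_lit 5099249100) (nat_lit 0) (nat_lit 711542499) (nat_lit 112) (nat_lit 5) (nat_lit 117) (nat_lit 4) (nat_lit 112) (nat_lit 4) (nat_lit 610) (nat_lit 478) (nat_lit 472)) (XT.lf (nat_lit 0) (nat_lit 3882251026) (nat_lit 304) (nat_lit 5708087131) (nat_lit 304) (nat_lit 1057772019) (nat_lit 108) (nat_lit 4) (nat_lit 112) (nat_lit 5) (nat_lit 112) (nat_lit 4) (nat_lit 611) (nat_lit 478) (nat_lit 471))))) (XT.nd (nat_lit 156) (nat_lit 684) (nat_lit 0) (XT.nd (nat_lit 78) (nat_lit 304) (nat_lit 0) (XT.lf (nat_lit 0) (nat_lit 2251433357) (nat_lit 228) (nat_lit 1468866788) (nat_lit 304) (nat_lit 7030732350) (nat_lit 104) (nat_lit 5) (nat_lit 107) (nat_lit 5) (nat_lit 108) (nat_lit 4) (nat_lit 612) (nat_lit 478) (nat_lit 470)) (XT.lf (nat_lit 0) (nat_lit 551412560) (nat_lit 304) (nat_lit 8027149878) (nat_lit 304) (nat_lit 2277339976) (nat_lit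 100) (nat_lit 4) (nat_lit 104) (nat_lit 5) (nat_lit 104) (nat_lit 4) (nat_lit 613) (nat_lit 478) (nat_lit 469))) (XT.nd (nat_lit 78) (nat_lit 608) (nat_lit 0) (XT.lf (nat_lit 0) (nat_lit 2535649821) (nat_lit 380) (nat_lit 1205683808) (nat_lit 76) (nat_lit 7221241876) (nat_lit 99) (nat_lit 5) (nat_lit 104) (nat_lit 5) (nat_lit 100) (nat_lit 4) (nat_lit 614) (nat_lit 478) (nat_lit 468)) (XT.nd (nat_lit 78) (nat_lit 380) (nat_lit 0) (XT.lf (nat_lit 0) (nat_lit 7403411847) (nat_lit 304) (nat_lit 3023552212) (nat_lit 0) (nat_lit 644341371) (nat_lit 96) (nat_lit 5) (nat_lit 100) (nat_lit 4) (nat_lit 96) (nat_lit 4) (nat_lit 615) (nat_lit 478) (nat_lit 467)) (XT.lf (nat_lit 0) (nat_lit 1177142948) (nat_lit 380) (nat_lit 4925797119) (nat_lit 76) (nat_lit 5078992567) (nat_lit 91) (nat_lit 5) (nat_lit 96) (nat_lit 5) (nat_lit 92) (nat_lit 4) (nat_lit 616) (nat_lit 478) (nat_lit 466))))))) (XT.nd (nat_lit 80028) (nat_lit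 0) (nat_lit 3116) (XT.nd (nat_lit 312) (nat_lit 1064) (nat_lit 0) (XT.nd (nat_lit 156) (nat_lit 304) (nat_lit 0) (XT.nd (nat_lit 78) (nat_lit 228) (nat_lit 0) (XT.lf (nat_lit 0) (nat_lit 4387158855) (nat_lit 228) (nat_lit 1664654299) (nat_lit 304) (nat_lit 5242841704) (nat_lit 88) (nat_lit 5) (nat_lit 91) (nat_lit 5) (nat_lit 92) (nat_lit 4) (nat_lit 617) (nat_lit 478) (nat_lit 465)) (XT.lf (nat_lit 0) (nat_lit 2443141280) (nat_lit 228) (nat_lit 8581725275) (nat_lit 228) (nat_lit 384751386) (nat_lit 85) (nat_lit 4) (nat_lit 88) (nat_lit 5) (nat_lit 88) (nat_lit 4) (nat_lit 618) (nat_lit 478) (nat_lit 464))) (XT.nd (nat_lit 78) (nat_lit 0) (nat_lit 0) (XT.lf (nat_lit 0) (nat_lit 398278472) (nat_lit 228) (nat_lit 4105848941) (nat_lit 304) (nat_lit 7022292032) (nat_lit 81) (nat_lit 5) (nat_lit 84) (nat_lit 5) (nat_lit 85) (nat_lit 4) (nat_lit 619) (nat_lit 478) (nat_lit 463)) (XT.lf (nat_lit 0) (nat_lit 9482749661)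 (nat_lit 304) (nat_lit 1693087528) (nat_lit 0) (nat_lit 469730538) (nat_lit 81) (nat_lit 5) (nat_lit 85) (nat_lit 4) (nat_lit 81) (nat_lit 4) (nat_lit 620) (nat_lit 478) (nat_lit 462)))) (XT.nd (nat_lit 156) (nat_lit 532) (nat_lit 0) (XT.nd (nat_lit 78) (nat_lit 228) (nat_lit 0) (XT.lf (nat_lit 0) (nat_lit 2770599546) (nat_lit 304) (nat_lit 3890476284) (nat_lit 76) (nat_lit 5105396248) (nat_lit 77) (nat_lit 5) (nat_lit 81) (nat_lit 5) (nat_lit 78) (nat_lit 4) (nat_lit 621) (nat_lit 478) (nat_lit 461)) (XT.lf (nat_lit 0) (nat_lit 5717881235) (nat_lit 228) (nat_lit 2039416484) (nat_lit 304) (nat_lit 4132543165) (nat_lit 74) (nat_lit 5) (nat_lit 77) (nat_lit 5) (nat_lit 78) (nat_lit 4) (nat_lit 622) (nat_lit 478) (nat_lit 460))) (XT.nd (nat_lit 78) (nat_lit 228) (nat_lit 0) (XT.lf (nat_lit 0) (nat_lit 818607087) (nat_lit 304) (nat_lit 8549864424) (nat_lit 76) (nat_lit 2647073333) (nat_lit 70) (nat_lit 5) (nat_lit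 74) (nat_lit 5) (nat_lit 71) (nat_lit 4) (nat_lit 623) (nat_lit 478) (nat_lit 459)) (XT.nd (nat_lit 78) (nat_lit 0) (nat_lit 0) (XT.lf (nat_lit 0) (nat_lit 1097121208) (nat_lit 228) (nat_lit 4714036084) (nat_lit 304) (nat_lit 6332108560) (nat_lit 67) (nat_lit 5) (nat_lit 70) (nat_lit 5) (nat_lit 71) (nat_lit 4) (nat_lit 624) (nat_lit 478) (nat_lit 458)) (XT.lf (nat_lit 0) (nat_lit 10897096769) (nat_lit 304) (nat_lit 1333200759) (nat_lit 0) (nat_lit 43376437) (nat_lit 67) (nat_lit 5) (nat_lit 71) (nat_lit 4) (nat_lit 67) (nat_lit 4) (nat_lit 625) (nat_lit 478) (nat_lit 457)))))) (XT.nd (nat_lit 390) (nat_lit 1368) (nat_lit 0) (XT.nd (nat_lit 156) (nat_lit 1064) (nat_lit 0) (XT.nd (nat_lit 78) (nat_lit 380) (nat_lit 0) (XT.lf (nat_lit 0) (nat_lit 3129100761) (nat_lit 380) (nat_lit 886373886) (nat_lit 380) (nat_lit 886373886) (nat_lit 145) (nat_lit 4) (nat_lit 150) (nat_lit 5) (nat_lit 150) (nat_lit 4) (nat_lit 602)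 (nat_lit 479) (nat_lit 479)) (XT.lf (nat_lit 0) (nat_lit 2861849523) (nat_lit 380) (nat_lit 4929863192) (nat_lit 0) (nat_lit 2099340498) (nat_lit 140) (nat_lit 5) (nat_lit 145) (nat_lit 4) (nat_lit 140) (nat_lit 4) (nat_lit 603) (nat_lit 479) (nat_lit 478))) (XT.nd (nat_lit 78) (nat_lit 684) (nat_lit 0) (XT.lf (nat_lit 0) (nat_lit 3616687153) (nat_lit 380) (nat_lit 3936773410) (nat_lit 380) (nat_lit 2426706517) (nat_lit 135) (nat_lit 4) (nat_lit 140) (nat_lit 5) (nat_lit 140) (nat_lit 4) (nat_lit 604) (nat_lit 479) (nat_lit 477)) (XT.nd (nat_lit 78) (nat_lit 304) (nat_lit 0) (XT.lf (nat_lit 0) (nat_lit 2215045813) (nat_lit 380) (nat_lit 7840131061) (nat_lit 0) (nat_lit 16058790) (nat_lit 130) (nat_lit 5) (nat_lit 135) (nat_lit 4) (nat_lit 130) (nat_lit 4) (nat_lit 605) (nat_lit 479) (nat_lit 476)) (XT.lf (nat_lit 0) (nat_lit 774210780) (nat_lit 304) (nat_lit 6146478158) (nat_lit 304) (nat_lit 3243050661) (nat_lit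 126) (nat_lit 4) (nat_lit 130) (nat_lit 5) (nat_lit 130) (nat_lit 4) (nat_lit 606) (nat_lit 479) (nat_lit 475))))) (XT.nd (nat_lit 156) (nat_lit 988) (nat_lit 0) (XT.nd (nat_lit 78) (nat_lit 304) (nat_lit 0) (XT.lf (nat_lit 0) (nat_lit 1425747128) (nat_lit 380) (nat_lit 714046213) (nat_lit 76) (nat_lit 8118464440) (nat_lit 125) (nat_lit 5) (nat_lit 130) (nat_lit 5) (nat_lit 126) (nat_lit 4) (nat_lit 607) (nat_lit 479) (nat_lit 474)) (XT.lf (nat_lit 0) (nat_lit 6141025959) (nat_lit 380) (nat_lit 2259654265) (nat_lit 0) (nat_lit 1953632227) (nat_lit 121) (nat_lit 5) (nat_lit 126) (nat_lit 4) (nat_lit 121) (nat_lit 4) (nat_lit 608) (nat_lit 479) (nat_lit 473))) (XT.nd (nat_lit 78) (nat_lit 608) (nat_lit 0) (XT.lf (nat_lit 0) (nat_lit 484908836) (nat_lit 380) (nat_lit 3858671992) (nat_lit 76) (nat_lit 6108785465) (nat_lit 116) (nat_lit 5) (nat_lit 121) (nat_lit 5) (nat_lit 117) (nat_lit 4) (nat_lit 609) (nat_lit 479)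 (nat_lit 472)) (XT.nd (nat_lit 78) (nat_lit 304) (nat_lit 0) (XT.lf (nat_lit 0) (nat_lit 5028034127) (nat_lit 304) (nat_lit 172092313) (nat_lit 380) (nat_lit 5352113420) (nat_lit 112) (nat_lit 5) (nat_lit 116) (nat_lit 5) (nat_lit 117) (nat_lit 4) (nat_lit 610) (nat_lit 479) (nat_lit 471)) (XT.lf (nat_lit 0) (nat_lit 3396142750) (nat_lit 304) (nat_lit 6619973028) (nat_lit 304) (nat_lit 637870806) (nat_lit 108) (nat_lit 4) (nat_lit 112) (nat_lit 5) (nat_lit 112) (nat_lit 4) (nat_lit 611) (nat_lit 479) (nat_lit 470))))))))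
noncomputable def xc4 : XT := (XT.nd (nat_lit 80652) (nat_lit 0) (nat_lit 228) (XT.nd (nat_lit 702) (nat_lit 1064) (nat_lit 0) (XT.nd (nat_lit 312) (nat_lit 1140) (nat_lit 0) (XT.nd (nat_lit 156) (nat_lit 608) (nat_lit 0) (XT.nd (nat_lit 78) (nat_lit 0) (nat_lit 0) (XT.lf (nat_lit 0) (nat_lit 1693428437) (nat_lit 228) (nat_lit 2403979395) (nat_lit 304) (nat_lit 6660194669) (nat_lit 104) (nat_lit 5) (nat_lit 107) (nat_lit 5) (nat_lit 108) (nat_lit 4) (nat_lit 612) (nat_lit 479) (nat_lit 469)) (XT.lf (nat_lit 0) (nat_lit 8912509723) (nat_lit 304) (nat_lit 70455452) (nat_lit 0) (nat_lit 1880372799) (nat_lit 104) (nat_lit 5) (nat_lit 108) (nat_lit 4) (nat_lit 104) (nat_lit 4) (nat_lit 613) (nat_lit 479) (nat_lit 468))) (XT.nd (nat_lit 78) (nat_lit 228) (nat_lit 0) (XT.lf (nat_lit 0) (nat_lit 2823976552) (nat_lit 380) (nat_lit 1894259724) (nat_lit 76) (nat_lit 6252412701) (nat_lit 99) (nat_lit 5) (nat_lit 104) (nat_lit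 5) (nat_lit 100) (nat_lit 4) (nat_lit 614) (nat_lit 479) (nat_lit 467)) (XT.lf (nat_lit 0) (nat_lit 7298510266) (nat_lit 228) (nat_lit 351316037) (nat_lit 304) (nat_lit 3430393056) (nat_lit 96) (nat_lit 5) (nat_lit 99) (nat_lit 5) (nat_lit 100) (nat_lit 4) (nat_lit 615) (nat_lit 479) (nat_lit 466)))) (XT.nd (nat_lit 156) (nat_lit 532) (nat_lit 0) (XT.nd (nat_lit 78) (nat_lit 228) (nat_lit 0) (XT.lf (nat_lit 0) (nat_lit 1371004844) (nat_lit 380) (nat_lit 5758701848) (nat_lit 76) (nat_lit 4061921631) (nat_lit 91) (nat_lit 5) (nat_lit 96) (nat_lit 5) (nat_lit 92) (nat_lit 4) (nat_lit 616) (nat_lit 479) (nat_lit 465)) (XT.lf (nat_lit 0) (nat_lit 3487125861) (nat_lit 228) (nat_lit 2720135101) (nat_lit 304) (nat_lit 5097859951) (nat_lit 88) (nat_lit 5) (nat_lit 91) (nat_lit 5) (nat_lit 92) (nat_lit 4) (nat_lit 617) (nat_lit 479) (nat_lit 464))) (XT.nd (nat_lit 78) (nat_lit 304) (nat_lit 0) (XT.lf (nat_lit 0) (nat_lit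 1471288271) (nat_lit 228) (nat_lit 9663427419) (nat_lit 228) (nat_lit 286282322) (nat_lit 85) (nat_lit 4) (nat_lit 88) (nat_lit 5) (nat_lit 88) (nat_lit 4) (nat_lit 618) (nat_lit 479) (nat_lit 463)) (XT.nd (nat_lit 78) (nat_lit 228) (nat_lit 0) (XT.lf (nat_lit 0) (nat_lit 4566346610) (nat_lit 304) (nat_lit 646345546) (nat_lit 76) (nat_lit 6325795706) (nat_lit 84) (nat_lit 5) (nat_lit 88) (nat_lit 5) (nat_lit 85) (nat_lit 4) (nat_lit 619) (nat_lit 479) (nat_lit 462)) (XT.lf (nat_lit 0) (nat_lit 8847255926) (nat_lit 228) (nat_lit 658274388) (nat_lit 304) (nat_lit 2152896526) (nat_lit 81) (nat_lit 5) (nat_lit 84) (nat_lit 5) (nat_lit 85) (nat_lit 4) (nat_lit 620) (nat_lit 479) (nat_lit 461)))))) (XT.nd (nat_lit 79560) (nat_lit 0) (nat_lit 5168) (XT.nd (nat_lit 156) (nat_lit 532) (nat_lit 0) (XT.nd (nat_lit 78) (nat_lit 228) (nat_lit 0) (XT.lf (nat_lit 0) (nat_lit 2736526465) (nat_lit 304) (nat_lit 5087886691) (nat_lit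 76) (nat_lit 3955795888) (nat_lit 77) (nat_lit 5) (nat_lit 81) (nat_lit 5) (nat_lit 78) (nat_lit 4) (nat_lit 621) (nat_lit 479) (nat_lit 460)) (XT.lf (nat_lit 0) (nat_lit 4449204153) (nat_lit 228) (nat_lit 3234228471) (nat_lit 304) (nat_lit 4220942879) (nat_lit 74) (nat_lit 5) (nat_lit 77) (nat_lit 5) (nat_lit 78) (nat_lit 4) (nat_lit 622) (nat_lit 479) (nat_lit 459))) (XT.nd (nat_lit 78) (nat_lit 228) (nat_lit 0) (XT.lf (nat_lit 0) (nat_lit 683100893) (nat_lit 304) (nat_lit 9912346828) (nat_lit 76) (nat_lit 1435610283) (nat_lit 70) (nat_lit 5) (nat_lit 74) (nat_lit 5) (nat_lit 71) (nat_lit 4) (nat_lit 623) (nat_lit 479) (nat_lit 458)) (XT.nd (nat_lit 78) (nat_lit 228) (nat_lit 0) (XT.lf (nat_lit 0) (nat_lit 5637145255) (nat_lit 304) (nat_lit 334555432) (nat_lit 76) (nat_lit 6187850150) (nat_lit 70) (nat_lit 5) (nat_lit 74) (nat_lit 5) (nat_lit 71) (nat_lit 4) (nat_lit 624) (nat_lit 479) (nat_lit 457)) (XT.lf (nat_lit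 0) (nat_lit 9450196845) (nat_lit 228) (nat_lit 1239280743) (nat_lit 304) (nat_lit 1601155182) (nat_lit 67) (nat_lit 5) (nat_lit 70) (nat_lit 5) (nat_lit 71) (nat_lit 4) (nat_lit 625) (nat_lit 479) (nat_lit 456))))) (XT.nd (nat_lit 156) (nat_lit 1140) (nat_lit 0) (XT.nd (nat_lit 78) (nat_lit 456) (nat_lit 0) (XT.lf (nat_lit 0) (nat_lit 4386182501) (nat_lit 380) (nat_lit 215271458) (nat_lit 380) (nat_lit 215271458) (nat_lit 156) (nat_lit 4) (nat_lit 161) (nat_lit 5) (nat_lit 161) (nat_lit 4) (nat_lit 600) (nat_lit 480) (nat_lit 480)) (XT.lf (nat_lit 0) (nat_lit 4147071503) (nat_lit 456) (nat_lit 2217065653) (nat_lit 0) (nat_lit 3353757114) (nat_lit 150) (nat_lit 5) (nat_lit 156) (nat_lit 4) (nat_lit 150) (nat_lit 4) (nat_lit 601) (nat_lit 480) (nat_lit 479))) (XT.nd (nat_lit 78) (nat_lit 760) (nat_lit 0) (XT.lf (nat_lit 0) (nat_lit 6202691451) (nat_lit 380) (nat_lit 2586392978) (nat_lit 380) (nat_lit 1015319383)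 (nat_lit 145) (nat_lit 4) (nat_lit 150) (nat_lit 5) (nat_lit 150) (nat_lit 4) (nat_lit 602) (nat_lit 480) (nat_lit 478)) (XT.nd (nat_lit 78) (nat_lit 380) (nat_lit 0) (XT.lf (nat_lit 0) (nat_lit 3568473742) (nat_lit 380) (nat_lit 5043360660) (nat_lit 0) (nat_lit 1280647644) (nat_lit 140) (nat_lit 5) (nat_lit 145) (nat_lit 4) (nat_lit 140) (nat_lit 4) (nat_lit 603) (nat_lit 480) (nat_lit 477)) (XT.lf (nat_lit 0) (nat_lit 3445864149) (nat_lit 380) (nat_lit 4778586693) (nat_lit 380) (nat_lit 1757860725) (nat_lit 135) (nat_lit 4) (nat_lit 140) (nat_lit 5) (nat_lit 140) (nat_lit 4) (nat_lit 604) (nat_lit 480) (nat_lit 476))))))) (XT.nd (nat_lit 702) (nat_lit 2584) (nat_lit 0) (XT.nd (nat_lit 312) (nat_lit 1292) (nat_lit 0) (XT.nd (nat_lit 156) (nat_lit 380) (nat_lit 0) (XT.nd (nat_lit 78) (nat_lit 304) (nat_lit 0) (XT.lf (nat_lit 0) (nat_lit 1995629360) (nat_lit 304) (nat_lit 843422427) (nat_lit 380) (nat_lit 7234965727)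 (nat_lit 130) (nat_lit 5) (nat_lit 134) (nat_lit 5) (nat_lit 135) (nat_lit 4) (nat_lit 605) (nat_lit 480) (nat_lit 475)) (XT.lf (nat_lit 0) (nat_lit 482229565) (nat_lit 304) (nat_lit 7020845761) (nat_lit 304) (nat_lit 2664281322) (nat_lit 126) (nat_lit 4) (nat_lit 130) (nat_lit 5) (nat_lit 130) (nat_lit 4) (nat_lit 606) (nat_lit 480) (nat_lit 474))) (XT.nd (nat_lit 78) (nat_lit 304) (nat_lit 0) (XT.lf (nat_lit 0) (nat_lit 1962764956) (nat_lit 380) (nat_lit 1068865418) (nat_lit 76) (nat_lit 7230855213) (nat_lit 125) (nat_lit 5) (nat_lit 130) (nat_lit 5) (nat_lit 126) (nat_lit 4) (nat_lit 607) (nat_lit 480) (nat_lit 473)) (XT.lf (nat_lit 0) (nat_lit 6635916867) (nat_lit 380) (nat_lit 2673297414) (nat_lit 0) (nat_lit 1050171157) (nat_lit 121) (nat_lit 5) (nat_lit 126) (nat_lit 4) (nat_lit 121) (nat_lit 4) (nat_lit 608) (nat_lit 480) (nat_lit 472)))) (XT.nd (nat_lit 156) (nat_lit 608) (nat_lit 0) (XT.nd (nat_lit 78)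 (nat_lit 304) (nat_lit 0) (XT.lf (nat_lit 0) (nat_lit 931658555) (nat_lit 380) (nat_lit 4341828870) (nat_lit 76) (nat_lit 5184623674) (nat_lit 116) (nat_lit 5) (nat_lit 121) (nat_lit 5) (nat_lit 117) (nat_lit 4) (nat_lit 609) (nat_lit 480) (nat_lit 471)) (XT.lf (nat_lit 0) (nat_lit 4483095960) (nat_lit 304) (nat_lit 1127002106) (nat_lit 380) (nat_lit 4948624653) (nat_lit 112) (nat_lit 5) (nat_lit 116) (nat_lit 5) (nat_lit 117) (nat_lit 4) (nat_lit 610) (nat_lit 480) (nat_lit 470))) (XT.nd (nat_lit 78) (nat_lit 304) (nat_lit 0) (XT.lf (nat_lit 0) (nat_lit 2788150071) (nat_lit 304) (nat_lit 7594710799) (nat_lit 304) (nat_lit 278475544) (nat_lit 108) (nat_lit 4) (nat_lit 112) (nat_lit 5) (nat_lit 112) (nat_lit 4) (nat_lit 611) (nat_lit 480) (nat_lit 469)) (XT.nd (nat_lit 78) (nat_lit 0) (nat_lit 0) (XT.lf (nat_lit 0) (nat_lit 1011936543) (nat_lit 228) (nat_lit 3402724879) (nat_lit 304) (nat_lit 6350995149) (nat_lit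 104) (nat_lit 5) (nat_lit 107) (nat_lit 5) (nat_lit 108) (nat_lit 4) (nat_lit 612) (nat_lit 480) (nat_lit 468)) (XT.lf (nat_lit 0) (nat_lit 9190426937) (nat_lit 304) (nat_lit 808548844) (nat_lit 0) (nat_lit 873205292) (nat_lit 104) (nat_lit 5) (nat_lit 108) (nat_lit 4) (nat_lit 104) (nat_lit 4) (nat_lit 613) (nat_lit 480) (nat_lit 467)))))) (XT.nd (nat_lit 390) (nat_lit 1140) (nat_lit 0) (XT.nd (nat_lit 156) (nat_lit 836) (nat_lit 0) (XT.nd (nat_lit 78) (nat_lit 228) (nat_lit 0) (XT.lf (nat_lit 0) (nat_lit 3051853146) (nat_lit 380) (nat_lit 2707924795) (nat_lit 76) (nat_lit 5220434777) (nat_lit 99) (nat_lit 5) (nat_lit 104) (nat_lit 5) (nat_lit 100) (nat_lit 4) (nat_lit 614) (nat_lit 480) (nat_lit 466)) (XT.lf (nat_lit 0) (nat_lit 6419286825) (nat_lit 228) (nat_lit 1420569796) (nat_lit 304) (nat_lit 3250685573) (nat_lit 96) (nat_lit 5) (nat_lit 99) (nat_lit 5) (nat_lit 100) (nat_lit 4) (nat_lit 615) (nat_lit 480)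 (nat_lit 465))) (XT.nd (nat_lit 78) (nat_lit 456) (nat_lit 0) (XT.lf (nat_lit 0) (nat_lit 1502951614) (nat_lit 380) (nat_lit 6720019497) (nat_lit 76) (nat_lit 2979866872) (nat_lit 91) (nat_lit 5) (nat_lit 96) (nat_lit 5) (nat_lit 92) (nat_lit 4) (nat_lit 616) (nat_lit 480) (nat_lit 464)) (XT.nd (nat_lit 78) (nat_lit 228) (nat_lit 0) (XT.lf (nat_lit 0) (nat_lit 2458072610) (nat_lit 228) (nat_lit 3842521985) (nat_lit 304) (nat_lit 5016510284) (nat_lit 88) (nat_lit 5) (nat_lit 91) (nat_lit 5) (nat_lit 92) (nat_lit 4) (nat_lit 617) (nat_lit 480) (nat_lit 463)) (XT.lf (nat_lit 0) (nat_lit 368704403) (nat_lit 228) (nat_lit 10813099056) (nat_lit 228) (nat_lit 252105440) (nat_lit 85) (nat_lit 4) (nat_lit 88) (nat_lit 5) (nat_lit 88) (nat_lit 4) (nat_lit 618) (nat_lit 480) (nat_lit 462))))) (XT.nd (nat_lit 156) (nat_lit 836) (nat_lit 0) (XT.nd (nat_lit 78) (nat_lit 228) (nat_lit 0) (XT.lf (nat_lit 0) (nat_lit 4568337472)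 (nat_lit 304) (nat_lit 1816501531) (nat_lit 76) (nat_lit 5167191987) (nat_lit 84) (nat_lit 5) (nat_lit 88) (nat_lit 5) (nat_lit 85) (nat_lit 4) (nat_lit 619) (nat_lit 480) (nat_lit 461)) (XT.lf (nat_lit 0) (nat_lit 7607468006) (nat_lit 228) (nat_lit 1860888170) (nat_lit 304) (nat_lit 2204398980) (nat_lit 81) (nat_lit 5) (nat_lit 84) (nat_lit 5) (nat_lit 85) (nat_lit 4) (nat_lit 620) (nat_lit 480) (nat_lit 460))) (XT.nd (nat_lit 78) (nat_lit 532) (nat_lit 0) (XT.lf (nat_lit 0) (nat_lit 2638030984) (nat_lit 304) (nat_lit 6419593354) (nat_lit 76) (nat_lit 2737874894) (nat_lit 77) (nat_lit 5) (nat_lit 81) (nat_lit 5) (nat_lit 78) (nat_lit 4) (nat_lit 621) (nat_lit 480) (nat_lit 459)) (XT.nd (nat_lit 78) (nat_lit 304) (nat_lit 0) (XT.lf (nat_lit 0) (nat_lit 3045531455) (nat_lit 228) (nat_lit 4499355917) (nat_lit 304) (nat_lit 4375581093) (nat_lit 74) (nat_lit 5) (nat_lit 77) (nat_lit 5) (nat_lit 78) (nat_lit 4) (nat_lit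 622) (nat_lit 480) (nat_lit 458)) (XT.lf (nat_lit 0) (nat_lit 481491715) (nat_lit 304) (nat_lit 11412785576) (nat_lit 76) (nat_lit 153875446) (nat_lit 70) (nat_lit 5) (nat_lit 74) (nat_lit 5) (nat_lit 71) (nat_lit 4) (nat_lit 623) (nat_lit 480) (nat_lit 457))))))))
noncomputable def xc5 : XT := (XT.nd (nat_lit 80496) (nat_lit 0) (nat_lit 0) (XT.nd (nat_lit 79716) (nat_lit 0) (nat_lit 2432) (XT.nd (nat_lit 79326) (nat_lit 0) (nat_lit 5168) (XT.nd (nat_lit 79170) (nat_lit 0) (nat_lit 6764) (XT.nd (nat_lit 78) (nat_lit 228) (nat_lit 0) (XT.lf (nat_lit 0) (nat_lit 5404768819) (nat_lit 304) (nat_lit 1888724862) (nat_lit 76) (nat_lit 4883768910) (nat_lit 70) (nat_lit 5) (nat_lit 74) (nat_lit 5) (nat_lit 71) (nat_lit 4) (nat_lit 624) (nat_lit 480) (nat_lit 456)) (XT.lf (nat_lit 0) (nat_lit 7821996131) (nat_lit 228) (nat_lit 2594369682) (nat_lit 304) (nat_lit 1892795060) (nat_lit 67) (nat_lit 5) (nat_lit 70) (nat_lit 5)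 (nat_lit 71) (nat_lit 4) (nat_lit 625) (nat_lit 480) (nat_lit 455))) (XT.nd (nat_lit 78) (nat_lit 380) (nat_lit 0) (XT.lf (nat_lit 0) (nat_lit 442354714) (nat_lit 456) (nat_lit 3849356614) (nat_lit 0) (nat_lit 442354714) (nat_lit 161) (nat_lit 5) (nat_lit 167) (nat_lit 4) (nat_lit 161) (nat_lit 4) (nat_lit 598) (nat_lit 481) (nat_lit 481)) (XT.lf (nat_lit 0) (nat_lit 430942354) (nat_lit 380) (nat_lit 4972276730) (nat_lit 380) (nat_lit 4146912439) (nat_lit 156) (nat_lit 4) (nat_lit 161) (nat_lit 5) (nat_lit 161) (nat_lit 4) (nat_lit 599) (nat_lit 481) (nat_lit 480)))) (XT.nd (nat_lit 156) (nat_lit 1140) (nat_lit 0) (XT.nd (nat_lit 78) (nat_lit 380) (nat_lit 0) (XT.lf (nat_lit 0) (nat_lit 354616282) (nat_lit 456) (nat_lit 918220076) (nat_lit 76) (nat_lit 8361266968) (nat_lit 155) (nat_lit 5) (nat_lit 161) (nat_lit 5) (nat_lit 156) (nat_lit 4) (nat_lit 600) (nat_lit 481) (nat_lit 479)) (XT.lf (nat_lit 0) (nat_lit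 4885918107) (nat_lit 456) (nat_lit 2327725390) (nat_lit 0) (nat_lit 2505663834) (nat_lit 150) (nat_lit 5) (nat_lit 156) (nat_lit 4) (nat_lit 150) (nat_lit 4) (nat_lit 601) (nat_lit 481) (nat_lit 478))) (XT.nd (nat_lit 78) (nat_lit 760) (nat_lit 0) (XT.lf (nat_lit 0) (nat_lit 6036139464) (nat_lit 380) (nat_lit 3456574076) (nat_lit 380) (nat_lit 313810779) (nat_lit 145) (nat_lit 4) (nat_lit 150) (nat_lit 5) (nat_lit 150) (nat_lit 4) (nat_lit 602) (nat_lit 481) (nat_lit 477)) (XT.nd (nat_lit 78) (nat_lit 380) (nat_lit 0) (XT.lf (nat_lit 0) (nat_lit 4219490262) (nat_lit 380) (nat_lit 5270400104) (nat_lit 0) (nat_lit 405449904) (nat_lit 140) (nat_lit 5) (nat_lit 145) (nat_lit 4) (nat_lit 140) (nat_lit 4) (nat_lit 603) (nat_lit 481) (nat_lit 476)) (XT.lf (nat_lit 0) (nat_lit 3161084711) (nat_lit 380) (nat_lit 5678685789) (nat_lit 380) (nat_lit 1146116147) (nat_lit 135) (nat_lit 4) (nat_lit 140) (nat_lit 5) (nat_lit 140)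 (nat_lit 4) (nat_lit 604) (nat_lit 481) (nat_lit 475)))))) (XT.nd (nat_lit 390) (nat_lit 1292) (nat_lit 0) (XT.nd (nat_lit 156) (nat_lit 760) (nat_lit 0) (XT.nd (nat_lit 78) (nat_lit 304) (nat_lit 0) (XT.lf (nat_lit 0) (nat_lit 1644597964) (nat_lit 304) (nat_lit 1762138709) (nat_lit 380) (nat_lit 6671500020) (nat_lit 130) (nat_lit 5) (nat_lit 134) (nat_lit 5) (nat_lit 135) (nat_lit 4) (nat_lit 605) (nat_lit 481) (nat_lit 474)) (XT.lf (nat_lit 0) (nat_lit 73295572) (nat_lit 304) (nat_lit 7955268383) (nat_lit 304) (nat_lit 2143858546) (nat_lit 126) (nat_lit 4) (nat_lit 130) (nat_lit 5) (nat_lit 130) (nat_lit 4) (nat_lit 606) (nat_lit 481) (nat_lit 473))) (XT.nd (nat_lit 78) (nat_lit 684) (nat_lit 0) (XT.lf (nat_lit 0) (nat_lit 2442871268) (nat_lit 380) (nat_lit 1540619867) (nat_lit 76) (nat_lit 6284665190) (nat_lit 125) (nat_lit 5) (nat_lit 130) (nat_lit 5) (nat_lit 126) (nat_lit 4) (nat_lit 607) (nat_lit 481) (nat_lit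 472)) (XT.nd (nat_lit 78) (nat_lit 380) (nat_lit 0) (XT.lf (nat_lit 0) (nat_lit 7073398545) (nat_lit 380) (nat_lit 3205402346) (nat_lit 0) (nat_lit 87110368) (nat_lit 121) (nat_lit 5) (nat_lit 126) (nat_lit 4) (nat_lit 121) (nat_lit 4) (nat_lit 608) (nat_lit 481) (nat_lit 471)) (XT.lf (nat_lit 0) (nat_lit 1320198481) (nat_lit 380) (nat_lit 4945010227) (nat_lit 76) (nat_lit 4200110019) (nat_lit 116) (nat_lit 5) (nat_lit 121) (nat_lit 5) (nat_lit 117) (nat_lit 4) (nat_lit 609) (nat_lit 481) (nat_lit 470))))) (XT.nd (nat_lit 156) (nat_lit 608) (nat_lit 0) (XT.nd (nat_lit 78) (nat_lit 380) (nat_lit 0) (XT.lf (nat_lit 0) (nat_lit 3817623750) (nat_lit 304) (nat_lit 2144105326) (nat_lit 380) (nat_lit 4604941891) (nat_lit 112) (nat_lit 5) (nat_lit 116) (nat_lit 5) (nat_lit 117) (nat_lit 4) (nat_lit 610) (nat_lit 481) (nat_lit 469)) (XT.lf (nat_lit 0) (nat_lit 20285126) (nat_lit 380) (nat_lit 8612261443) (nat_lit 76) (nat_lit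 2037613309) (nat_lit 107) (nat_lit 5) (nat_lit 112) (nat_lit 5) (nat_lit 108) (nat_lit 4) (nat_lit 611) (nat_lit 481) (nat_lit 468))) (XT.nd (nat_lit 78) (nat_lit 380) (nat_lit 0) (XT.lf (nat_lit 0) (nat_lit 206690425) (nat_lit 228) (nat_lit 4465494906) (nat_lit 304) (nat_lit 6103012535) (nat_lit 104) (nat_lit 5) (nat_lit 107) (nat_lit 5) (nat_lit 108) (nat_lit 4) (nat_lit 612) (nat_lit 481) (nat_lit 467)) (XT.nd (nat_lit 78) (nat_lit 380) (nat_lit 0) (XT.lf (nat_lit 0) (nat_lit 9210797717) (nat_lit 228) (nat_lit 199339460) (nat_lit 304) (nat_lit 1472343720) (nat_lit 104) (nat_lit 5) (nat_lit 107) (nat_lit 5) (nat_lit 108) (nat_lit 4) (nat_lit 613) (nat_lit 481) (nat_lit 466)) (XT.lf (nat_lit 0) (nat_lit 3219368968) (nat_lit 380) (nat_lit 3646998105) (nat_lit 76) (nat_lit 4124903408) (nat_lit 99) (nat_lit 5) (nat_lit 104) (nat_lit 5) (nat_lit 100) (nat_lit 4) (nat_lit 614) (nat_lit 481) (nat_lit 465))))))) (XT.nd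 (nat_lit 702) (nat_lit 456) (nat_lit 0) (XT.nd (nat_lit 312) (nat_lit 1140) (nat_lit 0) (XT.nd (nat_lit 156) (nat_lit 228) (nat_lit 0) (XT.nd (nat_lit 78) (nat_lit 380) (nat_lit 0) (XT.lf (nat_lit 0) (nat_lit 5414061970) (nat_lit 228) (nat_lit 2555276264) (nat_lit 304) (nat_lit 3133024532) (nat_lit 96) (nat_lit 5) (nat_lit 99) (nat_lit 5) (nat_lit 100) (nat_lit 4) (nat_lit 615) (nat_lit 481) (nat_lit 464)) (XT.lf (nat_lit 0) (nat_lit 1573035002) (nat_lit 380) (nat_lit 7810127053) (nat_lit 76) (nat_lit 1832403954) (nat_lit 91) (nat_lit 5) (nat_lit 96) (nat_lit 5) (nat_lit 92) (nat_lit 4) (nat_lit 616) (nat_lit 481) (nat_lit 463))) (XT.nd (nat_lit 78) (nat_lit 0) (nat_lit 0) (XT.lf (nat_lit 0) (nat_lit 1299595553) (nat_lit 228) (nat_lit 5032255102) (nat_lit 304) (nat_lit 4998760799) (nat_lit 88) (nat_lit 5) (nat_lit 91) (nat_lit 5) (nat_lit 92) (nat_lit 4) (nat_lit 617) (nat_lit 481) (nat_lit 462)) (XT.lf (nat_lit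 0) (nat_lit 10590672370) (nat_lit 228) (nat_lit 584889879) (nat_lit 304) (nat_lit 272605133) (nat_lit 88) (nat_lit 5) (nat_lit 91) (nat_lit 5) (nat_lit 92) (nat_lit 4) (nat_lit 618) (nat_lit 481) (nat_lit 461)))) (XT.nd (nat_lit 156) (nat_lit 608) (nat_lit 0) (XT.nd (nat_lit 78) (nat_lit 228) (nat_lit 0) (XT.lf (nat_lit 0) (nat_lit 4507514893) (nat_lit 304) (nat_lit 3117871860) (nat_lit 76) (nat_lit 3941719105) (nat_lit 84) (nat_lit 5) (nat_lit 88) (nat_lit 5) (nat_lit 85) (nat_lit 4) (nat_lit 619) (nat_lit 481) (nat_lit 460)) (XT.lf (nat_lit 0) (nat_lit 6235782387) (nat_lit 228) (nat_lit 3132339950) (nat_lit 304) (nat_lit 2320497763) (nat_lit 81) (nat_lit 5) (nat_lit 84) (nat_lit 5) (nat_lit 85) (nat_lit 4) (nat_lit 620) (nat_lit 481) (nat_lit 459))) (XT.nd (nat_lit 78) (nat_lit 304) (nat_lit 0) (XT.lf (nat_lit 0) (nat_lit 2475074476) (nat_lit 304) (nat_lit 7886118513) (nat_lit 76) (nat_lit 1451155649) (nat_lit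 77) (nat_lit 5) (nat_lit 81) (nat_lit 5) (nat_lit 78) (nat_lit 4) (nat_lit 621) (nat_lit 481) (nat_lit 458)) (XT.nd (nat_lit 78) (nat_lit 76) (nat_lit 0) (XT.lf (nat_lit 0) (nat_lit 1506312680) (nat_lit 228) (nat_lit 5835294951) (nat_lit 304) (nat_lit 4596518449) (nat_lit 74) (nat_lit 5) (nat_lit 77) (nat_lit 5) (nat_lit 78) (nat_lit 4) (nat_lit 622) (nat_lit 481) (nat_lit 457)) (XT.lf (nat_lit 0) (nat_lit 228033304) (nat_lit 304) (nat_lit 979953722) (nat_lit 76) (nat_lit 10858562065) (nat_lit 73) (nat_lit 5) (nat_lit 77) (nat_lit 5) (nat_lit 74) (nat_lit 5) (nat_lit 623) (nat_lit 481) (nat_lit 456)))))) (XT.nd (nat_lit 79248) (nat_lit 0) (nat_lit 5548) (XT.nd (nat_lit 79014) (nat_lit 0) (nat_lit 7144) (XT.nd (nat_lit 78) (nat_lit 228) (nat_lit 0) (XT.lf (nat_lit 0) (nat_lit 5106813616) (nat_lit 304) (nat_lit 3580385500) (nat_lit 76) (nat_lit 3509351407) (nat_lit 70) (nat_lit 5) (nat_lit 74) (nat_lit 5) (nat_lit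 71) (nat_lit 4) (nat_lit 624) (nat_lit 481) (nat_lit 455)) (XT.lf (nat_lit 0) (nat_lit 6055523635) (nat_lit 228) (nat_lit 4021845337) (nat_lit 304) (nat_lit 2251902279) (nat_lit 67) (nat_lit 5) (nat_lit 70) (nat_lit 5) (nat_lit 71) (nat_lit 4) (nat_lit 625) (nat_lit 481) (nat_lit 454))) (XT.nd (nat_lit 78) (nat_lit 912) (nat_lit 0) (XT.lf (nat_lit 0) (nat_lit 1087375713) (nat_lit 456) (nat_lit 2479188231) (nat_lit 0) (nat_lit 1087375713) (nat_lit 173) (nat_lit 5) (nat_lit 179) (nat_lit 4) (nat_lit 173) (nat_lit 4) (nat_lit 596) (nat_lit 482) (nat_lit 482)) (XT.nd (nat_lit 78) (nat_lit 456) (nat_lit 0) (XT.lf (nat_lit 0) (nat_lit 3047216828) (nat_lit 456) (nat_lit 3599456418) (nat_lit 456) (nat_lit 2740747409) (nat_lit 167) (nat_lit 4) (nat_lit 173) (nat_lit 5) (nat_lit 173) (nat_lit 4) (nat_lit 597) (nat_lit 482) (nat_lit 481)) (XT.lf (nat_lit 0) (nat_lit 1691450156) (nat_lit 456) (nat_lit 7753173609) (nat_lit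 0) (nat_lit 24214289) (nat_lit 161) (nat_lit 5) (nat_lit 167) (nat_lit 4) (nat_lit 161) (nat_lit 4) (nat_lit 598) (nat_lit 482) (nat_lit 480))))) (XT.nd (nat_lit 156) (nat_lit 1140) (nat_lit 0) (XT.nd (nat_lit 78) (nat_lit 76) (nat_lit 0) (XT.lf (nat_lit 0) (nat_lit 321656134) (nat_lit 380) (nat_lit 5853152110) (nat_lit 380) (nat_lit 3376735565) (nat_lit 156) (nat_lit 4) (nat_lit 161) (nat_lit 5) (nat_lit 161) (nat_lit 4) (nat_lit 599) (nat_lit 482) (nat_lit 479)) (XT.lf (nat_lit 0) (nat_lit 1080352013) (nat_lit 456) (nat_lit 1087419867) (nat_lit 76) (nat_lit 7468333684) (nat_lit 155) (nat_lit 5) (nat_lit 161) (nat_lit 5) (nat_lit 156) (nat_lit 4) (nat_lit 600) (nat_lit 482) (nat_lit 478))) (XT.nd (nat_lit 78) (nat_lit 760) (nat_lit 0) (XT.lf (nat_lit 0) (nat_lit 5570586668) (nat_lit 456) (nat_lit 2549088260) (nat_lit 0) (nat_lit 1602459080) (nat_lit 150) (nat_lit 5) (nat_lit 156) (nat_lit 4) (nat_lit 150) (nat_lit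 4) (nat_lit 601) (nat_lit 482) (nat_lit 477)) (XT.nd (nat_lit 78) (nat_lit 304) (nat_lit 0) (XT.lf (nat_lit 0) (nat_lit 327698203) (nat_lit 456) (nat_lit 4053735084) (nat_lit 76) (nat_lit 5428583017) (nat_lit 144) (nat_lit 5) (nat_lit 150) (nat_lit 5) (nat_lit 145) (nat_lit 4) (nat_lit 602) (nat_lit 482) (nat_lit 476)) (XT.lf (nat_lit 0) (nat_lit 4285024712) (nat_lit 304) (nat_lit 533594118) (nat_lit 380) (nat_lit 5080940888) (nat_lit 140) (nat_lit 5) (nat_lit 144) (nat_lit 5) (nat_lit 145) (nat_lit 4) (nat_lit 603) (nat_lit 482) (nat_lit 475))))))))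
noncomputable def xc6 : XT := (XT.nd (nat_lit 1482) (nat_lit 760) (nat_lit 0) (XT.nd (nat_lit 702) (nat_lit 2280) (nat_lit 0) (XT.nd (nat_lit 312) (nat_lit 1368) (nat_lit 0) (XT.nd (nat_lit 156) (nat_lit 380) (nat_lit 0) (XT.nd (nat_lit 78) (nat_lit 380) (nat_lit 0) (XT.lf (nat_lit 0) (nat_lit 2762237160) (nat_lit 380) (nat_lit 6637423677) (nat_lit 380) (nat_lit 591232883) (nat_lit 135) (nat_lit 4) (nat_lit 140) (nat_lit 5) (nat_lit 140) (nat_lit 4) (nat_lit 604) (nat_lit 482) (nat_lit 474)) (XT.lf (nat_lit 0) (nat_lit 1177980518) (nat_lit 304) (nat_lit 2740236922) (nat_lit 380) (nat_lit 6165679526) (nat_lit 130) (nat_lit 5) (nat_lit 134) (nat_lit 5) (nat_lit 135) (nat_lit 4) (nat_lit 605) (nat_lit 482) (nat_lit 473))) (XT.nd (nat_lit 78) (nat_lit 380) (nat_lit 0) (XT.lf (nat_lit 0) (nat_lit 8500300464) (nat_lit 380) (nat_lit 446813646) (nat_lit 0) (nat_lit 1231766244) (nat_lit 130) (nat_lit 5) (nat_lit 135) (nat_lit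 4) (nat_lit 130) (nat_lit 4) (nat_lit 606) (nat_lit 482) (nat_lit 472)) (XT.lf (nat_lit 0) (nat_lit 2866254340) (nat_lit 380) (nat_lit 2129494561) (nat_lit 76) (nat_lit 5279523317) (nat_lit 125) (nat_lit 5) (nat_lit 130) (nat_lit 5) (nat_lit 126) (nat_lit 4) (nat_lit 607) (nat_lit 482) (nat_lit 471)))) (XT.nd (nat_lit 156) (nat_lit 684) (nat_lit 0) (XT.nd (nat_lit 78) (nat_lit 380) (nat_lit 0) (XT.lf (nat_lit 0) (nat_lit 6511434177) (nat_lit 304) (nat_lit 948365797) (nat_lit 380) (nat_lit 2913969351) (nat_lit 121) (nat_lit 5) (nat_lit 125) (nat_lit 5) (nat_lit 126) (nat_lit 4) (nat_lit 608) (nat_lit 482) (nat_lit 470)) (XT.lf (nat_lit 0) (nat_lit 1650680983) (nat_lit 380) (nat_lit 5668452604) (nat_lit 76) (nat_lit 3154858417) (nat_lit 116) (nat_lit 5) (nat_lit 121) (nat_lit 5) (nat_lit 117) (nat_lit 4) (nat_lit 609) (nat_lit 482) (nat_lit 469))) (XT.nd (nat_lit 78) (nat_lit 380) (nat_lit 0) (XT.lf (nat_lit 0) (nat_lit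 3031356526) (nat_lit 304) (nat_lit 3223800839) (nat_lit 380) (nat_lit 4320930356) (nat_lit 112) (nat_lit 5) (nat_lit 116) (nat_lit 5) (nat_lit 117) (nat_lit 4) (nat_lit 610) (nat_lit 482) (nat_lit 468)) (XT.nd (nat_lit 78) (nat_lit 0) (nat_lit 0) (XT.lf (nat_lit 0) (nat_lit 255935955) (nat_lit 380) (nat_lit 9476642340) (nat_lit 76) (nat_lit 947856476) (nat_lit 107) (nat_lit 5) (nat_lit 112) (nat_lit 5) (nat_lit 108) (nat_lit 4) (nat_lit 611) (nat_lit 482) (nat_lit 467)) (XT.lf (nat_lit 0) (nat_lit 4874772313) (nat_lit 380) (nat_lit 713148334) (nat_lit 76) (nat_lit 5198215645) (nat_lit 107) (nat_lit 5) (nat_lit 112) (nat_lit 5) (nat_lit 108) (nat_lit 4) (nat_lit 612) (nat_lit 482) (nat_lit 466)))))) (XT.nd (nat_lit 390) (nat_lit 836) (nat_lit 0) (XT.nd (nat_lit 156) (nat_lit 836) (nat_lit 0) (XT.nd (nat_lit 78) (nat_lit 380) (nat_lit 0) (XT.lf (nat_lit 0) (nat_lit 8229081530) (nat_lit 228) (nat_lit 1347510768) (nat_lit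 304) (nat_lit 1317551872) (nat_lit 104) (nat_lit 5) (nat_lit 107) (nat_lit 5) (nat_lit 108) (nat_lit 4) (nat_lit 613) (nat_lit 482) (nat_lit 465)) (XT.lf (nat_lit 0) (nat_lit 3326589709) (nat_lit 380) (nat_lit 4711847918) (nat_lit 76) (nat_lit 2965388973) (nat_lit 99) (nat_lit 5) (nat_lit 104) (nat_lit 5) (nat_lit 100) (nat_lit 4) (nat_lit 614) (nat_lit 482) (nat_lit 464))) (XT.nd (nat_lit 78) (nat_lit 608) (nat_lit 0) (XT.lf (nat_lit 0) (nat_lit 4282441497) (nat_lit 228) (nat_lit 3755880422) (nat_lit 304) (nat_lit 3077363790) (nat_lit 96) (nat_lit 5) (nat_lit 99) (nat_lit 5) (nat_lit 100) (nat_lit 4) (nat_lit 615) (nat_lit 482) (nat_lit 463)) (XT.nd (nat_lit 78) (nat_lit 228) (nat_lit 0) (XT.lf (nat_lit 0) (nat_lit 1581282491) (nat_lit 380) (nat_lit 9029452009) (nat_lit 76) (nat_lit 619082892) (nat_lit 91) (nat_lit 5) (nat_lit 96) (nat_lit 5) (nat_lit 92) (nat_lit 4) (nat_lit 616) (nat_lit 482) (nat_lit 462))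 (XT.lf (nat_lit 0) (nat_lit 11240385) (nat_lit 228) (nat_lit 6289801015) (nat_lit 304) (nat_lit 5044604536) (nat_lit 88) (nat_lit 5) (nat_lit 91) (nat_lit 5) (nat_lit 92) (nat_lit 4) (nat_lit 617) (nat_lit 482) (nat_lit 461))))) (XT.nd (nat_lit 156) (nat_lit 532) (nat_lit 0) (XT.nd (nat_lit 78) (nat_lit 304) (nat_lit 0) (XT.lf (nat_lit 0) (nat_lit 9250526982) (nat_lit 228) (nat_lit 1863799670) (nat_lit 304) (nat_lit 349485666) (nat_lit 88) (nat_lit 5) (nat_lit 91) (nat_lit 5) (nat_lit 92) (nat_lit 4) (nat_lit 618) (nat_lit 482) (nat_lit 460)) (XT.lf (nat_lit 0) (nat_lit 4383855021) (nat_lit 304) (nat_lit 4550966876) (nat_lit 76) (nat_lit 2648896483) (nat_lit 84) (nat_lit 5) (nat_lit 88) (nat_lit 5) (nat_lit 85) (nat_lit 4) (nat_lit 619) (nat_lit 482) (nat_lit 459))) (XT.nd (nat_lit 78) (nat_lit 304) (nat_lit 0) (XT.lf (nat_lit 0) (nat_lit 4731661153) (nat_lit 228) (nat_lit 4473128337) (nat_lit 304) (nat_lit 2501238405)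 (nat_lit 81) (nat_lit 5) (nat_lit 84) (nat_lit 5) (nat_lit 85) (nat_lit 4) (nat_lit 620) (nat_lit 482) (nat_lit 458)) (XT.nd (nat_lit 78) (nat_lit 0) (nat_lit 0) (XT.lf (nat_lit 0) (nat_lit 2247593037) (nat_lit 304) (nat_lit 9488037275) (nat_lit 76) (nat_lit 95133559) (nat_lit 77) (nat_lit 5) (nat_lit 81) (nat_lit 5) (nat_lit 78) (nat_lit 4) (nat_lit 621) (nat_lit 482) (nat_lit 457)) (XT.lf (nat_lit 0) (nat_lit 7074611305) (nat_lit 304) (nat_lit 166838589) (nat_lit 76) (nat_lit 4715883426) (nat_lit 77) (nat_lit 5) (nat_lit 81) (nat_lit 5) (nat_lit 78) (nat_lit 4) (nat_lit 622) (nat_lit 482) (nat_lit 456))))))) (XT.nd (nat_lit 79404) (nat_lit 0) (nat_lit 3724) (XT.nd (nat_lit 79014) (nat_lit 0) (nat_lit 6764) (XT.nd (nat_lit 156) (nat_lit 228) (nat_lit 0) (XT.nd (nat_lit 78) (nat_lit 304) (nat_lit 0) (XT.lf (nat_lit 0) (nat_lit 9361618845) (nat_lit 228) (nat_lit 2638446158) (nat_lit 304) (nat_lit 86334639) (nat_lit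 74) (nat_lit 5) (nat_lit 77) (nat_lit 5) (nat_lit 78) (nat_lit 4) (nat_lit 623) (nat_lit 482) (nat_lit 455)) (XT.lf (nat_lit 0) (nat_lit 4743162802) (nat_lit 304) (nat_lit 5410200744) (nat_lit 76) (nat_lit 2064058653) (nat_lit 70) (nat_lit 5) (nat_lit 74) (nat_lit 5) (nat_lit 71) (nat_lit 4) (nat_lit 624) (nat_lit 482) (nat_lit 454))) (XT.nd (nat_lit 78780) (nat_lit 0) (nat_lit 8968) (XT.lf (nat_lit 0) (nat_lit 4150086620) (nat_lit 228) (nat_lit 5522267501) (nat_lit 304) (nat_lit 2678617665) (nat_lit 67) (nat_lit 5) (nat_lit 70) (nat_lit 5) (nat_lit 71) (nat_lit 4) (nat_lit 625) (nat_lit 482) (nat_lit 453)) (XT.lf (nat_lit 0) (nat_lit 1720695232) (nat_lit 532) (nat_lit 1135016195) (nat_lit 0) (nat_lit 1720695232) (nat_lit 185) (nat_lit 5) (nat_lit 192) (nat_lit 4) (nat_lit 185) (nat_lit 4) (nat_lit 594) (nat_lit 483) (nat_lit 483)))) (XT.nd (nat_lit 156) (nat_lit 1292) (nat_lit 0) (XT.nd (nat_lit 78) (nat_lit 456)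 (nat_lit 0) (XT.lf (nat_lit 0) (nat_lit 5611907163) (nat_lit 456) (nat_lit 2255719138) (nat_lit 456) (nat_lit 1362318286) (nat_lit 179) (nat_lit 4) (nat_lit 185) (nat_lit 5) (nat_lit 185) (nat_lit 4) (nat_lit 595) (nat_lit 483) (nat_lit 482)) (XT.lf (nat_lit 0) (nat_lit 3015867999) (nat_lit 456) (nat_lit 5011434331) (nat_lit 0) (nat_lit 1281275803) (nat_lit 173) (nat_lit 5) (nat_lit 179) (nat_lit 4) (nat_lit 173) (nat_lit 4) (nat_lit 596) (nat_lit 483) (nat_lit 481))) (XT.nd (nat_lit 78) (nat_lit 836) (nat_lit 0) (XT.lf (nat_lit 0) (nat_lit 2940745044) (nat_lit 456) (nat_lit 4512268573) (nat_lit 456) (nat_lit 1935804800) (nat_lit 167) (nat_lit 4) (nat_lit 173) (nat_lit 5) (nat_lit 173) (nat_lit 4) (nat_lit 597) (nat_lit 483) (nat_lit 480)) (XT.nd (nat_lit 78) (nat_lit 380) (nat_lit 0) (XT.lf (nat_lit 0) (nat_lit 1548405258) (nat_lit 380) (nat_lit 902205297) (nat_lit 456) (nat_lit 7020228528) (nat_lit 161) (nat_lit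 5) (nat_lit 166) (nat_lit 5) (nat_lit 167) (nat_lit 4) (nat_lit 598) (nat_lit 483) (nat_lit 479)) (XT.lf (nat_lit 0) (nat_lit 103040836) (nat_lit 380) (nat_lit 6789884021) (nat_lit 380) (nat_lit 2661444078) (nat_lit 156) (nat_lit 4) (nat_lit 161) (nat_lit 5) (nat_lit 161) (nat_lit 4) (nat_lit 599) (nat_lit 483) (nat_lit 478)))))) (XT.nd (nat_lit 390) (nat_lit 1444) (nat_lit 0) (XT.nd (nat_lit 156) (nat_lit 1140) (nat_lit 0) (XT.nd (nat_lit 78) (nat_lit 380) (nat_lit 0) (XT.lf (nat_lit 0) (nat_lit 1752595524) (nat_lit 456) (nat_lit 1365956188) (nat_lit 76) (nat_lit 6520962528) (nat_lit 155) (nat_lit 5) (nat_lit 161) (nat_lit 5) (nat_lit 156) (nat_lit 4) (nat_lit 600) (nat_lit 483) (nat_lit 477)) (XT.lf (nat_lit 0) (nat_lit 6201345684) (nat_lit 456) (nat_lit 2881241073) (nat_lit 0) (nat_lit 643788652) (nat_lit 150) (nat_lit 5) (nat_lit 156) (nat_lit 4) (nat_lit 150) (nat_lit 4) (nat_lit 601) (nat_lit 483) (nat_lit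 476))) (XT.nd (nat_lit 78) (nat_lit 684) (nat_lit 0) (XT.lf (nat_lit 0) (nat_lit 910426565) (nat_lit 456) (nat_lit 4451395239) (nat_lit 76) (nat_lit 4453068911) (nat_lit 144) (nat_lit 5) (nat_lit 150) (nat_lit 5) (nat_lit 145) (nat_lit 4) (nat_lit 602) (nat_lit 483) (nat_lit 475)) (XT.nd (nat_lit 78) (nat_lit 380) (nat_lit 0) (XT.lf (nat_lit 0) (nat_lit 3829672130) (nat_lit 304) (nat_lit 1536000303) (nat_lit 380) (nat_lit 4539478052) (nat_lit 140) (nat_lit 5) (nat_lit 144) (nat_lit 5) (nat_lit 145) (nat_lit 4) (nat_lit 603) (nat_lit 483) (nat_lit 474)) (XT.lf (nat_lit 0) (nat_lit 2249165085) (nat_lit 380) (nat_lit 7655176334) (nat_lit 380) (nat_lit 92993332) (nat_lit 135) (nat_lit 4) (nat_lit 140) (nat_lit 5) (nat_lit 140) (nat_lit 4) (nat_lit 604) (nat_lit 483) (nat_lit 473))))) (XT.nd (nat_lit 156) (nat_lit 1064) (nat_lit 0) (XT.nd (nat_lit 78) (nat_lit 0) (nat_lit 0) (XT.lf (nat_lit 0) (nat_lit 595594034) (nat_lit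 304) (nat_lit 3778100633) (nat_lit 380) (nat_lit 5717305884) (nat_lit 130) (nat_lit 5) (nat_lit 134) (nat_lit 5) (nat_lit 135) (nat_lit 4) (nat_lit 605) (nat_lit 483) (nat_lit 472)) (XT.lf (nat_lit 0) (nat_lit 8916766729) (nat_lit 380) (nat_lit 1081742350) (nat_lit 0) (nat_lit 188257722) (nat_lit 130) (nat_lit 5) (nat_lit 135) (nat_lit 4) (nat_lit 130) (nat_lit 4) (nat_lit 606) (nat_lit 483) (nat_lit 471))) (XT.nd (nat_lit 78) (nat_lit 684) (nat_lit 0) (XT.lf (nat_lit 0) (nat_lit 3233080205) (nat_lit 380) (nat_lit 2835720433) (nat_lit 76) (nat_lit 4215035420) (nat_lit 125) (nat_lit 5) (nat_lit 130) (nat_lit 5) (nat_lit 126) (nat_lit 4) (nat_lit 607) (nat_lit 483) (nat_lit 470)) (XT.nd (nat_lit 78) (nat_lit 380) (nat_lit 0) (XT.lf (nat_lit 0) (nat_lit 5743902579) (nat_lit 304) (nat_lit 2046180593) (nat_lit 380) (nat_lit 2592983336) (nat_lit 121) (nat_lit 5) (nat_lit 125) (nat_lit 5) (nat_lit 126) (nat_lit 4) (nat_lit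 608) (nat_lit 483) (nat_lit 469)) (XT.lf (nat_lit 0) (nat_lit 1923235661) (nat_lit 380) (nat_lit 6512439705) (nat_lit 76) (nat_lit 2048458964) (nat_lit 116) (nat_lit 5) (nat_lit 121) (nat_lit 5) (nat_lit 117) (nat_lit 4) (nat_lit 609) (nat_lit 483) (nat_lit 468))))))))
noncomputable def xc7 : XT := (XT.nd (nat_lit 80028) (nat_lit 0) (nat_lit 2812) (XT.nd (nat_lit 702) (nat_lit 1596) (nat_lit 0) (XT.nd (nat_lit 312) (nat_lit 1216) (nat_lit 0) (XT.nd (nat_lit 156) (nat_lit 228) (nat_lit 0) (XT.nd (nat_lit 78) (nat_lit 380) (nat_lit 0) (XT.lf (nat_lit 0) (nat_lit 2123985950) (nat_lit 304) (nat_lit 4366512054) (nat_lit 380) (nat_lit 4096478672) (nat_lit 112) (nat_lit 5) (nat_lit 116) (nat_lit 5) (nat_lit 117) (nat_lit 4) (nat_lit 610) (nat_lit 483) (nat_lit 467)) (XT.lf (nat_lit 0) (nat_lit 225966469) (nat_lit 304) (nat_lit 207603037) (nat_lit 380) (nat_lit 10258604817) (nat_lit 107) (nat_lit 5) (nat_lit 111) (nat_lit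 5) (nat_lit 112) (nat_lit 5) (nat_lit 611) (nat_lit 483) (nat_lit 466))) (XT.nd (nat_lit 78) (nat_lit 228) (nat_lit 0) (XT.lf (nat_lit 0) (nat_lit 5019958090) (nat_lit 380) (nat_lit 1753078776) (nat_lit 76) (nat_lit 4025490144) (nat_lit 107) (nat_lit 5) (nat_lit 112) (nat_lit 5) (nat_lit 108) (nat_lit 4) (nat_lit 612) (nat_lit 483) (nat_lit 465)) (XT.lf (nat_lit 0) (nat_lit 7123958351) (nat_lit 228) (nat_lit 2560154455) (nat_lit 304) (nat_lit 1223177558) (nat_lit 104) (nat_lit 5) (nat_lit 107) (nat_lit 5) (nat_lit 108) (nat_lit 4) (nat_lit 613) (nat_lit 483) (nat_lit 464)))) (XT.nd (nat_lit 156) (nat_lit 608) (nat_lit 0) (XT.nd (nat_lit 78) (nat_lit 228) (nat_lit 0) (XT.lf (nat_lit 0) (nat_lit 3373557417) (nat_lit 380) (nat_lit 5902891822) (nat_lit 76) (nat_lit 1741436760) (nat_lit 99) (nat_lit 5) (nat_lit 104) (nat_lit 5) (nat_lit 100) (nat_lit 4) (nat_lit 614) (nat_lit 483) (nat_lit 463)) (XT.lf (nat_lit 0) (nat_lit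 3023981631) (nat_lit 228) (nat_lit 5022853097) (nat_lit 304) (nat_lit 3083681522) (nat_lit 96) (nat_lit 5) (nat_lit 99) (nat_lit 5) (nat_lit 100) (nat_lit 4) (nat_lit 615) (nat_lit 483) (nat_lit 462))) (XT.nd (nat_lit 78) (nat_lit 228) (nat_lit 0) (XT.lf (nat_lit 0) (nat_lit 862692404) (nat_lit 304) (nat_lit 669350781) (nat_lit 380) (nat_lit 9713467620) (nat_lit 91) (nat_lit 5) (nat_lit 95) (nat_lit 5) (nat_lit 96) (nat_lit 5) (nat_lit 616) (nat_lit 483) (nat_lit 461)) (XT.nd (nat_lit 78) (nat_lit 228) (nat_lit 0) (XT.lf (nat_lit 0) (nat_lit 6217293160) (nat_lit 380) (nat_lit 1389038539) (nat_lit 76) (nat_lit 3755699755) (nat_lit 91) (nat_lit 5) (nat_lit 96) (nat_lit 5) (nat_lit 92) (nat_lit 4) (nat_lit 617) (nat_lit 483) (nat_lit 460)) (XT.lf (nat_lit 0) (nat_lit 7781013739) (nat_lit 228) (nat_lit 3210596511) (nat_lit 304) (nat_lit 489368834) (nat_lit 88) (nat_lit 5) (nat_lit 91) (nat_lit 5) (nat_lit 92) (nat_lit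 4) (nat_lit 618) (nat_lit 483) (nat_lit 459)))))) (XT.nd (nat_lit 390) (nat_lit 532) (nat_lit 0) (XT.nd (nat_lit 156) (nat_lit 532) (nat_lit 0) (XT.nd (nat_lit 78) (nat_lit 228) (nat_lit 0) (XT.lf (nat_lit 0) (nat_lit 4197309362) (nat_lit 304) (nat_lit 6116348576) (nat_lit 76) (nat_lit 1288217130) (nat_lit 84) (nat_lit 5) (nat_lit 88) (nat_lit 5) (nat_lit 85) (nat_lit 4) (nat_lit 619) (nat_lit 483) (nat_lit 458)) (XT.lf (nat_lit 0) (nat_lit 3094514453) (nat_lit 228) (nat_lit 5883779129) (nat_lit 304) (nat_lit 2746691784) (nat_lit 81) (nat_lit 5) (nat_lit 84) (nat_lit 5) (nat_lit 85) (nat_lit 4) (nat_lit 620) (nat_lit 483) (nat_lit 457))) (XT.nd (nat_lit 78) (nat_lit 228) (nat_lit 0) (XT.lf (nat_lit 0) (nat_lit 615844456) (nat_lit 228) (nat_lit 1348407759) (nat_lit 304) (nat_lit 9886324840) (nat_lit 77) (nat_lit 5) (nat_lit 80) (nat_lit 5) (nat_lit 81) (nat_lit 5) (nat_lit 621) (nat_lit 483) (nat_lit 456)) (XT.nd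 (nat_lit 78) (nat_lit 228) (nat_lit 0) (XT.lf (nat_lit 0) (nat_lit 6753363858) (nat_lit 304) (nat_lit 1955246751) (nat_lit 76) (nat_lit 3269295704) (nat_lit 77) (nat_lit 5) (nat_lit 81) (nat_lit 5) (nat_lit 78) (nat_lit 4) (nat_lit 622) (nat_lit 483) (nat_lit 455)) (XT.lf (nat_lit 0) (nat_lit 7499308109) (nat_lit 228) (nat_lit 4138837827) (nat_lit 304) (nat_lit 469641776) (nat_lit 74) (nat_lit 5) (nat_lit 77) (nat_lit 5) (nat_lit 78) (nat_lit 4) (nat_lit 623) (nat_lit 483) (nat_lit 454))))) (XT.nd (nat_lit 78702) (nat_lit 0) (nat_lit 8968) (XT.nd (nat_lit 78) (nat_lit 228) (nat_lit 0) (XT.lf (nat_lit 0) (nat_lit 4313673768) (nat_lit 304) (nat_lit 7378888168) (nat_lit 76) (nat_lit 547323866) (nat_lit 70) (nat_lit 5) (nat_lit 74) (nat_lit 5) (nat_lit 71) (nat_lit 4) (nat_lit 624) (nat_lit 483) (nat_lit 453)) (XT.lf (nat_lit 0) (nat_lit 2104937858) (nat_lit 228) (nat_lit 7096224577) (nat_lit 304) (nat_lit 3173108557)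 (nat_lit 67) (nat_lit 5) (nat_lit 70) (nat_lit 5) (nat_lit 71) (nat_lit 4) (nat_lit 625) (nat_lit 483) (nat_lit 452))) (XT.nd (nat_lit 78) (nat_lit 532) (nat_lit 0) (XT.lf (nat_lit 0) (nat_lit 190114824) (nat_lit 456) (nat_lit 2155639602) (nat_lit 456) (nat_lit 2155639602) (nat_lit 192) (nat_lit 4) (nat_lit 198) (nat_lit 5) (nat_lit 198) (nat_lit 4) (nat_lit 592) (nat_lit 484) (nat_lit 484)) (XT.nd (nat_lit 78) (nat_lit 532) (nat_lit 0) (XT.lf (nat_lit 0) (nat_lit 8134110336) (nat_lit 456) (nat_lit 936493506) (nat_lit 456) (nat_lit 6999259) (nat_lit 192) (nat_lit 4) (nat_lit 198) (nat_lit 5) (nat_lit 198) (nat_lit 4) (nat_lit 593) (nat_lit 484) (nat_lit 483)) (XT.lf (nat_lit 0) (nat_lit 4318236697) (nat_lit 532) (nat_lit 2321701726) (nat_lit 0) (nat_lit 2513566976) (nat_lit 185) (nat_lit 5) (nat_lit 192) (nat_lit 4) (nat_lit 185) (nat_lit 4) (nat_lit 594) (nat_lit 484) (nat_lit 482))))))) (XT.nd (nat_lit 702) (nat_lit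 2736) (nat_lit 0) (XT.nd (nat_lit 312) (nat_lit 1596) (nat_lit 0) (XT.nd (nat_lit 156) (nat_lit 912) (nat_lit 0) (XT.nd (nat_lit 78) (nat_lit 456) (nat_lit 0) (XT.lf (nat_lit 0) (nat_lit 5508221763) (nat_lit 456) (nat_lit 3201829894) (nat_lit 456) (nat_lit 521276985) (nat_lit 179) (nat_lit 4) (nat_lit 185) (nat_lit 5) (nat_lit 185) (nat_lit 4) (nat_lit 595) (nat_lit 484) (nat_lit 481)) (XT.lf (nat_lit 0) (nat_lit 3804955374) (nat_lit 456) (nat_lit 5170628744) (nat_lit 0) (nat_lit 335090748) (nat_lit 173) (nat_lit 5) (nat_lit 179) (nat_lit 4) (nat_lit 173) (nat_lit 4) (nat_lit 596) (nat_lit 484) (nat_lit 480))) (XT.nd (nat_lit 78) (nat_lit 456) (nat_lit 0) (XT.lf (nat_lit 0) (nat_lit 2727759724) (nat_lit 456) (nat_lit 5479541841) (nat_lit 456) (nat_lit 1184312925) (nat_lit 167) (nat_lit 4) (nat_lit 173) (nat_lit 5) (nat_lit 173) (nat_lit 4) (nat_lit 597) (nat_lit 484) (nat_lit 479)) (XT.lf (nat_lit 0) (nat_lit 1273025034)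 (nat_lit 380) (nat_lit 1884120821) (nat_lit 456) (nat_lit 6317096951) (nat_lit 161) (nat_lit 5) (nat_lit 166) (nat_lit 5) (nat_lit 167) (nat_lit 4) (nat_lit 598) (nat_lit 484) (nat_lit 478)))) (XT.nd (nat_lit 156) (nat_lit 1140) (nat_lit 0) (XT.nd (nat_lit 78) (nat_lit 456) (nat_lit 0) (XT.lf (nat_lit 0) (nat_lit 7559311317) (nat_lit 456) (nat_lit 222038496) (nat_lit 0) (nat_lit 1777228980) (nat_lit 161) (nat_lit 5) (nat_lit 167) (nat_lit 4) (nat_lit 161) (nat_lit 4) (nat_lit 599) (nat_lit 484) (nat_lit 477)) (XT.lf (nat_lit 0) (nat_lit 2371610441) (nat_lit 456) (nat_lit 1753938269) (nat_lit 76) (nat_lit 5518781980) (nat_lit 155) (nat_lit 5) (nat_lit 161) (nat_lit 5) (nat_lit 156) (nat_lit 4) (nat_lit 600) (nat_lit 484) (nat_lit 476))) (XT.nd (nat_lit 78) (nat_lit 760) (nat_lit 0) (XT.lf (nat_lit 0) (nat_lit 6405231366) (nat_lit 380) (nat_lit 375650116) (nat_lit 456) (nat_lit 2951102937) (nat_lit 150) (nat_lit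 5) (nat_lit 155) (nat_lit 5) (nat_lit 156) (nat_lit 4) (nat_lit 601) (nat_lit 484) (nat_lit 475)) (XT.nd (nat_lit 78) (nat_lit 304) (nat_lit 0) (XT.lf (nat_lit 0) (nat_lit 1438718513) (nat_lit 456) (nat_lit 4961483798) (nat_lit 76) (nat_lit 3420987902) (nat_lit 144) (nat_lit 5) (nat_lit 150) (nat_lit 5) (nat_lit 145) (nat_lit 4) (nat_lit 602) (nat_lit 484) (nat_lit 474)) (XT.lf (nat_lit 0) (nat_lit 3261424632) (nat_lit 304) (nat_lit 2596773537) (nat_lit 380) (nat_lit 4053969943) (nat_lit 140) (nat_lit 5) (nat_lit 144) (nat_lit 5) (nat_lit 145) (nat_lit 4) (nat_lit 603) (nat_lit 484) (nat_lit 473)))))) (XT.nd (nat_lit 390) (nat_lit 1292) (nat_lit 0) (XT.nd (nat_lit 156) (nat_lit 988) (nat_lit 0) (XT.nd (nat_lit 78) (nat_lit 0) (nat_lit 0) (XT.lf (nat_lit 0) (nat_lit 344223345) (nat_lit 456) (nat_lit 8385809612) (nat_lit 76) (nat_lit 1275134017) (nat_lit 134) (nat_lit 5) (nat_lit 140) (nat_lit 5) (nat_lit 135) (nat_lit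 4) (nat_lit 604) (nat_lit 484) (nat_lit 472)) (XT.lf (nat_lit 0) (nat_lit 4774014355) (nat_lit 456) (nat_lit 101441765) (nat_lit 76) (nat_lit 5224080769) (nat_lit 134) (nat_lit 5) (nat_lit 140) (nat_lit 5) (nat_lit 135) (nat_lit 4) (nat_lit 605) (nat_lit 484) (nat_lit 471))) (XT.nd (nat_lit 78) (nat_lit 684) (nat_lit 0) (XT.lf (nat_lit 0) (nat_lit 8357258496) (nat_lit 304) (nat_lit 926406538) (nat_lit 380) (nat_lit 912309124) (nat_lit 130) (nat_lit 5) (nat_lit 134) (nat_lit 5) (nat_lit 135) (nat_lit 4) (nat_lit 606) (nat_lit 484) (nat_lit 470)) (XT.nd (nat_lit 78) (nat_lit 304) (nat_lit 0) (XT.lf (nat_lit 0) (nat_lit 3543492717) (nat_lit 380) (nat_lit 3659574432) (nat_lit 76) (nat_lit 3090784053) (nat_lit 125) (nat_lit 5) (nat_lit 130) (nat_lit 5) (nat_lit 126) (nat_lit 4) (nat_lit 607) (nat_lit 484) (nat_lit 469)) (XT.lf (nat_lit 0) (nat_lit 4858197684) (nat_lit 304) (nat_lit 3205606886) (nat_lit 380) (nat_lit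 2330013348) (nat_lit 121) (nat_lit 5) (nat_lit 125) (nat_lit 5) (nat_lit 126) (nat_lit 4) (nat_lit 608) (nat_lit 484) (nat_lit 468))))) (XT.nd (nat_lit 156) (nat_lit 608) (nat_lit 0) (XT.nd (nat_lit 78) (nat_lit 304) (nat_lit 0) (XT.lf (nat_lit 0) (nat_lit 2137969401) (nat_lit 380) (nat_lit 7477302505) (nat_lit 76) (nat_lit 880477779) (nat_lit 116) (nat_lit 5) (nat_lit 121) (nat_lit 5) (nat_lit 117) (nat_lit 4) (nat_lit 609) (nat_lit 484) (nat_lit 467)) (XT.lf (nat_lit 0) (nat_lit 1095156189) (nat_lit 304) (nat_lit 5572687093) (nat_lit 380) (nat_lit 3931498818) (nat_lit 112) (nat_lit 5) (nat_lit 116) (nat_lit 5) (nat_lit 117) (nat_lit 4) (nat_lit 610) (nat_lit 484) (nat_lit 466))) (XT.nd (nat_lit 78) (nat_lit 532) (nat_lit 0) (XT.lf (nat_lit 0) (nat_lit 564282695) (nat_lit 380) (nat_lit 869814420) (nat_lit 76) (nat_lit 9271065481) (nat_lit 111) (nat_lit 5) (nat_lit 116) (nat_lit 5) (nat_lit 112) (nat_lit 5) (nat_lit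 611) (nat_lit 484) (nat_lit 465)) (XT.nd (nat_lit 78) (nat_lit 228) (nat_lit 0) (XT.lf (nat_lit 0) (nat_lit 5106457627) (nat_lit 380) (nat_lit 2916219500) (nat_lit 76) (nat_lit 2789724596) (nat_lit 107) (nat_lit 5) (nat_lit 112) (nat_lit 5) (nat_lit 108) (nat_lit 4) (nat_lit 612) (nat_lit 484) (nat_lit 464)) (XT.lf (nat_lit 0) (nat_lit 5894994797) (nat_lit 228) (nat_lit 3837746068) (nat_lit 304) (nat_lit 1189183767) (nat_lit 104) (nat_lit 5) (nat_lit 107) (nat_lit 5) (nat_lit 108) (nat_lit 4) (nat_lit 613) (nat_lit 484) (nat_lit 463))))))))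
noncomputable def xc8 : XT := (XT.nd (nat_lit 79794) (nat_lit 0) (nat_lit 2204) (XT.nd (nat_lit 702) (nat_lit 532) (nat_lit 0) (XT.nd (nat_lit 312) (nat_lit 1064) (nat_lit 0) (XT.nd (nat_lit 156) (nat_lit 380) (nat_lit 0) (XT.nd (nat_lit 78) (nat_lit 228) (nat_lit 0) (XT.lf (nat_lit 0) (nat_lit 3360290511) (nat_lit 380) (nat_lit 7220596893) (nat_lit 76) (nat_lit 452566789) (nat_lit 99) (nat_lit 5) (nat_lit 104) (nat_lit 5) (nat_lit 100) (nat_lit 4) (nat_lit 614) (nat_lit 484) (nat_lit 462)) (XT.lf (nat_lit 0) (nat_lit 1638188860) (nat_lit 228) (nat_lit 6356691139) (nat_lit 304) (nat_lit 3151980203) (nat_lit 96) (nat_lit 5) (nat_lit 99) (nat_lit 5) (nat_lit 100) (nat_lit 4) (nat_lit 615) (nat_lit 484) (nat_lit 461))) (XT.nd (nat_lit 78) (nat_lit 304) (nat_lit 0) (XT.lf (nat_lit 0) (nat_lit 1429412136) (nat_lit 304) (nat_lit 600295301) (nat_lit 76) (nat_lit 9232862678) (nat_lit 95) (nat_lit 5) (nat_lit 99) (nat_lit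 5) (nat_lit 96) (nat_lit 5) (nat_lit 616) (nat_lit 484) (nat_lit 460)) (XT.lf (nat_lit 0) (nat_lit 6072354222) (nat_lit 380) (nat_lit 2918392463) (nat_lit 76) (nat_lit 2389192122) (nat_lit 91) (nat_lit 5) (nat_lit 96) (nat_lit 5) (nat_lit 92) (nat_lit 4) (nat_lit 617) (nat_lit 484) (nat_lit 459)))) (XT.nd (nat_lit 156) (nat_lit 532) (nat_lit 0) (XT.nd (nat_lit 78) (nat_lit 304) (nat_lit 0) (XT.lf (nat_lit 0) (nat_lit 6181556363) (nat_lit 228) (nat_lit 4625808560) (nat_lit 304) (nat_lit 692309494) (nat_lit 88) (nat_lit 5) (nat_lit 91) (nat_lit 5) (nat_lit 92) (nat_lit 4) (nat_lit 618) (nat_lit 484) (nat_lit 458)) (XT.lf (nat_lit 0) (nat_lit 3806007013) (nat_lit 228) (nat_lit 142724408) (nat_lit 304) (nat_lit 7672833087) (nat_lit 84) (nat_lit 5) (nat_lit 87) (nat_lit 5) (nat_lit 88) (nat_lit 5) (nat_lit 619) (nat_lit 484) (nat_lit 457))) (XT.nd (nat_lit 78) (nat_lit 304) (nat_lit 0) (XT.lf (nat_lit 0) (nat_lit 1323700268)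 (nat_lit 228) (nat_lit 7364845524) (nat_lit 304) (nat_lit 3056954157) (nat_lit 81) (nat_lit 5) (nat_lit 84) (nat_lit 5) (nat_lit 85) (nat_lit 4) (nat_lit 620) (nat_lit 484) (nat_lit 456)) (XT.nd (nat_lit 78) (nat_lit 228) (nat_lit 0) (XT.lf (nat_lit 0) (nat_lit 1625369815) (nat_lit 304) (nat_lit 1230912741) (nat_lit 76) (nat_lit 9015504830) (nat_lit 80) (nat_lit 5) (nat_lit 84) (nat_lit 5) (nat_lit 81) (nat_lit 5) (nat_lit 621) (nat_lit 484) (nat_lit 455)) (XT.lf (nat_lit 0) (nat_lit 6367959330) (nat_lit 304) (nat_lit 3879368704) (nat_lit 76) (nat_lit 1752720695) (nat_lit 77) (nat_lit 5) (nat_lit 81) (nat_lit 5) (nat_lit 78) (nat_lit 4) (nat_lit 622) (nat_lit 484) (nat_lit 454)))))) (XT.nd (nat_lit 78702) (nat_lit 0) (nat_lit 8208) (XT.nd (nat_lit 156) (nat_lit 0) (nat_lit 0) (XT.nd (nat_lit 78) (nat_lit 304) (nat_lit 0) (XT.lf (nat_lit 0) (nat_lit 5500463067) (nat_lit 228) (nat_lit 5711280646) (nat_lit 304) (nat_lit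 919007978) (nat_lit 74) (nat_lit 5) (nat_lit 77) (nat_lit 5) (nat_lit 78) (nat_lit 4) (nat_lit 623) (nat_lit 484) (nat_lit 453)) (XT.lf (nat_lit 0) (nat_lit 2769741674) (nat_lit 228) (nat_lit 1055288043) (nat_lit 304) (nat_lit 8438783393) (nat_lit 70) (nat_lit 5) (nat_lit 73) (nat_lit 5) (nat_lit 74) (nat_lit 5) (nat_lit 624) (nat_lit 484) (nat_lit 452))) (XT.nd (nat_lit 78468) (nat_lit 0) (nat_lit 10260) (XT.lf (nat_lit 0) (nat_lit 8664133247) (nat_lit 304) (nat_lit 79665952) (nat_lit 76) (nat_lit 3655368320) (nat_lit 70) (nat_lit 5) (nat_lit 74) (nat_lit 5) (nat_lit 71) (nat_lit 4) (nat_lit 625) (nat_lit 484) (nat_lit 451)) (XT.lf (nat_lit 0) (nat_lit 1512801133) (nat_lit 532) (nat_lit 1457966960) (nat_lit 532) (nat_lit 1457966960) (nat_lit 205) (nat_lit 4) (nat_lit 212) (nat_lit 5) (nat_lit 212) (nat_lit 4) (nat_lit 590) (nat_lit 485) (nat_lit 485)))) (XT.nd (nat_lit 156) (nat_lit 1064) (nat_lit 0) (XT.nd (nat_lit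 78) (nat_lit 456) (nat_lit 0) (XT.lf (nat_lit 0) (nat_lit 1325720629) (nat_lit 532) (nat_lit 7226503163) (nat_lit 0) (nat_lit 377636497) (nat_lit 198) (nat_lit 5) (nat_lit 205) (nat_lit 4) (nat_lit 198) (nat_lit 4) (nat_lit 591) (nat_lit 485) (nat_lit 484)) (XT.lf (nat_lit 0) (nat_lit 329267305) (nat_lit 456) (nat_lit 5275895752) (nat_lit 456) (nat_lit 3398317374) (nat_lit 192) (nat_lit 4) (nat_lit 198) (nat_lit 5) (nat_lit 198) (nat_lit 4) (nat_lit 592) (nat_lit 485) (nat_lit 483))) (XT.nd (nat_lit 78) (nat_lit 988) (nat_lit 0) (XT.lf (nat_lit 0) (nat_lit 860098684) (nat_lit 532) (nat_lit 1051447904) (nat_lit 76) (nat_lit 7167314512) (nat_lit 191) (nat_lit 5) (nat_lit 198) (nat_lit 5) (nat_lit 192) (nat_lit 4) (nat_lit 593) (nat_lit 485) (nat_lit 482)) (XT.nd (nat_lit 78) (nat_lit 532) (nat_lit 0) (XT.lf (nat_lit 0) (nat_lit 5144449536) (nat_lit 532) (nat_lit 2476729996) (nat_lit 0) (nat_lit 1534402380) (nat_lit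 185) (nat_lit 5) (nat_lit 192) (nat_lit 4) (nat_lit 185) (nat_lit 4) (nat_lit 594) (nat_lit 485) (nat_lit 481)) (XT.lf (nat_lit 0) (nat_lit 264223198) (nat_lit 532) (nat_lit 3935025304) (nat_lit 76) (nat_lit 5034814028) (nat_lit 178) (nat_lit 5) (nat_lit 185) (nat_lit 5) (nat_lit 179) (nat_lit 4) (nat_lit 595) (nat_lit 485) (nat_lit 480))))))) (XT.nd (nat_lit 702) (nat_lit 2660) (nat_lit 0) (XT.nd (nat_lit 312) (nat_lit 2052) (nat_lit 0) (XT.nd (nat_lit 156) (nat_lit 456) (nat_lit 0) (XT.nd (nat_lit 78) (nat_lit 456) (nat_lit 0) (XT.lf (nat_lit 0) (nat_lit 3873691241) (nat_lit 380) (nat_lit 673001323) (nat_lit 456) (nat_lit 4767390377) (nat_lit 173) (nat_lit 5) (nat_lit 178) (nat_lit 5) (nat_lit 179) (nat_lit 4) (nat_lit 596) (nat_lit 485) (nat_lit 479)) (XT.lf (nat_lit 0) (nat_lit 2408177343) (nat_lit 456) (nat_lit 6501655544) (nat_lit 456) (nat_lit 485977082) (nat_lit 167) (nat_lit 4) (nat_lit 173) (nat_lit 5)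 (nat_lit 173) (nat_lit 4) (nat_lit 597) (nat_lit 485) (nat_lit 478))) (XT.nd (nat_lit 78) (nat_lit 0) (nat_lit 0) (XT.lf (nat_lit 0) (nat_lit 889578272) (nat_lit 380) (nat_lit 2921595551) (nat_lit 456) (nat_lit 5667879921) (nat_lit 161) (nat_lit 5) (nat_lit 166) (nat_lit 5) (nat_lit 167) (nat_lit 4) (nat_lit 598) (nat_lit 485) (nat_lit 477)) (XT.lf (nat_lit 0) (nat_lit 8174147837) (nat_lit 456) (nat_lit 653873197) (nat_lit 0) (nat_lit 736155623) (nat_lit 161) (nat_lit 5) (nat_lit 167) (nat_lit 4) (nat_lit 161) (nat_lit 4) (nat_lit 599) (nat_lit 485) (nat_lit 476)))) (XT.nd (nat_lit 156) (nat_lit 1216) (nat_lit 0) (XT.nd (nat_lit 78) (nat_lit 380) (nat_lit 0) (XT.lf (nat_lit 0) (nat_lit 2937639514) (nat_lit 456) (nat_lit 2251518260) (nat_lit 76) (nat_lit 4461399030) (nat_lit 155) (nat_lit 5) (nat_lit 161) (nat_lit 5) (nat_lit 156) (nat_lit 4) (nat_lit 600) (nat_lit 485) (nat_lit 475)) (XT.lf (nat_lit 0) (nat_lit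 5850955491) (nat_lit 380) (nat_lit 1460631361) (nat_lit 456) (nat_lit 2427333073) (nat_lit 150) (nat_lit 5) (nat_lit 155) (nat_lit 5) (nat_lit 156) (nat_lit 4) (nat_lit 601) (nat_lit 485) (nat_lit 474))) (XT.nd (nat_lit 78) (nat_lit 760) (nat_lit 0) (XT.lf (nat_lit 0) (nat_lit 1912781218) (nat_lit 456) (nat_lit 5584200796) (nat_lit 76) (nat_lit 2331935253) (nat_lit 144) (nat_lit 5) (nat_lit 150) (nat_lit 5) (nat_lit 145) (nat_lit 4) (nat_lit 602) (nat_lit 485) (nat_lit 473)) (XT.nd (nat_lit 78) (nat_lit 456) (nat_lit 0) (XT.lf (nat_lit 0) (nat_lit 2580059376) (nat_lit 304) (nat_lit 3716329807) (nat_lit 380) (nat_lit 3624226166) (nat_lit 140) (nat_lit 5) (nat_lit 144) (nat_lit 5) (nat_lit 145) (nat_lit 4) (nat_lit 603) (nat_lit 485) (nat_lit 472)) (XT.lf (nat_lit 0) (nat_lit 724683384) (nat_lit 456) (nat_lit 9139799335) (nat_lit 76) (nat_lit 149951284) (nat_lit 134) (nat_lit 5) (nat_lit 140) (nat_lit 5) (nat_lit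 135) (nat_lit 4) (nat_lit 604) (nat_lit 485) (nat_lit 471)))))) (XT.nd (nat_lit 390) (nat_lit 1292) (nat_lit 0) (XT.nd (nat_lit 156) (nat_lit 1064) (nat_lit 0) (XT.nd (nat_lit 78) (nat_lit 304) (nat_lit 0) (XT.lf (nat_lit 0) (nat_lit 5123287752) (nat_lit 456) (nat_lit 905412622) (nat_lit 76) (nat_lit 4080729866) (nat_lit 134) (nat_lit 5) (nat_lit 140) (nat_lit 5) (nat_lit 135) (nat_lit 4) (nat_lit 605) (nat_lit 485) (nat_lit 470)) (XT.lf (nat_lit 0) (nat_lit 7492950977) (nat_lit 304) (nat_lit 2103800657) (nat_lit 380) (nat_lit 609842152) (nat_lit 130) (nat_lit 5) (nat_lit 134) (nat_lit 5) (nat_lit 135) (nat_lit 4) (nat_lit 606) (nat_lit 485) (nat_lit 469))) (XT.nd (nat_lit 78) (nat_lit 684) (nat_lit 0) (XT.lf (nat_lit 0) (nat_lit 3797613605) (nat_lit 380) (nat_lit 4601379640) (nat_lit 76) (nat_lit 1906328334) (nat_lit 125) (nat_lit 5) (nat_lit 130) (nat_lit 5) (nat_lit 126) (nat_lit 4) (nat_lit 607) (nat_lit 485)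 (nat_lit 468)) (XT.nd (nat_lit 78) (nat_lit 380) (nat_lit 0) (XT.lf (nat_lit 0) (nat_lit 3853972155) (nat_lit 304) (nat_lit 4427099350) (nat_lit 380) (nat_lit 2124956262) (nat_lit 121) (nat_lit 5) (nat_lit 125) (nat_lit 5) (nat_lit 126) (nat_lit 4) (nat_lit 608) (nat_lit 485) (nat_lit 467)) (XT.lf (nat_lit 0) (nat_lit 1943077623) (nat_lit 304) (nat_lit 354188414) (nat_lit 380) (nat_lit 8211530593) (nat_lit 116) (nat_lit 5) (nat_lit 120) (nat_lit 5) (nat_lit 121) (nat_lit 5) (nat_lit 609) (nat_lit 485) (nat_lit 466))))) (XT.nd (nat_lit 156) (nat_lit 912) (nat_lit 0) (XT.nd (nat_lit 78) (nat_lit 380) (nat_lit 0) (XT.lf (nat_lit 0) (nat_lit 6787623326) (nat_lit 380) (nat_lit 54807850) (nat_lit 76) (nat_lit 3770750457) (nat_lit 116) (nat_lit 5) (nat_lit 121) (nat_lit 5) (nat_lit 117) (nat_lit 4) (nat_lit 610) (nat_lit 485) (nat_lit 465)) (XT.lf (nat_lit 0) (nat_lit 638435712) (nat_lit 380) (nat_lit 2084598779) (nat_lit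 76) (nat_lit 7996564009) (nat_lit 111) (nat_lit 5) (nat_lit 116) (nat_lit 5) (nat_lit 112) (nat_lit 5) (nat_lit 611) (nat_lit 485) (nat_lit 464))) (XT.nd (nat_lit 78) (nat_lit 608) (nat_lit 0) (XT.lf (nat_lit 0) (nat_lit 5134304846) (nat_lit 380) (nat_lit 4203026638) (nat_lit 76) (nat_lit 1490434385) (nat_lit 107) (nat_lit 5) (nat_lit 112) (nat_lit 5) (nat_lit 108) (nat_lit 4) (nat_lit 612) (nat_lit 485) (nat_lit 463)) (XT.nd (nat_lit 78) (nat_lit 380) (nat_lit 0) (XT.lf (nat_lit 0) (nat_lit 4541708921) (nat_lit 228) (nat_lit 5180786622) (nat_lit 304) (nat_lit 1215557169) (nat_lit 104) (nat_lit 5) (nat_lit 107) (nat_lit 5) (nat_lit 108) (nat_lit 4) (nat_lit 613) (nat_lit 485) (nat_lit 462)) (XT.lf (nat_lit 0) (nat_lit 2379006349) (nat_lit 304) (nat_lit 913709848) (nat_lit 380) (nat_lit 7757702440) (nat_lit 99) (nat_lit 5) (nat_lit 103) (nat_lit 5) (nat_lit 104) (nat_lit 5) (nat_lit 614) (nat_lit 485) (nat_lit 461))))))))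
noncomputable def xc9 : XT := (XT.nd (nat_lit 79716) (nat_lit 0) (nat_lit 2204) (XT.nd (nat_lit 702) (nat_lit 304) (nat_lit 0) (XT.nd (nat_lit 312) (nat_lit 1064) (nat_lit 0) (XT.nd (nat_lit 156) (nat_lit 532) (nat_lit 0) (XT.nd (nat_lit 78) (nat_lit 76) (nat_lit 0) (XT.lf (nat_lit 0) (nat_lit 124519736) (nat_lit 228) (nat_lit 7757917624) (nat_lit 304) (nat_lit 3282286617) (nat_lit 96) (nat_lit 5) (nat_lit 99) (nat_lit 5) (nat_lit 100) (nat_lit 4) (nat_lit 615) (nat_lit 485) (nat_lit 460)) (XT.lf (nat_lit 0) (nat_lit 1271768687) (nat_lit 304) (nat_lit 2179982220) (nat_lit 76) (nat_lit 7829282711) (nat_lit 95) (nat_lit 5) (nat_lit 99) (nat_lit 5) (nat_lit 96) (nat_lit 5) (nat_lit 616) (nat_lit 485) (nat_lit 459))) (XT.nd (nat_lit 78) (nat_lit 228) (nat_lit 0) (XT.lf (nat_lit 0) (nat_lit 5866094770) (nat_lit 380) (nat_lit 4577568553) (nat_lit 76) (nat_lit 955713159) (nat_lit 91) (nat_lit 5) (nat_lit 96) (nat_lit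 5) (nat_lit 92) (nat_lit 4) (nat_lit 617) (nat_lit 485) (nat_lit 458)) (XT.lf (nat_lit 0) (nat_lit 4451527615) (nat_lit 228) (nat_lit 6109990801) (nat_lit 304) (nat_lit 958387230) (nat_lit 88) (nat_lit 5) (nat_lit 91) (nat_lit 5) (nat_lit 92) (nat_lit 4) (nat_lit 618) (nat_lit 485) (nat_lit 457)))) (XT.nd (nat_lit 156) (nat_lit 760) (nat_lit 0) (XT.nd (nat_lit 78) (nat_lit 0) (nat_lit 0) (XT.lf (nat_lit 0) (nat_lit 1985372687) (nat_lit 228) (nat_lit 1660652743) (nat_lit 304) (nat_lit 7996608961) (nat_lit 84) (nat_lit 5) (nat_lit 87) (nat_lit 5) (nat_lit 88) (nat_lit 5) (nat_lit 619) (nat_lit 485) (nat_lit 456)) (XT.lf (nat_lit 0) (nat_lit 8339207819) (nat_lit 304) (nat_lit 573849678) (nat_lit 76) (nat_lit 2854446683) (nat_lit 84) (nat_lit 5) (nat_lit 88) (nat_lit 5) (nat_lit 85) (nat_lit 4) (nat_lit 620) (nat_lit 485) (nat_lit 455))) (XT.nd (nat_lit 78) (nat_lit 456) (nat_lit 0) (XT.lf (nat_lit 0) (nat_lit 1226969360)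 (nat_lit 304) (nat_lit 3204130573) (nat_lit 76) (nat_lit 7463380117) (nat_lit 80) (nat_lit 5) (nat_lit 84) (nat_lit 5) (nat_lit 81) (nat_lit 5) (nat_lit 621) (nat_lit 485) (nat_lit 454)) (XT.nd (nat_lit 78) (nat_lit 228) (nat_lit 0) (XT.lf (nat_lit 0) (nat_lit 5918246582) (nat_lit 304) (nat_lit 5939959006) (nat_lit 76) (nat_lit 165563662) (nat_lit 77) (nat_lit 5) (nat_lit 81) (nat_lit 5) (nat_lit 78) (nat_lit 4) (nat_lit 622) (nat_lit 485) (nat_lit 453)) (XT.lf (nat_lit 0) (nat_lit 3364299859) (nat_lit 228) (nat_lit 7356391260) (nat_lit 304) (nat_lit 1434609469) (nat_lit 74) (nat_lit 5) (nat_lit 77) (nat_lit 5) (nat_lit 78) (nat_lit 4) (nat_lit 623) (nat_lit 485) (nat_lit 452)))))) (XT.nd (nat_lit 78624) (nat_lit 0) (nat_lit 8208) (XT.nd (nat_lit 78390) (nat_lit 0) (nat_lit 10260) (XT.nd (nat_lit 78) (nat_lit 0) (nat_lit 0) (XT.lf (nat_lit 0) (nat_lit 535464459) (nat_lit 228) (nat_lit 2738799089) (nat_lit 304)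 (nat_lit 9015005467) (nat_lit 70) (nat_lit 5) (nat_lit 73) (nat_lit 5) (nat_lit 74) (nat_lit 5) (nat_lit 624) (nat_lit 485) (nat_lit 451)) (XT.lf (nat_lit 0) (nat_lit 8075116163) (nat_lit 304) (nat_lit 2376179909) (nat_lit 76) (nat_lit 1974093859) (nat_lit 70) (nat_lit 5) (nat_lit 74) (nat_lit 5) (nat_lit 71) (nat_lit 4) (nat_lit 625) (nat_lit 485) (nat_lit 450))) (XT.nd (nat_lit 78) (nat_lit 1064) (nat_lit 0) (XT.lf (nat_lit 0) (nat_lit 2822043781) (nat_lit 532) (nat_lit 768247130) (nat_lit 532) (nat_lit 768247130) (nat_lit 219) (nat_lit 4) (nat_lit 226) (nat_lit 5) (nat_lit 226) (nat_lit 4) (nat_lit 588) (nat_lit 486) (nat_lit 486)) (XT.nd (nat_lit 78) (nat_lit 532) (nat_lit 0) (XT.lf (nat_lit 0) (nat_lit 2656013615) (nat_lit 532) (nat_lit 4461195802) (nat_lit 0) (nat_lit 1669626885) (nat_lit 212) (nat_lit 5) (nat_lit 219) (nat_lit 4) (nat_lit 212) (nat_lit 4) (nat_lit 589) (nat_lit 486) (nat_lit 485)) (XT.lf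 (nat_lit 0) (nat_lit 2976021077) (nat_lit 532) (nat_lit 3917783930) (nat_lit 532) (nat_lit 1964351386) (nat_lit 205) (nat_lit 4) (nat_lit 212) (nat_lit 5) (nat_lit 212) (nat_lit 4) (nat_lit 590) (nat_lit 486) (nat_lit 484))))) (XT.nd (nat_lit 156) (nat_lit 1064) (nat_lit 0) (XT.nd (nat_lit 78) (nat_lit 456) (nat_lit 0) (XT.lf (nat_lit 0) (nat_lit 1598983071) (nat_lit 456) (nat_lit 628987100) (nat_lit 532) (nat_lit 6703193669) (nat_lit 198) (nat_lit 5) (nat_lit 204) (nat_lit 5) (nat_lit 205) (nat_lit 4) (nat_lit 591) (nat_lit 486) (nat_lit 483)) (XT.lf (nat_lit 0) (nat_lit 176360291) (nat_lit 456) (nat_lit 6292545296) (nat_lit 456) (nat_lit 2536652234) (nat_lit 192) (nat_lit 4) (nat_lit 198) (nat_lit 5) (nat_lit 198) (nat_lit 4) (nat_lit 592) (nat_lit 486) (nat_lit 482))) (XT.nd (nat_lit 78) (nat_lit 988) (nat_lit 0) (XT.lf (nat_lit 0) (nat_lit 1677147220) (nat_lit 532) (nat_lit 1261456528) (nat_lit 76) (nat_lit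 6142892725) (nat_lit 191) (nat_lit 5) (nat_lit 198) (nat_lit 5) (nat_lit 192) (nat_lit 4) (nat_lit 593) (nat_lit 486) (nat_lit 481)) (XT.nd (nat_lit 78) (nat_lit 532) (nat_lit 0) (XT.lf (nat_lit 0) (nat_lit 5920352987) (nat_lit 532) (nat_lit 2735177995) (nat_lit 0) (nat_lit 503512691) (nat_lit 185) (nat_lit 5) (nat_lit 192) (nat_lit 4) (nat_lit 185) (nat_lit 4) (nat_lit 594) (nat_lit 486) (nat_lit 480)) (XT.lf (nat_lit 0) (nat_lit 991844746) (nat_lit 532) (nat_lit 4255185484) (nat_lit 76) (nat_lit 3991090896) (nat_lit 178) (nat_lit 5) (nat_lit 185) (nat_lit 5) (nat_lit 179) (nat_lit 4) (nat_lit 595) (nat_lit 486) (nat_lit 479))))))) (XT.nd (nat_lit 702) (nat_lit 2660) (nat_lit 0) (XT.nd (nat_lit 312) (nat_lit 2052) (nat_lit 0) (XT.nd (nat_lit 156) (nat_lit 380) (nat_lit 0) (XT.nd (nat_lit 78) (nat_lit 532) (nat_lit 0) (XT.lf (nat_lit 0) (nat_lit 3499825954) (nat_lit 380) (nat_lit 1739729549) (nat_lit 456) (nat_lit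 4079284494) (nat_lit 173) (nat_lit 5) (nat_lit 178) (nat_lit 5) (nat_lit 179) (nat_lit 4) (nat_lit 596) (nat_lit 486) (nat_lit 478)) (XT.lf (nat_lit 0) (nat_lit 157385021) (nat_lit 532) (nat_lit 7420569354) (nat_lit 76) (nat_lit 1823431417) (nat_lit 166) (nat_lit 5) (nat_lit 173) (nat_lit 5) (nat_lit 167) (nat_lit 4) (nat_lit 597) (nat_lit 486) (nat_lit 477))) (XT.nd (nat_lit 78) (nat_lit 0) (nat_lit 0) (XT.lf (nat_lit 0) (nat_lit 397914601) (nat_lit 380) (nat_lit 4015036342) (nat_lit 456) (nat_lit 5072322842) (nat_lit 161) (nat_lit 5) (nat_lit 166) (nat_lit 5) (nat_lit 167) (nat_lit 4) (nat_lit 598) (nat_lit 486) (nat_lit 476)) (XT.lf (nat_lit 0) (nat_lit 8374779561) (nat_lit 380) (nat_lit 364594146) (nat_lit 456) (nat_lit 831757050) (nat_lit 161) (nat_lit 5) (nat_lit 166) (nat_lit 5) (nat_lit 167) (nat_lit 4) (nat_lit 599) (nat_lit 486) (nat_lit 475)))) (XT.nd (nat_lit 156) (nat_lit 1216) (nat_lit 0) (XT.nd (nat_lit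 78) (nat_lit 380) (nat_lit 0) (XT.lf (nat_lit 0) (nat_lit 3450904717) (nat_lit 456) (nat_lit 2858891291) (nat_lit 76) (nat_lit 3348399017) (nat_lit 155) (nat_lit 5) (nat_lit 161) (nat_lit 5) (nat_lit 156) (nat_lit 4) (nat_lit 600) (nat_lit 486) (nat_lit 474)) (XT.lf (nat_lit 0) (nat_lit 5186409511) (nat_lit 380) (nat_lit 2603024951) (nat_lit 456) (nat_lit 1957834895) (nat_lit 150) (nat_lit 5) (nat_lit 155) (nat_lit 5) (nat_lit 156) (nat_lit 4) (nat_lit 601) (nat_lit 486) (nat_lit 473))) (XT.nd (nat_lit 78) (nat_lit 760) (nat_lit 0) (XT.lf (nat_lit 0) (nat_lit 2332800589) (nat_lit 456) (nat_lit 6319790435) (nat_lit 76) (nat_lit 1185483884) (nat_lit 144) (nat_lit 5) (nat_lit 150) (nat_lit 5) (nat_lit 145) (nat_lit 4) (nat_lit 602) (nat_lit 486) (nat_lit 472)) (XT.nd (nat_lit 78) (nat_lit 456) (nat_lit 0) (XT.lf (nat_lit 0) (nat_lit 1785309159) (nat_lit 304) (nat_lit 4895108156) (nat_lit 380) (nat_lit 3250078195)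 (nat_lit 140) (nat_lit 5) (nat_lit 144) (nat_lit 5) (nat_lit 145) (nat_lit 4) (nat_lit 603) (nat_lit 486) (nat_lit 471)) (XT.lf (nat_lit 0) (nat_lit 8379200) (nat_lit 380) (nat_lit 1048181898) (nat_lit 456) (nat_lit 8968454338) (nat_lit 134) (nat_lit 5) (nat_lit 139) (nat_lit 5) (nat_lit 140) (nat_lit 5) (nat_lit 604) (nat_lit 486) (nat_lit 470)))))) (XT.nd (nat_lit 390) (nat_lit 1292) (nat_lit 0) (XT.nd (nat_lit 156) (nat_lit 1064) (nat_lit 0) (XT.nd (nat_lit 78) (nat_lit 304) (nat_lit 0) (XT.lf (nat_lit 0) (nat_lit 5417784836) (nat_lit 456) (nat_lit 1824445144) (nat_lit 76) (nat_lit 2878531847) (nat_lit 134) (nat_lit 5) (nat_lit 140) (nat_lit 5) (nat_lit 135) (nat_lit 4) (nat_lit 605) (nat_lit 486) (nat_lit 469)) (XT.lf (nat_lit 0) (nat_lit 6513026261) (nat_lit 304) (nat_lit 3341884509) (nat_lit 380) (nat_lit 363743852) (nat_lit 130) (nat_lit 5) (nat_lit 134) (nat_lit 5) (nat_lit 135) (nat_lit 4) (nat_lit 606)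 (nat_lit 486) (nat_lit 468))) (XT.nd (nat_lit 78) (nat_lit 684) (nat_lit 0) (XT.lf (nat_lit 0) (nat_lit 3995542526) (nat_lit 380) (nat_lit 5661505392) (nat_lit 76) (nat_lit 661203770) (nat_lit 125) (nat_lit 5) (nat_lit 130) (nat_lit 5) (nat_lit 126) (nat_lit 4) (nat_lit 607) (nat_lit 486) (nat_lit 467)) (XT.nd (nat_lit 78) (nat_lit 380) (nat_lit 0) (XT.lf (nat_lit 0) (nat_lit 2730832179) (nat_lit 304) (nat_lit 5711137004) (nat_lit 380) (nat_lit 1977731663) (nat_lit 121) (nat_lit 5) (nat_lit 125) (nat_lit 5) (nat_lit 126) (nat_lit 4) (nat_lit 608) (nat_lit 486) (nat_lit 466)) (XT.lf (nat_lit 0) (nat_lit 741182752) (nat_lit 304) (nat_lit 1663908706) (nat_lit 380) (nat_lit 8118110755) (nat_lit 116) (nat_lit 5) (nat_lit 120) (nat_lit 5) (nat_lit 121) (nat_lit 5) (nat_lit 609) (nat_lit 486) (nat_lit 465))))) (XT.nd (nat_lit 156) (nat_lit 912) (nat_lit 0) (XT.nd (nat_lit 78) (nat_lit 380) (nat_lit 0) (XT.lf (nat_lit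 0) (nat_lit 6857429011) (nat_lit 380) (nat_lit 1311118450) (nat_lit 76) (nat_lit 2459802361) (nat_lit 116) (nat_lit 5) (nat_lit 121) (nat_lit 5) (nat_lit 117) (nat_lit 4) (nat_lit 610) (nat_lit 486) (nat_lit 464)) (XT.lf (nat_lit 0) (nat_lit 654590513) (nat_lit 380) (nat_lit 3421826585) (nat_lit 76) (nat_lit 6659099944) (nat_lit 111) (nat_lit 5) (nat_lit 116) (nat_lit 5) (nat_lit 112) (nat_lit 5) (nat_lit 611) (nat_lit 486) (nat_lit 463))) (XT.nd (nat_lit 78) (nat_lit 608) (nat_lit 0) (XT.lf (nat_lit 0) (nat_lit 5103510666) (nat_lit 380) (nat_lit 5614004822) (nat_lit 76) (nat_lit 127109988) (nat_lit 107) (nat_lit 5) (nat_lit 112) (nat_lit 5) (nat_lit 108) (nat_lit 4) (nat_lit 612) (nat_lit 486) (nat_lit 462)) (XT.nd (nat_lit 78) (nat_lit 380) (nat_lit 0) (XT.lf (nat_lit 0) (nat_lit 3063570024) (nat_lit 228) (nat_lit 6589802801) (nat_lit 304) (nat_lit 1302308107) (nat_lit 104) (nat_lit 5) (nat_lit 107) (nat_lit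 5) (nat_lit 108) (nat_lit 4) (nat_lit 613) (nat_lit 486) (nat_lit 461)) (XT.lf (nat_lit 0) (nat_lit 815452913) (nat_lit 304) (nat_lit 2352831651) (nat_lit 380) (nat_lit 7900551889) (nat_lit 99) (nat_lit 5) (nat_lit 103) (nat_lit 5) (nat_lit 104) (nat_lit 5) (nat_lit 614) (nat_lit 486) (nat_lit 460))))))))
noncomputable def xc10 : XT := (XT.nd (nat_lit 79560) (nat_lit 0) (nat_lit 2812) (XT.nd (nat_lit 702) (nat_lit 304) (nat_lit 0) (XT.nd (nat_lit 312) (nat_lit 1064) (nat_lit 0) (XT.nd (nat_lit 156) (nat_lit 532) (nat_lit 0) (XT.nd (nat_lit 78) (nat_lit 304) (nat_lit 0) (XT.lf (nat_lit 0) (nat_lit 7719316105) (nat_lit 380) (nat_lit 1497715486) (nat_lit 76) (nat_lit 1966885920) (nat_lit 99) (nat_lit 5) (nat_lit 104) (nat_lit 5) (nat_lit 100) (nat_lit 4) (nat_lit 615) (nat_lit 486) (nat_lit 459)) (XT.lf (nat_lit 0) (nat_lit 1053449847) (nat_lit 304) (nat_lit 3888302203) (nat_lit 76) (nat_lit 6359268530) (nat_lit 95)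 (nat_lit 5) (nat_lit 99) (nat_lit 5) (nat_lit 96) (nat_lit 5) (nat_lit 616) (nat_lit 486) (nat_lit 458))) (XT.nd (nat_lit 78) (nat_lit 228) (nat_lit 0) (XT.lf (nat_lit 0) (nat_lit 5049475389) (nat_lit 304) (nat_lit 552546022) (nat_lit 380) (nat_lit 5818258938) (nat_lit 91) (nat_lit 5) (nat_lit 95) (nat_lit 5) (nat_lit 96) (nat_lit 5) (nat_lit 617) (nat_lit 486) (nat_lit 457)) (XT.lf (nat_lit 0) (nat_lit 2590249053) (nat_lit 228) (nat_lit 7663725265) (nat_lit 304) (nat_lit 1287706387) (nat_lit 88) (nat_lit 5) (nat_lit 91) (nat_lit 5) (nat_lit 92) (nat_lit 4) (nat_lit 618) (nat_lit 486) (nat_lit 456)))) (XT.nd (nat_lit 156) (nat_lit 760) (nat_lit 0) (XT.nd (nat_lit 78) (nat_lit 0) (nat_lit 0) (XT.lf (nat_lit 0) (nat_lit 31554153) (nat_lit 228) (nat_lit 3249043413) (nat_lit 304) (nat_lit 8384664913) (nat_lit 84) (nat_lit 5) (nat_lit 87) (nat_lit 5) (nat_lit 88) (nat_lit 5) (nat_lit 619) (nat_lit 486) (nat_lit 455))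 (XT.lf (nat_lit 0) (nat_lit 7935837418) (nat_lit 304) (nat_lit 2587376127) (nat_lit 76) (nat_lit 1267679248) (nat_lit 84) (nat_lit 5) (nat_lit 88) (nat_lit 5) (nat_lit 85) (nat_lit 4) (nat_lit 620) (nat_lit 486) (nat_lit 454))) (XT.nd (nat_lit 78) (nat_lit 456) (nat_lit 0) (XT.lf (nat_lit 0) (nat_lit 764896144) (nat_lit 304) (nat_lit 5312659761) (nat_lit 76) (nat_lit 5841188011) (nat_lit 80) (nat_lit 5) (nat_lit 84) (nat_lit 5) (nat_lit 81) (nat_lit 5) (nat_lit 621) (nat_lit 486) (nat_lit 453)) (XT.nd (nat_lit 78) (nat_lit 228) (nat_lit 0) (XT.lf (nat_lit 0) (nat_lit 3901233987) (nat_lit 228) (nat_lit 1512636306) (nat_lit 304) (nat_lit 6635010463) (nat_lit 77) (nat_lit 5) (nat_lit 80) (nat_lit 5) (nat_lit 81) (nat_lit 5) (nat_lit 622) (nat_lit 486) (nat_lit 452)) (XT.lf (nat_lit 0) (nat_lit 1089980774) (nat_lit 228) (nat_lit 9074814810) (nat_lit 304) (nat_lit 2016648444) (nat_lit 74) (nat_lit 5) (nat_lit 77) (nat_lit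 5) (nat_lit 78) (nat_lit 4) (nat_lit 623) (nat_lit 486) (nat_lit 451)))))) (XT.nd (nat_lit 78468) (nat_lit 0) (nat_lit 9196) (XT.nd (nat_lit 78234) (nat_lit 0) (nat_lit 11324) (XT.nd (nat_lit 78) (nat_lit 228) (nat_lit 0) (XT.lf (nat_lit 0) (nat_lit 2669498710) (nat_lit 304) (nat_lit 1814918059) (nat_lit 76) (nat_lit 7831679942) (nat_lit 73) (nat_lit 5) (nat_lit 77) (nat_lit 5) (nat_lit 74) (nat_lit 5) (nat_lit 624) (nat_lit 486) (nat_lit 450)) (XT.lf (nat_lit 0) (nat_lit 7420213542) (nat_lit 304) (nat_lit 4813111245) (nat_lit 76) (nat_lit 219897055) (nat_lit 70) (nat_lit 5) (nat_lit 74) (nat_lit 5) (nat_lit 71) (nat_lit 4) (nat_lit 625) (nat_lit 486) (nat_lit 449))) (XT.nd (nat_lit 78) (nat_lit 1140) (nat_lit 0) (XT.lf (nat_lit 0) (nat_lit 4121740653) (nat_lit 532) (nat_lit 84512492) (nat_lit 532) (nat_lit 84512492) (nat_lit 234) (nat_lit 4) (nat_lit 241) (nat_lit 5) (nat_lit 241) (nat_lit 4) (nat_lit 586) (nat_lit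 487) (nat_lit 487)) (XT.nd (nat_lit 78) (nat_lit 532) (nat_lit 0) (XT.lf (nat_lit 0) (nat_lit 3975648567) (nat_lit 608) (nat_lit 1723639367) (nat_lit 0) (nat_lit 2949411812) (nat_lit 226) (nat_lit 5) (nat_lit 234) (nat_lit 4) (nat_lit 226) (nat_lit 4) (nat_lit 587) (nat_lit 487) (nat_lit 486)) (XT.lf (nat_lit 0) (nat_lit 5595875876) (nat_lit 532) (nat_lit 2577116023) (nat_lit 532) (nat_lit 544764804) (nat_lit 219) (nat_lit 4) (nat_lit 226) (nat_lit 5) (nat_lit 226) (nat_lit 4) (nat_lit 588) (nat_lit 487) (nat_lit 485))))) (XT.nd (nat_lit 156) (nat_lit 1064) (nat_lit 0) (XT.nd (nat_lit 78) (nat_lit 532) (nat_lit 0) (XT.lf (nat_lit 0) (nat_lit 3593860169) (nat_lit 532) (nat_lit 4560036266) (nat_lit 0) (nat_lit 634313159) (nat_lit 212) (nat_lit 5) (nat_lit 219) (nat_lit 4) (nat_lit 212) (nat_lit 4) (nat_lit 589) (nat_lit 487) (nat_lit 484)) (XT.lf (nat_lit 0) (nat_lit 2827258068) (nat_lit 532) (nat_lit 4970294296)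 (nat_lit 532) (nat_lit 1062663155) (nat_lit 205) (nat_lit 4) (nat_lit 212) (nat_lit 5) (nat_lit 212) (nat_lit 4) (nat_lit 590) (nat_lit 487) (nat_lit 483))) (XT.nd (nat_lit 78) (nat_lit 532) (nat_lit 0) (XT.lf (nat_lit 0) (nat_lit 1391486900) (nat_lit 456) (nat_lit 1691984529) (nat_lit 532) (nat_lit 5850325373) (nat_lit 198) (nat_lit 5) (nat_lit 204) (nat_lit 5) (nat_lit 205) (nat_lit 4) (nat_lit 591) (nat_lit 487) (nat_lit 482)) (XT.nd (nat_lit 78) (nat_lit 532) (nat_lit 0) (XT.lf (nat_lit 0) (nat_lit 7283585174) (nat_lit 532) (nat_lit 77521140) (nat_lit 0) (nat_lit 1647904530) (nat_lit 198) (nat_lit 5) (nat_lit 205) (nat_lit 4) (nat_lit 198) (nat_lit 4) (nat_lit 592) (nat_lit 487) (nat_lit 481)) (XT.lf (nat_lit 0) (nat_lit 2444558555) (nat_lit 532) (nat_lit 1573555550) (nat_lit 76) (nat_lit 5067397054) (nat_lit 191) (nat_lit 5) (nat_lit 198) (nat_lit 5) (nat_lit 192) (nat_lit 4) (nat_lit 593) (nat_lit 487) (nat_lit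 480))))))) (XT.nd (nat_lit 702) (nat_lit 2812) (nat_lit 0) (XT.nd (nat_lit 312) (nat_lit 1672) (nat_lit 0) (XT.nd (nat_lit 156) (nat_lit 912) (nat_lit 0) (XT.nd (nat_lit 78) (nat_lit 532) (nat_lit 0) (XT.lf (nat_lit 0) (nat_lit 6062856171) (nat_lit 456) (nat_lit 587207695) (nat_lit 532) (nat_lit 2513751922) (nat_lit 185) (nat_lit 5) (nat_lit 191) (nat_lit 5) (nat_lit 192) (nat_lit 4) (nat_lit 594) (nat_lit 487) (nat_lit 479)) (XT.lf (nat_lit 0) (nat_lit 1668709643) (nat_lit 532) (nat_lit 4680328496) (nat_lit 76) (nat_lit 2894535575) (nat_lit 178) (nat_lit 5) (nat_lit 185) (nat_lit 5) (nat_lit 179) (nat_lit 4) (nat_lit 595) (nat_lit 487) (nat_lit 478))) (XT.nd (nat_lit 78) (nat_lit 532) (nat_lit 0) (XT.lf (nat_lit 0) (nat_lit 3020552282) (nat_lit 380) (nat_lit 2861059072) (nat_lit 456) (nat_lit 3443380634) (nat_lit 173) (nat_lit 5) (nat_lit 178) (nat_lit 5) (nat_lit 179) (nat_lit 4) (nat_lit 596) (nat_lit 487) (nat_lit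 477)) (XT.lf (nat_lit 0) (nat_lit 742434632) (nat_lit 532) (nat_lit 7964612477) (nat_lit 76) (nat_lit 701261481) (nat_lit 166) (nat_lit 5) (nat_lit 173) (nat_lit 5) (nat_lit 167) (nat_lit 4) (nat_lit 597) (nat_lit 487) (nat_lit 476)))) (XT.nd (nat_lit 156) (nat_lit 1292) (nat_lit 0) (XT.nd (nat_lit 78) (nat_lit 380) (nat_lit 0) (XT.lf (nat_lit 0) (nat_lit 4964025752) (nat_lit 532) (nat_lit 199507439) (nat_lit 76) (nat_lit 4329345922) (nat_lit 166) (nat_lit 5) (nat_lit 173) (nat_lit 5) (nat_lit 167) (nat_lit 4) (nat_lit 598) (nat_lit 487) (nat_lit 475)) (XT.lf (nat_lit 0) (nat_lit 7726862818) (nat_lit 380) (nat_lit 1531186759) (nat_lit 456) (nat_lit 321337466) (nat_lit 161) (nat_lit 5) (nat_lit 166) (nat_lit 5) (nat_lit 167) (nat_lit 4) (nat_lit 599) (nat_lit 487) (nat_lit 474))) (XT.nd (nat_lit 78) (nat_lit 836) (nat_lit 0) (XT.lf (nat_lit 0) (nat_lit 3911607328) (nat_lit 456) (nat_lit 3576295547) (nat_lit 76)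 (nat_lit 2179345470) (nat_lit 155) (nat_lit 5) (nat_lit 161) (nat_lit 5) (nat_lit 156) (nat_lit 4) (nat_lit 600) (nat_lit 487) (nat_lit 473)) (XT.nd (nat_lit 78) (nat_lit 456) (nat_lit 0) (XT.lf (nat_lit 0) (nat_lit 4411332819) (nat_lit 380) (nat_lit 3803278886) (nat_lit 456) (nat_lit 1542424285) (nat_lit 150) (nat_lit 5) (nat_lit 155) (nat_lit 5) (nat_lit 156) (nat_lit 4) (nat_lit 601) (nat_lit 487) (nat_lit 472)) (XT.lf (nat_lit 0) (nat_lit 2679999282) (nat_lit 380) (nat_lit 19065845) (nat_lit 456) (nat_lit 7149599125) (nat_lit 144) (nat_lit 5) (nat_lit 149) (nat_lit 5) (nat_lit 150) (nat_lit 5) (nat_lit 602) (nat_lit 487) (nat_lit 471)))))) (XT.nd (nat_lit 390) (nat_lit 1368) (nat_lit 0) (XT.nd (nat_lit 156) (nat_lit 1064) (nat_lit 0) (XT.nd (nat_lit 78) (nat_lit 76) (nat_lit 0) (XT.lf (nat_lit 0) (nat_lit 876862316) (nat_lit 304) (nat_lit 6133570850) (nat_lit 380) (nat_lit 2931379304) (nat_lit 140) (nat_lit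 5) (nat_lit 144) (nat_lit 5) (nat_lit 145) (nat_lit 4) (nat_lit 603) (nat_lit 487) (nat_lit 470)) (XT.lf (nat_lit 0) (nat_lit 1340882774) (nat_lit 380) (nat_lit 961434126) (nat_lit 76) (nat_lit 7734580601) (nat_lit 139) (nat_lit 5) (nat_lit 144) (nat_lit 5) (nat_lit 140) (nat_lit 5) (nat_lit 604) (nat_lit 487) (nat_lit 469))) (XT.nd (nat_lit 78) (nat_lit 684) (nat_lit 0) (XT.lf (nat_lit 0) (nat_lit 5657621095) (nat_lit 456) (nat_lit 2858899734) (nat_lit 76) (nat_lit 1617015261) (nat_lit 134) (nat_lit 5) (nat_lit 140) (nat_lit 5) (nat_lit 135) (nat_lit 4) (nat_lit 605) (nat_lit 487) (nat_lit 468)) (XT.nd (nat_lit 78) (nat_lit 380) (nat_lit 0) (XT.lf (nat_lit 0) (nat_lit 5417100063) (nat_lit 304) (nat_lit 4641143618) (nat_lit 380) (nat_lit 173917713) (nat_lit 130) (nat_lit 5) (nat_lit 134) (nat_lit 5) (nat_lit 135) (nat_lit 4) (nat_lit 606) (nat_lit 487) (nat_lit 467)) (XT.lf (nat_lit 0) (nat_lit 3487950361) (nat_lit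 304) (nat_lit 653650669) (nat_lit 380) (nat_lit 6190960686) (nat_lit 125) (nat_lit 5) (nat_lit 129) (nat_lit 5) (nat_lit 130) (nat_lit 5) (nat_lit 607) (nat_lit 487) (nat_lit 466))))) (XT.nd (nat_lit 156) (nat_lit 988) (nat_lit 0) (XT.nd (nat_lit 78) (nat_lit 76) (nat_lit 0) (XT.lf (nat_lit 0) (nat_lit 1488337309) (nat_lit 304) (nat_lit 7058223391) (nat_lit 380) (nat_lit 1888281816) (nat_lit 121) (nat_lit 5) (nat_lit 125) (nat_lit 5) (nat_lit 126) (nat_lit 4) (nat_lit 608) (nat_lit 487) (nat_lit 465)) (XT.lf (nat_lit 0) (nat_lit 2459472764) (nat_lit 380) (nat_lit 574169877) (nat_lit 76) (nat_lit 7505369745) (nat_lit 120) (nat_lit 5) (nat_lit 125) (nat_lit 5) (nat_lit 121) (nat_lit 5) (nat_lit 609) (nat_lit 487) (nat_lit 464))) (XT.nd (nat_lit 78) (nat_lit 684) (nat_lit 0) (XT.lf (nat_lit 0) (nat_lit 6870177232) (nat_lit 380) (nat_lit 2688631452) (nat_lit 76) (nat_lit 1086186142) (nat_lit 116) (nat_lit 5) (nat_lit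 121) (nat_lit 5) (nat_lit 117) (nat_lit 4) (nat_lit 610) (nat_lit 487) (nat_lit 463)) (XT.nd (nat_lit 78) (nat_lit 304) (nat_lit 0) (XT.lf (nat_lit 0) (nat_lit 612753434) (nat_lit 380) (nat_lit 4882022241) (nat_lit 76) (nat_lit 5258148788) (nat_lit 111) (nat_lit 5) (nat_lit 116) (nat_lit 5) (nat_lit 112) (nat_lit 5) (nat_lit 611) (nat_lit 487) (nat_lit 462)) (XT.lf (nat_lit 0) (nat_lit 3704550838) (nat_lit 304) (nat_lit 1318069958) (nat_lit 380) (nat_lit 5840195200) (nat_lit 107) (nat_lit 5) (nat_lit 111) (nat_lit 5) (nat_lit 112) (nat_lit 5) (nat_lit 612) (nat_lit 487) (nat_lit 461))))))))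
noncomputable def xc11 : XT := (XT.nd (nat_lit 79404) (nat_lit 0) (nat_lit 3876) (XT.nd (nat_lit 702) (nat_lit 760) (nat_lit 0) (XT.nd (nat_lit 312) (nat_lit 1140) (nat_lit 0) (XT.nd (nat_lit 156) (nat_lit 608) (nat_lit 0) (XT.nd (nat_lit 78) (nat_lit 76) (nat_lit 0) (XT.lf (nat_lit 0) (nat_lit 1459998443) (nat_lit 228) (nat_lit 8065347159) (nat_lit 304) (nat_lit 1449470600) (nat_lit 104) (nat_lit 5) (nat_lit 107) (nat_lit 5) (nat_lit 108) (nat_lit 4) (nat_lit 613) (nat_lit 487) (nat_lit 460)) (XT.lf (nat_lit 0) (nat_lit 2989652944) (nat_lit 304) (nat_lit 863898449) (nat_lit 76) (nat_lit 7235109350) (nat_lit 103) (nat_lit 5) (nat_lit 107) (nat_lit 5) (nat_lit 104) (nat_lit 5) (nat_lit 614) (nat_lit 487) (nat_lit 459))) (XT.nd (nat_lit 78) (nat_lit 304) (nat_lit 0) (XT.lf (nat_lit 0) (nat_lit 7497241768) (nat_lit 380) (nat_lit 3245738184) (nat_lit 76) (nat_lit 461632591) (nat_lit 99) (nat_lit 5) (nat_lit 104) (nat_lit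 5) (nat_lit 100) (nat_lit 4) (nat_lit 615) (nat_lit 487) (nat_lit 458)) (XT.lf (nat_lit 0) (nat_lit 774370000) (nat_lit 304) (nat_lit 5725925180) (nat_lit 76) (nat_lit 4822243658) (nat_lit 95) (nat_lit 5) (nat_lit 99) (nat_lit 5) (nat_lit 96) (nat_lit 5) (nat_lit 616) (nat_lit 487) (nat_lit 457)))) (XT.nd (nat_lit 156) (nat_lit 608) (nat_lit 0) (XT.nd (nat_lit 78) (nat_lit 228) (nat_lit 0) (XT.lf (nat_lit 0) (nat_lit 3140643896) (nat_lit 304) (nat_lit 2142533548) (nat_lit 380) (nat_lit 6159418223) (nat_lit 91) (nat_lit 5) (nat_lit 95) (nat_lit 5) (nat_lit 96) (nat_lit 5) (nat_lit 617) (nat_lit 487) (nat_lit 456)) (XT.lf (nat_lit 0) (nat_lit 596990763) (nat_lit 228) (nat_lit 9287621262) (nat_lit 304) (nat_lit 1680396110) (nat_lit 88) (nat_lit 5) (nat_lit 91) (nat_lit 5) (nat_lit 92) (nat_lit 4) (nat_lit 618) (nat_lit 487) (nat_lit 455))) (XT.nd (nat_lit 78) (nat_lit 532) (nat_lit 0) (XT.lf (nat_lit 0) (nat_lit 2865654836)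 (nat_lit 304) (nat_lit 2029247162) (nat_lit 76) (nat_lit 6794288642) (nat_lit 87) (nat_lit 5) (nat_lit 91) (nat_lit 5) (nat_lit 88) (nat_lit 5) (nat_lit 619) (nat_lit 487) (nat_lit 454)) (XT.nd (nat_lit 78) (nat_lit 304) (nat_lit 0) (XT.lf (nat_lit 0) (nat_lit 7078208101) (nat_lit 228) (nat_lit 394032284) (nat_lit 304) (nat_lit 4343555300) (nat_lit 84) (nat_lit 5) (nat_lit 87) (nat_lit 5) (nat_lit 88) (nat_lit 5) (nat_lit 620) (nat_lit 487) (nat_lit 453)) (XT.lf (nat_lit 0) (nat_lit 238968963) (nat_lit 304) (nat_lit 7557327179) (nat_lit 76) (nat_lit 4148292358) (nat_lit 80) (nat_lit 5) (nat_lit 84) (nat_lit 5) (nat_lit 81) (nat_lit 5) (nat_lit 621) (nat_lit 487) (nat_lit 452)))))) (XT.nd (nat_lit 78312) (nat_lit 0) (nat_lit 10792) (XT.nd (nat_lit 156) (nat_lit 532) (nat_lit 0) (XT.nd (nat_lit 78) (nat_lit 0) (nat_lit 0) (XT.lf (nat_lit 0) (nat_lit 1580523528) (nat_lit 228) (nat_lit 3265846216) (nat_lit 304) (nat_lit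 7229188612) (nat_lit 77) (nat_lit 5) (nat_lit 80) (nat_lit 5) (nat_lit 81) (nat_lit 5) (nat_lit 622) (nat_lit 487) (nat_lit 451)) (XT.lf (nat_lit 0) (nat_lit 9552431410) (nat_lit 304) (nat_lit 1306029631) (nat_lit 76) (nat_lit 1350559377) (nat_lit 77) (nat_lit 5) (nat_lit 81) (nat_lit 5) (nat_lit 78) (nat_lit 4) (nat_lit 623) (nat_lit 487) (nat_lit 450))) (XT.nd (nat_lit 78) (nat_lit 228) (nat_lit 0) (XT.lf (nat_lit 0) (nat_lit 2002946174) (nat_lit 304) (nat_lit 4297582369) (nat_lit 76) (nat_lit 6043929214) (nat_lit 73) (nat_lit 5) (nat_lit 77) (nat_lit 5) (nat_lit 74) (nat_lit 5) (nat_lit 624) (nat_lit 487) (nat_lit 449)) (XT.nd (nat_lit 78000) (nat_lit 0) (nat_lit 12996) (XT.lf (nat_lit 0) (nat_lit 5080468626) (nat_lit 228) (nat_lit 1629278288) (nat_lit 304) (nat_lit 5772715685) (nat_lit 70) (nat_lit 5) (nat_lit 73) (nat_lit 5) (nat_lit 74) (nat_lit 5) (nat_lit 625) (nat_lit 487) (nat_lit 448)) (XT.lf (nat_lit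 0) (nat_lit 599060018) (nat_lit 608) (nat_lit 3026951779) (nat_lit 0) (nat_lit 599060018) (nat_lit 241) (nat_lit 5) (nat_lit 249) (nat_lit 4) (nat_lit 241) (nat_lit 4) (nat_lit 584) (nat_lit 488) (nat_lit 488))))) (XT.nd (nat_lit 156) (nat_lit 1596) (nat_lit 0) (XT.nd (nat_lit 78) (nat_lit 76) (nat_lit 0) (XT.lf (nat_lit 0) (nat_lit 1007043300) (nat_lit 532) (nat_lit 4287950816) (nat_lit 532) (nat_lit 3220254097) (nat_lit 234) (nat_lit 4) (nat_lit 241) (nat_lit 5) (nat_lit 241) (nat_lit 4) (nat_lit 585) (nat_lit 488) (nat_lit 487)) (XT.lf (nat_lit 0) (nat_lit 853102650) (nat_lit 608) (nat_lit 391190854) (nat_lit 76) (nat_lit 7337800900) (nat_lit 233) (nat_lit 5) (nat_lit 241) (nat_lit 5) (nat_lit 234) (nat_lit 4) (nat_lit 586) (nat_lit 488) (nat_lit 486))) (XT.nd (nat_lit 78) (nat_lit 1064) (nat_lit 0) (XT.lf (nat_lit 0) (nat_lit 4954712470) (nat_lit 608) (nat_lit 1819749719) (nat_lit 0) (nat_lit 1875599761) (nat_lit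 226) (nat_lit 5) (nat_lit 234) (nat_lit 4) (nat_lit 226) (nat_lit 4) (nat_lit 587) (nat_lit 488) (nat_lit 485)) (XT.nd (nat_lit 78) (nat_lit 456) (nat_lit 0) (XT.lf (nat_lit 0) (nat_lit 393235367) (nat_lit 608) (nat_lit 3271163996) (nat_lit 76) (nat_lit 5055347723) (nat_lit 218) (nat_lit 5) (nat_lit 226) (nat_lit 5) (nat_lit 219) (nat_lit 4) (nat_lit 588) (nat_lit 488) (nat_lit 484)) (XT.lf (nat_lit 0) (nat_lit 4030178786) (nat_lit 456) (nat_lit 456318262) (nat_lit 532) (nat_lit 4304400411) (nat_lit 212) (nat_lit 5) (nat_lit 218) (nat_lit 5) (nat_lit 219) (nat_lit 4) (nat_lit 589) (nat_lit 488) (nat_lit 483))))))) (XT.nd (nat_lit 702) (nat_lit 3420) (nat_lit 0) (XT.nd (nat_lit 312) (nat_lit 1900) (nat_lit 0) (XT.nd (nat_lit 156) (nat_lit 532) (nat_lit 0) (XT.nd (nat_lit 78) (nat_lit 532) (nat_lit 0) (XT.lf (nat_lit 0) (nat_lit 2579254899) (nat_lit 532) (nat_lit 6073877767) (nat_lit 532) (nat_lit 210515625) (nat_lit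 205) (nat_lit 4) (nat_lit 212) (nat_lit 5) (nat_lit 212) (nat_lit 4) (nat_lit 590) (nat_lit 488) (nat_lit 482)) (XT.lf (nat_lit 0) (nat_lit 1083321381) (nat_lit 456) (nat_lit 2806754060) (nat_lit 532) (nat_lit 5047734456) (nat_lit 198) (nat_lit 5) (nat_lit 204) (nat_lit 5) (nat_lit 205) (nat_lit 4) (nat_lit 591) (nat_lit 488) (nat_lit 481))) (XT.nd (nat_lit 78) (nat_lit 532) (nat_lit 0) (XT.lf (nat_lit 0) (nat_lit 8050819071) (nat_lit 532) (nat_lit 429855055) (nat_lit 0) (nat_lit 533140773) (nat_lit 198) (nat_lit 5) (nat_lit 205) (nat_lit 4) (nat_lit 198) (nat_lit 4) (nat_lit 592) (nat_lit 488) (nat_lit 480)) (XT.lf (nat_lit 0) (nat_lit 3162633634) (nat_lit 532) (nat_lit 1987867363) (nat_lit 76) (nat_lit 3940405739) (nat_lit 191) (nat_lit 5) (nat_lit 198) (nat_lit 5) (nat_lit 192) (nat_lit 4) (nat_lit 593) (nat_lit 488) (nat_lit 479)))) (XT.nd (nat_lit 156) (nat_lit 912) (nat_lit 0) (XT.nd (nat_lit 78) (nat_lit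 532) (nat_lit 0) (XT.lf (nat_lit 0) (nat_lit 5595840639) (nat_lit 456) (nat_lit 1737871994) (nat_lit 532) (nat_lit 1836190609) (nat_lit 185) (nat_lit 5) (nat_lit 191) (nat_lit 5) (nat_lit 192) (nat_lit 4) (nat_lit 594) (nat_lit 488) (nat_lit 478)) (XT.lf (nat_lit 0) (nat_lit 2295083326) (nat_lit 532) (nat_lit 5210621065) (nat_lit 76) (nat_lit 1744718041) (nat_lit 178) (nat_lit 5) (nat_lit 185) (nat_lit 5) (nat_lit 179) (nat_lit 4) (nat_lit 595) (nat_lit 488) (nat_lit 477))) (XT.nd (nat_lit 78) (nat_lit 532) (nat_lit 0) (XT.lf (nat_lit 0) (nat_lit 2435682275) (nat_lit 380) (nat_lit 4037429630) (nat_lit 456) (nat_lit 2859429422) (nat_lit 173) (nat_lit 5) (nat_lit 178) (nat_lit 5) (nat_lit 179) (nat_lit 4) (nat_lit 596) (nat_lit 488) (nat_lit 476)) (XT.nd (nat_lit 78) (nat_lit 0) (nat_lit 0) (XT.lf (nat_lit 0) (nat_lit 796630246) (nat_lit 456) (nat_lit 482275867) (nat_lit 532) (nat_lit 8137675447) (nat_lit 166) (nat_lit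 5) (nat_lit 172) (nat_lit 5) (nat_lit 173) (nat_lit 5) (nat_lit 597) (nat_lit 488) (nat_lit 475)) (XT.lf (nat_lit 0) (nat_lit 5466590218) (nat_lit 532) (nat_lit 898930901) (nat_lit 76) (nat_lit 3136312081) (nat_lit 166) (nat_lit 5) (nat_lit 173) (nat_lit 5) (nat_lit 167) (nat_lit 4) (nat_lit 598) (nat_lit 488) (nat_lit 474)))))) (XT.nd (nat_lit 390) (nat_lit 1748) (nat_lit 0) (XT.nd (nat_lit 156) (nat_lit 836) (nat_lit 0) (XT.nd (nat_lit 78) (nat_lit 380) (nat_lit 0) (XT.lf (nat_lit 0) (nat_lit 134700011) (nat_lit 456) (nat_lit 2618692660) (nat_lit 76) (nat_lit 6835635218) (nat_lit 160) (nat_lit 5) (nat_lit 166) (nat_lit 5) (nat_lit 161) (nat_lit 5) (nat_lit 599) (nat_lit 488) (nat_lit 473)) (XT.lf (nat_lit 0) (nat_lit 4319928016) (nat_lit 456) (nat_lit 4404012363) (nat_lit 76) (nat_lit 953779937) (nat_lit 155) (nat_lit 5) (nat_lit 161) (nat_lit 5) (nat_lit 156) (nat_lit 4) (nat_lit 600) (nat_lit 488) (nat_lit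 472))) (XT.nd (nat_lit 78) (nat_lit 456) (nat_lit 0) (XT.lf (nat_lit 0) (nat_lit 3525421464) (nat_lit 380) (nat_lit 5061863851) (nat_lit 456) (nat_lit 1180938338) (nat_lit 150) (nat_lit 5) (nat_lit 155) (nat_lit 5) (nat_lit 156) (nat_lit 4) (nat_lit 601) (nat_lit 488) (nat_lit 471)) (XT.nd (nat_lit 78) (nat_lit 0) (nat_lit 0) (XT.lf (nat_lit 0) (nat_lit 1721311888) (nat_lit 380) (nat_lit 1298465664) (nat_lit 456) (nat_lit 6840750717) (nat_lit 144) (nat_lit 5) (nat_lit 149) (nat_lit 5) (nat_lit 150) (nat_lit 5) (nat_lit 602) (nat_lit 488) (nat_lit 470)) (XT.lf (nat_lit 0) (nat_lit 7287511729) (nat_lit 456) (nat_lit 143727345) (nat_lit 76) (nat_lit 2523312682) (nat_lit 144) (nat_lit 5) (nat_lit 150) (nat_lit 5) (nat_lit 145) (nat_lit 4) (nat_lit 603) (nat_lit 488) (nat_lit 469))))) (XT.nd (nat_lit 156) (nat_lit 988) (nat_lit 0) (XT.nd (nat_lit 78) (nat_lit 380) (nat_lit 0) (XT.lf (nat_lit 0) (nat_lit 1571251378)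 (nat_lit 380) (nat_lit 2045333838) (nat_lit 76) (nat_lit 6433629812) (nat_lit 139) (nat_lit 5) (nat_lit 144) (nat_lit 5) (nat_lit 140) (nat_lit 5) (nat_lit 604) (nat_lit 488) (nat_lit 468)) (XT.lf (nat_lit 0) (nat_lit 5842890584) (nat_lit 456) (nat_lit 4009182061) (nat_lit 76) (nat_lit 295685396) (nat_lit 134) (nat_lit 5) (nat_lit 140) (nat_lit 5) (nat_lit 135) (nat_lit 4) (nat_lit 605) (nat_lit 488) (nat_lit 467))) (XT.nd (nat_lit 78) (nat_lit 684) (nat_lit 0) (XT.lf (nat_lit 0) (nat_lit 4204742607) (nat_lit 304) (nat_lit 6002087497) (nat_lit 380) (nat_lit 40289295) (nat_lit 130) (nat_lit 5) (nat_lit 134) (nat_lit 5) (nat_lit 135) (nat_lit 4) (nat_lit 606) (nat_lit 488) (nat_lit 466)) (XT.nd (nat_lit 78) (nat_lit 304) (nat_lit 0) (XT.lf (nat_lit 0) (nat_lit 2196575436) (nat_lit 304) (nat_lit 2039781110) (nat_lit 380) (nat_lit 6111890533) (nat_lit 125) (nat_lit 5) (nat_lit 129) (nat_lit 5) (nat_lit 130) (nat_lit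 5) (nat_lit 607) (nat_lit 488) (nat_lit 465)) (XT.lf (nat_lit 0) (nat_lit 126000292) (nat_lit 304) (nat_lit 8468886781) (nat_lit 380) (nat_lit 1856571643) (nat_lit 121) (nat_lit 5) (nat_lit 125) (nat_lit 5) (nat_lit 126) (nat_lit 4) (nat_lit 608) (nat_lit 488) (nat_lit 464))))))))
noncomputable def xc12 : XT := (XT.nd (nat_lit 79248) (nat_lit 0) (nat_lit 5624) (XT.nd (nat_lit 702) (nat_lit 1596) (nat_lit 0) (XT.nd (nat_lit 312) (nat_lit 1216) (nat_lit 0) (XT.nd (nat_lit 156) (nat_lit 684) (nat_lit 0) (XT.nd (nat_lit 78) (nat_lit 304) (nat_lit 0) (XT.lf (nat_lit 0) (nat_lit 2462254171) (nat_lit 380) (nat_lit 1999813857) (nat_lit 76) (nat_lit 6094128866) (nat_lit 120) (nat_lit 5) (nat_lit 125) (nat_lit 5) (nat_lit 121) (nat_lit 5) (nat_lit 609) (nat_lit 488) (nat_lit 463)) (XT.lf (nat_lit 0) (nat_lit 6472883159) (nat_lit 304) (nat_lit 355296650) (nat_lit 380) (nat_lit 3834897227) (nat_lit 116) (nat_lit 5) (nat_lit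 120) (nat_lit 5) (nat_lit 121) (nat_lit 5) (nat_lit 610) (nat_lit 488) (nat_lit 462))) (XT.nd (nat_lit 78) (nat_lit 304) (nat_lit 0) (XT.lf (nat_lit 0) (nat_lit 512908068) (nat_lit 380) (nat_lit 6465758373) (nat_lit 76) (nat_lit 3793161151) (nat_lit 111) (nat_lit 5) (nat_lit 116) (nat_lit 5) (nat_lit 112) (nat_lit 5) (nat_lit 611) (nat_lit 488) (nat_lit 461)) (XT.lf (nat_lit 0) (nat_lit 2053373663) (nat_lit 304) (nat_lit 2830933440) (nat_lit 380) (nat_lit 5998183390) (nat_lit 107) (nat_lit 5) (nat_lit 111) (nat_lit 5) (nat_lit 112) (nat_lit 5) (nat_lit 612) (nat_lit 488) (nat_lit 460)))) (XT.nd (nat_lit 156) (nat_lit 912) (nat_lit 0) (XT.nd (nat_lit 78) (nat_lit 304) (nat_lit 0) (XT.lf (nat_lit 0) (nat_lit 9340114316) (nat_lit 380) (nat_lit 266098365) (nat_lit 76) (nat_lit 1389218334) (nat_lit 107) (nat_lit 5) (nat_lit 112) (nat_lit 5) (nat_lit 108) (nat_lit 4) (nat_lit 613) (nat_lit 488) (nat_lit 459)) (XT.lf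 (nat_lit 0) (nat_lit 2757190657) (nat_lit 304) (nat_lit 2658818776) (nat_lit 76) (nat_lit 5693881058) (nat_lit 103) (nat_lit 5) (nat_lit 107) (nat_lit 5) (nat_lit 104) (nat_lit 5) (nat_lit 614) (nat_lit 488) (nat_lit 458))) (XT.nd (nat_lit 78) (nat_lit 608) (nat_lit 0) (XT.lf (nat_lit 0) (nat_lit 6097515353) (nat_lit 304) (nat_lit 1125108393) (nat_lit 380) (nat_lit 4004063510) (nat_lit 99) (nat_lit 5) (nat_lit 103) (nat_lit 5) (nat_lit 104) (nat_lit 5) (nat_lit 615) (nat_lit 488) (nat_lit 457)) (XT.nd (nat_lit 78) (nat_lit 304) (nat_lit 0) (XT.lf (nat_lit 0) (nat_lit 434419703) (nat_lit 304) (nat_lit 7693571788) (nat_lit 76) (nat_lit 3217605341) (nat_lit 95) (nat_lit 5) (nat_lit 99) (nat_lit 5) (nat_lit 96) (nat_lit 5) (nat_lit 616) (nat_lit 488) (nat_lit 456)) (XT.lf (nat_lit 0) (nat_lit 1100978230) (nat_lit 304) (nat_lit 3802172016) (nat_lit 380) (nat_lit 6563306696) (nat_lit 91) (nat_lit 5) (nat_lit 95) (nat_lit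 5) (nat_lit 96) (nat_lit 5) (nat_lit 617) (nat_lit 488) (nat_lit 455)))))) (XT.nd (nat_lit 390) (nat_lit 760) (nat_lit 0) (XT.nd (nat_lit 156) (nat_lit 532) (nat_lit 0) (XT.nd (nat_lit 78) (nat_lit 304) (nat_lit 0) (XT.lf (nat_lit 0) (nat_lit 9463214159) (nat_lit 380) (nat_lit 1508975434) (nat_lit 76) (nat_lit 617508940) (nat_lit 91) (nat_lit 5) (nat_lit 96) (nat_lit 5) (nat_lit 92) (nat_lit 4) (nat_lit 618) (nat_lit 488) (nat_lit 454)) (XT.lf (nat_lit 0) (nat_lit 2388758851) (nat_lit 304) (nat_lit 4222636262) (nat_lit 76) (nat_lit 5103278660) (nat_lit 87) (nat_lit 5) (nat_lit 91) (nat_lit 5) (nat_lit 88) (nat_lit 5) (nat_lit 619) (nat_lit 488) (nat_lit 453))) (XT.nd (nat_lit 78) (nat_lit 304) (nat_lit 0) (XT.lf (nat_lit 0) (nat_lit 4810526468) (nat_lit 228) (nat_lit 2143952449) (nat_lit 304) (nat_lit 4887618820) (nat_lit 84) (nat_lit 5) (nat_lit 87) (nat_lit 5) (nat_lit 88) (nat_lit 5) (nat_lit 620) (nat_lit 488)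 (nat_lit 452)) (XT.nd (nat_lit 78) (nat_lit 76) (nat_lit 0) (XT.lf (nat_lit 0) (nat_lit 2030655330) (nat_lit 228) (nat_lit 9585639140) (nat_lit 304) (nat_lit 355683279) (nat_lit 81) (nat_lit 5) (nat_lit 84) (nat_lit 5) (nat_lit 85) (nat_lit 4) (nat_lit 621) (nat_lit 488) (nat_lit 451)) (XT.lf (nat_lit 0) (nat_lit 4220134490) (nat_lit 304) (nat_lit 866603492) (nat_lit 76) (nat_lit 7016982286) (nat_lit 80) (nat_lit 5) (nat_lit 84) (nat_lit 5) (nat_lit 81) (nat_lit 5) (nat_lit 622) (nat_lit 488) (nat_lit 450))))) (XT.nd (nat_lit 156) (nat_lit 228) (nat_lit 0) (XT.nd (nat_lit 78) (nat_lit 304) (nat_lit 0) (XT.lf (nat_lit 0) (nat_lit 8408991925) (nat_lit 228) (nat_lit 476852716) (nat_lit 304) (nat_lit 3352146207) (nat_lit 77) (nat_lit 5) (nat_lit 80) (nat_lit 5) (nat_lit 81) (nat_lit 5) (nat_lit 623) (nat_lit 488) (nat_lit 449)) (XT.lf (nat_lit 0) (nat_lit 1270867957) (nat_lit 304) (nat_lit 6920524777) (nat_lit 76)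 (nat_lit 4183040071) (nat_lit 73) (nat_lit 5) (nat_lit 77) (nat_lit 5) (nat_lit 74) (nat_lit 5) (nat_lit 624) (nat_lit 488) (nat_lit 448))) (XT.nd (nat_lit 77844) (nat_lit 0) (nat_lit 13604) (XT.lf (nat_lit 0) (nat_lit 2378100082) (nat_lit 228) (nat_lit 3556690764) (nat_lit 304) (nat_lit 6578505760) (nat_lit 70) (nat_lit 5) (nat_lit 73) (nat_lit 5) (nat_lit 74) (nat_lit 5) (nat_lit 625) (nat_lit 488) (nat_lit 447)) (XT.nd (nat_lit 78) (nat_lit 608) (nat_lit 0) (XT.lf (nat_lit 0) (nat_lit 1280878770) (nat_lit 608) (nat_lit 1599937687) (nat_lit 0) (nat_lit 1280878770) (nat_lit 257) (nat_lit 5) (nat_lit 265) (nat_lit 4) (nat_lit 257) (nat_lit 4) (nat_lit 582) (nat_lit 489) (nat_lit 489)) (XT.lf (nat_lit 0) (nat_lit 3747727552) (nat_lit 608) (nat_lit 2874713389) (nat_lit 608) (nat_lit 1763881723) (nat_lit 249) (nat_lit 4) (nat_lit 257) (nat_lit 5) (nat_lit 257) (nat_lit 4) (nat_lit 583) (nat_lit 489) (nat_lit 488)))))))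 (XT.nd (nat_lit 702) (nat_lit 4104) (nat_lit 0) (XT.nd (nat_lit 312) (nat_lit 2128) (nat_lit 0) (XT.nd (nat_lit 156) (nat_lit 608) (nat_lit 0) (XT.nd (nat_lit 78) (nat_lit 532) (nat_lit 0) (XT.lf (nat_lit 0) (nat_lit 2253253428) (nat_lit 608) (nat_lit 6101066831) (nat_lit 0) (nat_lit 96506055) (nat_lit 241) (nat_lit 5) (nat_lit 249) (nat_lit 4) (nat_lit 241) (nat_lit 4) (nat_lit 584) (nat_lit 489) (nat_lit 487)) (XT.lf (nat_lit 0) (nat_lit 912400265) (nat_lit 532) (nat_lit 5403860538) (nat_lit 532) (nat_lit 2200351676) (nat_lit 234) (nat_lit 4) (nat_lit 241) (nat_lit 5) (nat_lit 241) (nat_lit 4) (nat_lit 585) (nat_lit 489) (nat_lit 486))) (XT.nd (nat_lit 78) (nat_lit 532) (nat_lit 0) (XT.lf (nat_lit 0) (nat_lit 1826508434) (nat_lit 608) (nat_lit 540198578) (nat_lit 76) (nat_lit 6217285714) (nat_lit 233) (nat_lit 5) (nat_lit 241) (nat_lit 5) (nat_lit 234) (nat_lit 4) (nat_lit 586) (nat_lit 489) (nat_lit 485)) (XT.lf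 (nat_lit 0) (nat_lit 5886987469) (nat_lit 608) (nat_lit 2012008115) (nat_lit 0) (nat_lit 753791311) (nat_lit 226) (nat_lit 5) (nat_lit 234) (nat_lit 4) (nat_lit 226) (nat_lit 4) (nat_lit 587) (nat_lit 489) (nat_lit 484)))) (XT.nd (nat_lit 156) (nat_lit 1064) (nat_lit 0) (XT.nd (nat_lit 78) (nat_lit 456) (nat_lit 0) (XT.lf (nat_lit 0) (nat_lit 1276588629) (nat_lit 608) (nat_lit 3521532939) (nat_lit 76) (nat_lit 3924913718) (nat_lit 218) (nat_lit 5) (nat_lit 226) (nat_lit 5) (nat_lit 219) (nat_lit 4) (nat_lit 588) (nat_lit 489) (nat_lit 483)) (XT.lf (nat_lit 0) (nat_lit 3730011909) (nat_lit 456) (nat_lit 1605798988) (nat_lit 532) (nat_lit 3459059326) (nat_lit 212) (nat_lit 5) (nat_lit 218) (nat_lit 5) (nat_lit 219) (nat_lit 4) (nat_lit 589) (nat_lit 489) (nat_lit 482))) (XT.nd (nat_lit 78) (nat_lit 456) (nat_lit 0) (XT.lf (nat_lit 0) (nat_lit 584655613) (nat_lit 608) (nat_lit 6640388160) (nat_lit 76) (nat_lit 1643335355)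 (nat_lit 204) (nat_lit 5) (nat_lit 212) (nat_lit 5) (nat_lit 205) (nat_lit 4) (nat_lit 590) (nat_lit 489) (nat_lit 481)) (XT.nd (nat_lit 78) (nat_lit 0) (nat_lit 0) (XT.lf (nat_lit 0) (nat_lit 674365665) (nat_lit 456) (nat_lit 3973732858) (nat_lit 532) (nat_lit 4295106176) (nat_lit 198) (nat_lit 5) (nat_lit 204) (nat_lit 5) (nat_lit 205) (nat_lit 4) (nat_lit 591) (nat_lit 489) (nat_lit 480)) (XT.lf (nat_lit 0) (nat_lit 8132655320) (nat_lit 456) (nat_lit 641271343) (nat_lit 532) (nat_lit 245984835) (nat_lit 198) (nat_lit 5) (nat_lit 204) (nat_lit 5) (nat_lit 205) (nat_lit 4) (nat_lit 592) (nat_lit 489) (nat_lit 479)))))) (XT.nd (nat_lit 390) (nat_lit 1672) (nat_lit 0) (XT.nd (nat_lit 156) (nat_lit 1444) (nat_lit 0) (XT.nd (nat_lit 78) (nat_lit 456) (nat_lit 0) (XT.lf (nat_lit 0) (nat_lit 3831654057) (nat_lit 532) (nat_lit 2504554440) (nat_lit 76) (nat_lit 2761476820) (nat_lit 191) (nat_lit 5) (nat_lit 198) (nat_lit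 5) (nat_lit 192) (nat_lit 4) (nat_lit 593) (nat_lit 489) (nat_lit 478)) (XT.lf (nat_lit 0) (nat_lit 5026014774) (nat_lit 456) (nat_lit 2942240028) (nat_lit 532) (nat_lit 1209119873) (nat_lit 185) (nat_lit 5) (nat_lit 191) (nat_lit 5) (nat_lit 192) (nat_lit 4) (nat_lit 594) (nat_lit 489) (nat_lit 477))) (XT.nd (nat_lit 78) (nat_lit 912) (nat_lit 0) (XT.lf (nat_lit 0) (nat_lit 2871211432) (nat_lit 532) (nat_lit 5846271146) (nat_lit 76) (nat_lit 541187388) (nat_lit 178) (nat_lit 5) (nat_lit 185) (nat_lit 5) (nat_lit 179) (nat_lit 4) (nat_lit 595) (nat_lit 489) (nat_lit 476)) (XT.nd (nat_lit 78) (nat_lit 532) (nat_lit 0) (XT.lf (nat_lit 0) (nat_lit 1744986572) (nat_lit 380) (nat_lit 5269302544) (nat_lit 456) (nat_lit 2327201858) (nat_lit 173) (nat_lit 5) (nat_lit 178) (nat_lit 5) (nat_lit 179) (nat_lit 4) (nat_lit 596) (nat_lit 489) (nat_lit 475)) (XT.lf (nat_lit 0) (nat_lit 37481920) (nat_lit 456) (nat_lit 1731374161)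 (nat_lit 532) (nat_lit 7657314938) (nat_lit 166) (nat_lit 5) (nat_lit 172) (nat_lit 5) (nat_lit 173) (nat_lit 5) (nat_lit 597) (nat_lit 489) (nat_lit 474))))) (XT.nd (nat_lit 156) (nat_lit 1216) (nat_lit 0) (XT.nd (nat_lit 78) (nat_lit 456) (nat_lit 0) (XT.lf (nat_lit 0) (nat_lit 5918257897) (nat_lit 532) (nat_lit 1705848789) (nat_lit 76) (nat_lit 1888084537) (nat_lit 166) (nat_lit 5) (nat_lit 173) (nat_lit 5) (nat_lit 167) (nat_lit 4) (nat_lit 598) (nat_lit 489) (nat_lit 473)) (XT.lf (nat_lit 0) (nat_lit 534798017) (nat_lit 456) (nat_lit 3496016465) (nat_lit 76) (nat_lit 5569225404) (nat_lit 160) (nat_lit 5) (nat_lit 166) (nat_lit 5) (nat_lit 161) (nat_lit 5) (nat_lit 599) (nat_lit 489) (nat_lit 472))) (XT.nd (nat_lit 78) (nat_lit 836) (nat_lit 0) (XT.lf (nat_lit 0) (nat_lit 4345042438) (nat_lit 380) (nat_lit 333147483) (nat_lit 456) (nat_lit 5011381865) (nat_lit 155) (nat_lit 5) (nat_lit 160) (nat_lit 5) (nat_lit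 161) (nat_lit 5) (nat_lit 600) (nat_lit 489) (nat_lit 471)) (XT.nd (nat_lit 78) (nat_lit 456) (nat_lit 0) (XT.lf (nat_lit 0) (nat_lit 2528328028) (nat_lit 380) (nat_lit 6379273411) (nat_lit 456) (nat_lit 873235294) (nat_lit 150) (nat_lit 5) (nat_lit 155) (nat_lit 5) (nat_lit 156) (nat_lit 4) (nat_lit 601) (nat_lit 489) (nat_lit 470)) (XT.lf (nat_lit 0) (nat_lit 649801557) (nat_lit 380) (nat_lit 2637462842) (nat_lit 456) (nat_lit 6586563198) (nat_lit 144) (nat_lit 5) (nat_lit 149) (nat_lit 5) (nat_lit 150) (nat_lit 5) (nat_lit 602) (nat_lit 489) (nat_lit 469))))))))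
noncomputable def xc13 : XT := (XT.nd (nat_lit 1482) (nat_lit 836) (nat_lit 0) (XT.nd (nat_lit 702) (nat_lit 2052) (nat_lit 0) (XT.nd (nat_lit 312) (nat_lit 1368) (nat_lit 0) (XT.nd (nat_lit 156) (nat_lit 760) (nat_lit 0) (XT.nd (nat_lit 78) (nat_lit 380) (nat_lit 0) (XT.lf (nat_lit 0) (nat_lit 7517251996) (nat_lit 456) (nat_lit 1265769579) (nat_lit 76) (nat_lit 1185586981) (nat_lit 144) (nat_lit 5) (nat_lit 150) (nat_lit 5) (nat_lit 145) (nat_lit 4) (nat_lit 603) (nat_lit 489) (nat_lit 468)) (XT.lf (nat_lit 0) (nat_lit 1747702847) (nat_lit 380) (nat_lit 3243854889) (nat_lit 76) (nat_lit 5073416591) (nat_lit 139) (nat_lit 5) (nat_lit 144) (nat_lit 5) (nat_lit 140) (nat_lit 5) (nat_lit 604) (nat_lit 489) (nat_lit 467))) (XT.nd (nat_lit 78) (nat_lit 380) (nat_lit 0) (XT.lf (nat_lit 0) (nat_lit 4880402570) (nat_lit 380) (nat_lit 1100407965) (nat_lit 456) (nat_lit 4182479829) (nat_lit 134) (nat_lit 5) (nat_lit 139)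 (nat_lit 5) (nat_lit 140) (nat_lit 5) (nat_lit 605) (nat_lit 489) (nat_lit 466)) (XT.lf (nat_lit 0) (nat_lit 36706002) (nat_lit 380) (nat_lit 7388297531) (nat_lit 76) (nat_lit 2838526141) (nat_lit 129) (nat_lit 5) (nat_lit 134) (nat_lit 5) (nat_lit 130) (nat_lit 5) (nat_lit 606) (nat_lit 489) (nat_lit 465)))) (XT.nd (nat_lit 156) (nat_lit 1064) (nat_lit 0) (XT.nd (nat_lit 78) (nat_lit 0) (nat_lit 0) (XT.lf (nat_lit 0) (nat_lit 786552122) (nat_lit 304) (nat_lit 3488944081) (nat_lit 380) (nat_lit 6089904719) (nat_lit 125) (nat_lit 5) (nat_lit 129) (nat_lit 5) (nat_lit 130) (nat_lit 5) (nat_lit 607) (nat_lit 489) (nat_lit 464)) (XT.lf (nat_lit 0) (nat_lit 8595775934) (nat_lit 380) (nat_lit 1338919585) (nat_lit 76) (nat_lit 534684269) (nat_lit 125) (nat_lit 5) (nat_lit 130) (nat_lit 5) (nat_lit 126) (nat_lit 4) (nat_lit 608) (nat_lit 489) (nat_lit 463))) (XT.nd (nat_lit 78) (nat_lit 684) (nat_lit 0) (XT.lf (nat_lit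 0) (nat_lit 2408624518) (nat_lit 380) (nat_lit 3546029008) (nat_lit 76) (nat_lit 4620205194) (nat_lit 120) (nat_lit 5) (nat_lit 125) (nat_lit 5) (nat_lit 121) (nat_lit 5) (nat_lit 609) (nat_lit 489) (nat_lit 462)) (XT.nd (nat_lit 78) (nat_lit 380) (nat_lit 0) (XT.lf (nat_lit 0) (nat_lit 4860846037) (nat_lit 304) (nat_lit 1875832013) (nat_lit 380) (nat_lit 3945820337) (nat_lit 116) (nat_lit 5) (nat_lit 120) (nat_lit 5) (nat_lit 121) (nat_lit 5) (nat_lit 610) (nat_lit 489) (nat_lit 461)) (XT.lf (nat_lit 0) (nat_lit 355015260) (nat_lit 380) (nat_lit 8173656053) (nat_lit 76) (nat_lit 2263562526) (nat_lit 111) (nat_lit 5) (nat_lit 116) (nat_lit 5) (nat_lit 112) (nat_lit 5) (nat_lit 611) (nat_lit 489) (nat_lit 460)))))) (XT.nd (nat_lit 390) (nat_lit 836) (nat_lit 0) (XT.nd (nat_lit 156) (nat_lit 912) (nat_lit 0) (XT.nd (nat_lit 78) (nat_lit 0) (nat_lit 0) (XT.lf (nat_lit 0) (nat_lit 277294585) (nat_lit 304) (nat_lit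 4410384512) (nat_lit 380) (nat_lit 6215994311) (nat_lit 107) (nat_lit 5) (nat_lit 111) (nat_lit 5) (nat_lit 112) (nat_lit 5) (nat_lit 612) (nat_lit 489) (nat_lit 459)) (XT.lf (nat_lit 0) (nat_lit 8917983472) (nat_lit 304) (nat_lit 189403410) (nat_lit 380) (nat_lit 1909950961) (nat_lit 107) (nat_lit 5) (nat_lit 111) (nat_lit 5) (nat_lit 112) (nat_lit 5) (nat_lit 613) (nat_lit 489) (nat_lit 458))) (XT.nd (nat_lit 78) (nat_lit 608) (nat_lit 0) (XT.lf (nat_lit 0) (nat_lit 2465512080) (nat_lit 304) (nat_lit 4580706767) (nat_lit 76) (nat_lit 4086421065) (nat_lit 103) (nat_lit 5) (nat_lit 107) (nat_lit 5) (nat_lit 104) (nat_lit 5) (nat_lit 614) (nat_lit 489) (nat_lit 457)) (XT.nd (nat_lit 78) (nat_lit 304) (nat_lit 0) (XT.lf (nat_lit 0) (nat_lit 4105299294) (nat_lit 304) (nat_lit 2786227374) (nat_lit 380) (nat_lit 4358700194) (nat_lit 99) (nat_lit 5) (nat_lit 103) (nat_lit 5) (nat_lit 104) (nat_lit 5) (nat_lit 615) (nat_lit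 489) (nat_lit 456)) (XT.lf (nat_lit 0) (nat_lit 33465643) (nat_lit 304) (nat_lit 9792013651) (nat_lit 76) (nat_lit 1544724308) (nat_lit 95) (nat_lit 5) (nat_lit 99) (nat_lit 5) (nat_lit 96) (nat_lit 5) (nat_lit 616) (nat_lit 489) (nat_lit 455))))) (XT.nd (nat_lit 156) (nat_lit 532) (nat_lit 0) (XT.nd (nat_lit 78) (nat_lit 304) (nat_lit 0) (XT.lf (nat_lit 0) (nat_lit 4468740025) (nat_lit 304) (nat_lit 1056284020) (nat_lit 76) (nat_lit 5966710501) (nat_lit 95) (nat_lit 5) (nat_lit 99) (nat_lit 5) (nat_lit 96) (nat_lit 5) (nat_lit 617) (nat_lit 489) (nat_lit 454)) (XT.lf (nat_lit 0) (nat_lit 7869478319) (nat_lit 304) (nat_lit 1122235527) (nat_lit 380) (nat_lit 2624005768) (nat_lit 91) (nat_lit 5) (nat_lit 95) (nat_lit 5) (nat_lit 96) (nat_lit 5) (nat_lit 618) (nat_lit 489) (nat_lit 453))) (XT.nd (nat_lit 78) (nat_lit 228) (nat_lit 0) (XT.lf (nat_lit 0) (nat_lit 1849517723) (nat_lit 304) (nat_lit 6549887135) (nat_lit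 76) (nat_lit 3342321106) (nat_lit 87) (nat_lit 5) (nat_lit 91) (nat_lit 5) (nat_lit 88) (nat_lit 5) (nat_lit 619) (nat_lit 489) (nat_lit 452)) (XT.nd (nat_lit 78) (nat_lit 0) (nat_lit 0) (XT.lf (nat_lit 0) (nat_lit 2408089275) (nat_lit 228) (nat_lit 3965920700) (nat_lit 304) (nat_lit 5495966090) (nat_lit 84) (nat_lit 5) (nat_lit 87) (nat_lit 5) (nat_lit 88) (nat_lit 5) (nat_lit 620) (nat_lit 489) (nat_lit 451)) (XT.lf (nat_lit 0) (nat_lit 10985286215) (nat_lit 304) (nat_lit 458246715) (nat_lit 76) (nat_lit 557335482) (nat_lit 84) (nat_lit 5) (nat_lit 88) (nat_lit 5) (nat_lit 85) (nat_lit 4) (nat_lit 621) (nat_lit 489) (nat_lit 450))))))) (XT.nd (nat_lit 78312) (nat_lit 0) (nat_lit 8512) (XT.nd (nat_lit 77922) (nat_lit 0) (nat_lit 12768) (XT.nd (nat_lit 156) (nat_lit 304) (nat_lit 0) (XT.nd (nat_lit 78) (nat_lit 228) (nat_lit 0) (XT.lf (nat_lit 0) (nat_lit 3540378993) (nat_lit 304) (nat_lit 3430077438) (nat_lit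 76) (nat_lit 5162811903) (nat_lit 80) (nat_lit 5) (nat_lit 84) (nat_lit 5) (nat_lit 81) (nat_lit 5) (nat_lit 622) (nat_lit 489) (nat_lit 449)) (XT.lf (nat_lit 0) (nat_lit 5767903601) (nat_lit 228) (nat_lit 2396060861) (nat_lit 304) (nat_lit 4104418405) (nat_lit 77) (nat_lit 5) (nat_lit 80) (nat_lit 5) (nat_lit 81) (nat_lit 5) (nat_lit 623) (nat_lit 489) (nat_lit 448))) (XT.nd (nat_lit 78) (nat_lit 0) (nat_lit 0) (XT.lf (nat_lit 0) (nat_lit 472976969) (nat_lit 304) (nat_lit 9684773887) (nat_lit 76) (nat_lit 2248282755) (nat_lit 73) (nat_lit 5) (nat_lit 77) (nat_lit 5) (nat_lit 74) (nat_lit 5) (nat_lit 624) (nat_lit 489) (nat_lit 447)) (XT.lf (nat_lit 0) (nat_lit 5096624087) (nat_lit 304) (nat_lit 460459891) (nat_lit 76) (nat_lit 6988620325) (nat_lit 73) (nat_lit 5) (nat_lit 77) (nat_lit 5) (nat_lit 74) (nat_lit 5) (nat_lit 625) (nat_lit 489) (nat_lit 446)))) (XT.nd (nat_lit 156) (nat_lit 1824) (nat_lit 0) (XT.nd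 (nat_lit 78) (nat_lit 608) (nat_lit 0) (XT.lf (nat_lit 0) (nat_lit 1962132231) (nat_lit 684) (nat_lit 176387689) (nat_lit 0) (nat_lit 1962132231) (nat_lit 273) (nat_lit 5) (nat_lit 282) (nat_lit 4) (nat_lit 273) (nat_lit 4) (nat_lit 580) (nat_lit 490) (nat_lit 490)) (XT.lf (nat_lit 0) (nat_lit 6482657555) (nat_lit 608) (nat_lit 1467571337) (nat_lit 608) (nat_lit 311862071) (nat_lit 265) (nat_lit 4) (nat_lit 273) (nat_lit 5) (nat_lit 273) (nat_lit 4) (nat_lit 581) (nat_lit 490) (nat_lit 489))) (XT.nd (nat_lit 78) (nat_lit 1216) (nat_lit 0) (XT.lf (nat_lit 0) (nat_lit 3661133711) (nat_lit 608) (nat_lit 3245680956) (nat_lit 0) (nat_lit 1417253744) (nat_lit 257) (nat_lit 5) (nat_lit 265) (nat_lit 4) (nat_lit 257) (nat_lit 4) (nat_lit 582) (nat_lit 490) (nat_lit 488)) (XT.nd (nat_lit 78) (nat_lit 608) (nat_lit 0) (XT.lf (nat_lit 0) (nat_lit 3655809010) (nat_lit 608) (nat_lit 4032399412) (nat_lit 608) (nat_lit 699468792)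 (nat_lit 249) (nat_lit 4) (nat_lit 257) (nat_lit 5) (nat_lit 257) (nat_lit 4) (nat_lit 583) (nat_lit 490) (nat_lit 487)) (XT.lf (nat_lit 0) (nat_lit 2203239871) (nat_lit 532) (nat_lit 1066001322) (nat_lit 608) (nat_lit 5183495008) (nat_lit 241) (nat_lit 5) (nat_lit 248) (nat_lit 5) (nat_lit 249) (nat_lit 4) (nat_lit 584) (nat_lit 490) (nat_lit 486)))))) (XT.nd (nat_lit 390) (nat_lit 2052) (nat_lit 0) (XT.nd (nat_lit 156) (nat_lit 1596) (nat_lit 0) (XT.nd (nat_lit 78) (nat_lit 76) (nat_lit 0) (XT.lf (nat_lit 0) (nat_lit 723077081) (nat_lit 532) (nat_lit 6568420874) (nat_lit 532) (nat_lit 1227843591) (nat_lit 234) (nat_lit 4) (nat_lit 241) (nat_lit 5) (nat_lit 241) (nat_lit 4) (nat_lit 585) (nat_lit 490) (nat_lit 485)) (XT.lf (nat_lit 0) (nat_lit 2753790887) (nat_lit 608) (nat_lit 784034154) (nat_lit 76) (nat_lit 5049423894) (nat_lit 233) (nat_lit 5) (nat_lit 241) (nat_lit 5) (nat_lit 234) (nat_lit 4) (nat_lit 586)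 (nat_lit 490) (nat_lit 484))) (XT.nd (nat_lit 78) (nat_lit 1064) (nat_lit 0) (XT.lf (nat_lit 0) (nat_lit 6353591076) (nat_lit 532) (nat_lit 421987911) (nat_lit 608) (nat_lit 1881241863) (nat_lit 226) (nat_lit 5) (nat_lit 233) (nat_lit 5) (nat_lit 234) (nat_lit 4) (nat_lit 587) (nat_lit 490) (nat_lit 483)) (XT.nd (nat_lit 78) (nat_lit 456) (nat_lit 0) (XT.lf (nat_lit 0) (nat_lit 2112786084) (nat_lit 608) (nat_lit 3869548867) (nat_lit 76) (nat_lit 2745358383) (nat_lit 218) (nat_lit 5) (nat_lit 226) (nat_lit 5) (nat_lit 219) (nat_lit 4) (nat_lit 588) (nat_lit 490) (nat_lit 482)) (XT.lf (nat_lit 0) (nat_lit 3331811561) (nat_lit 456) (nat_lit 2806150104) (nat_lit 532) (nat_lit 2662251239) (nat_lit 212) (nat_lit 5) (nat_lit 218) (nat_lit 5) (nat_lit 219) (nat_lit 4) (nat_lit 589) (nat_lit 490) (nat_lit 481))))) (XT.nd (nat_lit 156) (nat_lit 988) (nat_lit 0) (XT.nd (nat_lit 78) (nat_lit 456) (nat_lit 0) (XT.lf (nat_lit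 0) (nat_lit 1328815478) (nat_lit 608) (nat_lit 7098282805) (nat_lit 76) (nat_lit 447367574) (nat_lit 204) (nat_lit 5) (nat_lit 212) (nat_lit 5) (nat_lit 205) (nat_lit 4) (nat_lit 590) (nat_lit 490) (nat_lit 480)) (XT.lf (nat_lit 0) (nat_lit 164459378) (nat_lit 456) (nat_lit 5193378561) (nat_lit 532) (nat_lit 3592145385) (nat_lit 198) (nat_lit 5) (nat_lit 204) (nat_lit 5) (nat_lit 205) (nat_lit 4) (nat_lit 591) (nat_lit 490) (nat_lit 479))) (XT.nd (nat_lit 78) (nat_lit 912) (nat_lit 0) (XT.lf (nat_lit 0) (nat_lit 419983197) (nat_lit 532) (nat_lit 1452349344) (nat_lit 76) (nat_lit 7154921582) (nat_lit 197) (nat_lit 5) (nat_lit 204) (nat_lit 5) (nat_lit 198) (nat_lit 5) (nat_lit 592) (nat_lit 490) (nat_lit 478)) (XT.nd (nat_lit 78) (nat_lit 456) (nat_lit 0) (XT.lf (nat_lit 0) (nat_lit 4451882183) (nat_lit 532) (nat_lit 3123819406) (nat_lit 76) (nat_lit 1530147973) (nat_lit 191) (nat_lit 5) (nat_lit 198) (nat_lit 5)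 (nat_lit 192) (nat_lit 4) (nat_lit 593) (nat_lit 490) (nat_lit 477)) (XT.lf (nat_lit 0) (nat_lit 4353155114) (nat_lit 456) (nat_lit 4200784097) (nat_lit 532) (nat_lit 632293804) (nat_lit 185) (nat_lit 5) (nat_lit 191) (nat_lit 5) (nat_lit 192) (nat_lit 4) (nat_lit 594) (nat_lit 490) (nat_lit 476))))))))
noncomputable def xc14 : XT := (XT.nd (nat_lit 1482) (nat_lit 2584) (nat_lit 0) (XT.nd (nat_lit 702) (nat_lit 2812) (nat_lit 0) (XT.nd (nat_lit 312) (nat_lit 1672) (nat_lit 0) (XT.nd (nat_lit 156) (nat_lit 532) (nat_lit 0) (XT.nd (nat_lit 78) (nat_lit 380) (nat_lit 0) (XT.lf (nat_lit 0) (nat_lit 2675983251) (nat_lit 456) (nat_lit 726050643) (nat_lit 532) (nat_lit 5866191375) (nat_lit 178) (nat_lit 5) (nat_lit 184) (nat_lit 5) (nat_lit 185) (nat_lit 5) (nat_lit 595) (nat_lit 490) (nat_lit 475)) (XT.lf (nat_lit 0) (nat_lit 948194312) (nat_lit 380) (nat_lit 6557160903) (nat_lit 456) (nat_lit 1846489225) (nat_lit 173)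 (nat_lit 5) (nat_lit 178) (nat_lit 5) (nat_lit 179) (nat_lit 4) (nat_lit 596) (nat_lit 490) (nat_lit 474))) (XT.nd (nat_lit 78) (nat_lit 456) (nat_lit 0) (XT.lf (nat_lit 0) (nat_lit 2213247743) (nat_lit 456) (nat_lit 818463780) (nat_lit 76) (nat_lit 6405353784) (nat_lit 172) (nat_lit 5) (nat_lit 178) (nat_lit 5) (nat_lit 173) (nat_lit 5) (nat_lit 597) (nat_lit 490) (nat_lit 473)) (XT.lf (nat_lit 0) (nat_lit 6319205916) (nat_lit 532) (nat_lit 2620577541) (nat_lit 76) (nat_lit 584173788) (nat_lit 166) (nat_lit 5) (nat_lit 173) (nat_lit 5) (nat_lit 167) (nat_lit 4) (nat_lit 598) (nat_lit 490) (nat_lit 472)))) (XT.nd (nat_lit 156) (nat_lit 836) (nat_lit 0) (XT.nd (nat_lit 78) (nat_lit 380) (nat_lit 0) (XT.lf (nat_lit 0) (nat_lit 883327851) (nat_lit 456) (nat_lit 4482753354) (nat_lit 76) (nat_lit 4246387876) (nat_lit 160) (nat_lit 5) (nat_lit 166) (nat_lit 5) (nat_lit 161) (nat_lit 5) (nat_lit 599) (nat_lit 490) (nat_lit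 471)) (XT.lf (nat_lit 0) (nat_lit 3300013017) (nat_lit 380) (nat_lit 1691009787) (nat_lit 456) (nat_lit 4711694812) (nat_lit 155) (nat_lit 5) (nat_lit 160) (nat_lit 5) (nat_lit 161) (nat_lit 5) (nat_lit 600) (nat_lit 490) (nat_lit 470))) (XT.nd (nat_lit 78) (nat_lit 456) (nat_lit 0) (XT.lf (nat_lit 0) (nat_lit 1419661496) (nat_lit 380) (nat_lit 7756024197) (nat_lit 456) (nat_lit 619194486) (nat_lit 150) (nat_lit 5) (nat_lit 155) (nat_lit 5) (nat_lit 156) (nat_lit 4) (nat_lit 601) (nat_lit 490) (nat_lit 469)) (XT.nd (nat_lit 78) (nat_lit 380) (nat_lit 0) (XT.lf (nat_lit 0) (nat_lit 3505103826) (nat_lit 456) (nat_lit 527935921) (nat_lit 76) (nat_lit 5855458239) (nat_lit 149) (nat_lit 5) (nat_lit 155) (nat_lit 5) (nat_lit 150) (nat_lit 5) (nat_lit 602) (nat_lit 490) (nat_lit 468)) (XT.lf (nat_lit 0) (nat_lit 7481480691) (nat_lit 380) (nat_lit 213959367) (nat_lit 456) (nat_lit 2288634405) (nat_lit 144) (nat_lit 5)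 (nat_lit 149) (nat_lit 5) (nat_lit 150) (nat_lit 5) (nat_lit 603) (nat_lit 490) (nat_lit 467)))))) (XT.nd (nat_lit 390) (nat_lit 1368) (nat_lit 0) (XT.nd (nat_lit 156) (nat_lit 684) (nat_lit 0) (XT.nd (nat_lit 78) (nat_lit 380) (nat_lit 0) (XT.lf (nat_lit 0) (nat_lit 1870306377) (nat_lit 380) (nat_lit 4557467288) (nat_lit 76) (nat_lit 3653407521) (nat_lit 139) (nat_lit 5) (nat_lit 144) (nat_lit 5) (nat_lit 140) (nat_lit 5) (nat_lit 604) (nat_lit 490) (nat_lit 466)) (XT.lf (nat_lit 0) (nat_lit 3504520357) (nat_lit 380) (nat_lit 2562113080) (nat_lit 456) (nat_lit 4113601747) (nat_lit 134) (nat_lit 5) (nat_lit 139) (nat_lit 5) (nat_lit 140) (nat_lit 5) (nat_lit 605) (nat_lit 490) (nat_lit 465))) (XT.nd (nat_lit 78) (nat_lit 304) (nat_lit 0) (XT.lf (nat_lit 0) (nat_lit 57793924) (nat_lit 380) (nat_lit 8853007028) (nat_lit 76) (nat_lit 1370604590) (nat_lit 129) (nat_lit 5) (nat_lit 134) (nat_lit 5) (nat_lit 130) (nat_lit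 5) (nat_lit 606) (nat_lit 490) (nat_lit 464)) (XT.nd (nat_lit 78) (nat_lit 304) (nat_lit 0) (XT.lf (nat_lit 0) (nat_lit 4263857277) (nat_lit 380) (nat_lit 732932244) (nat_lit 76) (nat_lit 5387144017) (nat_lit 129) (nat_lit 5) (nat_lit 134) (nat_lit 5) (nat_lit 130) (nat_lit 5) (nat_lit 607) (nat_lit 490) (nat_lit 463)) (XT.lf (nat_lit 0) (nat_lit 7560656960) (nat_lit 304) (nat_lit 987775243) (nat_lit 380) (nat_lit 1940196464) (nat_lit 125) (nat_lit 5) (nat_lit 129) (nat_lit 5) (nat_lit 130) (nat_lit 5) (nat_lit 608) (nat_lit 490) (nat_lit 462))))) (XT.nd (nat_lit 156) (nat_lit 684) (nat_lit 0) (XT.nd (nat_lit 78) (nat_lit 304) (nat_lit 0) (XT.lf (nat_lit 0) (nat_lit 2298562775) (nat_lit 380) (nat_lit 5213421688) (nat_lit 76) (nat_lit 3083020718) (nat_lit 120) (nat_lit 5) (nat_lit 125) (nat_lit 5) (nat_lit 121) (nat_lit 5) (nat_lit 609) (nat_lit 490) (nat_lit 461)) (XT.lf (nat_lit 0) (nat_lit 3126908717) (nat_lit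 304) (nat_lit 3461581393) (nat_lit 380) (nat_lit 4114919304) (nat_lit 116) (nat_lit 5) (nat_lit 120) (nat_lit 5) (nat_lit 121) (nat_lit 5) (nat_lit 610) (nat_lit 490) (nat_lit 460))) (XT.nd (nat_lit 78) (nat_lit 304) (nat_lit 0) (XT.lf (nat_lit 0) (nat_lit 139013092) (nat_lit 380) (nat_lit 10006385045) (nat_lit 76) (nat_lit 668753071) (nat_lit 111) (nat_lit 5) (nat_lit 116) (nat_lit 5) (nat_lit 112) (nat_lit 5) (nat_lit 611) (nat_lit 490) (nat_lit 459)) (XT.nd (nat_lit 78) (nat_lit 304) (nat_lit 0) (XT.lf (nat_lit 0) (nat_lit 4443206240) (nat_lit 380) (nat_lit 1603078823) (nat_lit 76) (nat_lit 4879877053) (nat_lit 111) (nat_lit 5) (nat_lit 116) (nat_lit 5) (nat_lit 112) (nat_lit 5) (nat_lit 612) (nat_lit 490) (nat_lit 458)) (XT.lf (nat_lit 0) (nat_lit 6972587865) (nat_lit 304) (nat_lit 1853348379) (nat_lit 380) (nat_lit 2214631750) (nat_lit 107) (nat_lit 5) (nat_lit 111) (nat_lit 5) (nat_lit 112) (nat_lit 5) (nat_lit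 613) (nat_lit 490) (nat_lit 457))))))) (XT.nd (nat_lit 702) (nat_lit 532) (nat_lit 0) (XT.nd (nat_lit 312) (nat_lit 1140) (nat_lit 0) (XT.nd (nat_lit 156) (nat_lit 304) (nat_lit 0) (XT.nd (nat_lit 78) (nat_lit 304) (nat_lit 0) (XT.lf (nat_lit 0) (nat_lit 2114502830) (nat_lit 304) (nat_lit 6630316105) (nat_lit 76) (nat_lit 2412098994) (nat_lit 103) (nat_lit 5) (nat_lit 107) (nat_lit 5) (nat_lit 104) (nat_lit 5) (nat_lit 614) (nat_lit 490) (nat_lit 456)) (XT.lf (nat_lit 0) (nat_lit 1984542719) (nat_lit 304) (nat_lit 4516240915) (nat_lit 380) (nat_lit 4774517699) (nat_lit 99) (nat_lit 5) (nat_lit 103) (nat_lit 5) (nat_lit 104) (nat_lit 5) (nat_lit 615) (nat_lit 490) (nat_lit 455))) (XT.nd (nat_lit 78) (nat_lit 304) (nat_lit 0) (XT.lf (nat_lit 0) (nat_lit 10774617346) (nat_lit 304) (nat_lit 192681291) (nat_lit 380) (nat_lit 428907117) (nat_lit 99) (nat_lit 5) (nat_lit 103) (nat_lit 5) (nat_lit 104) (nat_lit 5) (nat_lit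 616) (nat_lit 490) (nat_lit 454)) (XT.lf (nat_lit 0) (nat_lit 3980832924) (nat_lit 304) (nat_lit 3329854705) (nat_lit 76) (nat_lit 4207729631) (nat_lit 95) (nat_lit 5) (nat_lit 99) (nat_lit 5) (nat_lit 96) (nat_lit 5) (nat_lit 617) (nat_lit 490) (nat_lit 453)))) (XT.nd (nat_lit 156) (nat_lit 532) (nat_lit 0) (XT.nd (nat_lit 78) (nat_lit 304) (nat_lit 0) (XT.lf (nat_lit 0) (nat_lit 5522468684) (nat_lit 304) (nat_lit 2940813404) (nat_lit 380) (nat_lit 3179932376) (nat_lit 91) (nat_lit 5) (nat_lit 95) (nat_lit 5) (nat_lit 96) (nat_lit 5) (nat_lit 618) (nat_lit 490) (nat_lit 452)) (XT.lf (nat_lit 0) (nat_lit 1247719985) (nat_lit 304) (nat_lit 9011912430) (nat_lit 76) (nat_lit 1510725412) (nat_lit 87) (nat_lit 5) (nat_lit 91) (nat_lit 5) (nat_lit 88) (nat_lit 5) (nat_lit 619) (nat_lit 490) (nat_lit 451))) (XT.nd (nat_lit 78) (nat_lit 532) (nat_lit 0) (XT.lf (nat_lit 0) (nat_lit 5731450269) (nat_lit 304) (nat_lit 128340036)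 (nat_lit 76) (nat_lit 6039634411) (nat_lit 87) (nat_lit 5) (nat_lit 91) (nat_lit 5) (nat_lit 88) (nat_lit 5) (nat_lit 620) (nat_lit 490) (nat_lit 450)) (XT.nd (nat_lit 78) (nat_lit 304) (nat_lit 0) (XT.lf (nat_lit 0) (nat_lit 8965687056) (nat_lit 228) (nat_lit 1347617863) (nat_lit 304) (nat_lit 1717602093) (nat_lit 84) (nat_lit 5) (nat_lit 87) (nat_lit 5) (nat_lit 88) (nat_lit 5) (nat_lit 621) (nat_lit 490) (nat_lit 449)) (XT.lf (nat_lit 0) (nat_lit 2796574877) (nat_lit 304) (nat_lit 6131632443) (nat_lit 76) (nat_lit 3236212059) (nat_lit 80) (nat_lit 5) (nat_lit 84) (nat_lit 5) (nat_lit 81) (nat_lit 5) (nat_lit 622) (nat_lit 490) (nat_lit 448)))))) (XT.nd (nat_lit 77844) (nat_lit 0) (nat_lit 12768) (XT.nd (nat_lit 156) (nat_lit 304) (nat_lit 0) (XT.nd (nat_lit 78) (nat_lit 0) (nat_lit 0) (XT.lf (nat_lit 0) (nat_lit 2987753059) (nat_lit 228) (nat_lit 4389869466) (nat_lit 304) (nat_lit 4922763575) (nat_lit 77) (nat_lit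 5) (nat_lit 80) (nat_lit 5) (nat_lit 81) (nat_lit 5) (nat_lit 623) (nat_lit 490) (nat_lit 447)) (XT.lf (nat_lit 0) (nat_lit 12043989555) (nat_lit 304) (nat_lit 152735459) (nat_lit 76) (nat_lit 242476005) (nat_lit 77) (nat_lit 5) (nat_lit 81) (nat_lit 5) (nat_lit 78) (nat_lit 4) (nat_lit 624) (nat_lit 490) (nat_lit 446))) (XT.nd (nat_lit 77532) (nat_lit 0) (nat_lit 15200) (XT.lf (nat_lit 0) (nat_lit 4208258833) (nat_lit 304) (nat_lit 3409375854) (nat_lit 76) (nat_lit 4961796893) (nat_lit 73) (nat_lit 5) (nat_lit 77) (nat_lit 5) (nat_lit 74) (nat_lit 5) (nat_lit 625) (nat_lit 490) (nat_lit 445)) (XT.nd (nat_lit 78) (nat_lit 684) (nat_lit 0) (XT.lf (nat_lit 0) (nat_lit 1263670637) (nat_lit 684) (nat_lit 1389041496) (nat_lit 684) (nat_lit 1389041496) (nat_lit 282) (nat_lit 4) (nat_lit 291) (nat_lit 5) (nat_lit 291) (nat_lit 4) (nat_lit 578) (nat_lit 491) (nat_lit 491)) (XT.lf (nat_lit 0) (nat_lit 1083029621) (nat_lit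 608) (nat_lit 48371141) (nat_lit 684) (nat_lit 7010811331) (nat_lit 273) (nat_lit 5) (nat_lit 281) (nat_lit 5) (nat_lit 282) (nat_lit 4) (nat_lit 579) (nat_lit 491) (nat_lit 490))))) (XT.nd (nat_lit 156) (nat_lit 1748) (nat_lit 0) (XT.nd (nat_lit 78) (nat_lit 684) (nat_lit 0) (XT.lf (nat_lit 0) (nat_lit 5069639144) (nat_lit 684) (nat_lit 397232399) (nat_lit 0) (nat_lit 2735106427) (nat_lit 273) (nat_lit 5) (nat_lit 282) (nat_lit 4) (nat_lit 273) (nat_lit 4) (nat_lit 580) (nat_lit 491) (nat_lit 489)) (XT.lf (nat_lit 0) (nat_lit 788318424) (nat_lit 684) (nat_lit 1875177800) (nat_lit 76) (nat_lit 5599836727) (nat_lit 264) (nat_lit 5) (nat_lit 273) (nat_lit 5) (nat_lit 265) (nat_lit 4) (nat_lit 581) (nat_lit 491) (nat_lit 488))) (XT.nd (nat_lit 78) (nat_lit 1216) (nat_lit 0) (XT.lf (nat_lit 0) (nat_lit 4715813381) (nat_lit 608) (nat_lit 3383115662) (nat_lit 0) (nat_lit 227173494) (nat_lit 257) (nat_lit 5) (nat_lit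 265) (nat_lit 4) (nat_lit 257) (nat_lit 4) (nat_lit 582) (nat_lit 491) (nat_lit 487)) (XT.nd (nat_lit 78) (nat_lit 532) (nat_lit 0) (XT.lf (nat_lit 0) (nat_lit 314759827) (nat_lit 684) (nat_lit 4920521753) (nat_lit 76) (nat_lit 3155063849) (nat_lit 248) (nat_lit 5) (nat_lit 257) (nat_lit 5) (nat_lit 249) (nat_lit 4) (nat_lit 583) (nat_lit 491) (nat_lit 486)) (XT.lf (nat_lit 0) (nat_lit 1962720721) (nat_lit 532) (nat_lit 2277783642) (nat_lit 608) (nat_lit 4215489227) (nat_lit 241) (nat_lit 5) (nat_lit 248) (nat_lit 5) (nat_lit 249) (nat_lit 4) (nat_lit 584) (nat_lit 491) (nat_lit 485))))))))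
noncomputable def xc15 : XT := (XT.nd (nat_lit 1482) (nat_lit 4864) (nat_lit 0) (XT.nd (nat_lit 702) (nat_lit 3572) (nat_lit 0) (XT.nd (nat_lit 312) (nat_lit 2052) (nat_lit 0) (XT.nd (nat_lit 156) (nat_lit 1140) (nat_lit 0) (XT.nd (nat_lit 78) (nat_lit 76) (nat_lit 0) (XT.lf (nat_lit 0) (nat_lit 438999502) (nat_lit 532) (nat_lit 7782088515) (nat_lit 532) (nat_lit 302348467) (nat_lit 234) (nat_lit 4) (nat_lit 241) (nat_lit 5) (nat_lit 241) (nat_lit 4) (nat_lit 585) (nat_lit 491) (nat_lit 484)) (XT.lf (nat_lit 0) (nat_lit 3635313650) (nat_lit 608) (nat_lit 1122793204) (nat_lit 76) (nat_lit 3833757455) (nat_lit 233) (nat_lit 5) (nat_lit 241) (nat_lit 5) (nat_lit 234) (nat_lit 4) (nat_lit 586) (nat_lit 491) (nat_lit 483))) (XT.nd (nat_lit 78) (nat_lit 608) (nat_lit 0) (XT.lf (nat_lit 0) (nat_lit 5966045765) (nat_lit 532) (nat_lit 1657329659) (nat_lit 608) (nat_lit 1038739176) (nat_lit 226) (nat_lit 5) (nat_lit 233)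 (nat_lit 5) (nat_lit 234) (nat_lit 4) (nat_lit 587) (nat_lit 491) (nat_lit 482)) (XT.lf (nat_lit 0) (nat_lit 2902155650) (nat_lit 608) (nat_lit 4315348255) (nat_lit 76) (nat_lit 1516219147) (nat_lit 218) (nat_lit 5) (nat_lit 226) (nat_lit 5) (nat_lit 219) (nat_lit 4) (nat_lit 588) (nat_lit 491) (nat_lit 481)))) (XT.nd (nat_lit 156) (nat_lit 988) (nat_lit 0) (XT.nd (nat_lit 78) (nat_lit 608) (nat_lit 0) (XT.lf (nat_lit 0) (nat_lit 2835421584) (nat_lit 456) (nat_lit 4057842338) (nat_lit 532) (nat_lit 1913663676) (nat_lit 212) (nat_lit 5) (nat_lit 218) (nat_lit 5) (nat_lit 219) (nat_lit 4) (nat_lit 589) (nat_lit 491) (nat_lit 480)) (XT.lf (nat_lit 0) (nat_lit 1219679905) (nat_lit 532) (nat_lit 810599792) (nat_lit 608) (nat_lit 6851553243) (nat_lit 204) (nat_lit 5) (nat_lit 211) (nat_lit 5) (nat_lit 212) (nat_lit 5) (nat_lit 590) (nat_lit 491) (nat_lit 479))) (XT.nd (nat_lit 78) (nat_lit 988) (nat_lit 0) (XT.lf (nat_lit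 0) (nat_lit 6022471625) (nat_lit 608) (nat_lit 440740237) (nat_lit 76) (nat_lit 2494878575) (nat_lit 204) (nat_lit 5) (nat_lit 212) (nat_lit 5) (nat_lit 205) (nat_lit 4) (nat_lit 591) (nat_lit 491) (nat_lit 478)) (XT.nd (nat_lit 78) (nat_lit 456) (nat_lit 0) (XT.lf (nat_lit 0) (nat_lit 1034588892) (nat_lit 532) (nat_lit 2120364933) (nat_lit 76) (nat_lit 5880991655) (nat_lit 197) (nat_lit 5) (nat_lit 204) (nat_lit 5) (nat_lit 198) (nat_lit 5) (nat_lit 592) (nat_lit 491) (nat_lit 477)) (XT.lf (nat_lit 0) (nat_lit 5023561240) (nat_lit 532) (nat_lit 3845905108) (nat_lit 76) (nat_lit 245936324) (nat_lit 191) (nat_lit 5) (nat_lit 198) (nat_lit 5) (nat_lit 192) (nat_lit 4) (nat_lit 593) (nat_lit 491) (nat_lit 476)))))) (XT.nd (nat_lit 390) (nat_lit 1672) (nat_lit 0) (XT.nd (nat_lit 156) (nat_lit 912) (nat_lit 0) (XT.nd (nat_lit 78) (nat_lit 532) (nat_lit 0) (XT.lf (nat_lit 0) (nat_lit 3576997794) (nat_lit 456) (nat_lit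 5513997748) (nat_lit 532) (nat_lit 105486196) (nat_lit 185) (nat_lit 5) (nat_lit 191) (nat_lit 5) (nat_lit 192) (nat_lit 4) (nat_lit 594) (nat_lit 491) (nat_lit 475)) (XT.lf (nat_lit 0) (nat_lit 1831077467) (nat_lit 456) (nat_lit 2055885731) (nat_lit 532) (nat_lit 5392144805) (nat_lit 178) (nat_lit 5) (nat_lit 184) (nat_lit 5) (nat_lit 185) (nat_lit 5) (nat_lit 595) (nat_lit 491) (nat_lit 474))) (XT.nd (nat_lit 78) (nat_lit 532) (nat_lit 0) (XT.lf (nat_lit 0) (nat_lit 44993028) (nat_lit 380) (nat_lit 7901509748) (nat_lit 456) (nat_lit 1417103009) (nat_lit 173) (nat_lit 5) (nat_lit 178) (nat_lit 5) (nat_lit 179) (nat_lit 4) (nat_lit 596) (nat_lit 491) (nat_lit 473)) (XT.nd (nat_lit 78) (nat_lit 456) (nat_lit 0) (XT.lf (nat_lit 0) (nat_lit 2607813285) (nat_lit 456) (nat_lit 1780515532) (nat_lit 76) (nat_lit 5061028723) (nat_lit 172) (nat_lit 5) (nat_lit 178) (nat_lit 5) (nat_lit 173) (nat_lit 5) (nat_lit 597) (nat_lit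 491) (nat_lit 472)) (XT.lf (nat_lit 0) (nat_lit 5888453098) (nat_lit 456) (nat_lit 786243222) (nat_lit 532) (nat_lit 2862337465) (nat_lit 166) (nat_lit 5) (nat_lit 172) (nat_lit 5) (nat_lit 173) (nat_lit 5) (nat_lit 598) (nat_lit 491) (nat_lit 471))))) (XT.nd (nat_lit 156) (nat_lit 836) (nat_lit 0) (XT.nd (nat_lit 78) (nat_lit 380) (nat_lit 0) (XT.lf (nat_lit 0) (nat_lit 1180426190) (nat_lit 456) (nat_lit 5579290283) (nat_lit 76) (nat_lit 2866603874) (nat_lit 160) (nat_lit 5) (nat_lit 166) (nat_lit 5) (nat_lit 161) (nat_lit 5) (nat_lit 599) (nat_lit 491) (nat_lit 470)) (XT.lf (nat_lit 0) (nat_lit 2144610240) (nat_lit 380) (nat_lit 3107664236) (nat_lit 456) (nat_lit 4465013981) (nat_lit 155) (nat_lit 5) (nat_lit 160) (nat_lit 5) (nat_lit 161) (nat_lit 5) (nat_lit 600) (nat_lit 491) (nat_lit 469))) (XT.nd (nat_lit 78) (nat_lit 456) (nat_lit 0) (XT.lf (nat_lit 0) (nat_lit 198987096) (nat_lit 380) (nat_lit 9192656110)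 (nat_lit 456) (nat_lit 418716290) (nat_lit 150) (nat_lit 5) (nat_lit 155) (nat_lit 5) (nat_lit 156) (nat_lit 4) (nat_lit 601) (nat_lit 491) (nat_lit 468)) (XT.nd (nat_lit 78) (nat_lit 380) (nat_lit 0) (XT.lf (nat_lit 0) (nat_lit 3674863844) (nat_lit 456) (nat_lit 1809367584) (nat_lit 76) (nat_lit 4420284109) (nat_lit 149) (nat_lit 5) (nat_lit 155) (nat_lit 5) (nat_lit 150) (nat_lit 5) (nat_lit 602) (nat_lit 491) (nat_lit 467)) (XT.lf (nat_lit 0) (nat_lit 6139332484) (nat_lit 380) (nat_lit 1689615367) (nat_lit 456) (nat_lit 2171871648) (nat_lit 144) (nat_lit 5) (nat_lit 149) (nat_lit 5) (nat_lit 150) (nat_lit 5) (nat_lit 603) (nat_lit 491) (nat_lit 466))))))) (XT.nd (nat_lit 702) (nat_lit 2356) (nat_lit 0) (XT.nd (nat_lit 312) (nat_lit 1368) (nat_lit 0) (XT.nd (nat_lit 156) (nat_lit 380) (nat_lit 0) (XT.nd (nat_lit 78) (nat_lit 380) (nat_lit 0) (XT.lf (nat_lit 0) (nat_lit 1939110049) (nat_lit 380) (nat_lit 5986686177)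 (nat_lit 76) (nat_lit 2173045737) (nat_lit 139) (nat_lit 5) (nat_lit 144) (nat_lit 5) (nat_lit 140) (nat_lit 5) (nat_lit 604) (nat_lit 491) (nat_lit 465)) (XT.lf (nat_lit 0) (nat_lit 2012373982) (nat_lit 380) (nat_lit 4086073662) (nat_lit 456) (nat_lit 4100190406) (nat_lit 134) (nat_lit 5) (nat_lit 139) (nat_lit 5) (nat_lit 140) (nat_lit 5) (nat_lit 605) (nat_lit 491) (nat_lit 464))) (XT.nd (nat_lit 78) (nat_lit 304) (nat_lit 0) (XT.lf (nat_lit 0) (nat_lit 25451281) (nat_lit 456) (nat_lit 135331168) (nat_lit 76) (nat_lit 10139937991) (nat_lit 133) (nat_lit 5) (nat_lit 139) (nat_lit 5) (nat_lit 134) (nat_lit 5) (nat_lit 606) (nat_lit 491) (nat_lit 463)) (XT.lf (nat_lit 0) (nat_lit 4202496033) (nat_lit 380) (nat_lit 2360330661) (nat_lit 76) (nat_lit 3841004282) (nat_lit 129) (nat_lit 5) (nat_lit 134) (nat_lit 5) (nat_lit 130) (nat_lit 5) (nat_lit 607) (nat_lit 491) (nat_lit 462)))) (XT.nd (nat_lit 156) (nat_lit 684)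 (nat_lit 0) (XT.nd (nat_lit 78) (nat_lit 380) (nat_lit 0) (XT.lf (nat_lit 0) (nat_lit 5868330683) (nat_lit 304) (nat_lit 2581205060) (nat_lit 380) (nat_lit 2059743192) (nat_lit 125) (nat_lit 5) (nat_lit 129) (nat_lit 5) (nat_lit 130) (nat_lit 5) (nat_lit 608) (nat_lit 491) (nat_lit 461)) (XT.lf (nat_lit 0) (nat_lit 2132025779) (nat_lit 380) (nat_lit 7002645777) (nat_lit 76) (nat_lit 1481972622) (nat_lit 120) (nat_lit 5) (nat_lit 125) (nat_lit 5) (nat_lit 121) (nat_lit 5) (nat_lit 609) (nat_lit 491) (nat_lit 460))) (XT.nd (nat_lit 78) (nat_lit 380) (nat_lit 0) (XT.lf (nat_lit 0) (nat_lit 1270391224) (nat_lit 304) (nat_lit 5113166653) (nat_lit 380) (nat_lit 4342260443) (nat_lit 116) (nat_lit 5) (nat_lit 120) (nat_lit 5) (nat_lit 121) (nat_lit 5) (nat_lit 610) (nat_lit 491) (nat_lit 459)) (XT.nd (nat_lit 78) (nat_lit 380) (nat_lit 0) (XT.lf (nat_lit 0) (nat_lit 9717633803) (nat_lit 304) (nat_lit 996752237) (nat_lit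 380) (nat_lit 122908562) (nat_lit 116) (nat_lit 5) (nat_lit 120) (nat_lit 5) (nat_lit 121) (nat_lit 5) (nat_lit 611) (nat_lit 491) (nat_lit 458)) (XT.lf (nat_lit 0) (nat_lit 4142862642) (nat_lit 380) (nat_lit 3604502598) (nat_lit 76) (nat_lit 3202758796) (nat_lit 111) (nat_lit 5) (nat_lit 116) (nat_lit 5) (nat_lit 112) (nat_lit 5) (nat_lit 612) (nat_lit 491) (nat_lit 457)))))) (XT.nd (nat_lit 390) (nat_lit 1140) (nat_lit 0) (XT.nd (nat_lit 156) (nat_lit 608) (nat_lit 0) (XT.nd (nat_lit 78) (nat_lit 304) (nat_lit 0) (XT.lf (nat_lit 0) (nat_lit 4901705316) (nat_lit 304) (nat_lit 3584807120) (nat_lit 380) (nat_lit 2578800934) (nat_lit 107) (nat_lit 5) (nat_lit 111) (nat_lit 5) (nat_lit 112) (nat_lit 5) (nat_lit 613) (nat_lit 491) (nat_lit 456)) (XT.lf (nat_lit 0) (nat_lit 1704025257) (nat_lit 304) (nat_lit 8808450559) (nat_lit 76) (nat_lit 670258246) (nat_lit 103) (nat_lit 5) (nat_lit 107) (nat_lit 5) (nat_lit 104)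 (nat_lit 5) (nat_lit 614) (nat_lit 491) (nat_lit 455))) (XT.nd (nat_lit 78) (nat_lit 608) (nat_lit 0) (XT.lf (nat_lit 0) (nat_lit 6051965774) (nat_lit 304) (nat_lit 262102832) (nat_lit 76) (nat_lit 4987817408) (nat_lit 103) (nat_lit 5) (nat_lit 107) (nat_lit 5) (nat_lit 104) (nat_lit 5) (nat_lit 615) (nat_lit 491) (nat_lit 454)) (XT.nd (nat_lit 78) (nat_lit 304) (nat_lit 0) (XT.lf (nat_lit 0) (nat_lit 8482284618) (nat_lit 304) (nat_lit 2009241587) (nat_lit 380) (nat_lit 931805032) (nat_lit 99) (nat_lit 5) (nat_lit 103) (nat_lit 5) (nat_lit 104) (nat_lit 5) (nat_lit 616) (nat_lit 491) (nat_lit 453)) (XT.lf (nat_lit 0) (nat_lit 3432089327) (nat_lit 304) (nat_lit 5735064947) (nat_lit 76) (nat_lit 2379504239) (nat_lit 95) (nat_lit 5) (nat_lit 99) (nat_lit 5) (nat_lit 96) (nat_lit 5) (nat_lit 617) (nat_lit 491) (nat_lit 452))))) (XT.nd (nat_lit 156) (nat_lit 532) (nat_lit 0) (XT.nd (nat_lit 78) (nat_lit 304) (nat_lit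 0) (XT.lf (nat_lit 0) (nat_lit 3042917607) (nat_lit 304) (nat_lit 4830731490) (nat_lit 380) (nat_lit 3798626020) (nat_lit 91) (nat_lit 5) (nat_lit 95) (nat_lit 5) (nat_lit 96) (nat_lit 5) (nat_lit 618) (nat_lit 491) (nat_lit 451)) (XT.lf (nat_lit 0) (nat_lit 188270894) (nat_lit 228) (nat_lit 397439183) (nat_lit 304) (nat_lit 11214818902) (nat_lit 87) (nat_lit 5) (nat_lit 90) (nat_lit 5) (nat_lit 91) (nat_lit 5) (nat_lit 619) (nat_lit 491) (nat_lit 450))) (XT.nd (nat_lit 78) (nat_lit 532) (nat_lit 0) (XT.lf (nat_lit 0) (nat_lit 5042225553) (nat_lit 304) (nat_lit 2768087108) (nat_lit 76) (nat_lit 4119829020) (nat_lit 87) (nat_lit 5) (nat_lit 91) (nat_lit 5) (nat_lit 88) (nat_lit 5) (nat_lit 620) (nat_lit 491) (nat_lit 449)) (XT.nd (nat_lit 78) (nat_lit 304) (nat_lit 0) (XT.lf (nat_lit 0) (nat_lit 6249153475) (nat_lit 228) (nat_lit 3333137848) (nat_lit 304) (nat_lit 2480169921) (nat_lit 84) (nat_lit 5) (nat_lit 87)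 (nat_lit 5) (nat_lit 88) (nat_lit 5) (nat_lit 621) (nat_lit 491) (nat_lit 448)) (XT.lf (nat_lit 0) (nat_lit 1988430454) (nat_lit 304) (nat_lit 8972327940) (nat_lit 76) (nat_lit 1236427226) (nat_lit 80) (nat_lit 5) (nat_lit 84) (nat_lit 5) (nat_lit 81) (nat_lit 5) (nat_lit 622) (nat_lit 491) (nat_lit 447))))))))
noncomputable def xc16 : XT := (XT.nd (nat_lit 78702) (nat_lit 0) (nat_lit 3572) (XT.nd (nat_lit 78000) (nat_lit 0) (nat_lit 9956) (XT.nd (nat_lit 77610) (nat_lit 0) (nat_lit 14516) (XT.nd (nat_lit 156) (nat_lit 304) (nat_lit 0) (XT.nd (nat_lit 78) (nat_lit 0) (nat_lit 0) (XT.lf (nat_lit 0) (nat_lit 67450045) (nat_lit 228) (nat_lit 6459060415) (nat_lit 304) (nat_lit 5807502635) (nat_lit 77) (nat_lit 5) (nat_lit 80) (nat_lit 5) (nat_lit 81) (nat_lit 5) (nat_lit 623) (nat_lit 491) (nat_lit 446)) (XT.lf (nat_lit 0) (nat_lit 9326754227) (nat_lit 228) (nat_lit 1840725225) (nat_lit 304) (nat_lit 1305857898) (nat_lit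 77) (nat_lit 5) (nat_lit 80) (nat_lit 5) (nat_lit 81) (nat_lit 5) (nat_lit 624) (nat_lit 491) (nat_lit 445))) (XT.nd (nat_lit 77376) (nat_lit 0) (nat_lit 17252) (XT.lf (nat_lit 0) (nat_lit 3253906502) (nat_lit 304) (nat_lit 6500993453) (nat_lit 76) (nat_lit 2859900510) (nat_lit 73) (nat_lit 5) (nat_lit 77) (nat_lit 5) (nat_lit 74) (nat_lit 5) (nat_lit 625) (nat_lit 491) (nat_lit 444)) (XT.lf (nat_lit 0) (nat_lit 2709339794) (nat_lit 684) (nat_lit 637889283) (nat_lit 684) (nat_lit 637889283) (nat_lit 300) (nat_lit 4) (nat_lit 309) (nat_lit 5) (nat_lit 309) (nat_lit 4) (nat_lit 576) (nat_lit 492) (nat_lit 492)))) (XT.nd (nat_lit 156) (nat_lit 1368) (nat_lit 0) (XT.nd (nat_lit 78) (nat_lit 684) (nat_lit 0) (XT.lf (nat_lit 0) (nat_lit 2593793770) (nat_lit 684) (nat_lit 4065333814) (nat_lit 0) (nat_lit 1367345851) (nat_lit 291) (nat_lit 5) (nat_lit 300) (nat_lit 4) (nat_lit 291) (nat_lit 4) (nat_lit 577) (nat_lit 492)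 (nat_lit 491)) (XT.lf (nat_lit 0) (nat_lit 2483651569) (nat_lit 684) (nat_lit 4014689518) (nat_lit 684) (nat_lit 1585841679) (nat_lit 282) (nat_lit 4) (nat_lit 291) (nat_lit 5) (nat_lit 291) (nat_lit 4) (nat_lit 578) (nat_lit 492) (nat_lit 490))) (XT.nd (nat_lit 78) (nat_lit 684) (nat_lit 0) (XT.lf (nat_lit 0) (nat_lit 986378424) (nat_lit 608) (nat_lit 1287903612) (nat_lit 684) (nat_lit 5869129910) (nat_lit 273) (nat_lit 5) (nat_lit 281) (nat_lit 5) (nat_lit 282) (nat_lit 4) (nat_lit 579) (nat_lit 492) (nat_lit 489)) (XT.nd (nat_lit 78) (nat_lit 684) (nat_lit 0) (XT.lf (nat_lit 0) (nat_lit 6171679640) (nat_lit 684) (nat_lit 530620897) (nat_lit 0) (nat_lit 1501698703) (nat_lit 273) (nat_lit 5) (nat_lit 282) (nat_lit 4) (nat_lit 273) (nat_lit 4) (nat_lit 580) (nat_lit 492) (nat_lit 488)) (XT.lf (nat_lit 0) (nat_lit 1840377070) (nat_lit 684) (nat_lit 2063250921) (nat_lit 76) (nat_lit 4362258483) (nat_lit 264) (nat_lit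 5) (nat_lit 273) (nat_lit 5) (nat_lit 265) (nat_lit 4) (nat_lit 581) (nat_lit 492) (nat_lit 487)))))) (XT.nd (nat_lit 312) (nat_lit 2204) (nat_lit 0) (XT.nd (nat_lit 156) (nat_lit 1140) (nat_lit 0) (XT.nd (nat_lit 78) (nat_lit 684) (nat_lit 0) (XT.lf (nat_lit 0) (nat_lit 4710489661) (nat_lit 532) (nat_lit 1022358318) (nat_lit 608) (nat_lit 2596512899) (nat_lit 257) (nat_lit 5) (nat_lit 264) (nat_lit 5) (nat_lit 265) (nat_lit 4) (nat_lit 582) (nat_lit 492) (nat_lit 486)) (XT.lf (nat_lit 0) (nat_lit 1274810924) (nat_lit 684) (nat_lit 5206803479) (nat_lit 76) (nat_lit 1912670479) (nat_lit 248) (nat_lit 5) (nat_lit 257) (nat_lit 5) (nat_lit 249) (nat_lit 4) (nat_lit 583) (nat_lit 492) (nat_lit 485))) (XT.nd (nat_lit 78) (nat_lit 608) (nat_lit 0) (XT.lf (nat_lit 0) (nat_lit 1628755319) (nat_lit 532) (nat_lit 3538033601) (nat_lit 608) (nat_lit 3293823540) (nat_lit 241) (nat_lit 5) (nat_lit 248) (nat_lit 5) (nat_lit 249)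 (nat_lit 4) (nat_lit 584) (nat_lit 492) (nat_lit 484)) (XT.lf (nat_lit 0) (nat_lit 52797798) (nat_lit 532) (nat_lit 519510989) (nat_lit 608) (nat_lit 7956447792) (nat_lit 233) (nat_lit 5) (nat_lit 240) (nat_lit 5) (nat_lit 241) (nat_lit 5) (nat_lit 585) (nat_lit 492) (nat_lit 483)))) (XT.nd (nat_lit 156) (nat_lit 1672) (nat_lit 0) (XT.nd (nat_lit 78) (nat_lit 532) (nat_lit 0) (XT.lf (nat_lit 0) (nat_lit 4471422417) (nat_lit 608) (nat_lit 1556608575) (nat_lit 76) (nat_lit 2569809664) (nat_lit 233) (nat_lit 5) (nat_lit 241) (nat_lit 5) (nat_lit 234) (nat_lit 4) (nat_lit 586) (nat_lit 492) (nat_lit 482)) (XT.lf (nat_lit 0) (nat_lit 5483049205) (nat_lit 532) (nat_lit 2942700891) (nat_lit 608) (nat_lit 243019307) (nat_lit 226) (nat_lit 5) (nat_lit 233) (nat_lit 5) (nat_lit 234) (nat_lit 4) (nat_lit 587) (nat_lit 492) (nat_lit 481))) (XT.nd (nat_lit 78) (nat_lit 1064) (nat_lit 0) (XT.lf (nat_lit 0) (nat_lit 3645006886)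 (nat_lit 608) (nat_lit 4859105928) (nat_lit 76) (nat_lit 237013996) (nat_lit 218) (nat_lit 5) (nat_lit 226) (nat_lit 5) (nat_lit 219) (nat_lit 4) (nat_lit 588) (nat_lit 492) (nat_lit 480)) (XT.nd (nat_lit 78) (nat_lit 608) (nat_lit 0) (XT.lf (nat_lit 0) (nat_lit 2240647315) (nat_lit 456) (nat_lit 5361366549) (nat_lit 532) (nat_lit 1213003073) (nat_lit 212) (nat_lit 5) (nat_lit 218) (nat_lit 5) (nat_lit 219) (nat_lit 4) (nat_lit 589) (nat_lit 492) (nat_lit 479)) (XT.lf (nat_lit 0) (nat_lit 560283541) (nat_lit 532) (nat_lit 2127059175) (nat_lit 608) (nat_lit 6203180165) (nat_lit 204) (nat_lit 5) (nat_lit 211) (nat_lit 5) (nat_lit 212) (nat_lit 5) (nat_lit 590) (nat_lit 492) (nat_lit 478))))))) (XT.nd (nat_lit 702) (nat_lit 3040) (nat_lit 0) (XT.nd (nat_lit 312) (nat_lit 1824) (nat_lit 0) (XT.nd (nat_lit 156) (nat_lit 988) (nat_lit 0) (XT.nd (nat_lit 78) (nat_lit 532) (nat_lit 0) (XT.lf (nat_lit 0) (nat_lit 6641085550)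 (nat_lit 608) (nat_lit 1143843353) (nat_lit 76) (nat_lit 1182623809) (nat_lit 204) (nat_lit 5) (nat_lit 212) (nat_lit 5) (nat_lit 205) (nat_lit 4) (nat_lit 591) (nat_lit 492) (nat_lit 477)) (XT.lf (nat_lit 0) (nat_lit 1601299405) (nat_lit 532) (nat_lit 2889967814) (nat_lit 76) (nat_lit 4554753696) (nat_lit 197) (nat_lit 5) (nat_lit 204) (nat_lit 5) (nat_lit 198) (nat_lit 5) (nat_lit 592) (nat_lit 492) (nat_lit 476))) (XT.nd (nat_lit 78) (nat_lit 532) (nat_lit 0) (XT.lf (nat_lit 0) (nat_lit 4447928052) (nat_lit 456) (nat_lit 1106169348) (nat_lit 532) (nat_lit 3572107354) (nat_lit 191) (nat_lit 5) (nat_lit 197) (nat_lit 5) (nat_lit 198) (nat_lit 5) (nat_lit 593) (nat_lit 492) (nat_lit 475)) (XT.lf (nat_lit 0) (nat_lit 366637127) (nat_lit 532) (nat_lit 6513298511) (nat_lit 76) (nat_lit 2328140983) (nat_lit 184) (nat_lit 5) (nat_lit 191) (nat_lit 5) (nat_lit 185) (nat_lit 5) (nat_lit 594) (nat_lit 492) (nat_lit 474))))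 (XT.nd (nat_lit 156) (nat_lit 1368) (nat_lit 0) (XT.nd (nat_lit 78) (nat_lit 0) (nat_lit 0) (XT.lf (nat_lit 0) (nat_lit 880981783) (nat_lit 456) (nat_lit 3441647285) (nat_lit 532) (nat_lit 4968764575) (nat_lit 178) (nat_lit 5) (nat_lit 184) (nat_lit 5) (nat_lit 185) (nat_lit 5) (nat_lit 595) (nat_lit 492) (nat_lit 473)) (XT.lf (nat_lit 0) (nat_lit 8344170033) (nat_lit 532) (nat_lit 952315702) (nat_lit 76) (nat_lit 80168581) (nat_lit 178) (nat_lit 5) (nat_lit 185) (nat_lit 5) (nat_lit 179) (nat_lit 4) (nat_lit 596) (nat_lit 492) (nat_lit 472))) (XT.nd (nat_lit 78) (nat_lit 912) (nat_lit 0) (XT.lf (nat_lit 0) (nat_lit 2952464080) (nat_lit 456) (nat_lit 2849542192) (nat_lit 76) (nat_lit 3661051130) (nat_lit 172) (nat_lit 5) (nat_lit 178) (nat_lit 5) (nat_lit 173) (nat_lit 5) (nat_lit 597) (nat_lit 492) (nat_lit 471)) (XT.nd (nat_lit 78) (nat_lit 456) (nat_lit 0) (XT.lf (nat_lit 0) (nat_lit 4762072767) (nat_lit 456)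 (nat_lit 2221905395) (nat_lit 532) (nat_lit 2567465614) (nat_lit 166) (nat_lit 5) (nat_lit 172) (nat_lit 5) (nat_lit 173) (nat_lit 5) (nat_lit 598) (nat_lit 492) (nat_lit 470)) (XT.lf (nat_lit 0) (nat_lit 1426209544) (nat_lit 456) (nat_lit 6786057267) (nat_lit 76) (nat_lit 1429332306) (nat_lit 160) (nat_lit 5) (nat_lit 166) (nat_lit 5) (nat_lit 161) (nat_lit 5) (nat_lit 599) (nat_lit 492) (nat_lit 469)))))) (XT.nd (nat_lit 390) (nat_lit 1444) (nat_lit 0) (XT.nd (nat_lit 156) (nat_lit 1216) (nat_lit 0) (XT.nd (nat_lit 78) (nat_lit 0) (nat_lit 0) (XT.lf (nat_lit 0) (nat_lit 878381009) (nat_lit 380) (nat_lit 4583666380) (nat_lit 456) (nat_lit 4271242637) (nat_lit 155) (nat_lit 5) (nat_lit 160) (nat_lit 5) (nat_lit 161) (nat_lit 5) (nat_lit 600) (nat_lit 492) (nat_lit 468)) (XT.lf (nat_lit 0) (nat_lit 8702096413) (nat_lit 380) (nat_lit 866451641) (nat_lit 456) (nat_lit 258472910) (nat_lit 155) (nat_lit 5) (nat_lit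 160) (nat_lit 5) (nat_lit 161) (nat_lit 5) (nat_lit 601) (nat_lit 492) (nat_lit 467))) (XT.nd (nat_lit 78) (nat_lit 760) (nat_lit 0) (XT.lf (nat_lit 0) (nat_lit 3792392085) (nat_lit 456) (nat_lit 3203518218) (nat_lit 76) (nat_lit 2926060608) (nat_lit 149) (nat_lit 5) (nat_lit 155) (nat_lit 5) (nat_lit 150) (nat_lit 5) (nat_lit 602) (nat_lit 492) (nat_lit 466)) (XT.nd (nat_lit 78) (nat_lit 380) (nat_lit 0) (XT.lf (nat_lit 0) (nat_lit 4683823938) (nat_lit 380) (nat_lit 3226203881) (nat_lit 456) (nat_lit 2108978413) (nat_lit 144) (nat_lit 5) (nat_lit 149) (nat_lit 5) (nat_lit 150) (nat_lit 5) (nat_lit 603) (nat_lit 492) (nat_lit 465)) (XT.lf (nat_lit 0) (nat_lit 1954140845) (nat_lit 380) (nat_lit 7532072033) (nat_lit 76) (nat_lit 631750703) (nat_lit 139) (nat_lit 5) (nat_lit 144) (nat_lit 5) (nat_lit 140) (nat_lit 5) (nat_lit 604) (nat_lit 492) (nat_lit 464))))) (XT.nd (nat_lit 156) (nat_lit 1064) (nat_lit 0) (XT.nd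 (nat_lit 78) (nat_lit 0) (nat_lit 0) (XT.lf (nat_lit 0) (nat_lit 403378292) (nat_lit 380) (nat_lit 5672887343) (nat_lit 456) (nat_lit 4142240545) (nat_lit 134) (nat_lit 5) (nat_lit 139) (nat_lit 5) (nat_lit 140) (nat_lit 5) (nat_lit 605) (nat_lit 492) (nat_lit 463)) (XT.lf (nat_lit 0) (nat_lit 8514336462) (nat_lit 380) (nat_lit 1763479350) (nat_lit 456) (nat_lit 43308627) (nat_lit 134) (nat_lit 5) (nat_lit 139) (nat_lit 5) (nat_lit 140) (nat_lit 5) (nat_lit 606) (nat_lit 492) (nat_lit 462))) (XT.nd (nat_lit 78) (nat_lit 684) (nat_lit 0) (XT.lf (nat_lit 0) (nat_lit 4086281591) (nat_lit 380) (nat_lit 4106597094) (nat_lit 76) (nat_lit 2232324490) (nat_lit 129) (nat_lit 5) (nat_lit 134) (nat_lit 5) (nat_lit 130) (nat_lit 5) (nat_lit 607) (nat_lit 492) (nat_lit 461)) (XT.nd (nat_lit 78) (nat_lit 380) (nat_lit 0) (XT.lf (nat_lit 0) (nat_lit 4056405726) (nat_lit 304) (nat_lit 4239124384) (nat_lit 380) (nat_lit 2235878932)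 (nat_lit 125) (nat_lit 5) (nat_lit 129) (nat_lit 5) (nat_lit 130) (nat_lit 5) (nat_lit 608) (nat_lit 492) (nat_lit 460)) (XT.lf (nat_lit 0) (nat_lit 1724149436) (nat_lit 304) (nat_lit 186006464) (nat_lit 380) (nat_lit 8729604144) (nat_lit 120) (nat_lit 5) (nat_lit 124) (nat_lit 5) (nat_lit 125) (nat_lit 5) (nat_lit 609) (nat_lit 492) (nat_lit 459))))))))
noncomputable def xc17 : XT := (XT.nd (nat_lit 78624) (nat_lit 0) (nat_lit 8436) (XT.nd (nat_lit 702) (nat_lit 1368) (nat_lit 0) (XT.nd (nat_lit 312) (nat_lit 1216) (nat_lit 0) (XT.nd (nat_lit 156) (nat_lit 684) (nat_lit 0) (XT.nd (nat_lit 78) (nat_lit 304) (nat_lit 0) (XT.lf (nat_lit 0) (nat_lit 6126407103) (nat_lit 380) (nat_lit 700130126) (nat_lit 76) (nat_lit 3923104537) (nat_lit 120) (nat_lit 5) (nat_lit 125) (nat_lit 5) (nat_lit 121) (nat_lit 5) (nat_lit 610) (nat_lit 492) (nat_lit 458)) (XT.lf (nat_lit 0) (nat_lit 7695982295) (nat_lit 304) (nat_lit 2731056668)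 (nat_lit 380) (nat_lit 434684938) (nat_lit 116) (nat_lit 5) (nat_lit 120) (nat_lit 5) (nat_lit 121) (nat_lit 5) (nat_lit 611) (nat_lit 492) (nat_lit 457))) (XT.nd (nat_lit 78) (nat_lit 304) (nat_lit 0) (XT.lf (nat_lit 0) (nat_lit 3784730143) (nat_lit 380) (nat_lit 5731398379) (nat_lit 76) (nat_lit 1459476051) (nat_lit 111) (nat_lit 5) (nat_lit 116) (nat_lit 5) (nat_lit 112) (nat_lit 5) (nat_lit 612) (nat_lit 492) (nat_lit 456)) (XT.lf (nat_lit 0) (nat_lit 2704523712) (nat_lit 304) (nat_lit 5384458636) (nat_lit 380) (nat_lit 3002601324) (nat_lit 107) (nat_lit 5) (nat_lit 111) (nat_lit 5) (nat_lit 112) (nat_lit 5) (nat_lit 613) (nat_lit 492) (nat_lit 455)))) (XT.nd (nat_lit 156) (nat_lit 912) (nat_lit 0) (XT.nd (nat_lit 78) (nat_lit 0) (nat_lit 0) (XT.lf (nat_lit 0) (nat_lit 86485585) (nat_lit 228) (nat_lit 1154931383) (nat_lit 304) (nat_lit 9968531495) (nat_lit 103) (nat_lit 5) (nat_lit 106) (nat_lit 5) (nat_lit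 107) (nat_lit 5) (nat_lit 614) (nat_lit 492) (nat_lit 454)) (XT.lf (nat_lit 0) (nat_lit 5556902710) (nat_lit 304) (nat_lit 2611267026) (nat_lit 76) (nat_lit 3161581485) (nat_lit 103) (nat_lit 5) (nat_lit 107) (nat_lit 5) (nat_lit 104) (nat_lit 5) (nat_lit 615) (nat_lit 492) (nat_lit 453))) (XT.nd (nat_lit 78) (nat_lit 608) (nat_lit 0) (XT.lf (nat_lit 0) (nat_lit 6060524831) (nat_lit 304) (nat_lit 3895747781) (nat_lit 380) (nat_lit 1495729317) (nat_lit 99) (nat_lit 5) (nat_lit 103) (nat_lit 5) (nat_lit 104) (nat_lit 5) (nat_lit 616) (nat_lit 492) (nat_lit 452)) (XT.nd (nat_lit 78) (nat_lit 304) (nat_lit 0) (XT.lf (nat_lit 0) (nat_lit 2822294041) (nat_lit 304) (nat_lit 8272857968) (nat_lit 76) (nat_lit 481317375) (nat_lit 95) (nat_lit 5) (nat_lit 99) (nat_lit 5) (nat_lit 96) (nat_lit 5) (nat_lit 617) (nat_lit 492) (nat_lit 451)) (XT.lf (nat_lit 0) (nat_lit 429852716) (nat_lit 304) (nat_lit 6792730929) (nat_lit 380)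 (nat_lit 4480329324) (nat_lit 91) (nat_lit 5) (nat_lit 95) (nat_lit 5) (nat_lit 96) (nat_lit 5) (nat_lit 618) (nat_lit 492) (nat_lit 450)))))) (XT.nd (nat_lit 390) (nat_lit 532) (nat_lit 0) (XT.nd (nat_lit 156) (nat_lit 532) (nat_lit 0) (XT.nd (nat_lit 78) (nat_lit 304) (nat_lit 0) (XT.lf (nat_lit 0) (nat_lit 9336481134) (nat_lit 304) (nat_lit 2381246667) (nat_lit 380) (nat_lit 114023779) (nat_lit 91) (nat_lit 5) (nat_lit 95) (nat_lit 5) (nat_lit 96) (nat_lit 5) (nat_lit 619) (nat_lit 492) (nat_lit 449)) (XT.lf (nat_lit 0) (nat_lit 4290430632) (nat_lit 304) (nat_lit 5543769660) (nat_lit 76) (nat_lit 2128251416) (nat_lit 87) (nat_lit 5) (nat_lit 91) (nat_lit 5) (nat_lit 88) (nat_lit 5) (nat_lit 620) (nat_lit 492) (nat_lit 448))) (XT.nd (nat_lit 78) (nat_lit 304) (nat_lit 0) (XT.lf (nat_lit 0) (nat_lit 3395695661) (nat_lit 228) (nat_lit 5392596413) (nat_lit 304) (nat_lit 3307324741) (nat_lit 84) (nat_lit 5) (nat_lit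 87) (nat_lit 5) (nat_lit 88) (nat_lit 5) (nat_lit 621) (nat_lit 492) (nat_lit 447)) (XT.nd (nat_lit 78) (nat_lit 0) (nat_lit 0) (XT.lf (nat_lit 0) (nat_lit 272683073) (nat_lit 228) (nat_lit 848454460) (nat_lit 304) (nat_lit 11110332196) (nat_lit 80) (nat_lit 5) (nat_lit 83) (nat_lit 5) (nat_lit 84) (nat_lit 5) (nat_lit 622) (nat_lit 492) (nat_lit 446)) (XT.lf (nat_lit 0) (nat_lit 5629734509) (nat_lit 304) (nat_lit 2954881834) (nat_lit 76) (nat_lit 3784271897) (nat_lit 80) (nat_lit 5) (nat_lit 84) (nat_lit 5) (nat_lit 81) (nat_lit 5) (nat_lit 623) (nat_lit 492) (nat_lit 445))))) (XT.nd (nat_lit 77298) (nat_lit 0) (nat_lit 17252) (XT.nd (nat_lit 78) (nat_lit 304) (nat_lit 0) (XT.lf (nat_lit 0) (nat_lit 6224922679) (nat_lit 228) (nat_lit 4003004731) (nat_lit 304) (nat_lit 2281141954) (nat_lit 77) (nat_lit 5) (nat_lit 80) (nat_lit 5) (nat_lit 81) (nat_lit 5) (nat_lit 624) (nat_lit 492) (nat_lit 444)) (XT.lf (nat_lit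 0) (nat_lit 2233192841) (nat_lit 304) (nat_lit 9736525089) (nat_lit 76) (nat_lit 682106904) (nat_lit 73) (nat_lit 5) (nat_lit 77) (nat_lit 5) (nat_lit 74) (nat_lit 5) (nat_lit 625) (nat_lit 492) (nat_lit 443))) (XT.nd (nat_lit 78) (nat_lit 684) (nat_lit 0) (XT.lf (nat_lit 0) (nat_lit 116144209) (nat_lit 760) (nat_lit 3698401424) (nat_lit 0) (nat_lit 116144209) (nat_lit 309) (nat_lit 5) (nat_lit 319) (nat_lit 4) (nat_lit 309) (nat_lit 4) (nat_lit 574) (nat_lit 493) (nat_lit 493)) (XT.nd (nat_lit 78) (nat_lit 684) (nat_lit 0) (XT.lf (nat_lit 0) (nat_lit 4062344990) (nat_lit 760) (nat_lit 1066587553) (nat_lit 0) (nat_lit 2786348575) (nat_lit 309) (nat_lit 5) (nat_lit 319) (nat_lit 4) (nat_lit 309) (nat_lit 4) (nat_lit 575) (nat_lit 493) (nat_lit 492)) (XT.lf (nat_lit 0) (nat_lit 5376340562) (nat_lit 684) (nat_lit 2560770699) (nat_lit 684) (nat_lit 33797407) (nat_lit 300) (nat_lit 4) (nat_lit 309) (nat_lit 5) (nat_lit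 309) (nat_lit 4) (nat_lit 576) (nat_lit 493) (nat_lit 491))))))) (XT.nd (nat_lit 702) (nat_lit 4256) (nat_lit 0) (XT.nd (nat_lit 312) (nat_lit 2508) (nat_lit 0) (XT.nd (nat_lit 156) (nat_lit 684) (nat_lit 0) (XT.nd (nat_lit 78) (nat_lit 684) (nat_lit 0) (XT.lf (nat_lit 0) (nat_lit 3777610824) (nat_lit 684) (nat_lit 4152429563) (nat_lit 0) (nat_lit 97786108) (nat_lit 291) (nat_lit 5) (nat_lit 300) (nat_lit 4) (nat_lit 291) (nat_lit 4) (nat_lit 577) (nat_lit 493) (nat_lit 490)) (XT.lf (nat_lit 0) (nat_lit 2352565319) (nat_lit 684) (nat_lit 5296146197) (nat_lit 684) (nat_lit 437498029) (nat_lit 282) (nat_lit 4) (nat_lit 291) (nat_lit 5) (nat_lit 291) (nat_lit 4) (nat_lit 578) (nat_lit 493) (nat_lit 489))) (XT.nd (nat_lit 78) (nat_lit 0) (nat_lit 0) (XT.lf (nat_lit 0) (nat_lit 800948655) (nat_lit 608) (nat_lit 2572965249) (nat_lit 684) (nat_lit 4772053327) (nat_lit 273) (nat_lit 5) (nat_lit 281) (nat_lit 5) (nat_lit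 282) (nat_lit 4) (nat_lit 579) (nat_lit 493) (nat_lit 488)) (XT.lf (nat_lit 0) (nat_lit 7230818123) (nat_lit 684) (nat_lit 752993181) (nat_lit 0) (nat_lit 223557600) (nat_lit 273) (nat_lit 5) (nat_lit 282) (nat_lit 4) (nat_lit 273) (nat_lit 4) (nat_lit 580) (nat_lit 493) (nat_lit 487)))) (XT.nd (nat_lit 156) (nat_lit 1292) (nat_lit 0) (XT.nd (nat_lit 78) (nat_lit 532) (nat_lit 0) (XT.lf (nat_lit 0) (nat_lit 2848816566) (nat_lit 684) (nat_lit 2341701712) (nat_lit 76) (nat_lit 3079274756) (nat_lit 264) (nat_lit 5) (nat_lit 273) (nat_lit 5) (nat_lit 265) (nat_lit 4) (nat_lit 581) (nat_lit 493) (nat_lit 486)) (XT.lf (nat_lit 0) (nat_lit 4385741196) (nat_lit 532) (nat_lit 2322055383) (nat_lit 608) (nat_lit 1626144927) (nat_lit 257) (nat_lit 5) (nat_lit 264) (nat_lit 5) (nat_lit 265) (nat_lit 4) (nat_lit 582) (nat_lit 493) (nat_lit 485))) (XT.nd (nat_lit 78) (nat_lit 608) (nat_lit 0) (XT.lf (nat_lit 0) (nat_lit 2190234647)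 (nat_lit 684) (nat_lit 5586284232) (nat_lit 76) (nat_lit 623069065) (nat_lit 248) (nat_lit 5) (nat_lit 257) (nat_lit 5) (nat_lit 249) (nat_lit 4) (nat_lit 583) (nat_lit 493) (nat_lit 484)) (XT.nd (nat_lit 78) (nat_lit 76) (nat_lit 0) (XT.lf (nat_lit 0) (nat_lit 1201212699) (nat_lit 532) (nat_lit 4847245412) (nat_lit 608) (nat_lit 2418136508) (nat_lit 241) (nat_lit 5) (nat_lit 248) (nat_lit 5) (nat_lit 249) (nat_lit 4) (nat_lit 584) (nat_lit 493) (nat_lit 483)) (XT.lf (nat_lit 0) (nat_lit 1405316357) (nat_lit 608) (nat_lit 429694092) (nat_lit 76) (nat_lit 6700242321) (nat_lit 240) (nat_lit 5) (nat_lit 248) (nat_lit 5) (nat_lit 241) (nat_lit 5) (nat_lit 585) (nat_lit 493) (nat_lit 482)))))) (XT.nd (nat_lit 390) (nat_lit 2052) (nat_lit 0) (XT.nd (nat_lit 156) (nat_lit 1064) (nat_lit 0) (XT.nd (nat_lit 78) (nat_lit 608) (nat_lit 0) (XT.lf (nat_lit 0) (nat_lit 5262445074) (nat_lit 608) (nat_lit 2085650390) (nat_lit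 76) (nat_lit 1257084856) (nat_lit 233) (nat_lit 5) (nat_lit 241) (nat_lit 5) (nat_lit 234) (nat_lit 4) (nat_lit 586) (nat_lit 493) (nat_lit 481)) (XT.lf (nat_lit 0) (nat_lit 499590494) (nat_lit 608) (nat_lit 3775662664) (nat_lit 76) (nat_lit 4401468976) (nat_lit 225) (nat_lit 5) (nat_lit 233) (nat_lit 5) (nat_lit 226) (nat_lit 5) (nat_lit 587) (nat_lit 493) (nat_lit 480))) (XT.nd (nat_lit 78) (nat_lit 532) (nat_lit 0) (XT.lf (nat_lit 0) (nat_lit 3241539399) (nat_lit 532) (nat_lit 1107280908) (nat_lit 608) (nat_lit 4400943417) (nat_lit 218) (nat_lit 5) (nat_lit 225) (nat_lit 5) (nat_lit 226) (nat_lit 5) (nat_lit 588) (nat_lit 493) (nat_lit 479)) (XT.nd (nat_lit 78) (nat_lit 76) (nat_lit 0) (XT.lf (nat_lit 0) (nat_lit 1547255510) (nat_lit 456) (nat_lit 6717233923) (nat_lit 532) (nat_lit 559994662) (nat_lit 212) (nat_lit 5) (nat_lit 218) (nat_lit 5) (nat_lit 219) (nat_lit 4) (nat_lit 589) (nat_lit 493) (nat_lit 478))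 (XT.lf (nat_lit 0) (nat_lit 3298612745) (nat_lit 532) (nat_lit 196649188) (nat_lit 76) (nat_lit 5405310145) (nat_lit 211) (nat_lit 5) (nat_lit 218) (nat_lit 5) (nat_lit 212) (nat_lit 5) (nat_lit 590) (nat_lit 493) (nat_lit 477))))) (XT.nd (nat_lit 156) (nat_lit 988) (nat_lit 0) (XT.nd (nat_lit 78) (nat_lit 532) (nat_lit 0) (XT.lf (nat_lit 0) (nat_lit 7029893020) (nat_lit 532) (nat_lit 184157176) (nat_lit 608) (nat_lit 1764321105) (nat_lit 204) (nat_lit 5) (nat_lit 211) (nat_lit 5) (nat_lit 212) (nat_lit 5) (nat_lit 591) (nat_lit 493) (nat_lit 476)) (XT.lf (nat_lit 0) (nat_lit 2120336976) (nat_lit 532) (nat_lit 3761459794) (nat_lit 76) (nat_lit 3175687614) (nat_lit 197) (nat_lit 5) (nat_lit 204) (nat_lit 5) (nat_lit 198) (nat_lit 5) (nat_lit 592) (nat_lit 493) (nat_lit 475))) (XT.nd (nat_lit 78) (nat_lit 532) (nat_lit 0) (XT.lf (nat_lit 0) (nat_lit 3522315798) (nat_lit 456) (nat_lit 2516170796) (nat_lit 532) (nat_lit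 3099877692) (nat_lit 191) (nat_lit 5) (nat_lit 197) (nat_lit 5) (nat_lit 198) (nat_lit 5) (nat_lit 593) (nat_lit 493) (nat_lit 474)) (XT.nd (nat_lit 78) (nat_lit 0) (nat_lit 0) (XT.lf (nat_lit 0) (nat_lit 788403007) (nat_lit 532) (nat_lit 7512821773) (nat_lit 76) (nat_lit 919838436) (nat_lit 184) (nat_lit 5) (nat_lit 191) (nat_lit 5) (nat_lit 185) (nat_lit 5) (nat_lit 594) (nat_lit 493) (nat_lit 473)) (XT.lf (nat_lit 0) (nat_lit 4710336469) (nat_lit 532) (nat_lit 172385472) (nat_lit 76) (nat_lit 4422342385) (nat_lit 184) (nat_lit 5) (nat_lit 191) (nat_lit 5) (nat_lit 185) (nat_lit 5) (nat_lit 595) (nat_lit 493) (nat_lit 472))))))))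
noncomputable def xc18 : XT := (XT.nd (nat_lit 1482) (nat_lit 2280) (nat_lit 0) (XT.nd (nat_lit 702) (nat_lit 2508) (nat_lit 0) (XT.nd (nat_lit 312) (nat_lit 1596) (nat_lit 0) (XT.nd (nat_lit 156) (nat_lit 912) (nat_lit 0) (XT.nd (nat_lit 78) (nat_lit 456) (nat_lit 0) (XT.lf (nat_lit 0) (nat_lit 7327206882) (nat_lit 456) (nat_lit 1374953342) (nat_lit 532) (nat_lit 688761981) (nat_lit 178) (nat_lit 5) (nat_lit 184) (nat_lit 5) (nat_lit 185) (nat_lit 5) (nat_lit 596) (nat_lit 493) (nat_lit 471)) (XT.lf (nat_lit 0) (nat_lit 3247335287) (nat_lit 456) (nat_lit 4025962986) (nat_lit 76) (nat_lit 2204871996) (nat_lit 172) (nat_lit 5) (nat_lit 178) (nat_lit 5) (nat_lit 173) (nat_lit 5) (nat_lit 597) (nat_lit 493) (nat_lit 470))) (XT.nd (nat_lit 78) (nat_lit 456) (nat_lit 0) (XT.lf (nat_lit 0) (nat_lit 3527717107) (nat_lit 456) (nat_lit 3715612374) (nat_lit 532) (nat_lit 2323940255) (nat_lit 166) (nat_lit 5) (nat_lit 172)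 (nat_lit 5) (nat_lit 173) (nat_lit 5) (nat_lit 598) (nat_lit 493) (nat_lit 469)) (XT.lf (nat_lit 0) (nat_lit 1554341003) (nat_lit 380) (nat_lit 66867442) (nat_lit 456) (nat_lit 8037094251) (nat_lit 160) (nat_lit 5) (nat_lit 165) (nat_lit 5) (nat_lit 166) (nat_lit 5) (nat_lit 599) (nat_lit 493) (nat_lit 468)))) (XT.nd (nat_lit 156) (nat_lit 1216) (nat_lit 0) (XT.nd (nat_lit 78) (nat_lit 380) (nat_lit 0) (XT.lf (nat_lit 0) (nat_lit 5623664758) (nat_lit 456) (nat_lit 492624515) (nat_lit 76) (nat_lit 3634374504) (nat_lit 160) (nat_lit 5) (nat_lit 166) (nat_lit 5) (nat_lit 161) (nat_lit 5) (nat_lit 600) (nat_lit 493) (nat_lit 467)) (XT.lf (nat_lit 0) (nat_lit 7282805461) (nat_lit 380) (nat_lit 2417137865) (nat_lit 456) (nat_lit 145058322) (nat_lit 155) (nat_lit 5) (nat_lit 160) (nat_lit 5) (nat_lit 161) (nat_lit 5) (nat_lit 601) (nat_lit 493) (nat_lit 466))) (XT.nd (nat_lit 78) (nat_lit 760) (nat_lit 0) (XT.lf (nat_lit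 0) (nat_lit 3857734636) (nat_lit 456) (nat_lit 4710934549) (nat_lit 76) (nat_lit 1372201767) (nat_lit 149) (nat_lit 5) (nat_lit 155) (nat_lit 5) (nat_lit 150) (nat_lit 5) (nat_lit 602) (nat_lit 493) (nat_lit 465)) (XT.nd (nat_lit 78) (nat_lit 380) (nat_lit 0) (XT.lf (nat_lit 0) (nat_lit 3114384264) (nat_lit 380) (nat_lit 4824327493) (nat_lit 456) (nat_lit 2099930036) (nat_lit 144) (nat_lit 5) (nat_lit 149) (nat_lit 5) (nat_lit 150) (nat_lit 5) (nat_lit 603) (nat_lit 493) (nat_lit 464)) (XT.lf (nat_lit 0) (nat_lit 937806179) (nat_lit 304) (nat_lit 983987177) (nat_lit 380) (nat_lit 8216632411) (nat_lit 139) (nat_lit 5) (nat_lit 143) (nat_lit 5) (nat_lit 144) (nat_lit 5) (nat_lit 604) (nat_lit 493) (nat_lit 463)))))) (XT.nd (nat_lit 390) (nat_lit 1368) (nat_lit 0) (XT.nd (nat_lit 156) (nat_lit 760) (nat_lit 0) (XT.nd (nat_lit 78) (nat_lit 380) (nat_lit 0) (XT.lf (nat_lit 0) (nat_lit 6008669137) (nat_lit 380) (nat_lit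 1305745029) (nat_lit 76) (nat_lit 2925261390) (nat_lit 139) (nat_lit 5) (nat_lit 144) (nat_lit 5) (nat_lit 140) (nat_lit 5) (nat_lit 605) (nat_lit 493) (nat_lit 462)) (XT.lf (nat_lit 0) (nat_lit 6746460563) (nat_lit 380) (nat_lit 3429172752) (nat_lit 456) (nat_lit 167354389) (nat_lit 134) (nat_lit 5) (nat_lit 139) (nat_lit 5) (nat_lit 140) (nat_lit 5) (nat_lit 606) (nat_lit 493) (nat_lit 461))) (XT.nd (nat_lit 78) (nat_lit 380) (nat_lit 0) (XT.lf (nat_lit 0) (nat_lit 3915168376) (nat_lit 380) (nat_lit 5972416356) (nat_lit 76) (nat_lit 560473787) (nat_lit 129) (nat_lit 5) (nat_lit 134) (nat_lit 5) (nat_lit 130) (nat_lit 5) (nat_lit 607) (nat_lit 493) (nat_lit 460)) (XT.nd (nat_lit 78) (nat_lit 76) (nat_lit 0) (XT.lf (nat_lit 0) (nat_lit 2124171531) (nat_lit 304) (nat_lit 5962183379) (nat_lit 380) (nat_lit 2468672758) (nat_lit 125) (nat_lit 5) (nat_lit 129) (nat_lit 5) (nat_lit 130) (nat_lit 5) (nat_lit 608) (nat_lit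 493) (nat_lit 459)) (XT.lf (nat_lit 0) (nat_lit 1643770250) (nat_lit 380) (nat_lit 293947766) (nat_lit 76) (nat_lit 8726425745) (nat_lit 124) (nat_lit 5) (nat_lit 129) (nat_lit 5) (nat_lit 125) (nat_lit 5) (nat_lit 609) (nat_lit 493) (nat_lit 458))))) (XT.nd (nat_lit 156) (nat_lit 760) (nat_lit 0) (XT.nd (nat_lit 78) (nat_lit 304) (nat_lit 0) (XT.lf (nat_lit 0) (nat_lit 5821382882) (nat_lit 380) (nat_lit 2776447298) (nat_lit 76) (nat_lit 2176970001) (nat_lit 120) (nat_lit 5) (nat_lit 125) (nat_lit 5) (nat_lit 121) (nat_lit 5) (nat_lit 610) (nat_lit 493) (nat_lit 457)) (XT.lf (nat_lit 0) (nat_lit 5551066279) (nat_lit 304) (nat_lit 4532200066) (nat_lit 380) (nat_lit 804392825) (nat_lit 116) (nat_lit 5) (nat_lit 120) (nat_lit 5) (nat_lit 121) (nat_lit 5) (nat_lit 611) (nat_lit 493) (nat_lit 456))) (XT.nd (nat_lit 78) (nat_lit 380) (nat_lit 0) (XT.lf (nat_lit 0) (nat_lit 3015660397) (nat_lit 304) (nat_lit 355314839)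 (nat_lit 380) (nat_lit 7631592344) (nat_lit 111) (nat_lit 5) (nat_lit 115) (nat_lit 5) (nat_lit 116) (nat_lit 5) (nat_lit 612) (nat_lit 493) (nat_lit 455)) (XT.nd (nat_lit 78) (nat_lit 76) (nat_lit 0) (XT.lf (nat_lit 0) (nat_lit 380181415) (nat_lit 304) (nat_lit 7253008672) (nat_lit 380) (nat_lit 3486199117) (nat_lit 107) (nat_lit 5) (nat_lit 111) (nat_lit 5) (nat_lit 112) (nat_lit 5) (nat_lit 613) (nat_lit 493) (nat_lit 454)) (XT.lf (nat_lit 0) (nat_lit 739018342) (nat_lit 380) (nat_lit 2304373858) (nat_lit 76) (nat_lit 8194929168) (nat_lit 106) (nat_lit 5) (nat_lit 111) (nat_lit 5) (nat_lit 107) (nat_lit 5) (nat_lit 614) (nat_lit 493) (nat_lit 453))))))) (XT.nd (nat_lit 702) (nat_lit 304) (nat_lit 0) (XT.nd (nat_lit 312) (nat_lit 1140) (nat_lit 0) (XT.nd (nat_lit 156) (nat_lit 304) (nat_lit 0) (XT.nd (nat_lit 78) (nat_lit 304) (nat_lit 0) (XT.lf (nat_lit 0) (nat_lit 5002515331) (nat_lit 304) (nat_lit 5089898736)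 (nat_lit 76) (nat_lit 1266751509) (nat_lit 103) (nat_lit 5) (nat_lit 107) (nat_lit 5) (nat_lit 104) (nat_lit 5) (nat_lit 615) (nat_lit 493) (nat_lit 452)) (XT.lf (nat_lit 0) (nat_lit 3508388274) (nat_lit 304) (nat_lit 5852939681) (nat_lit 380) (nat_lit 2120901119) (nat_lit 99) (nat_lit 5) (nat_lit 103) (nat_lit 5) (nat_lit 104) (nat_lit 5) (nat_lit 616) (nat_lit 493) (nat_lit 451))) (XT.nd (nat_lit 78) (nat_lit 0) (nat_lit 0) (XT.lf (nat_lit 0) (nat_lit 653650167) (nat_lit 228) (nat_lit 1507344442) (nat_lit 304) (nat_lit 9446671216) (nat_lit 95) (nat_lit 5) (nat_lit 98) (nat_lit 5) (nat_lit 99) (nat_lit 5) (nat_lit 617) (nat_lit 493) (nat_lit 450)) (XT.lf (nat_lit 0) (nat_lit 6524878787) (nat_lit 304) (nat_lit 2287353002) (nat_lit 76) (nat_lit 2922607279) (nat_lit 95) (nat_lit 5) (nat_lit 99) (nat_lit 5) (nat_lit 96) (nat_lit 5) (nat_lit 618) (nat_lit 493) (nat_lit 449)))) (XT.nd (nat_lit 156) (nat_lit 532) (nat_lit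 0) (XT.nd (nat_lit 78) (nat_lit 304) (nat_lit 0) (XT.lf (nat_lit 0) (nat_lit 6548945039) (nat_lit 304) (nat_lit 4432409614) (nat_lit 380) (nat_lit 883097910) (nat_lit 91) (nat_lit 5) (nat_lit 95) (nat_lit 5) (nat_lit 96) (nat_lit 5) (nat_lit 619) (nat_lit 493) (nat_lit 448)) (XT.lf (nat_lit 0) (nat_lit 3475770683) (nat_lit 304) (nat_lit 8456476194) (nat_lit 76) (nat_lit 64120586) (nat_lit 87) (nat_lit 5) (nat_lit 91) (nat_lit 5) (nat_lit 88) (nat_lit 5) (nat_lit 620) (nat_lit 493) (nat_lit 447))) (XT.nd (nat_lit 78) (nat_lit 304) (nat_lit 0) (XT.lf (nat_lit 0) (nat_lit 404194613) (nat_lit 228) (nat_lit 7526801187) (nat_lit 304) (nat_lit 4199390928) (nat_lit 84) (nat_lit 5) (nat_lit 87) (nat_lit 5) (nat_lit 88) (nat_lit 5) (nat_lit 621) (nat_lit 493) (nat_lit 446)) (XT.nd (nat_lit 78) (nat_lit 228) (nat_lit 0) (XT.lf (nat_lit 0) (nat_lit 215833212) (nat_lit 304) (nat_lit 2790981720) (nat_lit 76) (nat_lit 9260040678)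 (nat_lit 83) (nat_lit 5) (nat_lit 87) (nat_lit 5) (nat_lit 84) (nat_lit 5) (nat_lit 622) (nat_lit 493) (nat_lit 445)) (XT.lf (nat_lit 0) (nat_lit 4668858484) (nat_lit 304) (nat_lit 6116958521) (nat_lit 76) (nat_lit 1619569898) (nat_lit 80) (nat_lit 5) (nat_lit 84) (nat_lit 5) (nat_lit 81) (nat_lit 5) (nat_lit 623) (nat_lit 493) (nat_lit 444)))))) (XT.nd (nat_lit 77376) (nat_lit 0) (nat_lit 14972) (XT.nd (nat_lit 77142) (nat_lit 0) (nat_lit 17708) (XT.nd (nat_lit 78) (nat_lit 76) (nat_lit 0) (XT.lf (nat_lit 0) (nat_lit 2981381654) (nat_lit 228) (nat_lit 6241988086) (nat_lit 304) (nat_lit 3323073240) (nat_lit 77) (nat_lit 5) (nat_lit 80) (nat_lit 5) (nat_lit 81) (nat_lit 5) (nat_lit 624) (nat_lit 493) (nat_lit 443)) (XT.lf (nat_lit 0) (nat_lit 1158901616) (nat_lit 304) (nat_lit 431537376) (nat_lit 76) (nat_lit 11099816527) (nat_lit 76) (nat_lit 5) (nat_lit 80) (nat_lit 5) (nat_lit 77) (nat_lit 5) (nat_lit 625) (nat_lit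 493) (nat_lit 442))) (XT.nd (nat_lit 78) (nat_lit 1520) (nat_lit 0) (XT.lf (nat_lit 0) (nat_lit 878127227) (nat_lit 760) (nat_lit 2121921332) (nat_lit 0) (nat_lit 878127227) (nat_lit 329) (nat_lit 5) (nat_lit 339) (nat_lit 4) (nat_lit 329) (nat_lit 4) (nat_lit 572) (nat_lit 494) (nat_lit 494)) (XT.nd (nat_lit 78) (nat_lit 760) (nat_lit 0) (XT.lf (nat_lit 0) (nat_lit 1969599013) (nat_lit 760) (nat_lit 3583148752) (nat_lit 760) (nat_lit 2255602082) (nat_lit 319) (nat_lit 4) (nat_lit 329) (nat_lit 5) (nat_lit 329) (nat_lit 4) (nat_lit 573) (nat_lit 494) (nat_lit 493)) (XT.lf (nat_lit 0) (nat_lit 415407025) (nat_lit 684) (nat_lit 1091756359) (nat_lit 760) (nat_lit 6354754312) (nat_lit 309) (nat_lit 5) (nat_lit 318) (nat_lit 5) (nat_lit 319) (nat_lit 4) (nat_lit 574) (nat_lit 494) (nat_lit 492))))) (XT.nd (nat_lit 156) (nat_lit 1976) (nat_lit 0) (XT.nd (nat_lit 78) (nat_lit 760) (nat_lit 0) (XT.lf (nat_lit 0) (nat_lit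 5297063133) (nat_lit 760) (nat_lit 1150990712) (nat_lit 0) (nat_lit 1468573499) (nat_lit 309) (nat_lit 5) (nat_lit 319) (nat_lit 4) (nat_lit 309) (nat_lit 4) (nat_lit 575) (nat_lit 494) (nat_lit 491)) (XT.lf (nat_lit 0) (nat_lit 1150371993) (nat_lit 760) (nat_lit 2731186126) (nat_lit 76) (nat_lit 4091215286) (nat_lit 299) (nat_lit 5) (nat_lit 309) (nat_lit 5) (nat_lit 300) (nat_lit 4) (nat_lit 576) (nat_lit 494) (nat_lit 490))) (XT.nd (nat_lit 78) (nat_lit 1368) (nat_lit 0) (XT.lf (nat_lit 0) (nat_lit 3695722070) (nat_lit 608) (nat_lit 1231535129) (nat_lit 684) (nat_lit 3103116028) (nat_lit 291) (nat_lit 5) (nat_lit 299) (nat_lit 5) (nat_lit 300) (nat_lit 4) (nat_lit 577) (nat_lit 494) (nat_lit 489)) (XT.nd (nat_lit 78) (nat_lit 608) (nat_lit 0) (XT.lf (nat_lit 0) (nat_lit 658645237) (nat_lit 760) (nat_lit 5959890467) (nat_lit 76) (nat_lit 1470966025) (nat_lit 281) (nat_lit 5) (nat_lit 291) (nat_lit 5) (nat_lit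 282) (nat_lit 4) (nat_lit 578) (nat_lit 494) (nat_lit 488)) (XT.lf (nat_lit 0) (nat_lit 526667594) (nat_lit 608) (nat_lit 3904060000) (nat_lit 684) (nat_lit 3719151357) (nat_lit 273) (nat_lit 5) (nat_lit 281) (nat_lit 5) (nat_lit 282) (nat_lit 4) (nat_lit 579) (nat_lit 494) (nat_lit 487))))))))
noncomputable def xc19 : XT := (XT.nd (nat_lit 1482) (nat_lit 5168) (nat_lit 0) (XT.nd (nat_lit 702) (nat_lit 3952) (nat_lit 0) (XT.nd (nat_lit 312) (nat_lit 2280) (nat_lit 0) (XT.nd (nat_lit 156) (nat_lit 1216) (nat_lit 0) (XT.nd (nat_lit 78) (nat_lit 608) (nat_lit 0) (XT.lf (nat_lit 0) (nat_lit 42201183) (nat_lit 684) (nat_lit 1071949739) (nat_lit 76) (nat_lit 7097787096) (nat_lit 272) (nat_lit 5) (nat_lit 281) (nat_lit 5) (nat_lit 273) (nat_lit 5) (nat_lit 580) (nat_lit 494) (nat_lit 486)) (XT.lf (nat_lit 0) (nat_lit 3814032377) (nat_lit 684) (nat_lit 2710639369) (nat_lit 76) (nat_lit 1750382414) (nat_lit 264) (nat_lit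 5) (nat_lit 273) (nat_lit 5) (nat_lit 265) (nat_lit 4) (nat_lit 581) (nat_lit 494) (nat_lit 485))) (XT.nd (nat_lit 78) (nat_lit 684) (nat_lit 0) (XT.lf (nat_lit 0) (nat_lit 3970138581) (nat_lit 532) (nat_lit 3669408370) (nat_lit 608) (nat_lit 700329158) (nat_lit 257) (nat_lit 5) (nat_lit 264) (nat_lit 5) (nat_lit 265) (nat_lit 4) (nat_lit 582) (nat_lit 494) (nat_lit 484)) (XT.lf (nat_lit 0) (nat_lit 2342350900) (nat_lit 608) (nat_lit 723738074) (nat_lit 684) (nat_lit 5340073742) (nat_lit 248) (nat_lit 5) (nat_lit 256) (nat_lit 5) (nat_lit 257) (nat_lit 5) (nat_lit 583) (nat_lit 494) (nat_lit 483)))) (XT.nd (nat_lit 156) (nat_lit 1672) (nat_lit 0) (XT.nd (nat_lit 78) (nat_lit 76) (nat_lit 0) (XT.lf (nat_lit 0) (nat_lit 679925195) (nat_lit 532) (nat_lit 6205932492) (nat_lit 608) (nat_lit 1588084725) (nat_lit 241) (nat_lit 5) (nat_lit 248) (nat_lit 5) (nat_lit 249) (nat_lit 4) (nat_lit 584) (nat_lit 494) (nat_lit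 482)) (XT.lf (nat_lit 0) (nat_lit 2194234929) (nat_lit 608) (nat_lit 1005472673) (nat_lit 76) (nat_lit 5343393891) (nat_lit 240) (nat_lit 5) (nat_lit 248) (nat_lit 5) (nat_lit 241) (nat_lit 5) (nat_lit 585) (nat_lit 494) (nat_lit 481))) (XT.nd (nat_lit 78) (nat_lit 1140) (nat_lit 0) (XT.lf (nat_lit 0) (nat_lit 5903055916) (nat_lit 532) (nat_lit 106326251) (nat_lit 608) (nat_lit 2604490206) (nat_lit 233) (nat_lit 5) (nat_lit 240) (nat_lit 5) (nat_lit 241) (nat_lit 5) (nat_lit 586) (nat_lit 494) (nat_lit 480)) (XT.nd (nat_lit 78) (nat_lit 532) (nat_lit 0) (XT.lf (nat_lit 0) (nat_lit 1193441725) (nat_lit 608) (nat_lit 4464117544) (nat_lit 76) (nat_lit 3028456843) (nat_lit 225) (nat_lit 5) (nat_lit 233) (nat_lit 5) (nat_lit 226) (nat_lit 5) (nat_lit 587) (nat_lit 494) (nat_lit 479)) (XT.lf (nat_lit 0) (nat_lit 2502081716) (nat_lit 532) (nat_lit 2506493596) (nat_lit 608) (nat_lit 3751167802) (nat_lit 218) (nat_lit 5)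 (nat_lit 225) (nat_lit 5) (nat_lit 226) (nat_lit 5) (nat_lit 588) (nat_lit 494) (nat_lit 478)))))) (XT.nd (nat_lit 390) (nat_lit 1900) (nat_lit 0) (XT.nd (nat_lit 156) (nat_lit 1520) (nat_lit 0) (XT.nd (nat_lit 78) (nat_lit 0) (nat_lit 0) (XT.lf (nat_lit 0) (nat_lit 45019354) (nat_lit 532) (nat_lit 8080654715) (nat_lit 76) (nat_lit 709652792) (nat_lit 211) (nat_lit 5) (nat_lit 218) (nat_lit 5) (nat_lit 212) (nat_lit 5) (nat_lit 589) (nat_lit 494) (nat_lit 477)) (XT.lf (nat_lit 0) (nat_lit 3867325147) (nat_lit 532) (nat_lit 1045363903) (nat_lit 76) (nat_lit 3999235506) (nat_lit 211) (nat_lit 5) (nat_lit 218) (nat_lit 5) (nat_lit 212) (nat_lit 5) (nat_lit 590) (nat_lit 494) (nat_lit 476))) (XT.nd (nat_lit 78) (nat_lit 988) (nat_lit 0) (XT.lf (nat_lit 0) (nat_lit 6128520635) (nat_lit 532) (nat_lit 1620000260) (nat_lit 608) (nat_lit 1241890940) (nat_lit 204) (nat_lit 5) (nat_lit 211) (nat_lit 5) (nat_lit 212) (nat_lit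 5) (nat_lit 591) (nat_lit 494) (nat_lit 475)) (XT.nd (nat_lit 78) (nat_lit 456) (nat_lit 0) (XT.lf (nat_lit 0) (nat_lit 2591905150) (nat_lit 532) (nat_lit 4735182633) (nat_lit 76) (nat_lit 1743252596) (nat_lit 197) (nat_lit 5) (nat_lit 204) (nat_lit 5) (nat_lit 198) (nat_lit 5) (nat_lit 592) (nat_lit 494) (nat_lit 474)) (XT.lf (nat_lit 0) (nat_lit 2493948181) (nat_lit 456) (nat_lit 3981352597) (nat_lit 532) (nat_lit 2676617618) (nat_lit 191) (nat_lit 5) (nat_lit 197) (nat_lit 5) (nat_lit 198) (nat_lit 5) (nat_lit 593) (nat_lit 494) (nat_lit 473))))) (XT.nd (nat_lit 156) (nat_lit 1368) (nat_lit 0) (XT.nd (nat_lit 78) (nat_lit 0) (nat_lit 0) (XT.lf (nat_lit 0) (nat_lit 614051251) (nat_lit 456) (nat_lit 550885776) (nat_lit 532) (nat_lit 8070451755) (nat_lit 184) (nat_lit 5) (nat_lit 190) (nat_lit 5) (nat_lit 191) (nat_lit 5) (nat_lit 594) (nat_lit 494) (nat_lit 472)) (XT.lf (nat_lit 0) (nat_lit 5055510871) (nat_lit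 532) (nat_lit 1318785063) (nat_lit 76) (nat_lit 2945724011) (nat_lit 184) (nat_lit 5) (nat_lit 191) (nat_lit 5) (nat_lit 185) (nat_lit 5) (nat_lit 595) (nat_lit 494) (nat_lit 471))) (XT.nd (nat_lit 78) (nat_lit 912) (nat_lit 0) (XT.lf (nat_lit 0) (nat_lit 6124384462) (nat_lit 456) (nat_lit 2887902502) (nat_lit 532) (nat_lit 394294617) (nat_lit 178) (nat_lit 5) (nat_lit 184) (nat_lit 5) (nat_lit 185) (nat_lit 5) (nat_lit 596) (nat_lit 494) (nat_lit 470)) (XT.nd (nat_lit 78) (nat_lit 456) (nat_lit 0) (XT.lf (nat_lit 0) (nat_lit 3492542541) (nat_lit 456) (nat_lit 5310239255) (nat_lit 76) (nat_lit 691920269) (nat_lit 172) (nat_lit 5) (nat_lit 178) (nat_lit 5) (nat_lit 173) (nat_lit 5) (nat_lit 597) (nat_lit 494) (nat_lit 469)) (XT.lf (nat_lit 0) (nat_lit 2184902058) (nat_lit 456) (nat_lit 5267949925) (nat_lit 532) (nat_lit 2131665887) (nat_lit 166) (nat_lit 5) (nat_lit 172) (nat_lit 5) (nat_lit 173) (nat_lit 5) (nat_lit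 598) (nat_lit 494) (nat_lit 468))))))) (XT.nd (nat_lit 702) (nat_lit 2356) (nat_lit 0) (XT.nd (nat_lit 312) (nat_lit 1520) (nat_lit 0) (XT.nd (nat_lit 156) (nat_lit 836) (nat_lit 0) (XT.nd (nat_lit 78) (nat_lit 0) (nat_lit 0) (XT.lf (nat_lit 0) (nat_lit 133375192) (nat_lit 380) (nat_lit 1641479131) (nat_lit 456) (nat_lit 7901396215) (nat_lit 160) (nat_lit 5) (nat_lit 165) (nat_lit 5) (nat_lit 166) (nat_lit 5) (nat_lit 599) (nat_lit 494) (nat_lit 467)) (XT.lf (nat_lit 0) (nat_lit 5740377062) (nat_lit 456) (nat_lit 1962506041) (nat_lit 76) (nat_lit 2066469679) (nat_lit 160) (nat_lit 5) (nat_lit 166) (nat_lit 5) (nat_lit 161) (nat_lit 5) (nat_lit 600) (nat_lit 494) (nat_lit 466))) (XT.nd (nat_lit 78) (nat_lit 456) (nat_lit 0) (XT.lf (nat_lit 0) (nat_lit 5752469683) (nat_lit 380) (nat_lit 4028063570) (nat_lit 456) (nat_lit 83882289) (nat_lit 155) (nat_lit 5) (nat_lit 160) (nat_lit 5) (nat_lit 161) (nat_lit 5) (nat_lit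 601) (nat_lit 494) (nat_lit 465)) (XT.lf (nat_lit 0) (nat_lit 3627392064) (nat_lit 380) (nat_lit 245116517) (nat_lit 456) (nat_lit 6088682662) (nat_lit 149) (nat_lit 5) (nat_lit 154) (nat_lit 5) (nat_lit 155) (nat_lit 5) (nat_lit 602) (nat_lit 494) (nat_lit 464)))) (XT.nd (nat_lit 156) (nat_lit 1064) (nat_lit 0) (XT.nd (nat_lit 78) (nat_lit 76) (nat_lit 0) (XT.lf (nat_lit 0) (nat_lit 1430397998) (nat_lit 380) (nat_lit 6484612916) (nat_lit 456) (nat_lit 2144722967) (nat_lit 144) (nat_lit 5) (nat_lit 149) (nat_lit 5) (nat_lit 150) (nat_lit 5) (nat_lit 603) (nat_lit 494) (nat_lit 463)) (XT.lf (nat_lit 0) (nat_lit 1845623588) (nat_lit 456) (nat_lit 819986956) (nat_lit 76) (nat_lit 7494554625) (nat_lit 143) (nat_lit 5) (nat_lit 149) (nat_lit 5) (nat_lit 144) (nat_lit 5) (nat_lit 604) (nat_lit 494) (nat_lit 462))) (XT.nd (nat_lit 78) (nat_lit 760) (nat_lit 0) (XT.lf (nat_lit 0) (nat_lit 5890424002) (nat_lit 380) (nat_lit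 3126185660) (nat_lit 76) (nat_lit 1245648972) (nat_lit 139) (nat_lit 5) (nat_lit 144) (nat_lit 5) (nat_lit 140) (nat_lit 5) (nat_lit 605) (nat_lit 494) (nat_lit 461)) (XT.nd (nat_lit 78) (nat_lit 380) (nat_lit 0) (XT.lf (nat_lit 0) (nat_lit 4861239084) (nat_lit 380) (nat_lit 5158686659) (nat_lit 456) (nat_lit 346396414) (nat_lit 134) (nat_lit 5) (nat_lit 139) (nat_lit 5) (nat_lit 140) (nat_lit 5) (nat_lit 606) (nat_lit 494) (nat_lit 460)) (XT.lf (nat_lit 0) (nat_lit 2505999596) (nat_lit 304) (nat_lit 1190821291) (nat_lit 380) (nat_lit 6775430449) (nat_lit 129) (nat_lit 5) (nat_lit 133) (nat_lit 5) (nat_lit 134) (nat_lit 5) (nat_lit 607) (nat_lit 494) (nat_lit 459)))))) (XT.nd (nat_lit 390) (nat_lit 988) (nat_lit 0) (XT.nd (nat_lit 156) (nat_lit 988) (nat_lit 0) (XT.nd (nat_lit 78) (nat_lit 76) (nat_lit 0) (XT.lf (nat_lit 0) (nat_lit 70870359) (nat_lit 304) (nat_lit 7751057753) (nat_lit 380) (nat_lit 2758215961)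 (nat_lit 125) (nat_lit 5) (nat_lit 129) (nat_lit 5) (nat_lit 130) (nat_lit 5) (nat_lit 608) (nat_lit 494) (nat_lit 458)) (XT.lf (nat_lit 0) (nat_lit 1333072854) (nat_lit 380) (nat_lit 2410822011) (nat_lit 76) (nat_lit 6945903857) (nat_lit 124) (nat_lit 5) (nat_lit 129) (nat_lit 5) (nat_lit 125) (nat_lit 5) (nat_lit 609) (nat_lit 494) (nat_lit 457))) (XT.nd (nat_lit 78) (nat_lit 684) (nat_lit 0) (XT.lf (nat_lit 0) (nat_lit 5460117374) (nat_lit 380) (nat_lit 4976035940) (nat_lit 76) (nat_lit 365315077) (nat_lit 120) (nat_lit 5) (nat_lit 125) (nat_lit 5) (nat_lit 121) (nat_lit 5) (nat_lit 610) (nat_lit 494) (nat_lit 456)) (XT.nd (nat_lit 78) (nat_lit 380) (nat_lit 0) (XT.lf (nat_lit 0) (nat_lit 3282044612) (nat_lit 304) (nat_lit 6400888762) (nat_lit 380) (nat_lit 1232177207) (nat_lit 116) (nat_lit 5) (nat_lit 120) (nat_lit 5) (nat_lit 121) (nat_lit 5) (nat_lit 611) (nat_lit 494) (nat_lit 455)) (XT.lf (nat_lit 0) (nat_lit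 651216907) (nat_lit 304) (nat_lit 2257957192) (nat_lit 380) (nat_lit 8121694764) (nat_lit 111) (nat_lit 5) (nat_lit 115) (nat_lit 5) (nat_lit 116) (nat_lit 5) (nat_lit 612) (nat_lit 494) (nat_lit 454))))) (XT.nd (nat_lit 156) (nat_lit 608) (nat_lit 0) (XT.nd (nat_lit 78) (nat_lit 380) (nat_lit 0) (XT.lf (nat_lit 0) (nat_lit 7132411224) (nat_lit 380) (nat_lit 2045055371) (nat_lit 76) (nat_lit 1971005191) (nat_lit 111) (nat_lit 5) (nat_lit 116) (nat_lit 5) (nat_lit 112) (nat_lit 5) (nat_lit 613) (nat_lit 494) (nat_lit 453)) (XT.lf (nat_lit 0) (nat_lit 178462925) (nat_lit 380) (nat_lit 4822529510) (nat_lit 76) (nat_lit 6267234858) (nat_lit 106) (nat_lit 5) (nat_lit 111) (nat_lit 5) (nat_lit 107) (nat_lit 5) (nat_lit 614) (nat_lit 494) (nat_lit 452))) (XT.nd (nat_lit 78) (nat_lit 380) (nat_lit 0) (XT.lf (nat_lit 0) (nat_lit 3686490616) (nat_lit 228) (nat_lit 706683876) (nat_lit 304) (nat_lit 6996874360) (nat_lit 103)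 (nat_lit 5) (nat_lit 106) (nat_lit 5) (nat_lit 107) (nat_lit 5) (nat_lit 615) (nat_lit 494) (nat_lit 451)) (XT.nd (nat_lit 78) (nat_lit 76) (nat_lit 0) (XT.lf (nat_lit 0) (nat_lit 824874109) (nat_lit 304) (nat_lit 7881584813) (nat_lit 380) (nat_lit 2807565603) (nat_lit 99) (nat_lit 5) (nat_lit 103) (nat_lit 5) (nat_lit 104) (nat_lit 5) (nat_lit 616) (nat_lit 494) (nat_lit 450)) (XT.lf (nat_lit 0) (nat_lit 1455627186) (nat_lit 380) (nat_lit 2105077231) (nat_lit 76) (nat_lit 8079401747) (nat_lit 98) (nat_lit 5) (nat_lit 103) (nat_lit 5) (nat_lit 99) (nat_lit 5) (nat_lit 617) (nat_lit 494) (nat_lit 449))))))))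
noncomputable def xc20 : XT := (XT.nd (nat_lit 78390) (nat_lit 0) (nat_lit 6080) (XT.nd (nat_lit 77610) (nat_lit 0) (nat_lit 13984) (XT.nd (nat_lit 312) (nat_lit 532) (nat_lit 0) (XT.nd (nat_lit 156) (nat_lit 304) (nat_lit 0) (XT.nd (nat_lit 78) (nat_lit 304) (nat_lit 0) (XT.lf (nat_lit 0) (nat_lit 5768878035) (nat_lit 304) (nat_lit 5132758534) (nat_lit 76) (nat_lit 866657023) (nat_lit 95) (nat_lit 5) (nat_lit 99) (nat_lit 5) (nat_lit 96) (nat_lit 5) (nat_lit 618) (nat_lit 494) (nat_lit 448)) (XT.lf (nat_lit 0) (nat_lit 3626575901) (nat_lit 304) (nat_lit 6556901447) (nat_lit 380) (nat_lit 1715268757) (nat_lit 91) (nat_lit 5) (nat_lit 95) (nat_lit 5) (nat_lit 96) (nat_lit 5) (nat_lit 619) (nat_lit 494) (nat_lit 447))) (XT.nd (nat_lit 78) (nat_lit 0) (nat_lit 0) (XT.lf (nat_lit 0) (nat_lit 510639878) (nat_lit 228) (nat_lit 2100926965) (nat_lit 304) (nat_lit 9420062594) (nat_lit 87) (nat_lit 5) (nat_lit 90) (nat_lit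 5) (nat_lit 91) (nat_lit 5) (nat_lit 620) (nat_lit 494) (nat_lit 446)) (XT.lf (nat_lit 0) (nat_lit 7027768701) (nat_lit 304) (nat_lit 2690763971) (nat_lit 76) (nat_lit 2447897898) (nat_lit 87) (nat_lit 5) (nat_lit 91) (nat_lit 5) (nat_lit 88) (nat_lit 5) (nat_lit 621) (nat_lit 494) (nat_lit 445)))) (XT.nd (nat_lit 156) (nat_lit 0) (nat_lit 0) (XT.nd (nat_lit 78) (nat_lit 304) (nat_lit 0) (XT.lf (nat_lit 0) (nat_lit 6308075240) (nat_lit 228) (nat_lit 5234018531) (nat_lit 304) (nat_lit 761640748) (nat_lit 84) (nat_lit 5) (nat_lit 87) (nat_lit 5) (nat_lit 88) (nat_lit 5) (nat_lit 622) (nat_lit 494) (nat_lit 444)) (XT.lf (nat_lit 0) (nat_lit 3018464010) (nat_lit 228) (nat_lit 628685473) (nat_lit 304) (nat_lit 8796301033) (nat_lit 80) (nat_lit 5) (nat_lit 83) (nat_lit 5) (nat_lit 84) (nat_lit 5) (nat_lit 623) (nat_lit 494) (nat_lit 443))) (XT.nd (nat_lit 76986) (nat_lit 0) (nat_lit 19684) (XT.lf (nat_lit 0) (nat_lit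 8156042943) (nat_lit 304) (nat_lit 399827329) (nat_lit 76) (nat_lit 4029549975) (nat_lit 80) (nat_lit 5) (nat_lit 84) (nat_lit 5) (nat_lit 81) (nat_lit 5) (nat_lit 624) (nat_lit 494) (nat_lit 442)) (XT.nd (nat_lit 78) (nat_lit 760) (nat_lit 0) (XT.lf (nat_lit 0) (nat_lit 1645391667) (nat_lit 836) (nat_lit 537113314) (nat_lit 0) (nat_lit 1645391667) (nat_lit 349) (nat_lit 5) (nat_lit 360) (nat_lit 4) (nat_lit 349) (nat_lit 4) (nat_lit 570) (nat_lit 495) (nat_lit 495)) (XT.lf (nat_lit 0) (nat_lit 5038041585) (nat_lit 760) (nat_lit 2024450333) (nat_lit 760) (nat_lit 643270778) (nat_lit 339) (nat_lit 4) (nat_lit 349) (nat_lit 5) (nat_lit 349) (nat_lit 4) (nat_lit 571) (nat_lit 495) (nat_lit 494)))))) (XT.nd (nat_lit 390) (nat_lit 2660) (nat_lit 0) (XT.nd (nat_lit 156) (nat_lit 1520) (nat_lit 0) (XT.nd (nat_lit 78) (nat_lit 760) (nat_lit 0) (XT.lf (nat_lit 0) (nat_lit 3076781808) (nat_lit 760) (nat_lit 4285109026) (nat_lit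 0) (nat_lit 395137535) (nat_lit 329) (nat_lit 5) (nat_lit 339) (nat_lit 4) (nat_lit 329) (nat_lit 4) (nat_lit 572) (nat_lit 495) (nat_lit 493)) (XT.lf (nat_lit 0) (nat_lit 1886789372) (nat_lit 760) (nat_lit 4953036083) (nat_lit 760) (nat_lit 969875467) (nat_lit 319) (nat_lit 4) (nat_lit 329) (nat_lit 5) (nat_lit 329) (nat_lit 4) (nat_lit 573) (nat_lit 495) (nat_lit 492))) (XT.nd (nat_lit 78) (nat_lit 760) (nat_lit 0) (XT.lf (nat_lit 0) (nat_lit 280497824) (nat_lit 684) (nat_lit 2461905568) (nat_lit 760) (nat_lit 5121375984) (nat_lit 309) (nat_lit 5) (nat_lit 318) (nat_lit 5) (nat_lit 319) (nat_lit 4) (nat_lit 574) (nat_lit 495) (nat_lit 491)) (XT.nd (nat_lit 78) (nat_lit 760) (nat_lit 0) (XT.lf (nat_lit 0) (nat_lit 6490987209) (nat_lit 760) (nat_lit 1319830128) (nat_lit 0) (nat_lit 108502986) (nat_lit 309) (nat_lit 5) (nat_lit 319) (nat_lit 4) (nat_lit 309) (nat_lit 4) (nat_lit 575) (nat_lit 495) (nat_lit 490))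 (XT.lf (nat_lit 0) (nat_lit 2292596129) (nat_lit 760) (nat_lit 2953839962) (nat_lit 76) (nat_lit 2729548071) (nat_lit 299) (nat_lit 5) (nat_lit 309) (nat_lit 5) (nat_lit 300) (nat_lit 4) (nat_lit 576) (nat_lit 495) (nat_lit 489))))) (XT.nd (nat_lit 156) (nat_lit 1292) (nat_lit 0) (XT.nd (nat_lit 78) (nat_lit 760) (nat_lit 0) (XT.lf (nat_lit 0) (nat_lit 3429251335) (nat_lit 608) (nat_lit 2606866947) (nat_lit 684) (nat_lit 1998137656) (nat_lit 291) (nat_lit 5) (nat_lit 299) (nat_lit 5) (nat_lit 300) (nat_lit 4) (nat_lit 577) (nat_lit 495) (nat_lit 488)) (XT.lf (nat_lit 0) (nat_lit 1706600735) (nat_lit 760) (nat_lit 6277585005) (nat_lit 76) (nat_lit 109910344) (nat_lit 281) (nat_lit 5) (nat_lit 291) (nat_lit 5) (nat_lit 282) (nat_lit 4) (nat_lit 578) (nat_lit 495) (nat_lit 487))) (XT.nd (nat_lit 78) (nat_lit 684) (nat_lit 0) (XT.lf (nat_lit 0) (nat_lit 163427682) (nat_lit 608) (nat_lit 5281709862) (nat_lit 684) (nat_lit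 2710011095) (nat_lit 273) (nat_lit 5) (nat_lit 281) (nat_lit 5) (nat_lit 282) (nat_lit 4) (nat_lit 579) (nat_lit 495) (nat_lit 486)) (XT.nd (nat_lit 78) (nat_lit 608) (nat_lit 0) (XT.lf (nat_lit 0) (nat_lit 1007059200) (nat_lit 684) (nat_lit 1487941318) (nat_lit 76) (nat_lit 5722701342) (nat_lit 272) (nat_lit 5) (nat_lit 281) (nat_lit 5) (nat_lit 273) (nat_lit 5) (nat_lit 580) (nat_lit 495) (nat_lit 485)) (XT.lf (nat_lit 0) (nat_lit 4736403020) (nat_lit 684) (nat_lit 3170208574) (nat_lit 76) (nat_lit 375060323) (nat_lit 264) (nat_lit 5) (nat_lit 273) (nat_lit 5) (nat_lit 265) (nat_lit 4) (nat_lit 581) (nat_lit 495) (nat_lit 484))))))) (XT.nd (nat_lit 702) (nat_lit 3876) (nat_lit 0) (XT.nd (nat_lit 312) (nat_lit 2204) (nat_lit 0) (XT.nd (nat_lit 156) (nat_lit 608) (nat_lit 0) (XT.nd (nat_lit 78) (nat_lit 608) (nat_lit 0) (XT.lf (nat_lit 0) (nat_lit 178919723) (nat_lit 608) (nat_lit 4884825283) (nat_lit 76) (nat_lit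 3283398466) (nat_lit 256) (nat_lit 5) (nat_lit 264) (nat_lit 5) (nat_lit 257) (nat_lit 5) (nat_lit 582) (nat_lit 495) (nat_lit 483)) (XT.lf (nat_lit 0) (nat_lit 1774728300) (nat_lit 608) (nat_lit 2127704743) (nat_lit 684) (nat_lit 4511584422) (nat_lit 248) (nat_lit 5) (nat_lit 256) (nat_lit 5) (nat_lit 257) (nat_lit 5) (nat_lit 583) (nat_lit 495) (nat_lit 482))) (XT.nd (nat_lit 78) (nat_lit 76) (nat_lit 0) (XT.lf (nat_lit 0) (nat_lit 64688383) (nat_lit 532) (nat_lit 7614627660) (nat_lit 608) (nat_lit 803342681) (nat_lit 241) (nat_lit 5) (nat_lit 248) (nat_lit 5) (nat_lit 249) (nat_lit 4) (nat_lit 584) (nat_lit 495) (nat_lit 481)) (XT.lf (nat_lit 0) (nat_lit 2939031085) (nat_lit 608) (nat_lit 1675456194) (nat_lit 76) (nat_lit 3937825403) (nat_lit 240) (nat_lit 5) (nat_lit 248) (nat_lit 5) (nat_lit 241) (nat_lit 5) (nat_lit 585) (nat_lit 495) (nat_lit 480)))) (XT.nd (nat_lit 156) (nat_lit 1064) (nat_lit 0) (XT.nd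 (nat_lit 78) (nat_lit 608) (nat_lit 0) (XT.lf (nat_lit 0) (nat_lit 5183502649) (nat_lit 532) (nat_lit 1536931450) (nat_lit 608) (nat_lit 1903327975) (nat_lit 233) (nat_lit 5) (nat_lit 240) (nat_lit 5) (nat_lit 241) (nat_lit 5) (nat_lit 586) (nat_lit 495) (nat_lit 479)) (XT.lf (nat_lit 0) (nat_lit 1841993725) (nat_lit 608) (nat_lit 5249776978) (nat_lit 76) (nat_lit 1604915835) (nat_lit 225) (nat_lit 5) (nat_lit 233) (nat_lit 5) (nat_lit 226) (nat_lit 5) (nat_lit 587) (nat_lit 495) (nat_lit 478))) (XT.nd (nat_lit 78) (nat_lit 532) (nat_lit 0) (XT.lf (nat_lit 0) (nat_lit 1664948341) (nat_lit 532) (nat_lit 3958022985) (nat_lit 608) (nat_lit 3148128753) (nat_lit 218) (nat_lit 5) (nat_lit 225) (nat_lit 5) (nat_lit 226) (nat_lit 5) (nat_lit 588) (nat_lit 495) (nat_lit 477)) (XT.nd (nat_lit 78) (nat_lit 456) (nat_lit 0) (XT.lf (nat_lit 0) (nat_lit 601939608) (nat_lit 608) (nat_lit 143543371) (nat_lit 76) (nat_lit 8101890023)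 (nat_lit 217) (nat_lit 5) (nat_lit 225) (nat_lit 5) (nat_lit 218) (nat_lit 5) (nat_lit 589) (nat_lit 495) (nat_lit 476)) (XT.lf (nat_lit 0) (nat_lit 4390065216) (nat_lit 532) (nat_lit 1993541651) (nat_lit 76) (nat_lit 2541050655) (nat_lit 211) (nat_lit 5) (nat_lit 218) (nat_lit 5) (nat_lit 212) (nat_lit 5) (nat_lit 590) (nat_lit 495) (nat_lit 475)))))) (XT.nd (nat_lit 390) (nat_lit 1824) (nat_lit 0) (XT.nd (nat_lit 156) (nat_lit 988) (nat_lit 0) (XT.nd (nat_lit 78) (nat_lit 532) (nat_lit 0) (XT.lf (nat_lit 0) (nat_lit 5127174752) (nat_lit 532) (nat_lit 3109752068) (nat_lit 608) (nat_lit 766907822) (nat_lit 204) (nat_lit 5) (nat_lit 211) (nat_lit 5) (nat_lit 212) (nat_lit 5) (nat_lit 591) (nat_lit 495) (nat_lit 474)) (XT.lf (nat_lit 0) (nat_lit 3016188854) (nat_lit 532) (nat_lit 5811518183) (nat_lit 76) (nat_lit 256886905) (nat_lit 197) (nat_lit 5) (nat_lit 204) (nat_lit 5) (nat_lit 198) (nat_lit 5) (nat_lit 592)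 (nat_lit 495) (nat_lit 473))) (XT.nd (nat_lit 78) (nat_lit 532) (nat_lit 0) (XT.lf (nat_lit 0) (nat_lit 1362421919) (nat_lit 456) (nat_lit 5502289332) (nat_lit 532) (nat_lit 2302161150) (nat_lit 191) (nat_lit 5) (nat_lit 197) (nat_lit 5) (nat_lit 198) (nat_lit 5) (nat_lit 593) (nat_lit 495) (nat_lit 472)) (XT.nd (nat_lit 78) (nat_lit 456) (nat_lit 0) (XT.lf (nat_lit 0) (nat_lit 1503065145) (nat_lit 532) (nat_lit 583366101) (nat_lit 76) (nat_lit 7164494123) (nat_lit 190) (nat_lit 5) (nat_lit 197) (nat_lit 5) (nat_lit 191) (nat_lit 5) (nat_lit 594) (nat_lit 495) (nat_lit 471)) (XT.lf (nat_lit 0) (nat_lit 5352567717) (nat_lit 532) (nat_lit 2570220791) (nat_lit 76) (nat_lit 1413592254) (nat_lit 184) (nat_lit 5) (nat_lit 191) (nat_lit 5) (nat_lit 185) (nat_lit 5) (nat_lit 595) (nat_lit 495) (nat_lit 470))))) (XT.nd (nat_lit 156) (nat_lit 912) (nat_lit 0) (XT.nd (nat_lit 78) (nat_lit 456) (nat_lit 0) (XT.lf (nat_lit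 0) (nat_lit 4815937634) (nat_lit 456) (nat_lit 4458206813) (nat_lit 532) (nat_lit 149504688) (nat_lit 178) (nat_lit 5) (nat_lit 184) (nat_lit 5) (nat_lit 185) (nat_lit 5) (nat_lit 596) (nat_lit 495) (nat_lit 469)) (XT.lf (nat_lit 0) (nat_lit 2803890130) (nat_lit 380) (nat_lit 890070802) (nat_lit 456) (nat_lit 5818582766) (nat_lit 172) (nat_lit 5) (nat_lit 177) (nat_lit 5) (nat_lit 178) (nat_lit 5) (nat_lit 597) (nat_lit 495) (nat_lit 468))) (XT.nd (nat_lit 78) (nat_lit 456) (nat_lit 0) (XT.lf (nat_lit 0) (nat_lit 733101026) (nat_lit 456) (nat_lit 6879526808) (nat_lit 532) (nat_lit 1990567110) (nat_lit 166) (nat_lit 5) (nat_lit 172) (nat_lit 5) (nat_lit 173) (nat_lit 5) (nat_lit 598) (nat_lit 495) (nat_lit 467)) (XT.nd (nat_lit 78) (nat_lit 380) (nat_lit 0) (XT.lf (nat_lit 0) (nat_lit 1886882758) (nat_lit 532) (nat_lit 1379982017) (nat_lit 76) (nat_lit 6428591401) (nat_lit 165) (nat_lit 5) (nat_lit 172) (nat_lit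 5) (nat_lit 166) (nat_lit 5) (nat_lit 599) (nat_lit 495) (nat_lit 466)) (XT.lf (nat_lit 0) (nat_lit 5806527039) (nat_lit 456) (nat_lit 3543360116) (nat_lit 76) (nat_lit 439591275) (nat_lit 160) (nat_lit 5) (nat_lit 166) (nat_lit 5) (nat_lit 161) (nat_lit 5) (nat_lit 600) (nat_lit 495) (nat_lit 465))))))))
noncomputable def xc21 : XT := (XT.nd (nat_lit 1482) (nat_lit 836) (nat_lit 0) (XT.nd (nat_lit 702) (nat_lit 2508) (nat_lit 0) (XT.nd (nat_lit 312) (nat_lit 1444) (nat_lit 0) (XT.nd (nat_lit 156) (nat_lit 456) (nat_lit 0) (XT.nd (nat_lit 78) (nat_lit 456) (nat_lit 0) (XT.lf (nat_lit 0) (nat_lit 4110488948) (nat_lit 380) (nat_lit 5699860490) (nat_lit 456) (nat_lit 74920822) (nat_lit 155) (nat_lit 5) (nat_lit 160) (nat_lit 5) (nat_lit 161) (nat_lit 5) (nat_lit 601) (nat_lit 495) (nat_lit 464)) (XT.lf (nat_lit 0) (nat_lit 1902198434) (nat_lit 380) (nat_lit 1942357353) (nat_lit 456) (nat_lit 6138227246) (nat_lit 149)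 (nat_lit 5) (nat_lit 154) (nat_lit 5) (nat_lit 155) (nat_lit 5) (nat_lit 602) (nat_lit 495) (nat_lit 463))) (XT.nd (nat_lit 78) (nat_lit 456) (nat_lit 0) (XT.lf (nat_lit 0) (nat_lit 7841310458) (nat_lit 456) (nat_lit 363958433) (nat_lit 76) (nat_lit 1876973988) (nat_lit 149) (nat_lit 5) (nat_lit 155) (nat_lit 5) (nat_lit 150) (nat_lit 5) (nat_lit 603) (nat_lit 495) (nat_lit 462)) (XT.lf (nat_lit 0) (nat_lit 1722897535) (nat_lit 456) (nat_lit 2681004529) (nat_lit 76) (nat_lit 5779342333) (nat_lit 143) (nat_lit 5) (nat_lit 149) (nat_lit 5) (nat_lit 144) (nat_lit 5) (nat_lit 604) (nat_lit 495) (nat_lit 461)))) (XT.nd (nat_lit 156) (nat_lit 760) (nat_lit 0) (XT.nd (nat_lit 78) (nat_lit 380) (nat_lit 0) (XT.lf (nat_lit 0) (nat_lit 5219037020) (nat_lit 304) (nat_lit 503094260) (nat_lit 380) (nat_lit 4564120041) (nat_lit 139) (nat_lit 5) (nat_lit 143) (nat_lit 5) (nat_lit 144) (nat_lit 5) (nat_lit 605) (nat_lit 495) (nat_lit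 460)) (XT.lf (nat_lit 0) (nat_lit 2857932720) (nat_lit 380) (nat_lit 6952699311) (nat_lit 456) (nat_lit 580504915) (nat_lit 134) (nat_lit 5) (nat_lit 139) (nat_lit 5) (nat_lit 140) (nat_lit 5) (nat_lit 606) (nat_lit 495) (nat_lit 459))) (XT.nd (nat_lit 78) (nat_lit 380) (nat_lit 0) (XT.lf (nat_lit 0) (nat_lit 412601345) (nat_lit 304) (nat_lit 3014929235) (nat_lit 380) (nat_lit 7070332991) (nat_lit 129) (nat_lit 5) (nat_lit 133) (nat_lit 5) (nat_lit 134) (nat_lit 5) (nat_lit 607) (nat_lit 495) (nat_lit 458)) (XT.nd (nat_lit 78) (nat_lit 380) (nat_lit 0) (XT.lf (nat_lit 0) (nat_lit 7515808554) (nat_lit 380) (nat_lit 2076704692) (nat_lit 76) (nat_lit 1013981612) (nat_lit 129) (nat_lit 5) (nat_lit 134) (nat_lit 5) (nat_lit 130) (nat_lit 5) (nat_lit 608) (nat_lit 495) (nat_lit 457)) (XT.lf (nat_lit 0) (nat_lit 966747550) (nat_lit 380) (nat_lit 4649915973) (nat_lit 76) (nat_lit 5100295351) (nat_lit 124) (nat_lit 5) (nat_lit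 129) (nat_lit 5) (nat_lit 125) (nat_lit 5) (nat_lit 609) (nat_lit 495) (nat_lit 456)))))) (XT.nd (nat_lit 390) (nat_lit 1216) (nat_lit 0) (XT.nd (nat_lit 156) (nat_lit 684) (nat_lit 0) (XT.nd (nat_lit 78) (nat_lit 304) (nat_lit 0) (XT.lf (nat_lit 0) (nat_lit 3519748075) (nat_lit 304) (nat_lit 1532671955) (nat_lit 380) (nat_lit 5777037806) (nat_lit 120) (nat_lit 5) (nat_lit 124) (nat_lit 5) (nat_lit 125) (nat_lit 5) (nat_lit 610) (nat_lit 495) (nat_lit 455)) (XT.lf (nat_lit 0) (nat_lit 888027481) (nat_lit 304) (nat_lit 8337855574) (nat_lit 380) (nat_lit 1718205842) (nat_lit 116) (nat_lit 5) (nat_lit 120) (nat_lit 5) (nat_lit 121) (nat_lit 5) (nat_lit 611) (nat_lit 495) (nat_lit 454))) (XT.nd (nat_lit 78) (nat_lit 608) (nat_lit 0) (XT.lf (nat_lit 0) (nat_lit 2401491990) (nat_lit 380) (nat_lit 1816122346) (nat_lit 76) (nat_lit 6842858257) (nat_lit 115) (nat_lit 5) (nat_lit 120) (nat_lit 5) (nat_lit 116) (nat_lit 5)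 (nat_lit 612) (nat_lit 495) (nat_lit 453)) (XT.nd (nat_lit 78) (nat_lit 304) (nat_lit 0) (XT.lf (nat_lit 0) (nat_lit 6576295949) (nat_lit 380) (nat_lit 4592647639) (nat_lit 76) (nat_lit 10102300) (nat_lit 111) (nat_lit 5) (nat_lit 116) (nat_lit 5) (nat_lit 112) (nat_lit 5) (nat_lit 613) (nat_lit 495) (nat_lit 452)) (XT.lf (nat_lit 0) (nat_lit 3826626492) (nat_lit 304) (nat_lit 7026112980) (nat_lit 380) (nat_lit 446891694) (nat_lit 107) (nat_lit 5) (nat_lit 111) (nat_lit 5) (nat_lit 112) (nat_lit 5) (nat_lit 614) (nat_lit 495) (nat_lit 451))))) (XT.nd (nat_lit 156) (nat_lit 912) (nat_lit 0) (XT.nd (nat_lit 78) (nat_lit 0) (nat_lit 0) (XT.lf (nat_lit 0) (nat_lit 964853503) (nat_lit 228) (nat_lit 2767992798) (nat_lit 304) (nat_lit 7689482759) (nat_lit 103) (nat_lit 5) (nat_lit 106) (nat_lit 5) (nat_lit 107) (nat_lit 5) (nat_lit 615) (nat_lit 495) (nat_lit 450)) (XT.lf (nat_lit 0) (nat_lit 8004336050) (nat_lit 304)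 (nat_lit 1964956779) (nat_lit 76) (nat_lit 1577849376) (nat_lit 103) (nat_lit 5) (nat_lit 107) (nat_lit 5) (nat_lit 104) (nat_lit 5) (nat_lit 616) (nat_lit 495) (nat_lit 449))) (XT.nd (nat_lit 78) (nat_lit 532) (nat_lit 0) (XT.lf (nat_lit 0) (nat_lit 694011843) (nat_lit 380) (nat_lit 4988070978) (nat_lit 76) (nat_lit 5991958366) (nat_lit 98) (nat_lit 5) (nat_lit 103) (nat_lit 5) (nat_lit 99) (nat_lit 5) (nat_lit 617) (nat_lit 495) (nat_lit 448)) (XT.nd (nat_lit 78) (nat_lit 304) (nat_lit 0) (XT.lf (nat_lit 0) (nat_lit 3681764400) (nat_lit 228) (nat_lit 1278027431) (nat_lit 304) (nat_lit 6843387690) (nat_lit 95) (nat_lit 5) (nat_lit 98) (nat_lit 5) (nat_lit 99) (nat_lit 5) (nat_lit 618) (nat_lit 495) (nat_lit 447)) (XT.lf (nat_lit 0) (nat_lit 568227692) (nat_lit 304) (nat_lit 8755555302) (nat_lit 380) (nat_lit 2610862661) (nat_lit 91) (nat_lit 5) (nat_lit 95) (nat_lit 5) (nat_lit 96) (nat_lit 5) (nat_lit 619) (nat_lit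 495) (nat_lit 446))))))) (XT.nd (nat_lit 77454) (nat_lit 0) (nat_lit 13984) (XT.nd (nat_lit 312) (nat_lit 228) (nat_lit 0) (XT.nd (nat_lit 156) (nat_lit 304) (nat_lit 0) (XT.nd (nat_lit 78) (nat_lit 228) (nat_lit 0) (XT.lf (nat_lit 0) (nat_lit 1701997015) (nat_lit 380) (nat_lit 2622418831) (nat_lit 76) (nat_lit 7743745275) (nat_lit 90) (nat_lit 5) (nat_lit 95) (nat_lit 5) (nat_lit 91) (nat_lit 5) (nat_lit 620) (nat_lit 495) (nat_lit 445)) (XT.lf (nat_lit 0) (nat_lit 6064083389) (nat_lit 304) (nat_lit 5919023626) (nat_lit 76) (nat_lit 220938924) (nat_lit 87) (nat_lit 5) (nat_lit 91) (nat_lit 5) (nat_lit 88) (nat_lit 5) (nat_lit 621) (nat_lit 495) (nat_lit 444))) (XT.nd (nat_lit 78) (nat_lit 76) (nat_lit 0) (XT.lf (nat_lit 0) (nat_lit 2999139613) (nat_lit 228) (nat_lit 7535910426) (nat_lit 304) (nat_lit 1807168365) (nat_lit 84) (nat_lit 5) (nat_lit 87) (nat_lit 5) (nat_lit 88) (nat_lit 5) (nat_lit 622) (nat_lit 495)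 (nat_lit 443)) (XT.lf (nat_lit 0) (nat_lit 2573905211) (nat_lit 304) (nat_lit 399079793) (nat_lit 76) (nat_lit 9509915037) (nat_lit 83) (nat_lit 5) (nat_lit 87) (nat_lit 5) (nat_lit 84) (nat_lit 5) (nat_lit 623) (nat_lit 495) (nat_lit 442)))) (XT.nd (nat_lit 76908) (nat_lit 0) (nat_lit 19608) (XT.nd (nat_lit 76830) (nat_lit 0) (nat_lit 21280) (XT.lf (nat_lit 0) (nat_lit 7043191042) (nat_lit 304) (nat_lit 3884351814) (nat_lit 76) (nat_lit 1698120339) (nat_lit 80) (nat_lit 5) (nat_lit 84) (nat_lit 5) (nat_lit 81) (nat_lit 5) (nat_lit 624) (nat_lit 495) (nat_lit 441)) (XT.lf (nat_lit 0) (nat_lit 1073158175) (nat_lit 836) (nat_lit 1353271772) (nat_lit 836) (nat_lit 1353271772) (nat_lit 360) (nat_lit 4) (nat_lit 371) (nat_lit 5) (nat_lit 371) (nat_lit 4) (nat_lit 568) (nat_lit 496) (nat_lit 496))) (XT.nd (nat_lit 78) (nat_lit 836) (nat_lit 0) (XT.lf (nat_lit 0) (nat_lit 523615214) (nat_lit 760) (nat_lit 446976084) (nat_lit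 836) (nat_lit 6636848333) (nat_lit 349) (nat_lit 5) (nat_lit 359) (nat_lit 5) (nat_lit 360) (nat_lit 4) (nat_lit 569) (nat_lit 496) (nat_lit 495)) (XT.nd (nat_lit 78) (nat_lit 836) (nat_lit 0) (XT.lf (nat_lit 0) (nat_lit 4666152364) (nat_lit 836) (nat_lit 1114145561) (nat_lit 0) (nat_lit 1876169663) (nat_lit 349) (nat_lit 5) (nat_lit 360) (nat_lit 4) (nat_lit 349) (nat_lit 4) (nat_lit 570) (nat_lit 496) (nat_lit 494)) (XT.lf (nat_lit 0) (nat_lit 688306610) (nat_lit 836) (nat_lit 2753700952) (nat_lit 76) (nat_lit 4265010331) (nat_lit 338) (nat_lit 5) (nat_lit 349) (nat_lit 5) (nat_lit 339) (nat_lit 4) (nat_lit 571) (nat_lit 496) (nat_lit 493)))))) (XT.nd (nat_lit 390) (nat_lit 2660) (nat_lit 0) (XT.nd (nat_lit 156) (nat_lit 1444) (nat_lit 0) (XT.nd (nat_lit 78) (nat_lit 836) (nat_lit 0) (XT.lf (nat_lit 0) (nat_lit 3343376541) (nat_lit 684) (nat_lit 1020486585) (nat_lit 760) (nat_lit 3395063383) (nat_lit 329) (nat_lit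 5) (nat_lit 338) (nat_lit 5) (nat_lit 339) (nat_lit 4) (nat_lit 572) (nat_lit 496) (nat_lit 492)) (XT.lf (nat_lit 0) (nat_lit 270934719) (nat_lit 836) (nat_lit 6093048452) (nat_lit 76) (nat_lit 1448384781) (nat_lit 318) (nat_lit 5) (nat_lit 329) (nat_lit 5) (nat_lit 319) (nat_lit 4) (nat_lit 573) (nat_lit 496) (nat_lit 491))) (XT.nd (nat_lit 78) (nat_lit 760) (nat_lit 0) (XT.lf (nat_lit 0) (nat_lit 61355108) (nat_lit 684) (nat_lit 3875609530) (nat_lit 760) (nat_lit 3930031384) (nat_lit 309) (nat_lit 5) (nat_lit 318) (nat_lit 5) (nat_lit 319) (nat_lit 4) (nat_lit 574) (nat_lit 496) (nat_lit 490)) (XT.nd (nat_lit 78) (nat_lit 760) (nat_lit 0) (XT.lf (nat_lit 0) (nat_lit 6341503018) (nat_lit 684) (nat_lit 1311598169) (nat_lit 760) (nat_lit 270089610) (nat_lit 309) (nat_lit 5) (nat_lit 318) (nat_lit 5) (nat_lit 319) (nat_lit 4) (nat_lit 575) (nat_lit 496) (nat_lit 489)) (XT.lf (nat_lit 0) (nat_lit 3393766191) (nat_lit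 760) (nat_lit 3262397492) (nat_lit 76) (nat_lit 1324382902) (nat_lit 299) (nat_lit 5) (nat_lit 309) (nat_lit 5) (nat_lit 300) (nat_lit 4) (nat_lit 576) (nat_lit 496) (nat_lit 488))))) (XT.nd (nat_lit 156) (nat_lit 1292) (nat_lit 0) (XT.nd (nat_lit 78) (nat_lit 760) (nat_lit 0) (XT.lf (nat_lit 0) (nat_lit 3076536426) (nat_lit 608) (nat_lit 4027449162) (nat_lit 684) (nat_lit 935503428) (nat_lit 291) (nat_lit 5) (nat_lit 299) (nat_lit 5) (nat_lit 300) (nat_lit 4) (nat_lit 577) (nat_lit 496) (nat_lit 487)) (XT.lf (nat_lit 0) (nat_lit 1407339273) (nat_lit 684) (nat_lit 1313707478) (nat_lit 760) (nat_lit 5378833880) (nat_lit 281) (nat_lit 5) (nat_lit 290) (nat_lit 5) (nat_lit 291) (nat_lit 5) (nat_lit 578) (nat_lit 496) (nat_lit 486))) (XT.nd (nat_lit 78) (nat_lit 1292) (nat_lit 0) (XT.lf (nat_lit 0) (nat_lit 6419417378) (nat_lit 760) (nat_lit 285124375) (nat_lit 76) (nat_lit 1457199092) (nat_lit 281) (nat_lit 5) (nat_lit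 291) (nat_lit 5) (nat_lit 282) (nat_lit 4) (nat_lit 579) (nat_lit 496) (nat_lit 485)) (XT.nd (nat_lit 78) (nat_lit 608) (nat_lit 0) (XT.lf (nat_lit 0) (nat_lit 1929728770) (nat_lit 684) (nat_lit 1993310122) (nat_lit 76) (nat_lit 4301780218) (nat_lit 272) (nat_lit 5) (nat_lit 281) (nat_lit 5) (nat_lit 273) (nat_lit 5) (nat_lit 580) (nat_lit 496) (nat_lit 484)) (XT.lf (nat_lit 0) (nat_lit 4562031881) (nat_lit 608) (nat_lit 1061148004) (nat_lit 684) (nat_lit 2666331222) (nat_lit 264) (nat_lit 5) (nat_lit 272) (nat_lit 5) (nat_lit 273) (nat_lit 5) (nat_lit 581) (nat_lit 496) (nat_lit 483))))))))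
noncomputable def xc22 : XT := (XT.nd (nat_lit 1482) (nat_lit 4940) (nat_lit 0) (XT.nd (nat_lit 702) (nat_lit 3876) (nat_lit 0) (XT.nd (nat_lit 312) (nat_lit 2204) (nat_lit 0) (XT.nd (nat_lit 156) (nat_lit 608) (nat_lit 0) (XT.nd (nat_lit 78) (nat_lit 608) (nat_lit 0) (XT.lf (nat_lit 0) (nat_lit 1005715275) (nat_lit 608) (nat_lit 5496750345) (nat_lit 76) (nat_lit 1853219130) (nat_lit 256) (nat_lit 5) (nat_lit 264) (nat_lit 5) (nat_lit 257) (nat_lit 5) (nat_lit 582) (nat_lit 496) (nat_lit 482)) (XT.lf (nat_lit 0) (nat_lit 1114394437) (nat_lit 608) (nat_lit 3581101255) (nat_lit 684) (nat_lit 3727741558) (nat_lit 248) (nat_lit 5) (nat_lit 256) (nat_lit 5) (nat_lit 257) (nat_lit 5) (nat_lit 583) (nat_lit 496) (nat_lit 481))) (XT.nd (nat_lit 78) (nat_lit 608) (nat_lit 0) (XT.lf (nat_lit 0) (nat_lit 7852508472) (nat_lit 608) (nat_lit 584617665) (nat_lit 684) (nat_lit 55461199) (nat_lit 248) (nat_lit 5) (nat_lit 256)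 (nat_lit 5) (nat_lit 257) (nat_lit 5) (nat_lit 584) (nat_lit 496) (nat_lit 480)) (XT.lf (nat_lit 0) (nat_lit 3639996902) (nat_lit 608) (nat_lit 2439907392) (nat_lit 76) (nat_lit 2482985654) (nat_lit 240) (nat_lit 5) (nat_lit 248) (nat_lit 5) (nat_lit 241) (nat_lit 5) (nat_lit 585) (nat_lit 496) (nat_lit 479)))) (XT.nd (nat_lit 156) (nat_lit 1064) (nat_lit 0) (XT.nd (nat_lit 78) (nat_lit 608) (nat_lit 0) (XT.lf (nat_lit 0) (nat_lit 4369023651) (nat_lit 532) (nat_lit 3018585767) (nat_lit 608) (nat_lit 1247409289) (nat_lit 233) (nat_lit 5) (nat_lit 240) (nat_lit 5) (nat_lit 241) (nat_lit 5) (nat_lit 586) (nat_lit 496) (nat_lit 478)) (XT.lf (nat_lit 0) (nat_lit 2445500829) (nat_lit 608) (nat_lit 6132949069) (nat_lit 76) (nat_lit 130287701) (nat_lit 225) (nat_lit 5) (nat_lit 233) (nat_lit 5) (nat_lit 226) (nat_lit 5) (nat_lit 587) (nat_lit 496) (nat_lit 477))) (XT.nd (nat_lit 78) (nat_lit 532) (nat_lit 0) (XT.lf (nat_lit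 0) (nat_lit 729810986) (nat_lit 532) (nat_lit 5462438303) (nat_lit 608) (nat_lit 2591589785) (nat_lit 218) (nat_lit 5) (nat_lit 225) (nat_lit 5) (nat_lit 226) (nat_lit 5) (nat_lit 588) (nat_lit 496) (nat_lit 476)) (XT.nd (nat_lit 78) (nat_lit 456) (nat_lit 0) (XT.lf (nat_lit 0) (nat_lit 1123130144) (nat_lit 608) (nat_lit 1134848705) (nat_lit 76) (nat_lit 6602625087) (nat_lit 217) (nat_lit 5) (nat_lit 225) (nat_lit 5) (nat_lit 218) (nat_lit 5) (nat_lit 589) (nat_lit 496) (nat_lit 475)) (XT.lf (nat_lit 0) (nat_lit 4867037948) (nat_lit 532) (nat_lit 3041554267) (nat_lit 76) (nat_lit 1030183756) (nat_lit 211) (nat_lit 5) (nat_lit 218) (nat_lit 5) (nat_lit 212) (nat_lit 5) (nat_lit 590) (nat_lit 496) (nat_lit 474)))))) (XT.nd (nat_lit 390) (nat_lit 1824) (nat_lit 0) (XT.nd (nat_lit 156) (nat_lit 988) (nat_lit 0) (XT.nd (nat_lit 78) (nat_lit 532) (nat_lit 0) (XT.lf (nat_lit 0) (nat_lit 4025462687) (nat_lit 532) (nat_lit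 4653996818) (nat_lit 608) (nat_lit 339185484) (nat_lit 204) (nat_lit 5) (nat_lit 211) (nat_lit 5) (nat_lit 212) (nat_lit 5) (nat_lit 591) (nat_lit 496) (nat_lit 473)) (XT.lf (nat_lit 0) (nat_lit 2100745863) (nat_lit 456) (nat_lit 1301055930) (nat_lit 532) (nat_lit 5698279926) (nat_lit 197) (nat_lit 5) (nat_lit 203) (nat_lit 5) (nat_lit 204) (nat_lit 5) (nat_lit 592) (nat_lit 496) (nat_lit 472))) (XT.nd (nat_lit 78) (nat_lit 532) (nat_lit 0) (XT.lf (nat_lit 0) (nat_lit 127293276) (nat_lit 456) (nat_lit 7079577447) (nat_lit 532) (nat_lit 1976361442) (nat_lit 191) (nat_lit 5) (nat_lit 197) (nat_lit 5) (nat_lit 198) (nat_lit 5) (nat_lit 593) (nat_lit 496) (nat_lit 471)) (XT.nd (nat_lit 78) (nat_lit 456) (nat_lit 0) (XT.lf (nat_lit 0) (nat_lit 1797699326) (nat_lit 532) (nat_lit 1876629104) (nat_lit 76) (nat_lit 5593455054) (nat_lit 190) (nat_lit 5) (nat_lit 197) (nat_lit 5) (nat_lit 191) (nat_lit 5) (nat_lit 594) (nat_lit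 496) (nat_lit 470)) (XT.lf (nat_lit 0) (nat_lit 5425797761) (nat_lit 456) (nat_lit 176974778) (nat_lit 532) (nat_lit 3751357674) (nat_lit 184) (nat_lit 5) (nat_lit 190) (nat_lit 5) (nat_lit 191) (nat_lit 5) (nat_lit 595) (nat_lit 496) (nat_lit 469))))) (XT.nd (nat_lit 156) (nat_lit 912) (nat_lit 0) (XT.nd (nat_lit 78) (nat_lit 380) (nat_lit 0) (XT.lf (nat_lit 0) (nat_lit 45104388) (nat_lit 532) (nat_lit 6041075018) (nat_lit 76) (nat_lit 3355946218) (nat_lit 177) (nat_lit 5) (nat_lit 184) (nat_lit 5) (nat_lit 178) (nat_lit 5) (nat_lit 596) (nat_lit 496) (nat_lit 468)) (XT.lf (nat_lit 0) (nat_lit 1310812422) (nat_lit 380) (nat_lit 2540009395) (nat_lit 456) (nat_lit 5680897296) (nat_lit 172) (nat_lit 5) (nat_lit 177) (nat_lit 5) (nat_lit 178) (nat_lit 5) (nat_lit 597) (nat_lit 496) (nat_lit 467))) (XT.nd (nat_lit 78) (nat_lit 912) (nat_lit 0) (XT.lf (nat_lit 0) (nat_lit 7728097274) (nat_lit 456) (nat_lit 817392606)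 (nat_lit 76) (nat_lit 1077710848) (nat_lit 172) (nat_lit 5) (nat_lit 178) (nat_lit 5) (nat_lit 173) (nat_lit 5) (nat_lit 598) (nat_lit 496) (nat_lit 466)) (XT.nd (nat_lit 78) (nat_lit 380) (nat_lit 0) (XT.lf (nat_lit 0) (nat_lit 1949844090) (nat_lit 532) (nat_lit 3001461155) (nat_lit 76) (nat_lit 4764771767) (nat_lit 165) (nat_lit 5) (nat_lit 172) (nat_lit 5) (nat_lit 166) (nat_lit 5) (nat_lit 599) (nat_lit 496) (nat_lit 465)) (XT.lf (nat_lit 0) (nat_lit 4566874584) (nat_lit 380) (nat_lit 1263469325) (nat_lit 456) (nat_lit 3980540639) (nat_lit 160) (nat_lit 5) (nat_lit 165) (nat_lit 5) (nat_lit 166) (nat_lit 5) (nat_lit 600) (nat_lit 496) (nat_lit 464))))))) (XT.nd (nat_lit 702) (nat_lit 2204) (nat_lit 0) (XT.nd (nat_lit 312) (nat_lit 1444) (nat_lit 0) (XT.nd (nat_lit 156) (nat_lit 456) (nat_lit 0) (XT.nd (nat_lit 78) (nat_lit 456) (nat_lit 0) (XT.lf (nat_lit 0) (nat_lit 2356219341) (nat_lit 380) (nat_lit 7433184234)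 (nat_lit 456) (nat_lit 118170404) (nat_lit 155) (nat_lit 5) (nat_lit 160) (nat_lit 5) (nat_lit 161) (nat_lit 5) (nat_lit 601) (nat_lit 496) (nat_lit 463)) (XT.lf (nat_lit 0) (nat_lit 62887163) (nat_lit 380) (nat_lit 3701950483) (nat_lit 456) (nat_lit 6240997693) (nat_lit 149) (nat_lit 5) (nat_lit 154) (nat_lit 5) (nat_lit 155) (nat_lit 5) (nat_lit 602) (nat_lit 496) (nat_lit 462))) (XT.nd (nat_lit 78) (nat_lit 456) (nat_lit 0) (XT.lf (nat_lit 0) (nat_lit 7725225760) (nat_lit 456) (nat_lit 2253947269) (nat_lit 76) (nat_lit 126851700) (nat_lit 149) (nat_lit 5) (nat_lit 155) (nat_lit 5) (nat_lit 150) (nat_lit 5) (nat_lit 603) (nat_lit 496) (nat_lit 461)) (XT.lf (nat_lit 0) (nat_lit 1547478209) (nat_lit 456) (nat_lit 4658275845) (nat_lit 76) (nat_lit 4002040222) (nat_lit 143) (nat_lit 5) (nat_lit 149) (nat_lit 5) (nat_lit 144) (nat_lit 5) (nat_lit 604) (nat_lit 496) (nat_lit 460)))) (XT.nd (nat_lit 156) (nat_lit 760)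 (nat_lit 0) (XT.nd (nat_lit 78) (nat_lit 380) (nat_lit 0) (XT.lf (nat_lit 0) (nat_lit 3176620771) (nat_lit 304) (nat_lit 2332447454) (nat_lit 380) (nat_lit 4802487935) (nat_lit 139) (nat_lit 5) (nat_lit 143) (nat_lit 5) (nat_lit 144) (nat_lit 5) (nat_lit 605) (nat_lit 496) (nat_lit 459)) (XT.lf (nat_lit 0) (nat_lit 735755863) (nat_lit 380) (nat_lit 8811914244) (nat_lit 456) (nat_lit 869771699) (nat_lit 134) (nat_lit 5) (nat_lit 139) (nat_lit 5) (nat_lit 140) (nat_lit 5) (nat_lit 606) (nat_lit 496) (nat_lit 458))) (XT.nd (nat_lit 78) (nat_lit 684) (nat_lit 0) (XT.lf (nat_lit 0) (nat_lit 3115201788) (nat_lit 456) (nat_lit 1777983982) (nat_lit 76) (nat_lit 5631559302) (nat_lit 133) (nat_lit 5) (nat_lit 139) (nat_lit 5) (nat_lit 134) (nat_lit 5) (nat_lit 607) (nat_lit 496) (nat_lit 457)) (XT.nd (nat_lit 78) (nat_lit 380) (nat_lit 0) (XT.lf (nat_lit 0) (nat_lit 6284064087) (nat_lit 304) (nat_lit 877095847) (nat_lit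 380) (nat_lit 3473064747) (nat_lit 129) (nat_lit 5) (nat_lit 133) (nat_lit 5) (nat_lit 134) (nat_lit 5) (nat_lit 608) (nat_lit 496) (nat_lit 456)) (XT.lf (nat_lit 0) (nat_lit 544650680) (nat_lit 380) (nat_lit 7012107729) (nat_lit 76) (nat_lit 3188876459) (nat_lit 124) (nat_lit 5) (nat_lit 129) (nat_lit 5) (nat_lit 125) (nat_lit 5) (nat_lit 609) (nat_lit 496) (nat_lit 455)))))) (XT.nd (nat_lit 390) (nat_lit 912) (nat_lit 0) (XT.nd (nat_lit 156) (nat_lit 988) (nat_lit 0) (XT.nd (nat_lit 78) (nat_lit 0) (nat_lit 0) (XT.lf (nat_lit 0) (nat_lit 1087648846) (nat_lit 304) (nat_lit 3503371059) (nat_lit 380) (nat_lit 6267901804) (nat_lit 120) (nat_lit 5) (nat_lit 124) (nat_lit 5) (nat_lit 125) (nat_lit 5) (nat_lit 610) (nat_lit 496) (nat_lit 454)) (XT.lf (nat_lit 0) (nat_lit 8722531687) (nat_lit 380) (nat_lit 1610520966) (nat_lit 76) (nat_lit 641340921) (nat_lit 120) (nat_lit 5) (nat_lit 125) (nat_lit 5) (nat_lit 121) (nat_lit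 5) (nat_lit 611) (nat_lit 496) (nat_lit 453))) (XT.nd (nat_lit 78) (nat_lit 608) (nat_lit 0) (XT.lf (nat_lit 0) (nat_lit 1840836204) (nat_lit 380) (nat_lit 4401250045) (nat_lit 76) (nat_lit 4849442002) (nat_lit 115) (nat_lit 5) (nat_lit 120) (nat_lit 5) (nat_lit 116) (nat_lit 5) (nat_lit 612) (nat_lit 496) (nat_lit 452)) (XT.nd (nat_lit 78) (nat_lit 304) (nat_lit 0) (XT.lf (nat_lit 0) (nat_lit 3929039932) (nat_lit 304) (nat_lit 2046404471) (nat_lit 380) (nat_lit 5235462734) (nat_lit 111) (nat_lit 5) (nat_lit 115) (nat_lit 5) (nat_lit 116) (nat_lit 5) (nat_lit 613) (nat_lit 496) (nat_lit 451)) (XT.lf (nat_lit 0) (nat_lit 1077072541) (nat_lit 304) (nat_lit 9120913990) (nat_lit 380) (nat_lit 1134585554) (nat_lit 107) (nat_lit 5) (nat_lit 111) (nat_lit 5) (nat_lit 112) (nat_lit 5) (nat_lit 614) (nat_lit 496) (nat_lit 450))))) (XT.nd (nat_lit 156) (nat_lit 608) (nat_lit 0) (XT.nd (nat_lit 78) (nat_lit 228) (nat_lit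 0) (XT.lf (nat_lit 0) (nat_lit 3025197433) (nat_lit 380) (nat_lit 1863447007) (nat_lit 76) (nat_lit 6567295903) (nat_lit 106) (nat_lit 5) (nat_lit 111) (nat_lit 5) (nat_lit 107) (nat_lit 5) (nat_lit 615) (nat_lit 496) (nat_lit 449)) (XT.lf (nat_lit 0) (nat_lit 6702339982) (nat_lit 228) (nat_lit 549199989) (nat_lit 304) (nat_lit 4330118010) (nat_lit 103) (nat_lit 5) (nat_lit 106) (nat_lit 5) (nat_lit 107) (nat_lit 5) (nat_lit 616) (nat_lit 496) (nat_lit 448))) (XT.nd (nat_lit 78) (nat_lit 304) (nat_lit 0) (XT.lf (nat_lit 0) (nat_lit 3703673091) (nat_lit 304) (nat_lit 7875778786) (nat_lit 380) (nat_lit 130100311) (nat_lit 99) (nat_lit 5) (nat_lit 103) (nat_lit 5) (nat_lit 104) (nat_lit 5) (nat_lit 617) (nat_lit 496) (nat_lit 447)) (XT.nd (nat_lit 78) (nat_lit 0) (nat_lit 0) (XT.lf (nat_lit 0) (nat_lit 587178528) (nat_lit 228) (nat_lit 3508003987) (nat_lit 304) (nat_lit 7744370428) (nat_lit 95) (nat_lit 5) (nat_lit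 98) (nat_lit 5) (nat_lit 99) (nat_lit 5) (nat_lit 618) (nat_lit 496) (nat_lit 446)) (XT.lf (nat_lit 0) (nat_lit 8418992624) (nat_lit 304) (nat_lit 2592841441) (nat_lit 76) (nat_lit 959990065) (nat_lit 95) (nat_lit 5) (nat_lit 99) (nat_lit 5) (nat_lit 96) (nat_lit 5) (nat_lit 619) (nat_lit 496) (nat_lit 445))))))))
noncomputable def xc23 : XT := (XT.nd (nat_lit 78078) (nat_lit 0) (nat_lit 6992) (XT.nd (nat_lit 77298) (nat_lit 0) (nat_lit 15276) (XT.nd (nat_lit 312) (nat_lit 228) (nat_lit 0) (XT.nd (nat_lit 156) (nat_lit 304) (nat_lit 0) (XT.nd (nat_lit 78) (nat_lit 228) (nat_lit 0) (XT.lf (nat_lit 0) (nat_lit 733244080) (nat_lit 380) (nat_lit 5886421155) (nat_lit 76) (nat_lit 5486580817) (nat_lit 90) (nat_lit 5) (nat_lit 95) (nat_lit 5) (nat_lit 91) (nat_lit 5) (nat_lit 620) (nat_lit 496) (nat_lit 444)) (XT.lf (nat_lit 0) (nat_lit 2942185463) (nat_lit 228) (nat_lit 2108441587) (nat_lit 304) (nat_lit 7192399236)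 (nat_lit 87) (nat_lit 5) (nat_lit 90) (nat_lit 5) (nat_lit 91) (nat_lit 5) (nat_lit 621) (nat_lit 496) (nat_lit 443))) (XT.nd (nat_lit 78) (nat_lit 304) (nat_lit 0) (XT.lf (nat_lit 0) (nat_lit 9466986195) (nat_lit 304) (nat_lit 444870169) (nat_lit 76) (nat_lit 2470435858) (nat_lit 87) (nat_lit 5) (nat_lit 91) (nat_lit 5) (nat_lit 88) (nat_lit 5) (nat_lit 622) (nat_lit 496) (nat_lit 442)) (XT.lf (nat_lit 0) (nat_lit 1455951806) (nat_lit 304) (nat_lit 3918512863) (nat_lit 76) (nat_lit 7149141339) (nat_lit 83) (nat_lit 5) (nat_lit 87) (nat_lit 5) (nat_lit 84) (nat_lit 5) (nat_lit 623) (nat_lit 496) (nat_lit 441)))) (XT.nd (nat_lit 76752) (nat_lit 0) (nat_lit 20444) (XT.nd (nat_lit 76674) (nat_lit 0) (nat_lit 22952) (XT.lf (nat_lit 0) (nat_lit 5150149932) (nat_lit 228) (nat_lit 719542332) (nat_lit 304) (nat_lit 6797789050) (nat_lit 80) (nat_lit 5) (nat_lit 83) (nat_lit 5) (nat_lit 84) (nat_lit 5) (nat_lit 624) (nat_lit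 496) (nat_lit 440)) (XT.lf (nat_lit 0) (nat_lit 2705154039) (nat_lit 836) (nat_lit 514247580) (nat_lit 836) (nat_lit 514247580) (nat_lit 382) (nat_lit 4) (nat_lit 393) (nat_lit 5) (nat_lit 393) (nat_lit 4) (nat_lit 566) (nat_lit 497) (nat_lit 497))) (XT.nd (nat_lit 78) (nat_lit 1672) (nat_lit 0) (XT.lf (nat_lit 0) (nat_lit 2615157944) (nat_lit 836) (nat_lit 3748368818) (nat_lit 0) (nat_lit 1149439150) (nat_lit 371) (nat_lit 5) (nat_lit 382) (nat_lit 4) (nat_lit 371) (nat_lit 4) (nat_lit 567) (nat_lit 497) (nat_lit 496)) (XT.nd (nat_lit 78) (nat_lit 836) (nat_lit 0) (XT.lf (nat_lit 0) (nat_lit 2107227513) (nat_lit 836) (nat_lit 4177775638) (nat_lit 836) (nat_lit 1275077635) (nat_lit 360) (nat_lit 4) (nat_lit 371) (nat_lit 5) (nat_lit 371) (nat_lit 4) (nat_lit 568) (nat_lit 497) (nat_lit 495)) (XT.lf (nat_lit 0) (nat_lit 434619386) (nat_lit 760) (nat_lit 1914945234) (nat_lit 836) (nat_lit 5259046458) (nat_lit 349)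 (nat_lit 5) (nat_lit 359) (nat_lit 5) (nat_lit 360) (nat_lit 4) (nat_lit 569) (nat_lit 497) (nat_lit 494)))))) (XT.nd (nat_lit 390) (nat_lit 2812) (nat_lit 0) (XT.nd (nat_lit 156) (nat_lit 1520) (nat_lit 0) (XT.nd (nat_lit 78) (nat_lit 836) (nat_lit 0) (XT.lf (nat_lit 0) (nat_lit 6002816112) (nat_lit 836) (nat_lit 1233918017) (nat_lit 0) (nat_lit 421756598) (nat_lit 349) (nat_lit 5) (nat_lit 360) (nat_lit 4) (nat_lit 349) (nat_lit 4) (nat_lit 570) (nat_lit 497) (nat_lit 493)) (XT.lf (nat_lit 0) (nat_lit 1972041904) (nat_lit 836) (nat_lit 2925081535) (nat_lit 76) (nat_lit 2812417594) (nat_lit 338) (nat_lit 5) (nat_lit 349) (nat_lit 5) (nat_lit 339) (nat_lit 4) (nat_lit 571) (nat_lit 497) (nat_lit 492))) (XT.nd (nat_lit 78) (nat_lit 836) (nat_lit 0) (XT.lf (nat_lit 0) (nat_lit 3130659703) (nat_lit 684) (nat_lit 2483588925) (nat_lit 760) (nat_lit 2147873200) (nat_lit 329) (nat_lit 5) (nat_lit 338) (nat_lit 5) (nat_lit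 339) (nat_lit 4) (nat_lit 572) (nat_lit 497) (nat_lit 491)) (XT.nd (nat_lit 78) (nat_lit 0) (nat_lit 0) (XT.lf (nat_lit 0) (nat_lit 1458732435) (nat_lit 836) (nat_lit 6353477088) (nat_lit 76) (nat_lit 4057483) (nat_lit 318) (nat_lit 5) (nat_lit 329) (nat_lit 5) (nat_lit 319) (nat_lit 4) (nat_lit 573) (nat_lit 497) (nat_lit 490)) (XT.lf (nat_lit 0) (nat_lit 5092887497) (nat_lit 836) (nat_lit 238931782) (nat_lit 76) (nat_lit 2539718178) (nat_lit 318) (nat_lit 5) (nat_lit 329) (nat_lit 5) (nat_lit 319) (nat_lit 4) (nat_lit 574) (nat_lit 497) (nat_lit 489))))) (XT.nd (nat_lit 156) (nat_lit 1368) (nat_lit 0) (XT.nd (nat_lit 78) (nat_lit 684) (nat_lit 0) (XT.lf (nat_lit 0) (nat_lit 836829216) (nat_lit 760) (nat_lit 1934651930) (nat_lit 76) (nat_lit 5156799427) (nat_lit 308) (nat_lit 5) (nat_lit 318) (nat_lit 5) (nat_lit 309) (nat_lit 5) (nat_lit 575) (nat_lit 497) (nat_lit 488)) (XT.lf (nat_lit 0) (nat_lit 4328645061)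 (nat_lit 684) (nat_lit 126490206) (nat_lit 760) (nat_lit 3531310771) (nat_lit 299) (nat_lit 5) (nat_lit 308) (nat_lit 5) (nat_lit 309) (nat_lit 5) (nat_lit 576) (nat_lit 497) (nat_lit 487))) (XT.nd (nat_lit 78) (nat_lit 684) (nat_lit 0) (XT.lf (nat_lit 0) (nat_lit 84085917) (nat_lit 684) (nat_lit 5409188690) (nat_lit 76) (nat_lit 2552788846) (nat_lit 290) (nat_lit 5) (nat_lit 299) (nat_lit 5) (nat_lit 291) (nat_lit 5) (nat_lit 577) (nat_lit 497) (nat_lit 486)) (XT.nd (nat_lit 78) (nat_lit 0) (nat_lit 0) (XT.lf (nat_lit 0) (nat_lit 909593383) (nat_lit 684) (nat_lit 2785279884) (nat_lit 760) (nat_lit 4412134528) (nat_lit 281) (nat_lit 5) (nat_lit 290) (nat_lit 5) (nat_lit 291) (nat_lit 5) (nat_lit 578) (nat_lit 497) (nat_lit 485)) (XT.lf (nat_lit 0) (nat_lit 7349997269) (nat_lit 684) (nat_lit 3740366) (nat_lit 760) (nat_lit 815924750) (nat_lit 281) (nat_lit 5) (nat_lit 290) (nat_lit 5) (nat_lit 291) (nat_lit 5) (nat_lit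 579) (nat_lit 497) (nat_lit 484))))))) (XT.nd (nat_lit 702) (nat_lit 4028) (nat_lit 0) (XT.nd (nat_lit 312) (nat_lit 1748) (nat_lit 0) (XT.nd (nat_lit 156) (nat_lit 1216) (nat_lit 0) (XT.nd (nat_lit 78) (nat_lit 608) (nat_lit 0) (XT.lf (nat_lit 0) (nat_lit 2810571725) (nat_lit 684) (nat_lit 2588254334) (nat_lit 76) (nat_lit 2834466499) (nat_lit 272) (nat_lit 5) (nat_lit 281) (nat_lit 5) (nat_lit 273) (nat_lit 5) (nat_lit 580) (nat_lit 497) (nat_lit 483)) (XT.lf (nat_lit 0) (nat_lit 3920099384) (nat_lit 608) (nat_lit 2550499146) (nat_lit 684) (nat_lit 1828058517) (nat_lit 264) (nat_lit 5) (nat_lit 272) (nat_lit 5) (nat_lit 273) (nat_lit 5) (nat_lit 581) (nat_lit 497) (nat_lit 482))) (XT.nd (nat_lit 78) (nat_lit 608) (nat_lit 0) (XT.lf (nat_lit 0) (nat_lit 1789566672) (nat_lit 608) (nat_lit 6201205684) (nat_lit 76) (nat_lit 374821876) (nat_lit 256) (nat_lit 5) (nat_lit 264) (nat_lit 5) (nat_lit 257) (nat_lit 5) (nat_lit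 582) (nat_lit 497) (nat_lit 481)) (XT.lf (nat_lit 0) (nat_lit 361090356) (nat_lit 608) (nat_lit 5084497570) (nat_lit 684) (nat_lit 2988237763) (nat_lit 248) (nat_lit 5) (nat_lit 256) (nat_lit 5) (nat_lit 257) (nat_lit 5) (nat_lit 583) (nat_lit 497) (nat_lit 480)))) (XT.nd (nat_lit 156) (nat_lit 1140) (nat_lit 0) (XT.nd (nat_lit 78) (nat_lit 532) (nat_lit 0) (XT.lf (nat_lit 0) (nat_lit 646324988) (nat_lit 684) (nat_lit 1447510942) (nat_lit 76) (nat_lit 6409829574) (nat_lit 247) (nat_lit 5) (nat_lit 256) (nat_lit 5) (nat_lit 248) (nat_lit 5) (nat_lit 584) (nat_lit 497) (nat_lit 479)) (XT.lf (nat_lit 0) (nat_lit 4297407267) (nat_lit 608) (nat_lit 3299126052) (nat_lit 76) (nat_lit 978304119) (nat_lit 240) (nat_lit 5) (nat_lit 248) (nat_lit 5) (nat_lit 241) (nat_lit 5) (nat_lit 585) (nat_lit 497) (nat_lit 478))) (XT.nd (nat_lit 78) (nat_lit 608) (nat_lit 0) (XT.lf (nat_lit 0) (nat_lit 3459299519) (nat_lit 532) (nat_lit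 4551870242) (nat_lit 608) (nat_lit 636476924) (nat_lit 233) (nat_lit 5) (nat_lit 240) (nat_lit 5) (nat_lit 241) (nat_lit 5) (nat_lit 586) (nat_lit 497) (nat_lit 477)) (XT.nd (nat_lit 78) (nat_lit 0) (nat_lit 0) (XT.lf (nat_lit 0) (nat_lit 1598825927) (nat_lit 532) (nat_lit 1414558026) (nat_lit 608) (nat_lit 5708606380) (nat_lit 225) (nat_lit 5) (nat_lit 232) (nat_lit 5) (nat_lit 233) (nat_lit 5) (nat_lit 587) (nat_lit 497) (nat_lit 476)) (XT.lf (nat_lit 0) (nat_lit 6718604250) (nat_lit 608) (nat_lit 299714029) (nat_lit 76) (nat_lit 1779607379) (nat_lit 225) (nat_lit 5) (nat_lit 233) (nat_lit 5) (nat_lit 226) (nat_lit 5) (nat_lit 588) (nat_lit 497) (nat_lit 475)))))) (XT.nd (nat_lit 390) (nat_lit 1900) (nat_lit 0) (XT.nd (nat_lit 156) (nat_lit 1064) (nat_lit 0) (XT.nd (nat_lit 78) (nat_lit 456) (nat_lit 0) (XT.lf (nat_lit 0) (nat_lit 1599195832) (nat_lit 608) (nat_lit 2224830575) (nat_lit 76) (nat_lit 5051190436)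 (nat_lit 217) (nat_lit 5) (nat_lit 225) (nat_lit 5) (nat_lit 218) (nat_lit 5) (nat_lit 589) (nat_lit 497) (nat_lit 474)) (XT.lf (nat_lit 0) (nat_lit 4760889566) (nat_lit 456) (nat_lit 541053704) (nat_lit 532) (nat_lit 3652271911) (nat_lit 211) (nat_lit 5) (nat_lit 217) (nat_lit 5) (nat_lit 218) (nat_lit 5) (nat_lit 590) (nat_lit 497) (nat_lit 473))) (XT.nd (nat_lit 78) (nat_lit 456) (nat_lit 0) (XT.lf (nat_lit 0) (nat_lit 40900266) (nat_lit 608) (nat_lit 6212165367) (nat_lit 76) (nat_lit 2781777667) (nat_lit 203) (nat_lit 5) (nat_lit 211) (nat_lit 5) (nat_lit 204) (nat_lit 5) (nat_lit 591) (nat_lit 497) (nat_lit 472)) (XT.nd (nat_lit 78) (nat_lit 0) (nat_lit 0) (XT.lf (nat_lit 0) (nat_lit 824234247) (nat_lit 456) (nat_lit 2918262973) (nat_lit 532) (nat_lit 5374440520) (nat_lit 197) (nat_lit 5) (nat_lit 203) (nat_lit 5) (nat_lit 204) (nat_lit 5) (nat_lit 592) (nat_lit 497) (nat_lit 471)) (XT.lf (nat_lit 0) (nat_lit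 7509781977) (nat_lit 532) (nat_lit 1196027535) (nat_lit 76) (nat_lit 495037219) (nat_lit 197) (nat_lit 5) (nat_lit 204) (nat_lit 5) (nat_lit 198) (nat_lit 5) (nat_lit 593) (nat_lit 497) (nat_lit 470))))) (XT.nd (nat_lit 156) (nat_lit 912) (nat_lit 0) (XT.nd (nat_lit 78) (nat_lit 456) (nat_lit 0) (XT.lf (nat_lit 0) (nat_lit 2044968284) (nat_lit 532) (nat_lit 3274298309) (nat_lit 76) (nat_lit 3966782878) (nat_lit 190) (nat_lit 5) (nat_lit 197) (nat_lit 5) (nat_lit 191) (nat_lit 5) (nat_lit 594) (nat_lit 497) (nat_lit 469)) (XT.lf (nat_lit 0) (nat_lit 3970928412) (nat_lit 456) (nat_lit 1843818775) (nat_lit 532) (nat_lit 3558357596) (nat_lit 184) (nat_lit 5) (nat_lit 190) (nat_lit 5) (nat_lit 191) (nat_lit 5) (nat_lit 595) (nat_lit 497) (nat_lit 468))) (XT.nd (nat_lit 78) (nat_lit 380) (nat_lit 0) (XT.lf (nat_lit 0) (nat_lit 188897062) (nat_lit 532) (nat_lit 7583202183) (nat_lit 76) (nat_lit 1689912003) (nat_lit 177)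 (nat_lit 5) (nat_lit 184) (nat_lit 5) (nat_lit 178) (nat_lit 5) (nat_lit 596) (nat_lit 497) (nat_lit 467)) (XT.nd (nat_lit 78) (nat_lit 380) (nat_lit 0) (XT.lf (nat_lit 0) (nat_lit 3960522102) (nat_lit 532) (nat_lit 286899934) (nat_lit 76) (nat_lit 5304867088) (nat_lit 177) (nat_lit 5) (nat_lit 184) (nat_lit 5) (nat_lit 178) (nat_lit 5) (nat_lit 597) (nat_lit 497) (nat_lit 466)) (XT.lf (nat_lit 0) (nat_lit 7173373962) (nat_lit 380) (nat_lit 630118134) (nat_lit 456) (nat_lit 1840967243) (nat_lit 172) (nat_lit 5) (nat_lit 177) (nat_lit 5) (nat_lit 178) (nat_lit 5) (nat_lit 598) (nat_lit 497) (nat_lit 465))))))))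
noncomputable def xc24 : XT := (XT.nd (nat_lit 1404) (nat_lit 1748) (nat_lit 0) (XT.nd (nat_lit 702) (nat_lit 2280) (nat_lit 0) (XT.nd (nat_lit 312) (nat_lit 1596) (nat_lit 0) (XT.nd (nat_lit 156) (nat_lit 456) (nat_lit 0) (XT.nd (nat_lit 78) (nat_lit 380) (nat_lit 0) (XT.lf (nat_lit 0) (nat_lit 1962897048) (nat_lit 532) (nat_lit 4733447337) (nat_lit 76) (nat_lit 3041794067) (nat_lit 165) (nat_lit 5) (nat_lit 172) (nat_lit 5) (nat_lit 166) (nat_lit 5) (nat_lit 599) (nat_lit 497) (nat_lit 464)) (XT.lf (nat_lit 0) (nat_lit 2773473301) (nat_lit 380) (nat_lit 3033445798) (nat_lit 456) (nat_lit 4026758791) (nat_lit 160) (nat_lit 5) (nat_lit 165) (nat_lit 5) (nat_lit 166) (nat_lit 5) (nat_lit 600) (nat_lit 497) (nat_lit 463))) (XT.nd (nat_lit 78) (nat_lit 76) (nat_lit 0) (XT.lf (nat_lit 0) (nat_lit 488972915) (nat_lit 380) (nat_lit 9228714535) (nat_lit 456) (nat_lit 213647998) (nat_lit 155) (nat_lit 5) (nat_lit 160)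 (nat_lit 5) (nat_lit 161) (nat_lit 5) (nat_lit 601) (nat_lit 497) (nat_lit 462)) (XT.lf (nat_lit 0) (nat_lit 3645602234) (nat_lit 456) (nat_lit 1866458791) (nat_lit 76) (nat_lit 4518050594) (nat_lit 154) (nat_lit 5) (nat_lit 160) (nat_lit 5) (nat_lit 155) (nat_lit 5) (nat_lit 602) (nat_lit 497) (nat_lit 461)))) (XT.nd (nat_lit 156) (nat_lit 760) (nat_lit 0) (XT.nd (nat_lit 78) (nat_lit 456) (nat_lit 0) (XT.lf (nat_lit 0) (nat_lit 5860896180) (nat_lit 380) (nat_lit 1707614990) (nat_lit 456) (nat_lit 2562541589) (nat_lit 149) (nat_lit 5) (nat_lit 154) (nat_lit 5) (nat_lit 155) (nat_lit 5) (nat_lit 603) (nat_lit 497) (nat_lit 460)) (XT.lf (nat_lit 0) (nat_lit 1319296820) (nat_lit 456) (nat_lit 6752576306) (nat_lit 76) (nat_lit 2161951312) (nat_lit 143) (nat_lit 5) (nat_lit 149) (nat_lit 5) (nat_lit 144) (nat_lit 5) (nat_lit 604) (nat_lit 497) (nat_lit 459))) (XT.nd (nat_lit 78) (nat_lit 456) (nat_lit 0) (XT.lf (nat_lit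 0) (nat_lit 1016382240) (nat_lit 304) (nat_lit 4226573983) (nat_lit 380) (nat_lit 5095390753) (nat_lit 139) (nat_lit 5) (nat_lit 143) (nat_lit 5) (nat_lit 144) (nat_lit 5) (nat_lit 605) (nat_lit 497) (nat_lit 458)) (XT.nd (nat_lit 78) (nat_lit 456) (nat_lit 0) (XT.lf (nat_lit 0) (nat_lit 8956788243) (nat_lit 304) (nat_lit 285782849) (nat_lit 380) (nat_lit 1202443273) (nat_lit 139) (nat_lit 5) (nat_lit 143) (nat_lit 5) (nat_lit 144) (nat_lit 5) (nat_lit 606) (nat_lit 497) (nat_lit 457)) (XT.lf (nat_lit 0) (nat_lit 2751479112) (nat_lit 456) (nat_lit 4083245933) (nat_lit 76) (nat_lit 3718345994) (nat_lit 133) (nat_lit 5) (nat_lit 139) (nat_lit 5) (nat_lit 134) (nat_lit 5) (nat_lit 607) (nat_lit 497) (nat_lit 456)))))) (XT.nd (nat_lit 312) (nat_lit 1292) (nat_lit 0) (XT.nd (nat_lit 156) (nat_lit 304) (nat_lit 0) (XT.nd (nat_lit 78) (nat_lit 380) (nat_lit 0) (XT.lf (nat_lit 0) (nat_lit 3910601095) (nat_lit 304) (nat_lit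 2848187974) (nat_lit 380) (nat_lit 3904536430) (nat_lit 129) (nat_lit 5) (nat_lit 133) (nat_lit 5) (nat_lit 134) (nat_lit 5) (nat_lit 608) (nat_lit 497) (nat_lit 455)) (XT.lf (nat_lit 0) (nat_lit 66616716) (nat_lit 380) (nat_lit 9498323629) (nat_lit 76) (nat_lit 1210897605) (nat_lit 124) (nat_lit 5) (nat_lit 129) (nat_lit 5) (nat_lit 125) (nat_lit 5) (nat_lit 609) (nat_lit 497) (nat_lit 454))) (XT.nd (nat_lit 78) (nat_lit 304) (nat_lit 0) (XT.lf (nat_lit 0) (nat_lit 4082872778) (nat_lit 380) (nat_lit 1450096522) (nat_lit 76) (nat_lit 5356759532) (nat_lit 124) (nat_lit 5) (nat_lit 129) (nat_lit 5) (nat_lit 125) (nat_lit 5) (nat_lit 610) (nat_lit 497) (nat_lit 453)) (XT.lf (nat_lit 0) (nat_lit 6774140359) (nat_lit 304) (nat_lit 1403644952) (nat_lit 380) (nat_lit 2828149115) (nat_lit 120) (nat_lit 5) (nat_lit 124) (nat_lit 5) (nat_lit 125) (nat_lit 5) (nat_lit 611) (nat_lit 497) (nat_lit 452)))) (XT.nd (nat_lit 156)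 (nat_lit 608) (nat_lit 0) (XT.nd (nat_lit 78) (nat_lit 304) (nat_lit 0) (XT.lf (nat_lit 0) (nat_lit 1222758744) (nat_lit 380) (nat_lit 7113720792) (nat_lit 76) (nat_lit 2787653042) (nat_lit 115) (nat_lit 5) (nat_lit 120) (nat_lit 5) (nat_lit 116) (nat_lit 5) (nat_lit 612) (nat_lit 497) (nat_lit 451)) (XT.lf (nat_lit 0) (nat_lit 1143322441) (nat_lit 304) (nat_lit 4173530793) (nat_lit 380) (nat_lit 5927470148) (nat_lit 111) (nat_lit 5) (nat_lit 115) (nat_lit 5) (nat_lit 116) (nat_lit 5) (nat_lit 613) (nat_lit 497) (nat_lit 450))) (XT.nd (nat_lit 78) (nat_lit 608) (nat_lit 0) (XT.lf (nat_lit 0) (nat_lit 9496275057) (nat_lit 380) (nat_lit 1779200110) (nat_lit 76) (nat_lit 91377181) (nat_lit 111) (nat_lit 5) (nat_lit 116) (nat_lit 5) (nat_lit 112) (nat_lit 5) (nat_lit 614) (nat_lit 497) (nat_lit 449)) (XT.nd (nat_lit 78) (nat_lit 228) (nat_lit 0) (XT.lf (nat_lit 0) (nat_lit 2264811099) (nat_lit 380) (nat_lit 4809901398)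 (nat_lit 76) (nat_lit 4416286173) (nat_lit 106) (nat_lit 5) (nat_lit 111) (nat_lit 5) (nat_lit 107) (nat_lit 5) (nat_lit 615) (nat_lit 497) (nat_lit 448)) (XT.lf (nat_lit 0) (nat_lit 3680092585) (nat_lit 228) (nat_lit 2769610698) (nat_lit 304) (nat_lit 5167843550) (nat_lit 103) (nat_lit 5) (nat_lit 106) (nat_lit 5) (nat_lit 107) (nat_lit 5) (nat_lit 616) (nat_lit 497) (nat_lit 447))))))) (XT.nd (nat_lit 77142) (nat_lit 0) (nat_lit 18088) (XT.nd (nat_lit 312) (nat_lit 836) (nat_lit 0) (XT.nd (nat_lit 156) (nat_lit 532) (nat_lit 0) (XT.nd (nat_lit 78) (nat_lit 76) (nat_lit 0) (XT.lf (nat_lit 0) (nat_lit 582762693) (nat_lit 304) (nat_lit 10138447227) (nat_lit 380) (nat_lit 1025360713) (nat_lit 99) (nat_lit 5) (nat_lit 103) (nat_lit 5) (nat_lit 104) (nat_lit 5) (nat_lit 617) (nat_lit 497) (nat_lit 446)) (XT.lf (nat_lit 0) (nat_lit 3186173472) (nat_lit 380) (nat_lit 2608948838) (nat_lit 76) (nat_lit 6082076563) (nat_lit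 98) (nat_lit 5) (nat_lit 103) (nat_lit 5) (nat_lit 99) (nat_lit 5) (nat_lit 618) (nat_lit 497) (nat_lit 445))) (XT.nd (nat_lit 78) (nat_lit 304) (nat_lit 0) (XT.lf (nat_lit 0) (nat_lit 6118554491) (nat_lit 228) (nat_lit 1346462294) (nat_lit 304) (nat_lit 4545354014) (nat_lit 95) (nat_lit 5) (nat_lit 98) (nat_lit 5) (nat_lit 99) (nat_lit 5) (nat_lit 619) (nat_lit 497) (nat_lit 444)) (XT.lf (nat_lit 0) (nat_lit 2854618910) (nat_lit 304) (nat_lit 8988954613) (nat_lit 380) (nat_lit 302352685) (nat_lit 91) (nat_lit 5) (nat_lit 95) (nat_lit 5) (nat_lit 96) (nat_lit 5) (nat_lit 620) (nat_lit 497) (nat_lit 443)))) (XT.nd (nat_lit 156) (nat_lit 532) (nat_lit 0) (XT.nd (nat_lit 78) (nat_lit 228) (nat_lit 0) (XT.lf (nat_lit 0) (nat_lit 3978779035) (nat_lit 380) (nat_lit 535065872) (nat_lit 76) (nat_lit 7769706451) (nat_lit 90) (nat_lit 5) (nat_lit 95) (nat_lit 5) (nat_lit 91) (nat_lit 5) (nat_lit 621) (nat_lit 497) (nat_lit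 442)) (XT.lf (nat_lit 0) (nat_lit 8354952027) (nat_lit 304) (nat_lit 3990018048) (nat_lit 76) (nat_lit 78652239) (nat_lit 87) (nat_lit 5) (nat_lit 91) (nat_lit 5) (nat_lit 88) (nat_lit 5) (nat_lit 622) (nat_lit 497) (nat_lit 441))) (XT.nd (nat_lit 78) (nat_lit 228) (nat_lit 0) (XT.lf (nat_lit 0) (nat_lit 273252985) (nat_lit 304) (nat_lit 7580803067) (nat_lit 76) (nat_lit 4711920284) (nat_lit 83) (nat_lit 5) (nat_lit 87) (nat_lit 5) (nat_lit 84) (nat_lit 5) (nat_lit 623) (nat_lit 497) (nat_lit 440)) (XT.nd (nat_lit 76518) (nat_lit 0) (nat_lit 23788) (XT.lf (nat_lit 0) (nat_lit 1403550360) (nat_lit 228) (nat_lit 3238545771) (nat_lit 304) (nat_lit 8068654678) (nat_lit 80) (nat_lit 5) (nat_lit 83) (nat_lit 5) (nat_lit 84) (nat_lit 5) (nat_lit 624) (nat_lit 497) (nat_lit 439)) (XT.lf (nat_lit 0) (nat_lit 334669132) (nat_lit 912) (nat_lit 3020290827) (nat_lit 0) (nat_lit 334669132) (nat_lit 393) (nat_lit 5) (nat_lit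 405) (nat_lit 4) (nat_lit 393) (nat_lit 4) (nat_lit 564) (nat_lit 498) (nat_lit 498)))))) (XT.nd (nat_lit 390) (nat_lit 2356) (nat_lit 0) (XT.nd (nat_lit 156) (nat_lit 2432) (nat_lit 0) (XT.nd (nat_lit 78) (nat_lit 912) (nat_lit 0) (XT.lf (nat_lit 0) (nat_lit 4279818310) (nat_lit 912) (nat_lit 388148763) (nat_lit 0) (nat_lit 2754884478) (nat_lit 393) (nat_lit 5) (nat_lit 405) (nat_lit 4) (nat_lit 393) (nat_lit 4) (nat_lit 565) (nat_lit 498) (nat_lit 497)) (XT.lf (nat_lit 0) (nat_lit 456221579) (nat_lit 912) (nat_lit 2098399411) (nat_lit 76) (nat_lit 4913293020) (nat_lit 381) (nat_lit 5) (nat_lit 393) (nat_lit 5) (nat_lit 382) (nat_lit 4) (nat_lit 566) (nat_lit 498) (nat_lit 496))) (XT.nd (nat_lit 78) (nat_lit 1672) (nat_lit 0) (XT.lf (nat_lit 0) (nat_lit 3685649967) (nat_lit 760) (nat_lit 359565756) (nat_lit 836) (nat_lit 3469061484) (nat_lit 371) (nat_lit 5) (nat_lit 381) (nat_lit 5) (nat_lit 382) (nat_lit 4)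 (nat_lit 567) (nat_lit 498) (nat_lit 495)) (XT.nd (nat_lit 78) (nat_lit 760) (nat_lit 0) (XT.lf (nat_lit 0) (nat_lit 115646568) (nat_lit 912) (nat_lit 5572928250) (nat_lit 76) (nat_lit 1873523055) (nat_lit 359) (nat_lit 5) (nat_lit 371) (nat_lit 5) (nat_lit 360) (nat_lit 4) (nat_lit 568) (nat_lit 498) (nat_lit 494)) (XT.lf (nat_lit 0) (nat_lit 266046641) (nat_lit 760) (nat_lit 3423933811) (nat_lit 836) (nat_lit 3921159350) (nat_lit 349) (nat_lit 5) (nat_lit 359) (nat_lit 5) (nat_lit 360) (nat_lit 4) (nat_lit 569) (nat_lit 498) (nat_lit 493))))) (XT.nd (nat_lit 156) (nat_lit 1520) (nat_lit 0) (XT.nd (nat_lit 78) (nat_lit 836) (nat_lit 0) (XT.lf (nat_lit 0) (nat_lit 6221071970) (nat_lit 760) (nat_lit 1087286171) (nat_lit 836) (nat_lit 353364175) (nat_lit 349) (nat_lit 5) (nat_lit 359) (nat_lit 5) (nat_lit 360) (nat_lit 4) (nat_lit 570) (nat_lit 498) (nat_lit 492)) (XT.lf (nat_lit 0) (nat_lit 3216875143) (nat_lit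 836) (nat_lit 3177753530) (nat_lit 76) (nat_lit 1318787967) (nat_lit 338) (nat_lit 5) (nat_lit 349) (nat_lit 5) (nat_lit 339) (nat_lit 4) (nat_lit 571) (nat_lit 498) (nat_lit 491))) (XT.nd (nat_lit 78) (nat_lit 836) (nat_lit 0) (XT.lf (nat_lit 0) (nat_lit 2836336990) (nat_lit 684) (nat_lit 3989492081) (nat_lit 760) (nat_lit 940838498) (nat_lit 329) (nat_lit 5) (nat_lit 338) (nat_lit 5) (nat_lit 339) (nat_lit 4) (nat_lit 572) (nat_lit 498) (nat_lit 490)) (XT.nd (nat_lit 78) (nat_lit 0) (nat_lit 0) (XT.lf (nat_lit 0) (nat_lit 1113570121) (nat_lit 760) (nat_lit 1502891221) (nat_lit 836) (nat_lit 5204869059) (nat_lit 318) (nat_lit 5) (nat_lit 328) (nat_lit 5) (nat_lit 329) (nat_lit 5) (nat_lit 573) (nat_lit 498) (nat_lit 489)) (XT.lf (nat_lit 0) (nat_lit 6209999323) (nat_lit 836) (nat_lit 621745023) (nat_lit 76) (nat_lit 1045673633) (nat_lit 318) (nat_lit 5) (nat_lit 329) (nat_lit 5) (nat_lit 319) (nat_lit 4) (nat_lit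 574) (nat_lit 498) (nat_lit 488))))))))
noncomputable def xc25 : XT := (XT.nd (nat_lit 1482) (nat_lit 6232) (nat_lit 0) (XT.nd (nat_lit 702) (nat_lit 4484) (nat_lit 0) (XT.nd (nat_lit 312) (nat_lit 1900) (nat_lit 0) (XT.nd (nat_lit 156) (nat_lit 1368) (nat_lit 0) (XT.nd (nat_lit 78) (nat_lit 684) (nat_lit 0) (XT.lf (nat_lit 0) (nat_lit 1900243524) (nat_lit 760) (nat_lit 2374130236) (nat_lit 76) (nat_lit 3660312499) (nat_lit 308) (nat_lit 5) (nat_lit 318) (nat_lit 5) (nat_lit 309) (nat_lit 5) (nat_lit 575) (nat_lit 498) (nat_lit 487)) (XT.lf (nat_lit 0) (nat_lit 3845130656) (nat_lit 684) (nat_lit 1640173926) (nat_lit 760) (nat_lit 2508216554) (nat_lit 299) (nat_lit 5) (nat_lit 308) (nat_lit 5) (nat_lit 309) (nat_lit 5) (nat_lit 576) (nat_lit 498) (nat_lit 486))) (XT.nd (nat_lit 78) (nat_lit 684) (nat_lit 0) (XT.lf (nat_lit 0) (nat_lit 1050423456) (nat_lit 684) (nat_lit 5949138767) (nat_lit 76) (nat_lit 1054314584)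 (nat_lit 290) (nat_lit 5) (nat_lit 299) (nat_lit 5) (nat_lit 291) (nat_lit 5) (nat_lit 577) (nat_lit 498) (nat_lit 485)) (XT.lf (nat_lit 0) (nat_lit 323815770) (nat_lit 684) (nat_lit 4303923311) (nat_lit 760) (nat_lit 3487755753) (nat_lit 281) (nat_lit 5) (nat_lit 290) (nat_lit 5) (nat_lit 291) (nat_lit 5) (nat_lit 578) (nat_lit 498) (nat_lit 484)))) (XT.nd (nat_lit 156) (nat_lit 1216) (nat_lit 0) (XT.nd (nat_lit 78) (nat_lit 608) (nat_lit 0) (XT.lf (nat_lit 0) (nat_lit 77500494) (nat_lit 760) (nat_lit 1452924467) (nat_lit 76) (nat_lit 6648305090) (nat_lit 280) (nat_lit 5) (nat_lit 290) (nat_lit 5) (nat_lit 281) (nat_lit 5) (nat_lit 579) (nat_lit 498) (nat_lit 483)) (XT.lf (nat_lit 0) (nat_lit 3649933491) (nat_lit 684) (nat_lit 3273007266) (nat_lit 76) (nat_lit 1320184770) (nat_lit 272) (nat_lit 5) (nat_lit 281) (nat_lit 5) (nat_lit 273) (nat_lit 5) (nat_lit 580) (nat_lit 498) (nat_lit 482))) (XT.nd (nat_lit 78)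 (nat_lit 608) (nat_lit 0) (XT.lf (nat_lit 0) (nat_lit 3187930965) (nat_lit 608) (nat_lit 4088592806) (nat_lit 684) (nat_lit 1032638903) (nat_lit 264) (nat_lit 5) (nat_lit 272) (nat_lit 5) (nat_lit 273) (nat_lit 5) (nat_lit 581) (nat_lit 498) (nat_lit 481)) (XT.nd (nat_lit 78) (nat_lit 0) (nat_lit 0) (XT.lf (nat_lit 0) (nat_lit 1370675217) (nat_lit 532) (nat_lit 1167687491) (nat_lit 608) (nat_lit 5838361467) (nat_lit 256) (nat_lit 5) (nat_lit 263) (nat_lit 5) (nat_lit 264) (nat_lit 5) (nat_lit 582) (nat_lit 498) (nat_lit 480)) (XT.lf (nat_lit 0) (nat_lit 6156155954) (nat_lit 608) (nat_lit 479112205) (nat_lit 76) (nat_lit 1810455734) (nat_lit 256) (nat_lit 5) (nat_lit 264) (nat_lit 5) (nat_lit 257) (nat_lit 5) (nat_lit 583) (nat_lit 498) (nat_lit 479)))))) (XT.nd (nat_lit 390) (nat_lit 2128) (nat_lit 0) (XT.nd (nat_lit 156) (nat_lit 1140) (nat_lit 0) (XT.nd (nat_lit 78) (nat_lit 532) (nat_lit 0) (XT.lf (nat_lit 0)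 (nat_lit 1304476089) (nat_lit 684) (nat_lit 2348888917) (nat_lit 76) (nat_lit 4862738645) (nat_lit 247) (nat_lit 5) (nat_lit 256) (nat_lit 5) (nat_lit 248) (nat_lit 5) (nat_lit 584) (nat_lit 498) (nat_lit 478)) (XT.lf (nat_lit 0) (nat_lit 4330840024) (nat_lit 532) (nat_lit 584474764) (nat_lit 608) (nat_lit 3672769157) (nat_lit 240) (nat_lit 5) (nat_lit 247) (nat_lit 5) (nat_lit 248) (nat_lit 5) (nat_lit 585) (nat_lit 498) (nat_lit 477))) (XT.nd (nat_lit 78) (nat_lit 608) (nat_lit 0) (XT.lf (nat_lit 0) (nat_lit 2453973498) (nat_lit 532) (nat_lit 6137386164) (nat_lit 608) (nat_lit 70291301) (nat_lit 233) (nat_lit 5) (nat_lit 240) (nat_lit 5) (nat_lit 241) (nat_lit 5) (nat_lit 586) (nat_lit 498) (nat_lit 476)) (XT.nd (nat_lit 78) (nat_lit 0) (nat_lit 0) (XT.lf (nat_lit 0) (nat_lit 523785218) (nat_lit 532) (nat_lit 3014093728) (nat_lit 608) (nat_lit 5198730730) (nat_lit 225) (nat_lit 5) (nat_lit 232) (nat_lit 5) (nat_lit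 233) (nat_lit 5) (nat_lit 587) (nat_lit 498) (nat_lit 475)) (XT.lf (nat_lit 0) (nat_lit 7205649782) (nat_lit 608) (nat_lit 1417147975) (nat_lit 76) (nat_lit 190499454) (nat_lit 225) (nat_lit 5) (nat_lit 233) (nat_lit 5) (nat_lit 226) (nat_lit 5) (nat_lit 588) (nat_lit 498) (nat_lit 474))))) (XT.nd (nat_lit 156) (nat_lit 1064) (nat_lit 0) (XT.nd (nat_lit 78) (nat_lit 456) (nat_lit 0) (XT.lf (nat_lit 0) (nat_lit 2030323363) (nat_lit 608) (nat_lit 3413916426) (nat_lit 76) (nat_lit 3446977663) (nat_lit 217) (nat_lit 5) (nat_lit 225) (nat_lit 5) (nat_lit 218) (nat_lit 5) (nat_lit 589) (nat_lit 498) (nat_lit 473)) (XT.lf (nat_lit 0) (nat_lit 3517983686) (nat_lit 456) (nat_lit 2180585842) (nat_lit 532) (nat_lit 3272339323) (nat_lit 211) (nat_lit 5) (nat_lit 217) (nat_lit 5) (nat_lit 218) (nat_lit 5) (nat_lit 590) (nat_lit 498) (nat_lit 472))) (XT.nd (nat_lit 78) (nat_lit 456) (nat_lit 0) (XT.lf (nat_lit 0) (nat_lit 370209436)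 (nat_lit 608) (nat_lit 7535715358) (nat_lit 76) (nat_lit 1146478569) (nat_lit 203) (nat_lit 5) (nat_lit 211) (nat_lit 5) (nat_lit 204) (nat_lit 5) (nat_lit 591) (nat_lit 498) (nat_lit 471)) (XT.nd (nat_lit 78) (nat_lit 456) (nat_lit 0) (XT.lf (nat_lit 0) (nat_lit 4040323655) (nat_lit 608) (nat_lit 547953817) (nat_lit 76) (nat_lit 4546852847) (nat_lit 203) (nat_lit 5) (nat_lit 211) (nat_lit 5) (nat_lit 204) (nat_lit 5) (nat_lit 592) (nat_lit 498) (nat_lit 470)) (XT.lf (nat_lit 0) (nat_lit 6591091849) (nat_lit 456) (nat_lit 1183791906) (nat_lit 532) (nat_lit 1444812850) (nat_lit 197) (nat_lit 5) (nat_lit 203) (nat_lit 5) (nat_lit 204) (nat_lit 5) (nat_lit 593) (nat_lit 498) (nat_lit 469))))))) (XT.nd (nat_lit 702) (nat_lit 2964) (nat_lit 0) (XT.nd (nat_lit 312) (nat_lit 1748) (nat_lit 0) (XT.nd (nat_lit 156) (nat_lit 532) (nat_lit 0) (XT.nd (nat_lit 78) (nat_lit 456) (nat_lit 0) (XT.lf (nat_lit 0) (nat_lit 2244968988)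 (nat_lit 532) (nat_lit 4776921824) (nat_lit 76) (nat_lit 2283839686) (nat_lit 190) (nat_lit 5) (nat_lit 197) (nat_lit 5) (nat_lit 191) (nat_lit 5) (nat_lit 594) (nat_lit 498) (nat_lit 468)) (XT.lf (nat_lit 0) (nat_lit 2410467336) (nat_lit 456) (nat_lit 3568807502) (nat_lit 532) (nat_lit 3414223074) (nat_lit 184) (nat_lit 5) (nat_lit 190) (nat_lit 5) (nat_lit 191) (nat_lit 5) (nat_lit 595) (nat_lit 498) (nat_lit 467))) (XT.nd (nat_lit 78) (nat_lit 0) (nat_lit 0) (XT.lf (nat_lit 0) (nat_lit 249376083) (nat_lit 456) (nat_lit 34739976) (nat_lit 532) (nat_lit 9199212646) (nat_lit 177) (nat_lit 5) (nat_lit 183) (nat_lit 5) (nat_lit 184) (nat_lit 5) (nat_lit 596) (nat_lit 498) (nat_lit 466)) (XT.lf (nat_lit 0) (nat_lit 4030435422) (nat_lit 532) (nat_lit 1975065653) (nat_lit 76) (nat_lit 3568614110) (nat_lit 177) (nat_lit 5) (nat_lit 184) (nat_lit 5) (nat_lit 178) (nat_lit 5) (nat_lit 597) (nat_lit 498) (nat_lit 465))))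 (XT.nd (nat_lit 156) (nat_lit 836) (nat_lit 0) (XT.nd (nat_lit 78) (nat_lit 532) (nat_lit 0) (XT.lf (nat_lit 0) (nat_lit 5425380211) (nat_lit 380) (nat_lit 2412087714) (nat_lit 456) (nat_lit 1829538667) (nat_lit 172) (nat_lit 5) (nat_lit 177) (nat_lit 5) (nat_lit 178) (nat_lit 5) (nat_lit 598) (nat_lit 498) (nat_lit 464)) (XT.lf (nat_lit 0) (nat_lit 1926046752) (nat_lit 532) (nat_lit 6576619771) (nat_lit 76) (nat_lit 1258982624) (nat_lit 165) (nat_lit 5) (nat_lit 172) (nat_lit 5) (nat_lit 166) (nat_lit 5) (nat_lit 599) (nat_lit 498) (nat_lit 463))) (XT.nd (nat_lit 78) (nat_lit 456) (nat_lit 0) (XT.lf (nat_lit 0) (nat_lit 868161058) (nat_lit 380) (nat_lit 4865190313) (nat_lit 456) (nat_lit 4124573864) (nat_lit 160) (nat_lit 5) (nat_lit 165) (nat_lit 5) (nat_lit 166) (nat_lit 5) (nat_lit 600) (nat_lit 498) (nat_lit 462)) (XT.nd (nat_lit 78) (nat_lit 456) (nat_lit 0) (XT.lf (nat_lit 0) (nat_lit 8476433421) (nat_lit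 380) (nat_lit 1135800830) (nat_lit 456) (nat_lit 343988506) (nat_lit 160) (nat_lit 5) (nat_lit 165) (nat_lit 5) (nat_lit 166) (nat_lit 5) (nat_lit 601) (nat_lit 498) (nat_lit 461)) (XT.lf (nat_lit 0) (nat_lit 3475677530) (nat_lit 456) (nat_lit 3909069059) (nat_lit 76) (nat_lit 2671097306) (nat_lit 154) (nat_lit 5) (nat_lit 160) (nat_lit 5) (nat_lit 155) (nat_lit 5) (nat_lit 602) (nat_lit 498) (nat_lit 460)))))) (XT.nd (nat_lit 390) (nat_lit 1368) (nat_lit 0) (XT.nd (nat_lit 156) (nat_lit 760) (nat_lit 0) (XT.nd (nat_lit 78) (nat_lit 456) (nat_lit 0) (XT.lf (nat_lit 0) (nat_lit 3754001176) (nat_lit 380) (nat_lit 3607259525) (nat_lit 456) (nat_lit 2796272975) (nat_lit 149) (nat_lit 5) (nat_lit 154) (nat_lit 5) (nat_lit 155) (nat_lit 5) (nat_lit 603) (nat_lit 498) (nat_lit 459)) (XT.lf (nat_lit 0) (nat_lit 1038263883) (nat_lit 456) (nat_lit 8964727206) (nat_lit 76) (nat_lit 258353999) (nat_lit 143) (nat_lit 5) (nat_lit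 149) (nat_lit 5) (nat_lit 144) (nat_lit 5) (nat_lit 604) (nat_lit 498) (nat_lit 458))) (XT.nd (nat_lit 78) (nat_lit 760) (nat_lit 0) (XT.lf (nat_lit 0) (nat_lit 4931888072) (nat_lit 456) (nat_lit 1245967472) (nat_lit 76) (nat_lit 4188614788) (nat_lit 143) (nat_lit 5) (nat_lit 149) (nat_lit 5) (nat_lit 144) (nat_lit 5) (nat_lit 605) (nat_lit 498) (nat_lit 457)) (XT.nd (nat_lit 78) (nat_lit 456) (nat_lit 0) (XT.lf (nat_lit 0) (nat_lit 6641254058) (nat_lit 304) (nat_lit 2258837272) (nat_lit 380) (nat_lit 1573676587) (nat_lit 139) (nat_lit 5) (nat_lit 143) (nat_lit 5) (nat_lit 144) (nat_lit 5) (nat_lit 606) (nat_lit 498) (nat_lit 456)) (XT.lf (nat_lit 0) (nat_lit 2333541034) (nat_lit 456) (nat_lit 6509499870) (nat_lit 76) (nat_lit 1739865252) (nat_lit 133) (nat_lit 5) (nat_lit 139) (nat_lit 5) (nat_lit 134) (nat_lit 5) (nat_lit 607) (nat_lit 498) (nat_lit 455))))) (XT.nd (nat_lit 156) (nat_lit 1064) (nat_lit 0) (XT.nd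 (nat_lit 78) (nat_lit 0) (nat_lit 0) (XT.lf (nat_lit 0) (nat_lit 1415274772) (nat_lit 304) (nat_lit 4886592461) (nat_lit 380) (nat_lit 4392074909) (nat_lit 129) (nat_lit 5) (nat_lit 133) (nat_lit 5) (nat_lit 134) (nat_lit 5) (nat_lit 608) (nat_lit 498) (nat_lit 454)) (XT.lf (nat_lit 0) (nat_lit 9513847526) (nat_lit 304) (nat_lit 833802881) (nat_lit 380) (nat_lit 459590295) (nat_lit 129) (nat_lit 5) (nat_lit 133) (nat_lit 5) (nat_lit 134) (nat_lit 5) (nat_lit 609) (nat_lit 498) (nat_lit 453))) (XT.nd (nat_lit 78) (nat_lit 684) (nat_lit 0) (XT.lf (nat_lit 0) (nat_lit 3526114819) (nat_lit 380) (nat_lit 4097845630) (nat_lit 76) (nat_lit 3297964129) (nat_lit 124) (nat_lit 5) (nat_lit 129) (nat_lit 5) (nat_lit 125) (nat_lit 5) (nat_lit 610) (nat_lit 498) (nat_lit 452)) (XT.nd (nat_lit 78) (nat_lit 380) (nat_lit 0) (XT.lf (nat_lit 0) (nat_lit 4054910338) (nat_lit 304) (nat_lit 3526305659) (nat_lit 380) (nat_lit 3457712112)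 (nat_lit 120) (nat_lit 5) (nat_lit 124) (nat_lit 5) (nat_lit 125) (nat_lit 5) (nat_lit 611) (nat_lit 498) (nat_lit 451)) (XT.lf (nat_lit 0) (nat_lit 547017228) (nat_lit 380) (nat_lit 9954598301) (nat_lit 76) (nat_lit 656682833) (nat_lit 115) (nat_lit 5) (nat_lit 120) (nat_lit 5) (nat_lit 116) (nat_lit 5) (nat_lit 612) (nat_lit 498) (nat_lit 450))))))))
noncomputable def xc26 : XT := (XT.nd (nat_lit 77766) (nat_lit 0) (nat_lit 11324) (XT.nd (nat_lit 702) (nat_lit 532) (nat_lit 0) (XT.nd (nat_lit 312) (nat_lit 988) (nat_lit 0) (XT.nd (nat_lit 156) (nat_lit 608) (nat_lit 0) (XT.nd (nat_lit 78) (nat_lit 304) (nat_lit 0) (XT.lf (nat_lit 0) (nat_lit 4611701271) (nat_lit 380) (nat_lit 1748541670) (nat_lit 76) (nat_lit 4918836044) (nat_lit 115) (nat_lit 5) (nat_lit 120) (nat_lit 5) (nat_lit 116) (nat_lit 5) (nat_lit 613) (nat_lit 498) (nat_lit 449)) (XT.lf (nat_lit 0) (nat_lit 6637409181) (nat_lit 304) (nat_lit 2119820921)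 (nat_lit 380) (nat_lit 2645057289) (nat_lit 111) (nat_lit 5) (nat_lit 115) (nat_lit 5) (nat_lit 116) (nat_lit 5) (nat_lit 614) (nat_lit 498) (nat_lit 448))) (XT.nd (nat_lit 78) (nat_lit 228) (nat_lit 0) (XT.lf (nat_lit 0) (nat_lit 1445124640) (nat_lit 380) (nat_lit 7888319367) (nat_lit 76) (nat_lit 2194199070) (nat_lit 106) (nat_lit 5) (nat_lit 111) (nat_lit 5) (nat_lit 107) (nat_lit 5) (nat_lit 615) (nat_lit 498) (nat_lit 447)) (XT.lf (nat_lit 0) (nat_lit 524846239) (nat_lit 228) (nat_lit 5063284712) (nat_lit 304) (nat_lit 6066899495) (nat_lit 103) (nat_lit 5) (nat_lit 106) (nat_lit 5) (nat_lit 107) (nat_lit 5) (nat_lit 616) (nat_lit 498) (nat_lit 446)))) (XT.nd (nat_lit 156) (nat_lit 608) (nat_lit 0) (XT.nd (nat_lit 78) (nat_lit 380) (nat_lit 0) (XT.lf (nat_lit 0) (nat_lit 9142072030) (nat_lit 228) (nat_lit 682018064) (nat_lit 304) (nat_lit 1960676560) (nat_lit 103) (nat_lit 5) (nat_lit 106) (nat_lit 5) (nat_lit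 107) (nat_lit 5) (nat_lit 617) (nat_lit 498) (nat_lit 445)) (XT.lf (nat_lit 0) (nat_lit 2219942322) (nat_lit 380) (nat_lit 5933052210) (nat_lit 76) (nat_lit 3763386862) (nat_lit 98) (nat_lit 5) (nat_lit 103) (nat_lit 5) (nat_lit 99) (nat_lit 5) (nat_lit 618) (nat_lit 498) (nat_lit 444))) (XT.nd (nat_lit 78) (nat_lit 380) (nat_lit 0) (XT.lf (nat_lit 0) (nat_lit 2714911502) (nat_lit 228) (nat_lit 3740939411) (nat_lit 304) (nat_lit 5594562476) (nat_lit 95) (nat_lit 5) (nat_lit 98) (nat_lit 5) (nat_lit 99) (nat_lit 5) (nat_lit 619) (nat_lit 498) (nat_lit 443)) (XT.nd (nat_lit 78) (nat_lit 380) (nat_lit 0) (XT.lf (nat_lit 0) (nat_lit 10779583454) (nat_lit 304) (nat_lit 645952980) (nat_lit 76) (nat_lit 761530197) (nat_lit 95) (nat_lit 5) (nat_lit 99) (nat_lit 5) (nat_lit 96) (nat_lit 5) (nat_lit 620) (nat_lit 498) (nat_lit 442)) (XT.lf (nat_lit 0) (nat_lit 2863164657) (nat_lit 380) (nat_lit 4113284339) (nat_lit 76) (nat_lit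 5348887141) (nat_lit 90) (nat_lit 5) (nat_lit 95) (nat_lit 5) (nat_lit 91) (nat_lit 5) (nat_lit 621) (nat_lit 498) (nat_lit 441)))))) (XT.nd (nat_lit 76674) (nat_lit 0) (nat_lit 20976) (XT.nd (nat_lit 156) (nat_lit 76) (nat_lit 0) (XT.nd (nat_lit 78) (nat_lit 228) (nat_lit 0) (XT.lf (nat_lit 0) (nat_lit 4773551314) (nat_lit 228) (nat_lit 2421207813) (nat_lit 304) (nat_lit 5271540807) (nat_lit 87) (nat_lit 5) (nat_lit 90) (nat_lit 5) (nat_lit 91) (nat_lit 5) (nat_lit 622) (nat_lit 498) (nat_lit 440)) (XT.lf (nat_lit 0) (nat_lit 1216100597) (nat_lit 228) (nat_lit 10406191093) (nat_lit 304) (nat_lit 987607707) (nat_lit 84) (nat_lit 5) (nat_lit 87) (nat_lit 5) (nat_lit 88) (nat_lit 5) (nat_lit 623) (nat_lit 498) (nat_lit 439))) (XT.nd (nat_lit 76362) (nat_lit 0) (nat_lit 24472) (XT.lf (nat_lit 0) (nat_lit 3364906779) (nat_lit 304) (nat_lit 2455923377) (nat_lit 76) (nat_lit 6934558781) (nat_lit 83) (nat_lit 5) (nat_lit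 87) (nat_lit 5) (nat_lit 84) (nat_lit 5) (nat_lit 624) (nat_lit 498) (nat_lit 438)) (XT.nd (nat_lit 78) (nat_lit 912) (nat_lit 0) (XT.lf (nat_lit 0) (nat_lit 1196228726) (nat_lit 988) (nat_lit 1255080206) (nat_lit 0) (nat_lit 1196228726) (nat_lit 417) (nat_lit 5) (nat_lit 430) (nat_lit 4) (nat_lit 417) (nat_lit 4) (nat_lit 562) (nat_lit 499) (nat_lit 499)) (XT.lf (nat_lit 0) (nat_lit 3045639806) (nat_lit 912) (nat_lit 2938825132) (nat_lit 912) (nat_lit 1352283972) (nat_lit 405) (nat_lit 4) (nat_lit 417) (nat_lit 5) (nat_lit 417) (nat_lit 4) (nat_lit 563) (nat_lit 499) (nat_lit 498))))) (XT.nd (nat_lit 156) (nat_lit 2584) (nat_lit 0) (XT.nd (nat_lit 78) (nat_lit 0) (nat_lit 0) (XT.lf (nat_lit 0) (nat_lit 1295409841) (nat_lit 836) (nat_lit 901314668) (nat_lit 912) (nat_lit 5183100791) (nat_lit 393) (nat_lit 5) (nat_lit 404) (nat_lit 5) (nat_lit 405) (nat_lit 4) (nat_lit 564) (nat_lit 499) (nat_lit 497)) (XT.lf (nat_lit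 0) (nat_lit 5768119098) (nat_lit 912) (nat_lit 463367764) (nat_lit 0) (nat_lit 1192719587) (nat_lit 393) (nat_lit 5) (nat_lit 405) (nat_lit 4) (nat_lit 393) (nat_lit 4) (nat_lit 565) (nat_lit 499) (nat_lit 496))) (XT.nd (nat_lit 78) (nat_lit 1672) (nat_lit 0) (XT.lf (nat_lit 0) (nat_lit 1890122463) (nat_lit 912) (nat_lit 2223070928) (nat_lit 76) (nat_lit 3356559136) (nat_lit 381) (nat_lit 5) (nat_lit 393) (nat_lit 5) (nat_lit 382) (nat_lit 4) (nat_lit 566) (nat_lit 499) (nat_lit 495)) (XT.nd (nat_lit 78) (nat_lit 912) (nat_lit 0) (XT.lf (nat_lit 0) (nat_lit 3522130789) (nat_lit 760) (nat_lit 1923526786) (nat_lit 836) (nat_lit 2071133052) (nat_lit 371) (nat_lit 5) (nat_lit 381) (nat_lit 5) (nat_lit 382) (nat_lit 4) (nat_lit 567) (nat_lit 499) (nat_lit 494)) (XT.lf (nat_lit 0) (nat_lit 1451496077) (nat_lit 912) (nat_lit 5780625629) (nat_lit 76) (nat_lit 333188457) (nat_lit 359) (nat_lit 5) (nat_lit 371) (nat_lit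 5) (nat_lit 360) (nat_lit 4) (nat_lit 568) (nat_lit 499) (nat_lit 493))))))) (XT.nd (nat_lit 702) (nat_lit 4408) (nat_lit 0) (XT.nd (nat_lit 312) (nat_lit 2888) (nat_lit 0) (XT.nd (nat_lit 156) (nat_lit 1520) (nat_lit 0) (XT.nd (nat_lit 78) (nat_lit 76) (nat_lit 0) (XT.lf (nat_lit 0) (nat_lit 17830871) (nat_lit 760) (nat_lit 4974533574) (nat_lit 836) (nat_lit 2622662348) (nat_lit 349) (nat_lit 5) (nat_lit 359) (nat_lit 5) (nat_lit 360) (nat_lit 4) (nat_lit 569) (nat_lit 499) (nat_lit 492)) (XT.lf (nat_lit 0) (nat_lit 901053921) (nat_lit 836) (nat_lit 1736333620) (nat_lit 76) (nat_lit 5028737886) (nat_lit 348) (nat_lit 5) (nat_lit 359) (nat_lit 5) (nat_lit 349) (nat_lit 5) (nat_lit 570) (nat_lit 499) (nat_lit 491))) (XT.nd (nat_lit 78) (nat_lit 760) (nat_lit 0) (XT.lf (nat_lit 0) (nat_lit 4205377621) (nat_lit 760) (nat_lit 219340981) (nat_lit 836) (nat_lit 3293899147) (nat_lit 338) (nat_lit 5) (nat_lit 348) (nat_lit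 5) (nat_lit 349) (nat_lit 5) (nat_lit 571) (nat_lit 499) (nat_lit 490)) (XT.lf (nat_lit 0) (nat_lit 223543294) (nat_lit 760) (nat_lit 5313743215) (nat_lit 76) (nat_lit 2235249596) (nat_lit 328) (nat_lit 5) (nat_lit 338) (nat_lit 5) (nat_lit 329) (nat_lit 5) (nat_lit 572) (nat_lit 499) (nat_lit 489)))) (XT.nd (nat_lit 156) (nat_lit 2128) (nat_lit 0) (XT.nd (nat_lit 78) (nat_lit 0) (nat_lit 0) (XT.lf (nat_lit 0) (nat_lit 681160889) (nat_lit 760) (nat_lit 3053965806) (nat_lit 836) (nat_lit 4092622400) (nat_lit 318) (nat_lit 5) (nat_lit 328) (nat_lit 5) (nat_lit 329) (nat_lit 5) (nat_lit 573) (nat_lit 499) (nat_lit 488)) (XT.lf (nat_lit 0) (nat_lit 6793308669) (nat_lit 760) (nat_lit 498266248) (nat_lit 836) (nat_lit 593008246) (nat_lit 318) (nat_lit 5) (nat_lit 328) (nat_lit 5) (nat_lit 329) (nat_lit 5) (nat_lit 574) (nat_lit 499) (nat_lit 487))) (XT.nd (nat_lit 78) (nat_lit 1368) (nat_lit 0) (XT.lf (nat_lit 0) (nat_lit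 2924112611) (nat_lit 760) (nat_lit 2898541443) (nat_lit 76) (nat_lit 2119791388) (nat_lit 308) (nat_lit 5) (nat_lit 318) (nat_lit 5) (nat_lit 309) (nat_lit 5) (nat_lit 575) (nat_lit 499) (nat_lit 486)) (XT.nd (nat_lit 78) (nat_lit 684) (nat_lit 0) (XT.lf (nat_lit 0) (nat_lit 3276303572) (nat_lit 684) (nat_lit 3199661506) (nat_lit 760) (nat_lit 1525983835) (nat_lit 299) (nat_lit 5) (nat_lit 308) (nat_lit 5) (nat_lit 309) (nat_lit 5) (nat_lit 576) (nat_lit 499) (nat_lit 485)) (XT.lf (nat_lit 0) (nat_lit 1482824506) (nat_lit 608) (nat_lit 496556911) (nat_lit 684) (nat_lit 6083607724) (nat_lit 290) (nat_lit 5) (nat_lit 298) (nat_lit 5) (nat_lit 299) (nat_lit 5) (nat_lit 577) (nat_lit 499) (nat_lit 484)))))) (XT.nd (nat_lit 390) (nat_lit 1824) (nat_lit 0) (XT.nd (nat_lit 156) (nat_lit 1824) (nat_lit 0) (XT.nd (nat_lit 78) (nat_lit 760) (nat_lit 0) (XT.lf (nat_lit 0) (nat_lit 5522283906) (nat_lit 684) (nat_lit 345630040)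 (nat_lit 76) (nat_lit 2257385653) (nat_lit 290) (nat_lit 5) (nat_lit 299) (nat_lit 5) (nat_lit 291) (nat_lit 5) (nat_lit 578) (nat_lit 499) (nat_lit 483)) (XT.lf (nat_lit 0) (nat_lit 919395993) (nat_lit 760) (nat_lit 2180082769) (nat_lit 76) (nat_lit 5089569992) (nat_lit 280) (nat_lit 5) (nat_lit 290) (nat_lit 5) (nat_lit 281) (nat_lit 5) (nat_lit 579) (nat_lit 499) (nat_lit 482))) (XT.nd (nat_lit 78) (nat_lit 1216) (nat_lit 0) (XT.lf (nat_lit 0) (nat_lit 4204862768) (nat_lit 608) (nat_lit 244870325) (nat_lit 684) (nat_lit 3804556984) (nat_lit 272) (nat_lit 5) (nat_lit 280) (nat_lit 5) (nat_lit 281) (nat_lit 5) (nat_lit 580) (nat_lit 499) (nat_lit 481)) (XT.nd (nat_lit 78) (nat_lit 608) (nat_lit 0) (XT.lf (nat_lit 0) (nat_lit 2365239500) (nat_lit 608) (nat_lit 5676032158) (nat_lit 684) (nat_lit 279760449) (nat_lit 264) (nat_lit 5) (nat_lit 272) (nat_lit 5) (nat_lit 273) (nat_lit 5) (nat_lit 581) (nat_lit 499) (nat_lit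 480)) (XT.lf (nat_lit 0) (nat_lit 482372486) (nat_lit 532) (nat_lit 2765231081) (nat_lit 608) (nat_lit 5141571248) (nat_lit 256) (nat_lit 5) (nat_lit 263) (nat_lit 5) (nat_lit 264) (nat_lit 5) (nat_lit 582) (nat_lit 499) (nat_lit 479))))) (XT.nd (nat_lit 156) (nat_lit 1140) (nat_lit 0) (XT.nd (nat_lit 78) (nat_lit 684) (nat_lit 0) (XT.lf (nat_lit 0) (nat_lit 6827277275) (nat_lit 608) (nat_lit 1406949072) (nat_lit 76) (nat_lit 224714204) (nat_lit 256) (nat_lit 5) (nat_lit 264) (nat_lit 5) (nat_lit 257) (nat_lit 5) (nat_lit 583) (nat_lit 499) (nat_lit 478)) (XT.lf (nat_lit 0) (nat_lit 1919977585) (nat_lit 684) (nat_lit 3344206183) (nat_lit 76) (nat_lit 3265730090) (nat_lit 247) (nat_lit 5) (nat_lit 256) (nat_lit 5) (nat_lit 248) (nat_lit 5) (nat_lit 584) (nat_lit 499) (nat_lit 477))) (XT.nd (nat_lit 78) (nat_lit 608) (nat_lit 0) (XT.lf (nat_lit 0) (nat_lit 3284962689) (nat_lit 532) (nat_lit 2211974818) (nat_lit 608)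 (nat_lit 3105637639) (nat_lit 240) (nat_lit 5) (nat_lit 247) (nat_lit 5) (nat_lit 248) (nat_lit 5) (nat_lit 585) (nat_lit 499) (nat_lit 476)) (XT.nd (nat_lit 78) (nat_lit 0) (nat_lit 0) (XT.lf (nat_lit 0) (nat_lit 445449822) (nat_lit 608) (nat_lit 7327316278) (nat_lit 76) (nat_lit 904212319) (nat_lit 232) (nat_lit 5) (nat_lit 240) (nat_lit 5) (nat_lit 233) (nat_lit 5) (nat_lit 586) (nat_lit 499) (nat_lit 475)) (XT.lf (nat_lit 0) (nat_lit 4022547301) (nat_lit 608) (nat_lit 640370693) (nat_lit 76) (nat_lit 4089616250) (nat_lit 232) (nat_lit 5) (nat_lit 240) (nat_lit 5) (nat_lit 233) (nat_lit 5) (nat_lit 587) (nat_lit 499) (nat_lit 474))))))))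
noncomputable def xc27 : XT := (XT.nd (nat_lit 1482) (nat_lit 4256) (nat_lit 0) (XT.nd (nat_lit 702) (nat_lit 3344) (nat_lit 0) (XT.nd (nat_lit 312) (nat_lit 1520) (nat_lit 0) (XT.nd (nat_lit 156) (nat_lit 1064) (nat_lit 0) (XT.nd (nat_lit 78) (nat_lit 608) (nat_lit 0) (XT.lf (nat_lit 0) (nat_lit 6187814983) (nat_lit 532) (nat_lit 1470571408) (nat_lit 608) (nat_lit 1171477181) (nat_lit 225) (nat_lit 5) (nat_lit 232) (nat_lit 5) (nat_lit 233) (nat_lit 5) (nat_lit 588) (nat_lit 499) (nat_lit 473)) (XT.lf (nat_lit 0) (nat_lit 2416681807) (nat_lit 608) (nat_lit 4702572565) (nat_lit 76) (nat_lit 1789357665) (nat_lit 217) (nat_lit 5) (nat_lit 225) (nat_lit 5) (nat_lit 218) (nat_lit 5) (nat_lit 589) (nat_lit 499) (nat_lit 472))) (XT.nd (nat_lit 78) (nat_lit 608) (nat_lit 0) (XT.lf (nat_lit 0) (nat_lit 2174929726) (nat_lit 456) (nat_lit 3875365010) (nat_lit 532) (nat_lit 2938704342) (nat_lit 211) (nat_lit 5) (nat_lit 217)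 (nat_lit 5) (nat_lit 218) (nat_lit 5) (nat_lit 590) (nat_lit 499) (nat_lit 471)) (XT.lf (nat_lit 0) (nat_lit 105575863) (nat_lit 532) (nat_lit 551323337) (nat_lit 608) (nat_lit 8414405317) (nat_lit 203) (nat_lit 5) (nat_lit 210) (nat_lit 5) (nat_lit 211) (nat_lit 5) (nat_lit 591) (nat_lit 499) (nat_lit 470)))) (XT.nd (nat_lit 156) (nat_lit 1064) (nat_lit 0) (XT.nd (nat_lit 78) (nat_lit 456) (nat_lit 0) (XT.lf (nat_lit 0) (nat_lit 4297814981) (nat_lit 608) (nat_lit 2011473923) (nat_lit 76) (nat_lit 2845329343) (nat_lit 203) (nat_lit 5) (nat_lit 211) (nat_lit 5) (nat_lit 204) (nat_lit 5) (nat_lit 592) (nat_lit 499) (nat_lit 469)) (XT.lf (nat_lit 0) (nat_lit 5071279955) (nat_lit 456) (nat_lit 2926110949) (nat_lit 532) (nat_lit 1242496063) (nat_lit 197) (nat_lit 5) (nat_lit 203) (nat_lit 5) (nat_lit 204) (nat_lit 5) (nat_lit 593) (nat_lit 499) (nat_lit 468))) (XT.nd (nat_lit 78) (nat_lit 532) (nat_lit 0) (XT.lf (nat_lit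 0) (nat_lit 2397779869) (nat_lit 532) (nat_lit 6385088912) (nat_lit 76) (nat_lit 543965498) (nat_lit 190) (nat_lit 5) (nat_lit 197) (nat_lit 5) (nat_lit 191) (nat_lit 5) (nat_lit 594) (nat_lit 499) (nat_lit 467)) (XT.nd (nat_lit 78) (nat_lit 76) (nat_lit 0) (XT.lf (nat_lit 0) (nat_lit 743802589) (nat_lit 456) (nat_lit 5352617428) (nat_lit 532) (nat_lit 3318897584) (nat_lit 184) (nat_lit 5) (nat_lit 190) (nat_lit 5) (nat_lit 191) (nat_lit 5) (nat_lit 595) (nat_lit 499) (nat_lit 466)) (XT.lf (nat_lit 0) (nat_lit 351813062) (nat_lit 532) (nat_lit 1479727412) (nat_lit 76) (nat_lit 7674125596) (nat_lit 183) (nat_lit 5) (nat_lit 190) (nat_lit 5) (nat_lit 184) (nat_lit 5) (nat_lit 596) (nat_lit 499) (nat_lit 465)))))) (XT.nd (nat_lit 390) (nat_lit 1596) (nat_lit 0) (XT.nd (nat_lit 156) (nat_lit 912) (nat_lit 0) (XT.nd (nat_lit 78) (nat_lit 380) (nat_lit 0) (XT.lf (nat_lit 0) (nat_lit 4052078528) (nat_lit 532) (nat_lit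 3771538301) (nat_lit 76) (nat_lit 1773759239) (nat_lit 177) (nat_lit 5) (nat_lit 184) (nat_lit 5) (nat_lit 178) (nat_lit 5) (nat_lit 597) (nat_lit 499) (nat_lit 464)) (XT.lf (nat_lit 0) (nat_lit 3568373389) (nat_lit 380) (nat_lit 4254574492) (nat_lit 456) (nat_lit 1868045252) (nat_lit 172) (nat_lit 5) (nat_lit 177) (nat_lit 5) (nat_lit 178) (nat_lit 5) (nat_lit 598) (nat_lit 499) (nat_lit 463))) (XT.nd (nat_lit 78) (nat_lit 380) (nat_lit 0) (XT.lf (nat_lit 0) (nat_lit 1250995671) (nat_lit 456) (nat_lit 592127564) (nat_lit 532) (nat_lit 7943418192) (nat_lit 165) (nat_lit 5) (nat_lit 171) (nat_lit 5) (nat_lit 172) (nat_lit 5) (nat_lit 599) (nat_lit 499) (nat_lit 462)) (XT.nd (nat_lit 78) (nat_lit 380) (nat_lit 0) (XT.lf (nat_lit 0) (nat_lit 5617077202) (nat_lit 532) (nat_lit 1134729368) (nat_lit 76) (nat_lit 3131680214) (nat_lit 165) (nat_lit 5) (nat_lit 172) (nat_lit 5) (nat_lit 166) (nat_lit 5) (nat_lit 600) (nat_lit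 499) (nat_lit 461)) (XT.lf (nat_lit 0) (nat_lit 6422279823) (nat_lit 380) (nat_lit 3042578547) (nat_lit 456) (nat_lit 517550183) (nat_lit 160) (nat_lit 5) (nat_lit 165) (nat_lit 5) (nat_lit 166) (nat_lit 5) (nat_lit 601) (nat_lit 499) (nat_lit 460))))) (XT.nd (nat_lit 156) (nat_lit 760) (nat_lit 0) (XT.nd (nat_lit 78) (nat_lit 380) (nat_lit 0) (XT.lf (nat_lit 0) (nat_lit 3254588592) (nat_lit 456) (nat_lit 6066569440) (nat_lit 76) (nat_lit 761892391) (nat_lit 154) (nat_lit 5) (nat_lit 160) (nat_lit 5) (nat_lit 155) (nat_lit 5) (nat_lit 602) (nat_lit 499) (nat_lit 459)) (XT.lf (nat_lit 0) (nat_lit 1531417456) (nat_lit 380) (nat_lit 5571141070) (nat_lit 456) (nat_lit 3082936028) (nat_lit 149) (nat_lit 5) (nat_lit 154) (nat_lit 5) (nat_lit 155) (nat_lit 5) (nat_lit 603) (nat_lit 499) (nat_lit 458))) (XT.nd (nat_lit 78) (nat_lit 684) (nat_lit 0) (XT.lf (nat_lit 0) (nat_lit 722116984) (nat_lit 456) (nat_lit 1003366455)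 (nat_lit 76) (nat_lit 8564526623) (nat_lit 148) (nat_lit 5) (nat_lit 154) (nat_lit 5) (nat_lit 149) (nat_lit 5) (nat_lit 604) (nat_lit 499) (nat_lit 457)) (XT.nd (nat_lit 78) (nat_lit 304) (nat_lit 0) (XT.lf (nat_lit 0) (nat_lit 4574916725) (nat_lit 456) (nat_lit 3612982181) (nat_lit 76) (nat_lit 2208054853) (nat_lit 143) (nat_lit 5) (nat_lit 149) (nat_lit 5) (nat_lit 144) (nat_lit 5) (nat_lit 605) (nat_lit 499) (nat_lit 456)) (XT.lf (nat_lit 0) (nat_lit 4206874910) (nat_lit 304) (nat_lit 4297913338) (nat_lit 380) (nat_lit 1999231657) (nat_lit 139) (nat_lit 5) (nat_lit 143) (nat_lit 5) (nat_lit 144) (nat_lit 5) (nat_lit 606) (nat_lit 499) (nat_lit 455))))))) (XT.nd (nat_lit 702) (nat_lit 1748) (nat_lit 0) (XT.nd (nat_lit 312) (nat_lit 1368) (nat_lit 0) (XT.nd (nat_lit 156) (nat_lit 684) (nat_lit 0) (XT.nd (nat_lit 78) (nat_lit 0) (nat_lit 0) (XT.lf (nat_lit 0) (nat_lit 1554520437) (nat_lit 380) (nat_lit 308707554)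 (nat_lit 456) (nat_lit 8750994046) (nat_lit 133) (nat_lit 5) (nat_lit 138) (nat_lit 5) (nat_lit 139) (nat_lit 5) (nat_lit 607) (nat_lit 499) (nat_lit 454)) (XT.lf (nat_lit 0) (nat_lit 5798025224) (nat_lit 456) (nat_lit 1187117278) (nat_lit 76) (nat_lit 3740787914) (nat_lit 133) (nat_lit 5) (nat_lit 139) (nat_lit 5) (nat_lit 134) (nat_lit 5) (nat_lit 608) (nat_lit 499) (nat_lit 453))) (XT.nd (nat_lit 78) (nat_lit 380) (nat_lit 0) (XT.lf (nat_lit 0) (nat_lit 6860280668) (nat_lit 304) (nat_lit 2953590142) (nat_lit 380) (nat_lit 1025958697) (nat_lit 129) (nat_lit 5) (nat_lit 133) (nat_lit 5) (nat_lit 134) (nat_lit 5) (nat_lit 609) (nat_lit 499) (nat_lit 452)) (XT.lf (nat_lit 0) (nat_lit 2913465955) (nat_lit 380) (nat_lit 6870901519) (nat_lit 76) (nat_lit 1171295333) (nat_lit 124) (nat_lit 5) (nat_lit 129) (nat_lit 5) (nat_lit 125) (nat_lit 5) (nat_lit 610) (nat_lit 499) (nat_lit 451)))) (XT.nd (nat_lit 156) (nat_lit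 1064) (nat_lit 0) (XT.nd (nat_lit 78) (nat_lit 0) (nat_lit 0) (XT.lf (nat_lit 0) (nat_lit 1209419916) (nat_lit 304) (nat_lit 5718950533) (nat_lit 380) (nat_lit 4145101499) (nat_lit 120) (nat_lit 5) (nat_lit 124) (nat_lit 5) (nat_lit 125) (nat_lit 5) (nat_lit 611) (nat_lit 499) (nat_lit 450)) (XT.lf (nat_lit 0) (nat_lit 9474018188) (nat_lit 304) (nat_lit 1552186869) (nat_lit 380) (nat_lit 167382893) (nat_lit 120) (nat_lit 5) (nat_lit 124) (nat_lit 5) (nat_lit 125) (nat_lit 5) (nat_lit 612) (nat_lit 499) (nat_lit 449))) (XT.nd (nat_lit 78) (nat_lit 684) (nat_lit 0) (XT.lf (nat_lit 0) (nat_lit 3856474584) (nat_lit 380) (nat_lit 4754226015) (nat_lit 76) (nat_lit 2704551726) (nat_lit 115) (nat_lit 5) (nat_lit 120) (nat_lit 5) (nat_lit 116) (nat_lit 5) (nat_lit 613) (nat_lit 499) (nat_lit 448)) (XT.nd (nat_lit 78) (nat_lit 380) (nat_lit 0) (XT.lf (nat_lit 0) (nat_lit 3556727014) (nat_lit 304) (nat_lit 4404141120) (nat_lit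 380) (nat_lit 3478416849) (nat_lit 111) (nat_lit 5) (nat_lit 115) (nat_lit 5) (nat_lit 116) (nat_lit 5) (nat_lit 614) (nat_lit 499) (nat_lit 447)) (XT.lf (nat_lit 0) (nat_lit 465309841) (nat_lit 304) (nat_lit 101163591) (nat_lit 380) (nat_lit 10999401367) (nat_lit 106) (nat_lit 5) (nat_lit 110) (nat_lit 5) (nat_lit 111) (nat_lit 5) (nat_lit 615) (nat_lit 499) (nat_lit 446)))))) (XT.nd (nat_lit 390) (nat_lit 912) (nat_lit 0) (XT.nd (nat_lit 156) (nat_lit 608) (nat_lit 0) (XT.nd (nat_lit 78) (nat_lit 228) (nat_lit 0) (XT.lf (nat_lit 0) (nat_lit 4684434957) (nat_lit 380) (nat_lit 2728377702) (nat_lit 76) (nat_lit 4280951863) (nat_lit 106) (nat_lit 5) (nat_lit 111) (nat_lit 5) (nat_lit 107) (nat_lit 5) (nat_lit 616) (nat_lit 499) (nat_lit 445)) (XT.lf (nat_lit 0) (nat_lit 5818066295) (nat_lit 228) (nat_lit 3063584869) (nat_lit 304) (nat_lit 2942625857) (nat_lit 103) (nat_lit 5) (nat_lit 106) (nat_lit 5) (nat_lit 107)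 (nat_lit 5) (nat_lit 617) (nat_lit 499) (nat_lit 444))) (XT.nd (nat_lit 78) (nat_lit 228) (nat_lit 0) (XT.lf (nat_lit 0) (nat_lit 1192297800) (nat_lit 380) (nat_lit 9394136108) (nat_lit 76) (nat_lit 1370758210) (nat_lit 98) (nat_lit 5) (nat_lit 103) (nat_lit 5) (nat_lit 99) (nat_lit 5) (nat_lit 618) (nat_lit 499) (nat_lit 443)) (XT.nd (nat_lit 78) (nat_lit 228) (nat_lit 0) (XT.lf (nat_lit 0) (nat_lit 5390151920) (nat_lit 380) (nat_lit 815994856) (nat_lit 76) (nat_lit 5885839774) (nat_lit 98) (nat_lit 5) (nat_lit 103) (nat_lit 5) (nat_lit 99) (nat_lit 5) (nat_lit 619) (nat_lit 499) (nat_lit 442)) (XT.lf (nat_lit 0) (nat_lit 7970482614) (nat_lit 228) (nat_lit 1712775774) (nat_lit 304) (nat_lit 2545995246) (nat_lit 95) (nat_lit 5) (nat_lit 98) (nat_lit 5) (nat_lit 99) (nat_lit 5) (nat_lit 620) (nat_lit 499) (nat_lit 441))))) (XT.nd (nat_lit 156) (nat_lit 304) (nat_lit 0) (XT.nd (nat_lit 78) (nat_lit 228) (nat_lit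 0) (XT.lf (nat_lit 0) (nat_lit 1684243801) (nat_lit 380) (nat_lit 7832460453) (nat_lit 76) (nat_lit 2852074809) (nat_lit 90) (nat_lit 5) (nat_lit 95) (nat_lit 5) (nat_lit 91) (nat_lit 5) (nat_lit 621) (nat_lit 499) (nat_lit 440)) (XT.lf (nat_lit 0) (nat_lit 970822207) (nat_lit 228) (nat_lit 5000429995) (nat_lit 304) (nat_lit 6539383624) (nat_lit 87) (nat_lit 5) (nat_lit 90) (nat_lit 5) (nat_lit 91) (nat_lit 5) (nat_lit 622) (nat_lit 499) (nat_lit 439))) (XT.nd (nat_lit 78) (nat_lit 304) (nat_lit 0) (XT.lf (nat_lit 0) (nat_lit 9988756541) (nat_lit 228) (nat_lit 367963018) (nat_lit 304) (nat_lit 2298358255) (nat_lit 87) (nat_lit 5) (nat_lit 90) (nat_lit 5) (nat_lit 91) (nat_lit 5) (nat_lit 623) (nat_lit 499) (nat_lit 438)) (XT.nd (nat_lit 76206) (nat_lit 0) (nat_lit 26372) (XT.lf (nat_lit 0) (nat_lit 2031527074) (nat_lit 304) (nat_lit 6442099279) (nat_lit 76) (nat_lit 4327908778) (nat_lit 83) (nat_lit 5) (nat_lit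 87) (nat_lit 5) (nat_lit 84) (nat_lit 5) (nat_lit 624) (nat_lit 499) (nat_lit 437)) (XT.lf (nat_lit 0) (nat_lit 536407511) (nat_lit 988) (nat_lit 1535582920) (nat_lit 988) (nat_lit 1535582920) (nat_lit 430) (nat_lit 4) (nat_lit 443) (nat_lit 5) (nat_lit 443) (nat_lit 4) (nat_lit 560) (nat_lit 500) (nat_lit 500))))))))
noncomputable def xc28 : XT := (XT.nd (nat_lit 1482) (nat_lit 8208) (nat_lit 0) (XT.nd (nat_lit 702) (nat_lit 6004) (nat_lit 0) (XT.nd (nat_lit 312) (nat_lit 2584) (nat_lit 0) (XT.nd (nat_lit 156) (nat_lit 1824) (nat_lit 0) (XT.nd (nat_lit 78) (nat_lit 912) (nat_lit 0) (XT.lf (nat_lit 0) (nat_lit 454103263) (nat_lit 1064) (nat_lit 733348831) (nat_lit 76) (nat_lit 6067480523) (nat_lit 429) (nat_lit 5) (nat_lit 443) (nat_lit 5) (nat_lit 430) (nat_lit 4) (nat_lit 561) (nat_lit 500) (nat_lit 499)) (XT.lf (nat_lit 0) (nat_lit 3976896172) (nat_lit 988) (nat_lit 2546779224) (nat_lit 0) (nat_lit 772083029)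 (nat_lit 417) (nat_lit 5) (nat_lit 430) (nat_lit 4) (nat_lit 417) (nat_lit 4) (nat_lit 562) (nat_lit 500) (nat_lit 498))) (XT.nd (nat_lit 78) (nat_lit 836) (nat_lit 0) (XT.lf (nat_lit 0) (nat_lit 194559816) (nat_lit 988) (nat_lit 4367234821) (nat_lit 76) (nat_lit 2776291036) (nat_lit 404) (nat_lit 5) (nat_lit 417) (nat_lit 5) (nat_lit 405) (nat_lit 4) (nat_lit 563) (nat_lit 500) (nat_lit 497)) (XT.lf (nat_lit 0) (nat_lit 1172787096) (nat_lit 836) (nat_lit 2519275567) (nat_lit 912) (nat_lit 3689605278) (nat_lit 393) (nat_lit 5) (nat_lit 404) (nat_lit 5) (nat_lit 405) (nat_lit 4) (nat_lit 564) (nat_lit 500) (nat_lit 496)))) (XT.nd (nat_lit 156) (nat_lit 1672) (nat_lit 0) (XT.nd (nat_lit 78) (nat_lit 912) (nat_lit 0) (XT.lf (nat_lit 0) (nat_lit 6810348390) (nat_lit 836) (nat_lit 412701631) (nat_lit 912) (nat_lit 203813165) (nat_lit 393) (nat_lit 5) (nat_lit 404) (nat_lit 5) (nat_lit 405) (nat_lit 4) (nat_lit 565)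 (nat_lit 500) (nat_lit 495)) (XT.lf (nat_lit 0) (nat_lit 3287258703) (nat_lit 912) (nat_lit 2424376091) (nat_lit 76) (nat_lit 1761313430) (nat_lit 381) (nat_lit 5) (nat_lit 393) (nat_lit 5) (nat_lit 382) (nat_lit 4) (nat_lit 566) (nat_lit 500) (nat_lit 494))) (XT.nd (nat_lit 78) (nat_lit 912) (nat_lit 0) (XT.lf (nat_lit 0) (nat_lit 3281688777) (nat_lit 760) (nat_lit 3527781815) (nat_lit 836) (nat_lit 711187806) (nat_lit 371) (nat_lit 5) (nat_lit 381) (nat_lit 5) (nat_lit 382) (nat_lit 4) (nat_lit 567) (nat_lit 500) (nat_lit 493)) (XT.nd (nat_lit 78) (nat_lit 0) (nat_lit 0) (XT.lf (nat_lit 0) (nat_lit 1493764351) (nat_lit 836) (nat_lit 1264161049) (nat_lit 912) (nat_lit 4811794932) (nat_lit 359) (nat_lit 5) (nat_lit 370) (nat_lit 5) (nat_lit 371) (nat_lit 5) (nat_lit 568) (nat_lit 500) (nat_lit 492)) (XT.lf (nat_lit 0) (nat_lit 6259240878) (nat_lit 912) (nat_lit 306057914) (nat_lit 76) (nat_lit 1054934513) (nat_lit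 359) (nat_lit 5) (nat_lit 371) (nat_lit 5) (nat_lit 360) (nat_lit 4) (nat_lit 569) (nat_lit 500) (nat_lit 491)))))) (XT.nd (nat_lit 390) (nat_lit 2812) (nat_lit 0) (XT.nd (nat_lit 156) (nat_lit 1596) (nat_lit 0) (XT.nd (nat_lit 78) (nat_lit 760) (nat_lit 0) (XT.lf (nat_lit 0) (nat_lit 2113087864) (nat_lit 836) (nat_lit 2114424685) (nat_lit 76) (nat_lit 3444322417) (nat_lit 348) (nat_lit 5) (nat_lit 359) (nat_lit 5) (nat_lit 349) (nat_lit 5) (nat_lit 570) (nat_lit 500) (nat_lit 490)) (XT.lf (nat_lit 0) (nat_lit 3785793552) (nat_lit 760) (nat_lit 1817781759) (nat_lit 836) (nat_lit 2121420502) (nat_lit 338) (nat_lit 5) (nat_lit 348) (nat_lit 5) (nat_lit 349) (nat_lit 5) (nat_lit 571) (nat_lit 500) (nat_lit 489))) (XT.nd (nat_lit 78) (nat_lit 836) (nat_lit 0) (XT.lf (nat_lit 0) (nat_lit 1336875906) (nat_lit 760) (nat_lit 5786233009) (nat_lit 76) (nat_lit 656533166) (nat_lit 328) (nat_lit 5) (nat_lit 338) (nat_lit 5)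 (nat_lit 329) (nat_lit 5) (nat_lit 572) (nat_lit 500) (nat_lit 488)) (XT.nd (nat_lit 78) (nat_lit 76) (nat_lit 0) (XT.lf (nat_lit 0) (nat_lit 165419878) (nat_lit 760) (nat_lit 4649720616) (nat_lit 836) (nat_lit 3020385647) (nat_lit 318) (nat_lit 5) (nat_lit 328) (nat_lit 5) (nat_lit 329) (nat_lit 5) (nat_lit 573) (nat_lit 500) (nat_lit 487)) (XT.lf (nat_lit 0) (nat_lit 443124683) (nat_lit 836) (nat_lit 1654551940) (nat_lit 76) (nat_lit 5795222240) (nat_lit 317) (nat_lit 5) (nat_lit 328) (nat_lit 5) (nat_lit 318) (nat_lit 5) (nat_lit 574) (nat_lit 500) (nat_lit 486))))) (XT.nd (nat_lit 156) (nat_lit 1444) (nat_lit 0) (XT.nd (nat_lit 78) (nat_lit 684) (nat_lit 0) (XT.lf (nat_lit 0) (nat_lit 3908837995) (nat_lit 760) (nat_lit 3508091202) (nat_lit 76) (nat_lit 534631967) (nat_lit 308) (nat_lit 5) (nat_lit 318) (nat_lit 5) (nat_lit 309) (nat_lit 5) (nat_lit 575) (nat_lit 500) (nat_lit 485)) (XT.lf (nat_lit 0) (nat_lit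 2621940739) (nat_lit 684) (nat_lit 4805564511) (nat_lit 760) (nat_lit 584227426) (nat_lit 299) (nat_lit 5) (nat_lit 308) (nat_lit 5) (nat_lit 309) (nat_lit 5) (nat_lit 576) (nat_lit 500) (nat_lit 484))) (XT.nd (nat_lit 78) (nat_lit 760) (nat_lit 0) (XT.lf (nat_lit 0) (nat_lit 766793037) (nat_lit 608) (nat_lit 2108547956) (nat_lit 684) (nat_lit 5197982697) (nat_lit 290) (nat_lit 5) (nat_lit 298) (nat_lit 5) (nat_lit 299) (nat_lit 5) (nat_lit 577) (nat_lit 500) (nat_lit 483)) (XT.nd (nat_lit 78) (nat_lit 760) (nat_lit 0) (XT.lf (nat_lit 0) (nat_lit 6379260962) (nat_lit 684) (nat_lit 1098193685) (nat_lit 76) (nat_lit 658963238) (nat_lit 290) (nat_lit 5) (nat_lit 299) (nat_lit 5) (nat_lit 291) (nat_lit 5) (nat_lit 578) (nat_lit 500) (nat_lit 482)) (XT.lf (nat_lit 0) (nat_lit 1720792903) (nat_lit 760) (nat_lit 2996127658) (nat_lit 76) (nat_lit 3483807935) (nat_lit 280) (nat_lit 5) (nat_lit 290) (nat_lit 5) (nat_lit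 281) (nat_lit 5) (nat_lit 579) (nat_lit 500) (nat_lit 481))))))) (XT.nd (nat_lit 702) (nat_lit 4028) (nat_lit 0) (XT.nd (nat_lit 312) (nat_lit 2356) (nat_lit 0) (XT.nd (nat_lit 156) (nat_lit 532) (nat_lit 0) (XT.nd (nat_lit 78) (nat_lit 684) (nat_lit 0) (XT.lf (nat_lit 0) (nat_lit 3341411527) (nat_lit 608) (nat_lit 1876284527) (nat_lit 684) (nat_lit 3048946292) (nat_lit 272) (nat_lit 5) (nat_lit 280) (nat_lit 5) (nat_lit 281) (nat_lit 5) (nat_lit 580) (nat_lit 500) (nat_lit 480)) (XT.lf (nat_lit 0) (nat_lit 425221125) (nat_lit 684) (nat_lit 6885365144) (nat_lit 76) (nat_lit 1023627782) (nat_lit 263) (nat_lit 5) (nat_lit 272) (nat_lit 5) (nat_lit 264) (nat_lit 5) (nat_lit 581) (nat_lit 500) (nat_lit 479))) (XT.nd (nat_lit 78) (nat_lit 532) (nat_lit 0) (XT.lf (nat_lit 0) (nat_lit 3918337084) (nat_lit 684) (nat_lit 491816761) (nat_lit 76) (nat_lit 3992781794) (nat_lit 263) (nat_lit 5) (nat_lit 272) (nat_lit 5) (nat_lit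 264) (nat_lit 5) (nat_lit 582) (nat_lit 500) (nat_lit 478)) (XT.lf (nat_lit 0) (nat_lit 6036540239) (nat_lit 532) (nat_lit 1429612389) (nat_lit 608) (nat_lit 1007189469) (nat_lit 256) (nat_lit 5) (nat_lit 263) (nat_lit 5) (nat_lit 264) (nat_lit 5) (nat_lit 583) (nat_lit 500) (nat_lit 477)))) (XT.nd (nat_lit 156) (nat_lit 1140) (nat_lit 0) (XT.nd (nat_lit 78) (nat_lit 532) (nat_lit 0) (XT.lf (nat_lit 0) (nat_lit 2493070850) (nat_lit 684) (nat_lit 4433853058) (nat_lit 76) (nat_lit 1618177632) (nat_lit 247) (nat_lit 5) (nat_lit 256) (nat_lit 5) (nat_lit 248) (nat_lit 5) (nat_lit 584) (nat_lit 500) (nat_lit 476)) (XT.lf (nat_lit 0) (nat_lit 2144234170) (nat_lit 532) (nat_lit 3891833130) (nat_lit 608) (nat_lit 2582378150) (nat_lit 240) (nat_lit 5) (nat_lit 247) (nat_lit 5) (nat_lit 248) (nat_lit 5) (nat_lit 585) (nat_lit 500) (nat_lit 475))) (XT.nd (nat_lit 78) (nat_lit 532) (nat_lit 0) (XT.lf (nat_lit 0) (nat_lit 143598560)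 (nat_lit 532) (nat_lit 777982815) (nat_lit 608) (nat_lit 7772007928) (nat_lit 232) (nat_lit 5) (nat_lit 239) (nat_lit 5) (nat_lit 240) (nat_lit 5) (nat_lit 586) (nat_lit 500) (nat_lit 474)) (XT.nd (nat_lit 78) (nat_lit 532) (nat_lit 0) (XT.lf (nat_lit 0) (nat_lit 4467402061) (nat_lit 608) (nat_lit 1894455921) (nat_lit 76) (nat_lit 2407915840) (nat_lit 232) (nat_lit 5) (nat_lit 240) (nat_lit 5) (nat_lit 233) (nat_lit 5) (nat_lit 587) (nat_lit 500) (nat_lit 473)) (XT.lf (nat_lit 0) (nat_lit 4880841559) (nat_lit 532) (nat_lit 3188202469) (nat_lit 608) (nat_lit 778746161) (nat_lit 225) (nat_lit 5) (nat_lit 232) (nat_lit 5) (nat_lit 233) (nat_lit 5) (nat_lit 588) (nat_lit 500) (nat_lit 472)))))) (XT.nd (nat_lit 390) (nat_lit 1900) (nat_lit 0) (XT.nd (nat_lit 156) (nat_lit 1064) (nat_lit 0) (XT.nd (nat_lit 78) (nat_lit 456) (nat_lit 0) (XT.lf (nat_lit 0) (nat_lit 2758422677) (nat_lit 608) (nat_lit 6091304348) (nat_lit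 76) (nat_lit 77680396) (nat_lit 217) (nat_lit 5) (nat_lit 225) (nat_lit 5) (nat_lit 218) (nat_lit 5) (nat_lit 589) (nat_lit 500) (nat_lit 471)) (XT.lf (nat_lit 0) (nat_lit 731200999) (nat_lit 456) (nat_lit 5626055827) (nat_lit 532) (nat_lit 2651236130) (nat_lit 211) (nat_lit 5) (nat_lit 217) (nat_lit 5) (nat_lit 218) (nat_lit 5) (nat_lit 590) (nat_lit 500) (nat_lit 470))) (XT.nd (nat_lit 78) (nat_lit 988) (nat_lit 0) (XT.lf (nat_lit 0) (nat_lit 914602840) (nat_lit 532) (nat_lit 1397061900) (nat_lit 76) (nat_lit 6779619018) (nat_lit 210) (nat_lit 5) (nat_lit 217) (nat_lit 5) (nat_lit 211) (nat_lit 5) (nat_lit 591) (nat_lit 500) (nat_lit 469)) (XT.nd (nat_lit 78) (nat_lit 456) (nat_lit 0) (XT.lf (nat_lit 0) (nat_lit 4509720700) (nat_lit 608) (nat_lit 3577709979) (nat_lit 76) (nat_lit 1088085516) (nat_lit 203) (nat_lit 5) (nat_lit 211) (nat_lit 5) (nat_lit 204) (nat_lit 5) (nat_lit 592) (nat_lit 500) (nat_lit 468))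 (XT.lf (nat_lit 0) (nat_lit 3448109468) (nat_lit 456) (nat_lit 4726024385) (nat_lit 532) (nat_lit 1087357014) (nat_lit 197) (nat_lit 5) (nat_lit 203) (nat_lit 5) (nat_lit 204) (nat_lit 5) (nat_lit 593) (nat_lit 500) (nat_lit 467))))) (XT.nd (nat_lit 156) (nat_lit 1368) (nat_lit 0) (XT.nd (nat_lit 78) (nat_lit 0) (nat_lit 0) (XT.lf (nat_lit 0) (nat_lit 1241527075) (nat_lit 456) (nat_lit 1270180634) (nat_lit 532) (nat_lit 6837496448) (nat_lit 190) (nat_lit 5) (nat_lit 196) (nat_lit 5) (nat_lit 197) (nat_lit 5) (nat_lit 594) (nat_lit 500) (nat_lit 466)) (XT.lf (nat_lit 0) (nat_lit 6172914279) (nat_lit 532) (nat_lit 1016214469) (nat_lit 76) (nat_lit 2249309940) (nat_lit 190) (nat_lit 5) (nat_lit 197) (nat_lit 5) (nat_lit 191) (nat_lit 5) (nat_lit 595) (nat_lit 500) (nat_lit 465))) (XT.nd (nat_lit 78) (nat_lit 836) (nat_lit 0) (XT.lf (nat_lit 0) (nat_lit 373482653) (nat_lit 532) (nat_lit 3312815830) (nat_lit 76) (nat_lit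 5843104257) (nat_lit 183) (nat_lit 5) (nat_lit 190) (nat_lit 5) (nat_lit 184) (nat_lit 5) (nat_lit 596) (nat_lit 500) (nat_lit 464)) (XT.nd (nat_lit 78) (nat_lit 380) (nat_lit 0) (XT.lf (nat_lit 0) (nat_lit 3944518985) (nat_lit 456) (nat_lit 81469881) (nat_lit 532) (nat_lit 5596081452) (nat_lit 177) (nat_lit 5) (nat_lit 183) (nat_lit 5) (nat_lit 184) (nat_lit 5) (nat_lit 597) (nat_lit 500) (nat_lit 463)) (XT.lf (nat_lit 0) (nat_lit 1601625258) (nat_lit 380) (nat_lit 6158301011) (nat_lit 456) (nat_lit 1956502099) (nat_lit 172) (nat_lit 5) (nat_lit 177) (nat_lit 5) (nat_lit 178) (nat_lit 5) (nat_lit 598) (nat_lit 500) (nat_lit 462))))))))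
noncomputable def xc29 : XT := (XT.nd (nat_lit 1482) (nat_lit 1520) (nat_lit 0) (XT.nd (nat_lit 702) (nat_lit 2660) (nat_lit 0) (XT.nd (nat_lit 312) (nat_lit 1216) (nat_lit 0) (XT.nd (nat_lit 156) (nat_lit 836) (nat_lit 0) (XT.nd (nat_lit 78) (nat_lit 456) (nat_lit 0) (XT.lf (nat_lit 0) (nat_lit 1724148057) (nat_lit 456) (nat_lit 792572157) (nat_lit 76) (nat_lit 7295903760) (nat_lit 171) (nat_lit 5) (nat_lit 177) (nat_lit 5) (nat_lit 172) (nat_lit 5) (nat_lit 599) (nat_lit 500) (nat_lit 461)) (XT.lf (nat_lit 0) (nat_lit 5456956007) (nat_lit 532) (nat_lit 3238195299) (nat_lit 76) (nat_lit 1215243157) (nat_lit 165) (nat_lit 5) (nat_lit 172) (nat_lit 5) (nat_lit 166) (nat_lit 5) (nat_lit 600) (nat_lit 500) (nat_lit 460))) (XT.nd (nat_lit 78) (nat_lit 456) (nat_lit 0) (XT.lf (nat_lit 0) (nat_lit 4255386197) (nat_lit 380) (nat_lit 5012339458) (nat_lit 456) (nat_lit 742332975) (nat_lit 160) (nat_lit 5) (nat_lit 165)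 (nat_lit 5) (nat_lit 166) (nat_lit 5) (nat_lit 601) (nat_lit 500) (nat_lit 459)) (XT.lf (nat_lit 0) (nat_lit 1763814028) (nat_lit 380) (nat_lit 1226397276) (nat_lit 456) (nat_lit 7121371320) (nat_lit 154) (nat_lit 5) (nat_lit 159) (nat_lit 5) (nat_lit 160) (nat_lit 5) (nat_lit 602) (nat_lit 500) (nat_lit 458)))) (XT.nd (nat_lit 156) (nat_lit 760) (nat_lit 0) (XT.nd (nat_lit 78) (nat_lit 456) (nat_lit 0) (XT.lf (nat_lit 0) (nat_lit 6797547489) (nat_lit 456) (nat_lit 797133102) (nat_lit 76) (nat_lit 2620160881) (nat_lit 154) (nat_lit 5) (nat_lit 160) (nat_lit 5) (nat_lit 155) (nat_lit 5) (nat_lit 603) (nat_lit 500) (nat_lit 457)) (XT.lf (nat_lit 0) (nat_lit 364204356) (nat_lit 456) (nat_lit 3405057207) (nat_lit 76) (nat_lit 6550699595) (nat_lit 148) (nat_lit 5) (nat_lit 154) (nat_lit 5) (nat_lit 149) (nat_lit 5) (nat_lit 604) (nat_lit 500) (nat_lit 456))) (XT.nd (nat_lit 78) (nat_lit 380) (nat_lit 0) (XT.lf (nat_lit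 0) (nat_lit 4165303166) (nat_lit 456) (nat_lit 6098920163) (nat_lit 76) (nat_lit 162717471) (nat_lit 143) (nat_lit 5) (nat_lit 149) (nat_lit 5) (nat_lit 144) (nat_lit 5) (nat_lit 605) (nat_lit 500) (nat_lit 455)) (XT.nd (nat_lit 78) (nat_lit 76) (nat_lit 0) (XT.lf (nat_lit 0) (nat_lit 1652696142) (nat_lit 304) (nat_lit 6403810682) (nat_lit 380) (nat_lit 2479275365) (nat_lit 139) (nat_lit 5) (nat_lit 143) (nat_lit 5) (nat_lit 144) (nat_lit 5) (nat_lit 606) (nat_lit 500) (nat_lit 454)) (XT.lf (nat_lit 0) (nat_lit 1357364967) (nat_lit 380) (nat_lit 1083499851) (nat_lit 76) (nat_lit 8205825957) (nat_lit 138) (nat_lit 5) (nat_lit 143) (nat_lit 5) (nat_lit 139) (nat_lit 5) (nat_lit 607) (nat_lit 500) (nat_lit 453)))))) (XT.nd (nat_lit 390) (nat_lit 1292) (nat_lit 0) (XT.nd (nat_lit 156) (nat_lit 684) (nat_lit 0) (XT.nd (nat_lit 78) (nat_lit 304) (nat_lit 0) (XT.lf (nat_lit 0) (nat_lit 5249245551) (nat_lit 456) (nat_lit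 3893191811) (nat_lit 76) (nat_lit 1616821904) (nat_lit 133) (nat_lit 5) (nat_lit 139) (nat_lit 5) (nat_lit 134) (nat_lit 5) (nat_lit 608) (nat_lit 500) (nat_lit 452)) (XT.lf (nat_lit 0) (nat_lit 4083539277) (nat_lit 304) (nat_lit 5142055007) (nat_lit 380) (nat_lit 1648355754) (nat_lit 129) (nat_lit 5) (nat_lit 133) (nat_lit 5) (nat_lit 134) (nat_lit 5) (nat_lit 609) (nat_lit 500) (nat_lit 451))) (XT.nd (nat_lit 78) (nat_lit 304) (nat_lit 0) (XT.lf (nat_lit 0) (nat_lit 1213732965) (nat_lit 304) (nat_lit 1037690338) (nat_lit 380) (nat_lit 8739398698) (nat_lit 124) (nat_lit 5) (nat_lit 128) (nat_lit 5) (nat_lit 129) (nat_lit 5) (nat_lit 610) (nat_lit 500) (nat_lit 450)) (XT.nd (nat_lit 78) (nat_lit 304) (nat_lit 0) (XT.lf (nat_lit 0) (nat_lit 6230442115) (nat_lit 380) (nat_lit 1740318863) (nat_lit 76) (nat_lit 3138589521) (nat_lit 124) (nat_lit 5) (nat_lit 129) (nat_lit 5) (nat_lit 125) (nat_lit 5) (nat_lit 611) (nat_lit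 500) (nat_lit 449)) (XT.lf (nat_lit 0) (nat_lit 6466951101) (nat_lit 304) (nat_lit 3828775717) (nat_lit 380) (nat_lit 934392292) (nat_lit 120) (nat_lit 5) (nat_lit 124) (nat_lit 5) (nat_lit 125) (nat_lit 5) (nat_lit 612) (nat_lit 500) (nat_lit 448))))) (XT.nd (nat_lit 156) (nat_lit 608) (nat_lit 0) (XT.nd (nat_lit 78) (nat_lit 304) (nat_lit 0) (XT.lf (nat_lit 0) (nat_lit 3043453798) (nat_lit 380) (nat_lit 7889904170) (nat_lit 76) (nat_lit 419648081) (nat_lit 115) (nat_lit 5) (nat_lit 120) (nat_lit 5) (nat_lit 116) (nat_lit 5) (nat_lit 613) (nat_lit 500) (nat_lit 447)) (XT.lf (nat_lit 0) (nat_lit 345010818) (nat_lit 304) (nat_lit 6761264872) (nat_lit 380) (nat_lit 4371595970) (nat_lit 111) (nat_lit 5) (nat_lit 115) (nat_lit 5) (nat_lit 116) (nat_lit 5) (nat_lit 614) (nat_lit 500) (nat_lit 446))) (XT.nd (nat_lit 78) (nat_lit 608) (nat_lit 0) (XT.lf (nat_lit 0) (nat_lit 8783514632) (nat_lit 304) (nat_lit 2478311036)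 (nat_lit 380) (nat_lit 343182487) (nat_lit 111) (nat_lit 5) (nat_lit 115) (nat_lit 5) (nat_lit 116) (nat_lit 5) (nat_lit 615) (nat_lit 500) (nat_lit 445)) (XT.nd (nat_lit 78) (nat_lit 228) (nat_lit 0) (XT.lf (nat_lit 0) (nat_lit 3724591595) (nat_lit 380) (nat_lit 6108467033) (nat_lit 76) (nat_lit 1900979011) (nat_lit 106) (nat_lit 5) (nat_lit 111) (nat_lit 5) (nat_lit 107) (nat_lit 5) (nat_lit 616) (nat_lit 500) (nat_lit 444)) (XT.lf (nat_lit 0) (nat_lit 2359211189) (nat_lit 228) (nat_lit 5519973806) (nat_lit 304) (nat_lit 3986219000) (nat_lit 103) (nat_lit 5) (nat_lit 106) (nat_lit 5) (nat_lit 107) (nat_lit 5) (nat_lit 617) (nat_lit 500) (nat_lit 443))))))) (XT.nd (nat_lit 76674) (nat_lit 0) (nat_lit 20976) (XT.nd (nat_lit 312) (nat_lit 532) (nat_lit 0) (XT.nd (nat_lit 156) (nat_lit 608) (nat_lit 0) (XT.nd (nat_lit 78) (nat_lit 304) (nat_lit 0) (XT.lf (nat_lit 0) (nat_lit 116553266) (nat_lit 304) (nat_lit 988138681)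 (nat_lit 76) (nat_lit 10894680774) (nat_lit 102) (nat_lit 5) (nat_lit 106) (nat_lit 5) (nat_lit 103) (nat_lit 5) (nat_lit 618) (nat_lit 500) (nat_lit 442)) (XT.lf (nat_lit 0) (nat_lit 4280664100) (nat_lit 380) (nat_lit 4448961577) (nat_lit 76) (nat_lit 3405217663) (nat_lit 98) (nat_lit 5) (nat_lit 103) (nat_lit 5) (nat_lit 99) (nat_lit 5) (nat_lit 619) (nat_lit 500) (nat_lit 441))) (XT.nd (nat_lit 78) (nat_lit 380) (nat_lit 0) (XT.lf (nat_lit 0) (nat_lit 4255911359) (nat_lit 228) (nat_lit 4274107507) (nat_lit 304) (nat_lit 3742967888) (nat_lit 95) (nat_lit 5) (nat_lit 98) (nat_lit 5) (nat_lit 99) (nat_lit 5) (nat_lit 620) (nat_lit 500) (nat_lit 440)) (XT.lf (nat_lit 0) (nat_lit 441554144) (nat_lit 380) (nat_lit 11694052714) (nat_lit 76) (nat_lit 278290311) (nat_lit 90) (nat_lit 5) (nat_lit 95) (nat_lit 5) (nat_lit 91) (nat_lit 5) (nat_lit 621) (nat_lit 500) (nat_lit 439)))) (XT.nd (nat_lit 156) (nat_lit 304) (nat_lit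 0) (XT.nd (nat_lit 78) (nat_lit 228) (nat_lit 0) (XT.lf (nat_lit 0) (nat_lit 4702753216) (nat_lit 380) (nat_lit 2936521696) (nat_lit 76) (nat_lit 4916996427) (nat_lit 90) (nat_lit 5) (nat_lit 95) (nat_lit 5) (nat_lit 91) (nat_lit 5) (nat_lit 622) (nat_lit 500) (nat_lit 438)) (XT.lf (nat_lit 0) (nat_lit 6009585907) (nat_lit 228) (nat_lit 3039978838) (nat_lit 304) (nat_lit 3651922896) (nat_lit 87) (nat_lit 5) (nat_lit 90) (nat_lit 5) (nat_lit 91) (nat_lit 5) (nat_lit 623) (nat_lit 500) (nat_lit 437))) (XT.nd (nat_lit 76050) (nat_lit 0) (nat_lit 27360) (XT.lf (nat_lit 0) (nat_lit 632321340) (nat_lit 304) (nat_lit 10574948365) (nat_lit 76) (nat_lit 1642120034) (nat_lit 83) (nat_lit 5) (nat_lit 87) (nat_lit 5) (nat_lit 84) (nat_lit 5) (nat_lit 624) (nat_lit 500) (nat_lit 436)) (XT.nd (nat_lit 78) (nat_lit 1748) (nat_lit 0) (XT.lf (nat_lit 0) (nat_lit 2367057368) (nat_lit 1748) (nat_lit 601290684) (nat_lit 1748) (nat_lit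 601290684) (nat_lit 466) (nat_lit 4) (nat_lit 489) (nat_lit 5) (nat_lit 489) (nat_lit 4) (nat_lit 558) (nat_lit 501) (nat_lit 501)) (XT.lf (nat_lit 0) (nat_lit 2287316299) (nat_lit 1748) (nat_lit 4285896934) (nat_lit 0) (nat_lit 603666128) (nat_lit 443) (nat_lit 5) (nat_lit 466) (nat_lit 4) (nat_lit 443) (nat_lit 4) (nat_lit 559) (nat_lit 501) (nat_lit 500)))))) (XT.nd (nat_lit 390) (nat_lit 2584) (nat_lit 0) (XT.nd (nat_lit 156) (nat_lit 2736) (nat_lit 0) (XT.nd (nat_lit 78) (nat_lit 76) (nat_lit 0) (XT.lf (nat_lit 0) (nat_lit 1037088972) (nat_lit 988) (nat_lit 4756516273) (nat_lit 988) (nat_lit 1422228679) (nat_lit 430) (nat_lit 4) (nat_lit 443) (nat_lit 5) (nat_lit 443) (nat_lit 4) (nat_lit 560) (nat_lit 501) (nat_lit 499)) (XT.lf (nat_lit 0) (nat_lit 2047828296) (nat_lit 1064) (nat_lit 815946417) (nat_lit 76) (nat_lit 4392309165) (nat_lit 429) (nat_lit 5) (nat_lit 443) (nat_lit 5) (nat_lit 430) (nat_lit 4)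 (nat_lit 561) (nat_lit 501) (nat_lit 498))) (XT.nd (nat_lit 78) (nat_lit 1824) (nat_lit 0) (XT.lf (nat_lit 0) (nat_lit 4635220106) (nat_lit 912) (nat_lit 896621894) (nat_lit 988) (nat_lit 1765849587) (nat_lit 417) (nat_lit 5) (nat_lit 429) (nat_lit 5) (nat_lit 430) (nat_lit 4) (nat_lit 562) (nat_lit 501) (nat_lit 497)) (XT.nd (nat_lit 78) (nat_lit 836) (nat_lit 0) (XT.lf (nat_lit 0) (nat_lit 1687642764) (nat_lit 988) (nat_lit 4526778523) (nat_lit 76) (nat_lit 1126193191) (nat_lit 404) (nat_lit 5) (nat_lit 417) (nat_lit 5) (nat_lit 405) (nat_lit 4) (nat_lit 563) (nat_lit 501) (nat_lit 496)) (XT.lf (nat_lit 0) (nat_lit 975251816) (nat_lit 836) (nat_lit 4176283773) (nat_lit 912) (nat_lit 2233339307) (nat_lit 393) (nat_lit 5) (nat_lit 404) (nat_lit 5) (nat_lit 405) (nat_lit 4) (nat_lit 564) (nat_lit 501) (nat_lit 495))))) (XT.nd (nat_lit 156) (nat_lit 1672) (nat_lit 0) (XT.nd (nat_lit 78) (nat_lit 836) (nat_lit 0)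 (XT.lf (nat_lit 0) (nat_lit 1203887546) (nat_lit 912) (nat_lit 860989587) (nat_lit 76) (nat_lit 5365678878) (nat_lit 392) (nat_lit 5) (nat_lit 404) (nat_lit 5) (nat_lit 393) (nat_lit 5) (nat_lit 565) (nat_lit 501) (nat_lit 494)) (XT.lf (nat_lit 0) (nat_lit 4648178197) (nat_lit 912) (nat_lit 2702393843) (nat_lit 76) (nat_lit 126930316) (nat_lit 381) (nat_lit 5) (nat_lit 393) (nat_lit 5) (nat_lit 382) (nat_lit 4) (nat_lit 566) (nat_lit 501) (nat_lit 493))) (XT.nd (nat_lit 78) (nat_lit 836) (nat_lit 0) (XT.lf (nat_lit 0) (nat_lit 603290155) (nat_lit 836) (nat_lit 4565621412) (nat_lit 76) (nat_lit 2356891090) (nat_lit 370) (nat_lit 5) (nat_lit 381) (nat_lit 5) (nat_lit 371) (nat_lit 5) (nat_lit 567) (nat_lit 501) (nat_lit 492)) (XT.nd (nat_lit 78) (nat_lit 0) (nat_lit 0) (XT.lf (nat_lit 0) (nat_lit 1122158825) (nat_lit 836) (nat_lit 2907539173) (nat_lit 912) (nat_lit 3545747088) (nat_lit 359) (nat_lit 5) (nat_lit 370)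 (nat_lit 5) (nat_lit 371) (nat_lit 5) (nat_lit 568) (nat_lit 501) (nat_lit 491)) (XT.lf (nat_lit 0) (nat_lit 6914419780) (nat_lit 836) (nat_lit 579066471) (nat_lit 912) (nat_lit 133227535) (nat_lit 359) (nat_lit 5) (nat_lit 370) (nat_lit 5) (nat_lit 371) (nat_lit 5) (nat_lit 569) (nat_lit 501) (nat_lit 490))))))))
noncomputable def xc30 : XT := (XT.nd (nat_lit 1482) (nat_lit 6612) (nat_lit 0) (XT.nd (nat_lit 702) (nat_lit 4940) (nat_lit 0) (XT.nd (nat_lit 312) (nat_lit 2888) (nat_lit 0) (XT.nd (nat_lit 156) (nat_lit 760) (nat_lit 0) (XT.nd (nat_lit 78) (nat_lit 760) (nat_lit 0) (XT.lf (nat_lit 0) (nat_lit 3287847395) (nat_lit 836) (nat_lit 2572777538) (nat_lit 76) (nat_lit 1818274125) (nat_lit 348) (nat_lit 5) (nat_lit 359) (nat_lit 5) (nat_lit 349) (nat_lit 5) (nat_lit 570) (nat_lit 501) (nat_lit 489)) (XT.lf (nat_lit 0) (nat_lit 3285596125) (nat_lit 760) (nat_lit 3459635207) (nat_lit 836) (nat_lit 987495527)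 (nat_lit 338) (nat_lit 5) (nat_lit 348) (nat_lit 5) (nat_lit 349) (nat_lit 5) (nat_lit 571) (nat_lit 501) (nat_lit 488))) (XT.nd (nat_lit 78) (nat_lit 0) (nat_lit 0) (XT.lf (nat_lit 0) (nat_lit 1439753387) (nat_lit 684) (nat_lit 978535114) (nat_lit 760) (nat_lit 5369694889) (nat_lit 328) (nat_lit 5) (nat_lit 337) (nat_lit 5) (nat_lit 338) (nat_lit 5) (nat_lit 572) (nat_lit 501) (nat_lit 487)) (XT.lf (nat_lit 0) (nat_lit 5859743148) (nat_lit 760) (nat_lit 428165075) (nat_lit 76) (nat_lit 1556700027) (nat_lit 328) (nat_lit 5) (nat_lit 338) (nat_lit 5) (nat_lit 329) (nat_lit 5) (nat_lit 573) (nat_lit 501) (nat_lit 486)))) (XT.nd (nat_lit 156) (nat_lit 1368) (nat_lit 0) (XT.nd (nat_lit 78) (nat_lit 684) (nat_lit 0) (XT.lf (nat_lit 0) (nat_lit 1432994684) (nat_lit 836) (nat_lit 2305599393) (nat_lit 76) (nat_lit 4163898243) (nat_lit 317) (nat_lit 5) (nat_lit 328) (nat_lit 5) (nat_lit 318) (nat_lit 5) (nat_lit 574) (nat_lit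 501) (nat_lit 485)) (XT.lf (nat_lit 0) (nat_lit 3751665138) (nat_lit 684) (nat_lit 1110349832) (nat_lit 760) (nat_lit 3099877846) (nat_lit 308) (nat_lit 5) (nat_lit 317) (nat_lit 5) (nat_lit 318) (nat_lit 5) (nat_lit 575) (nat_lit 501) (nat_lit 484))) (XT.nd (nat_lit 78) (nat_lit 608) (nat_lit 0) (XT.lf (nat_lit 0) (nat_lit 313258943) (nat_lit 760) (nat_lit 6143151629) (nat_lit 76) (nat_lit 1566424468) (nat_lit 298) (nat_lit 5) (nat_lit 308) (nat_lit 5) (nat_lit 299) (nat_lit 5) (nat_lit 576) (nat_lit 501) (nat_lit 483)) (XT.nd (nat_lit 78) (nat_lit 608) (nat_lit 0) (XT.lf (nat_lit 0) (nat_lit 3731954649) (nat_lit 760) (nat_lit 36082637) (nat_lit 76) (nat_lit 4316981201) (nat_lit 298) (nat_lit 5) (nat_lit 308) (nat_lit 5) (nat_lit 299) (nat_lit 5) (nat_lit 577) (nat_lit 501) (nat_lit 482)) (XT.lf (nat_lit 0) (nat_lit 6203859480) (nat_lit 608) (nat_lit 999534051) (nat_lit 684) (nat_lit 945372777) (nat_lit 290) (nat_lit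 5) (nat_lit 298) (nat_lit 5) (nat_lit 299) (nat_lit 5) (nat_lit 578) (nat_lit 501) (nat_lit 481)))))) (XT.nd (nat_lit 390) (nat_lit 2356) (nat_lit 0) (XT.nd (nat_lit 156) (nat_lit 1216) (nat_lit 0) (XT.nd (nat_lit 78) (nat_lit 608) (nat_lit 0) (XT.lf (nat_lit 0) (nat_lit 2482005494) (nat_lit 760) (nat_lit 3901379152) (nat_lit 76) (nat_lit 1830389207) (nat_lit 280) (nat_lit 5) (nat_lit 290) (nat_lit 5) (nat_lit 281) (nat_lit 5) (nat_lit 579) (nat_lit 501) (nat_lit 480)) (XT.lf (nat_lit 0) (nat_lit 2388285065) (nat_lit 608) (nat_lit 3557153047) (nat_lit 684) (nat_lit 2334922778) (nat_lit 272) (nat_lit 5) (nat_lit 280) (nat_lit 5) (nat_lit 281) (nat_lit 5) (nat_lit 580) (nat_lit 501) (nat_lit 479))) (XT.nd (nat_lit 78) (nat_lit 532) (nat_lit 0) (XT.lf (nat_lit 0) (nat_lit 435348384) (nat_lit 608) (nat_lit 654014678) (nat_lit 684) (nat_lit 7259290784) (nat_lit 263) (nat_lit 5) (nat_lit 271) (nat_lit 5) (nat_lit 272)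 (nat_lit 5) (nat_lit 581) (nat_lit 501) (nat_lit 478)) (XT.nd (nat_lit 78) (nat_lit 532) (nat_lit 0) (XT.lf (nat_lit 0) (nat_lit 4551323834) (nat_lit 684) (nat_lit 1551269525) (nat_lit 76) (nat_lit 2315408734) (nat_lit 263) (nat_lit 5) (nat_lit 272) (nat_lit 5) (nat_lit 264) (nat_lit 5) (nat_lit 582) (nat_lit 501) (nat_lit 477)) (XT.lf (nat_lit 0) (nat_lit 4927484416) (nat_lit 532) (nat_lit 3138072971) (nat_lit 608) (nat_lit 423526290) (nat_lit 256) (nat_lit 5) (nat_lit 263) (nat_lit 5) (nat_lit 264) (nat_lit 5) (nat_lit 583) (nat_lit 501) (nat_lit 476))))) (XT.nd (nat_lit 156) (nat_lit 1140) (nat_lit 0) (XT.nd (nat_lit 78) (nat_lit 532) (nat_lit 0) (XT.lf (nat_lit 0) (nat_lit 2942875166) (nat_lit 608) (nat_lit 81635491) (nat_lit 684) (nat_lit 5537151396) (nat_lit 247) (nat_lit 5) (nat_lit 255) (nat_lit 5) (nat_lit 256) (nat_lit 5) (nat_lit 584) (nat_lit 501) (nat_lit 475)) (XT.lf (nat_lit 0) (nat_lit 908207121)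 (nat_lit 532) (nat_lit 5624708468) (nat_lit 608) (nat_lit 2102785489) (nat_lit 240) (nat_lit 5) (nat_lit 247) (nat_lit 5) (nat_lit 248) (nat_lit 5) (nat_lit 585) (nat_lit 501) (nat_lit 474))) (XT.nd (nat_lit 78) (nat_lit 1064) (nat_lit 0) (XT.lf (nat_lit 0) (nat_lit 1368023747) (nat_lit 608) (nat_lit 1150208556) (nat_lit 76) (nat_lit 6193090717) (nat_lit 239) (nat_lit 5) (nat_lit 247) (nat_lit 5) (nat_lit 240) (nat_lit 5) (nat_lit 586) (nat_lit 501) (nat_lit 473)) (XT.nd (nat_lit 78) (nat_lit 532) (nat_lit 0) (XT.lf (nat_lit 0) (nat_lit 4869216919) (nat_lit 608) (nat_lit 3245831802) (nat_lit 76) (nat_lit 673354465) (nat_lit 232) (nat_lit 5) (nat_lit 240) (nat_lit 5) (nat_lit 233) (nat_lit 5) (nat_lit 587) (nat_lit 501) (nat_lit 472)) (XT.lf (nat_lit 0) (nat_lit 3475994777) (nat_lit 532) (nat_lit 4960535671) (nat_lit 608) (nat_lit 430578710) (nat_lit 225) (nat_lit 5) (nat_lit 232) (nat_lit 5) (nat_lit 233) (nat_lit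 5) (nat_lit 588) (nat_lit 501) (nat_lit 471))))))) (XT.nd (nat_lit 702) (nat_lit 2964) (nat_lit 0) (XT.nd (nat_lit 312) (nat_lit 1976) (nat_lit 0) (XT.nd (nat_lit 156) (nat_lit 1064) (nat_lit 0) (XT.nd (nat_lit 78) (nat_lit 0) (nat_lit 0) (XT.lf (nat_lit 0) (nat_lit 1355622363) (nat_lit 532) (nat_lit 1711167661) (nat_lit 608) (nat_lit 5880598750) (nat_lit 217) (nat_lit 5) (nat_lit 224) (nat_lit 5) (nat_lit 225) (nat_lit 5) (nat_lit 589) (nat_lit 501) (nat_lit 470)) (XT.lf (nat_lit 0) (nat_lit 6624859700) (nat_lit 608) (nat_lit 803095942) (nat_lit 76) (nat_lit 1601336816) (nat_lit 217) (nat_lit 5) (nat_lit 225) (nat_lit 5) (nat_lit 218) (nat_lit 5) (nat_lit 590) (nat_lit 501) (nat_lit 469))) (XT.nd (nat_lit 78) (nat_lit 532) (nat_lit 0) (XT.lf (nat_lit 0) (nat_lit 1128038172) (nat_lit 532) (nat_lit 2999959137) (nat_lit 76) (nat_lit 4984659278) (nat_lit 210) (nat_lit 5) (nat_lit 217) (nat_lit 5) (nat_lit 211) (nat_lit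 5) (nat_lit 591) (nat_lit 501) (nat_lit 468)) (XT.lf (nat_lit 0) (nat_lit 3945687224) (nat_lit 532) (nat_lit 735210160) (nat_lit 608) (nat_lit 4516839508) (nat_lit 203) (nat_lit 5) (nat_lit 210) (nat_lit 5) (nat_lit 211) (nat_lit 5) (nat_lit 592) (nat_lit 501) (nat_lit 467)))) (XT.nd (nat_lit 156) (nat_lit 1444) (nat_lit 0) (XT.nd (nat_lit 78) (nat_lit 76) (nat_lit 0) (XT.lf (nat_lit 0) (nat_lit 1720943852) (nat_lit 456) (nat_lit 6584238064) (nat_lit 532) (nat_lit 979334863) (nat_lit 197) (nat_lit 5) (nat_lit 203) (nat_lit 5) (nat_lit 204) (nat_lit 5) (nat_lit 593) (nat_lit 501) (nat_lit 466)) (XT.lf (nat_lit 0) (nat_lit 2586198226) (nat_lit 532) (nat_lit 560688255) (nat_lit 76) (nat_lit 6225974397) (nat_lit 196) (nat_lit 5) (nat_lit 203) (nat_lit 5) (nat_lit 197) (nat_lit 5) (nat_lit 594) (nat_lit 501) (nat_lit 465))) (XT.nd (nat_lit 78) (nat_lit 988) (nat_lit 0) (XT.lf (nat_lit 0) (nat_lit 6207626946) (nat_lit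 532) (nat_lit 2872618615) (nat_lit 76) (nat_lit 382647898) (nat_lit 190) (nat_lit 5) (nat_lit 197) (nat_lit 5) (nat_lit 191) (nat_lit 5) (nat_lit 595) (nat_lit 501) (nat_lit 464)) (XT.nd (nat_lit 78) (nat_lit 456) (nat_lit 0) (XT.lf (nat_lit 0) (nat_lit 347514215) (nat_lit 532) (nat_lit 5253878643) (nat_lit 76) (nat_lit 3953187551) (nat_lit 183) (nat_lit 5) (nat_lit 190) (nat_lit 5) (nat_lit 184) (nat_lit 5) (nat_lit 596) (nat_lit 501) (nat_lit 463)) (XT.lf (nat_lit 0) (nat_lit 1942589448) (nat_lit 456) (nat_lit 2021102015) (nat_lit 532) (nat_lit 5684285450) (nat_lit 177) (nat_lit 5) (nat_lit 183) (nat_lit 5) (nat_lit 184) (nat_lit 5) (nat_lit 597) (nat_lit 501) (nat_lit 462)))))) (XT.nd (nat_lit 390) (nat_lit 1596) (nat_lit 0) (XT.nd (nat_lit 156) (nat_lit 912) (nat_lit 0) (XT.nd (nat_lit 78) (nat_lit 456) (nat_lit 0) (XT.lf (nat_lit 0) (nat_lit 7651466517) (nat_lit 532) (nat_lit 469397411) (nat_lit 76) (nat_lit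 1622396582) (nat_lit 177) (nat_lit 5) (nat_lit 184) (nat_lit 5) (nat_lit 178) (nat_lit 5) (nat_lit 598) (nat_lit 501) (nat_lit 461)) (XT.lf (nat_lit 0) (nat_lit 1564427668) (nat_lit 456) (nat_lit 2930682576) (nat_lit 76) (nat_lit 5344889708) (nat_lit 171) (nat_lit 5) (nat_lit 177) (nat_lit 5) (nat_lit 172) (nat_lit 5) (nat_lit 599) (nat_lit 501) (nat_lit 460))) (XT.nd (nat_lit 78) (nat_lit 456) (nat_lit 0) (XT.lf (nat_lit 0) (nat_lit 4479203954) (nat_lit 456) (nat_lit 773103866) (nat_lit 532) (nat_lit 4686363345) (nat_lit 165) (nat_lit 5) (nat_lit 171) (nat_lit 5) (nat_lit 172) (nat_lit 5) (nat_lit 600) (nat_lit 501) (nat_lit 459)) (XT.nd (nat_lit 78) (nat_lit 76) (nat_lit 0) (XT.lf (nat_lit 0) (nat_lit 1974902782) (nat_lit 380) (nat_lit 7045856017) (nat_lit 456) (nat_lit 1018425032) (nat_lit 160) (nat_lit 5) (nat_lit 165) (nat_lit 5) (nat_lit 166) (nat_lit 5) (nat_lit 601) (nat_lit 501) (nat_lit 458)) (XT.lf (nat_lit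 0) (nat_lit 2683865738) (nat_lit 456) (nat_lit 601531032) (nat_lit 76) (nat_lit 6856026440) (nat_lit 159) (nat_lit 5) (nat_lit 165) (nat_lit 5) (nat_lit 160) (nat_lit 5) (nat_lit 602) (nat_lit 501) (nat_lit 457))))) (XT.nd (nat_lit 156) (nat_lit 836) (nat_lit 0) (XT.nd (nat_lit 78) (nat_lit 380) (nat_lit 0) (XT.lf (nat_lit 0) (nat_lit 6451567347) (nat_lit 456) (nat_lit 3221535733) (nat_lit 76) (nat_lit 572373673) (nat_lit 154) (nat_lit 5) (nat_lit 160) (nat_lit 5) (nat_lit 155) (nat_lit 5) (nat_lit 603) (nat_lit 501) (nat_lit 456)) (XT.lf (nat_lit 0) (nat_lit 4426415112) (nat_lit 380) (nat_lit 5878639856) (nat_lit 456) (nat_lit 46351725) (nat_lit 149) (nat_lit 5) (nat_lit 154) (nat_lit 5) (nat_lit 155) (nat_lit 5) (nat_lit 604) (nat_lit 501) (nat_lit 455))) (XT.nd (nat_lit 78) (nat_lit 380) (nat_lit 0) (XT.lf (nat_lit 0) (nat_lit 1741613867) (nat_lit 380) (nat_lit 1974089997) (nat_lit 456) (nat_lit 6743483399)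 (nat_lit 143) (nat_lit 5) (nat_lit 148) (nat_lit 5) (nat_lit 149) (nat_lit 5) (nat_lit 605) (nat_lit 501) (nat_lit 454)) (XT.nd (nat_lit 78) (nat_lit 380) (nat_lit 0) (XT.lf (nat_lit 0) (nat_lit 7561708607) (nat_lit 456) (nat_lit 1008876448) (nat_lit 76) (nat_lit 1998349426) (nat_lit 143) (nat_lit 5) (nat_lit 149) (nat_lit 5) (nat_lit 144) (nat_lit 5) (nat_lit 606) (nat_lit 501) (nat_lit 453)) (XT.lf (nat_lit 0) (nat_lit 808066934) (nat_lit 380) (nat_lit 3822418826) (nat_lit 76) (nat_lit 6049993075) (nat_lit 138) (nat_lit 5) (nat_lit 143) (nat_lit 5) (nat_lit 139) (nat_lit 5) (nat_lit 607) (nat_lit 501) (nat_lit 452))))))))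
noncomputable def xc31 : XT := (XT.nd (nat_lit 77298) (nat_lit 0) (nat_lit 16036) (XT.nd (nat_lit 702) (nat_lit 1444) (nat_lit 0) (XT.nd (nat_lit 312) (nat_lit 1368) (nat_lit 0) (XT.nd (nat_lit 156) (nat_lit 380) (nat_lit 0) (XT.nd (nat_lit 78) (nat_lit 304) (nat_lit 0) (XT.lf (nat_lit 0) (nat_lit 4067698256) (nat_lit 380) (nat_lit 582205914) (nat_lit 456) (nat_lit 6144145766) (nat_lit 133) (nat_lit 5) (nat_lit 138) (nat_lit 5) (nat_lit 139) (nat_lit 5) (nat_lit 608) (nat_lit 501) (nat_lit 451)) (XT.lf (nat_lit 0) (nat_lit 1182534435) (nat_lit 304) (nat_lit 7400055697) (nat_lit 380) (nat_lit 2327025541) (nat_lit 129) (nat_lit 5) (nat_lit 133) (nat_lit 5) (nat_lit 134) (nat_lit 5) (nat_lit 609) (nat_lit 501) (nat_lit 450))) (XT.nd (nat_lit 78) (nat_lit 304) (nat_lit 0) (XT.lf (nat_lit 0) (nat_lit 1552782954) (nat_lit 380) (nat_lit 1768086999) (nat_lit 76) (nat_lit 7706284884) (nat_lit 128) (nat_lit 5) (nat_lit 133)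 (nat_lit 5) (nat_lit 129) (nat_lit 5) (nat_lit 610) (nat_lit 501) (nat_lit 449)) (XT.lf (nat_lit 0) (nat_lit 5484390277) (nat_lit 380) (nat_lit 4801052142) (nat_lit 76) (nat_lit 861190757) (nat_lit 124) (nat_lit 5) (nat_lit 129) (nat_lit 5) (nat_lit 125) (nat_lit 5) (nat_lit 611) (nat_lit 501) (nat_lit 448)))) (XT.nd (nat_lit 156) (nat_lit 684) (nat_lit 0) (XT.nd (nat_lit 78) (nat_lit 380) (nat_lit 0) (XT.lf (nat_lit 0) (nat_lit 3332012501) (nat_lit 304) (nat_lit 6176839373) (nat_lit 380) (nat_lit 1759367954) (nat_lit 120) (nat_lit 5) (nat_lit 124) (nat_lit 5) (nat_lit 125) (nat_lit 5) (nat_lit 612) (nat_lit 501) (nat_lit 447)) (XT.lf (nat_lit 0) (nat_lit 222552399) (nat_lit 304) (nat_lit 1962509597) (nat_lit 380) (nat_lit 9207038132) (nat_lit 115) (nat_lit 5) (nat_lit 119) (nat_lit 5) (nat_lit 120) (nat_lit 5) (nat_lit 613) (nat_lit 501) (nat_lit 446))) (XT.nd (nat_lit 78) (nat_lit 684) (nat_lit 0) (XT.lf (nat_lit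 0) (nat_lit 6212589125) (nat_lit 380) (nat_lit 2959666494) (nat_lit 76) (nat_lit 2345417502) (nat_lit 115) (nat_lit 5) (nat_lit 120) (nat_lit 5) (nat_lit 116) (nat_lit 5) (nat_lit 614) (nat_lit 501) (nat_lit 445)) (XT.nd (nat_lit 78) (nat_lit 380) (nat_lit 0) (XT.lf (nat_lit 0) (nat_lit 5406472875) (nat_lit 304) (nat_lit 4922065751) (nat_lit 380) (nat_lit 1317064459) (nat_lit 111) (nat_lit 5) (nat_lit 115) (nat_lit 5) (nat_lit 116) (nat_lit 5) (nat_lit 615) (nat_lit 501) (nat_lit 444)) (XT.lf (nat_lit 0) (nat_lit 2148595353) (nat_lit 304) (nat_lit 559856410) (nat_lit 380) (nat_lit 9067409280) (nat_lit 106) (nat_lit 5) (nat_lit 110) (nat_lit 5) (nat_lit 111) (nat_lit 5) (nat_lit 616) (nat_lit 501) (nat_lit 443)))))) (XT.nd (nat_lit 390) (nat_lit 608) (nat_lit 0) (XT.nd (nat_lit 156) (nat_lit 608) (nat_lit 0) (XT.nd (nat_lit 78) (nat_lit 228) (nat_lit 0) (XT.lf (nat_lit 0) (nat_lit 6824322422) (nat_lit 380) (nat_lit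 1219641308) (nat_lit 76) (nat_lit 3864039499) (nat_lit 106) (nat_lit 5) (nat_lit 111) (nat_lit 5) (nat_lit 107) (nat_lit 5) (nat_lit 617) (nat_lit 501) (nat_lit 442)) (XT.lf (nat_lit 0) (nat_lit 7384423406) (nat_lit 228) (nat_lit 3650586532) (nat_lit 304) (nat_lit 1007531055) (nat_lit 103) (nat_lit 5) (nat_lit 106) (nat_lit 5) (nat_lit 107) (nat_lit 5) (nat_lit 618) (nat_lit 501) (nat_lit 441))) (XT.nd (nat_lit 78) (nat_lit 228) (nat_lit 0) (XT.lf (nat_lit 0) (nat_lit 3109325356) (nat_lit 380) (nat_lit 8221019905) (nat_lit 76) (nat_lit 849007846) (nat_lit 98) (nat_lit 5) (nat_lit 103) (nat_lit 5) (nat_lit 99) (nat_lit 5) (nat_lit 619) (nat_lit 501) (nat_lit 440)) (XT.nd (nat_lit 78) (nat_lit 0) (nat_lit 0) (XT.lf (nat_lit 0) (nat_lit 401053462) (nat_lit 228) (nat_lit 6913349109) (nat_lit 304) (nat_lit 5003980771) (nat_lit 95) (nat_lit 5) (nat_lit 98) (nat_lit 5) (nat_lit 99) (nat_lit 5) (nat_lit 620) (nat_lit 501)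 (nat_lit 439)) (XT.lf (nat_lit 0) (nat_lit 9242305191) (nat_lit 228) (nat_lit 2377902349) (nat_lit 304) (nat_lit 839656633) (nat_lit 95) (nat_lit 5) (nat_lit 98) (nat_lit 5) (nat_lit 99) (nat_lit 5) (nat_lit 621) (nat_lit 501) (nat_lit 438))))) (XT.nd (nat_lit 156) (nat_lit 0) (nat_lit 0) (XT.nd (nat_lit 78) (nat_lit 228) (nat_lit 0) (XT.lf (nat_lit 0) (nat_lit 3376683794) (nat_lit 380) (nat_lit 6974416155) (nat_lit 76) (nat_lit 2252366041) (nat_lit 90) (nat_lit 5) (nat_lit 95) (nat_lit 5) (nat_lit 91) (nat_lit 5) (nat_lit 622) (nat_lit 501) (nat_lit 437)) (XT.lf (nat_lit 0) (nat_lit 1885871227) (nat_lit 228) (nat_lit 5792101544) (nat_lit 304) (nat_lit 5071621146) (nat_lit 87) (nat_lit 5) (nat_lit 90) (nat_lit 5) (nat_lit 91) (nat_lit 5) (nat_lit 623) (nat_lit 501) (nat_lit 436))) (XT.nd (nat_lit 75894) (nat_lit 0) (nat_lit 30552) (XT.lf (nat_lit 0) (nat_lit 10954217510) (nat_lit 228) (nat_lit 1120328822) (nat_lit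 304) (nat_lit 823915218) (nat_lit 87) (nat_lit 5) (nat_lit 90) (nat_lit 5) (nat_lit 91) (nat_lit 5) (nat_lit 624) (nat_lit 501) (nat_lit 435)) (XT.nd (nat_lit 78) (nat_lit 0) (nat_lit 0) (XT.lf (nat_lit 0) (nat_lit 346913252) (nat_lit 1748) (nat_lit 2839894868) (nat_lit 0) (nat_lit 346913252) (nat_lit 489) (nat_lit 5) (nat_lit 512) (nat_lit 4) (nat_lit 489) (nat_lit 4) (nat_lit 556) (nat_lit 502) (nat_lit 502)) (XT.lf (nat_lit 0) (nat_lit 4158310771) (nat_lit 1748) (nat_lit 538012245) (nat_lit 0) (nat_lit 2406641133) (nat_lit 489) (nat_lit 5) (nat_lit 512) (nat_lit 4) (nat_lit 489) (nat_lit 4) (nat_lit 557) (nat_lit 502) (nat_lit 501))))))) (XT.nd (nat_lit 702) (nat_lit 6308) (nat_lit 0) (XT.nd (nat_lit 312) (nat_lit 3648) (nat_lit 0) (XT.nd (nat_lit 156) (nat_lit 1064) (nat_lit 0) (XT.nd (nat_lit 78) (nat_lit 1672) (nat_lit 0) (XT.lf (nat_lit 0) (nat_lit 507651416) (nat_lit 1824) (nat_lit 2443536951) (nat_lit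 76) (nat_lit 4188709355) (nat_lit 465) (nat_lit 5) (nat_lit 489) (nat_lit 5) (nat_lit 466) (nat_lit 4) (nat_lit 558) (nat_lit 502) (nat_lit 500)) (XT.lf (nat_lit 0) (nat_lit 2813657281) (nat_lit 1672) (nat_lit 1130055720) (nat_lit 1748) (nat_lit 3234398429) (nat_lit 443) (nat_lit 5) (nat_lit 465) (nat_lit 5) (nat_lit 466) (nat_lit 4) (nat_lit 559) (nat_lit 502) (nat_lit 499))) (XT.nd (nat_lit 78) (nat_lit 0) (nat_lit 0) (XT.lf (nat_lit 0) (nat_lit 188437617) (nat_lit 1064) (nat_lit 6289238763) (nat_lit 76) (nat_lit 740194676) (nat_lit 429) (nat_lit 5) (nat_lit 443) (nat_lit 5) (nat_lit 430) (nat_lit 4) (nat_lit 560) (nat_lit 502) (nat_lit 498)) (XT.lf (nat_lit 0) (nat_lit 3606914336) (nat_lit 1064) (nat_lit 970456950) (nat_lit 76) (nat_lit 2681229909) (nat_lit 429) (nat_lit 5) (nat_lit 443) (nat_lit 5) (nat_lit 430) (nat_lit 4) (nat_lit 561) (nat_lit 502) (nat_lit 497)))) (XT.nd (nat_lit 156) (nat_lit 1748) (nat_lit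 0) (XT.nd (nat_lit 78) (nat_lit 988) (nat_lit 0) (XT.lf (nat_lit 0) (nat_lit 4444102373) (nat_lit 912) (nat_lit 2613302969) (nat_lit 988) (nat_lit 243480208) (nat_lit 417) (nat_lit 5) (nat_lit 429) (nat_lit 5) (nat_lit 430) (nat_lit 4) (nat_lit 562) (nat_lit 502) (nat_lit 496)) (XT.lf (nat_lit 0) (nat_lit 2579719110) (nat_lit 912) (nat_lit 569262761) (nat_lit 988) (nat_lit 4195456121) (nat_lit 404) (nat_lit 5) (nat_lit 416) (nat_lit 5) (nat_lit 417) (nat_lit 5) (nat_lit 563) (nat_lit 502) (nat_lit 495))) (XT.nd (nat_lit 78) (nat_lit 912) (nat_lit 0) (XT.lf (nat_lit 0) (nat_lit 702726538) (nat_lit 836) (nat_lit 5872989094) (nat_lit 912) (nat_lit 813731794) (nat_lit 393) (nat_lit 5) (nat_lit 404) (nat_lit 5) (nat_lit 405) (nat_lit 4) (nat_lit 564) (nat_lit 502) (nat_lit 494)) (XT.nd (nat_lit 78) (nat_lit 836) (nat_lit 0) (XT.lf (nat_lit 0) (nat_lit 2573367715) (nat_lit 912) (nat_lit 1182207174) (nat_lit 76) (nat_lit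 3680005099) (nat_lit 392) (nat_lit 5) (nat_lit 404) (nat_lit 5) (nat_lit 393) (nat_lit 5) (nat_lit 565) (nat_lit 502) (nat_lit 493)) (XT.lf (nat_lit 0) (nat_lit 4415800762) (nat_lit 836) (nat_lit 1567793028) (nat_lit 912) (nat_lit 1499619334) (nat_lit 381) (nat_lit 5) (nat_lit 392) (nat_lit 5) (nat_lit 393) (nat_lit 5) (nat_lit 566) (nat_lit 502) (nat_lit 492)))))) (XT.nd (nat_lit 390) (nat_lit 2964) (nat_lit 0) (XT.nd (nat_lit 156) (nat_lit 1672) (nat_lit 0) (XT.nd (nat_lit 78) (nat_lit 836) (nat_lit 0) (XT.lf (nat_lit 0) (nat_lit 1871993872) (nat_lit 836) (nat_lit 4975150460) (nat_lit 76) (nat_lit 685072948) (nat_lit 370) (nat_lit 5) (nat_lit 381) (nat_lit 5) (nat_lit 371) (nat_lit 5) (nat_lit 567) (nat_lit 502) (nat_lit 491)) (XT.lf (nat_lit 0) (nat_lit 671958100) (nat_lit 836) (nat_lit 4593162478) (nat_lit 912) (nat_lit 2317409934) (nat_lit 359) (nat_lit 5) (nat_lit 370) (nat_lit 5) (nat_lit 371) (nat_lit 5)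 (nat_lit 568) (nat_lit 502) (nat_lit 490))) (XT.nd (nat_lit 78) (nat_lit 1596) (nat_lit 0) (XT.lf (nat_lit 0) (nat_lit 1050556330) (nat_lit 912) (nat_lit 1211635018) (nat_lit 76) (nat_lit 5372074456) (nat_lit 358) (nat_lit 5) (nat_lit 370) (nat_lit 5) (nat_lit 359) (nat_lit 5) (nat_lit 569) (nat_lit 502) (nat_lit 489)) (XT.nd (nat_lit 78) (nat_lit 836) (nat_lit 0) (XT.lf (nat_lit 0) (nat_lit 4425793204) (nat_lit 836) (nat_lit 3111571927) (nat_lit 76) (nat_lit 149955344) (nat_lit 348) (nat_lit 5) (nat_lit 359) (nat_lit 5) (nat_lit 349) (nat_lit 5) (nat_lit 570) (nat_lit 502) (nat_lit 488)) (XT.lf (nat_lit 0) (nat_lit 106899809) (nat_lit 836) (nat_lit 5037928024) (nat_lit 76) (nat_lit 2596972018) (nat_lit 337) (nat_lit 5) (nat_lit 348) (nat_lit 5) (nat_lit 338) (nat_lit 5) (nat_lit 571) (nat_lit 502) (nat_lit 487))))) (XT.nd (nat_lit 156) (nat_lit 2280) (nat_lit 0) (XT.nd (nat_lit 78) (nat_lit 0) (nat_lit 0) (XT.lf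 (nat_lit 0) (nat_lit 799389639) (nat_lit 684) (nat_lit 2667069523) (nat_lit 760) (nat_lit 4331139062) (nat_lit 328) (nat_lit 5) (nat_lit 337) (nat_lit 5) (nat_lit 338) (nat_lit 5) (nat_lit 572) (nat_lit 502) (nat_lit 486)) (XT.lf (nat_lit 0) (nat_lit 6751997869) (nat_lit 684) (nat_lit 116905383) (nat_lit 760) (nat_lit 986104555) (nat_lit 328) (nat_lit 5) (nat_lit 337) (nat_lit 5) (nat_lit 338) (nat_lit 5) (nat_lit 573) (nat_lit 502) (nat_lit 485))) (XT.nd (nat_lit 78) (nat_lit 1444) (nat_lit 0) (XT.lf (nat_lit 0) (nat_lit 2384767349) (nat_lit 836) (nat_lit 3040821963) (nat_lit 76) (nat_lit 2487854987) (nat_lit 317) (nat_lit 5) (nat_lit 328) (nat_lit 5) (nat_lit 318) (nat_lit 5) (nat_lit 574) (nat_lit 502) (nat_lit 484)) (XT.nd (nat_lit 78) (nat_lit 760) (nat_lit 0) (XT.lf (nat_lit 0) (nat_lit 2971678754) (nat_lit 684) (nat_lit 2808945909) (nat_lit 760) (nat_lit 2192887643) (nat_lit 308) (nat_lit 5) (nat_lit 317)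 (nat_lit 5) (nat_lit 318) (nat_lit 5) (nat_lit 575) (nat_lit 502) (nat_lit 483)) (XT.lf (nat_lit 0) (nat_lit 1046958496) (nat_lit 684) (nat_lit 117656440) (nat_lit 760) (nat_lit 6870600681) (nat_lit 298) (nat_lit 5) (nat_lit 307) (nat_lit 5) (nat_lit 308) (nat_lit 5) (nat_lit 576) (nat_lit 502) (nat_lit 482))))))))
noncomputable def xc32 : XT := (XT.nd (nat_lit 1404) (nat_lit 5852) (nat_lit 0) (XT.nd (nat_lit 702) (nat_lit 3876) (nat_lit 0) (XT.nd (nat_lit 312) (nat_lit 1900) (nat_lit 0) (XT.nd (nat_lit 156) (nat_lit 1368) (nat_lit 0) (XT.nd (nat_lit 78) (nat_lit 608) (nat_lit 0) (XT.lf (nat_lit 0) (nat_lit 4554868369) (nat_lit 760) (nat_lit 915391051) (nat_lit 76) (nat_lit 2627712495) (nat_lit 298) (nat_lit 5) (nat_lit 308) (nat_lit 5) (nat_lit 299) (nat_lit 5) (nat_lit 577) (nat_lit 502) (nat_lit 481)) (XT.lf (nat_lit 0) (nat_lit 5278128740) (nat_lit 608) (nat_lit 2715032396) (nat_lit 684) (nat_lit 169225450)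 (nat_lit 290) (nat_lit 5) (nat_lit 298) (nat_lit 5) (nat_lit 299) (nat_lit 5) (nat_lit 578) (nat_lit 502) (nat_lit 480))) (XT.nd (nat_lit 78) (nat_lit 608) (nat_lit 0) (XT.lf (nat_lit 0) (nat_lit 3203332284) (nat_lit 760) (nat_lit 4896192252) (nat_lit 76) (nat_lit 128665408) (nat_lit 280) (nat_lit 5) (nat_lit 290) (nat_lit 5) (nat_lit 281) (nat_lit 5) (nat_lit 579) (nat_lit 502) (nat_lit 479)) (XT.lf (nat_lit 0) (nat_lit 1345109607) (nat_lit 608) (nat_lit 5288135047) (nat_lit 684) (nat_lit 1662206432) (nat_lit 272) (nat_lit 5) (nat_lit 280) (nat_lit 5) (nat_lit 281) (nat_lit 5) (nat_lit 580) (nat_lit 502) (nat_lit 478)))) (XT.nd (nat_lit 156) (nat_lit 1216) (nat_lit 0) (XT.nd (nat_lit 78) (nat_lit 608) (nat_lit 0) (XT.lf (nat_lit 0) (nat_lit 1723804825) (nat_lit 684) (nat_lit 667804814) (nat_lit 76) (nat_lit 5972639641) (nat_lit 271) (nat_lit 5) (nat_lit 280) (nat_lit 5) (nat_lit 272) (nat_lit 5) (nat_lit 581)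 (nat_lit 502) (nat_lit 477)) (XT.lf (nat_lit 0) (nat_lit 5143680165) (nat_lit 684) (nat_lit 2702727680) (nat_lit 76) (nat_lit 588034878) (nat_lit 263) (nat_lit 5) (nat_lit 272) (nat_lit 5) (nat_lit 264) (nat_lit 5) (nat_lit 582) (nat_lit 502) (nat_lit 476))) (XT.nd (nat_lit 78) (nat_lit 608) (nat_lit 0) (XT.lf (nat_lit 0) (nat_lit 116498984) (nat_lit 608) (nat_lit 4781070439) (nat_lit 76) (nat_lit 3608616285) (nat_lit 255) (nat_lit 5) (nat_lit 263) (nat_lit 5) (nat_lit 256) (nat_lit 5) (nat_lit 583) (nat_lit 502) (nat_lit 475)) (XT.nd (nat_lit 78) (nat_lit 0) (nat_lit 0) (XT.lf (nat_lit 0) (nat_lit 1669463579) (nat_lit 608) (nat_lit 1855498661) (nat_lit 684) (nat_lit 5054430514) (nat_lit 247) (nat_lit 5) (nat_lit 255) (nat_lit 5) (nat_lit 256) (nat_lit 5) (nat_lit 584) (nat_lit 502) (nat_lit 474)) (XT.lf (nat_lit 0) (nat_lit 6990427533) (nat_lit 684) (nat_lit 418047540) (nat_lit 76) (nat_lit 1245818722) (nat_lit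 247) (nat_lit 5) (nat_lit 256) (nat_lit 5) (nat_lit 248) (nat_lit 5) (nat_lit 585) (nat_lit 502) (nat_lit 473)))))) (XT.nd (nat_lit 312) (nat_lit 2128) (nat_lit 0) (XT.nd (nat_lit 156) (nat_lit 608) (nat_lit 0) (XT.nd (nat_lit 78) (nat_lit 532) (nat_lit 0) (XT.lf (nat_lit 0) (nat_lit 1772998327) (nat_lit 608) (nat_lit 2538328784) (nat_lit 76) (nat_lit 4419098489) (nat_lit 239) (nat_lit 5) (nat_lit 247) (nat_lit 5) (nat_lit 240) (nat_lit 5) (nat_lit 586) (nat_lit 502) (nat_lit 472)) (XT.lf (nat_lit 0) (nat_lit 4105920810) (nat_lit 532) (nat_lit 1129562507) (nat_lit 608) (nat_lit 3572799648) (nat_lit 232) (nat_lit 5) (nat_lit 239) (nat_lit 5) (nat_lit 240) (nat_lit 5) (nat_lit 587) (nat_lit 502) (nat_lit 471))) (XT.nd (nat_lit 78) (nat_lit 76) (nat_lit 0) (XT.lf (nat_lit 0) (nat_lit 1972723718) (nat_lit 532) (nat_lit 6788266047) (nat_lit 608) (nat_lit 126838290) (nat_lit 225) (nat_lit 5) (nat_lit 232) (nat_lit 5)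 (nat_lit 233) (nat_lit 5) (nat_lit 588) (nat_lit 502) (nat_lit 470)) (XT.lf (nat_lit 0) (nat_lit 3333130409) (nat_lit 608) (nat_lit 222581746) (nat_lit 76) (nat_lit 5413027264) (nat_lit 224) (nat_lit 5) (nat_lit 232) (nat_lit 5) (nat_lit 225) (nat_lit 5) (nat_lit 589) (nat_lit 502) (nat_lit 469)))) (XT.nd (nat_lit 156) (nat_lit 1064) (nat_lit 0) (XT.nd (nat_lit 78) (nat_lit 532) (nat_lit 0) (XT.lf (nat_lit 0) (nat_lit 6621544117) (nat_lit 532) (nat_lit 233302036) (nat_lit 608) (nat_lit 2196526832) (nat_lit 217) (nat_lit 5) (nat_lit 224) (nat_lit 5) (nat_lit 225) (nat_lit 5) (nat_lit 590) (nat_lit 502) (nat_lit 468)) (XT.lf (nat_lit 0) (nat_lit 1296603427) (nat_lit 532) (nat_lit 4705129079) (nat_lit 76) (nat_lit 3133712585) (nat_lit 210) (nat_lit 5) (nat_lit 217) (nat_lit 5) (nat_lit 211) (nat_lit 5) (nat_lit 591) (nat_lit 502) (nat_lit 467))) (XT.nd (nat_lit 78) (nat_lit 532) (nat_lit 0) (XT.lf (nat_lit 0) (nat_lit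 2183325370) (nat_lit 532) (nat_lit 2630845699) (nat_lit 608) (nat_lit 4407062802) (nat_lit 203) (nat_lit 5) (nat_lit 210) (nat_lit 5) (nat_lit 211) (nat_lit 5) (nat_lit 592) (nat_lit 502) (nat_lit 466)) (XT.nd (nat_lit 78) (nat_lit 532) (nat_lit 0) (XT.lf (nat_lit 0) (nat_lit 8391306483) (nat_lit 608) (nat_lit 109439814) (nat_lit 76) (nat_lit 808213035) (nat_lit 203) (nat_lit 5) (nat_lit 211) (nat_lit 5) (nat_lit 204) (nat_lit 5) (nat_lit 593) (nat_lit 502) (nat_lit 465)) (XT.lf (nat_lit 0) (nat_lit 2622764064) (nat_lit 532) (nat_lit 2451731536) (nat_lit 76) (nat_lit 4323288457) (nat_lit 196) (nat_lit 5) (nat_lit 203) (nat_lit 5) (nat_lit 197) (nat_lit 5) (nat_lit 594) (nat_lit 502) (nat_lit 464))))))) (XT.nd (nat_lit 702) (nat_lit 2660) (nat_lit 0) (XT.nd (nat_lit 312) (nat_lit 1748) (nat_lit 0) (XT.nd (nat_lit 156) (nat_lit 456) (nat_lit 0) (XT.nd (nat_lit 78) (nat_lit 532) (nat_lit 0) (XT.lf (nat_lit 0) (nat_lit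 4642541816) (nat_lit 456) (nat_lit 1563350863) (nat_lit 532) (nat_lit 3282692400) (nat_lit 190) (nat_lit 5) (nat_lit 196) (nat_lit 5) (nat_lit 197) (nat_lit 5) (nat_lit 595) (nat_lit 502) (nat_lit 463)) (XT.lf (nat_lit 0) (nat_lit 273897564) (nat_lit 532) (nat_lit 7303677050) (nat_lit 76) (nat_lit 2003634333) (nat_lit 183) (nat_lit 5) (nat_lit 190) (nat_lit 5) (nat_lit 184) (nat_lit 5) (nat_lit 596) (nat_lit 502) (nat_lit 462))) (XT.nd (nat_lit 78) (nat_lit 456) (nat_lit 0) (XT.lf (nat_lit 0) (nat_lit 3854588596) (nat_lit 532) (nat_lit 166618778) (nat_lit 76) (nat_lit 5654110103) (nat_lit 183) (nat_lit 5) (nat_lit 190) (nat_lit 5) (nat_lit 184) (nat_lit 5) (nat_lit 597) (nat_lit 502) (nat_lit 461)) (XT.lf (nat_lit 0) (nat_lit 7139618560) (nat_lit 456) (nat_lit 368331253) (nat_lit 532) (nat_lit 2263341792) (nat_lit 177) (nat_lit 5) (nat_lit 183) (nat_lit 5) (nat_lit 184) (nat_lit 5) (nat_lit 598) (nat_lit 502) (nat_lit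 460)))) (XT.nd (nat_lit 156) (nat_lit 836) (nat_lit 0) (XT.nd (nat_lit 78) (nat_lit 456) (nat_lit 0) (XT.lf (nat_lit 0) (nat_lit 1355777141) (nat_lit 456) (nat_lit 5180581094) (nat_lit 76) (nat_lit 3332484310) (nat_lit 171) (nat_lit 5) (nat_lit 177) (nat_lit 5) (nat_lit 172) (nat_lit 5) (nat_lit 599) (nat_lit 502) (nat_lit 459)) (XT.lf (nat_lit 0) (nat_lit 2165459048) (nat_lit 456) (nat_lit 2840978377) (nat_lit 532) (nat_lit 4961822855) (nat_lit 165) (nat_lit 5) (nat_lit 171) (nat_lit 5) (nat_lit 172) (nat_lit 5) (nat_lit 600) (nat_lit 502) (nat_lit 458))) (XT.nd (nat_lit 78) (nat_lit 836) (nat_lit 0) (XT.lf (nat_lit 0) (nat_lit 8726588293) (nat_lit 532) (nat_lit 414555503) (nat_lit 76) (nat_lit 928597236) (nat_lit 165) (nat_lit 5) (nat_lit 172) (nat_lit 5) (nat_lit 166) (nat_lit 5) (nat_lit 601) (nat_lit 502) (nat_lit 457)) (XT.nd (nat_lit 78) (nat_lit 380) (nat_lit 0) (XT.lf (nat_lit 0) (nat_lit 2338668496) (nat_lit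 456) (nat_lit 3058705725) (nat_lit 76) (nat_lit 4775144929) (nat_lit 159) (nat_lit 5) (nat_lit 165) (nat_lit 5) (nat_lit 160) (nat_lit 5) (nat_lit 602) (nat_lit 502) (nat_lit 456)) (XT.lf (nat_lit 0) (nat_lit 4504452709) (nat_lit 380) (nat_lit 1560216695) (nat_lit 456) (nat_lit 4212739266) (nat_lit 154) (nat_lit 5) (nat_lit 159) (nat_lit 5) (nat_lit 160) (nat_lit 5) (nat_lit 603) (nat_lit 502) (nat_lit 455)))))) (XT.nd (nat_lit 390) (nat_lit 1064) (nat_lit 0) (XT.nd (nat_lit 156) (nat_lit 1140) (nat_lit 0) (XT.nd (nat_lit 78) (nat_lit 76) (nat_lit 0) (XT.lf (nat_lit 0) (nat_lit 1817714027) (nat_lit 380) (nat_lit 8051958340) (nat_lit 456) (nat_lit 514637860) (nat_lit 149) (nat_lit 5) (nat_lit 154) (nat_lit 5) (nat_lit 155) (nat_lit 5) (nat_lit 604) (nat_lit 502) (nat_lit 454)) (XT.lf (nat_lit 0) (nat_lit 3220897886) (nat_lit 456) (nat_lit 953056369) (nat_lit 76) (nat_lit 6318852432) (nat_lit 148) (nat_lit 5) (nat_lit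 154) (nat_lit 5) (nat_lit 149) (nat_lit 5) (nat_lit 605) (nat_lit 502) (nat_lit 453))) (XT.nd (nat_lit 78) (nat_lit 760) (nat_lit 0) (XT.lf (nat_lit 0) (nat_lit 6833086538) (nat_lit 380) (nat_lit 193249307) (nat_lit 456) (nat_lit 3577031210) (nat_lit 143) (nat_lit 5) (nat_lit 148) (nat_lit 5) (nat_lit 149) (nat_lit 5) (nat_lit 606) (nat_lit 502) (nat_lit 452)) (XT.nd (nat_lit 78) (nat_lit 380) (nat_lit 0) (XT.lf (nat_lit 0) (nat_lit 205025503) (nat_lit 380) (nat_lit 6683698387) (nat_lit 76) (nat_lit 3827077436) (nat_lit 138) (nat_lit 5) (nat_lit 143) (nat_lit 5) (nat_lit 139) (nat_lit 5) (nat_lit 607) (nat_lit 502) (nat_lit 451)) (XT.lf (nat_lit 0) (nat_lit 1135157365) (nat_lit 380) (nat_lit 2871913365) (nat_lit 456) (nat_lit 6823099247) (nat_lit 133) (nat_lit 5) (nat_lit 138) (nat_lit 5) (nat_lit 139) (nat_lit 5) (nat_lit 608) (nat_lit 502) (nat_lit 450))))) (XT.nd (nat_lit 156) (nat_lit 684) (nat_lit 0) (XT.nd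 (nat_lit 78) (nat_lit 380) (nat_lit 0) (XT.lf (nat_lit 0) (nat_lit 7896577834) (nat_lit 456) (nat_lit 1819688799) (nat_lit 76) (nat_lit 1230334335) (nat_lit 133) (nat_lit 5) (nat_lit 139) (nat_lit 5) (nat_lit 134) (nat_lit 5) (nat_lit 609) (nat_lit 502) (nat_lit 449)) (XT.lf (nat_lit 0) (nat_lit 806637195) (nat_lit 380) (nat_lit 4859922182) (nat_lit 76) (nat_lit 5398328858) (nat_lit 128) (nat_lit 5) (nat_lit 133) (nat_lit 5) (nat_lit 129) (nat_lit 5) (nat_lit 610) (nat_lit 502) (nat_lit 448))) (XT.nd (nat_lit 78) (nat_lit 380) (nat_lit 0) (XT.lf (nat_lit 0) (nat_lit 3185675016) (nat_lit 304) (nat_lit 1506174075) (nat_lit 380) (nat_lit 6493446970) (nat_lit 124) (nat_lit 5) (nat_lit 128) (nat_lit 5) (nat_lit 129) (nat_lit 5) (nat_lit 611) (nat_lit 502) (nat_lit 447)) (XT.nd (nat_lit 78) (nat_lit 76) (nat_lit 0) (XT.lf (nat_lit 0) (nat_lit 67972998) (nat_lit 304) (nat_lit 8597298648) (nat_lit 380) (nat_lit 2642633397)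 (nat_lit 120) (nat_lit 5) (nat_lit 124) (nat_lit 5) (nat_lit 125) (nat_lit 5) (nat_lit 612) (nat_lit 502) (nat_lit 446)) (XT.lf (nat_lit 0) (nat_lit 1291919190) (nat_lit 380) (nat_lit 3110851672) (nat_lit 76) (nat_lit 7029559895) (nat_lit 119) (nat_lit 5) (nat_lit 124) (nat_lit 5) (nat_lit 120) (nat_lit 5) (nat_lit 613) (nat_lit 502) (nat_lit 445))))))))
noncomputable def xc33 : XT := (XT.nd (nat_lit 77142) (nat_lit 0) (nat_lit 14060) (XT.nd (nat_lit 702) (nat_lit 228) (nat_lit 0) (XT.nd (nat_lit 312) (nat_lit 1216) (nat_lit 0) (XT.nd (nat_lit 156) (nat_lit 380) (nat_lit 0) (XT.nd (nat_lit 78) (nat_lit 304) (nat_lit 0) (XT.lf (nat_lit 0) (nat_lit 5166718461) (nat_lit 304) (nat_lit 96997649) (nat_lit 380) (nat_lit 6295303703) (nat_lit 115) (nat_lit 5) (nat_lit 119) (nat_lit 5) (nat_lit 120) (nat_lit 5) (nat_lit 614) (nat_lit 502) (nat_lit 444)) (XT.lf (nat_lit 0) (nat_lit 1896473901) (nat_lit 304) (nat_lit 7440248656)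 (nat_lit 380) (nat_lit 2351087511) (nat_lit 111) (nat_lit 5) (nat_lit 115) (nat_lit 5) (nat_lit 116) (nat_lit 5) (nat_lit 615) (nat_lit 502) (nat_lit 443))) (XT.nd (nat_lit 78) (nat_lit 304) (nat_lit 0) (XT.lf (nat_lit 0) (nat_lit 1654563139) (nat_lit 380) (nat_lit 1457085826) (nat_lit 76) (nat_lit 8707223247) (nat_lit 110) (nat_lit 5) (nat_lit 115) (nat_lit 5) (nat_lit 111) (nat_lit 5) (nat_lit 616) (nat_lit 502) (nat_lit 442)) (XT.lf (nat_lit 0) (nat_lit 5724833724) (nat_lit 380) (nat_lit 4903363085) (nat_lit 76) (nat_lit 1323730938) (nat_lit 106) (nat_lit 5) (nat_lit 111) (nat_lit 5) (nat_lit 107) (nat_lit 5) (nat_lit 617) (nat_lit 502) (nat_lit 441)))) (XT.nd (nat_lit 156) (nat_lit 608) (nat_lit 0) (XT.nd (nat_lit 78) (nat_lit 380) (nat_lit 0) (XT.lf (nat_lit 0) (nat_lit 3619852907) (nat_lit 228) (nat_lit 6272223727) (nat_lit 304) (nat_lit 2195259091) (nat_lit 103) (nat_lit 5) (nat_lit 106) (nat_lit 5) (nat_lit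 107) (nat_lit 5) (nat_lit 618) (nat_lit 502) (nat_lit 440)) (XT.lf (nat_lit 0) (nat_lit 79914043) (nat_lit 304) (nat_lit 1807497768) (nat_lit 380) (nat_lit 10337886783) (nat_lit 98) (nat_lit 5) (nat_lit 102) (nat_lit 5) (nat_lit 103) (nat_lit 5) (nat_lit 619) (nat_lit 502) (nat_lit 439))) (XT.nd (nat_lit 78) (nat_lit 608) (nat_lit 0) (XT.lf (nat_lit 0) (nat_lit 6059277827) (nat_lit 380) (nat_lit 3548445809) (nat_lit 76) (nat_lit 2757270663) (nat_lit 98) (nat_lit 5) (nat_lit 103) (nat_lit 5) (nat_lit 99) (nat_lit 5) (nat_lit 620) (nat_lit 502) (nat_lit 438)) (XT.nd (nat_lit 78) (nat_lit 380) (nat_lit 0) (XT.lf (nat_lit 0) (nat_lit 5214246693) (nat_lit 228) (nat_lit 5108785397) (nat_lit 304) (nat_lit 2184285276) (nat_lit 95) (nat_lit 5) (nat_lit 98) (nat_lit 5) (nat_lit 99) (nat_lit 5) (nat_lit 621) (nat_lit 502) (nat_lit 437)) (XT.lf (nat_lit 0) (nat_lit 1491892094) (nat_lit 304) (nat_lit 497559078) (nat_lit 380)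 (nat_lit 10662848570) (nat_lit 90) (nat_lit 5) (nat_lit 94) (nat_lit 5) (nat_lit 95) (nat_lit 5) (nat_lit 622) (nat_lit 502) (nat_lit 436)))))) (XT.nd (nat_lit 76050) (nat_lit 0) (nat_lit 25992) (XT.nd (nat_lit 75816) (nat_lit 0) (nat_lit 30552) (XT.nd (nat_lit 78) (nat_lit 228) (nat_lit 0) (XT.lf (nat_lit 0) (nat_lit 6256884298) (nat_lit 380) (nat_lit 2352737990) (nat_lit 76) (nat_lit 4189483647) (nat_lit 90) (nat_lit 5) (nat_lit 95) (nat_lit 5) (nat_lit 91) (nat_lit 5) (nat_lit 623) (nat_lit 502) (nat_lit 435)) (XT.lf (nat_lit 0) (nat_lit 6653431676) (nat_lit 228) (nat_lit 3966326327) (nat_lit 304) (nat_lit 2328890690) (nat_lit 87) (nat_lit 5) (nat_lit 90) (nat_lit 5) (nat_lit 91) (nat_lit 5) (nat_lit 624) (nat_lit 502) (nat_lit 434))) (XT.nd (nat_lit 78) (nat_lit 3344) (nat_lit 0) (XT.lf (nat_lit 0) (nat_lit 1312298474) (nat_lit 1596) (nat_lit 875088606) (nat_lit 0) (nat_lit 1312298474) (nat_lit 533) (nat_lit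 5) (nat_lit 554) (nat_lit 4) (nat_lit 533) (nat_lit 4) (nat_lit 554) (nat_lit 503) (nat_lit 503)) (XT.nd (nat_lit 78) (nat_lit 1748) (nat_lit 0) (XT.lf (nat_lit 0) (nat_lit 3302500418) (nat_lit 1596) (nat_lit 2776477398) (nat_lit 1596) (nat_lit 954040306) (nat_lit 512) (nat_lit 4) (nat_lit 533) (nat_lit 5) (nat_lit 533) (nat_lit 4) (nat_lit 555) (nat_lit 503) (nat_lit 502)) (XT.lf (nat_lit 0) (nat_lit 1346444515) (nat_lit 1672) (nat_lit 1106815206) (nat_lit 1748) (nat_lit 4614735532) (nat_lit 489) (nat_lit 5) (nat_lit 511) (nat_lit 5) (nat_lit 512) (nat_lit 4) (nat_lit 556) (nat_lit 503) (nat_lit 501))))) (XT.nd (nat_lit 156) (nat_lit 2736) (nat_lit 0) (XT.nd (nat_lit 78) (nat_lit 1824) (nat_lit 0) (XT.lf (nat_lit 0) (nat_lit 5876777425) (nat_lit 1748) (nat_lit 606483955) (nat_lit 0) (nat_lit 621081583) (nat_lit 489) (nat_lit 5) (nat_lit 512) (nat_lit 4) (nat_lit 489) (nat_lit 4) (nat_lit 557) (nat_lit 503) (nat_lit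 500)) (XT.lf (nat_lit 0) (nat_lit 2168201708) (nat_lit 1824) (nat_lit 2559578563) (nat_lit 76) (nat_lit 2413960352) (nat_lit 465) (nat_lit 5) (nat_lit 489) (nat_lit 5) (nat_lit 466) (nat_lit 4) (nat_lit 558) (nat_lit 503) (nat_lit 499))) (XT.nd (nat_lit 78) (nat_lit 1064) (nat_lit 0) (XT.lf (nat_lit 0) (nat_lit 2662171420) (nat_lit 1672) (nat_lit 2908202270) (nat_lit 1748) (nat_lit 1610265004) (nat_lit 443) (nat_lit 5) (nat_lit 465) (nat_lit 5) (nat_lit 466) (nat_lit 4) (nat_lit 559) (nat_lit 503) (nat_lit 498)) (XT.nd (nat_lit 78) (nat_lit 0) (nat_lit 0) (XT.lf (nat_lit 0) (nat_lit 732728630) (nat_lit 988) (nat_lit 1019669647) (nat_lit 1064) (nat_lit 5468572900) (nat_lit 429) (nat_lit 5) (nat_lit 442) (nat_lit 5) (nat_lit 443) (nat_lit 5) (nat_lit 560) (nat_lit 503) (nat_lit 497)) (XT.lf (nat_lit 0) (nat_lit 5131972790) (nat_lit 1064) (nat_lit 1196941019) (nat_lit 76) (nat_lit 933571743) (nat_lit 429) (nat_lit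 5) (nat_lit 443) (nat_lit 5) (nat_lit 430) (nat_lit 4) (nat_lit 561) (nat_lit 503) (nat_lit 496))))))) (XT.nd (nat_lit 702) (nat_lit 5776) (nat_lit 0) (XT.nd (nat_lit 312) (nat_lit 3344) (nat_lit 0) (XT.nd (nat_lit 156) (nat_lit 912) (nat_lit 0) (XT.nd (nat_lit 78) (nat_lit 912) (nat_lit 0) (XT.lf (nat_lit 0) (nat_lit 1227350958) (nat_lit 988) (nat_lit 3132785695) (nat_lit 76) (nat_lit 2945145010) (nat_lit 416) (nat_lit 5) (nat_lit 429) (nat_lit 5) (nat_lit 417) (nat_lit 5) (nat_lit 562) (nat_lit 503) (nat_lit 495)) (XT.lf (nat_lit 0) (nat_lit 2264363868) (nat_lit 912) (nat_lit 2318751673) (nat_lit 988) (nat_lit 2766362865) (nat_lit 404) (nat_lit 5) (nat_lit 416) (nat_lit 5) (nat_lit 417) (nat_lit 5) (nat_lit 563) (nat_lit 503) (nat_lit 494))) (XT.nd (nat_lit 78) (nat_lit 0) (nat_lit 0) (XT.lf (nat_lit 0) (nat_lit 349915329) (nat_lit 836) (nat_lit 213773912) (nat_lit 912) (nat_lit 6831596335) (nat_lit 392) (nat_lit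 5) (nat_lit 403) (nat_lit 5) (nat_lit 404) (nat_lit 5) (nat_lit 564) (nat_lit 503) (nat_lit 493)) (XT.lf (nat_lit 0) (nat_lit 3907837438) (nat_lit 912) (nat_lit 1578970235) (nat_lit 76) (nat_lit 1955155880) (nat_lit 392) (nat_lit 5) (nat_lit 404) (nat_lit 5) (nat_lit 393) (nat_lit 5) (nat_lit 565) (nat_lit 503) (nat_lit 492)))) (XT.nd (nat_lit 156) (nat_lit 1672) (nat_lit 0) (XT.nd (nat_lit 78) (nat_lit 836) (nat_lit 0) (XT.lf (nat_lit 0) (nat_lit 3979771672) (nat_lit 836) (nat_lit 3305175446) (nat_lit 912) (nat_lit 205317290) (nat_lit 381) (nat_lit 5) (nat_lit 392) (nat_lit 5) (nat_lit 393) (nat_lit 5) (nat_lit 566) (nat_lit 503) (nat_lit 491)) (XT.lf (nat_lit 0) (nat_lit 2069999848) (nat_lit 760) (nat_lit 1041510559) (nat_lit 836) (nat_lit 4428351479) (nat_lit 370) (nat_lit 5) (nat_lit 380) (nat_lit 5) (nat_lit 381) (nat_lit 5) (nat_lit 567) (nat_lit 503) (nat_lit 490))) (XT.nd (nat_lit 78) (nat_lit 836) (nat_lit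 0) (XT.lf (nat_lit 0) (nat_lit 142985626) (nat_lit 836) (nat_lit 6321691993) (nat_lit 912) (nat_lit 1126301770) (nat_lit 359) (nat_lit 5) (nat_lit 370) (nat_lit 5) (nat_lit 371) (nat_lit 5) (nat_lit 568) (nat_lit 503) (nat_lit 489)) (XT.nd (nat_lit 78) (nat_lit 760) (nat_lit 0) (XT.lf (nat_lit 0) (nat_lit 2196444144) (nat_lit 912) (nat_lit 1791049324) (nat_lit 76) (nat_lit 3655663401) (nat_lit 358) (nat_lit 5) (nat_lit 370) (nat_lit 5) (nat_lit 359) (nat_lit 5) (nat_lit 569) (nat_lit 503) (nat_lit 488)) (XT.lf (nat_lit 0) (nat_lit 3955606309) (nat_lit 760) (nat_lit 1582036866) (nat_lit 836) (nat_lit 2159253908) (nat_lit 348) (nat_lit 5) (nat_lit 358) (nat_lit 5) (nat_lit 359) (nat_lit 5) (nat_lit 570) (nat_lit 503) (nat_lit 487)))))) (XT.nd (nat_lit 390) (nat_lit 2736) (nat_lit 0) (XT.nd (nat_lit 156) (nat_lit 1520) (nat_lit 0) (XT.nd (nat_lit 78) (nat_lit 684) (nat_lit 0) (XT.lf (nat_lit 0) (nat_lit 1151158873)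 (nat_lit 836) (nat_lit 5717289089) (nat_lit 76) (nat_lit 883661122) (nat_lit 337) (nat_lit 5) (nat_lit 348) (nat_lit 5) (nat_lit 338) (nat_lit 5) (nat_lit 571) (nat_lit 503) (nat_lit 486)) (XT.lf (nat_lit 0) (nat_lit 76472388) (nat_lit 684) (nat_lit 4401007249) (nat_lit 760) (nat_lit 3331097103) (nat_lit 328) (nat_lit 5) (nat_lit 337) (nat_lit 5) (nat_lit 338) (nat_lit 5) (nat_lit 572) (nat_lit 503) (nat_lit 485))) (XT.nd (nat_lit 78) (nat_lit 1520) (nat_lit 0) (XT.lf (nat_lit 0) (nat_lit 5995229799) (nat_lit 684) (nat_lit 1856488920) (nat_lit 760) (nat_lit 14836126) (nat_lit 328) (nat_lit 5) (nat_lit 337) (nat_lit 5) (nat_lit 338) (nat_lit 5) (nat_lit 573) (nat_lit 503) (nat_lit 484)) (XT.nd (nat_lit 78) (nat_lit 684) (nat_lit 0) (XT.lf (nat_lit 0) (nat_lit 3298815924) (nat_lit 836) (nat_lit 3860507973) (nat_lit 76) (nat_lit 766435199) (nat_lit 317) (nat_lit 5) (nat_lit 328) (nat_lit 5) (nat_lit 318) (nat_lit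 5) (nat_lit 574) (nat_lit 503) (nat_lit 483)) (XT.lf (nat_lit 0) (nat_lit 2106792594) (nat_lit 684) (nat_lit 4554717400) (nat_lit 760) (nat_lit 1324984540) (nat_lit 308) (nat_lit 5) (nat_lit 317) (nat_lit 5) (nat_lit 318) (nat_lit 5) (nat_lit 575) (nat_lit 503) (nat_lit 482))))) (XT.nd (nat_lit 156) (nat_lit 1976) (nat_lit 0) (XT.nd (nat_lit 78) (nat_lit 0) (nat_lit 0) (XT.lf (nat_lit 0) (nat_lit 117259390) (nat_lit 684) (nat_lit 1870429334) (nat_lit 760) (nat_lit 6061069359) (nat_lit 298) (nat_lit 5) (nat_lit 307) (nat_lit 5) (nat_lit 308) (nat_lit 5) (nat_lit 576) (nat_lit 503) (nat_lit 481)) (XT.lf (nat_lit 0) (nat_lit 5339426335) (nat_lit 760) (nat_lit 1881533660) (nat_lit 76) (nat_lit 891328630) (nat_lit 298) (nat_lit 5) (nat_lit 308) (nat_lit 5) (nat_lit 299) (nat_lit 5) (nat_lit 577) (nat_lit 503) (nat_lit 480))) (XT.nd (nat_lit 78) (nat_lit 1292) (nat_lit 0) (XT.lf (nat_lit 0) (nat_lit 559728936) (nat_lit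 684) (nat_lit 3915962254) (nat_lit 76) (nat_lit 3701605925) (nat_lit 289) (nat_lit 5) (nat_lit 298) (nat_lit 5) (nat_lit 290) (nat_lit 5) (nat_lit 578) (nat_lit 503) (nat_lit 479)) (XT.nd (nat_lit 78) (nat_lit 608) (nat_lit 0) (XT.lf (nat_lit 0) (nat_lit 2252140661) (nat_lit 684) (nat_lit 1643586738) (nat_lit 760) (nat_lit 4348041598) (nat_lit 280) (nat_lit 5) (nat_lit 289) (nat_lit 5) (nat_lit 290) (nat_lit 5) (nat_lit 579) (nat_lit 503) (nat_lit 478)) (XT.lf (nat_lit 0) (nat_lit 211476065) (nat_lit 608) (nat_lit 7069909345) (nat_lit 684) (nat_lit 1030533444) (nat_lit 272) (nat_lit 5) (nat_lit 280) (nat_lit 5) (nat_lit 281) (nat_lit 5) (nat_lit 580) (nat_lit 503) (nat_lit 477))))))))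
noncomputable def xc34 : XT := (XT.nd (nat_lit 1482) (nat_lit 4940) (nat_lit 0) (XT.nd (nat_lit 702) (nat_lit 4028) (nat_lit 0) (XT.nd (nat_lit 312) (nat_lit 1748) (nat_lit 0) (XT.nd (nat_lit 156) (nat_lit 1216) (nat_lit 0) (XT.nd (nat_lit 78) (nat_lit 608) (nat_lit 0) (XT.lf (nat_lit 0) (nat_lit 2321090155) (nat_lit 684) (nat_lit 1856134964) (nat_lit 76) (nat_lit 4203935455) (nat_lit 271) (nat_lit 5) (nat_lit 280) (nat_lit 5) (nat_lit 272) (nat_lit 5) (nat_lit 581) (nat_lit 503) (nat_lit 476)) (XT.lf (nat_lit 0) (nat_lit 4497635559) (nat_lit 608) (nat_lit 1205831875) (nat_lit 684) (nat_lit 2748639962) (nat_lit 263) (nat_lit 5) (nat_lit 271) (nat_lit 5) (nat_lit 272) (nat_lit 5) (nat_lit 582) (nat_lit 503) (nat_lit 475))) (XT.nd (nat_lit 78) (nat_lit 608) (nat_lit 0) (XT.lf (nat_lit 0) (nat_lit 609641552) (nat_lit 608) (nat_lit 6097404789) (nat_lit 76) (nat_lit 1817574328) (nat_lit 255) (nat_lit 5) (nat_lit 263)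 (nat_lit 5) (nat_lit 256) (nat_lit 5) (nat_lit 583) (nat_lit 503) (nat_lit 474)) (XT.lf (nat_lit 0) (nat_lit 301373168) (nat_lit 608) (nat_lit 3682602781) (nat_lit 684) (nat_lit 4614537566) (nat_lit 247) (nat_lit 5) (nat_lit 255) (nat_lit 5) (nat_lit 256) (nat_lit 5) (nat_lit 584) (nat_lit 503) (nat_lit 473)))) (XT.nd (nat_lit 156) (nat_lit 1140) (nat_lit 0) (XT.nd (nat_lit 78) (nat_lit 608) (nat_lit 0) (XT.lf (nat_lit 0) (nat_lit 6842925091) (nat_lit 608) (nat_lit 573350597) (nat_lit 684) (nat_lit 1257805338) (nat_lit 247) (nat_lit 5) (nat_lit 255) (nat_lit 5) (nat_lit 256) (nat_lit 5) (nat_lit 585) (nat_lit 503) (nat_lit 472)) (XT.lf (nat_lit 0) (nat_lit 2135731592) (nat_lit 608) (nat_lit 4023189805) (nat_lit 76) (nat_lit 2592001783) (nat_lit 239) (nat_lit 5) (nat_lit 247) (nat_lit 5) (nat_lit 240) (nat_lit 5) (nat_lit 586) (nat_lit 503) (nat_lit 471))) (XT.nd (nat_lit 78) (nat_lit 608) (nat_lit 0) (XT.lf (nat_lit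 0) (nat_lit 2567403707) (nat_lit 532) (nat_lit 2996391261) (nat_lit 608) (nat_lit 3265676986) (nat_lit 232) (nat_lit 5) (nat_lit 239) (nat_lit 5) (nat_lit 240) (nat_lit 5) (nat_lit 587) (nat_lit 503) (nat_lit 470)) (XT.nd (nat_lit 78) (nat_lit 0) (nat_lit 0) (XT.lf (nat_lit 0) (nat_lit 130855213) (nat_lit 608) (nat_lit 8540377034) (nat_lit 76) (nat_lit 238705541) (nat_lit 224) (nat_lit 5) (nat_lit 232) (nat_lit 5) (nat_lit 225) (nat_lit 5) (nat_lit 588) (nat_lit 503) (nat_lit 469)) (XT.lf (nat_lit 0) (nat_lit 3565028224) (nat_lit 608) (nat_lit 1882465055) (nat_lit 76) (nat_lit 3543824850) (nat_lit 224) (nat_lit 5) (nat_lit 232) (nat_lit 5) (nat_lit 225) (nat_lit 5) (nat_lit 589) (nat_lit 503) (nat_lit 468)))))) (XT.nd (nat_lit 390) (nat_lit 1900) (nat_lit 0) (XT.nd (nat_lit 156) (nat_lit 1064) (nat_lit 0) (XT.nd (nat_lit 78) (nat_lit 532) (nat_lit 0) (XT.lf (nat_lit 0) (nat_lit 4906037020) (nat_lit 532) (nat_lit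 2145909737) (nat_lit 608) (nat_lit 2022703633) (nat_lit 217) (nat_lit 5) (nat_lit 224) (nat_lit 5) (nat_lit 225) (nat_lit 5) (nat_lit 590) (nat_lit 503) (nat_lit 467)) (XT.lf (nat_lit 0) (nat_lit 1420364709) (nat_lit 532) (nat_lit 6513240422) (nat_lit 76) (nat_lit 1226053080) (nat_lit 210) (nat_lit 5) (nat_lit 217) (nat_lit 5) (nat_lit 211) (nat_lit 5) (nat_lit 591) (nat_lit 503) (nat_lit 466))) (XT.nd (nat_lit 78) (nat_lit 532) (nat_lit 0) (XT.lf (nat_lit 0) (nat_lit 317331160) (nat_lit 532) (nat_lit 4585104402) (nat_lit 608) (nat_lit 4343723955) (nat_lit 203) (nat_lit 5) (nat_lit 210) (nat_lit 5) (nat_lit 211) (nat_lit 5) (nat_lit 592) (nat_lit 503) (nat_lit 465)) (XT.nd (nat_lit 78) (nat_lit 532) (nat_lit 0) (XT.lf (nat_lit 0) (nat_lit 7305758627) (nat_lit 532) (nat_lit 1145356608) (nat_lit 608) (nat_lit 883341398) (nat_lit 203) (nat_lit 5) (nat_lit 210) (nat_lit 5) (nat_lit 211) (nat_lit 5) (nat_lit 593) (nat_lit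 503) (nat_lit 464)) (XT.lf (nat_lit 0) (nat_lit 2613358745) (nat_lit 532) (nat_lit 4448627202) (nat_lit 76) (nat_lit 2362158733) (nat_lit 196) (nat_lit 5) (nat_lit 203) (nat_lit 5) (nat_lit 197) (nat_lit 5) (nat_lit 594) (nat_lit 503) (nat_lit 463))))) (XT.nd (nat_lit 156) (nat_lit 912) (nat_lit 0) (XT.nd (nat_lit 78) (nat_lit 532) (nat_lit 0) (XT.lf (nat_lit 0) (nat_lit 2585651059) (nat_lit 456) (nat_lit 3574814899) (nat_lit 532) (nat_lit 3355202566) (nat_lit 190) (nat_lit 5) (nat_lit 196) (nat_lit 5) (nat_lit 197) (nat_lit 5) (nat_lit 595) (nat_lit 503) (nat_lit 462)) (XT.lf (nat_lit 0) (nat_lit 146241495) (nat_lit 456) (nat_lit 6403914) (nat_lit 532) (nat_lit 9456652558) (nat_lit 183) (nat_lit 5) (nat_lit 189) (nat_lit 5) (nat_lit 190) (nat_lit 5) (nat_lit 596) (nat_lit 503) (nat_lit 461))) (XT.nd (nat_lit 78) (nat_lit 912) (nat_lit 0) (XT.lf (nat_lit 0) (nat_lit 3710869728) (nat_lit 532) (nat_lit 2359223691)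 (nat_lit 76) (nat_lit 3633764668) (nat_lit 183) (nat_lit 5) (nat_lit 190) (nat_lit 5) (nat_lit 184) (nat_lit 5) (nat_lit 597) (nat_lit 503) (nat_lit 460)) (XT.nd (nat_lit 78) (nat_lit 456) (nat_lit 0) (XT.lf (nat_lit 0) (nat_lit 4884826875) (nat_lit 456) (nat_lit 2442779040) (nat_lit 532) (nat_lit 2472961012) (nat_lit 177) (nat_lit 5) (nat_lit 183) (nat_lit 5) (nat_lit 184) (nat_lit 5) (nat_lit 598) (nat_lit 503) (nat_lit 459)) (XT.lf (nat_lit 0) (nat_lit 1098114651) (nat_lit 456) (nat_lit 7543150022) (nat_lit 76) (nat_lit 1257898389) (nat_lit 171) (nat_lit 5) (nat_lit 177) (nat_lit 5) (nat_lit 172) (nat_lit 5) (nat_lit 599) (nat_lit 503) (nat_lit 458))))))) (XT.nd (nat_lit 702) (nat_lit 2432) (nat_lit 0) (XT.nd (nat_lit 312) (nat_lit 1216) (nat_lit 0) (XT.nd (nat_lit 156) (nat_lit 836) (nat_lit 0) (XT.nd (nat_lit 78) (nat_lit 456) (nat_lit 0) (XT.lf (nat_lit 0) (nat_lit 4712953083) (nat_lit 456) (nat_lit 258354586)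 (nat_lit 76) (nat_lit 5027991649) (nat_lit 171) (nat_lit 5) (nat_lit 177) (nat_lit 5) (nat_lit 172) (nat_lit 5) (nat_lit 600) (nat_lit 503) (nat_lit 457)) (XT.lf (nat_lit 0) (nat_lit 7201541633) (nat_lit 456) (nat_lit 1202206034) (nat_lit 532) (nat_lit 1697621571) (nat_lit 165) (nat_lit 5) (nat_lit 171) (nat_lit 5) (nat_lit 172) (nat_lit 5) (nat_lit 601) (nat_lit 503) (nat_lit 456))) (XT.nd (nat_lit 78) (nat_lit 380) (nat_lit 0) (XT.lf (nat_lit 0) (nat_lit 1943032355) (nat_lit 456) (nat_lit 5631806385) (nat_lit 76) (nat_lit 2630272933) (nat_lit 159) (nat_lit 5) (nat_lit 165) (nat_lit 5) (nat_lit 160) (nat_lit 5) (nat_lit 602) (nat_lit 503) (nat_lit 455)) (XT.lf (nat_lit 0) (nat_lit 1864313770) (nat_lit 380) (nat_lit 3766448591) (nat_lit 456) (nat_lit 4680006176) (nat_lit 154) (nat_lit 5) (nat_lit 159) (nat_lit 5) (nat_lit 160) (nat_lit 5) (nat_lit 603) (nat_lit 503) (nat_lit 454)))) (XT.nd (nat_lit 156) (nat_lit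 760) (nat_lit 0) (XT.nd (nat_lit 78) (nat_lit 456) (nat_lit 0) (XT.lf (nat_lit 0) (nat_lit 9388641867) (nat_lit 456) (nat_lit 897846412) (nat_lit 76) (nat_lit 132126172) (nat_lit 154) (nat_lit 5) (nat_lit 160) (nat_lit 5) (nat_lit 155) (nat_lit 5) (nat_lit 604) (nat_lit 503) (nat_lit 453)) (XT.lf (nat_lit 0) (nat_lit 2685440781) (nat_lit 456) (nat_lit 3744198281) (nat_lit 76) (nat_lit 4098078201) (nat_lit 148) (nat_lit 5) (nat_lit 154) (nat_lit 5) (nat_lit 149) (nat_lit 5) (nat_lit 605) (nat_lit 503) (nat_lit 452))) (XT.nd (nat_lit 78) (nat_lit 380) (nat_lit 0) (XT.lf (nat_lit 0) (nat_lit 3972454155) (nat_lit 380) (nat_lit 2479326869) (nat_lit 456) (nat_lit 4187280341) (nat_lit 143) (nat_lit 5) (nat_lit 148) (nat_lit 5) (nat_lit 149) (nat_lit 5) (nat_lit 606) (nat_lit 503) (nat_lit 451)) (XT.nd (nat_lit 78) (nat_lit 76) (nat_lit 0) (XT.lf (nat_lit 0) (nat_lit 1081178367) (nat_lit 304) (nat_lit 9213431665) (nat_lit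 380) (nat_lit 458002598) (nat_lit 139) (nat_lit 5) (nat_lit 143) (nat_lit 5) (nat_lit 144) (nat_lit 5) (nat_lit 607) (nat_lit 503) (nat_lit 450)) (XT.lf (nat_lit 0) (nat_lit 3322334115) (nat_lit 380) (nat_lit 1896650026) (nat_lit 76) (nat_lit 5648612595) (nat_lit 138) (nat_lit 5) (nat_lit 143) (nat_lit 5) (nat_lit 139) (nat_lit 5) (nat_lit 608) (nat_lit 503) (nat_lit 449)))))) (XT.nd (nat_lit 390) (nat_lit 988) (nat_lit 0) (XT.nd (nat_lit 156) (nat_lit 684) (nat_lit 0) (XT.nd (nat_lit 78) (nat_lit 380) (nat_lit 0) (XT.lf (nat_lit 0) (nat_lit 6046209668) (nat_lit 380) (nat_lit 1124905687) (nat_lit 456) (nat_lit 3813728531) (nat_lit 133) (nat_lit 5) (nat_lit 138) (nat_lit 5) (nat_lit 139) (nat_lit 5) (nat_lit 609) (nat_lit 503) (nat_lit 448)) (XT.lf (nat_lit 0) (nat_lit 4813061) (nat_lit 380) (nat_lit 8078903395) (nat_lit 76) (nat_lit 3020478145) (nat_lit 128) (nat_lit 5) (nat_lit 133) (nat_lit 5) (nat_lit 129) (nat_lit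 5) (nat_lit 610) (nat_lit 503) (nat_lit 447))) (XT.nd (nat_lit 78) (nat_lit 684) (nat_lit 0) (XT.lf (nat_lit 0) (nat_lit 3849561079) (nat_lit 380) (nat_lit 106784298) (nat_lit 76) (nat_lit 7269067875) (nat_lit 128) (nat_lit 5) (nat_lit 133) (nat_lit 5) (nat_lit 129) (nat_lit 5) (nat_lit 611) (nat_lit 503) (nat_lit 446)) (XT.nd (nat_lit 78) (nat_lit 380) (nat_lit 0) (XT.lf (nat_lit 0) (nat_lit 7786252820) (nat_lit 380) (nat_lit 3282820465) (nat_lit 76) (nat_lit 279685082) (nat_lit 124) (nat_lit 5) (nat_lit 129) (nat_lit 5) (nat_lit 125) (nat_lit 5) (nat_lit 612) (nat_lit 503) (nat_lit 445)) (XT.lf (nat_lit 0) (nat_lit 342746687) (nat_lit 380) (nat_lit 6572300039) (nat_lit 76) (nat_lit 4559085556) (nat_lit 119) (nat_lit 5) (nat_lit 124) (nat_lit 5) (nat_lit 120) (nat_lit 5) (nat_lit 613) (nat_lit 503) (nat_lit 444))))) (XT.nd (nat_lit 156) (nat_lit 684) (nat_lit 0) (XT.nd (nat_lit 78) (nat_lit 0) (nat_lit 0) (XT.lf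 (nat_lit 0) (nat_lit 1627620738) (nat_lit 304) (nat_lit 2644705378) (nat_lit 380) (nat_lit 7329341003) (nat_lit 115) (nat_lit 5) (nat_lit 119) (nat_lit 5) (nat_lit 120) (nat_lit 5) (nat_lit 614) (nat_lit 503) (nat_lit 443)) (XT.lf (nat_lit 0) (nat_lit 8297336774) (nat_lit 380) (nat_lit 1724935275) (nat_lit 76) (nat_lit 1709146642) (nat_lit 115) (nat_lit 5) (nat_lit 120) (nat_lit 5) (nat_lit 116) (nat_lit 5) (nat_lit 615) (nat_lit 503) (nat_lit 442))) (XT.nd (nat_lit 78) (nat_lit 304) (nat_lit 0) (XT.lf (nat_lit 0) (nat_lit 555254019) (nat_lit 380) (nat_lit 5169529336) (nat_lit 76) (nat_lit 6138449826) (nat_lit 110) (nat_lit 5) (nat_lit 115) (nat_lit 5) (nat_lit 111) (nat_lit 5) (nat_lit 616) (nat_lit 503) (nat_lit 441)) (XT.nd (nat_lit 78) (nat_lit 0) (nat_lit 0) (XT.lf (nat_lit 0) (nat_lit 3264492191) (nat_lit 304) (nat_lit 1308976720) (nat_lit 380) (nat_lit 7423862241) (nat_lit 106) (nat_lit 5) (nat_lit 110)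 (nat_lit 5) (nat_lit 111) (nat_lit 5) (nat_lit 617) (nat_lit 503) (nat_lit 440)) (XT.lf (nat_lit 0) (nat_lit 8690080672) (nat_lit 380) (nat_lit 279457778) (nat_lit 76) (nat_lit 3164214600) (nat_lit 106) (nat_lit 5) (nat_lit 111) (nat_lit 5) (nat_lit 107) (nat_lit 5) (nat_lit 618) (nat_lit 503) (nat_lit 439))))))))
noncomputable def xc35 : XT := (XT.nd (nat_lit 77064) (nat_lit 0) (nat_lit 12540) (XT.nd (nat_lit 76284) (nat_lit 0) (nat_lit 22952) (XT.nd (nat_lit 312) (nat_lit 304) (nat_lit 0) (XT.nd (nat_lit 156) (nat_lit 304) (nat_lit 0) (XT.nd (nat_lit 78) (nat_lit 304) (nat_lit 0) (XT.lf (nat_lit 0) (nat_lit 634414929) (nat_lit 304) (nat_lit 3893398742) (nat_lit 76) (nat_lit 7744484738) (nat_lit 102) (nat_lit 5) (nat_lit 106) (nat_lit 5) (nat_lit 103) (nat_lit 5) (nat_lit 619) (nat_lit 503) (nat_lit 438)) (XT.lf (nat_lit 0) (nat_lit 4744332967) (nat_lit 380) (nat_lit 7634170595) (nat_lit 76) (nat_lit 34730733)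 (nat_lit 98) (nat_lit 5) (nat_lit 103) (nat_lit 5) (nat_lit 99) (nat_lit 5) (nat_lit 620) (nat_lit 503) (nat_lit 437))) (XT.nd (nat_lit 78) (nat_lit 76) (nat_lit 0) (XT.lf (nat_lit 0) (nat_lit 1043438256) (nat_lit 228) (nat_lit 7919430313) (nat_lit 304) (nat_lit 3593594362) (nat_lit 95) (nat_lit 5) (nat_lit 98) (nat_lit 5) (nat_lit 99) (nat_lit 5) (nat_lit 621) (nat_lit 503) (nat_lit 436)) (XT.lf (nat_lit 0) (nat_lit 570839544) (nat_lit 304) (nat_lit 2768902716) (nat_lit 76) (nat_lit 9362442918) (nat_lit 94) (nat_lit 5) (nat_lit 98) (nat_lit 5) (nat_lit 95) (nat_lit 5) (nat_lit 622) (nat_lit 503) (nat_lit 435)))) (XT.nd (nat_lit 75738) (nat_lit 0) (nat_lit 31996) (XT.nd (nat_lit 75660) (nat_lit 0) (nat_lit 35264) (XT.lf (nat_lit 0) (nat_lit 4783461600) (nat_lit 380) (nat_lit 6712510425) (nat_lit 76) (nat_lit 1354116695) (nat_lit 90) (nat_lit 5) (nat_lit 95) (nat_lit 5) (nat_lit 91) (nat_lit 5) (nat_lit 623) (nat_lit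 503) (nat_lit 434)) (XT.lf (nat_lit 0) (nat_lit 1131743955) (nat_lit 1444) (nat_lit 1167981736) (nat_lit 1444) (nat_lit 1167981736) (nat_lit 554) (nat_lit 4) (nat_lit 573) (nat_lit 5) (nat_lit 573) (nat_lit 4) (nat_lit 552) (nat_lit 504) (nat_lit 504))) (XT.nd (nat_lit 78) (nat_lit 1672) (nat_lit 0) (XT.lf (nat_lit 0) (nat_lit 234870881) (nat_lit 1520) (nat_lit 820047153) (nat_lit 1596) (nat_lit 5912318803) (nat_lit 533) (nat_lit 5) (nat_lit 553) (nat_lit 5) (nat_lit 554) (nat_lit 4) (nat_lit 553) (nat_lit 504) (nat_lit 503)) (XT.nd (nat_lit 78) (nat_lit 1672) (nat_lit 0) (XT.lf (nat_lit 0) (nat_lit 4449013488) (nat_lit 1596) (nat_lit 1783363846) (nat_lit 0) (nat_lit 767690563) (nat_lit 533) (nat_lit 5) (nat_lit 554) (nat_lit 4) (nat_lit 533) (nat_lit 4) (nat_lit 554) (nat_lit 504) (nat_lit 502)) (XT.lf (nat_lit 0) (nat_lit 823813810) (nat_lit 1672) (nat_lit 3803922057) (nat_lit 76) (nat_lit 2406562416) (nat_lit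 511) (nat_lit 5) (nat_lit 533) (nat_lit 5) (nat_lit 512) (nat_lit 4) (nat_lit 555) (nat_lit 504) (nat_lit 501)))))) (XT.nd (nat_lit 390) (nat_lit 2812) (nat_lit 0) (XT.nd (nat_lit 156) (nat_lit 4484) (nat_lit 0) (XT.nd (nat_lit 78) (nat_lit 76) (nat_lit 0) (XT.lf (nat_lit 0) (nat_lit 1232577569) (nat_lit 1672) (nat_lit 2951716074) (nat_lit 1748) (nat_lit 2885551015) (nat_lit 489) (nat_lit 5) (nat_lit 511) (nat_lit 5) (nat_lit 512) (nat_lit 4) (nat_lit 556) (nat_lit 504) (nat_lit 500)) (XT.lf (nat_lit 0) (nat_lit 457579260) (nat_lit 1748) (nat_lit 754353224) (nat_lit 76) (nat_lit 5894950669) (nat_lit 488) (nat_lit 5) (nat_lit 511) (nat_lit 5) (nat_lit 489) (nat_lit 5) (nat_lit 557) (nat_lit 504) (nat_lit 499))) (XT.nd (nat_lit 78) (nat_lit 2736) (nat_lit 0) (XT.lf (nat_lit 0) (nat_lit 3795492772) (nat_lit 1824) (nat_lit 2745525125) (nat_lit 76) (nat_lit 603945163) (nat_lit 465) (nat_lit 5) (nat_lit 489) (nat_lit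 5) (nat_lit 466) (nat_lit 4) (nat_lit 558) (nat_lit 504) (nat_lit 498)) (XT.nd (nat_lit 78) (nat_lit 1064) (nat_lit 0) (XT.lf (nat_lit 0) (nat_lit 2440516356) (nat_lit 1672) (nat_lit 4723448428) (nat_lit 1748) (nat_lit 20576791) (nat_lit 443) (nat_lit 5) (nat_lit 465) (nat_lit 5) (nat_lit 466) (nat_lit 4) (nat_lit 559) (nat_lit 504) (nat_lit 497)) (XT.lf (nat_lit 0) (nat_lit 460258006) (nat_lit 988) (nat_lit 2827153443) (nat_lit 1064) (nat_lit 3937938895) (nat_lit 429) (nat_lit 5) (nat_lit 442) (nat_lit 5) (nat_lit 443) (nat_lit 5) (nat_lit 560) (nat_lit 504) (nat_lit 496))))) (XT.nd (nat_lit 156) (nat_lit 1824) (nat_lit 0) (XT.nd (nat_lit 78) (nat_lit 988) (nat_lit 0) (XT.lf (nat_lit 0) (nat_lit 5766538021) (nat_lit 988) (nat_lit 862664690) (nat_lit 1064) (nat_lit 638423745) (nat_lit 429) (nat_lit 5) (nat_lit 442) (nat_lit 5) (nat_lit 443) (nat_lit 5) (nat_lit 561) (nat_lit 504) (nat_lit 495)) (XT.lf (nat_lit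 0) (nat_lit 2660799033) (nat_lit 988) (nat_lit 3483865330) (nat_lit 76) (nat_lit 1166351725) (nat_lit 416) (nat_lit 5) (nat_lit 429) (nat_lit 5) (nat_lit 417) (nat_lit 5) (nat_lit 562) (nat_lit 504) (nat_lit 494))) (XT.nd (nat_lit 78) (nat_lit 912) (nat_lit 0) (XT.lf (nat_lit 0) (nat_lit 1875203912) (nat_lit 912) (nat_lit 4107993103) (nat_lit 988) (nat_lit 1372688868) (nat_lit 404) (nat_lit 5) (nat_lit 416) (nat_lit 5) (nat_lit 417) (nat_lit 5) (nat_lit 563) (nat_lit 504) (nat_lit 493)) (XT.nd (nat_lit 78) (nat_lit 836) (nat_lit 0) (XT.lf (nat_lit 0) (nat_lit 1906157986) (nat_lit 988) (nat_lit 92462320) (nat_lit 76) (nat_lit 5403555813) (nat_lit 403) (nat_lit 5) (nat_lit 416) (nat_lit 5) (nat_lit 404) (nat_lit 5) (nat_lit 564) (nat_lit 504) (nat_lit 492)) (XT.lf (nat_lit 0) (nat_lit 5207820037) (nat_lit 912) (nat_lit 2051434364) (nat_lit 76) (nat_lit 190454809) (nat_lit 392) (nat_lit 5) (nat_lit 404) (nat_lit 5)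 (nat_lit 393) (nat_lit 5) (nat_lit 565) (nat_lit 504) (nat_lit 491))))))) (XT.nd (nat_lit 702) (nat_lit 4712) (nat_lit 0) (XT.nd (nat_lit 312) (nat_lit 3116) (nat_lit 0) (XT.nd (nat_lit 156) (nat_lit 912) (nat_lit 0) (XT.nd (nat_lit 78) (nat_lit 760) (nat_lit 0) (XT.lf (nat_lit 0) (nat_lit 1039424368) (nat_lit 912) (nat_lit 4037811973) (nat_lit 76) (nat_lit 2421302569) (nat_lit 380) (nat_lit 5) (nat_lit 392) (nat_lit 5) (nat_lit 381) (nat_lit 5) (nat_lit 566) (nat_lit 504) (nat_lit 490)) (XT.lf (nat_lit 0) (nat_lit 1500811900) (nat_lit 760) (nat_lit 2819531028) (nat_lit 836) (nat_lit 3228436205) (nat_lit 370) (nat_lit 5) (nat_lit 380) (nat_lit 5) (nat_lit 381) (nat_lit 5) (nat_lit 567) (nat_lit 504) (nat_lit 489))) (XT.nd (nat_lit 78) (nat_lit 836) (nat_lit 0) (XT.lf (nat_lit 0) (nat_lit 33960534) (nat_lit 836) (nat_lit 462314976) (nat_lit 76) (nat_lit 7104390200) (nat_lit 369) (nat_lit 5) (nat_lit 380) (nat_lit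 5) (nat_lit 370) (nat_lit 5) (nat_lit 568) (nat_lit 504) (nat_lit 488)) (XT.lf (nat_lit 0) (nat_lit 3306632575) (nat_lit 912) (nat_lit 2449899146) (nat_lit 76) (nat_lit 1896876046) (nat_lit 358) (nat_lit 5) (nat_lit 370) (nat_lit 5) (nat_lit 359) (nat_lit 5) (nat_lit 569) (nat_lit 504) (nat_lit 487)))) (XT.nd (nat_lit 156) (nat_lit 1520) (nat_lit 0) (XT.nd (nat_lit 78) (nat_lit 836) (nat_lit 0) (XT.lf (nat_lit 0) (nat_lit 3254633955) (nat_lit 760) (nat_lit 3360197077) (nat_lit 836) (nat_lit 1092981655) (nat_lit 348) (nat_lit 5) (nat_lit 358) (nat_lit 5) (nat_lit 359) (nat_lit 5) (nat_lit 570) (nat_lit 504) (nat_lit 486)) (XT.lf (nat_lit 0) (nat_lit 1278853467) (nat_lit 760) (nat_lit 885538393) (nat_lit 836) (nat_lit 5599279978) (nat_lit 337) (nat_lit 5) (nat_lit 347) (nat_lit 5) (nat_lit 348) (nat_lit 5) (nat_lit 571) (nat_lit 504) (nat_lit 485))) (XT.nd (nat_lit 78) (nat_lit 1520) (nat_lit 0) (XT.lf (nat_lit 0)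 (nat_lit 5456481386) (nat_lit 836) (nat_lit 719717199) (nat_lit 76) (nat_lit 1644629956) (nat_lit 337) (nat_lit 5) (nat_lit 348) (nat_lit 5) (nat_lit 338) (nat_lit 5) (nat_lit 572) (nat_lit 504) (nat_lit 484)) (XT.nd (nat_lit 78) (nat_lit 760) (nat_lit 0) (XT.lf (nat_lit 0) (nat_lit 906823587) (nat_lit 760) (nat_lit 2729136196) (nat_lit 76) (nat_lit 4243379619) (nat_lit 327) (nat_lit 5) (nat_lit 337) (nat_lit 5) (nat_lit 328) (nat_lit 5) (nat_lit 573) (nat_lit 504) (nat_lit 483)) (XT.lf (nat_lit 0) (nat_lit 3167745190) (nat_lit 760) (nat_lit 1014339431) (nat_lit 836) (nat_lit 3757225201) (nat_lit 317) (nat_lit 5) (nat_lit 327) (nat_lit 5) (nat_lit 328) (nat_lit 5) (nat_lit 574) (nat_lit 504) (nat_lit 482)))))) (XT.nd (nat_lit 390) (nat_lit 1900) (nat_lit 0) (XT.nd (nat_lit 156) (nat_lit 2052) (nat_lit 0) (XT.nd (nat_lit 78) (nat_lit 76) (nat_lit 0) (XT.lf (nat_lit 0) (nat_lit 1156667488) (nat_lit 684) (nat_lit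 6348348924) (nat_lit 760) (nat_lit 495828181) (nat_lit 308) (nat_lit 5) (nat_lit 317) (nat_lit 5) (nat_lit 318) (nat_lit 5) (nat_lit 575) (nat_lit 504) (nat_lit 481)) (XT.lf (nat_lit 0) (nat_lit 2778336294) (nat_lit 760) (nat_lit 887472912) (nat_lit 76) (nat_lit 4397747879) (nat_lit 307) (nat_lit 5) (nat_lit 317) (nat_lit 5) (nat_lit 308) (nat_lit 5) (nat_lit 576) (nat_lit 504) (nat_lit 480))) (XT.nd (nat_lit 78) (nat_lit 1368) (nat_lit 0) (XT.lf (nat_lit 0) (nat_lit 5187093385) (nat_lit 684) (nat_lit 904716854) (nat_lit 760) (nat_lit 2036046511) (nat_lit 298) (nat_lit 5) (nat_lit 307) (nat_lit 5) (nat_lit 308) (nat_lit 5) (nat_lit 577) (nat_lit 504) (nat_lit 479)) (XT.nd (nat_lit 78) (nat_lit 684) (nat_lit 0) (XT.lf (nat_lit 0) (nat_lit 1247515843) (nat_lit 684) (nat_lit 5037583257) (nat_lit 76) (nat_lit 1908461471) (nat_lit 289) (nat_lit 5) (nat_lit 298) (nat_lit 5) (nat_lit 290) (nat_lit 5) (nat_lit 578) (nat_lit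 504) (nat_lit 478)) (XT.lf (nat_lit 0) (nat_lit 1082092432) (nat_lit 684) (nat_lit 3467867683) (nat_lit 760) (nat_lit 3710747050) (nat_lit 280) (nat_lit 5) (nat_lit 289) (nat_lit 5) (nat_lit 290) (nat_lit 5) (nat_lit 579) (nat_lit 504) (nat_lit 477))))) (XT.nd (nat_lit 156) (nat_lit 1216) (nat_lit 0) (XT.nd (nat_lit 78) (nat_lit 684) (nat_lit 0) (XT.lf (nat_lit 0) (nat_lit 7326061740) (nat_lit 684) (nat_lit 574359392) (nat_lit 760) (nat_lit 429143386) (nat_lit 280) (nat_lit 5) (nat_lit 289) (nat_lit 5) (nat_lit 290) (nat_lit 5) (nat_lit 580) (nat_lit 504) (nat_lit 476)) (XT.lf (nat_lit 0) (nat_lit 2878626710) (nat_lit 684) (nat_lit 3135817748) (nat_lit 76) (nat_lit 2385006429) (nat_lit 271) (nat_lit 5) (nat_lit 280) (nat_lit 5) (nat_lit 272) (nat_lit 5) (nat_lit 581) (nat_lit 504) (nat_lit 475))) (XT.nd (nat_lit 78) (nat_lit 608) (nat_lit 0) (XT.lf (nat_lit 0) (nat_lit 3167708154) (nat_lit 608) (nat_lit 3059571528)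 (nat_lit 684) (nat_lit 2243795866) (nat_lit 263) (nat_lit 5) (nat_lit 271) (nat_lit 5) (nat_lit 272) (nat_lit 5) (nat_lit 582) (nat_lit 504) (nat_lit 474)) (XT.nd (nat_lit 78) (nat_lit 0) (nat_lit 0) (XT.lf (nat_lit 0) (nat_lit 1035910510) (nat_lit 532) (nat_lit 25907123) (nat_lit 608) (nat_lit 7482629793) (nat_lit 255) (nat_lit 5) (nat_lit 262) (nat_lit 5) (nat_lit 263) (nat_lit 5) (nat_lit 583) (nat_lit 504) (nat_lit 473)) (XT.lf (nat_lit 0) (nat_lit 4409275827) (nat_lit 608) (nat_lit 1146693617) (nat_lit 76) (nat_lit 3062911510) (nat_lit 255) (nat_lit 5) (nat_lit 263) (nat_lit 5) (nat_lit 256) (nat_lit 5) (nat_lit 584) (nat_lit 504) (nat_lit 472))))))))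
noncomputable def xc36 : XT := (XT.nd (nat_lit 1482) (nat_lit 4864) (nat_lit 0) (XT.nd (nat_lit 702) (nat_lit 3344) (nat_lit 0) (XT.nd (nat_lit 312) (nat_lit 2128) (nat_lit 0) (XT.nd (nat_lit 156) (nat_lit 608) (nat_lit 0) (XT.nd (nat_lit 78) (nat_lit 608) (nat_lit 0) (XT.lf (nat_lit 0) (nat_lit 5346687141) (nat_lit 608) (nat_lit 2462864603) (nat_lit 684) (nat_lit 885540292) (nat_lit 247) (nat_lit 5) (nat_lit 255) (nat_lit 5) (nat_lit 256) (nat_lit 5) (nat_lit 585) (nat_lit 504) (nat_lit 471)) (XT.lf (nat_lit 0) (nat_lit 2456365790) (nat_lit 608) (nat_lit 5605373918) (nat_lit 76) (nat_lit 711084091) (nat_lit 239) (nat_lit 5) (nat_lit 247) (nat_lit 5) (nat_lit 240) (nat_lit 5) (nat_lit 586) (nat_lit 504) (nat_lit 470))) (XT.nd (nat_lit 78) (nat_lit 76) (nat_lit 0) (XT.lf (nat_lit 0) (nat_lit 930935297) (nat_lit 532) (nat_lit 4918915359) (nat_lit 608) (nat_lit 3002216405) (nat_lit 232) (nat_lit 5) (nat_lit 239) (nat_lit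 5) (nat_lit 240) (nat_lit 5) (nat_lit 587) (nat_lit 504) (nat_lit 469)) (XT.lf (nat_lit 0) (nat_lit 363024956) (nat_lit 608) (nat_lit 1327404960) (nat_lit 76) (nat_lit 7242628281) (nat_lit 231) (nat_lit 5) (nat_lit 239) (nat_lit 5) (nat_lit 232) (nat_lit 5) (nat_lit 588) (nat_lit 504) (nat_lit 468)))) (XT.nd (nat_lit 156) (nat_lit 1064) (nat_lit 0) (XT.nd (nat_lit 78) (nat_lit 532) (nat_lit 0) (XT.lf (nat_lit 0) (nat_lit 3753772811) (nat_lit 608) (nat_lit 3642457730) (nat_lit 76) (nat_lit 1619079250) (nat_lit 224) (nat_lit 5) (nat_lit 232) (nat_lit 5) (nat_lit 225) (nat_lit 5) (nat_lit 589) (nat_lit 504) (nat_lit 467)) (XT.lf (nat_lit 0) (nat_lit 3089748290) (nat_lit 532) (nat_lit 4115955403) (nat_lit 608) (nat_lit 1893640808) (nat_lit 217) (nat_lit 5) (nat_lit 224) (nat_lit 5) (nat_lit 225) (nat_lit 5) (nat_lit 590) (nat_lit 504) (nat_lit 466))) (XT.nd (nat_lit 78) (nat_lit 532) (nat_lit 0) (XT.lf (nat_lit 0)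 (nat_lit 755343681) (nat_lit 456) (nat_lit 748889156) (nat_lit 532) (nat_lit 7680975357) (nat_lit 210) (nat_lit 5) (nat_lit 216) (nat_lit 5) (nat_lit 217) (nat_lit 5) (nat_lit 591) (nat_lit 504) (nat_lit 465)) (XT.nd (nat_lit 78) (nat_lit 532) (nat_lit 0) (XT.lf (nat_lit 0) (nat_lit 4956458026) (nat_lit 532) (nat_lit 1631347420) (nat_lit 76) (nat_lit 2684503508) (nat_lit 210) (nat_lit 5) (nat_lit 217) (nat_lit 5) (nat_lit 211) (nat_lit 5) (nat_lit 592) (nat_lit 504) (nat_lit 464)) (XT.lf (nat_lit 0) (nat_lit 5302860870) (nat_lit 532) (nat_lit 3168859427) (nat_lit 608) (nat_lit 889556610) (nat_lit 203) (nat_lit 5) (nat_lit 210) (nat_lit 5) (nat_lit 211) (nat_lit 5) (nat_lit 593) (nat_lit 504) (nat_lit 463)))))) (XT.nd (nat_lit 390) (nat_lit 1368) (nat_lit 0) (XT.nd (nat_lit 156) (nat_lit 988) (nat_lit 0) (XT.nd (nat_lit 78) (nat_lit 456) (nat_lit 0) (XT.lf (nat_lit 0) (nat_lit 2557978579) (nat_lit 532) (nat_lit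 6552158351) (nat_lit 76) (nat_lit 341816155) (nat_lit 196) (nat_lit 5) (nat_lit 203) (nat_lit 5) (nat_lit 197) (nat_lit 5) (nat_lit 594) (nat_lit 504) (nat_lit 462)) (XT.lf (nat_lit 0) (nat_lit 421363718) (nat_lit 456) (nat_lit 5647447829) (nat_lit 532) (nat_lit 3475393215) (nat_lit 190) (nat_lit 5) (nat_lit 196) (nat_lit 5) (nat_lit 197) (nat_lit 5) (nat_lit 595) (nat_lit 504) (nat_lit 461))) (XT.nd (nat_lit 78) (nat_lit 912) (nat_lit 0) (XT.lf (nat_lit 0) (nat_lit 10938332) (nat_lit 532) (nat_lit 2080174443) (nat_lit 76) (nat_lit 7547201147) (nat_lit 189) (nat_lit 5) (nat_lit 196) (nat_lit 5) (nat_lit 190) (nat_lit 5) (nat_lit 596) (nat_lit 504) (nat_lit 460)) (XT.nd (nat_lit 78) (nat_lit 456) (nat_lit 0) (XT.lf (nat_lit 0) (nat_lit 3519865920) (nat_lit 532) (nat_lit 4661562545) (nat_lit 76) (nat_lit 1552433722) (nat_lit 183) (nat_lit 5) (nat_lit 190) (nat_lit 5) (nat_lit 184) (nat_lit 5) (nat_lit 597) (nat_lit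 504) (nat_lit 459)) (XT.lf (nat_lit 0) (nat_lit 2519490947) (nat_lit 456) (nat_lit 4580199491) (nat_lit 532) (nat_lit 2731620992) (nat_lit 177) (nat_lit 5) (nat_lit 183) (nat_lit 5) (nat_lit 184) (nat_lit 5) (nat_lit 598) (nat_lit 504) (nat_lit 458))))) (XT.nd (nat_lit 156) (nat_lit 912) (nat_lit 0) (XT.nd (nat_lit 78) (nat_lit 380) (nat_lit 0) (XT.lf (nat_lit 0) (nat_lit 797738438) (nat_lit 532) (nat_lit 93009543) (nat_lit 76) (nat_lit 9040097426) (nat_lit 176) (nat_lit 5) (nat_lit 183) (nat_lit 5) (nat_lit 177) (nat_lit 5) (nat_lit 599) (nat_lit 504) (nat_lit 457)) (XT.lf (nat_lit 0) (nat_lit 4384842041) (nat_lit 456) (nat_lit 2766720739) (nat_lit 76) (nat_lit 2879975623) (nat_lit 171) (nat_lit 5) (nat_lit 177) (nat_lit 5) (nat_lit 172) (nat_lit 5) (nat_lit 600) (nat_lit 504) (nat_lit 456))) (XT.nd (nat_lit 78) (nat_lit 456) (nat_lit 0) (XT.lf (nat_lit 0) (nat_lit 4627852143) (nat_lit 456) (nat_lit 3410157182)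 (nat_lit 532) (nat_lit 2096353548) (nat_lit 165) (nat_lit 5) (nat_lit 171) (nat_lit 5) (nat_lit 172) (nat_lit 5) (nat_lit 601) (nat_lit 504) (nat_lit 455)) (XT.nd (nat_lit 78) (nat_lit 0) (nat_lit 0) (XT.lf (nat_lit 0) (nat_lit 1496802165) (nat_lit 456) (nat_lit 8321842071) (nat_lit 76) (nat_lit 420569326) (nat_lit 159) (nat_lit 5) (nat_lit 165) (nat_lit 5) (nat_lit 160) (nat_lit 5) (nat_lit 602) (nat_lit 504) (nat_lit 454)) (XT.lf (nat_lit 0) (nat_lit 5151712741) (nat_lit 456) (nat_lit 881949571) (nat_lit 76) (nat_lit 4311866389) (nat_lit 159) (nat_lit 5) (nat_lit 165) (nat_lit 5) (nat_lit 160) (nat_lit 5) (nat_lit 603) (nat_lit 504) (nat_lit 453))))))) (XT.nd (nat_lit 702) (nat_lit 2204) (nat_lit 0) (XT.nd (nat_lit 312) (nat_lit 1444) (nat_lit 0) (XT.nd (nat_lit 156) (nat_lit 380) (nat_lit 0) (XT.nd (nat_lit 78) (nat_lit 456) (nat_lit 0) (XT.lf (nat_lit 0) (nat_lit 6732102901) (nat_lit 380) (nat_lit 2150303946)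 (nat_lit 456) (nat_lit 1571513328) (nat_lit 154) (nat_lit 5) (nat_lit 159) (nat_lit 5) (nat_lit 160) (nat_lit 5) (nat_lit 604) (nat_lit 504) (nat_lit 452)) (XT.lf (nat_lit 0) (nat_lit 2097814854) (nat_lit 456) (nat_lit 6655748013) (nat_lit 76) (nat_lit 1810595971) (nat_lit 148) (nat_lit 5) (nat_lit 154) (nat_lit 5) (nat_lit 149) (nat_lit 5) (nat_lit 605) (nat_lit 504) (nat_lit 451))) (XT.nd (nat_lit 78) (nat_lit 0) (nat_lit 0) (XT.lf (nat_lit 0) (nat_lit 990449044) (nat_lit 380) (nat_lit 4834222747) (nat_lit 456) (nat_lit 4851622559) (nat_lit 143) (nat_lit 5) (nat_lit 148) (nat_lit 5) (nat_lit 149) (nat_lit 5) (nat_lit 606) (nat_lit 504) (nat_lit 450)) (XT.lf (nat_lit 0) (nat_lit 8816888419) (nat_lit 380) (nat_lit 813582868) (nat_lit 456) (nat_lit 1160116628) (nat_lit 143) (nat_lit 5) (nat_lit 148) (nat_lit 5) (nat_lit 149) (nat_lit 5) (nat_lit 607) (nat_lit 504) (nat_lit 449)))) (XT.nd (nat_lit 156) (nat_lit 684)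 (nat_lit 0) (XT.nd (nat_lit 78) (nat_lit 380) (nat_lit 0) (XT.lf (nat_lit 0) (nat_lit 2591129077) (nat_lit 380) (nat_lit 5037592242) (nat_lit 76) (nat_lit 3277709504) (nat_lit 138) (nat_lit 5) (nat_lit 143) (nat_lit 5) (nat_lit 139) (nat_lit 5) (nat_lit 608) (nat_lit 504) (nat_lit 448)) (XT.lf (nat_lit 0) (nat_lit 2832206554) (nat_lit 380) (nat_lit 3567281243) (nat_lit 456) (nat_lit 4625000238) (nat_lit 133) (nat_lit 5) (nat_lit 138) (nat_lit 5) (nat_lit 139) (nat_lit 5) (nat_lit 609) (nat_lit 504) (nat_lit 447))) (XT.nd (nat_lit 78) (nat_lit 684) (nat_lit 0) (XT.lf (nat_lit 0) (nat_lit 10282500174) (nat_lit 456) (nat_lit 283164630) (nat_lit 76) (nat_lit 579275047) (nat_lit 133) (nat_lit 5) (nat_lit 139) (nat_lit 5) (nat_lit 134) (nat_lit 5) (nat_lit 610) (nat_lit 504) (nat_lit 446)) (XT.nd (nat_lit 78) (nat_lit 304) (nat_lit 0) (XT.lf (nat_lit 0) (nat_lit 2972351616) (nat_lit 380) (nat_lit 3485249768) (nat_lit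 76) (nat_lit 4809095982) (nat_lit 128) (nat_lit 5) (nat_lit 133) (nat_lit 5) (nat_lit 129) (nat_lit 5) (nat_lit 611) (nat_lit 504) (nat_lit 445)) (XT.lf (nat_lit 0) (nat_lit 4613579801) (nat_lit 304) (nat_lit 2252184070) (nat_lit 380) (nat_lit 4525145689) (nat_lit 124) (nat_lit 5) (nat_lit 128) (nat_lit 5) (nat_lit 129) (nat_lit 5) (nat_lit 612) (nat_lit 504) (nat_lit 444)))))) (XT.nd (nat_lit 390) (nat_lit 1140) (nat_lit 0) (XT.nd (nat_lit 156) (nat_lit 684) (nat_lit 0) (XT.nd (nat_lit 78) (nat_lit 76) (nat_lit 0) (XT.lf (nat_lit 0) (nat_lit 1347023429) (nat_lit 304) (nat_lit 9497338633) (nat_lit 380) (nat_lit 673100529) (nat_lit 120) (nat_lit 5) (nat_lit 124) (nat_lit 5) (nat_lit 125) (nat_lit 5) (nat_lit 613) (nat_lit 504) (nat_lit 443)) (XT.lf (nat_lit 0) (nat_lit 3235877061) (nat_lit 380) (nat_lit 2018115740) (nat_lit 76) (nat_lit 6391682027) (nat_lit 119) (nat_lit 5) (nat_lit 124) (nat_lit 5) (nat_lit 120)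 (nat_lit 5) (nat_lit 614) (nat_lit 504) (nat_lit 442))) (XT.nd (nat_lit 78) (nat_lit 380) (nat_lit 0) (XT.lf (nat_lit 0) (nat_lit 6314976938) (nat_lit 304) (nat_lit 902699579) (nat_lit 380) (nat_lit 4558615485) (nat_lit 115) (nat_lit 5) (nat_lit 119) (nat_lit 5) (nat_lit 120) (nat_lit 5) (nat_lit 615) (nat_lit 504) (nat_lit 441)) (XT.nd (nat_lit 78) (nat_lit 76) (nat_lit 0) (XT.lf (nat_lit 0) (nat_lit 2886817903) (nat_lit 304) (nat_lit 8410461251) (nat_lit 380) (nat_lit 611881741) (nat_lit 111) (nat_lit 5) (nat_lit 115) (nat_lit 5) (nat_lit 116) (nat_lit 5) (nat_lit 616) (nat_lit 504) (nat_lit 440)) (XT.lf (nat_lit 0) (nat_lit 3374809356) (nat_lit 380) (nat_lit 657326460) (nat_lit 76) (nat_lit 8011994776) (nat_lit 110) (nat_lit 5) (nat_lit 115) (nat_lit 5) (nat_lit 111) (nat_lit 5) (nat_lit 617) (nat_lit 504) (nat_lit 439))))) (XT.nd (nat_lit 156) (nat_lit 608) (nat_lit 0) (XT.nd (nat_lit 78) (nat_lit 228) (nat_lit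 0) (XT.lf (nat_lit 0) (nat_lit 7451122779) (nat_lit 380) (nat_lit 4269442150) (nat_lit 76) (nat_lit 460794796) (nat_lit 106) (nat_lit 5) (nat_lit 111) (nat_lit 5) (nat_lit 107) (nat_lit 5) (nat_lit 618) (nat_lit 504) (nat_lit 438)) (XT.lf (nat_lit 0) (nat_lit 4310093334) (nat_lit 228) (nat_lit 7321825100) (nat_lit 304) (nat_lit 688958402) (nat_lit 103) (nat_lit 5) (nat_lit 106) (nat_lit 5) (nat_lit 107) (nat_lit 5) (nat_lit 619) (nat_lit 504) (nat_lit 437))) (XT.nd (nat_lit 78) (nat_lit 228) (nat_lit 0) (XT.lf (nat_lit 0) (nat_lit 581628255) (nat_lit 304) (nat_lit 2803019224) (nat_lit 380) (nat_lit 9078162863) (nat_lit 98) (nat_lit 5) (nat_lit 102) (nat_lit 5) (nat_lit 103) (nat_lit 5) (nat_lit 620) (nat_lit 504) (nat_lit 436)) (XT.nd (nat_lit 78) (nat_lit 228) (nat_lit 0) (XT.lf (nat_lit 0) (nat_lit 7560425991) (nat_lit 380) (nat_lit 3228846064) (nat_lit 76) (nat_lit 1817623239) (nat_lit 98) (nat_lit 5) (nat_lit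 103) (nat_lit 5) (nat_lit 99) (nat_lit 5) (nat_lit 621) (nat_lit 504) (nat_lit 435)) (XT.lf (nat_lit 0) (nat_lit 5592328070) (nat_lit 228) (nat_lit 6247046164) (nat_lit 304) (nat_lit 914096950) (nat_lit 95) (nat_lit 5) (nat_lit 98) (nat_lit 5) (nat_lit 99) (nat_lit 5) (nat_lit 622) (nat_lit 504) (nat_lit 434))))))))
noncomputable def xc37 : XT := (XT.nd (nat_lit 76908) (nat_lit 0) (nat_lit 11324) (XT.nd (nat_lit 76128) (nat_lit 0) (nat_lit 21280) (XT.nd (nat_lit 75738) (nat_lit 0) (nat_lit 30248) (XT.nd (nat_lit 75582) (nat_lit 0) (nat_lit 35264) (XT.nd (nat_lit 75504) (nat_lit 0) (nat_lit 38152) (XT.lf (nat_lit 0) (nat_lit 1672436216) (nat_lit 304) (nat_lit 1582722405) (nat_lit 380) (nat_lit 9647443012) (nat_lit 90) (nat_lit 5) (nat_lit 94) (nat_lit 5) (nat_lit 95) (nat_lit 5) (nat_lit 623) (nat_lit 504) (nat_lit 433)) (XT.lf (nat_lit 0) (nat_lit 3180781556) (nat_lit 1292) (nat_lit 128521773) (nat_lit 1292) (nat_lit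 128521773) (nat_lit 592) (nat_lit 4) (nat_lit 609) (nat_lit 5) (nat_lit 609) (nat_lit 4) (nat_lit 550) (nat_lit 505) (nat_lit 505))) (XT.nd (nat_lit 78) (nat_lit 1444) (nat_lit 0) (XT.lf (nat_lit 0) (nat_lit 3113871174) (nat_lit 1444) (nat_lit 2611340329) (nat_lit 0) (nat_lit 1179886353) (nat_lit 573) (nat_lit 5) (nat_lit 592) (nat_lit 4) (nat_lit 573) (nat_lit 4) (nat_lit 551) (nat_lit 505) (nat_lit 504)) (XT.lf (nat_lit 0) (nat_lit 2231268379) (nat_lit 1444) (nat_lit 4267448467) (nat_lit 1444) (nat_lit 437400097) (nat_lit 554) (nat_lit 4) (nat_lit 573) (nat_lit 5) (nat_lit 573) (nat_lit 4) (nat_lit 552) (nat_lit 505) (nat_lit 503)))) (XT.nd (nat_lit 156) (nat_lit 3420) (nat_lit 0) (XT.nd (nat_lit 78) (nat_lit 0) (nat_lit 0) (XT.lf (nat_lit 0) (nat_lit 156544638) (nat_lit 1520) (nat_lit 2737256768) (nat_lit 1596) (nat_lit 4074593985) (nat_lit 533) (nat_lit 5) (nat_lit 553) (nat_lit 5) (nat_lit 554) (nat_lit 4)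 (nat_lit 553) (nat_lit 505) (nat_lit 502)) (XT.lf (nat_lit 0) (nat_lit 5111689648) (nat_lit 1520) (nat_lit 1137350422) (nat_lit 1596) (nat_lit 752970772) (nat_lit 533) (nat_lit 5) (nat_lit 553) (nat_lit 5) (nat_lit 554) (nat_lit 4) (nat_lit 554) (nat_lit 505) (nat_lit 501))) (XT.nd (nat_lit 78) (nat_lit 1748) (nat_lit 0) (XT.lf (nat_lit 0) (nat_lit 2556654014) (nat_lit 1672) (nat_lit 3951318033) (nat_lit 76) (nat_lit 528875893) (nat_lit 511) (nat_lit 5) (nat_lit 533) (nat_lit 5) (nat_lit 512) (nat_lit 4) (nat_lit 555) (nat_lit 505) (nat_lit 500)) (XT.nd (nat_lit 78) (nat_lit 76) (nat_lit 0) (XT.lf (nat_lit 0) (nat_lit 1050663459) (nat_lit 1672) (nat_lit 4832379003) (nat_lit 1748) (nat_lit 1190040518) (nat_lit 489) (nat_lit 5) (nat_lit 511) (nat_lit 5) (nat_lit 512) (nat_lit 4) (nat_lit 556) (nat_lit 505) (nat_lit 499)) (XT.lf (nat_lit 0) (nat_lit 2098158939) (nat_lit 1748) (nat_lit 982875993) (nat_lit 76) (nat_lit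 4029526825) (nat_lit 488) (nat_lit 5) (nat_lit 511) (nat_lit 5) (nat_lit 489) (nat_lit 5) (nat_lit 557) (nat_lit 505) (nat_lit 498)))))) (XT.nd (nat_lit 390) (nat_lit 3496) (nat_lit 0) (XT.nd (nat_lit 156) (nat_lit 1976) (nat_lit 0) (XT.nd (nat_lit 78) (nat_lit 1748) (nat_lit 0) (XT.lf (nat_lit 0) (nat_lit 4139781960) (nat_lit 1748) (nat_lit 1258552159) (nat_lit 1824) (nat_lit 1751068755) (nat_lit 465) (nat_lit 5) (nat_lit 488) (nat_lit 5) (nat_lit 489) (nat_lit 5) (nat_lit 558) (nat_lit 505) (nat_lit 497)) (XT.lf (nat_lit 0) (nat_lit 1515154018) (nat_lit 1748) (nat_lit 5051184556) (nat_lit 76) (nat_lit 623283667) (nat_lit 442) (nat_lit 5) (nat_lit 465) (nat_lit 5) (nat_lit 443) (nat_lit 5) (nat_lit 559) (nat_lit 505) (nat_lit 496))) (XT.nd (nat_lit 78) (nat_lit 988) (nat_lit 0) (XT.lf (nat_lit 0) (nat_lit 116080664) (nat_lit 988) (nat_lit 4673128732) (nat_lit 1064) (nat_lit 2441898272) (nat_lit 429) (nat_lit 5)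 (nat_lit 442) (nat_lit 5) (nat_lit 443) (nat_lit 5) (nat_lit 560) (nat_lit 505) (nat_lit 495)) (XT.nd (nat_lit 78) (nat_lit 912) (nat_lit 0) (XT.lf (nat_lit 0) (nat_lit 815136853) (nat_lit 1064) (nat_lit 1889169710) (nat_lit 76) (nat_lit 4569596332) (nat_lit 428) (nat_lit 5) (nat_lit 442) (nat_lit 5) (nat_lit 429) (nat_lit 5) (nat_lit 561) (nat_lit 505) (nat_lit 494)) (XT.lf (nat_lit 0) (nat_lit 3405174706) (nat_lit 912) (nat_lit 659728125) (nat_lit 988) (nat_lit 3253134191) (nat_lit 416) (nat_lit 5) (nat_lit 428) (nat_lit 5) (nat_lit 429) (nat_lit 5) (nat_lit 562) (nat_lit 505) (nat_lit 493))))) (XT.nd (nat_lit 156) (nat_lit 2508) (nat_lit 0) (XT.nd (nat_lit 78) (nat_lit 76) (nat_lit 0) (XT.lf (nat_lit 0) (nat_lit 1412086629) (nat_lit 912) (nat_lit 5937688716) (nat_lit 988) (nat_lit 13887592) (nat_lit 404) (nat_lit 5) (nat_lit 416) (nat_lit 5) (nat_lit 417) (nat_lit 5) (nat_lit 563) (nat_lit 505) (nat_lit 492))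 (XT.lf (nat_lit 0) (nat_lit 3217084335) (nat_lit 988) (nat_lit 604700815) (nat_lit 76) (nat_lit 3588598049) (nat_lit 403) (nat_lit 5) (nat_lit 416) (nat_lit 5) (nat_lit 404) (nat_lit 5) (nat_lit 564) (nat_lit 505) (nat_lit 491))) (XT.nd (nat_lit 78) (nat_lit 1672) (nat_lit 0) (XT.lf (nat_lit 0) (nat_lit 4848199064) (nat_lit 836) (nat_lit 1636249863) (nat_lit 912) (nat_lit 974158596) (nat_lit 392) (nat_lit 5) (nat_lit 403) (nat_lit 5) (nat_lit 404) (nat_lit 5) (nat_lit 565) (nat_lit 505) (nat_lit 490)) (XT.nd (nat_lit 78) (nat_lit 760) (nat_lit 0) (XT.lf (nat_lit 0) (nat_lit 2246682177) (nat_lit 912) (nat_lit 4643840030) (nat_lit 76) (nat_lit 617632401) (nat_lit 380) (nat_lit 5) (nat_lit 392) (nat_lit 5) (nat_lit 381) (nat_lit 5) (nat_lit 566) (nat_lit 505) (nat_lit 489)) (XT.lf (nat_lit 0) (nat_lit 853876966) (nat_lit 760) (nat_lit 4640581462) (nat_lit 836) (nat_lit 2064604231) (nat_lit 370) (nat_lit 5) (nat_lit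 380) (nat_lit 5) (nat_lit 381) (nat_lit 5) (nat_lit 567) (nat_lit 505) (nat_lit 488))))))) (XT.nd (nat_lit 702) (nat_lit 5168) (nat_lit 0) (XT.nd (nat_lit 312) (nat_lit 2280) (nat_lit 0) (XT.nd (nat_lit 156) (nat_lit 1596) (nat_lit 0) (XT.nd (nat_lit 78) (nat_lit 836) (nat_lit 0) (XT.lf (nat_lit 0) (nat_lit 1153750917) (nat_lit 836) (nat_lit 1159685939) (nat_lit 76) (nat_lit 5297941595) (nat_lit 369) (nat_lit 5) (nat_lit 380) (nat_lit 5) (nat_lit 370) (nat_lit 5) (nat_lit 568) (nat_lit 505) (nat_lit 487)) (XT.lf (nat_lit 0) (nat_lit 4381556993) (nat_lit 912) (nat_lit 3188442856) (nat_lit 76) (nat_lit 95022672) (nat_lit 358) (nat_lit 5) (nat_lit 370) (nat_lit 5) (nat_lit 359) (nat_lit 5) (nat_lit 569) (nat_lit 505) (nat_lit 486))) (XT.nd (nat_lit 78) (nat_lit 836) (nat_lit 0) (XT.lf (nat_lit 0) (nat_lit 2473562873) (nat_lit 760) (nat_lit 5183229779) (nat_lit 836) (nat_lit 63298645) (nat_lit 348) (nat_lit 5) (nat_lit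 358) (nat_lit 5) (nat_lit 359) (nat_lit 5) (nat_lit 570) (nat_lit 505) (nat_lit 485)) (XT.lf (nat_lit 0) (nat_lit 435311016) (nat_lit 760) (nat_lit 2712042718) (nat_lit 836) (nat_lit 4629131762) (nat_lit 337) (nat_lit 5) (nat_lit 347) (nat_lit 5) (nat_lit 348) (nat_lit 5) (nat_lit 571) (nat_lit 505) (nat_lit 484)))) (XT.nd (nat_lit 156) (nat_lit 1520) (nat_lit 0) (XT.nd (nat_lit 78) (nat_lit 760) (nat_lit 0) (XT.lf (nat_lit 0) (nat_lit 6236374509) (nat_lit 760) (nat_lit 164843651) (nat_lit 836) (nat_lit 1433192877) (nat_lit 337) (nat_lit 5) (nat_lit 347) (nat_lit 5) (nat_lit 348) (nat_lit 5) (nat_lit 572) (nat_lit 505) (nat_lit 483)) (XT.lf (nat_lit 0) (nat_lit 1791585148) (nat_lit 760) (nat_lit 3670666355) (nat_lit 76) (nat_lit 2431237258) (nat_lit 327) (nat_lit 5) (nat_lit 337) (nat_lit 5) (nat_lit 328) (nat_lit 5) (nat_lit 573) (nat_lit 505) (nat_lit 482))) (XT.nd (nat_lit 78) (nat_lit 760) (nat_lit 0) (XT.lf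 (nat_lit 0) (nat_lit 2181015825) (nat_lit 760) (nat_lit 2852665519) (nat_lit 836) (nat_lit 2920445220) (nat_lit 317) (nat_lit 5) (nat_lit 327) (nat_lit 5) (nat_lit 328) (nat_lit 5) (nat_lit 574) (nat_lit 505) (nat_lit 481)) (XT.nd (nat_lit 78) (nat_lit 0) (nat_lit 0) (XT.lf (nat_lit 0) (nat_lit 117823194) (nat_lit 684) (nat_lit 174347624) (nat_lit 760) (nat_lit 7724336357) (nat_lit 307) (nat_lit 5) (nat_lit 316) (nat_lit 5) (nat_lit 317) (nat_lit 5) (nat_lit 575) (nat_lit 505) (nat_lit 480)) (XT.lf (nat_lit 0) (nat_lit 3532354429) (nat_lit 760) (nat_lit 1976749237) (nat_lit 76) (nat_lit 2570605026) (nat_lit 307) (nat_lit 5) (nat_lit 317) (nat_lit 5) (nat_lit 308) (nat_lit 5) (nat_lit 576) (nat_lit 505) (nat_lit 479)))))) (XT.nd (nat_lit 390) (nat_lit 2432) (nat_lit 0) (XT.nd (nat_lit 156) (nat_lit 1368) (nat_lit 0) (XT.nd (nat_lit 78) (nat_lit 684) (nat_lit 0) (XT.lf (nat_lit 0) (nat_lit 4050873982) (nat_lit 684)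 (nat_lit 2761747883) (nat_lit 760) (nat_lit 1332054397) (nat_lit 298) (nat_lit 5) (nat_lit 307) (nat_lit 5) (nat_lit 308) (nat_lit 5) (nat_lit 577) (nat_lit 505) (nat_lit 478)) (XT.lf (nat_lit 0) (nat_lit 1896624414) (nat_lit 684) (nat_lit 6248461983) (nat_lit 76) (nat_lit 66118909) (nat_lit 289) (nat_lit 5) (nat_lit 298) (nat_lit 5) (nat_lit 290) (nat_lit 5) (nat_lit 578) (nat_lit 505) (nat_lit 477))) (XT.nd (nat_lit 78) (nat_lit 1368) (nat_lit 0) (XT.lf (nat_lit 0) (nat_lit 5166594532) (nat_lit 684) (nat_lit 175411299) (nat_lit 76) (nat_lit 2936999109) (nat_lit 289) (nat_lit 5) (nat_lit 298) (nat_lit 5) (nat_lit 290) (nat_lit 5) (nat_lit 579) (nat_lit 505) (nat_lit 476)) (XT.nd (nat_lit 78) (nat_lit 608) (nat_lit 0) (XT.lf (nat_lit 0) (nat_lit 140483839) (nat_lit 760) (nat_lit 2315309182) (nat_lit 76) (nat_lit 5892580529) (nat_lit 279) (nat_lit 5) (nat_lit 289) (nat_lit 5) (nat_lit 280) (nat_lit 5) (nat_lit 580)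 (nat_lit 505) (nat_lit 475)) (XT.lf (nat_lit 0) (nat_lit 3396633133) (nat_lit 684) (nat_lit 4507355003) (nat_lit 76) (nat_lit 515139260) (nat_lit 271) (nat_lit 5) (nat_lit 280) (nat_lit 5) (nat_lit 272) (nat_lit 5) (nat_lit 581) (nat_lit 505) (nat_lit 474))))) (XT.nd (nat_lit 156) (nat_lit 1748) (nat_lit 0) (XT.nd (nat_lit 78) (nat_lit 76) (nat_lit 0) (XT.lf (nat_lit 0) (nat_lit 1745357313) (nat_lit 608) (nat_lit 4966096363) (nat_lit 684) (nat_lit 1779978316) (nat_lit 263) (nat_lit 5) (nat_lit 271) (nat_lit 5) (nat_lit 272) (nat_lit 5) (nat_lit 582) (nat_lit 505) (nat_lit 473)) (XT.lf (nat_lit 0) (nat_lit 1488339354) (nat_lit 684) (nat_lit 455670541) (nat_lit 76) (nat_lit 6621361160) (nat_lit 262) (nat_lit 5) (nat_lit 271) (nat_lit 5) (nat_lit 263) (nat_lit 5) (nat_lit 583) (nat_lit 505) (nat_lit 472))) (XT.nd (nat_lit 78) (nat_lit 1216) (nat_lit 0) (XT.lf (nat_lit 0) (nat_lit 4796060301) (nat_lit 608) (nat_lit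 2685340724) (nat_lit 76) (nat_lit 1159201399) (nat_lit 255) (nat_lit 5) (nat_lit 263) (nat_lit 5) (nat_lit 256) (nat_lit 5) (nat_lit 584) (nat_lit 505) (nat_lit 471)) (XT.nd (nat_lit 78) (nat_lit 608) (nat_lit 0) (XT.lf (nat_lit 0) (nat_lit 3755305746) (nat_lit 608) (nat_lit 4406908009) (nat_lit 684) (nat_lit 555285237) (nat_lit 247) (nat_lit 5) (nat_lit 255) (nat_lit 5) (nat_lit 256) (nat_lit 5) (nat_lit 585) (nat_lit 505) (nat_lit 470)) (XT.lf (nat_lit 0) (nat_lit 1502418143) (nat_lit 532) (nat_lit 1240663728) (nat_lit 608) (nat_lit 6052893069) (nat_lit 239) (nat_lit 5) (nat_lit 246) (nat_lit 5) (nat_lit 247) (nat_lit 5) (nat_lit 586) (nat_lit 505) (nat_lit 469))))))))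
noncomputable def xc38 : XT := (XT.nd (nat_lit 1482) (nat_lit 4104) (nat_lit 0) (XT.nd (nat_lit 702) (nat_lit 3648) (nat_lit 0) (XT.nd (nat_lit 312) (nat_lit 1596) (nat_lit 0) (XT.nd (nat_lit 156) (nat_lit 1064) (nat_lit 0) (XT.nd (nat_lit 78) (nat_lit 608) (nat_lit 0) (XT.lf (nat_lit 0) (nat_lit 6098983481) (nat_lit 608) (nat_lit 793579910) (nat_lit 76) (nat_lit 1983409336) (nat_lit 239) (nat_lit 5) (nat_lit 247) (nat_lit 5) (nat_lit 240) (nat_lit 5) (nat_lit 587) (nat_lit 505) (nat_lit 468)) (XT.lf (nat_lit 0) (nat_lit 556655233) (nat_lit 608) (nat_lit 3120184276) (nat_lit 76) (nat_lit 5280670718) (nat_lit 231) (nat_lit 5) (nat_lit 239) (nat_lit 5) (nat_lit 232) (nat_lit 5) (nat_lit 588) (nat_lit 505) (nat_lit 467))) (XT.nd (nat_lit 78) (nat_lit 532) (nat_lit 0) (XT.lf (nat_lit 0) (nat_lit 3535044880) (nat_lit 532) (nat_lit 366774653) (nat_lit 608) (nat_lit 5138856655) (nat_lit 224) (nat_lit 5) (nat_lit 231)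 (nat_lit 5) (nat_lit 232) (nat_lit 5) (nat_lit 589) (nat_lit 505) (nat_lit 466)) (XT.lf (nat_lit 0) (nat_lit 1171965657) (nat_lit 532) (nat_lit 6144211602) (nat_lit 608) (nat_lit 1809287744) (nat_lit 217) (nat_lit 5) (nat_lit 224) (nat_lit 5) (nat_lit 225) (nat_lit 5) (nat_lit 590) (nat_lit 505) (nat_lit 465)))) (XT.nd (nat_lit 156) (nat_lit 1064) (nat_lit 0) (XT.nd (nat_lit 78) (nat_lit 456) (nat_lit 0) (XT.lf (nat_lit 0) (nat_lit 1559924080) (nat_lit 608) (nat_lit 1230946033) (nat_lit 76) (nat_lit 6421001280) (nat_lit 216) (nat_lit 5) (nat_lit 224) (nat_lit 5) (nat_lit 217) (nat_lit 5) (nat_lit 591) (nat_lit 505) (nat_lit 464)) (XT.lf (nat_lit 0) (nat_lit 4968265828) (nat_lit 532) (nat_lit 3679622067) (nat_lit 76) (nat_lit 651964417) (nat_lit 210) (nat_lit 5) (nat_lit 217) (nat_lit 5) (nat_lit 211) (nat_lit 5) (nat_lit 592) (nat_lit 505) (nat_lit 463))) (XT.nd (nat_lit 78) (nat_lit 532) (nat_lit 0) (XT.lf (nat_lit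 0) (nat_lit 3195464333) (nat_lit 532) (nat_lit 5252348226) (nat_lit 608) (nat_lit 941724460) (nat_lit 203) (nat_lit 5) (nat_lit 210) (nat_lit 5) (nat_lit 211) (nat_lit 5) (nat_lit 593) (nat_lit 505) (nat_lit 462)) (XT.nd (nat_lit 78) (nat_lit 0) (nat_lit 0) (XT.lf (nat_lit 0) (nat_lit 706403820) (nat_lit 456) (nat_lit 1761635737) (nat_lit 532) (nat_lit 7012951867) (nat_lit 196) (nat_lit 5) (nat_lit 202) (nat_lit 5) (nat_lit 203) (nat_lit 5) (nat_lit 594) (nat_lit 505) (nat_lit 461)) (XT.lf (nat_lit 0) (nat_lit 5942912518) (nat_lit 532) (nat_lit 1826890534) (nat_lit 76) (nat_lit 1804161550) (nat_lit 196) (nat_lit 5) (nat_lit 203) (nat_lit 5) (nat_lit 197) (nat_lit 5) (nat_lit 595) (nat_lit 505) (nat_lit 460)))))) (XT.nd (nat_lit 390) (nat_lit 1748) (nat_lit 0) (XT.nd (nat_lit 156) (nat_lit 912) (nat_lit 0) (XT.nd (nat_lit 78) (nat_lit 532) (nat_lit 0) (XT.lf (nat_lit 0) (nat_lit 5254152562) (nat_lit 456) (nat_lit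 4235764413) (nat_lit 532) (nat_lit 178832143) (nat_lit 190) (nat_lit 5) (nat_lit 196) (nat_lit 5) (nat_lit 197) (nat_lit 5) (nat_lit 596) (nat_lit 505) (nat_lit 459)) (XT.lf (nat_lit 0) (nat_lit 2686839427) (nat_lit 456) (nat_lit 598549020) (nat_lit 532) (nat_lit 6479875375) (nat_lit 183) (nat_lit 5) (nat_lit 189) (nat_lit 5) (nat_lit 190) (nat_lit 5) (nat_lit 597) (nat_lit 505) (nat_lit 458))) (XT.nd (nat_lit 78) (nat_lit 456) (nat_lit 0) (XT.lf (nat_lit 0) (nat_lit 42683193) (nat_lit 456) (nat_lit 6781430810) (nat_lit 532) (nat_lit 3039423166) (nat_lit 177) (nat_lit 5) (nat_lit 183) (nat_lit 5) (nat_lit 184) (nat_lit 5) (nat_lit 598) (nat_lit 505) (nat_lit 457)) (XT.nd (nat_lit 78) (nat_lit 380) (nat_lit 0) (XT.lf (nat_lit 0) (nat_lit 472912995) (nat_lit 532) (nat_lit 2631468564) (nat_lit 76) (nat_lit 6859152802) (nat_lit 176) (nat_lit 5) (nat_lit 183) (nat_lit 5) (nat_lit 177) (nat_lit 5) (nat_lit 599) (nat_lit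 505) (nat_lit 456)) (XT.lf (nat_lit 0) (nat_lit 4007916033) (nat_lit 456) (nat_lit 5389023467) (nat_lit 76) (nat_lit 668331872) (nat_lit 171) (nat_lit 5) (nat_lit 177) (nat_lit 5) (nat_lit 172) (nat_lit 5) (nat_lit 600) (nat_lit 505) (nat_lit 455))))) (XT.nd (nat_lit 156) (nat_lit 1216) (nat_lit 0) (XT.nd (nat_lit 78) (nat_lit 76) (nat_lit 0) (XT.lf (nat_lit 0) (nat_lit 1939339146) (nat_lit 456) (nat_lit 5683781501) (nat_lit 532) (nat_lit 2545736411) (nat_lit 165) (nat_lit 5) (nat_lit 171) (nat_lit 5) (nat_lit 172) (nat_lit 5) (nat_lit 601) (nat_lit 505) (nat_lit 454)) (XT.lf (nat_lit 0) (nat_lit 1017638011) (nat_lit 532) (nat_lit 856099299) (nat_lit 76) (nat_lit 8400744178) (nat_lit 164) (nat_lit 5) (nat_lit 171) (nat_lit 5) (nat_lit 165) (nat_lit 5) (nat_lit 602) (nat_lit 505) (nat_lit 453))) (XT.nd (nat_lit 78) (nat_lit 836) (nat_lit 0) (XT.lf (nat_lit 0) (nat_lit 4634404619) (nat_lit 456) (nat_lit 3721128970)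 (nat_lit 76) (nat_lit 2026027769) (nat_lit 159) (nat_lit 5) (nat_lit 165) (nat_lit 5) (nat_lit 160) (nat_lit 5) (nat_lit 603) (nat_lit 505) (nat_lit 452)) (XT.nd (nat_lit 78) (nat_lit 456) (nat_lit 0) (XT.lf (nat_lit 0) (nat_lit 3824243491) (nat_lit 380) (nat_lit 4502064805) (nat_lit 456) (nat_lit 2164422158) (nat_lit 154) (nat_lit 5) (nat_lit 159) (nat_lit 5) (nat_lit 160) (nat_lit 5) (nat_lit 604) (nat_lit 505) (nat_lit 451)) (XT.lf (nat_lit 0) (nat_lit 909644531) (nat_lit 380) (nat_lit 551727313) (nat_lit 456) (nat_lit 9140702215) (nat_lit 148) (nat_lit 5) (nat_lit 153) (nat_lit 5) (nat_lit 154) (nat_lit 5) (nat_lit 605) (nat_lit 505) (nat_lit 450))))))) (XT.nd (nat_lit 702) (nat_lit 1900) (nat_lit 0) (XT.nd (nat_lit 312) (nat_lit 1444) (nat_lit 0) (XT.nd (nat_lit 156) (nat_lit 380) (nat_lit 0) (XT.nd (nat_lit 78) (nat_lit 380) (nat_lit 0) (XT.lf (nat_lit 0) (nat_lit 5158488350) (nat_lit 456) (nat_lit 2086371430)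 (nat_lit 76) (nat_lit 3469946307) (nat_lit 148) (nat_lit 5) (nat_lit 154) (nat_lit 5) (nat_lit 149) (nat_lit 5) (nat_lit 606) (nat_lit 505) (nat_lit 449)) (XT.lf (nat_lit 0) (nat_lit 5681812123) (nat_lit 380) (nat_lit 3249210596) (nat_lit 456) (nat_lit 1898743912) (nat_lit 143) (nat_lit 5) (nat_lit 148) (nat_lit 5) (nat_lit 149) (nat_lit 5) (nat_lit 607) (nat_lit 505) (nat_lit 448))) (XT.nd (nat_lit 78) (nat_lit 0) (nat_lit 0) (XT.lf (nat_lit 0) (nat_lit 1805798675) (nat_lit 380) (nat_lit 8303788815) (nat_lit 76) (nat_lit 837247381) (nat_lit 138) (nat_lit 5) (nat_lit 143) (nat_lit 5) (nat_lit 139) (nat_lit 5) (nat_lit 608) (nat_lit 505) (nat_lit 447)) (XT.lf (nat_lit 0) (nat_lit 5576597184) (nat_lit 380) (nat_lit 501437534) (nat_lit 76) (nat_lit 4987610147) (nat_lit 138) (nat_lit 5) (nat_lit 143) (nat_lit 5) (nat_lit 139) (nat_lit 5) (nat_lit 609) (nat_lit 505) (nat_lit 446)))) (XT.nd (nat_lit 156) (nat_lit 684)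 (nat_lit 0) (XT.nd (nat_lit 78) (nat_lit 380) (nat_lit 0) (XT.lf (nat_lit 0) (nat_lit 7495251274) (nat_lit 380) (nat_lit 1938257152) (nat_lit 456) (nat_lit 1753111827) (nat_lit 133) (nat_lit 5) (nat_lit 138) (nat_lit 5) (nat_lit 139) (nat_lit 5) (nat_lit 610) (nat_lit 505) (nat_lit 445)) (XT.lf (nat_lit 0) (nat_lit 2039193184) (nat_lit 380) (nat_lit 6992826984) (nat_lit 76) (nat_lit 2277558097) (nat_lit 128) (nat_lit 5) (nat_lit 133) (nat_lit 5) (nat_lit 129) (nat_lit 5) (nat_lit 611) (nat_lit 505) (nat_lit 444))) (XT.nd (nat_lit 78) (nat_lit 380) (nat_lit 0) (XT.lf (nat_lit 0) (nat_lit 1029122616) (nat_lit 304) (nat_lit 4861570672) (nat_lit 380) (nat_lit 5543936874) (nat_lit 124) (nat_lit 5) (nat_lit 128) (nat_lit 5) (nat_lit 129) (nat_lit 5) (nat_lit 612) (nat_lit 505) (nat_lit 443)) (XT.nd (nat_lit 78) (nat_lit 380) (nat_lit 0) (XT.lf (nat_lit 0) (nat_lit 9246362042) (nat_lit 304) (nat_lit 582484263) (nat_lit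 380) (nat_lit 1733147221) (nat_lit 124) (nat_lit 5) (nat_lit 128) (nat_lit 5) (nat_lit 129) (nat_lit 5) (nat_lit 613) (nat_lit 505) (nat_lit 442)) (XT.lf (nat_lit 0) (nat_lit 2152123655) (nat_lit 380) (nat_lit 5775635131) (nat_lit 76) (nat_lit 3763338191) (nat_lit 119) (nat_lit 5) (nat_lit 124) (nat_lit 5) (nat_lit 120) (nat_lit 5) (nat_lit 614) (nat_lit 505) (nat_lit 441)))))) (XT.nd (nat_lit 390) (nat_lit 684) (nat_lit 0) (XT.nd (nat_lit 156) (nat_lit 912) (nat_lit 0) (XT.nd (nat_lit 78) (nat_lit 0) (nat_lit 0) (XT.lf (nat_lit 0) (nat_lit 2477698976) (nat_lit 304) (nat_lit 3613180338) (nat_lit 380) (nat_lit 5731697059) (nat_lit 115) (nat_lit 5) (nat_lit 119) (nat_lit 5) (nat_lit 120) (nat_lit 5) (nat_lit 615) (nat_lit 505) (nat_lit 440)) (XT.lf (nat_lit 0) (nat_lit 10116103383) (nat_lit 380) (nat_lit 1046533076) (nat_lit 76) (nat_lit 793897702) (nat_lit 115) (nat_lit 5) (nat_lit 120) (nat_lit 5) (nat_lit 116)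 (nat_lit 5) (nat_lit 616) (nat_lit 505) (nat_lit 439))) (XT.nd (nat_lit 78) (nat_lit 532) (nat_lit 0) (XT.lf (nat_lit 0) (nat_lit 2137448665) (nat_lit 380) (nat_lit 4673646026) (nat_lit 76) (nat_lit 5281068453) (nat_lit 110) (nat_lit 5) (nat_lit 115) (nat_lit 5) (nat_lit 111) (nat_lit 5) (nat_lit 617) (nat_lit 505) (nat_lit 438)) (XT.nd (nat_lit 78) (nat_lit 228) (nat_lit 0) (XT.lf (nat_lit 0) (nat_lit 3815938067) (nat_lit 304) (nat_lit 2350537786) (nat_lit 380) (nat_lit 6063863394) (nat_lit 106) (nat_lit 5) (nat_lit 110) (nat_lit 5) (nat_lit 111) (nat_lit 5) (nat_lit 618) (nat_lit 505) (nat_lit 437)) (XT.lf (nat_lit 0) (nat_lit 96048920) (nat_lit 228) (nat_lit 10191045579) (nat_lit 304) (nat_lit 2083966621) (nat_lit 103) (nat_lit 5) (nat_lit 106) (nat_lit 5) (nat_lit 107) (nat_lit 5) (nat_lit 619) (nat_lit 505) (nat_lit 436))))) (XT.nd (nat_lit 156) (nat_lit 304) (nat_lit 0) (XT.nd (nat_lit 78) (nat_lit 304) (nat_lit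 0) (XT.lf (nat_lit 0) (nat_lit 1986643601) (nat_lit 304) (nat_lit 3710292600) (nat_lit 76) (nat_lit 6816666573) (nat_lit 102) (nat_lit 5) (nat_lit 106) (nat_lit 5) (nat_lit 103) (nat_lit 5) (nat_lit 620) (nat_lit 505) (nat_lit 435)) (XT.lf (nat_lit 0) (nat_lit 5020088018) (nat_lit 304) (nat_lit 1088606704) (nat_lit 380) (nat_lit 6550068702) (nat_lit 98) (nat_lit 5) (nat_lit 102) (nat_lit 5) (nat_lit 103) (nat_lit 5) (nat_lit 621) (nat_lit 505) (nat_lit 434))) (XT.nd (nat_lit 78) (nat_lit 76) (nat_lit 0) (XT.lf (nat_lit 0) (nat_lit 1102045478) (nat_lit 228) (nat_lit 9232282848) (nat_lit 304) (nat_lit 2472078410) (nat_lit 95) (nat_lit 5) (nat_lit 98) (nat_lit 5) (nat_lit 99) (nat_lit 5) (nat_lit 622) (nat_lit 505) (nat_lit 433)) (XT.nd (nat_lit 75348) (nat_lit 0) (nat_lit 39140) (XT.lf (nat_lit 0) (nat_lit 1689696212) (nat_lit 304) (nat_lit 2911270507) (nat_lit 76) (nat_lit 8355332142) (nat_lit 94) (nat_lit 5) (nat_lit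 98) (nat_lit 5) (nat_lit 95) (nat_lit 5) (nat_lit 623) (nat_lit 505) (nat_lit 432)) (XT.lf (nat_lit 0) (nat_lit 932775325) (nat_lit 1292) (nat_lit 1544129439) (nat_lit 0) (nat_lit 932775325) (nat_lit 609) (nat_lit 5) (nat_lit 626) (nat_lit 4) (nat_lit 609) (nat_lit 4) (nat_lit 548) (nat_lit 506) (nat_lit 506))))))))
noncomputable def xc39 : XT := (XT.nd (nat_lit 1482) (nat_lit 9424) (nat_lit 0) (XT.nd (nat_lit 702) (nat_lit 8968) (nat_lit 0) (XT.nd (nat_lit 312) (nat_lit 4940) (nat_lit 0) (XT.nd (nat_lit 156) (nat_lit 2888) (nat_lit 0) (XT.nd (nat_lit 78) (nat_lit 76) (nat_lit 0) (XT.lf (nat_lit 0) (nat_lit 1584703876) (nat_lit 1292) (nat_lit 3637245184) (nat_lit 1292) (nat_lit 1625127376) (nat_lit 592) (nat_lit 4) (nat_lit 609) (nat_lit 5) (nat_lit 609) (nat_lit 4) (nat_lit 549) (nat_lit 506) (nat_lit 505)) (XT.lf (nat_lit 0) (nat_lit 1697038686) (nat_lit 1368) (nat_lit 556764178) (nat_lit 76) (nat_lit 4622327643)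 (nat_lit 591) (nat_lit 5) (nat_lit 609) (nat_lit 5) (nat_lit 592) (nat_lit 4) (nat_lit 550) (nat_lit 506) (nat_lit 504))) (XT.nd (nat_lit 78) (nat_lit 1520) (nat_lit 0) (XT.lf (nat_lit 0) (nat_lit 4225663696) (nat_lit 1368) (nat_lit 796331769) (nat_lit 1444) (nat_lit 1884408749) (nat_lit 573) (nat_lit 5) (nat_lit 591) (nat_lit 5) (nat_lit 592) (nat_lit 4) (nat_lit 551) (nat_lit 506) (nat_lit 503)) (XT.lf (nat_lit 0) (nat_lit 1410244782) (nat_lit 1520) (nat_lit 4812904260) (nat_lit 76) (nat_lit 714888878) (nat_lit 553) (nat_lit 5) (nat_lit 573) (nat_lit 5) (nat_lit 554) (nat_lit 4) (nat_lit 552) (nat_lit 506) (nat_lit 502)))) (XT.nd (nat_lit 156) (nat_lit 3344) (nat_lit 0) (XT.nd (nat_lit 78) (nat_lit 76) (nat_lit 0) (XT.lf (nat_lit 0) (nat_lit 12335538) (nat_lit 1520) (nat_lit 4688838397) (nat_lit 1596) (nat_lit 2269783606) (nat_lit 533) (nat_lit 5) (nat_lit 553) (nat_lit 5) (nat_lit 554) (nat_lit 4) (nat_lit 553)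 (nat_lit 506) (nat_lit 501)) (XT.lf (nat_lit 0) (nat_lit 1004674701) (nat_lit 1596) (nat_lit 2075587586) (nat_lit 76) (nat_lit 3924848491) (nat_lit 532) (nat_lit 5) (nat_lit 553) (nat_lit 5) (nat_lit 533) (nat_lit 5) (nat_lit 554) (nat_lit 506) (nat_lit 500))) (XT.nd (nat_lit 78) (nat_lit 1748) (nat_lit 0) (XT.lf (nat_lit 0) (nat_lit 2864939131) (nat_lit 1596) (nat_lit 1401834769) (nat_lit 1672) (nat_lit 2773836043) (nat_lit 511) (nat_lit 5) (nat_lit 532) (nat_lit 5) (nat_lit 533) (nat_lit 5) (nat_lit 555) (nat_lit 506) (nat_lit 499)) (XT.nd (nat_lit 78) (nat_lit 0) (nat_lit 0) (XT.lf (nat_lit 0) (nat_lit 466264456) (nat_lit 1748) (nat_lit 6280148171) (nat_lit 76) (nat_lit 331237508) (nat_lit 488) (nat_lit 5) (nat_lit 511) (nat_lit 5) (nat_lit 489) (nat_lit 5) (nat_lit 556) (nat_lit 506) (nat_lit 498)) (XT.lf (nat_lit 0) (nat_lit 3706803482) (nat_lit 1748) (nat_lit 1280058584) (nat_lit 76) (nat_lit 2128759815)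 (nat_lit 488) (nat_lit 5) (nat_lit 511) (nat_lit 5) (nat_lit 489) (nat_lit 5) (nat_lit 557) (nat_lit 506) (nat_lit 497)))))) (XT.nd (nat_lit 390) (nat_lit 3496) (nat_lit 0) (XT.nd (nat_lit 156) (nat_lit 1976) (nat_lit 0) (XT.nd (nat_lit 78) (nat_lit 1748) (nat_lit 0) (XT.lf (nat_lit 0) (nat_lit 3807131291) (nat_lit 1748) (nat_lit 3166263232) (nat_lit 1824) (nat_lit 181746474) (nat_lit 465) (nat_lit 5) (nat_lit 488) (nat_lit 5) (nat_lit 489) (nat_lit 5) (nat_lit 558) (nat_lit 506) (nat_lit 496)) (XT.lf (nat_lit 0) (nat_lit 1757672072) (nat_lit 1672) (nat_lit 1268402111) (nat_lit 1748) (nat_lit 4169844873) (nat_lit 442) (nat_lit 5) (nat_lit 464) (nat_lit 5) (nat_lit 465) (nat_lit 5) (nat_lit 559) (nat_lit 506) (nat_lit 495))) (XT.nd (nat_lit 78) (nat_lit 1976) (nat_lit 0) (XT.lf (nat_lit 0) (nat_lit 6260328457) (nat_lit 1748) (nat_lit 296004620) (nat_lit 76) (nat_lit 681873382) (nat_lit 442) (nat_lit 5) (nat_lit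 465) (nat_lit 5) (nat_lit 443) (nat_lit 5) (nat_lit 560) (nat_lit 506) (nat_lit 494)) (XT.nd (nat_lit 78) (nat_lit 912) (nat_lit 0) (XT.lf (nat_lit 0) (nat_lit 2227376112) (nat_lit 1064) (nat_lit 2353758572) (nat_lit 76) (nat_lit 2700334218) (nat_lit 428) (nat_lit 5) (nat_lit 442) (nat_lit 5) (nat_lit 429) (nat_lit 5) (nat_lit 561) (nat_lit 506) (nat_lit 493)) (XT.lf (nat_lit 0) (nat_lit 2902682233) (nat_lit 912) (nat_lit 2541177905) (nat_lit 988) (nat_lit 1882414139) (nat_lit 416) (nat_lit 5) (nat_lit 428) (nat_lit 5) (nat_lit 429) (nat_lit 5) (nat_lit 562) (nat_lit 506) (nat_lit 492))))) (XT.nd (nat_lit 156) (nat_lit 2508) (nat_lit 0) (XT.nd (nat_lit 78) (nat_lit 0) (nat_lit 0) (XT.lf (nat_lit 0) (nat_lit 863284140) (nat_lit 912) (nat_lit 432912028) (nat_lit 988) (nat_lit 6076390049) (nat_lit 403) (nat_lit 5) (nat_lit 415) (nat_lit 5) (nat_lit 416) (nat_lit 5) (nat_lit 563) (nat_lit 506) (nat_lit 491)) (XT.lf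 (nat_lit 0) (nat_lit 4494710494) (nat_lit 988) (nat_lit 1191590234) (nat_lit 76) (nat_lit 1733654741) (nat_lit 403) (nat_lit 5) (nat_lit 416) (nat_lit 5) (nat_lit 404) (nat_lit 5) (nat_lit 564) (nat_lit 506) (nat_lit 490))) (XT.nd (nat_lit 78) (nat_lit 1596) (nat_lit 0) (XT.lf (nat_lit 0) (nat_lit 256863714) (nat_lit 912) (nat_lit 3248698221) (nat_lit 76) (nat_lit 3963248318) (nat_lit 391) (nat_lit 5) (nat_lit 403) (nat_lit 5) (nat_lit 392) (nat_lit 5) (nat_lit 565) (nat_lit 506) (nat_lit 489)) (XT.nd (nat_lit 78) (nat_lit 760) (nat_lit 0) (XT.lf (nat_lit 0) (nat_lit 2183420157) (nat_lit 836) (nat_lit 1244280884) (nat_lit 912) (nat_lit 4091279323) (nat_lit 380) (nat_lit 5) (nat_lit 391) (nat_lit 5) (nat_lit 392) (nat_lit 5) (nat_lit 566) (nat_lit 506) (nat_lit 488)) (XT.lf (nat_lit 0) (nat_lit 128941344) (nat_lit 760) (nat_lit 6505375999) (nat_lit 836) (nat_lit 936399154) (nat_lit 370) (nat_lit 5) (nat_lit 380)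 (nat_lit 5) (nat_lit 381) (nat_lit 5) (nat_lit 567) (nat_lit 506) (nat_lit 487))))))) (XT.nd (nat_lit 702) (nat_lit 4636) (nat_lit 0) (XT.nd (nat_lit 312) (nat_lit 3040) (nat_lit 0) (XT.nd (nat_lit 156) (nat_lit 836) (nat_lit 0) (XT.nd (nat_lit 78) (nat_lit 836) (nat_lit 0) (XT.lf (nat_lit 0) (nat_lit 2238945926) (nat_lit 836) (nat_lit 1935557448) (nat_lit 76) (nat_lit 3448951377) (nat_lit 369) (nat_lit 5) (nat_lit 380) (nat_lit 5) (nat_lit 370) (nat_lit 5) (nat_lit 568) (nat_lit 506) (nat_lit 486)) (XT.lf (nat_lit 0) (nat_lit 3659288136) (nat_lit 836) (nat_lit 1773867927) (nat_lit 912) (nat_lit 2244619277) (nat_lit 358) (nat_lit 5) (nat_lit 369) (nat_lit 5) (nat_lit 370) (nat_lit 5) (nat_lit 569) (nat_lit 506) (nat_lit 485))) (XT.nd (nat_lit 78) (nat_lit 0) (nat_lit 0) (XT.lf (nat_lit 0) (nat_lit 917999192) (nat_lit 836) (nat_lit 6127690436) (nat_lit 76) (nat_lit 687927311) (nat_lit 347) (nat_lit 5) (nat_lit 358)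 (nat_lit 5) (nat_lit 348) (nat_lit 5) (nat_lit 570) (nat_lit 506) (nat_lit 484)) (XT.lf (nat_lit 0) (nat_lit 4097799170) (nat_lit 836) (nat_lit 483779156) (nat_lit 76) (nat_lit 3209029373) (nat_lit 347) (nat_lit 5) (nat_lit 358) (nat_lit 5) (nat_lit 348) (nat_lit 5) (nat_lit 571) (nat_lit 506) (nat_lit 483)))) (XT.nd (nat_lit 156) (nat_lit 1520) (nat_lit 0) (XT.nd (nat_lit 78) (nat_lit 760) (nat_lit 0) (XT.lf (nat_lit 0) (nat_lit 5279256425) (nat_lit 760) (nat_lit 2042356603) (nat_lit 836) (nat_lit 527525474) (nat_lit 337) (nat_lit 5) (nat_lit 347) (nat_lit 5) (nat_lit 348) (nat_lit 5) (nat_lit 572) (nat_lit 506) (nat_lit 482)) (XT.lf (nat_lit 0) (nat_lit 2639990100) (nat_lit 760) (nat_lit 4696188425) (nat_lit 76) (nat_lit 572831873) (nat_lit 327) (nat_lit 5) (nat_lit 337) (nat_lit 5) (nat_lit 328) (nat_lit 5) (nat_lit 573) (nat_lit 506) (nat_lit 481))) (XT.nd (nat_lit 78) (nat_lit 760) (nat_lit 0) (XT.lf (nat_lit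 0) (nat_lit 1109819258) (nat_lit 760) (nat_lit 4739078456) (nat_lit 836) (nat_lit 2121418264) (nat_lit 317) (nat_lit 5) (nat_lit 327) (nat_lit 5) (nat_lit 328) (nat_lit 5) (nat_lit 574) (nat_lit 506) (nat_lit 480)) (XT.nd (nat_lit 78) (nat_lit 684) (nat_lit 0) (XT.lf (nat_lit 0) (nat_lit 1053854592) (nat_lit 836) (nat_lit 1008064060) (nat_lit 76) (nat_lit 5971215307) (nat_lit 316) (nat_lit 5) (nat_lit 327) (nat_lit 5) (nat_lit 317) (nat_lit 5) (nat_lit 575) (nat_lit 506) (nat_lit 479)) (XT.lf (nat_lit 0) (nat_lit 4249277499) (nat_lit 760) (nat_lit 3152534629) (nat_lit 76) (nat_lit 695422336) (nat_lit 307) (nat_lit 5) (nat_lit 317) (nat_lit 5) (nat_lit 308) (nat_lit 5) (nat_lit 576) (nat_lit 506) (nat_lit 478)))))) (XT.nd (nat_lit 390) (nat_lit 1900) (nat_lit 0) (XT.nd (nat_lit 156) (nat_lit 1368) (nat_lit 0) (XT.nd (nat_lit 78) (nat_lit 684) (nat_lit 0) (XT.lf (nat_lit 0) (nat_lit 2827632462) (nat_lit 684) (nat_lit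 4668647415) (nat_lit 760) (nat_lit 666591158) (nat_lit 298) (nat_lit 5) (nat_lit 307) (nat_lit 5) (nat_lit 308) (nat_lit 5) (nat_lit 577) (nat_lit 506) (nat_lit 477)) (XT.lf (nat_lit 0) (nat_lit 668910566) (nat_lit 608) (nat_lit 1850412742) (nat_lit 684) (nat_lit 5710674650) (nat_lit 289) (nat_lit 5) (nat_lit 297) (nat_lit 5) (nat_lit 298) (nat_lit 5) (nat_lit 578) (nat_lit 506) (nat_lit 476))) (XT.nd (nat_lit 78) (nat_lit 1368) (nat_lit 0) (XT.lf (nat_lit 0) (nat_lit 5752329816) (nat_lit 684) (nat_lit 1507819828) (nat_lit 76) (nat_lit 1038390707) (nat_lit 289) (nat_lit 5) (nat_lit 298) (nat_lit 5) (nat_lit 290) (nat_lit 5) (nat_lit 579) (nat_lit 506) (nat_lit 475)) (XT.nd (nat_lit 78) (nat_lit 608) (nat_lit 0) (XT.lf (nat_lit 0) (nat_lit 665601894) (nat_lit 760) (nat_lit 3720674929) (nat_lit 76) (nat_lit 3982235087) (nat_lit 279) (nat_lit 5) (nat_lit 289) (nat_lit 5) (nat_lit 280) (nat_lit 5) (nat_lit 580) (nat_lit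 506) (nat_lit 474)) (XT.lf (nat_lit 0) (nat_lit 2459475549) (nat_lit 608) (nat_lit 1425089641) (nat_lit 684) (nat_lit 4555447572) (nat_lit 271) (nat_lit 5) (nat_lit 279) (nat_lit 5) (nat_lit 280) (nat_lit 5) (nat_lit 581) (nat_lit 506) (nat_lit 473))))) (XT.nd (nat_lit 156) (nat_lit 1216) (nat_lit 0) (XT.nd (nat_lit 78) (nat_lit 76) (nat_lit 0) (XT.lf (nat_lit 0) (nat_lit 230025249) (nat_lit 608) (nat_lit 6926154036) (nat_lit 684) (nat_lit 1357005422) (nat_lit 263) (nat_lit 5) (nat_lit 271) (nat_lit 5) (nat_lit 272) (nat_lit 5) (nat_lit 582) (nat_lit 506) (nat_lit 472)) (XT.lf (nat_lit 0) (nat_lit 1881758057) (nat_lit 684) (nat_lit 2027144878) (nat_lit 76) (nat_lit 4678649144) (nat_lit 262) (nat_lit 5) (nat_lit 271) (nat_lit 5) (nat_lit 263) (nat_lit 5) (nat_lit 583) (nat_lit 506) (nat_lit 471))) (XT.nd (nat_lit 78) (nat_lit 684) (nat_lit 0) (XT.lf (nat_lit 0) (nat_lit 4339246992) (nat_lit 532) (nat_lit 808526840)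 (nat_lit 608) (nat_lit 3515846757) (nat_lit 255) (nat_lit 5) (nat_lit 262) (nat_lit 5) (nat_lit 263) (nat_lit 5) (nat_lit 584) (nat_lit 506) (nat_lit 470)) (XT.nd (nat_lit 78) (nat_lit 76) (nat_lit 0) (XT.lf (nat_lit 0) (nat_lit 2068156833) (nat_lit 608) (nat_lit 6406243183) (nat_lit 684) (nat_lit 266910662) (nat_lit 247) (nat_lit 5) (nat_lit 255) (nat_lit 5) (nat_lit 256) (nat_lit 5) (nat_lit 585) (nat_lit 506) (nat_lit 469)) (XT.lf (nat_lit 0) (nat_lit 2994696174) (nat_lit 684) (nat_lit 261463502) (nat_lit 76) (nat_lit 5564251927) (nat_lit 246) (nat_lit 5) (nat_lit 255) (nat_lit 5) (nat_lit 247) (nat_lit 5) (nat_lit 586) (nat_lit 506) (nat_lit 468))))))))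
noncomputable def xc40 : XT := (XT.nd (nat_lit 1404) (nat_lit 4560) (nat_lit 0) (XT.nd (nat_lit 702) (nat_lit 3192) (nat_lit 0) (XT.nd (nat_lit 312) (nat_lit 2128) (nat_lit 0) (XT.nd (nat_lit 156) (nat_lit 532) (nat_lit 0) (XT.nd (nat_lit 78) (nat_lit 608) (nat_lit 0) (XT.lf (nat_lit 0) (nat_lit 6297208148) (nat_lit 532) (nat_lit 15650437) (nat_lit 608) (nat_lit 2588308395) (nat_lit 239) (nat_lit 5) (nat_lit 246) (nat_lit 5) (nat_lit 247) (nat_lit 5) (nat_lit 587) (nat_lit 506) (nat_lit 467)) (XT.lf (nat_lit 0) (nat_lit 707841711) (nat_lit 608) (nat_lit 5012746267) (nat_lit 76) (nat_lit 3262795092) (nat_lit 231) (nat_lit 5) (nat_lit 239) (nat_lit 5) (nat_lit 232) (nat_lit 5) (nat_lit 588) (nat_lit 506) (nat_lit 466))) (XT.nd (nat_lit 78) (nat_lit 0) (nat_lit 0) (XT.lf (nat_lit 0) (nat_lit 1585892867) (nat_lit 532) (nat_lit 2431978629) (nat_lit 608) (nat_lit 5049382867) (nat_lit 224) (nat_lit 5) (nat_lit 231) (nat_lit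 5) (nat_lit 232) (nat_lit 5) (nat_lit 589) (nat_lit 506) (nat_lit 465)) (XT.lf (nat_lit 0) (nat_lit 7388916966) (nat_lit 608) (nat_lit 836940451) (nat_lit 76) (nat_lit 927054600) (nat_lit 224) (nat_lit 5) (nat_lit 232) (nat_lit 5) (nat_lit 225) (nat_lit 5) (nat_lit 590) (nat_lit 506) (nat_lit 464)))) (XT.nd (nat_lit 156) (nat_lit 1064) (nat_lit 0) (XT.nd (nat_lit 78) (nat_lit 456) (nat_lit 0) (XT.lf (nat_lit 0) (nat_lit 1576872919) (nat_lit 608) (nat_lit 3310095692) (nat_lit 76) (nat_lit 4352901400) (nat_lit 216) (nat_lit 5) (nat_lit 224) (nat_lit 5) (nat_lit 217) (nat_lit 5) (nat_lit 591) (nat_lit 506) (nat_lit 463)) (XT.lf (nat_lit 0) (nat_lit 3486724459) (nat_lit 456) (nat_lit 1458548684) (nat_lit 532) (nat_lit 4383379060) (nat_lit 210) (nat_lit 5) (nat_lit 216) (nat_lit 5) (nat_lit 217) (nat_lit 5) (nat_lit 592) (nat_lit 506) (nat_lit 462))) (XT.nd (nat_lit 78) (nat_lit 532) (nat_lit 0) (XT.lf (nat_lit 0) (nat_lit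 982742585) (nat_lit 532) (nat_lit 7396640057) (nat_lit 608) (nat_lit 1039865405) (nat_lit 203) (nat_lit 5) (nat_lit 210) (nat_lit 5) (nat_lit 211) (nat_lit 5) (nat_lit 593) (nat_lit 506) (nat_lit 461)) (XT.nd (nat_lit 78) (nat_lit 456) (nat_lit 0) (XT.lf (nat_lit 0) (nat_lit 2345078982) (nat_lit 608) (nat_lit 1575607296) (nat_lit 76) (nat_lit 5590553354) (nat_lit 202) (nat_lit 5) (nat_lit 210) (nat_lit 5) (nat_lit 203) (nat_lit 5) (nat_lit 594) (nat_lit 506) (nat_lit 460)) (XT.lf (nat_lit 0) (nat_lit 5425483534) (nat_lit 456) (nat_lit 350935098) (nat_lit 532) (nat_lit 3828667100) (nat_lit 196) (nat_lit 5) (nat_lit 202) (nat_lit 5) (nat_lit 203) (nat_lit 5) (nat_lit 595) (nat_lit 506) (nat_lit 459)))))) (XT.nd (nat_lit 312) (nat_lit 1672) (nat_lit 0) (XT.nd (nat_lit 156) (nat_lit 532) (nat_lit 0) (XT.nd (nat_lit 78) (nat_lit 532) (nat_lit 0) (XT.lf (nat_lit 0) (nat_lit 2841573917) (nat_lit 456) (nat_lit 6442966078)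 (nat_lit 532) (nat_lit 416110126) (nat_lit 190) (nat_lit 5) (nat_lit 196) (nat_lit 5) (nat_lit 197) (nat_lit 5) (nat_lit 596) (nat_lit 506) (nat_lit 458)) (XT.lf (nat_lit 0) (nat_lit 180445719) (nat_lit 456) (nat_lit 2833637435) (nat_lit 532) (nat_lit 6783857393) (nat_lit 183) (nat_lit 5) (nat_lit 189) (nat_lit 5) (nat_lit 190) (nat_lit 5) (nat_lit 597) (nat_lit 506) (nat_lit 457))) (XT.nd (nat_lit 78) (nat_lit 532) (nat_lit 0) (XT.lf (nat_lit 0) (nat_lit 6517302548) (nat_lit 532) (nat_lit 2513168990) (nat_lit 76) (nat_lit 866454564) (nat_lit 183) (nat_lit 5) (nat_lit 190) (nat_lit 5) (nat_lit 184) (nat_lit 5) (nat_lit 598) (nat_lit 506) (nat_lit 456)) (XT.lf (nat_lit 0) (nat_lit 99883687) (nat_lit 532) (nat_lit 5282928579) (nat_lit 76) (nat_lit 4614903021) (nat_lit 176) (nat_lit 5) (nat_lit 183) (nat_lit 5) (nat_lit 177) (nat_lit 5) (nat_lit 599) (nat_lit 506) (nat_lit 455)))) (XT.nd (nat_lit 156) (nat_lit 1292)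 (nat_lit 0) (XT.nd (nat_lit 78) (nat_lit 0) (nat_lit 0) (XT.lf (nat_lit 0) (nat_lit 1963431096) (nat_lit 380) (nat_lit 1629173824) (nat_lit 456) (nat_lit 6507694977) (nat_lit 171) (nat_lit 5) (nat_lit 176) (nat_lit 5) (nat_lit 177) (nat_lit 5) (nat_lit 600) (nat_lit 506) (nat_lit 454)) (XT.lf (nat_lit 0) (nat_lit 7164535422) (nat_lit 456) (nat_lit 853706369) (nat_lit 76) (nat_lit 2186511201) (nat_lit 171) (nat_lit 5) (nat_lit 177) (nat_lit 5) (nat_lit 172) (nat_lit 5) (nat_lit 601) (nat_lit 506) (nat_lit 453))) (XT.nd (nat_lit 78) (nat_lit 760) (nat_lit 0) (XT.lf (nat_lit 0) (nat_lit 503948226) (nat_lit 532) (nat_lit 3723662316) (nat_lit 76) (nat_lit 6083346817) (nat_lit 164) (nat_lit 5) (nat_lit 171) (nat_lit 5) (nat_lit 165) (nat_lit 5) (nat_lit 602) (nat_lit 506) (nat_lit 452)) (XT.nd (nat_lit 78) (nat_lit 380) (nat_lit 0) (XT.lf (nat_lit 0) (nat_lit 3738145134) (nat_lit 380) (nat_lit 330531664) (nat_lit 456)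 (nat_lit 6350403005) (nat_lit 159) (nat_lit 5) (nat_lit 164) (nat_lit 5) (nat_lit 165) (nat_lit 5) (nat_lit 603) (nat_lit 506) (nat_lit 451)) (XT.lf (nat_lit 0) (nat_lit 796936110) (nat_lit 380) (nat_lit 6922322776) (nat_lit 456) (nat_lit 2809818224) (nat_lit 154) (nat_lit 5) (nat_lit 159) (nat_lit 5) (nat_lit 160) (nat_lit 5) (nat_lit 604) (nat_lit 506) (nat_lit 450))))))) (XT.nd (nat_lit 702) (nat_lit 2280) (nat_lit 0) (XT.nd (nat_lit 312) (nat_lit 1368) (nat_lit 0) (XT.nd (nat_lit 156) (nat_lit 456) (nat_lit 0) (XT.nd (nat_lit 78) (nat_lit 380) (nat_lit 0) (XT.lf (nat_lit 0) (nat_lit 799073851) (nat_lit 456) (nat_lit 2193756676) (nat_lit 76) (nat_lit 7648183031) (nat_lit 153) (nat_lit 5) (nat_lit 159) (nat_lit 5) (nat_lit 154) (nat_lit 5) (nat_lit 605) (nat_lit 506) (nat_lit 449)) (XT.lf (nat_lit 0) (nat_lit 4446472122) (nat_lit 456) (nat_lit 5272338469) (nat_lit 76) (nat_lit 1035931036) (nat_lit 148) (nat_lit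 5) (nat_lit 154) (nat_lit 5) (nat_lit 149) (nat_lit 5) (nat_lit 606) (nat_lit 506) (nat_lit 448))) (XT.nd (nat_lit 78) (nat_lit 76) (nat_lit 0) (XT.lf (nat_lit 0) (nat_lit 2423574826) (nat_lit 380) (nat_lit 5755315476) (nat_lit 456) (nat_lit 2691615837) (nat_lit 143) (nat_lit 5) (nat_lit 148) (nat_lit 5) (nat_lit 149) (nat_lit 5) (nat_lit 607) (nat_lit 506) (nat_lit 447)) (XT.lf (nat_lit 0) (nat_lit 981714078) (nat_lit 456) (nat_lit 709498634) (nat_lit 76) (nat_lit 9297298429) (nat_lit 142) (nat_lit 5) (nat_lit 148) (nat_lit 5) (nat_lit 143) (nat_lit 5) (nat_lit 608) (nat_lit 506) (nat_lit 446)))) (XT.nd (nat_lit 156) (nat_lit 684) (nat_lit 0) (XT.nd (nat_lit 78) (nat_lit 380) (nat_lit 0) (XT.lf (nat_lit 0) (nat_lit 4718037713) (nat_lit 380) (nat_lit 3923877775) (nat_lit 76) (nat_lit 2466096693) (nat_lit 138) (nat_lit 5) (nat_lit 143) (nat_lit 5) (nat_lit 139) (nat_lit 5) (nat_lit 609) (nat_lit 506) (nat_lit 445))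 (XT.lf (nat_lit 0) (nat_lit 3997815605) (nat_lit 380) (nat_lit 4535998488) (nat_lit 456) (nat_lit 2695997691) (nat_lit 133) (nat_lit 5) (nat_lit 138) (nat_lit 5) (nat_lit 139) (nat_lit 5) (nat_lit 610) (nat_lit 506) (nat_lit 444))) (XT.nd (nat_lit 78) (nat_lit 304) (nat_lit 0) (XT.lf (nat_lit 0) (nat_lit 720990054) (nat_lit 304) (nat_lit 330878064) (nat_lit 380) (nat_lit 10302161682) (nat_lit 128) (nat_lit 5) (nat_lit 132) (nat_lit 5) (nat_lit 133) (nat_lit 5) (nat_lit 611) (nat_lit 506) (nat_lit 443)) (XT.nd (nat_lit 78) (nat_lit 304) (nat_lit 0) (XT.lf (nat_lit 0) (nat_lit 4876264198) (nat_lit 380) (nat_lit 2651722493) (nat_lit 76) (nat_lit 3951638515) (nat_lit 128) (nat_lit 5) (nat_lit 133) (nat_lit 5) (nat_lit 129) (nat_lit 5) (nat_lit 612) (nat_lit 506) (nat_lit 442)) (XT.lf (nat_lit 0) (nat_lit 5501186092) (nat_lit 304) (nat_lit 3277681019) (nat_lit 380) (nat_lit 2828833864) (nat_lit 124) (nat_lit 5) (nat_lit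 128) (nat_lit 5) (nat_lit 129) (nat_lit 5) (nat_lit 613) (nat_lit 506) (nat_lit 441)))))) (XT.nd (nat_lit 390) (nat_lit 1216) (nat_lit 0) (XT.nd (nat_lit 156) (nat_lit 684) (nat_lit 0) (XT.nd (nat_lit 78) (nat_lit 0) (nat_lit 0) (XT.lf (nat_lit 0) (nat_lit 1010073304) (nat_lit 380) (nat_lit 9667757509) (nat_lit 76) (nat_lit 1060331916) (nat_lit 119) (nat_lit 5) (nat_lit 124) (nat_lit 5) (nat_lit 120) (nat_lit 5) (nat_lit 614) (nat_lit 506) (nat_lit 440)) (XT.lf (nat_lit 0) (nat_lit 4914967940) (nat_lit 380) (nat_lit 1475773751) (nat_lit 76) (nat_lit 5479578977) (nat_lit 119) (nat_lit 5) (nat_lit 124) (nat_lit 5) (nat_lit 120) (nat_lit 5) (nat_lit 615) (nat_lit 506) (nat_lit 439))) (XT.nd (nat_lit 78) (nat_lit 380) (nat_lit 0) (XT.lf (nat_lit 0) (nat_lit 6913578525) (nat_lit 304) (nat_lit 1994069675) (nat_lit 380) (nat_lit 3097282427) (nat_lit 115) (nat_lit 5) (nat_lit 119) (nat_lit 5) (nat_lit 120) (nat_lit 5)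 (nat_lit 616) (nat_lit 506) (nat_lit 438)) (XT.nd (nat_lit 78) (nat_lit 0) (nat_lit 0) (XT.lf (nat_lit 0) (nat_lit 839706351) (nat_lit 380) (nat_lit 8828855935) (nat_lit 76) (nat_lit 2473309265) (nat_lit 110) (nat_lit 5) (nat_lit 115) (nat_lit 5) (nat_lit 111) (nat_lit 5) (nat_lit 617) (nat_lit 506) (nat_lit 437)) (XT.lf (nat_lit 0) (nat_lit 4826663041) (nat_lit 380) (nat_lit 417742139) (nat_lit 76) (nat_lit 7036485106) (nat_lit 110) (nat_lit 5) (nat_lit 115) (nat_lit 5) (nat_lit 111) (nat_lit 5) (nat_lit 618) (nat_lit 506) (nat_lit 436))))) (XT.nd (nat_lit 156) (nat_lit 608) (nat_lit 0) (XT.nd (nat_lit 78) (nat_lit 304) (nat_lit 0) (XT.lf (nat_lit 0) (nat_lit 8213019315) (nat_lit 304) (nat_lit 699413235) (nat_lit 380) (nat_lit 3509877788) (nat_lit 106) (nat_lit 5) (nat_lit 110) (nat_lit 5) (nat_lit 111) (nat_lit 5) (nat_lit 619) (nat_lit 506) (nat_lit 435)) (XT.lf (nat_lit 0) (nat_lit 529844669) (nat_lit 304)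 (nat_lit 8137942778) (nat_lit 76) (nat_lit 3898242631) (nat_lit 102) (nat_lit 5) (nat_lit 106) (nat_lit 5) (nat_lit 103) (nat_lit 5) (nat_lit 620) (nat_lit 506) (nat_lit 434))) (XT.nd (nat_lit 78) (nat_lit 304) (nat_lit 0) (XT.lf (nat_lit 0) (nat_lit 505234220) (nat_lit 304) (nat_lit 4100513152) (nat_lit 380) (nat_lit 8106367453) (nat_lit 98) (nat_lit 5) (nat_lit 102) (nat_lit 5) (nat_lit 103) (nat_lit 5) (nat_lit 621) (nat_lit 506) (nat_lit 433)) (XT.nd (nat_lit 78) (nat_lit 304) (nat_lit 0) (XT.lf (nat_lit 0) (nat_lit 8787912836) (nat_lit 380) (nat_lit 3489126913) (nat_lit 76) (nat_lit 583588857) (nat_lit 98) (nat_lit 5) (nat_lit 103) (nat_lit 5) (nat_lit 99) (nat_lit 5) (nat_lit 622) (nat_lit 506) (nat_lit 432)) (XT.lf (nat_lit 0) (nat_lit 70223528) (nat_lit 304) (nat_lit 7621055683) (nat_lit 76) (nat_lit 5320246988) (nat_lit 94) (nat_lit 5) (nat_lit 98) (nat_lit 5) (nat_lit 95) (nat_lit 5) (nat_lit 623) (nat_lit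 506) (nat_lit 431))))))))
noncomputable def xc41 : XT := (XT.nd (nat_lit 1482) (nat_lit 10716) (nat_lit 0) (XT.nd (nat_lit 702) (nat_lit 9804) (nat_lit 0) (XT.nd (nat_lit 312) (nat_lit 4484) (nat_lit 0) (XT.nd (nat_lit 156) (nat_lit 2584) (nat_lit 0) (XT.nd (nat_lit 78) (nat_lit 76) (nat_lit 0) (XT.lf (nat_lit 0) (nat_lit 649354777) (nat_lit 1140) (nat_lit 1367129031) (nat_lit 1140) (nat_lit 1367129031) (nat_lit 626) (nat_lit 4) (nat_lit 641) (nat_lit 5) (nat_lit 641) (nat_lit 4) (nat_lit 546) (nat_lit 507) (nat_lit 507)) (XT.lf (nat_lit 0) (nat_lit 583349786) (nat_lit 1216) (nat_lit 915040797) (nat_lit 76) (nat_lit 5294692467) (nat_lit 625) (nat_lit 5) (nat_lit 641) (nat_lit 5) (nat_lit 626) (nat_lit 4) (nat_lit 547) (nat_lit 507) (nat_lit 506))) (XT.nd (nat_lit 78) (nat_lit 1368) (nat_lit 0) (XT.lf (nat_lit 0) (nat_lit 3699581870) (nat_lit 1216) (nat_lit 184254466) (nat_lit 1292) (nat_lit 2936213505) (nat_lit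 609) (nat_lit 5) (nat_lit 625) (nat_lit 5) (nat_lit 626) (nat_lit 4) (nat_lit 548) (nat_lit 507) (nat_lit 505)) (XT.lf (nat_lit 0) (nat_lit 350894284) (nat_lit 1368) (nat_lit 5328336032) (nat_lit 76) (nat_lit 1169221211) (nat_lit 591) (nat_lit 5) (nat_lit 609) (nat_lit 5) (nat_lit 592) (nat_lit 4) (nat_lit 549) (nat_lit 507) (nat_lit 504)))) (XT.nd (nat_lit 156) (nat_lit 3116) (nat_lit 0) (XT.nd (nat_lit 78) (nat_lit 1368) (nat_lit 0) (XT.lf (nat_lit 0) (nat_lit 3617415667) (nat_lit 1368) (nat_lit 663947660) (nat_lit 76) (nat_lit 2596625561) (nat_lit 591) (nat_lit 5) (nat_lit 609) (nat_lit 5) (nat_lit 592) (nat_lit 4) (nat_lit 550) (nat_lit 507) (nat_lit 503)) (XT.lf (nat_lit 0) (nat_lit 4086588965) (nat_lit 1368) (nat_lit 2821222828) (nat_lit 1444) (nat_lit 1149564) (nat_lit 573) (nat_lit 5) (nat_lit 591) (nat_lit 5) (nat_lit 592) (nat_lit 4) (nat_lit 551) (nat_lit 507) (nat_lit 502))) (XT.nd (nat_lit 78) (nat_lit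 1596) (nat_lit 0) (XT.lf (nat_lit 0) (nat_lit 1943303220) (nat_lit 1444) (nat_lit 1286167754) (nat_lit 1520) (nat_lit 3711673471) (nat_lit 553) (nat_lit 5) (nat_lit 572) (nat_lit 5) (nat_lit 573) (nat_lit 5) (nat_lit 552) (nat_lit 507) (nat_lit 501)) (XT.nd (nat_lit 78) (nat_lit 1596) (nat_lit 0) (XT.lf (nat_lit 0) (nat_lit 6479028728) (nat_lit 1520) (nat_lit 195218618) (nat_lit 76) (nat_lit 300651262) (nat_lit 553) (nat_lit 5) (nat_lit 573) (nat_lit 5) (nat_lit 554) (nat_lit 4) (nat_lit 553) (nat_lit 507) (nat_lit 500)) (XT.lf (nat_lit 0) (nat_lit 2721314863) (nat_lit 1596) (nat_lit 2332256768) (nat_lit 76) (nat_lit 1955936870) (nat_lit 532) (nat_lit 5) (nat_lit 553) (nat_lit 5) (nat_lit 533) (nat_lit 5) (nat_lit 554) (nat_lit 507) (nat_lit 499)))))) (XT.nd (nat_lit 390) (nat_lit 2964) (nat_lit 0) (XT.nd (nat_lit 156) (nat_lit 3496) (nat_lit 0) (XT.nd (nat_lit 78) (nat_lit 1748) (nat_lit 0) (XT.lf (nat_lit 0)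 (nat_lit 2574018193) (nat_lit 1596) (nat_lit 3375432970) (nat_lit 1672) (nat_lit 1096242464) (nat_lit 511) (nat_lit 5) (nat_lit 532) (nat_lit 5) (nat_lit 533) (nat_lit 5) (nat_lit 555) (nat_lit 507) (nat_lit 498)) (XT.lf (nat_lit 0) (nat_lit 457676194) (nat_lit 1672) (nat_lit 1627922410) (nat_lit 1748) (nat_lit 4997648966) (nat_lit 488) (nat_lit 5) (nat_lit 510) (nat_lit 5) (nat_lit 511) (nat_lit 5) (nat_lit 556) (nat_lit 507) (nat_lit 497))) (XT.nd (nat_lit 78) (nat_lit 3496) (nat_lit 0) (XT.lf (nat_lit 0) (nat_lit 5284143729) (nat_lit 1748) (nat_lit 1646017542) (nat_lit 76) (nat_lit 191904240) (nat_lit 488) (nat_lit 5) (nat_lit 511) (nat_lit 5) (nat_lit 489) (nat_lit 5) (nat_lit 557) (nat_lit 507) (nat_lit 496)) (XT.nd (nat_lit 78) (nat_lit 1672) (nat_lit 0) (XT.lf (nat_lit 0) (nat_lit 1337287338) (nat_lit 1824) (nat_lit 3765648824) (nat_lit 76) (nat_lit 2059147028) (nat_lit 464) (nat_lit 5) (nat_lit 488) (nat_lit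 5) (nat_lit 465) (nat_lit 5) (nat_lit 558) (nat_lit 507) (nat_lit 495)) (XT.lf (nat_lit 0) (nat_lit 1302171478) (nat_lit 1672) (nat_lit 3206987350) (nat_lit 1748) (nat_lit 2694356084) (nat_lit 442) (nat_lit 5) (nat_lit 464) (nat_lit 5) (nat_lit 465) (nat_lit 5) (nat_lit 559) (nat_lit 507) (nat_lit 494))))) (XT.nd (nat_lit 156) (nat_lit 1900) (nat_lit 0) (XT.nd (nat_lit 78) (nat_lit 988) (nat_lit 0) (XT.lf (nat_lit 0) (nat_lit 456156993) (nat_lit 1748) (nat_lit 788731511) (nat_lit 76) (nat_lit 6001553465) (nat_lit 441) (nat_lit 5) (nat_lit 464) (nat_lit 5) (nat_lit 442) (nat_lit 5) (nat_lit 560) (nat_lit 507) (nat_lit 493)) (XT.lf (nat_lit 0) (nat_lit 3607220891) (nat_lit 1064) (nat_lit 2890892143) (nat_lit 76) (nat_lit 792297310) (nat_lit 428) (nat_lit 5) (nat_lit 442) (nat_lit 5) (nat_lit 429) (nat_lit 5) (nat_lit 561) (nat_lit 507) (nat_lit 492))) (XT.nd (nat_lit 78) (nat_lit 988) (nat_lit 0) (XT.lf (nat_lit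 0) (nat_lit 2327303116) (nat_lit 912) (nat_lit 4463235236) (nat_lit 988) (nat_lit 545346197) (nat_lit 416) (nat_lit 5) (nat_lit 428) (nat_lit 5) (nat_lit 429) (nat_lit 5) (nat_lit 562) (nat_lit 507) (nat_lit 491)) (XT.nd (nat_lit 78) (nat_lit 0) (nat_lit 0) (XT.lf (nat_lit 0) (nat_lit 230422149) (nat_lit 912) (nat_lit 2351947643) (nat_lit 988) (nat_lit 4800325528) (nat_lit 403) (nat_lit 5) (nat_lit 415) (nat_lit 5) (nat_lit 416) (nat_lit 5) (nat_lit 563) (nat_lit 507) (nat_lit 490)) (XT.lf (nat_lit 0) (nat_lit 5576448842) (nat_lit 912) (nat_lit 164154452) (nat_lit 988) (nat_lit 1690272077) (nat_lit 403) (nat_lit 5) (nat_lit 415) (nat_lit 5) (nat_lit 416) (nat_lit 5) (nat_lit 564) (nat_lit 507) (nat_lit 489))))))) (XT.nd (nat_lit 702) (nat_lit 4940) (nat_lit 0) (XT.nd (nat_lit 312) (nat_lit 3192) (nat_lit 0) (XT.nd (nat_lit 156) (nat_lit 836) (nat_lit 0) (XT.nd (nat_lit 78) (nat_lit 836) (nat_lit 0) (XT.lf (nat_lit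 0) (nat_lit 1441468195) (nat_lit 912) (nat_lit 3969713967) (nat_lit 76) (nat_lit 2069076037) (nat_lit 391) (nat_lit 5) (nat_lit 403) (nat_lit 5) (nat_lit 392) (nat_lit 5) (nat_lit 565) (nat_lit 507) (nat_lit 488)) (XT.lf (nat_lit 0) (nat_lit 1421589329) (nat_lit 836) (nat_lit 3157616862) (nat_lit 912) (nat_lit 2951888990) (nat_lit 380) (nat_lit 5) (nat_lit 391) (nat_lit 5) (nat_lit 392) (nat_lit 5) (nat_lit 566) (nat_lit 507) (nat_lit 487))) (XT.nd (nat_lit 78) (nat_lit 760) (nat_lit 0) (XT.lf (nat_lit 0) (nat_lit 164447864) (nat_lit 912) (nat_lit 671955502) (nat_lit 76) (nat_lit 6747123904) (nat_lit 379) (nat_lit 5) (nat_lit 391) (nat_lit 5) (nat_lit 380) (nat_lit 5) (nat_lit 567) (nat_lit 507) (nat_lit 486)) (XT.lf (nat_lit 0) (nat_lit 3289971129) (nat_lit 836) (nat_lit 2790233765) (nat_lit 76) (nat_lit 1556694451) (nat_lit 369) (nat_lit 5) (nat_lit 380) (nat_lit 5) (nat_lit 370) (nat_lit 5) (nat_lit 568) (nat_lit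 507) (nat_lit 485)))) (XT.nd (nat_lit 156) (nat_lit 1520) (nat_lit 0) (XT.nd (nat_lit 78) (nat_lit 836) (nat_lit 0) (XT.lf (nat_lit 0) (nat_lit 2762129356) (nat_lit 836) (nat_lit 3689109067) (nat_lit 912) (nat_lit 1240644879) (nat_lit 358) (nat_lit 5) (nat_lit 369) (nat_lit 5) (nat_lit 370) (nat_lit 5) (nat_lit 569) (nat_lit 507) (nat_lit 484)) (XT.lf (nat_lit 0) (nat_lit 649273747) (nat_lit 760) (nat_lit 1221799473) (nat_lit 836) (nat_lit 5877280309) (nat_lit 347) (nat_lit 5) (nat_lit 357) (nat_lit 5) (nat_lit 358) (nat_lit 5) (nat_lit 570) (nat_lit 507) (nat_lit 483))) (XT.nd (nat_lit 78) (nat_lit 1520) (nat_lit 0) (XT.lf (nat_lit 0) (nat_lit 5016277816) (nat_lit 836) (nat_lit 1478420087) (nat_lit 76) (nat_lit 1311342544) (nat_lit 347) (nat_lit 5) (nat_lit 358) (nat_lit 5) (nat_lit 348) (nat_lit 5) (nat_lit 571) (nat_lit 507) (nat_lit 482)) (XT.nd (nat_lit 78) (nat_lit 684) (nat_lit 0) (XT.lf (nat_lit 0) (nat_lit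 337488832) (nat_lit 836) (nat_lit 3627035351) (nat_lit 76) (nat_lit 3900664523) (nat_lit 336) (nat_lit 5) (nat_lit 347) (nat_lit 5) (nat_lit 337) (nat_lit 5) (nat_lit 572) (nat_lit 507) (nat_lit 481)) (XT.lf (nat_lit 0) (nat_lit 2110863614) (nat_lit 684) (nat_lit 1350274414) (nat_lit 760) (nat_lit 4464597034) (nat_lit 327) (nat_lit 5) (nat_lit 336) (nat_lit 5) (nat_lit 337) (nat_lit 5) (nat_lit 573) (nat_lit 507) (nat_lit 480)))))) (XT.nd (nat_lit 390) (nat_lit 2660) (nat_lit 0) (XT.nd (nat_lit 156) (nat_lit 1444) (nat_lit 0) (XT.nd (nat_lit 78) (nat_lit 836) (nat_lit 0) (XT.lf (nat_lit 0) (nat_lit 6628353805) (nat_lit 760) (nat_lit 45657819) (nat_lit 76) (nat_lit 1313866781) (nat_lit 327) (nat_lit 5) (nat_lit 337) (nat_lit 5) (nat_lit 328) (nat_lit 5) (nat_lit 574) (nat_lit 507) (nat_lit 479)) (XT.lf (nat_lit 0) (nat_lit 1779866441) (nat_lit 836) (nat_lit 2217806353) (nat_lit 76) (nat_lit 4053446221) (nat_lit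 316) (nat_lit 5) (nat_lit 327) (nat_lit 5) (nat_lit 317) (nat_lit 5) (nat_lit 575) (nat_lit 507) (nat_lit 478))) (XT.nd (nat_lit 78) (nat_lit 760) (nat_lit 0) (XT.lf (nat_lit 0) (nat_lit 3692606974) (nat_lit 684) (nat_lit 1244862144) (nat_lit 760) (nat_lit 3178510507) (nat_lit 307) (nat_lit 5) (nat_lit 316) (nat_lit 5) (nat_lit 317) (nat_lit 5) (nat_lit 576) (nat_lit 507) (nat_lit 477)) (XT.nd (nat_lit 78) (nat_lit 76) (nat_lit 0) (XT.lf (nat_lit 0) (nat_lit 1516889124) (nat_lit 684) (nat_lit 6626163256) (nat_lit 760) (nat_lit 39395828) (nat_lit 298) (nat_lit 5) (nat_lit 307) (nat_lit 5) (nat_lit 308) (nat_lit 5) (nat_lit 577) (nat_lit 507) (nat_lit 476)) (XT.lf (nat_lit 0) (nat_lit 3109245553) (nat_lit 760) (nat_lit 705181327) (nat_lit 76) (nat_lit 4435651239) (nat_lit 297) (nat_lit 5) (nat_lit 307) (nat_lit 5) (nat_lit 298) (nat_lit 5) (nat_lit 578) (nat_lit 507) (nat_lit 475))))) (XT.nd (nat_lit 156) (nat_lit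 1292) (nat_lit 0) (XT.nd (nat_lit 78) (nat_lit 760) (nat_lit 0) (XT.lf (nat_lit 0) (nat_lit 5383502419) (nat_lit 608) (nat_lit 922859402) (nat_lit 684) (nat_lit 2012979915) (nat_lit 289) (nat_lit 5) (nat_lit 297) (nat_lit 5) (nat_lit 298) (nat_lit 5) (nat_lit 579) (nat_lit 507) (nat_lit 474)) (XT.lf (nat_lit 0) (nat_lit 1152044997) (nat_lit 760) (nat_lit 5217364863) (nat_lit 76) (nat_lit 2020633362) (nat_lit 279) (nat_lit 5) (nat_lit 289) (nat_lit 5) (nat_lit 280) (nat_lit 5) (nat_lit 580) (nat_lit 507) (nat_lit 473))) (XT.nd (nat_lit 78) (nat_lit 684) (nat_lit 0) (XT.lf (nat_lit 0) (nat_lit 911805804) (nat_lit 608) (nat_lit 3425286143) (nat_lit 684) (nat_lit 4125133675) (nat_lit 271) (nat_lit 5) (nat_lit 279) (nat_lit 5) (nat_lit 280) (nat_lit 5) (nat_lit 581) (nat_lit 507) (nat_lit 472)) (XT.nd (nat_lit 78) (nat_lit 684) (nat_lit 0) (XT.lf (nat_lit 0) (nat_lit 7172713061) (nat_lit 608) (nat_lit 400470593) (nat_lit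 684) (nat_lit 962927520) (nat_lit 271) (nat_lit 5) (nat_lit 279) (nat_lit 5) (nat_lit 280) (nat_lit 5) (nat_lit 582) (nat_lit 507) (nat_lit 471)) (XT.lf (nat_lit 0) (nat_lit 2235502208) (nat_lit 684) (nat_lit 3692714917) (nat_lit 76) (nat_lit 2682916591) (nat_lit 262) (nat_lit 5) (nat_lit 271) (nat_lit 5) (nat_lit 263) (nat_lit 5) (nat_lit 583) (nat_lit 507) (nat_lit 470))))))))
noncomputable def xc42 : XT := (XT.nd (nat_lit 1482) (nat_lit 4788) (nat_lit 0) (XT.nd (nat_lit 702) (nat_lit 3420) (nat_lit 0) (XT.nd (nat_lit 312) (nat_lit 2204) (nat_lit 0) (XT.nd (nat_lit 156) (nat_lit 608) (nat_lit 0) (XT.nd (nat_lit 78) (nat_lit 608) (nat_lit 0) (XT.lf (nat_lit 0) (nat_lit 2620723622) (nat_lit 532) (nat_lit 2846561956) (nat_lit 608) (nat_lit 3220604271) (nat_lit 255) (nat_lit 5) (nat_lit 262) (nat_lit 5) (nat_lit 263) (nat_lit 5) (nat_lit 584) (nat_lit 507) (nat_lit 469)) (XT.lf (nat_lit 0) (nat_lit 284578777) (nat_lit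 608) (nat_lit 8461654178) (nat_lit 684) (nat_lit 20303479) (nat_lit 247) (nat_lit 5) (nat_lit 255) (nat_lit 5) (nat_lit 256) (nat_lit 5) (nat_lit 585) (nat_lit 507) (nat_lit 468))) (XT.nd (nat_lit 78) (nat_lit 532) (nat_lit 0) (XT.lf (nat_lit 0) (nat_lit 3215300931) (nat_lit 684) (nat_lit 2102598102) (nat_lit 76) (nat_lit 3528164470) (nat_lit 246) (nat_lit 5) (nat_lit 255) (nat_lit 5) (nat_lit 247) (nat_lit 5) (nat_lit 586) (nat_lit 507) (nat_lit 467)) (XT.lf (nat_lit 0) (nat_lit 4401078356) (nat_lit 532) (nat_lit 2097752357) (nat_lit 608) (nat_lit 2428683568) (nat_lit 239) (nat_lit 5) (nat_lit 246) (nat_lit 5) (nat_lit 247) (nat_lit 5) (nat_lit 587) (nat_lit 507) (nat_lit 466)))) (XT.nd (nat_lit 156) (nat_lit 1596) (nat_lit 0) (XT.nd (nat_lit 78) (nat_lit 0) (nat_lit 0) (XT.lf (nat_lit 0) (nat_lit 816643680) (nat_lit 608) (nat_lit 7005833113) (nat_lit 76) (nat_lit 1188210080) (nat_lit 231) (nat_lit 5) (nat_lit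 239) (nat_lit 5) (nat_lit 232) (nat_lit 5) (nat_lit 588) (nat_lit 507) (nat_lit 465)) (XT.lf (nat_lit 0) (nat_lit 4094338243) (nat_lit 608) (nat_lit 458411428) (nat_lit 76) (nat_lit 4542457793) (nat_lit 231) (nat_lit 5) (nat_lit 239) (nat_lit 5) (nat_lit 232) (nat_lit 5) (nat_lit 589) (nat_lit 507) (nat_lit 464))) (XT.nd (nat_lit 78) (nat_lit 1064) (nat_lit 0) (XT.lf (nat_lit 0) (nat_lit 6241578188) (nat_lit 532) (nat_lit 1192887992) (nat_lit 608) (nat_lit 1747019825) (nat_lit 224) (nat_lit 5) (nat_lit 231) (nat_lit 5) (nat_lit 232) (nat_lit 5) (nat_lit 590) (nat_lit 507) (nat_lit 463)) (XT.nd (nat_lit 78) (nat_lit 456) (nat_lit 0) (XT.lf (nat_lit 0) (nat_lit 1550181810) (nat_lit 608) (nat_lit 5492827116) (nat_lit 76) (nat_lit 2226304186) (nat_lit 216) (nat_lit 5) (nat_lit 224) (nat_lit 5) (nat_lit 217) (nat_lit 5) (nat_lit 591) (nat_lit 507) (nat_lit 462)) (XT.lf (nat_lit 0) (nat_lit 1244495146) (nat_lit 456)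 (nat_lit 3638183999) (nat_lit 532) (nat_lit 4476136610) (nat_lit 210) (nat_lit 5) (nat_lit 216) (nat_lit 5) (nat_lit 217) (nat_lit 5) (nat_lit 592) (nat_lit 507) (nat_lit 461)))))) (XT.nd (nat_lit 390) (nat_lit 1824) (nat_lit 0) (XT.nd (nat_lit 156) (nat_lit 988) (nat_lit 0) (XT.nd (nat_lit 78) (nat_lit 608) (nat_lit 0) (XT.lf (nat_lit 0) (nat_lit 8130637352) (nat_lit 456) (nat_lit 145385618) (nat_lit 532) (nat_lit 1174206290) (nat_lit 210) (nat_lit 5) (nat_lit 216) (nat_lit 5) (nat_lit 217) (nat_lit 5) (nat_lit 593) (nat_lit 507) (nat_lit 460)) (XT.lf (nat_lit 0) (nat_lit 2181718686) (nat_lit 608) (nat_lit 3955103695) (nat_lit 76) (nat_lit 3406033791) (nat_lit 202) (nat_lit 5) (nat_lit 210) (nat_lit 5) (nat_lit 203) (nat_lit 5) (nat_lit 594) (nat_lit 507) (nat_lit 459))) (XT.nd (nat_lit 78) (nat_lit 532) (nat_lit 0) (XT.lf (nat_lit 0) (nat_lit 2984220470) (nat_lit 456) (nat_lit 2592302902) (nat_lit 532) (nat_lit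 4060911809) (nat_lit 196) (nat_lit 5) (nat_lit 202) (nat_lit 5) (nat_lit 203) (nat_lit 5) (nat_lit 595) (nat_lit 507) (nat_lit 458)) (XT.nd (nat_lit 78) (nat_lit 76) (nat_lit 0) (XT.lf (nat_lit 0) (nat_lit 319530839) (nat_lit 456) (nat_lit 8713656742) (nat_lit 532) (nat_lit 700843301) (nat_lit 190) (nat_lit 5) (nat_lit 196) (nat_lit 5) (nat_lit 197) (nat_lit 5) (nat_lit 596) (nat_lit 507) (nat_lit 457)) (XT.lf (nat_lit 0) (nat_lit 2711455789) (nat_lit 532) (nat_lit 2405479178) (nat_lit 76) (nat_lit 4714857968) (nat_lit 189) (nat_lit 5) (nat_lit 196) (nat_lit 5) (nat_lit 190) (nat_lit 5) (nat_lit 597) (nat_lit 507) (nat_lit 456))))) (XT.nd (nat_lit 156) (nat_lit 912) (nat_lit 0) (XT.nd (nat_lit 78) (nat_lit 456) (nat_lit 0) (XT.lf (nat_lit 0) (nat_lit 4741893127) (nat_lit 456) (nat_lit 1431006958) (nat_lit 532) (nat_lit 3758715951) (nat_lit 183) (nat_lit 5) (nat_lit 189) (nat_lit 5) (nat_lit 190) (nat_lit 5) (nat_lit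 598) (nat_lit 507) (nat_lit 455)) (XT.lf (nat_lit 0) (nat_lit 1982814809) (nat_lit 456) (nat_lit 7724776196) (nat_lit 532) (nat_lit 325768281) (nat_lit 177) (nat_lit 5) (nat_lit 183) (nat_lit 5) (nat_lit 184) (nat_lit 5) (nat_lit 599) (nat_lit 507) (nat_lit 454))) (XT.nd (nat_lit 78) (nat_lit 836) (nat_lit 0) (XT.lf (nat_lit 0) (nat_lit 3138632114) (nat_lit 532) (nat_lit 857431973) (nat_lit 76) (nat_lit 6140575904) (nat_lit 176) (nat_lit 5) (nat_lit 183) (nat_lit 5) (nat_lit 177) (nat_lit 5) (nat_lit 600) (nat_lit 507) (nat_lit 453)) (XT.nd (nat_lit 78) (nat_lit 456) (nat_lit 0) (XT.lf (nat_lit 0) (nat_lit 6504044664) (nat_lit 380) (nat_lit 166844692) (nat_lit 456) (nat_lit 3570999082) (nat_lit 171) (nat_lit 5) (nat_lit 176) (nat_lit 5) (nat_lit 177) (nat_lit 5) (nat_lit 601) (nat_lit 507) (nat_lit 452)) (XT.lf (nat_lit 0) (nat_lit 3639755987) (nat_lit 456) (nat_lit 6648700188) (nat_lit 532) (nat_lit 60496128)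 (nat_lit 165) (nat_lit 5) (nat_lit 171) (nat_lit 5) (nat_lit 172) (nat_lit 5) (nat_lit 602) (nat_lit 507) (nat_lit 451))))))) (XT.nd (nat_lit 702) (nat_lit 2280) (nat_lit 0) (XT.nd (nat_lit 312) (nat_lit 1216) (nat_lit 0) (XT.nd (nat_lit 156) (nat_lit 836) (nat_lit 0) (XT.nd (nat_lit 78) (nat_lit 0) (nat_lit 0) (XT.lf (nat_lit 0) (nat_lit 683713794) (nat_lit 380) (nat_lit 2782218705) (nat_lit 456) (nat_lit 6991933748) (nat_lit 159) (nat_lit 5) (nat_lit 164) (nat_lit 5) (nat_lit 165) (nat_lit 5) (nat_lit 603) (nat_lit 507) (nat_lit 450)) (XT.lf (nat_lit 0) (nat_lit 7076284850) (nat_lit 456) (nat_lit 2320172549) (nat_lit 76) (nat_lit 1172212493) (nat_lit 159) (nat_lit 5) (nat_lit 165) (nat_lit 5) (nat_lit 160) (nat_lit 5) (nat_lit 604) (nat_lit 507) (nat_lit 449))) (XT.nd (nat_lit 78) (nat_lit 380) (nat_lit 0) (XT.lf (nat_lit 0) (nat_lit 91014817) (nat_lit 456) (nat_lit 5406483493) (nat_lit 76) (nat_lit 5183887226)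 (nat_lit 153) (nat_lit 5) (nat_lit 159) (nat_lit 5) (nat_lit 154) (nat_lit 5) (nat_lit 605) (nat_lit 507) (nat_lit 448)) (XT.lf (nat_lit 0) (nat_lit 2204707103) (nat_lit 380) (nat_lit 1486859811) (nat_lit 456) (nat_lit 7104485257) (nat_lit 148) (nat_lit 5) (nat_lit 153) (nat_lit 5) (nat_lit 154) (nat_lit 5) (nat_lit 606) (nat_lit 507) (nat_lit 447)))) (XT.nd (nat_lit 156) (nat_lit 760) (nat_lit 0) (XT.nd (nat_lit 78) (nat_lit 456) (nat_lit 0) (XT.lf (nat_lit 0) (nat_lit 7380006202) (nat_lit 456) (nat_lit 946522429) (nat_lit 76) (nat_lit 2586169239) (nat_lit 148) (nat_lit 5) (nat_lit 154) (nat_lit 5) (nat_lit 149) (nat_lit 5) (nat_lit 607) (nat_lit 507) (nat_lit 446)) (XT.lf (nat_lit 0) (nat_lit 126865219) (nat_lit 456) (nat_lit 4158004962) (nat_lit 76) (nat_lit 6746439534) (nat_lit 142) (nat_lit 5) (nat_lit 148) (nat_lit 5) (nat_lit 143) (nat_lit 5) (nat_lit 608) (nat_lit 507) (nat_lit 445))) (XT.nd (nat_lit 78)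 (nat_lit 456) (nat_lit 0) (XT.lf (nat_lit 0) (nat_lit 3677522872) (nat_lit 304) (nat_lit 128394882) (nat_lit 380) (nat_lit 7346039941) (nat_lit 138) (nat_lit 5) (nat_lit 142) (nat_lit 5) (nat_lit 143) (nat_lit 5) (nat_lit 609) (nat_lit 507) (nat_lit 444)) (XT.nd (nat_lit 78) (nat_lit 76) (nat_lit 0) (XT.lf (nat_lit 0) (nat_lit 371983912) (nat_lit 380) (nat_lit 7207269422) (nat_lit 456) (nat_lit 3695354269) (nat_lit 133) (nat_lit 5) (nat_lit 138) (nat_lit 5) (nat_lit 139) (nat_lit 5) (nat_lit 610) (nat_lit 507) (nat_lit 443)) (XT.lf (nat_lit 0) (nat_lit 42921364) (nat_lit 456) (nat_lit 2981212709) (nat_lit 76) (nat_lit 8375276684) (nat_lit 132) (nat_lit 5) (nat_lit 138) (nat_lit 5) (nat_lit 133) (nat_lit 5) (nat_lit 611) (nat_lit 507) (nat_lit 442)))))) (XT.nd (nat_lit 390) (nat_lit 988) (nat_lit 0) (XT.nd (nat_lit 156) (nat_lit 684) (nat_lit 0) (XT.nd (nat_lit 78) (nat_lit 304) (nat_lit 0) (XT.lf (nat_lit 0) (nat_lit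 3812172225) (nat_lit 380) (nat_lit 6450410245) (nat_lit 76) (nat_lit 1263528000) (nat_lit 128) (nat_lit 5) (nat_lit 133) (nat_lit 5) (nat_lit 129) (nat_lit 5) (nat_lit 612) (nat_lit 507) (nat_lit 441)) (XT.lf (nat_lit 0) (nat_lit 1623495343) (nat_lit 304) (nat_lit 6048538859) (nat_lit 380) (nat_lit 3983008231) (nat_lit 124) (nat_lit 5) (nat_lit 128) (nat_lit 5) (nat_lit 129) (nat_lit 5) (nat_lit 613) (nat_lit 507) (nat_lit 440))) (XT.nd (nat_lit 78) (nat_lit 684) (nat_lit 0) (XT.lf (nat_lit 0) (nat_lit 9889834405) (nat_lit 304) (nat_lit 1727393553) (nat_lit 380) (nat_lit 169165109) (nat_lit 124) (nat_lit 5) (nat_lit 128) (nat_lit 5) (nat_lit 129) (nat_lit 5) (nat_lit 614) (nat_lit 507) (nat_lit 439)) (XT.nd (nat_lit 78) (nat_lit 304) (nat_lit 0) (XT.lf (nat_lit 0) (nat_lit 3696747134) (nat_lit 380) (nat_lit 5532314539) (nat_lit 76) (nat_lit 2690336615) (nat_lit 119) (nat_lit 5) (nat_lit 124) (nat_lit 5) (nat_lit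 120) (nat_lit 5) (nat_lit 615) (nat_lit 507) (nat_lit 438)) (XT.lf (nat_lit 0) (nat_lit 2775025457) (nat_lit 304) (nat_lit 4870447739) (nat_lit 380) (nat_lit 4409415406) (nat_lit 115) (nat_lit 5) (nat_lit 119) (nat_lit 5) (nat_lit 120) (nat_lit 5) (nat_lit 616) (nat_lit 507) (nat_lit 437))))) (XT.nd (nat_lit 156) (nat_lit 608) (nat_lit 0) (XT.nd (nat_lit 78) (nat_lit 380) (nat_lit 0) (XT.lf (nat_lit 0) (nat_lit 11267849297) (nat_lit 304) (nat_lit 408254923) (nat_lit 380) (nat_lit 516928408) (nat_lit 115) (nat_lit 5) (nat_lit 119) (nat_lit 5) (nat_lit 120) (nat_lit 5) (nat_lit 617) (nat_lit 507) (nat_lit 436)) (XT.lf (nat_lit 0) (nat_lit 3451074402) (nat_lit 380) (nat_lit 4741338144) (nat_lit 76) (nat_lit 4140221807) (nat_lit 110) (nat_lit 5) (nat_lit 115) (nat_lit 5) (nat_lit 111) (nat_lit 5) (nat_lit 618) (nat_lit 507) (nat_lit 435))) (XT.nd (nat_lit 78) (nat_lit 304) (nat_lit 0) (XT.lf (nat_lit 0) (nat_lit 3804282066)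 (nat_lit 304) (nat_lit 3687314083) (nat_lit 380) (nat_lit 4983364386) (nat_lit 106) (nat_lit 5) (nat_lit 110) (nat_lit 5) (nat_lit 111) (nat_lit 5) (nat_lit 619) (nat_lit 507) (nat_lit 434)) (XT.nd (nat_lit 78) (nat_lit 304) (nat_lit 0) (XT.lf (nat_lit 0) (nat_lit 11617433986) (nat_lit 380) (nat_lit 95868459) (nat_lit 76) (nat_lit 906743005) (nat_lit 106) (nat_lit 5) (nat_lit 111) (nat_lit 5) (nat_lit 107) (nat_lit 5) (nat_lit 620) (nat_lit 507) (nat_lit 433)) (XT.lf (nat_lit 0) (nat_lit 3066020566) (nat_lit 304) (nat_lit 4101577678) (nat_lit 76) (nat_lit 5599071653) (nat_lit 102) (nat_lit 5) (nat_lit 106) (nat_lit 5) (nat_lit 103) (nat_lit 5) (nat_lit 621) (nat_lit 507) (nat_lit 432))))))))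
noncomputable def xc43 : XT := (XT.nd (nat_lit 76440) (nat_lit 0) (nat_lit 14744) (XT.nd (nat_lit 75660) (nat_lit 0) (nat_lit 26296) (XT.nd (nat_lit 75270) (nat_lit 0) (nat_lit 37696) (XT.nd (nat_lit 75114) (nat_lit 0) (nat_lit 41496) (XT.nd (nat_lit 78) (nat_lit 228) (nat_lit 0) (XT.lf (nat_lit 0) (nat_lit 4686837044) (nat_lit 304) (nat_lit 2514167254) (nat_lit 380) (nat_lit 5715124098) (nat_lit 98) (nat_lit 5) (nat_lit 102) (nat_lit 5) (nat_lit 103) (nat_lit 5) (nat_lit 622) (nat_lit 507) (nat_lit 431)) (XT.lf (nat_lit 0) (nat_lit 576986050) (nat_lit 228) (nat_lit 10855111663) (nat_lit 304) (nat_lit 1636212299) (nat_lit 95) (nat_lit 5) (nat_lit 98) (nat_lit 5) (nat_lit 99) (nat_lit 5) (nat_lit 623) (nat_lit 507) (nat_lit 430))) (XT.nd (nat_lit 78) (nat_lit 1140) (nat_lit 0) (XT.lf (nat_lit 0) (nat_lit 2899384471) (nat_lit 988) (nat_lit 230099857) (nat_lit 988) (nat_lit 230099857) (nat_lit 656) (nat_lit 4) (nat_lit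 669) (nat_lit 5) (nat_lit 669) (nat_lit 4) (nat_lit 544) (nat_lit 508) (nat_lit 508)) (XT.lf (nat_lit 0) (nat_lit 2833354778) (nat_lit 1140) (nat_lit 3211368969) (nat_lit 0) (nat_lit 698079264) (nat_lit 641) (nat_lit 5) (nat_lit 656) (nat_lit 4) (nat_lit 641) (nat_lit 4) (nat_lit 545) (nat_lit 508) (nat_lit 507)))) (XT.nd (nat_lit 156) (nat_lit 2584) (nat_lit 0) (XT.nd (nat_lit 78) (nat_lit 76) (nat_lit 0) (XT.lf (nat_lit 0) (nat_lit 1268727494) (nat_lit 1140) (nat_lit 4863950435) (nat_lit 1140) (nat_lit 635267555) (nat_lit 626) (nat_lit 4) (nat_lit 641) (nat_lit 5) (nat_lit 641) (nat_lit 4) (nat_lit 546) (nat_lit 508) (nat_lit 506)) (XT.lf (nat_lit 0) (nat_lit 2619704674) (nat_lit 1216) (nat_lit 989239601) (nat_lit 76) (nat_lit 3185296330) (nat_lit 625) (nat_lit 5) (nat_lit 641) (nat_lit 5) (nat_lit 626) (nat_lit 4) (nat_lit 547) (nat_lit 508) (nat_lit 505))) (XT.nd (nat_lit 78) (nat_lit 1368) (nat_lit 0) (XT.lf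 (nat_lit 0) (nat_lit 3594724608) (nat_lit 1216) (nat_lit 2290367203) (nat_lit 1292) (nat_lit 936825584) (nat_lit 609) (nat_lit 5) (nat_lit 625) (nat_lit 5) (nat_lit 626) (nat_lit 4) (nat_lit 548) (nat_lit 508) (nat_lit 504)) (XT.nd (nat_lit 78) (nat_lit 0) (nat_lit 0) (XT.lf (nat_lit 0) (nat_lit 1376719531) (nat_lit 1292) (nat_lit 904501052) (nat_lit 1368) (nat_lit 4569703357) (nat_lit 591) (nat_lit 5) (nat_lit 608) (nat_lit 5) (nat_lit 609) (nat_lit 5) (nat_lit 549) (nat_lit 508) (nat_lit 503)) (XT.lf (nat_lit 0) (nat_lit 5508211657) (nat_lit 1368) (nat_lit 834010676) (nat_lit 76) (nat_lit 539037122) (nat_lit 591) (nat_lit 5) (nat_lit 609) (nat_lit 5) (nat_lit 592) (nat_lit 4) (nat_lit 550) (nat_lit 508) (nat_lit 502)))))) (XT.nd (nat_lit 390) (nat_lit 5244) (nat_lit 0) (XT.nd (nat_lit 156) (nat_lit 3268) (nat_lit 0) (XT.nd (nat_lit 78) (nat_lit 1444) (nat_lit 0) (XT.lf (nat_lit 0) (nat_lit 1827090672) (nat_lit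 1444) (nat_lit 3040549417) (nat_lit 76) (nat_lit 2045045039) (nat_lit 572) (nat_lit 5) (nat_lit 591) (nat_lit 5) (nat_lit 573) (nat_lit 5) (nat_lit 551) (nat_lit 508) (nat_lit 501)) (XT.lf (nat_lit 0) (nat_lit 1692097831) (nat_lit 1444) (nat_lit 3331203798) (nat_lit 1520) (nat_lit 1922261441) (nat_lit 553) (nat_lit 5) (nat_lit 572) (nat_lit 5) (nat_lit 573) (nat_lit 5) (nat_lit 552) (nat_lit 508) (nat_lit 500))) (XT.nd (nat_lit 78) (nat_lit 3192) (nat_lit 0) (XT.lf (nat_lit 0) (nat_lit 1242052345) (nat_lit 1520) (nat_lit 487220020) (nat_lit 76) (nat_lit 5250574230) (nat_lit 552) (nat_lit 5) (nat_lit 572) (nat_lit 5) (nat_lit 553) (nat_lit 5) (nat_lit 553) (nat_lit 508) (nat_lit 499)) (XT.nd (nat_lit 78) (nat_lit 1672) (nat_lit 0) (XT.lf (nat_lit 0) (nat_lit 4359442571) (nat_lit 1520) (nat_lit 48369729) (nat_lit 1596) (nat_lit 2607484929) (nat_lit 532) (nat_lit 5) (nat_lit 552) (nat_lit 5) (nat_lit 553) (nat_lit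 5) (nat_lit 554) (nat_lit 508) (nat_lit 498)) (XT.lf (nat_lit 0) (nat_lit 542486296) (nat_lit 1672) (nat_lit 4839537520) (nat_lit 76) (nat_lit 1670075378) (nat_lit 510) (nat_lit 5) (nat_lit 532) (nat_lit 5) (nat_lit 511) (nat_lit 5) (nat_lit 555) (nat_lit 508) (nat_lit 497))))) (XT.nd (nat_lit 156) (nat_lit 3572) (nat_lit 0) (XT.nd (nat_lit 78) (nat_lit 0) (nat_lit 0) (XT.lf (nat_lit 0) (nat_lit 47249194) (nat_lit 1672) (nat_lit 3628803158) (nat_lit 1748) (nat_lit 3414142704) (nat_lit 488) (nat_lit 5) (nat_lit 510) (nat_lit 5) (nat_lit 511) (nat_lit 5) (nat_lit 556) (nat_lit 508) (nat_lit 496)) (XT.lf (nat_lit 0) (nat_lit 5037041983) (nat_lit 1672) (nat_lit 1805478626) (nat_lit 1748) (nat_lit 287140116) (nat_lit 488) (nat_lit 5) (nat_lit 510) (nat_lit 5) (nat_lit 511) (nat_lit 5) (nat_lit 557) (nat_lit 508) (nat_lit 495))) (XT.nd (nat_lit 78) (nat_lit 1748) (nat_lit 0) (XT.lf (nat_lit 0) (nat_lit 2822442116) (nat_lit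 1824) (nat_lit 4254873464) (nat_lit 76) (nat_lit 93073164) (nat_lit 464) (nat_lit 5) (nat_lit 488) (nat_lit 5) (nat_lit 465) (nat_lit 5) (nat_lit 558) (nat_lit 508) (nat_lit 494)) (XT.nd (nat_lit 78) (nat_lit 76) (nat_lit 0) (XT.lf (nat_lit 0) (nat_lit 775939836) (nat_lit 1672) (nat_lit 5184949165) (nat_lit 1748) (nat_lit 1251605793) (nat_lit 442) (nat_lit 5) (nat_lit 464) (nat_lit 5) (nat_lit 465) (nat_lit 5) (nat_lit 559) (nat_lit 508) (nat_lit 493)) (XT.lf (nat_lit 0) (nat_lit 1850169845) (nat_lit 1748) (nat_lit 1363619486) (nat_lit 76) (nat_lit 4042047094) (nat_lit 441) (nat_lit 5) (nat_lit 464) (nat_lit 5) (nat_lit 442) (nat_lit 5) (nat_lit 560) (nat_lit 508) (nat_lit 492))))))) (XT.nd (nat_lit 702) (nat_lit 5244) (nat_lit 0) (XT.nd (nat_lit 312) (nat_lit 3420) (nat_lit 0) (XT.nd (nat_lit 156) (nat_lit 912) (nat_lit 0) (XT.nd (nat_lit 78) (nat_lit 988) (nat_lit 0) (XT.lf (nat_lit 0) (nat_lit 3792197244) (nat_lit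 988) (nat_lit 1170615473) (nat_lit 1064) (nat_lit 2337766002) (nat_lit 428) (nat_lit 5) (nat_lit 441) (nat_lit 5) (nat_lit 442) (nat_lit 5) (nat_lit 561) (nat_lit 508) (nat_lit 491)) (XT.lf (nat_lit 0) (nat_lit 748644879) (nat_lit 988) (nat_lit 5672985186) (nat_lit 76) (nat_lit 925143035) (nat_lit 415) (nat_lit 5) (nat_lit 428) (nat_lit 5) (nat_lit 416) (nat_lit 5) (nat_lit 562) (nat_lit 508) (nat_lit 490))) (XT.nd (nat_lit 78) (nat_lit 912) (nat_lit 0) (XT.lf (nat_lit 0) (nat_lit 3839036550) (nat_lit 988) (nat_lit 470830039) (nat_lit 76) (nat_lit 3084255090) (nat_lit 415) (nat_lit 5) (nat_lit 428) (nat_lit 5) (nat_lit 416) (nat_lit 5) (nat_lit 563) (nat_lit 508) (nat_lit 489)) (XT.lf (nat_lit 0) (nat_lit 4838853159) (nat_lit 912) (nat_lit 2127010306) (nat_lit 988) (nat_lit 477071477) (nat_lit 403) (nat_lit 5) (nat_lit 415) (nat_lit 5) (nat_lit 416) (nat_lit 5) (nat_lit 564) (nat_lit 508) (nat_lit 488)))) (XT.nd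 (nat_lit 156) (nat_lit 1672) (nat_lit 0) (XT.nd (nat_lit 78) (nat_lit 836) (nat_lit 0) (XT.lf (nat_lit 0) (nat_lit 2592895664) (nat_lit 912) (nat_lit 4767413567) (nat_lit 76) (nat_lit 132773120) (nat_lit 391) (nat_lit 5) (nat_lit 403) (nat_lit 5) (nat_lit 392) (nat_lit 5) (nat_lit 565) (nat_lit 508) (nat_lit 487)) (XT.lf (nat_lit 0) (nat_lit 582667974) (nat_lit 836) (nat_lit 5114917850) (nat_lit 912) (nat_lit 1846999252) (nat_lit 380) (nat_lit 5) (nat_lit 391) (nat_lit 5) (nat_lit 392) (nat_lit 5) (nat_lit 566) (nat_lit 508) (nat_lit 486))) (XT.nd (nat_lit 78) (nat_lit 1596) (nat_lit 0) (XT.lf (nat_lit 0) (nat_lit 1227406931) (nat_lit 912) (nat_lit 1561930032) (nat_lit 76) (nat_lit 4808090127) (nat_lit 379) (nat_lit 5) (nat_lit 391) (nat_lit 5) (nat_lit 380) (nat_lit 5) (nat_lit 567) (nat_lit 508) (nat_lit 485)) (XT.nd (nat_lit 78) (nat_lit 836) (nat_lit 0) (XT.lf (nat_lit 0) (nat_lit 3925120326) (nat_lit 760)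 (nat_lit 384615545) (nat_lit 836) (nat_lit 3341931692) (nat_lit 369) (nat_lit 5) (nat_lit 379) (nat_lit 5) (nat_lit 380) (nat_lit 5) (nat_lit 568) (nat_lit 508) (nat_lit 484)) (XT.lf (nat_lit 0) (nat_lit 1785389151) (nat_lit 836) (nat_lit 5650189019) (nat_lit 912) (nat_lit 271786272) (nat_lit 358) (nat_lit 5) (nat_lit 369) (nat_lit 5) (nat_lit 370) (nat_lit 5) (nat_lit 569) (nat_lit 508) (nat_lit 483)))))) (XT.nd (nat_lit 390) (nat_lit 2888) (nat_lit 0) (XT.nd (nat_lit 156) (nat_lit 1520) (nat_lit 0) (XT.nd (nat_lit 78) (nat_lit 760) (nat_lit 0) (XT.lf (nat_lit 0) (nat_lit 2796572273) (nat_lit 912) (nat_lit 388024671) (nat_lit 76) (nat_lit 4579729223) (nat_lit 357) (nat_lit 5) (nat_lit 369) (nat_lit 5) (nat_lit 358) (nat_lit 5) (nat_lit 570) (nat_lit 508) (nat_lit 482)) (XT.lf (nat_lit 0) (nat_lit 5263892990) (nat_lit 760) (nat_lit 640589675) (nat_lit 836) (nat_lit 1918280471) (nat_lit 347) (nat_lit 5) (nat_lit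 357) (nat_lit 5) (nat_lit 358) (nat_lit 5) (nat_lit 571) (nat_lit 508) (nat_lit 481))) (XT.nd (nat_lit 78) (nat_lit 684) (nat_lit 0) (XT.lf (nat_lit 0) (nat_lit 1160227362) (nat_lit 836) (nat_lit 4770882157) (nat_lit 76) (nat_lit 1951438996) (nat_lit 336) (nat_lit 5) (nat_lit 347) (nat_lit 5) (nat_lit 337) (nat_lit 5) (nat_lit 572) (nat_lit 508) (nat_lit 480)) (XT.nd (nat_lit 78) (nat_lit 0) (nat_lit 0) (XT.lf (nat_lit 0) (nat_lit 921296551) (nat_lit 684) (nat_lit 3329366788) (nat_lit 760) (nat_lit 3693099724) (nat_lit 327) (nat_lit 5) (nat_lit 336) (nat_lit 5) (nat_lit 337) (nat_lit 5) (nat_lit 573) (nat_lit 508) (nat_lit 479)) (XT.lf (nat_lit 0) (nat_lit 6731549541) (nat_lit 684) (nat_lit 652501488) (nat_lit 760) (nat_lit 622535788) (nat_lit 327) (nat_lit 5) (nat_lit 336) (nat_lit 5) (nat_lit 337) (nat_lit 5) (nat_lit 574) (nat_lit 508) (nat_lit 478))))) (XT.nd (nat_lit 156) (nat_lit 1368) (nat_lit 0) (XT.nd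 (nat_lit 78) (nat_lit 684) (nat_lit 0) (XT.lf (nat_lit 0) (nat_lit 2469726089) (nat_lit 836) (nat_lit 3513423366) (nat_lit 76) (nat_lit 2087335241) (nat_lit 316) (nat_lit 5) (nat_lit 327) (nat_lit 5) (nat_lit 317) (nat_lit 5) (nat_lit 575) (nat_lit 508) (nat_lit 477)) (XT.lf (nat_lit 0) (nat_lit 2349438188) (nat_lit 684) (nat_lit 3244576341) (nat_lit 760) (nat_lit 2542000691) (nat_lit 307) (nat_lit 5) (nat_lit 316) (nat_lit 5) (nat_lit 317) (nat_lit 5) (nat_lit 576) (nat_lit 508) (nat_lit 476))) (XT.nd (nat_lit 78) (nat_lit 608) (nat_lit 0) (XT.lf (nat_lit 0) (nat_lit 111616410) (nat_lit 684) (nat_lit 433767013) (nat_lit 760) (nat_lit 7657904314) (nat_lit 297) (nat_lit 5) (nat_lit 306) (nat_lit 5) (nat_lit 307) (nat_lit 5) (nat_lit 577) (nat_lit 508) (nat_lit 475)) (XT.nd (nat_lit 78) (nat_lit 608) (nat_lit 0) (XT.lf (nat_lit 0) (nat_lit 3666471922) (nat_lit 760) (nat_lit 2159052986) (nat_lit 76) (nat_lit 2445931769)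 (nat_lit 297) (nat_lit 5) (nat_lit 307) (nat_lit 5) (nat_lit 298) (nat_lit 5) (nat_lit 578) (nat_lit 508) (nat_lit 474)) (XT.lf (nat_lit 0) (nat_lit 3880189110) (nat_lit 608) (nat_lit 2949893576) (nat_lit 684) (nat_lit 1511311069) (nat_lit 289) (nat_lit 5) (nat_lit 297) (nat_lit 5) (nat_lit 298) (nat_lit 5) (nat_lit 579) (nat_lit 508) (nat_lit 473))))))))
noncomputable def xc44 : XT := (XT.nd (nat_lit 1482) (nat_lit 5168) (nat_lit 0) (XT.nd (nat_lit 702) (nat_lit 4180) (nat_lit 0) (XT.nd (nat_lit 312) (nat_lit 1824) (nat_lit 0) (XT.nd (nat_lit 156) (nat_lit 1292) (nat_lit 0) (XT.nd (nat_lit 78) (nat_lit 0) (nat_lit 0) (XT.lf (nat_lit 0) (nat_lit 1600003911) (nat_lit 760) (nat_lit 6805965920) (nat_lit 76) (nat_lit 7006097) (nat_lit 279) (nat_lit 5) (nat_lit 289) (nat_lit 5) (nat_lit 280) (nat_lit 5) (nat_lit 580) (nat_lit 508) (nat_lit 472)) (XT.lf (nat_lit 0) (nat_lit 4755730964) (nat_lit 760) (nat_lit 718833988)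 (nat_lit 76) (nat_lit 3011182933) (nat_lit 279) (nat_lit 5) (nat_lit 289) (nat_lit 5) (nat_lit 280) (nat_lit 5) (nat_lit 581) (nat_lit 508) (nat_lit 471))) (XT.nd (nat_lit 78) (nat_lit 684) (nat_lit 0) (XT.lf (nat_lit 0) (nat_lit 5502638000) (nat_lit 608) (nat_lit 2461320454) (nat_lit 684) (nat_lit 596235364) (nat_lit 271) (nat_lit 5) (nat_lit 279) (nat_lit 5) (nat_lit 280) (nat_lit 5) (nat_lit 582) (nat_lit 508) (nat_lit 470)) (XT.lf (nat_lit 0) (nat_lit 2549710528) (nat_lit 684) (nat_lit 5453033823) (nat_lit 76) (nat_lit 633380861) (nat_lit 262) (nat_lit 5) (nat_lit 271) (nat_lit 5) (nat_lit 263) (nat_lit 5) (nat_lit 583) (nat_lit 508) (nat_lit 469)))) (XT.nd (nat_lit 156) (nat_lit 1216) (nat_lit 0) (XT.nd (nat_lit 78) (nat_lit 76) (nat_lit 0) (XT.lf (nat_lit 0) (nat_lit 806796513) (nat_lit 532) (nat_lit 4940298000) (nat_lit 608) (nat_lit 2966477737) (nat_lit 255) (nat_lit 5) (nat_lit 262) (nat_lit 5) (nat_lit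 263) (nat_lit 5) (nat_lit 584) (nat_lit 508) (nat_lit 468)) (XT.lf (nat_lit 0) (nat_lit 204367765) (nat_lit 608) (nat_lit 1588186240) (nat_lit 76) (nat_lit 7000165044) (nat_lit 254) (nat_lit 5) (nat_lit 262) (nat_lit 5) (nat_lit 255) (nat_lit 5) (nat_lit 585) (nat_lit 508) (nat_lit 467))) (XT.nd (nat_lit 78) (nat_lit 608) (nat_lit 0) (XT.lf (nat_lit 0) (nat_lit 3395227956) (nat_lit 684) (nat_lit 4041412154) (nat_lit 76) (nat_lit 1436495680) (nat_lit 246) (nat_lit 5) (nat_lit 255) (nat_lit 5) (nat_lit 247) (nat_lit 5) (nat_lit 586) (nat_lit 508) (nat_lit 466)) (XT.nd (nat_lit 78) (nat_lit 76) (nat_lit 0) (XT.lf (nat_lit 0) (nat_lit 2406569582) (nat_lit 532) (nat_lit 4237354468) (nat_lit 608) (nat_lit 2311361889) (nat_lit 239) (nat_lit 5) (nat_lit 246) (nat_lit 5) (nat_lit 247) (nat_lit 5) (nat_lit 587) (nat_lit 508) (nat_lit 465)) (XT.lf (nat_lit 0) (nat_lit 889749502) (nat_lit 608) (nat_lit 66247727) (nat_lit 76)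 (nat_lit 8083302202) (nat_lit 238) (nat_lit 5) (nat_lit 246) (nat_lit 5) (nat_lit 239) (nat_lit 5) (nat_lit 588) (nat_lit 508) (nat_lit 464)))))) (XT.nd (nat_lit 390) (nat_lit 2052) (nat_lit 0) (XT.nd (nat_lit 156) (nat_lit 1064) (nat_lit 0) (XT.nd (nat_lit 78) (nat_lit 532) (nat_lit 0) (XT.lf (nat_lit 0) (nat_lit 4139191944) (nat_lit 608) (nat_lit 2582626477) (nat_lit 76) (nat_lit 2402569182) (nat_lit 231) (nat_lit 5) (nat_lit 239) (nat_lit 5) (nat_lit 232) (nat_lit 5) (nat_lit 589) (nat_lit 508) (nat_lit 463)) (XT.lf (nat_lit 0) (nat_lit 4059507890) (nat_lit 532) (nat_lit 3384461772) (nat_lit 608) (nat_lit 1767405978) (nat_lit 224) (nat_lit 5) (nat_lit 231) (nat_lit 5) (nat_lit 232) (nat_lit 5) (nat_lit 590) (nat_lit 508) (nat_lit 462))) (XT.nd (nat_lit 78) (nat_lit 456) (nat_lit 0) (XT.lf (nat_lit 0) (nat_lit 1479840285) (nat_lit 608) (nat_lit 7779996277) (nat_lit 76) (nat_lit 40375680) (nat_lit 216) (nat_lit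 5) (nat_lit 224) (nat_lit 5) (nat_lit 217) (nat_lit 5) (nat_lit 591) (nat_lit 508) (nat_lit 461)) (XT.nd (nat_lit 78) (nat_lit 456) (nat_lit 0) (XT.lf (nat_lit 0) (nat_lit 4783331211) (nat_lit 608) (nat_lit 1088496427) (nat_lit 76) (nat_lit 3518469722) (nat_lit 216) (nat_lit 5) (nat_lit 224) (nat_lit 5) (nat_lit 217) (nat_lit 5) (nat_lit 592) (nat_lit 508) (nat_lit 460)) (XT.lf (nat_lit 0) (nat_lit 5753873680) (nat_lit 456) (nat_lit 2394933915) (nat_lit 532) (nat_lit 1333462919) (nat_lit 210) (nat_lit 5) (nat_lit 216) (nat_lit 5) (nat_lit 217) (nat_lit 5) (nat_lit 593) (nat_lit 508) (nat_lit 459))))) (XT.nd (nat_lit 156) (nat_lit 988) (nat_lit 0) (XT.nd (nat_lit 78) (nat_lit 456) (nat_lit 0) (XT.lf (nat_lit 0) (nat_lit 1973308162) (nat_lit 608) (nat_lit 6442283125) (nat_lit 76) (nat_lit 1160353882) (nat_lit 202) (nat_lit 5) (nat_lit 210) (nat_lit 5) (nat_lit 203) (nat_lit 5) (nat_lit 594) (nat_lit 508) (nat_lit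 458)) (XT.lf (nat_lit 0) (nat_lit 434434390) (nat_lit 456) (nat_lit 4896844473) (nat_lit 532) (nat_lit 4339984163) (nat_lit 196) (nat_lit 5) (nat_lit 202) (nat_lit 5) (nat_lit 203) (nat_lit 5) (nat_lit 595) (nat_lit 508) (nat_lit 457))) (XT.nd (nat_lit 78) (nat_lit 988) (nat_lit 0) (XT.lf (nat_lit 0) (nat_lit 7477485891) (nat_lit 456) (nat_lit 1281613666) (nat_lit 532) (nat_lit 1009338166) (nat_lit 196) (nat_lit 5) (nat_lit 202) (nat_lit 5) (nat_lit 203) (nat_lit 5) (nat_lit 596) (nat_lit 508) (nat_lit 456)) (XT.nd (nat_lit 78) (nat_lit 456) (nat_lit 0) (XT.lf (nat_lit 0) (nat_lit 2363458109) (nat_lit 532) (nat_lit 5100087077) (nat_lit 76) (nat_lit 2403567669) (nat_lit 189) (nat_lit 5) (nat_lit 196) (nat_lit 5) (nat_lit 190) (nat_lit 5) (nat_lit 597) (nat_lit 508) (nat_lit 455)) (XT.lf (nat_lit 0) (nat_lit 1982273444) (nat_lit 456) (nat_lit 3805049102) (nat_lit 532) (nat_lit 4180367007) (nat_lit 183) (nat_lit 5)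 (nat_lit 189) (nat_lit 5) (nat_lit 190) (nat_lit 5) (nat_lit 598) (nat_lit 508) (nat_lit 454))))))) (XT.nd (nat_lit 702) (nat_lit 2508) (nat_lit 0) (XT.nd (nat_lit 312) (nat_lit 1292) (nat_lit 0) (XT.nd (nat_lit 156) (nat_lit 836) (nat_lit 0) (XT.nd (nat_lit 78) (nat_lit 532) (nat_lit 0) (XT.lf (nat_lit 0) (nat_lit 9217583059) (nat_lit 456) (nat_lit 56990394) (nat_lit 532) (nat_lit 795810118) (nat_lit 183) (nat_lit 5) (nat_lit 189) (nat_lit 5) (nat_lit 190) (nat_lit 5) (nat_lit 599) (nat_lit 508) (nat_lit 453)) (XT.lf (nat_lit 0) (nat_lit 2649280932) (nat_lit 532) (nat_lit 3767088965) (nat_lit 76) (nat_lit 3757866781) (nat_lit 176) (nat_lit 5) (nat_lit 183) (nat_lit 5) (nat_lit 177) (nat_lit 5) (nat_lit 600) (nat_lit 508) (nat_lit 452))) (XT.nd (nat_lit 78) (nat_lit 456) (nat_lit 0) (XT.lf (nat_lit 0) (nat_lit 3526879951) (nat_lit 380) (nat_lit 2616253669) (nat_lit 456) (nat_lit 4137121447) (nat_lit 171) (nat_lit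 5) (nat_lit 176) (nat_lit 5) (nat_lit 177) (nat_lit 5) (nat_lit 601) (nat_lit 508) (nat_lit 451)) (XT.lf (nat_lit 0) (nat_lit 571291410) (nat_lit 456) (nat_lit 9134637981) (nat_lit 532) (nat_lit 682486776) (nat_lit 165) (nat_lit 5) (nat_lit 171) (nat_lit 5) (nat_lit 172) (nat_lit 5) (nat_lit 602) (nat_lit 508) (nat_lit 450)))) (XT.nd (nat_lit 156) (nat_lit 836) (nat_lit 0) (XT.nd (nat_lit 78) (nat_lit 380) (nat_lit 0) (XT.lf (nat_lit 0) (nat_lit 2828775966) (nat_lit 532) (nat_lit 2457800853) (nat_lit 76) (nat_lit 5211302272) (nat_lit 164) (nat_lit 5) (nat_lit 171) (nat_lit 5) (nat_lit 165) (nat_lit 5) (nat_lit 603) (nat_lit 508) (nat_lit 449)) (XT.lf (nat_lit 0) (nat_lit 5053716962) (nat_lit 380) (nat_lit 1342830845) (nat_lit 456) (nat_lit 4212988248) (nat_lit 159) (nat_lit 5) (nat_lit 164) (nat_lit 5) (nat_lit 165) (nat_lit 5) (nat_lit 604) (nat_lit 508) (nat_lit 448))) (XT.nd (nat_lit 78) (nat_lit 456) (nat_lit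 0) (XT.lf (nat_lit 0) (nat_lit 1977108713) (nat_lit 380) (nat_lit 8068247750) (nat_lit 456) (nat_lit 677879454) (nat_lit 154) (nat_lit 5) (nat_lit 159) (nat_lit 5) (nat_lit 160) (nat_lit 5) (nat_lit 605) (nat_lit 508) (nat_lit 447)) (XT.nd (nat_lit 78) (nat_lit 380) (nat_lit 0) (XT.lf (nat_lit 0) (nat_lit 2898910766) (nat_lit 456) (nat_lit 1187727100) (nat_lit 76) (nat_lit 6752007370) (nat_lit 153) (nat_lit 5) (nat_lit 159) (nat_lit 5) (nat_lit 154) (nat_lit 5) (nat_lit 606) (nat_lit 508) (nat_lit 446)) (XT.lf (nat_lit 0) (nat_lit 6544379576) (nat_lit 456) (nat_lit 4408949913) (nat_lit 76) (nat_lit 2822436) (nat_lit 148) (nat_lit 5) (nat_lit 154) (nat_lit 5) (nat_lit 149) (nat_lit 5) (nat_lit 607) (nat_lit 508) (nat_lit 445)))))) (XT.nd (nat_lit 390) (nat_lit 988) (nat_lit 0) (XT.nd (nat_lit 156) (nat_lit 760) (nat_lit 0) (XT.nd (nat_lit 78) (nat_lit 380) (nat_lit 0) (XT.lf (nat_lit 0) (nat_lit 3337510648) (nat_lit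 380) (nat_lit 6945910184) (nat_lit 456) (nat_lit 792177782) (nat_lit 143) (nat_lit 5) (nat_lit 148) (nat_lit 5) (nat_lit 149) (nat_lit 5) (nat_lit 608) (nat_lit 508) (nat_lit 444)) (XT.lf (nat_lit 0) (nat_lit 26814165) (nat_lit 304) (nat_lit 2828931549) (nat_lit 380) (nat_lit 8341435606) (nat_lit 138) (nat_lit 5) (nat_lit 142) (nat_lit 5) (nat_lit 143) (nat_lit 5) (nat_lit 609) (nat_lit 508) (nat_lit 443))) (XT.nd (nat_lit 78) (nat_lit 760) (nat_lit 0) (XT.lf (nat_lit 0) (nat_lit 6591420814) (nat_lit 380) (nat_lit 3339288314) (nat_lit 76) (nat_lit 1389876768) (nat_lit 138) (nat_lit 5) (nat_lit 143) (nat_lit 5) (nat_lit 139) (nat_lit 5) (nat_lit 610) (nat_lit 508) (nat_lit 442)) (XT.nd (nat_lit 78) (nat_lit 380) (nat_lit 0) (XT.lf (nat_lit 0) (nat_lit 4635025705) (nat_lit 380) (nat_lit 5780536026) (nat_lit 456) (nat_lit 1030624675) (nat_lit 133) (nat_lit 5) (nat_lit 138) (nat_lit 5) (nat_lit 139) (nat_lit 5) (nat_lit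 611) (nat_lit 508) (nat_lit 441)) (XT.lf (nat_lit 0) (nat_lit 1182251236) (nat_lit 304) (nat_lit 1518928991) (nat_lit 380) (nat_lit 8872860354) (nat_lit 128) (nat_lit 5) (nat_lit 132) (nat_lit 5) (nat_lit 133) (nat_lit 5) (nat_lit 612) (nat_lit 508) (nat_lit 440))))) (XT.nd (nat_lit 156) (nat_lit 684) (nat_lit 0) (XT.nd (nat_lit 78) (nat_lit 304) (nat_lit 0) (XT.lf (nat_lit 0) (nat_lit 6523419505) (nat_lit 380) (nat_lit 2356908790) (nat_lit 76) (nat_lit 2823398050) (nat_lit 128) (nat_lit 5) (nat_lit 133) (nat_lit 5) (nat_lit 129) (nat_lit 5) (nat_lit 613) (nat_lit 508) (nat_lit 439)) (XT.lf (nat_lit 0) (nat_lit 5850695241) (nat_lit 304) (nat_lit 4585351708) (nat_lit 380) (nat_lit 1399682678) (nat_lit 124) (nat_lit 5) (nat_lit 128) (nat_lit 5) (nat_lit 129) (nat_lit 5) (nat_lit 614) (nat_lit 508) (nat_lit 438))) (XT.nd (nat_lit 78) (nat_lit 304) (nat_lit 0) (XT.lf (nat_lit 0) (nat_lit 2242962789) (nat_lit 304) (nat_lit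 177844192) (nat_lit 380) (nat_lit 9549320144) (nat_lit 119) (nat_lit 5) (nat_lit 123) (nat_lit 5) (nat_lit 124) (nat_lit 5) (nat_lit 615) (nat_lit 508) (nat_lit 437)) (XT.nd (nat_lit 78) (nat_lit 304) (nat_lit 0) (XT.lf (nat_lit 0) (nat_lit 6333612069) (nat_lit 380) (nat_lit 1482255216) (nat_lit 76) (nat_lit 4290469819) (nat_lit 119) (nat_lit 5) (nat_lit 124) (nat_lit 5) (nat_lit 120) (nat_lit 5) (nat_lit 616) (nat_lit 508) (nat_lit 436)) (XT.lf (nat_lit 0) (nat_lit 6963858517) (nat_lit 304) (nat_lit 3374036943) (nat_lit 380) (nat_lit 1907113844) (nat_lit 115) (nat_lit 5) (nat_lit 119) (nat_lit 5) (nat_lit 120) (nat_lit 5) (nat_lit 617) (nat_lit 508) (nat_lit 435))))))))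
noncomputable def xc45 : XT := (XT.nd (nat_lit 76284) (nat_lit 0) (nat_lit 18088) (XT.nd (nat_lit 75504) (nat_lit 0) (nat_lit 32984) (XT.nd (nat_lit 312) (nat_lit 304) (nat_lit 0) (XT.nd (nat_lit 156) (nat_lit 608) (nat_lit 0) (XT.nd (nat_lit 78) (nat_lit 0) (nat_lit 0) (XT.lf (nat_lit 0) (nat_lit 2014394891) (nat_lit 380) (nat_lit 9206592190) (nat_lit 76) (nat_lit 1165100174) (nat_lit 110) (nat_lit 5) (nat_lit 115) (nat_lit 5) (nat_lit 111) (nat_lit 5) (nat_lit 618) (nat_lit 508) (nat_lit 434)) (XT.lf (nat_lit 0) (nat_lit 6013919346) (nat_lit 380) (nat_lit 737650000) (nat_lit 76) (nat_lit 5777665186) (nat_lit 110) (nat_lit 5) (nat_lit 115) (nat_lit 5) (nat_lit 111) (nat_lit 5) (nat_lit 619) (nat_lit 508) (nat_lit 433))) (XT.nd (nat_lit 78) (nat_lit 304) (nat_lit 0) (XT.lf (nat_lit 0) (nat_lit 7951918700) (nat_lit 304) (nat_lit 2160869538) (nat_lit 380) (nat_lit 2562071717) (nat_lit 106) (nat_lit 5) (nat_lit 110)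 (nat_lit 5) (nat_lit 111) (nat_lit 5) (nat_lit 620) (nat_lit 508) (nat_lit 432)) (XT.lf (nat_lit 0) (nat_lit 1466158981) (nat_lit 304) (nat_lit 8848112315) (nat_lit 76) (nat_lit 2508633769) (nat_lit 102) (nat_lit 5) (nat_lit 106) (nat_lit 5) (nat_lit 103) (nat_lit 5) (nat_lit 621) (nat_lit 508) (nat_lit 431)))) (XT.nd (nat_lit 74958) (nat_lit 0) (nat_lit 42332) (XT.nd (nat_lit 78) (nat_lit 304) (nat_lit 0) (XT.lf (nat_lit 0) (nat_lit 5554848670) (nat_lit 304) (nat_lit 147542377) (nat_lit 76) (nat_lit 7270899462) (nat_lit 102) (nat_lit 5) (nat_lit 106) (nat_lit 5) (nat_lit 103) (nat_lit 5) (nat_lit 622) (nat_lit 508) (nat_lit 430)) (XT.lf (nat_lit 0) (nat_lit 8790087568) (nat_lit 304) (nat_lit 960878741) (nat_lit 380) (nat_lit 3375206372) (nat_lit 98) (nat_lit 5) (nat_lit 102) (nat_lit 5) (nat_lit 103) (nat_lit 5) (nat_lit 623) (nat_lit 508) (nat_lit 429))) (XT.nd (nat_lit 78) (nat_lit 1064) (nat_lit 0) (XT.lf (nat_lit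 0) (nat_lit 931525057) (nat_lit 988) (nat_lit 1474280908) (nat_lit 0) (nat_lit 931525057) (nat_lit 669) (nat_lit 5) (nat_lit 682) (nat_lit 4) (nat_lit 669) (nat_lit 4) (nat_lit 542) (nat_lit 509) (nat_lit 509)) (XT.nd (nat_lit 78) (nat_lit 76) (nat_lit 0) (XT.lf (nat_lit 0) (nat_lit 1376421840) (nat_lit 988) (nat_lit 3770822368) (nat_lit 988) (nat_lit 1549281723) (nat_lit 656) (nat_lit 4) (nat_lit 669) (nat_lit 5) (nat_lit 669) (nat_lit 4) (nat_lit 543) (nat_lit 509) (nat_lit 508)) (XT.lf (nat_lit 0) (nat_lit 1702309998) (nat_lit 1064) (nat_lit 960855471) (nat_lit 76) (nat_lit 4056501470) (nat_lit 655) (nat_lit 5) (nat_lit 669) (nat_lit 5) (nat_lit 656) (nat_lit 4) (nat_lit 544) (nat_lit 509) (nat_lit 507)))))) (XT.nd (nat_lit 390) (nat_lit 4484) (nat_lit 0) (XT.nd (nat_lit 156) (nat_lit 2584) (nat_lit 0) (XT.nd (nat_lit 78) (nat_lit 1216) (nat_lit 0) (XT.lf (nat_lit 0) (nat_lit 3463267885) (nat_lit 1064) (nat_lit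 1486269277) (nat_lit 1140) (nat_lit 1794518994) (nat_lit 641) (nat_lit 5) (nat_lit 655) (nat_lit 5) (nat_lit 656) (nat_lit 4) (nat_lit 545) (nat_lit 509) (nat_lit 506)) (XT.lf (nat_lit 0) (nat_lit 1167624686) (nat_lit 1140) (nat_lit 249031286) (nat_lit 1216) (nat_lit 5353230683) (nat_lit 625) (nat_lit 5) (nat_lit 640) (nat_lit 5) (nat_lit 641) (nat_lit 5) (nat_lit 546) (nat_lit 509) (nat_lit 505))) (XT.nd (nat_lit 78) (nat_lit 2584) (nat_lit 0) (XT.lf (nat_lit 0) (nat_lit 4627261068) (nat_lit 1216) (nat_lit 1124074518) (nat_lit 76) (nat_lit 1045492420) (nat_lit 625) (nat_lit 5) (nat_lit 641) (nat_lit 5) (nat_lit 626) (nat_lit 4) (nat_lit 547) (nat_lit 509) (nat_lit 504)) (XT.nd (nat_lit 78) (nat_lit 1292) (nat_lit 0) (XT.lf (nat_lit 0) (nat_lit 1019076489) (nat_lit 1292) (nat_lit 3402906270) (nat_lit 76) (nat_lit 2403092195) (nat_lit 608) (nat_lit 5) (nat_lit 625) (nat_lit 5) (nat_lit 609) (nat_lit 5) (nat_lit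 548) (nat_lit 509) (nat_lit 503)) (XT.lf (nat_lit 0) (nat_lit 1163149687) (nat_lit 1292) (nat_lit 3026804520) (nat_lit 1368) (nat_lit 2664710827) (nat_lit 591) (nat_lit 5) (nat_lit 608) (nat_lit 5) (nat_lit 609) (nat_lit 5) (nat_lit 549) (nat_lit 509) (nat_lit 502))))) (XT.nd (nat_lit 156) (nat_lit 3040) (nat_lit 0) (XT.nd (nat_lit 78) (nat_lit 1368) (nat_lit 0) (XT.lf (nat_lit 0) (nat_lit 488147101) (nat_lit 1368) (nat_lit 1080436968) (nat_lit 76) (nat_lit 5317091082) (nat_lit 590) (nat_lit 5) (nat_lit 608) (nat_lit 5) (nat_lit 591) (nat_lit 5) (nat_lit 550) (nat_lit 509) (nat_lit 501)) (XT.lf (nat_lit 0) (nat_lit 3594468354) (nat_lit 1368) (nat_lit 31433776) (nat_lit 1444) (nat_lit 3291915027) (nat_lit 572) (nat_lit 5) (nat_lit 590) (nat_lit 5) (nat_lit 591) (nat_lit 5) (nat_lit 551) (nat_lit 509) (nat_lit 500))) (XT.nd (nat_lit 78) (nat_lit 1596) (nat_lit 0) (XT.lf (nat_lit 0) (nat_lit 1376216263) (nat_lit 1444)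 (nat_lit 5411520734) (nat_lit 1520) (nat_lit 163652598) (nat_lit 553) (nat_lit 5) (nat_lit 572) (nat_lit 5) (nat_lit 573) (nat_lit 5) (nat_lit 552) (nat_lit 509) (nat_lit 499)) (XT.nd (nat_lit 78) (nat_lit 1520) (nat_lit 0) (XT.lf (nat_lit 0) (nat_lit 2945700935) (nat_lit 1520) (nat_lit 849728443) (nat_lit 76) (nat_lit 3190659999) (nat_lit 552) (nat_lit 5) (nat_lit 572) (nat_lit 5) (nat_lit 553) (nat_lit 5) (nat_lit 553) (nat_lit 509) (nat_lit 498)) (XT.lf (nat_lit 0) (nat_lit 3962927630) (nat_lit 1520) (nat_lit 2114688447) (nat_lit 1596) (nat_lit 944607401) (nat_lit 532) (nat_lit 5) (nat_lit 552) (nat_lit 5) (nat_lit 553) (nat_lit 5) (nat_lit 554) (nat_lit 509) (nat_lit 497))))))) (XT.nd (nat_lit 702) (nat_lit 6004) (nat_lit 0) (XT.nd (nat_lit 312) (nat_lit 3724) (nat_lit 0) (XT.nd (nat_lit 156) (nat_lit 3496) (nat_lit 0) (XT.nd (nat_lit 78) (nat_lit 0) (nat_lit 0) (XT.lf (nat_lit 0) (nat_lit 1774604553) (nat_lit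 1596) (nat_lit 363993077) (nat_lit 1672) (nat_lit 4921117344) (nat_lit 510) (nat_lit 5) (nat_lit 531) (nat_lit 5) (nat_lit 532) (nat_lit 5) (nat_lit 555) (nat_lit 509) (nat_lit 496)) (XT.lf (nat_lit 0) (nat_lit 5238873206) (nat_lit 1672) (nat_lit 426055160) (nat_lit 76) (nat_lit 1433554472) (nat_lit 510) (nat_lit 5) (nat_lit 532) (nat_lit 5) (nat_lit 511) (nat_lit 5) (nat_lit 556) (nat_lit 509) (nat_lit 495))) (XT.nd (nat_lit 78) (nat_lit 1748) (nat_lit 0) (XT.lf (nat_lit 0) (nat_lit 1217533115) (nat_lit 1748) (nat_lit 2617830492) (nat_lit 76) (nat_lit 3303091034) (nat_lit 487) (nat_lit 5) (nat_lit 510) (nat_lit 5) (nat_lit 488) (nat_lit 5) (nat_lit 557) (nat_lit 509) (nat_lit 494)) (XT.lf (nat_lit 0) (nat_lit 2352563263) (nat_lit 1748) (nat_lit 1936694956) (nat_lit 1824) (nat_lit 2890574814) (nat_lit 464) (nat_lit 5) (nat_lit 487) (nat_lit 5) (nat_lit 488) (nat_lit 5) (nat_lit 558) (nat_lit 509) (nat_lit 493))))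 (XT.nd (nat_lit 156) (nat_lit 1976) (nat_lit 0) (XT.nd (nat_lit 78) (nat_lit 0) (nat_lit 0) (XT.lf (nat_lit 0) (nat_lit 156886840) (nat_lit 1748) (nat_lit 7045123596) (nat_lit 76) (nat_lit 20831147) (nat_lit 441) (nat_lit 5) (nat_lit 464) (nat_lit 5) (nat_lit 442) (nat_lit 5) (nat_lit 559) (nat_lit 509) (nat_lit 492)) (XT.lf (nat_lit 0) (nat_lit 3213016551) (nat_lit 1748) (nat_lit 2010029240) (nat_lit 76) (nat_lit 2043565015) (nat_lit 441) (nat_lit 5) (nat_lit 464) (nat_lit 5) (nat_lit 442) (nat_lit 5) (nat_lit 560) (nat_lit 509) (nat_lit 491))) (XT.nd (nat_lit 78) (nat_lit 988) (nat_lit 0) (XT.lf (nat_lit 0) (nat_lit 3107677677) (nat_lit 988) (nat_lit 3184879654) (nat_lit 1064) (nat_lit 1019463202) (nat_lit 428) (nat_lit 5) (nat_lit 441) (nat_lit 5) (nat_lit 442) (nat_lit 5) (nat_lit 561) (nat_lit 509) (nat_lit 490)) (XT.nd (nat_lit 78) (nat_lit 0) (nat_lit 0) (XT.lf (nat_lit 0) (nat_lit 936398849) (nat_lit 912)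 (nat_lit 1073868410) (nat_lit 988) (nat_lit 5348569464) (nat_lit 415) (nat_lit 5) (nat_lit 427) (nat_lit 5) (nat_lit 428) (nat_lit 5) (nat_lit 562) (nat_lit 509) (nat_lit 489)) (XT.lf (nat_lit 0) (nat_lit 5065572985) (nat_lit 988) (nat_lit 1243002283) (nat_lit 76) (nat_lit 1098316832) (nat_lit 415) (nat_lit 5) (nat_lit 428) (nat_lit 5) (nat_lit 416) (nat_lit 5) (nat_lit 563) (nat_lit 509) (nat_lit 488)))))) (XT.nd (nat_lit 390) (nat_lit 2508) (nat_lit 0) (XT.nd (nat_lit 156) (nat_lit 1672) (nat_lit 0) (XT.nd (nat_lit 78) (nat_lit 836) (nat_lit 0) (XT.lf (nat_lit 0) (nat_lit 693976273) (nat_lit 988) (nat_lit 3434009987) (nat_lit 76) (nat_lit 3328289452) (nat_lit 402) (nat_lit 5) (nat_lit 415) (nat_lit 5) (nat_lit 403) (nat_lit 5) (nat_lit 564) (nat_lit 509) (nat_lit 487)) (XT.lf (nat_lit 0) (nat_lit 1852787445) (nat_lit 836) (nat_lit 1870957712) (nat_lit 912) (nat_lit 3783299629) (nat_lit 391) (nat_lit 5) (nat_lit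 402) (nat_lit 5) (nat_lit 403) (nat_lit 5) (nat_lit 565) (nat_lit 509) (nat_lit 486))) (XT.nd (nat_lit 78) (nat_lit 1672) (nat_lit 0) (XT.lf (nat_lit 0) (nat_lit 6785444948) (nat_lit 912) (nat_lit 329296714) (nat_lit 76) (nat_lit 444670350) (nat_lit 391) (nat_lit 5) (nat_lit 403) (nat_lit 5) (nat_lit 392) (nat_lit 5) (nat_lit 566) (nat_lit 509) (nat_lit 485)) (XT.nd (nat_lit 78) (nat_lit 760) (nat_lit 0) (XT.lf (nat_lit 0) (nat_lit 2257283528) (nat_lit 912) (nat_lit 2529887383) (nat_lit 76) (nat_lit 2825529940) (nat_lit 379) (nat_lit 5) (nat_lit 391) (nat_lit 5) (nat_lit 380) (nat_lit 5) (nat_lit 567) (nat_lit 509) (nat_lit 484)) (XT.lf (nat_lit 0) (nat_lit 2914701614) (nat_lit 760) (nat_lit 2391976224) (nat_lit 836) (nat_lit 2360926600) (nat_lit 369) (nat_lit 5) (nat_lit 379) (nat_lit 5) (nat_lit 380) (nat_lit 5) (nat_lit 568) (nat_lit 509) (nat_lit 483))))) (XT.nd (nat_lit 156) (nat_lit 1596) (nat_lit 0) (XT.nd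 (nat_lit 78) (nat_lit 0) (nat_lit 0) (XT.lf (nat_lit 0) (nat_lit 653649828) (nat_lit 912) (nat_lit 6999840672) (nat_lit 76) (nat_lit 70648324) (nat_lit 357) (nat_lit 5) (nat_lit 369) (nat_lit 5) (nat_lit 358) (nat_lit 5) (nat_lit 569) (nat_lit 509) (nat_lit 482)) (XT.lf (nat_lit 0) (nat_lit 3692524940) (nat_lit 912) (nat_lit 1497332374) (nat_lit 76) (nat_lit 2591730487) (nat_lit 357) (nat_lit 5) (nat_lit 369) (nat_lit 5) (nat_lit 358) (nat_lit 5) (nat_lit 570) (nat_lit 509) (nat_lit 481))) (XT.nd (nat_lit 78) (nat_lit 836) (nat_lit 0) (XT.lf (nat_lit 0) (nat_lit 4110360713) (nat_lit 760) (nat_lit 2657174430) (nat_lit 836) (nat_lit 1073151718) (nat_lit 347) (nat_lit 5) (nat_lit 357) (nat_lit 5) (nat_lit 358) (nat_lit 5) (nat_lit 571) (nat_lit 509) (nat_lit 480)) (XT.nd (nat_lit 78) (nat_lit 0) (nat_lit 0) (XT.lf (nat_lit 0) (nat_lit 1902544683) (nat_lit 760) (nat_lit 45683269) (nat_lit 836) (nat_lit 5953059355)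 (nat_lit 336) (nat_lit 5) (nat_lit 346) (nat_lit 5) (nat_lit 347) (nat_lit 5) (nat_lit 572) (nat_lit 509) (nat_lit 479)) (XT.lf (nat_lit 0) (nat_lit 5007395695) (nat_lit 836) (nat_lit 347878585) (nat_lit 76) (nat_lit 2607856789) (nat_lit 336) (nat_lit 5) (nat_lit 347) (nat_lit 5) (nat_lit 337) (nat_lit 5) (nat_lit 573) (nat_lit 509) (nat_lit 478))))))))
noncomputable def xc46 : XT := (XT.nd (nat_lit 1482) (nat_lit 6308) (nat_lit 0) (XT.nd (nat_lit 702) (nat_lit 4180) (nat_lit 0) (XT.nd (nat_lit 312) (nat_lit 2660) (nat_lit 0) (XT.nd (nat_lit 156) (nat_lit 760) (nat_lit 0) (XT.nd (nat_lit 78) (nat_lit 760) (nat_lit 0) (XT.lf (nat_lit 0) (nat_lit 86161075) (nat_lit 760) (nat_lit 2598647789) (nat_lit 76) (nat_lit 5341677979) (nat_lit 326) (nat_lit 5) (nat_lit 336) (nat_lit 5) (nat_lit 327) (nat_lit 5) (nat_lit 574) (nat_lit 509) (nat_lit 477)) (XT.lf (nat_lit 0) (nat_lit 3123704069) (nat_lit 836) (nat_lit 4895423184)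 (nat_lit 76) (nat_lit 72111343) (nat_lit 316) (nat_lit 5) (nat_lit 327) (nat_lit 5) (nat_lit 317) (nat_lit 5) (nat_lit 575) (nat_lit 509) (nat_lit 476))) (XT.nd (nat_lit 78) (nat_lit 76) (nat_lit 0) (XT.lf (nat_lit 0) (nat_lit 919333393) (nat_lit 684) (nat_lit 5295262657) (nat_lit 760) (nat_lit 1942844556) (nat_lit 307) (nat_lit 5) (nat_lit 316) (nat_lit 5) (nat_lit 317) (nat_lit 5) (nat_lit 576) (nat_lit 509) (nat_lit 475)) (XT.lf (nat_lit 0) (nat_lit 1111967790) (nat_lit 760) (nat_lit 1374745790) (nat_lit 76) (nat_lit 5738419434) (nat_lit 306) (nat_lit 5) (nat_lit 316) (nat_lit 5) (nat_lit 307) (nat_lit 5) (nat_lit 577) (nat_lit 509) (nat_lit 474)))) (XT.nd (nat_lit 156) (nat_lit 1368) (nat_lit 0) (XT.nd (nat_lit 78) (nat_lit 608) (nat_lit 0) (XT.lf (nat_lit 0) (nat_lit 4186877924) (nat_lit 760) (nat_lit 3702047439) (nat_lit 76) (nat_lit 405303510) (nat_lit 297) (nat_lit 5) (nat_lit 307) (nat_lit 5) (nat_lit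 298) (nat_lit 5) (nat_lit 578) (nat_lit 509) (nat_lit 473)) (XT.lf (nat_lit 0) (nat_lit 2287159209) (nat_lit 608) (nat_lit 5029707063) (nat_lit 684) (nat_lit 1047975414) (nat_lit 289) (nat_lit 5) (nat_lit 297) (nat_lit 5) (nat_lit 298) (nat_lit 5) (nat_lit 579) (nat_lit 509) (nat_lit 472))) (XT.nd (nat_lit 78) (nat_lit 1292) (nat_lit 0) (XT.lf (nat_lit 0) (nat_lit 2023616175) (nat_lit 684) (nat_lit 62767808) (nat_lit 76) (nat_lit 6350655802) (nat_lit 288) (nat_lit 5) (nat_lit 297) (nat_lit 5) (nat_lit 289) (nat_lit 5) (nat_lit 580) (nat_lit 509) (nat_lit 471)) (XT.nd (nat_lit 78) (nat_lit 608) (nat_lit 0) (XT.lf (nat_lit 0) (nat_lit 5142440329) (nat_lit 760) (nat_lit 2429459579) (nat_lit 76) (nat_lit 938652988) (nat_lit 279) (nat_lit 5) (nat_lit 289) (nat_lit 5) (nat_lit 280) (nat_lit 5) (nat_lit 581) (nat_lit 509) (nat_lit 470)) (XT.lf (nat_lit 0) (nat_lit 3739982680) (nat_lit 608) (nat_lit 4576749606) (nat_lit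 684) (nat_lit 268948289) (nat_lit 271) (nat_lit 5) (nat_lit 279) (nat_lit 5) (nat_lit 280) (nat_lit 5) (nat_lit 582) (nat_lit 509) (nat_lit 469)))))) (XT.nd (nat_lit 390) (nat_lit 1748) (nat_lit 0) (XT.nd (nat_lit 156) (nat_lit 1748) (nat_lit 0) (XT.nd (nat_lit 78) (nat_lit 0) (nat_lit 0) (XT.lf (nat_lit 0) (nat_lit 1343874864) (nat_lit 608) (nat_lit 1490307437) (nat_lit 684) (nat_lit 5828160545) (nat_lit 262) (nat_lit 5) (nat_lit 270) (nat_lit 5) (nat_lit 271) (nat_lit 5) (nat_lit 583) (nat_lit 509) (nat_lit 468)) (XT.lf (nat_lit 0) (nat_lit 5994473370) (nat_lit 684) (nat_lit 1088776413) (nat_lit 76) (nat_lit 1657284820) (nat_lit 262) (nat_lit 5) (nat_lit 271) (nat_lit 5) (nat_lit 263) (nat_lit 5) (nat_lit 584) (nat_lit 509) (nat_lit 467))) (XT.nd (nat_lit 78) (nat_lit 1140) (nat_lit 0) (XT.lf (nat_lit 0) (nat_lit 392602736) (nat_lit 608) (nat_lit 3556055110) (nat_lit 76) (nat_lit 4871583498) (nat_lit 254) (nat_lit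 5) (nat_lit 262) (nat_lit 5) (nat_lit 255) (nat_lit 5) (nat_lit 585) (nat_lit 509) (nat_lit 466)) (XT.nd (nat_lit 78) (nat_lit 532) (nat_lit 0) (XT.lf (nat_lit 0) (nat_lit 2818198066) (nat_lit 608) (nat_lit 721031157) (nat_lit 684) (nat_lit 5362316232) (nat_lit 246) (nat_lit 5) (nat_lit 254) (nat_lit 5) (nat_lit 255) (nat_lit 5) (nat_lit 586) (nat_lit 509) (nat_lit 465)) (XT.lf (nat_lit 0) (nat_lit 312899665) (nat_lit 532) (nat_lit 6435295829) (nat_lit 608) (nat_lit 2236297349) (nat_lit 239) (nat_lit 5) (nat_lit 246) (nat_lit 5) (nat_lit 247) (nat_lit 5) (nat_lit 587) (nat_lit 509) (nat_lit 464))))) (XT.nd (nat_lit 156) (nat_lit 1140) (nat_lit 0) (XT.nd (nat_lit 78) (nat_lit 532) (nat_lit 0) (XT.lf (nat_lit 0) (nat_lit 942465458) (nat_lit 608) (nat_lit 2218665103) (nat_lit 76) (nat_lit 5907795849) (nat_lit 238) (nat_lit 5) (nat_lit 246) (nat_lit 5) (nat_lit 239) (nat_lit 5) (nat_lit 588) (nat_lit 509) (nat_lit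 463)) (XT.lf (nat_lit 0) (nat_lit 4142153521) (nat_lit 608) (nat_lit 4808384576) (nat_lit 76) (nat_lit 204474063) (nat_lit 231) (nat_lit 5) (nat_lit 239) (nat_lit 5) (nat_lit 232) (nat_lit 5) (nat_lit 589) (nat_lit 509) (nat_lit 462))) (XT.nd (nat_lit 78) (nat_lit 608) (nat_lit 0) (XT.lf (nat_lit 0) (nat_lit 1775125982) (nat_lit 532) (nat_lit 5636206112) (nat_lit 608) (nat_lit 1831382528) (nat_lit 224) (nat_lit 5) (nat_lit 231) (nat_lit 5) (nat_lit 232) (nat_lit 5) (nat_lit 590) (nat_lit 509) (nat_lit 461)) (XT.nd (nat_lit 78) (nat_lit 532) (nat_lit 0) (XT.lf (nat_lit 0) (nat_lit 1385881640) (nat_lit 608) (nat_lit 843512434) (nat_lit 76) (nat_lit 7102784227) (nat_lit 223) (nat_lit 5) (nat_lit 231) (nat_lit 5) (nat_lit 224) (nat_lit 5) (nat_lit 591) (nat_lit 509) (nat_lit 460)) (XT.lf (nat_lit 0) (nat_lit 4648795684) (nat_lit 608) (nat_lit 3509922447) (nat_lit 76) (nat_lit 1264359127) (nat_lit 216) (nat_lit 5) (nat_lit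 224) (nat_lit 5) (nat_lit 217) (nat_lit 5) (nat_lit 592) (nat_lit 509) (nat_lit 459))))))) (XT.nd (nat_lit 702) (nat_lit 2888) (nat_lit 0) (XT.nd (nat_lit 312) (nat_lit 1900) (nat_lit 0) (XT.nd (nat_lit 156) (nat_lit 456) (nat_lit 0) (XT.nd (nat_lit 78) (nat_lit 608) (nat_lit 0) (XT.lf (nat_lit 0) (nat_lit 3271536269) (nat_lit 456) (nat_lit 4706505091) (nat_lit 532) (nat_lit 1537735922) (nat_lit 210) (nat_lit 5) (nat_lit 216) (nat_lit 5) (nat_lit 217) (nat_lit 5) (nat_lit 593) (nat_lit 509) (nat_lit 458)) (XT.lf (nat_lit 0) (nat_lit 564699213) (nat_lit 532) (nat_lit 1162614935) (nat_lit 608) (nat_lit 7883054483) (nat_lit 202) (nat_lit 5) (nat_lit 209) (nat_lit 5) (nat_lit 210) (nat_lit 5) (nat_lit 594) (nat_lit 509) (nat_lit 457))) (XT.nd (nat_lit 78) (nat_lit 456) (nat_lit 0) (XT.lf (nat_lit 0) (nat_lit 5055034294) (nat_lit 608) (nat_lit 2195694989) (nat_lit 76) (nat_lit 2455564343) (nat_lit 202) (nat_lit 5) (nat_lit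 210) (nat_lit 5) (nat_lit 203) (nat_lit 5) (nat_lit 595) (nat_lit 509) (nat_lit 456)) (XT.lf (nat_lit 0) (nat_lit 4789771129) (nat_lit 456) (nat_lit 3658962447) (nat_lit 532) (nat_lit 1355419259) (nat_lit 196) (nat_lit 5) (nat_lit 202) (nat_lit 5) (nat_lit 203) (nat_lit 5) (nat_lit 596) (nat_lit 509) (nat_lit 455)))) (XT.nd (nat_lit 156) (nat_lit 1368) (nat_lit 0) (XT.nd (nat_lit 78) (nat_lit 0) (nat_lit 0) (XT.lf (nat_lit 0) (nat_lit 1968782071) (nat_lit 532) (nat_lit 7906801262) (nat_lit 76) (nat_lit 28354253) (nat_lit 189) (nat_lit 5) (nat_lit 196) (nat_lit 5) (nat_lit 190) (nat_lit 5) (nat_lit 597) (nat_lit 509) (nat_lit 454)) (XT.lf (nat_lit 0) (nat_lit 5360499240) (nat_lit 532) (nat_lit 878692412) (nat_lit 76) (nat_lit 3765967542) (nat_lit 189) (nat_lit 5) (nat_lit 196) (nat_lit 5) (nat_lit 190) (nat_lit 5) (nat_lit 598) (nat_lit 509) (nat_lit 453))) (XT.nd (nat_lit 78) (nat_lit 912) (nat_lit 0) (XT.lf (nat_lit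 0) (nat_lit 6316871922) (nat_lit 456) (nat_lit 2506016062) (nat_lit 532) (nat_lit 1285464394) (nat_lit 183) (nat_lit 5) (nat_lit 189) (nat_lit 5) (nat_lit 190) (nat_lit 5) (nat_lit 599) (nat_lit 509) (nat_lit 452)) (XT.nd (nat_lit 78) (nat_lit 380) (nat_lit 0) (XT.lf (nat_lit 0) (nat_lit 2111611577) (nat_lit 532) (nat_lit 6792431672) (nat_lit 76) (nat_lit 1309316412) (nat_lit 176) (nat_lit 5) (nat_lit 183) (nat_lit 5) (nat_lit 177) (nat_lit 5) (nat_lit 600) (nat_lit 509) (nat_lit 451)) (XT.lf (nat_lit 0) (nat_lit 433057608) (nat_lit 380) (nat_lit 5133618699) (nat_lit 456) (nat_lit 4753479315) (nat_lit 171) (nat_lit 5) (nat_lit 176) (nat_lit 5) (nat_lit 177) (nat_lit 5) (nat_lit 601) (nat_lit 509) (nat_lit 450)))))) (XT.nd (nat_lit 390) (nat_lit 1520) (nat_lit 0) (XT.nd (nat_lit 156) (nat_lit 836) (nat_lit 0) (XT.nd (nat_lit 78) (nat_lit 532) (nat_lit 0) (XT.lf (nat_lit 0) (nat_lit 7839135428) (nat_lit 380) (nat_lit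 1259889204) (nat_lit 456) (nat_lit 1329902817) (nat_lit 171) (nat_lit 5) (nat_lit 176) (nat_lit 5) (nat_lit 177) (nat_lit 5) (nat_lit 602) (nat_lit 509) (nat_lit 449)) (XT.lf (nat_lit 0) (nat_lit 2146005924) (nat_lit 532) (nat_lit 5709752617) (nat_lit 76) (nat_lit 2683594510) (nat_lit 164) (nat_lit 5) (nat_lit 171) (nat_lit 5) (nat_lit 165) (nat_lit 5) (nat_lit 603) (nat_lit 509) (nat_lit 448))) (XT.nd (nat_lit 78) (nat_lit 456) (nat_lit 0) (XT.lf (nat_lit 0) (nat_lit 1730637671) (nat_lit 380) (nat_lit 3943413479) (nat_lit 456) (nat_lit 4977755075) (nat_lit 159) (nat_lit 5) (nat_lit 164) (nat_lit 5) (nat_lit 165) (nat_lit 5) (nat_lit 604) (nat_lit 509) (nat_lit 447)) (XT.nd (nat_lit 78) (nat_lit 456) (nat_lit 0) (XT.lf (nat_lit 0) (nat_lit 9275104683) (nat_lit 456) (nat_lit 1424949833) (nat_lit 76) (nat_lit 66408316) (nat_lit 159) (nat_lit 5) (nat_lit 165) (nat_lit 5) (nat_lit 160) (nat_lit 5) (nat_lit 605) (nat_lit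 509) (nat_lit 446)) (XT.lf (nat_lit 0) (nat_lit 2068685838) (nat_lit 456) (nat_lit 4674515321) (nat_lit 76) (nat_lit 4139326506) (nat_lit 153) (nat_lit 5) (nat_lit 159) (nat_lit 5) (nat_lit 154) (nat_lit 5) (nat_lit 606) (nat_lit 509) (nat_lit 445))))) (XT.nd (nat_lit 156) (nat_lit 1140) (nat_lit 0) (XT.nd (nat_lit 78) (nat_lit 0) (nat_lit 0) (XT.lf (nat_lit 0) (nat_lit 2986555372) (nat_lit 380) (nat_lit 2686836623) (nat_lit 456) (nat_lit 5327459161) (nat_lit 148) (nat_lit 5) (nat_lit 153) (nat_lit 5) (nat_lit 154) (nat_lit 5) (nat_lit 607) (nat_lit 509) (nat_lit 444)) (XT.lf (nat_lit 0) (nat_lit 9355801650) (nat_lit 456) (nat_lit 321450996) (nat_lit 76) (nat_lit 1444179349) (nat_lit 148) (nat_lit 5) (nat_lit 154) (nat_lit 5) (nat_lit 149) (nat_lit 5) (nat_lit 608) (nat_lit 509) (nat_lit 443))) (XT.nd (nat_lit 78) (nat_lit 684) (nat_lit 0) (XT.lf (nat_lit 0) (nat_lit 1875290807) (nat_lit 456) (nat_lit 3703654932)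 (nat_lit 76) (nat_lit 5664592215) (nat_lit 142) (nat_lit 5) (nat_lit 148) (nat_lit 5) (nat_lit 143) (nat_lit 5) (nat_lit 609) (nat_lit 509) (nat_lit 442)) (XT.nd (nat_lit 78) (nat_lit 380) (nat_lit 0) (XT.lf (nat_lit 0) (nat_lit 4183773054) (nat_lit 304) (nat_lit 1376382455) (nat_lit 380) (nat_lit 5807804659) (nat_lit 138) (nat_lit 5) (nat_lit 142) (nat_lit 5) (nat_lit 143) (nat_lit 5) (nat_lit 610) (nat_lit 509) (nat_lit 441)) (XT.lf (nat_lit 0) (nat_lit 720819922) (nat_lit 380) (nat_lit 8612102621) (nat_lit 456) (nat_lit 2161667014) (nat_lit 133) (nat_lit 5) (nat_lit 138) (nat_lit 5) (nat_lit 139) (nat_lit 5) (nat_lit 611) (nat_lit 509) (nat_lit 440))))))))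
noncomputable def xc47 : XT := (XT.nd (nat_lit 76128) (nat_lit 0) (nat_lit 22268) (XT.nd (nat_lit 702) (nat_lit 608) (nat_lit 0) (XT.nd (nat_lit 312) (nat_lit 1292) (nat_lit 0) (XT.nd (nat_lit 156) (nat_lit 380) (nat_lit 0) (XT.nd (nat_lit 78) (nat_lit 304) (nat_lit 0) (XT.lf (nat_lit 0) (nat_lit 1560319089) (nat_lit 456) (nat_lit 2815477448) (nat_lit 76) (nat_lit 7247288464) (nat_lit 132) (nat_lit 5) (nat_lit 138) (nat_lit 5) (nat_lit 133) (nat_lit 5) (nat_lit 612) (nat_lit 509) (nat_lit 439)) (XT.lf (nat_lit 0) (nat_lit 5303838707) (nat_lit 304) (nat_lit 24804130) (nat_lit 380) (nat_lit 6425207561) (nat_lit 128) (nat_lit 5) (nat_lit 132) (nat_lit 5) (nat_lit 133) (nat_lit 5) (nat_lit 613) (nat_lit 509) (nat_lit 438))) (XT.nd (nat_lit 78) (nat_lit 76) (nat_lit 0) (XT.lf (nat_lit 0) (nat_lit 1676484898) (nat_lit 304) (nat_lit 7520971274) (nat_lit 380) (nat_lit 2689275087) (nat_lit 124) (nat_lit 5) (nat_lit 128)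 (nat_lit 5) (nat_lit 129) (nat_lit 5) (nat_lit 614) (nat_lit 509) (nat_lit 437)) (XT.lf (nat_lit 0) (nat_lit 1117057300) (nat_lit 380) (nat_lit 2029862253) (nat_lit 76) (nat_lit 8874999316) (nat_lit 123) (nat_lit 5) (nat_lit 128) (nat_lit 5) (nat_lit 124) (nat_lit 5) (nat_lit 615) (nat_lit 509) (nat_lit 436)))) (XT.nd (nat_lit 156) (nat_lit 684) (nat_lit 0) (XT.nd (nat_lit 78) (nat_lit 304) (nat_lit 0) (XT.lf (nat_lit 0) (nat_lit 4980721809) (nat_lit 380) (nat_lit 5841406697) (nat_lit 76) (nat_lit 1336984375) (nat_lit 119) (nat_lit 5) (nat_lit 124) (nat_lit 5) (nat_lit 120) (nat_lit 5) (nat_lit 616) (nat_lit 509) (nat_lit 435)) (XT.lf (nat_lit 0) (nat_lit 2520294134) (nat_lit 304) (nat_lit 6419761895) (nat_lit 380) (nat_lit 3358629233) (nat_lit 115) (nat_lit 5) (nat_lit 119) (nat_lit 5) (nat_lit 120) (nat_lit 5) (nat_lit 617) (nat_lit 509) (nat_lit 434))) (XT.nd (nat_lit 78) (nat_lit 608) (nat_lit 0) (XT.lf (nat_lit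 0) (nat_lit 537498792) (nat_lit 380) (nat_lit 1368482202) (nat_lit 76) (nat_lit 10534860205) (nat_lit 114) (nat_lit 5) (nat_lit 119) (nat_lit 5) (nat_lit 115) (nat_lit 5) (nat_lit 618) (nat_lit 509) (nat_lit 433)) (XT.nd (nat_lit 78) (nat_lit 304) (nat_lit 0) (XT.lf (nat_lit 0) (nat_lit 4499607746) (nat_lit 380) (nat_lit 5372572165) (nat_lit 76) (nat_lit 2712558004) (nat_lit 110) (nat_lit 5) (nat_lit 115) (nat_lit 5) (nat_lit 111) (nat_lit 5) (nat_lit 619) (nat_lit 509) (nat_lit 432)) (XT.lf (nat_lit 0) (nat_lit 3229314618) (nat_lit 304) (nat_lit 5322835218) (nat_lit 380) (nat_lit 4179141141) (nat_lit 106) (nat_lit 5) (nat_lit 110) (nat_lit 5) (nat_lit 111) (nat_lit 5) (nat_lit 620) (nat_lit 509) (nat_lit 431)))))) (XT.nd (nat_lit 75036) (nat_lit 0) (nat_lit 40052) (XT.nd (nat_lit 156) (nat_lit 304) (nat_lit 0) (XT.nd (nat_lit 78) (nat_lit 304) (nat_lit 0) (XT.lf (nat_lit 0) (nat_lit 12024404780) (nat_lit 304)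 (nat_lit 666033462) (nat_lit 380) (nat_lit 190245142) (nat_lit 106) (nat_lit 5) (nat_lit 110) (nat_lit 5) (nat_lit 111) (nat_lit 5) (nat_lit 621) (nat_lit 509) (nat_lit 430)) (XT.lf (nat_lit 0) (nat_lit 3875391663) (nat_lit 304) (nat_lit 5068146272) (nat_lit 76) (nat_lit 4088067597) (nat_lit 102) (nat_lit 5) (nat_lit 106) (nat_lit 5) (nat_lit 103) (nat_lit 5) (nat_lit 622) (nat_lit 509) (nat_lit 429))) (XT.nd (nat_lit 74724) (nat_lit 0) (nat_lit 44308) (XT.lf (nat_lit 0) (nat_lit 3778402665) (nat_lit 304) (nat_lit 4245319484) (nat_lit 380) (nat_lit 5161722322) (nat_lit 98) (nat_lit 5) (nat_lit 102) (nat_lit 5) (nat_lit 103) (nat_lit 5) (nat_lit 623) (nat_lit 509) (nat_lit 428)) (XT.nd (nat_lit 78) (nat_lit 76) (nat_lit 0) (XT.lf (nat_lit 0) (nat_lit 924637740) (nat_lit 836) (nat_lit 1196235821) (nat_lit 836) (nat_lit 1196235821) (nat_lit 682) (nat_lit 4) (nat_lit 693) (nat_lit 5) (nat_lit 693) (nat_lit 4) (nat_lit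 540) (nat_lit 510) (nat_lit 510)) (XT.lf (nat_lit 0) (nat_lit 859399244) (nat_lit 912) (nat_lit 575304413) (nat_lit 76) (nat_lit 5219537559) (nat_lit 681) (nat_lit 5) (nat_lit 693) (nat_lit 5) (nat_lit 682) (nat_lit 4) (nat_lit 541) (nat_lit 510) (nat_lit 509))))) (XT.nd (nat_lit 156) (nat_lit 2280) (nat_lit 0) (XT.nd (nat_lit 78) (nat_lit 1064) (nat_lit 0) (XT.lf (nat_lit 0) (nat_lit 3695461762) (nat_lit 912) (nat_lit 399946211) (nat_lit 988) (nat_lit 2579935367) (nat_lit 669) (nat_lit 5) (nat_lit 681) (nat_lit 5) (nat_lit 682) (nat_lit 4) (nat_lit 542) (nat_lit 510) (nat_lit 508)) (XT.lf (nat_lit 0) (nat_lit 634710351) (nat_lit 1064) (nat_lit 5383378217) (nat_lit 76) (nat_lit 679813411) (nat_lit 655) (nat_lit 5) (nat_lit 669) (nat_lit 5) (nat_lit 656) (nat_lit 4) (nat_lit 543) (nat_lit 510) (nat_lit 507))) (XT.nd (nat_lit 78) (nat_lit 2280) (nat_lit 0) (XT.lf (nat_lit 0) (nat_lit 3830756858) (nat_lit 1064) (nat_lit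 1062639786) (nat_lit 76) (nat_lit 1828158188) (nat_lit 655) (nat_lit 5) (nat_lit 669) (nat_lit 5) (nat_lit 656) (nat_lit 4) (nat_lit 544) (nat_lit 510) (nat_lit 506)) (XT.nd (nat_lit 78) (nat_lit 1140) (nat_lit 0) (XT.lf (nat_lit 0) (nat_lit 292054082) (nat_lit 1140) (nat_lit 3416714696) (nat_lit 76) (nat_lit 3037852947) (nat_lit 640) (nat_lit 5) (nat_lit 655) (nat_lit 5) (nat_lit 641) (nat_lit 5) (nat_lit 545) (nat_lit 510) (nat_lit 505)) (XT.lf (nat_lit 0) (nat_lit 989538105) (nat_lit 1140) (nat_lit 2454727622) (nat_lit 1216) (nat_lit 3328670042) (nat_lit 625) (nat_lit 5) (nat_lit 640) (nat_lit 5) (nat_lit 641) (nat_lit 5) (nat_lit 546) (nat_lit 510) (nat_lit 504))))))) (XT.nd (nat_lit 702) (nat_lit 9044) (nat_lit 0) (XT.nd (nat_lit 312) (nat_lit 6080) (nat_lit 0) (XT.nd (nat_lit 156) (nat_lit 1368) (nat_lit 0) (XT.nd (nat_lit 78) (nat_lit 1292) (nat_lit 0) (XT.lf (nat_lit 0) (nat_lit 5473694752) (nat_lit 1140)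 (nat_lit 1140516481) (nat_lit 1216) (nat_lit 186486932) (nat_lit 625) (nat_lit 5) (nat_lit 640) (nat_lit 5) (nat_lit 641) (nat_lit 5) (nat_lit 547) (nat_lit 510) (nat_lit 503)) (XT.lf (nat_lit 0) (nat_lit 2933903977) (nat_lit 1292) (nat_lit 3646863346) (nat_lit 76) (nat_lit 248772710) (nat_lit 608) (nat_lit 5) (nat_lit 625) (nat_lit 5) (nat_lit 609) (nat_lit 5) (nat_lit 548) (nat_lit 510) (nat_lit 502))) (XT.nd (nat_lit 78) (nat_lit 76) (nat_lit 0) (XT.lf (nat_lit 0) (nat_lit 887168299) (nat_lit 1292) (nat_lit 5182983133) (nat_lit 1368) (nat_lit 789678688) (nat_lit 591) (nat_lit 5) (nat_lit 608) (nat_lit 5) (nat_lit 609) (nat_lit 5) (nat_lit 549) (nat_lit 510) (nat_lit 501)) (XT.lf (nat_lit 0) (nat_lit 2305988546) (nat_lit 1368) (nat_lit 1402415628) (nat_lit 76) (nat_lit 3182851684) (nat_lit 590) (nat_lit 5) (nat_lit 608) (nat_lit 5) (nat_lit 591) (nat_lit 5) (nat_lit 550) (nat_lit 510) (nat_lit 500)))) (XT.nd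 (nat_lit 156) (nat_lit 3192) (nat_lit 0) (XT.nd (nat_lit 78) (nat_lit 1520) (nat_lit 0) (XT.lf (nat_lit 0) (nat_lit 3239741074) (nat_lit 1368) (nat_lit 2169739268) (nat_lit 1444) (nat_lit 1514609760) (nat_lit 572) (nat_lit 5) (nat_lit 590) (nat_lit 5) (nat_lit 591) (nat_lit 5) (nat_lit 551) (nat_lit 510) (nat_lit 499)) (XT.lf (nat_lit 0) (nat_lit 981419265) (nat_lit 1444) (nat_lit 566578854) (nat_lit 1520) (nat_lit 5410351410) (nat_lit 552) (nat_lit 5) (nat_lit 571) (nat_lit 5) (nat_lit 572) (nat_lit 5) (nat_lit 552) (nat_lit 510) (nat_lit 498))) (XT.nd (nat_lit 78) (nat_lit 3192) (nat_lit 0) (XT.lf (nat_lit 0) (nat_lit 4620256339) (nat_lit 1520) (nat_lit 1277675464) (nat_lit 76) (nat_lit 1095801808) (nat_lit 552) (nat_lit 5) (nat_lit 572) (nat_lit 5) (nat_lit 553) (nat_lit 5) (nat_lit 553) (nat_lit 510) (nat_lit 497)) (XT.nd (nat_lit 78) (nat_lit 1596) (nat_lit 0) (XT.lf (nat_lit 0) (nat_lit 678942892) (nat_lit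 1596) (nat_lit 3534337276) (nat_lit 76) (nat_lit 2817177822) (nat_lit 531) (nat_lit 5) (nat_lit 552) (nat_lit 5) (nat_lit 532) (nat_lit 5) (nat_lit 554) (nat_lit 510) (nat_lit 496)) (XT.lf (nat_lit 0) (nat_lit 1258190935) (nat_lit 1596) (nat_lit 2457770644) (nat_lit 1672) (nat_lit 3352547393) (nat_lit 510) (nat_lit 5) (nat_lit 531) (nat_lit 5) (nat_lit 532) (nat_lit 5) (nat_lit 555) (nat_lit 510) (nat_lit 495)))))) (XT.nd (nat_lit 390) (nat_lit 3800) (nat_lit 0) (XT.nd (nat_lit 156) (nat_lit 3496) (nat_lit 0) (XT.nd (nat_lit 78) (nat_lit 1748) (nat_lit 0) (XT.lf (nat_lit 0) (nat_lit 6137354928) (nat_lit 1596) (nat_lit 639419546) (nat_lit 1672) (nat_lit 331297687) (nat_lit 510) (nat_lit 5) (nat_lit 531) (nat_lit 5) (nat_lit 532) (nat_lit 5) (nat_lit 556) (nat_lit 510) (nat_lit 494)) (XT.lf (nat_lit 0) (nat_lit 2688222608) (nat_lit 1748) (nat_lit 3214248501) (nat_lit 76) (nat_lit 1246131802) (nat_lit 487) (nat_lit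 5) (nat_lit 510) (nat_lit 5) (nat_lit 488) (nat_lit 5) (nat_lit 557) (nat_lit 510) (nat_lit 493))) (XT.nd (nat_lit 78) (nat_lit 1748) (nat_lit 0) (XT.lf (nat_lit 0) (nat_lit 1719301554) (nat_lit 1748) (nat_lit 4007299507) (nat_lit 1824) (nat_lit 1464052896) (nat_lit 464) (nat_lit 5) (nat_lit 487) (nat_lit 5) (nat_lit 488) (nat_lit 5) (nat_lit 558) (nat_lit 510) (nat_lit 492)) (XT.nd (nat_lit 78) (nat_lit 1672) (nat_lit 0) (XT.lf (nat_lit 0) (nat_lit 1534365351) (nat_lit 1824) (nat_lit 506561484) (nat_lit 76) (nat_lit 5193162618) (nat_lit 463) (nat_lit 5) (nat_lit 487) (nat_lit 5) (nat_lit 464) (nat_lit 5) (nat_lit 559) (nat_lit 510) (nat_lit 491)) (XT.lf (nat_lit 0) (nat_lit 4545231562) (nat_lit 1748) (nat_lit 2728214266) (nat_lit 76) (nat_lit 5323509) (nat_lit 441) (nat_lit 5) (nat_lit 464) (nat_lit 5) (nat_lit 442) (nat_lit 5) (nat_lit 560) (nat_lit 510) (nat_lit 490))))) (XT.nd (nat_lit 156) (nat_lit 1824) (nat_lit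 0) (XT.nd (nat_lit 78) (nat_lit 912) (nat_lit 0) (XT.lf (nat_lit 0) (nat_lit 263418502) (nat_lit 1064) (nat_lit 4975569746) (nat_lit 76) (nat_lit 2085821612) (nat_lit 427) (nat_lit 5) (nat_lit 441) (nat_lit 5) (nat_lit 428) (nat_lit 5) (nat_lit 561) (nat_lit 510) (nat_lit 489)) (XT.lf (nat_lit 0) (nat_lit 119084514) (nat_lit 912) (nat_lit 3127469570) (nat_lit 988) (nat_lit 4125609155) (nat_lit 415) (nat_lit 5) (nat_lit 427) (nat_lit 5) (nat_lit 428) (nat_lit 5) (nat_lit 562) (nat_lit 510) (nat_lit 488))) (XT.nd (nat_lit 78) (nat_lit 1824) (nat_lit 0) (XT.lf (nat_lit 0) (nat_lit 5325385716) (nat_lit 912) (nat_lit 941692413) (nat_lit 988) (nat_lit 1153841101) (nat_lit 415) (nat_lit 5) (nat_lit 427) (nat_lit 5) (nat_lit 428) (nat_lit 5) (nat_lit 563) (nat_lit 510) (nat_lit 487)) (XT.nd (nat_lit 78) (nat_lit 836) (nat_lit 0) (XT.lf (nat_lit 0) (nat_lit 1826725544) (nat_lit 988) (nat_lit 4342855843) (nat_lit 76) (nat_lit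 1301355140) (nat_lit 402) (nat_lit 5) (nat_lit 415) (nat_lit 5) (nat_lit 403) (nat_lit 5) (nat_lit 564) (nat_lit 510) (nat_lit 486)) (XT.lf (nat_lit 0) (nat_lit 902769216) (nat_lit 836) (nat_lit 3920699454) (nat_lit 912) (nat_lit 2698902140) (nat_lit 391) (nat_lit 5) (nat_lit 402) (nat_lit 5) (nat_lit 403) (nat_lit 5) (nat_lit 565) (nat_lit 510) (nat_lit 485))))))))
noncomputable def xc48 : XT := (XT.nd (nat_lit 1404) (nat_lit 7524) (nat_lit 0) (XT.nd (nat_lit 702) (nat_lit 4256) (nat_lit 0) (XT.nd (nat_lit 312) (nat_lit 3192) (nat_lit 0) (XT.nd (nat_lit 156) (nat_lit 836) (nat_lit 0) (XT.nd (nat_lit 78) (nat_lit 836) (nat_lit 0) (XT.lf (nat_lit 0) (nat_lit 276717905) (nat_lit 912) (nat_lit 1322594756) (nat_lit 76) (nat_lit 5975982398) (nat_lit 390) (nat_lit 5) (nat_lit 402) (nat_lit 5) (nat_lit 391) (nat_lit 5) (nat_lit 566) (nat_lit 510) (nat_lit 484)) (XT.lf (nat_lit 0) (nat_lit 3254481529) (nat_lit 912) (nat_lit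 3576207146) (nat_lit 76) (nat_lit 798665868) (nat_lit 379) (nat_lit 5) (nat_lit 391) (nat_lit 5) (nat_lit 380) (nat_lit 5) (nat_lit 567) (nat_lit 510) (nat_lit 483))) (XT.nd (nat_lit 78) (nat_lit 76) (nat_lit 0) (XT.lf (nat_lit 0) (nat_lit 1825459442) (nat_lit 760) (nat_lit 4445487137) (nat_lit 836) (nat_lit 1413974473) (nat_lit 369) (nat_lit 5) (nat_lit 379) (nat_lit 5) (nat_lit 380) (nat_lit 5) (nat_lit 568) (nat_lit 510) (nat_lit 482)) (XT.lf (nat_lit 0) (nat_lit 1557303834) (nat_lit 836) (nat_lit 426234522) (nat_lit 76) (nat_lit 5758415859) (nat_lit 368) (nat_lit 5) (nat_lit 379) (nat_lit 5) (nat_lit 369) (nat_lit 5) (nat_lit 569) (nat_lit 510) (nat_lit 481)))) (XT.nd (nat_lit 156) (nat_lit 1596) (nat_lit 0) (XT.nd (nat_lit 78) (nat_lit 760) (nat_lit 0) (XT.lf (nat_lit 0) (nat_lit 4555067061) (nat_lit 912) (nat_lit 2687599728) (nat_lit 76) (nat_lit 557562726) (nat_lit 357) (nat_lit 5) (nat_lit 369) (nat_lit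 5) (nat_lit 358) (nat_lit 5) (nat_lit 570) (nat_lit 510) (nat_lit 480)) (XT.lf (nat_lit 0) (nat_lit 2875370963) (nat_lit 760) (nat_lit 4721775484) (nat_lit 836) (nat_lit 262844749) (nat_lit 347) (nat_lit 5) (nat_lit 357) (nat_lit 5) (nat_lit 358) (nat_lit 5) (nat_lit 571) (nat_lit 510) (nat_lit 479))) (XT.nd (nat_lit 78) (nat_lit 760) (nat_lit 0) (XT.lf (nat_lit 0) (nat_lit 597198992) (nat_lit 760) (nat_lit 2117458644) (nat_lit 836) (nat_lit 5206497635) (nat_lit 336) (nat_lit 5) (nat_lit 346) (nat_lit 5) (nat_lit 347) (nat_lit 5) (nat_lit 572) (nat_lit 510) (nat_lit 478)) (XT.nd (nat_lit 78) (nat_lit 760) (nat_lit 0) (XT.lf (nat_lit 0) (nat_lit 5735874077) (nat_lit 836) (nat_lit 1688590218) (nat_lit 76) (nat_lit 559297538) (nat_lit 336) (nat_lit 5) (nat_lit 347) (nat_lit 5) (nat_lit 337) (nat_lit 5) (nat_lit 573) (nat_lit 510) (nat_lit 477)) (XT.lf (nat_lit 0) (nat_lit 751476009) (nat_lit 760) (nat_lit 4011607709)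 (nat_lit 76) (nat_lit 3284610584) (nat_lit 326) (nat_lit 5) (nat_lit 336) (nat_lit 5) (nat_lit 327) (nat_lit 5) (nat_lit 574) (nat_lit 510) (nat_lit 476)))))) (XT.nd (nat_lit 312) (nat_lit 2052) (nat_lit 0) (XT.nd (nat_lit 156) (nat_lit 1444) (nat_lit 0) (XT.nd (nat_lit 78) (nat_lit 0) (nat_lit 0) (XT.lf (nat_lit 0) (nat_lit 1735666904) (nat_lit 760) (nat_lit 2019501885) (nat_lit 836) (nat_lit 4357957827) (nat_lit 316) (nat_lit 5) (nat_lit 326) (nat_lit 5) (nat_lit 327) (nat_lit 5) (nat_lit 575) (nat_lit 510) (nat_lit 475)) (XT.lf (nat_lit 0) (nat_lit 6803341404) (nat_lit 836) (nat_lit 590421839) (nat_lit 76) (nat_lit 786423258) (nat_lit 316) (nat_lit 5) (nat_lit 327) (nat_lit 5) (nat_lit 317) (nat_lit 5) (nat_lit 576) (nat_lit 510) (nat_lit 474))) (XT.nd (nat_lit 78) (nat_lit 684) (nat_lit 0) (XT.lf (nat_lit 0) (nat_lit 1643115319) (nat_lit 760) (nat_lit 2947720150) (nat_lit 76) (nat_lit 3657521869) (nat_lit 306)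 (nat_lit 5) (nat_lit 316) (nat_lit 5) (nat_lit 307) (nat_lit 5) (nat_lit 577) (nat_lit 510) (nat_lit 473)) (XT.lf (nat_lit 0) (nat_lit 2972312974) (nat_lit 684) (nat_lit 1709453572) (nat_lit 760) (nat_lit 3636415115) (nat_lit 297) (nat_lit 5) (nat_lit 306) (nat_lit 5) (nat_lit 307) (nat_lit 5) (nat_lit 578) (nat_lit 510) (nat_lit 472)))) (XT.nd (nat_lit 156) (nat_lit 1368) (nat_lit 0) (XT.nd (nat_lit 78) (nat_lit 76) (nat_lit 0) (XT.lf (nat_lit 0) (nat_lit 603787999) (nat_lit 608) (nat_lit 7163115477) (nat_lit 684) (nat_lit 622791248) (nat_lit 289) (nat_lit 5) (nat_lit 297) (nat_lit 5) (nat_lit 298) (nat_lit 5) (nat_lit 579) (nat_lit 510) (nat_lit 471)) (XT.lf (nat_lit 0) (nat_lit 2420511731) (nat_lit 684) (nat_lit 1802440747) (nat_lit 76) (nat_lit 4239342474) (nat_lit 288) (nat_lit 5) (nat_lit 297) (nat_lit 5) (nat_lit 289) (nat_lit 5) (nat_lit 580) (nat_lit 510) (nat_lit 470))) (XT.nd (nat_lit 78) (nat_lit 684)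 (nat_lit 0) (XT.lf (nat_lit 0) (nat_lit 4296100520) (nat_lit 684) (nat_lit 1203162858) (nat_lit 760) (nat_lit 3037349172) (nat_lit 279) (nat_lit 5) (nat_lit 288) (nat_lit 5) (nat_lit 289) (nat_lit 5) (nat_lit 581) (nat_lit 510) (nat_lit 469)) (XT.nd (nat_lit 78) (nat_lit 0) (nat_lit 0) (XT.lf (nat_lit 0) (nat_lit 18812049) (nat_lit 684) (nat_lit 6728649341) (nat_lit 76) (nat_lit 1865117577) (nat_lit 270) (nat_lit 5) (nat_lit 279) (nat_lit 5) (nat_lit 271) (nat_lit 5) (nat_lit 582) (nat_lit 510) (nat_lit 468)) (XT.lf (nat_lit 0) (nat_lit 3087742083) (nat_lit 684) (nat_lit 586901268) (nat_lit 76) (nat_lit 5015179288) (nat_lit 270) (nat_lit 5) (nat_lit 279) (nat_lit 5) (nat_lit 271) (nat_lit 5) (nat_lit 583) (nat_lit 510) (nat_lit 467))))))) (XT.nd (nat_lit 702) (nat_lit 3420) (nat_lit 0) (XT.nd (nat_lit 312) (nat_lit 2280) (nat_lit 0) (XT.nd (nat_lit 156) (nat_lit 608) (nat_lit 0) (XT.nd (nat_lit 78) (nat_lit 608)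 (nat_lit 0) (XT.lf (nat_lit 0) (nat_lit 5696037559) (nat_lit 608) (nat_lit 515530114) (nat_lit 684) (nat_lit 2557178838) (nat_lit 262) (nat_lit 5) (nat_lit 270) (nat_lit 5) (nat_lit 271) (nat_lit 5) (nat_lit 584) (nat_lit 510) (nat_lit 466)) (XT.lf (nat_lit 0) (nat_lit 540874772) (nat_lit 608) (nat_lit 5621380935) (nat_lit 76) (nat_lit 2686938376) (nat_lit 254) (nat_lit 5) (nat_lit 262) (nat_lit 5) (nat_lit 255) (nat_lit 5) (nat_lit 585) (nat_lit 510) (nat_lit 465))) (XT.nd (nat_lit 78) (nat_lit 0) (nat_lit 0) (XT.lf (nat_lit 0) (nat_lit 696852205) (nat_lit 608) (nat_lit 2955652984) (nat_lit 684) (nat_lit 5278695569) (nat_lit 246) (nat_lit 5) (nat_lit 254) (nat_lit 5) (nat_lit 255) (nat_lit 5) (nat_lit 586) (nat_lit 510) (nat_lit 464)) (XT.lf (nat_lit 0) (nat_lit 6823897028) (nat_lit 684) (nat_lit 1856086034) (nat_lit 76) (nat_lit 334919163) (nat_lit 246) (nat_lit 5) (nat_lit 255) (nat_lit 5) (nat_lit 247) (nat_lit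 5) (nat_lit 587) (nat_lit 510) (nat_lit 463)))) (XT.nd (nat_lit 156) (nat_lit 1140) (nat_lit 0) (XT.nd (nat_lit 78) (nat_lit 532) (nat_lit 0) (XT.lf (nat_lit 0) (nat_lit 953926440) (nat_lit 608) (nat_lit 4471667529) (nat_lit 76) (nat_lit 3674403176) (nat_lit 238) (nat_lit 5) (nat_lit 246) (nat_lit 5) (nat_lit 239) (nat_lit 5) (nat_lit 588) (nat_lit 510) (nat_lit 462)) (XT.lf (nat_lit 0) (nat_lit 2036759946) (nat_lit 532) (nat_lit 2079968725) (nat_lit 608) (nat_lit 5070094382) (nat_lit 231) (nat_lit 5) (nat_lit 238) (nat_lit 5) (nat_lit 239) (nat_lit 5) (nat_lit 589) (nat_lit 510) (nat_lit 461))) (XT.nd (nat_lit 78) (nat_lit 1140) (nat_lit 0) (XT.lf (nat_lit 0) (nat_lit 7340517196) (nat_lit 608) (nat_lit 604430804) (nat_lit 76) (nat_lit 1330487710) (nat_lit 231) (nat_lit 5) (nat_lit 239) (nat_lit 5) (nat_lit 232) (nat_lit 5) (nat_lit 590) (nat_lit 510) (nat_lit 460)) (XT.nd (nat_lit 78) (nat_lit 532) (nat_lit 0)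 (XT.lf (nat_lit 0) (nat_lit 1259422732) (nat_lit 608) (nat_lit 3291392448) (nat_lit 76) (nat_lit 4814585571) (nat_lit 223) (nat_lit 5) (nat_lit 231) (nat_lit 5) (nat_lit 224) (nat_lit 5) (nat_lit 591) (nat_lit 510) (nat_lit 459)) (XT.lf (nat_lit 0) (nat_lit 3413225127) (nat_lit 532) (nat_lit 1064626854) (nat_lit 608) (nat_lit 4979339678) (nat_lit 216) (nat_lit 5) (nat_lit 223) (nat_lit 5) (nat_lit 224) (nat_lit 5) (nat_lit 592) (nat_lit 510) (nat_lit 458)))))) (XT.nd (nat_lit 390) (nat_lit 1824) (nat_lit 0) (XT.nd (nat_lit 156) (nat_lit 1064) (nat_lit 0) (XT.nd (nat_lit 78) (nat_lit 76) (nat_lit 0) (XT.lf (nat_lit 0) (nat_lit 682651653) (nat_lit 456) (nat_lit 7081005644) (nat_lit 532) (nat_lit 1787105404) (nat_lit 210) (nat_lit 5) (nat_lit 216) (nat_lit 5) (nat_lit 217) (nat_lit 5) (nat_lit 593) (nat_lit 510) (nat_lit 457)) (XT.lf (nat_lit 0) (nat_lit 1457905442) (nat_lit 532) (nat_lit 2092837276) (nat_lit 76)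 (nat_lit 6095112035) (nat_lit 209) (nat_lit 5) (nat_lit 216) (nat_lit 5) (nat_lit 210) (nat_lit 5) (nat_lit 594) (nat_lit 510) (nat_lit 456))) (XT.nd (nat_lit 78) (nat_lit 532) (nat_lit 0) (XT.lf (nat_lit 0) (nat_lit 4736768807) (nat_lit 608) (nat_lit 4929242391) (nat_lit 76) (nat_lit 76747768) (nat_lit 202) (nat_lit 5) (nat_lit 210) (nat_lit 5) (nat_lit 203) (nat_lit 5) (nat_lit 595) (nat_lit 510) (nat_lit 455)) (XT.nd (nat_lit 78) (nat_lit 76) (nat_lit 0) (XT.lf (nat_lit 0) (nat_lit 1992047544) (nat_lit 456) (nat_lit 6101146435) (nat_lit 532) (nat_lit 1748171721) (nat_lit 196) (nat_lit 5) (nat_lit 202) (nat_lit 5) (nat_lit 203) (nat_lit 5) (nat_lit 596) (nat_lit 510) (nat_lit 454)) (XT.lf (nat_lit 0) (nat_lit 1548986891) (nat_lit 532) (nat_lit 888812847) (nat_lit 76) (nat_lit 7504047551) (nat_lit 195) (nat_lit 5) (nat_lit 202) (nat_lit 5) (nat_lit 196) (nat_lit 5) (nat_lit 597) (nat_lit 510) (nat_lit 453)))))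 (XT.nd (nat_lit 156) (nat_lit 912) (nat_lit 0) (XT.nd (nat_lit 78) (nat_lit 456) (nat_lit 0) (XT.lf (nat_lit 0) (nat_lit 4900091015) (nat_lit 532) (nat_lit 3826313359) (nat_lit 76) (nat_lit 1317478710) (nat_lit 189) (nat_lit 5) (nat_lit 196) (nat_lit 5) (nat_lit 190) (nat_lit 5) (nat_lit 598) (nat_lit 510) (nat_lit 452)) (XT.lf (nat_lit 0) (nat_lit 3302561076) (nat_lit 456) (nat_lit 5021819293) (nat_lit 532) (nat_lit 1823459775) (nat_lit 183) (nat_lit 5) (nat_lit 189) (nat_lit 5) (nat_lit 190) (nat_lit 5) (nat_lit 599) (nat_lit 510) (nat_lit 451))) (XT.nd (nat_lit 78) (nat_lit 380) (nat_lit 0) (XT.lf (nat_lit 0) (nat_lit 311284644) (nat_lit 456) (nat_lit 1222062996) (nat_lit 532) (nat_lit 8720517950) (nat_lit 176) (nat_lit 5) (nat_lit 182) (nat_lit 5) (nat_lit 183) (nat_lit 5) (nat_lit 600) (nat_lit 510) (nat_lit 450)) (XT.nd (nat_lit 78) (nat_lit 380) (nat_lit 0) (XT.lf (nat_lit 0) (nat_lit 4959332102) (nat_lit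 532) (nat_lit 2742193320) (nat_lit 76) (nat_lit 2659719513) (nat_lit 176) (nat_lit 5) (nat_lit 183) (nat_lit 5) (nat_lit 177) (nat_lit 5) (nat_lit 601) (nat_lit 510) (nat_lit 449)) (XT.lf (nat_lit 0) (nat_lit 4600265700) (nat_lit 380) (nat_lit 3855222898) (nat_lit 456) (nat_lit 2015253745) (nat_lit 171) (nat_lit 5) (nat_lit 176) (nat_lit 5) (nat_lit 177) (nat_lit 5) (nat_lit 602) (nat_lit 510) (nat_lit 448))))))))
noncomputable def xc49 : XT := (XT.nd (nat_lit 1482) (nat_lit 304) (nat_lit 0) (XT.nd (nat_lit 702) (nat_lit 2432) (nat_lit 0) (XT.nd (nat_lit 312) (nat_lit 1140) (nat_lit 0) (XT.nd (nat_lit 156) (nat_lit 836) (nat_lit 0) (XT.nd (nat_lit 78) (nat_lit 0) (nat_lit 0) (XT.lf (nat_lit 0) (nat_lit 1412915499) (nat_lit 532) (nat_lit 9082383802) (nat_lit 76) (nat_lit 87093876) (nat_lit 164) (nat_lit 5) (nat_lit 171) (nat_lit 5) (nat_lit 165) (nat_lit 5) (nat_lit 603) (nat_lit 510) (nat_lit 447)) (XT.lf (nat_lit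 0) (nat_lit 4911929197) (nat_lit 532) (nat_lit 1691695790) (nat_lit 76) (nat_lit 4091803636) (nat_lit 164) (nat_lit 5) (nat_lit 171) (nat_lit 5) (nat_lit 165) (nat_lit 5) (nat_lit 604) (nat_lit 510) (nat_lit 446))) (XT.nd (nat_lit 78) (nat_lit 456) (nat_lit 0) (XT.lf (nat_lit 0) (nat_lit 5870316436) (nat_lit 380) (nat_lit 2613479483) (nat_lit 456) (nat_lit 2326874658) (nat_lit 159) (nat_lit 5) (nat_lit 164) (nat_lit 5) (nat_lit 165) (nat_lit 5) (nat_lit 605) (nat_lit 510) (nat_lit 445)) (XT.lf (nat_lit 0) (nat_lit 1186252133) (nat_lit 456) (nat_lit 8285940059) (nat_lit 76) (nat_lit 1455810766) (nat_lit 153) (nat_lit 5) (nat_lit 159) (nat_lit 5) (nat_lit 154) (nat_lit 5) (nat_lit 606) (nat_lit 510) (nat_lit 444)))) (XT.nd (nat_lit 156) (nat_lit 760) (nat_lit 0) (XT.nd (nat_lit 78) (nat_lit 380) (nat_lit 0) (XT.lf (nat_lit 0) (nat_lit 4754287316) (nat_lit 456) (nat_lit 690684252) (nat_lit 76) (nat_lit 5602089817)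 (nat_lit 153) (nat_lit 5) (nat_lit 159) (nat_lit 5) (nat_lit 154) (nat_lit 5) (nat_lit 607) (nat_lit 510) (nat_lit 443)) (XT.lf (nat_lit 0) (nat_lit 7096783372) (nat_lit 380) (nat_lit 1308755132) (nat_lit 456) (nat_lit 2762728376) (nat_lit 148) (nat_lit 5) (nat_lit 153) (nat_lit 5) (nat_lit 154) (nat_lit 5) (nat_lit 608) (nat_lit 510) (nat_lit 442))) (XT.nd (nat_lit 78) (nat_lit 304) (nat_lit 0) (XT.lf (nat_lit 0) (nat_lit 840813975) (nat_lit 456) (nat_lit 7562523569) (nat_lit 76) (nat_lit 2888175322) (nat_lit 142) (nat_lit 5) (nat_lit 148) (nat_lit 5) (nat_lit 143) (nat_lit 5) (nat_lit 609) (nat_lit 510) (nat_lit 441)) (XT.nd (nat_lit 78) (nat_lit 0) (nat_lit 0) (XT.lf (nat_lit 0) (nat_lit 246992074) (nat_lit 304) (nat_lit 4236338212) (nat_lit 380) (nat_lit 6933453164) (nat_lit 138) (nat_lit 5) (nat_lit 142) (nat_lit 5) (nat_lit 143) (nat_lit 5) (nat_lit 610) (nat_lit 510) (nat_lit 440)) (XT.lf (nat_lit 0) (nat_lit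 8216158477) (nat_lit 380) (nat_lit 3282049544) (nat_lit 76) (nat_lit 46004970) (nat_lit 138) (nat_lit 5) (nat_lit 143) (nat_lit 5) (nat_lit 139) (nat_lit 5) (nat_lit 611) (nat_lit 510) (nat_lit 439)))))) (XT.nd (nat_lit 390) (nat_lit 988) (nat_lit 0) (XT.nd (nat_lit 156) (nat_lit 684) (nat_lit 0) (XT.nd (nat_lit 78) (nat_lit 304) (nat_lit 0) (XT.lf (nat_lit 0) (nat_lit 370849755) (nat_lit 456) (nat_lit 6930732158) (nat_lit 76) (nat_lit 4372046887) (nat_lit 132) (nat_lit 5) (nat_lit 138) (nat_lit 5) (nat_lit 133) (nat_lit 5) (nat_lit 612) (nat_lit 510) (nat_lit 438)) (XT.lf (nat_lit 0) (nat_lit 1107639099) (nat_lit 304) (nat_lit 2987972454) (nat_lit 380) (nat_lit 7709655179) (nat_lit 128) (nat_lit 5) (nat_lit 132) (nat_lit 5) (nat_lit 133) (nat_lit 5) (nat_lit 613) (nat_lit 510) (nat_lit 437))) (XT.nd (nat_lit 78) (nat_lit 684) (nat_lit 0) (XT.lf (nat_lit 0) (nat_lit 7918074394) (nat_lit 380) (nat_lit 2599882499)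 (nat_lit 76) (nat_lit 1421118978) (nat_lit 128) (nat_lit 5) (nat_lit 133) (nat_lit 5) (nat_lit 129) (nat_lit 5) (nat_lit 614) (nat_lit 510) (nat_lit 436)) (XT.nd (nat_lit 78) (nat_lit 380) (nat_lit 0) (XT.lf (nat_lit 0) (nat_lit 5662802354) (nat_lit 304) (nat_lit 6178603302) (nat_lit 380) (nat_lit 233669670) (nat_lit 124) (nat_lit 5) (nat_lit 128) (nat_lit 5) (nat_lit 129) (nat_lit 5) (nat_lit 615) (nat_lit 510) (nat_lit 435)) (XT.lf (nat_lit 0) (nat_lit 1861687936) (nat_lit 304) (nat_lit 1717719200) (nat_lit 380) (nat_lit 8633966787) (nat_lit 119) (nat_lit 5) (nat_lit 123) (nat_lit 5) (nat_lit 124) (nat_lit 5) (nat_lit 616) (nat_lit 510) (nat_lit 434))))) (XT.nd (nat_lit 156) (nat_lit 684) (nat_lit 0) (XT.nd (nat_lit 78) (nat_lit 304) (nat_lit 0) (XT.lf (nat_lit 0) (nat_lit 7495442419) (nat_lit 380) (nat_lit 2037509004) (nat_lit 76) (nat_lit 2820862033) (nat_lit 119) (nat_lit 5) (nat_lit 124) (nat_lit 5) (nat_lit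 120) (nat_lit 5) (nat_lit 617) (nat_lit 510) (nat_lit 433)) (XT.lf (nat_lit 0) (nat_lit 6465631595) (nat_lit 304) (nat_lit 5046265184) (nat_lit 380) (nat_lit 984725356) (nat_lit 115) (nat_lit 5) (nat_lit 119) (nat_lit 5) (nat_lit 120) (nat_lit 5) (nat_lit 618) (nat_lit 510) (nat_lit 432))) (XT.nd (nat_lit 78) (nat_lit 304) (nat_lit 0) (XT.lf (nat_lit 0) (nat_lit 2486881028) (nat_lit 304) (nat_lit 439339029) (nat_lit 380) (nat_lit 9715709337) (nat_lit 110) (nat_lit 5) (nat_lit 114) (nat_lit 5) (nat_lit 115) (nat_lit 5) (nat_lit 619) (nat_lit 510) (nat_lit 431)) (XT.nd (nat_lit 78) (nat_lit 304) (nat_lit 0) (XT.lf (nat_lit 0) (nat_lit 6939585441) (nat_lit 380) (nat_lit 1617901473) (nat_lit 76) (nat_lit 4231780162) (nat_lit 110) (nat_lit 5) (nat_lit 115) (nat_lit 5) (nat_lit 111) (nat_lit 5) (nat_lit 620) (nat_lit 510) (nat_lit 430)) (XT.lf (nat_lit 0) (nat_lit 7130614348) (nat_lit 304) (nat_lit 3921396367) (nat_lit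 380) (nat_lit 1887167092) (nat_lit 106) (nat_lit 5) (nat_lit 110) (nat_lit 5) (nat_lit 111) (nat_lit 5) (nat_lit 621) (nat_lit 510) (nat_lit 429))))))) (XT.nd (nat_lit 75270) (nat_lit 0) (nat_lit 31008) (XT.nd (nat_lit 74880) (nat_lit 0) (nat_lit 40888) (XT.nd (nat_lit 74724) (nat_lit 0) (nat_lit 44080) (XT.nd (nat_lit 74646) (nat_lit 0) (nat_lit 44916) (XT.lf (nat_lit 0) (nat_lit 2131544614) (nat_lit 304) (nat_lit 10138373001) (nat_lit 76) (nat_lit 821787324) (nat_lit 102) (nat_lit 5) (nat_lit 106) (nat_lit 5) (nat_lit 103) (nat_lit 5) (nat_lit 622) (nat_lit 510) (nat_lit 428)) (XT.lf (nat_lit 0) (nat_lit 43321484) (nat_lit 836) (nat_lit 3212318802) (nat_lit 0) (nat_lit 43321484) (nat_lit 693) (nat_lit 5) (nat_lit 704) (nat_lit 4) (nat_lit 693) (nat_lit 4) (nat_lit 538) (nat_lit 511) (nat_lit 511))) (XT.nd (nat_lit 78) (nat_lit 836) (nat_lit 0) (XT.lf (nat_lit 0) (nat_lit 3323135855) (nat_lit 836) (nat_lit 2326883266)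 (nat_lit 0) (nat_lit 965619150) (nat_lit 693) (nat_lit 5) (nat_lit 704) (nat_lit 4) (nat_lit 693) (nat_lit 4) (nat_lit 539) (nat_lit 511) (nat_lit 510)) (XT.lf (nat_lit 0) (nat_lit 1821654147) (nat_lit 836) (nat_lit 4741056332) (nat_lit 836) (nat_lit 72248741) (nat_lit 682) (nat_lit 4) (nat_lit 693) (nat_lit 5) (nat_lit 693) (nat_lit 4) (nat_lit 540) (nat_lit 511) (nat_lit 509)))) (XT.nd (nat_lit 156) (nat_lit 2204) (nat_lit 0) (XT.nd (nat_lit 78) (nat_lit 912) (nat_lit 0) (XT.lf (nat_lit 0) (nat_lit 3113108978) (nat_lit 912) (nat_lit 646298912) (nat_lit 76) (nat_lit 2896003172) (nat_lit 681) (nat_lit 5) (nat_lit 693) (nat_lit 5) (nat_lit 682) (nat_lit 4) (nat_lit 541) (nat_lit 511) (nat_lit 508)) (XT.lf (nat_lit 0) (nat_lit 3596136869) (nat_lit 912) (nat_lit 2716960439) (nat_lit 988) (nat_lit 364145131) (nat_lit 669) (nat_lit 5) (nat_lit 681) (nat_lit 5) (nat_lit 682) (nat_lit 4) (nat_lit 542) (nat_lit 511) (nat_lit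 507))) (XT.nd (nat_lit 78) (nat_lit 1140) (nat_lit 0) (XT.lf (nat_lit 0) (nat_lit 1174250942) (nat_lit 988) (nat_lit 1606680737) (nat_lit 1064) (nat_lit 3919400341) (nat_lit 655) (nat_lit 5) (nat_lit 668) (nat_lit 5) (nat_lit 669) (nat_lit 5) (nat_lit 543) (nat_lit 511) (nat_lit 506)) (XT.nd (nat_lit 78) (nat_lit 1140) (nat_lit 0) (XT.lf (nat_lit 0) (nat_lit 5499203172) (nat_lit 988) (nat_lit 435636419) (nat_lit 1064) (nat_lit 789996387) (nat_lit 655) (nat_lit 5) (nat_lit 668) (nat_lit 5) (nat_lit 669) (nat_lit 5) (nat_lit 544) (nat_lit 511) (nat_lit 505)) (XT.lf (nat_lit 0) (nat_lit 2327123787) (nat_lit 1140) (nat_lit 3624153969) (nat_lit 76) (nat_lit 799123922) (nat_lit 640) (nat_lit 5) (nat_lit 655) (nat_lit 5) (nat_lit 641) (nat_lit 5) (nat_lit 545) (nat_lit 511) (nat_lit 504)))))) (XT.nd (nat_lit 390) (nat_lit 6080) (nat_lit 0) (XT.nd (nat_lit 156) (nat_lit 2584) (nat_lit 0) (XT.nd (nat_lit 78) (nat_lit 76)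 (nat_lit 0) (XT.lf (nat_lit 0) (nat_lit 751354114) (nat_lit 1140) (nat_lit 4692835236) (nat_lit 1216) (nat_lit 1333237146) (nat_lit 625) (nat_lit 5) (nat_lit 640) (nat_lit 5) (nat_lit 641) (nat_lit 5) (nat_lit 546) (nat_lit 511) (nat_lit 503)) (XT.lf (nat_lit 0) (nat_lit 1751875411) (nat_lit 1216) (nat_lit 1609312883) (nat_lit 76) (nat_lit 3444440167) (nat_lit 624) (nat_lit 5) (nat_lit 640) (nat_lit 5) (nat_lit 625) (nat_lit 5) (nat_lit 547) (nat_lit 511) (nat_lit 502))) (XT.nd (nat_lit 78) (nat_lit 1368) (nat_lit 0) (XT.lf (nat_lit 0) (nat_lit 2869351594) (nat_lit 1216) (nat_lit 1964095043) (nat_lit 1292) (nat_lit 2001734356) (nat_lit 608) (nat_lit 5) (nat_lit 624) (nat_lit 5) (nat_lit 625) (nat_lit 5) (nat_lit 548) (nat_lit 511) (nat_lit 501)) (XT.nd (nat_lit 78) (nat_lit 0) (nat_lit 0) (XT.lf (nat_lit 0) (nat_lit 538313596) (nat_lit 1292) (nat_lit 507256905) (nat_lit 1368) (nat_lit 5820647713) (nat_lit 590)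 (nat_lit 5) (nat_lit 607) (nat_lit 5) (nat_lit 608) (nat_lit 5) (nat_lit 549) (nat_lit 511) (nat_lit 500)) (XT.lf (nat_lit 0) (nat_lit 4095627402) (nat_lit 1368) (nat_lit 1787588402) (nat_lit 76) (nat_lit 1015037650) (nat_lit 590) (nat_lit 5) (nat_lit 608) (nat_lit 5) (nat_lit 591) (nat_lit 5) (nat_lit 550) (nat_lit 511) (nat_lit 499))))) (XT.nd (nat_lit 156) (nat_lit 3192) (nat_lit 0) (XT.nd (nat_lit 78) (nat_lit 1444) (nat_lit 0) (XT.lf (nat_lit 0) (nat_lit 230235291) (nat_lit 1444) (nat_lit 4111752123) (nat_lit 76) (nat_lit 2589757801) (nat_lit 571) (nat_lit 5) (nat_lit 590) (nat_lit 5) (nat_lit 572) (nat_lit 5) (nat_lit 551) (nat_lit 511) (nat_lit 498)) (XT.lf (nat_lit 0) (nat_lit 510218273) (nat_lit 1444) (nat_lit 2728593215) (nat_lit 1520) (nat_lit 3727686395) (nat_lit 552) (nat_lit 5) (nat_lit 571) (nat_lit 5) (nat_lit 572) (nat_lit 5) (nat_lit 552) (nat_lit 511) (nat_lit 497))) (XT.nd (nat_lit 78) (nat_lit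 3192) (nat_lit 0) (XT.lf (nat_lit 0) (nat_lit 5224609193) (nat_lit 1444) (nat_lit 1048574091) (nat_lit 1520) (nat_lit 729462852) (nat_lit 552) (nat_lit 5) (nat_lit 571) (nat_lit 5) (nat_lit 572) (nat_lit 5) (nat_lit 553) (nat_lit 511) (nat_lit 496)) (XT.nd (nat_lit 78) (nat_lit 1596) (nat_lit 0) (XT.lf (nat_lit 0) (nat_lit 2260829327) (nat_lit 1596) (nat_lit 4082637168) (nat_lit 76) (nat_lit 696508061) (nat_lit 531) (nat_lit 5) (nat_lit 552) (nat_lit 5) (nat_lit 532) (nat_lit 5) (nat_lit 554) (nat_lit 511) (nat_lit 495)) (XT.lf (nat_lit 0) (nat_lit 674325389) (nat_lit 1596) (nat_lit 4589883988) (nat_lit 1672) (nat_lit 1814495005) (nat_lit 510) (nat_lit 5) (nat_lit 531) (nat_lit 5) (nat_lit 532) (nat_lit 5) (nat_lit 555) (nat_lit 511) (nat_lit 494))))))))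
noncomputable def xc50 : XT := (XT.nd (nat_lit 1482) (nat_lit 8360) (nat_lit 0) (XT.nd (nat_lit 702) (nat_lit 5776) (nat_lit 0) (XT.nd (nat_lit 312) (nat_lit 4636) (nat_lit 0) (XT.nd (nat_lit 156) (nat_lit 1824) (nat_lit 0) (XT.nd (nat_lit 78) (nat_lit 1672) (nat_lit 0) (XT.lf (nat_lit 0) (nat_lit 1161284488) (nat_lit 1672) (nat_lit 1600737569) (nat_lit 76) (nat_lit 4356687516) (nat_lit 509) (nat_lit 5) (nat_lit 531) (nat_lit 5) (nat_lit 510) (nat_lit 5) (nat_lit 556) (nat_lit 511) (nat_lit 493)) (XT.lf (nat_lit 0) (nat_lit 3274204748) (nat_lit 1672) (nat_lit 860654185) (nat_lit 1748) (nat_lit 3025176107) (nat_lit 487) (nat_lit 5) (nat_lit 509) (nat_lit 5) (nat_lit 510) (nat_lit 5) (nat_lit 557) (nat_lit 511) (nat_lit 492))) (XT.nd (nat_lit 78) (nat_lit 76) (nat_lit 0) (XT.lf (nat_lit 0) (nat_lit 1016106384) (nat_lit 1748) (nat_lit 6118315595) (nat_lit 1824) (nat_lit 68446024) (nat_lit 464) (nat_lit 5) (nat_lit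 487) (nat_lit 5) (nat_lit 488) (nat_lit 5) (nat_lit 558) (nat_lit 511) (nat_lit 491)) (XT.lf (nat_lit 0) (nat_lit 2883195550) (nat_lit 1824) (nat_lit 1259210401) (nat_lit 76) (nat_lit 3104291176) (nat_lit 463) (nat_lit 5) (nat_lit 487) (nat_lit 5) (nat_lit 464) (nat_lit 5) (nat_lit 559) (nat_lit 511) (nat_lit 490)))) (XT.nd (nat_lit 156) (nat_lit 1900) (nat_lit 0) (XT.nd (nat_lit 78) (nat_lit 1064) (nat_lit 0) (XT.lf (nat_lit 0) (nat_lit 3759946459) (nat_lit 1672) (nat_lit 2101032149) (nat_lit 1748) (nat_lit 1431065351) (nat_lit 441) (nat_lit 5) (nat_lit 463) (nat_lit 5) (nat_lit 464) (nat_lit 5) (nat_lit 560) (nat_lit 511) (nat_lit 489)) (XT.lf (nat_lit 0) (nat_lit 1501925851) (nat_lit 1064) (nat_lit 5827045949) (nat_lit 76) (nat_lit 9886292) (nat_lit 427) (nat_lit 5) (nat_lit 441) (nat_lit 5) (nat_lit 428) (nat_lit 5) (nat_lit 561) (nat_lit 511) (nat_lit 488))) (XT.nd (nat_lit 78) (nat_lit 1900) (nat_lit 0) (XT.lf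 (nat_lit 0) (nat_lit 4456917778) (nat_lit 1064) (nat_lit 762138983) (nat_lit 76) (nat_lit 2167722563) (nat_lit 427) (nat_lit 5) (nat_lit 441) (nat_lit 5) (nat_lit 428) (nat_lit 5) (nat_lit 562) (nat_lit 511) (nat_lit 487)) (XT.nd (nat_lit 78) (nat_lit 912) (nat_lit 0) (XT.lf (nat_lit 0) (nat_lit 9110287) (nat_lit 988) (nat_lit 3030206985) (nat_lit 76) (nat_lit 4396862320) (nat_lit 414) (nat_lit 5) (nat_lit 427) (nat_lit 5) (nat_lit 415) (nat_lit 5) (nat_lit 563) (nat_lit 511) (nat_lit 486)) (XT.lf (nat_lit 0) (nat_lit 2153947932) (nat_lit 912) (nat_lit 778987196) (nat_lit 988) (nat_lit 4553948803) (nat_lit 402) (nat_lit 5) (nat_lit 414) (nat_lit 5) (nat_lit 415) (nat_lit 5) (nat_lit 564) (nat_lit 511) (nat_lit 485)))))) (XT.nd (nat_lit 390) (nat_lit 3192) (nat_lit 0) (XT.nd (nat_lit 156) (nat_lit 1672) (nat_lit 0) (XT.nd (nat_lit 78) (nat_lit 912) (nat_lit 0) (XT.lf (nat_lit 0) (nat_lit 5892428187) (nat_lit 988)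 (nat_lit 122242938) (nat_lit 76) (nat_lit 1524396693) (nat_lit 402) (nat_lit 5) (nat_lit 415) (nat_lit 5) (nat_lit 403) (nat_lit 5) (nat_lit 565) (nat_lit 511) (nat_lit 484)) (XT.lf (nat_lit 0) (nat_lit 1288197373) (nat_lit 912) (nat_lit 2401087977) (nat_lit 76) (nat_lit 3903114148) (nat_lit 390) (nat_lit 5) (nat_lit 402) (nat_lit 5) (nat_lit 391) (nat_lit 5) (nat_lit 566) (nat_lit 511) (nat_lit 483))) (XT.nd (nat_lit 78) (nat_lit 836) (nat_lit 0) (XT.lf (nat_lit 0) (nat_lit 2937550562) (nat_lit 836) (nat_lit 1290218383) (nat_lit 912) (nat_lit 3419458214) (nat_lit 379) (nat_lit 5) (nat_lit 390) (nat_lit 5) (nat_lit 391) (nat_lit 5) (nat_lit 567) (nat_lit 511) (nat_lit 482)) (XT.nd (nat_lit 78) (nat_lit 76) (nat_lit 0) (XT.lf (nat_lit 0) (nat_lit 656966656) (nat_lit 760) (nat_lit 6545953582) (nat_lit 836) (nat_lit 500703957) (nat_lit 369) (nat_lit 5) (nat_lit 379) (nat_lit 5) (nat_lit 380) (nat_lit 5) (nat_lit 568)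 (nat_lit 511) (nat_lit 481)) (XT.lf (nat_lit 0) (nat_lit 2433392545) (nat_lit 836) (nat_lit 1647589632) (nat_lit 76) (nat_lit 3680064755) (nat_lit 368) (nat_lit 5) (nat_lit 379) (nat_lit 5) (nat_lit 369) (nat_lit 5) (nat_lit 569) (nat_lit 511) (nat_lit 480))))) (XT.nd (nat_lit 156) (nat_lit 1520) (nat_lit 0) (XT.nd (nat_lit 78) (nat_lit 836) (nat_lit 0) (XT.lf (nat_lit 0) (nat_lit 3850741147) (nat_lit 836) (nat_lit 1543819239) (nat_lit 912) (nat_lit 2425497761) (nat_lit 357) (nat_lit 5) (nat_lit 368) (nat_lit 5) (nat_lit 369) (nat_lit 5) (nat_lit 570) (nat_lit 511) (nat_lit 479)) (XT.lf (nat_lit 0) (nat_lit 506230664) (nat_lit 836) (nat_lit 6325574747) (nat_lit 76) (nat_lit 1048811692) (nat_lit 346) (nat_lit 5) (nat_lit 357) (nat_lit 5) (nat_lit 347) (nat_lit 5) (nat_lit 571) (nat_lit 511) (nat_lit 478))) (XT.nd (nat_lit 78) (nat_lit 1520) (nat_lit 0) (XT.lf (nat_lit 0) (nat_lit 3452119369) (nat_lit 836) (nat_lit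 781402997) (nat_lit 76) (nat_lit 3708791784) (nat_lit 346) (nat_lit 5) (nat_lit 357) (nat_lit 5) (nat_lit 347) (nat_lit 5) (nat_lit 572) (nat_lit 511) (nat_lit 477)) (XT.nd (nat_lit 78) (nat_lit 760) (nat_lit 0) (XT.lf (nat_lit 0) (nat_lit 4882014756) (nat_lit 760) (nat_lit 1558506598) (nat_lit 836) (nat_lit 1565059348) (nat_lit 336) (nat_lit 5) (nat_lit 346) (nat_lit 5) (nat_lit 347) (nat_lit 5) (nat_lit 573) (nat_lit 511) (nat_lit 476)) (XT.lf (nat_lit 0) (nat_lit 1381834590) (nat_lit 760) (nat_lit 5510429223) (nat_lit 76) (nat_lit 1178034535) (nat_lit 326) (nat_lit 5) (nat_lit 336) (nat_lit 5) (nat_lit 327) (nat_lit 5) (nat_lit 574) (nat_lit 511) (nat_lit 475))))))) (XT.nd (nat_lit 702) (nat_lit 4104) (nat_lit 0) (XT.nd (nat_lit 312) (nat_lit 2052) (nat_lit 0) (XT.nd (nat_lit 156) (nat_lit 1444) (nat_lit 0) (XT.nd (nat_lit 78) (nat_lit 0) (nat_lit 0) (XT.lf (nat_lit 0) (nat_lit 188598409) (nat_lit 760) (nat_lit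 4163460442) (nat_lit 836) (nat_lit 3784344668) (nat_lit 316) (nat_lit 5) (nat_lit 326) (nat_lit 5) (nat_lit 327) (nat_lit 5) (nat_lit 575) (nat_lit 511) (nat_lit 474)) (XT.lf (nat_lit 0) (nat_lit 6020200508) (nat_lit 760) (nat_lit 1351712168) (nat_lit 836) (nat_lit 832120522) (nat_lit 316) (nat_lit 5) (nat_lit 326) (nat_lit 5) (nat_lit 327) (nat_lit 5) (nat_lit 576) (nat_lit 511) (nat_lit 473))) (XT.nd (nat_lit 78) (nat_lit 684) (nat_lit 0) (XT.lf (nat_lit 0) (nat_lit 2138309615) (nat_lit 760) (nat_lit 4609387392) (nat_lit 76) (nat_lit 1525287304) (nat_lit 306) (nat_lit 5) (nat_lit 316) (nat_lit 5) (nat_lit 307) (nat_lit 5) (nat_lit 577) (nat_lit 511) (nat_lit 472)) (XT.lf (nat_lit 0) (nat_lit 1260416090) (nat_lit 684) (nat_lit 3882824573) (nat_lit 760) (nat_lit 3200245595) (nat_lit 297) (nat_lit 5) (nat_lit 306) (nat_lit 5) (nat_lit 307) (nat_lit 5) (nat_lit 578) (nat_lit 511) (nat_lit 471)))) (XT.nd (nat_lit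 156) (nat_lit 1368) (nat_lit 0) (XT.nd (nat_lit 78) (nat_lit 684) (nat_lit 0) (XT.lf (nat_lit 0) (nat_lit 7254355083) (nat_lit 684) (nat_lit 939717178) (nat_lit 760) (nat_lit 221616325) (nat_lit 297) (nat_lit 5) (nat_lit 306) (nat_lit 5) (nat_lit 307) (nat_lit 5) (nat_lit 579) (nat_lit 511) (nat_lit 470)) (XT.lf (nat_lit 0) (nat_lit 2780366051) (nat_lit 684) (nat_lit 3633720861) (nat_lit 76) (nat_lit 2074874028) (nat_lit 288) (nat_lit 5) (nat_lit 297) (nat_lit 5) (nat_lit 289) (nat_lit 5) (nat_lit 580) (nat_lit 511) (nat_lit 469))) (XT.nd (nat_lit 78) (nat_lit 684) (nat_lit 0) (XT.lf (nat_lit 0) (nat_lit 2412543093) (nat_lit 684) (nat_lit 3412515002) (nat_lit 760) (nat_lit 2738904610) (nat_lit 279) (nat_lit 5) (nat_lit 288) (nat_lit 5) (nat_lit 289) (nat_lit 5) (nat_lit 581) (nat_lit 511) (nat_lit 468)) (XT.nd (nat_lit 78) (nat_lit 608) (nat_lit 0) (XT.lf (nat_lit 0) (nat_lit 267033065) (nat_lit 760) (nat_lit 68956255)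 (nat_lit 76) (nat_lit 8304830096) (nat_lit 278) (nat_lit 5) (nat_lit 288) (nat_lit 5) (nat_lit 279) (nat_lit 5) (nat_lit 582) (nat_lit 511) (nat_lit 467)) (XT.lf (nat_lit 0) (nat_lit 3311807396) (nat_lit 684) (nat_lit 2594664023) (nat_lit 76) (nat_lit 2812077588) (nat_lit 270) (nat_lit 5) (nat_lit 279) (nat_lit 5) (nat_lit 271) (nat_lit 5) (nat_lit 583) (nat_lit 511) (nat_lit 466)))))) (XT.nd (nat_lit 390) (nat_lit 1672) (nat_lit 0) (XT.nd (nat_lit 156) (nat_lit 1216) (nat_lit 0) (XT.nd (nat_lit 78) (nat_lit 608) (nat_lit 0) (XT.lf (nat_lit 0) (nat_lit 3633880789) (nat_lit 608) (nat_lit 2767267647) (nat_lit 684) (nat_lit 2397016884) (nat_lit 262) (nat_lit 5) (nat_lit 270) (nat_lit 5) (nat_lit 271) (nat_lit 5) (nat_lit 584) (nat_lit 511) (nat_lit 465)) (XT.lf (nat_lit 0) (nat_lit 649242021) (nat_lit 608) (nat_lit 7784973647) (nat_lit 76) (nat_lit 445372952) (nat_lit 254) (nat_lit 5) (nat_lit 262) (nat_lit 5) (nat_lit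 255) (nat_lit 5) (nat_lit 585) (nat_lit 511) (nat_lit 464))) (XT.nd (nat_lit 78) (nat_lit 1216) (nat_lit 0) (XT.lf (nat_lit 0) (nat_lit 3735541261) (nat_lit 608) (nat_lit 1503525145) (nat_lit 76) (nat_lit 3723038104) (nat_lit 254) (nat_lit 5) (nat_lit 262) (nat_lit 5) (nat_lit 255) (nat_lit 5) (nat_lit 586) (nat_lit 511) (nat_lit 463)) (XT.nd (nat_lit 78) (nat_lit 608) (nat_lit 0) (XT.lf (nat_lit 0) (nat_lit 4913241846) (nat_lit 608) (nat_lit 1961019139) (nat_lit 684) (nat_lit 2172200975) (nat_lit 246) (nat_lit 5) (nat_lit 254) (nat_lit 5) (nat_lit 255) (nat_lit 5) (nat_lit 587) (nat_lit 511) (nat_lit 462)) (XT.lf (nat_lit 0) (nat_lit 924136942) (nat_lit 608) (nat_lit 6826138534) (nat_lit 76) (nat_lit 1382248345) (nat_lit 238) (nat_lit 5) (nat_lit 246) (nat_lit 5) (nat_lit 239) (nat_lit 5) (nat_lit 588) (nat_lit 511) (nat_lit 461))))) (XT.nd (nat_lit 156) (nat_lit 1140) (nat_lit 0) (XT.nd (nat_lit 78) (nat_lit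 532) (nat_lit 0) (XT.lf (nat_lit 0) (nat_lit 4053583310) (nat_lit 608) (nat_lit 371800998) (nat_lit 76) (nat_lit 4794634932) (nat_lit 238) (nat_lit 5) (nat_lit 246) (nat_lit 5) (nat_lit 239) (nat_lit 5) (nat_lit 589) (nat_lit 511) (nat_lit 460)) (XT.lf (nat_lit 0) (nat_lit 6239233844) (nat_lit 532) (nat_lit 1007025014) (nat_lit 608) (nat_lit 2062997645) (nat_lit 231) (nat_lit 5) (nat_lit 238) (nat_lit 5) (nat_lit 239) (nat_lit 5) (nat_lit 590) (nat_lit 511) (nat_lit 459))) (XT.nd (nat_lit 78) (nat_lit 532) (nat_lit 0) (XT.lf (nat_lit 0) (nat_lit 1090276331) (nat_lit 608) (nat_lit 5844054544) (nat_lit 76) (nat_lit 2465764497) (nat_lit 223) (nat_lit 5) (nat_lit 231) (nat_lit 5) (nat_lit 224) (nat_lit 5) (nat_lit 591) (nat_lit 511) (nat_lit 458)) (XT.nd (nat_lit 78) (nat_lit 0) (nat_lit 0) (XT.lf (nat_lit 0) (nat_lit 799185427) (nat_lit 532) (nat_lit 3473057529) (nat_lit 608) (nat_lit 5220374787) (nat_lit 216) (nat_lit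 5) (nat_lit 223) (nat_lit 5) (nat_lit 224) (nat_lit 5) (nat_lit 592) (nat_lit 511) (nat_lit 457)) (XT.lf (nat_lit 0) (nat_lit 7518646230) (nat_lit 608) (nat_lit 1987384128) (nat_lit 76) (nat_lit 80948637) (nat_lit 216) (nat_lit 5) (nat_lit 224) (nat_lit 5) (nat_lit 217) (nat_lit 5) (nat_lit 593) (nat_lit 511) (nat_lit 456))))))))
noncomputable def xc51 : XT := (XT.nd (nat_lit 1482) (nat_lit 2128) (nat_lit 0) (XT.nd (nat_lit 702) (nat_lit 2888) (nat_lit 0) (XT.nd (nat_lit 312) (nat_lit 1824) (nat_lit 0) (XT.nd (nat_lit 156) (nat_lit 532) (nat_lit 0) (XT.nd (nat_lit 78) (nat_lit 532) (nat_lit 0) (XT.lf (nat_lit 0) (nat_lit 1147946760) (nat_lit 532) (nat_lit 4851182374) (nat_lit 76) (nat_lit 3683628908) (nat_lit 209) (nat_lit 5) (nat_lit 216) (nat_lit 5) (nat_lit 210) (nat_lit 5) (nat_lit 594) (nat_lit 511) (nat_lit 455)) (XT.lf (nat_lit 0) (nat_lit 1991876622) (nat_lit 532) (nat_lit 2397224708) (nat_lit 608) (nat_lit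 5391317144) (nat_lit 202) (nat_lit 5) (nat_lit 209) (nat_lit 5) (nat_lit 210) (nat_lit 5) (nat_lit 595) (nat_lit 511) (nat_lit 454))) (XT.nd (nat_lit 78) (nat_lit 532) (nat_lit 0) (XT.lf (nat_lit 0) (nat_lit 7698293700) (nat_lit 608) (nat_lit 904758246) (nat_lit 76) (nat_lit 1276919922) (nat_lit 202) (nat_lit 5) (nat_lit 210) (nat_lit 5) (nat_lit 203) (nat_lit 5) (nat_lit 596) (nat_lit 511) (nat_lit 453)) (XT.lf (nat_lit 0) (nat_lit 1096508274) (nat_lit 532) (nat_lit 3860530943) (nat_lit 76) (nat_lit 5023965612) (nat_lit 195) (nat_lit 5) (nat_lit 202) (nat_lit 5) (nat_lit 196) (nat_lit 5) (nat_lit 597) (nat_lit 511) (nat_lit 452)))) (XT.nd (nat_lit 156) (nat_lit 912) (nat_lit 0) (XT.nd (nat_lit 78) (nat_lit 456) (nat_lit 0) (XT.lf (nat_lit 0) (nat_lit 3188360424) (nat_lit 456) (nat_lit 1212559403) (nat_lit 532) (nat_lit 5683056535) (nat_lit 189) (nat_lit 5) (nat_lit 195) (nat_lit 5) (nat_lit 196) (nat_lit 5) (nat_lit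 598) (nat_lit 511) (nat_lit 451)) (XT.lf (nat_lit 0) (nat_lit 173468438) (nat_lit 456) (nat_lit 7605386678) (nat_lit 532) (nat_lit 2410007238) (nat_lit 183) (nat_lit 5) (nat_lit 189) (nat_lit 5) (nat_lit 190) (nat_lit 5) (nat_lit 599) (nat_lit 511) (nat_lit 450))) (XT.nd (nat_lit 78) (nat_lit 836) (nat_lit 0) (XT.lf (nat_lit 0) (nat_lit 934370193) (nat_lit 532) (nat_lit 2885795868) (nat_lit 76) (nat_lit 6475202135) (nat_lit 182) (nat_lit 5) (nat_lit 189) (nat_lit 5) (nat_lit 183) (nat_lit 5) (nat_lit 600) (nat_lit 511) (nat_lit 449)) (XT.nd (nat_lit 78) (nat_lit 380) (nat_lit 0) (XT.lf (nat_lit 0) (nat_lit 4306400180) (nat_lit 532) (nat_lit 6029332585) (nat_lit 76) (nat_lit 68095610) (nat_lit 176) (nat_lit 5) (nat_lit 183) (nat_lit 5) (nat_lit 177) (nat_lit 5) (nat_lit 601) (nat_lit 511) (nat_lit 448)) (XT.lf (nat_lit 0) (nat_lit 1242798464) (nat_lit 380) (nat_lit 6520337115) (nat_lit 456) (nat_lit 2750980334)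 (nat_lit 171) (nat_lit 5) (nat_lit 176) (nat_lit 5) (nat_lit 177) (nat_lit 5) (nat_lit 602) (nat_lit 511) (nat_lit 447)))))) (XT.nd (nat_lit 390) (nat_lit 1520) (nat_lit 0) (XT.nd (nat_lit 156) (nat_lit 836) (nat_lit 0) (XT.nd (nat_lit 78) (nat_lit 456) (nat_lit 0) (XT.lf (nat_lit 0) (nat_lit 658958814) (nat_lit 456) (nat_lit 1941506966) (nat_lit 76) (nat_lit 8025955732) (nat_lit 170) (nat_lit 5) (nat_lit 176) (nat_lit 5) (nat_lit 171) (nat_lit 5) (nat_lit 603) (nat_lit 511) (nat_lit 446)) (XT.lf (nat_lit 0) (nat_lit 4110784744) (nat_lit 532) (nat_lit 5212804145) (nat_lit 76) (nat_lit 1416813435) (nat_lit 164) (nat_lit 5) (nat_lit 171) (nat_lit 5) (nat_lit 165) (nat_lit 5) (nat_lit 604) (nat_lit 511) (nat_lit 445))) (XT.nd (nat_lit 78) (nat_lit 456) (nat_lit 0) (XT.lf (nat_lit 0) (nat_lit 2276113434) (nat_lit 380) (nat_lit 5366098008) (nat_lit 456) (nat_lit 3214243217) (nat_lit 159) (nat_lit 5) (nat_lit 164) (nat_lit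 5) (nat_lit 165) (nat_lit 5) (nat_lit 605) (nat_lit 511) (nat_lit 444)) (XT.nd (nat_lit 78) (nat_lit 380) (nat_lit 0) (XT.lf (nat_lit 0) (nat_lit 266676611) (nat_lit 456) (nat_lit 1043186164) (nat_lit 76) (nat_lit 9664917908) (nat_lit 158) (nat_lit 5) (nat_lit 164) (nat_lit 5) (nat_lit 159) (nat_lit 5) (nat_lit 606) (nat_lit 511) (nat_lit 443)) (XT.lf (nat_lit 0) (nat_lit 3802357332) (nat_lit 456) (nat_lit 4454284962) (nat_lit 76) (nat_lit 2837845394) (nat_lit 153) (nat_lit 5) (nat_lit 159) (nat_lit 5) (nat_lit 154) (nat_lit 5) (nat_lit 607) (nat_lit 511) (nat_lit 442))))) (XT.nd (nat_lit 156) (nat_lit 1140) (nat_lit 0) (XT.nd (nat_lit 78) (nat_lit 0) (nat_lit 0) (XT.lf (nat_lit 0) (nat_lit 3257215041) (nat_lit 380) (nat_lit 4154855195) (nat_lit 456) (nat_lit 3804455174) (nat_lit 148) (nat_lit 5) (nat_lit 153) (nat_lit 5) (nat_lit 154) (nat_lit 5) (nat_lit 608) (nat_lit 511) (nat_lit 441)) (XT.lf (nat_lit 0) (nat_lit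 11090909534) (nat_lit 456) (nat_lit 209411365) (nat_lit 76) (nat_lit 40747232) (nat_lit 148) (nat_lit 5) (nat_lit 154) (nat_lit 5) (nat_lit 149) (nat_lit 5) (nat_lit 609) (nat_lit 511) (nat_lit 440))) (XT.nd (nat_lit 78) (nat_lit 684) (nat_lit 0) (XT.lf (nat_lit 0) (nat_lit 3376189104) (nat_lit 456) (nat_lit 3771145844) (nat_lit 76) (nat_lit 4319426615) (nat_lit 142) (nat_lit 5) (nat_lit 148) (nat_lit 5) (nat_lit 143) (nat_lit 5) (nat_lit 610) (nat_lit 511) (nat_lit 439)) (XT.nd (nat_lit 78) (nat_lit 380) (nat_lit 0) (XT.lf (nat_lit 0) (nat_lit 4168621769) (nat_lit 304) (nat_lit 2898980214) (nat_lit 380) (nat_lit 4527418776) (nat_lit 138) (nat_lit 5) (nat_lit 142) (nat_lit 5) (nat_lit 143) (nat_lit 5) (nat_lit 611) (nat_lit 511) (nat_lit 438)) (XT.lf (nat_lit 0) (nat_lit 539338967) (nat_lit 380) (nat_lit 10299387768) (nat_lit 456) (nat_lit 887003401) (nat_lit 133) (nat_lit 5) (nat_lit 138) (nat_lit 5) (nat_lit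 139) (nat_lit 5) (nat_lit 612) (nat_lit 511) (nat_lit 437))))))) (XT.nd (nat_lit 702) (nat_lit 76) (nat_lit 0) (XT.nd (nat_lit 312) (nat_lit 1292) (nat_lit 0) (XT.nd (nat_lit 156) (nat_lit 380) (nat_lit 0) (XT.nd (nat_lit 78) (nat_lit 304) (nat_lit 0) (XT.lf (nat_lit 0) (nat_lit 2826202588) (nat_lit 456) (nat_lit 3182190712) (nat_lit 76) (nat_lit 5849554999) (nat_lit 132) (nat_lit 5) (nat_lit 138) (nat_lit 5) (nat_lit 133) (nat_lit 5) (nat_lit 613) (nat_lit 511) (nat_lit 436)) (XT.lf (nat_lit 0) (nat_lit 4991374574) (nat_lit 304) (nat_lit 1611158261) (nat_lit 380) (nat_lit 5390148500) (nat_lit 128) (nat_lit 5) (nat_lit 132) (nat_lit 5) (nat_lit 133) (nat_lit 5) (nat_lit 614) (nat_lit 511) (nat_lit 435))) (XT.nd (nat_lit 78) (nat_lit 76) (nat_lit 0) (XT.lf (nat_lit 0) (nat_lit 1188159874) (nat_lit 304) (nat_lit 9282594487) (nat_lit 380) (nat_lit 1659029844) (nat_lit 124) (nat_lit 5) (nat_lit 128) (nat_lit 5) (nat_lit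 129) (nat_lit 5) (nat_lit 615) (nat_lit 511) (nat_lit 434)) (XT.lf (nat_lit 0) (nat_lit 2145097924) (nat_lit 380) (nat_lit 2707862065) (nat_lit 76) (nat_lit 7415861933) (nat_lit 123) (nat_lit 5) (nat_lit 128) (nat_lit 5) (nat_lit 124) (nat_lit 5) (nat_lit 616) (nat_lit 511) (nat_lit 433)))) (XT.nd (nat_lit 156) (nat_lit 684) (nat_lit 0) (XT.nd (nat_lit 78) (nat_lit 304) (nat_lit 0) (XT.lf (nat_lit 0) (nat_lit 5704825918) (nat_lit 304) (nat_lit 304522047) (nat_lit 380) (nat_lit 6400950344) (nat_lit 119) (nat_lit 5) (nat_lit 123) (nat_lit 5) (nat_lit 124) (nat_lit 5) (nat_lit 617) (nat_lit 511) (nat_lit 432)) (XT.lf (nat_lit 0) (nat_lit 1712682215) (nat_lit 304) (nat_lit 8265113578) (nat_lit 380) (nat_lit 2576272454) (nat_lit 115) (nat_lit 5) (nat_lit 119) (nat_lit 5) (nat_lit 120) (nat_lit 5) (nat_lit 618) (nat_lit 511) (nat_lit 431))) (XT.nd (nat_lit 78) (nat_lit 608) (nat_lit 0) (XT.lf (nat_lit 0) (nat_lit 1324267801)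 (nat_lit 380) (nat_lit 2370464499) (nat_lit 76) (nat_lit 9005476529) (nat_lit 114) (nat_lit 5) (nat_lit 119) (nat_lit 5) (nat_lit 115) (nat_lit 5) (nat_lit 619) (nat_lit 511) (nat_lit 430)) (XT.nd (nat_lit 78) (nat_lit 304) (nat_lit 0) (XT.lf (nat_lit 0) (nat_lit 5285742322) (nat_lit 380) (nat_lit 6568845553) (nat_lit 76) (nat_lit 993997516) (nat_lit 110) (nat_lit 5) (nat_lit 115) (nat_lit 5) (nat_lit 111) (nat_lit 5) (nat_lit 620) (nat_lit 511) (nat_lit 429)) (XT.lf (nat_lit 0) (nat_lit 2089293178) (nat_lit 304) (nat_lit 7261381787) (nat_lit 380) (nat_lit 3648772052) (nat_lit 106) (nat_lit 5) (nat_lit 110) (nat_lit 5) (nat_lit 111) (nat_lit 5) (nat_lit 621) (nat_lit 511) (nat_lit 428)))))) (XT.nd (nat_lit 74802) (nat_lit 0) (nat_lit 41724) (XT.nd (nat_lit 74568) (nat_lit 0) (nat_lit 44688) (XT.nd (nat_lit 74490) (nat_lit 0) (nat_lit 46208) (XT.lf (nat_lit 0) (nat_lit 353700179) (nat_lit 380) (nat_lit 2194408468)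 (nat_lit 76) (nat_lit 10604882119) (nat_lit 105) (nat_lit 5) (nat_lit 110) (nat_lit 5) (nat_lit 106) (nat_lit 5) (nat_lit 622) (nat_lit 511) (nat_lit 427)) (XT.lf (nat_lit 0) (nat_lit 1312406498) (nat_lit 684) (nat_lit 657678964) (nat_lit 0) (nat_lit 1312406498) (nat_lit 713) (nat_lit 5) (nat_lit 722) (nat_lit 4) (nat_lit 713) (nat_lit 4) (nat_lit 536) (nat_lit 512) (nat_lit 512))) (XT.nd (nat_lit 78) (nat_lit 836) (nat_lit 0) (XT.lf (nat_lit 0) (nat_lit 2691718914) (nat_lit 684) (nat_lit 3171032956) (nat_lit 684) (nat_lit 718272577) (nat_lit 704) (nat_lit 4) (nat_lit 713) (nat_lit 5) (nat_lit 713) (nat_lit 4) (nat_lit 537) (nat_lit 512) (nat_lit 511)) (XT.nd (nat_lit 78) (nat_lit 0) (nat_lit 0) (XT.lf (nat_lit 0) (nat_lit 130745554) (nat_lit 760) (nat_lit 2338647006) (nat_lit 836) (nat_lit 4128978903) (nat_lit 693) (nat_lit 5) (nat_lit 703) (nat_lit 5) (nat_lit 704) (nat_lit 4) (nat_lit 538) (nat_lit 512) (nat_lit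 510)) (XT.lf (nat_lit 0) (nat_lit 4225656918) (nat_lit 760) (nat_lit 1438006963) (nat_lit 836) (nat_lit 953276131) (nat_lit 693) (nat_lit 5) (nat_lit 703) (nat_lit 5) (nat_lit 704) (nat_lit 4) (nat_lit 539) (nat_lit 512) (nat_lit 509))))) (XT.nd (nat_lit 156) (nat_lit 2052) (nat_lit 0) (XT.nd (nat_lit 78) (nat_lit 0) (nat_lit 0) (XT.lf (nat_lit 0) (nat_lit 1720937864) (nat_lit 836) (nat_lit 473536364) (nat_lit 912) (nat_lit 4442356809) (nat_lit 681) (nat_lit 5) (nat_lit 692) (nat_lit 5) (nat_lit 693) (nat_lit 5) (nat_lit 540) (nat_lit 512) (nat_lit 508)) (XT.lf (nat_lit 0) (nat_lit 5340434363) (nat_lit 912) (nat_lit 773309317) (nat_lit 76) (nat_lit 544307661) (nat_lit 681) (nat_lit 5) (nat_lit 693) (nat_lit 5) (nat_lit 682) (nat_lit 4) (nat_lit 541) (nat_lit 512) (nat_lit 507))) (XT.nd (nat_lit 78) (nat_lit 1064) (nat_lit 0) (XT.lf (nat_lit 0) (nat_lit 1800201928) (nat_lit 988) (nat_lit 3251860016) (nat_lit 76)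 (nat_lit 1628306414) (nat_lit 668) (nat_lit 5) (nat_lit 681) (nat_lit 5) (nat_lit 669) (nat_lit 5) (nat_lit 542) (nat_lit 512) (nat_lit 506)) (XT.nd (nat_lit 78) (nat_lit 76) (nat_lit 0) (XT.lf (nat_lit 0) (nat_lit 971686517) (nat_lit 988) (nat_lit 3933093760) (nat_lit 1064) (nat_lit 1799353164) (nat_lit 655) (nat_lit 5) (nat_lit 668) (nat_lit 5) (nat_lit 669) (nat_lit 5) (nat_lit 543) (nat_lit 512) (nat_lit 505)) (XT.lf (nat_lit 0) (nat_lit 1278468746) (nat_lit 1064) (nat_lit 1467708710) (nat_lit 76) (nat_lit 3982978007) (nat_lit 654) (nat_lit 5) (nat_lit 668) (nat_lit 5) (nat_lit 655) (nat_lit 5) (nat_lit 544) (nat_lit 512) (nat_lit 504))))))))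
noncomputable def xc52 : XT := (XT.nd (nat_lit 1482) (nat_lit 10336) (nat_lit 0) (XT.nd (nat_lit 702) (nat_lit 10412) (nat_lit 0) (XT.nd (nat_lit 312) (nat_lit 4332) (nat_lit 0) (XT.nd (nat_lit 156) (nat_lit 1216) (nat_lit 0) (XT.nd (nat_lit 78) (nat_lit 1216) (nat_lit 0) (XT.lf (nat_lit 0) (nat_lit 2854223580) (nat_lit 1064) (nat_lit 1490477214) (nat_lit 1140) (nat_lit 2410736182) (nat_lit 640) (nat_lit 5) (nat_lit 654) (nat_lit 5) (nat_lit 655) (nat_lit 5) (nat_lit 545) (nat_lit 512) (nat_lit 503)) (XT.lf (nat_lit 0) (nat_lit 447595498) (nat_lit 1140) (nat_lit 179104833) (nat_lit 1216) (nat_lit 6156554703) (nat_lit 624) (nat_lit 5) (nat_lit 639) (nat_lit 5) (nat_lit 640) (nat_lit 5) (nat_lit 546) (nat_lit 512) (nat_lit 502))) (XT.nd (nat_lit 78) (nat_lit 1216) (nat_lit 0) (XT.lf (nat_lit 0) (nat_lit 3660472318) (nat_lit 1216) (nat_lit 1953736443) (nat_lit 76) (nat_lit 1197759612) (nat_lit 624) (nat_lit 5) (nat_lit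 640) (nat_lit 5) (nat_lit 625) (nat_lit 5) (nat_lit 547) (nat_lit 512) (nat_lit 501)) (XT.lf (nat_lit 0) (nat_lit 2493187701) (nat_lit 1216) (nat_lit 4214362499) (nat_lit 1292) (nat_lit 134667826) (nat_lit 608) (nat_lit 5) (nat_lit 624) (nat_lit 5) (nat_lit 625) (nat_lit 5) (nat_lit 548) (nat_lit 512) (nat_lit 500)))) (XT.nd (nat_lit 156) (nat_lit 2964) (nat_lit 0) (XT.nd (nat_lit 78) (nat_lit 0) (nat_lit 0) (XT.lf (nat_lit 0) (nat_lit 110316930) (nat_lit 1292) (nat_lit 2743242597) (nat_lit 1368) (nat_lit 4020152061) (nat_lit 590) (nat_lit 5) (nat_lit 607) (nat_lit 5) (nat_lit 608) (nat_lit 5) (nat_lit 549) (nat_lit 512) (nat_lit 499)) (XT.lf (nat_lit 0) (nat_lit 4662597601) (nat_lit 1292) (nat_lit 1202978419) (nat_lit 1368) (nat_lit 1040938454) (nat_lit 590) (nat_lit 5) (nat_lit 607) (nat_lit 5) (nat_lit 608) (nat_lit 5) (nat_lit 550) (nat_lit 512) (nat_lit 498))) (XT.nd (nat_lit 78) (nat_lit 1520) (nat_lit 0)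 (XT.lf (nat_lit 0) (nat_lit 1926877510) (nat_lit 1444) (nat_lit 4613857811) (nat_lit 76) (nat_lit 399887535) (nat_lit 571) (nat_lit 5) (nat_lit 590) (nat_lit 5) (nat_lit 572) (nat_lit 5) (nat_lit 551) (nat_lit 512) (nat_lit 497)) (XT.nd (nat_lit 78) (nat_lit 1520) (nat_lit 0) (XT.lf (nat_lit 0) (nat_lit 4901643038) (nat_lit 1444) (nat_lit 25818391) (nat_lit 76) (nat_lit 2048596751) (nat_lit 571) (nat_lit 5) (nat_lit 590) (nat_lit 5) (nat_lit 572) (nat_lit 5) (nat_lit 552) (nat_lit 512) (nat_lit 496)) (XT.lf (nat_lit 0) (nat_lit 881240406) (nat_lit 1520) (nat_lit 2357446047) (nat_lit 76) (nat_lit 3774015256) (nat_lit 551) (nat_lit 5) (nat_lit 571) (nat_lit 5) (nat_lit 552) (nat_lit 5) (nat_lit 553) (nat_lit 512) (nat_lit 495)))))) (XT.nd (nat_lit 390) (nat_lit 3724) (nat_lit 0) (XT.nd (nat_lit 156) (nat_lit 3572) (nat_lit 0) (XT.nd (nat_lit 78) (nat_lit 1596) (nat_lit 0) (XT.lf (nat_lit 0) (nat_lit 2342815019) (nat_lit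 1520) (nat_lit 1480860657) (nat_lit 1596) (nat_lit 3227031598) (nat_lit 531) (nat_lit 5) (nat_lit 551) (nat_lit 5) (nat_lit 552) (nat_lit 5) (nat_lit 554) (nat_lit 512) (nat_lit 494)) (XT.lf (nat_lit 0) (nat_lit 22778948) (nat_lit 1596) (nat_lit 6761169234) (nat_lit 1672) (nat_lit 306357021) (nat_lit 510) (nat_lit 5) (nat_lit 531) (nat_lit 5) (nat_lit 532) (nat_lit 5) (nat_lit 555) (nat_lit 512) (nat_lit 493))) (XT.nd (nat_lit 78) (nat_lit 3496) (nat_lit 0) (XT.lf (nat_lit 0) (nat_lit 2620580808) (nat_lit 1672) (nat_lit 2301249532) (nat_lit 76) (nat_lit 2208871182) (nat_lit 509) (nat_lit 5) (nat_lit 531) (nat_lit 5) (nat_lit 510) (nat_lit 5) (nat_lit 556) (nat_lit 512) (nat_lit 492)) (XT.nd (nat_lit 78) (nat_lit 1824) (nat_lit 0) (XT.lf (nat_lit 0) (nat_lit 2536991880) (nat_lit 1672) (nat_lit 3023884579) (nat_lit 1748) (nat_lit 1611821714) (nat_lit 487) (nat_lit 5) (nat_lit 509) (nat_lit 5) (nat_lit 510) (nat_lit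 5) (nat_lit 557) (nat_lit 512) (nat_lit 491)) (XT.lf (nat_lit 0) (nat_lit 227096953) (nat_lit 1748) (nat_lit 1059567887) (nat_lit 1824) (nat_lit 5929509143) (nat_lit 463) (nat_lit 5) (nat_lit 486) (nat_lit 5) (nat_lit 487) (nat_lit 5) (nat_lit 558) (nat_lit 512) (nat_lit 490))))) (XT.nd (nat_lit 156) (nat_lit 2052) (nat_lit 0) (XT.nd (nat_lit 78) (nat_lit 1672) (nat_lit 0) (XT.lf (nat_lit 0) (nat_lit 4202614575) (nat_lit 1824) (nat_lit 2082716767) (nat_lit 76) (nat_lit 975364046) (nat_lit 463) (nat_lit 5) (nat_lit 487) (nat_lit 5) (nat_lit 464) (nat_lit 5) (nat_lit 559) (nat_lit 512) (nat_lit 489)) (XT.lf (nat_lit 0) (nat_lit 2898051901) (nat_lit 1672) (nat_lit 4249382345) (nat_lit 1748) (nat_lit 159272423) (nat_lit 441) (nat_lit 5) (nat_lit 463) (nat_lit 5) (nat_lit 464) (nat_lit 5) (nat_lit 560) (nat_lit 512) (nat_lit 488))) (XT.nd (nat_lit 78) (nat_lit 988) (nat_lit 0) (XT.lf (nat_lit 0) (nat_lit 587670322)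 (nat_lit 988) (nat_lit 2136113722) (nat_lit 1064) (nat_lit 4630241691) (nat_lit 427) (nat_lit 5) (nat_lit 440) (nat_lit 5) (nat_lit 441) (nat_lit 5) (nat_lit 561) (nat_lit 512) (nat_lit 487)) (XT.nd (nat_lit 78) (nat_lit 988) (nat_lit 0) (XT.lf (nat_lit 0) (nat_lit 5638073100) (nat_lit 1064) (nat_lit 1715212203) (nat_lit 76) (nat_lit 49480604) (nat_lit 427) (nat_lit 5) (nat_lit 441) (nat_lit 5) (nat_lit 428) (nat_lit 5) (nat_lit 562) (nat_lit 512) (nat_lit 486)) (XT.lf (nat_lit 0) (nat_lit 1126019876) (nat_lit 988) (nat_lit 4047391657) (nat_lit 76) (nat_lit 2279267590) (nat_lit 414) (nat_lit 5) (nat_lit 427) (nat_lit 5) (nat_lit 415) (nat_lit 5) (nat_lit 563) (nat_lit 512) (nat_lit 485))))))) (XT.nd (nat_lit 702) (nat_lit 5168) (nat_lit 0) (XT.nd (nat_lit 312) (nat_lit 2508) (nat_lit 0) (XT.nd (nat_lit 156) (nat_lit 1748) (nat_lit 0) (XT.nd (nat_lit 78) (nat_lit 0) (nat_lit 0) (XT.lf (nat_lit 0) (nat_lit 1095618274)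 (nat_lit 912) (nat_lit 2921211919) (nat_lit 988) (nat_lit 3487218160) (nat_lit 402) (nat_lit 5) (nat_lit 414) (nat_lit 5) (nat_lit 415) (nat_lit 5) (nat_lit 564) (nat_lit 512) (nat_lit 484)) (XT.lf (nat_lit 0) (nat_lit 6341639296) (nat_lit 912) (nat_lit 598848637) (nat_lit 988) (nat_lit 616465523) (nat_lit 402) (nat_lit 5) (nat_lit 414) (nat_lit 5) (nat_lit 415) (nat_lit 5) (nat_lit 565) (nat_lit 512) (nat_lit 483))) (XT.nd (nat_lit 78) (nat_lit 836) (nat_lit 0) (XT.lf (nat_lit 0) (nat_lit 2268073878) (nat_lit 912) (nat_lit 3557229372) (nat_lit 76) (nat_lit 1785588186) (nat_lit 390) (nat_lit 5) (nat_lit 402) (nat_lit 5) (nat_lit 391) (nat_lit 5) (nat_lit 566) (nat_lit 512) (nat_lit 482)) (XT.lf (nat_lit 0) (nat_lit 1738465760) (nat_lit 836) (nat_lit 3436237888) (nat_lit 912) (nat_lit 2491678536) (nat_lit 379) (nat_lit 5) (nat_lit 390) (nat_lit 5) (nat_lit 391) (nat_lit 5) (nat_lit 567) (nat_lit 512) (nat_lit 481))))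 (XT.nd (nat_lit 156) (nat_lit 1672) (nat_lit 0) (XT.nd (nat_lit 78) (nat_lit 760) (nat_lit 0) (XT.lf (nat_lit 0) (nat_lit 384534949) (nat_lit 912) (nat_lit 592370128) (nat_lit 76) (nat_lit 6746561561) (nat_lit 378) (nat_lit 5) (nat_lit 390) (nat_lit 5) (nat_lit 379) (nat_lit 5) (nat_lit 568) (nat_lit 512) (nat_lit 480)) (XT.lf (nat_lit 0) (nat_lit 3277089033) (nat_lit 836) (nat_lit 2949277572) (nat_lit 76) (nat_lit 1555161272) (nat_lit 368) (nat_lit 5) (nat_lit 379) (nat_lit 5) (nat_lit 369) (nat_lit 5) (nat_lit 569) (nat_lit 512) (nat_lit 479))) (XT.nd (nat_lit 78) (nat_lit 836) (nat_lit 0) (XT.lf (nat_lit 0) (nat_lit 2504260437) (nat_lit 836) (nat_lit 3701028798) (nat_lit 912) (nat_lit 1635913136) (nat_lit 357) (nat_lit 5) (nat_lit 368) (nat_lit 5) (nat_lit 369) (nat_lit 5) (nat_lit 570) (nat_lit 512) (nat_lit 478)) (XT.nd (nat_lit 78) (nat_lit 0) (nat_lit 0) (XT.lf (nat_lit 0) (nat_lit 143444517) (nat_lit 760)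 (nat_lit 1101816785) (nat_lit 836) (nat_lit 6657205238) (nat_lit 346) (nat_lit 5) (nat_lit 356) (nat_lit 5) (nat_lit 357) (nat_lit 5) (nat_lit 571) (nat_lit 512) (nat_lit 477)) (XT.lf (nat_lit 0) (nat_lit 4160183524) (nat_lit 836) (nat_lit 2235253940) (nat_lit 76) (nat_lit 1569349152) (nat_lit 346) (nat_lit 5) (nat_lit 357) (nat_lit 5) (nat_lit 347) (nat_lit 5) (nat_lit 572) (nat_lit 512) (nat_lit 476)))))) (XT.nd (nat_lit 390) (nat_lit 2128) (nat_lit 0) (XT.nd (nat_lit 156) (nat_lit 1520) (nat_lit 0) (XT.nd (nat_lit 78) (nat_lit 760) (nat_lit 0) (XT.lf (nat_lit 0) (nat_lit 3381466804) (nat_lit 760) (nat_lit 3734030312) (nat_lit 836) (nat_lit 913221449) (nat_lit 336) (nat_lit 5) (nat_lit 346) (nat_lit 5) (nat_lit 347) (nat_lit 5) (nat_lit 573) (nat_lit 512) (nat_lit 475)) (XT.lf (nat_lit 0) (nat_lit 992038967) (nat_lit 684) (nat_lit 991885024) (nat_lit 760) (nat_lit 6110255055) (nat_lit 326) (nat_lit 5) (nat_lit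 335) (nat_lit 5) (nat_lit 336) (nat_lit 5) (nat_lit 574) (nat_lit 512) (nat_lit 474))) (XT.nd (nat_lit 78) (nat_lit 1520) (nat_lit 0) (XT.lf (nat_lit 0) (nat_lit 4923519140) (nat_lit 760) (nat_lit 1426554699) (nat_lit 76) (nat_lit 1810826379) (nat_lit 326) (nat_lit 5) (nat_lit 336) (nat_lit 5) (nat_lit 327) (nat_lit 5) (nat_lit 575) (nat_lit 512) (nat_lit 473)) (XT.nd (nat_lit 78) (nat_lit 760) (nat_lit 0) (XT.lf (nat_lit 0) (nat_lit 4358860834) (nat_lit 760) (nat_lit 3552435773) (nat_lit 836) (nat_lit 317878169) (nat_lit 316) (nat_lit 5) (nat_lit 326) (nat_lit 5) (nat_lit 327) (nat_lit 5) (nat_lit 576) (nat_lit 512) (nat_lit 472)) (XT.lf (nat_lit 0) (nat_lit 1934201395) (nat_lit 684) (nat_lit 667879795) (nat_lit 760) (nat_lit 5696855672) (nat_lit 306) (nat_lit 5) (nat_lit 315) (nat_lit 5) (nat_lit 316) (nat_lit 5) (nat_lit 577) (nat_lit 512) (nat_lit 471))))) (XT.nd (nat_lit 156) (nat_lit 1368) (nat_lit 0) (XT.nd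 (nat_lit 78) (nat_lit 760) (nat_lit 0) (XT.lf (nat_lit 0) (nat_lit 5572330298) (nat_lit 760) (nat_lit 534359394) (nat_lit 76) (nat_lit 2263445914) (nat_lit 306) (nat_lit 5) (nat_lit 316) (nat_lit 5) (nat_lit 307) (nat_lit 5) (nat_lit 578) (nat_lit 512) (nat_lit 470)) (XT.lf (nat_lit 0) (nat_lit 152862242) (nat_lit 760) (nat_lit 3018430815) (nat_lit 76) (nat_lit 5271536236) (nat_lit 296) (nat_lit 5) (nat_lit 306) (nat_lit 5) (nat_lit 297) (nat_lit 5) (nat_lit 579) (nat_lit 512) (nat_lit 469))) (XT.nd (nat_lit 78) (nat_lit 760) (nat_lit 0) (XT.lf (nat_lit 0) (nat_lit 2958758285) (nat_lit 608) (nat_lit 145506694) (nat_lit 684) (nat_lit 5412764328) (nat_lit 288) (nat_lit 5) (nat_lit 296) (nat_lit 5) (nat_lit 297) (nat_lit 5) (nat_lit 580) (nat_lit 512) (nat_lit 468)) (XT.nd (nat_lit 78) (nat_lit 76) (nat_lit 0) (XT.lf (nat_lit 0) (nat_lit 435981242) (nat_lit 684) (nat_lit 5677795651) (nat_lit 760) (nat_lit 2478960700)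 (nat_lit 279) (nat_lit 5) (nat_lit 288) (nat_lit 5) (nat_lit 289) (nat_lit 5) (nat_lit 581) (nat_lit 512) (nat_lit 467)) (XT.lf (nat_lit 0) (nat_lit 502267863) (nat_lit 760) (nat_lit 2103122190) (nat_lit 76) (nat_lit 6064599299) (nat_lit 278) (nat_lit 5) (nat_lit 288) (nat_lit 5) (nat_lit 279) (nat_lit 5) (nat_lit 582) (nat_lit 512) (nat_lit 466))))))))
noncomputable def xc53 : XT := (XT.nd (nat_lit 1482) (nat_lit 5016) (nat_lit 0) (XT.nd (nat_lit 702) (nat_lit 3572) (nat_lit 0) (XT.nd (nat_lit 312) (nat_lit 2356) (nat_lit 0) (XT.nd (nat_lit 156) (nat_lit 608) (nat_lit 0) (XT.nd (nat_lit 78) (nat_lit 608) (nat_lit 0) (XT.lf (nat_lit 0) (nat_lit 3497740781) (nat_lit 684) (nat_lit 4697825919) (nat_lit 76) (nat_lit 553141022) (nat_lit 270) (nat_lit 5) (nat_lit 279) (nat_lit 5) (nat_lit 271) (nat_lit 5) (nat_lit 583) (nat_lit 512) (nat_lit 465)) (XT.lf (nat_lit 0) (nat_lit 1475600444) (nat_lit 608) (nat_lit 5076786369)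 (nat_lit 684) (nat_lit 2276633816) (nat_lit 262) (nat_lit 5) (nat_lit 270) (nat_lit 5) (nat_lit 271) (nat_lit 5) (nat_lit 584) (nat_lit 512) (nat_lit 464))) (XT.nd (nat_lit 78) (nat_lit 532) (nat_lit 0) (XT.lf (nat_lit 0) (nat_lit 737402324) (nat_lit 684) (nat_lit 1133620875) (nat_lit 76) (nat_lit 7040020568) (nat_lit 261) (nat_lit 5) (nat_lit 270) (nat_lit 5) (nat_lit 262) (nat_lit 5) (nat_lit 585) (nat_lit 512) (nat_lit 463)) (XT.lf (nat_lit 0) (nat_lit 3783647442) (nat_lit 608) (nat_lit 3793336446) (nat_lit 76) (nat_lit 1417379392) (nat_lit 254) (nat_lit 5) (nat_lit 262) (nat_lit 5) (nat_lit 255) (nat_lit 5) (nat_lit 586) (nat_lit 512) (nat_lit 462)))) (XT.nd (nat_lit 156) (nat_lit 1672) (nat_lit 0) (XT.nd (nat_lit 78) (nat_lit 76) (nat_lit 0) (XT.lf (nat_lit 0) (nat_lit 2566075237) (nat_lit 608) (nat_lit 4321053768) (nat_lit 684) (nat_lit 2192298979) (nat_lit 246) (nat_lit 5) (nat_lit 254) (nat_lit 5) (nat_lit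 255) (nat_lit 5) (nat_lit 587) (nat_lit 512) (nat_lit 461)) (XT.lf (nat_lit 0) (nat_lit 860262538) (nat_lit 684) (nat_lit 121375539) (nat_lit 76) (nat_lit 8184737569) (nat_lit 245) (nat_lit 5) (nat_lit 254) (nat_lit 5) (nat_lit 246) (nat_lit 5) (nat_lit 588) (nat_lit 512) (nat_lit 460))) (XT.nd (nat_lit 78) (nat_lit 1140) (nat_lit 0) (XT.lf (nat_lit 0) (nat_lit 3962794525) (nat_lit 608) (nat_lit 2855504558) (nat_lit 76) (nat_lit 2436112618) (nat_lit 238) (nat_lit 5) (nat_lit 246) (nat_lit 5) (nat_lit 239) (nat_lit 5) (nat_lit 589) (nat_lit 512) (nat_lit 459)) (XT.nd (nat_lit 78) (nat_lit 608) (nat_lit 0) (XT.lf (nat_lit 0) (nat_lit 3695859100) (nat_lit 532) (nat_lit 3423747574) (nat_lit 608) (nat_lit 2224761858) (nat_lit 231) (nat_lit 5) (nat_lit 238) (nat_lit 5) (nat_lit 239) (nat_lit 5) (nat_lit 590) (nat_lit 512) (nat_lit 458)) (XT.lf (nat_lit 0) (nat_lit 878376104) (nat_lit 608) (nat_lit 8502499768) (nat_lit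 76) (nat_lit 55399898) (nat_lit 223) (nat_lit 5) (nat_lit 231) (nat_lit 5) (nat_lit 224) (nat_lit 5) (nat_lit 591) (nat_lit 512) (nat_lit 457)))))) (XT.nd (nat_lit 390) (nat_lit 1976) (nat_lit 0) (XT.nd (nat_lit 156) (nat_lit 1064) (nat_lit 0) (XT.nd (nat_lit 78) (nat_lit 532) (nat_lit 0) (XT.lf (nat_lit 0) (nat_lit 4036045512) (nat_lit 608) (nat_lit 1896304004) (nat_lit 76) (nat_lit 3596936738) (nat_lit 223) (nat_lit 5) (nat_lit 231) (nat_lit 5) (nat_lit 224) (nat_lit 5) (nat_lit 592) (nat_lit 512) (nat_lit 456)) (XT.lf (nat_lit 0) (nat_lit 4853059769) (nat_lit 532) (nat_lit 2397475745) (nat_lit 608) (nat_lit 2373752383) (nat_lit 216) (nat_lit 5) (nat_lit 223) (nat_lit 5) (nat_lit 224) (nat_lit 5) (nat_lit 593) (nat_lit 512) (nat_lit 455))) (XT.nd (nat_lit 78) (nat_lit 532) (nat_lit 0) (XT.lf (nat_lit 0) (nat_lit 793650147) (nat_lit 532) (nat_lit 7718823917) (nat_lit 76) (nat_lit 1208692235) (nat_lit 209) (nat_lit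 5) (nat_lit 216) (nat_lit 5) (nat_lit 210) (nat_lit 5) (nat_lit 594) (nat_lit 512) (nat_lit 454)) (XT.nd (nat_lit 78) (nat_lit 532) (nat_lit 0) (XT.lf (nat_lit 0) (nat_lit 4003361770) (nat_lit 532) (nat_lit 928160115) (nat_lit 76) (nat_lit 4887935709) (nat_lit 209) (nat_lit 5) (nat_lit 216) (nat_lit 5) (nat_lit 210) (nat_lit 5) (nat_lit 595) (nat_lit 512) (nat_lit 453)) (XT.lf (nat_lit 0) (nat_lit 6025312391) (nat_lit 532) (nat_lit 1254417776) (nat_lit 608) (nat_lit 2639939264) (nat_lit 202) (nat_lit 5) (nat_lit 209) (nat_lit 5) (nat_lit 210) (nat_lit 5) (nat_lit 596) (nat_lit 512) (nat_lit 452))))) (XT.nd (nat_lit 156) (nat_lit 988) (nat_lit 0) (XT.nd (nat_lit 78) (nat_lit 456) (nat_lit 0) (XT.lf (nat_lit 0) (nat_lit 598014266) (nat_lit 532) (nat_lit 6945188366) (nat_lit 76) (nat_lit 2478486015) (nat_lit 195) (nat_lit 5) (nat_lit 202) (nat_lit 5) (nat_lit 196) (nat_lit 5) (nat_lit 597) (nat_lit 512) (nat_lit 451))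 (XT.lf (nat_lit 0) (nat_lit 36396181) (nat_lit 456) (nat_lit 3827623907) (nat_lit 532) (nat_lit 6261410057) (nat_lit 189) (nat_lit 5) (nat_lit 195) (nat_lit 5) (nat_lit 196) (nat_lit 5) (nat_lit 598) (nat_lit 512) (nat_lit 450))) (XT.nd (nat_lit 78) (nat_lit 988) (nat_lit 0) (XT.lf (nat_lit 0) (nat_lit 7199645530) (nat_lit 456) (nat_lit 6437637) (nat_lit 532) (nat_lit 3024952227) (nat_lit 189) (nat_lit 5) (nat_lit 195) (nat_lit 5) (nat_lit 196) (nat_lit 5) (nat_lit 599) (nat_lit 512) (nat_lit 449)) (XT.nd (nat_lit 78) (nat_lit 456) (nat_lit 0) (XT.lf (nat_lit 0) (nat_lit 289626430) (nat_lit 532) (nat_lit 6195513158) (nat_lit 76) (nat_lit 3853240523) (nat_lit 182) (nat_lit 5) (nat_lit 189) (nat_lit 5) (nat_lit 183) (nat_lit 5) (nat_lit 600) (nat_lit 512) (nat_lit 448)) (XT.lf (nat_lit 0) (nat_lit 995255208) (nat_lit 456) (nat_lit 2626611287) (nat_lit 532) (nat_lit 6825771303) (nat_lit 176) (nat_lit 5) (nat_lit 182)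 (nat_lit 5) (nat_lit 183) (nat_lit 5) (nat_lit 601) (nat_lit 512) (nat_lit 447))))))) (XT.nd (nat_lit 702) (nat_lit 2432) (nat_lit 0) (XT.nd (nat_lit 312) (nat_lit 1672) (nat_lit 0) (XT.nd (nat_lit 156) (nat_lit 532) (nat_lit 0) (XT.nd (nat_lit 78) (nat_lit 380) (nat_lit 0) (XT.lf (nat_lit 0) (nat_lit 7036202462) (nat_lit 532) (nat_lit 2205275976) (nat_lit 76) (nat_lit 1317296563) (nat_lit 176) (nat_lit 5) (nat_lit 183) (nat_lit 5) (nat_lit 177) (nat_lit 5) (nat_lit 602) (nat_lit 512) (nat_lit 446)) (XT.lf (nat_lit 0) (nat_lit 5186346093) (nat_lit 380) (nat_lit 5349332471) (nat_lit 456) (nat_lit 136122635) (nat_lit 171) (nat_lit 5) (nat_lit 176) (nat_lit 5) (nat_lit 177) (nat_lit 5) (nat_lit 603) (nat_lit 512) (nat_lit 445))) (XT.nd (nat_lit 78) (nat_lit 0) (nat_lit 0) (XT.lf (nat_lit 0) (nat_lit 1921286478) (nat_lit 456) (nat_lit 1346523213) (nat_lit 532) (nat_lit 7518985153) (nat_lit 164) (nat_lit 5) (nat_lit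 170) (nat_lit 5) (nat_lit 171) (nat_lit 5) (nat_lit 604) (nat_lit 512) (nat_lit 444)) (XT.lf (nat_lit 0) (nat_lit 6758947128) (nat_lit 532) (nat_lit 1423146989) (nat_lit 76) (nat_lit 2721560394) (nat_lit 164) (nat_lit 5) (nat_lit 171) (nat_lit 5) (nat_lit 165) (nat_lit 5) (nat_lit 605) (nat_lit 512) (nat_lit 443)))) (XT.nd (nat_lit 156) (nat_lit 836) (nat_lit 0) (XT.nd (nat_lit 78) (nat_lit 456) (nat_lit 0) (XT.lf (nat_lit 0) (nat_lit 6189931090) (nat_lit 380) (nat_lit 4145874128) (nat_lit 456) (nat_lit 686731263) (nat_lit 159) (nat_lit 5) (nat_lit 164) (nat_lit 5) (nat_lit 165) (nat_lit 5) (nat_lit 606) (nat_lit 512) (nat_lit 442)) (XT.lf (nat_lit 0) (nat_lit 2797838041) (nat_lit 456) (nat_lit 8344891890) (nat_lit 76) (nat_lit 806548) (nat_lit 153) (nat_lit 5) (nat_lit 159) (nat_lit 5) (nat_lit 154) (nat_lit 5) (nat_lit 607) (nat_lit 512) (nat_lit 441))) (XT.nd (nat_lit 78) (nat_lit 836) (nat_lit 0) (XT.lf (nat_lit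 0) (nat_lit 6370119355) (nat_lit 456) (nat_lit 701219663) (nat_lit 76) (nat_lit 4194985244) (nat_lit 153) (nat_lit 5) (nat_lit 159) (nat_lit 5) (nat_lit 154) (nat_lit 5) (nat_lit 608) (nat_lit 512) (nat_lit 440)) (XT.nd (nat_lit 78) (nat_lit 456) (nat_lit 0) (XT.lf (nat_lit 0) (nat_lit 7139233030) (nat_lit 380) (nat_lit 2888718007) (nat_lit 456) (nat_lit 1363337501) (nat_lit 148) (nat_lit 5) (nat_lit 153) (nat_lit 5) (nat_lit 154) (nat_lit 5) (nat_lit 609) (nat_lit 512) (nat_lit 439)) (XT.lf (nat_lit 0) (nat_lit 2215945499) (nat_lit 456) (nat_lit 7917368071) (nat_lit 76) (nat_lit 1385047584) (nat_lit 142) (nat_lit 5) (nat_lit 148) (nat_lit 5) (nat_lit 143) (nat_lit 5) (nat_lit 610) (nat_lit 512) (nat_lit 438)))))) (XT.nd (nat_lit 390) (nat_lit 1368) (nat_lit 0) (XT.nd (nat_lit 156) (nat_lit 760) (nat_lit 0) (XT.nd (nat_lit 78) (nat_lit 304) (nat_lit 0) (XT.lf (nat_lit 0) (nat_lit 5864473027) (nat_lit 456) (nat_lit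 57037622) (nat_lit 76) (nat_lit 5725968729) (nat_lit 142) (nat_lit 5) (nat_lit 148) (nat_lit 5) (nat_lit 143) (nat_lit 5) (nat_lit 611) (nat_lit 512) (nat_lit 437)) (XT.lf (nat_lit 0) (nat_lit 8016594217) (nat_lit 304) (nat_lit 1590096342) (nat_lit 380) (nat_lit 2172077637) (nat_lit 138) (nat_lit 5) (nat_lit 142) (nat_lit 5) (nat_lit 143) (nat_lit 5) (nat_lit 612) (nat_lit 512) (nat_lit 436))) (XT.nd (nat_lit 78) (nat_lit 304) (nat_lit 0) (XT.lf (nat_lit 0) (nat_lit 1507059499) (nat_lit 456) (nat_lit 7593307456) (nat_lit 76) (nat_lit 2811805976) (nat_lit 132) (nat_lit 5) (nat_lit 138) (nat_lit 5) (nat_lit 133) (nat_lit 5) (nat_lit 613) (nat_lit 512) (nat_lit 435)) (XT.nd (nat_lit 78) (nat_lit 0) (nat_lit 0) (XT.lf (nat_lit 0) (nat_lit 496895426) (nat_lit 304) (nat_lit 4741936893) (nat_lit 380) (nat_lit 6808966018) (nat_lit 128) (nat_lit 5) (nat_lit 132) (nat_lit 5) (nat_lit 133) (nat_lit 5) (nat_lit 614) (nat_lit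 512) (nat_lit 434)) (XT.lf (nat_lit 0) (nat_lit 8802834797) (nat_lit 304) (nat_lit 262591690) (nat_lit 380) (nat_lit 3120308464) (nat_lit 128) (nat_lit 5) (nat_lit 132) (nat_lit 5) (nat_lit 133) (nat_lit 5) (nat_lit 615) (nat_lit 512) (nat_lit 433))))) (XT.nd (nat_lit 156) (nat_lit 684) (nat_lit 0) (XT.nd (nat_lit 78) (nat_lit 304) (nat_lit 0) (XT.lf (nat_lit 0) (nat_lit 663625434) (nat_lit 380) (nat_lit 7393480762) (nat_lit 76) (nat_lit 4268644550) (nat_lit 123) (nat_lit 5) (nat_lit 128) (nat_lit 5) (nat_lit 124) (nat_lit 5) (nat_lit 616) (nat_lit 512) (nat_lit 432)) (XT.lf (nat_lit 0) (nat_lit 932553559) (nat_lit 304) (nat_lit 3549385619) (nat_lit 380) (nat_lit 7986207809) (nat_lit 119) (nat_lit 5) (nat_lit 123) (nat_lit 5) (nat_lit 124) (nat_lit 5) (nat_lit 617) (nat_lit 512) (nat_lit 431))) (XT.nd (nat_lit 78) (nat_lit 684) (nat_lit 0) (XT.lf (nat_lit 0) (nat_lit 8403326710) (nat_lit 380) (nat_lit 3142977623)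 (nat_lit 76) (nat_lit 1066554903) (nat_lit 119) (nat_lit 5) (nat_lit 124) (nat_lit 5) (nat_lit 120) (nat_lit 5) (nat_lit 618) (nat_lit 512) (nat_lit 430)) (XT.nd (nat_lit 78) (nat_lit 380) (nat_lit 0) (XT.lf (nat_lit 0) (nat_lit 5417216878) (nat_lit 304) (nat_lit 7015149522) (nat_lit 380) (nat_lit 327517033) (nat_lit 115) (nat_lit 5) (nat_lit 119) (nat_lit 5) (nat_lit 120) (nat_lit 5) (nat_lit 619) (nat_lit 512) (nat_lit 429)) (XT.lf (nat_lit 0) (nat_lit 1226260055) (nat_lit 304) (nat_lit 2358055063) (nat_lit 380) (nat_lit 9325067205) (nat_lit 110) (nat_lit 5) (nat_lit 114) (nat_lit 5) (nat_lit 115) (nat_lit 5) (nat_lit 620) (nat_lit 512) (nat_lit 428))))))))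
noncomputable def xc54 : XT := (XT.nd (nat_lit 75738) (nat_lit 0) (nat_lit 19912) (XT.nd (nat_lit 74958) (nat_lit 0) (nat_lit 36708) (XT.nd (nat_lit 74568) (nat_lit 0) (nat_lit 43700) (XT.nd (nat_lit 74412) (nat_lit 0) (nat_lit 46132) (XT.nd (nat_lit 78) (nat_lit 304) (nat_lit 0) (XT.lf (nat_lit 0) (nat_lit 7605901029) (nat_lit 380) (nat_lit 3060858518) (nat_lit 76) (nat_lit 2394352358) (nat_lit 110) (nat_lit 5) (nat_lit 115) (nat_lit 5) (nat_lit 111) (nat_lit 5) (nat_lit 621) (nat_lit 512) (nat_lit 427)) (XT.lf (nat_lit 0) (nat_lit 5746499805) (nat_lit 304) (nat_lit 5985685763) (nat_lit 380) (nat_lit 1483207196) (nat_lit 106) (nat_lit 5) (nat_lit 110) (nat_lit 5) (nat_lit 111) (nat_lit 5) (nat_lit 622) (nat_lit 512) (nat_lit 426))) (XT.nd (nat_lit 78) (nat_lit 684) (nat_lit 0) (XT.lf (nat_lit 0) (nat_lit 1967026135) (nat_lit 532) (nat_lit 650536932) (nat_lit 532) (nat_lit 650536932) (nat_lit 722) (nat_lit 4) (nat_lit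 729) (nat_lit 5) (nat_lit 729) (nat_lit 4) (nat_lit 534) (nat_lit 513) (nat_lit 513)) (XT.lf (nat_lit 0) (nat_lit 1284998245) (nat_lit 608) (nat_lit 614432519) (nat_lit 684) (nat_lit 4650901836) (nat_lit 713) (nat_lit 5) (nat_lit 721) (nat_lit 5) (nat_lit 722) (nat_lit 4) (nat_lit 535) (nat_lit 513) (nat_lit 512)))) (XT.nd (nat_lit 156) (nat_lit 1672) (nat_lit 0) (XT.nd (nat_lit 78) (nat_lit 760) (nat_lit 0) (XT.lf (nat_lit 0) (nat_lit 5089327388) (nat_lit 684) (nat_lit 1341661097) (nat_lit 0) (nat_lit 134751421) (nat_lit 713) (nat_lit 5) (nat_lit 722) (nat_lit 4) (nat_lit 713) (nat_lit 4) (nat_lit 536) (nat_lit 513) (nat_lit 511)) (XT.lf (nat_lit 0) (nat_lit 1685426876) (nat_lit 760) (nat_lit 3954680713) (nat_lit 76) (nat_lit 942199090) (nat_lit 703) (nat_lit 5) (nat_lit 713) (nat_lit 5) (nat_lit 704) (nat_lit 4) (nat_lit 537) (nat_lit 513) (nat_lit 510))) (XT.nd (nat_lit 78) (nat_lit 912) (nat_lit 0) (XT.lf (nat_lit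 0) (nat_lit 33319996) (nat_lit 760) (nat_lit 4793452135) (nat_lit 836) (nat_lit 1773535673) (nat_lit 693) (nat_lit 5) (nat_lit 703) (nat_lit 5) (nat_lit 704) (nat_lit 4) (nat_lit 538) (nat_lit 513) (nat_lit 509)) (XT.nd (nat_lit 78) (nat_lit 836) (nat_lit 0) (XT.lf (nat_lit 0) (nat_lit 1347807418) (nat_lit 836) (nat_lit 2526173187) (nat_lit 76) (nat_lit 2745442093) (nat_lit 692) (nat_lit 5) (nat_lit 703) (nat_lit 5) (nat_lit 693) (nat_lit 5) (nat_lit 539) (nat_lit 513) (nat_lit 508)) (XT.lf (nat_lit 0) (nat_lit 1551733048) (nat_lit 836) (nat_lit 2894959037) (nat_lit 912) (nat_lit 2193233962) (nat_lit 681) (nat_lit 5) (nat_lit 692) (nat_lit 5) (nat_lit 693) (nat_lit 5) (nat_lit 540) (nat_lit 513) (nat_lit 507)))))) (XT.nd (nat_lit 390) (nat_lit 3876) (nat_lit 0) (XT.nd (nat_lit 156) (nat_lit 2128) (nat_lit 0) (XT.nd (nat_lit 78) (nat_lit 912) (nat_lit 0) (XT.lf (nat_lit 0) (nat_lit 880705345) (nat_lit 912) (nat_lit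 974261599) (nat_lit 76) (nat_lit 4806838625) (nat_lit 680) (nat_lit 5) (nat_lit 692) (nat_lit 5) (nat_lit 681) (nat_lit 5) (nat_lit 541) (nat_lit 513) (nat_lit 506)) (XT.lf (nat_lit 0) (nat_lit 3197454422) (nat_lit 912) (nat_lit 740816986) (nat_lit 988) (nat_lit 2746547855) (nat_lit 668) (nat_lit 5) (nat_lit 680) (nat_lit 5) (nat_lit 681) (nat_lit 5) (nat_lit 542) (nat_lit 513) (nat_lit 505))) (XT.nd (nat_lit 78) (nat_lit 1064) (nat_lit 0) (XT.lf (nat_lit 0) (nat_lit 289373762) (nat_lit 1064) (nat_lit 5999988000) (nat_lit 76) (nat_lit 419997343) (nat_lit 654) (nat_lit 5) (nat_lit 668) (nat_lit 5) (nat_lit 655) (nat_lit 5) (nat_lit 543) (nat_lit 513) (nat_lit 504)) (XT.nd (nat_lit 78) (nat_lit 1064) (nat_lit 0) (XT.lf (nat_lit 0) (nat_lit 3310128023) (nat_lit 1064) (nat_lit 1773475992) (nat_lit 76) (nat_lit 1651220691) (nat_lit 654) (nat_lit 5) (nat_lit 668) (nat_lit 5) (nat_lit 655) (nat_lit 5) (nat_lit 544) (nat_lit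 513) (nat_lit 503)) (XT.lf (nat_lit 0) (nat_lit 2518023827) (nat_lit 1064) (nat_lit 3823340851) (nat_lit 1140) (nat_lit 420449147) (nat_lit 640) (nat_lit 5) (nat_lit 654) (nat_lit 5) (nat_lit 655) (nat_lit 5) (nat_lit 545) (nat_lit 513) (nat_lit 502))))) (XT.nd (nat_lit 156) (nat_lit 2660) (nat_lit 0) (XT.nd (nat_lit 78) (nat_lit 0) (nat_lit 0) (XT.lf (nat_lit 0) (nat_lit 60730799) (nat_lit 1140) (nat_lit 2495083185) (nat_lit 1216) (nat_lit 4234268263) (nat_lit 624) (nat_lit 5) (nat_lit 639) (nat_lit 5) (nat_lit 640) (nat_lit 5) (nat_lit 546) (nat_lit 513) (nat_lit 501)) (XT.lf (nat_lit 0) (nat_lit 4453285770) (nat_lit 1140) (nat_lit 1096330399) (nat_lit 1216) (nat_lit 1269986069) (nat_lit 624) (nat_lit 5) (nat_lit 639) (nat_lit 5) (nat_lit 640) (nat_lit 5) (nat_lit 547) (nat_lit 513) (nat_lit 500))) (XT.nd (nat_lit 78) (nat_lit 1368) (nat_lit 0) (XT.lf (nat_lit 0) (nat_lit 1682269837) (nat_lit 1292) (nat_lit 4806047304)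 (nat_lit 76) (nat_lit 362148135) (nat_lit 607) (nat_lit 5) (nat_lit 624) (nat_lit 5) (nat_lit 608) (nat_lit 5) (nat_lit 548) (nat_lit 513) (nat_lit 499)) (XT.nd (nat_lit 78) (nat_lit 1368) (nat_lit 0) (XT.lf (nat_lit 0) (nat_lit 4636826757) (nat_lit 1292) (nat_lit 375550884) (nat_lit 76) (nat_lit 1870208632) (nat_lit 607) (nat_lit 5) (nat_lit 624) (nat_lit 5) (nat_lit 608) (nat_lit 5) (nat_lit 549) (nat_lit 513) (nat_lit 498)) (XT.lf (nat_lit 0) (nat_lit 690389797) (nat_lit 1368) (nat_lit 2775218475) (nat_lit 76) (nat_lit 3450361115) (nat_lit 589) (nat_lit 5) (nat_lit 607) (nat_lit 5) (nat_lit 590) (nat_lit 5) (nat_lit 550) (nat_lit 513) (nat_lit 497))))))) (XT.nd (nat_lit 702) (nat_lit 7220) (nat_lit 0) (XT.nd (nat_lit 312) (nat_lit 5168) (nat_lit 0) (XT.nd (nat_lit 156) (nat_lit 3040) (nat_lit 0) (XT.nd (nat_lit 78) (nat_lit 0) (nat_lit 0) (XT.lf (nat_lit 0) (nat_lit 1757640936) (nat_lit 1368) (nat_lit 1850218535)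 (nat_lit 1444) (nat_lit 3342823456) (nat_lit 571) (nat_lit 5) (nat_lit 589) (nat_lit 5) (nat_lit 590) (nat_lit 5) (nat_lit 551) (nat_lit 513) (nat_lit 496)) (XT.lf (nat_lit 0) (nat_lit 6366103929) (nat_lit 1368) (nat_lit 175749310) (nat_lit 1444) (nat_lit 445086763) (nat_lit 571) (nat_lit 5) (nat_lit 589) (nat_lit 5) (nat_lit 590) (nat_lit 5) (nat_lit 552) (nat_lit 513) (nat_lit 495))) (XT.nd (nat_lit 78) (nat_lit 1520) (nat_lit 0) (XT.lf (nat_lit 0) (nat_lit 2454430906) (nat_lit 1520) (nat_lit 3007673165) (nat_lit 76) (nat_lit 1561969337) (nat_lit 551) (nat_lit 5) (nat_lit 571) (nat_lit 5) (nat_lit 552) (nat_lit 5) (nat_lit 553) (nat_lit 513) (nat_lit 494)) (XT.lf (nat_lit 0) (nat_lit 1657193722) (nat_lit 1520) (nat_lit 3706115701) (nat_lit 1596) (nat_lit 1699446637) (nat_lit 531) (nat_lit 5) (nat_lit 551) (nat_lit 5) (nat_lit 552) (nat_lit 5) (nat_lit 554) (nat_lit 513) (nat_lit 493)))) (XT.nd (nat_lit 156) (nat_lit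 3496) (nat_lit 0) (XT.nd (nat_lit 78) (nat_lit 1596) (nat_lit 0) (XT.lf (nat_lit 0) (nat_lit 1173983007) (nat_lit 1596) (nat_lit 707557428) (nat_lit 76) (nat_lit 5221285261) (nat_lit 530) (nat_lit 5) (nat_lit 551) (nat_lit 5) (nat_lit 531) (nat_lit 5) (nat_lit 555) (nat_lit 513) (nat_lit 492)) (XT.lf (nat_lit 0) (nat_lit 4051508572) (nat_lit 1672) (nat_lit 3070376829) (nat_lit 76) (nat_lit 22210328) (nat_lit 509) (nat_lit 5) (nat_lit 531) (nat_lit 5) (nat_lit 510) (nat_lit 5) (nat_lit 556) (nat_lit 513) (nat_lit 491))) (XT.nd (nat_lit 78) (nat_lit 1824) (nat_lit 0) (XT.lf (nat_lit 0) (nat_lit 1730788904) (nat_lit 1672) (nat_lit 5227847270) (nat_lit 1748) (nat_lit 228125066) (nat_lit 487) (nat_lit 5) (nat_lit 509) (nat_lit 5) (nat_lit 510) (nat_lit 5) (nat_lit 557) (nat_lit 513) (nat_lit 490)) (XT.nd (nat_lit 78) (nat_lit 1748) (nat_lit 0) (XT.lf (nat_lit 0) (nat_lit 2622994915) (nat_lit 1748) (nat_lit 631833205)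 (nat_lit 76) (nat_lit 3975818921) (nat_lit 486) (nat_lit 5) (nat_lit 509) (nat_lit 5) (nat_lit 487) (nat_lit 5) (nat_lit 558) (nat_lit 513) (nat_lit 489)) (XT.lf (nat_lit 0) (nat_lit 4290670785) (nat_lit 1748) (nat_lit 1210327304) (nat_lit 1824) (nat_lit 1774934469) (nat_lit 463) (nat_lit 5) (nat_lit 486) (nat_lit 5) (nat_lit 487) (nat_lit 5) (nat_lit 559) (nat_lit 513) (nat_lit 488)))))) (XT.nd (nat_lit 390) (nat_lit 3496) (nat_lit 0) (XT.nd (nat_lit 156) (nat_lit 1976) (nat_lit 0) (XT.nd (nat_lit 78) (nat_lit 0) (nat_lit 0) (XT.lf (nat_lit 0) (nat_lit 1068109417) (nat_lit 1748) (nat_lit 5365221830) (nat_lit 76) (nat_lit 889292128) (nat_lit 440) (nat_lit 5) (nat_lit 463) (nat_lit 5) (nat_lit 441) (nat_lit 5) (nat_lit 560) (nat_lit 513) (nat_lit 487)) (XT.lf (nat_lit 0) (nat_lit 3918605248) (nat_lit 1748) (nat_lit 404375905) (nat_lit 76) (nat_lit 3047554923) (nat_lit 440) (nat_lit 5) (nat_lit 463) (nat_lit 5) (nat_lit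 441) (nat_lit 5) (nat_lit 561) (nat_lit 513) (nat_lit 486))) (XT.nd (nat_lit 78) (nat_lit 988) (nat_lit 0) (XT.lf (nat_lit 0) (nat_lit 4663903817) (nat_lit 988) (nat_lit 2139698597) (nat_lit 1064) (nat_lit 616264460) (nat_lit 427) (nat_lit 5) (nat_lit 440) (nat_lit 5) (nat_lit 441) (nat_lit 5) (nat_lit 562) (nat_lit 513) (nat_lit 485)) (XT.nd (nat_lit 78) (nat_lit 0) (nat_lit 0) (XT.lf (nat_lit 0) (nat_lit 2212458502) (nat_lit 988) (nat_lit 5139994924) (nat_lit 76) (nat_lit 118120695) (nat_lit 414) (nat_lit 5) (nat_lit 427) (nat_lit 5) (nat_lit 415) (nat_lit 5) (nat_lit 563) (nat_lit 513) (nat_lit 484)) (XT.lf (nat_lit 0) (nat_lit 5070524804) (nat_lit 988) (nat_lit 38084422) (nat_lit 76) (nat_lit 2413993518) (nat_lit 414) (nat_lit 5) (nat_lit 427) (nat_lit 5) (nat_lit 415) (nat_lit 5) (nat_lit 564) (nat_lit 513) (nat_lit 483))))) (XT.nd (nat_lit 156) (nat_lit 1672) (nat_lit 0) (XT.nd (nat_lit 78) (nat_lit 836)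 (nat_lit 0) (XT.lf (nat_lit 0) (nat_lit 387459186) (nat_lit 988) (nat_lit 2397696227) (nat_lit 76) (nat_lit 4790816893) (nat_lit 401) (nat_lit 5) (nat_lit 414) (nat_lit 5) (nat_lit 402) (nat_lit 5) (nat_lit 565) (nat_lit 513) (nat_lit 482)) (XT.lf (nat_lit 0) (nat_lit 2836773069) (nat_lit 836) (nat_lit 382441681) (nat_lit 912) (nat_lit 4411513712) (nat_lit 390) (nat_lit 5) (nat_lit 401) (nat_lit 5) (nat_lit 402) (nat_lit 5) (nat_lit 566) (nat_lit 513) (nat_lit 481))) (XT.nd (nat_lit 78) (nat_lit 836) (nat_lit 0) (XT.lf (nat_lit 0) (nat_lit 460782229) (nat_lit 836) (nat_lit 5629620374) (nat_lit 912) (nat_lit 1596529612) (nat_lit 379) (nat_lit 5) (nat_lit 390) (nat_lit 5) (nat_lit 391) (nat_lit 5) (nat_lit 567) (nat_lit 513) (nat_lit 480)) (XT.nd (nat_lit 78) (nat_lit 760) (nat_lit 0) (XT.lf (nat_lit 0) (nat_lit 1243426735) (nat_lit 912) (nat_lit 1923253391) (nat_lit 76) (nat_lit 4577714654) (nat_lit 378) (nat_lit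 5) (nat_lit 390) (nat_lit 5) (nat_lit 379) (nat_lit 5) (nat_lit 568) (nat_lit 513) (nat_lit 479)) (XT.lf (nat_lit 0) (nat_lit 3467455019) (nat_lit 760) (nat_lit 625329190) (nat_lit 836) (nat_lit 3710539668) (nat_lit 368) (nat_lit 5) (nat_lit 378) (nat_lit 5) (nat_lit 379) (nat_lit 5) (nat_lit 569) (nat_lit 513) (nat_lit 478))))))))
noncomputable def xc55 : XT := (XT.nd (nat_lit 1482) (nat_lit 6612) (nat_lit 0) (XT.nd (nat_lit 702) (nat_lit 4636) (nat_lit 0) (XT.nd (nat_lit 312) (nat_lit 2280) (nat_lit 0) (XT.nd (nat_lit 156) (nat_lit 1520) (nat_lit 0) (XT.nd (nat_lit 78) (nat_lit 76) (nat_lit 0) (XT.lf (nat_lit 0) (nat_lit 1076401166) (nat_lit 836) (nat_lit 5907502201) (nat_lit 912) (nat_lit 879840476) (nat_lit 357) (nat_lit 5) (nat_lit 368) (nat_lit 5) (nat_lit 369) (nat_lit 5) (nat_lit 570) (nat_lit 513) (nat_lit 477)) (XT.lf (nat_lit 0) (nat_lit 1966871263) (nat_lit 912) (nat_lit 1340490383) (nat_lit 76) (nat_lit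 4618042820) (nat_lit 356) (nat_lit 5) (nat_lit 368) (nat_lit 5) (nat_lit 357) (nat_lit 5) (nat_lit 571) (nat_lit 513) (nat_lit 476))) (XT.nd (nat_lit 78) (nat_lit 760) (nat_lit 0) (XT.lf (nat_lit 0) (nat_lit 4211746537) (nat_lit 760) (nat_lit 627578482) (nat_lit 836) (nat_lit 3149252522) (nat_lit 346) (nat_lit 5) (nat_lit 356) (nat_lit 5) (nat_lit 357) (nat_lit 5) (nat_lit 572) (nat_lit 513) (nat_lit 475)) (XT.lf (nat_lit 0) (nat_lit 1796692489) (nat_lit 760) (nat_lit 5960693980) (nat_lit 836) (nat_lit 295871620) (nat_lit 336) (nat_lit 5) (nat_lit 346) (nat_lit 5) (nat_lit 347) (nat_lit 5) (nat_lit 573) (nat_lit 513) (nat_lit 474)))) (XT.nd (nat_lit 156) (nat_lit 1520) (nat_lit 0) (XT.nd (nat_lit 78) (nat_lit 684) (nat_lit 0) (XT.lf (nat_lit 0) (nat_lit 2563972879) (nat_lit 836) (nat_lit 660912863) (nat_lit 76) (nat_lit 4894340168) (nat_lit 335) (nat_lit 5) (nat_lit 346) (nat_lit 5) (nat_lit 336) (nat_lit 5) (nat_lit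 574) (nat_lit 513) (nat_lit 473)) (XT.lf (nat_lit 0) (nat_lit 5058318249) (nat_lit 684) (nat_lit 406499671) (nat_lit 760) (nat_lit 2721907515) (nat_lit 326) (nat_lit 5) (nat_lit 335) (nat_lit 5) (nat_lit 336) (nat_lit 5) (nat_lit 575) (nat_lit 513) (nat_lit 472))) (XT.nd (nat_lit 78) (nat_lit 684) (nat_lit 0) (XT.lf (nat_lit 0) (nat_lit 158697309) (nat_lit 836) (nat_lit 5646397184) (nat_lit 76) (nat_lit 2450609196) (nat_lit 315) (nat_lit 5) (nat_lit 326) (nat_lit 5) (nat_lit 316) (nat_lit 5) (nat_lit 576) (nat_lit 513) (nat_lit 471)) (XT.nd (nat_lit 78) (nat_lit 0) (nat_lit 0) (XT.lf (nat_lit 0) (nat_lit 105605862) (nat_lit 684) (nat_lit 2935051700) (nat_lit 760) (nat_lit 5285446694) (nat_lit 306) (nat_lit 5) (nat_lit 315) (nat_lit 5) (nat_lit 316) (nat_lit 5) (nat_lit 577) (nat_lit 513) (nat_lit 470)) (XT.lf (nat_lit 0) (nat_lit 5974459074) (nat_lit 760) (nat_lit 2402101498) (nat_lit 76) (nat_lit 21474477) (nat_lit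 306) (nat_lit 5) (nat_lit 316) (nat_lit 5) (nat_lit 307) (nat_lit 5) (nat_lit 578) (nat_lit 513) (nat_lit 469)))))) (XT.nd (nat_lit 390) (nat_lit 1900) (nat_lit 0) (XT.nd (nat_lit 156) (nat_lit 1368) (nat_lit 0) (XT.nd (nat_lit 78) (nat_lit 608) (nat_lit 0) (XT.lf (nat_lit 0) (nat_lit 488195341) (nat_lit 760) (nat_lit 4968301588) (nat_lit 76) (nat_lit 3014865953) (nat_lit 296) (nat_lit 5) (nat_lit 306) (nat_lit 5) (nat_lit 297) (nat_lit 5) (nat_lit 579) (nat_lit 513) (nat_lit 468)) (XT.lf (nat_lit 0) (nat_lit 956337373) (nat_lit 608) (nat_lit 2449064566) (nat_lit 684) (nat_lit 5140847796) (nat_lit 288) (nat_lit 5) (nat_lit 296) (nat_lit 5) (nat_lit 297) (nat_lit 5) (nat_lit 580) (nat_lit 513) (nat_lit 467))) (XT.nd (nat_lit 78) (nat_lit 1368) (nat_lit 0) (XT.lf (nat_lit 0) (nat_lit 6376144347) (nat_lit 684) (nat_lit 1612925226) (nat_lit 76) (nat_lit 633666698) (nat_lit 288) (nat_lit 5) (nat_lit 297) (nat_lit 5)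 (nat_lit 289) (nat_lit 5) (nat_lit 581) (nat_lit 513) (nat_lit 466)) (XT.nd (nat_lit 78) (nat_lit 608) (nat_lit 0) (XT.lf (nat_lit 0) (nat_lit 700025199) (nat_lit 760) (nat_lit 4231722194) (nat_lit 76) (nat_lit 3768844493) (nat_lit 278) (nat_lit 5) (nat_lit 288) (nat_lit 5) (nat_lit 279) (nat_lit 5) (nat_lit 582) (nat_lit 513) (nat_lit 465)) (XT.lf (nat_lit 0) (nat_lit 1871271473) (nat_lit 608) (nat_lit 1785939182) (nat_lit 684) (nat_lit 5122868044) (nat_lit 270) (nat_lit 5) (nat_lit 278) (nat_lit 5) (nat_lit 279) (nat_lit 5) (nat_lit 583) (nat_lit 513) (nat_lit 464))))) (XT.nd (nat_lit 156) (nat_lit 1216) (nat_lit 0) (XT.nd (nat_lit 78) (nat_lit 684) (nat_lit 0) (XT.lf (nat_lit 0) (nat_lit 6670404119) (nat_lit 684) (nat_lit 769424610) (nat_lit 76) (nat_lit 1421394572) (nat_lit 270) (nat_lit 5) (nat_lit 279) (nat_lit 5) (nat_lit 271) (nat_lit 5) (nat_lit 584) (nat_lit 513) (nat_lit 463)) (XT.lf (nat_lit 0) (nat_lit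 796812170) (nat_lit 684) (nat_lit 3448083052) (nat_lit 76) (nat_lit 4698848201) (nat_lit 261) (nat_lit 5) (nat_lit 270) (nat_lit 5) (nat_lit 262) (nat_lit 5) (nat_lit 585) (nat_lit 513) (nat_lit 462))) (XT.nd (nat_lit 78) (nat_lit 684) (nat_lit 0) (XT.lf (nat_lit 0) (nat_lit 2839107298) (nat_lit 532) (nat_lit 959440196) (nat_lit 608) (nat_lit 5229408127) (nat_lit 254) (nat_lit 5) (nat_lit 261) (nat_lit 5) (nat_lit 262) (nat_lit 5) (nat_lit 586) (nat_lit 513) (nat_lit 461)) (XT.nd (nat_lit 78) (nat_lit 76) (nat_lit 0) (XT.lf (nat_lit 0) (nat_lit 118643391) (nat_lit 608) (nat_lit 6741659327) (nat_lit 684) (nat_lit 2253554574) (nat_lit 246) (nat_lit 5) (nat_lit 254) (nat_lit 5) (nat_lit 255) (nat_lit 5) (nat_lit 587) (nat_lit 513) (nat_lit 460)) (XT.lf (nat_lit 0) (nat_lit 780289299) (nat_lit 684) (nat_lit 2628980148) (nat_lit 76) (nat_lit 5791936231) (nat_lit 245) (nat_lit 5) (nat_lit 254) (nat_lit 5) (nat_lit 246)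 (nat_lit 5) (nat_lit 588) (nat_lit 513) (nat_lit 459))))))) (XT.nd (nat_lit 702) (nat_lit 3268) (nat_lit 0) (XT.nd (nat_lit 312) (nat_lit 1672) (nat_lit 0) (XT.nd (nat_lit 156) (nat_lit 608) (nat_lit 0) (XT.nd (nat_lit 78) (nat_lit 532) (nat_lit 0) (XT.lf (nat_lit 0) (nat_lit 3831102717) (nat_lit 608) (nat_lit 5442037209) (nat_lit 76) (nat_lit 17138478) (nat_lit 238) (nat_lit 5) (nat_lit 246) (nat_lit 5) (nat_lit 239) (nat_lit 5) (nat_lit 589) (nat_lit 513) (nat_lit 458)) (XT.lf (nat_lit 0) (nat_lit 1048811546) (nat_lit 532) (nat_lit 5902946223) (nat_lit 608) (nat_lit 2429202863) (nat_lit 231) (nat_lit 5) (nat_lit 238) (nat_lit 5) (nat_lit 239) (nat_lit 5) (nat_lit 590) (nat_lit 513) (nat_lit 457))) (XT.nd (nat_lit 78) (nat_lit 532) (nat_lit 0) (XT.lf (nat_lit 0) (nat_lit 651295213) (nat_lit 608) (nat_lit 1786297936) (nat_lit 76) (nat_lit 7035809861) (nat_lit 230) (nat_lit 5) (nat_lit 238) (nat_lit 5) (nat_lit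 231) (nat_lit 5) (nat_lit 591) (nat_lit 513) (nat_lit 456)) (XT.lf (nat_lit 0) (nat_lit 3762574660) (nat_lit 608) (nat_lit 4687616791) (nat_lit 76) (nat_lit 1117151966) (nat_lit 223) (nat_lit 5) (nat_lit 231) (nat_lit 5) (nat_lit 224) (nat_lit 5) (nat_lit 592) (nat_lit 513) (nat_lit 455)))) (XT.nd (nat_lit 156) (nat_lit 1064) (nat_lit 0) (XT.nd (nat_lit 78) (nat_lit 76) (nat_lit 0) (XT.lf (nat_lit 0) (nat_lit 1998781323) (nat_lit 532) (nat_lit 4941385096) (nat_lit 608) (nat_lit 2722918691) (nat_lit 216) (nat_lit 5) (nat_lit 223) (nat_lit 5) (nat_lit 224) (nat_lit 5) (nat_lit 593) (nat_lit 513) (nat_lit 454)) (XT.lf (nat_lit 0) (nat_lit 409764821) (nat_lit 608) (nat_lit 932331178) (nat_lit 76) (nat_lit 8418700824) (nat_lit 215) (nat_lit 5) (nat_lit 223) (nat_lit 5) (nat_lit 216) (nat_lit 5) (nat_lit 594) (nat_lit 513) (nat_lit 453))) (XT.nd (nat_lit 78) (nat_lit 608) (nat_lit 0) (XT.lf (nat_lit 0) (nat_lit 3586440871)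 (nat_lit 532) (nat_lit 3931978918) (nat_lit 76) (nat_lit 2341331003) (nat_lit 209) (nat_lit 5) (nat_lit 216) (nat_lit 5) (nat_lit 210) (nat_lit 5) (nat_lit 595) (nat_lit 513) (nat_lit 452)) (XT.nd (nat_lit 78) (nat_lit 76) (nat_lit 0) (XT.lf (nat_lit 0) (nat_lit 2955987615) (nat_lit 532) (nat_lit 3869101975) (nat_lit 608) (nat_lit 3135629357) (nat_lit 202) (nat_lit 5) (nat_lit 209) (nat_lit 5) (nat_lit 210) (nat_lit 5) (nat_lit 596) (nat_lit 513) (nat_lit 451)) (XT.lf (nat_lit 0) (nat_lit 54712686) (nat_lit 608) (nat_lit 79913196) (nat_lit 76) (nat_lit 9929260750) (nat_lit 201) (nat_lit 5) (nat_lit 209) (nat_lit 5) (nat_lit 202) (nat_lit 5) (nat_lit 597) (nat_lit 513) (nat_lit 450)))))) (XT.nd (nat_lit 390) (nat_lit 1368) (nat_lit 0) (XT.nd (nat_lit 156) (nat_lit 988) (nat_lit 0) (XT.nd (nat_lit 78) (nat_lit 456) (nat_lit 0) (XT.lf (nat_lit 0) (nat_lit 3301489591) (nat_lit 532) (nat_lit 3188346642) (nat_lit 76)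 (nat_lit 3678178290) (nat_lit 195) (nat_lit 5) (nat_lit 202) (nat_lit 5) (nat_lit 196) (nat_lit 5) (nat_lit 598) (nat_lit 513) (nat_lit 449)) (XT.lf (nat_lit 0) (nat_lit 3907239691) (nat_lit 456) (nat_lit 2697928391) (nat_lit 532) (nat_lit 3669221161) (nat_lit 189) (nat_lit 5) (nat_lit 195) (nat_lit 5) (nat_lit 196) (nat_lit 5) (nat_lit 599) (nat_lit 513) (nat_lit 448))) (XT.nd (nat_lit 78) (nat_lit 532) (nat_lit 0) (XT.lf (nat_lit 0) (nat_lit 757005517) (nat_lit 456) (nat_lit 9217384755) (nat_lit 532) (nat_lit 408515306) (nat_lit 183) (nat_lit 5) (nat_lit 189) (nat_lit 5) (nat_lit 190) (nat_lit 5) (nat_lit 600) (nat_lit 513) (nat_lit 447)) (XT.nd (nat_lit 78) (nat_lit 456) (nat_lit 0) (XT.lf (nat_lit 0) (nat_lit 2905563117) (nat_lit 532) (nat_lit 2470684164) (nat_lit 76) (nat_lit 5116441094) (nat_lit 182) (nat_lit 5) (nat_lit 189) (nat_lit 5) (nat_lit 183) (nat_lit 5) (nat_lit 601) (nat_lit 513) (nat_lit 446))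 (XT.lf (nat_lit 0) (nat_lit 4838578916) (nat_lit 456) (nat_lit 1439513938) (nat_lit 532) (nat_lit 4326570492) (nat_lit 176) (nat_lit 5) (nat_lit 182) (nat_lit 5) (nat_lit 183) (nat_lit 5) (nat_lit 602) (nat_lit 513) (nat_lit 445))))) (XT.nd (nat_lit 156) (nat_lit 912) (nat_lit 0) (XT.nd (nat_lit 78) (nat_lit 76) (nat_lit 0) (XT.lf (nat_lit 0) (nat_lit 1562579976) (nat_lit 380) (nat_lit 8165509024) (nat_lit 456) (nat_lit 990591754) (nat_lit 171) (nat_lit 5) (nat_lit 176) (nat_lit 5) (nat_lit 177) (nat_lit 5) (nat_lit 603) (nat_lit 513) (nat_lit 444)) (XT.lf (nat_lit 0) (nat_lit 2395522395) (nat_lit 456) (nat_lit 1793845512) (nat_lit 76) (nat_lit 6644999491) (nat_lit 170) (nat_lit 5) (nat_lit 176) (nat_lit 5) (nat_lit 171) (nat_lit 5) (nat_lit 604) (nat_lit 513) (nat_lit 443))) (XT.nd (nat_lit 78) (nat_lit 456) (nat_lit 0) (XT.lf (nat_lit 0) (nat_lit 5735126685) (nat_lit 456) (nat_lit 105440426) (nat_lit 532) (nat_lit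 5111583326) (nat_lit 164) (nat_lit 5) (nat_lit 170) (nat_lit 5) (nat_lit 171) (nat_lit 5) (nat_lit 605) (nat_lit 513) (nat_lit 442)) (XT.nd (nat_lit 78) (nat_lit 76) (nat_lit 0) (XT.lf (nat_lit 0) (nat_lit 2321545397) (nat_lit 380) (nat_lit 7053961538) (nat_lit 456) (nat_lit 1696365325) (nat_lit 159) (nat_lit 5) (nat_lit 164) (nat_lit 5) (nat_lit 165) (nat_lit 5) (nat_lit 606) (nat_lit 513) (nat_lit 441)) (XT.lf (nat_lit 0) (nat_lit 1767203101) (nat_lit 456) (nat_lit 1173734029) (nat_lit 76) (nat_lit 8252752510) (nat_lit 158) (nat_lit 5) (nat_lit 164) (nat_lit 5) (nat_lit 159) (nat_lit 5) (nat_lit 607) (nat_lit 513) (nat_lit 440))))))))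
noncomputable def xc56 : XT := (XT.nd (nat_lit 75504) (nat_lit 0) (nat_lit 33820) (XT.nd (nat_lit 702) (nat_lit 1368) (nat_lit 0) (XT.nd (nat_lit 312) (nat_lit 1368) (nat_lit 0) (XT.nd (nat_lit 156) (nat_lit 456) (nat_lit 0) (XT.nd (nat_lit 78) (nat_lit 380) (nat_lit 0) (XT.lf (nat_lit 0) (nat_lit 5296652524) (nat_lit 456) (nat_lit 4744975025) (nat_lit 76) (nat_lit 1275707916) (nat_lit 153) (nat_lit 5) (nat_lit 159) (nat_lit 5) (nat_lit 154) (nat_lit 5) (nat_lit 608) (nat_lit 513) (nat_lit 439)) (XT.lf (nat_lit 0) (nat_lit 3017283753) (nat_lit 380) (nat_lit 5894786747) (nat_lit 456) (nat_lit 2531078890) (nat_lit 148) (nat_lit 5) (nat_lit 153) (nat_lit 5) (nat_lit 154) (nat_lit 5) (nat_lit 609) (nat_lit 513) (nat_lit 438))) (XT.nd (nat_lit 78) (nat_lit 380) (nat_lit 0) (XT.lf (nat_lit 0) (nat_lit 1015362681) (nat_lit 456) (nat_lit 627474189) (nat_lit 76) (nat_lit 9928501223) (nat_lit 147) (nat_lit 5) (nat_lit 153)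 (nat_lit 5) (nat_lit 148) (nat_lit 5) (nat_lit 610) (nat_lit 513) (nat_lit 437)) (XT.lf (nat_lit 0) (nat_lit 4633558664) (nat_lit 456) (nat_lit 4360488827) (nat_lit 76) (nat_lit 2707016753) (nat_lit 142) (nat_lit 5) (nat_lit 148) (nat_lit 5) (nat_lit 143) (nat_lit 5) (nat_lit 611) (nat_lit 513) (nat_lit 436)))) (XT.nd (nat_lit 156) (nat_lit 988) (nat_lit 0) (XT.nd (nat_lit 78) (nat_lit 76) (nat_lit 0) (XT.lf (nat_lit 0) (nat_lit 3631832790) (nat_lit 304) (nat_lit 4700269038) (nat_lit 380) (nat_lit 3501125990) (nat_lit 138) (nat_lit 5) (nat_lit 142) (nat_lit 5) (nat_lit 143) (nat_lit 5) (nat_lit 612) (nat_lit 513) (nat_lit 435)) (XT.lf (nat_lit 0) (nat_lit 133617743) (nat_lit 380) (nat_lit 173597377) (nat_lit 76) (nat_lit 11660827718) (nat_lit 137) (nat_lit 5) (nat_lit 142) (nat_lit 5) (nat_lit 138) (nat_lit 5) (nat_lit 613) (nat_lit 513) (nat_lit 434))) (XT.nd (nat_lit 78) (nat_lit 608) (nat_lit 0) (XT.lf (nat_lit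 0) (nat_lit 3843945302) (nat_lit 456) (nat_lit 4082219605) (nat_lit 76) (nat_lit 4177933440) (nat_lit 132) (nat_lit 5) (nat_lit 138) (nat_lit 5) (nat_lit 133) (nat_lit 5) (nat_lit 614) (nat_lit 513) (nat_lit 433)) (XT.nd (nat_lit 78) (nat_lit 304) (nat_lit 0) (XT.lf (nat_lit 0) (nat_lit 4145688954) (nat_lit 304) (nat_lit 3483060203) (nat_lit 380) (nat_lit 4614122783) (nat_lit 128) (nat_lit 5) (nat_lit 132) (nat_lit 5) (nat_lit 133) (nat_lit 5) (nat_lit 615) (nat_lit 513) (nat_lit 432)) (XT.lf (nat_lit 0) (nat_lit 157112758) (nat_lit 304) (nat_lit 11337853723) (nat_lit 380) (nat_lit 889342501) (nat_lit 124) (nat_lit 5) (nat_lit 128) (nat_lit 5) (nat_lit 129) (nat_lit 5) (nat_lit 616) (nat_lit 513) (nat_lit 431)))))) (XT.nd (nat_lit 312) (nat_lit 608) (nat_lit 0) (XT.nd (nat_lit 156) (nat_lit 380) (nat_lit 0) (XT.nd (nat_lit 78) (nat_lit 304) (nat_lit 0) (XT.lf (nat_lit 0) (nat_lit 2919922002) (nat_lit 380) (nat_lit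 3931210908) (nat_lit 76) (nat_lit 5676103167) (nat_lit 123) (nat_lit 5) (nat_lit 128) (nat_lit 5) (nat_lit 124) (nat_lit 5) (nat_lit 617) (nat_lit 513) (nat_lit 430)) (XT.lf (nat_lit 0) (nat_lit 4537593183) (nat_lit 304) (nat_lit 2256313188) (nat_lit 380) (nat_lit 5878991103) (nat_lit 119) (nat_lit 5) (nat_lit 123) (nat_lit 5) (nat_lit 124) (nat_lit 5) (nat_lit 618) (nat_lit 513) (nat_lit 429))) (XT.nd (nat_lit 78) (nat_lit 76) (nat_lit 0) (XT.lf (nat_lit 0) (nat_lit 349873658) (nat_lit 304) (nat_lit 10411227268) (nat_lit 380) (nat_lit 2060058709) (nat_lit 115) (nat_lit 5) (nat_lit 119) (nat_lit 5) (nat_lit 120) (nat_lit 5) (nat_lit 619) (nat_lit 513) (nat_lit 428)) (XT.lf (nat_lit 0) (nat_lit 1852275025) (nat_lit 380) (nat_lit 3930437936) (nat_lit 76) (nat_lit 7188615982) (nat_lit 114) (nat_lit 5) (nat_lit 119) (nat_lit 5) (nat_lit 115) (nat_lit 5) (nat_lit 620) (nat_lit 513) (nat_lit 427)))) (XT.nd (nat_lit 74256)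 (nat_lit 0) (nat_lit 46740) (XT.nd (nat_lit 78) (nat_lit 304) (nat_lit 0) (XT.lf (nat_lit 0) (nat_lit 4784297477) (nat_lit 304) (nat_lit 1033823345) (nat_lit 380) (nat_lit 7306053508) (nat_lit 110) (nat_lit 5) (nat_lit 114) (nat_lit 5) (nat_lit 115) (nat_lit 5) (nat_lit 621) (nat_lit 513) (nat_lit 426)) (XT.lf (nat_lit 0) (nat_lit 380963728) (nat_lit 304) (nat_lit 9507983098) (nat_lit 380) (nat_lit 3390618514) (nat_lit 106) (nat_lit 5) (nat_lit 110) (nat_lit 5) (nat_lit 111) (nat_lit 5) (nat_lit 622) (nat_lit 513) (nat_lit 425))) (XT.nd (nat_lit 78) (nat_lit 608) (nat_lit 0) (XT.lf (nat_lit 0) (nat_lit 701020772) (nat_lit 532) (nat_lit 1853572326) (nat_lit 0) (nat_lit 701020772) (nat_lit 729) (nat_lit 5) (nat_lit 736) (nat_lit 4) (nat_lit 729) (nat_lit 4) (nat_lit 532) (nat_lit 514) (nat_lit 514)) (XT.nd (nat_lit 78) (nat_lit 76) (nat_lit 0) (XT.lf (nat_lit 0) (nat_lit 63434767) (nat_lit 532) (nat_lit 4531452390)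 (nat_lit 532) (nat_lit 1928563453) (nat_lit 722) (nat_lit 4) (nat_lit 729) (nat_lit 5) (nat_lit 729) (nat_lit 4) (nat_lit 533) (nat_lit 514) (nat_lit 513)) (XT.lf (nat_lit 0) (nat_lit 1246784102) (nat_lit 608) (nat_lit 2636236948) (nat_lit 76) (nat_lit 2653779211) (nat_lit 721) (nat_lit 5) (nat_lit 729) (nat_lit 5) (nat_lit 722) (nat_lit 4) (nat_lit 534) (nat_lit 514) (nat_lit 512))))))) (XT.nd (nat_lit 702) (nat_lit 7828) (nat_lit 0) (XT.nd (nat_lit 312) (nat_lit 3648) (nat_lit 0) (XT.nd (nat_lit 156) (nat_lit 760) (nat_lit 0) (XT.nd (nat_lit 78) (nat_lit 76) (nat_lit 0) (XT.lf (nat_lit 0) (nat_lit 1216427992) (nat_lit 608) (nat_lit 3176138549) (nat_lit 684) (nat_lit 2158960501) (nat_lit 713) (nat_lit 5) (nat_lit 721) (nat_lit 5) (nat_lit 722) (nat_lit 4) (nat_lit 535) (nat_lit 514) (nat_lit 511)) (XT.lf (nat_lit 0) (nat_lit 964419644) (nat_lit 684) (nat_lit 1442595743) (nat_lit 76) (nat_lit 4160552472) (nat_lit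 712) (nat_lit 5) (nat_lit 721) (nat_lit 5) (nat_lit 713) (nat_lit 5) (nat_lit 536) (nat_lit 514) (nat_lit 510))) (XT.nd (nat_lit 78) (nat_lit 76) (nat_lit 0) (XT.lf (nat_lit 0) (nat_lit 2495753812) (nat_lit 684) (nat_lit 1568763827) (nat_lit 760) (nat_lit 2520282223) (nat_lit 703) (nat_lit 5) (nat_lit 712) (nat_lit 5) (nat_lit 713) (nat_lit 5) (nat_lit 537) (nat_lit 514) (nat_lit 509)) (XT.lf (nat_lit 0) (nat_lit 553338892) (nat_lit 760) (nat_lit 124962540) (nat_lit 76) (nat_lit 5925266540) (nat_lit 702) (nat_lit 5) (nat_lit 712) (nat_lit 5) (nat_lit 703) (nat_lit 5) (nat_lit 538) (nat_lit 514) (nat_lit 508)))) (XT.nd (nat_lit 156) (nat_lit 1976) (nat_lit 0) (XT.nd (nat_lit 78) (nat_lit 912) (nat_lit 0) (XT.lf (nat_lit 0) (nat_lit 3610925482) (nat_lit 836) (nat_lit 2722404834) (nat_lit 76) (nat_lit 289941021) (nat_lit 692) (nat_lit 5) (nat_lit 703) (nat_lit 5) (nat_lit 693) (nat_lit 5) (nat_lit 539) (nat_lit 514)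 (nat_lit 507)) (XT.lf (nat_lit 0) (nat_lit 28890879) (nat_lit 912) (nat_lit 5317536305) (nat_lit 76) (nat_lit 1298072999) (nat_lit 680) (nat_lit 5) (nat_lit 692) (nat_lit 5) (nat_lit 681) (nat_lit 5) (nat_lit 540) (nat_lit 514) (nat_lit 506))) (XT.nd (nat_lit 78) (nat_lit 1976) (nat_lit 0) (XT.lf (nat_lit 0) (nat_lit 3039772423) (nat_lit 912) (nat_lit 1243540116) (nat_lit 76) (nat_lit 2383476564) (nat_lit 680) (nat_lit 5) (nat_lit 692) (nat_lit 5) (nat_lit 681) (nat_lit 5) (nat_lit 541) (nat_lit 514) (nat_lit 505)) (XT.nd (nat_lit 78) (nat_lit 1064) (nat_lit 0) (XT.lf (nat_lit 0) (nat_lit 2899071101) (nat_lit 912) (nat_lit 3162709390) (nat_lit 988) (nat_lit 628741636) (nat_lit 668) (nat_lit 5) (nat_lit 680) (nat_lit 5) (nat_lit 681) (nat_lit 5) (nat_lit 542) (nat_lit 514) (nat_lit 504)) (XT.lf (nat_lit 0) (nat_lit 364313876) (nat_lit 988) (nat_lit 1976717698) (nat_lit 1064) (nat_lit 4374530705) (nat_lit 654) (nat_lit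 5) (nat_lit 667) (nat_lit 5) (nat_lit 668) (nat_lit 5) (nat_lit 543) (nat_lit 514) (nat_lit 503)))))) (XT.nd (nat_lit 390) (nat_lit 4256) (nat_lit 0) (XT.nd (nat_lit 156) (nat_lit 2432) (nat_lit 0) (XT.nd (nat_lit 78) (nat_lit 1140) (nat_lit 0) (XT.lf (nat_lit 0) (nat_lit 4599244458) (nat_lit 988) (nat_lit 721579629) (nat_lit 1064) (nat_lit 1421030728) (nat_lit 654) (nat_lit 5) (nat_lit 667) (nat_lit 5) (nat_lit 668) (nat_lit 5) (nat_lit 544) (nat_lit 514) (nat_lit 502)) (XT.lf (nat_lit 0) (nat_lit 1522764436) (nat_lit 1140) (nat_lit 4656778913) (nat_lit 76) (nat_lit 589896163) (nat_lit 639) (nat_lit 5) (nat_lit 654) (nat_lit 5) (nat_lit 640) (nat_lit 5) (nat_lit 545) (nat_lit 514) (nat_lit 501))) (XT.nd (nat_lit 78) (nat_lit 2432) (nat_lit 0) (XT.lf (nat_lit 0) (nat_lit 4461198776) (nat_lit 1140) (nat_lit 381560947) (nat_lit 76) (nat_lit 1955547161) (nat_lit 639) (nat_lit 5) (nat_lit 654) (nat_lit 5) (nat_lit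 640) (nat_lit 5) (nat_lit 546) (nat_lit 514) (nat_lit 500)) (XT.nd (nat_lit 78) (nat_lit 1216) (nat_lit 0) (XT.lf (nat_lit 0) (nat_lit 584745729) (nat_lit 1216) (nat_lit 2852044060) (nat_lit 76) (nat_lit 3391646677) (nat_lit 623) (nat_lit 5) (nat_lit 639) (nat_lit 5) (nat_lit 624) (nat_lit 5) (nat_lit 547) (nat_lit 514) (nat_lit 499)) (XT.lf (nat_lit 0) (nat_lit 1520446781) (nat_lit 1216) (nat_lit 1963043595) (nat_lit 1292) (nat_lit 3376388156) (nat_lit 607) (nat_lit 5) (nat_lit 623) (nat_lit 5) (nat_lit 624) (nat_lit 5) (nat_lit 548) (nat_lit 514) (nat_lit 498))))) (XT.nd (nat_lit 156) (nat_lit 2888) (nat_lit 0) (XT.nd (nat_lit 78) (nat_lit 1368) (nat_lit 0) (XT.lf (nat_lit 0) (nat_lit 5967827638) (nat_lit 1216) (nat_lit 429687632) (nat_lit 1292) (nat_lit 495301603) (nat_lit 607) (nat_lit 5) (nat_lit 623) (nat_lit 5) (nat_lit 624) (nat_lit 5) (nat_lit 549) (nat_lit 514) (nat_lit 497)) (XT.lf (nat_lit 0) (nat_lit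 2381110856) (nat_lit 1368) (nat_lit 3377060987) (nat_lit 76) (nat_lit 1168542869) (nat_lit 589) (nat_lit 5) (nat_lit 607) (nat_lit 5) (nat_lit 590) (nat_lit 5) (nat_lit 550) (nat_lit 514) (nat_lit 496))) (XT.nd (nat_lit 78) (nat_lit 1520) (nat_lit 0) (XT.lf (nat_lit 0) (nat_lit 1121724796) (nat_lit 1368) (nat_lit 4142971256) (nat_lit 1444) (nat_lit 1697416207) (nat_lit 571) (nat_lit 5) (nat_lit 589) (nat_lit 5) (nat_lit 590) (nat_lit 5) (nat_lit 551) (nat_lit 514) (nat_lit 495)) (XT.nd (nat_lit 78) (nat_lit 1444) (nat_lit 0) (XT.lf (nat_lit 0) (nat_lit 1155039439) (nat_lit 1444) (nat_lit 1301937620) (nat_lit 76) (nat_lit 4541833254) (nat_lit 570) (nat_lit 5) (nat_lit 589) (nat_lit 5) (nat_lit 571) (nat_lit 5) (nat_lit 552) (nat_lit 514) (nat_lit 494)) (XT.lf (nat_lit 0) (nat_lit 3308008659) (nat_lit 1444) (nat_lit 696808101) (nat_lit 1520) (nat_lit 3031953173) (nat_lit 551) (nat_lit 5) (nat_lit 570) (nat_lit 5)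 (nat_lit 571) (nat_lit 5) (nat_lit 553) (nat_lit 514) (nat_lit 493))))))))
noncomputable def xc57 : XT := (XT.nd (nat_lit 1482) (nat_lit 8816) (nat_lit 0) (XT.nd (nat_lit 702) (nat_lit 6080) (nat_lit 0) (XT.nd (nat_lit 312) (nat_lit 4560) (nat_lit 0) (XT.nd (nat_lit 156) (nat_lit 3344) (nat_lit 0) (XT.nd (nat_lit 78) (nat_lit 76) (nat_lit 0) (XT.lf (nat_lit 0) (nat_lit 904878562) (nat_lit 1520) (nat_lit 5970873493) (nat_lit 1596) (nat_lit 200465231) (nat_lit 531) (nat_lit 5) (nat_lit 551) (nat_lit 5) (nat_lit 552) (nat_lit 5) (nat_lit 554) (nat_lit 514) (nat_lit 492)) (XT.lf (nat_lit 0) (nat_lit 2624970979) (nat_lit 1596) (nat_lit 1509162499) (nat_lit 76) (nat_lit 2982531084) (nat_lit 530) (nat_lit 5) (nat_lit 551) (nat_lit 5) (nat_lit 531) (nat_lit 5) (nat_lit 555) (nat_lit 514) (nat_lit 491))) (XT.nd (nat_lit 78) (nat_lit 1748) (nat_lit 0) (XT.lf (nat_lit 0) (nat_lit 3235685344) (nat_lit 1596) (nat_lit 2233444587)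 (nat_lit 1672) (nat_lit 1689477495) (nat_lit 509) (nat_lit 5) (nat_lit 530) (nat_lit 5) (nat_lit 531) (nat_lit 5) (nat_lit 556) (nat_lit 514) (nat_lit 490)) (XT.lf (nat_lit 0) (nat_lit 846049025) (nat_lit 1672) (nat_lit 267369698) (nat_lit 1748) (nat_lit 6088630038) (nat_lit 486) (nat_lit 5) (nat_lit 508) (nat_lit 5) (nat_lit 509) (nat_lit 5) (nat_lit 557) (nat_lit 514) (nat_lit 489)))) (XT.nd (nat_lit 156) (nat_lit 2812) (nat_lit 0) (XT.nd (nat_lit 78) (nat_lit 1748) (nat_lit 0) (XT.lf (nat_lit 0) (nat_lit 3932610196) (nat_lit 1748) (nat_lit 1557784061) (nat_lit 76) (nat_lit 1756094597) (nat_lit 486) (nat_lit 5) (nat_lit 509) (nat_lit 5) (nat_lit 487) (nat_lit 5) (nat_lit 558) (nat_lit 514) (nat_lit 488)) (XT.lf (nat_lit 0) (nat_lit 3326408497) (nat_lit 1748) (nat_lit 3451276923) (nat_lit 1824) (nat_lit 514752591) (nat_lit 463) (nat_lit 5) (nat_lit 486) (nat_lit 5) (nat_lit 487) (nat_lit 5) (nat_lit 559) (nat_lit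 514) (nat_lit 487))) (XT.nd (nat_lit 78) (nat_lit 1064) (nat_lit 0) (XT.lf (nat_lit 0) (nat_lit 935080274) (nat_lit 1672) (nat_lit 1337667446) (nat_lit 1748) (nat_lit 5067002673) (nat_lit 440) (nat_lit 5) (nat_lit 462) (nat_lit 5) (nat_lit 463) (nat_lit 5) (nat_lit 560) (nat_lit 514) (nat_lit 486)) (XT.nd (nat_lit 78) (nat_lit 1064) (nat_lit 0) (XT.lf (nat_lit 0) (nat_lit 5088424994) (nat_lit 1748) (nat_lit 1461352566) (nat_lit 76) (nat_lit 838586693) (nat_lit 440) (nat_lit 5) (nat_lit 463) (nat_lit 5) (nat_lit 441) (nat_lit 5) (nat_lit 561) (nat_lit 514) (nat_lit 485)) (XT.lf (nat_lit 0) (nat_lit 495735491) (nat_lit 1064) (nat_lit 3874776487) (nat_lit 76) (nat_lit 3067777416) (nat_lit 426) (nat_lit 5) (nat_lit 440) (nat_lit 5) (nat_lit 427) (nat_lit 5) (nat_lit 562) (nat_lit 514) (nat_lit 484)))))) (XT.nd (nat_lit 390) (nat_lit 3344) (nat_lit 0) (XT.nd (nat_lit 156) (nat_lit 1824) (nat_lit 0) (XT.nd (nat_lit 78)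 (nat_lit 0) (nat_lit 0) (XT.lf (nat_lit 0) (nat_lit 1167418621) (nat_lit 912) (nat_lit 2115166663) (nat_lit 988) (nat_lit 4207011661) (nat_lit 414) (nat_lit 5) (nat_lit 426) (nat_lit 5) (nat_lit 427) (nat_lit 5) (nat_lit 563) (nat_lit 514) (nat_lit 483)) (XT.lf (nat_lit 0) (nat_lit 6101790544) (nat_lit 988) (nat_lit 1232740835) (nat_lit 76) (nat_lit 207875831) (nat_lit 414) (nat_lit 5) (nat_lit 427) (nat_lit 5) (nat_lit 415) (nat_lit 5) (nat_lit 564) (nat_lit 514) (nat_lit 482))) (XT.nd (nat_lit 78) (nat_lit 836) (nat_lit 0) (XT.lf (nat_lit 0) (nat_lit 1352770488) (nat_lit 988) (nat_lit 3661075475) (nat_lit 76) (nat_lit 2582461407) (nat_lit 401) (nat_lit 5) (nat_lit 414) (nat_lit 5) (nat_lit 402) (nat_lit 5) (nat_lit 565) (nat_lit 514) (nat_lit 481)) (XT.nd (nat_lit 78) (nat_lit 0) (nat_lit 0) (XT.lf (nat_lit 0) (nat_lit 1530407865) (nat_lit 836) (nat_lit 2621153217) (nat_lit 912) (nat_lit 3500165911) (nat_lit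 390) (nat_lit 5) (nat_lit 401) (nat_lit 5) (nat_lit 402) (nat_lit 5) (nat_lit 566) (nat_lit 514) (nat_lit 480)) (XT.lf (nat_lit 0) (nat_lit 6823468746) (nat_lit 836) (nat_lit 158603354) (nat_lit 912) (nat_lit 726676269) (nat_lit 390) (nat_lit 5) (nat_lit 401) (nat_lit 5) (nat_lit 402) (nat_lit 5) (nat_lit 567) (nat_lit 514) (nat_lit 479))))) (XT.nd (nat_lit 156) (nat_lit 1672) (nat_lit 0) (XT.nd (nat_lit 78) (nat_lit 760) (nat_lit 0) (XT.lf (nat_lit 0) (nat_lit 2070942886) (nat_lit 912) (nat_lit 3333903688) (nat_lit 76) (nat_lit 2361873912) (nat_lit 378) (nat_lit 5) (nat_lit 390) (nat_lit 5) (nat_lit 379) (nat_lit 5) (nat_lit 568) (nat_lit 514) (nat_lit 478)) (XT.lf (nat_lit 0) (nat_lit 2011919456) (nat_lit 760) (nat_lit 2875365532) (nat_lit 836) (nat_lit 2939028753) (nat_lit 368) (nat_lit 5) (nat_lit 378) (nat_lit 5) (nat_lit 379) (nat_lit 5) (nat_lit 569) (nat_lit 514) (nat_lit 477))) (XT.nd (nat_lit 78) (nat_lit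 1672) (nat_lit 0) (XT.lf (nat_lit 0) (nat_lit 7458086591) (nat_lit 760) (nat_lit 277235421) (nat_lit 836) (nat_lit 152277111) (nat_lit 368) (nat_lit 5) (nat_lit 378) (nat_lit 5) (nat_lit 379) (nat_lit 5) (nat_lit 570) (nat_lit 514) (nat_lit 476)) (XT.nd (nat_lit 78) (nat_lit 760) (nat_lit 0) (XT.lf (nat_lit 0) (nat_lit 2657095767) (nat_lit 912) (nat_lit 2905148530) (nat_lit 76) (nat_lit 2387480538) (nat_lit 356) (nat_lit 5) (nat_lit 368) (nat_lit 5) (nat_lit 357) (nat_lit 5) (nat_lit 571) (nat_lit 514) (nat_lit 475)) (XT.lf (nat_lit 0) (nat_lit 2600247863) (nat_lit 760) (nat_lit 2896140420) (nat_lit 836) (nat_lit 2517176407) (nat_lit 346) (nat_lit 5) (nat_lit 356) (nat_lit 5) (nat_lit 357) (nat_lit 5) (nat_lit 572) (nat_lit 514) (nat_lit 474))))))) (XT.nd (nat_lit 702) (nat_lit 4408) (nat_lit 0) (XT.nd (nat_lit 312) (nat_lit 2052) (nat_lit 0) (XT.nd (nat_lit 156) (nat_lit 1520) (nat_lit 0) (XT.nd (nat_lit 78) (nat_lit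 0) (nat_lit 0) (XT.lf (nat_lit 0) (nat_lit 124105877) (nat_lit 760) (nat_lit 160400686) (nat_lit 836) (nat_lit 7794644207) (nat_lit 335) (nat_lit 5) (nat_lit 345) (nat_lit 5) (nat_lit 346) (nat_lit 5) (nat_lit 573) (nat_lit 514) (nat_lit 473)) (XT.lf (nat_lit 0) (nat_lit 3117112252) (nat_lit 836) (nat_lit 2386368762) (nat_lit 76) (nat_lit 2642069676) (nat_lit 335) (nat_lit 5) (nat_lit 346) (nat_lit 5) (nat_lit 336) (nat_lit 5) (nat_lit 574) (nat_lit 514) (nat_lit 472))) (XT.nd (nat_lit 78) (nat_lit 836) (nat_lit 0) (XT.lf (nat_lit 0) (nat_lit 3284006603) (nat_lit 684) (nat_lit 2700551297) (nat_lit 760) (nat_lit 2229163591) (nat_lit 326) (nat_lit 5) (nat_lit 335) (nat_lit 5) (nat_lit 336) (nat_lit 5) (nat_lit 575) (nat_lit 514) (nat_lit 471)) (XT.lf (nat_lit 0) (nat_lit 596197491) (nat_lit 836) (nat_lit 7513568676) (nat_lit 76) (nat_lit 173848376) (nat_lit 315) (nat_lit 5) (nat_lit 326) (nat_lit 5) (nat_lit 316)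 (nat_lit 5) (nat_lit 576) (nat_lit 514) (nat_lit 470)))) (XT.nd (nat_lit 156) (nat_lit 1368) (nat_lit 0) (XT.nd (nat_lit 78) (nat_lit 684) (nat_lit 0) (XT.lf (nat_lit 0) (nat_lit 3455945003) (nat_lit 836) (nat_lit 1788897783) (nat_lit 76) (nat_lit 3109619677) (nat_lit 315) (nat_lit 5) (nat_lit 326) (nat_lit 5) (nat_lit 316) (nat_lit 5) (nat_lit 577) (nat_lit 514) (nat_lit 469)) (XT.lf (nat_lit 0) (nat_lit 4052024092) (nat_lit 684) (nat_lit 2304539741) (nat_lit 760) (nat_lit 2070496114) (nat_lit 306) (nat_lit 5) (nat_lit 315) (nat_lit 5) (nat_lit 316) (nat_lit 5) (nat_lit 578) (nat_lit 514) (nat_lit 468))) (XT.nd (nat_lit 78) (nat_lit 608) (nat_lit 0) (XT.lf (nat_lit 0) (nat_lit 787421012) (nat_lit 760) (nat_lit 7010271595) (nat_lit 76) (nat_lit 703636710) (nat_lit 296) (nat_lit 5) (nat_lit 306) (nat_lit 5) (nat_lit 297) (nat_lit 5) (nat_lit 579) (nat_lit 514) (nat_lit 467)) (XT.nd (nat_lit 78) (nat_lit 608) (nat_lit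 0) (XT.lf (nat_lit 0) (nat_lit 3677638930) (nat_lit 760) (nat_lit 1123947748) (nat_lit 76) (nat_lit 3775172127) (nat_lit 296) (nat_lit 5) (nat_lit 306) (nat_lit 5) (nat_lit 297) (nat_lit 5) (nat_lit 580) (nat_lit 514) (nat_lit 466)) (XT.lf (nat_lit 0) (nat_lit 4893238466) (nat_lit 608) (nat_lit 1723041324) (nat_lit 684) (nat_lit 2037610387) (nat_lit 288) (nat_lit 5) (nat_lit 296) (nat_lit 5) (nat_lit 297) (nat_lit 5) (nat_lit 581) (nat_lit 514) (nat_lit 465)))))) (XT.nd (nat_lit 390) (nat_lit 1824) (nat_lit 0) (XT.nd (nat_lit 156) (nat_lit 1824) (nat_lit 0) (XT.nd (nat_lit 78) (nat_lit 0) (nat_lit 0) (XT.lf (nat_lit 0) (nat_lit 860382625) (nat_lit 760) (nat_lit 6455591010) (nat_lit 76) (nat_lit 1416665379) (nat_lit 278) (nat_lit 5) (nat_lit 288) (nat_lit 5) (nat_lit 279) (nat_lit 5) (nat_lit 582) (nat_lit 514) (nat_lit 464)) (XT.lf (nat_lit 0) (nat_lit 3785347173) (nat_lit 760) (nat_lit 402715416) (nat_lit 76)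 (nat_lit 4624710300) (nat_lit 278) (nat_lit 5) (nat_lit 288) (nat_lit 5) (nat_lit 279) (nat_lit 5) (nat_lit 583) (nat_lit 514) (nat_lit 463))) (XT.nd (nat_lit 78) (nat_lit 1216) (nat_lit 0) (XT.lf (nat_lit 0) (nat_lit 5796590484) (nat_lit 608) (nat_lit 970106649) (nat_lit 684) (nat_lit 2127859820) (nat_lit 270) (nat_lit 5) (nat_lit 278) (nat_lit 5) (nat_lit 279) (nat_lit 5) (nat_lit 584) (nat_lit 514) (nat_lit 462)) (XT.nd (nat_lit 78) (nat_lit 532) (nat_lit 0) (XT.lf (nat_lit 0) (nat_lit 817438399) (nat_lit 684) (nat_lit 5861085770) (nat_lit 76) (nat_lit 2299377367) (nat_lit 261) (nat_lit 5) (nat_lit 270) (nat_lit 5) (nat_lit 262) (nat_lit 5) (nat_lit 585) (nat_lit 514) (nat_lit 461)) (XT.lf (nat_lit 0) (nat_lit 368340242) (nat_lit 532) (nat_lit 3415391599) (nat_lit 608) (nat_lit 5279093175) (nat_lit 254) (nat_lit 5) (nat_lit 261) (nat_lit 5) (nat_lit 262) (nat_lit 5) (nat_lit 586) (nat_lit 514) (nat_lit 460)))))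 (XT.nd (nat_lit 156) (nat_lit 1140) (nat_lit 0) (XT.nd (nat_lit 78) (nat_lit 684) (nat_lit 0) (XT.lf (nat_lit 0) (nat_lit 6750913590) (nat_lit 532) (nat_lit 59018462) (nat_lit 608) (nat_lit 2339508128) (nat_lit 254) (nat_lit 5) (nat_lit 261) (nat_lit 5) (nat_lit 262) (nat_lit 5) (nat_lit 587) (nat_lit 514) (nat_lit 459)) (XT.lf (nat_lit 0) (nat_lit 660057316) (nat_lit 684) (nat_lit 5238506607) (nat_lit 76) (nat_lit 3338946220) (nat_lit 245) (nat_lit 5) (nat_lit 254) (nat_lit 5) (nat_lit 246) (nat_lit 5) (nat_lit 588) (nat_lit 514) (nat_lit 458))) (XT.nd (nat_lit 78) (nat_lit 608) (nat_lit 0) (XT.lf (nat_lit 0) (nat_lit 1178690526) (nat_lit 532) (nat_lit 2495971216) (nat_lit 608) (nat_lit 5652647561) (nat_lit 238) (nat_lit 5) (nat_lit 245) (nat_lit 5) (nat_lit 246) (nat_lit 5) (nat_lit 589) (nat_lit 514) (nat_lit 457)) (XT.nd (nat_lit 78) (nat_lit 608) (nat_lit 0) (XT.lf (nat_lit 0) (nat_lit 6753702981) (nat_lit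 608) (nat_lit 1680612419) (nat_lit 76) (nat_lit 984510620) (nat_lit 238) (nat_lit 5) (nat_lit 246) (nat_lit 5) (nat_lit 239) (nat_lit 5) (nat_lit 590) (nat_lit 514) (nat_lit 456)) (XT.lf (nat_lit 0) (nat_lit 388818126) (nat_lit 608) (nat_lit 4599912315) (nat_lit 76) (nat_lit 4523163738) (nat_lit 230) (nat_lit 5) (nat_lit 238) (nat_lit 5) (nat_lit 231) (nat_lit 5) (nat_lit 591) (nat_lit 514) (nat_lit 455))))))))
noncomputable def xc58 : XT := (XT.nd (nat_lit 1482) (nat_lit 2888) (nat_lit 0) (XT.nd (nat_lit 702) (nat_lit 3116) (nat_lit 0) (XT.nd (nat_lit 312) (nat_lit 1520) (nat_lit 0) (XT.nd (nat_lit 156) (nat_lit 1064) (nat_lit 0) (XT.nd (nat_lit 78) (nat_lit 0) (nat_lit 0) (XT.lf (nat_lit 0) (nat_lit 2011009997) (nat_lit 532) (nat_lit 1444905603) (nat_lit 608) (nat_lit 6150804709) (nat_lit 223) (nat_lit 5) (nat_lit 230) (nat_lit 5) (nat_lit 231) (nat_lit 5) (nat_lit 592) (nat_lit 514) (nat_lit 454)) (XT.lf (nat_lit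 0) (nat_lit 6593142411) (nat_lit 608) (nat_lit 951175959) (nat_lit 76) (nat_lit 2158952973) (nat_lit 223) (nat_lit 5) (nat_lit 231) (nat_lit 5) (nat_lit 224) (nat_lit 5) (nat_lit 593) (nat_lit 514) (nat_lit 453))) (XT.nd (nat_lit 78) (nat_lit 456) (nat_lit 0) (XT.lf (nat_lit 0) (nat_lit 3399146) (nat_lit 608) (nat_lit 3957791309) (nat_lit 76) (nat_lit 5840329521) (nat_lit 215) (nat_lit 5) (nat_lit 223) (nat_lit 5) (nat_lit 216) (nat_lit 5) (nat_lit 594) (nat_lit 514) (nat_lit 452)) (XT.lf (nat_lit 0) (nat_lit 2852875407) (nat_lit 456) (nat_lit 274147090) (nat_lit 532) (nat_lit 6774514429) (nat_lit 209) (nat_lit 5) (nat_lit 215) (nat_lit 5) (nat_lit 216) (nat_lit 5) (nat_lit 595) (nat_lit 514) (nat_lit 451)))) (XT.nd (nat_lit 156) (nat_lit 988) (nat_lit 0) (XT.nd (nat_lit 78) (nat_lit 532) (nat_lit 0) (XT.lf (nat_lit 0) (nat_lit 6327256309) (nat_lit 532) (nat_lit 222439453) (nat_lit 76) (nat_lit 3453579503) (nat_lit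 209) (nat_lit 5) (nat_lit 216) (nat_lit 5) (nat_lit 210) (nat_lit 5) (nat_lit 596) (nat_lit 514) (nat_lit 450)) (XT.lf (nat_lit 0) (nat_lit 6778364180) (nat_lit 532) (nat_lit 2824412350) (nat_lit 608) (nat_lit 504049946) (nat_lit 202) (nat_lit 5) (nat_lit 209) (nat_lit 5) (nat_lit 210) (nat_lit 5) (nat_lit 597) (nat_lit 514) (nat_lit 449))) (XT.nd (nat_lit 78) (nat_lit 456) (nat_lit 0) (XT.lf (nat_lit 0) (nat_lit 2693115802) (nat_lit 532) (nat_lit 6527516358) (nat_lit 76) (nat_lit 991513876) (nat_lit 195) (nat_lit 5) (nat_lit 202) (nat_lit 5) (nat_lit 196) (nat_lit 5) (nat_lit 598) (nat_lit 514) (nat_lit 448)) (XT.nd (nat_lit 78) (nat_lit 0) (nat_lit 0) (XT.lf (nat_lit 0) (nat_lit 498898513) (nat_lit 456) (nat_lit 5458860279) (nat_lit 532) (nat_lit 4361544417) (nat_lit 189) (nat_lit 5) (nat_lit 195) (nat_lit 5) (nat_lit 196) (nat_lit 5) (nat_lit 599) (nat_lit 514) (nat_lit 447)) (XT.lf (nat_lit 0) (nat_lit 7705218766)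 (nat_lit 456) (nat_lit 1592479045) (nat_lit 532) (nat_lit 1130709106) (nat_lit 189) (nat_lit 5) (nat_lit 195) (nat_lit 5) (nat_lit 196) (nat_lit 5) (nat_lit 600) (nat_lit 514) (nat_lit 446)))))) (XT.nd (nat_lit 390) (nat_lit 1216) (nat_lit 0) (XT.nd (nat_lit 156) (nat_lit 912) (nat_lit 0) (XT.nd (nat_lit 78) (nat_lit 456) (nat_lit 0) (XT.lf (nat_lit 0) (nat_lit 2147744155) (nat_lit 532) (nat_lit 6042438881) (nat_lit 76) (nat_lit 2349004037) (nat_lit 182) (nat_lit 5) (nat_lit 189) (nat_lit 5) (nat_lit 183) (nat_lit 5) (nat_lit 601) (nat_lit 514) (nat_lit 445)) (XT.lf (nat_lit 0) (nat_lit 1194860990) (nat_lit 456) (nat_lit 4285360298) (nat_lit 532) (nat_lit 5171743420) (nat_lit 176) (nat_lit 5) (nat_lit 182) (nat_lit 5) (nat_lit 183) (nat_lit 5) (nat_lit 602) (nat_lit 514) (nat_lit 444))) (XT.nd (nat_lit 78) (nat_lit 912) (nat_lit 0) (XT.lf (nat_lit 0) (nat_lit 8610301095) (nat_lit 456) (nat_lit 276810970) (nat_lit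 532) (nat_lit 1879733738) (nat_lit 176) (nat_lit 5) (nat_lit 182) (nat_lit 5) (nat_lit 183) (nat_lit 5) (nat_lit 603) (nat_lit 514) (nat_lit 443)) (XT.nd (nat_lit 78) (nat_lit 456) (nat_lit 0) (XT.lf (nat_lit 0) (nat_lit 1485736765) (nat_lit 456) (nat_lit 5606763346) (nat_lit 76) (nat_lit 3790795408) (nat_lit 170) (nat_lit 5) (nat_lit 176) (nat_lit 5) (nat_lit 171) (nat_lit 5) (nat_lit 604) (nat_lit 514) (nat_lit 442)) (XT.lf (nat_lit 0) (nat_lit 1847348271) (nat_lit 456) (nat_lit 3042283419) (nat_lit 532) (nat_lit 6112271353) (nat_lit 164) (nat_lit 5) (nat_lit 170) (nat_lit 5) (nat_lit 171) (nat_lit 5) (nat_lit 605) (nat_lit 514) (nat_lit 441))))) (XT.nd (nat_lit 156) (nat_lit 760) (nat_lit 0) (XT.nd (nat_lit 78) (nat_lit 456) (nat_lit 0) (XT.lf (nat_lit 0) (nat_lit 8374629047) (nat_lit 532) (nat_lit 1651344534) (nat_lit 76) (nat_lit 1096651594) (nat_lit 164) (nat_lit 5) (nat_lit 171) (nat_lit 5) (nat_lit 165)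 (nat_lit 5) (nat_lit 606) (nat_lit 514) (nat_lit 440)) (XT.lf (nat_lit 0) (nat_lit 702677186) (nat_lit 456) (nat_lit 5236672154) (nat_lit 76) (nat_lit 5305764925) (nat_lit 158) (nat_lit 5) (nat_lit 164) (nat_lit 5) (nat_lit 159) (nat_lit 5) (nat_lit 607) (nat_lit 514) (nat_lit 439))) (XT.nd (nat_lit 78) (nat_lit 380) (nat_lit 0) (XT.lf (nat_lit 0) (nat_lit 2440114456) (nat_lit 380) (nat_lit 1741291940) (nat_lit 456) (nat_lit 7188369470) (nat_lit 153) (nat_lit 5) (nat_lit 158) (nat_lit 5) (nat_lit 159) (nat_lit 5) (nat_lit 608) (nat_lit 514) (nat_lit 438)) (XT.nd (nat_lit 78) (nat_lit 380) (nat_lit 0) (XT.lf (nat_lit 0) (nat_lit 7750584154) (nat_lit 456) (nat_lit 1219329827) (nat_lit 76) (nat_lit 2526601964) (nat_lit 153) (nat_lit 5) (nat_lit 159) (nat_lit 5) (nat_lit 154) (nat_lit 5) (nat_lit 609) (nat_lit 514) (nat_lit 437)) (XT.lf (nat_lit 0) (nat_lit 6674354753) (nat_lit 380) (nat_lit 4741268875) (nat_lit 456)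 (nat_lit 209680303) (nat_lit 148) (nat_lit 5) (nat_lit 153) (nat_lit 5) (nat_lit 154) (nat_lit 5) (nat_lit 610) (nat_lit 514) (nat_lit 436))))))) (XT.nd (nat_lit 702) (nat_lit 684) (nat_lit 0) (XT.nd (nat_lit 312) (nat_lit 988) (nat_lit 0) (XT.nd (nat_lit 156) (nat_lit 760) (nat_lit 0) (XT.nd (nat_lit 78) (nat_lit 0) (nat_lit 0) (XT.lf (nat_lit 0) (nat_lit 2955635154) (nat_lit 380) (nat_lit 394235208) (nat_lit 456) (nat_lit 8406416123) (nat_lit 142) (nat_lit 5) (nat_lit 147) (nat_lit 5) (nat_lit 148) (nat_lit 5) (nat_lit 611) (nat_lit 514) (nat_lit 435)) (XT.lf (nat_lit 0) (nat_lit 7007366184) (nat_lit 456) (nat_lit 876738774) (nat_lit 76) (nat_lit 4005167294) (nat_lit 142) (nat_lit 5) (nat_lit 148) (nat_lit 5) (nat_lit 143) (nat_lit 5) (nat_lit 612) (nat_lit 514) (nat_lit 434))) (XT.nd (nat_lit 78) (nat_lit 456) (nat_lit 0) (XT.lf (nat_lit 0) (nat_lit 7251936118) (nat_lit 304) (nat_lit 3506248436) (nat_lit 380)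 (nat_lit 1266332193) (nat_lit 138) (nat_lit 5) (nat_lit 142) (nat_lit 5) (nat_lit 143) (nat_lit 5) (nat_lit 613) (nat_lit 514) (nat_lit 433)) (XT.lf (nat_lit 0) (nat_lit 2394597243) (nat_lit 456) (nat_lit 8793675852) (nat_lit 76) (nat_lit 973784896) (nat_lit 132) (nat_lit 5) (nat_lit 138) (nat_lit 5) (nat_lit 133) (nat_lit 5) (nat_lit 614) (nat_lit 514) (nat_lit 432)))) (XT.nd (nat_lit 156) (nat_lit 684) (nat_lit 0) (XT.nd (nat_lit 78) (nat_lit 304) (nat_lit 0) (XT.lf (nat_lit 0) (nat_lit 6137995117) (nat_lit 456) (nat_lit 643146964) (nat_lit 76) (nat_lit 5520518775) (nat_lit 132) (nat_lit 5) (nat_lit 138) (nat_lit 5) (nat_lit 133) (nat_lit 5) (nat_lit 615) (nat_lit 514) (nat_lit 431)) (XT.lf (nat_lit 0) (nat_lit 7726157153) (nat_lit 304) (nat_lit 2251572400) (nat_lit 380) (nat_lit 2465899131) (nat_lit 128) (nat_lit 5) (nat_lit 132) (nat_lit 5) (nat_lit 133) (nat_lit 5) (nat_lit 616) (nat_lit 514) (nat_lit 430)))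 (XT.nd (nat_lit 78) (nat_lit 304) (nat_lit 0) (XT.lf (nat_lit 0) (nat_lit 1303811008) (nat_lit 380) (nat_lit 8926498043) (nat_lit 76) (nat_lit 2357657156) (nat_lit 123) (nat_lit 5) (nat_lit 128) (nat_lit 5) (nat_lit 124) (nat_lit 5) (nat_lit 617) (nat_lit 514) (nat_lit 429)) (XT.nd (nat_lit 78) (nat_lit 304) (nat_lit 0) (XT.lf (nat_lit 0) (nat_lit 5134245143) (nat_lit 380) (nat_lit 539881772) (nat_lit 76) (nat_lit 7060372756) (nat_lit 123) (nat_lit 5) (nat_lit 128) (nat_lit 5) (nat_lit 124) (nat_lit 5) (nat_lit 618) (nat_lit 514) (nat_lit 428)) (XT.lf (nat_lit 0) (nat_lit 8075469760) (nat_lit 304) (nat_lit 990347426) (nat_lit 380) (nat_lit 3817658139) (nat_lit 119) (nat_lit 5) (nat_lit 123) (nat_lit 5) (nat_lit 124) (nat_lit 5) (nat_lit 619) (nat_lit 514) (nat_lit 427)))))) (XT.nd (nat_lit 74334) (nat_lit 0) (nat_lit 45752) (XT.nd (nat_lit 156) (nat_lit 304) (nat_lit 0) (XT.nd (nat_lit 78) (nat_lit 0) (nat_lit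 0) (XT.lf (nat_lit 0) (nat_lit 65476014) (nat_lit 380) (nat_lit 9219899351) (nat_lit 76) (nat_lit 3749543516) (nat_lit 114) (nat_lit 5) (nat_lit 119) (nat_lit 5) (nat_lit 115) (nat_lit 5) (nat_lit 620) (nat_lit 514) (nat_lit 426)) (XT.lf (nat_lit 0) (nat_lit 3986553365) (nat_lit 380) (nat_lit 590252996) (nat_lit 76) (nat_lit 8611854256) (nat_lit 114) (nat_lit 5) (nat_lit 119) (nat_lit 5) (nat_lit 115) (nat_lit 5) (nat_lit 621) (nat_lit 514) (nat_lit 425))) (XT.nd (nat_lit 74022) (nat_lit 0) (nat_lit 47500) (XT.lf (nat_lit 0) (nat_lit 8014356635) (nat_lit 380) (nat_lit 5070373947) (nat_lit 76) (nat_lit 260182464) (nat_lit 110) (nat_lit 5) (nat_lit 115) (nat_lit 5) (nat_lit 111) (nat_lit 5) (nat_lit 622) (nat_lit 514) (nat_lit 424)) (XT.nd (nat_lit 78) (nat_lit 76) (nat_lit 0) (XT.lf (nat_lit 0) (nat_lit 930616767) (nat_lit 380) (nat_lit 1157213345) (nat_lit 380) (nat_lit 1157213345) (nat_lit 736) (nat_lit 4) (nat_lit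 741) (nat_lit 5) (nat_lit 741) (nat_lit 4) (nat_lit 530) (nat_lit 515) (nat_lit 515)) (XT.lf (nat_lit 0) (nat_lit 869459004) (nat_lit 456) (nat_lit 951738460) (nat_lit 76) (nat_lit 4679213774) (nat_lit 735) (nat_lit 5) (nat_lit 741) (nat_lit 5) (nat_lit 736) (nat_lit 4) (nat_lit 531) (nat_lit 515) (nat_lit 514))))) (XT.nd (nat_lit 156) (nat_lit 684) (nat_lit 0) (XT.nd (nat_lit 78) (nat_lit 608) (nat_lit 0) (XT.lf (nat_lit 0) (nat_lit 2771255378) (nat_lit 456) (nat_lit 1255599940) (nat_lit 532) (nat_lit 2484985652) (nat_lit 729) (nat_lit 5) (nat_lit 735) (nat_lit 5) (nat_lit 736) (nat_lit 4) (nat_lit 532) (nat_lit 515) (nat_lit 513)) (XT.lf (nat_lit 0) (nat_lit 4151949) (nat_lit 532) (nat_lit 640187174) (nat_lit 608) (nat_lit 5880488036) (nat_lit 721) (nat_lit 5) (nat_lit 728) (nat_lit 5) (nat_lit 729) (nat_lit 5) (nat_lit 533) (nat_lit 515) (nat_lit 512))) (XT.nd (nat_lit 78) (nat_lit 684) (nat_lit 0) (XT.lf (nat_lit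 0) (nat_lit 3753023535) (nat_lit 608) (nat_lit 2730395596) (nat_lit 76) (nat_lit 55344603) (nat_lit 721) (nat_lit 5) (nat_lit 729) (nat_lit 5) (nat_lit 722) (nat_lit 4) (nat_lit 534) (nat_lit 515) (nat_lit 511)) (XT.nd (nat_lit 78) (nat_lit 0) (nat_lit 0) (XT.lf (nat_lit 0) (nat_lit 303265081) (nat_lit 684) (nat_lit 5460191651) (nat_lit 76) (nat_lit 790748946) (nat_lit 712) (nat_lit 5) (nat_lit 721) (nat_lit 5) (nat_lit 713) (nat_lit 5) (nat_lit 535) (nat_lit 515) (nat_lit 510)) (XT.lf (nat_lit 0) (nat_lit 3362155624) (nat_lit 684) (nat_lit 1606675216) (nat_lit 76) (nat_lit 1601868182) (nat_lit 712) (nat_lit 5) (nat_lit 721) (nat_lit 5) (nat_lit 713) (nat_lit 5) (nat_lit 536) (nat_lit 515) (nat_lit 509))))))))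
noncomputable def xc59 : XT := (XT.nd (nat_lit 1482) (nat_lit 14820) (nat_lit 0) (XT.nd (nat_lit 702) (nat_lit 8284) (nat_lit 0) (XT.nd (nat_lit 312) (nat_lit 3116) (nat_lit 0) (XT.nd (nat_lit 156) (nat_lit 1672) (nat_lit 0) (XT.nd (nat_lit 78) (nat_lit 76) (nat_lit 0) (XT.lf (nat_lit 0) (nat_lit 2304688613) (nat_lit 684) (nat_lit 4120859340) (nat_lit 760) (nat_lit 163126387) (nat_lit 703) (nat_lit 5) (nat_lit 712) (nat_lit 5) (nat_lit 713) (nat_lit 5) (nat_lit 537) (nat_lit 515) (nat_lit 508)) (XT.lf (nat_lit 0) (nat_lit 2844412350) (nat_lit 760) (nat_lit 360001462) (nat_lit 76) (nat_lit 3403434756) (nat_lit 702) (nat_lit 5) (nat_lit 712) (nat_lit 5) (nat_lit 703) (nat_lit 5) (nat_lit 538) (nat_lit 515) (nat_lit 507))) (XT.nd (nat_lit 78) (nat_lit 912) (nat_lit 0) (XT.lf (nat_lit 0) (nat_lit 3640017793) (nat_lit 760) (nat_lit 2223889115) (nat_lit 836) (nat_lit 764415537) (nat_lit 692) (nat_lit 5) (nat_lit 702)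 (nat_lit 5) (nat_lit 703) (nat_lit 5) (nat_lit 539) (nat_lit 515) (nat_lit 506)) (XT.lf (nat_lit 0) (nat_lit 1024567742) (nat_lit 836) (nat_lit 1179939399) (nat_lit 912) (nat_lit 4445617224) (nat_lit 680) (nat_lit 5) (nat_lit 691) (nat_lit 5) (nat_lit 692) (nat_lit 5) (nat_lit 540) (nat_lit 515) (nat_lit 505)))) (XT.nd (nat_lit 156) (nat_lit 2128) (nat_lit 0) (XT.nd (nat_lit 78) (nat_lit 988) (nat_lit 0) (XT.lf (nat_lit 0) (nat_lit 5103686744) (nat_lit 836) (nat_lit 70880503) (nat_lit 912) (nat_lit 1498670637) (nat_lit 680) (nat_lit 5) (nat_lit 691) (nat_lit 5) (nat_lit 692) (nat_lit 5) (nat_lit 541) (nat_lit 515) (nat_lit 504)) (XT.lf (nat_lit 0) (nat_lit 1443966391) (nat_lit 988) (nat_lit 4163025057) (nat_lit 76) (nat_lit 1090511995) (nat_lit 667) (nat_lit 5) (nat_lit 680) (nat_lit 5) (nat_lit 668) (nat_lit 5) (nat_lit 542) (nat_lit 515) (nat_lit 503))) (XT.nd (nat_lit 78) (nat_lit 2128) (nat_lit 0) (XT.lf (nat_lit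 0) (nat_lit 4370430905) (nat_lit 988) (nat_lit 41097651) (nat_lit 76) (nat_lit 2311642347) (nat_lit 667) (nat_lit 5) (nat_lit 680) (nat_lit 5) (nat_lit 668) (nat_lit 5) (nat_lit 543) (nat_lit 515) (nat_lit 502)) (XT.nd (nat_lit 78) (nat_lit 1064) (nat_lit 0) (XT.lf (nat_lit 0) (nat_lit 560170674) (nat_lit 1064) (nat_lit 2585332234) (nat_lit 76) (nat_lit 3604544125) (nat_lit 653) (nat_lit 5) (nat_lit 667) (nat_lit 5) (nat_lit 654) (nat_lit 5) (nat_lit 544) (nat_lit 515) (nat_lit 501)) (XT.lf (nat_lit 0) (nat_lit 1633579527) (nat_lit 1064) (nat_lit 1812930110) (nat_lit 1140) (nat_lit 3331721208) (nat_lit 639) (nat_lit 5) (nat_lit 653) (nat_lit 5) (nat_lit 654) (nat_lit 5) (nat_lit 545) (nat_lit 515) (nat_lit 500)))))) (XT.nd (nat_lit 390) (nat_lit 4484) (nat_lit 0) (XT.nd (nat_lit 156) (nat_lit 2584) (nat_lit 0) (XT.nd (nat_lit 78) (nat_lit 1216) (nat_lit 0) (XT.lf (nat_lit 0) (nat_lit 5922235687) (nat_lit 1064)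 (nat_lit 422385617) (nat_lit 1140) (nat_lit 463290478) (nat_lit 639) (nat_lit 5) (nat_lit 653) (nat_lit 5) (nat_lit 654) (nat_lit 5) (nat_lit 546) (nat_lit 515) (nat_lit 499)) (XT.lf (nat_lit 0) (nat_lit 2396852122) (nat_lit 1216) (nat_lit 3407455921) (nat_lit 76) (nat_lit 1034239552) (nat_lit 623) (nat_lit 5) (nat_lit 639) (nat_lit 5) (nat_lit 624) (nat_lit 5) (nat_lit 547) (nat_lit 515) (nat_lit 498))) (XT.nd (nat_lit 78) (nat_lit 1368) (nat_lit 0) (XT.lf (nat_lit 0) (nat_lit 932297348) (nat_lit 1216) (nat_lit 4329034820) (nat_lit 1292) (nat_lit 1609349489) (nat_lit 607) (nat_lit 5) (nat_lit 623) (nat_lit 5) (nat_lit 624) (nat_lit 5) (nat_lit 548) (nat_lit 515) (nat_lit 497)) (XT.nd (nat_lit 78) (nat_lit 1292) (nat_lit 0) (XT.lf (nat_lit 0) (nat_lit 1224842406) (nat_lit 1292) (nat_lit 1557466001) (nat_lit 76) (nat_lit 4121757206) (nat_lit 606) (nat_lit 5) (nat_lit 623) (nat_lit 5) (nat_lit 607) (nat_lit 5) (nat_lit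 549) (nat_lit 515) (nat_lit 496)) (XT.lf (nat_lit 0) (nat_lit 2888253636) (nat_lit 1292) (nat_lit 1164849183) (nat_lit 1368) (nat_lit 2885635756) (nat_lit 589) (nat_lit 5) (nat_lit 606) (nat_lit 5) (nat_lit 607) (nat_lit 5) (nat_lit 550) (nat_lit 515) (nat_lit 495))))) (XT.nd (nat_lit 156) (nat_lit 3040) (nat_lit 0) (XT.nd (nat_lit 78) (nat_lit 76) (nat_lit 0) (XT.lf (nat_lit 0) (nat_lit 421450702) (nat_lit 1368) (nat_lit 6473955451) (nat_lit 1444) (nat_lit 79561797) (nat_lit 571) (nat_lit 5) (nat_lit 589) (nat_lit 5) (nat_lit 590) (nat_lit 5) (nat_lit 551) (nat_lit 515) (nat_lit 494)) (XT.lf (nat_lit 0) (nat_lit 2722715958) (nat_lit 1444) (nat_lit 2051025313) (nat_lit 76) (nat_lit 2238299790) (nat_lit 570) (nat_lit 5) (nat_lit 589) (nat_lit 5) (nat_lit 571) (nat_lit 5) (nat_lit 552) (nat_lit 515) (nat_lit 493))) (XT.nd (nat_lit 78) (nat_lit 1596) (nat_lit 0) (XT.lf (nat_lit 0) (nat_lit 2523679721) (nat_lit 1444)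 (nat_lit 3015329568) (nat_lit 1520) (nat_lit 1511666908) (nat_lit 551) (nat_lit 5) (nat_lit 570) (nat_lit 5) (nat_lit 571) (nat_lit 5) (nat_lit 553) (nat_lit 515) (nat_lit 492)) (XT.nd (nat_lit 78) (nat_lit 0) (nat_lit 0) (XT.lf (nat_lit 0) (nat_lit 69264481) (nat_lit 1520) (nat_lit 1192314430) (nat_lit 1596) (nat_lit 5829197513) (nat_lit 530) (nat_lit 5) (nat_lit 550) (nat_lit 5) (nat_lit 551) (nat_lit 5) (nat_lit 554) (nat_lit 515) (nat_lit 491)) (XT.lf (nat_lit 0) (nat_lit 4048866234) (nat_lit 1596) (nat_lit 2378480588) (nat_lit 76) (nat_lit 704566742) (nat_lit 530) (nat_lit 5) (nat_lit 551) (nat_lit 5) (nat_lit 531) (nat_lit 5) (nat_lit 555) (nat_lit 515) (nat_lit 490))))))) (XT.nd (nat_lit 702) (nat_lit 6004) (nat_lit 0) (XT.nd (nat_lit 312) (nat_lit 3648) (nat_lit 0) (XT.nd (nat_lit 156) (nat_lit 3496) (nat_lit 0) (XT.nd (nat_lit 78) (nat_lit 76) (nat_lit 0) (XT.lf (nat_lit 0) (nat_lit 2329398184) (nat_lit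 1596) (nat_lit 4530509007) (nat_lit 1672) (nat_lit 314616988) (nat_lit 509) (nat_lit 5) (nat_lit 530) (nat_lit 5) (nat_lit 531) (nat_lit 5) (nat_lit 556) (nat_lit 515) (nat_lit 489)) (XT.lf (nat_lit 0) (nat_lit 2437709903) (nat_lit 1672) (nat_lit 121460003) (nat_lit 76) (nat_lit 4659273016) (nat_lit 508) (nat_lit 5) (nat_lit 530) (nat_lit 5) (nat_lit 509) (nat_lit 5) (nat_lit 557) (nat_lit 515) (nat_lit 488))) (XT.nd (nat_lit 78) (nat_lit 1824) (nat_lit 0) (XT.lf (nat_lit 0) (nat_lit 4706249751) (nat_lit 1672) (nat_lit 511621833) (nat_lit 1748) (nat_lit 2045797105) (nat_lit 486) (nat_lit 5) (nat_lit 508) (nat_lit 5) (nat_lit 509) (nat_lit 5) (nat_lit 558) (nat_lit 515) (nat_lit 487)) (XT.lf (nat_lit 0) (nat_lit 707017907) (nat_lit 1824) (nat_lit 5023639169) (nat_lit 76) (nat_lit 1579596452) (nat_lit 462) (nat_lit 5) (nat_lit 486) (nat_lit 5) (nat_lit 463) (nat_lit 5) (nat_lit 559) (nat_lit 515) (nat_lit 486))))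 (XT.nd (nat_lit 156) (nat_lit 1976) (nat_lit 0) (XT.nd (nat_lit 78) (nat_lit 1672) (nat_lit 0) (XT.lf (nat_lit 0) (nat_lit 3455726257) (nat_lit 1824) (nat_lit 163481338) (nat_lit 76) (nat_lit 3738937077) (nat_lit 462) (nat_lit 5) (nat_lit 486) (nat_lit 5) (nat_lit 463) (nat_lit 5) (nat_lit 560) (nat_lit 515) (nat_lit 485)) (XT.lf (nat_lit 0) (nat_lit 4806725505) (nat_lit 1672) (nat_lit 1432461473) (nat_lit 1748) (nat_lit 1168220578) (nat_lit 440) (nat_lit 5) (nat_lit 462) (nat_lit 5) (nat_lit 463) (nat_lit 5) (nat_lit 561) (nat_lit 515) (nat_lit 484))) (XT.nd (nat_lit 78) (nat_lit 912) (nat_lit 0) (XT.lf (nat_lit 0) (nat_lit 1570309275) (nat_lit 1064) (nat_lit 5072311161) (nat_lit 76) (nat_lit 815415859) (nat_lit 426) (nat_lit 5) (nat_lit 440) (nat_lit 5) (nat_lit 427) (nat_lit 5) (nat_lit 562) (nat_lit 515) (nat_lit 483)) (XT.nd (nat_lit 78) (nat_lit 912) (nat_lit 0) (XT.lf (nat_lit 0) (nat_lit 4324622074) (nat_lit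 1064) (nat_lit 70792788) (nat_lit 76) (nat_lit 3114584146) (nat_lit 426) (nat_lit 5) (nat_lit 440) (nat_lit 5) (nat_lit 427) (nat_lit 5) (nat_lit 563) (nat_lit 515) (nat_lit 482)) (XT.lf (nat_lit 0) (nat_lit 5046710174) (nat_lit 912) (nat_lit 2070652226) (nat_lit 988) (nat_lit 445980507) (nat_lit 414) (nat_lit 5) (nat_lit 426) (nat_lit 5) (nat_lit 427) (nat_lit 5) (nat_lit 564) (nat_lit 515) (nat_lit 481)))))) (XT.nd (nat_lit 390) (nat_lit 2508) (nat_lit 0) (XT.nd (nat_lit 156) (nat_lit 1672) (nat_lit 0) (XT.nd (nat_lit 78) (nat_lit 836) (nat_lit 0) (XT.lf (nat_lit 0) (nat_lit 2287931992) (nat_lit 988) (nat_lit 5001944846) (nat_lit 76) (nat_lit 328169839) (nat_lit 401) (nat_lit 5) (nat_lit 414) (nat_lit 5) (nat_lit 402) (nat_lit 5) (nat_lit 565) (nat_lit 515) (nat_lit 480)) (XT.lf (nat_lit 0) (nat_lit 146036389) (nat_lit 836) (nat_lit 4907694821) (nat_lit 912) (nat_lit 2620399002) (nat_lit 390) (nat_lit 5) (nat_lit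 401) (nat_lit 5) (nat_lit 402) (nat_lit 5) (nat_lit 566) (nat_lit 515) (nat_lit 479))) (XT.nd (nat_lit 78) (nat_lit 1596) (nat_lit 0) (XT.lf (nat_lit 0) (nat_lit 127226000) (nat_lit 912) (nat_lit 2318548331) (nat_lit 76) (nat_lit 5285838441) (nat_lit 389) (nat_lit 5) (nat_lit 401) (nat_lit 5) (nat_lit 390) (nat_lit 5) (nat_lit 567) (nat_lit 515) (nat_lit 478)) (XT.nd (nat_lit 78) (nat_lit 760) (nat_lit 0) (XT.lf (nat_lit 0) (nat_lit 2867407919) (nat_lit 912) (nat_lit 4824874215) (nat_lit 76) (nat_lit 98170378) (nat_lit 378) (nat_lit 5) (nat_lit 390) (nat_lit 5) (nat_lit 379) (nat_lit 5) (nat_lit 568) (nat_lit 515) (nat_lit 477)) (XT.lf (nat_lit 0) (nat_lit 475508767) (nat_lit 760) (nat_lit 5175162847) (nat_lit 836) (nat_lit 2200039496) (nat_lit 368) (nat_lit 5) (nat_lit 378) (nat_lit 5) (nat_lit 379) (nat_lit 5) (nat_lit 569) (nat_lit 515) (nat_lit 476))))) (XT.nd (nat_lit 156) (nat_lit 1596) (nat_lit 0) (XT.nd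 (nat_lit 78) (nat_lit 836) (nat_lit 0) (XT.lf (nat_lit 0) (nat_lit 556049449) (nat_lit 836) (nat_lit 2019562251) (nat_lit 76) (nat_lit 5336771591) (nat_lit 367) (nat_lit 5) (nat_lit 378) (nat_lit 5) (nat_lit 368) (nat_lit 5) (nat_lit 570) (nat_lit 515) (nat_lit 475)) (XT.lf (nat_lit 0) (nat_lit 3315274152) (nat_lit 912) (nat_lit 4553024813) (nat_lit 76) (nat_lit 107156841) (nat_lit 356) (nat_lit 5) (nat_lit 368) (nat_lit 5) (nat_lit 357) (nat_lit 5) (nat_lit 571) (nat_lit 515) (nat_lit 474))) (XT.nd (nat_lit 78) (nat_lit 836) (nat_lit 0) (XT.lf (nat_lit 0) (nat_lit 904935853) (nat_lit 760) (nat_lit 5216370470) (nat_lit 836) (nat_lit 1918658033) (nat_lit 346) (nat_lit 5) (nat_lit 356) (nat_lit 5) (nat_lit 357) (nat_lit 5) (nat_lit 572) (nat_lit 515) (nat_lit 473)) (XT.nd (nat_lit 78) (nat_lit 760) (nat_lit 0) (XT.lf (nat_lit 0) (nat_lit 852241085) (nat_lit 836) (nat_lit 1628452480) (nat_lit 76) (nat_lit 5625241187)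 (nat_lit 345) (nat_lit 5) (nat_lit 356) (nat_lit 5) (nat_lit 346) (nat_lit 5) (nat_lit 573) (nat_lit 515) (nat_lit 472)) (XT.lf (nat_lit 0) (nat_lit 3637118054) (nat_lit 836) (nat_lit 4198016149) (nat_lit 76) (nat_lit 338158331) (nat_lit 335) (nat_lit 5) (nat_lit 346) (nat_lit 5) (nat_lit 336) (nat_lit 5) (nat_lit 574) (nat_lit 515) (nat_lit 471))))))))
noncomputable def xc60 : XT := (XT.nd (nat_lit 1482) (nat_lit 6156) (nat_lit 0) (XT.nd (nat_lit 702) (nat_lit 4180) (nat_lit 0) (XT.nd (nat_lit 312) (nat_lit 2128) (nat_lit 0) (XT.nd (nat_lit 156) (nat_lit 1444) (nat_lit 0) (XT.nd (nat_lit 78) (nat_lit 76) (nat_lit 0) (XT.lf (nat_lit 0) (nat_lit 1422866369) (nat_lit 684) (nat_lit 5048163197) (nat_lit 760) (nat_lit 1771107671) (nat_lit 326) (nat_lit 5) (nat_lit 335) (nat_lit 5) (nat_lit 336) (nat_lit 5) (nat_lit 575) (nat_lit 515) (nat_lit 470)) (XT.lf (nat_lit 0) (nat_lit 1020759934) (nat_lit 760) (nat_lit 1156637351)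 (nat_lit 76) (nat_lit 6135126341) (nat_lit 325) (nat_lit 5) (nat_lit 335) (nat_lit 5) (nat_lit 326) (nat_lit 5) (nat_lit 576) (nat_lit 515) (nat_lit 469))) (XT.nd (nat_lit 78) (nat_lit 684) (nat_lit 0) (XT.lf (nat_lit 0) (nat_lit 3837605508) (nat_lit 836) (nat_lit 3771264222) (nat_lit 76) (nat_lit 775362890) (nat_lit 315) (nat_lit 5) (nat_lit 326) (nat_lit 5) (nat_lit 316) (nat_lit 5) (nat_lit 577) (nat_lit 515) (nat_lit 468)) (XT.lf (nat_lit 0) (nat_lit 2018042057) (nat_lit 684) (nat_lit 4686285163) (nat_lit 760) (nat_lit 1753183802) (nat_lit 306) (nat_lit 5) (nat_lit 315) (nat_lit 5) (nat_lit 316) (nat_lit 5) (nat_lit 578) (nat_lit 515) (nat_lit 467)))) (XT.nd (nat_lit 156) (nat_lit 1368) (nat_lit 0) (XT.nd (nat_lit 78) (nat_lit 684) (nat_lit 0) (XT.lf (nat_lit 0) (nat_lit 1065646342) (nat_lit 760) (nat_lit 615383132) (nat_lit 76) (nat_lit 6851411082) (nat_lit 305) (nat_lit 5) (nat_lit 315) (nat_lit 5) (nat_lit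 306) (nat_lit 5) (nat_lit 579) (nat_lit 515) (nat_lit 466)) (XT.lf (nat_lit 0) (nat_lit 3920502454) (nat_lit 760) (nat_lit 3284084996) (nat_lit 76) (nat_lit 1403992635) (nat_lit 296) (nat_lit 5) (nat_lit 306) (nat_lit 5) (nat_lit 297) (nat_lit 5) (nat_lit 580) (nat_lit 515) (nat_lit 465))) (XT.nd (nat_lit 78) (nat_lit 760) (nat_lit 0) (XT.lf (nat_lit 0) (nat_lit 2679293130) (nat_lit 608) (nat_lit 4145503173) (nat_lit 684) (nat_lit 1861604845) (nat_lit 288) (nat_lit 5) (nat_lit 296) (nat_lit 5) (nat_lit 297) (nat_lit 5) (nat_lit 581) (nat_lit 515) (nat_lit 464)) (XT.nd (nat_lit 78) (nat_lit 684) (nat_lit 0) (XT.lf (nat_lit 0) (nat_lit 990039665) (nat_lit 684) (nat_lit 15908635) (nat_lit 76) (nat_lit 7760062276) (nat_lit 287) (nat_lit 5) (nat_lit 296) (nat_lit 5) (nat_lit 288) (nat_lit 5) (nat_lit 582) (nat_lit 515) (nat_lit 463)) (XT.lf (nat_lit 0) (nat_lit 3888689758) (nat_lit 760) (nat_lit 2747799672) (nat_lit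 76) (nat_lit 2210183900) (nat_lit 278) (nat_lit 5) (nat_lit 288) (nat_lit 5) (nat_lit 279) (nat_lit 5) (nat_lit 583) (nat_lit 515) (nat_lit 462)))))) (XT.nd (nat_lit 390) (nat_lit 1672) (nat_lit 0) (XT.nd (nat_lit 156) (nat_lit 1216) (nat_lit 0) (XT.nd (nat_lit 78) (nat_lit 684) (nat_lit 0) (XT.lf (nat_lit 0) (nat_lit 3395431735) (nat_lit 608) (nat_lit 3439726090) (nat_lit 684) (nat_lit 2093999747) (nat_lit 270) (nat_lit 5) (nat_lit 278) (nat_lit 5) (nat_lit 279) (nat_lit 5) (nat_lit 584) (nat_lit 515) (nat_lit 461)) (XT.lf (nat_lit 0) (nat_lit 638886993) (nat_lit 608) (nat_lit 161450351) (nat_lit 684) (nat_lit 8213173197) (nat_lit 261) (nat_lit 5) (nat_lit 269) (nat_lit 5) (nat_lit 270) (nat_lit 5) (nat_lit 585) (nat_lit 515) (nat_lit 460))) (XT.nd (nat_lit 78) (nat_lit 1216) (nat_lit 0) (XT.lf (nat_lit 0) (nat_lit 3744171401) (nat_lit 684) (nat_lit 2173842675) (nat_lit 76) (nat_lit 3180871525) (nat_lit 261) (nat_lit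 5) (nat_lit 270) (nat_lit 5) (nat_lit 262) (nat_lit 5) (nat_lit 586) (nat_lit 515) (nat_lit 459)) (XT.nd (nat_lit 78) (nat_lit 684) (nat_lit 0) (XT.lf (nat_lit 0) (nat_lit 4155142483) (nat_lit 532) (nat_lit 2582120472) (nat_lit 608) (nat_lit 2448902331) (nat_lit 254) (nat_lit 5) (nat_lit 261) (nat_lit 5) (nat_lit 262) (nat_lit 5) (nat_lit 587) (nat_lit 515) (nat_lit 458)) (XT.lf (nat_lit 0) (nat_lit 499519438) (nat_lit 684) (nat_lit 7950978261) (nat_lit 76) (nat_lit 824805578) (nat_lit 245) (nat_lit 5) (nat_lit 254) (nat_lit 5) (nat_lit 246) (nat_lit 5) (nat_lit 588) (nat_lit 515) (nat_lit 457))))) (XT.nd (nat_lit 156) (nat_lit 1140) (nat_lit 0) (XT.nd (nat_lit 78) (nat_lit 532) (nat_lit 0) (XT.lf (nat_lit 0) (nat_lit 3488075930) (nat_lit 684) (nat_lit 1573873269) (nat_lit 76) (nat_lit 4303676410) (nat_lit 245) (nat_lit 5) (nat_lit 254) (nat_lit 5) (nat_lit 246) (nat_lit 5) (nat_lit 589) (nat_lit 515) (nat_lit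 456)) (XT.lf (nat_lit 0) (nat_lit 4946869100) (nat_lit 532) (nat_lit 1585223303) (nat_lit 608) (nat_lit 2925752585) (nat_lit 238) (nat_lit 5) (nat_lit 245) (nat_lit 5) (nat_lit 246) (nat_lit 5) (nat_lit 590) (nat_lit 515) (nat_lit 455))) (XT.nd (nat_lit 78) (nat_lit 532) (nat_lit 0) (XT.lf (nat_lit 0) (nat_lit 84412330) (nat_lit 608) (nat_lit 7520050266) (nat_lit 76) (nat_lit 1947430368) (nat_lit 230) (nat_lit 5) (nat_lit 238) (nat_lit 5) (nat_lit 231) (nat_lit 5) (nat_lit 591) (nat_lit 515) (nat_lit 454)) (XT.nd (nat_lit 78) (nat_lit 532) (nat_lit 0) (XT.lf (nat_lit 0) (nat_lit 3120651030) (nat_lit 608) (nat_lit 959891802) (nat_lit 76) (nat_lit 5566795482) (nat_lit 230) (nat_lit 5) (nat_lit 238) (nat_lit 5) (nat_lit 231) (nat_lit 5) (nat_lit 592) (nat_lit 515) (nat_lit 453)) (XT.lf (nat_lit 0) (nat_lit 5758696202) (nat_lit 532) (nat_lit 461052708) (nat_lit 608) (nat_lit 3524905019) (nat_lit 223) (nat_lit 5) (nat_lit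 230) (nat_lit 5) (nat_lit 231) (nat_lit 5) (nat_lit 593) (nat_lit 515) (nat_lit 452))))))) (XT.nd (nat_lit 702) (nat_lit 3040) (nat_lit 0) (XT.nd (nat_lit 312) (nat_lit 1520) (nat_lit 0) (XT.nd (nat_lit 156) (nat_lit 988) (nat_lit 0) (XT.nd (nat_lit 78) (nat_lit 76) (nat_lit 0) (XT.lf (nat_lit 0) (nat_lit 2747293873) (nat_lit 532) (nat_lit 6643872609) (nat_lit 608) (nat_lit 452546586) (nat_lit 216) (nat_lit 5) (nat_lit 223) (nat_lit 5) (nat_lit 224) (nat_lit 5) (nat_lit 594) (nat_lit 515) (nat_lit 451)) (XT.lf (nat_lit 0) (nat_lit 2641251069) (nat_lit 608) (nat_lit 344361612) (nat_lit 76) (nat_lit 6958893206) (nat_lit 215) (nat_lit 5) (nat_lit 223) (nat_lit 5) (nat_lit 216) (nat_lit 5) (nat_lit 595) (nat_lit 515) (nat_lit 450))) (XT.nd (nat_lit 78) (nat_lit 532) (nat_lit 0) (XT.lf (nat_lit 0) (nat_lit 5804498992) (nat_lit 532) (nat_lit 3473918183) (nat_lit 76) (nat_lit 768568621) (nat_lit 209) (nat_lit 5) (nat_lit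 216) (nat_lit 5) (nat_lit 210) (nat_lit 5) (nat_lit 596) (nat_lit 515) (nat_lit 449)) (XT.lf (nat_lit 0) (nat_lit 3459563995) (nat_lit 532) (nat_lit 5582141958) (nat_lit 608) (nat_lit 1109599132) (nat_lit 202) (nat_lit 5) (nat_lit 209) (nat_lit 5) (nat_lit 210) (nat_lit 5) (nat_lit 597) (nat_lit 515) (nat_lit 448)))) (XT.nd (nat_lit 156) (nat_lit 988) (nat_lit 0) (XT.nd (nat_lit 78) (nat_lit 0) (nat_lit 0) (XT.lf (nat_lit 0) (nat_lit 263113071) (nat_lit 456) (nat_lit 1786912585) (nat_lit 532) (nat_lit 8207589022) (nat_lit 195) (nat_lit 5) (nat_lit 201) (nat_lit 5) (nat_lit 202) (nat_lit 5) (nat_lit 598) (nat_lit 515) (nat_lit 447)) (XT.lf (nat_lit 0) (nat_lit 5283252853) (nat_lit 532) (nat_lit 2987018699) (nat_lit 76) (nat_lit 2095130325) (nat_lit 195) (nat_lit 5) (nat_lit 202) (nat_lit 5) (nat_lit 196) (nat_lit 5) (nat_lit 599) (nat_lit 515) (nat_lit 446))) (XT.nd (nat_lit 78) (nat_lit 532) (nat_lit 0) (XT.lf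 (nat_lit 0) (nat_lit 4155772838) (nat_lit 456) (nat_lit 4431363059) (nat_lit 532) (nat_lit 1888092483) (nat_lit 189) (nat_lit 5) (nat_lit 195) (nat_lit 5) (nat_lit 196) (nat_lit 5) (nat_lit 600) (nat_lit 515) (nat_lit 445)) (XT.nd (nat_lit 78) (nat_lit 0) (nat_lit 0) (XT.lf (nat_lit 0) (nat_lit 849538464) (nat_lit 456) (nat_lit 495328102) (nat_lit 532) (nat_lit 9242350479) (nat_lit 182) (nat_lit 5) (nat_lit 188) (nat_lit 5) (nat_lit 189) (nat_lit 5) (nat_lit 601) (nat_lit 515) (nat_lit 444)) (XT.lf (nat_lit 0) (nat_lit 4650296174) (nat_lit 532) (nat_lit 2536534697) (nat_lit 76) (nat_lit 3513706338) (nat_lit 182) (nat_lit 5) (nat_lit 189) (nat_lit 5) (nat_lit 183) (nat_lit 5) (nat_lit 602) (nat_lit 515) (nat_lit 443)))))) (XT.nd (nat_lit 390) (nat_lit 1292) (nat_lit 0) (XT.nd (nat_lit 156) (nat_lit 836) (nat_lit 0) (XT.nd (nat_lit 78) (nat_lit 456) (nat_lit 0) (XT.lf (nat_lit 0) (nat_lit 4821650955) (nat_lit 456)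 (nat_lit 3202936869) (nat_lit 532) (nat_lit 2791484010) (nat_lit 176) (nat_lit 5) (nat_lit 182) (nat_lit 5) (nat_lit 183) (nat_lit 5) (nat_lit 603) (nat_lit 515) (nat_lit 442)) (XT.lf (nat_lit 0) (nat_lit 525621758) (nat_lit 456) (nat_lit 9544160304) (nat_lit 76) (nat_lit 864065822) (nat_lit 170) (nat_lit 5) (nat_lit 176) (nat_lit 5) (nat_lit 171) (nat_lit 5) (nat_lit 604) (nat_lit 515) (nat_lit 441))) (XT.nd (nat_lit 78) (nat_lit 836) (nat_lit 0) (XT.lf (nat_lit 0) (nat_lit 3901926636) (nat_lit 456) (nat_lit 2137680584) (nat_lit 76) (nat_lit 5013401448) (nat_lit 170) (nat_lit 5) (nat_lit 176) (nat_lit 5) (nat_lit 171) (nat_lit 5) (nat_lit 605) (nat_lit 515) (nat_lit 440)) (XT.nd (nat_lit 78) (nat_lit 380) (nat_lit 0) (XT.lf (nat_lit 0) (nat_lit 5441952621) (nat_lit 456) (nat_lit 1908251880) (nat_lit 532) (nat_lit 3824262118) (nat_lit 164) (nat_lit 5) (nat_lit 170) (nat_lit 5) (nat_lit 171) (nat_lit 5) (nat_lit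 606) (nat_lit 515) (nat_lit 439)) (XT.lf (nat_lit 0) (nat_lit 1866951166) (nat_lit 380) (nat_lit 9011348920) (nat_lit 456) (nat_lit 419839433) (nat_lit 159) (nat_lit 5) (nat_lit 164) (nat_lit 5) (nat_lit 165) (nat_lit 5) (nat_lit 607) (nat_lit 515) (nat_lit 438))))) (XT.nd (nat_lit 156) (nat_lit 836) (nat_lit 0) (XT.nd (nat_lit 78) (nat_lit 380) (nat_lit 0) (XT.lf (nat_lit 0) (nat_lit 3033413467) (nat_lit 456) (nat_lit 1806777531) (nat_lit 76) (nat_lit 6583285640) (nat_lit 158) (nat_lit 5) (nat_lit 164) (nat_lit 5) (nat_lit 159) (nat_lit 5) (nat_lit 608) (nat_lit 515) (nat_lit 437)) (XT.lf (nat_lit 0) (nat_lit 6000290680) (nat_lit 380) (nat_lit 558799599) (nat_lit 456) (nat_lit 4991997777) (nat_lit 153) (nat_lit 5) (nat_lit 158) (nat_lit 5) (nat_lit 159) (nat_lit 5) (nat_lit 609) (nat_lit 515) (nat_lit 436))) (XT.nd (nat_lit 78) (nat_lit 456) (nat_lit 0) (XT.lf (nat_lit 0) (nat_lit 2265956537) (nat_lit 380) (nat_lit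 7911174324) (nat_lit 456) (nat_lit 1503686453) (nat_lit 148) (nat_lit 5) (nat_lit 153) (nat_lit 5) (nat_lit 154) (nat_lit 5) (nat_lit 610) (nat_lit 515) (nat_lit 435)) (XT.nd (nat_lit 78) (nat_lit 380) (nat_lit 0) (XT.lf (nat_lit 0) (nat_lit 2038941364) (nat_lit 456) (nat_lit 1561427451) (nat_lit 76) (nat_lit 8212278211) (nat_lit 147) (nat_lit 5) (nat_lit 153) (nat_lit 5) (nat_lit 148) (nat_lit 5) (nat_lit 611) (nat_lit 515) (nat_lit 434)) (XT.lf (nat_lit 0) (nat_lit 5650665124) (nat_lit 456) (nat_lit 5473112520) (nat_lit 76) (nat_lit 822771810) (nat_lit 142) (nat_lit 5) (nat_lit 148) (nat_lit 5) (nat_lit 143) (nat_lit 5) (nat_lit 612) (nat_lit 515) (nat_lit 433))))))))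
noncomputable def xc61 : XT := (XT.nd (nat_lit 75270) (nat_lit 0) (nat_lit 31920) (XT.nd (nat_lit 702) (nat_lit 304) (nat_lit 0) (XT.nd (nat_lit 312) (nat_lit 1064) (nat_lit 0) (XT.nd (nat_lit 156) (nat_lit 684) (nat_lit 0) (XT.nd (nat_lit 78) (nat_lit 76) (nat_lit 0) (XT.lf (nat_lit 0) (nat_lit 2571750527) (nat_lit 304) (nat_lit 6785017533) (nat_lit 380) (nat_lit 2725921395) (nat_lit 138) (nat_lit 5) (nat_lit 142) (nat_lit 5) (nat_lit 143) (nat_lit 5) (nat_lit 613) (nat_lit 515) (nat_lit 432)) (XT.lf (nat_lit 0) (nat_lit 911544704) (nat_lit 380) (nat_lit 1420701392) (nat_lit 76) (nat_lit 9889027410) (nat_lit 137) (nat_lit 5) (nat_lit 142) (nat_lit 5) (nat_lit 138) (nat_lit 5) (nat_lit 614) (nat_lit 515) (nat_lit 431))) (XT.nd (nat_lit 78) (nat_lit 304) (nat_lit 0) (XT.lf (nat_lit 0) (nat_lit 4616186158) (nat_lit 456) (nat_lit 5517866004) (nat_lit 76) (nat_lit 2227600464) (nat_lit 132) (nat_lit 5) (nat_lit 138)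 (nat_lit 5) (nat_lit 133) (nat_lit 5) (nat_lit 615) (nat_lit 515) (nat_lit 430)) (XT.lf (nat_lit 0) (nat_lit 2764246991) (nat_lit 304) (nat_lit 5645530813) (nat_lit 380) (nat_lit 4094766611) (nat_lit 128) (nat_lit 5) (nat_lit 132) (nat_lit 5) (nat_lit 133) (nat_lit 5) (nat_lit 616) (nat_lit 515) (nat_lit 429)))) (XT.nd (nat_lit 156) (nat_lit 684) (nat_lit 0) (XT.nd (nat_lit 78) (nat_lit 380) (nat_lit 0) (XT.lf (nat_lit 0) (nat_lit 11242420416) (nat_lit 304) (nat_lit 1045980041) (nat_lit 380) (nat_lit 361712589) (nat_lit 128) (nat_lit 5) (nat_lit 132) (nat_lit 5) (nat_lit 133) (nat_lit 5) (nat_lit 617) (nat_lit 515) (nat_lit 428)) (XT.lf (nat_lit 0) (nat_lit 3443538896) (nat_lit 380) (nat_lit 5703112951) (nat_lit 76) (nat_lit 3650641207) (nat_lit 123) (nat_lit 5) (nat_lit 128) (nat_lit 5) (nat_lit 124) (nat_lit 5) (nat_lit 618) (nat_lit 515) (nat_lit 427))) (XT.nd (nat_lit 78) (nat_lit 380) (nat_lit 0) (XT.lf (nat_lit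 0) (nat_lit 2821536385) (nat_lit 304) (nat_lit 4505920464) (nat_lit 380) (nat_lit 5619765962) (nat_lit 119) (nat_lit 5) (nat_lit 123) (nat_lit 5) (nat_lit 124) (nat_lit 5) (nat_lit 619) (nat_lit 515) (nat_lit 426)) (XT.nd (nat_lit 78) (nat_lit 380) (nat_lit 0) (XT.lf (nat_lit 0) (nat_lit 11301844803) (nat_lit 380) (nat_lit 1551305343) (nat_lit 76) (nat_lit 246747208) (nat_lit 119) (nat_lit 5) (nat_lit 124) (nat_lit 5) (nat_lit 120) (nat_lit 5) (nat_lit 620) (nat_lit 515) (nat_lit 425)) (XT.lf (nat_lit 0) (nat_lit 2122896161) (nat_lit 380) (nat_lit 6052538810) (nat_lit 76) (nat_lit 5078912773) (nat_lit 114) (nat_lit 5) (nat_lit 119) (nat_lit 5) (nat_lit 115) (nat_lit 5) (nat_lit 621) (nat_lit 515) (nat_lit 424)))))) (XT.nd (nat_lit 74178) (nat_lit 0) (nat_lit 45752) (XT.nd (nat_lit 73944) (nat_lit 0) (nat_lit 47500) (XT.nd (nat_lit 73866) (nat_lit 0) (nat_lit 47956) (XT.lf (nat_lit 0) (nat_lit 2719648393) (nat_lit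 304) (nat_lit 3380088532) (nat_lit 380) (nat_lit 7311883441) (nat_lit 110) (nat_lit 5) (nat_lit 114) (nat_lit 5) (nat_lit 115) (nat_lit 5) (nat_lit 622) (nat_lit 515) (nat_lit 423)) (XT.lf (nat_lit 0) (nat_lit 279074305) (nat_lit 380) (nat_lit 2678341287) (nat_lit 0) (nat_lit 279074305) (nat_lit 741) (nat_lit 5) (nat_lit 746) (nat_lit 4) (nat_lit 741) (nat_lit 4) (nat_lit 528) (nat_lit 516) (nat_lit 516))) (XT.nd (nat_lit 78) (nat_lit 456) (nat_lit 0) (XT.lf (nat_lit 0) (nat_lit 3729912523) (nat_lit 380) (nat_lit 1783554880) (nat_lit 0) (nat_lit 967705960) (nat_lit 741) (nat_lit 5) (nat_lit 746) (nat_lit 4) (nat_lit 741) (nat_lit 4) (nat_lit 529) (nat_lit 516) (nat_lit 515)) (XT.nd (nat_lit 78) (nat_lit 0) (nat_lit 0) (XT.lf (nat_lit 0) (nat_lit 402925626) (nat_lit 456) (nat_lit 4656342446) (nat_lit 76) (nat_lit 1431551110) (nat_lit 735) (nat_lit 5) (nat_lit 741) (nat_lit 5) (nat_lit 736) (nat_lit 4) (nat_lit 530)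 (nat_lit 516) (nat_lit 514)) (XT.lf (nat_lit 0) (nat_lit 3518240012) (nat_lit 456) (nat_lit 1018354102) (nat_lit 76) (nat_lit 1965023769) (nat_lit 735) (nat_lit 5) (nat_lit 741) (nat_lit 5) (nat_lit 736) (nat_lit 4) (nat_lit 531) (nat_lit 516) (nat_lit 513))))) (XT.nd (nat_lit 156) (nat_lit 1216) (nat_lit 0) (XT.nd (nat_lit 78) (nat_lit 0) (nat_lit 0) (XT.lf (nat_lit 0) (nat_lit 122132506) (nat_lit 532) (nat_lit 3834809496) (nat_lit 76) (nat_lit 2556861136) (nat_lit 728) (nat_lit 5) (nat_lit 735) (nat_lit 5) (nat_lit 729) (nat_lit 5) (nat_lit 532) (nat_lit 516) (nat_lit 512)) (XT.lf (nat_lit 0) (nat_lit 3181699428) (nat_lit 532) (nat_lit 130235909) (nat_lit 76) (nat_lit 3215284603) (nat_lit 728) (nat_lit 5) (nat_lit 735) (nat_lit 5) (nat_lit 729) (nat_lit 5) (nat_lit 533) (nat_lit 516) (nat_lit 511))) (XT.nd (nat_lit 78) (nat_lit 684) (nat_lit 0) (XT.lf (nat_lit 0) (nat_lit 3648803310) (nat_lit 532) (nat_lit 2603793334)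 (nat_lit 608) (nat_lit 289325380) (nat_lit 721) (nat_lit 5) (nat_lit 728) (nat_lit 5) (nat_lit 729) (nat_lit 5) (nat_lit 534) (nat_lit 516) (nat_lit 510)) (XT.nd (nat_lit 78) (nat_lit 0) (nat_lit 0) (XT.lf (nat_lit 0) (nat_lit 893483088) (nat_lit 608) (nat_lit 1831187530) (nat_lit 684) (nat_lit 3833223936) (nat_lit 712) (nat_lit 5) (nat_lit 720) (nat_lit 5) (nat_lit 721) (nat_lit 5) (nat_lit 535) (nat_lit 516) (nat_lit 509)) (XT.lf (nat_lit 0) (nat_lit 4745253076) (nat_lit 608) (nat_lit 997429631) (nat_lit 684) (nat_lit 832531961) (nat_lit 712) (nat_lit 5) (nat_lit 720) (nat_lit 5) (nat_lit 721) (nat_lit 5) (nat_lit 536) (nat_lit 516) (nat_lit 508))))))) (XT.nd (nat_lit 702) (nat_lit 8284) (nat_lit 0) (XT.nd (nat_lit 312) (nat_lit 3116) (nat_lit 0) (XT.nd (nat_lit 156) (nat_lit 1672) (nat_lit 0) (XT.nd (nat_lit 78) (nat_lit 0) (nat_lit 0) (XT.lf (nat_lit 0) (nat_lit 2045678944) (nat_lit 684) (nat_lit 95682405)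 (nat_lit 760) (nat_lit 4452400158) (nat_lit 702) (nat_lit 5) (nat_lit 711) (nat_lit 5) (nat_lit 712) (nat_lit 5) (nat_lit 537) (nat_lit 516) (nat_lit 507)) (XT.lf (nat_lit 0) (nat_lit 5111661133) (nat_lit 760) (nat_lit 648845038) (nat_lit 76) (nat_lit 853119043) (nat_lit 702) (nat_lit 5) (nat_lit 712) (nat_lit 5) (nat_lit 703) (nat_lit 5) (nat_lit 538) (nat_lit 516) (nat_lit 506))) (XT.nd (nat_lit 78) (nat_lit 836) (nat_lit 0) (XT.lf (nat_lit 0) (nat_lit 1441317242) (nat_lit 836) (nat_lit 3321120414) (nat_lit 76) (nat_lit 1872197476) (nat_lit 691) (nat_lit 5) (nat_lit 702) (nat_lit 5) (nat_lit 692) (nat_lit 5) (nat_lit 539) (nat_lit 516) (nat_lit 505)) (XT.lf (nat_lit 0) (nat_lit 657850248) (nat_lit 836) (nat_lit 3706461370) (nat_lit 912) (nat_lit 2292752400) (nat_lit 680) (nat_lit 5) (nat_lit 691) (nat_lit 5) (nat_lit 692) (nat_lit 5) (nat_lit 540) (nat_lit 516) (nat_lit 504)))) (XT.nd (nat_lit 156) (nat_lit 2128)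 (nat_lit 0) (XT.nd (nat_lit 78) (nat_lit 912) (nat_lit 0) (XT.lf (nat_lit 0) (nat_lit 612367508) (nat_lit 912) (nat_lit 1971875766) (nat_lit 76) (nat_lit 4096522104) (nat_lit 679) (nat_lit 5) (nat_lit 691) (nat_lit 5) (nat_lit 680) (nat_lit 5) (nat_lit 541) (nat_lit 516) (nat_lit 503)) (XT.lf (nat_lit 0) (nat_lit 2100005955) (nat_lit 912) (nat_lit 1392705524) (nat_lit 988) (nat_lit 3212985304) (nat_lit 667) (nat_lit 5) (nat_lit 679) (nat_lit 5) (nat_lit 680) (nat_lit 5) (nat_lit 542) (nat_lit 516) (nat_lit 502))) (XT.nd (nat_lit 78) (nat_lit 2128) (nat_lit 0) (XT.lf (nat_lit 0) (nat_lit 6232011564) (nat_lit 912) (nat_lit 147020468) (nat_lit 988) (nat_lit 353142640) (nat_lit 667) (nat_lit 5) (nat_lit 679) (nat_lit 5) (nat_lit 680) (nat_lit 5) (nat_lit 543) (nat_lit 516) (nat_lit 501)) (XT.nd (nat_lit 78) (nat_lit 1064) (nat_lit 0) (XT.lf (nat_lit 0) (nat_lit 2497746211) (nat_lit 1064) (nat_lit 3096327043) (nat_lit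 76) (nat_lit 1165441084) (nat_lit 653) (nat_lit 5) (nat_lit 667) (nat_lit 5) (nat_lit 654) (nat_lit 5) (nat_lit 544) (nat_lit 516) (nat_lit 500)) (XT.lf (nat_lit 0) (nat_lit 1091200453) (nat_lit 1064) (nat_lit 4258184788) (nat_lit 1140) (nat_lit 1439014021) (nat_lit 639) (nat_lit 5) (nat_lit 653) (nat_lit 5) (nat_lit 654) (nat_lit 5) (nat_lit 545) (nat_lit 516) (nat_lit 499)))))) (XT.nd (nat_lit 390) (nat_lit 4484) (nat_lit 0) (XT.nd (nat_lit 156) (nat_lit 2584) (nat_lit 0) (XT.nd (nat_lit 78) (nat_lit 1140) (nat_lit 0) (XT.lf (nat_lit 0) (nat_lit 1379735647) (nat_lit 1140) (nat_lit 1472033432) (nat_lit 76) (nat_lit 3966751023) (nat_lit 638) (nat_lit 5) (nat_lit 653) (nat_lit 5) (nat_lit 639) (nat_lit 5) (nat_lit 546) (nat_lit 516) (nat_lit 498)) (XT.lf (nat_lit 0) (nat_lit 2816466538) (nat_lit 1140) (nat_lit 1376168295) (nat_lit 1216) (nat_lit 2657290972) (nat_lit 623) (nat_lit 5) (nat_lit 638) (nat_lit 5) (nat_lit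 639) (nat_lit 5) (nat_lit 547) (nat_lit 516) (nat_lit 497))) (XT.nd (nat_lit 78) (nat_lit 1292) (nat_lit 0) (XT.lf (nat_lit 0) (nat_lit 129462822) (nat_lit 1292) (nat_lit 6601609036) (nat_lit 76) (nat_lit 151837645) (nat_lit 606) (nat_lit 5) (nat_lit 623) (nat_lit 5) (nat_lit 607) (nat_lit 5) (nat_lit 548) (nat_lit 516) (nat_lit 496)) (XT.nd (nat_lit 78) (nat_lit 1292) (nat_lit 0) (XT.lf (nat_lit 0) (nat_lit 2912924674) (nat_lit 1292) (nat_lit 2255911504) (nat_lit 76) (nat_lit 1747847081) (nat_lit 606) (nat_lit 5) (nat_lit 623) (nat_lit 5) (nat_lit 607) (nat_lit 5) (nat_lit 549) (nat_lit 516) (nat_lit 495)) (XT.lf (nat_lit 0) (nat_lit 2155917321) (nat_lit 1292) (nat_lit 3551470664) (nat_lit 1368) (nat_lit 1244650371) (nat_lit 589) (nat_lit 5) (nat_lit 606) (nat_lit 5) (nat_lit 607) (nat_lit 5) (nat_lit 550) (nat_lit 516) (nat_lit 494))))) (XT.nd (nat_lit 156) (nat_lit 3040) (nat_lit 0) (XT.nd (nat_lit 78) (nat_lit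 1368) (nat_lit 0) (XT.lf (nat_lit 0) (nat_lit 1506065868) (nat_lit 1368) (nat_lit 361047963) (nat_lit 76) (nat_lit 5121654683) (nat_lit 588) (nat_lit 5) (nat_lit 606) (nat_lit 5) (nat_lit 589) (nat_lit 5) (nat_lit 551) (nat_lit 516) (nat_lit 493)) (XT.lf (nat_lit 0) (nat_lit 4160499575) (nat_lit 1368) (nat_lit 104574353) (nat_lit 1444) (nat_lit 2761607726) (nat_lit 570) (nat_lit 5) (nat_lit 588) (nat_lit 5) (nat_lit 589) (nat_lit 5) (nat_lit 552) (nat_lit 516) (nat_lit 492))) (XT.nd (nat_lit 78) (nat_lit 1596) (nat_lit 0) (XT.lf (nat_lit 0) (nat_lit 1673587484) (nat_lit 1444) (nat_lit 5373746539) (nat_lit 1520) (nat_lit 18669154) (nat_lit 551) (nat_lit 5) (nat_lit 570) (nat_lit 5) (nat_lit 571) (nat_lit 5) (nat_lit 553) (nat_lit 516) (nat_lit 491)) (XT.nd (nat_lit 78) (nat_lit 1520) (nat_lit 0) (XT.lf (nat_lit 0) (nat_lit 2706911791) (nat_lit 1520) (nat_lit 831433794) (nat_lit 76) (nat_lit 3568131124) (nat_lit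 550) (nat_lit 5) (nat_lit 570) (nat_lit 5) (nat_lit 551) (nat_lit 5) (nat_lit 554) (nat_lit 516) (nat_lit 490)) (XT.lf (nat_lit 0) (nat_lit 3821898636) (nat_lit 1520) (nat_lit 1634943664) (nat_lit 1596) (nat_lit 1691524077) (nat_lit 530) (nat_lit 5) (nat_lit 550) (nat_lit 5) (nat_lit 551) (nat_lit 5) (nat_lit 555) (nat_lit 516) (nat_lit 489))))))))
noncomputable def xc62 : XT := (XT.nd (nat_lit 1482) (nat_lit 8512) (nat_lit 0) (XT.nd (nat_lit 702) (nat_lit 5928) (nat_lit 0) (XT.nd (nat_lit 312) (nat_lit 3724) (nat_lit 0) (XT.nd (nat_lit 156) (nat_lit 3496) (nat_lit 0) (XT.nd (nat_lit 78) (nat_lit 0) (nat_lit 0) (XT.lf (nat_lit 0) (nat_lit 1018844571) (nat_lit 1672) (nat_lit 5843907021) (nat_lit 76) (nat_lit 328969499) (nat_lit 508) (nat_lit 5) (nat_lit 530) (nat_lit 5) (nat_lit 509) (nat_lit 5) (nat_lit 556) (nat_lit 516) (nat_lit 488)) (XT.lf (nat_lit 0) (nat_lit 3740530819) (nat_lit 1672) (nat_lit 1147070520)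 (nat_lit 76) (nat_lit 2348533010) (nat_lit 508) (nat_lit 5) (nat_lit 530) (nat_lit 5) (nat_lit 509) (nat_lit 5) (nat_lit 557) (nat_lit 516) (nat_lit 487))) (XT.nd (nat_lit 78) (nat_lit 1824) (nat_lit 0) (XT.lf (nat_lit 0) (nat_lit 3642385693) (nat_lit 1672) (nat_lit 2845405000) (nat_lit 1748) (nat_lit 794232440) (nat_lit 486) (nat_lit 5) (nat_lit 508) (nat_lit 5) (nat_lit 509) (nat_lit 5) (nat_lit 558) (nat_lit 516) (nat_lit 486)) (XT.lf (nat_lit 0) (nat_lit 1167565475) (nat_lit 1748) (nat_lit 731059920) (nat_lit 1824) (nat_lit 5430695696) (nat_lit 462) (nat_lit 5) (nat_lit 485) (nat_lit 5) (nat_lit 486) (nat_lit 5) (nat_lit 559) (nat_lit 516) (nat_lit 485)))) (XT.nd (nat_lit 156) (nat_lit 2052) (nat_lit 0) (XT.nd (nat_lit 78) (nat_lit 1672) (nat_lit 0) (XT.lf (nat_lit 0) (nat_lit 4617126702) (nat_lit 1824) (nat_lit 1321700375) (nat_lit 76) (nat_lit 1438993993) (nat_lit 462) (nat_lit 5) (nat_lit 486) (nat_lit 5)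 (nat_lit 463) (nat_lit 5) (nat_lit 560) (nat_lit 516) (nat_lit 484)) (XT.lf (nat_lit 0) (nat_lit 3608428713) (nat_lit 1672) (nat_lit 3759417280) (nat_lit 1748) (nat_lit 59897390) (nat_lit 440) (nat_lit 5) (nat_lit 462) (nat_lit 5) (nat_lit 463) (nat_lit 5) (nat_lit 561) (nat_lit 516) (nat_lit 483))) (XT.nd (nat_lit 78) (nat_lit 988) (nat_lit 0) (XT.lf (nat_lit 0) (nat_lit 1124216176) (nat_lit 988) (nat_lit 1501493226) (nat_lit 1064) (nat_lit 4853290969) (nat_lit 426) (nat_lit 5) (nat_lit 439) (nat_lit 5) (nat_lit 440) (nat_lit 5) (nat_lit 562) (nat_lit 516) (nat_lit 482)) (XT.nd (nat_lit 78) (nat_lit 988) (nat_lit 0) (XT.lf (nat_lit 0) (nat_lit 5345805532) (nat_lit 1064) (nat_lit 1368385592) (nat_lit 76) (nat_lit 817460628) (nat_lit 426) (nat_lit 5) (nat_lit 440) (nat_lit 5) (nat_lit 427) (nat_lit 5) (nat_lit 563) (nat_lit 516) (nat_lit 481)) (XT.lf (nat_lit 0) (nat_lit 513384232) (nat_lit 988) (nat_lit 3881862946)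 (nat_lit 76) (nat_lit 3190338882) (nat_lit 413) (nat_lit 5) (nat_lit 426) (nat_lit 5) (nat_lit 414) (nat_lit 5) (nat_lit 564) (nat_lit 516) (nat_lit 480)))))) (XT.nd (nat_lit 390) (nat_lit 3268) (nat_lit 0) (XT.nd (nat_lit 156) (nat_lit 1748) (nat_lit 0) (XT.nd (nat_lit 78) (nat_lit 0) (nat_lit 0) (XT.lf (nat_lit 0) (nat_lit 1207129099) (nat_lit 912) (nat_lit 1999161207) (nat_lit 988) (nat_lit 4434648842) (nat_lit 401) (nat_lit 5) (nat_lit 413) (nat_lit 5) (nat_lit 414) (nat_lit 5) (nat_lit 565) (nat_lit 516) (nat_lit 479)) (XT.lf (nat_lit 0) (nat_lit 5934629010) (nat_lit 988) (nat_lit 1299613075) (nat_lit 76) (nat_lit 463533815) (nat_lit 401) (nat_lit 5) (nat_lit 414) (nat_lit 5) (nat_lit 402) (nat_lit 5) (nat_lit 566) (nat_lit 516) (nat_lit 478))) (XT.nd (nat_lit 78) (nat_lit 836) (nat_lit 0) (XT.lf (nat_lit 0) (nat_lit 941239340) (nat_lit 912) (nat_lit 3835794933) (nat_lit 76) (nat_lit 2978756636) (nat_lit 389)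 (nat_lit 5) (nat_lit 401) (nat_lit 5) (nat_lit 390) (nat_lit 5) (nat_lit 567) (nat_lit 516) (nat_lit 477)) (XT.nd (nat_lit 78) (nat_lit 0) (nat_lit 0) (XT.lf (nat_lit 0) (nat_lit 1403991490) (nat_lit 836) (nat_lit 2243710339) (nat_lit 912) (nat_lit 4167606984) (nat_lit 378) (nat_lit 5) (nat_lit 389) (nat_lit 5) (nat_lit 390) (nat_lit 5) (nat_lit 568) (nat_lit 516) (nat_lit 476)) (XT.lf (nat_lit 0) (nat_lit 6390660541) (nat_lit 912) (nat_lit 1127397046) (nat_lit 76) (nat_lit 358319623) (nat_lit 378) (nat_lit 5) (nat_lit 390) (nat_lit 5) (nat_lit 379) (nat_lit 5) (nat_lit 569) (nat_lit 516) (nat_lit 475))))) (XT.nd (nat_lit 156) (nat_lit 1596) (nat_lit 0) (XT.nd (nat_lit 78) (nat_lit 836) (nat_lit 0) (XT.lf (nat_lit 0) (nat_lit 1231020087) (nat_lit 836) (nat_lit 3692787422) (nat_lit 76) (nat_lit 3014752356) (nat_lit 367) (nat_lit 5) (nat_lit 378) (nat_lit 5) (nat_lit 368) (nat_lit 5) (nat_lit 570) (nat_lit 516) (nat_lit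 474)) (XT.lf (nat_lit 0) (nat_lit 1702918993) (nat_lit 836) (nat_lit 2253375945) (nat_lit 912) (nat_lit 4046019926) (nat_lit 356) (nat_lit 5) (nat_lit 367) (nat_lit 5) (nat_lit 368) (nat_lit 5) (nat_lit 571) (nat_lit 516) (nat_lit 473))) (XT.nd (nat_lit 78) (nat_lit 1596) (nat_lit 0) (XT.lf (nat_lit 0) (nat_lit 6720004338) (nat_lit 912) (nat_lit 863380449) (nat_lit 76) (nat_lit 484288501) (nat_lit 356) (nat_lit 5) (nat_lit 368) (nat_lit 5) (nat_lit 357) (nat_lit 5) (nat_lit 572) (nat_lit 516) (nat_lit 472)) (XT.nd (nat_lit 78) (nat_lit 760) (nat_lit 0) (XT.lf (nat_lit 0) (nat_lit 1388329283) (nat_lit 836) (nat_lit 3464571120) (nat_lit 76) (nat_lit 3281220668) (nat_lit 345) (nat_lit 5) (nat_lit 356) (nat_lit 5) (nat_lit 346) (nat_lit 5) (nat_lit 573) (nat_lit 516) (nat_lit 471)) (XT.lf (nat_lit 0) (nat_lit 2092353005) (nat_lit 760) (nat_lit 2045119473) (nat_lit 836) (nat_lit 4064724270) (nat_lit 335) (nat_lit 5)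 (nat_lit 345) (nat_lit 5) (nat_lit 346) (nat_lit 5) (nat_lit 574) (nat_lit 516) (nat_lit 470))))))) (XT.nd (nat_lit 702) (nat_lit 4180) (nat_lit 0) (XT.nd (nat_lit 312) (nat_lit 2812) (nat_lit 0) (XT.nd (nat_lit 156) (nat_lit 760) (nat_lit 0) (XT.nd (nat_lit 78) (nat_lit 760) (nat_lit 0) (XT.lf (nat_lit 0) (nat_lit 6927837745) (nat_lit 836) (nat_lit 518935923) (nat_lit 76) (nat_lit 825141868) (nat_lit 335) (nat_lit 5) (nat_lit 346) (nat_lit 5) (nat_lit 336) (nat_lit 5) (nat_lit 575) (nat_lit 516) (nat_lit 469)) (XT.lf (nat_lit 0) (nat_lit 1417835883) (nat_lit 760) (nat_lit 3162643603) (nat_lit 76) (nat_lit 3762257092) (nat_lit 325) (nat_lit 5) (nat_lit 335) (nat_lit 5) (nat_lit 326) (nat_lit 5) (nat_lit 576) (nat_lit 516) (nat_lit 468))) (XT.nd (nat_lit 78) (nat_lit 0) (nat_lit 0) (XT.lf (nat_lit 0) (nat_lit 2560958005) (nat_lit 760) (nat_lit 1634759021) (nat_lit 836) (nat_lit 4219510811) (nat_lit 315) (nat_lit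 5) (nat_lit 325) (nat_lit 5) (nat_lit 326) (nat_lit 5) (nat_lit 577) (nat_lit 516) (nat_lit 467)) (XT.lf (nat_lit 0) (nat_lit 7018436883) (nat_lit 836) (nat_lit 105267142) (nat_lit 76) (nat_lit 1365685168) (nat_lit 315) (nat_lit 5) (nat_lit 326) (nat_lit 5) (nat_lit 316) (nat_lit 5) (nat_lit 578) (nat_lit 516) (nat_lit 466)))) (XT.nd (nat_lit 156) (nat_lit 1368) (nat_lit 0) (XT.nd (nat_lit 78) (nat_lit 684) (nat_lit 0) (XT.lf (nat_lit 0) (nat_lit 1323298210) (nat_lit 760) (nat_lit 2798371832) (nat_lit 76) (nat_lit 4443032403) (nat_lit 305) (nat_lit 5) (nat_lit 315) (nat_lit 5) (nat_lit 306) (nat_lit 5) (nat_lit 579) (nat_lit 516) (nat_lit 465)) (XT.lf (nat_lit 0) (nat_lit 3097518048) (nat_lit 684) (nat_lit 1037094030) (nat_lit 760) (nat_lit 4507103491) (nat_lit 296) (nat_lit 5) (nat_lit 305) (nat_lit 5) (nat_lit 306) (nat_lit 5) (nat_lit 580) (nat_lit 516) (nat_lit 464))) (XT.nd (nat_lit 78) (nat_lit 760) (nat_lit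 0) (XT.lf (nat_lit 0) (nat_lit 371359060) (nat_lit 608) (nat_lit 6626247734) (nat_lit 684) (nat_lit 1722758515) (nat_lit 288) (nat_lit 5) (nat_lit 296) (nat_lit 5) (nat_lit 297) (nat_lit 5) (nat_lit 581) (nat_lit 516) (nat_lit 463)) (XT.nd (nat_lit 78) (nat_lit 684) (nat_lit 0) (XT.lf (nat_lit 0) (nat_lit 1107580529) (nat_lit 684) (nat_lit 2383096177) (nat_lit 76) (nat_lit 5309672282) (nat_lit 287) (nat_lit 5) (nat_lit 296) (nat_lit 5) (nat_lit 288) (nat_lit 5) (nat_lit 582) (nat_lit 516) (nat_lit 462)) (XT.lf (nat_lit 0) (nat_lit 3690831555) (nat_lit 684) (nat_lit 266025057) (nat_lit 760) (nat_lit 4925145151) (nat_lit 278) (nat_lit 5) (nat_lit 287) (nat_lit 5) (nat_lit 288) (nat_lit 5) (nat_lit 583) (nat_lit 516) (nat_lit 461)))))) (XT.nd (nat_lit 390) (nat_lit 2280) (nat_lit 0) (XT.nd (nat_lit 156) (nat_lit 1216) (nat_lit 0) (XT.nd (nat_lit 78) (nat_lit 76) (nat_lit 0) (XT.lf (nat_lit 0) (nat_lit 896919121) (nat_lit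 608) (nat_lit 5969542643) (nat_lit 684) (nat_lit 2098763989) (nat_lit 270) (nat_lit 5) (nat_lit 278) (nat_lit 5) (nat_lit 279) (nat_lit 5) (nat_lit 584) (nat_lit 516) (nat_lit 460)) (XT.lf (nat_lit 0) (nat_lit 772662974) (nat_lit 684) (nat_lit 1928236837) (nat_lit 76) (nat_lit 6349141377) (nat_lit 269) (nat_lit 5) (nat_lit 278) (nat_lit 5) (nat_lit 270) (nat_lit 5) (nat_lit 585) (nat_lit 516) (nat_lit 459))) (XT.nd (nat_lit 78) (nat_lit 608) (nat_lit 0) (XT.lf (nat_lit 0) (nat_lit 3668592760) (nat_lit 684) (nat_lit 4811179351) (nat_lit 76) (nat_lit 656604568) (nat_lit 261) (nat_lit 5) (nat_lit 270) (nat_lit 5) (nat_lit 262) (nat_lit 5) (nat_lit 586) (nat_lit 516) (nat_lit 458)) (XT.nd (nat_lit 78) (nat_lit 76) (nat_lit 0) (XT.lf (nat_lit 0) (nat_lit 1458542321) (nat_lit 532) (nat_lit 5167352799) (nat_lit 608) (nat_lit 2598479329) (nat_lit 254) (nat_lit 5) (nat_lit 261) (nat_lit 5) (nat_lit 262) (nat_lit 5) (nat_lit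 587) (nat_lit 516) (nat_lit 457)) (XT.lf (nat_lit 0) (nat_lit 319644785) (nat_lit 608) (nat_lit 1445403562) (nat_lit 76) (nat_lit 7549130915) (nat_lit 253) (nat_lit 5) (nat_lit 261) (nat_lit 5) (nat_lit 254) (nat_lit 5) (nat_lit 588) (nat_lit 516) (nat_lit 456))))) (XT.nd (nat_lit 156) (nat_lit 1140) (nat_lit 0) (XT.nd (nat_lit 78) (nat_lit 532) (nat_lit 0) (XT.lf (nat_lit 0) (nat_lit 3269134795) (nat_lit 684) (nat_lit 4414504228) (nat_lit 76) (nat_lit 1721646068) (nat_lit 245) (nat_lit 5) (nat_lit 254) (nat_lit 5) (nat_lit 246) (nat_lit 5) (nat_lit 589) (nat_lit 516) (nat_lit 455)) (XT.lf (nat_lit 0) (nat_lit 2044496139) (nat_lit 532) (nat_lit 4232130209) (nat_lit 608) (nat_lit 3221610748) (nat_lit 238) (nat_lit 5) (nat_lit 245) (nat_lit 5) (nat_lit 246) (nat_lit 5) (nat_lit 590) (nat_lit 516) (nat_lit 454))) (XT.nd (nat_lit 78) (nat_lit 1140) (nat_lit 0) (XT.lf (nat_lit 0) (nat_lit 8645003679) (nat_lit 532) (nat_lit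 693564316) (nat_lit 608) (nat_lit 254598349) (nat_lit 238) (nat_lit 5) (nat_lit 245) (nat_lit 5) (nat_lit 246) (nat_lit 5) (nat_lit 591) (nat_lit 516) (nat_lit 453)) (XT.nd (nat_lit 78) (nat_lit 532) (nat_lit 0) (XT.lf (nat_lit 0) (nat_lit 2756744245) (nat_lit 608) (nat_lit 4011609350) (nat_lit 76) (nat_lit 2920857867) (nat_lit 230) (nat_lit 5) (nat_lit 238) (nat_lit 5) (nat_lit 231) (nat_lit 5) (nat_lit 592) (nat_lit 516) (nat_lit 452)) (XT.lf (nat_lit 0) (nat_lit 2642669368) (nat_lit 532) (nat_lit 3175830751) (nat_lit 608) (nat_lit 3968775761) (nat_lit 223) (nat_lit 5) (nat_lit 230) (nat_lit 5) (nat_lit 231) (nat_lit 5) (nat_lit 593) (nat_lit 516) (nat_lit 451))))))))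
noncomputable def xc63 : XT := (XT.nd (nat_lit 1482) (nat_lit 2128) (nat_lit 0) (XT.nd (nat_lit 702) (nat_lit 3040) (nat_lit 0) (XT.nd (nat_lit 312) (nat_lit 1520) (nat_lit 0) (XT.nd (nat_lit 156) (nat_lit 988) (nat_lit 0) (XT.nd (nat_lit 78) (nat_lit 608) (nat_lit 0) (XT.lf (nat_lit 0) (nat_lit 8937486607) (nat_lit 608) (nat_lit 453346985) (nat_lit 76) (nat_lit 496551974) (nat_lit 223) (nat_lit 5) (nat_lit 231) (nat_lit 5) (nat_lit 224) (nat_lit 5) (nat_lit 594) (nat_lit 516) (nat_lit 450)) (XT.lf (nat_lit 0) (nat_lit 2130519102) (nat_lit 608) (nat_lit 3615168696) (nat_lit 76) (nat_lit 4242955070) (nat_lit 215) (nat_lit 5) (nat_lit 223) (nat_lit 5) (nat_lit 216) (nat_lit 5) (nat_lit 595) (nat_lit 516) (nat_lit 449))) (XT.nd (nat_lit 78) (nat_lit 532) (nat_lit 0) (XT.lf (nat_lit 0) (nat_lit 3240448143) (nat_lit 456) (nat_lit 2010022661) (nat_lit 532) (nat_lit 4841519711) (nat_lit 209) (nat_lit 5) (nat_lit 215)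 (nat_lit 5) (nat_lit 216) (nat_lit 5) (nat_lit 596) (nat_lit 516) (nat_lit 448)) (XT.lf (nat_lit 0) (nat_lit 26638541) (nat_lit 532) (nat_lit 8409263321) (nat_lit 608) (nat_lit 1761445239) (nat_lit 202) (nat_lit 5) (nat_lit 209) (nat_lit 5) (nat_lit 210) (nat_lit 5) (nat_lit 597) (nat_lit 516) (nat_lit 447)))) (XT.nd (nat_lit 156) (nat_lit 988) (nat_lit 0) (XT.nd (nat_lit 78) (nat_lit 456) (nat_lit 0) (XT.lf (nat_lit 0) (nat_lit 1388646035) (nat_lit 608) (nat_lit 3238467025) (nat_lit 76) (nat_lit 5676991638) (nat_lit 201) (nat_lit 5) (nat_lit 209) (nat_lit 5) (nat_lit 202) (nat_lit 5) (nat_lit 598) (nat_lit 516) (nat_lit 446)) (XT.lf (nat_lit 0) (nat_lit 3824584825) (nat_lit 456) (nat_lit 745994837) (nat_lit 532) (nat_lit 5842339784) (nat_lit 195) (nat_lit 5) (nat_lit 201) (nat_lit 5) (nat_lit 202) (nat_lit 5) (nat_lit 599) (nat_lit 516) (nat_lit 445))) (XT.nd (nat_lit 78) (nat_lit 532) (nat_lit 0) (XT.lf (nat_lit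 0) (nat_lit 488139684) (nat_lit 456) (nat_lit 7341735649) (nat_lit 532) (nat_lit 2693764006) (nat_lit 189) (nat_lit 5) (nat_lit 195) (nat_lit 5) (nat_lit 196) (nat_lit 5) (nat_lit 600) (nat_lit 516) (nat_lit 444)) (XT.nd (nat_lit 78) (nat_lit 456) (nat_lit 0) (XT.lf (nat_lit 0) (nat_lit 528372265) (nat_lit 532) (nat_lit 2895536426) (nat_lit 76) (nat_lit 7212253297) (nat_lit 188) (nat_lit 5) (nat_lit 195) (nat_lit 5) (nat_lit 189) (nat_lit 5) (nat_lit 601) (nat_lit 516) (nat_lit 443)) (XT.lf (nat_lit 0) (nat_lit 3779853320) (nat_lit 532) (nat_lit 6373511676) (nat_lit 76) (nat_lit 597197676) (nat_lit 182) (nat_lit 5) (nat_lit 189) (nat_lit 5) (nat_lit 183) (nat_lit 5) (nat_lit 602) (nat_lit 516) (nat_lit 442)))))) (XT.nd (nat_lit 390) (nat_lit 1672) (nat_lit 0) (XT.nd (nat_lit 156) (nat_lit 912) (nat_lit 0) (XT.nd (nat_lit 78) (nat_lit 0) (nat_lit 0) (XT.lf (nat_lit 0) (nat_lit 910599002) (nat_lit 456) (nat_lit 6202703289)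 (nat_lit 532) (nat_lit 3753613378) (nat_lit 176) (nat_lit 5) (nat_lit 182) (nat_lit 5) (nat_lit 183) (nat_lit 5) (nat_lit 603) (nat_lit 516) (nat_lit 441)) (XT.lf (nat_lit 0) (nat_lit 8381072003) (nat_lit 456) (nat_lit 2144224909) (nat_lit 532) (nat_lit 460064288) (nat_lit 176) (nat_lit 5) (nat_lit 182) (nat_lit 5) (nat_lit 183) (nat_lit 5) (nat_lit 604) (nat_lit 516) (nat_lit 440))) (XT.nd (nat_lit 78) (nat_lit 456) (nat_lit 0) (XT.lf (nat_lit 0) (nat_lit 2875815698) (nat_lit 456) (nat_lit 6224045442) (nat_lit 76) (nat_lit 2005651189) (nat_lit 170) (nat_lit 5) (nat_lit 176) (nat_lit 5) (nat_lit 171) (nat_lit 5) (nat_lit 605) (nat_lit 516) (nat_lit 439)) (XT.nd (nat_lit 78) (nat_lit 0) (nat_lit 0) (XT.lf (nat_lit 0) (nat_lit 1278488376) (nat_lit 456) (nat_lit 5003582983) (nat_lit 532) (nat_lit 4945740767) (nat_lit 164) (nat_lit 5) (nat_lit 170) (nat_lit 5) (nat_lit 171) (nat_lit 5) (nat_lit 606) (nat_lit 516) (nat_lit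 438)) (XT.lf (nat_lit 0) (nat_lit 8970300885) (nat_lit 456) (nat_lit 797938249) (nat_lit 532) (nat_lit 1584085824) (nat_lit 164) (nat_lit 5) (nat_lit 170) (nat_lit 5) (nat_lit 171) (nat_lit 5) (nat_lit 607) (nat_lit 516) (nat_lit 437))))) (XT.nd (nat_lit 156) (nat_lit 836) (nat_lit 0) (XT.nd (nat_lit 78) (nat_lit 380) (nat_lit 0) (XT.lf (nat_lit 0) (nat_lit 1848637758) (nat_lit 456) (nat_lit 6151710094) (nat_lit 76) (nat_lit 3478182700) (nat_lit 158) (nat_lit 5) (nat_lit 164) (nat_lit 5) (nat_lit 159) (nat_lit 5) (nat_lit 608) (nat_lit 516) (nat_lit 436)) (XT.lf (nat_lit 0) (nat_lit 1575119037) (nat_lit 380) (nat_lit 3755912539) (nat_lit 456) (nat_lit 6275977349) (nat_lit 153) (nat_lit 5) (nat_lit 158) (nat_lit 5) (nat_lit 159) (nat_lit 5) (nat_lit 609) (nat_lit 516) (nat_lit 435))) (XT.nd (nat_lit 78) (nat_lit 836) (nat_lit 0) (XT.lf (nat_lit 0) (nat_lit 8899142928) (nat_lit 456) (nat_lit 2246392533) (nat_lit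 76) (nat_lit 592202579) (nat_lit 153) (nat_lit 5) (nat_lit 159) (nat_lit 5) (nat_lit 154) (nat_lit 5) (nat_lit 610) (nat_lit 516) (nat_lit 434)) (XT.nd (nat_lit 78) (nat_lit 380) (nat_lit 0) (XT.lf (nat_lit 0) (nat_lit 692247788) (nat_lit 456) (nat_lit 6174423237) (nat_lit 76) (nat_lit 5003657138) (nat_lit 147) (nat_lit 5) (nat_lit 153) (nat_lit 5) (nat_lit 148) (nat_lit 5) (nat_lit 611) (nat_lit 516) (nat_lit 433)) (XT.lf (nat_lit 0) (nat_lit 1782463056) (nat_lit 380) (nat_lit 2471469705) (nat_lit 456) (nat_lit 7751299803) (nat_lit 142) (nat_lit 5) (nat_lit 147) (nat_lit 5) (nat_lit 148) (nat_lit 5) (nat_lit 612) (nat_lit 516) (nat_lit 432))))))) (XT.nd (nat_lit 702) (nat_lit 0) (nat_lit 0) (XT.nd (nat_lit 312) (nat_lit 1368) (nat_lit 0) (XT.nd (nat_lit 156) (nat_lit 456) (nat_lit 0) (XT.nd (nat_lit 78) (nat_lit 304) (nat_lit 0) (XT.lf (nat_lit 0) (nat_lit 7913244154) (nat_lit 456) (nat_lit 2217579568) (nat_lit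 76) (nat_lit 2011485847) (nat_lit 142) (nat_lit 5) (nat_lit 148) (nat_lit 5) (nat_lit 143) (nat_lit 5) (nat_lit 613) (nat_lit 516) (nat_lit 431)) (XT.lf (nat_lit 0) (nat_lit 5966042614) (nat_lit 304) (nat_lit 5706982232) (nat_lit 380) (nat_lit 608559930) (nat_lit 138) (nat_lit 5) (nat_lit 142) (nat_lit 5) (nat_lit 143) (nat_lit 5) (nat_lit 614) (nat_lit 516) (nat_lit 430))) (XT.nd (nat_lit 78) (nat_lit 0) (nat_lit 0) (XT.lf (nat_lit 0) (nat_lit 1880959842) (nat_lit 380) (nat_lit 1162396133) (nat_lit 456) (nat_lit 9379902190) (nat_lit 132) (nat_lit 5) (nat_lit 137) (nat_lit 5) (nat_lit 138) (nat_lit 5) (nat_lit 615) (nat_lit 516) (nat_lit 429)) (XT.lf (nat_lit 0) (nat_lit 6797799547) (nat_lit 456) (nat_lit 2310573031) (nat_lit 76) (nat_lit 3458561421) (nat_lit 132) (nat_lit 5) (nat_lit 138) (nat_lit 5) (nat_lit 133) (nat_lit 5) (nat_lit 616) (nat_lit 516) (nat_lit 428)))) (XT.nd (nat_lit 156) (nat_lit 684) (nat_lit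 0) (XT.nd (nat_lit 78) (nat_lit 380) (nat_lit 0) (XT.lf (nat_lit 0) (nat_lit 6115355578) (nat_lit 304) (nat_lit 4532339658) (nat_lit 380) (nat_lit 2065382997) (nat_lit 128) (nat_lit 5) (nat_lit 132) (nat_lit 5) (nat_lit 133) (nat_lit 5) (nat_lit 617) (nat_lit 516) (nat_lit 427)) (XT.lf (nat_lit 0) (nat_lit 1691663543) (nat_lit 380) (nat_lit 11013636501) (nat_lit 76) (nat_lit 156591423) (nat_lit 123) (nat_lit 5) (nat_lit 128) (nat_lit 5) (nat_lit 124) (nat_lit 5) (nat_lit 618) (nat_lit 516) (nat_lit 426))) (XT.nd (nat_lit 78) (nat_lit 684) (nat_lit 0) (XT.lf (nat_lit 0) (nat_lit 5543985672) (nat_lit 380) (nat_lit 2547360664) (nat_lit 76) (nat_lit 4921107806) (nat_lit 123) (nat_lit 5) (nat_lit 128) (nat_lit 5) (nat_lit 124) (nat_lit 5) (nat_lit 619) (nat_lit 516) (nat_lit 425)) (XT.nd (nat_lit 78) (nat_lit 380) (nat_lit 0) (XT.lf (nat_lit 0) (nat_lit 6126269720) (nat_lit 304) (nat_lit 3360567575) (nat_lit 380) (nat_lit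 3678923099) (nat_lit 119) (nat_lit 5) (nat_lit 123) (nat_lit 5) (nat_lit 124) (nat_lit 5) (nat_lit 620) (nat_lit 516) (nat_lit 424)) (XT.lf (nat_lit 0) (nat_lit 195355531) (nat_lit 380) (nat_lit 11667448960) (nat_lit 76) (nat_lit 1459078235) (nat_lit 114) (nat_lit 5) (nat_lit 119) (nat_lit 5) (nat_lit 115) (nat_lit 5) (nat_lit 621) (nat_lit 516) (nat_lit 423)))))) (XT.nd (nat_lit 74022) (nat_lit 0) (nat_lit 46056) (XT.nd (nat_lit 73788) (nat_lit 0) (nat_lit 47652) (XT.nd (nat_lit 73710) (nat_lit 0) (nat_lit 48032) (XT.lf (nat_lit 0) (nat_lit 4141623430) (nat_lit 380) (nat_lit 2951983927) (nat_lit 76) (nat_lit 6386160374) (nat_lit 114) (nat_lit 5) (nat_lit 119) (nat_lit 5) (nat_lit 115) (nat_lit 5) (nat_lit 622) (nat_lit 516) (nat_lit 422)) (XT.lf (nat_lit 0) (nat_lit 273153019) (nat_lit 228) (nat_lit 1478285290) (nat_lit 228) (nat_lit 1478285290) (nat_lit 746) (nat_lit 4) (nat_lit 749) (nat_lit 5) (nat_lit 749)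 (nat_lit 4) (nat_lit 526) (nat_lit 517) (nat_lit 517))) (XT.nd (nat_lit 78) (nat_lit 304) (nat_lit 0) (XT.lf (nat_lit 0) (nat_lit 221401794) (nat_lit 304) (nat_lit 2426568082) (nat_lit 76) (nat_lit 3817891727) (nat_lit 745) (nat_lit 5) (nat_lit 749) (nat_lit 5) (nat_lit 746) (nat_lit 4) (nat_lit 527) (nat_lit 517) (nat_lit 516)) (XT.nd (nat_lit 78) (nat_lit 0) (nat_lit 0) (XT.lf (nat_lit 0) (nat_lit 1077828470) (nat_lit 304) (nat_lit 2273200674) (nat_lit 380) (nat_lit 3122453273) (nat_lit 741) (nat_lit 5) (nat_lit 745) (nat_lit 5) (nat_lit 746) (nat_lit 4) (nat_lit 528) (nat_lit 517) (nat_lit 515)) (XT.lf (nat_lit 0) (nat_lit 4639047444) (nat_lit 304) (nat_lit 1842390382) (nat_lit 380) (nat_lit 1076260) (nat_lit 741) (nat_lit 5) (nat_lit 745) (nat_lit 5) (nat_lit 746) (nat_lit 4) (nat_lit 529) (nat_lit 517) (nat_lit 514))))) (XT.nd (nat_lit 156) (nat_lit 1140) (nat_lit 0) (XT.nd (nat_lit 78) (nat_lit 0) (nat_lit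 0) (XT.lf (nat_lit 0) (nat_lit 1735563170) (nat_lit 380) (nat_lit 1339599465) (nat_lit 456) (nat_lit 3417488288) (nat_lit 735) (nat_lit 5) (nat_lit 740) (nat_lit 5) (nat_lit 741) (nat_lit 5) (nat_lit 530) (nat_lit 517) (nat_lit 513)) (XT.lf (nat_lit 0) (nat_lit 5365160552) (nat_lit 380) (nat_lit 784242895) (nat_lit 456) (nat_lit 354878010) (nat_lit 735) (nat_lit 5) (nat_lit 740) (nat_lit 5) (nat_lit 741) (nat_lit 5) (nat_lit 531) (nat_lit 517) (nat_lit 512))) (XT.nd (nat_lit 78) (nat_lit 608) (nat_lit 0) (XT.lf (nat_lit 0) (nat_lit 2520171513) (nat_lit 456) (nat_lit 153955719) (nat_lit 532) (nat_lit 3842848759) (nat_lit 728) (nat_lit 5) (nat_lit 734) (nat_lit 5) (nat_lit 735) (nat_lit 5) (nat_lit 532) (nat_lit 517) (nat_lit 511)) (XT.nd (nat_lit 78) (nat_lit 608) (nat_lit 0) (XT.lf (nat_lit 0) (nat_lit 5696282941) (nat_lit 532) (nat_lit 314736532) (nat_lit 76) (nat_lit 520131310) (nat_lit 728) (nat_lit 5) (nat_lit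 735) (nat_lit 5) (nat_lit 729) (nat_lit 5) (nat_lit 533) (nat_lit 517) (nat_lit 510)) (XT.lf (nat_lit 0) (nat_lit 2154876178) (nat_lit 608) (nat_lit 3122280332) (nat_lit 76) (nat_lit 1269163656) (nat_lit 720) (nat_lit 5) (nat_lit 728) (nat_lit 5) (nat_lit 721) (nat_lit 5) (nat_lit 534) (nat_lit 517) (nat_lit 509))))))))
noncomputable def xc64 : XT := (XT.nd (nat_lit 1404) (nat_lit 15428) (nat_lit 0) (XT.nd (nat_lit 702) (nat_lit 7296) (nat_lit 0) (XT.nd (nat_lit 312) (nat_lit 2660) (nat_lit 0) (XT.nd (nat_lit 156) (nat_lit 760) (nat_lit 0) (XT.nd (nat_lit 78) (nat_lit 76) (nat_lit 0) (XT.lf (nat_lit 0) (nat_lit 635689749) (nat_lit 608) (nat_lit 4492325730) (nat_lit 684) (nat_lit 1434990092) (nat_lit 712) (nat_lit 5) (nat_lit 720) (nat_lit 5) (nat_lit 721) (nat_lit 5) (nat_lit 535) (nat_lit 517) (nat_lit 508)) (XT.lf (nat_lit 0) (nat_lit 1510082517) (nat_lit 684) (nat_lit 2126725087) (nat_lit 76) (nat_lit 2944025313)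 (nat_lit 711) (nat_lit 5) (nat_lit 720) (nat_lit 5) (nat_lit 712) (nat_lit 5) (nat_lit 536) (nat_lit 517) (nat_lit 507))) (XT.nd (nat_lit 78) (nat_lit 76) (nat_lit 0) (XT.lf (nat_lit 0) (nat_lit 1715956752) (nat_lit 684) (nat_lit 2720562530) (nat_lit 760) (nat_lit 2163491793) (nat_lit 702) (nat_lit 5) (nat_lit 711) (nat_lit 5) (nat_lit 712) (nat_lit 5) (nat_lit 537) (nat_lit 517) (nat_lit 506)) (XT.lf (nat_lit 0) (nat_lit 736868522) (nat_lit 760) (nat_lit 1007814101) (nat_lit 76) (nat_lit 4875893403) (nat_lit 701) (nat_lit 5) (nat_lit 711) (nat_lit 5) (nat_lit 702) (nat_lit 5) (nat_lit 538) (nat_lit 517) (nat_lit 505)))) (XT.nd (nat_lit 156) (nat_lit 1064) (nat_lit 0) (XT.nd (nat_lit 78) (nat_lit 836) (nat_lit 0) (XT.lf (nat_lit 0) (nat_lit 2923349475) (nat_lit 760) (nat_lit 694383442) (nat_lit 836) (nat_lit 3024520529) (nat_lit 691) (nat_lit 5) (nat_lit 701) (nat_lit 5) (nat_lit 702) (nat_lit 5) (nat_lit 539)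 (nat_lit 517) (nat_lit 504)) (XT.lf (nat_lit 0) (nat_lit 235378339) (nat_lit 836) (nat_lit 6265233000) (nat_lit 912) (nat_lit 164881324) (nat_lit 680) (nat_lit 5) (nat_lit 691) (nat_lit 5) (nat_lit 692) (nat_lit 5) (nat_lit 540) (nat_lit 517) (nat_lit 503))) (XT.nd (nat_lit 78) (nat_lit 988) (nat_lit 0) (XT.lf (nat_lit 0) (nat_lit 2679736266) (nat_lit 912) (nat_lit 2440533063) (nat_lit 76) (nat_lit 1569307981) (nat_lit 679) (nat_lit 5) (nat_lit 691) (nat_lit 5) (nat_lit 680) (nat_lit 5) (nat_lit 541) (nat_lit 517) (nat_lit 502)) (XT.nd (nat_lit 78) (nat_lit 76) (nat_lit 0) (XT.lf (nat_lit 0) (nat_lit 1601336765) (nat_lit 912) (nat_lit 3923549991) (nat_lit 988) (nat_lit 1190333377) (nat_lit 667) (nat_lit 5) (nat_lit 679) (nat_lit 5) (nat_lit 680) (nat_lit 5) (nat_lit 542) (nat_lit 517) (nat_lit 501)) (XT.lf (nat_lit 0) (nat_lit 1615916990) (nat_lit 988) (nat_lit 1042941031) (nat_lit 76) (nat_lit 4083264393) (nat_lit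 666) (nat_lit 5) (nat_lit 679) (nat_lit 5) (nat_lit 667) (nat_lit 5) (nat_lit 543) (nat_lit 517) (nat_lit 500)))))) (XT.nd (nat_lit 312) (nat_lit 4028) (nat_lit 0) (XT.nd (nat_lit 156) (nat_lit 1140) (nat_lit 0) (XT.nd (nat_lit 78) (nat_lit 1140) (nat_lit 0) (XT.lf (nat_lit 0) (nat_lit 3095103957) (nat_lit 988) (nat_lit 1324588944) (nat_lit 1064) (nat_lit 2350580064) (nat_lit 653) (nat_lit 5) (nat_lit 666) (nat_lit 5) (nat_lit 667) (nat_lit 5) (nat_lit 544) (nat_lit 517) (nat_lit 499)) (XT.lf (nat_lit 0) (nat_lit 422613889) (nat_lit 1140) (nat_lit 6313537532) (nat_lit 76) (nat_lit 63819341) (nat_lit 638) (nat_lit 5) (nat_lit 653) (nat_lit 5) (nat_lit 639) (nat_lit 5) (nat_lit 545) (nat_lit 517) (nat_lit 498))) (XT.nd (nat_lit 78) (nat_lit 1140) (nat_lit 0) (XT.lf (nat_lit 0) (nat_lit 3192163176) (nat_lit 1140) (nat_lit 2121763349) (nat_lit 76) (nat_lit 1516591470) (nat_lit 638) (nat_lit 5) (nat_lit 653) (nat_lit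 5) (nat_lit 639) (nat_lit 5) (nat_lit 546) (nat_lit 517) (nat_lit 497)) (XT.lf (nat_lit 0) (nat_lit 2134212103) (nat_lit 1140) (nat_lit 3836687812) (nat_lit 1216) (nat_lit 891713602) (nat_lit 623) (nat_lit 5) (nat_lit 638) (nat_lit 5) (nat_lit 639) (nat_lit 5) (nat_lit 547) (nat_lit 517) (nat_lit 496)))) (XT.nd (nat_lit 156) (nat_lit 2736) (nat_lit 0) (XT.nd (nat_lit 78) (nat_lit 1216) (nat_lit 0) (XT.lf (nat_lit 0) (nat_lit 1839550109) (nat_lit 1216) (nat_lit 451608643) (nat_lit 76) (nat_lit 4604862200) (nat_lit 622) (nat_lit 5) (nat_lit 638) (nat_lit 5) (nat_lit 623) (nat_lit 5) (nat_lit 548) (nat_lit 517) (nat_lit 495)) (XT.lf (nat_lit 0) (nat_lit 3908907872) (nat_lit 1216) (nat_lit 671555475) (nat_lit 1292) (nat_lit 2350188525) (nat_lit 606) (nat_lit 5) (nat_lit 622) (nat_lit 5) (nat_lit 623) (nat_lit 5) (nat_lit 549) (nat_lit 517) (nat_lit 494))) (XT.nd (nat_lit 78) (nat_lit 1368) (nat_lit 0) (XT.lf (nat_lit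 0) (nat_lit 365299644) (nat_lit 1368) (nat_lit 5608977185) (nat_lit 76) (nat_lit 992448132) (nat_lit 588) (nat_lit 5) (nat_lit 606) (nat_lit 5) (nat_lit 589) (nat_lit 5) (nat_lit 550) (nat_lit 517) (nat_lit 493)) (XT.nd (nat_lit 78) (nat_lit 1368) (nat_lit 0) (XT.lf (nat_lit 0) (nat_lit 3071432201) (nat_lit 1368) (nat_lit 1206019851) (nat_lit 76) (nat_lit 2726412479) (nat_lit 588) (nat_lit 5) (nat_lit 606) (nat_lit 5) (nat_lit 589) (nat_lit 5) (nat_lit 551) (nat_lit 517) (nat_lit 492)) (XT.lf (nat_lit 0) (nat_lit 3280421937) (nat_lit 1368) (nat_lit 2516598521) (nat_lit 1444) (nat_lit 1245431330) (nat_lit 570) (nat_lit 5) (nat_lit 588) (nat_lit 5) (nat_lit 589) (nat_lit 5) (nat_lit 552) (nat_lit 517) (nat_lit 491))))))) (XT.nd (nat_lit 702) (nat_lit 5472) (nat_lit 0) (XT.nd (nat_lit 312) (nat_lit 5244) (nat_lit 0) (XT.nd (nat_lit 156) (nat_lit 3192) (nat_lit 0) (XT.nd (nat_lit 78) (nat_lit 0) (nat_lit 0) (XT.lf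 (nat_lit 0) (nat_lit 743242939) (nat_lit 1444) (nat_lit 689875901) (nat_lit 1520) (nat_lit 5649360478) (nat_lit 550) (nat_lit 5) (nat_lit 569) (nat_lit 5) (nat_lit 570) (nat_lit 5) (nat_lit 553) (nat_lit 517) (nat_lit 490)) (XT.lf (nat_lit 0) (nat_lit 4126883424) (nat_lit 1520) (nat_lit 1798089808) (nat_lit 76) (nat_lit 1198614018) (nat_lit 550) (nat_lit 5) (nat_lit 570) (nat_lit 5) (nat_lit 551) (nat_lit 5) (nat_lit 554) (nat_lit 517) (nat_lit 489))) (XT.nd (nat_lit 78) (nat_lit 1672) (nat_lit 0) (XT.lf (nat_lit 0) (nat_lit 2818362192) (nat_lit 1520) (nat_lit 4025374958) (nat_lit 1596) (nat_lit 322406588) (nat_lit 530) (nat_lit 5) (nat_lit 550) (nat_lit 5) (nat_lit 551) (nat_lit 5) (nat_lit 555) (nat_lit 517) (nat_lit 488)) (XT.lf (nat_lit 0) (nat_lit 281891514) (nat_lit 1596) (nat_lit 2052643124) (nat_lit 1672) (nat_lit 4875500533) (nat_lit 508) (nat_lit 5) (nat_lit 529) (nat_lit 5) (nat_lit 530) (nat_lit 5)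 (nat_lit 556) (nat_lit 517) (nat_lit 487)))) (XT.nd (nat_lit 156) (nat_lit 3496) (nat_lit 0) (XT.nd (nat_lit 78) (nat_lit 1748) (nat_lit 0) (XT.lf (nat_lit 0) (nat_lit 5012932592) (nat_lit 1596) (nat_lit 3992601) (nat_lit 1672) (nat_lit 2238314131) (nat_lit 508) (nat_lit 5) (nat_lit 529) (nat_lit 5) (nat_lit 530) (nat_lit 5) (nat_lit 557) (nat_lit 517) (nat_lit 486)) (XT.lf (nat_lit 0) (nat_lit 423888571) (nat_lit 1748) (nat_lit 4796099452) (nat_lit 76) (nat_lit 2081746648) (nat_lit 485) (nat_lit 5) (nat_lit 508) (nat_lit 5) (nat_lit 486) (nat_lit 5) (nat_lit 558) (nat_lit 517) (nat_lit 485))) (XT.nd (nat_lit 78) (nat_lit 3496) (nat_lit 0) (XT.lf (nat_lit 0) (nat_lit 3073439328) (nat_lit 1748) (nat_lit 33374649) (nat_lit 76) (nat_lit 4242778024) (nat_lit 485) (nat_lit 5) (nat_lit 508) (nat_lit 5) (nat_lit 486) (nat_lit 5) (nat_lit 559) (nat_lit 517) (nat_lit 484)) (XT.nd (nat_lit 78) (nat_lit 1748) (nat_lit 0)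 (XT.lf (nat_lit 0) (nat_lit 4840542799) (nat_lit 1748) (nat_lit 916742649) (nat_lit 1824) (nat_lit 1641504237) (nat_lit 462) (nat_lit 5) (nat_lit 485) (nat_lit 5) (nat_lit 486) (nat_lit 5) (nat_lit 560) (nat_lit 517) (nat_lit 483)) (XT.lf (nat_lit 0) (nat_lit 1006462229) (nat_lit 1748) (nat_lit 5118832765) (nat_lit 76) (nat_lit 1324062629) (nat_lit 439) (nat_lit 5) (nat_lit 462) (nat_lit 5) (nat_lit 440) (nat_lit 5) (nat_lit 561) (nat_lit 517) (nat_lit 482)))))) (XT.nd (nat_lit 390) (nat_lit 2584) (nat_lit 0) (XT.nd (nat_lit 156) (nat_lit 1900) (nat_lit 0) (XT.nd (nat_lit 78) (nat_lit 988) (nat_lit 0) (XT.lf (nat_lit 0) (nat_lit 3659673961) (nat_lit 1748) (nat_lit 214489576) (nat_lit 76) (nat_lit 3627079820) (nat_lit 439) (nat_lit 5) (nat_lit 462) (nat_lit 5) (nat_lit 440) (nat_lit 5) (nat_lit 562) (nat_lit 517) (nat_lit 481)) (XT.lf (nat_lit 0) (nat_lit 4803299330) (nat_lit 988) (nat_lit 1545692798) (nat_lit 1064)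 (nat_lit 1205522419) (nat_lit 426) (nat_lit 5) (nat_lit 439) (nat_lit 5) (nat_lit 440) (nat_lit 5) (nat_lit 563) (nat_lit 517) (nat_lit 480))) (XT.nd (nat_lit 78) (nat_lit 912) (nat_lit 0) (XT.lf (nat_lit 0) (nat_lit 1437821421) (nat_lit 988) (nat_lit 5326924696) (nat_lit 76) (nat_lit 844440116) (nat_lit 413) (nat_lit 5) (nat_lit 426) (nat_lit 5) (nat_lit 414) (nat_lit 5) (nat_lit 564) (nat_lit 517) (nat_lit 479)) (XT.nd (nat_lit 78) (nat_lit 912) (nat_lit 0) (XT.lf (nat_lit 0) (nat_lit 4099521372) (nat_lit 988) (nat_lit 277824460) (nat_lit 76) (nat_lit 3287821618) (nat_lit 413) (nat_lit 5) (nat_lit 426) (nat_lit 5) (nat_lit 414) (nat_lit 5) (nat_lit 565) (nat_lit 517) (nat_lit 478)) (XT.lf (nat_lit 0) (nat_lit 4888725876) (nat_lit 912) (nat_lit 1911191224) (nat_lit 988) (nat_lit 922649889) (nat_lit 401) (nat_lit 5) (nat_lit 413) (nat_lit 5) (nat_lit 414) (nat_lit 5) (nat_lit 566) (nat_lit 517) (nat_lit 477)))))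 (XT.nd (nat_lit 156) (nat_lit 1672) (nat_lit 0) (XT.nd (nat_lit 78) (nat_lit 0) (nat_lit 0) (XT.lf (nat_lit 0) (nat_lit 1725213462) (nat_lit 912) (nat_lit 5432896362) (nat_lit 76) (nat_lit 623276798) (nat_lit 389) (nat_lit 5) (nat_lit 401) (nat_lit 5) (nat_lit 390) (nat_lit 5) (nat_lit 567) (nat_lit 517) (nat_lit 476)) (XT.lf (nat_lit 0) (nat_lit 4400079485) (nat_lit 912) (nat_lit 235552804) (nat_lit 76) (nat_lit 3205907866) (nat_lit 389) (nat_lit 5) (nat_lit 401) (nat_lit 5) (nat_lit 390) (nat_lit 5) (nat_lit 568) (nat_lit 517) (nat_lit 475))) (XT.nd (nat_lit 78) (nat_lit 836) (nat_lit 0) (XT.lf (nat_lit 0) (nat_lit 5084838833) (nat_lit 836) (nat_lit 2032097299) (nat_lit 912) (nat_lit 786198091) (nat_lit 378) (nat_lit 5) (nat_lit 389) (nat_lit 5) (nat_lit 390) (nat_lit 5) (nat_lit 569) (nat_lit 517) (nat_lit 474)) (XT.nd (nat_lit 78) (nat_lit 0) (nat_lit 0) (XT.lf (nat_lit 0) (nat_lit 1874896638) (nat_lit 836)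 (nat_lit 5448855527) (nat_lit 76) (nat_lit 642406720) (nat_lit 367) (nat_lit 5) (nat_lit 378) (nat_lit 5) (nat_lit 368) (nat_lit 5) (nat_lit 570) (nat_lit 517) (nat_lit 473)) (XT.lf (nat_lit 0) (nat_lit 4567471882) (nat_lit 836) (nat_lit 99448659) (nat_lit 76) (nat_lit 3363650754) (nat_lit 367) (nat_lit 5) (nat_lit 378) (nat_lit 5) (nat_lit 368) (nat_lit 5) (nat_lit 571) (nat_lit 517) (nat_lit 472))))))))
noncomputable def xc65 : XT := (XT.nd (nat_lit 1482) (nat_lit 6612) (nat_lit 0) (XT.nd (nat_lit 702) (nat_lit 3876) (nat_lit 0) (XT.nd (nat_lit 312) (nat_lit 2964) (nat_lit 0) (XT.nd (nat_lit 156) (nat_lit 760) (nat_lit 0) (XT.nd (nat_lit 78) (nat_lit 836) (nat_lit 0) (XT.lf (nat_lit 0) (nat_lit 5380045605) (nat_lit 836) (nat_lit 1925921970) (nat_lit 912) (nat_lit 790469769) (nat_lit 356) (nat_lit 5) (nat_lit 367) (nat_lit 5) (nat_lit 368) (nat_lit 5) (nat_lit 572) (nat_lit 517) (nat_lit 471)) (XT.lf (nat_lit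 0) (nat_lit 1892175611) (nat_lit 836) (nat_lit 5386597759) (nat_lit 76) (nat_lit 884963527) (nat_lit 345) (nat_lit 5) (nat_lit 356) (nat_lit 5) (nat_lit 346) (nat_lit 5) (nat_lit 573) (nat_lit 517) (nat_lit 470))) (XT.nd (nat_lit 78) (nat_lit 0) (nat_lit 0) (XT.lf (nat_lit 0) (nat_lit 120594517) (nat_lit 760) (nat_lit 4487070242) (nat_lit 836) (nat_lit 3624824055) (nat_lit 335) (nat_lit 5) (nat_lit 345) (nat_lit 5) (nat_lit 346) (nat_lit 5) (nat_lit 574) (nat_lit 517) (nat_lit 469)) (XT.lf (nat_lit 0) (nat_lit 5763043431) (nat_lit 760) (nat_lit 1608960836) (nat_lit 836) (nat_lit 930726945) (nat_lit 335) (nat_lit 5) (nat_lit 345) (nat_lit 5) (nat_lit 346) (nat_lit 5) (nat_lit 575) (nat_lit 517) (nat_lit 468)))) (XT.nd (nat_lit 156) (nat_lit 1444) (nat_lit 0) (XT.nd (nat_lit 78) (nat_lit 760) (nat_lit 0) (XT.lf (nat_lit 0) (nat_lit 1781430090) (nat_lit 760) (nat_lit 5257707531) (nat_lit 76) (nat_lit 1335250643) (nat_lit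 325) (nat_lit 5) (nat_lit 335) (nat_lit 5) (nat_lit 326) (nat_lit 5) (nat_lit 576) (nat_lit 517) (nat_lit 467)) (XT.lf (nat_lit 0) (nat_lit 413984653) (nat_lit 760) (nat_lit 4111282530) (nat_lit 836) (nat_lit 3922296139) (nat_lit 315) (nat_lit 5) (nat_lit 325) (nat_lit 5) (nat_lit 326) (nat_lit 5) (nat_lit 577) (nat_lit 517) (nat_lit 466))) (XT.nd (nat_lit 78) (nat_lit 1444) (nat_lit 0) (XT.lf (nat_lit 0) (nat_lit 6222717945) (nat_lit 760) (nat_lit 1096420860) (nat_lit 836) (nat_lit 1203165700) (nat_lit 315) (nat_lit 5) (nat_lit 325) (nat_lit 5) (nat_lit 326) (nat_lit 5) (nat_lit 578) (nat_lit 517) (nat_lit 465)) (XT.nd (nat_lit 78) (nat_lit 684) (nat_lit 0) (XT.lf (nat_lit 0) (nat_lit 1546136875) (nat_lit 760) (nat_lit 5073660093) (nat_lit 76) (nat_lit 1978617483) (nat_lit 305) (nat_lit 5) (nat_lit 315) (nat_lit 5) (nat_lit 306) (nat_lit 5) (nat_lit 579) (nat_lit 517) (nat_lit 464)) (XT.lf (nat_lit 0) (nat_lit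 768071715) (nat_lit 684) (nat_lit 3554857395) (nat_lit 760) (nat_lit 4353191592) (nat_lit 296) (nat_lit 5) (nat_lit 305) (nat_lit 5) (nat_lit 306) (nat_lit 5) (nat_lit 580) (nat_lit 517) (nat_lit 463)))))) (XT.nd (nat_lit 390) (nat_lit 1824) (nat_lit 0) (XT.nd (nat_lit 156) (nat_lit 1368) (nat_lit 0) (XT.nd (nat_lit 78) (nat_lit 684) (nat_lit 0) (XT.lf (nat_lit 0) (nat_lit 6748040616) (nat_lit 684) (nat_lit 402541630) (nat_lit 760) (nat_lit 1604897672) (nat_lit 296) (nat_lit 5) (nat_lit 305) (nat_lit 5) (nat_lit 306) (nat_lit 5) (nat_lit 581) (nat_lit 517) (nat_lit 462)) (XT.lf (nat_lit 0) (nat_lit 1188885315) (nat_lit 684) (nat_lit 4845924934) (nat_lit 76) (nat_lit 2801340789) (nat_lit 287) (nat_lit 5) (nat_lit 296) (nat_lit 5) (nat_lit 288) (nat_lit 5) (nat_lit 582) (nat_lit 517) (nat_lit 461))) (XT.nd (nat_lit 78) (nat_lit 684) (nat_lit 0) (XT.lf (nat_lit 0) (nat_lit 1171520765) (nat_lit 684) (nat_lit 2831555730)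 (nat_lit 760) (nat_lit 4915431507) (nat_lit 278) (nat_lit 5) (nat_lit 287) (nat_lit 5) (nat_lit 288) (nat_lit 5) (nat_lit 583) (nat_lit 517) (nat_lit 460)) (XT.nd (nat_lit 78) (nat_lit 684) (nat_lit 0) (XT.lf (nat_lit 0) (nat_lit 6871658281) (nat_lit 760) (nat_lit 1677632316) (nat_lit 76) (nat_lit 453264303) (nat_lit 278) (nat_lit 5) (nat_lit 288) (nat_lit 5) (nat_lit 279) (nat_lit 5) (nat_lit 584) (nat_lit 517) (nat_lit 459)) (XT.lf (nat_lit 0) (nat_lit 711386194) (nat_lit 684) (nat_lit 4586071736) (nat_lit 76) (nat_lit 3790510235) (nat_lit 269) (nat_lit 5) (nat_lit 278) (nat_lit 5) (nat_lit 270) (nat_lit 5) (nat_lit 585) (nat_lit 517) (nat_lit 458))))) (XT.nd (nat_lit 156) (nat_lit 1216) (nat_lit 0) (XT.nd (nat_lit 78) (nat_lit 0) (nat_lit 0) (XT.lf (nat_lit 0) (nat_lit 1612882980) (nat_lit 608) (nat_lit 1954380928) (nat_lit 684) (nat_lit 5607843093) (nat_lit 261) (nat_lit 5) (nat_lit 269) (nat_lit 5) (nat_lit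 270) (nat_lit 5) (nat_lit 586) (nat_lit 517) (nat_lit 457)) (XT.lf (nat_lit 0) (nat_lit 6484484681) (nat_lit 684) (nat_lit 1322370776) (nat_lit 76) (nat_lit 1457053200) (nat_lit 261) (nat_lit 5) (nat_lit 270) (nat_lit 5) (nat_lit 262) (nat_lit 5) (nat_lit 587) (nat_lit 517) (nat_lit 456))) (XT.nd (nat_lit 78) (nat_lit 608) (nat_lit 0) (XT.lf (nat_lit 0) (nat_lit 114473975) (nat_lit 608) (nat_lit 4305879710) (nat_lit 76) (nat_lit 4933917435) (nat_lit 253) (nat_lit 5) (nat_lit 261) (nat_lit 5) (nat_lit 254) (nat_lit 5) (nat_lit 588) (nat_lit 517) (nat_lit 455)) (XT.nd (nat_lit 78) (nat_lit 0) (nat_lit 0) (XT.lf (nat_lit 0) (nat_lit 2080484678) (nat_lit 608) (nat_lit 935690082) (nat_lit 684) (nat_lit 6430160098) (nat_lit 245) (nat_lit 5) (nat_lit 253) (nat_lit 5) (nat_lit 254) (nat_lit 5) (nat_lit 589) (nat_lit 517) (nat_lit 454)) (XT.lf (nat_lit 0) (nat_lit 5986982859) (nat_lit 684) (nat_lit 950801234) (nat_lit 76)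 (nat_lit 2602238523) (nat_lit 245) (nat_lit 5) (nat_lit 254) (nat_lit 5) (nat_lit 246) (nat_lit 5) (nat_lit 590) (nat_lit 517) (nat_lit 453))))))) (XT.nd (nat_lit 702) (nat_lit 2812) (nat_lit 0) (XT.nd (nat_lit 312) (nat_lit 2128) (nat_lit 0) (XT.nd (nat_lit 156) (nat_lit 532) (nat_lit 0) (XT.nd (nat_lit 78) (nat_lit 608) (nat_lit 0) (XT.lf (nat_lit 0) (nat_lit 5614010764) (nat_lit 532) (nat_lit 3411514525) (nat_lit 608) (nat_lit 609896602) (nat_lit 238) (nat_lit 5) (nat_lit 245) (nat_lit 5) (nat_lit 246) (nat_lit 5) (nat_lit 591) (nat_lit 517) (nat_lit 452)) (XT.lf (nat_lit 0) (nat_lit 2350995726) (nat_lit 608) (nat_lit 7171714156) (nat_lit 76) (nat_lit 209907429) (nat_lit 230) (nat_lit 5) (nat_lit 238) (nat_lit 5) (nat_lit 231) (nat_lit 5) (nat_lit 592) (nat_lit 517) (nat_lit 451))) (XT.nd (nat_lit 78) (nat_lit 532) (nat_lit 0) (XT.lf (nat_lit 0) (nat_lit 5378818450) (nat_lit 608) (nat_lit 575076907) (nat_lit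 76) (nat_lit 3877466961) (nat_lit 230) (nat_lit 5) (nat_lit 238) (nat_lit 5) (nat_lit 231) (nat_lit 5) (nat_lit 593) (nat_lit 517) (nat_lit 450)) (XT.lf (nat_lit 0) (nat_lit 6189150776) (nat_lit 532) (nat_lit 2285009473) (nat_lit 608) (nat_lit 1457786536) (nat_lit 223) (nat_lit 5) (nat_lit 230) (nat_lit 5) (nat_lit 231) (nat_lit 5) (nat_lit 594) (nat_lit 517) (nat_lit 449)))) (XT.nd (nat_lit 156) (nat_lit 1520) (nat_lit 0) (XT.nd (nat_lit 78) (nat_lit 0) (nat_lit 0) (XT.lf (nat_lit 0) (nat_lit 1576103549) (nat_lit 608) (nat_lit 6998244489) (nat_lit 76) (nat_lit 1459987594) (nat_lit 215) (nat_lit 5) (nat_lit 223) (nat_lit 5) (nat_lit 216) (nat_lit 5) (nat_lit 595) (nat_lit 517) (nat_lit 448)) (XT.lf (nat_lit 0) (nat_lit 4658772205) (nat_lit 608) (nat_lit 207866258) (nat_lit 76) (nat_lit 5271792255) (nat_lit 215) (nat_lit 5) (nat_lit 223) (nat_lit 5) (nat_lit 216) (nat_lit 5) (nat_lit 596) (nat_lit 517) (nat_lit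 447))) (XT.nd (nat_lit 78) (nat_lit 1064) (nat_lit 0) (XT.lf (nat_lit 0) (nat_lit 6761970774) (nat_lit 456) (nat_lit 1052857352) (nat_lit 532) (nat_lit 2429548424) (nat_lit 209) (nat_lit 5) (nat_lit 215) (nat_lit 5) (nat_lit 216) (nat_lit 5) (nat_lit 597) (nat_lit 517) (nat_lit 446)) (XT.nd (nat_lit 78) (nat_lit 456) (nat_lit 0) (XT.lf (nat_lit 0) (nat_lit 683353782) (nat_lit 608) (nat_lit 6852888366) (nat_lit 76) (nat_lit 2815899460) (nat_lit 201) (nat_lit 5) (nat_lit 209) (nat_lit 5) (nat_lit 202) (nat_lit 5) (nat_lit 598) (nat_lit 517) (nat_lit 445)) (XT.lf (nat_lit 0) (nat_lit 139345255) (nat_lit 456) (nat_lit 3686276680) (nat_lit 532) (nat_lit 6636129372) (nat_lit 195) (nat_lit 5) (nat_lit 201) (nat_lit 5) (nat_lit 202) (nat_lit 5) (nat_lit 599) (nat_lit 517) (nat_lit 444)))))) (XT.nd (nat_lit 390) (nat_lit 1368) (nat_lit 0) (XT.nd (nat_lit 156) (nat_lit 988) (nat_lit 0) (XT.nd (nat_lit 78) (nat_lit 456) (nat_lit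 0) (XT.lf (nat_lit 0) (nat_lit 7047039223) (nat_lit 532) (nat_lit 3255850443) (nat_lit 76) (nat_lit 270340713) (nat_lit 195) (nat_lit 5) (nat_lit 202) (nat_lit 5) (nat_lit 196) (nat_lit 5) (nat_lit 600) (nat_lit 517) (nat_lit 443)) (XT.lf (nat_lit 0) (nat_lit 3934454364) (nat_lit 456) (nat_lit 6417456663) (nat_lit 532) (nat_lit 334650671) (nat_lit 189) (nat_lit 5) (nat_lit 195) (nat_lit 5) (nat_lit 196) (nat_lit 5) (nat_lit 601) (nat_lit 517) (nat_lit 442))) (XT.nd (nat_lit 78) (nat_lit 456) (nat_lit 0) (XT.lf (nat_lit 0) (nat_lit 452920022) (nat_lit 456) (nat_lit 2423609204) (nat_lit 532) (nat_lit 7925371933) (nat_lit 182) (nat_lit 5) (nat_lit 188) (nat_lit 5) (nat_lit 189) (nat_lit 5) (nat_lit 602) (nat_lit 517) (nat_lit 441)) (XT.nd (nat_lit 78) (nat_lit 456) (nat_lit 0) (XT.lf (nat_lit 0) (nat_lit 6173183702) (nat_lit 532) (nat_lit 3083411591) (nat_lit 76) (nat_lit 1662396241) (nat_lit 182) (nat_lit 5) (nat_lit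 189) (nat_lit 5) (nat_lit 183) (nat_lit 5) (nat_lit 603) (nat_lit 517) (nat_lit 440)) (XT.lf (nat_lit 0) (nat_lit 4323897285) (nat_lit 456) (nat_lit 5226001769) (nat_lit 532) (nat_lit 1488245055) (nat_lit 176) (nat_lit 5) (nat_lit 182) (nat_lit 5) (nat_lit 183) (nat_lit 5) (nat_lit 604) (nat_lit 517) (nat_lit 439))))) (XT.nd (nat_lit 156) (nat_lit 912) (nat_lit 0) (XT.nd (nat_lit 78) (nat_lit 0) (nat_lit 0) (XT.lf (nat_lit 0) (nat_lit 714871473) (nat_lit 380) (nat_lit 1091115041) (nat_lit 456) (nat_lit 9353546302) (nat_lit 170) (nat_lit 5) (nat_lit 175) (nat_lit 5) (nat_lit 176) (nat_lit 5) (nat_lit 605) (nat_lit 517) (nat_lit 438)) (XT.lf (nat_lit 0) (nat_lit 5182160833) (nat_lit 456) (nat_lit 2973864617) (nat_lit 76) (nat_lit 3126410166) (nat_lit 170) (nat_lit 5) (nat_lit 176) (nat_lit 5) (nat_lit 171) (nat_lit 5) (nat_lit 606) (nat_lit 517) (nat_lit 437))) (XT.nd (nat_lit 78) (nat_lit 456) (nat_lit 0) (XT.lf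 (nat_lit 0) (nat_lit 4656518156) (nat_lit 456) (nat_lit 3977695163) (nat_lit 532) (nat_lit 2773418782) (nat_lit 164) (nat_lit 5) (nat_lit 170) (nat_lit 5) (nat_lit 171) (nat_lit 5) (nat_lit 607) (nat_lit 517) (nat_lit 436)) (XT.nd (nat_lit 78) (nat_lit 0) (nat_lit 0) (XT.lf (nat_lit 0) (nat_lit 610771811) (nat_lit 456) (nat_lit 10628389666) (nat_lit 76) (nat_lit 296114579) (nat_lit 158) (nat_lit 5) (nat_lit 164) (nat_lit 5) (nat_lit 159) (nat_lit 5) (nat_lit 608) (nat_lit 517) (nat_lit 435)) (XT.lf (nat_lit 0) (nat_lit 4068672399) (nat_lit 456) (nat_lit 2943985324) (nat_lit 76) (nat_lit 4651587841) (nat_lit 158) (nat_lit 5) (nat_lit 164) (nat_lit 5) (nat_lit 159) (nat_lit 5) (nat_lit 609) (nat_lit 517) (nat_lit 434))))))))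
noncomputable def xc66 : XT := (XT.nd (nat_lit 75036) (nat_lit 0) (nat_lit 37012) (XT.nd (nat_lit 702) (nat_lit 684) (nat_lit 0) (XT.nd (nat_lit 312) (nat_lit 1064) (nat_lit 0) (XT.nd (nat_lit 156) (nat_lit 456) (nat_lit 0) (XT.nd (nat_lit 78) (nat_lit 380) (nat_lit 0) (XT.lf (nat_lit 0) (nat_lit 4915467501) (nat_lit 380) (nat_lit 2683924681) (nat_lit 456) (nat_lit 4196331572) (nat_lit 153) (nat_lit 5) (nat_lit 158) (nat_lit 5) (nat_lit 159) (nat_lit 5) (nat_lit 610) (nat_lit 517) (nat_lit 433)) (XT.lf (nat_lit 0) (nat_lit 1001047413) (nat_lit 380) (nat_lit 10209232491) (nat_lit 456) (nat_lit 719363000) (nat_lit 148) (nat_lit 5) (nat_lit 153) (nat_lit 5) (nat_lit 154) (nat_lit 5) (nat_lit 611) (nat_lit 517) (nat_lit 432))) (XT.nd (nat_lit 78) (nat_lit 380) (nat_lit 0) (XT.lf (nat_lit 0) (nat_lit 2826327682) (nat_lit 456) (nat_lit 3011890395) (nat_lit 76) (nat_lit 6226932391) (nat_lit 147) (nat_lit 5) (nat_lit 153)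 (nat_lit 5) (nat_lit 148) (nat_lit 5) (nat_lit 612) (nat_lit 517) (nat_lit 431)) (XT.lf (nat_lit 0) (nat_lit 5082515063) (nat_lit 380) (nat_lit 1356352726) (nat_lit 456) (nat_lit 5764296260) (nat_lit 142) (nat_lit 5) (nat_lit 147) (nat_lit 5) (nat_lit 148) (nat_lit 5) (nat_lit 613) (nat_lit 517) (nat_lit 430)))) (XT.nd (nat_lit 156) (nat_lit 684) (nat_lit 0) (XT.nd (nat_lit 78) (nat_lit 76) (nat_lit 0) (XT.lf (nat_lit 0) (nat_lit 985319824) (nat_lit 304) (nat_lit 9158682033) (nat_lit 380) (nat_lit 2199531460) (nat_lit 138) (nat_lit 5) (nat_lit 142) (nat_lit 5) (nat_lit 143) (nat_lit 5) (nat_lit 614) (nat_lit 517) (nat_lit 429)) (XT.lf (nat_lit 0) (nat_lit 1447574516) (nat_lit 380) (nat_lit 3197228557) (nat_lit 76) (nat_lit 7841124825) (nat_lit 137) (nat_lit 5) (nat_lit 142) (nat_lit 5) (nat_lit 138) (nat_lit 5) (nat_lit 615) (nat_lit 517) (nat_lit 428))) (XT.nd (nat_lit 78) (nat_lit 304) (nat_lit 0) (XT.lf (nat_lit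 0) (nat_lit 5137853591) (nat_lit 380) (nat_lit 7040429) (nat_lit 456) (nat_lit 7485853256) (nat_lit 132) (nat_lit 5) (nat_lit 137) (nat_lit 5) (nat_lit 138) (nat_lit 5) (nat_lit 616) (nat_lit 517) (nat_lit 427)) (XT.nd (nat_lit 78) (nat_lit 0) (nat_lit 0) (XT.lf (nat_lit 0) (nat_lit 843094735) (nat_lit 304) (nat_lit 8104294736) (nat_lit 380) (nat_lit 3830451086) (nat_lit 128) (nat_lit 5) (nat_lit 132) (nat_lit 5) (nat_lit 133) (nat_lit 5) (nat_lit 617) (nat_lit 517) (nat_lit 426)) (XT.lf (nat_lit 0) (nat_lit 9405505487) (nat_lit 304) (nat_lit 3444495707) (nat_lit 380) (nat_lit 77395245) (nat_lit 128) (nat_lit 5) (nat_lit 132) (nat_lit 5) (nat_lit 133) (nat_lit 5) (nat_lit 618) (nat_lit 517) (nat_lit 425)))))) (XT.nd (nat_lit 73944) (nat_lit 0) (nat_lit 46816) (XT.nd (nat_lit 156) (nat_lit 0) (nat_lit 0) (XT.nd (nat_lit 78) (nat_lit 304) (nat_lit 0) (XT.lf (nat_lit 0) (nat_lit 3717237988) (nat_lit 380) (nat_lit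 8028208696) (nat_lit 76) (nat_lit 1333697541) (nat_lit 123) (nat_lit 5) (nat_lit 128) (nat_lit 5) (nat_lit 124) (nat_lit 5) (nat_lit 619) (nat_lit 517) (nat_lit 424)) (XT.lf (nat_lit 0) (nat_lit 551772377) (nat_lit 304) (nat_lit 7059362906) (nat_lit 380) (nat_lit 5622295243) (nat_lit 119) (nat_lit 5) (nat_lit 123) (nat_lit 5) (nat_lit 124) (nat_lit 5) (nat_lit 620) (nat_lit 517) (nat_lit 423))) (XT.nd (nat_lit 73632) (nat_lit 0) (nat_lit 47880) (XT.lf (nat_lit 0) (nat_lit 9370962173) (nat_lit 304) (nat_lit 2240282484) (nat_lit 380) (nat_lit 1778993119) (nat_lit 119) (nat_lit 5) (nat_lit 123) (nat_lit 5) (nat_lit 124) (nat_lit 5) (nat_lit 621) (nat_lit 517) (nat_lit 422)) (XT.nd (nat_lit 78) (nat_lit 0) (nat_lit 0) (XT.lf (nat_lit 0) (nat_lit 45538946) (nat_lit 228) (nat_lit 3133965408) (nat_lit 0) (nat_lit 45538946) (nat_lit 749) (nat_lit 5) (nat_lit 752) (nat_lit 4) (nat_lit 749) (nat_lit 4) (nat_lit 524) (nat_lit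 518) (nat_lit 518)) (XT.lf (nat_lit 0) (nat_lit 3249476309) (nat_lit 228) (nat_lit 2886672499) (nat_lit 0) (nat_lit 318200607) (nat_lit 749) (nat_lit 5) (nat_lit 752) (nat_lit 4) (nat_lit 749) (nat_lit 4) (nat_lit 525) (nat_lit 518) (nat_lit 517))))) (XT.nd (nat_lit 156) (nat_lit 760) (nat_lit 0) (XT.nd (nat_lit 78) (nat_lit 76) (nat_lit 0) (XT.lf (nat_lit 0) (nat_lit 523387965) (nat_lit 228) (nat_lit 5870971089) (nat_lit 228) (nat_lit 65895679) (nat_lit 746) (nat_lit 4) (nat_lit 749) (nat_lit 5) (nat_lit 749) (nat_lit 4) (nat_lit 526) (nat_lit 518) (nat_lit 516)) (XT.lf (nat_lit 0) (nat_lit 3034882313) (nat_lit 304) (nat_lit 2492063831) (nat_lit 76) (nat_lit 940144501) (nat_lit 745) (nat_lit 5) (nat_lit 749) (nat_lit 5) (nat_lit 746) (nat_lit 4) (nat_lit 527) (nat_lit 518) (nat_lit 515))) (XT.nd (nat_lit 78) (nat_lit 456) (nat_lit 0) (XT.lf (nat_lit 0) (nat_lit 988611683) (nat_lit 304) (nat_lit 5136806311) (nat_lit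 380) (nat_lit 350086295) (nat_lit 741) (nat_lit 5) (nat_lit 745) (nat_lit 5) (nat_lit 746) (nat_lit 4) (nat_lit 528) (nat_lit 518) (nat_lit 514)) (XT.nd (nat_lit 78) (nat_lit 380) (nat_lit 0) (XT.lf (nat_lit 0) (nat_lit 2696780370) (nat_lit 380) (nat_lit 1975618695) (nat_lit 76) (nat_lit 1812550890) (nat_lit 740) (nat_lit 5) (nat_lit 745) (nat_lit 5) (nat_lit 741) (nat_lit 5) (nat_lit 529) (nat_lit 518) (nat_lit 513)) (XT.lf (nat_lit 0) (nat_lit 1578878260) (nat_lit 380) (nat_lit 4155693536) (nat_lit 456) (nat_lit 761293885) (nat_lit 735) (nat_lit 5) (nat_lit 740) (nat_lit 5) (nat_lit 741) (nat_lit 5) (nat_lit 530) (nat_lit 518) (nat_lit 512))))))) (XT.nd (nat_lit 702) (nat_lit 6460) (nat_lit 0) (XT.nd (nat_lit 312) (nat_lit 2204) (nat_lit 0) (XT.nd (nat_lit 156) (nat_lit 608) (nat_lit 0) (XT.nd (nat_lit 78) (nat_lit 456) (nat_lit 0) (XT.lf (nat_lit 0) (nat_lit 2234052958) (nat_lit 456) (nat_lit 1336788081) (nat_lit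 76) (nat_lit 2937107930) (nat_lit 734) (nat_lit 5) (nat_lit 740) (nat_lit 5) (nat_lit 735) (nat_lit 5) (nat_lit 531) (nat_lit 518) (nat_lit 511)) (XT.lf (nat_lit 0) (nat_lit 2294867058) (nat_lit 456) (nat_lit 2925719857) (nat_lit 532) (nat_lit 1300776610) (nat_lit 728) (nat_lit 5) (nat_lit 734) (nat_lit 5) (nat_lit 735) (nat_lit 5) (nat_lit 532) (nat_lit 518) (nat_lit 510))) (XT.nd (nat_lit 78) (nat_lit 532) (nat_lit 0) (XT.lf (nat_lit 0) (nat_lit 1645337313) (nat_lit 532) (nat_lit 574787522) (nat_lit 76) (nat_lit 4315990715) (nat_lit 727) (nat_lit 5) (nat_lit 734) (nat_lit 5) (nat_lit 728) (nat_lit 5) (nat_lit 533) (nat_lit 518) (nat_lit 509)) (XT.lf (nat_lit 0) (nat_lit 3137496946) (nat_lit 532) (nat_lit 1444488430) (nat_lit 608) (nat_lit 1970043281) (nat_lit 720) (nat_lit 5) (nat_lit 727) (nat_lit 5) (nat_lit 728) (nat_lit 5) (nat_lit 534) (nat_lit 518) (nat_lit 508)))) (XT.nd (nat_lit 156) (nat_lit 1520) (nat_lit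 0) (XT.nd (nat_lit 78) (nat_lit 0) (nat_lit 0) (XT.lf (nat_lit 0) (nat_lit 315541744) (nat_lit 608) (nat_lit 615529422) (nat_lit 684) (nat_lit 5638371700) (nat_lit 711) (nat_lit 5) (nat_lit 719) (nat_lit 5) (nat_lit 720) (nat_lit 5) (nat_lit 535) (nat_lit 518) (nat_lit 507)) (XT.lf (nat_lit 0) (nat_lit 3818930233) (nat_lit 684) (nat_lit 2481859853) (nat_lit 76) (nat_lit 287070327) (nat_lit 711) (nat_lit 5) (nat_lit 720) (nat_lit 5) (nat_lit 712) (nat_lit 5) (nat_lit 536) (nat_lit 518) (nat_lit 506))) (XT.nd (nat_lit 78) (nat_lit 760) (nat_lit 0) (XT.lf (nat_lit 0) (nat_lit 100057287) (nat_lit 760) (nat_lit 5275403250) (nat_lit 76) (nat_lit 1232297545) (nat_lit 701) (nat_lit 5) (nat_lit 711) (nat_lit 5) (nat_lit 702) (nat_lit 5) (nat_lit 537) (nat_lit 518) (nat_lit 505)) (XT.nd (nat_lit 78) (nat_lit 760) (nat_lit 0) (XT.lf (nat_lit 0) (nat_lit 2938606695) (nat_lit 760) (nat_lit 1436286061) (nat_lit 76) (nat_lit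 2253826238) (nat_lit 701) (nat_lit 5) (nat_lit 711) (nat_lit 5) (nat_lit 702) (nat_lit 5) (nat_lit 538) (nat_lit 518) (nat_lit 504)) (XT.lf (nat_lit 0) (nat_lit 2466258956) (nat_lit 760) (nat_lit 3317463691) (nat_lit 836) (nat_lit 867396749) (nat_lit 691) (nat_lit 5) (nat_lit 701) (nat_lit 5) (nat_lit 702) (nat_lit 5) (nat_lit 539) (nat_lit 518) (nat_lit 503)))))) (XT.nd (nat_lit 390) (nat_lit 3572) (nat_lit 0) (XT.nd (nat_lit 156) (nat_lit 1976) (nat_lit 0) (XT.nd (nat_lit 78) (nat_lit 836) (nat_lit 0) (XT.lf (nat_lit 0) (nat_lit 1929429456) (nat_lit 836) (nat_lit 266863965) (nat_lit 76) (nat_lit 4478547880) (nat_lit 690) (nat_lit 5) (nat_lit 701) (nat_lit 5) (nat_lit 691) (nat_lit 5) (nat_lit 540) (nat_lit 518) (nat_lit 502)) (XT.lf (nat_lit 0) (nat_lit 3727251824) (nat_lit 836) (nat_lit 1003163079) (nat_lit 912) (nat_lit 1969326575) (nat_lit 679) (nat_lit 5) (nat_lit 690) (nat_lit 5) (nat_lit 691) (nat_lit 5)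 (nat_lit 541) (nat_lit 518) (nat_lit 501))) (XT.nd (nat_lit 78) (nat_lit 988) (nat_lit 0) (XT.lf (nat_lit 0) (nat_lit 797298339) (nat_lit 988) (nat_lit 5685872931) (nat_lit 76) (nat_lit 242944539) (nat_lit 666) (nat_lit 5) (nat_lit 679) (nat_lit 5) (nat_lit 667) (nat_lit 5) (nat_lit 542) (nat_lit 518) (nat_lit 500)) (XT.nd (nat_lit 78) (nat_lit 988) (nat_lit 0) (XT.lf (nat_lit 0) (nat_lit 3556862387) (nat_lit 988) (nat_lit 1645939244) (nat_lit 76) (nat_lit 1550690501) (nat_lit 666) (nat_lit 5) (nat_lit 679) (nat_lit 5) (nat_lit 667) (nat_lit 5) (nat_lit 543) (nat_lit 518) (nat_lit 499)) (XT.lf (nat_lit 0) (nat_lit 2460965158) (nat_lit 988) (nat_lit 3865090318) (nat_lit 1064) (nat_lit 456285837) (nat_lit 653) (nat_lit 5) (nat_lit 666) (nat_lit 5) (nat_lit 667) (nat_lit 5) (nat_lit 544) (nat_lit 518) (nat_lit 498))))) (XT.nd (nat_lit 156) (nat_lit 2432) (nat_lit 0) (XT.nd (nat_lit 78) (nat_lit 1064) (nat_lit 0) (XT.lf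 (nat_lit 0) (nat_lit 2258262270) (nat_lit 1064) (nat_lit 201111854) (nat_lit 76) (nat_lit 4353101747) (nat_lit 652) (nat_lit 5) (nat_lit 666) (nat_lit 5) (nat_lit 653) (nat_lit 5) (nat_lit 545) (nat_lit 518) (nat_lit 497)) (XT.lf (nat_lit 0) (nat_lit 4005355700) (nat_lit 1064) (nat_lit 981797784) (nat_lit 1140) (nat_lit 1856689351) (nat_lit 638) (nat_lit 5) (nat_lit 652) (nat_lit 5) (nat_lit 653) (nat_lit 5) (nat_lit 546) (nat_lit 518) (nat_lit 496))) (XT.nd (nat_lit 78) (nat_lit 1216) (nat_lit 0) (XT.lf (nat_lit 0) (nat_lit 837656708) (nat_lit 1216) (nat_lit 5491261583) (nat_lit 76) (nat_lit 547723286) (nat_lit 622) (nat_lit 5) (nat_lit 638) (nat_lit 5) (nat_lit 623) (nat_lit 5) (nat_lit 547) (nat_lit 518) (nat_lit 495)) (XT.nd (nat_lit 78) (nat_lit 1216) (nat_lit 0) (XT.lf (nat_lit 0) (nat_lit 3528301631) (nat_lit 1216) (nat_lit 1243611255) (nat_lit 76) (nat_lit 2138605002) (nat_lit 622) (nat_lit 5) (nat_lit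 638) (nat_lit 5) (nat_lit 623) (nat_lit 5) (nat_lit 548) (nat_lit 518) (nat_lit 494)) (XT.lf (nat_lit 0) (nat_lit 3083180751) (nat_lit 1216) (nat_lit 3152316278) (nat_lit 1292) (nat_lit 710332207) (nat_lit 606) (nat_lit 5) (nat_lit 622) (nat_lit 5) (nat_lit 623) (nat_lit 5) (nat_lit 549) (nat_lit 518) (nat_lit 493))))))))
noncomputable def xc67 : XT := (XT.nd (nat_lit 1482) (nat_lit 9728) (nat_lit 0) (XT.nd (nat_lit 702) (nat_lit 7296) (nat_lit 0) (XT.nd (nat_lit 312) (nat_lit 6384) (nat_lit 0) (XT.nd (nat_lit 156) (nat_lit 1444) (nat_lit 0) (XT.nd (nat_lit 78) (nat_lit 0) (nat_lit 0) (XT.lf (nat_lit 0) (nat_lit 478108010) (nat_lit 1292) (nat_lit 1465117940) (nat_lit 1368) (nat_lit 5039277730) (nat_lit 588) (nat_lit 5) (nat_lit 605) (nat_lit 5) (nat_lit 606) (nat_lit 5) (nat_lit 550) (nat_lit 518) (nat_lit 492)) (XT.lf (nat_lit 0) (nat_lit 4612140235) (nat_lit 1368) (nat_lit 2115489193) (nat_lit 76) (nat_lit 292763909)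 (nat_lit 588) (nat_lit 5) (nat_lit 606) (nat_lit 5) (nat_lit 589) (nat_lit 5) (nat_lit 551) (nat_lit 518) (nat_lit 491))) (XT.nd (nat_lit 78) (nat_lit 0) (nat_lit 0) (XT.lf (nat_lit 0) (nat_lit 241568180) (nat_lit 1444) (nat_lit 4725783550) (nat_lit 76) (nat_lit 2092268643) (nat_lit 569) (nat_lit 5) (nat_lit 588) (nat_lit 5) (nat_lit 570) (nat_lit 5) (nat_lit 552) (nat_lit 518) (nat_lit 490)) (XT.lf (nat_lit 0) (nat_lit 2871996990) (nat_lit 1444) (nat_lit 261657752) (nat_lit 76) (nat_lit 3966472577) (nat_lit 569) (nat_lit 5) (nat_lit 588) (nat_lit 5) (nat_lit 570) (nat_lit 5) (nat_lit 553) (nat_lit 518) (nat_lit 489)))) (XT.nd (nat_lit 156) (nat_lit 3344) (nat_lit 0) (XT.nd (nat_lit 78) (nat_lit 1596) (nat_lit 0) (XT.lf (nat_lit 0) (nat_lit 4302003100) (nat_lit 1444) (nat_lit 1227568034) (nat_lit 1520) (nat_lit 1612393209) (nat_lit 550) (nat_lit 5) (nat_lit 569) (nat_lit 5) (nat_lit 570) (nat_lit 5) (nat_lit 554)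 (nat_lit 518) (nat_lit 488)) (XT.lf (nat_lit 0) (nat_lit 1006735053) (nat_lit 1596) (nat_lit 5444810466) (nat_lit 76) (nat_lit 733667340) (nat_lit 529) (nat_lit 5) (nat_lit 550) (nat_lit 5) (nat_lit 530) (nat_lit 5) (nat_lit 555) (nat_lit 518) (nat_lit 487))) (XT.nd (nat_lit 78) (nat_lit 3344) (nat_lit 0) (XT.lf (nat_lit 0) (nat_lit 3631762814) (nat_lit 1596) (nat_lit 844377125) (nat_lit 76) (nat_lit 2753481170) (nat_lit 529) (nat_lit 5) (nat_lit 550) (nat_lit 5) (nat_lit 530) (nat_lit 5) (nat_lit 556) (nat_lit 518) (nat_lit 486)) (XT.nd (nat_lit 78) (nat_lit 1748) (nat_lit 0) (XT.lf (nat_lit 0) (nat_lit 3852147511) (nat_lit 1596) (nat_lit 2430951633) (nat_lit 1672) (nat_lit 992352082) (nat_lit 508) (nat_lit 5) (nat_lit 529) (nat_lit 5) (nat_lit 530) (nat_lit 5) (nat_lit 557) (nat_lit 518) (nat_lit 485)) (XT.lf (nat_lit 0) (nat_lit 1291230359) (nat_lit 1672) (nat_lit 315438711) (nat_lit 1748) (nat_lit 5716057216)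 (nat_lit 485) (nat_lit 5) (nat_lit 507) (nat_lit 5) (nat_lit 508) (nat_lit 5) (nat_lit 558) (nat_lit 518) (nat_lit 484)))))) (XT.nd (nat_lit 390) (nat_lit 2812) (nat_lit 0) (XT.nd (nat_lit 156) (nat_lit 2736) (nat_lit 0) (XT.nd (nat_lit 78) (nat_lit 1748) (nat_lit 0) (XT.lf (nat_lit 0) (nat_lit 4229358094) (nat_lit 1748) (nat_lit 1290260928) (nat_lit 76) (nat_lit 1851506429) (nat_lit 485) (nat_lit 5) (nat_lit 508) (nat_lit 5) (nat_lit 486) (nat_lit 5) (nat_lit 559) (nat_lit 518) (nat_lit 483)) (XT.lf (nat_lit 0) (nat_lit 3543570175) (nat_lit 1748) (nat_lit 3336886080) (nat_lit 1824) (nat_lit 540526351) (nat_lit 462) (nat_lit 5) (nat_lit 485) (nat_lit 5) (nat_lit 486) (nat_lit 5) (nat_lit 560) (nat_lit 518) (nat_lit 482))) (XT.nd (nat_lit 78) (nat_lit 988) (nat_lit 0) (XT.lf (nat_lit 0) (nat_lit 971911262) (nat_lit 1672) (nat_lit 1079337393) (nat_lit 1748) (nat_lit 5420998299) (nat_lit 439) (nat_lit 5) (nat_lit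 461) (nat_lit 5) (nat_lit 462) (nat_lit 5) (nat_lit 561) (nat_lit 518) (nat_lit 481)) (XT.nd (nat_lit 78) (nat_lit 988) (nat_lit 0) (XT.lf (nat_lit 0) (nat_lit 4673618948) (nat_lit 1748) (nat_lit 1612567540) (nat_lit 76) (nat_lit 1238567279) (nat_lit 439) (nat_lit 5) (nat_lit 462) (nat_lit 5) (nat_lit 440) (nat_lit 5) (nat_lit 562) (nat_lit 518) (nat_lit 480)) (XT.lf (nat_lit 0) (nat_lit 3363213984) (nat_lit 988) (nat_lit 3967006804) (nat_lit 1064) (nat_lit 248462665) (nat_lit 426) (nat_lit 5) (nat_lit 439) (nat_lit 5) (nat_lit 440) (nat_lit 5) (nat_lit 563) (nat_lit 518) (nat_lit 479))))) (XT.nd (nat_lit 156) (nat_lit 1824) (nat_lit 0) (XT.nd (nat_lit 78) (nat_lit 0) (nat_lit 0) (XT.lf (nat_lit 0) (nat_lit 774328118) (nat_lit 912) (nat_lit 1569404194) (nat_lit 988) (nat_lit 5290274491) (nat_lit 413) (nat_lit 5) (nat_lit 425) (nat_lit 5) (nat_lit 426) (nat_lit 5) (nat_lit 564) (nat_lit 518) (nat_lit 478)) (XT.lf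 (nat_lit 0) (nat_lit 4972332218) (nat_lit 988) (nat_lit 1823977165) (nat_lit 76) (nat_lit 894344564) (nat_lit 413) (nat_lit 5) (nat_lit 426) (nat_lit 5) (nat_lit 414) (nat_lit 5) (nat_lit 565) (nat_lit 518) (nat_lit 477))) (XT.nd (nat_lit 78) (nat_lit 912) (nat_lit 0) (XT.lf (nat_lit 0) (nat_lit 3298592472) (nat_lit 912) (nat_lit 4341350064) (nat_lit 988) (nat_lit 108770508) (nat_lit 401) (nat_lit 5) (nat_lit 413) (nat_lit 5) (nat_lit 414) (nat_lit 5) (nat_lit 566) (nat_lit 518) (nat_lit 476)) (XT.nd (nat_lit 78) (nat_lit 0) (nat_lit 0) (XT.lf (nat_lit 0) (nat_lit 685976048) (nat_lit 836) (nat_lit 1805200315) (nat_lit 912) (nat_lit 5316999176) (nat_lit 389) (nat_lit 5) (nat_lit 400) (nat_lit 5) (nat_lit 401) (nat_lit 5) (nat_lit 567) (nat_lit 518) (nat_lit 475)) (XT.lf (nat_lit 0) (nat_lit 5132281808) (nat_lit 912) (nat_lit 1936693479) (nat_lit 76) (nat_lit 800032626) (nat_lit 389) (nat_lit 5) (nat_lit 401) (nat_lit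 5) (nat_lit 390) (nat_lit 5) (nat_lit 568) (nat_lit 518) (nat_lit 474))))))) (XT.nd (nat_lit 702) (nat_lit 4864) (nat_lit 0) (XT.nd (nat_lit 312) (nat_lit 2356) (nat_lit 0) (XT.nd (nat_lit 156) (nat_lit 836) (nat_lit 0) (XT.nd (nat_lit 78) (nat_lit 836) (nat_lit 0) (XT.lf (nat_lit 0) (nat_lit 3337687780) (nat_lit 836) (nat_lit 4478499148) (nat_lit 912) (nat_lit 115077640) (nat_lit 378) (nat_lit 5) (nat_lit 389) (nat_lit 5) (nat_lit 390) (nat_lit 5) (nat_lit 569) (nat_lit 518) (nat_lit 473)) (XT.lf (nat_lit 0) (nat_lit 694783192) (nat_lit 760) (nat_lit 1804866801) (nat_lit 836) (nat_lit 5495306813) (nat_lit 367) (nat_lit 5) (nat_lit 377) (nat_lit 5) (nat_lit 378) (nat_lit 5) (nat_lit 570) (nat_lit 518) (nat_lit 472))) (XT.nd (nat_lit 78) (nat_lit 836) (nat_lit 0) (XT.lf (nat_lit 0) (nat_lit 5159288093) (nat_lit 836) (nat_lit 1962543901) (nat_lit 76) (nat_lit 938199316) (nat_lit 367) (nat_lit 5) (nat_lit 378) (nat_lit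 5) (nat_lit 368) (nat_lit 5) (nat_lit 571) (nat_lit 518) (nat_lit 471)) (XT.lf (nat_lit 0) (nat_lit 3468849836) (nat_lit 836) (nat_lit 4395722502) (nat_lit 912) (nat_lit 261992538) (nat_lit 356) (nat_lit 5) (nat_lit 367) (nat_lit 5) (nat_lit 368) (nat_lit 5) (nat_lit 572) (nat_lit 518) (nat_lit 470)))) (XT.nd (nat_lit 156) (nat_lit 1520) (nat_lit 0) (XT.nd (nat_lit 78) (nat_lit 0) (nat_lit 0) (XT.lf (nat_lit 0) (nat_lit 789009294) (nat_lit 760) (nat_lit 1585260926) (nat_lit 836) (nat_lit 5820317771) (nat_lit 345) (nat_lit 5) (nat_lit 355) (nat_lit 5) (nat_lit 356) (nat_lit 5) (nat_lit 573) (nat_lit 518) (nat_lit 469)) (XT.lf (nat_lit 0) (nat_lit 5058240604) (nat_lit 836) (nat_lit 1913079281) (nat_lit 76) (nat_lit 1292653495) (nat_lit 345) (nat_lit 5) (nat_lit 356) (nat_lit 5) (nat_lit 346) (nat_lit 5) (nat_lit 574) (nat_lit 518) (nat_lit 468))) (XT.nd (nat_lit 78) (nat_lit 760) (nat_lit 0) (XT.lf (nat_lit 0) (nat_lit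 3680695982) (nat_lit 760) (nat_lit 4109104758) (nat_lit 836) (nat_lit 545073664) (nat_lit 335) (nat_lit 5) (nat_lit 345) (nat_lit 5) (nat_lit 346) (nat_lit 5) (nat_lit 575) (nat_lit 518) (nat_lit 467)) (XT.nd (nat_lit 78) (nat_lit 0) (nat_lit 0) (XT.lf (nat_lit 0) (nat_lit 957144439) (nat_lit 684) (nat_lit 1162085735) (nat_lit 760) (nat_lit 6288110026) (nat_lit 325) (nat_lit 5) (nat_lit 334) (nat_lit 5) (nat_lit 335) (nat_lit 5) (nat_lit 576) (nat_lit 518) (nat_lit 466)) (XT.lf (nat_lit 0) (nat_lit 4833124104) (nat_lit 760) (nat_lit 1799673794) (nat_lit 76) (nat_lit 1848319084) (nat_lit 325) (nat_lit 5) (nat_lit 335) (nat_lit 5) (nat_lit 326) (nat_lit 5) (nat_lit 577) (nat_lit 518) (nat_lit 465)))))) (XT.nd (nat_lit 390) (nat_lit 1976) (nat_lit 0) (XT.nd (nat_lit 156) (nat_lit 1368) (nat_lit 0) (XT.nd (nat_lit 78) (nat_lit 760) (nat_lit 0) (XT.lf (nat_lit 0) (nat_lit 3962010209) (nat_lit 760) (nat_lit 3633671571)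 (nat_lit 836) (nat_lit 960805467) (nat_lit 315) (nat_lit 5) (nat_lit 325) (nat_lit 5) (nat_lit 326) (nat_lit 5) (nat_lit 578) (nat_lit 518) (nat_lit 464)) (XT.lf (nat_lit 0) (nat_lit 1187807134) (nat_lit 684) (nat_lit 550013643) (nat_lit 760) (nat_lit 6895697596) (nat_lit 305) (nat_lit 5) (nat_lit 314) (nat_lit 5) (nat_lit 315) (nat_lit 5) (nat_lit 579) (nat_lit 518) (nat_lit 463))) (XT.nd (nat_lit 78) (nat_lit 1368) (nat_lit 0) (XT.lf (nat_lit 0) (nat_lit 4487038147) (nat_lit 760) (nat_lit 1633625857) (nat_lit 76) (nat_lit 2591114760) (nat_lit 305) (nat_lit 5) (nat_lit 315) (nat_lit 5) (nat_lit 306) (nat_lit 5) (nat_lit 580) (nat_lit 518) (nat_lit 462)) (XT.nd (nat_lit 78) (nat_lit 684) (nat_lit 0) (XT.lf (nat_lit 0) (nat_lit 4301641196) (nat_lit 684) (nat_lit 2983509170) (nat_lit 760) (nat_lit 1506581023) (nat_lit 296) (nat_lit 5) (nat_lit 305) (nat_lit 5) (nat_lit 306) (nat_lit 5) (nat_lit 581) (nat_lit 518)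 (nat_lit 461)) (XT.lf (nat_lit 0) (nat_lit 1233985907) (nat_lit 684) (nat_lit 7405360721) (nat_lit 76) (nat_lit 234084138) (nat_lit 287) (nat_lit 5) (nat_lit 296) (nat_lit 5) (nat_lit 288) (nat_lit 5) (nat_lit 582) (nat_lit 518) (nat_lit 460))))) (XT.nd (nat_lit 156) (nat_lit 1292) (nat_lit 0) (XT.nd (nat_lit 78) (nat_lit 684) (nat_lit 0) (XT.lf (nat_lit 0) (nat_lit 4022210145) (nat_lit 684) (nat_lit 1426260922) (nat_lit 76) (nat_lit 3507838443) (nat_lit 287) (nat_lit 5) (nat_lit 296) (nat_lit 5) (nat_lit 288) (nat_lit 5) (nat_lit 583) (nat_lit 518) (nat_lit 459)) (XT.lf (nat_lit 0) (nat_lit 4688398279) (nat_lit 684) (nat_lit 2171879486) (nat_lit 760) (nat_lit 2180691321) (nat_lit 278) (nat_lit 5) (nat_lit 287) (nat_lit 5) (nat_lit 288) (nat_lit 5) (nat_lit 584) (nat_lit 518) (nat_lit 458))) (XT.nd (nat_lit 78) (nat_lit 608) (nat_lit 0) (XT.lf (nat_lit 0) (nat_lit 612334899) (nat_lit 684) (nat_lit 7344039109) (nat_lit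 76) (nat_lit 1171015303) (nat_lit 269) (nat_lit 5) (nat_lit 278) (nat_lit 5) (nat_lit 270) (nat_lit 5) (nat_lit 585) (nat_lit 518) (nat_lit 457)) (XT.nd (nat_lit 78) (nat_lit 608) (nat_lit 0) (XT.lf (nat_lit 0) (nat_lit 3440001927) (nat_lit 684) (nat_lit 1189036990) (nat_lit 76) (nat_lit 4586055697) (nat_lit 269) (nat_lit 5) (nat_lit 278) (nat_lit 5) (nat_lit 270) (nat_lit 5) (nat_lit 586) (nat_lit 518) (nat_lit 456)) (XT.lf (nat_lit 0) (nat_lit 5110944477) (nat_lit 608) (nat_lit 1211331720) (nat_lit 684) (nat_lit 2982321216) (nat_lit 261) (nat_lit 5) (nat_lit 269) (nat_lit 5) (nat_lit 270) (nat_lit 5) (nat_lit 587) (nat_lit 518) (nat_lit 455))))))))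
noncomputable def xc68 : XT := (XT.nd (nat_lit 1482) (nat_lit 3876) (nat_lit 0) (XT.nd (nat_lit 702) (nat_lit 3420) (nat_lit 0) (XT.nd (nat_lit 312) (nat_lit 1748) (nat_lit 0) (XT.nd (nat_lit 156) (nat_lit 1140) (nat_lit 0) (XT.nd (nat_lit 78) (nat_lit 76) (nat_lit 0) (XT.lf (nat_lit 0) (nat_lit 2124870865) (nat_lit 532) (nat_lit 7139124250) (nat_lit 608) (nat_lit 131863548) (nat_lit 254) (nat_lit 5) (nat_lit 261) (nat_lit 5) (nat_lit 262) (nat_lit 5) (nat_lit 588) (nat_lit 518) (nat_lit 454)) (XT.lf (nat_lit 0) (nat_lit 2740909723) (nat_lit 608) (nat_lit 933653793) (nat_lit 76) (nat_lit 5813991231) (nat_lit 253) (nat_lit 5) (nat_lit 261) (nat_lit 5) (nat_lit 254) (nat_lit 5) (nat_lit 589) (nat_lit 518) (nat_lit 453))) (XT.nd (nat_lit 78) (nat_lit 532) (nat_lit 0) (XT.lf (nat_lit 0) (nat_lit 5557685623) (nat_lit 608) (nat_lit 113811190) (nat_lit 684) (nat_lit 3911552154) (nat_lit 245) (nat_lit 5) (nat_lit 253)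 (nat_lit 5) (nat_lit 254) (nat_lit 5) (nat_lit 590) (nat_lit 518) (nat_lit 452)) (XT.lf (nat_lit 0) (nat_lit 2476730362) (nat_lit 532) (nat_lit 6195539634) (nat_lit 608) (nat_lit 1006935634) (nat_lit 238) (nat_lit 5) (nat_lit 245) (nat_lit 5) (nat_lit 246) (nat_lit 5) (nat_lit 591) (nat_lit 518) (nat_lit 451)))) (XT.nd (nat_lit 156) (nat_lit 1140) (nat_lit 0) (XT.nd (nat_lit 78) (nat_lit 532) (nat_lit 0) (XT.lf (nat_lit 0) (nat_lit 1924557445) (nat_lit 608) (nat_lit 672166571) (nat_lit 76) (nat_lit 7180422646) (nat_lit 237) (nat_lit 5) (nat_lit 245) (nat_lit 5) (nat_lit 238) (nat_lit 5) (nat_lit 592) (nat_lit 518) (nat_lit 450)) (XT.lf (nat_lit 0) (nat_lit 4914622817) (nat_lit 608) (nat_lit 3867339978) (nat_lit 76) (nat_lit 1094685908) (nat_lit 230) (nat_lit 5) (nat_lit 238) (nat_lit 5) (nat_lit 231) (nat_lit 5) (nat_lit 593) (nat_lit 518) (nat_lit 449))) (XT.nd (nat_lit 78) (nat_lit 608) (nat_lit 0) (XT.lf (nat_lit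 0) (nat_lit 2830751746) (nat_lit 532) (nat_lit 5141284129) (nat_lit 608) (nat_lit 2005957722) (nat_lit 223) (nat_lit 5) (nat_lit 230) (nat_lit 5) (nat_lit 231) (nat_lit 5) (nat_lit 594) (nat_lit 518) (nat_lit 448)) (XT.nd (nat_lit 78) (nat_lit 532) (nat_lit 0) (XT.lf (nat_lit 0) (nat_lit 989683084) (nat_lit 608) (nat_lit 417105493) (nat_lit 76) (nat_lit 8674575599) (nat_lit 222) (nat_lit 5) (nat_lit 230) (nat_lit 5) (nat_lit 223) (nat_lit 5) (nat_lit 595) (nat_lit 518) (nat_lit 447)) (XT.lf (nat_lit 0) (nat_lit 4044530248) (nat_lit 608) (nat_lit 3726831132) (nat_lit 76) (nat_lit 2414656055) (nat_lit 215) (nat_lit 5) (nat_lit 223) (nat_lit 5) (nat_lit 216) (nat_lit 5) (nat_lit 596) (nat_lit 518) (nat_lit 446)))))) (XT.nd (nat_lit 390) (nat_lit 1444) (nat_lit 0) (XT.nd (nat_lit 156) (nat_lit 1520) (nat_lit 0) (XT.nd (nat_lit 78) (nat_lit 0) (nat_lit 0) (XT.lf (nat_lit 0) (nat_lit 3174093703) (nat_lit 456) (nat_lit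 3987584453) (nat_lit 532) (nat_lit 3131064983) (nat_lit 209) (nat_lit 5) (nat_lit 215) (nat_lit 5) (nat_lit 216) (nat_lit 5) (nat_lit 597) (nat_lit 518) (nat_lit 445)) (XT.lf (nat_lit 0) (nat_lit 10219695453) (nat_lit 456) (nat_lit 115277666) (nat_lit 532) (nat_lit 66757539) (nat_lit 209) (nat_lit 5) (nat_lit 215) (nat_lit 5) (nat_lit 216) (nat_lit 5) (nat_lit 598) (nat_lit 518) (nat_lit 444))) (XT.nd (nat_lit 78) (nat_lit 912) (nat_lit 0) (XT.lf (nat_lit 0) (nat_lit 3058097581) (nat_lit 608) (nat_lit 3616657816) (nat_lit 76) (nat_lit 3836961012) (nat_lit 201) (nat_lit 5) (nat_lit 209) (nat_lit 5) (nat_lit 202) (nat_lit 5) (nat_lit 599) (nat_lit 518) (nat_lit 443)) (XT.nd (nat_lit 78) (nat_lit 456) (nat_lit 0) (XT.lf (nat_lit 0) (nat_lit 3493227791) (nat_lit 456) (nat_lit 2745445219) (nat_lit 532) (nat_lit 4385340886) (nat_lit 195) (nat_lit 5) (nat_lit 201) (nat_lit 5) (nat_lit 202) (nat_lit 5) (nat_lit 600) (nat_lit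 518) (nat_lit 442)) (XT.lf (nat_lit 0) (nat_lit 4067154) (nat_lit 456) (nat_lit 9481121430) (nat_lit 532) (nat_lit 1253325306) (nat_lit 189) (nat_lit 5) (nat_lit 195) (nat_lit 5) (nat_lit 196) (nat_lit 5) (nat_lit 601) (nat_lit 518) (nat_lit 441))))) (XT.nd (nat_lit 156) (nat_lit 912) (nat_lit 0) (XT.nd (nat_lit 78) (nat_lit 456) (nat_lit 0) (XT.lf (nat_lit 0) (nat_lit 1952004528) (nat_lit 532) (nat_lit 3551181242) (nat_lit 76) (nat_lit 5351146334) (nat_lit 188) (nat_lit 5) (nat_lit 195) (nat_lit 5) (nat_lit 189) (nat_lit 5) (nat_lit 602) (nat_lit 518) (nat_lit 440)) (XT.lf (nat_lit 0) (nat_lit 3773797853) (nat_lit 456) (nat_lit 1425756083) (nat_lit 532) (nat_lit 5772852103) (nat_lit 182) (nat_lit 5) (nat_lit 188) (nat_lit 5) (nat_lit 189) (nat_lit 5) (nat_lit 603) (nat_lit 518) (nat_lit 439))) (XT.nd (nat_lit 78) (nat_lit 456) (nat_lit 0) (XT.lf (nat_lit 0) (nat_lit 141639704) (nat_lit 456) (nat_lit 8383660197)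 (nat_lit 532) (nat_lit 2567279532) (nat_lit 176) (nat_lit 5) (nat_lit 182) (nat_lit 5) (nat_lit 183) (nat_lit 5) (nat_lit 604) (nat_lit 518) (nat_lit 438)) (XT.nd (nat_lit 78) (nat_lit 380) (nat_lit 0) (XT.lf (nat_lit 0) (nat_lit 721954083) (nat_lit 532) (nat_lit 3545711123) (nat_lit 76) (nat_lit 6946827419) (nat_lit 175) (nat_lit 5) (nat_lit 182) (nat_lit 5) (nat_lit 176) (nat_lit 5) (nat_lit 605) (nat_lit 518) (nat_lit 437)) (XT.lf (nat_lit 0) (nat_lit 4000469371) (nat_lit 380) (nat_lit 39400901) (nat_lit 456) (nat_lit 7298691663) (nat_lit 170) (nat_lit 5) (nat_lit 175) (nat_lit 5) (nat_lit 176) (nat_lit 5) (nat_lit 606) (nat_lit 518) (nat_lit 436))))))) (XT.nd (nat_lit 702) (nat_lit 1444) (nat_lit 0) (XT.nd (nat_lit 312) (nat_lit 1140) (nat_lit 0) (XT.nd (nat_lit 156) (nat_lit 836) (nat_lit 0) (XT.nd (nat_lit 78) (nat_lit 0) (nat_lit 0) (XT.lf (nat_lit 0) (nat_lit 213072074) (nat_lit 456) (nat_lit 7235619438)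 (nat_lit 532) (nat_lit 4015932855) (nat_lit 164) (nat_lit 5) (nat_lit 170) (nat_lit 5) (nat_lit 171) (nat_lit 5) (nat_lit 607) (nat_lit 518) (nat_lit 435)) (XT.lf (nat_lit 0) (nat_lit 7971928422) (nat_lit 456) (nat_lit 2975011966) (nat_lit 532) (nat_lit 645845250) (nat_lit 164) (nat_lit 5) (nat_lit 170) (nat_lit 5) (nat_lit 171) (nat_lit 5) (nat_lit 608) (nat_lit 518) (nat_lit 434))) (XT.nd (nat_lit 78) (nat_lit 380) (nat_lit 0) (XT.lf (nat_lit 0) (nat_lit 2763243997) (nat_lit 456) (nat_lit 7575507487) (nat_lit 76) (nat_lit 1384234407) (nat_lit 158) (nat_lit 5) (nat_lit 164) (nat_lit 5) (nat_lit 159) (nat_lit 5) (nat_lit 609) (nat_lit 518) (nat_lit 433)) (XT.lf (nat_lit 0) (nat_lit 201195220) (nat_lit 380) (nat_lit 6048447850) (nat_lit 456) (nat_lit 5605708646) (nat_lit 153) (nat_lit 5) (nat_lit 158) (nat_lit 5) (nat_lit 159) (nat_lit 5) (nat_lit 610) (nat_lit 518) (nat_lit 432)))) (XT.nd (nat_lit 156) (nat_lit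 684) (nat_lit 0) (XT.nd (nat_lit 78) (nat_lit 456) (nat_lit 0) (XT.lf (nat_lit 0) (nat_lit 8194136408) (nat_lit 380) (nat_lit 1635040594) (nat_lit 456) (nat_lit 2160722138) (nat_lit 153) (nat_lit 5) (nat_lit 158) (nat_lit 5) (nat_lit 159) (nat_lit 5) (nat_lit 611) (nat_lit 518) (nat_lit 431)) (XT.lf (nat_lit 0) (nat_lit 1354534711) (nat_lit 456) (nat_lit 7920813891) (nat_lit 76) (nat_lit 2851233168) (nat_lit 147) (nat_lit 5) (nat_lit 153) (nat_lit 5) (nat_lit 148) (nat_lit 5) (nat_lit 612) (nat_lit 518) (nat_lit 430))) (XT.nd (nat_lit 78) (nat_lit 304) (nat_lit 0) (XT.lf (nat_lit 0) (nat_lit 87439678) (nat_lit 380) (nat_lit 4833885906) (nat_lit 456) (nat_lit 7344185879) (nat_lit 142) (nat_lit 5) (nat_lit 147) (nat_lit 5) (nat_lit 148) (nat_lit 5) (nat_lit 613) (nat_lit 518) (nat_lit 429)) (XT.nd (nat_lit 78) (nat_lit 304) (nat_lit 0) (XT.lf (nat_lit 0) (nat_lit 8321807373) (nat_lit 380) (nat_lit 264154162) (nat_lit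 456) (nat_lit 3820730264) (nat_lit 142) (nat_lit 5) (nat_lit 147) (nat_lit 5) (nat_lit 148) (nat_lit 5) (nat_lit 614) (nat_lit 518) (nat_lit 428)) (XT.lf (nat_lit 0) (nat_lit 4155075105) (nat_lit 304) (nat_lit 8198125462) (nat_lit 380) (nat_lit 196911158) (nat_lit 138) (nat_lit 5) (nat_lit 142) (nat_lit 5) (nat_lit 143) (nat_lit 5) (nat_lit 615) (nat_lit 518) (nat_lit 427)))))) (XT.nd (nat_lit 390) (nat_lit 304) (nat_lit 0) (XT.nd (nat_lit 156) (nat_lit 684) (nat_lit 0) (XT.nd (nat_lit 78) (nat_lit 380) (nat_lit 0) (XT.lf (nat_lit 0) (nat_lit 3456691948) (nat_lit 380) (nat_lit 146415102) (nat_lit 76) (nat_lit 9092776644) (nat_lit 137) (nat_lit 5) (nat_lit 142) (nat_lit 5) (nat_lit 138) (nat_lit 5) (nat_lit 616) (nat_lit 518) (nat_lit 426)) (XT.lf (nat_lit 0) (nat_lit 7216529593) (nat_lit 456) (nat_lit 4516408965) (nat_lit 76) (nat_lit 1110892594) (nat_lit 132) (nat_lit 5) (nat_lit 138) (nat_lit 5) (nat_lit 133)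 (nat_lit 5) (nat_lit 617) (nat_lit 518) (nat_lit 425))) (XT.nd (nat_lit 78) (nat_lit 380) (nat_lit 0) (XT.lf (nat_lit 0) (nat_lit 3965684863) (nat_lit 304) (nat_lit 7110997547) (nat_lit 380) (nat_lit 1917554803) (nat_lit 128) (nat_lit 5) (nat_lit 132) (nat_lit 5) (nat_lit 133) (nat_lit 5) (nat_lit 618) (nat_lit 518) (nat_lit 424)) (XT.nd (nat_lit 78) (nat_lit 304) (nat_lit 0) (XT.lf (nat_lit 0) (nat_lit 1847006502) (nat_lit 380) (nat_lit 521256220) (nat_lit 76) (nat_lit 10779046309) (nat_lit 127) (nat_lit 5) (nat_lit 132) (nat_lit 5) (nat_lit 128) (nat_lit 5) (nat_lit 619) (nat_lit 518) (nat_lit 423)) (XT.lf (nat_lit 0) (nat_lit 5705982185) (nat_lit 380) (nat_lit 5107553594) (nat_lit 76) (nat_lit 2488758929) (nat_lit 123) (nat_lit 5) (nat_lit 128) (nat_lit 5) (nat_lit 124) (nat_lit 5) (nat_lit 620) (nat_lit 518) (nat_lit 422))))) (XT.nd (nat_lit 73554) (nat_lit 0) (nat_lit 47880) (XT.nd (nat_lit 73476) (nat_lit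 0) (nat_lit 48184) (XT.lf (nat_lit 0) (nat_lit 3623755921) (nat_lit 304) (nat_lit 6036337966) (nat_lit 380) (nat_lit 3799928950) (nat_lit 119) (nat_lit 5) (nat_lit 123) (nat_lit 5) (nat_lit 124) (nat_lit 5) (nat_lit 621) (nat_lit 518) (nat_lit 421)) (XT.lf (nat_lit 0) (nat_lit 1607676300) (nat_lit 76) (nat_lit 6724209) (nat_lit 0) (nat_lit 1607676300) (nat_lit 753) (nat_lit 5) (nat_lit 754) (nat_lit 0) (nat_lit 753) (nat_lit 4) (nat_lit 522) (nat_lit 519) (nat_lit 519))) (XT.nd (nat_lit 78) (nat_lit 228) (nat_lit 0) (XT.lf (nat_lit 0) (nat_lit 3286586882) (nat_lit 76) (nat_lit 3104908015) (nat_lit 76) (nat_lit 55208774) (nat_lit 752) (nat_lit 4) (nat_lit 753) (nat_lit 5) (nat_lit 753) (nat_lit 4) (nat_lit 523) (nat_lit 519) (nat_lit 518)) (XT.nd (nat_lit 78) (nat_lit 0) (nat_lit 0) (XT.lf (nat_lit 0) (nat_lit 140576009) (nat_lit 152) (nat_lit 2918917290) (nat_lit 228) (nat_lit 3391034921) (nat_lit 749) (nat_lit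 5) (nat_lit 751) (nat_lit 5) (nat_lit 752) (nat_lit 4) (nat_lit 524) (nat_lit 519) (nat_lit 517)) (XT.lf (nat_lit 0) (nat_lit 3505927974) (nat_lit 152) (nat_lit 2670707735) (nat_lit 228) (nat_lit 278992116) (nat_lit 749) (nat_lit 5) (nat_lit 751) (nat_lit 5) (nat_lit 752) (nat_lit 4) (nat_lit 525) (nat_lit 519) (nat_lit 516))))))))
noncomputable def xc69 : XT := (XT.nd (nat_lit 1482) (nat_lit 17252) (nat_lit 0) (XT.nd (nat_lit 702) (nat_lit 5092) (nat_lit 0) (XT.nd (nat_lit 312) (nat_lit 1596) (nat_lit 0) (XT.nd (nat_lit 156) (nat_lit 380) (nat_lit 0) (XT.nd (nat_lit 78) (nat_lit 0) (nat_lit 0) (XT.lf (nat_lit 0) (nat_lit 420435937) (nat_lit 228) (nat_lit 2360324879) (nat_lit 304) (nat_lit 3681246471) (nat_lit 745) (nat_lit 5) (nat_lit 748) (nat_lit 5) (nat_lit 749) (nat_lit 5) (nat_lit 526) (nat_lit 519) (nat_lit 515)) (XT.lf (nat_lit 0) (nat_lit 3852338378) (nat_lit 228) (nat_lit 1987402524) (nat_lit 304) (nat_lit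 629923411) (nat_lit 745) (nat_lit 5) (nat_lit 748) (nat_lit 5) (nat_lit 749) (nat_lit 5) (nat_lit 527) (nat_lit 519) (nat_lit 514))) (XT.nd (nat_lit 78) (nat_lit 0) (nat_lit 0) (XT.lf (nat_lit 0) (nat_lit 826187539) (nat_lit 304) (nat_lit 1552029407) (nat_lit 380) (nat_lit 4100389568) (nat_lit 740) (nat_lit 5) (nat_lit 744) (nat_lit 5) (nat_lit 745) (nat_lit 5) (nat_lit 528) (nat_lit 519) (nat_lit 513)) (XT.lf (nat_lit 0) (nat_lit 4326176866) (nat_lit 304) (nat_lit 1053663529) (nat_lit 380) (nat_lit 1108989723) (nat_lit 740) (nat_lit 5) (nat_lit 744) (nat_lit 5) (nat_lit 745) (nat_lit 5) (nat_lit 529) (nat_lit 519) (nat_lit 512)))) (XT.nd (nat_lit 156) (nat_lit 1140) (nat_lit 0) (XT.nd (nat_lit 78) (nat_lit 0) (nat_lit 0) (XT.lf (nat_lit 0) (nat_lit 1358307514) (nat_lit 380) (nat_lit 492461451) (nat_lit 456) (nat_lit 4649577070) (nat_lit 734) (nat_lit 5) (nat_lit 739) (nat_lit 5) (nat_lit 740) (nat_lit 5) (nat_lit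 530) (nat_lit 519) (nat_lit 511)) (XT.lf (nat_lit 0) (nat_lit 4796579746) (nat_lit 456) (nat_lit 1585962886) (nat_lit 76) (nat_lit 130588629) (nat_lit 734) (nat_lit 5) (nat_lit 740) (nat_lit 5) (nat_lit 735) (nat_lit 5) (nat_lit 531) (nat_lit 519) (nat_lit 510))) (XT.nd (nat_lit 78) (nat_lit 608) (nat_lit 0) (XT.lf (nat_lit 0) (nat_lit 1202405484) (nat_lit 532) (nat_lit 4515064646) (nat_lit 76) (nat_lit 809675550) (nat_lit 727) (nat_lit 5) (nat_lit 734) (nat_lit 5) (nat_lit 728) (nat_lit 5) (nat_lit 532) (nat_lit 519) (nat_lit 509)) (XT.nd (nat_lit 78) (nat_lit 608) (nat_lit 0) (XT.lf (nat_lit 0) (nat_lit 4096133878) (nat_lit 532) (nat_lit 894075006) (nat_lit 76) (nat_lit 1552235625) (nat_lit 727) (nat_lit 5) (nat_lit 734) (nat_lit 5) (nat_lit 728) (nat_lit 5) (nat_lit 533) (nat_lit 519) (nat_lit 508)) (XT.lf (nat_lit 0) (nat_lit 431071850) (nat_lit 608) (nat_lit 3770101143) (nat_lit 76) (nat_lit 2357874468) (nat_lit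 719) (nat_lit 5) (nat_lit 727) (nat_lit 5) (nat_lit 720) (nat_lit 5) (nat_lit 534) (nat_lit 519) (nat_lit 507)))))) (XT.nd (nat_lit 390) (nat_lit 2888) (nat_lit 0) (XT.nd (nat_lit 156) (nat_lit 1596) (nat_lit 0) (XT.nd (nat_lit 78) (nat_lit 608) (nat_lit 0) (XT.lf (nat_lit 0) (nat_lit 3269970878) (nat_lit 608) (nat_lit 79115184) (nat_lit 76) (nat_lit 3227856023) (nat_lit 719) (nat_lit 5) (nat_lit 727) (nat_lit 5) (nat_lit 720) (nat_lit 5) (nat_lit 535) (nat_lit 519) (nat_lit 506)) (XT.lf (nat_lit 0) (nat_lit 3690206120) (nat_lit 608) (nat_lit 2431415667) (nat_lit 684) (nat_lit 474470508) (nat_lit 711) (nat_lit 5) (nat_lit 719) (nat_lit 5) (nat_lit 720) (nat_lit 5) (nat_lit 536) (nat_lit 519) (nat_lit 505))) (XT.nd (nat_lit 78) (nat_lit 836) (nat_lit 0) (XT.lf (nat_lit 0) (nat_lit 871616019) (nat_lit 684) (nat_lit 1450193499) (nat_lit 760) (nat_lit 4294742977) (nat_lit 701) (nat_lit 5) (nat_lit 710) (nat_lit 5)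 (nat_lit 711) (nat_lit 5) (nat_lit 537) (nat_lit 519) (nat_lit 504)) (XT.nd (nat_lit 78) (nat_lit 836) (nat_lit 0) (XT.lf (nat_lit 0) (nat_lit 4716661617) (nat_lit 684) (nat_lit 404124828) (nat_lit 760) (nat_lit 1517526423) (nat_lit 701) (nat_lit 5) (nat_lit 710) (nat_lit 5) (nat_lit 711) (nat_lit 5) (nat_lit 538) (nat_lit 519) (nat_lit 503)) (XT.lf (nat_lit 0) (nat_lit 1249727728) (nat_lit 836) (nat_lit 4715077350) (nat_lit 76) (nat_lit 696513280) (nat_lit 690) (nat_lit 5) (nat_lit 701) (nat_lit 5) (nat_lit 691) (nat_lit 5) (nat_lit 539) (nat_lit 519) (nat_lit 502))))) (XT.nd (nat_lit 156) (nat_lit 1976) (nat_lit 0) (XT.nd (nat_lit 78) (nat_lit 912) (nat_lit 0) (XT.lf (nat_lit 0) (nat_lit 4003309806) (nat_lit 836) (nat_lit 825177859) (nat_lit 76) (nat_lit 1857084874) (nat_lit 690) (nat_lit 5) (nat_lit 701) (nat_lit 5) (nat_lit 691) (nat_lit 5) (nat_lit 540) (nat_lit 519) (nat_lit 501)) (XT.lf (nat_lit 0) (nat_lit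 57291324) (nat_lit 912) (nat_lit 3572357498) (nat_lit 76) (nat_lit 3081524982) (nat_lit 678) (nat_lit 5) (nat_lit 690) (nat_lit 5) (nat_lit 679) (nat_lit 5) (nat_lit 541) (nat_lit 519) (nat_lit 500))) (XT.nd (nat_lit 78) (nat_lit 1064) (nat_lit 0) (XT.lf (nat_lit 0) (nat_lit 398482216) (nat_lit 912) (nat_lit 2362846712) (nat_lit 988) (nat_lit 3976705781) (nat_lit 666) (nat_lit 5) (nat_lit 678) (nat_lit 5) (nat_lit 679) (nat_lit 5) (nat_lit 542) (nat_lit 519) (nat_lit 499)) (XT.nd (nat_lit 78) (nat_lit 1064) (nat_lit 0) (XT.lf (nat_lit 0) (nat_lit 4452415850) (nat_lit 912) (nat_lit 1029353632) (nat_lit 988) (nat_lit 1284430994) (nat_lit 666) (nat_lit 5) (nat_lit 678) (nat_lit 5) (nat_lit 679) (nat_lit 5) (nat_lit 543) (nat_lit 519) (nat_lit 498)) (XT.lf (nat_lit 0) (nat_lit 1395491345) (nat_lit 1064) (nat_lit 5036715387) (nat_lit 76) (nat_lit 363487113) (nat_lit 652) (nat_lit 5) (nat_lit 666) (nat_lit 5) (nat_lit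 653) (nat_lit 5) (nat_lit 544) (nat_lit 519) (nat_lit 497))))))) (XT.nd (nat_lit 702) (nat_lit 10944) (nat_lit 0) (XT.nd (nat_lit 312) (nat_lit 4028) (nat_lit 0) (XT.nd (nat_lit 156) (nat_lit 1216) (nat_lit 0) (XT.nd (nat_lit 78) (nat_lit 1064) (nat_lit 0) (XT.lf (nat_lit 0) (nat_lit 4074426803) (nat_lit 1064) (nat_lit 942042919) (nat_lit 76) (nat_lit 1809898569) (nat_lit 652) (nat_lit 5) (nat_lit 666) (nat_lit 5) (nat_lit 653) (nat_lit 5) (nat_lit 545) (nat_lit 519) (nat_lit 496)) (XT.lf (nat_lit 0) (nat_lit 3232097606) (nat_lit 1064) (nat_lit 3537152479) (nat_lit 1140) (nat_lit 89172973) (nat_lit 638) (nat_lit 5) (nat_lit 652) (nat_lit 5) (nat_lit 653) (nat_lit 5) (nat_lit 546) (nat_lit 519) (nat_lit 495))) (XT.nd (nat_lit 78) (nat_lit 0) (nat_lit 0) (XT.lf (nat_lit 0) (nat_lit 556391964) (nat_lit 1140) (nat_lit 1987773435) (nat_lit 1216) (nat_lit 4347589603) (nat_lit 622) (nat_lit 5) (nat_lit 637) (nat_lit 5)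 (nat_lit 638) (nat_lit 5) (nat_lit 547) (nat_lit 519) (nat_lit 494)) (XT.lf (nat_lit 0) (nat_lit 4826313009) (nat_lit 1140) (nat_lit 369634611) (nat_lit 1216) (nat_lit 1730467018) (nat_lit 622) (nat_lit 5) (nat_lit 637) (nat_lit 5) (nat_lit 638) (nat_lit 5) (nat_lit 548) (nat_lit 519) (nat_lit 493)))) (XT.nd (nat_lit 156) (nat_lit 2736) (nat_lit 0) (XT.nd (nat_lit 78) (nat_lit 0) (nat_lit 0) (XT.lf (nat_lit 0) (nat_lit 892858851) (nat_lit 1292) (nat_lit 4773329803) (nat_lit 76) (nat_lit 1296145149) (nat_lit 605) (nat_lit 5) (nat_lit 622) (nat_lit 5) (nat_lit 606) (nat_lit 5) (nat_lit 549) (nat_lit 519) (nat_lit 492)) (XT.lf (nat_lit 0) (nat_lit 3506409140) (nat_lit 1292) (nat_lit 466126428) (nat_lit 76) (nat_lit 3026999995) (nat_lit 605) (nat_lit 5) (nat_lit 622) (nat_lit 5) (nat_lit 606) (nat_lit 5) (nat_lit 550) (nat_lit 519) (nat_lit 491))) (XT.nd (nat_lit 78) (nat_lit 1444) (nat_lit 0) (XT.lf (nat_lit 0) (nat_lit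 3933918177) (nat_lit 1292) (nat_lit 2209219713) (nat_lit 1368) (nat_lit 894936649) (nat_lit 588) (nat_lit 5) (nat_lit 605) (nat_lit 5) (nat_lit 606) (nat_lit 5) (nat_lit 551) (nat_lit 519) (nat_lit 490)) (XT.nd (nat_lit 78) (nat_lit 0) (nat_lit 0) (XT.lf (nat_lit 0) (nat_lit 1311410084) (nat_lit 1368) (nat_lit 378229988) (nat_lit 1444) (nat_lit 5388378329) (nat_lit 569) (nat_lit 5) (nat_lit 587) (nat_lit 5) (nat_lit 588) (nat_lit 5) (nat_lit 552) (nat_lit 519) (nat_lit 489)) (XT.lf (nat_lit 0) (nat_lit 4291180142) (nat_lit 1444) (nat_lit 1322882743) (nat_lit 76) (nat_lit 1505045520) (nat_lit 569) (nat_lit 5) (nat_lit 588) (nat_lit 5) (nat_lit 570) (nat_lit 5) (nat_lit 553) (nat_lit 519) (nat_lit 488)))))) (XT.nd (nat_lit 390) (nat_lit 6232) (nat_lit 0) (XT.nd (nat_lit 156) (nat_lit 1672) (nat_lit 0) (XT.nd (nat_lit 78) (nat_lit 1596) (nat_lit 0) (XT.lf (nat_lit 0) (nat_lit 3203969412) (nat_lit 1444) (nat_lit 3711740987)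 (nat_lit 1520) (nat_lit 245901091) (nat_lit 550) (nat_lit 5) (nat_lit 569) (nat_lit 5) (nat_lit 570) (nat_lit 5) (nat_lit 554) (nat_lit 519) (nat_lit 487)) (XT.lf (nat_lit 0) (nat_lit 580893719) (nat_lit 1520) (nat_lit 1736299290) (nat_lit 1596) (nat_lit 4888256781) (nat_lit 529) (nat_lit 5) (nat_lit 549) (nat_lit 5) (nat_lit 550) (nat_lit 5) (nat_lit 555) (nat_lit 519) (nat_lit 486))) (XT.nd (nat_lit 78) (nat_lit 1672) (nat_lit 0) (XT.lf (nat_lit 0) (nat_lit 4905599701) (nat_lit 1596) (nat_lit 2035839117) (nat_lit 76) (nat_lit 309156526) (nat_lit 529) (nat_lit 5) (nat_lit 550) (nat_lit 5) (nat_lit 530) (nat_lit 5) (nat_lit 556) (nat_lit 519) (nat_lit 485)) (XT.nd (nat_lit 78) (nat_lit 0) (nat_lit 0) (XT.lf (nat_lit 0) (nat_lit 224034040) (nat_lit 1672) (nat_lit 4676547641) (nat_lit 76) (nat_lit 2396475844) (nat_lit 507) (nat_lit 5) (nat_lit 529) (nat_lit 5) (nat_lit 508) (nat_lit 5) (nat_lit 557) (nat_lit 519)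 (nat_lit 484)) (XT.lf (nat_lit 0) (nat_lit 2776980903) (nat_lit 1672) (nat_lit 8114357) (nat_lit 76) (nat_lit 4559774254) (nat_lit 507) (nat_lit 5) (nat_lit 529) (nat_lit 5) (nat_lit 508) (nat_lit 5) (nat_lit 558) (nat_lit 519) (nat_lit 483))))) (XT.nd (nat_lit 156) (nat_lit 2736) (nat_lit 0) (XT.nd (nat_lit 78) (nat_lit 1824) (nat_lit 0) (XT.lf (nat_lit 0) (nat_lit 4771262981) (nat_lit 1672) (nat_lit 591833984) (nat_lit 1748) (nat_lit 2030907684) (nat_lit 485) (nat_lit 5) (nat_lit 507) (nat_lit 5) (nat_lit 508) (nat_lit 5) (nat_lit 559) (nat_lit 519) (nat_lit 482)) (XT.lf (nat_lit 0) (nat_lit 526024054) (nat_lit 1824) (nat_lit 5273707950) (nat_lit 76) (nat_lit 1644796661) (nat_lit 461) (nat_lit 5) (nat_lit 485) (nat_lit 5) (nat_lit 462) (nat_lit 5) (nat_lit 560) (nat_lit 519) (nat_lit 481))) (XT.nd (nat_lit 78) (nat_lit 2736) (nat_lit 0) (XT.lf (nat_lit 0) (nat_lit 3080711149) (nat_lit 1824) (nat_lit 463434559)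 (nat_lit 76) (nat_lit 3952181342) (nat_lit 461) (nat_lit 5) (nat_lit 485) (nat_lit 5) (nat_lit 462) (nat_lit 5) (nat_lit 561) (nat_lit 519) (nat_lit 480)) (XT.nd (nat_lit 78) (nat_lit 1064) (nat_lit 0) (XT.lf (nat_lit 0) (nat_lit 4456348947) (nat_lit 1672) (nat_lit 1212164055) (nat_lit 1748) (nat_lit 1881016397) (nat_lit 439) (nat_lit 5) (nat_lit 461) (nat_lit 5) (nat_lit 462) (nat_lit 5) (nat_lit 562) (nat_lit 519) (nat_lit 479)) (XT.lf (nat_lit 0) (nat_lit 671301525) (nat_lit 1064) (nat_lit 5760760988) (nat_lit 76) (nat_lit 1172124661) (nat_lit 425) (nat_lit 5) (nat_lit 439) (nat_lit 5) (nat_lit 426) (nat_lit 5) (nat_lit 563) (nat_lit 519) (nat_lit 478))))))))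
noncomputable def xc70 : XT := (XT.nd (nat_lit 1482) (nat_lit 7600) (nat_lit 0) (XT.nd (nat_lit 702) (nat_lit 4560) (nat_lit 0) (XT.nd (nat_lit 312) (nat_lit 3420) (nat_lit 0) (XT.nd (nat_lit 156) (nat_lit 988) (nat_lit 0) (XT.nd (nat_lit 78) (nat_lit 912) (nat_lit 0) (XT.lf (nat_lit 0) (nat_lit 3232451566) (nat_lit 1064) (nat_lit 805556355) (nat_lit 76) (nat_lit 3622029993) (nat_lit 425) (nat_lit 5) (nat_lit 439) (nat_lit 5) (nat_lit 426) (nat_lit 5) (nat_lit 564) (nat_lit 519) (nat_lit 477)) (XT.lf (nat_lit 0) (nat_lit 4259414255) (nat_lit 912) (nat_lit 1567993841) (nat_lit 988) (nat_lit 1889953680) (nat_lit 413) (nat_lit 5) (nat_lit 425) (nat_lit 5) (nat_lit 426) (nat_lit 5) (nat_lit 565) (nat_lit 519) (nat_lit 476))) (XT.nd (nat_lit 78) (nat_lit 0) (nat_lit 0) (XT.lf (nat_lit 0) (nat_lit 666837939) (nat_lit 988) (nat_lit 6150422814) (nat_lit 76) (nat_lit 958936817) (nat_lit 400) (nat_lit 5) (nat_lit 413) (nat_lit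 5) (nat_lit 401) (nat_lit 5) (nat_lit 566) (nat_lit 519) (nat_lit 475)) (XT.lf (nat_lit 0) (nat_lit 3239021614) (nat_lit 988) (nat_lit 1046846746) (nat_lit 76) (nat_lit 3550307942) (nat_lit 400) (nat_lit 5) (nat_lit 413) (nat_lit 5) (nat_lit 401) (nat_lit 5) (nat_lit 567) (nat_lit 519) (nat_lit 474)))) (XT.nd (nat_lit 156) (nat_lit 1672) (nat_lit 0) (XT.nd (nat_lit 78) (nat_lit 912) (nat_lit 0) (XT.lf (nat_lit 0) (nat_lit 4168280709) (nat_lit 836) (nat_lit 1678094887) (nat_lit 912) (nat_lit 2051311666) (nat_lit 389) (nat_lit 5) (nat_lit 400) (nat_lit 5) (nat_lit 401) (nat_lit 5) (nat_lit 568) (nat_lit 519) (nat_lit 473)) (XT.lf (nat_lit 0) (nat_lit 518611282) (nat_lit 912) (nat_lit 6454991979) (nat_lit 76) (nat_lit 987154923) (nat_lit 377) (nat_lit 5) (nat_lit 389) (nat_lit 5) (nat_lit 378) (nat_lit 5) (nat_lit 569) (nat_lit 519) (nat_lit 472))) (XT.nd (nat_lit 78) (nat_lit 1672) (nat_lit 0) (XT.lf (nat_lit 0)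 (nat_lit 3106261924) (nat_lit 912) (nat_lit 1199268892) (nat_lit 76) (nat_lit 3719419369) (nat_lit 377) (nat_lit 5) (nat_lit 389) (nat_lit 5) (nat_lit 378) (nat_lit 5) (nat_lit 570) (nat_lit 519) (nat_lit 471)) (XT.nd (nat_lit 78) (nat_lit 912) (nat_lit 0) (XT.lf (nat_lit 0) (nat_lit 4171165807) (nat_lit 760) (nat_lit 1559881153) (nat_lit 836) (nat_lit 2359678077) (nat_lit 367) (nat_lit 5) (nat_lit 377) (nat_lit 5) (nat_lit 378) (nat_lit 5) (nat_lit 571) (nat_lit 519) (nat_lit 470)) (XT.lf (nat_lit 0) (nat_lit 231641761) (nat_lit 912) (nat_lit 6686449502) (nat_lit 76) (nat_lit 1240009674) (nat_lit 355) (nat_lit 5) (nat_lit 367) (nat_lit 5) (nat_lit 356) (nat_lit 5) (nat_lit 572) (nat_lit 519) (nat_lit 469)))))) (XT.nd (nat_lit 390) (nat_lit 2280) (nat_lit 0) (XT.nd (nat_lit 156) (nat_lit 1520) (nat_lit 0) (XT.nd (nat_lit 78) (nat_lit 760) (nat_lit 0) (XT.lf (nat_lit 0) (nat_lit 2839068606) (nat_lit 912) (nat_lit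 1274481377) (nat_lit 76) (nat_lit 4113051143) (nat_lit 355) (nat_lit 5) (nat_lit 367) (nat_lit 5) (nat_lit 356) (nat_lit 5) (nat_lit 573) (nat_lit 519) (nat_lit 468)) (XT.lf (nat_lit 0) (nat_lit 4256582834) (nat_lit 760) (nat_lit 1229541176) (nat_lit 836) (nat_lit 2810603840) (nat_lit 345) (nat_lit 5) (nat_lit 355) (nat_lit 5) (nat_lit 356) (nat_lit 5) (nat_lit 574) (nat_lit 519) (nat_lit 467))) (XT.nd (nat_lit 78) (nat_lit 760) (nat_lit 0) (XT.lf (nat_lit 0) (nat_lit 1510657794) (nat_lit 760) (nat_lit 6665304643) (nat_lit 836) (nat_lit 192503846) (nat_lit 335) (nat_lit 5) (nat_lit 345) (nat_lit 5) (nat_lit 346) (nat_lit 5) (nat_lit 575) (nat_lit 519) (nat_lit 466)) (XT.nd (nat_lit 78) (nat_lit 684) (nat_lit 0) (XT.lf (nat_lit 0) (nat_lit 2441420947) (nat_lit 836) (nat_lit 1283937426) (nat_lit 76) (nat_lit 4716045886) (nat_lit 334) (nat_lit 5) (nat_lit 345) (nat_lit 5) (nat_lit 335) (nat_lit 5) (nat_lit 576) (nat_lit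 519) (nat_lit 465)) (XT.lf (nat_lit 0) (nat_lit 4413240852) (nat_lit 684) (nat_lit 702163781) (nat_lit 760) (nat_lit 3400577417) (nat_lit 325) (nat_lit 5) (nat_lit 334) (nat_lit 5) (nat_lit 335) (nat_lit 5) (nat_lit 577) (nat_lit 519) (nat_lit 464))))) (XT.nd (nat_lit 156) (nat_lit 1444) (nat_lit 0) (XT.nd (nat_lit 78) (nat_lit 76) (nat_lit 0) (XT.lf (nat_lit 0) (nat_lit 1610276759) (nat_lit 760) (nat_lit 6228912729) (nat_lit 836) (nat_lit 752941034) (nat_lit 315) (nat_lit 5) (nat_lit 325) (nat_lit 5) (nat_lit 326) (nat_lit 5) (nat_lit 578) (nat_lit 519) (nat_lit 463)) (XT.lf (nat_lit 0) (nat_lit 1916402593) (nat_lit 836) (nat_lit 1238984867) (nat_lit 76) (nat_lit 5514280967) (nat_lit 314) (nat_lit 5) (nat_lit 325) (nat_lit 5) (nat_lit 315) (nat_lit 5) (nat_lit 579) (nat_lit 519) (nat_lit 462))) (XT.nd (nat_lit 78) (nat_lit 760) (nat_lit 0) (XT.lf (nat_lit 0) (nat_lit 4621854851) (nat_lit 760) (nat_lit 4118916875)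 (nat_lit 76) (nat_lit 8034987) (nat_lit 305) (nat_lit 5) (nat_lit 315) (nat_lit 5) (nat_lit 306) (nat_lit 5) (nat_lit 580) (nat_lit 519) (nat_lit 461)) (XT.nd (nat_lit 78) (nat_lit 76) (nat_lit 0) (XT.lf (nat_lit 0) (nat_lit 1760780971) (nat_lit 684) (nat_lit 5624410619) (nat_lit 760) (nat_lit 1444265796) (nat_lit 296) (nat_lit 5) (nat_lit 305) (nat_lit 5) (nat_lit 306) (nat_lit 5) (nat_lit 581) (nat_lit 519) (nat_lit 460)) (XT.lf (nat_lit 0) (nat_lit 1266216256) (nat_lit 760) (nat_lit 1150967682) (nat_lit 76) (nat_lit 6494552526) (nat_lit 295) (nat_lit 5) (nat_lit 305) (nat_lit 5) (nat_lit 296) (nat_lit 5) (nat_lit 582) (nat_lit 519) (nat_lit 459))))))) (XT.nd (nat_lit 702) (nat_lit 3800) (nat_lit 0) (XT.nd (nat_lit 312) (nat_lit 1824) (nat_lit 0) (XT.nd (nat_lit 156) (nat_lit 684) (nat_lit 0) (XT.nd (nat_lit 78) (nat_lit 684) (nat_lit 0) (XT.lf (nat_lit 0) (nat_lit 4013123589) (nat_lit 684) (nat_lit 4105838023)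 (nat_lit 76) (nat_lit 876482328) (nat_lit 287) (nat_lit 5) (nat_lit 296) (nat_lit 5) (nat_lit 288) (nat_lit 5) (nat_lit 583) (nat_lit 519) (nat_lit 458)) (XT.lf (nat_lit 0) (nat_lit 1950828653) (nat_lit 684) (nat_lit 4864940752) (nat_lit 760) (nat_lit 2265044894) (nat_lit 278) (nat_lit 5) (nat_lit 287) (nat_lit 5) (nat_lit 288) (nat_lit 5) (nat_lit 584) (nat_lit 519) (nat_lit 457))) (XT.nd (nat_lit 78) (nat_lit 608) (nat_lit 0) (XT.lf (nat_lit 0) (nat_lit 492191957) (nat_lit 760) (nat_lit 1031329979) (nat_lit 76) (nat_lit 7644463711) (nat_lit 277) (nat_lit 5) (nat_lit 287) (nat_lit 5) (nat_lit 278) (nat_lit 5) (nat_lit 585) (nat_lit 519) (nat_lit 456)) (XT.lf (nat_lit 0) (nat_lit 3285746311) (nat_lit 684) (nat_lit 4070570695) (nat_lit 76) (nat_lit 1900058410) (nat_lit 269) (nat_lit 5) (nat_lit 278) (nat_lit 5) (nat_lit 270) (nat_lit 5) (nat_lit 586) (nat_lit 519) (nat_lit 455)))) (XT.nd (nat_lit 156) (nat_lit 1216)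 (nat_lit 0) (XT.nd (nat_lit 78) (nat_lit 0) (nat_lit 0) (XT.lf (nat_lit 0) (nat_lit 2168911459) (nat_lit 608) (nat_lit 3962957531) (nat_lit 684) (nat_lit 3214734423) (nat_lit 261) (nat_lit 5) (nat_lit 269) (nat_lit 5) (nat_lit 270) (nat_lit 5) (nat_lit 587) (nat_lit 519) (nat_lit 454)) (XT.lf (nat_lit 0) (nat_lit 8544385816) (nat_lit 608) (nat_lit 483792855) (nat_lit 684) (nat_lit 410596303) (nat_lit 261) (nat_lit 5) (nat_lit 269) (nat_lit 5) (nat_lit 270) (nat_lit 5) (nat_lit 588) (nat_lit 519) (nat_lit 453))) (XT.nd (nat_lit 78) (nat_lit 608) (nat_lit 0) (XT.lf (nat_lit 0) (nat_lit 2439955602) (nat_lit 608) (nat_lit 4025001432) (nat_lit 76) (nat_lit 3067069802) (nat_lit 253) (nat_lit 5) (nat_lit 261) (nat_lit 5) (nat_lit 254) (nat_lit 5) (nat_lit 589) (nat_lit 519) (nat_lit 452)) (XT.nd (nat_lit 78) (nat_lit 0) (nat_lit 0) (XT.lf (nat_lit 0) (nat_lit 2403243925) (nat_lit 608) (nat_lit 2930334917) (nat_lit 684)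 (nat_lit 4293683495) (nat_lit 245) (nat_lit 5) (nat_lit 253) (nat_lit 5) (nat_lit 254) (nat_lit 5) (nat_lit 590) (nat_lit 519) (nat_lit 451)) (XT.lf (nat_lit 0) (nat_lit 8283650391) (nat_lit 684) (nat_lit 757994486) (nat_lit 76) (nat_lit 682790119) (nat_lit 245) (nat_lit 5) (nat_lit 254) (nat_lit 5) (nat_lit 246) (nat_lit 5) (nat_lit 591) (nat_lit 519) (nat_lit 450)))))) (XT.nd (nat_lit 390) (nat_lit 1520) (nat_lit 0) (XT.nd (nat_lit 156) (nat_lit 1140) (nat_lit 0) (XT.nd (nat_lit 78) (nat_lit 532) (nat_lit 0) (XT.lf (nat_lit 0) (nat_lit 1475114641) (nat_lit 608) (nat_lit 3981391887) (nat_lit 76) (nat_lit 4366353400) (nat_lit 237) (nat_lit 5) (nat_lit 245) (nat_lit 5) (nat_lit 238) (nat_lit 5) (nat_lit 592) (nat_lit 519) (nat_lit 449)) (XT.lf (nat_lit 0) (nat_lit 2641647980) (nat_lit 532) (nat_lit 1778472262) (nat_lit 608) (nat_lit 5503144773) (nat_lit 230) (nat_lit 5) (nat_lit 237) (nat_lit 5) (nat_lit 238) (nat_lit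 5) (nat_lit 593) (nat_lit 519) (nat_lit 448))) (XT.nd (nat_lit 78) (nat_lit 1140) (nat_lit 0) (XT.lf (nat_lit 0) (nat_lit 7431799526) (nat_lit 608) (nat_lit 630760922) (nat_lit 76) (nat_lit 1962965949) (nat_lit 230) (nat_lit 5) (nat_lit 238) (nat_lit 5) (nat_lit 231) (nat_lit 5) (nat_lit 594) (nat_lit 519) (nat_lit 447)) (XT.nd (nat_lit 78) (nat_lit 532) (nat_lit 0) (XT.lf (nat_lit 0) (nat_lit 389702728) (nat_lit 608) (nat_lit 3952498061) (nat_lit 76) (nat_lit 5787172654) (nat_lit 222) (nat_lit 5) (nat_lit 230) (nat_lit 5) (nat_lit 223) (nat_lit 5) (nat_lit 595) (nat_lit 519) (nat_lit 446)) (XT.lf (nat_lit 0) (nat_lit 2871431481) (nat_lit 532) (nat_lit 518399227) (nat_lit 608) (nat_lit 6845292089) (nat_lit 215) (nat_lit 5) (nat_lit 222) (nat_lit 5) (nat_lit 223) (nat_lit 5) (nat_lit 596) (nat_lit 519) (nat_lit 445))))) (XT.nd (nat_lit 156) (nat_lit 1064) (nat_lit 0) (XT.nd (nat_lit 78) (nat_lit 456) (nat_lit 0)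 (XT.lf (nat_lit 0) (nat_lit 6467697505) (nat_lit 608) (nat_lit 522457483) (nat_lit 76) (nat_lit 3352480808) (nat_lit 215) (nat_lit 5) (nat_lit 223) (nat_lit 5) (nat_lit 216) (nat_lit 5) (nat_lit 597) (nat_lit 519) (nat_lit 444)) (XT.lf (nat_lit 0) (nat_lit 6494914070) (nat_lit 456) (nat_lit 3127496109) (nat_lit 532) (nat_lit 829586426) (nat_lit 209) (nat_lit 5) (nat_lit 215) (nat_lit 5) (nat_lit 216) (nat_lit 5) (nat_lit 598) (nat_lit 519) (nat_lit 443))) (XT.nd (nat_lit 78) (nat_lit 456) (nat_lit 0) (XT.lf (nat_lit 0) (nat_lit 2245588388) (nat_lit 608) (nat_lit 7489574119) (nat_lit 76) (nat_lit 828114183) (nat_lit 201) (nat_lit 5) (nat_lit 209) (nat_lit 5) (nat_lit 202) (nat_lit 5) (nat_lit 599) (nat_lit 519) (nat_lit 442)) (XT.nd (nat_lit 78) (nat_lit 456) (nat_lit 0) (XT.lf (nat_lit 0) (nat_lit 5388652769) (nat_lit 608) (nat_lit 446691551) (nat_lit 76) (nat_lit 4840981627) (nat_lit 201) (nat_lit 5) (nat_lit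 209) (nat_lit 5) (nat_lit 202) (nat_lit 5) (nat_lit 600) (nat_lit 519) (nat_lit 441)) (XT.lf (nat_lit 0) (nat_lit 6784060851) (nat_lit 456) (nat_lit 1825193614) (nat_lit 532) (nat_lit 2182091271) (nat_lit 195) (nat_lit 5) (nat_lit 201) (nat_lit 5) (nat_lit 202) (nat_lit 5) (nat_lit 601) (nat_lit 519) (nat_lit 440))))))))
noncomputable def xc71 : XT := (XT.nd (nat_lit 1482) (nat_lit 0) (nat_lit 0) (XT.nd (nat_lit 702) (nat_lit 2660) (nat_lit 0) (XT.nd (nat_lit 312) (nat_lit 1368) (nat_lit 0) (XT.nd (nat_lit 156) (nat_lit 912) (nat_lit 0) (XT.nd (nat_lit 78) (nat_lit 0) (nat_lit 0) (XT.lf (nat_lit 0) (nat_lit 982366123) (nat_lit 532) (nat_lit 7672451180) (nat_lit 76) (nat_lit 2253529776) (nat_lit 188) (nat_lit 5) (nat_lit 195) (nat_lit 5) (nat_lit 189) (nat_lit 5) (nat_lit 602) (nat_lit 519) (nat_lit 439)) (XT.lf (nat_lit 0) (nat_lit 4191036381) (nat_lit 532) (nat_lit 417906510) (nat_lit 76) (nat_lit 6418257137)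 (nat_lit 188) (nat_lit 5) (nat_lit 195) (nat_lit 5) (nat_lit 189) (nat_lit 5) (nat_lit 603) (nat_lit 519) (nat_lit 438))) (XT.nd (nat_lit 78) (nat_lit 456) (nat_lit 0) (XT.lf (nat_lit 0) (nat_lit 7032491256) (nat_lit 456) (nat_lit 448575987) (nat_lit 532) (nat_lit 3667021882) (nat_lit 182) (nat_lit 5) (nat_lit 188) (nat_lit 5) (nat_lit 189) (nat_lit 5) (nat_lit 604) (nat_lit 519) (nat_lit 437)) (XT.lf (nat_lit 0) (nat_lit 3343738149) (nat_lit 456) (nat_lit 7514066827) (nat_lit 532) (nat_lit 413175681) (nat_lit 176) (nat_lit 5) (nat_lit 182) (nat_lit 5) (nat_lit 183) (nat_lit 5) (nat_lit 605) (nat_lit 519) (nat_lit 436)))) (XT.nd (nat_lit 156) (nat_lit 912) (nat_lit 0) (XT.nd (nat_lit 78) (nat_lit 380) (nat_lit 0) (XT.lf (nat_lit 0) (nat_lit 2870240787) (nat_lit 532) (nat_lit 451530469) (nat_lit 76) (nat_lit 8074132056) (nat_lit 175) (nat_lit 5) (nat_lit 182) (nat_lit 5) (nat_lit 176) (nat_lit 5) (nat_lit 606) (nat_lit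 519) (nat_lit 435)) (XT.lf (nat_lit 0) (nat_lit 6239528370) (nat_lit 456) (nat_lit 4304574360) (nat_lit 76) (nat_lit 978654983) (nat_lit 170) (nat_lit 5) (nat_lit 176) (nat_lit 5) (nat_lit 171) (nat_lit 5) (nat_lit 607) (nat_lit 519) (nat_lit 434))) (XT.nd (nat_lit 78) (nat_lit 456) (nat_lit 0) (XT.lf (nat_lit 0) (nat_lit 3376431460) (nat_lit 456) (nat_lit 6319315061) (nat_lit 532) (nat_lit 1956014348) (nat_lit 164) (nat_lit 5) (nat_lit 170) (nat_lit 5) (nat_lit 171) (nat_lit 5) (nat_lit 608) (nat_lit 519) (nat_lit 433)) (XT.nd (nat_lit 78) (nat_lit 380) (nat_lit 0) (XT.lf (nat_lit 0) (nat_lit 1420630146) (nat_lit 532) (nat_lit 564136368) (nat_lit 76) (nat_lit 9798358516) (nat_lit 163) (nat_lit 5) (nat_lit 170) (nat_lit 5) (nat_lit 164) (nat_lit 5) (nat_lit 609) (nat_lit 519) (nat_lit 432)) (XT.lf (nat_lit 0) (nat_lit 4875656850) (nat_lit 456) (nat_lit 4588369068) (nat_lit 76) (nat_lit 2452093582) (nat_lit 158)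 (nat_lit 5) (nat_lit 164) (nat_lit 5) (nat_lit 159) (nat_lit 5) (nat_lit 610) (nat_lit 519) (nat_lit 431)))))) (XT.nd (nat_lit 390) (nat_lit 1444) (nat_lit 0) (XT.nd (nat_lit 156) (nat_lit 836) (nat_lit 0) (XT.nd (nat_lit 78) (nat_lit 0) (nat_lit 0) (XT.lf (nat_lit 0) (nat_lit 3323218690) (nat_lit 380) (nat_lit 5088473101) (nat_lit 456) (nat_lit 3639846284) (nat_lit 153) (nat_lit 5) (nat_lit 158) (nat_lit 5) (nat_lit 159) (nat_lit 5) (nat_lit 611) (nat_lit 519) (nat_lit 430)) (XT.lf (nat_lit 0) (nat_lit 11414881456) (nat_lit 380) (nat_lit 607992673) (nat_lit 456) (nat_lit 166704683) (nat_lit 153) (nat_lit 5) (nat_lit 158) (nat_lit 5) (nat_lit 159) (nat_lit 5) (nat_lit 612) (nat_lit 519) (nat_lit 429))) (XT.nd (nat_lit 78) (nat_lit 380) (nat_lit 0) (XT.lf (nat_lit 0) (nat_lit 3379570142) (nat_lit 456) (nat_lit 4982738899) (nat_lit 76) (nat_lit 3966676266) (nat_lit 147) (nat_lit 5) (nat_lit 153) (nat_lit 5) (nat_lit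 148) (nat_lit 5) (nat_lit 613) (nat_lit 519) (nat_lit 428)) (XT.nd (nat_lit 78) (nat_lit 0) (nat_lit 0) (XT.lf (nat_lit 0) (nat_lit 3165308088) (nat_lit 380) (nat_lit 3833185566) (nat_lit 456) (nat_lit 5472587321) (nat_lit 142) (nat_lit 5) (nat_lit 147) (nat_lit 5) (nat_lit 148) (nat_lit 5) (nat_lit 614) (nat_lit 519) (nat_lit 427)) (XT.lf (nat_lit 0) (nat_lit 10702859308) (nat_lit 456) (nat_lit 1117052919) (nat_lit 76) (nat_lit 795847204) (nat_lit 142) (nat_lit 5) (nat_lit 148) (nat_lit 5) (nat_lit 143) (nat_lit 5) (nat_lit 615) (nat_lit 519) (nat_lit 426))))) (XT.nd (nat_lit 156) (nat_lit 684) (nat_lit 0) (XT.nd (nat_lit 78) (nat_lit 380) (nat_lit 0) (XT.lf (nat_lit 0) (nat_lit 1743123952) (nat_lit 380) (nat_lit 5507948965) (nat_lit 76) (nat_lit 5511084022) (nat_lit 137) (nat_lit 5) (nat_lit 142) (nat_lit 5) (nat_lit 138) (nat_lit 5) (nat_lit 616) (nat_lit 519) (nat_lit 425)) (XT.lf (nat_lit 0) (nat_lit 2882266212)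 (nat_lit 380) (nat_lit 2565546844) (nat_lit 456) (nat_lit 7463395314) (nat_lit 132) (nat_lit 5) (nat_lit 137) (nat_lit 5) (nat_lit 138) (nat_lit 5) (nat_lit 617) (nat_lit 519) (nat_lit 424))) (XT.nd (nat_lit 78) (nat_lit 684) (nat_lit 0) (XT.lf (nat_lit 0) (nat_lit 9253194206) (nat_lit 456) (nat_lit 1601839058) (nat_lit 76) (nat_lit 2207677583) (nat_lit 132) (nat_lit 5) (nat_lit 138) (nat_lit 5) (nat_lit 133) (nat_lit 5) (nat_lit 618) (nat_lit 519) (nat_lit 423)) (XT.nd (nat_lit 78) (nat_lit 380) (nat_lit 0) (XT.lf (nat_lit 0) (nat_lit 7030127581) (nat_lit 304) (nat_lit 6142699349) (nat_lit 380) (nat_lit 43655509) (nat_lit 128) (nat_lit 5) (nat_lit 132) (nat_lit 5) (nat_lit 133) (nat_lit 5) (nat_lit 619) (nat_lit 519) (nat_lit 422)) (XT.lf (nat_lit 0) (nat_lit 2451800877) (nat_lit 304) (nat_lit 1298232003) (nat_lit 380) (nat_lit 9622759026) (nat_lit 123) (nat_lit 5) (nat_lit 127) (nat_lit 5) (nat_lit 128) (nat_lit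 5) (nat_lit 620) (nat_lit 519) (nat_lit 421))))))) (XT.nd (nat_lit 73944) (nat_lit 0) (nat_lit 43928) (XT.nd (nat_lit 73554) (nat_lit 0) (nat_lit 47196) (XT.nd (nat_lit 73398) (nat_lit 0) (nat_lit 47880) (XT.nd (nat_lit 73320) (nat_lit 0) (nat_lit 47956) (XT.lf (nat_lit 0) (nat_lit 7660162802) (nat_lit 380) (nat_lit 2248132890) (nat_lit 76) (nat_lit 3623104886) (nat_lit 123) (nat_lit 5) (nat_lit 128) (nat_lit 5) (nat_lit 124) (nat_lit 5) (nat_lit 621) (nat_lit 519) (nat_lit 420)) (XT.lf (nat_lit 0) (nat_lit 1073741823) (nat_lit 0) (nat_lit 0) (nat_lit 0) (nat_lit 0) (nat_lit 754) (nat_lit 0) (nat_lit 1) (nat_lit 0) (nat_lit 1) (nat_lit 0) (nat_lit 520) (nat_lit 520) (nat_lit 520))) (XT.nd (nat_lit 78) (nat_lit 0) (nat_lit 0) (XT.lf (nat_lit 0) (nat_lit 3152306472) (nat_lit 76) (nat_lit 3248955868) (nat_lit 0) (nat_lit 41613247) (nat_lit 753) (nat_lit 5) (nat_lit 754) (nat_lit 0) (nat_lit 753) (nat_lit 4) (nat_lit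 521) (nat_lit 520) (nat_lit 519)) (XT.lf (nat_lit 0) (nat_lit 6285248526) (nat_lit 76) (nat_lit 34877367) (nat_lit 0) (nat_lit 124856060) (nat_lit 753) (nat_lit 5) (nat_lit 754) (nat_lit 0) (nat_lit 753) (nat_lit 4) (nat_lit 522) (nat_lit 520) (nat_lit 518)))) (XT.nd (nat_lit 156) (nat_lit 380) (nat_lit 0) (XT.nd (nat_lit 78) (nat_lit 152) (nat_lit 0) (XT.lf (nat_lit 0) (nat_lit 2933776254) (nat_lit 152) (nat_lit 3224065648) (nat_lit 76) (nat_lit 290121749) (nat_lit 751) (nat_lit 5) (nat_lit 753) (nat_lit 5) (nat_lit 752) (nat_lit 4) (nat_lit 523) (nat_lit 520) (nat_lit 517)) (XT.lf (nat_lit 0) (nat_lit 53720809) (nat_lit 152) (nat_lit 5953848593) (nat_lit 228) (nat_lit 445026997) (nat_lit 749) (nat_lit 5) (nat_lit 751) (nat_lit 5) (nat_lit 752) (nat_lit 4) (nat_lit 524) (nat_lit 520) (nat_lit 516))) (XT.nd (nat_lit 78) (nat_lit 304) (nat_lit 0) (XT.lf (nat_lit 0) (nat_lit 2592785827) (nat_lit 228) (nat_lit 3077740037)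 (nat_lit 76) (nat_lit 787620067) (nat_lit 748) (nat_lit 5) (nat_lit 751) (nat_lit 5) (nat_lit 749) (nat_lit 5) (nat_lit 525) (nat_lit 520) (nat_lit 515)) (XT.nd (nat_lit 78) (nat_lit 76) (nat_lit 0) (XT.lf (nat_lit 0) (nat_lit 267201344) (nat_lit 228) (nat_lit 5342201535) (nat_lit 304) (nat_lit 855886821) (nat_lit 745) (nat_lit 5) (nat_lit 748) (nat_lit 5) (nat_lit 749) (nat_lit 5) (nat_lit 526) (nat_lit 520) (nat_lit 514)) (XT.lf (nat_lit 0) (nat_lit 2128516037) (nat_lit 304) (nat_lit 2809847114) (nat_lit 76) (nat_lit 1535071594) (nat_lit 744) (nat_lit 5) (nat_lit 748) (nat_lit 5) (nat_lit 745) (nat_lit 5) (nat_lit 527) (nat_lit 520) (nat_lit 513)))))) (XT.nd (nat_lit 390) (nat_lit 1976) (nat_lit 0) (XT.nd (nat_lit 156) (nat_lit 912) (nat_lit 0) (XT.nd (nat_lit 78) (nat_lit 76) (nat_lit 0) (XT.lf (nat_lit 0) (nat_lit 605356770) (nat_lit 304) (nat_lit 4484225208) (nat_lit 380) (nat_lit 1393499791) (nat_lit 740)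 (nat_lit 5) (nat_lit 744) (nat_lit 5) (nat_lit 745) (nat_lit 5) (nat_lit 528) (nat_lit 520) (nat_lit 512)) (XT.lf (nat_lit 0) (nat_lit 1539905988) (nat_lit 380) (nat_lit 2420019259) (nat_lit 76) (nat_lit 2533923339) (nat_lit 739) (nat_lit 5) (nat_lit 744) (nat_lit 5) (nat_lit 740) (nat_lit 5) (nat_lit 529) (nat_lit 520) (nat_lit 511))) (XT.nd (nat_lit 78) (nat_lit 532) (nat_lit 0) (XT.lf (nat_lit 0) (nat_lit 1068682575) (nat_lit 380) (nat_lit 3378245969) (nat_lit 456) (nat_lit 2059065548) (nat_lit 734) (nat_lit 5) (nat_lit 739) (nat_lit 5) (nat_lit 740) (nat_lit 5) (nat_lit 530) (nat_lit 520) (nat_lit 510)) (XT.nd (nat_lit 78) (nat_lit 456) (nat_lit 0) (XT.lf (nat_lit 0) (nat_lit 825650684) (nat_lit 456) (nat_lit 1907653242) (nat_lit 76) (nat_lit 3786108236) (nat_lit 733) (nat_lit 5) (nat_lit 739) (nat_lit 5) (nat_lit 734) (nat_lit 5) (nat_lit 531) (nat_lit 520) (nat_lit 509)) (XT.lf (nat_lit 0) (nat_lit 1657913812)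 (nat_lit 456) (nat_lit 2022107420) (nat_lit 532) (nat_lit 2854033122) (nat_lit 727) (nat_lit 5) (nat_lit 733) (nat_lit 5) (nat_lit 734) (nat_lit 5) (nat_lit 532) (nat_lit 520) (nat_lit 508))))) (XT.nd (nat_lit 156) (nat_lit 1368) (nat_lit 0) (XT.nd (nat_lit 78) (nat_lit 608) (nat_lit 0) (XT.lf (nat_lit 0) (nat_lit 5278140448) (nat_lit 456) (nat_lit 1256002164) (nat_lit 532) (nat_lit 16011733) (nat_lit 727) (nat_lit 5) (nat_lit 733) (nat_lit 5) (nat_lit 734) (nat_lit 5) (nat_lit 533) (nat_lit 520) (nat_lit 507)) (XT.lf (nat_lit 0) (nat_lit 2374025581) (nat_lit 532) (nat_lit 413166965) (nat_lit 608) (nat_lit 3780103928) (nat_lit 719) (nat_lit 5) (nat_lit 726) (nat_lit 5) (nat_lit 727) (nat_lit 5) (nat_lit 534) (nat_lit 520) (nat_lit 506))) (XT.nd (nat_lit 78) (nat_lit 1368) (nat_lit 0) (XT.lf (nat_lit 0) (nat_lit 5589752899) (nat_lit 608) (nat_lit 521326187) (nat_lit 76) (nat_lit 474847286) (nat_lit 719) (nat_lit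 5) (nat_lit 727) (nat_lit 5) (nat_lit 720) (nat_lit 5) (nat_lit 535) (nat_lit 520) (nat_lit 505)) (XT.nd (nat_lit 78) (nat_lit 684) (nat_lit 0) (XT.lf (nat_lit 0) (nat_lit 1775950928) (nat_lit 684) (nat_lit 3396952239) (nat_lit 76) (nat_lit 1432668984) (nat_lit 710) (nat_lit 5) (nat_lit 719) (nat_lit 5) (nat_lit 711) (nat_lit 5) (nat_lit 536) (nat_lit 520) (nat_lit 504)) (XT.lf (nat_lit 0) (nat_lit 349014931) (nat_lit 684) (nat_lit 4180890396) (nat_lit 760) (nat_lit 2096795482) (nat_lit 701) (nat_lit 5) (nat_lit 710) (nat_lit 5) (nat_lit 711) (nat_lit 5) (nat_lit 537) (nat_lit 520) (nat_lit 503))))))))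
noncomputable def xc72 : XT := (XT.nd (nat_lit 1404) (nat_lit 15504) (nat_lit 0) (XT.nd (nat_lit 702) (nat_lit 6688) (nat_lit 0) (XT.nd (nat_lit 312) (nat_lit 3116) (nat_lit 0) (XT.nd (nat_lit 156) (nat_lit 912) (nat_lit 0) (XT.nd (nat_lit 78) (nat_lit 760) (nat_lit 0) (XT.lf (nat_lit 0) (nat_lit 639068437) (nat_lit 760) (nat_lit 2480715390) (nat_lit 76) (nat_lit 3529245275) (nat_lit 700) (nat_lit 5) (nat_lit 710) (nat_lit 5) (nat_lit 701) (nat_lit 5) (nat_lit 538) (nat_lit 520) (nat_lit 502)) (XT.lf (nat_lit 0) (nat_lit 1352684513) (nat_lit 760) (nat_lit 1993476079) (nat_lit 836) (nat_lit 3326489680) (nat_lit 690) (nat_lit 5) (nat_lit 700) (nat_lit 5) (nat_lit 701) (nat_lit 5) (nat_lit 539) (nat_lit 520) (nat_lit 501))) (XT.nd (nat_lit 78) (nat_lit 912) (nat_lit 0) (XT.lf (nat_lit 0) (nat_lit 5253299825) (nat_lit 760) (nat_lit 807499500) (nat_lit 836) (nat_lit 636891395) (nat_lit 690) (nat_lit 5) (nat_lit 700)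 (nat_lit 5) (nat_lit 701) (nat_lit 5) (nat_lit 540) (nat_lit 520) (nat_lit 500)) (XT.lf (nat_lit 0) (nat_lit 2035510080) (nat_lit 912) (nat_lit 4242308055) (nat_lit 76) (nat_lit 446021909) (nat_lit 678) (nat_lit 5) (nat_lit 690) (nat_lit 5) (nat_lit 679) (nat_lit 5) (nat_lit 541) (nat_lit 520) (nat_lit 499)))) (XT.nd (nat_lit 156) (nat_lit 2128) (nat_lit 0) (XT.nd (nat_lit 78) (nat_lit 988) (nat_lit 0) (XT.lf (nat_lit 0) (nat_lit 4706584397) (nat_lit 912) (nat_lit 298556019) (nat_lit 76) (nat_lit 1746226773) (nat_lit 678) (nat_lit 5) (nat_lit 690) (nat_lit 5) (nat_lit 679) (nat_lit 5) (nat_lit 542) (nat_lit 520) (nat_lit 498)) (XT.lf (nat_lit 0) (nat_lit 606896452) (nat_lit 988) (nat_lit 3054477971) (nat_lit 76) (nat_lit 3118723228) (nat_lit 665) (nat_lit 5) (nat_lit 678) (nat_lit 5) (nat_lit 666) (nat_lit 5) (nat_lit 543) (nat_lit 520) (nat_lit 497))) (XT.nd (nat_lit 78) (nat_lit 1140) (nat_lit 0) (XT.lf (nat_lit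 0) (nat_lit 980451479) (nat_lit 988) (nat_lit 2252524193) (nat_lit 1064) (nat_lit 3577195084) (nat_lit 652) (nat_lit 5) (nat_lit 665) (nat_lit 5) (nat_lit 666) (nat_lit 5) (nat_lit 544) (nat_lit 520) (nat_lit 496)) (XT.nd (nat_lit 78) (nat_lit 1140) (nat_lit 0) (XT.lf (nat_lit 0) (nat_lit 5093956344) (nat_lit 988) (nat_lit 779342484) (nat_lit 1064) (nat_lit 968325062) (nat_lit 652) (nat_lit 5) (nat_lit 665) (nat_lit 5) (nat_lit 666) (nat_lit 5) (nat_lit 545) (nat_lit 520) (nat_lit 495)) (XT.lf (nat_lit 0) (nat_lit 1633008506) (nat_lit 1140) (nat_lit 4486353158) (nat_lit 76) (nat_lit 754887398) (nat_lit 637) (nat_lit 5) (nat_lit 652) (nat_lit 5) (nat_lit 638) (nat_lit 5) (nat_lit 546) (nat_lit 520) (nat_lit 494)))))) (XT.nd (nat_lit 312) (nat_lit 4256) (nat_lit 0) (XT.nd (nat_lit 156) (nat_lit 1292) (nat_lit 0) (XT.nd (nat_lit 78) (nat_lit 1140) (nat_lit 0) (XT.lf (nat_lit 0) (nat_lit 4233313184) (nat_lit 1140)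 (nat_lit 333500916) (nat_lit 76) (nat_lit 2341398681) (nat_lit 637) (nat_lit 5) (nat_lit 652) (nat_lit 5) (nat_lit 638) (nat_lit 5) (nat_lit 547) (nat_lit 520) (nat_lit 493)) (XT.lf (nat_lit 0) (nat_lit 3910143717) (nat_lit 1140) (nat_lit 2944918019) (nat_lit 1216) (nat_lit 88417306) (nat_lit 622) (nat_lit 5) (nat_lit 637) (nat_lit 5) (nat_lit 638) (nat_lit 5) (nat_lit 548) (nat_lit 520) (nat_lit 492))) (XT.nd (nat_lit 78) (nat_lit 0) (nat_lit 0) (XT.lf (nat_lit 0) (nat_lit 1219186482) (nat_lit 1216) (nat_lit 1251825640) (nat_lit 1292) (nat_lit 4509025794) (nat_lit 605) (nat_lit 5) (nat_lit 621) (nat_lit 5) (nat_lit 622) (nat_lit 5) (nat_lit 549) (nat_lit 520) (nat_lit 491)) (XT.lf (nat_lit 0) (nat_lit 5049388120) (nat_lit 1292) (nat_lit 1467746556) (nat_lit 76) (nat_lit 500814094) (nat_lit 605) (nat_lit 5) (nat_lit 622) (nat_lit 5) (nat_lit 606) (nat_lit 5) (nat_lit 550) (nat_lit 520) (nat_lit 490)))) (XT.nd (nat_lit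 156) (nat_lit 1520) (nat_lit 0) (XT.nd (nat_lit 78) (nat_lit 1368) (nat_lit 0) (XT.lf (nat_lit 0) (nat_lit 587896556) (nat_lit 1368) (nat_lit 4164118880) (nat_lit 76) (nat_lit 2305065439) (nat_lit 587) (nat_lit 5) (nat_lit 605) (nat_lit 5) (nat_lit 588) (nat_lit 5) (nat_lit 551) (nat_lit 520) (nat_lit 489)) (XT.lf (nat_lit 0) (nat_lit 209179070) (nat_lit 1368) (nat_lit 2918085222) (nat_lit 1444) (nat_lit 3970318955) (nat_lit 569) (nat_lit 5) (nat_lit 587) (nat_lit 5) (nat_lit 588) (nat_lit 5) (nat_lit 552) (nat_lit 520) (nat_lit 488))) (XT.nd (nat_lit 78) (nat_lit 1520) (nat_lit 0) (XT.lf (nat_lit 0) (nat_lit 4682237032) (nat_lit 1368) (nat_lit 1010724475) (nat_lit 1444) (nat_lit 1446433784) (nat_lit 569) (nat_lit 5) (nat_lit 587) (nat_lit 5) (nat_lit 588) (nat_lit 5) (nat_lit 553) (nat_lit 520) (nat_lit 487)) (XT.nd (nat_lit 78) (nat_lit 0) (nat_lit 0) (XT.lf (nat_lit 0) (nat_lit 1080900476) (nat_lit 1520) (nat_lit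 5150796189) (nat_lit 76) (nat_lit 950855218) (nat_lit 549) (nat_lit 5) (nat_lit 569) (nat_lit 5) (nat_lit 550) (nat_lit 5) (nat_lit 554) (nat_lit 520) (nat_lit 486)) (XT.lf (nat_lit 0) (nat_lit 3611777063) (nat_lit 1520) (nat_lit 643639415) (nat_lit 76) (nat_lit 2971526506) (nat_lit 549) (nat_lit 5) (nat_lit 569) (nat_lit 5) (nat_lit 550) (nat_lit 5) (nat_lit 555) (nat_lit 520) (nat_lit 485))))))) (XT.nd (nat_lit 702) (nat_lit 6080) (nat_lit 0) (XT.nd (nat_lit 312) (nat_lit 4560) (nat_lit 0) (XT.nd (nat_lit 156) (nat_lit 1672) (nat_lit 0) (XT.nd (nat_lit 78) (nat_lit 1672) (nat_lit 0) (XT.lf (nat_lit 0) (nat_lit 3961725936) (nat_lit 1520) (nat_lit 2207320066) (nat_lit 1596) (nat_lit 1103670078) (nat_lit 529) (nat_lit 5) (nat_lit 549) (nat_lit 5) (nat_lit 550) (nat_lit 5) (nat_lit 556) (nat_lit 520) (nat_lit 484)) (XT.lf (nat_lit 0) (nat_lit 1312044666) (nat_lit 1596) (nat_lit 90168176) (nat_lit 1672) (nat_lit 5917746161)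 (nat_lit 507) (nat_lit 5) (nat_lit 528) (nat_lit 5) (nat_lit 529) (nat_lit 5) (nat_lit 557) (nat_lit 520) (nat_lit 483))) (XT.nd (nat_lit 78) (nat_lit 1672) (nat_lit 0) (XT.lf (nat_lit 0) (nat_lit 3930382224) (nat_lit 1672) (nat_lit 1361173139) (nat_lit 76) (nat_lit 2076715691) (nat_lit 507) (nat_lit 5) (nat_lit 529) (nat_lit 5) (nat_lit 508) (nat_lit 5) (nat_lit 558) (nat_lit 520) (nat_lit 482)) (XT.lf (nat_lit 0) (nat_lit 3378091808) (nat_lit 1672) (nat_lit 3105643392) (nat_lit 1748) (nat_lit 934330674) (nat_lit 485) (nat_lit 5) (nat_lit 507) (nat_lit 5) (nat_lit 508) (nat_lit 5) (nat_lit 559) (nat_lit 520) (nat_lit 481)))) (XT.nd (nat_lit 156) (nat_lit 2736) (nat_lit 0) (XT.nd (nat_lit 78) (nat_lit 0) (nat_lit 0) (XT.lf (nat_lit 0) (nat_lit 716270350) (nat_lit 1748) (nat_lit 848059592) (nat_lit 1824) (nat_lit 5904999589) (nat_lit 461) (nat_lit 5) (nat_lit 484) (nat_lit 5) (nat_lit 485) (nat_lit 5) (nat_lit 560)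 (nat_lit 520) (nat_lit 480)) (XT.lf (nat_lit 0) (nat_lit 4090286835) (nat_lit 1824) (nat_lit 1959626740) (nat_lit 76) (nat_lit 1471793113) (nat_lit 461) (nat_lit 5) (nat_lit 485) (nat_lit 5) (nat_lit 462) (nat_lit 5) (nat_lit 561) (nat_lit 520) (nat_lit 479))) (XT.nd (nat_lit 78) (nat_lit 1064) (nat_lit 0) (XT.lf (nat_lit 0) (nat_lit 2918073066) (nat_lit 1672) (nat_lit 3727259450) (nat_lit 1748) (nat_lit 930235731) (nat_lit 439) (nat_lit 5) (nat_lit 461) (nat_lit 5) (nat_lit 462) (nat_lit 5) (nat_lit 562) (nat_lit 520) (nat_lit 478)) (XT.nd (nat_lit 78) (nat_lit 0) (nat_lit 0) (XT.lf (nat_lit 0) (nat_lit 237570404) (nat_lit 988) (nat_lit 1331237181) (nat_lit 1064) (nat_lit 6062115000) (nat_lit 425) (nat_lit 5) (nat_lit 438) (nat_lit 5) (nat_lit 439) (nat_lit 5) (nat_lit 563) (nat_lit 520) (nat_lit 477)) (XT.lf (nat_lit 0) (nat_lit 4099001751) (nat_lit 1064) (nat_lit 2451881055) (nat_lit 76) (nat_lit 1136513486)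 (nat_lit 425) (nat_lit 5) (nat_lit 439) (nat_lit 5) (nat_lit 426) (nat_lit 5) (nat_lit 564) (nat_lit 520) (nat_lit 476)))))) (XT.nd (nat_lit 390) (nat_lit 3268) (nat_lit 0) (XT.nd (nat_lit 156) (nat_lit 1824) (nat_lit 0) (XT.nd (nat_lit 78) (nat_lit 76) (nat_lit 0) (XT.lf (nat_lit 0) (nat_lit 2568981199) (nat_lit 912) (nat_lit 4092126570) (nat_lit 988) (nat_lit 1084273171) (nat_lit 413) (nat_lit 5) (nat_lit 425) (nat_lit 5) (nat_lit 426) (nat_lit 5) (nat_lit 565) (nat_lit 520) (nat_lit 475)) (XT.lf (nat_lit 0) (nat_lit 1423311330) (nat_lit 988) (nat_lit 134966385) (nat_lit 76) (nat_lit 6246610836) (nat_lit 412) (nat_lit 5) (nat_lit 425) (nat_lit 5) (nat_lit 413) (nat_lit 5) (nat_lit 566) (nat_lit 520) (nat_lit 474))) (XT.nd (nat_lit 78) (nat_lit 912) (nat_lit 0) (XT.lf (nat_lit 0) (nat_lit 3963030048) (nat_lit 988) (nat_lit 2850337247) (nat_lit 76) (nat_lit 1052152844) (nat_lit 400) (nat_lit 5) (nat_lit 413) (nat_lit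 5) (nat_lit 401) (nat_lit 5) (nat_lit 567) (nat_lit 520) (nat_lit 473)) (XT.nd (nat_lit 78) (nat_lit 76) (nat_lit 0) (XT.lf (nat_lit 0) (nat_lit 2318599702) (nat_lit 836) (nat_lit 4218741868) (nat_lit 912) (nat_lit 1390353865) (nat_lit 389) (nat_lit 5) (nat_lit 400) (nat_lit 5) (nat_lit 401) (nat_lit 5) (nat_lit 568) (nat_lit 520) (nat_lit 472)) (XT.lf (nat_lit 0) (nat_lit 1133683599) (nat_lit 912) (nat_lit 413493758) (nat_lit 76) (nat_lit 6444250863) (nat_lit 388) (nat_lit 5) (nat_lit 400) (nat_lit 5) (nat_lit 389) (nat_lit 5) (nat_lit 569) (nat_lit 520) (nat_lit 471))))) (XT.nd (nat_lit 156) (nat_lit 1672) (nat_lit 0) (XT.nd (nat_lit 78) (nat_lit 760) (nat_lit 0) (XT.lf (nat_lit 0) (nat_lit 3687906712) (nat_lit 912) (nat_lit 3167016006) (nat_lit 76) (nat_lit 1201369339) (nat_lit 377) (nat_lit 5) (nat_lit 389) (nat_lit 5) (nat_lit 378) (nat_lit 5) (nat_lit 570) (nat_lit 520) (nat_lit 470)) (XT.lf (nat_lit 0) (nat_lit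 2155084374) (nat_lit 760) (nat_lit 4124278559) (nat_lit 836) (nat_lit 1843373774) (nat_lit 367) (nat_lit 5) (nat_lit 377) (nat_lit 5) (nat_lit 378) (nat_lit 5) (nat_lit 571) (nat_lit 520) (nat_lit 469))) (XT.nd (nat_lit 78) (nat_lit 1596) (nat_lit 0) (XT.lf (nat_lit 0) (nat_lit 703288819) (nat_lit 836) (nat_lit 612902328) (nat_lit 76) (nat_lit 6874615229) (nat_lit 366) (nat_lit 5) (nat_lit 377) (nat_lit 5) (nat_lit 367) (nat_lit 5) (nat_lit 572) (nat_lit 520) (nat_lit 468)) (XT.nd (nat_lit 78) (nat_lit 760) (nat_lit 0) (XT.lf (nat_lit 0) (nat_lit 3278231649) (nat_lit 912) (nat_lit 3413656028) (nat_lit 76) (nat_lit 1568071604) (nat_lit 355) (nat_lit 5) (nat_lit 367) (nat_lit 5) (nat_lit 356) (nat_lit 5) (nat_lit 573) (nat_lit 520) (nat_lit 467)) (XT.lf (nat_lit 0) (nat_lit 2066864196) (nat_lit 760) (nat_lit 3824716072) (nat_lit 836) (nat_lit 2439182850) (nat_lit 345) (nat_lit 5) (nat_lit 355) (nat_lit 5) (nat_lit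 356) (nat_lit 5) (nat_lit 574) (nat_lit 520) (nat_lit 466))))))))
noncomputable def xc73 : XT := (XT.nd (nat_lit 1482) (nat_lit 6384) (nat_lit 0) (XT.nd (nat_lit 702) (nat_lit 3800) (nat_lit 0) (XT.nd (nat_lit 312) (nat_lit 2888) (nat_lit 0) (XT.nd (nat_lit 156) (nat_lit 684) (nat_lit 0) (XT.nd (nat_lit 78) (nat_lit 760) (nat_lit 0) (XT.lf (nat_lit 0) (nat_lit 136104549) (nat_lit 836) (nat_lit 744733330) (nat_lit 76) (nat_lit 7522452620) (nat_lit 344) (nat_lit 5) (nat_lit 355) (nat_lit 5) (nat_lit 345) (nat_lit 5) (nat_lit 575) (nat_lit 520) (nat_lit 465)) (XT.lf (nat_lit 0) (nat_lit 2737696167) (nat_lit 836) (nat_lit 3601812539) (nat_lit 76) (nat_lit 2137293746) (nat_lit 334) (nat_lit 5) (nat_lit 345) (nat_lit 5) (nat_lit 335) (nat_lit 5) (nat_lit 576) (nat_lit 520) (nat_lit 464))) (XT.nd (nat_lit 78) (nat_lit 0) (nat_lit 0) (XT.lf (nat_lit 0) (nat_lit 2042541994) (nat_lit 684) (nat_lit 3334963884) (nat_lit 760)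 (nat_lit 3174560595) (nat_lit 325) (nat_lit 5) (nat_lit 334) (nat_lit 5) (nat_lit 335) (nat_lit 5) (nat_lit 577) (nat_lit 520) (nat_lit 463)) (XT.lf (nat_lit 0) (nat_lit 7804998099) (nat_lit 684) (nat_lit 251805223) (nat_lit 760) (nat_lit 572304065) (nat_lit 325) (nat_lit 5) (nat_lit 334) (nat_lit 5) (nat_lit 335) (nat_lit 5) (nat_lit 578) (nat_lit 520) (nat_lit 462)))) (XT.nd (nat_lit 156) (nat_lit 1368) (nat_lit 0) (XT.nd (nat_lit 78) (nat_lit 684) (nat_lit 0) (XT.lf (nat_lit 0) (nat_lit 2069103003) (nat_lit 836) (nat_lit 3742956668) (nat_lit 76) (nat_lit 2895076105) (nat_lit 314) (nat_lit 5) (nat_lit 325) (nat_lit 5) (nat_lit 315) (nat_lit 5) (nat_lit 579) (nat_lit 520) (nat_lit 461)) (XT.lf (nat_lit 0) (nat_lit 2070794081) (nat_lit 684) (nat_lit 2668979966) (nat_lit 760) (nat_lit 4047198180) (nat_lit 305) (nat_lit 5) (nat_lit 314) (nat_lit 5) (nat_lit 315) (nat_lit 5) (nat_lit 580) (nat_lit 520) (nat_lit 460)))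 (XT.nd (nat_lit 78) (nat_lit 1368) (nat_lit 0) (XT.lf (nat_lit 0) (nat_lit 7456429714) (nat_lit 760) (nat_lit 864053656) (nat_lit 76) (nat_lit 548075642) (nat_lit 305) (nat_lit 5) (nat_lit 315) (nat_lit 5) (nat_lit 306) (nat_lit 5) (nat_lit 581) (nat_lit 520) (nat_lit 459)) (XT.nd (nat_lit 78) (nat_lit 608) (nat_lit 0) (XT.lf (nat_lit 0) (nat_lit 1274379958) (nat_lit 760) (nat_lit 3848576488) (nat_lit 76) (nat_lit 3828350891) (nat_lit 295) (nat_lit 5) (nat_lit 305) (nat_lit 5) (nat_lit 296) (nat_lit 5) (nat_lit 582) (nat_lit 520) (nat_lit 458)) (XT.lf (nat_lit 0) (nat_lit 2140268043) (nat_lit 608) (nat_lit 1839884684) (nat_lit 684) (nat_lit 5055687124) (nat_lit 287) (nat_lit 5) (nat_lit 295) (nat_lit 5) (nat_lit 296) (nat_lit 5) (nat_lit 583) (nat_lit 520) (nat_lit 457)))))) (XT.nd (nat_lit 390) (nat_lit 1824) (nat_lit 0) (XT.nd (nat_lit 156) (nat_lit 1216) (nat_lit 0) (XT.nd (nat_lit 78) (nat_lit 760) (nat_lit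 0) (XT.lf (nat_lit 0) (nat_lit 6740885066) (nat_lit 684) (nat_lit 874200542) (nat_lit 76) (nat_lit 1506965173) (nat_lit 287) (nat_lit 5) (nat_lit 296) (nat_lit 5) (nat_lit 288) (nat_lit 5) (nat_lit 584) (nat_lit 520) (nat_lit 456)) (XT.lf (nat_lit 0) (nat_lit 354587105) (nat_lit 760) (nat_lit 3930280572) (nat_lit 76) (nat_lit 4924831880) (nat_lit 277) (nat_lit 5) (nat_lit 287) (nat_lit 5) (nat_lit 278) (nat_lit 5) (nat_lit 585) (nat_lit 520) (nat_lit 455))) (XT.nd (nat_lit 78) (nat_lit 608) (nat_lit 0) (XT.lf (nat_lit 0) (nat_lit 2239477800) (nat_lit 608) (nat_lit 860071012) (nat_lit 684) (nat_lit 6199514535) (nat_lit 269) (nat_lit 5) (nat_lit 277) (nat_lit 5) (nat_lit 278) (nat_lit 5) (nat_lit 586) (nat_lit 520) (nat_lit 454)) (XT.nd (nat_lit 78) (nat_lit 608) (nat_lit 0) (XT.lf (nat_lit 0) (nat_lit 5909289682) (nat_lit 684) (nat_lit 864449240) (nat_lit 76) (nat_lit 2616282186) (nat_lit 269) (nat_lit 5) (nat_lit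 278) (nat_lit 5) (nat_lit 270) (nat_lit 5) (nat_lit 587) (nat_lit 520) (nat_lit 453)) (XT.lf (nat_lit 0) (nat_lit 5478194051) (nat_lit 608) (nat_lit 3305191682) (nat_lit 684) (nat_lit 699253291) (nat_lit 261) (nat_lit 5) (nat_lit 269) (nat_lit 5) (nat_lit 270) (nat_lit 5) (nat_lit 588) (nat_lit 520) (nat_lit 452))))) (XT.nd (nat_lit 156) (nat_lit 1216) (nat_lit 0) (XT.nd (nat_lit 78) (nat_lit 0) (nat_lit 0) (XT.lf (nat_lit 0) (nat_lit 2099686491) (nat_lit 608) (nat_lit 7222056462) (nat_lit 76) (nat_lit 255295378) (nat_lit 253) (nat_lit 5) (nat_lit 261) (nat_lit 5) (nat_lit 254) (nat_lit 5) (nat_lit 589) (nat_lit 520) (nat_lit 451)) (XT.lf (nat_lit 0) (nat_lit 4961546352) (nat_lit 608) (nat_lit 846627129) (nat_lit 76) (nat_lit 3864737581) (nat_lit 253) (nat_lit 5) (nat_lit 261) (nat_lit 5) (nat_lit 254) (nat_lit 5) (nat_lit 590) (nat_lit 520) (nat_lit 450))) (XT.nd (nat_lit 78) (nat_lit 608) (nat_lit 0) (XT.lf (nat_lit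 0) (nat_lit 5688743172) (nat_lit 608) (nat_lit 2196832345) (nat_lit 684) (nat_lit 1885030977) (nat_lit 245) (nat_lit 5) (nat_lit 253) (nat_lit 5) (nat_lit 254) (nat_lit 5) (nat_lit 591) (nat_lit 520) (nat_lit 449)) (XT.nd (nat_lit 78) (nat_lit 0) (nat_lit 0) (XT.lf (nat_lit 0) (nat_lit 984473864) (nat_lit 608) (nat_lit 7400267117) (nat_lit 76) (nat_lit 1485394399) (nat_lit 237) (nat_lit 5) (nat_lit 245) (nat_lit 5) (nat_lit 238) (nat_lit 5) (nat_lit 592) (nat_lit 520) (nat_lit 448)) (XT.lf (nat_lit 0) (nat_lit 3896695676) (nat_lit 608) (nat_lit 832968553) (nat_lit 76) (nat_lit 5241533727) (nat_lit 237) (nat_lit 5) (nat_lit 245) (nat_lit 5) (nat_lit 238) (nat_lit 5) (nat_lit 593) (nat_lit 520) (nat_lit 447))))))) (XT.nd (nat_lit 702) (nat_lit 3192) (nat_lit 0) (XT.nd (nat_lit 312) (nat_lit 1520) (nat_lit 0) (XT.nd (nat_lit 156) (nat_lit 608) (nat_lit 0) (XT.nd (nat_lit 78) (nat_lit 532) (nat_lit 0) (XT.lf (nat_lit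 0) (nat_lit 5901294934) (nat_lit 532) (nat_lit 973223715) (nat_lit 608) (nat_lit 3199619594) (nat_lit 230) (nat_lit 5) (nat_lit 237) (nat_lit 5) (nat_lit 238) (nat_lit 5) (nat_lit 594) (nat_lit 520) (nat_lit 446)) (XT.lf (nat_lit 0) (nat_lit 2575645996) (nat_lit 532) (nat_lit 7346468352) (nat_lit 608) (nat_lit 256822185) (nat_lit 223) (nat_lit 5) (nat_lit 230) (nat_lit 5) (nat_lit 231) (nat_lit 5) (nat_lit 595) (nat_lit 520) (nat_lit 445))) (XT.nd (nat_lit 78) (nat_lit 532) (nat_lit 0) (XT.lf (nat_lit 0) (nat_lit 2712899453) (nat_lit 608) (nat_lit 836234547) (nat_lit 76) (nat_lit 6736262403) (nat_lit 222) (nat_lit 5) (nat_lit 230) (nat_lit 5) (nat_lit 223) (nat_lit 5) (nat_lit 596) (nat_lit 520) (nat_lit 444)) (XT.lf (nat_lit 0) (nat_lit 5750543873) (nat_lit 608) (nat_lit 4292914121) (nat_lit 76) (nat_lit 350257500) (nat_lit 215) (nat_lit 5) (nat_lit 223) (nat_lit 5) (nat_lit 216) (nat_lit 5) (nat_lit 597) (nat_lit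 520) (nat_lit 443)))) (XT.nd (nat_lit 156) (nat_lit 988) (nat_lit 0) (XT.nd (nat_lit 78) (nat_lit 76) (nat_lit 0) (XT.lf (nat_lit 0) (nat_lit 2653480429) (nat_lit 456) (nat_lit 6212122375) (nat_lit 532) (nat_lit 1638268184) (nat_lit 209) (nat_lit 5) (nat_lit 215) (nat_lit 5) (nat_lit 216) (nat_lit 5) (nat_lit 598) (nat_lit 520) (nat_lit 442)) (XT.lf (nat_lit 0) (nat_lit 1407416991) (nat_lit 532) (nat_lit 869839632) (nat_lit 76) (nat_lit 8338802922) (nat_lit 208) (nat_lit 5) (nat_lit 215) (nat_lit 5) (nat_lit 209) (nat_lit 5) (nat_lit 599) (nat_lit 520) (nat_lit 441))) (XT.nd (nat_lit 78) (nat_lit 456) (nat_lit 0) (XT.lf (nat_lit 0) (nat_lit 4515395485) (nat_lit 608) (nat_lit 4460640679) (nat_lit 76) (nat_lit 1753775873) (nat_lit 201) (nat_lit 5) (nat_lit 209) (nat_lit 5) (nat_lit 202) (nat_lit 5) (nat_lit 600) (nat_lit 520) (nat_lit 440)) (XT.nd (nat_lit 78) (nat_lit 0) (nat_lit 0) (XT.lf (nat_lit 0) (nat_lit 2696131854)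 (nat_lit 456) (nat_lit 4999068978) (nat_lit 532) (nat_lit 3150448410) (nat_lit 195) (nat_lit 5) (nat_lit 201) (nat_lit 5) (nat_lit 202) (nat_lit 5) (nat_lit 601) (nat_lit 520) (nat_lit 439)) (XT.lf (nat_lit 0) (nat_lit 10015636439) (nat_lit 456) (nat_lit 924403647) (nat_lit 532) (nat_lit 23737294) (nat_lit 195) (nat_lit 5) (nat_lit 201) (nat_lit 5) (nat_lit 202) (nat_lit 5) (nat_lit 602) (nat_lit 520) (nat_lit 438)))))) (XT.nd (nat_lit 390) (nat_lit 1292) (nat_lit 0) (XT.nd (nat_lit 156) (nat_lit 912) (nat_lit 0) (XT.nd (nat_lit 78) (nat_lit 456) (nat_lit 0) (XT.lf (nat_lit 0) (nat_lit 3158868115) (nat_lit 532) (nat_lit 4684431227) (nat_lit 76) (nat_lit 3239862996) (nat_lit 188) (nat_lit 5) (nat_lit 195) (nat_lit 5) (nat_lit 189) (nat_lit 5) (nat_lit 603) (nat_lit 520) (nat_lit 437)) (XT.lf (nat_lit 0) (nat_lit 2688871943) (nat_lit 456) (nat_lit 3718006506) (nat_lit 532) (nat_lit 4798014770) (nat_lit 182) (nat_lit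 5) (nat_lit 188) (nat_lit 5) (nat_lit 189) (nat_lit 5) (nat_lit 604) (nat_lit 520) (nat_lit 436))) (XT.nd (nat_lit 78) (nat_lit 912) (nat_lit 0) (XT.lf (nat_lit 0) (nat_lit 9726960359) (nat_lit 532) (nat_lit 1099540393) (nat_lit 76) (nat_lit 502418462) (nat_lit 182) (nat_lit 5) (nat_lit 189) (nat_lit 5) (nat_lit 183) (nat_lit 5) (nat_lit 605) (nat_lit 520) (nat_lit 435)) (XT.nd (nat_lit 78) (nat_lit 380) (nat_lit 0) (XT.lf (nat_lit 0) (nat_lit 1676095528) (nat_lit 532) (nat_lit 4980016903) (nat_lit 76) (nat_lit 4798304166) (nat_lit 175) (nat_lit 5) (nat_lit 182) (nat_lit 5) (nat_lit 176) (nat_lit 5) (nat_lit 606) (nat_lit 520) (nat_lit 434)) (XT.lf (nat_lit 0) (nat_lit 2615937801) (nat_lit 380) (nat_lit 2379679924) (nat_lit 456) (nat_lit 6586649851) (nat_lit 170) (nat_lit 5) (nat_lit 175) (nat_lit 5) (nat_lit 176) (nat_lit 5) (nat_lit 607) (nat_lit 520) (nat_lit 433))))) (XT.nd (nat_lit 156) (nat_lit 760) (nat_lit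 0) (XT.nd (nat_lit 78) (nat_lit 532) (nat_lit 0) (XT.lf (nat_lit 0) (nat_lit 8401152486) (nat_lit 456) (nat_lit 1334130742) (nat_lit 76) (nat_lit 1977002417) (nat_lit 170) (nat_lit 5) (nat_lit 176) (nat_lit 5) (nat_lit 171) (nat_lit 5) (nat_lit 608) (nat_lit 520) (nat_lit 432)) (XT.lf (nat_lit 0) (nat_lit 61181441) (nat_lit 532) (nat_lit 5364293170) (nat_lit 76) (nat_lit 6418794409) (nat_lit 163) (nat_lit 5) (nat_lit 170) (nat_lit 5) (nat_lit 164) (nat_lit 5) (nat_lit 609) (nat_lit 520) (nat_lit 431))) (XT.nd (nat_lit 78) (nat_lit 380) (nat_lit 0) (XT.lf (nat_lit 0) (nat_lit 2460367786) (nat_lit 380) (nat_lit 994991976) (nat_lit 456) (nat_lit 8523121868) (nat_lit 158) (nat_lit 5) (nat_lit 163) (nat_lit 5) (nat_lit 164) (nat_lit 5) (nat_lit 610) (nat_lit 520) (nat_lit 430)) (XT.nd (nat_lit 78) (nat_lit 380) (nat_lit 0) (XT.lf (nat_lit 0) (nat_lit 6950436396) (nat_lit 456) (nat_lit 1663365429) (nat_lit 76) (nat_lit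 3500918698) (nat_lit 158) (nat_lit 5) (nat_lit 164) (nat_lit 5) (nat_lit 159) (nat_lit 5) (nat_lit 611) (nat_lit 520) (nat_lit 429)) (XT.lf (nat_lit 0) (nat_lit 6386606907) (nat_lit 380) (nat_lit 4151273218) (nat_lit 456) (nat_lit 1715357035) (nat_lit 153) (nat_lit 5) (nat_lit 158) (nat_lit 5) (nat_lit 159) (nat_lit 5) (nat_lit 612) (nat_lit 520) (nat_lit 428))))))))
noncomputable def xc74 : XT := (XT.nd (nat_lit 74802) (nat_lit 0) (nat_lit 36632) (XT.nd (nat_lit 74022) (nat_lit 0) (nat_lit 46360) (XT.nd (nat_lit 312) (nat_lit 1140) (nat_lit 0) (XT.nd (nat_lit 156) (nat_lit 684) (nat_lit 0) (XT.nd (nat_lit 78) (nat_lit 0) (nat_lit 0) (XT.lf (nat_lit 0) (nat_lit 1781701166) (nat_lit 456) (nat_lit 10193226264) (nat_lit 76) (nat_lit 419308956) (nat_lit 147) (nat_lit 5) (nat_lit 153) (nat_lit 5) (nat_lit 148) (nat_lit 5) (nat_lit 613) (nat_lit 520) (nat_lit 427)) (XT.lf (nat_lit 0) (nat_lit 5367523653) (nat_lit 456)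 (nat_lit 2106142937) (nat_lit 76) (nat_lit 5063328548) (nat_lit 147) (nat_lit 5) (nat_lit 153) (nat_lit 5) (nat_lit 148) (nat_lit 5) (nat_lit 614) (nat_lit 520) (nat_lit 426))) (XT.nd (nat_lit 78) (nat_lit 304) (nat_lit 0) (XT.lf (nat_lit 0) (nat_lit 6185284393) (nat_lit 380) (nat_lit 2855083748) (nat_lit 456) (nat_lit 3641936918) (nat_lit 142) (nat_lit 5) (nat_lit 147) (nat_lit 5) (nat_lit 148) (nat_lit 5) (nat_lit 615) (nat_lit 520) (nat_lit 425)) (XT.lf (nat_lit 0) (nat_lit 1813825493) (nat_lit 304) (nat_lit 10986193883) (nat_lit 380) (nat_lit 30236869) (nat_lit 138) (nat_lit 5) (nat_lit 142) (nat_lit 5) (nat_lit 143) (nat_lit 5) (nat_lit 616) (nat_lit 520) (nat_lit 424)))) (XT.nd (nat_lit 156) (nat_lit 684) (nat_lit 0) (XT.nd (nat_lit 78) (nat_lit 380) (nat_lit 0) (XT.lf (nat_lit 0) (nat_lit 3643941024) (nat_lit 380) (nat_lit 2683001889) (nat_lit 76) (nat_lit 6652987826) (nat_lit 137) (nat_lit 5) (nat_lit 142)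 (nat_lit 5) (nat_lit 138) (nat_lit 5) (nat_lit 617) (nat_lit 520) (nat_lit 423)) (XT.lf (nat_lit 0) (nat_lit 5855707683) (nat_lit 380) (nat_lit 1549360164) (nat_lit 456) (nat_lit 5727251418) (nat_lit 132) (nat_lit 5) (nat_lit 137) (nat_lit 5) (nat_lit 138) (nat_lit 5) (nat_lit 618) (nat_lit 520) (nat_lit 422))) (XT.nd (nat_lit 78) (nat_lit 380) (nat_lit 0) (XT.lf (nat_lit 0) (nat_lit 1271007889) (nat_lit 304) (nat_lit 9994354812) (nat_lit 380) (nat_lit 2021915856) (nat_lit 128) (nat_lit 5) (nat_lit 132) (nat_lit 5) (nat_lit 133) (nat_lit 5) (nat_lit 619) (nat_lit 520) (nat_lit 421)) (XT.nd (nat_lit 78) (nat_lit 304) (nat_lit 0) (XT.lf (nat_lit 0) (nat_lit 1769945117) (nat_lit 380) (nat_lit 3416335578) (nat_lit 76) (nat_lit 8258120574) (nat_lit 127) (nat_lit 5) (nat_lit 132) (nat_lit 5) (nat_lit 128) (nat_lit 5) (nat_lit 620) (nat_lit 520) (nat_lit 420)) (XT.lf (nat_lit 0) (nat_lit 5375258259) (nat_lit 304) (nat_lit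 246761200) (nat_lit 380) (nat_lit 7982152483) (nat_lit 123) (nat_lit 5) (nat_lit 127) (nat_lit 5) (nat_lit 128) (nat_lit 5) (nat_lit 621) (nat_lit 520) (nat_lit 419)))))) (XT.nd (nat_lit 390) (nat_lit 1064) (nat_lit 0) (XT.nd (nat_lit 156) (nat_lit 228) (nat_lit 0) (XT.nd (nat_lit 78) (nat_lit 228) (nat_lit 0) (XT.lf (nat_lit 0) (nat_lit 1565783807) (nat_lit 0) (nat_lit 1565783807) (nat_lit 76) (nat_lit 90503471) (nat_lit 753) (nat_lit 5) (nat_lit 753) (nat_lit 3) (nat_lit 754) (nat_lit 0) (nat_lit 521) (nat_lit 521) (nat_lit 518)) (XT.lf (nat_lit 0) (nat_lit 2870184583) (nat_lit 228) (nat_lit 137709704) (nat_lit 228) (nat_lit 3438802240) (nat_lit 750) (nat_lit 3) (nat_lit 753) (nat_lit 3) (nat_lit 753) (nat_lit 5) (nat_lit 522) (nat_lit 521) (nat_lit 517))) (XT.nd (nat_lit 78) (nat_lit 228) (nat_lit 0) (XT.lf (nat_lit 76) (nat_lit 3099280150) (nat_lit 0) (nat_lit 2820802517) (nat_lit 228) (nat_lit 530416820) (nat_lit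 751) (nat_lit 5) (nat_lit 750) (nat_lit 3) (nat_lit 753) (nat_lit 5) (nat_lit 523) (nat_lit 521) (nat_lit 516)) (XT.nd (nat_lit 78) (nat_lit 0) (nat_lit 0) (XT.lf (nat_lit 0) (nat_lit 2464481026) (nat_lit 228) (nat_lit 109847219) (nat_lit 304) (nat_lit 3881304873) (nat_lit 747) (nat_lit 5) (nat_lit 750) (nat_lit 3) (nat_lit 751) (nat_lit 5) (nat_lit 524) (nat_lit 521) (nat_lit 515)) (XT.lf (nat_lit 76) (nat_lit 3193916108) (nat_lit 0) (nat_lit 2261299329) (nat_lit 304) (nat_lit 1006745259) (nat_lit 748) (nat_lit 5) (nat_lit 747) (nat_lit 5) (nat_lit 751) (nat_lit 5) (nat_lit 525) (nat_lit 521) (nat_lit 514))))) (XT.nd (nat_lit 156) (nat_lit 760) (nat_lit 0) (XT.nd (nat_lit 78) (nat_lit 0) (nat_lit 0) (XT.lf (nat_lit 76) (nat_lit 42581314) (nat_lit 0) (nat_lit 1892096506) (nat_lit 380) (nat_lit 4535012834) (nat_lit 744) (nat_lit 5) (nat_lit 743) (nat_lit 5) (nat_lit 748) (nat_lit 5) (nat_lit 526) (nat_lit 521) (nat_lit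 513)) (XT.lf (nat_lit 76) (nat_lit 3415648689) (nat_lit 0) (nat_lit 1451970209) (nat_lit 380) (nat_lit 1610920758) (nat_lit 744) (nat_lit 5) (nat_lit 743) (nat_lit 5) (nat_lit 748) (nat_lit 5) (nat_lit 527) (nat_lit 521) (nat_lit 512))) (XT.nd (nat_lit 78) (nat_lit 380) (nat_lit 0) (XT.lf (nat_lit 76) (nat_lit 322416680) (nat_lit 0) (nat_lit 958584109) (nat_lit 456) (nat_lit 5207860113) (nat_lit 739) (nat_lit 5) (nat_lit 738) (nat_lit 5) (nat_lit 744) (nat_lit 5) (nat_lit 528) (nat_lit 521) (nat_lit 511)) (XT.nd (nat_lit 78) (nat_lit 380) (nat_lit 0) (XT.lf (nat_lit 76) (nat_lit 3764893828) (nat_lit 0) (nat_lit 391242083) (nat_lit 456) (nat_lit 2344120516) (nat_lit 739) (nat_lit 5) (nat_lit 738) (nat_lit 5) (nat_lit 744) (nat_lit 5) (nat_lit 529) (nat_lit 521) (nat_lit 510)) (XT.lf (nat_lit 0) (nat_lit 502922339) (nat_lit 456) (nat_lit 5785924731) (nat_lit 76) (nat_lit 224304951) (nat_lit 733) (nat_lit 5) (nat_lit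 739) (nat_lit 5) (nat_lit 734) (nat_lit 5) (nat_lit 530) (nat_lit 521) (nat_lit 509))))))) (XT.nd (nat_lit 702) (nat_lit 6460) (nat_lit 0) (XT.nd (nat_lit 312) (nat_lit 2204) (nat_lit 0) (XT.nd (nat_lit 156) (nat_lit 608) (nat_lit 0) (XT.nd (nat_lit 78) (nat_lit 456) (nat_lit 0) (XT.lf (nat_lit 0) (nat_lit 3325356741) (nat_lit 456) (nat_lit 2290819446) (nat_lit 76) (nat_lit 910841264) (nat_lit 733) (nat_lit 5) (nat_lit 739) (nat_lit 5) (nat_lit 734) (nat_lit 5) (nat_lit 531) (nat_lit 521) (nat_lit 508)) (XT.lf (nat_lit 0) (nat_lit 1248610727) (nat_lit 456) (nat_lit 4893873980) (nat_lit 532) (nat_lit 399928809) (nat_lit 727) (nat_lit 5) (nat_lit 733) (nat_lit 5) (nat_lit 734) (nat_lit 5) (nat_lit 532) (nat_lit 521) (nat_lit 507))) (XT.nd (nat_lit 78) (nat_lit 532) (nat_lit 0) (XT.lf (nat_lit 0) (nat_lit 2371841458) (nat_lit 532) (nat_lit 1726602189) (nat_lit 76) (nat_lit 2460447440) (nat_lit 726) (nat_lit 5) (nat_lit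 733) (nat_lit 5) (nat_lit 727) (nat_lit 5) (nat_lit 533) (nat_lit 521) (nat_lit 506)) (XT.lf (nat_lit 0) (nat_lit 1892333173) (nat_lit 532) (nat_lit 3245772064) (nat_lit 608) (nat_lit 1438669010) (nat_lit 719) (nat_lit 5) (nat_lit 726) (nat_lit 5) (nat_lit 727) (nat_lit 5) (nat_lit 534) (nat_lit 521) (nat_lit 505)))) (XT.nd (nat_lit 156) (nat_lit 1520) (nat_lit 0) (XT.nd (nat_lit 78) (nat_lit 608) (nat_lit 0) (XT.lf (nat_lit 0) (nat_lit 1291168575) (nat_lit 608) (nat_lit 1039083395) (nat_lit 76) (nat_lit 4265714651) (nat_lit 718) (nat_lit 5) (nat_lit 726) (nat_lit 5) (nat_lit 719) (nat_lit 5) (nat_lit 535) (nat_lit 521) (nat_lit 504)) (XT.lf (nat_lit 0) (nat_lit 2662996459) (nat_lit 608) (nat_lit 1344693982) (nat_lit 684) (nat_lit 2608651364) (nat_lit 710) (nat_lit 5) (nat_lit 718) (nat_lit 5) (nat_lit 719) (nat_lit 5) (nat_lit 536) (nat_lit 521) (nat_lit 503))) (XT.nd (nat_lit 78) (nat_lit 1444) (nat_lit 0) (XT.lf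 (nat_lit 0) (nat_lit 81205251) (nat_lit 684) (nat_lit 226940294) (nat_lit 76) (nat_lit 6330143304) (nat_lit 709) (nat_lit 5) (nat_lit 718) (nat_lit 5) (nat_lit 710) (nat_lit 5) (nat_lit 537) (nat_lit 521) (nat_lit 502)) (XT.nd (nat_lit 78) (nat_lit 760) (nat_lit 0) (XT.lf (nat_lit 0) (nat_lit 2754272789) (nat_lit 760) (nat_lit 3104375288) (nat_lit 76) (nat_lit 802410269) (nat_lit 700) (nat_lit 5) (nat_lit 710) (nat_lit 5) (nat_lit 701) (nat_lit 5) (nat_lit 538) (nat_lit 521) (nat_lit 501)) (XT.lf (nat_lit 0) (nat_lit 699410098) (nat_lit 760) (nat_lit 4726543815) (nat_lit 836) (nat_lit 1259441224) (nat_lit 690) (nat_lit 5) (nat_lit 700) (nat_lit 5) (nat_lit 701) (nat_lit 5) (nat_lit 539) (nat_lit 521) (nat_lit 500)))))) (XT.nd (nat_lit 390) (nat_lit 3572) (nat_lit 0) (XT.nd (nat_lit 156) (nat_lit 1976) (nat_lit 0) (XT.nd (nat_lit 78) (nat_lit 836) (nat_lit 0) (XT.lf (nat_lit 0) (nat_lit 1380495737) (nat_lit 836)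 (nat_lit 2141021763) (nat_lit 76) (nat_lit 3189357580) (nat_lit 689) (nat_lit 5) (nat_lit 700) (nat_lit 5) (nat_lit 690) (nat_lit 5) (nat_lit 540) (nat_lit 521) (nat_lit 499)) (XT.lf (nat_lit 0) (nat_lit 1753260474) (nat_lit 836) (nat_lit 2253302999) (nat_lit 912) (nat_lit 2731144818) (nat_lit 678) (nat_lit 5) (nat_lit 689) (nat_lit 5) (nat_lit 690) (nat_lit 5) (nat_lit 541) (nat_lit 521) (nat_lit 498))) (XT.nd (nat_lit 78) (nat_lit 1976) (nat_lit 0) (XT.lf (nat_lit 0) (nat_lit 5712494365) (nat_lit 836) (nat_lit 926750097) (nat_lit 912) (nat_lit 126765677) (nat_lit 678) (nat_lit 5) (nat_lit 689) (nat_lit 5) (nat_lit 690) (nat_lit 5) (nat_lit 542) (nat_lit 521) (nat_lit 497)) (XT.nd (nat_lit 78) (nat_lit 988) (nat_lit 0) (XT.lf (nat_lit 0) (nat_lit 2459205955) (nat_lit 988) (nat_lit 3862307037) (nat_lit 76) (nat_lit 473796170) (nat_lit 665) (nat_lit 5) (nat_lit 678) (nat_lit 5) (nat_lit 666) (nat_lit 5) (nat_lit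 543) (nat_lit 521) (nat_lit 496)) (XT.lf (nat_lit 0) (nat_lit 140338559) (nat_lit 988) (nat_lit 4910535514) (nat_lit 1064) (nat_lit 1775202859) (nat_lit 652) (nat_lit 5) (nat_lit 665) (nat_lit 5) (nat_lit 666) (nat_lit 5) (nat_lit 544) (nat_lit 521) (nat_lit 495))))) (XT.nd (nat_lit 156) (nat_lit 2432) (nat_lit 0) (XT.nd (nat_lit 78) (nat_lit 1064) (nat_lit 0) (XT.lf (nat_lit 0) (nat_lit 794012401) (nat_lit 1064) (nat_lit 2630612960) (nat_lit 76) (nat_lit 3433377065) (nat_lit 651) (nat_lit 5) (nat_lit 665) (nat_lit 5) (nat_lit 652) (nat_lit 5) (nat_lit 545) (nat_lit 521) (nat_lit 494)) (XT.lf (nat_lit 0) (nat_lit 1470539683) (nat_lit 1064) (nat_lit 1872993282) (nat_lit 1140) (nat_lit 3547757228) (nat_lit 637) (nat_lit 5) (nat_lit 651) (nat_lit 5) (nat_lit 652) (nat_lit 5) (nat_lit 546) (nat_lit 521) (nat_lit 493))) (XT.nd (nat_lit 78) (nat_lit 2432) (nat_lit 0) (XT.lf (nat_lit 0) (nat_lit 5647048969) (nat_lit 1064)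 (nat_lit 258609266) (nat_lit 1140) (nat_lit 1020365217) (nat_lit 637) (nat_lit 5) (nat_lit 651) (nat_lit 5) (nat_lit 652) (nat_lit 5) (nat_lit 547) (nat_lit 521) (nat_lit 492)) (XT.nd (nat_lit 78) (nat_lit 1216) (nat_lit 0) (XT.lf (nat_lit 0) (nat_lit 1510156468) (nat_lit 1216) (nat_lit 4039543787) (nat_lit 76) (nat_lit 1412100228) (nat_lit 621) (nat_lit 5) (nat_lit 637) (nat_lit 5) (nat_lit 622) (nat_lit 5) (nat_lit 548) (nat_lit 521) (nat_lit 491)) (XT.lf (nat_lit 0) (nat_lit 177380724) (nat_lit 1216) (nat_lit 3857340078) (nat_lit 1292) (nat_lit 2964306793) (nat_lit 605) (nat_lit 5) (nat_lit 621) (nat_lit 5) (nat_lit 622) (nat_lit 5) (nat_lit 549) (nat_lit 521) (nat_lit 490))))))))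
noncomputable def xc75 : XT := (XT.nd (nat_lit 1482) (nat_lit 9120) (nat_lit 0) (XT.nd (nat_lit 702) (nat_lit 8968) (nat_lit 0) (XT.nd (nat_lit 312) (nat_lit 4712) (nat_lit 0) (XT.nd (nat_lit 156) (nat_lit 1368) (nat_lit 0) (XT.nd (nat_lit 78) (nat_lit 1368) (nat_lit 0) (XT.lf (nat_lit 0) (nat_lit 4490537946) (nat_lit 1216) (nat_lit 2092713124) (nat_lit 1292) (nat_lit 454289793) (nat_lit 605) (nat_lit 5) (nat_lit 621) (nat_lit 5) (nat_lit 622) (nat_lit 5) (nat_lit 550) (nat_lit 521) (nat_lit 489)) (XT.lf (nat_lit 0) (nat_lit 1780070141) (nat_lit 1292) (nat_lit 256855021) (nat_lit 1368) (nat_lit 5040464104) (nat_lit 587) (nat_lit 5) (nat_lit 604) (nat_lit 5) (nat_lit 605) (nat_lit 5) (nat_lit 551) (nat_lit 521) (nat_lit 488))) (XT.nd (nat_lit 78) (nat_lit 1368) (nat_lit 0) (XT.lf (nat_lit 0) (nat_lit 4547467768) (nat_lit 1368) (nat_lit 946667525) (nat_lit 76) (nat_lit 1624338029) (nat_lit 587) (nat_lit 5) (nat_lit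 605) (nat_lit 5) (nat_lit 588) (nat_lit 5) (nat_lit 552) (nat_lit 521) (nat_lit 487)) (XT.lf (nat_lit 0) (nat_lit 3492381031) (nat_lit 1368) (nat_lit 3589123287) (nat_lit 1444) (nat_lit 79419341) (nat_lit 569) (nat_lit 5) (nat_lit 587) (nat_lit 5) (nat_lit 588) (nat_lit 5) (nat_lit 553) (nat_lit 521) (nat_lit 486)))) (XT.nd (nat_lit 156) (nat_lit 3192) (nat_lit 0) (XT.nd (nat_lit 78) (nat_lit 0) (nat_lit 0) (XT.lf (nat_lit 0) (nat_lit 780029174) (nat_lit 1444) (nat_lit 1610429059) (nat_lit 1520) (nat_lit 4814239950) (nat_lit 549) (nat_lit 5) (nat_lit 568) (nat_lit 5) (nat_lit 569) (nat_lit 5) (nat_lit 554) (nat_lit 521) (nat_lit 485)) (XT.lf (nat_lit 0) (nat_lit 4886152446) (nat_lit 1520) (nat_lit 1928785621) (nat_lit 76) (nat_lit 434859652) (nat_lit 549) (nat_lit 5) (nat_lit 569) (nat_lit 5) (nat_lit 550) (nat_lit 5) (nat_lit 555) (nat_lit 521) (nat_lit 484))) (XT.nd (nat_lit 78) (nat_lit 1596) (nat_lit 0) (XT.lf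 (nat_lit 0) (nat_lit 112852756) (nat_lit 1596) (nat_lit 4659060284) (nat_lit 76) (nat_lit 2524304353) (nat_lit 528) (nat_lit 5) (nat_lit 549) (nat_lit 5) (nat_lit 529) (nat_lit 5) (nat_lit 556) (nat_lit 521) (nat_lit 483)) (XT.nd (nat_lit 78) (nat_lit 1596) (nat_lit 0) (XT.lf (nat_lit 0) (nat_lit 2571675689) (nat_lit 1596) (nat_lit 81886414) (nat_lit 76) (nat_lit 4690411112) (nat_lit 528) (nat_lit 5) (nat_lit 549) (nat_lit 5) (nat_lit 529) (nat_lit 5) (nat_lit 557) (nat_lit 521) (nat_lit 482)) (XT.lf (nat_lit 0) (nat_lit 4604668346) (nat_lit 1596) (nat_lit 457242199) (nat_lit 1672) (nat_lit 2331137832) (nat_lit 507) (nat_lit 5) (nat_lit 528) (nat_lit 5) (nat_lit 529) (nat_lit 5) (nat_lit 558) (nat_lit 521) (nat_lit 481)))))) (XT.nd (nat_lit 390) (nat_lit 3724) (nat_lit 0) (XT.nd (nat_lit 156) (nat_lit 3496) (nat_lit 0) (XT.nd (nat_lit 78) (nat_lit 0) (nat_lit 0) (XT.lf (nat_lit 0) (nat_lit 134185860) (nat_lit 1748)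 (nat_lit 5531215735) (nat_lit 76) (nat_lit 1778142927) (nat_lit 484) (nat_lit 5) (nat_lit 507) (nat_lit 5) (nat_lit 485) (nat_lit 5) (nat_lit 559) (nat_lit 521) (nat_lit 480)) (XT.lf (nat_lit 0) (nat_lit 2592851161) (nat_lit 1748) (nat_lit 812014242) (nat_lit 76) (nat_lit 4090380447) (nat_lit 484) (nat_lit 5) (nat_lit 507) (nat_lit 5) (nat_lit 485) (nat_lit 5) (nat_lit 560) (nat_lit 521) (nat_lit 479))) (XT.nd (nat_lit 78) (nat_lit 1748) (nat_lit 0) (XT.lf (nat_lit 0) (nat_lit 4011439997) (nat_lit 1748) (nat_lit 1069565664) (nat_lit 1824) (nat_lit 2467377479) (nat_lit 461) (nat_lit 5) (nat_lit 484) (nat_lit 5) (nat_lit 485) (nat_lit 5) (nat_lit 561) (nat_lit 521) (nat_lit 478)) (XT.nd (nat_lit 78) (nat_lit 76) (nat_lit 0) (XT.lf (nat_lit 0) (nat_lit 1305066777) (nat_lit 1672) (nat_lit 6291245309) (nat_lit 1748) (nat_lit 6731404) (nat_lit 439) (nat_lit 5) (nat_lit 461) (nat_lit 5) (nat_lit 462) (nat_lit 5) (nat_lit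 562) (nat_lit 521) (nat_lit 477)) (XT.lf (nat_lit 0) (nat_lit 2456484729) (nat_lit 1748) (nat_lit 1433659460) (nat_lit 76) (nat_lit 3768611874) (nat_lit 438) (nat_lit 5) (nat_lit 461) (nat_lit 5) (nat_lit 439) (nat_lit 5) (nat_lit 563) (nat_lit 521) (nat_lit 476))))) (XT.nd (nat_lit 156) (nat_lit 1824) (nat_lit 0) (XT.nd (nat_lit 78) (nat_lit 912) (nat_lit 0) (XT.lf (nat_lit 0) (nat_lit 3531365191) (nat_lit 988) (nat_lit 1416527082) (nat_lit 1064) (nat_lit 2768117004) (nat_lit 425) (nat_lit 5) (nat_lit 438) (nat_lit 5) (nat_lit 439) (nat_lit 5) (nat_lit 564) (nat_lit 521) (nat_lit 475)) (XT.lf (nat_lit 0) (nat_lit 800716224) (nat_lit 912) (nat_lit 6667158110) (nat_lit 988) (nat_lit 306965770) (nat_lit 413) (nat_lit 5) (nat_lit 425) (nat_lit 5) (nat_lit 426) (nat_lit 5) (nat_lit 565) (nat_lit 521) (nat_lit 474))) (XT.nd (nat_lit 78) (nat_lit 1748) (nat_lit 0) (XT.lf (nat_lit 0) (nat_lit 2169116075) (nat_lit 988)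 (nat_lit 1959390415) (nat_lit 76) (nat_lit 3706170009) (nat_lit 412) (nat_lit 5) (nat_lit 425) (nat_lit 5) (nat_lit 413) (nat_lit 5) (nat_lit 566) (nat_lit 521) (nat_lit 473)) (XT.nd (nat_lit 78) (nat_lit 836) (nat_lit 0) (XT.lf (nat_lit 0) (nat_lit 3152063085) (nat_lit 912) (nat_lit 1516816876) (nat_lit 988) (nat_lit 3227230710) (nat_lit 400) (nat_lit 5) (nat_lit 412) (nat_lit 5) (nat_lit 413) (nat_lit 5) (nat_lit 567) (nat_lit 521) (nat_lit 472)) (XT.lf (nat_lit 0) (nat_lit 387914687) (nat_lit 836) (nat_lit 6812272637) (nat_lit 912) (nat_lit 758962145) (nat_lit 389) (nat_lit 5) (nat_lit 400) (nat_lit 5) (nat_lit 401) (nat_lit 5) (nat_lit 568) (nat_lit 521) (nat_lit 471))))))) (XT.nd (nat_lit 702) (nat_lit 4940) (nat_lit 0) (XT.nd (nat_lit 312) (nat_lit 2432) (nat_lit 0) (XT.nd (nat_lit 156) (nat_lit 836) (nat_lit 0) (XT.nd (nat_lit 78) (nat_lit 836) (nat_lit 0) (XT.lf (nat_lit 0) (nat_lit 1736301346) (nat_lit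 912) (nat_lit 2401367967) (nat_lit 76) (nat_lit 3885544100) (nat_lit 388) (nat_lit 5) (nat_lit 400) (nat_lit 5) (nat_lit 389) (nat_lit 5) (nat_lit 569) (nat_lit 521) (nat_lit 470)) (XT.lf (nat_lit 0) (nat_lit 2861552454) (nat_lit 836) (nat_lit 1387759260) (nat_lit 912) (nat_lit 3839593015) (nat_lit 377) (nat_lit 5) (nat_lit 388) (nat_lit 5) (nat_lit 389) (nat_lit 5) (nat_lit 570) (nat_lit 521) (nat_lit 469))) (XT.nd (nat_lit 78) (nat_lit 76) (nat_lit 0) (XT.lf (nat_lit 0) (nat_lit 54748300) (nat_lit 760) (nat_lit 6743530375) (nat_lit 836) (nat_lit 1357923647) (nat_lit 367) (nat_lit 5) (nat_lit 377) (nat_lit 5) (nat_lit 378) (nat_lit 5) (nat_lit 571) (nat_lit 521) (nat_lit 468)) (XT.lf (nat_lit 0) (nat_lit 1162647770) (nat_lit 836) (nat_lit 2771443607) (nat_lit 76) (nat_lit 4290515100) (nat_lit 366) (nat_lit 5) (nat_lit 377) (nat_lit 5) (nat_lit 367) (nat_lit 5) (nat_lit 572) (nat_lit 521) (nat_lit 467)))) (XT.nd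 (nat_lit 156) (nat_lit 1596) (nat_lit 0) (XT.nd (nat_lit 78) (nat_lit 0) (nat_lit 0) (XT.lf (nat_lit 0) (nat_lit 2648152980) (nat_lit 836) (nat_lit 1045443532) (nat_lit 912) (nat_lit 4601045728) (nat_lit 355) (nat_lit 5) (nat_lit 366) (nat_lit 5) (nat_lit 367) (nat_lit 5) (nat_lit 573) (nat_lit 521) (nat_lit 466)) (XT.lf (nat_lit 0) (nat_lit 6267630436) (nat_lit 912) (nat_lit 207686103) (nat_lit 76) (nat_lit 1890918750) (nat_lit 355) (nat_lit 5) (nat_lit 367) (nat_lit 5) (nat_lit 356) (nat_lit 5) (nat_lit 574) (nat_lit 521) (nat_lit 465))) (XT.nd (nat_lit 78) (nat_lit 760) (nat_lit 0) (XT.lf (nat_lit 0) (nat_lit 451841719) (nat_lit 836) (nat_lit 3081257376) (nat_lit 76) (nat_lit 4906029637) (nat_lit 344) (nat_lit 5) (nat_lit 355) (nat_lit 5) (nat_lit 345) (nat_lit 5) (nat_lit 575) (nat_lit 521) (nat_lit 464)) (XT.nd (nat_lit 78) (nat_lit 0) (nat_lit 0) (XT.lf (nat_lit 0) (nat_lit 2500386587) (nat_lit 760) (nat_lit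 504848829) (nat_lit 836) (nat_lit 5508371977) (nat_lit 334) (nat_lit 5) (nat_lit 344) (nat_lit 5) (nat_lit 345) (nat_lit 5) (nat_lit 576) (nat_lit 521) (nat_lit 463)) (XT.lf (nat_lit 0) (nat_lit 5610092222) (nat_lit 836) (nat_lit 413682257) (nat_lit 76) (nat_lit 2565798687) (nat_lit 334) (nat_lit 5) (nat_lit 345) (nat_lit 5) (nat_lit 335) (nat_lit 5) (nat_lit 577) (nat_lit 521) (nat_lit 462)))))) (XT.nd (nat_lit 390) (nat_lit 1976) (nat_lit 0) (XT.nd (nat_lit 156) (nat_lit 1444) (nat_lit 0) (XT.nd (nat_lit 78) (nat_lit 836) (nat_lit 0) (XT.lf (nat_lit 0) (nat_lit 5322110902) (nat_lit 684) (nat_lit 2946367246) (nat_lit 760) (nat_lit 398556807) (nat_lit 325) (nat_lit 5) (nat_lit 334) (nat_lit 5) (nat_lit 335) (nat_lit 5) (nat_lit 578) (nat_lit 521) (nat_lit 461)) (XT.lf (nat_lit 0) (nat_lit 2188269859) (nat_lit 836) (nat_lit 6340668523) (nat_lit 76) (nat_lit 217150974) (nat_lit 314) (nat_lit 5) (nat_lit 325) (nat_lit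 5) (nat_lit 315) (nat_lit 5) (nat_lit 579) (nat_lit 521) (nat_lit 460))) (XT.nd (nat_lit 78) (nat_lit 1444) (nat_lit 0) (XT.lf (nat_lit 0) (nat_lit 4827738430) (nat_lit 836) (nat_lit 575266969) (nat_lit 76) (nat_lit 3423546947) (nat_lit 314) (nat_lit 5) (nat_lit 325) (nat_lit 5) (nat_lit 315) (nat_lit 5) (nat_lit 580) (nat_lit 521) (nat_lit 459)) (XT.nd (nat_lit 78) (nat_lit 760) (nat_lit 0) (XT.lf (nat_lit 0) (nat_lit 5333426237) (nat_lit 684) (nat_lit 2186031452) (nat_lit 760) (nat_lit 1389182611) (nat_lit 305) (nat_lit 5) (nat_lit 314) (nat_lit 5) (nat_lit 315) (nat_lit 5) (nat_lit 581) (nat_lit 521) (nat_lit 458)) (XT.lf (nat_lit 0) (nat_lit 1247398304) (nat_lit 760) (nat_lit 6643518034) (nat_lit 76) (nat_lit 1101464202) (nat_lit 295) (nat_lit 5) (nat_lit 305) (nat_lit 5) (nat_lit 296) (nat_lit 5) (nat_lit 582) (nat_lit 521) (nat_lit 457))))) (XT.nd (nat_lit 156) (nat_lit 1368) (nat_lit 0) (XT.nd (nat_lit 78)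 (nat_lit 608) (nat_lit 0) (XT.lf (nat_lit 0) (nat_lit 3922138251) (nat_lit 760) (nat_lit 703797940) (nat_lit 76) (nat_lit 4451599822) (nat_lit 295) (nat_lit 5) (nat_lit 305) (nat_lit 5) (nat_lit 296) (nat_lit 5) (nat_lit 583) (nat_lit 521) (nat_lit 456)) (XT.lf (nat_lit 0) (nat_lit 5383627758) (nat_lit 608) (nat_lit 1267761767) (nat_lit 684) (nat_lit 2512989293) (nat_lit 287) (nat_lit 5) (nat_lit 295) (nat_lit 5) (nat_lit 296) (nat_lit 5) (nat_lit 584) (nat_lit 521) (nat_lit 455))) (XT.nd (nat_lit 78) (nat_lit 608) (nat_lit 0) (XT.lf (nat_lit 0) (nat_lit 180132619) (nat_lit 760) (nat_lit 6930272312) (nat_lit 76) (nat_lit 2142529147) (nat_lit 277) (nat_lit 5) (nat_lit 287) (nat_lit 5) (nat_lit 278) (nat_lit 5) (nat_lit 585) (nat_lit 521) (nat_lit 454)) (XT.nd (nat_lit 78) (nat_lit 608) (nat_lit 0) (XT.lf (nat_lit 0) (nat_lit 2894005162) (nat_lit 760) (nat_lit 810784982) (nat_lit 76) (nat_lit 5638131631) (nat_lit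 277) (nat_lit 5) (nat_lit 287) (nat_lit 5) (nat_lit 278) (nat_lit 5) (nat_lit 586) (nat_lit 521) (nat_lit 453)) (XT.lf (nat_lit 0) (nat_lit 5461328418) (nat_lit 608) (nat_lit 203511815) (nat_lit 684) (nat_lit 3769819502) (nat_lit 269) (nat_lit 5) (nat_lit 277) (nat_lit 5) (nat_lit 278) (nat_lit 5) (nat_lit 587) (nat_lit 521) (nat_lit 452))))))))
noncomputable def xc76 : XT := (XT.nd (nat_lit 1482) (nat_lit 3648) (nat_lit 0) (XT.nd (nat_lit 702) (nat_lit 3572) (nat_lit 0) (XT.nd (nat_lit 312) (nat_lit 1748) (nat_lit 0) (XT.nd (nat_lit 156) (nat_lit 1140) (nat_lit 0) (XT.nd (nat_lit 78) (nat_lit 76) (nat_lit 0) (XT.lf (nat_lit 0) (nat_lit 2308410960) (nat_lit 608) (nat_lit 6192557099) (nat_lit 684) (nat_lit 1027071001) (nat_lit 261) (nat_lit 5) (nat_lit 269) (nat_lit 5) (nat_lit 270) (nat_lit 5) (nat_lit 588) (nat_lit 521) (nat_lit 451)) (XT.lf (nat_lit 0) (nat_lit 1743195473) (nat_lit 684) (nat_lit 907996863) (nat_lit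 76) (nat_lit 6971950016) (nat_lit 260) (nat_lit 5) (nat_lit 269) (nat_lit 5) (nat_lit 261) (nat_lit 5) (nat_lit 589) (nat_lit 521) (nat_lit 450))) (XT.nd (nat_lit 78) (nat_lit 608) (nat_lit 0) (XT.lf (nat_lit 0) (nat_lit 4565985748) (nat_lit 608) (nat_lit 4171522756) (nat_lit 76) (nat_lit 982289896) (nat_lit 253) (nat_lit 5) (nat_lit 261) (nat_lit 5) (nat_lit 254) (nat_lit 5) (nat_lit 590) (nat_lit 521) (nat_lit 449)) (XT.lf (nat_lit 0) (nat_lit 2298919338) (nat_lit 608) (nat_lit 5153554175) (nat_lit 684) (nat_lit 2365773035) (nat_lit 245) (nat_lit 5) (nat_lit 253) (nat_lit 5) (nat_lit 254) (nat_lit 5) (nat_lit 591) (nat_lit 521) (nat_lit 448)))) (XT.nd (nat_lit 156) (nat_lit 1140) (nat_lit 0) (XT.nd (nat_lit 78) (nat_lit 532) (nat_lit 0) (XT.lf (nat_lit 0) (nat_lit 468700317) (nat_lit 684) (nat_lit 1007572747) (nat_lit 76) (nat_lit 8442393339) (nat_lit 244) (nat_lit 5) (nat_lit 253) (nat_lit 5) (nat_lit 245) (nat_lit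 5) (nat_lit 592) (nat_lit 521) (nat_lit 447)) (XT.lf (nat_lit 0) (nat_lit 3349338579) (nat_lit 608) (nat_lit 4383516408) (nat_lit 76) (nat_lit 2287507443) (nat_lit 237) (nat_lit 5) (nat_lit 245) (nat_lit 5) (nat_lit 238) (nat_lit 5) (nat_lit 593) (nat_lit 521) (nat_lit 446))) (XT.nd (nat_lit 78) (nat_lit 608) (nat_lit 0) (XT.lf (nat_lit 0) (nat_lit 2283016255) (nat_lit 532) (nat_lit 4005627600) (nat_lit 608) (nat_lit 3835430959) (nat_lit 230) (nat_lit 5) (nat_lit 237) (nat_lit 5) (nat_lit 238) (nat_lit 5) (nat_lit 594) (nat_lit 521) (nat_lit 445)) (XT.nd (nat_lit 78) (nat_lit 608) (nat_lit 0) (XT.lf (nat_lit 0) (nat_lit 9101610330) (nat_lit 532) (nat_lit 184520185) (nat_lit 608) (nat_lit 943746479) (nat_lit 230) (nat_lit 5) (nat_lit 237) (nat_lit 5) (nat_lit 238) (nat_lit 5) (nat_lit 595) (nat_lit 521) (nat_lit 444)) (XT.lf (nat_lit 0) (nat_lit 2011479623) (nat_lit 608) (nat_lit 4620995270) (nat_lit 76) (nat_lit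 3704422907) (nat_lit 222) (nat_lit 5) (nat_lit 230) (nat_lit 5) (nat_lit 223) (nat_lit 5) (nat_lit 596) (nat_lit 521) (nat_lit 443)))))) (XT.nd (nat_lit 390) (nat_lit 1976) (nat_lit 0) (XT.nd (nat_lit 156) (nat_lit 1064) (nat_lit 0) (XT.nd (nat_lit 78) (nat_lit 0) (nat_lit 0) (XT.lf (nat_lit 0) (nat_lit 2247756044) (nat_lit 532) (nat_lit 2759488084) (nat_lit 608) (nat_lit 5438811973) (nat_lit 215) (nat_lit 5) (nat_lit 222) (nat_lit 5) (nat_lit 223) (nat_lit 5) (nat_lit 597) (nat_lit 521) (nat_lit 442)) (XT.lf (nat_lit 0) (nat_lit 8072734353) (nat_lit 608) (nat_lit 1288982021) (nat_lit 76) (nat_lit 1195488174) (nat_lit 215) (nat_lit 5) (nat_lit 223) (nat_lit 5) (nat_lit 216) (nat_lit 5) (nat_lit 598) (nat_lit 521) (nat_lit 441))) (XT.nd (nat_lit 78) (nat_lit 532) (nat_lit 0) (XT.lf (nat_lit 0) (nat_lit 549409188) (nat_lit 532) (nat_lit 4897636556) (nat_lit 76) (nat_lit 5222916838) (nat_lit 208) (nat_lit 5) (nat_lit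 215) (nat_lit 5) (nat_lit 209) (nat_lit 5) (nat_lit 599) (nat_lit 521) (nat_lit 440)) (XT.nd (nat_lit 78) (nat_lit 0) (nat_lit 0) (XT.lf (nat_lit 0) (nat_lit 2179497446) (nat_lit 532) (nat_lit 1425637089) (nat_lit 608) (nat_lit 7179627091) (nat_lit 201) (nat_lit 5) (nat_lit 208) (nat_lit 5) (nat_lit 209) (nat_lit 5) (nat_lit 600) (nat_lit 521) (nat_lit 439)) (XT.lf (nat_lit 0) (nat_lit 6744203327) (nat_lit 608) (nat_lit 1494562333) (nat_lit 76) (nat_lit 2662649359) (nat_lit 201) (nat_lit 5) (nat_lit 209) (nat_lit 5) (nat_lit 202) (nat_lit 5) (nat_lit 601) (nat_lit 521) (nat_lit 438))))) (XT.nd (nat_lit 156) (nat_lit 988) (nat_lit 0) (XT.nd (nat_lit 78) (nat_lit 532) (nat_lit 0) (XT.lf (nat_lit 0) (nat_lit 5785245050) (nat_lit 456) (nat_lit 4180134829) (nat_lit 532) (nat_lit 1054637963) (nat_lit 195) (nat_lit 5) (nat_lit 201) (nat_lit 5) (nat_lit 202) (nat_lit 5) (nat_lit 602) (nat_lit 521) (nat_lit 437)) (XT.lf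 (nat_lit 0) (nat_lit 2063765641) (nat_lit 456) (nat_lit 14470679) (nat_lit 532) (nat_lit 9062566753) (nat_lit 188) (nat_lit 5) (nat_lit 194) (nat_lit 5) (nat_lit 195) (nat_lit 5) (nat_lit 603) (nat_lit 521) (nat_lit 436))) (XT.nd (nat_lit 78) (nat_lit 988) (nat_lit 0) (XT.lf (nat_lit 0) (nat_lit 5295146851) (nat_lit 532) (nat_lit 1758637944) (nat_lit 76) (nat_lit 4209372505) (nat_lit 188) (nat_lit 5) (nat_lit 195) (nat_lit 5) (nat_lit 189) (nat_lit 5) (nat_lit 604) (nat_lit 521) (nat_lit 435)) (XT.nd (nat_lit 78) (nat_lit 532) (nat_lit 0) (XT.lf (nat_lit 0) (nat_lit 5742266277) (nat_lit 456) (nat_lit 2844677571) (nat_lit 532) (nat_lit 2800806466) (nat_lit 182) (nat_lit 5) (nat_lit 188) (nat_lit 5) (nat_lit 189) (nat_lit 5) (nat_lit 605) (nat_lit 521) (nat_lit 434)) (XT.lf (nat_lit 0) (nat_lit 430992503) (nat_lit 532) (nat_lit 9639232683) (nat_lit 76) (nat_lit 1444419025) (nat_lit 175) (nat_lit 5) (nat_lit 182)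 (nat_lit 5) (nat_lit 176) (nat_lit 5) (nat_lit 606) (nat_lit 521) (nat_lit 433))))))) (XT.nd (nat_lit 702) (nat_lit 1140) (nat_lit 0) (XT.nd (nat_lit 312) (nat_lit 1596) (nat_lit 0) (XT.nd (nat_lit 156) (nat_lit 532) (nat_lit 0) (XT.nd (nat_lit 78) (nat_lit 380) (nat_lit 0) (XT.lf (nat_lit 0) (nat_lit 3720389712) (nat_lit 532) (nat_lit 2097077648) (nat_lit 76) (nat_lit 5825631574) (nat_lit 175) (nat_lit 5) (nat_lit 182) (nat_lit 5) (nat_lit 176) (nat_lit 5) (nat_lit 607) (nat_lit 521) (nat_lit 432)) (XT.lf (nat_lit 0) (nat_lit 5631174179) (nat_lit 380) (nat_lit 1454938492) (nat_lit 456) (nat_lit 4687801790) (nat_lit 170) (nat_lit 5) (nat_lit 175) (nat_lit 5) (nat_lit 176) (nat_lit 5) (nat_lit 608) (nat_lit 521) (nat_lit 431))) (XT.nd (nat_lit 78) (nat_lit 76) (nat_lit 0) (XT.lf (nat_lit 0) (nat_lit 1597990699) (nat_lit 456) (nat_lit 8939300872) (nat_lit 532) (nat_lit 1369694316) (nat_lit 164) (nat_lit 5) (nat_lit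 170) (nat_lit 5) (nat_lit 171) (nat_lit 5) (nat_lit 609) (nat_lit 521) (nat_lit 430)) (XT.lf (nat_lit 0) (nat_lit 2013721418) (nat_lit 532) (nat_lit 2526952840) (nat_lit 76) (nat_lit 7501277777) (nat_lit 163) (nat_lit 5) (nat_lit 170) (nat_lit 5) (nat_lit 164) (nat_lit 5) (nat_lit 610) (nat_lit 521) (nat_lit 429)))) (XT.nd (nat_lit 156) (nat_lit 836) (nat_lit 0) (XT.nd (nat_lit 78) (nat_lit 380) (nat_lit 0) (XT.lf (nat_lit 0) (nat_lit 5434828794) (nat_lit 380) (nat_lit 21686093) (nat_lit 456) (nat_lit 6722722831) (nat_lit 158) (nat_lit 5) (nat_lit 163) (nat_lit 5) (nat_lit 164) (nat_lit 5) (nat_lit 611) (nat_lit 521) (nat_lit 428)) (XT.lf (nat_lit 0) (nat_lit 1218980535) (nat_lit 380) (nat_lit 7778865764) (nat_lit 456) (nat_lit 3320831408) (nat_lit 153) (nat_lit 5) (nat_lit 158) (nat_lit 5) (nat_lit 159) (nat_lit 5) (nat_lit 612) (nat_lit 521) (nat_lit 427))) (XT.nd (nat_lit 78) (nat_lit 760) (nat_lit 0) (XT.lf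 (nat_lit 0) (nat_lit 167834509) (nat_lit 456) (nat_lit 3066713016) (nat_lit 76) (nat_lit 9225927915) (nat_lit 152) (nat_lit 5) (nat_lit 158) (nat_lit 5) (nat_lit 153) (nat_lit 5) (nat_lit 613) (nat_lit 521) (nat_lit 426)) (XT.nd (nat_lit 78) (nat_lit 380) (nat_lit 0) (XT.lf (nat_lit 0) (nat_lit 3700043138) (nat_lit 456) (nat_lit 7479197907) (nat_lit 76) (nat_lit 1425066465) (nat_lit 147) (nat_lit 5) (nat_lit 153) (nat_lit 5) (nat_lit 148) (nat_lit 5) (nat_lit 614) (nat_lit 521) (nat_lit 425)) (XT.lf (nat_lit 0) (nat_lit 721881100) (nat_lit 380) (nat_lit 6603472064) (nat_lit 456) (nat_lit 5425215979) (nat_lit 142) (nat_lit 5) (nat_lit 147) (nat_lit 5) (nat_lit 148) (nat_lit 5) (nat_lit 615) (nat_lit 521) (nat_lit 424)))))) (XT.nd (nat_lit 390) (nat_lit 76) (nat_lit 0) (XT.nd (nat_lit 156) (nat_lit 684) (nat_lit 0) (XT.nd (nat_lit 78) (nat_lit 380) (nat_lit 0) (XT.lf (nat_lit 0) (nat_lit 9150849118) (nat_lit 380)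 (nat_lit 1898377724) (nat_lit 456) (nat_lit 1850010039) (nat_lit 142) (nat_lit 5) (nat_lit 147) (nat_lit 5) (nat_lit 148) (nat_lit 5) (nat_lit 616) (nat_lit 521) (nat_lit 423)) (XT.lf (nat_lit 0) (nat_lit 1798930134) (nat_lit 380) (nat_lit 8359004167) (nat_lit 76) (nat_lit 2892196428) (nat_lit 137) (nat_lit 5) (nat_lit 142) (nat_lit 5) (nat_lit 138) (nat_lit 5) (nat_lit 617) (nat_lit 521) (nat_lit 422))) (XT.nd (nat_lit 78) (nat_lit 304) (nat_lit 0) (XT.lf (nat_lit 0) (nat_lit 85592949) (nat_lit 380) (nat_lit 5425279923) (nat_lit 456) (nat_lit 7692631008) (nat_lit 132) (nat_lit 5) (nat_lit 137) (nat_lit 5) (nat_lit 138) (nat_lit 5) (nat_lit 618) (nat_lit 521) (nat_lit 421)) (XT.nd (nat_lit 78) (nat_lit 304) (nat_lit 0) (XT.lf (nat_lit 0) (nat_lit 8775394066) (nat_lit 380) (nat_lit 554301984) (nat_lit 456) (nat_lit 4029597482) (nat_lit 132) (nat_lit 5) (nat_lit 137) (nat_lit 5) (nat_lit 138) (nat_lit 5) (nat_lit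 619) (nat_lit 521) (nat_lit 420)) (XT.lf (nat_lit 0) (nat_lit 4109381795) (nat_lit 304) (nat_lit 9147775853) (nat_lit 380) (nat_lit 260397922) (nat_lit 128) (nat_lit 5) (nat_lit 132) (nat_lit 5) (nat_lit 133) (nat_lit 5) (nat_lit 620) (nat_lit 521) (nat_lit 419))))) (XT.nd (nat_lit 73554) (nat_lit 0) (nat_lit 46816) (XT.nd (nat_lit 73476) (nat_lit 0) (nat_lit 47348) (XT.lf (nat_lit 0) (nat_lit 3548798207) (nat_lit 380) (nat_lit 703561494) (nat_lit 76) (nat_lit 9425927095) (nat_lit 127) (nat_lit 5) (nat_lit 132) (nat_lit 5) (nat_lit 128) (nat_lit 5) (nat_lit 621) (nat_lit 521) (nat_lit 418)) (XT.lf (nat_lit 0) (nat_lit 2939694541) (nat_lit 228) (nat_lit 142660557) (nat_lit 228) (nat_lit 142660557) (nat_lit 750) (nat_lit 3) (nat_lit 753) (nat_lit 3) (nat_lit 753) (nat_lit 5) (nat_lit 522) (nat_lit 522) (nat_lit 516))) (XT.nd (nat_lit 78) (nat_lit 304) (nat_lit 0) (XT.lf (nat_lit 0) (nat_lit 2402773272) (nat_lit 228)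 (nat_lit 3540820686) (nat_lit 304) (nat_lit 510734357) (nat_lit 747) (nat_lit 5) (nat_lit 750) (nat_lit 3) (nat_lit 751) (nat_lit 5) (nat_lit 523) (nat_lit 522) (nat_lit 515)) (XT.nd (nat_lit 78) (nat_lit 304) (nat_lit 0) (XT.lf (nat_lit 0) (nat_lit 5352247888) (nat_lit 228) (nat_lit 323096506) (nat_lit 304) (nat_lit 784829007) (nat_lit 747) (nat_lit 5) (nat_lit 750) (nat_lit 3) (nat_lit 751) (nat_lit 5) (nat_lit 524) (nat_lit 522) (nat_lit 514)) (XT.lf (nat_lit 0) (nat_lit 1812354642) (nat_lit 304) (nat_lit 3521458410) (nat_lit 380) (nat_lit 1133245156) (nat_lit 743) (nat_lit 5) (nat_lit 747) (nat_lit 5) (nat_lit 748) (nat_lit 5) (nat_lit 525) (nat_lit 522) (nat_lit 513))))))))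
noncomputable def xc77 : XT := (XT.nd (nat_lit 1482) (nat_lit 17176) (nat_lit 0) (XT.nd (nat_lit 702) (nat_lit 4104) (nat_lit 0) (XT.nd (nat_lit 312) (nat_lit 1064) (nat_lit 0) (XT.nd (nat_lit 156) (nat_lit 456) (nat_lit 0) (XT.nd (nat_lit 78) (nat_lit 380) (nat_lit 0) (XT.lf (nat_lit 0) (nat_lit 4702940709) (nat_lit 304) (nat_lit 238111888) (nat_lit 380) (nat_lit 1534367869) (nat_lit 743) (nat_lit 5) (nat_lit 747) (nat_lit 5) (nat_lit 748) (nat_lit 5) (nat_lit 526) (nat_lit 522) (nat_lit 512)) (XT.lf (nat_lit 0) (nat_lit 1097923777) (nat_lit 380) (nat_lit 3380529800) (nat_lit 456) (nat_lit 2006448010) (nat_lit 738) (nat_lit 5) (nat_lit 743) (nat_lit 5) (nat_lit 744) (nat_lit 5) (nat_lit 527) (nat_lit 522) (nat_lit 511))) (XT.nd (nat_lit 78) (nat_lit 456) (nat_lit 0) (XT.lf (nat_lit 0) (nat_lit 3930342078) (nat_lit 380) (nat_lit 30060309) (nat_lit 456) (nat_lit 2535388542) (nat_lit 738) (nat_lit 5) (nat_lit 743)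 (nat_lit 5) (nat_lit 744) (nat_lit 5) (nat_lit 528) (nat_lit 522) (nat_lit 510)) (XT.lf (nat_lit 0) (nat_lit 258232715) (nat_lit 456) (nat_lit 3117613421) (nat_lit 532) (nat_lit 3132033889) (nat_lit 732) (nat_lit 5) (nat_lit 738) (nat_lit 5) (nat_lit 739) (nat_lit 5) (nat_lit 529) (nat_lit 522) (nat_lit 509)))) (XT.nd (nat_lit 156) (nat_lit 1064) (nat_lit 0) (XT.nd (nat_lit 78) (nat_lit 0) (nat_lit 0) (XT.lf (nat_lit 76) (nat_lit 305609847) (nat_lit 0) (nat_lit 2729457301) (nat_lit 532) (nat_lit 3486202578) (nat_lit 733) (nat_lit 5) (nat_lit 732) (nat_lit 5) (nat_lit 739) (nat_lit 5) (nat_lit 530) (nat_lit 522) (nat_lit 508)) (XT.lf (nat_lit 76) (nat_lit 3799216926) (nat_lit 0) (nat_lit 2019087315) (nat_lit 532) (nat_lit 717623883) (nat_lit 733) (nat_lit 5) (nat_lit 732) (nat_lit 5) (nat_lit 739) (nat_lit 5) (nat_lit 531) (nat_lit 522) (nat_lit 507))) (XT.nd (nat_lit 78) (nat_lit 532) (nat_lit 0) (XT.lf (nat_lit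 76) (nat_lit 767723354) (nat_lit 0) (nat_lit 1246809046) (nat_lit 608) (nat_lit 4537374676) (nat_lit 726) (nat_lit 5) (nat_lit 725) (nat_lit 5) (nat_lit 733) (nat_lit 5) (nat_lit 532) (nat_lit 522) (nat_lit 506)) (XT.nd (nat_lit 78) (nat_lit 532) (nat_lit 0) (XT.lf (nat_lit 76) (nat_lit 4334307899) (nat_lit 0) (nat_lit 407698532) (nat_lit 608) (nat_lit 1827115806) (nat_lit 726) (nat_lit 5) (nat_lit 725) (nat_lit 5) (nat_lit 733) (nat_lit 5) (nat_lit 533) (nat_lit 522) (nat_lit 505)) (XT.lf (nat_lit 0) (nat_lit 869864728) (nat_lit 608) (nat_lit 5234014767) (nat_lit 76) (nat_lit 483800795) (nat_lit 718) (nat_lit 5) (nat_lit 726) (nat_lit 5) (nat_lit 719) (nat_lit 5) (nat_lit 534) (nat_lit 522) (nat_lit 504)))))) (XT.nd (nat_lit 390) (nat_lit 2660) (nat_lit 0) (XT.nd (nat_lit 156) (nat_lit 836) (nat_lit 0) (XT.nd (nat_lit 78) (nat_lit 608) (nat_lit 0) (XT.lf (nat_lit 0) (nat_lit 3548182110) (nat_lit 608) (nat_lit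 1618583547) (nat_lit 76) (nat_lit 1440581237) (nat_lit 718) (nat_lit 5) (nat_lit 726) (nat_lit 5) (nat_lit 719) (nat_lit 5) (nat_lit 535) (nat_lit 522) (nat_lit 503)) (XT.lf (nat_lit 0) (nat_lit 2055344820) (nat_lit 608) (nat_lit 4173402308) (nat_lit 684) (nat_lit 399701941) (nat_lit 710) (nat_lit 5) (nat_lit 718) (nat_lit 5) (nat_lit 719) (nat_lit 5) (nat_lit 536) (nat_lit 522) (nat_lit 502))) (XT.nd (nat_lit 78) (nat_lit 760) (nat_lit 0) (XT.lf (nat_lit 0) (nat_lit 2229453538) (nat_lit 684) (nat_lit 881519640) (nat_lit 76) (nat_lit 3539778252) (nat_lit 709) (nat_lit 5) (nat_lit 718) (nat_lit 5) (nat_lit 710) (nat_lit 5) (nat_lit 537) (nat_lit 522) (nat_lit 501)) (XT.nd (nat_lit 78) (nat_lit 76) (nat_lit 0) (XT.lf (nat_lit 0) (nat_lit 2878445541) (nat_lit 684) (nat_lit 1983249788) (nat_lit 760) (nat_lit 1812649513) (nat_lit 700) (nat_lit 5) (nat_lit 709) (nat_lit 5) (nat_lit 710) (nat_lit 5) (nat_lit 538) (nat_lit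 522) (nat_lit 500)) (XT.lf (nat_lit 0) (nat_lit 780710335) (nat_lit 760) (nat_lit 19409432) (nat_lit 76) (nat_lit 5899321338) (nat_lit 699) (nat_lit 5) (nat_lit 709) (nat_lit 5) (nat_lit 700) (nat_lit 5) (nat_lit 539) (nat_lit 522) (nat_lit 499))))) (XT.nd (nat_lit 156) (nat_lit 1064) (nat_lit 0) (XT.nd (nat_lit 78) (nat_lit 836) (nat_lit 0) (XT.lf (nat_lit 0) (nat_lit 3368507467) (nat_lit 836) (nat_lit 2898037032) (nat_lit 76) (nat_lit 458932420) (nat_lit 689) (nat_lit 5) (nat_lit 700) (nat_lit 5) (nat_lit 690) (nat_lit 5) (nat_lit 540) (nat_lit 522) (nat_lit 498)) (XT.lf (nat_lit 0) (nat_lit 965414521) (nat_lit 836) (nat_lit 4994340970) (nat_lit 912) (nat_lit 793257872) (nat_lit 678) (nat_lit 5) (nat_lit 689) (nat_lit 5) (nat_lit 690) (nat_lit 5) (nat_lit 541) (nat_lit 522) (nat_lit 497))) (XT.nd (nat_lit 78) (nat_lit 988) (nat_lit 0) (XT.lf (nat_lit 0) (nat_lit 1757913471) (nat_lit 912) (nat_lit 1889186895)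 (nat_lit 76) (nat_lit 3134575329) (nat_lit 677) (nat_lit 5) (nat_lit 689) (nat_lit 5) (nat_lit 678) (nat_lit 5) (nat_lit 542) (nat_lit 522) (nat_lit 496)) (XT.nd (nat_lit 78) (nat_lit 76) (nat_lit 0) (XT.lf (nat_lit 0) (nat_lit 2067946303) (nat_lit 912) (nat_lit 2236644932) (nat_lit 988) (nat_lit 2507126091) (nat_lit 665) (nat_lit 5) (nat_lit 677) (nat_lit 5) (nat_lit 678) (nat_lit 5) (nat_lit 543) (nat_lit 522) (nat_lit 495)) (XT.lf (nat_lit 0) (nat_lit 13973113) (nat_lit 988) (nat_lit 754374015) (nat_lit 76) (nat_lit 6074919095) (nat_lit 664) (nat_lit 5) (nat_lit 677) (nat_lit 5) (nat_lit 665) (nat_lit 5) (nat_lit 544) (nat_lit 522) (nat_lit 494))))))) (XT.nd (nat_lit 702) (nat_lit 9880) (nat_lit 0) (XT.nd (nat_lit 312) (nat_lit 4028) (nat_lit 0) (XT.nd (nat_lit 156) (nat_lit 1216) (nat_lit 0) (XT.nd (nat_lit 78) (nat_lit 1064) (nat_lit 0) (XT.lf (nat_lit 0) (nat_lit 2521763888) (nat_lit 1064) (nat_lit 3580235390)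 (nat_lit 76) (nat_lit 773730842) (nat_lit 651) (nat_lit 5) (nat_lit 665) (nat_lit 5) (nat_lit 652) (nat_lit 5) (nat_lit 545) (nat_lit 522) (nat_lit 493)) (XT.lf (nat_lit 0) (nat_lit 487344270) (nat_lit 1064) (nat_lit 4549950833) (nat_lit 1140) (nat_lit 1872408523) (nat_lit 637) (nat_lit 5) (nat_lit 651) (nat_lit 5) (nat_lit 652) (nat_lit 5) (nat_lit 546) (nat_lit 522) (nat_lit 492))) (XT.nd (nat_lit 78) (nat_lit 1140) (nat_lit 0) (XT.lf (nat_lit 0) (nat_lit 619009508) (nat_lit 1140) (nat_lit 2305747711) (nat_lit 76) (nat_lit 4020148011) (nat_lit 636) (nat_lit 5) (nat_lit 651) (nat_lit 5) (nat_lit 637) (nat_lit 5) (nat_lit 547) (nat_lit 522) (nat_lit 491)) (XT.lf (nat_lit 0) (nat_lit 1863826983) (nat_lit 1140) (nat_lit 1229251436) (nat_lit 1216) (nat_lit 3888338363) (nat_lit 621) (nat_lit 5) (nat_lit 636) (nat_lit 5) (nat_lit 637) (nat_lit 5) (nat_lit 548) (nat_lit 522) (nat_lit 490)))) (XT.nd (nat_lit 156) (nat_lit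 2736) (nat_lit 0) (XT.nd (nat_lit 78) (nat_lit 1292) (nat_lit 0) (XT.lf (nat_lit 0) (nat_lit 5582096834) (nat_lit 1216) (nat_lit 915951495) (nat_lit 76) (nat_lit 521311982) (nat_lit 621) (nat_lit 5) (nat_lit 637) (nat_lit 5) (nat_lit 622) (nat_lit 5) (nat_lit 549) (nat_lit 522) (nat_lit 489)) (XT.lf (nat_lit 0) (nat_lit 1026410262) (nat_lit 1292) (nat_lit 3701042756) (nat_lit 76) (nat_lit 2330932023) (nat_lit 604) (nat_lit 5) (nat_lit 621) (nat_lit 5) (nat_lit 605) (nat_lit 5) (nat_lit 550) (nat_lit 522) (nat_lit 488))) (XT.nd (nat_lit 78) (nat_lit 1444) (nat_lit 0) (XT.lf (nat_lit 0) (nat_lit 586687411) (nat_lit 1292) (nat_lit 2891537365) (nat_lit 1368) (nat_lit 3620623707) (nat_lit 587) (nat_lit 5) (nat_lit 604) (nat_lit 5) (nat_lit 605) (nat_lit 5) (nat_lit 551) (nat_lit 522) (nat_lit 487)) (XT.nd (nat_lit 78) (nat_lit 1444) (nat_lit 0) (XT.lf (nat_lit 0) (nat_lit 4968717778) (nat_lit 1292) (nat_lit 984039073)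 (nat_lit 1368) (nat_lit 1187900979) (nat_lit 587) (nat_lit 5) (nat_lit 604) (nat_lit 5) (nat_lit 605) (nat_lit 5) (nat_lit 552) (nat_lit 522) (nat_lit 486)) (XT.lf (nat_lit 0) (nat_lit 1246979794) (nat_lit 1444) (nat_lit 4955813103) (nat_lit 76) (nat_lit 980943012) (nat_lit 568) (nat_lit 5) (nat_lit 587) (nat_lit 5) (nat_lit 569) (nat_lit 5) (nat_lit 553) (nat_lit 522) (nat_lit 485)))))) (XT.nd (nat_lit 390) (nat_lit 5244) (nat_lit 0) (XT.nd (nat_lit 156) (nat_lit 3192) (nat_lit 0) (XT.nd (nat_lit 78) (nat_lit 1444) (nat_lit 0) (XT.lf (nat_lit 0) (nat_lit 3686139588) (nat_lit 1444) (nat_lit 538915618) (nat_lit 76) (nat_lit 3003043225) (nat_lit 568) (nat_lit 5) (nat_lit 587) (nat_lit 5) (nat_lit 569) (nat_lit 5) (nat_lit 554) (nat_lit 522) (nat_lit 484)) (XT.lf (nat_lit 0) (nat_lit 3977032771) (nat_lit 1444) (nat_lit 2174130490) (nat_lit 1520) (nat_lit 1122652810) (nat_lit 549) (nat_lit 5) (nat_lit 568) (nat_lit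 5) (nat_lit 569) (nat_lit 5) (nat_lit 555) (nat_lit 522) (nat_lit 483))) (XT.nd (nat_lit 78) (nat_lit 1596) (nat_lit 0) (XT.lf (nat_lit 0) (nat_lit 1235855236) (nat_lit 1520) (nat_lit 54828147) (nat_lit 1596) (nat_lit 6030333446) (nat_lit 528) (nat_lit 5) (nat_lit 548) (nat_lit 5) (nat_lit 549) (nat_lit 5) (nat_lit 556) (nat_lit 522) (nat_lit 482)) (XT.nd (nat_lit 78) (nat_lit 1596) (nat_lit 0) (XT.lf (nat_lit 0) (nat_lit 3725555734) (nat_lit 1596) (nat_lit 1528697901) (nat_lit 76) (nat_lit 2115002450) (nat_lit 528) (nat_lit 5) (nat_lit 549) (nat_lit 5) (nat_lit 529) (nat_lit 5) (nat_lit 557) (nat_lit 522) (nat_lit 481)) (XT.lf (nat_lit 0) (nat_lit 3117701930) (nat_lit 1596) (nat_lit 3065302326) (nat_lit 1672) (nat_lit 1235987054) (nat_lit 507) (nat_lit 5) (nat_lit 528) (nat_lit 5) (nat_lit 529) (nat_lit 5) (nat_lit 558) (nat_lit 522) (nat_lit 480))))) (XT.nd (nat_lit 156) (nat_lit 3496) (nat_lit 0) (XT.nd (nat_lit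 78) (nat_lit 0) (nat_lit 0) (XT.lf (nat_lit 0) (nat_lit 362937625) (nat_lit 1672) (nat_lit 807233586) (nat_lit 1748) (nat_lit 6300074249) (nat_lit 484) (nat_lit 5) (nat_lit 506) (nat_lit 5) (nat_lit 507) (nat_lit 5) (nat_lit 559) (nat_lit 522) (nat_lit 479)) (XT.lf (nat_lit 0) (nat_lit 3600957280) (nat_lit 1748) (nat_lit 2404024672) (nat_lit 76) (nat_lit 1517526506) (nat_lit 484) (nat_lit 5) (nat_lit 507) (nat_lit 5) (nat_lit 485) (nat_lit 5) (nat_lit 560) (nat_lit 522) (nat_lit 478))) (XT.nd (nat_lit 78) (nat_lit 1748) (nat_lit 0) (XT.lf (nat_lit 0) (nat_lit 2377252367) (nat_lit 1748) (nat_lit 3679054931) (nat_lit 1824) (nat_lit 1519998545) (nat_lit 461) (nat_lit 5) (nat_lit 484) (nat_lit 5) (nat_lit 485) (nat_lit 5) (nat_lit 561) (nat_lit 522) (nat_lit 477)) (XT.nd (nat_lit 78) (nat_lit 1672) (nat_lit 0) (XT.lf (nat_lit 0) (nat_lit 889108270) (nat_lit 1824) (nat_lit 392484475) (nat_lit 76) (nat_lit 6350039202)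 (nat_lit 460) (nat_lit 5) (nat_lit 484) (nat_lit 5) (nat_lit 461) (nat_lit 5) (nat_lit 562) (nat_lit 522) (nat_lit 476)) (XT.lf (nat_lit 0) (nat_lit 3319577901) (nat_lit 1748) (nat_lit 3177984685) (nat_lit 76) (nat_lit 1190437999) (nat_lit 438) (nat_lit 5) (nat_lit 461) (nat_lit 5) (nat_lit 439) (nat_lit 5) (nat_lit 563) (nat_lit 522) (nat_lit 475))))))))
noncomputable def xc78 : XT := (XT.nd (nat_lit 1482) (nat_lit 7828) (nat_lit 0) (XT.nd (nat_lit 702) (nat_lit 4712) (nat_lit 0) (XT.nd (nat_lit 312) (nat_lit 2584) (nat_lit 0) (XT.nd (nat_lit 156) (nat_lit 1824) (nat_lit 0) (XT.nd (nat_lit 78) (nat_lit 76) (nat_lit 0) (XT.lf (nat_lit 0) (nat_lit 1742786051) (nat_lit 988) (nat_lit 4035274954) (nat_lit 1064) (nat_lit 1967854983) (nat_lit 425) (nat_lit 5) (nat_lit 438) (nat_lit 5) (nat_lit 439) (nat_lit 5) (nat_lit 564) (nat_lit 522) (nat_lit 474)) (XT.lf (nat_lit 0) (nat_lit 453121264) (nat_lit 1064) (nat_lit 1045082794)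 (nat_lit 76) (nat_lit 6307156365) (nat_lit 424) (nat_lit 5) (nat_lit 438) (nat_lit 5) (nat_lit 425) (nat_lit 5) (nat_lit 565) (nat_lit 522) (nat_lit 473))) (XT.nd (nat_lit 78) (nat_lit 912) (nat_lit 0) (XT.lf (nat_lit 0) (nat_lit 2887638464) (nat_lit 988) (nat_lit 3863184547) (nat_lit 76) (nat_lit 1115088208) (nat_lit 412) (nat_lit 5) (nat_lit 425) (nat_lit 5) (nat_lit 413) (nat_lit 5) (nat_lit 566) (nat_lit 522) (nat_lit 472)) (XT.lf (nat_lit 0) (nat_lit 1201879668) (nat_lit 912) (nat_lit 4152380090) (nat_lit 988) (nat_lit 2573751904) (nat_lit 400) (nat_lit 5) (nat_lit 412) (nat_lit 5) (nat_lit 413) (nat_lit 5) (nat_lit 567) (nat_lit 522) (nat_lit 471)))) (XT.nd (nat_lit 156) (nat_lit 1672) (nat_lit 0) (XT.nd (nat_lit 78) (nat_lit 912) (nat_lit 0) (XT.lf (nat_lit 0) (nat_lit 6378847431) (nat_lit 912) (nat_lit 1476459054) (nat_lit 988) (nat_lit 136352539) (nat_lit 400) (nat_lit 5) (nat_lit 412) (nat_lit 5) (nat_lit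 413) (nat_lit 5) (nat_lit 568) (nat_lit 522) (nat_lit 470)) (XT.lf (nat_lit 0) (nat_lit 2310386962) (nat_lit 912) (nat_lit 4471846925) (nat_lit 76) (nat_lit 1274218623) (nat_lit 388) (nat_lit 5) (nat_lit 400) (nat_lit 5) (nat_lit 389) (nat_lit 5) (nat_lit 569) (nat_lit 522) (nat_lit 469))) (XT.nd (nat_lit 78) (nat_lit 836) (nat_lit 0) (XT.lf (nat_lit 0) (nat_lit 742485954) (nat_lit 836) (nat_lit 4047455608) (nat_lit 912) (nat_lit 3332874537) (nat_lit 377) (nat_lit 5) (nat_lit 388) (nat_lit 5) (nat_lit 389) (nat_lit 5) (nat_lit 570) (nat_lit 522) (nat_lit 468)) (XT.nd (nat_lit 78) (nat_lit 836) (nat_lit 0) (XT.lf (nat_lit 0) (nat_lit 6079991794) (nat_lit 836) (nat_lit 1229824421) (nat_lit 912) (nat_lit 880882419) (nat_lit 377) (nat_lit 5) (nat_lit 388) (nat_lit 5) (nat_lit 389) (nat_lit 5) (nat_lit 571) (nat_lit 522) (nat_lit 467)) (XT.lf (nat_lit 0) (nat_lit 1592131832) (nat_lit 836) (nat_lit 5015907878) (nat_lit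 76) (nat_lit 1651830125) (nat_lit 366) (nat_lit 5) (nat_lit 377) (nat_lit 5) (nat_lit 367) (nat_lit 5) (nat_lit 572) (nat_lit 522) (nat_lit 466)))))) (XT.nd (nat_lit 390) (nat_lit 2280) (nat_lit 0) (XT.nd (nat_lit 156) (nat_lit 1596) (nat_lit 0) (XT.nd (nat_lit 78) (nat_lit 0) (nat_lit 0) (XT.lf (nat_lit 0) (nat_lit 352835762) (nat_lit 836) (nat_lit 3736383602) (nat_lit 912) (nat_lit 4241366375) (nat_lit 355) (nat_lit 5) (nat_lit 366) (nat_lit 5) (nat_lit 367) (nat_lit 5) (nat_lit 573) (nat_lit 522) (nat_lit 465)) (XT.lf (nat_lit 0) (nat_lit 5855308088) (nat_lit 836) (nat_lit 776784358) (nat_lit 912) (nat_lit 1770712419) (nat_lit 355) (nat_lit 5) (nat_lit 366) (nat_lit 5) (nat_lit 367) (nat_lit 5) (nat_lit 574) (nat_lit 522) (nat_lit 464))) (XT.nd (nat_lit 78) (nat_lit 760) (nat_lit 0) (XT.lf (nat_lit 0) (nat_lit 736268794) (nat_lit 836) (nat_lit 5507114095) (nat_lit 76) (nat_lit 2233058890) (nat_lit 344) (nat_lit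 5) (nat_lit 355) (nat_lit 5) (nat_lit 345) (nat_lit 5) (nat_lit 575) (nat_lit 522) (nat_lit 463)) (XT.nd (nat_lit 78) (nat_lit 0) (nat_lit 0) (XT.lf (nat_lit 0) (nat_lit 21340065) (nat_lit 760) (nat_lit 3233965872) (nat_lit 836) (nat_lit 5296304329) (nat_lit 334) (nat_lit 5) (nat_lit 344) (nat_lit 5) (nat_lit 345) (nat_lit 5) (nat_lit 576) (nat_lit 522) (nat_lit 462)) (XT.lf (nat_lit 0) (nat_lit 5693521617) (nat_lit 760) (nat_lit 131724628) (nat_lit 836) (nat_lit 2803030769) (nat_lit 334) (nat_lit 5) (nat_lit 344) (nat_lit 5) (nat_lit 345) (nat_lit 5) (nat_lit 577) (nat_lit 522) (nat_lit 461))))) (XT.nd (nat_lit 156) (nat_lit 1520) (nat_lit 0) (XT.nd (nat_lit 78) (nat_lit 76) (nat_lit 0) (XT.lf (nat_lit 0) (nat_lit 2747650318) (nat_lit 684) (nat_lit 5700712970) (nat_lit 760) (nat_lit 258083483) (nat_lit 325) (nat_lit 5) (nat_lit 334) (nat_lit 5) (nat_lit 335) (nat_lit 5) (nat_lit 578) (nat_lit 522) (nat_lit 460))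 (XT.lf (nat_lit 0) (nat_lit 2292243298) (nat_lit 760) (nat_lit 260052913) (nat_lit 76) (nat_lit 6233882362) (nat_lit 324) (nat_lit 5) (nat_lit 334) (nat_lit 5) (nat_lit 325) (nat_lit 5) (nat_lit 579) (nat_lit 522) (nat_lit 459))) (XT.nd (nat_lit 78) (nat_lit 760) (nat_lit 0) (XT.lf (nat_lit 0) (nat_lit 4896009146) (nat_lit 836) (nat_lit 3288512449) (nat_lit 76) (nat_lit 682836464) (nat_lit 314) (nat_lit 5) (nat_lit 325) (nat_lit 5) (nat_lit 315) (nat_lit 5) (nat_lit 580) (nat_lit 522) (nat_lit 458)) (XT.nd (nat_lit 78) (nat_lit 76) (nat_lit 0) (XT.lf (nat_lit 0) (nat_lit 2563484967) (nat_lit 684) (nat_lit 4989191183) (nat_lit 760) (nat_lit 1397473302) (nat_lit 305) (nat_lit 5) (nat_lit 314) (nat_lit 5) (nat_lit 315) (nat_lit 5) (nat_lit 581) (nat_lit 522) (nat_lit 457)) (XT.lf (nat_lit 0) (nat_lit 1199692844) (nat_lit 760) (nat_lit 506506828) (nat_lit 76) (nat_lit 7328483868) (nat_lit 304) (nat_lit 5) (nat_lit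 314) (nat_lit 5) (nat_lit 305) (nat_lit 5) (nat_lit 582) (nat_lit 522) (nat_lit 456))))))) (XT.nd (nat_lit 702) (nat_lit 3952) (nat_lit 0) (XT.nd (nat_lit 312) (nat_lit 1824) (nat_lit 0) (XT.nd (nat_lit 156) (nat_lit 760) (nat_lit 0) (XT.nd (nat_lit 78) (nat_lit 608) (nat_lit 0) (XT.lf (nat_lit 0) (nat_lit 3843199892) (nat_lit 760) (nat_lit 3617809887) (nat_lit 76) (nat_lit 1659456146) (nat_lit 295) (nat_lit 5) (nat_lit 305) (nat_lit 5) (nat_lit 296) (nat_lit 5) (nat_lit 583) (nat_lit 522) (nat_lit 455)) (XT.lf (nat_lit 0) (nat_lit 2410384320) (nat_lit 608) (nat_lit 4126291235) (nat_lit 684) (nat_lit 2671350899) (nat_lit 287) (nat_lit 5) (nat_lit 295) (nat_lit 5) (nat_lit 296) (nat_lit 5) (nat_lit 584) (nat_lit 522) (nat_lit 454))) (XT.nd (nat_lit 78) (nat_lit 760) (nat_lit 0) (XT.lf (nat_lit 0) (nat_lit 8567573241) (nat_lit 608) (nat_lit 707841520) (nat_lit 684) (nat_lit 22099932) (nat_lit 287) (nat_lit 5) (nat_lit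 295) (nat_lit 5) (nat_lit 296) (nat_lit 5) (nat_lit 585) (nat_lit 522) (nat_lit 453)) (XT.lf (nat_lit 0) (nat_lit 2666408129) (nat_lit 760) (nat_lit 3933484423) (nat_lit 76) (nat_lit 2788127880) (nat_lit 277) (nat_lit 5) (nat_lit 287) (nat_lit 5) (nat_lit 278) (nat_lit 5) (nat_lit 586) (nat_lit 522) (nat_lit 452)))) (XT.nd (nat_lit 156) (nat_lit 1216) (nat_lit 0) (XT.nd (nat_lit 78) (nat_lit 0) (nat_lit 0) (XT.lf (nat_lit 0) (nat_lit 2276774660) (nat_lit 608) (nat_lit 3123885933) (nat_lit 684) (nat_lit 4079831493) (nat_lit 269) (nat_lit 5) (nat_lit 277) (nat_lit 5) (nat_lit 278) (nat_lit 5) (nat_lit 587) (nat_lit 522) (nat_lit 451)) (XT.lf (nat_lit 0) (nat_lit 8187088150) (nat_lit 684) (nat_lit 953534536) (nat_lit 76) (nat_lit 434244734) (nat_lit 269) (nat_lit 5) (nat_lit 278) (nat_lit 5) (nat_lit 270) (nat_lit 5) (nat_lit 588) (nat_lit 522) (nat_lit 450))) (XT.nd (nat_lit 78) (nat_lit 532) (nat_lit 0) (XT.lf (nat_lit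 0) (nat_lit 1365224832) (nat_lit 684) (nat_lit 4247506913) (nat_lit 76) (nat_lit 4057727593) (nat_lit 260) (nat_lit 5) (nat_lit 269) (nat_lit 5) (nat_lit 261) (nat_lit 5) (nat_lit 589) (nat_lit 522) (nat_lit 449)) (XT.nd (nat_lit 78) (nat_lit 0) (nat_lit 0) (XT.lf (nat_lit 0) (nat_lit 2150788386) (nat_lit 532) (nat_lit 1993291839) (nat_lit 608) (nat_lit 5623915746) (nat_lit 253) (nat_lit 5) (nat_lit 260) (nat_lit 5) (nat_lit 261) (nat_lit 5) (nat_lit 590) (nat_lit 522) (nat_lit 448)) (XT.lf (nat_lit 0) (nat_lit 6987472252) (nat_lit 608) (nat_lit 1184043143) (nat_lit 76) (nat_lit 1695792490) (nat_lit 253) (nat_lit 5) (nat_lit 261) (nat_lit 5) (nat_lit 254) (nat_lit 5) (nat_lit 591) (nat_lit 522) (nat_lit 447)))))) (XT.nd (nat_lit 390) (nat_lit 1596) (nat_lit 0) (XT.nd (nat_lit 156) (nat_lit 1140) (nat_lit 0) (XT.nd (nat_lit 78) (nat_lit 608) (nat_lit 0) (XT.lf (nat_lit 0) (nat_lit 5395604437) (nat_lit 608) (nat_lit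 4510203002) (nat_lit 684) (nat_lit 62440755) (nat_lit 245) (nat_lit 5) (nat_lit 253) (nat_lit 5) (nat_lit 254) (nat_lit 5) (nat_lit 592) (nat_lit 522) (nat_lit 446)) (XT.lf (nat_lit 0) (nat_lit 2020150863) (nat_lit 532) (nat_lit 745371553) (nat_lit 608) (nat_lit 7305501537) (nat_lit 237) (nat_lit 5) (nat_lit 244) (nat_lit 5) (nat_lit 245) (nat_lit 5) (nat_lit 593) (nat_lit 522) (nat_lit 445))) (XT.nd (nat_lit 78) (nat_lit 1140) (nat_lit 0) (XT.lf (nat_lit 0) (nat_lit 5670434576) (nat_lit 608) (nat_lit 1429322019) (nat_lit 76) (nat_lit 3075669314) (nat_lit 237) (nat_lit 5) (nat_lit 245) (nat_lit 5) (nat_lit 238) (nat_lit 5) (nat_lit 594) (nat_lit 522) (nat_lit 444)) (XT.nd (nat_lit 78) (nat_lit 608) (nat_lit 0) (XT.lf (nat_lit 0) (nat_lit 5350529029) (nat_lit 532) (nat_lit 3293418579) (nat_lit 608) (nat_lit 1637761629) (nat_lit 230) (nat_lit 5) (nat_lit 237) (nat_lit 5) (nat_lit 238) (nat_lit 5) (nat_lit 595) (nat_lit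 522) (nat_lit 443)) (XT.lf (nat_lit 0) (nat_lit 1266652915) (nat_lit 608) (nat_lit 8521994245) (nat_lit 76) (nat_lit 601372889) (nat_lit 222) (nat_lit 5) (nat_lit 230) (nat_lit 5) (nat_lit 223) (nat_lit 5) (nat_lit 596) (nat_lit 522) (nat_lit 442))))) (XT.nd (nat_lit 156) (nat_lit 1064) (nat_lit 0) (XT.nd (nat_lit 78) (nat_lit 532) (nat_lit 0) (XT.lf (nat_lit 0) (nat_lit 4233564866) (nat_lit 608) (nat_lit 1702399922) (nat_lit 76) (nat_lit 4563792192) (nat_lit 222) (nat_lit 5) (nat_lit 230) (nat_lit 5) (nat_lit 223) (nat_lit 5) (nat_lit 597) (nat_lit 522) (nat_lit 441)) (XT.lf (nat_lit 0) (nat_lit 5283917106) (nat_lit 532) (nat_lit 1981966963) (nat_lit 608) (nat_lit 3345686326) (nat_lit 215) (nat_lit 5) (nat_lit 222) (nat_lit 5) (nat_lit 223) (nat_lit 5) (nat_lit 598) (nat_lit 522) (nat_lit 440))) (XT.nd (nat_lit 78) (nat_lit 608) (nat_lit 0) (XT.lf (nat_lit 0) (nat_lit 1677043115) (nat_lit 456) (nat_lit 8689506529)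 (nat_lit 532) (nat_lit 358919504) (nat_lit 209) (nat_lit 5) (nat_lit 215) (nat_lit 5) (nat_lit 216) (nat_lit 5) (nat_lit 599) (nat_lit 522) (nat_lit 439)) (XT.nd (nat_lit 78) (nat_lit 532) (nat_lit 0) (XT.lf (nat_lit 0) (nat_lit 2673552726) (nat_lit 532) (nat_lit 2017011473) (nat_lit 76) (nat_lit 6150311267) (nat_lit 208) (nat_lit 5) (nat_lit 215) (nat_lit 5) (nat_lit 209) (nat_lit 5) (nat_lit 600) (nat_lit 522) (nat_lit 438)) (XT.lf (nat_lit 0) (nat_lit 5182069302) (nat_lit 532) (nat_lit 586100533) (nat_lit 608) (nat_lit 5190249489) (nat_lit 201) (nat_lit 5) (nat_lit 208) (nat_lit 5) (nat_lit 209) (nat_lit 5) (nat_lit 601) (nat_lit 522) (nat_lit 437))))))))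
noncomputable def xc79 : XT := (XT.nd (nat_lit 75036) (nat_lit 0) (nat_lit 41420) (XT.nd (nat_lit 702) (nat_lit 2356) (nat_lit 0) (XT.nd (nat_lit 312) (nat_lit 1444) (nat_lit 0) (XT.nd (nat_lit 156) (nat_lit 912) (nat_lit 0) (XT.nd (nat_lit 78) (nat_lit 76) (nat_lit 0) (XT.lf (nat_lit 0) (nat_lit 1430964253) (nat_lit 456) (nat_lit 7512873283) (nat_lit 532) (nat_lit 2134096191) (nat_lit 195) (nat_lit 5) (nat_lit 201) (nat_lit 5) (nat_lit 202) (nat_lit 5) (nat_lit 602) (nat_lit 522) (nat_lit 436)) (XT.lf (nat_lit 0) (nat_lit 986153639) (nat_lit 532) (nat_lit 2387733358) (nat_lit 76) (nat_lit 7825509113) (nat_lit 194) (nat_lit 5) (nat_lit 201) (nat_lit 5) (nat_lit 195) (nat_lit 5) (nat_lit 603) (nat_lit 522) (nat_lit 435))) (XT.nd (nat_lit 78) (nat_lit 456) (nat_lit 0) (XT.lf (nat_lit 0) (nat_lit 4152157541) (nat_lit 532) (nat_lit 6298205969) (nat_lit 76) (nat_lit 872406281) (nat_lit 188) (nat_lit 5) (nat_lit 195)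 (nat_lit 5) (nat_lit 189) (nat_lit 5) (nat_lit 604) (nat_lit 522) (nat_lit 434)) (XT.lf (nat_lit 0) (nat_lit 1123151374) (nat_lit 456) (nat_lit 6277790978) (nat_lit 532) (nat_lit 4047281994) (nat_lit 182) (nat_lit 5) (nat_lit 188) (nat_lit 5) (nat_lit 189) (nat_lit 5) (nat_lit 605) (nat_lit 522) (nat_lit 433)))) (XT.nd (nat_lit 156) (nat_lit 912) (nat_lit 0) (XT.nd (nat_lit 78) (nat_lit 532) (nat_lit 0) (XT.lf (nat_lit 0) (nat_lit 8740249718) (nat_lit 456) (nat_lit 1990681978) (nat_lit 532) (nat_lit 844934284) (nat_lit 182) (nat_lit 5) (nat_lit 188) (nat_lit 5) (nat_lit 189) (nat_lit 5) (nat_lit 606) (nat_lit 522) (nat_lit 432)) (XT.lf (nat_lit 0) (nat_lit 2410957719) (nat_lit 532) (nat_lit 6907958912) (nat_lit 76) (nat_lit 2386406743) (nat_lit 175) (nat_lit 5) (nat_lit 182) (nat_lit 5) (nat_lit 176) (nat_lit 5) (nat_lit 607) (nat_lit 522) (nat_lit 431))) (XT.nd (nat_lit 78) (nat_lit 532) (nat_lit 0) (XT.lf (nat_lit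 0) (nat_lit 737375557) (nat_lit 380) (nat_lit 4994901015) (nat_lit 456) (nat_lit 6104751608) (nat_lit 170) (nat_lit 5) (nat_lit 175) (nat_lit 5) (nat_lit 176) (nat_lit 5) (nat_lit 608) (nat_lit 522) (nat_lit 430)) (XT.nd (nat_lit 78) (nat_lit 532) (nat_lit 0) (XT.lf (nat_lit 0) (nat_lit 8591661583) (nat_lit 380) (nat_lit 549459186) (nat_lit 456) (nat_lit 2829826705) (nat_lit 170) (nat_lit 5) (nat_lit 175) (nat_lit 5) (nat_lit 176) (nat_lit 5) (nat_lit 609) (nat_lit 522) (nat_lit 429)) (XT.lf (nat_lit 0) (nat_lit 534290102) (nat_lit 532) (nat_lit 7619215844) (nat_lit 76) (nat_lit 3953367382) (nat_lit 163) (nat_lit 5) (nat_lit 170) (nat_lit 5) (nat_lit 164) (nat_lit 5) (nat_lit 610) (nat_lit 522) (nat_lit 428)))))) (XT.nd (nat_lit 390) (nat_lit 1140) (nat_lit 0) (XT.nd (nat_lit 156) (nat_lit 836) (nat_lit 0) (XT.nd (nat_lit 78) (nat_lit 0) (nat_lit 0) (XT.lf (nat_lit 0) (nat_lit 256150328) (nat_lit 380) (nat_lit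 3675052970) (nat_lit 456) (nat_lit 8313874425) (nat_lit 158) (nat_lit 5) (nat_lit 163) (nat_lit 5) (nat_lit 164) (nat_lit 5) (nat_lit 611) (nat_lit 522) (nat_lit 427)) (XT.lf (nat_lit 0) (nat_lit 7428723868) (nat_lit 456) (nat_lit 4036382776) (nat_lit 76) (nat_lit 920288370) (nat_lit 158) (nat_lit 5) (nat_lit 164) (nat_lit 5) (nat_lit 159) (nat_lit 5) (nat_lit 612) (nat_lit 522) (nat_lit 426))) (XT.nd (nat_lit 78) (nat_lit 456) (nat_lit 0) (XT.lf (nat_lit 0) (nat_lit 4067428417) (nat_lit 380) (nat_lit 6955399060) (nat_lit 456) (nat_lit 1505160666) (nat_lit 153) (nat_lit 5) (nat_lit 158) (nat_lit 5) (nat_lit 159) (nat_lit 5) (nat_lit 613) (nat_lit 522) (nat_lit 425)) (XT.nd (nat_lit 78) (nat_lit 380) (nat_lit 0) (XT.lf (nat_lit 0) (nat_lit 1992174979) (nat_lit 456) (nat_lit 334996659) (nat_lit 76) (nat_lit 10345937317) (nat_lit 152) (nat_lit 5) (nat_lit 158) (nat_lit 5) (nat_lit 153) (nat_lit 5) (nat_lit 614) (nat_lit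 522) (nat_lit 424)) (XT.lf (nat_lit 0) (nat_lit 5583644106) (nat_lit 456) (nat_lit 4824194320) (nat_lit 76) (nat_lit 2412209981) (nat_lit 147) (nat_lit 5) (nat_lit 153) (nat_lit 5) (nat_lit 148) (nat_lit 5) (nat_lit 615) (nat_lit 522) (nat_lit 423))))) (XT.nd (nat_lit 156) (nat_lit 760) (nat_lit 0) (XT.nd (nat_lit 78) (nat_lit 0) (nat_lit 0) (XT.lf (nat_lit 0) (nat_lit 3522455033) (nat_lit 380) (nat_lit 5741612389) (nat_lit 456) (nat_lit 3705518712) (nat_lit 142) (nat_lit 5) (nat_lit 147) (nat_lit 5) (nat_lit 148) (nat_lit 5) (nat_lit 616) (nat_lit 522) (nat_lit 422)) (XT.lf (nat_lit 0) (nat_lit 12065372288) (nat_lit 380) (nat_lit 961904969) (nat_lit 456) (nat_lit 94655743) (nat_lit 142) (nat_lit 5) (nat_lit 147) (nat_lit 5) (nat_lit 148) (nat_lit 5) (nat_lit 617) (nat_lit 522) (nat_lit 421))) (XT.nd (nat_lit 78) (nat_lit 380) (nat_lit 0) (XT.lf (nat_lit 0) (nat_lit 3593239425) (nat_lit 380) (nat_lit 5760368260)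 (nat_lit 76) (nat_lit 3922217464) (nat_lit 137) (nat_lit 5) (nat_lit 142) (nat_lit 5) (nat_lit 138) (nat_lit 5) (nat_lit 618) (nat_lit 522) (nat_lit 420)) (XT.nd (nat_lit 78) (nat_lit 0) (nat_lit 0) (XT.lf (nat_lit 0) (nat_lit 2834924641) (nat_lit 380) (nat_lit 4527858675) (nat_lit 456) (nat_lit 6069817977) (nat_lit 132) (nat_lit 5) (nat_lit 137) (nat_lit 5) (nat_lit 138) (nat_lit 5) (nat_lit 619) (nat_lit 522) (nat_lit 419)) (XT.lf (nat_lit 0) (nat_lit 11226564324) (nat_lit 456) (nat_lit 1950277804) (nat_lit 76) (nat_lit 415295704) (nat_lit 132) (nat_lit 5) (nat_lit 138) (nat_lit 5) (nat_lit 133) (nat_lit 5) (nat_lit 620) (nat_lit 522) (nat_lit 418))))))) (XT.nd (nat_lit 702) (nat_lit 3648) (nat_lit 0) (XT.nd (nat_lit 312) (nat_lit 912) (nat_lit 0) (XT.nd (nat_lit 156) (nat_lit 380) (nat_lit 0) (XT.nd (nat_lit 78) (nat_lit 380) (nat_lit 0) (XT.lf (nat_lit 0) (nat_lit 1331780589) (nat_lit 0) (nat_lit 1331780589)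 (nat_lit 228) (nat_lit 566135753) (nat_lit 747) (nat_lit 5) (nat_lit 747) (nat_lit 3) (nat_lit 750) (nat_lit 3) (nat_lit 523) (nat_lit 523) (nat_lit 514)) (XT.lf (nat_lit 0) (nat_lit 1747690040) (nat_lit 380) (nat_lit 607488347) (nat_lit 380) (nat_lit 4110634155) (nat_lit 742) (nat_lit 3) (nat_lit 747) (nat_lit 3) (nat_lit 747) (nat_lit 5) (nat_lit 524) (nat_lit 523) (nat_lit 513))) (XT.nd (nat_lit 78) (nat_lit 380) (nat_lit 0) (XT.lf (nat_lit 76) (nat_lit 2633170969) (nat_lit 0) (nat_lit 1978583186) (nat_lit 380) (nat_lit 1861643397) (nat_lit 743) (nat_lit 5) (nat_lit 742) (nat_lit 3) (nat_lit 747) (nat_lit 5) (nat_lit 525) (nat_lit 523) (nat_lit 512)) (XT.lf (nat_lit 0) (nat_lit 967545474) (nat_lit 380) (nat_lit 580279569) (nat_lit 456) (nat_lit 4934605200) (nat_lit 737) (nat_lit 5) (nat_lit 742) (nat_lit 3) (nat_lit 743) (nat_lit 5) (nat_lit 526) (nat_lit 523) (nat_lit 511)))) (XT.nd (nat_lit 156) (nat_lit 456)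 (nat_lit 0) (XT.nd (nat_lit 78) (nat_lit 456) (nat_lit 0) (XT.lf (nat_lit 76) (nat_lit 2729861898) (nat_lit 0) (nat_lit 1043014758) (nat_lit 456) (nat_lit 2719650830) (nat_lit 738) (nat_lit 5) (nat_lit 737) (nat_lit 5) (nat_lit 743) (nat_lit 5) (nat_lit 527) (nat_lit 523) (nat_lit 510)) (XT.lf (nat_lit 0) (nat_lit 61113558) (nat_lit 456) (nat_lit 428764827) (nat_lit 532) (nat_lit 6014323167) (nat_lit 731) (nat_lit 5) (nat_lit 737) (nat_lit 5) (nat_lit 738) (nat_lit 5) (nat_lit 528) (nat_lit 523) (nat_lit 509))) (XT.nd (nat_lit 78) (nat_lit 532) (nat_lit 0) (XT.lf (nat_lit 0) (nat_lit 2810085783) (nat_lit 456) (nat_lit 3563641117) (nat_lit 532) (nat_lit 143061078) (nat_lit 732) (nat_lit 5) (nat_lit 738) (nat_lit 5) (nat_lit 739) (nat_lit 5) (nat_lit 529) (nat_lit 523) (nat_lit 508)) (XT.nd (nat_lit 78) (nat_lit 532) (nat_lit 0) (XT.lf (nat_lit 0) (nat_lit 5550385036) (nat_lit 456) (nat_lit 164134714) (nat_lit 532)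 (nat_lit 816397655) (nat_lit 732) (nat_lit 5) (nat_lit 738) (nat_lit 5) (nat_lit 739) (nat_lit 5) (nat_lit 530) (nat_lit 523) (nat_lit 507)) (XT.lf (nat_lit 0) (nat_lit 1729274284) (nat_lit 532) (nat_lit 3249951036) (nat_lit 608) (nat_lit 1566833401) (nat_lit 725) (nat_lit 5) (nat_lit 732) (nat_lit 5) (nat_lit 733) (nat_lit 5) (nat_lit 531) (nat_lit 523) (nat_lit 506)))))) (XT.nd (nat_lit 390) (nat_lit 2356) (nat_lit 0) (XT.nd (nat_lit 156) (nat_lit 684) (nat_lit 0) (XT.nd (nat_lit 78) (nat_lit 608) (nat_lit 0) (XT.lf (nat_lit 76) (nat_lit 223030775) (nat_lit 0) (nat_lit 4191888278) (nat_lit 608) (nat_lit 2147775929) (nat_lit 726) (nat_lit 5) (nat_lit 725) (nat_lit 5) (nat_lit 733) (nat_lit 5) (nat_lit 532) (nat_lit 523) (nat_lit 505)) (XT.lf (nat_lit 0) (nat_lit 521847016) (nat_lit 608) (nat_lit 2813917435) (nat_lit 684) (nat_lit 3244746000) (nat_lit 717) (nat_lit 5) (nat_lit 725) (nat_lit 5) (nat_lit 726) (nat_lit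 5) (nat_lit 533) (nat_lit 523) (nat_lit 504))) (XT.nd (nat_lit 78) (nat_lit 684) (nat_lit 0) (XT.lf (nat_lit 76) (nat_lit 738253296) (nat_lit 0) (nat_lit 2416804935) (nat_lit 684) (nat_lit 3444577154) (nat_lit 718) (nat_lit 5) (nat_lit 717) (nat_lit 5) (nat_lit 726) (nat_lit 5) (nat_lit 534) (nat_lit 523) (nat_lit 503)) (XT.nd (nat_lit 78) (nat_lit 684) (nat_lit 0) (XT.lf (nat_lit 76) (nat_lit 4360321411) (nat_lit 0) (nat_lit 1434665934) (nat_lit 684) (nat_lit 825090264) (nat_lit 718) (nat_lit 5) (nat_lit 717) (nat_lit 5) (nat_lit 726) (nat_lit 5) (nat_lit 535) (nat_lit 523) (nat_lit 502)) (XT.lf (nat_lit 76) (nat_lit 1380634172) (nat_lit 0) (nat_lit 386900951) (nat_lit 760) (nat_lit 4874269597) (nat_lit 709) (nat_lit 5) (nat_lit 708) (nat_lit 5) (nat_lit 718) (nat_lit 5) (nat_lit 536) (nat_lit 523) (nat_lit 501))))) (XT.nd (nat_lit 156) (nat_lit 1672) (nat_lit 0) (XT.nd (nat_lit 78) (nat_lit 760) (nat_lit 0) (XT.lf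 (nat_lit 0) (nat_lit 4357828221) (nat_lit 684) (nat_lit 1589745991) (nat_lit 76) (nat_lit 717160771) (nat_lit 709) (nat_lit 5) (nat_lit 718) (nat_lit 5) (nat_lit 710) (nat_lit 5) (nat_lit 537) (nat_lit 523) (nat_lit 500)) (XT.lf (nat_lit 0) (nat_lit 262256253) (nat_lit 760) (nat_lit 4549904385) (nat_lit 76) (nat_lit 1876846249) (nat_lit 699) (nat_lit 5) (nat_lit 709) (nat_lit 5) (nat_lit 700) (nat_lit 5) (nat_lit 538) (nat_lit 523) (nat_lit 499))) (XT.nd (nat_lit 78) (nat_lit 1672) (nat_lit 0) (XT.lf (nat_lit 0) (nat_lit 2801609812) (nat_lit 760) (nat_lit 805145972) (nat_lit 76) (nat_lit 3107723621) (nat_lit 699) (nat_lit 5) (nat_lit 709) (nat_lit 5) (nat_lit 700) (nat_lit 5) (nat_lit 539) (nat_lit 523) (nat_lit 498)) (XT.nd (nat_lit 78) (nat_lit 912) (nat_lit 0) (XT.lf (nat_lit 0) (nat_lit 3014509799) (nat_lit 760) (nat_lit 2336939516) (nat_lit 836) (nat_lit 1389831895) (nat_lit 689) (nat_lit 5) (nat_lit 699)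 (nat_lit 5) (nat_lit 700) (nat_lit 5) (nat_lit 540) (nat_lit 523) (nat_lit 497)) (XT.lf (nat_lit 0) (nat_lit 106562648) (nat_lit 836) (nat_lit 1008352401) (nat_lit 912) (nat_lit 5654628123) (nat_lit 677) (nat_lit 5) (nat_lit 688) (nat_lit 5) (nat_lit 689) (nat_lit 5) (nat_lit 541) (nat_lit 523) (nat_lit 496))))))))
noncomputable def xc80 : XT := (XT.nd (nat_lit 1404) (nat_lit 13756) (nat_lit 0) (XT.nd (nat_lit 702) (nat_lit 7448) (nat_lit 0) (XT.nd (nat_lit 312) (nat_lit 3572) (nat_lit 0) (XT.nd (nat_lit 156) (nat_lit 1064) (nat_lit 0) (XT.nd (nat_lit 78) (nat_lit 912) (nat_lit 0) (XT.lf (nat_lit 0) (nat_lit 3620258706) (nat_lit 912) (nat_lit 2783526057) (nat_lit 76) (nat_lit 395032656) (nat_lit 677) (nat_lit 5) (nat_lit 689) (nat_lit 5) (nat_lit 678) (nat_lit 5) (nat_lit 542) (nat_lit 523) (nat_lit 495)) (XT.lf (nat_lit 0) (nat_lit 1141501737) (nat_lit 912) (nat_lit 4991108783) (nat_lit 988) (nat_lit 696941365)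 (nat_lit 665) (nat_lit 5) (nat_lit 677) (nat_lit 5) (nat_lit 678) (nat_lit 5) (nat_lit 543) (nat_lit 523) (nat_lit 494))) (XT.nd (nat_lit 78) (nat_lit 988) (nat_lit 0) (XT.lf (nat_lit 0) (nat_lit 1772341713) (nat_lit 988) (nat_lit 1730608872) (nat_lit 76) (nat_lit 3358482716) (nat_lit 664) (nat_lit 5) (nat_lit 677) (nat_lit 5) (nat_lit 665) (nat_lit 5) (nat_lit 544) (nat_lit 523) (nat_lit 493)) (XT.lf (nat_lit 0) (nat_lit 2291408470) (nat_lit 988) (nat_lit 1949556045) (nat_lit 1064) (nat_lit 2653721995) (nat_lit 651) (nat_lit 5) (nat_lit 664) (nat_lit 5) (nat_lit 665) (nat_lit 5) (nat_lit 545) (nat_lit 523) (nat_lit 492)))) (XT.nd (nat_lit 156) (nat_lit 2432) (nat_lit 0) (XT.nd (nat_lit 78) (nat_lit 1140) (nat_lit 0) (XT.lf (nat_lit 0) (nat_lit 6377578752) (nat_lit 988) (nat_lit 338226494) (nat_lit 1064) (nat_lit 213674414) (nat_lit 651) (nat_lit 5) (nat_lit 664) (nat_lit 5) (nat_lit 665) (nat_lit 5) (nat_lit 546)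 (nat_lit 523) (nat_lit 491)) (XT.lf (nat_lit 0) (nat_lit 2223291241) (nat_lit 1140) (nat_lit 3401227341) (nat_lit 76) (nat_lit 1340606855) (nat_lit 636) (nat_lit 5) (nat_lit 651) (nat_lit 5) (nat_lit 637) (nat_lit 5) (nat_lit 547) (nat_lit 523) (nat_lit 490))) (XT.nd (nat_lit 78) (nat_lit 1292) (nat_lit 0) (XT.lf (nat_lit 0) (nat_lit 733422126) (nat_lit 1140) (nat_lit 3930278279) (nat_lit 1216) (nat_lit 2338615277) (nat_lit 621) (nat_lit 5) (nat_lit 636) (nat_lit 5) (nat_lit 637) (nat_lit 5) (nat_lit 548) (nat_lit 523) (nat_lit 489)) (XT.nd (nat_lit 78) (nat_lit 1216) (nat_lit 0) (XT.lf (nat_lit 0) (nat_lit 81421250) (nat_lit 1216) (nat_lit 2084852833) (nat_lit 76) (nat_lit 4874567079) (nat_lit 620) (nat_lit 5) (nat_lit 636) (nat_lit 5) (nat_lit 621) (nat_lit 5) (nat_lit 549) (nat_lit 523) (nat_lit 488)) (XT.lf (nat_lit 0) (nat_lit 2155408554) (nat_lit 1216) (nat_lit 325449426) (nat_lit 1292) (nat_lit 4599734203)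 (nat_lit 604) (nat_lit 5) (nat_lit 620) (nat_lit 5) (nat_lit 621) (nat_lit 5) (nat_lit 550) (nat_lit 523) (nat_lit 487)))))) (XT.nd (nat_lit 312) (nat_lit 4712) (nat_lit 0) (XT.nd (nat_lit 156) (nat_lit 1368) (nat_lit 0) (XT.nd (nat_lit 78) (nat_lit 1368) (nat_lit 0) (XT.lf (nat_lit 0) (nat_lit 4901559985) (nat_lit 1292) (nat_lit 663370146) (nat_lit 76) (nat_lit 1556752823) (nat_lit 604) (nat_lit 5) (nat_lit 621) (nat_lit 5) (nat_lit 605) (nat_lit 5) (nat_lit 551) (nat_lit 523) (nat_lit 486)) (XT.lf (nat_lit 0) (nat_lit 180421413) (nat_lit 1368) (nat_lit 3475625144) (nat_lit 76) (nat_lit 3508010821) (nat_lit 586) (nat_lit 5) (nat_lit 604) (nat_lit 5) (nat_lit 587) (nat_lit 5) (nat_lit 552) (nat_lit 523) (nat_lit 485))) (XT.nd (nat_lit 78) (nat_lit 0) (nat_lit 0) (XT.lf (nat_lit 0) (nat_lit 885276551) (nat_lit 1368) (nat_lit 1674725692) (nat_lit 1444) (nat_lit 4647778156) (nat_lit 568) (nat_lit 5) (nat_lit 586)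 (nat_lit 5) (nat_lit 587) (nat_lit 5) (nat_lit 553) (nat_lit 523) (nat_lit 484)) (XT.lf (nat_lit 0) (nat_lit 4964159474) (nat_lit 1444) (nat_lit 1915251025) (nat_lit 76) (nat_lit 373437168) (nat_lit 568) (nat_lit 5) (nat_lit 587) (nat_lit 5) (nat_lit 569) (nat_lit 5) (nat_lit 554) (nat_lit 523) (nat_lit 483)))) (XT.nd (nat_lit 156) (nat_lit 3192) (nat_lit 0) (XT.nd (nat_lit 78) (nat_lit 0) (nat_lit 0) (XT.lf (nat_lit 0) (nat_lit 95839526) (nat_lit 1520) (nat_lit 4737833808) (nat_lit 76) (nat_lit 2465540827) (nat_lit 548) (nat_lit 5) (nat_lit 568) (nat_lit 5) (nat_lit 549) (nat_lit 5) (nat_lit 555) (nat_lit 523) (nat_lit 482)) (XT.lf (nat_lit 0) (nat_lit 2462947117) (nat_lit 1520) (nat_lit 248992646) (nat_lit 76) (nat_lit 4634963894) (nat_lit 548) (nat_lit 5) (nat_lit 568) (nat_lit 5) (nat_lit 549) (nat_lit 5) (nat_lit 556) (nat_lit 523) (nat_lit 481))) (XT.nd (nat_lit 78) (nat_lit 1672) (nat_lit 0) (XT.lf (nat_lit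 0) (nat_lit 4346427747) (nat_lit 1520) (nat_lit 512687778) (nat_lit 1596) (nat_lit 2536805803) (nat_lit 528) (nat_lit 5) (nat_lit 548) (nat_lit 5) (nat_lit 549) (nat_lit 5) (nat_lit 557) (nat_lit 523) (nat_lit 480)) (XT.nd (nat_lit 78) (nat_lit 76) (nat_lit 0) (XT.lf (nat_lit 0) (nat_lit 1559551400) (nat_lit 1596) (nat_lit 5720888997) (nat_lit 1672) (nat_lit 165942880) (nat_lit 507) (nat_lit 5) (nat_lit 528) (nat_lit 5) (nat_lit 529) (nat_lit 5) (nat_lit 558) (nat_lit 523) (nat_lit 479)) (XT.lf (nat_lit 0) (nat_lit 2201308592) (nat_lit 1672) (nat_lit 1254730541) (nat_lit 76) (nat_lit 4041960890) (nat_lit 506) (nat_lit 5) (nat_lit 528) (nat_lit 5) (nat_lit 507) (nat_lit 5) (nat_lit 559) (nat_lit 523) (nat_lit 478))))))) (XT.nd (nat_lit 702) (nat_lit 5624) (nat_lit 0) (XT.nd (nat_lit 312) (nat_lit 2964) (nat_lit 0) (XT.nd (nat_lit 156) (nat_lit 1748) (nat_lit 0) (XT.nd (nat_lit 78) (nat_lit 1748) (nat_lit 0) (XT.lf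 (nat_lit 0) (nat_lit 3474040402) (nat_lit 1672) (nat_lit 1117608989) (nat_lit 1748) (nat_lit 2959426542) (nat_lit 484) (nat_lit 5) (nat_lit 506) (nat_lit 5) (nat_lit 507) (nat_lit 5) (nat_lit 560) (nat_lit 523) (nat_lit 477)) (XT.lf (nat_lit 0) (nat_lit 668752706) (nat_lit 1748) (nat_lit 6338138660) (nat_lit 1824) (nat_lit 598788039) (nat_lit 461) (nat_lit 5) (nat_lit 484) (nat_lit 5) (nat_lit 485) (nat_lit 5) (nat_lit 561) (nat_lit 523) (nat_lit 476))) (XT.nd (nat_lit 78) (nat_lit 1672) (nat_lit 0) (XT.lf (nat_lit 0) (nat_lit 1776627393) (nat_lit 1824) (nat_lit 2156833740) (nat_lit 76) (nat_lit 3727860720) (nat_lit 460) (nat_lit 5) (nat_lit 484) (nat_lit 5) (nat_lit 461) (nat_lit 5) (nat_lit 562) (nat_lit 523) (nat_lit 475)) (XT.lf (nat_lit 0) (nat_lit 2709847730) (nat_lit 1672) (nat_lit 1456491886) (nat_lit 1748) (nat_lit 3552169722) (nat_lit 438) (nat_lit 5) (nat_lit 460) (nat_lit 5) (nat_lit 461) (nat_lit 5)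 (nat_lit 563) (nat_lit 523) (nat_lit 474)))) (XT.nd (nat_lit 156) (nat_lit 1900) (nat_lit 0) (XT.nd (nat_lit 78) (nat_lit 1064) (nat_lit 0) (XT.lf (nat_lit 0) (nat_lit 6583156968) (nat_lit 1748) (nat_lit 121679919) (nat_lit 76) (nat_lit 1072424799) (nat_lit 438) (nat_lit 5) (nat_lit 461) (nat_lit 5) (nat_lit 439) (nat_lit 5) (nat_lit 564) (nat_lit 523) (nat_lit 473)) (XT.lf (nat_lit 0) (nat_lit 1195162050) (nat_lit 1064) (nat_lit 2968079724) (nat_lit 76) (nat_lit 3673798591) (nat_lit 424) (nat_lit 5) (nat_lit 438) (nat_lit 5) (nat_lit 425) (nat_lit 5) (nat_lit 565) (nat_lit 523) (nat_lit 472))) (XT.nd (nat_lit 78) (nat_lit 988) (nat_lit 0) (XT.lf (nat_lit 0) (nat_lit 2041258254) (nat_lit 912) (nat_lit 1547952349) (nat_lit 988) (nat_lit 4309193350) (nat_lit 412) (nat_lit 5) (nat_lit 424) (nat_lit 5) (nat_lit 425) (nat_lit 5) (nat_lit 566) (nat_lit 523) (nat_lit 471)) (XT.nd (nat_lit 78) (nat_lit 988) (nat_lit 0)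 (XT.lf (nat_lit 0) (nat_lit 6017899039) (nat_lit 988) (nat_lit 818198214) (nat_lit 76) (nat_lit 1125169152) (nat_lit 412) (nat_lit 5) (nat_lit 425) (nat_lit 5) (nat_lit 413) (nat_lit 5) (nat_lit 567) (nat_lit 523) (nat_lit 470)) (XT.lf (nat_lit 0) (nat_lit 462182643) (nat_lit 988) (nat_lit 3700835561) (nat_lit 76) (nat_lit 3862342034) (nat_lit 399) (nat_lit 5) (nat_lit 412) (nat_lit 5) (nat_lit 400) (nat_lit 5) (nat_lit 568) (nat_lit 523) (nat_lit 469)))))) (XT.nd (nat_lit 390) (nat_lit 3116) (nat_lit 0) (XT.nd (nat_lit 156) (nat_lit 1672) (nat_lit 0) (XT.nd (nat_lit 78) (nat_lit 0) (nat_lit 0) (XT.lf (nat_lit 0) (nat_lit 1456083297) (nat_lit 836) (nat_lit 1409231948) (nat_lit 912) (nat_lit 5225660304) (nat_lit 388) (nat_lit 5) (nat_lit 399) (nat_lit 5) (nat_lit 400) (nat_lit 5) (nat_lit 569) (nat_lit 523) (nat_lit 468)) (XT.lf (nat_lit 0) (nat_lit 5311588306) (nat_lit 912) (nat_lit 1441535388) (nat_lit 76) (nat_lit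 1404884169) (nat_lit 388) (nat_lit 5) (nat_lit 400) (nat_lit 5) (nat_lit 389) (nat_lit 5) (nat_lit 570) (nat_lit 523) (nat_lit 467))) (XT.nd (nat_lit 78) (nat_lit 836) (nat_lit 0) (XT.lf (nat_lit 0) (nat_lit 3856559487) (nat_lit 836) (nat_lit 3946355677) (nat_lit 912) (nat_lit 423549228) (nat_lit 377) (nat_lit 5) (nat_lit 388) (nat_lit 5) (nat_lit 389) (nat_lit 5) (nat_lit 571) (nat_lit 523) (nat_lit 466)) (XT.nd (nat_lit 78) (nat_lit 0) (nat_lit 0) (XT.lf (nat_lit 0) (nat_lit 942439401) (nat_lit 760) (nat_lit 1056328412) (nat_lit 836) (nat_lit 6297705294) (nat_lit 366) (nat_lit 5) (nat_lit 376) (nat_lit 5) (nat_lit 377) (nat_lit 5) (nat_lit 572) (nat_lit 523) (nat_lit 465)) (XT.lf (nat_lit 0) (nat_lit 4468119366) (nat_lit 836) (nat_lit 2003401783) (nat_lit 76) (nat_lit 1896225445) (nat_lit 366) (nat_lit 5) (nat_lit 377) (nat_lit 5) (nat_lit 367) (nat_lit 5) (nat_lit 573) (nat_lit 523) (nat_lit 464))))) (XT.nd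 (nat_lit 156) (nat_lit 1444) (nat_lit 0) (XT.nd (nat_lit 78) (nat_lit 836) (nat_lit 0) (XT.lf (nat_lit 0) (nat_lit 3452237623) (nat_lit 836) (nat_lit 3527221035) (nat_lit 912) (nat_lit 1461140542) (nat_lit 355) (nat_lit 5) (nat_lit 366) (nat_lit 5) (nat_lit 367) (nat_lit 5) (nat_lit 574) (nat_lit 523) (nat_lit 463)) (XT.lf (nat_lit 0) (nat_lit 488650932) (nat_lit 760) (nat_lit 504119461) (nat_lit 836) (nat_lit 7522408422) (nat_lit 344) (nat_lit 5) (nat_lit 354) (nat_lit 5) (nat_lit 355) (nat_lit 5) (nat_lit 575) (nat_lit 523) (nat_lit 462))) (XT.nd (nat_lit 78) (nat_lit 1444) (nat_lit 0) (XT.lf (nat_lit 0) (nat_lit 3490493024) (nat_lit 836) (nat_lit 2515351759) (nat_lit 76) (nat_lit 2584931452) (nat_lit 344) (nat_lit 5) (nat_lit 355) (nat_lit 5) (nat_lit 345) (nat_lit 5) (nat_lit 576) (nat_lit 523) (nat_lit 461)) (XT.nd (nat_lit 78) (nat_lit 684) (nat_lit 0) (XT.lf (nat_lit 0) (nat_lit 3103264218) (nat_lit 760)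 (nat_lit 2922938153) (nat_lit 836) (nat_lit 2641927820) (nat_lit 334) (nat_lit 5) (nat_lit 344) (nat_lit 5) (nat_lit 345) (nat_lit 5) (nat_lit 577) (nat_lit 523) (nat_lit 460)) (XT.lf (nat_lit 0) (nat_lit 80606752) (nat_lit 684) (nat_lit 8515922532) (nat_lit 760) (nat_lit 150829006) (nat_lit 325) (nat_lit 5) (nat_lit 334) (nat_lit 5) (nat_lit 335) (nat_lit 5) (nat_lit 578) (nat_lit 523) (nat_lit 459))))))))
noncomputable def xc81 : XT := (XT.nd (nat_lit 1482) (nat_lit 5700) (nat_lit 0) (XT.nd (nat_lit 702) (nat_lit 4180) (nat_lit 0) (XT.nd (nat_lit 312) (nat_lit 2052) (nat_lit 0) (XT.nd (nat_lit 156) (nat_lit 760) (nat_lit 0) (XT.nd (nat_lit 78) (nat_lit 760) (nat_lit 0) (XT.lf (nat_lit 0) (nat_lit 2380834368) (nat_lit 760) (nat_lit 2988880699) (nat_lit 76) (nat_lit 3457708675) (nat_lit 324) (nat_lit 5) (nat_lit 334) (nat_lit 5) (nat_lit 325) (nat_lit 5) (nat_lit 579) (nat_lit 523) (nat_lit 458)) (XT.lf (nat_lit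 0) (nat_lit 2798291737) (nat_lit 760) (nat_lit 2146814807) (nat_lit 836) (nat_lit 3964288952) (nat_lit 314) (nat_lit 5) (nat_lit 324) (nat_lit 5) (nat_lit 325) (nat_lit 5) (nat_lit 580) (nat_lit 523) (nat_lit 457))) (XT.nd (nat_lit 78) (nat_lit 760) (nat_lit 0) (XT.lf (nat_lit 0) (nat_lit 7554457865) (nat_lit 836) (nat_lit 298756512) (nat_lit 76) (nat_lit 1139921173) (nat_lit 314) (nat_lit 5) (nat_lit 325) (nat_lit 5) (nat_lit 315) (nat_lit 5) (nat_lit 581) (nat_lit 523) (nat_lit 456)) (XT.lf (nat_lit 0) (nat_lit 1140404594) (nat_lit 760) (nat_lit 3435523737) (nat_lit 76) (nat_lit 4502121397) (nat_lit 304) (nat_lit 5) (nat_lit 314) (nat_lit 5) (nat_lit 305) (nat_lit 5) (nat_lit 582) (nat_lit 523) (nat_lit 455)))) (XT.nd (nat_lit 156) (nat_lit 1368) (nat_lit 0) (XT.nd (nat_lit 78) (nat_lit 0) (nat_lit 0) (XT.lf (nat_lit 0) (nat_lit 2525921586) (nat_lit 684) (nat_lit 1211353982) (nat_lit 760) (nat_lit 5427491478)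 (nat_lit 295) (nat_lit 5) (nat_lit 304) (nat_lit 5) (nat_lit 305) (nat_lit 5) (nat_lit 583) (nat_lit 523) (nat_lit 454)) (XT.lf (nat_lit 0) (nat_lit 6391088131) (nat_lit 760) (nat_lit 654239029) (nat_lit 76) (nat_lit 2207795845) (nat_lit 295) (nat_lit 5) (nat_lit 305) (nat_lit 5) (nat_lit 296) (nat_lit 5) (nat_lit 584) (nat_lit 523) (nat_lit 453))) (XT.nd (nat_lit 78) (nat_lit 760) (nat_lit 0) (XT.lf (nat_lit 0) (nat_lit 5474545858) (nat_lit 608) (nat_lit 3635017568) (nat_lit 684) (nat_lit 233455224) (nat_lit 287) (nat_lit 5) (nat_lit 295) (nat_lit 5) (nat_lit 296) (nat_lit 5) (nat_lit 585) (nat_lit 523) (nat_lit 452)) (XT.nd (nat_lit 78) (nat_lit 0) (nat_lit 0) (XT.lf (nat_lit 0) (nat_lit 2274601476) (nat_lit 684) (nat_lit 128360208) (nat_lit 760) (nat_lit 7031689454) (nat_lit 277) (nat_lit 5) (nat_lit 286) (nat_lit 5) (nat_lit 287) (nat_lit 5) (nat_lit 586) (nat_lit 523) (nat_lit 451)) (XT.lf (nat_lit 0) (nat_lit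 5106003936) (nat_lit 760) (nat_lit 998511921) (nat_lit 76) (nat_lit 3423233142) (nat_lit 277) (nat_lit 5) (nat_lit 287) (nat_lit 5) (nat_lit 278) (nat_lit 5) (nat_lit 587) (nat_lit 523) (nat_lit 450)))))) (XT.nd (nat_lit 390) (nat_lit 1748) (nat_lit 0) (XT.nd (nat_lit 156) (nat_lit 1140) (nat_lit 0) (XT.nd (nat_lit 78) (nat_lit 684) (nat_lit 0) (XT.lf (nat_lit 0) (nat_lit 5316125750) (nat_lit 608) (nat_lit 2551463975) (nat_lit 684) (nat_lit 1755033407) (nat_lit 269) (nat_lit 5) (nat_lit 277) (nat_lit 5) (nat_lit 278) (nat_lit 5) (nat_lit 588) (nat_lit 523) (nat_lit 449)) (XT.lf (nat_lit 0) (nat_lit 948645542) (nat_lit 684) (nat_lit 7694053205) (nat_lit 76) (nat_lit 1076648715) (nat_lit 260) (nat_lit 5) (nat_lit 269) (nat_lit 5) (nat_lit 261) (nat_lit 5) (nat_lit 589) (nat_lit 523) (nat_lit 448))) (XT.nd (nat_lit 78) (nat_lit 1140) (nat_lit 0) (XT.lf (nat_lit 0) (nat_lit 3698467073) (nat_lit 684) (nat_lit 1343499001)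 (nat_lit 76) (nat_lit 4775500549) (nat_lit 260) (nat_lit 5) (nat_lit 269) (nat_lit 5) (nat_lit 261) (nat_lit 5) (nat_lit 590) (nat_lit 523) (nat_lit 447)) (XT.nd (nat_lit 78) (nat_lit 608) (nat_lit 0) (XT.lf (nat_lit 0) (nat_lit 5163098006) (nat_lit 532) (nat_lit 1343865728) (nat_lit 608) (nat_lit 3410514524) (nat_lit 253) (nat_lit 5) (nat_lit 260) (nat_lit 5) (nat_lit 261) (nat_lit 5) (nat_lit 591) (nat_lit 523) (nat_lit 446)) (XT.lf (nat_lit 0) (nat_lit 1767114910) (nat_lit 608) (nat_lit 7611263641) (nat_lit 684) (nat_lit 640980202) (nat_lit 245) (nat_lit 5) (nat_lit 253) (nat_lit 5) (nat_lit 254) (nat_lit 5) (nat_lit 592) (nat_lit 523) (nat_lit 445))))) (XT.nd (nat_lit 156) (nat_lit 1140) (nat_lit 0) (XT.nd (nat_lit 78) (nat_lit 532) (nat_lit 0) (XT.lf (nat_lit 0) (nat_lit 2166882919) (nat_lit 684) (nat_lit 1701545448) (nat_lit 76) (nat_lit 6254336734) (nat_lit 244) (nat_lit 5) (nat_lit 253) (nat_lit 5) (nat_lit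 245) (nat_lit 5) (nat_lit 593) (nat_lit 523) (nat_lit 444)) (XT.lf (nat_lit 0) (nat_lit 5003203803) (nat_lit 532) (nat_lit 22751549) (nat_lit 608) (nat_lit 5202130175) (nat_lit 237) (nat_lit 5) (nat_lit 244) (nat_lit 5) (nat_lit 245) (nat_lit 5) (nat_lit 594) (nat_lit 523) (nat_lit 443))) (XT.nd (nat_lit 78) (nat_lit 608) (nat_lit 0) (XT.lf (nat_lit 0) (nat_lit 1485317144) (nat_lit 532) (nat_lit 6474749205) (nat_lit 608) (nat_lit 2375092191) (nat_lit 230) (nat_lit 5) (nat_lit 237) (nat_lit 5) (nat_lit 238) (nat_lit 5) (nat_lit 595) (nat_lit 523) (nat_lit 442)) (XT.nd (nat_lit 78) (nat_lit 532) (nat_lit 0) (XT.lf (nat_lit 0) (nat_lit 508782763) (nat_lit 608) (nat_lit 2085535226) (nat_lit 76) (nat_lit 7849852882) (nat_lit 229) (nat_lit 5) (nat_lit 237) (nat_lit 5) (nat_lit 230) (nat_lit 5) (nat_lit 596) (nat_lit 523) (nat_lit 441)) (XT.lf (nat_lit 0) (nat_lit 3431060140) (nat_lit 608) (nat_lit 5740458392) (nat_lit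 76) (nat_lit 1383283510) (nat_lit 222) (nat_lit 5) (nat_lit 230) (nat_lit 5) (nat_lit 223) (nat_lit 5) (nat_lit 597) (nat_lit 523) (nat_lit 440))))))) (XT.nd (nat_lit 702) (nat_lit 2660) (nat_lit 0) (XT.nd (nat_lit 312) (nat_lit 1444) (nat_lit 0) (XT.nd (nat_lit 156) (nat_lit 1064) (nat_lit 0) (XT.nd (nat_lit 78) (nat_lit 0) (nat_lit 0) (XT.lf (nat_lit 0) (nat_lit 1173030445) (nat_lit 532) (nat_lit 5249953346) (nat_lit 608) (nat_lit 4244441097) (nat_lit 215) (nat_lit 5) (nat_lit 222) (nat_lit 5) (nat_lit 223) (nat_lit 5) (nat_lit 598) (nat_lit 523) (nat_lit 439)) (XT.lf (nat_lit 0) (nat_lit 8264649218) (nat_lit 532) (nat_lit 1221230599) (nat_lit 608) (nat_lit 1296200701) (nat_lit 215) (nat_lit 5) (nat_lit 222) (nat_lit 5) (nat_lit 223) (nat_lit 5) (nat_lit 599) (nat_lit 523) (nat_lit 438))) (XT.nd (nat_lit 78) (nat_lit 532) (nat_lit 0) (XT.lf (nat_lit 0) (nat_lit 1710424481) (nat_lit 532) (nat_lit 6306843276) (nat_lit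 76) (nat_lit 2881105011) (nat_lit 208) (nat_lit 5) (nat_lit 215) (nat_lit 5) (nat_lit 209) (nat_lit 5) (nat_lit 600) (nat_lit 523) (nat_lit 437)) (XT.lf (nat_lit 0) (nat_lit 816269830) (nat_lit 532) (nat_lit 3947152673) (nat_lit 608) (nat_lit 6253327908) (nat_lit 201) (nat_lit 5) (nat_lit 208) (nat_lit 5) (nat_lit 209) (nat_lit 5) (nat_lit 601) (nat_lit 523) (nat_lit 436)))) (XT.nd (nat_lit 156) (nat_lit 988) (nat_lit 0) (XT.nd (nat_lit 78) (nat_lit 456) (nat_lit 0) (XT.lf (nat_lit 0) (nat_lit 7894808021) (nat_lit 608) (nat_lit 3008926464) (nat_lit 76) (nat_lit 233417347) (nat_lit 201) (nat_lit 5) (nat_lit 209) (nat_lit 5) (nat_lit 202) (nat_lit 5) (nat_lit 602) (nat_lit 523) (nat_lit 435)) (XT.lf (nat_lit 0) (nat_lit 4319711392) (nat_lit 456) (nat_lit 6797216123) (nat_lit 532) (nat_lit 142474364) (nat_lit 195) (nat_lit 5) (nat_lit 201) (nat_lit 5) (nat_lit 202) (nat_lit 5) (nat_lit 603) (nat_lit 523) (nat_lit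 434))) (XT.nd (nat_lit 78) (nat_lit 456) (nat_lit 0) (XT.lf (nat_lit 0) (nat_lit 400162457) (nat_lit 456) (nat_lit 2576570698) (nat_lit 532) (nat_lit 8407035500) (nat_lit 188) (nat_lit 5) (nat_lit 194) (nat_lit 5) (nat_lit 195) (nat_lit 5) (nat_lit 604) (nat_lit 523) (nat_lit 433)) (XT.nd (nat_lit 78) (nat_lit 456) (nat_lit 0) (XT.lf (nat_lit 0) (nat_lit 6188730418) (nat_lit 532) (nat_lit 3578844848) (nat_lit 76) (nat_lit 1742384966) (nat_lit 188) (nat_lit 5) (nat_lit 195) (nat_lit 5) (nat_lit 189) (nat_lit 5) (nat_lit 605) (nat_lit 523) (nat_lit 432)) (XT.lf (nat_lit 0) (nat_lit 3972220397) (nat_lit 456) (nat_lit 5510318224) (nat_lit 532) (nat_lit 2155788113) (nat_lit 182) (nat_lit 5) (nat_lit 188) (nat_lit 5) (nat_lit 189) (nat_lit 5) (nat_lit 606) (nat_lit 523) (nat_lit 431)))))) (XT.nd (nat_lit 390) (nat_lit 1216) (nat_lit 0) (XT.nd (nat_lit 156) (nat_lit 912) (nat_lit 0) (XT.nd (nat_lit 78) (nat_lit 456) (nat_lit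 0) (XT.lf (nat_lit 0) (nat_lit 1057872695) (nat_lit 532) (nat_lit 90005831) (nat_lit 76) (nat_lit 10621265483) (nat_lit 181) (nat_lit 5) (nat_lit 188) (nat_lit 5) (nat_lit 182) (nat_lit 5) (nat_lit 607) (nat_lit 523) (nat_lit 430)) (XT.lf (nat_lit 0) (nat_lit 4353972497) (nat_lit 532) (nat_lit 4235604418) (nat_lit 76) (nat_lit 3311777456) (nat_lit 175) (nat_lit 5) (nat_lit 182) (nat_lit 5) (nat_lit 176) (nat_lit 5) (nat_lit 608) (nat_lit 523) (nat_lit 429))) (XT.nd (nat_lit 78) (nat_lit 532) (nat_lit 0) (XT.lf (nat_lit 0) (nat_lit 3544146519) (nat_lit 380) (nat_lit 4178546020) (nat_lit 456) (nat_lit 4313384757) (nat_lit 170) (nat_lit 5) (nat_lit 175) (nat_lit 5) (nat_lit 176) (nat_lit 5) (nat_lit 609) (nat_lit 523) (nat_lit 428)) (XT.nd (nat_lit 78) (nat_lit 532) (nat_lit 0) (XT.lf (nat_lit 0) (nat_lit 11165127282) (nat_lit 456) (nat_lit 674834791) (nat_lit 76) (nat_lit 333408081) (nat_lit 170) (nat_lit 5) (nat_lit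 176) (nat_lit 5) (nat_lit 171) (nat_lit 5) (nat_lit 610) (nat_lit 523) (nat_lit 427)) (XT.lf (nat_lit 0) (nat_lit 2383744880) (nat_lit 532) (nat_lit 4996813133) (nat_lit 76) (nat_lit 4931511518) (nat_lit 163) (nat_lit 5) (nat_lit 170) (nat_lit 5) (nat_lit 164) (nat_lit 5) (nat_lit 611) (nat_lit 523) (nat_lit 426))))) (XT.nd (nat_lit 156) (nat_lit 836) (nat_lit 0) (XT.nd (nat_lit 78) (nat_lit 0) (nat_lit 0) (XT.lf (nat_lit 0) (nat_lit 3017805185) (nat_lit 380) (nat_lit 2812634095) (nat_lit 456) (nat_lit 6622965127) (nat_lit 158) (nat_lit 5) (nat_lit 163) (nat_lit 5) (nat_lit 164) (nat_lit 5) (nat_lit 612) (nat_lit 523) (nat_lit 425)) (XT.lf (nat_lit 0) (nat_lit 9368169451) (nat_lit 456) (nat_lit 1384727972) (nat_lit 76) (nat_lit 1844228624) (nat_lit 158) (nat_lit 5) (nat_lit 164) (nat_lit 5) (nat_lit 159) (nat_lit 5) (nat_lit 613) (nat_lit 523) (nat_lit 424))) (XT.nd (nat_lit 78) (nat_lit 380) (nat_lit 0) (XT.lf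 (nat_lit 0) (nat_lit 270149598) (nat_lit 456) (nat_lit 5881518050) (nat_lit 76) (nat_lit 6591220800) (nat_lit 152) (nat_lit 5) (nat_lit 158) (nat_lit 5) (nat_lit 153) (nat_lit 5) (nat_lit 614) (nat_lit 523) (nat_lit 423)) (XT.nd (nat_lit 78) (nat_lit 0) (nat_lit 0) (XT.lf (nat_lit 0) (nat_lit 2374032326) (nat_lit 380) (nat_lit 1423672706) (nat_lit 456) (nat_lit 9093402124) (nat_lit 147) (nat_lit 5) (nat_lit 152) (nat_lit 5) (nat_lit 153) (nat_lit 5) (nat_lit 615) (nat_lit 523) (nat_lit 422)) (XT.lf (nat_lit 0) (nat_lit 7434648115) (nat_lit 456) (nat_lit 2224996214) (nat_lit 76) (nat_lit 3381871122) (nat_lit 147) (nat_lit 5) (nat_lit 153) (nat_lit 5) (nat_lit 148) (nat_lit 5) (nat_lit 616) (nat_lit 523) (nat_lit 421))))))))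
noncomputable def xc82 : XT := (XT.nd (nat_lit 75114) (nat_lit 0) (nat_lit 30096) (XT.nd (nat_lit 74334) (nat_lit 0) (nat_lit 43016) (XT.nd (nat_lit 73944) (nat_lit 0) (nat_lit 45524) (XT.nd (nat_lit 156) (nat_lit 380) (nat_lit 0) (XT.nd (nat_lit 78) (nat_lit 380) (nat_lit 0) (XT.lf (nat_lit 0) (nat_lit 6270851376) (nat_lit 380) (nat_lit 4901110999) (nat_lit 456) (nat_lit 2022418796) (nat_lit 142) (nat_lit 5) (nat_lit 147) (nat_lit 5) (nat_lit 148) (nat_lit 5) (nat_lit 617) (nat_lit 523) (nat_lit 420)) (XT.lf (nat_lit 0) (nat_lit 1591985632) (nat_lit 304) (nat_lit 23228933) (nat_lit 380) (nat_lit 11734820883) (nat_lit 137) (nat_lit 5) (nat_lit 141) (nat_lit 5) (nat_lit 142) (nat_lit 5) (nat_lit 618) (nat_lit 523) (nat_lit 419))) (XT.nd (nat_lit 78) (nat_lit 380) (nat_lit 0) (XT.lf (nat_lit 0) (nat_lit 5355156778) (nat_lit 380) (nat_lit 3217159641) (nat_lit 76) (nat_lit 4935088098) (nat_lit 137) (nat_lit 5) (nat_lit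 142) (nat_lit 5) (nat_lit 138) (nat_lit 5) (nat_lit 619) (nat_lit 523) (nat_lit 418)) (XT.lf (nat_lit 0) (nat_lit 5532549539) (nat_lit 380) (nat_lit 3651550368) (nat_lit 456) (nat_lit 4483538777) (nat_lit 132) (nat_lit 5) (nat_lit 137) (nat_lit 5) (nat_lit 138) (nat_lit 5) (nat_lit 620) (nat_lit 523) (nat_lit 417)))) (XT.nd (nat_lit 156) (nat_lit 456) (nat_lit 0) (XT.nd (nat_lit 78) (nat_lit 380) (nat_lit 0) (XT.lf (nat_lit 0) (nat_lit 2287726066) (nat_lit 380) (nat_lit 474347353) (nat_lit 380) (nat_lit 474347353) (nat_lit 742) (nat_lit 3) (nat_lit 747) (nat_lit 3) (nat_lit 747) (nat_lit 5) (nat_lit 524) (nat_lit 524) (nat_lit 512)) (XT.lf (nat_lit 0) (nat_lit 907258014) (nat_lit 380) (nat_lit 4218683138) (nat_lit 456) (nat_lit 1355155883) (nat_lit 737) (nat_lit 5) (nat_lit 742) (nat_lit 3) (nat_lit 743) (nat_lit 5) (nat_lit 525) (nat_lit 524) (nat_lit 511))) (XT.nd (nat_lit 78) (nat_lit 456) (nat_lit 0) (XT.lf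 (nat_lit 0) (nat_lit 3675763060) (nat_lit 380) (nat_lit 989871836) (nat_lit 456) (nat_lit 1824988215) (nat_lit 737) (nat_lit 5) (nat_lit 742) (nat_lit 3) (nat_lit 743) (nat_lit 5) (nat_lit 526) (nat_lit 524) (nat_lit 510)) (XT.nd (nat_lit 78) (nat_lit 456) (nat_lit 0) (XT.lf (nat_lit 76) (nat_lit 2295902995) (nat_lit 0) (nat_lit 4146816797) (nat_lit 456) (nat_lit 58777624) (nat_lit 738) (nat_lit 5) (nat_lit 737) (nat_lit 5) (nat_lit 743) (nat_lit 5) (nat_lit 527) (nat_lit 524) (nat_lit 509)) (XT.lf (nat_lit 0) (nat_lit 2651867853) (nat_lit 456) (nat_lit 907999410) (nat_lit 532) (nat_lit 2953672321) (nat_lit 731) (nat_lit 5) (nat_lit 737) (nat_lit 5) (nat_lit 738) (nat_lit 5) (nat_lit 528) (nat_lit 524) (nat_lit 508)))))) (XT.nd (nat_lit 390) (nat_lit 1368) (nat_lit 0) (XT.nd (nat_lit 156) (nat_lit 608) (nat_lit 0) (XT.nd (nat_lit 78) (nat_lit 532) (nat_lit 0) (XT.lf (nat_lit 76) (nat_lit 2449599120) (nat_lit 0)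 (nat_lit 2912493697) (nat_lit 532) (nat_lit 1164817160) (nat_lit 732) (nat_lit 5) (nat_lit 731) (nat_lit 5) (nat_lit 738) (nat_lit 5) (nat_lit 529) (nat_lit 524) (nat_lit 507)) (XT.lf (nat_lit 0) (nat_lit 1502208607) (nat_lit 532) (nat_lit 702479605) (nat_lit 608) (nat_lit 4336930448) (nat_lit 724) (nat_lit 5) (nat_lit 731) (nat_lit 5) (nat_lit 732) (nat_lit 5) (nat_lit 530) (nat_lit 524) (nat_lit 506))) (XT.nd (nat_lit 78) (nat_lit 608) (nat_lit 0) (XT.lf (nat_lit 76) (nat_lit 2730321407) (nat_lit 0) (nat_lit 1426654041) (nat_lit 608) (nat_lit 2400509303) (nat_lit 725) (nat_lit 5) (nat_lit 724) (nat_lit 5) (nat_lit 732) (nat_lit 5) (nat_lit 531) (nat_lit 524) (nat_lit 505)) (XT.nd (nat_lit 78) (nat_lit 0) (nat_lit 76) (XT.lf (nat_lit 0) (nat_lit 224979370) (nat_lit 608) (nat_lit 372477273) (nat_lit 684) (nat_lit 5977437644) (nat_lit 716) (nat_lit 5) (nat_lit 724) (nat_lit 5) (nat_lit 725) (nat_lit 5) (nat_lit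 532) (nat_lit 524) (nat_lit 504)) (XT.lf (nat_lit 0) (nat_lit 2827481303) (nat_lit 608) (nat_lit 3456252317) (nat_lit 684) (nat_lit 309484302) (nat_lit 717) (nat_lit 5) (nat_lit 725) (nat_lit 5) (nat_lit 726) (nat_lit 5) (nat_lit 533) (nat_lit 524) (nat_lit 503))))) (XT.nd (nat_lit 156) (nat_lit 760) (nat_lit 0) (XT.nd (nat_lit 78) (nat_lit 684) (nat_lit 0) (XT.lf (nat_lit 76) (nat_lit 67931912) (nat_lit 0) (nat_lit 5356441058) (nat_lit 684) (nat_lit 1188704130) (nat_lit 718) (nat_lit 5) (nat_lit 717) (nat_lit 5) (nat_lit 726) (nat_lit 5) (nat_lit 534) (nat_lit 524) (nat_lit 502)) (XT.lf (nat_lit 0) (nat_lit 1380337441) (nat_lit 684) (nat_lit 2972306285) (nat_lit 760) (nat_lit 2281330962) (nat_lit 708) (nat_lit 5) (nat_lit 717) (nat_lit 5) (nat_lit 718) (nat_lit 5) (nat_lit 535) (nat_lit 524) (nat_lit 501))) (XT.nd (nat_lit 78) (nat_lit 760) (nat_lit 0) (XT.lf (nat_lit 76) (nat_lit 633817320) (nat_lit 0) (nat_lit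 3292416310) (nat_lit 760) (nat_lit 2730086589) (nat_lit 709) (nat_lit 5) (nat_lit 708) (nat_lit 5) (nat_lit 718) (nat_lit 5) (nat_lit 536) (nat_lit 524) (nat_lit 500)) (XT.nd (nat_lit 78) (nat_lit 760) (nat_lit 0) (XT.lf (nat_lit 76) (nat_lit 4313995329) (nat_lit 0) (nat_lit 2167239785) (nat_lit 760) (nat_lit 198728456) (nat_lit 709) (nat_lit 5) (nat_lit 708) (nat_lit 5) (nat_lit 718) (nat_lit 5) (nat_lit 537) (nat_lit 524) (nat_lit 499)) (XT.lf (nat_lit 76) (nat_lit 1327199298) (nat_lit 0) (nat_lit 972455179) (nat_lit 836) (nat_lit 4405176834) (nat_lit 699) (nat_lit 5) (nat_lit 698) (nat_lit 5) (nat_lit 709) (nat_lit 5) (nat_lit 538) (nat_lit 524) (nat_lit 498))))))) (XT.nd (nat_lit 702) (nat_lit 8208) (nat_lit 0) (XT.nd (nat_lit 312) (nat_lit 3116) (nat_lit 0) (XT.nd (nat_lit 156) (nat_lit 836) (nat_lit 0) (XT.nd (nat_lit 78) (nat_lit 836) (nat_lit 0) (XT.lf (nat_lit 0) (nat_lit 4803053954) (nat_lit 760) (nat_lit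 1646130890) (nat_lit 76) (nat_lit 281844907) (nat_lit 699) (nat_lit 5) (nat_lit 709) (nat_lit 5) (nat_lit 700) (nat_lit 5) (nat_lit 539) (nat_lit 524) (nat_lit 497)) (XT.lf (nat_lit 0) (nat_lit 552302914) (nat_lit 836) (nat_lit 4619259913) (nat_lit 76) (nat_lit 1586897121) (nat_lit 688) (nat_lit 5) (nat_lit 699) (nat_lit 5) (nat_lit 689) (nat_lit 5) (nat_lit 540) (nat_lit 524) (nat_lit 496))) (XT.nd (nat_lit 78) (nat_lit 836) (nat_lit 0) (XT.lf (nat_lit 0) (nat_lit 3009321064) (nat_lit 836) (nat_lit 815797582) (nat_lit 76) (nat_lit 2962019251) (nat_lit 688) (nat_lit 5) (nat_lit 699) (nat_lit 5) (nat_lit 689) (nat_lit 5) (nat_lit 541) (nat_lit 524) (nat_lit 495)) (XT.lf (nat_lit 0) (nat_lit 3065418020) (nat_lit 836) (nat_lit 2412911114) (nat_lit 912) (nat_lit 1338816039) (nat_lit 677) (nat_lit 5) (nat_lit 688) (nat_lit 5) (nat_lit 689) (nat_lit 5) (nat_lit 542) (nat_lit 524) (nat_lit 494)))) (XT.nd (nat_lit 156)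 (nat_lit 2128) (nat_lit 0) (XT.nd (nat_lit 78) (nat_lit 0) (nat_lit 0) (XT.lf (nat_lit 0) (nat_lit 143022774) (nat_lit 912) (nat_lit 940745056) (nat_lit 988) (nat_lit 5764850392) (nat_lit 664) (nat_lit 5) (nat_lit 676) (nat_lit 5) (nat_lit 677) (nat_lit 5) (nat_lit 543) (nat_lit 524) (nat_lit 493)) (XT.lf (nat_lit 0) (nat_lit 3510277725) (nat_lit 988) (nat_lit 2766377913) (nat_lit 76) (nat_lit 604432105) (nat_lit 664) (nat_lit 5) (nat_lit 677) (nat_lit 5) (nat_lit 665) (nat_lit 5) (nat_lit 544) (nat_lit 524) (nat_lit 492))) (XT.nd (nat_lit 78) (nat_lit 1140) (nat_lit 0) (XT.lf (nat_lit 0) (nat_lit 1222198233) (nat_lit 988) (nat_lit 4722775239) (nat_lit 1064) (nat_lit 970051855) (nat_lit 651) (nat_lit 5) (nat_lit 664) (nat_lit 5) (nat_lit 665) (nat_lit 5) (nat_lit 545) (nat_lit 524) (nat_lit 491)) (XT.nd (nat_lit 78) (nat_lit 1064) (nat_lit 0) (XT.lf (nat_lit 0) (nat_lit 1423953624) (nat_lit 1064) (nat_lit 1670645984)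 (nat_lit 76) (nat_lit 3855568853) (nat_lit 650) (nat_lit 5) (nat_lit 664) (nat_lit 5) (nat_lit 651) (nat_lit 5) (nat_lit 546) (nat_lit 524) (nat_lit 490)) (XT.lf (nat_lit 0) (nat_lit 2418353370) (nat_lit 1064) (nat_lit 1397209625) (nat_lit 1140) (nat_lit 3171080073) (nat_lit 636) (nat_lit 5) (nat_lit 650) (nat_lit 5) (nat_lit 651) (nat_lit 5) (nat_lit 547) (nat_lit 524) (nat_lit 489)))))) (XT.nd (nat_lit 390) (nat_lit 4408) (nat_lit 0) (XT.nd (nat_lit 156) (nat_lit 2584) (nat_lit 0) (XT.nd (nat_lit 78) (nat_lit 1216) (nat_lit 0) (XT.lf (nat_lit 0) (nat_lit 6216334365) (nat_lit 1140) (nat_lit 453893232) (nat_lit 76) (nat_lit 354403865) (nat_lit 636) (nat_lit 5) (nat_lit 651) (nat_lit 5) (nat_lit 637) (nat_lit 5) (nat_lit 548) (nat_lit 524) (nat_lit 488)) (XT.lf (nat_lit 0) (nat_lit 1563064066) (nat_lit 1216) (nat_lit 3330413148) (nat_lit 76) (nat_lit 2170058291) (nat_lit 620) (nat_lit 5) (nat_lit 636) (nat_lit 5)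 (nat_lit 621) (nat_lit 5) (nat_lit 549) (nat_lit 524) (nat_lit 487))) (XT.nd (nat_lit 78) (nat_lit 1368) (nat_lit 0) (XT.lf (nat_lit 0) (nat_lit 873505072) (nat_lit 1216) (nat_lit 3055575647) (nat_lit 1292) (nat_lit 3174879288) (nat_lit 604) (nat_lit 5) (nat_lit 620) (nat_lit 5) (nat_lit 621) (nat_lit 5) (nat_lit 550) (nat_lit 524) (nat_lit 486)) (XT.nd (nat_lit 78) (nat_lit 1368) (nat_lit 0) (XT.lf (nat_lit 0) (nat_lit 5167453677) (nat_lit 1216) (nat_lit 1147356270) (nat_lit 1292) (nat_lit 830945267) (nat_lit 604) (nat_lit 5) (nat_lit 620) (nat_lit 5) (nat_lit 621) (nat_lit 5) (nat_lit 551) (nat_lit 524) (nat_lit 485)) (XT.lf (nat_lit 0) (nat_lit 1510715500) (nat_lit 1368) (nat_lit 4853925120) (nat_lit 76) (nat_lit 824126702) (nat_lit 586) (nat_lit 5) (nat_lit 604) (nat_lit 5) (nat_lit 587) (nat_lit 5) (nat_lit 552) (nat_lit 524) (nat_lit 484))))) (XT.nd (nat_lit 156) (nat_lit 3040) (nat_lit 0) (XT.nd (nat_lit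 78) (nat_lit 1368) (nat_lit 0) (XT.lf (nat_lit 0) (nat_lit 3860522307) (nat_lit 1368) (nat_lit 524374951) (nat_lit 76) (nat_lit 2848193259) (nat_lit 586) (nat_lit 5) (nat_lit 604) (nat_lit 5) (nat_lit 587) (nat_lit 5) (nat_lit 553) (nat_lit 524) (nat_lit 483)) (XT.lf (nat_lit 0) (nat_lit 3903871340) (nat_lit 1368) (nat_lit 2331219090) (nat_lit 1444) (nat_lit 1043663737) (nat_lit 568) (nat_lit 5) (nat_lit 586) (nat_lit 5) (nat_lit 587) (nat_lit 5) (nat_lit 554) (nat_lit 524) (nat_lit 482))) (XT.nd (nat_lit 78) (nat_lit 1520) (nat_lit 0) (XT.lf (nat_lit 0) (nat_lit 1068397639) (nat_lit 1444) (nat_lit 209212898) (nat_lit 1520) (nat_lit 6048291372) (nat_lit 548) (nat_lit 5) (nat_lit 567) (nat_lit 5) (nat_lit 568) (nat_lit 5) (nat_lit 555) (nat_lit 524) (nat_lit 481)) (XT.nd (nat_lit 78) (nat_lit 1520) (nat_lit 0) (XT.lf (nat_lit 0) (nat_lit 3620339370) (nat_lit 1520) (nat_lit 1787206627) (nat_lit 76) (nat_lit 1966537318)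 (nat_lit 548) (nat_lit 5) (nat_lit 568) (nat_lit 5) (nat_lit 549) (nat_lit 5) (nat_lit 556) (nat_lit 524) (nat_lit 480)) (XT.lf (nat_lit 0) (nat_lit 2768000776) (nat_lit 1520) (nat_lit 3215689777) (nat_lit 1596) (nat_lit 1440071028) (nat_lit 528) (nat_lit 5) (nat_lit 548) (nat_lit 5) (nat_lit 549) (nat_lit 5) (nat_lit 557) (nat_lit 524) (nat_lit 479))))))))
noncomputable def xc83 : XT := (XT.nd (nat_lit 1482) (nat_lit 8132) (nat_lit 0) (XT.nd (nat_lit 702) (nat_lit 6080) (nat_lit 0) (XT.nd (nat_lit 312) (nat_lit 4484) (nat_lit 0) (XT.nd (nat_lit 156) (nat_lit 1748) (nat_lit 0) (XT.nd (nat_lit 78) (nat_lit 1596) (nat_lit 0) (XT.lf (nat_lit 0) (nat_lit 874627807) (nat_lit 1596) (nat_lit 81470914) (nat_lit 76) (nat_lit 6518887160) (nat_lit 527) (nat_lit 5) (nat_lit 548) (nat_lit 5) (nat_lit 528) (nat_lit 5) (nat_lit 558) (nat_lit 524) (nat_lit 478)) (XT.lf (nat_lit 0) (nat_lit 3210880701) (nat_lit 1672) (nat_lit 2940333005)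 (nat_lit 76) (nat_lit 1375947824) (nat_lit 506) (nat_lit 5) (nat_lit 528) (nat_lit 5) (nat_lit 507) (nat_lit 5) (nat_lit 559) (nat_lit 524) (nat_lit 477))) (XT.nd (nat_lit 78) (nat_lit 76) (nat_lit 0) (XT.lf (nat_lit 0) (nat_lit 1746150982) (nat_lit 1672) (nat_lit 3822209718) (nat_lit 1748) (nat_lit 2012537882) (nat_lit 484) (nat_lit 5) (nat_lit 506) (nat_lit 5) (nat_lit 507) (nat_lit 5) (nat_lit 560) (nat_lit 524) (nat_lit 476)) (XT.lf (nat_lit 0) (nat_lit 309309347) (nat_lit 1748) (nat_lit 1111381586) (nat_lit 76) (nat_lit 6215454211) (nat_lit 483) (nat_lit 5) (nat_lit 506) (nat_lit 5) (nat_lit 484) (nat_lit 5) (nat_lit 561) (nat_lit 524) (nat_lit 475)))) (XT.nd (nat_lit 156) (nat_lit 1064) (nat_lit 0) (XT.nd (nat_lit 78) (nat_lit 1672) (nat_lit 0) (XT.lf (nat_lit 0) (nat_lit 2639101530) (nat_lit 1824) (nat_lit 3997057994) (nat_lit 76) (nat_lit 1056309414) (nat_lit 460) (nat_lit 5) (nat_lit 484) (nat_lit 5) (nat_lit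 461) (nat_lit 5) (nat_lit 562) (nat_lit 524) (nat_lit 474)) (XT.lf (nat_lit 0) (nat_lit 825206985) (nat_lit 1672) (nat_lit 4170600014) (nat_lit 1748) (nat_lit 2754513189) (nat_lit 438) (nat_lit 5) (nat_lit 460) (nat_lit 5) (nat_lit 461) (nat_lit 5) (nat_lit 563) (nat_lit 524) (nat_lit 473))) (XT.nd (nat_lit 78) (nat_lit 1064) (nat_lit 0) (XT.lf (nat_lit 0) (nat_lit 5758568067) (nat_lit 1672) (nat_lit 1626510645) (nat_lit 1748) (nat_lit 424548293) (nat_lit 438) (nat_lit 5) (nat_lit 460) (nat_lit 5) (nat_lit 461) (nat_lit 5) (nat_lit 564) (nat_lit 524) (nat_lit 472)) (XT.nd (nat_lit 78) (nat_lit 0) (nat_lit 0) (XT.lf (nat_lit 0) (nat_lit 1910939071) (nat_lit 1064) (nat_lit 4970201551) (nat_lit 76) (nat_lit 989042282) (nat_lit 424) (nat_lit 5) (nat_lit 438) (nat_lit 5) (nat_lit 425) (nat_lit 5) (nat_lit 565) (nat_lit 524) (nat_lit 471)) (XT.lf (nat_lit 0) (nat_lit 4271784616) (nat_lit 1064) (nat_lit 7371480) (nat_lit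 76) (nat_lit 3653057808) (nat_lit 424) (nat_lit 5) (nat_lit 438) (nat_lit 5) (nat_lit 425) (nat_lit 5) (nat_lit 566) (nat_lit 524) (nat_lit 470)))))) (XT.nd (nat_lit 390) (nat_lit 2432) (nat_lit 0) (XT.nd (nat_lit 156) (nat_lit 1748) (nat_lit 0) (XT.nd (nat_lit 78) (nat_lit 988) (nat_lit 0) (XT.lf (nat_lit 0) (nat_lit 5082284377) (nat_lit 912) (nat_lit 1591051816) (nat_lit 988) (nat_lit 1322286186) (nat_lit 412) (nat_lit 5) (nat_lit 424) (nat_lit 5) (nat_lit 425) (nat_lit 5) (nat_lit 567) (nat_lit 524) (nat_lit 469)) (XT.lf (nat_lit 0) (nat_lit 1031352672) (nat_lit 988) (nat_lit 5872196940) (nat_lit 76) (nat_lit 1156964420) (nat_lit 399) (nat_lit 5) (nat_lit 412) (nat_lit 5) (nat_lit 400) (nat_lit 5) (nat_lit 568) (nat_lit 524) (nat_lit 468))) (XT.nd (nat_lit 78) (nat_lit 1748) (nat_lit 0) (XT.lf (nat_lit 0) (nat_lit 3405854652) (nat_lit 988) (nat_lit 754115671) (nat_lit 76) (nat_lit 3966734728) (nat_lit 399) (nat_lit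 5) (nat_lit 412) (nat_lit 5) (nat_lit 400) (nat_lit 5) (nat_lit 569) (nat_lit 524) (nat_lit 467)) (XT.nd (nat_lit 78) (nat_lit 912) (nat_lit 0) (XT.lf (nat_lit 0) (nat_lit 4486068297) (nat_lit 836) (nat_lit 1332927394) (nat_lit 912) (nat_lit 2375407352) (nat_lit 388) (nat_lit 5) (nat_lit 399) (nat_lit 5) (nat_lit 400) (nat_lit 5) (nat_lit 570) (nat_lit 524) (nat_lit 466)) (XT.lf (nat_lit 0) (nat_lit 4357407) (nat_lit 912) (nat_lit 6715186997) (nat_lit 76) (nat_lit 1544161583) (nat_lit 376) (nat_lit 5) (nat_lit 388) (nat_lit 5) (nat_lit 377) (nat_lit 5) (nat_lit 571) (nat_lit 524) (nat_lit 465))))) (XT.nd (nat_lit 156) (nat_lit 1672) (nat_lit 0) (XT.nd (nat_lit 78) (nat_lit 760) (nat_lit 0) (XT.lf (nat_lit 0) (nat_lit 2396552624) (nat_lit 912) (nat_lit 1437668179) (nat_lit 76) (nat_lit 4499933099) (nat_lit 376) (nat_lit 5) (nat_lit 388) (nat_lit 5) (nat_lit 377) (nat_lit 5) (nat_lit 572) (nat_lit 524) (nat_lit 464))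 (XT.lf (nat_lit 0) (nat_lit 3958270487) (nat_lit 760) (nat_lit 867486780) (nat_lit 836) (nat_lit 3580475864) (nat_lit 366) (nat_lit 5) (nat_lit 376) (nat_lit 5) (nat_lit 377) (nat_lit 5) (nat_lit 573) (nat_lit 524) (nat_lit 463))) (XT.nd (nat_lit 78) (nat_lit 836) (nat_lit 0) (XT.lf (nat_lit 0) (nat_lit 961084470) (nat_lit 836) (nat_lit 6336340565) (nat_lit 912) (nat_lit 1182456882) (nat_lit 355) (nat_lit 5) (nat_lit 366) (nat_lit 5) (nat_lit 367) (nat_lit 5) (nat_lit 574) (nat_lit 524) (nat_lit 462)) (XT.nd (nat_lit 78) (nat_lit 760) (nat_lit 0) (XT.lf (nat_lit 0) (nat_lit 1246866107) (nat_lit 912) (nat_lit 2069665784) (nat_lit 76) (nat_lit 5238314755) (nat_lit 354) (nat_lit 5) (nat_lit 366) (nat_lit 5) (nat_lit 355) (nat_lit 5) (nat_lit 575) (nat_lit 524) (nat_lit 461)) (XT.lf (nat_lit 0) (nat_lit 3487415899) (nat_lit 760) (nat_lit 209011594) (nat_lit 836) (nat_lit 4934982389) (nat_lit 344) (nat_lit 5) (nat_lit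 354) (nat_lit 5) (nat_lit 355) (nat_lit 5) (nat_lit 576) (nat_lit 524) (nat_lit 460))))))) (XT.nd (nat_lit 702) (nat_lit 3800) (nat_lit 0) (XT.nd (nat_lit 312) (nat_lit 2812) (nat_lit 0) (XT.nd (nat_lit 156) (nat_lit 760) (nat_lit 0) (XT.nd (nat_lit 78) (nat_lit 0) (nat_lit 0) (XT.lf (nat_lit 0) (nat_lit 421320785) (nat_lit 760) (nat_lit 5774838368) (nat_lit 836) (nat_lit 2513326781) (nat_lit 334) (nat_lit 5) (nat_lit 344) (nat_lit 5) (nat_lit 345) (nat_lit 5) (nat_lit 577) (nat_lit 524) (nat_lit 459)) (XT.lf (nat_lit 0) (nat_lit 6127168555) (nat_lit 760) (nat_lit 2620279042) (nat_lit 836) (nat_lit 41649695) (nat_lit 334) (nat_lit 5) (nat_lit 344) (nat_lit 5) (nat_lit 345) (nat_lit 5) (nat_lit 578) (nat_lit 524) (nat_lit 458))) (XT.nd (nat_lit 78) (nat_lit 0) (nat_lit 0) (XT.lf (nat_lit 0) (nat_lit 2437022139) (nat_lit 760) (nat_lit 5812242093) (nat_lit 76) (nat_lit 620917920) (nat_lit 324) (nat_lit 5) (nat_lit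 334) (nat_lit 5) (nat_lit 325) (nat_lit 5) (nat_lit 579) (nat_lit 524) (nat_lit 457)) (XT.lf (nat_lit 0) (nat_lit 4966539305) (nat_lit 760) (nat_lit 81162617) (nat_lit 76) (nat_lit 3905149430) (nat_lit 324) (nat_lit 5) (nat_lit 334) (nat_lit 5) (nat_lit 325) (nat_lit 5) (nat_lit 580) (nat_lit 524) (nat_lit 456)))) (XT.nd (nat_lit 156) (nat_lit 1292) (nat_lit 0) (XT.nd (nat_lit 78) (nat_lit 760) (nat_lit 0) (XT.lf (nat_lit 0) (nat_lit 5802230269) (nat_lit 760) (nat_lit 1749240412) (nat_lit 836) (nat_lit 1485611426) (nat_lit 314) (nat_lit 5) (nat_lit 324) (nat_lit 5) (nat_lit 325) (nat_lit 5) (nat_lit 581) (nat_lit 524) (nat_lit 455)) (XT.lf (nat_lit 0) (nat_lit 1046965466) (nat_lit 760) (nat_lit 6462848144) (nat_lit 76) (nat_lit 1613133400) (nat_lit 304) (nat_lit 5) (nat_lit 314) (nat_lit 5) (nat_lit 305) (nat_lit 5) (nat_lit 582) (nat_lit 524) (nat_lit 454))) (XT.nd (nat_lit 78) (nat_lit 1292) (nat_lit 0) (XT.lf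 (nat_lit 0) (nat_lit 3611437107) (nat_lit 760) (nat_lit 553812021) (nat_lit 76) (nat_lit 5045065355) (nat_lit 304) (nat_lit 5) (nat_lit 314) (nat_lit 5) (nat_lit 305) (nat_lit 5) (nat_lit 583) (nat_lit 524) (nat_lit 453)) (XT.nd (nat_lit 78) (nat_lit 608) (nat_lit 0) (XT.lf (nat_lit 0) (nat_lit 5507451537) (nat_lit 684) (nat_lit 723819634) (nat_lit 760) (nat_lit 3068080967) (nat_lit 295) (nat_lit 5) (nat_lit 304) (nat_lit 5) (nat_lit 305) (nat_lit 5) (nat_lit 584) (nat_lit 524) (nat_lit 452)) (XT.lf (nat_lit 0) (nat_lit 2280625307) (nat_lit 608) (nat_lit 6628163277) (nat_lit 684) (nat_lit 481280438) (nat_lit 287) (nat_lit 5) (nat_lit 295) (nat_lit 5) (nat_lit 296) (nat_lit 5) (nat_lit 585) (nat_lit 524) (nat_lit 451)))))) (XT.nd (nat_lit 390) (nat_lit 1748) (nat_lit 0) (XT.nd (nat_lit 156) (nat_lit 1292) (nat_lit 0) (XT.nd (nat_lit 78) (nat_lit 684) (nat_lit 0) (XT.lf (nat_lit 0) (nat_lit 2128174943) (nat_lit 684)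 (nat_lit 1013743643) (nat_lit 76) (nat_lit 6340421345) (nat_lit 286) (nat_lit 5) (nat_lit 295) (nat_lit 5) (nat_lit 287) (nat_lit 5) (nat_lit 586) (nat_lit 524) (nat_lit 450)) (XT.lf (nat_lit 0) (nat_lit 4789648933) (nat_lit 760) (nat_lit 4347849421) (nat_lit 76) (nat_lit 438772767) (nat_lit 277) (nat_lit 5) (nat_lit 287) (nat_lit 5) (nat_lit 278) (nat_lit 5) (nat_lit 587) (nat_lit 524) (nat_lit 449))) (XT.nd (nat_lit 78) (nat_lit 684) (nat_lit 0) (XT.lf (nat_lit 0) (nat_lit 1903096078) (nat_lit 608) (nat_lit 5610990062) (nat_lit 684) (nat_lit 2157804011) (nat_lit 269) (nat_lit 5) (nat_lit 277) (nat_lit 5) (nat_lit 278) (nat_lit 5) (nat_lit 588) (nat_lit 524) (nat_lit 448)) (XT.nd (nat_lit 78) (nat_lit 608) (nat_lit 0) (XT.lf (nat_lit 0) (nat_lit 515960556) (nat_lit 684) (nat_lit 1472824582) (nat_lit 76) (nat_lit 7780587430) (nat_lit 268) (nat_lit 5) (nat_lit 277) (nat_lit 5) (nat_lit 269) (nat_lit 5) (nat_lit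 589) (nat_lit 524) (nat_lit 447)) (XT.lf (nat_lit 0) (nat_lit 3228341731) (nat_lit 684) (nat_lit 4917583240) (nat_lit 76) (nat_lit 1722317379) (nat_lit 260) (nat_lit 5) (nat_lit 269) (nat_lit 5) (nat_lit 261) (nat_lit 5) (nat_lit 590) (nat_lit 524) (nat_lit 446))))) (XT.nd (nat_lit 156) (nat_lit 1216) (nat_lit 0) (XT.nd (nat_lit 78) (nat_lit 0) (nat_lit 0) (XT.lf (nat_lit 0) (nat_lit 1522491939) (nat_lit 532) (nat_lit 4476224873) (nat_lit 608) (nat_lit 3970301383) (nat_lit 253) (nat_lit 5) (nat_lit 260) (nat_lit 5) (nat_lit 261) (nat_lit 5) (nat_lit 591) (nat_lit 524) (nat_lit 445)) (XT.lf (nat_lit 0) (nat_lit 8120352519) (nat_lit 532) (nat_lit 708217140) (nat_lit 608) (nat_lit 1243162014) (nat_lit 253) (nat_lit 5) (nat_lit 260) (nat_lit 5) (nat_lit 261) (nat_lit 5) (nat_lit 592) (nat_lit 524) (nat_lit 444))) (XT.nd (nat_lit 78) (nat_lit 532) (nat_lit 0) (XT.lf (nat_lit 0) (nat_lit 1540791748) (nat_lit 684) (nat_lit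 5508987278) (nat_lit 76) (nat_lit 3126075007) (nat_lit 244) (nat_lit 5) (nat_lit 253) (nat_lit 5) (nat_lit 245) (nat_lit 5) (nat_lit 593) (nat_lit 524) (nat_lit 443)) (XT.nd (nat_lit 78) (nat_lit 0) (nat_lit 0) (XT.lf (nat_lit 0) (nat_lit 1126309651) (nat_lit 532) (nat_lit 3234377452) (nat_lit 608) (nat_lit 5921272542) (nat_lit 237) (nat_lit 5) (nat_lit 244) (nat_lit 5) (nat_lit 245) (nat_lit 5) (nat_lit 594) (nat_lit 524) (nat_lit 442)) (XT.lf (nat_lit 0) (nat_lit 7250421255) (nat_lit 608) (nat_lit 2462811625) (nat_lit 76) (nat_lit 676688925) (nat_lit 237) (nat_lit 5) (nat_lit 245) (nat_lit 5) (nat_lit 238) (nat_lit 5) (nat_lit 595) (nat_lit 524) (nat_lit 441))))))))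
noncomputable def xc84 : XT := (XT.nd (nat_lit 1482) (nat_lit 1216) (nat_lit 0) (XT.nd (nat_lit 702) (nat_lit 3116) (nat_lit 0) (XT.nd (nat_lit 312) (nat_lit 1596) (nat_lit 0) (XT.nd (nat_lit 156) (nat_lit 532) (nat_lit 0) (XT.nd (nat_lit 78) (nat_lit 608) (nat_lit 0) (XT.lf (nat_lit 0) (nat_lit 4362582541) (nat_lit 532) (nat_lit 5857621874) (nat_lit 608) (nat_lit 279396897) (nat_lit 230) (nat_lit 5) (nat_lit 237) (nat_lit 5) (nat_lit 238) (nat_lit 5) (nat_lit 596) (nat_lit 524) (nat_lit 440)) (XT.lf (nat_lit 0) (nat_lit 701468061) (nat_lit 532) (nat_lit 1895661147) (nat_lit 608) (nat_lit 8014129385) (nat_lit 222) (nat_lit 5) (nat_lit 229) (nat_lit 5) (nat_lit 230) (nat_lit 5) (nat_lit 597) (nat_lit 524) (nat_lit 439))) (XT.nd (nat_lit 78) (nat_lit 532) (nat_lit 0) (XT.lf (nat_lit 0) (nat_lit 5555692652) (nat_lit 608) (nat_lit 3017920637) (nat_lit 76) (nat_lit 2150936841) (nat_lit 222) (nat_lit 5) (nat_lit 230)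 (nat_lit 5) (nat_lit 223) (nat_lit 5) (nat_lit 598) (nat_lit 524) (nat_lit 438)) (XT.lf (nat_lit 0) (nat_lit 4015171220) (nat_lit 532) (nat_lit 4570270350) (nat_lit 608) (nat_lit 2254428593) (nat_lit 215) (nat_lit 5) (nat_lit 222) (nat_lit 5) (nat_lit 223) (nat_lit 5) (nat_lit 599) (nat_lit 524) (nat_lit 437)))) (XT.nd (nat_lit 156) (nat_lit 1064) (nat_lit 0) (XT.nd (nat_lit 78) (nat_lit 0) (nat_lit 0) (XT.lf (nat_lit 0) (nat_lit 234181151) (nat_lit 456) (nat_lit 470092359) (nat_lit 532) (nat_lit 10253224543) (nat_lit 208) (nat_lit 5) (nat_lit 214) (nat_lit 5) (nat_lit 215) (nat_lit 5) (nat_lit 600) (nat_lit 524) (nat_lit 436)) (XT.lf (nat_lit 0) (nat_lit 3735906458) (nat_lit 532) (nat_lit 3626199743) (nat_lit 76) (nat_lit 3714198171) (nat_lit 208) (nat_lit 5) (nat_lit 215) (nat_lit 5) (nat_lit 209) (nat_lit 5) (nat_lit 601) (nat_lit 524) (nat_lit 435))) (XT.nd (nat_lit 78) (nat_lit 532) (nat_lit 0) (XT.lf (nat_lit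 0) (nat_lit 3620909965) (nat_lit 532) (nat_lit 3208113486) (nat_lit 608) (nat_lit 4368449061) (nat_lit 201) (nat_lit 5) (nat_lit 208) (nat_lit 5) (nat_lit 209) (nat_lit 5) (nat_lit 602) (nat_lit 524) (nat_lit 434)) (XT.nd (nat_lit 78) (nat_lit 532) (nat_lit 0) (XT.lf (nat_lit 0) (nat_lit 9989609457) (nat_lit 608) (nat_lit 301833658) (nat_lit 76) (nat_lit 1029511436) (nat_lit 201) (nat_lit 5) (nat_lit 209) (nat_lit 5) (nat_lit 202) (nat_lit 5) (nat_lit 603) (nat_lit 524) (nat_lit 433)) (XT.lf (nat_lit 0) (nat_lit 1786247120) (nat_lit 532) (nat_lit 4302636561) (nat_lit 76) (nat_lit 5356937445) (nat_lit 194) (nat_lit 5) (nat_lit 201) (nat_lit 5) (nat_lit 195) (nat_lit 5) (nat_lit 604) (nat_lit 524) (nat_lit 432)))))) (XT.nd (nat_lit 390) (nat_lit 1672) (nat_lit 0) (XT.nd (nat_lit 156) (nat_lit 988) (nat_lit 0) (XT.nd (nat_lit 78) (nat_lit 0) (nat_lit 0) (XT.lf (nat_lit 0) (nat_lit 3164813955) (nat_lit 456) (nat_lit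 1781180307) (nat_lit 532) (nat_lit 6627064687) (nat_lit 188) (nat_lit 5) (nat_lit 194) (nat_lit 5) (nat_lit 195) (nat_lit 5) (nat_lit 605) (nat_lit 524) (nat_lit 431)) (XT.lf (nat_lit 0) (nat_lit 8190176813) (nat_lit 532) (nat_lit 915583951) (nat_lit 76) (nat_lit 2596658423) (nat_lit 188) (nat_lit 5) (nat_lit 195) (nat_lit 5) (nat_lit 189) (nat_lit 5) (nat_lit 606) (nat_lit 524) (nat_lit 430))) (XT.nd (nat_lit 78) (nat_lit 532) (nat_lit 0) (XT.lf (nat_lit 0) (nat_lit 6768510245) (nat_lit 456) (nat_lit 4762173404) (nat_lit 532) (nat_lit 303056584) (nat_lit 182) (nat_lit 5) (nat_lit 188) (nat_lit 5) (nat_lit 189) (nat_lit 5) (nat_lit 607) (nat_lit 524) (nat_lit 429)) (XT.nd (nat_lit 78) (nat_lit 0) (nat_lit 0) (XT.lf (nat_lit 0) (nat_lit 2630824630) (nat_lit 456) (nat_lit 299583550) (nat_lit 532) (nat_lit 9036915110) (nat_lit 175) (nat_lit 5) (nat_lit 181) (nat_lit 5) (nat_lit 182) (nat_lit 5) (nat_lit 608) (nat_lit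 524) (nat_lit 428)) (XT.lf (nat_lit 0) (nat_lit 6262270346) (nat_lit 532) (nat_lit 1618938505) (nat_lit 76) (nat_lit 4221575652) (nat_lit 175) (nat_lit 5) (nat_lit 182) (nat_lit 5) (nat_lit 176) (nat_lit 5) (nat_lit 609) (nat_lit 524) (nat_lit 427))))) (XT.nd (nat_lit 156) (nat_lit 760) (nat_lit 0) (XT.nd (nat_lit 78) (nat_lit 532) (nat_lit 0) (XT.lf (nat_lit 0) (nat_lit 6298635227) (nat_lit 380) (nat_lit 3381443146) (nat_lit 456) (nat_lit 2560492627) (nat_lit 170) (nat_lit 5) (nat_lit 175) (nat_lit 5) (nat_lit 176) (nat_lit 5) (nat_lit 610) (nat_lit 524) (nat_lit 426)) (XT.lf (nat_lit 0) (nat_lit 783236217) (nat_lit 532) (nat_lit 10387320644) (nat_lit 76) (nat_lit 1210288482) (nat_lit 163) (nat_lit 5) (nat_lit 170) (nat_lit 5) (nat_lit 164) (nat_lit 5) (nat_lit 611) (nat_lit 524) (nat_lit 425))) (XT.nd (nat_lit 78) (nat_lit 760) (nat_lit 0) (XT.lf (nat_lit 0) (nat_lit 4198787113) (nat_lit 532) (nat_lit 2429710730)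 (nat_lit 76) (nat_lit 5894306288) (nat_lit 163) (nat_lit 5) (nat_lit 170) (nat_lit 5) (nat_lit 164) (nat_lit 5) (nat_lit 612) (nat_lit 524) (nat_lit 424)) (XT.nd (nat_lit 78) (nat_lit 380) (nat_lit 0) (XT.lf (nat_lit 0) (nat_lit 5727653648) (nat_lit 380) (nat_lit 1969309753) (nat_lit 456) (nat_lit 4970354470) (nat_lit 158) (nat_lit 5) (nat_lit 163) (nat_lit 5) (nat_lit 164) (nat_lit 5) (nat_lit 613) (nat_lit 524) (nat_lit 423)) (XT.lf (nat_lit 0) (nat_lit 1229989722) (nat_lit 380) (nat_lit 10054858425) (nat_lit 456) (nat_lit 1529480863) (nat_lit 153) (nat_lit 5) (nat_lit 158) (nat_lit 5) (nat_lit 159) (nat_lit 5) (nat_lit 614) (nat_lit 524) (nat_lit 422))))))) (XT.nd (nat_lit 74412) (nat_lit 0) (nat_lit 42636) (XT.nd (nat_lit 312) (nat_lit 380) (nat_lit 0) (XT.nd (nat_lit 156) (nat_lit 380) (nat_lit 0) (XT.nd (nat_lit 78) (nat_lit 380) (nat_lit 0) (XT.lf (nat_lit 0) (nat_lit 1991506277) (nat_lit 456) (nat_lit 3367194433)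 (nat_lit 76) (nat_lit 7604579132) (nat_lit 152) (nat_lit 5) (nat_lit 158) (nat_lit 5) (nat_lit 153) (nat_lit 5) (nat_lit 615) (nat_lit 524) (nat_lit 421)) (XT.lf (nat_lit 0) (nat_lit 5036151464) (nat_lit 380) (nat_lit 536791172) (nat_lit 456) (nat_lit 7541856579) (nat_lit 147) (nat_lit 5) (nat_lit 152) (nat_lit 5) (nat_lit 153) (nat_lit 5) (nat_lit 616) (nat_lit 524) (nat_lit 420))) (XT.nd (nat_lit 78) (nat_lit 0) (nat_lit 0) (XT.lf (nat_lit 0) (nat_lit 325781925) (nat_lit 380) (nat_lit 8931465125) (nat_lit 456) (nat_lit 4011479009) (nat_lit 142) (nat_lit 5) (nat_lit 147) (nat_lit 5) (nat_lit 148) (nat_lit 5) (nat_lit 617) (nat_lit 524) (nat_lit 419)) (XT.lf (nat_lit 0) (nat_lit 8970227691) (nat_lit 380) (nat_lit 4080896351) (nat_lit 456) (nat_lit 373891499) (nat_lit 142) (nat_lit 5) (nat_lit 147) (nat_lit 5) (nat_lit 148) (nat_lit 5) (nat_lit 618) (nat_lit 524) (nat_lit 418)))) (XT.nd (nat_lit 73866) (nat_lit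 0) (nat_lit 45068) (XT.nd (nat_lit 78) (nat_lit 0) (nat_lit 0) (XT.lf (nat_lit 0) (nat_lit 3304279302) (nat_lit 380) (nat_lit 9386766798) (nat_lit 76) (nat_lit 892721433) (nat_lit 137) (nat_lit 5) (nat_lit 142) (nat_lit 5) (nat_lit 138) (nat_lit 5) (nat_lit 619) (nat_lit 524) (nat_lit 417)) (XT.lf (nat_lit 0) (nat_lit 7086685677) (nat_lit 380) (nat_lit 726316382) (nat_lit 76) (nat_lit 5931931233) (nat_lit 137) (nat_lit 5) (nat_lit 142) (nat_lit 5) (nat_lit 138) (nat_lit 5) (nat_lit 620) (nat_lit 524) (nat_lit 416))) (XT.nd (nat_lit 78) (nat_lit 532) (nat_lit 0) (XT.lf (nat_lit 0) (nat_lit 911301364) (nat_lit 0) (nat_lit 911301364) (nat_lit 380) (nat_lit 1422373378) (nat_lit 737) (nat_lit 5) (nat_lit 737) (nat_lit 3) (nat_lit 742) (nat_lit 3) (nat_lit 525) (nat_lit 525) (nat_lit 510)) (XT.nd (nat_lit 78) (nat_lit 532) (nat_lit 0) (XT.lf (nat_lit 0) (nat_lit 5046256577) (nat_lit 0) (nat_lit 1328690220) (nat_lit 380)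 (nat_lit 125316344) (nat_lit 737) (nat_lit 5) (nat_lit 737) (nat_lit 3) (nat_lit 742) (nat_lit 3) (nat_lit 526) (nat_lit 525) (nat_lit 509)) (XT.lf (nat_lit 76) (nat_lit 1793644476) (nat_lit 0) (nat_lit 760635630) (nat_lit 532) (nat_lit 3957364588) (nat_lit 731) (nat_lit 5) (nat_lit 730) (nat_lit 3) (nat_lit 737) (nat_lit 5) (nat_lit 527) (nat_lit 525) (nat_lit 508)))))) (XT.nd (nat_lit 390) (nat_lit 1368) (nat_lit 0) (XT.nd (nat_lit 156) (nat_lit 608) (nat_lit 0) (XT.nd (nat_lit 78) (nat_lit 456) (nat_lit 0) (XT.lf (nat_lit 76) (nat_lit 5089068894) (nat_lit 0) (nat_lit 136503058) (nat_lit 532) (nat_lit 1298887953) (nat_lit 731) (nat_lit 5) (nat_lit 730) (nat_lit 3) (nat_lit 737) (nat_lit 5) (nat_lit 528) (nat_lit 525) (nat_lit 507)) (XT.lf (nat_lit 0) (nat_lit 1341045650) (nat_lit 532) (nat_lit 4649865207) (nat_lit 608) (nat_lit 547518309) (nat_lit 724) (nat_lit 5) (nat_lit 731) (nat_lit 5) (nat_lit 732) (nat_lit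 5) (nat_lit 529) (nat_lit 525) (nat_lit 506))) (XT.nd (nat_lit 78) (nat_lit 608) (nat_lit 0) (XT.lf (nat_lit 0) (nat_lit 3959257910) (nat_lit 532) (nat_lit 1301221225) (nat_lit 608) (nat_lit 1293186694) (nat_lit 724) (nat_lit 5) (nat_lit 731) (nat_lit 5) (nat_lit 732) (nat_lit 5) (nat_lit 530) (nat_lit 525) (nat_lit 505)) (XT.nd (nat_lit 78) (nat_lit 0) (nat_lit 0) (XT.lf (nat_lit 0) (nat_lit 6718093) (nat_lit 608) (nat_lit 4465202371) (nat_lit 684) (nat_lit 2098357674) (nat_lit 716) (nat_lit 5) (nat_lit 724) (nat_lit 5) (nat_lit 725) (nat_lit 5) (nat_lit 531) (nat_lit 525) (nat_lit 504)) (XT.lf (nat_lit 0) (nat_lit 2568149117) (nat_lit 608) (nat_lit 1044682099) (nat_lit 684) (nat_lit 2975204245) (nat_lit 716) (nat_lit 5) (nat_lit 724) (nat_lit 5) (nat_lit 725) (nat_lit 5) (nat_lit 532) (nat_lit 525) (nat_lit 503))))) (XT.nd (nat_lit 156) (nat_lit 684) (nat_lit 0) (XT.nd (nat_lit 78) (nat_lit 684) (nat_lit 0) (XT.lf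 (nat_lit 76) (nat_lit 2439446469) (nat_lit 0) (nat_lit 2692690437) (nat_lit 684) (nat_lit 1475000328) (nat_lit 717) (nat_lit 5) (nat_lit 716) (nat_lit 5) (nat_lit 725) (nat_lit 5) (nat_lit 533) (nat_lit 525) (nat_lit 502)) (XT.lf (nat_lit 0) (nat_lit 1049222379) (nat_lit 684) (nat_lit 663804080) (nat_lit 760) (nat_lit 4914601529) (nat_lit 707) (nat_lit 5) (nat_lit 716) (nat_lit 5) (nat_lit 717) (nat_lit 5) (nat_lit 534) (nat_lit 525) (nat_lit 501))) (XT.nd (nat_lit 78) (nat_lit 684) (nat_lit 0) (XT.lf (nat_lit 76) (nat_lit 2901764482) (nat_lit 0) (nat_lit 658608202) (nat_lit 760) (nat_lit 3088851958) (nat_lit 708) (nat_lit 5) (nat_lit 707) (nat_lit 5) (nat_lit 717) (nat_lit 5) (nat_lit 535) (nat_lit 525) (nat_lit 500)) (XT.nd (nat_lit 78) (nat_lit 760) (nat_lit 0) (XT.lf (nat_lit 0) (nat_lit 6067427431) (nat_lit 684) (nat_lit 164113351) (nat_lit 760) (nat_lit 440813475) (nat_lit 708) (nat_lit 5) (nat_lit 717) (nat_lit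 5) (nat_lit 718) (nat_lit 5) (nat_lit 536) (nat_lit 525) (nat_lit 499)) (XT.lf (nat_lit 0) (nat_lit 1869899476) (nat_lit 760) (nat_lit 3213661087) (nat_lit 836) (nat_lit 1612819193) (nat_lit 698) (nat_lit 5) (nat_lit 708) (nat_lit 5) (nat_lit 709) (nat_lit 5) (nat_lit 537) (nat_lit 525) (nat_lit 498))))))))
noncomputable def xc85 : XT := (XT.nd (nat_lit 1482) (nat_lit 14744) (nat_lit 0) (XT.nd (nat_lit 702) (nat_lit 7752) (nat_lit 0) (XT.nd (nat_lit 312) (nat_lit 2812) (nat_lit 0) (XT.nd (nat_lit 156) (nat_lit 0) (nat_lit 0) (XT.nd (nat_lit 78) (nat_lit 836) (nat_lit 0) (XT.lf (nat_lit 76) (nat_lit 448033761) (nat_lit 0) (nat_lit 3882346425) (nat_lit 836) (nat_lit 2391554260) (nat_lit 699) (nat_lit 5) (nat_lit 698) (nat_lit 5) (nat_lit 709) (nat_lit 5) (nat_lit 538) (nat_lit 525) (nat_lit 497)) (XT.lf (nat_lit 0) (nat_lit 53329574) (nat_lit 836) (nat_lit 2560014724) (nat_lit 912) (nat_lit 4135407917) (nat_lit 687)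 (nat_lit 5) (nat_lit 698) (nat_lit 5) (nat_lit 699) (nat_lit 5) (nat_lit 539) (nat_lit 525) (nat_lit 496))) (XT.nd (nat_lit 78) (nat_lit 0) (nat_lit 76) (XT.lf (nat_lit 76) (nat_lit 1190443606) (nat_lit 0) (nat_lit 1274323885) (nat_lit 912) (nat_lit 4312042111) (nat_lit 688) (nat_lit 5) (nat_lit 687) (nat_lit 5) (nat_lit 699) (nat_lit 5) (nat_lit 540) (nat_lit 525) (nat_lit 495)) (XT.lf (nat_lit 0) (nat_lit 4885267742) (nat_lit 836) (nat_lit 1793698961) (nat_lit 76) (nat_lit 127257522) (nat_lit 688) (nat_lit 5) (nat_lit 699) (nat_lit 5) (nat_lit 689) (nat_lit 5) (nat_lit 541) (nat_lit 525) (nat_lit 494)))) (XT.nd (nat_lit 156) (nat_lit 1976) (nat_lit 0) (XT.nd (nat_lit 78) (nat_lit 0) (nat_lit 0) (XT.lf (nat_lit 0) (nat_lit 476770262) (nat_lit 912) (nat_lit 4784482027) (nat_lit 76) (nat_lit 1575607609) (nat_lit 676) (nat_lit 5) (nat_lit 688) (nat_lit 5) (nat_lit 677) (nat_lit 5) (nat_lit 542) (nat_lit 525) (nat_lit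 493)) (XT.lf (nat_lit 0) (nat_lit 2853412175) (nat_lit 912) (nat_lit 919243312) (nat_lit 76) (nat_lit 3096077226) (nat_lit 676) (nat_lit 5) (nat_lit 688) (nat_lit 5) (nat_lit 677) (nat_lit 5) (nat_lit 543) (nat_lit 525) (nat_lit 492))) (XT.nd (nat_lit 78) (nat_lit 1064) (nat_lit 0) (XT.lf (nat_lit 0) (nat_lit 3025465203) (nat_lit 912) (nat_lit 2217394283) (nat_lit 988) (nat_lit 1659089835) (nat_lit 664) (nat_lit 5) (nat_lit 676) (nat_lit 5) (nat_lit 677) (nat_lit 5) (nat_lit 544) (nat_lit 525) (nat_lit 491)) (XT.nd (nat_lit 78) (nat_lit 0) (nat_lit 0) (XT.lf (nat_lit 0) (nat_lit 84055381) (nat_lit 988) (nat_lit 603291469) (nat_lit 1064) (nat_lit 6249341244) (nat_lit 650) (nat_lit 5) (nat_lit 663) (nat_lit 5) (nat_lit 664) (nat_lit 5) (nat_lit 545) (nat_lit 525) (nat_lit 490)) (XT.lf (nat_lit 0) (nat_lit 3038474879) (nat_lit 1064) (nat_lit 2852099355) (nat_lit 76) (nat_lit 1081739628) (nat_lit 650) (nat_lit 5) (nat_lit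 664) (nat_lit 5) (nat_lit 651) (nat_lit 5) (nat_lit 546) (nat_lit 525) (nat_lit 489)))))) (XT.nd (nat_lit 390) (nat_lit 4180) (nat_lit 0) (XT.nd (nat_lit 156) (nat_lit 2432) (nat_lit 0) (XT.nd (nat_lit 78) (nat_lit 76) (nat_lit 0) (XT.lf (nat_lit 0) (nat_lit 1202059356) (nat_lit 1064) (nat_lit 4194404298) (nat_lit 1140) (nat_lit 1613002617) (nat_lit 636) (nat_lit 5) (nat_lit 650) (nat_lit 5) (nat_lit 651) (nat_lit 5) (nat_lit 547) (nat_lit 525) (nat_lit 488)) (XT.lf (nat_lit 0) (nat_lit 712085716) (nat_lit 1140) (nat_lit 1714640185) (nat_lit 76) (nat_lit 4621193807) (nat_lit 635) (nat_lit 5) (nat_lit 650) (nat_lit 5) (nat_lit 636) (nat_lit 5) (nat_lit 548) (nat_lit 525) (nat_lit 487))) (XT.nd (nat_lit 78) (nat_lit 1292) (nat_lit 0) (XT.lf (nat_lit 0) (nat_lit 2443503998) (nat_lit 1140) (nat_lit 583930845) (nat_lit 1216) (nat_lit 4060197251) (nat_lit 620) (nat_lit 5) (nat_lit 635) (nat_lit 5) (nat_lit 636) (nat_lit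 5) (nat_lit 549) (nat_lit 525) (nat_lit 486)) (XT.nd (nat_lit 78) (nat_lit 1292) (nat_lit 0) (XT.lf (nat_lit 0) (nat_lit 5359383846) (nat_lit 1216) (nat_lit 467022601) (nat_lit 76) (nat_lit 1302336481) (nat_lit 620) (nat_lit 5) (nat_lit 636) (nat_lit 5) (nat_lit 621) (nat_lit 5) (nat_lit 550) (nat_lit 525) (nat_lit 485)) (XT.lf (nat_lit 0) (nat_lit 539534969) (nat_lit 1292) (nat_lit 3372941288) (nat_lit 76) (nat_lit 3258542142) (nat_lit 603) (nat_lit 5) (nat_lit 620) (nat_lit 5) (nat_lit 604) (nat_lit 5) (nat_lit 551) (nat_lit 525) (nat_lit 484))))) (XT.nd (nat_lit 156) (nat_lit 2888) (nat_lit 0) (XT.nd (nat_lit 78) (nat_lit 0) (nat_lit 0) (XT.lf (nat_lit 0) (nat_lit 902508266) (nat_lit 1292) (nat_lit 1929099227) (nat_lit 1368) (nat_lit 4383093611) (nat_lit 586) (nat_lit 5) (nat_lit 603) (nat_lit 5) (nat_lit 604) (nat_lit 5) (nat_lit 552) (nat_lit 525) (nat_lit 483)) (XT.lf (nat_lit 0) (nat_lit 5145334189) (nat_lit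 1368) (nat_lit 1989471567) (nat_lit 76) (nat_lit 124944748) (nat_lit 586) (nat_lit 5) (nat_lit 604) (nat_lit 5) (nat_lit 587) (nat_lit 5) (nat_lit 553) (nat_lit 525) (nat_lit 482))) (XT.nd (nat_lit 78) (nat_lit 1444) (nat_lit 0) (XT.lf (nat_lit 0) (nat_lit 178596180) (nat_lit 1444) (nat_lit 4907172977) (nat_lit 76) (nat_lit 2220283146) (nat_lit 567) (nat_lit 5) (nat_lit 586) (nat_lit 5) (nat_lit 568) (nat_lit 5) (nat_lit 554) (nat_lit 525) (nat_lit 481)) (XT.nd (nat_lit 78) (nat_lit 1444) (nat_lit 0) (XT.lf (nat_lit 0) (nat_lit 2456327930) (nat_lit 1444) (nat_lit 503839366) (nat_lit 76) (nat_lit 4393498653) (nat_lit 567) (nat_lit 5) (nat_lit 586) (nat_lit 5) (nat_lit 568) (nat_lit 5) (nat_lit 555) (nat_lit 525) (nat_lit 480)) (XT.lf (nat_lit 0) (nat_lit 4002107994) (nat_lit 1444) (nat_lit 758104150) (nat_lit 1520) (nat_lit 2642416356) (nat_lit 548) (nat_lit 5) (nat_lit 567) (nat_lit 5) (nat_lit 568) (nat_lit 5)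 (nat_lit 556) (nat_lit 525) (nat_lit 479))))))) (XT.nd (nat_lit 702) (nat_lit 5320) (nat_lit 0) (XT.nd (nat_lit 312) (nat_lit 6232) (nat_lit 0) (XT.nd (nat_lit 156) (nat_lit 1596) (nat_lit 0) (XT.nd (nat_lit 78) (nat_lit 76) (nat_lit 0) (XT.lf (nat_lit 0) (nat_lit 1118851062) (nat_lit 1520) (nat_lit 5966956278) (nat_lit 1596) (nat_lit 367258713) (nat_lit 528) (nat_lit 5) (nat_lit 548) (nat_lit 5) (nat_lit 549) (nat_lit 5) (nat_lit 557) (nat_lit 525) (nat_lit 478)) (XT.lf (nat_lit 0) (nat_lit 1911405459) (nat_lit 1596) (nat_lit 1786189617) (nat_lit 76) (nat_lit 3806999265) (nat_lit 527) (nat_lit 5) (nat_lit 548) (nat_lit 5) (nat_lit 528) (nat_lit 5) (nat_lit 558) (nat_lit 525) (nat_lit 477))) (XT.nd (nat_lit 78) (nat_lit 0) (nat_lit 0) (XT.lf (nat_lit 0) (nat_lit 2849516202) (nat_lit 1596) (nat_lit 1356216270) (nat_lit 1672) (nat_lit 3351879962) (nat_lit 506) (nat_lit 5) (nat_lit 527) (nat_lit 5) (nat_lit 528) (nat_lit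 5) (nat_lit 559) (nat_lit 525) (nat_lit 476)) (XT.lf (nat_lit 0) (nat_lit 6521852007) (nat_lit 1672) (nat_lit 54948439) (nat_lit 76) (nat_lit 1035380100) (nat_lit 506) (nat_lit 5) (nat_lit 528) (nat_lit 5) (nat_lit 507) (nat_lit 5) (nat_lit 560) (nat_lit 525) (nat_lit 475)))) (XT.nd (nat_lit 156) (nat_lit 2736) (nat_lit 0) (XT.nd (nat_lit 78) (nat_lit 1748) (nat_lit 0) (XT.lf (nat_lit 0) (nat_lit 1197991641) (nat_lit 1748) (nat_lit 2969883306) (nat_lit 76) (nat_lit 3499864752) (nat_lit 483) (nat_lit 5) (nat_lit 506) (nat_lit 5) (nat_lit 484) (nat_lit 5) (nat_lit 561) (nat_lit 525) (nat_lit 474)) (XT.lf (nat_lit 0) (nat_lit 1800029055) (nat_lit 1748) (nat_lit 1687798156) (nat_lit 1824) (nat_lit 4237039042) (nat_lit 460) (nat_lit 5) (nat_lit 483) (nat_lit 5) (nat_lit 484) (nat_lit 5) (nat_lit 562) (nat_lit 525) (nat_lit 473))) (XT.nd (nat_lit 78) (nat_lit 2736) (nat_lit 0) (XT.lf (nat_lit 0) (nat_lit 5807853431)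 (nat_lit 1824) (nat_lit 1121749485) (nat_lit 76) (nat_lit 853851729) (nat_lit 460) (nat_lit 5) (nat_lit 484) (nat_lit 5) (nat_lit 461) (nat_lit 5) (nat_lit 563) (nat_lit 525) (nat_lit 472)) (XT.nd (nat_lit 78) (nat_lit 988) (nat_lit 0) (XT.lf (nat_lit 0) (nat_lit 322062411) (nat_lit 1748) (nat_lit 4067914788) (nat_lit 76) (nat_lit 3453294741) (nat_lit 437) (nat_lit 5) (nat_lit 460) (nat_lit 5) (nat_lit 438) (nat_lit 5) (nat_lit 564) (nat_lit 525) (nat_lit 471)) (XT.lf (nat_lit 0) (nat_lit 840836506) (nat_lit 988) (nat_lit 1771397605) (nat_lit 1064) (nat_lit 5292336903) (nat_lit 424) (nat_lit 5) (nat_lit 437) (nat_lit 5) (nat_lit 438) (nat_lit 5) (nat_lit 565) (nat_lit 525) (nat_lit 470)))))) (XT.nd (nat_lit 390) (nat_lit 2584) (nat_lit 0) (XT.nd (nat_lit 156) (nat_lit 1824) (nat_lit 0) (XT.nd (nat_lit 78) (nat_lit 912) (nat_lit 0) (XT.lf (nat_lit 0) (nat_lit 4942019936) (nat_lit 1064) (nat_lit 2108752799) (nat_lit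 76) (nat_lit 916453760) (nat_lit 424) (nat_lit 5) (nat_lit 438) (nat_lit 5) (nat_lit 425) (nat_lit 5) (nat_lit 566) (nat_lit 525) (nat_lit 469)) (XT.lf (nat_lit 0) (nat_lit 2933754656) (nat_lit 912) (nat_lit 4376692047) (nat_lit 988) (nat_lit 720853985) (nat_lit 412) (nat_lit 5) (nat_lit 424) (nat_lit 5) (nat_lit 425) (nat_lit 5) (nat_lit 567) (nat_lit 525) (nat_lit 468))) (XT.nd (nat_lit 78) (nat_lit 1748) (nat_lit 0) (XT.lf (nat_lit 0) (nat_lit 1583977030) (nat_lit 988) (nat_lit 39935495) (nat_lit 76) (nat_lit 6473023213) (nat_lit 411) (nat_lit 5) (nat_lit 424) (nat_lit 5) (nat_lit 412) (nat_lit 5) (nat_lit 568) (nat_lit 525) (nat_lit 467)) (XT.nd (nat_lit 78) (nat_lit 836) (nat_lit 0) (XT.lf (nat_lit 0) (nat_lit 3928870271) (nat_lit 988) (nat_lit 3028134407) (nat_lit 76) (nat_lit 1206717290) (nat_lit 399) (nat_lit 5) (nat_lit 412) (nat_lit 5) (nat_lit 400) (nat_lit 5) (nat_lit 569) (nat_lit 525) (nat_lit 466))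 (XT.lf (nat_lit 0) (nat_lit 2162602654) (nat_lit 836) (nat_lit 4145891069) (nat_lit 912) (nat_lit 1923599565) (nat_lit 388) (nat_lit 5) (nat_lit 399) (nat_lit 5) (nat_lit 400) (nat_lit 5) (nat_lit 570) (nat_lit 525) (nat_lit 465))))) (XT.nd (nat_lit 156) (nat_lit 1672) (nat_lit 0) (XT.nd (nat_lit 78) (nat_lit 836) (nat_lit 0) (XT.lf (nat_lit 0) (nat_lit 411642967) (nat_lit 912) (nat_lit 844748884) (nat_lit 76) (nat_lit 7045720507) (nat_lit 387) (nat_lit 5) (nat_lit 399) (nat_lit 5) (nat_lit 388) (nat_lit 5) (nat_lit 571) (nat_lit 525) (nat_lit 464)) (XT.lf (nat_lit 0) (nat_lit 2772000256) (nat_lit 912) (nat_lit 3891814402) (nat_lit 76) (nat_lit 1709385178) (nat_lit 376) (nat_lit 5) (nat_lit 388) (nat_lit 5) (nat_lit 377) (nat_lit 5) (nat_lit 572) (nat_lit 525) (nat_lit 463))) (XT.nd (nat_lit 78) (nat_lit 912) (nat_lit 0) (XT.lf (nat_lit 0) (nat_lit 1452308424) (nat_lit 760) (nat_lit 3714894504) (nat_lit 836) (nat_lit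 3278758925) (nat_lit 366) (nat_lit 5) (nat_lit 376) (nat_lit 5) (nat_lit 377) (nat_lit 5) (nat_lit 573) (nat_lit 525) (nat_lit 462)) (XT.nd (nat_lit 78) (nat_lit 912) (nat_lit 0) (XT.lf (nat_lit 0) (nat_lit 6918041718) (nat_lit 760) (nat_lit 683021637) (nat_lit 836) (nat_lit 919306126) (nat_lit 366) (nat_lit 5) (nat_lit 376) (nat_lit 5) (nat_lit 377) (nat_lit 5) (nat_lit 574) (nat_lit 525) (nat_lit 461)) (XT.lf (nat_lit 0) (nat_lit 1474107450) (nat_lit 912) (nat_lit 4711551775) (nat_lit 76) (nat_lit 2410292568) (nat_lit 354) (nat_lit 5) (nat_lit 366) (nat_lit 5) (nat_lit 355) (nat_lit 5) (nat_lit 575) (nat_lit 525) (nat_lit 460))))))))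
noncomputable def xc86 : XT := (XT.nd (nat_lit 1482) (nat_lit 6536) (nat_lit 0) (XT.nd (nat_lit 702) (nat_lit 3876) (nat_lit 0) (XT.nd (nat_lit 312) (nat_lit 2204) (nat_lit 0) (XT.nd (nat_lit 156) (nat_lit 1520) (nat_lit 0) (XT.nd (nat_lit 78) (nat_lit 0) (nat_lit 0) (XT.lf (nat_lit 0) (nat_lit 791270298) (nat_lit 760) (nat_lit 3097822714) (nat_lit 836) (nat_lit 4784116075) (nat_lit 344) (nat_lit 5) (nat_lit 354) (nat_lit 5) (nat_lit 355) (nat_lit 5) (nat_lit 576) (nat_lit 525) (nat_lit 459)) (XT.lf (nat_lit 0) (nat_lit 6350462815) (nat_lit 836) (nat_lit 2322495679) (nat_lit 76) (nat_lit 79096371) (nat_lit 344) (nat_lit 5) (nat_lit 355) (nat_lit 5) (nat_lit 345) (nat_lit 5) (nat_lit 577) (nat_lit 525) (nat_lit 458))) (XT.nd (nat_lit 78) (nat_lit 684) (nat_lit 0) (XT.lf (nat_lit 0) (nat_lit 37009630) (nat_lit 836) (nat_lit 5499040019) (nat_lit 76) (nat_lit 3296252994) (nat_lit 333) (nat_lit 5) (nat_lit 344) (nat_lit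 5) (nat_lit 334) (nat_lit 5) (nat_lit 578) (nat_lit 525) (nat_lit 457)) (XT.lf (nat_lit 0) (nat_lit 167942367) (nat_lit 684) (nat_lit 2307870504) (nat_lit 760) (nat_lit 6438358017) (nat_lit 324) (nat_lit 5) (nat_lit 333) (nat_lit 5) (nat_lit 334) (nat_lit 5) (nat_lit 579) (nat_lit 525) (nat_lit 456)))) (XT.nd (nat_lit 156) (nat_lit 1444) (nat_lit 0) (XT.nd (nat_lit 78) (nat_lit 760) (nat_lit 0) (XT.lf (nat_lit 0) (nat_lit 4974084395) (nat_lit 760) (nat_lit 3019177429) (nat_lit 76) (nat_lit 1004205477) (nat_lit 324) (nat_lit 5) (nat_lit 334) (nat_lit 5) (nat_lit 325) (nat_lit 5) (nat_lit 580) (nat_lit 525) (nat_lit 455)) (XT.lf (nat_lit 0) (nat_lit 2806283260) (nat_lit 760) (nat_lit 4717338272) (nat_lit 836) (nat_lit 1558786664) (nat_lit 314) (nat_lit 5) (nat_lit 324) (nat_lit 5) (nat_lit 325) (nat_lit 5) (nat_lit 581) (nat_lit 525) (nat_lit 454))) (XT.nd (nat_lit 78) (nat_lit 1368) (nat_lit 0) (XT.lf (nat_lit 0)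 (nat_lit 930939126) (nat_lit 836) (nat_lit 423633879) (nat_lit 76) (nat_lit 7814587981) (nat_lit 313) (nat_lit 5) (nat_lit 324) (nat_lit 5) (nat_lit 314) (nat_lit 5) (nat_lit 582) (nat_lit 525) (nat_lit 453)) (XT.nd (nat_lit 78) (nat_lit 684) (nat_lit 0) (XT.lf (nat_lit 0) (nat_lit 3468124796) (nat_lit 760) (nat_lit 3699534331) (nat_lit 76) (nat_lit 2089417176) (nat_lit 304) (nat_lit 5) (nat_lit 314) (nat_lit 5) (nat_lit 305) (nat_lit 5) (nat_lit 583) (nat_lit 525) (nat_lit 452)) (XT.lf (nat_lit 0) (nat_lit 2301145375) (nat_lit 684) (nat_lit 3750617918) (nat_lit 760) (nat_lit 3295076660) (nat_lit 295) (nat_lit 5) (nat_lit 304) (nat_lit 5) (nat_lit 305) (nat_lit 5) (nat_lit 584) (nat_lit 525) (nat_lit 451)))))) (XT.nd (nat_lit 390) (nat_lit 1824) (nat_lit 0) (XT.nd (nat_lit 156) (nat_lit 1368) (nat_lit 0) (XT.nd (nat_lit 78) (nat_lit 684) (nat_lit 0) (XT.lf (nat_lit 0) (nat_lit 8434797337) (nat_lit 684) (nat_lit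 246406918) (nat_lit 760) (nat_lit 757316154) (nat_lit 295) (nat_lit 5) (nat_lit 304) (nat_lit 5) (nat_lit 305) (nat_lit 5) (nat_lit 585) (nat_lit 525) (nat_lit 450)) (XT.lf (nat_lit 0) (nat_lit 1832371713) (nat_lit 684) (nat_lit 4375354573) (nat_lit 76) (nat_lit 3323570595) (nat_lit 286) (nat_lit 5) (nat_lit 295) (nat_lit 5) (nat_lit 287) (nat_lit 5) (nat_lit 586) (nat_lit 525) (nat_lit 449))) (XT.nd (nat_lit 78) (nat_lit 684) (nat_lit 0) (XT.lf (nat_lit 0) (nat_lit 1806428737) (nat_lit 684) (nat_lit 2647449453) (nat_lit 760) (nat_lit 5172151158) (nat_lit 277) (nat_lit 5) (nat_lit 286) (nat_lit 5) (nat_lit 287) (nat_lit 5) (nat_lit 587) (nat_lit 525) (nat_lit 448)) (XT.nd (nat_lit 78) (nat_lit 684) (nat_lit 0) (XT.lf (nat_lit 0) (nat_lit 7134075209) (nat_lit 760) (nat_lit 1594984066) (nat_lit 76) (nat_lit 993475793) (nat_lit 277) (nat_lit 5) (nat_lit 287) (nat_lit 5) (nat_lit 278) (nat_lit 5) (nat_lit 588) (nat_lit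 525) (nat_lit 447)) (XT.lf (nat_lit 0) (nat_lit 65765407) (nat_lit 684) (nat_lit 5058722989) (nat_lit 76) (nat_lit 4696090574) (nat_lit 268) (nat_lit 5) (nat_lit 277) (nat_lit 5) (nat_lit 269) (nat_lit 5) (nat_lit 589) (nat_lit 525) (nat_lit 446))))) (XT.nd (nat_lit 156) (nat_lit 1216) (nat_lit 0) (XT.nd (nat_lit 78) (nat_lit 0) (nat_lit 0) (XT.lf (nat_lit 0) (nat_lit 1310153663) (nat_lit 608) (nat_lit 1418612404) (nat_lit 684) (nat_lit 7191672074) (nat_lit 260) (nat_lit 5) (nat_lit 268) (nat_lit 5) (nat_lit 269) (nat_lit 5) (nat_lit 590) (nat_lit 525) (nat_lit 445)) (XT.lf (nat_lit 0) (nat_lit 5465845204) (nat_lit 684) (nat_lit 2199372977) (nat_lit 76) (nat_lit 2356663467) (nat_lit 260) (nat_lit 5) (nat_lit 269) (nat_lit 5) (nat_lit 261) (nat_lit 5) (nat_lit 591) (nat_lit 525) (nat_lit 444))) (XT.nd (nat_lit 78) (nat_lit 684) (nat_lit 0) (XT.lf (nat_lit 0) (nat_lit 4350973693) (nat_lit 532) (nat_lit 3916214173)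 (nat_lit 608) (nat_lit 1857979175) (nat_lit 253) (nat_lit 5) (nat_lit 260) (nat_lit 5) (nat_lit 261) (nat_lit 5) (nat_lit 592) (nat_lit 525) (nat_lit 443)) (XT.nd (nat_lit 78) (nat_lit 0) (nat_lit 0) (XT.lf (nat_lit 0) (nat_lit 799918451) (nat_lit 608) (nat_lit 74452161) (nat_lit 684) (nat_lit 9356193616) (nat_lit 244) (nat_lit 5) (nat_lit 252) (nat_lit 5) (nat_lit 253) (nat_lit 5) (nat_lit 593) (nat_lit 525) (nat_lit 442)) (XT.lf (nat_lit 0) (nat_lit 3672738737) (nat_lit 684) (nat_lit 2827878539) (nat_lit 76) (nat_lit 3836484718) (nat_lit 244) (nat_lit 5) (nat_lit 253) (nat_lit 5) (nat_lit 245) (nat_lit 5) (nat_lit 594) (nat_lit 525) (nat_lit 441))))))) (XT.nd (nat_lit 702) (nat_lit 3268) (nat_lit 0) (XT.nd (nat_lit 312) (nat_lit 1596) (nat_lit 0) (XT.nd (nat_lit 156) (nat_lit 608) (nat_lit 0) (XT.nd (nat_lit 78) (nat_lit 532) (nat_lit 0) (XT.lf (nat_lit 0) (nat_lit 3921760589) (nat_lit 532) (nat_lit 2604076427)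 (nat_lit 608) (nat_lit 3919961435) (nat_lit 237) (nat_lit 5) (nat_lit 244) (nat_lit 5) (nat_lit 245) (nat_lit 5) (nat_lit 595) (nat_lit 525) (nat_lit 440)) (XT.lf (nat_lit 0) (nat_lit 246272645) (nat_lit 532) (nat_lit 9192372174) (nat_lit 608) (nat_lit 1117974194) (nat_lit 230) (nat_lit 5) (nat_lit 237) (nat_lit 5) (nat_lit 238) (nat_lit 5) (nat_lit 596) (nat_lit 525) (nat_lit 439))) (XT.nd (nat_lit 78) (nat_lit 532) (nat_lit 0) (XT.lf (nat_lit 0) (nat_lit 1751710041) (nat_lit 608) (nat_lit 3493679314) (nat_lit 76) (nat_lit 5423354119) (nat_lit 229) (nat_lit 5) (nat_lit 237) (nat_lit 5) (nat_lit 230) (nat_lit 5) (nat_lit 597) (nat_lit 525) (nat_lit 438)) (XT.lf (nat_lit 0) (nat_lit 3461541224) (nat_lit 532) (nat_lit 1198455048) (nat_lit 608) (nat_lit 6123045743) (nat_lit 222) (nat_lit 5) (nat_lit 229) (nat_lit 5) (nat_lit 230) (nat_lit 5) (nat_lit 598) (nat_lit 525) (nat_lit 437)))) (XT.nd (nat_lit 156) (nat_lit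 1064) (nat_lit 0) (XT.nd (nat_lit 78) (nat_lit 532) (nat_lit 0) (XT.lf (nat_lit 0) (nat_lit 7642980390) (nat_lit 608) (nat_lit 351109767) (nat_lit 76) (nat_lit 2905208617) (nat_lit 222) (nat_lit 5) (nat_lit 230) (nat_lit 5) (nat_lit 223) (nat_lit 5) (nat_lit 599) (nat_lit 525) (nat_lit 436)) (XT.lf (nat_lit 0) (nat_lit 6804702025) (nat_lit 532) (nat_lit 3907463855) (nat_lit 608) (nat_lit 305186787) (nat_lit 215) (nat_lit 5) (nat_lit 222) (nat_lit 5) (nat_lit 223) (nat_lit 5) (nat_lit 600) (nat_lit 525) (nat_lit 435))) (XT.nd (nat_lit 78) (nat_lit 532) (nat_lit 0) (XT.lf (nat_lit 0) (nat_lit 2667474696) (nat_lit 532) (nat_lit 8182924557) (nat_lit 76) (nat_lit 287060190) (nat_lit 208) (nat_lit 5) (nat_lit 215) (nat_lit 5) (nat_lit 209) (nat_lit 5) (nat_lit 601) (nat_lit 525) (nat_lit 434)) (XT.nd (nat_lit 78) (nat_lit 532) (nat_lit 0) (XT.lf (nat_lit 0) (nat_lit 5724574498) (nat_lit 532) (nat_lit 1000934042) (nat_lit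 76) (nat_lit 4533840708) (nat_lit 208) (nat_lit 5) (nat_lit 215) (nat_lit 5) (nat_lit 209) (nat_lit 5) (nat_lit 602) (nat_lit 525) (nat_lit 433)) (XT.lf (nat_lit 0) (nat_lit 6373369243) (nat_lit 532) (nat_lit 2486056762) (nat_lit 608) (nat_lit 2523921267) (nat_lit 201) (nat_lit 5) (nat_lit 208) (nat_lit 5) (nat_lit 209) (nat_lit 5) (nat_lit 603) (nat_lit 525) (nat_lit 432)))))) (XT.nd (nat_lit 390) (nat_lit 1748) (nat_lit 0) (XT.nd (nat_lit 156) (nat_lit 988) (nat_lit 0) (XT.nd (nat_lit 78) (nat_lit 0) (nat_lit 0) (XT.lf (nat_lit 0) (nat_lit 549627629) (nat_lit 532) (nat_lit 9130051338) (nat_lit 76) (nat_lit 1829884670) (nat_lit 194) (nat_lit 5) (nat_lit 201) (nat_lit 5) (nat_lit 195) (nat_lit 5) (nat_lit 604) (nat_lit 525) (nat_lit 431)) (XT.lf (nat_lit 0) (nat_lit 3676705842) (nat_lit 532) (nat_lit 1721538007) (nat_lit 76) (nat_lit 6239212211) (nat_lit 194) (nat_lit 5) (nat_lit 201) (nat_lit 5) (nat_lit 195)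 (nat_lit 5) (nat_lit 605) (nat_lit 525) (nat_lit 430))) (XT.nd (nat_lit 78) (nat_lit 532) (nat_lit 0) (XT.lf (nat_lit 0) (nat_lit 5877714472) (nat_lit 456) (nat_lit 1002769114) (nat_lit 532) (nat_lit 4887142003) (nat_lit 188) (nat_lit 5) (nat_lit 194) (nat_lit 5) (nat_lit 195) (nat_lit 5) (nat_lit 606) (nat_lit 525) (nat_lit 429)) (XT.nd (nat_lit 78) (nat_lit 76) (nat_lit 0) (XT.lf (nat_lit 0) (nat_lit 1717267348) (nat_lit 456) (nat_lit 8452622141) (nat_lit 532) (nat_lit 1730080339) (nat_lit 182) (nat_lit 5) (nat_lit 188) (nat_lit 5) (nat_lit 189) (nat_lit 5) (nat_lit 607) (nat_lit 525) (nat_lit 428)) (XT.lf (nat_lit 0) (nat_lit 1493266783) (nat_lit 532) (nat_lit 2529109120) (nat_lit 76) (nat_lit 8011940080) (nat_lit 181) (nat_lit 5) (nat_lit 188) (nat_lit 5) (nat_lit 182) (nat_lit 5) (nat_lit 608) (nat_lit 525) (nat_lit 427))))) (XT.nd (nat_lit 156) (nat_lit 912) (nat_lit 0) (XT.nd (nat_lit 78) (nat_lit 380) (nat_lit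 0) (XT.lf (nat_lit 0) (nat_lit 4772540582) (nat_lit 532) (nat_lit 6872834832) (nat_lit 76) (nat_lit 525454655) (nat_lit 175) (nat_lit 5) (nat_lit 182) (nat_lit 5) (nat_lit 176) (nat_lit 5) (nat_lit 609) (nat_lit 525) (nat_lit 426)) (XT.lf (nat_lit 0) (nat_lit 957723643) (nat_lit 380) (nat_lit 7186508556) (nat_lit 456) (nat_lit 4165307779) (nat_lit 170) (nat_lit 5) (nat_lit 175) (nat_lit 5) (nat_lit 176) (nat_lit 5) (nat_lit 610) (nat_lit 525) (nat_lit 425))) (XT.nd (nat_lit 78) (nat_lit 912) (nat_lit 0) (XT.lf (nat_lit 0) (nat_lit 9004006026) (nat_lit 380) (nat_lit 2602595852) (nat_lit 456) (nat_lit 843959471) (nat_lit 170) (nat_lit 5) (nat_lit 175) (nat_lit 5) (nat_lit 176) (nat_lit 5) (nat_lit 611) (nat_lit 525) (nat_lit 424)) (XT.nd (nat_lit 78) (nat_lit 380) (nat_lit 0) (XT.lf (nat_lit 0) (nat_lit 2531614015) (nat_lit 532) (nat_lit 7980323267) (nat_lit 76) (nat_lit 2081714389) (nat_lit 163) (nat_lit 5) (nat_lit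 170) (nat_lit 5) (nat_lit 164) (nat_lit 5) (nat_lit 612) (nat_lit 525) (nat_lit 423)) (XT.lf (nat_lit 0) (nat_lit 86301215) (nat_lit 380) (nat_lit 5895760273) (nat_lit 456) (nat_lit 6757059501) (nat_lit 158) (nat_lit 5) (nat_lit 163) (nat_lit 5) (nat_lit 164) (nat_lit 5) (nat_lit 613) (nat_lit 525) (nat_lit 422))))))))
noncomputable def xc87 : XT := (XT.nd (nat_lit 75270) (nat_lit 0) (nat_lit 31236) (XT.nd (nat_lit 74490) (nat_lit 0) (nat_lit 42560) (XT.nd (nat_lit 312) (nat_lit 760) (nat_lit 0) (XT.nd (nat_lit 156) (nat_lit 380) (nat_lit 0) (XT.nd (nat_lit 78) (nat_lit 456) (nat_lit 0) (XT.lf (nat_lit 0) (nat_lit 8388816063) (nat_lit 380) (nat_lit 1144050597) (nat_lit 456) (nat_lit 3354008041) (nat_lit 158) (nat_lit 5) (nat_lit 163) (nat_lit 5) (nat_lit 164) (nat_lit 5) (nat_lit 614) (nat_lit 525) (nat_lit 421)) (XT.lf (nat_lit 0) (nat_lit 142697660) (nat_lit 456) (nat_lit 9225550025) (nat_lit 76) (nat_lit 3668779922)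 (nat_lit 152) (nat_lit 5) (nat_lit 158) (nat_lit 5) (nat_lit 153) (nat_lit 5) (nat_lit 615) (nat_lit 525) (nat_lit 420))) (XT.nd (nat_lit 78) (nat_lit 380) (nat_lit 0) (XT.lf (nat_lit 0) (nat_lit 3680657517) (nat_lit 456) (nat_lit 904786324) (nat_lit 76) (nat_lit 8603973594) (nat_lit 152) (nat_lit 5) (nat_lit 158) (nat_lit 5) (nat_lit 153) (nat_lit 5) (nat_lit 616) (nat_lit 525) (nat_lit 419)) (XT.lf (nat_lit 0) (nat_lit 7319857149) (nat_lit 456) (nat_lit 5696464450) (nat_lit 76) (nat_lit 327925682) (nat_lit 147) (nat_lit 5) (nat_lit 153) (nat_lit 5) (nat_lit 148) (nat_lit 5) (nat_lit 617) (nat_lit 525) (nat_lit 418)))) (XT.nd (nat_lit 156) (nat_lit 304) (nat_lit 0) (XT.nd (nat_lit 78) (nat_lit 76) (nat_lit 0) (XT.lf (nat_lit 0) (nat_lit 2855787061) (nat_lit 380) (nat_lit 8209862203) (nat_lit 456) (nat_lit 2435850086) (nat_lit 142) (nat_lit 5) (nat_lit 147) (nat_lit 5) (nat_lit 148) (nat_lit 5) (nat_lit 618) (nat_lit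 525) (nat_lit 417)) (XT.lf (nat_lit 0) (nat_lit 1225732026) (nat_lit 456) (nat_lit 2045976333) (nat_lit 76) (nat_lit 10389684223) (nat_lit 141) (nat_lit 5) (nat_lit 147) (nat_lit 5) (nat_lit 142) (nat_lit 5) (nat_lit 619) (nat_lit 525) (nat_lit 416))) (XT.nd (nat_lit 73866) (nat_lit 0) (nat_lit 45068) (XT.lf (nat_lit 0) (nat_lit 4962939166) (nat_lit 380) (nat_lit 7069417377) (nat_lit 76) (nat_lit 1791106620) (nat_lit 137) (nat_lit 5) (nat_lit 142) (nat_lit 5) (nat_lit 138) (nat_lit 5) (nat_lit 620) (nat_lit 525) (nat_lit 415)) (XT.nd (nat_lit 78) (nat_lit 0) (nat_lit 0) (XT.lf (nat_lit 0) (nat_lit 1262438840) (nat_lit 532) (nat_lit 996518253) (nat_lit 532) (nat_lit 996518253) (nat_lit 730) (nat_lit 3) (nat_lit 737) (nat_lit 3) (nat_lit 737) (nat_lit 5) (nat_lit 526) (nat_lit 526) (nat_lit 508)) (XT.lf (nat_lit 76) (nat_lit 1228781043) (nat_lit 0) (nat_lit 3935858433) (nat_lit 532) (nat_lit 1358449343) (nat_lit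 731) (nat_lit 5) (nat_lit 730) (nat_lit 3) (nat_lit 737) (nat_lit 5) (nat_lit 527) (nat_lit 526) (nat_lit 507)))))) (XT.nd (nat_lit 390) (nat_lit 1368) (nat_lit 0) (XT.nd (nat_lit 156) (nat_lit 608) (nat_lit 0) (XT.nd (nat_lit 78) (nat_lit 0) (nat_lit 0) (XT.lf (nat_lit 0) (nat_lit 1248783266) (nat_lit 532) (nat_lit 2038098003) (nat_lit 608) (nat_lit 3249546499) (nat_lit 723) (nat_lit 5) (nat_lit 730) (nat_lit 3) (nat_lit 731) (nat_lit 5) (nat_lit 528) (nat_lit 526) (nat_lit 506)) (XT.lf (nat_lit 76) (nat_lit 1255135488) (nat_lit 0) (nat_lit 2575284183) (nat_lit 608) (nat_lit 2720642435) (nat_lit 724) (nat_lit 5) (nat_lit 723) (nat_lit 5) (nat_lit 731) (nat_lit 5) (nat_lit 529) (nat_lit 526) (nat_lit 505))) (XT.nd (nat_lit 78) (nat_lit 608) (nat_lit 0) (XT.lf (nat_lit 76) (nat_lit 4606529134) (nat_lit 0) (nat_lit 1804217381) (nat_lit 608) (nat_lit 156318297) (nat_lit 724) (nat_lit 5) (nat_lit 723) (nat_lit 5) (nat_lit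 731) (nat_lit 5) (nat_lit 530) (nat_lit 526) (nat_lit 504)) (XT.nd (nat_lit 78) (nat_lit 0) (nat_lit 0) (XT.lf (nat_lit 76) (nat_lit 1408540166) (nat_lit 0) (nat_lit 961881705) (nat_lit 684) (nat_lit 4213794864) (nat_lit 716) (nat_lit 5) (nat_lit 715) (nat_lit 5) (nat_lit 724) (nat_lit 5) (nat_lit 531) (nat_lit 526) (nat_lit 503)) (XT.lf (nat_lit 76) (nat_lit 4835229055) (nat_lit 0) (nat_lit 58824773) (nat_lit 684) (nat_lit 1708684065) (nat_lit 716) (nat_lit 5) (nat_lit 715) (nat_lit 5) (nat_lit 724) (nat_lit 5) (nat_lit 532) (nat_lit 526) (nat_lit 502))))) (XT.nd (nat_lit 156) (nat_lit 760) (nat_lit 0) (XT.nd (nat_lit 78) (nat_lit 0) (nat_lit 0) (XT.lf (nat_lit 0) (nat_lit 788423306) (nat_lit 684) (nat_lit 4938460797) (nat_lit 760) (nat_lit 895590762) (nat_lit 707) (nat_lit 5) (nat_lit 716) (nat_lit 5) (nat_lit 717) (nat_lit 5) (nat_lit 533) (nat_lit 526) (nat_lit 501)) (XT.lf (nat_lit 0) (nat_lit 3262278721)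 (nat_lit 684) (nat_lit 1462311587) (nat_lit 760) (nat_lit 1918811625) (nat_lit 707) (nat_lit 5) (nat_lit 716) (nat_lit 5) (nat_lit 717) (nat_lit 5) (nat_lit 534) (nat_lit 526) (nat_lit 500))) (XT.nd (nat_lit 78) (nat_lit 760) (nat_lit 0) (XT.lf (nat_lit 76) (nat_lit 2074603915) (nat_lit 0) (nat_lit 3663040521) (nat_lit 760) (nat_lit 928077100) (nat_lit 708) (nat_lit 5) (nat_lit 707) (nat_lit 5) (nat_lit 717) (nat_lit 5) (nat_lit 535) (nat_lit 526) (nat_lit 499)) (XT.nd (nat_lit 78) (nat_lit 0) (nat_lit 0) (XT.lf (nat_lit 0) (nat_lit 1502385661) (nat_lit 760) (nat_lit 1033048169) (nat_lit 836) (nat_lit 4153883406) (nat_lit 697) (nat_lit 5) (nat_lit 707) (nat_lit 5) (nat_lit 708) (nat_lit 5) (nat_lit 536) (nat_lit 526) (nat_lit 498)) (XT.lf (nat_lit 76) (nat_lit 2588145150) (nat_lit 0) (nat_lit 1338016387) (nat_lit 836) (nat_lit 2787971816) (nat_lit 698) (nat_lit 5) (nat_lit 697) (nat_lit 5) (nat_lit 708) (nat_lit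 5) (nat_lit 537) (nat_lit 526) (nat_lit 497))))))) (XT.nd (nat_lit 702) (nat_lit 7752) (nat_lit 0) (XT.nd (nat_lit 312) (nat_lit 2812) (nat_lit 0) (XT.nd (nat_lit 156) (nat_lit 0) (nat_lit 0) (XT.nd (nat_lit 78) (nat_lit 760) (nat_lit 0) (XT.lf (nat_lit 76) (nat_lit 6260166032) (nat_lit 0) (nat_lit 86433591) (nat_lit 836) (nat_lit 393895977) (nat_lit 698) (nat_lit 5) (nat_lit 697) (nat_lit 5) (nat_lit 708) (nat_lit 5) (nat_lit 538) (nat_lit 526) (nat_lit 496)) (XT.lf (nat_lit 0) (nat_lit 1992293675) (nat_lit 836) (nat_lit 3544328265) (nat_lit 912) (nat_lit 1231088359) (nat_lit 687) (nat_lit 5) (nat_lit 698) (nat_lit 5) (nat_lit 699) (nat_lit 5) (nat_lit 539) (nat_lit 526) (nat_lit 495))) (XT.nd (nat_lit 78) (nat_lit 0) (nat_lit 0) (XT.lf (nat_lit 76) (nat_lit 174616607) (nat_lit 0) (nat_lit 4194330975) (nat_lit 912) (nat_lit 2427522101) (nat_lit 688) (nat_lit 5) (nat_lit 687) (nat_lit 5) (nat_lit 699) (nat_lit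 5) (nat_lit 540) (nat_lit 526) (nat_lit 494)) (XT.lf (nat_lit 76) (nat_lit 3979481203) (nat_lit 0) (nat_lit 2781376210) (nat_lit 912) (nat_lit 65604894) (nat_lit 688) (nat_lit 5) (nat_lit 687) (nat_lit 5) (nat_lit 699) (nat_lit 5) (nat_lit 541) (nat_lit 526) (nat_lit 493)))) (XT.nd (nat_lit 156) (nat_lit 1900) (nat_lit 0) (XT.nd (nat_lit 78) (nat_lit 0) (nat_lit 76) (XT.lf (nat_lit 76) (nat_lit 964284016) (nat_lit 0) (nat_lit 1299453013) (nat_lit 988) (nat_lit 4594007011) (nat_lit 676) (nat_lit 5) (nat_lit 675) (nat_lit 5) (nat_lit 688) (nat_lit 5) (nat_lit 542) (nat_lit 526) (nat_lit 492)) (XT.lf (nat_lit 0) (nat_lit 4605025810) (nat_lit 912) (nat_lit 2038355930) (nat_lit 76) (nat_lit 246948012) (nat_lit 676) (nat_lit 5) (nat_lit 688) (nat_lit 5) (nat_lit 677) (nat_lit 5) (nat_lit 543) (nat_lit 526) (nat_lit 491))) (XT.nd (nat_lit 78) (nat_lit 988) (nat_lit 0) (XT.lf (nat_lit 0) (nat_lit 35895766) (nat_lit 988)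 (nat_lit 5051434838) (nat_lit 76) (nat_lit 1836894171) (nat_lit 663) (nat_lit 5) (nat_lit 676) (nat_lit 5) (nat_lit 664) (nat_lit 5) (nat_lit 544) (nat_lit 526) (nat_lit 490)) (XT.nd (nat_lit 78) (nat_lit 988) (nat_lit 0) (XT.lf (nat_lit 0) (nat_lit 2333861335) (nat_lit 988) (nat_lit 1121210482) (nat_lit 76) (nat_lit 3504216029) (nat_lit 663) (nat_lit 5) (nat_lit 676) (nat_lit 5) (nat_lit 664) (nat_lit 5) (nat_lit 545) (nat_lit 526) (nat_lit 489)) (XT.lf (nat_lit 0) (nat_lit 2888987879) (nat_lit 988) (nat_lit 1755736397) (nat_lit 1064) (nat_lit 2351000031) (nat_lit 650) (nat_lit 5) (nat_lit 663) (nat_lit 5) (nat_lit 664) (nat_lit 5) (nat_lit 546) (nat_lit 526) (nat_lit 488)))))) (XT.nd (nat_lit 390) (nat_lit 4180) (nat_lit 0) (XT.nd (nat_lit 156) (nat_lit 2432) (nat_lit 0) (XT.nd (nat_lit 78) (nat_lit 1140) (nat_lit 0) (XT.lf (nat_lit 0) (nat_lit 6958289858) (nat_lit 1064) (nat_lit 75461895) (nat_lit 76) (nat_lit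 18713) (nat_lit 650) (nat_lit 5) (nat_lit 664) (nat_lit 5) (nat_lit 651) (nat_lit 5) (nat_lit 547) (nat_lit 526) (nat_lit 487)) (XT.lf (nat_lit 0) (nat_lit 2203929284) (nat_lit 1140) (nat_lit 3046191764) (nat_lit 76) (nat_lit 1822418553) (nat_lit 635) (nat_lit 5) (nat_lit 650) (nat_lit 5) (nat_lit 636) (nat_lit 5) (nat_lit 548) (nat_lit 526) (nat_lit 486))) (XT.nd (nat_lit 78) (nat_lit 1292) (nat_lit 0) (XT.lf (nat_lit 0) (nat_lit 1075646020) (nat_lit 1140) (nat_lit 3410228001) (nat_lit 1216) (nat_lit 2627051034) (nat_lit 620) (nat_lit 5) (nat_lit 635) (nat_lit 5) (nat_lit 636) (nat_lit 5) (nat_lit 549) (nat_lit 526) (nat_lit 485)) (XT.nd (nat_lit 78) (nat_lit 1292) (nat_lit 0) (XT.lf (nat_lit 0) (nat_lit 5284355852) (nat_lit 1140) (nat_lit 1500738206) (nat_lit 1216) (nat_lit 369601294) (nat_lit 620) (nat_lit 5) (nat_lit 635) (nat_lit 5) (nat_lit 636) (nat_lit 5) (nat_lit 550) (nat_lit 526) (nat_lit 484)) (XT.lf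 (nat_lit 0) (nat_lit 1877964612) (nat_lit 1292) (nat_lit 4839299442) (nat_lit 76) (nat_lit 480389100) (nat_lit 603) (nat_lit 5) (nat_lit 620) (nat_lit 5) (nat_lit 604) (nat_lit 5) (nat_lit 551) (nat_lit 526) (nat_lit 483))))) (XT.nd (nat_lit 156) (nat_lit 2888) (nat_lit 0) (XT.nd (nat_lit 78) (nat_lit 1292) (nat_lit 0) (XT.lf (nat_lit 0) (nat_lit 4140713931) (nat_lit 1292) (nat_lit 594286067) (nat_lit 76) (nat_lit 2506926927) (nat_lit 603) (nat_lit 5) (nat_lit 620) (nat_lit 5) (nat_lit 604) (nat_lit 5) (nat_lit 552) (nat_lit 526) (nat_lit 482)) (XT.lf (nat_lit 0) (nat_lit 3747948044) (nat_lit 1292) (nat_lit 2678637380) (nat_lit 1368) (nat_lit 860952514) (nat_lit 586) (nat_lit 5) (nat_lit 603) (nat_lit 5) (nat_lit 604) (nat_lit 5) (nat_lit 553) (nat_lit 526) (nat_lit 481))) (XT.nd (nat_lit 78) (nat_lit 1444) (nat_lit 0) (XT.lf (nat_lit 0) (nat_lit 815307648) (nat_lit 1368) (nat_lit 553330401) (nat_lit 1444) (nat_lit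 5965982909) (nat_lit 567) (nat_lit 5) (nat_lit 585) (nat_lit 5) (nat_lit 586) (nat_lit 5) (nat_lit 554) (nat_lit 526) (nat_lit 480)) (XT.nd (nat_lit 78) (nat_lit 1444) (nat_lit 0) (XT.lf (nat_lit 0) (nat_lit 3620308642) (nat_lit 1444) (nat_lit 2131169928) (nat_lit 76) (nat_lit 1631281509) (nat_lit 567) (nat_lit 5) (nat_lit 586) (nat_lit 5) (nat_lit 568) (nat_lit 5) (nat_lit 555) (nat_lit 526) (nat_lit 479)) (XT.lf (nat_lit 0) (nat_lit 2334491820) (nat_lit 1444) (nat_lit 3556845756) (nat_lit 1520) (nat_lit 1541046327) (nat_lit 548) (nat_lit 5) (nat_lit 567) (nat_lit 5) (nat_lit 568) (nat_lit 5) (nat_lit 556) (nat_lit 526) (nat_lit 478))))))))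
noncomputable def xc88 : XT := (XT.nd (nat_lit 1404) (nat_lit 8664) (nat_lit 0) (XT.nd (nat_lit 702) (nat_lit 5396) (nat_lit 0) (XT.nd (nat_lit 312) (nat_lit 5244) (nat_lit 0) (XT.nd (nat_lit 156) (nat_lit 1596) (nat_lit 0) (XT.nd (nat_lit 78) (nat_lit 1520) (nat_lit 0) (XT.lf (nat_lit 0) (nat_lit 685514504) (nat_lit 1520) (nat_lit 606706924) (nat_lit 76) (nat_lit 6191288083) (nat_lit 547) (nat_lit 5) (nat_lit 567) (nat_lit 5) (nat_lit 548) (nat_lit 5) (nat_lit 557) (nat_lit 526) (nat_lit 477)) (XT.lf (nat_lit 0) (nat_lit 2925420269) (nat_lit 1596) (nat_lit 3563222496) (nat_lit 76) (nat_lit 1047030107) (nat_lit 527) (nat_lit 5) (nat_lit 548) (nat_lit 5) (nat_lit 528) (nat_lit 5) (nat_lit 558) (nat_lit 526) (nat_lit 476))) (XT.nd (nat_lit 78) (nat_lit 0) (nat_lit 0) (XT.lf (nat_lit 0) (nat_lit 1030071275) (nat_lit 1596) (nat_lit 4156751335) (nat_lit 1672) (nat_lit 2402530697) (nat_lit 506) (nat_lit 5) (nat_lit 527)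 (nat_lit 5) (nat_lit 528) (nat_lit 5) (nat_lit 559) (nat_lit 526) (nat_lit 475)) (XT.lf (nat_lit 0) (nat_lit 5726307463) (nat_lit 1596) (nat_lit 1749005653) (nat_lit 1672) (nat_lit 169164658) (nat_lit 506) (nat_lit 5) (nat_lit 527) (nat_lit 5) (nat_lit 528) (nat_lit 5) (nat_lit 560) (nat_lit 526) (nat_lit 474)))) (XT.nd (nat_lit 156) (nat_lit 3496) (nat_lit 0) (XT.nd (nat_lit 78) (nat_lit 0) (nat_lit 0) (XT.lf (nat_lit 0) (nat_lit 2062724261) (nat_lit 1748) (nat_lit 4903970051) (nat_lit 76) (nat_lit 734113628) (nat_lit 483) (nat_lit 5) (nat_lit 506) (nat_lit 5) (nat_lit 484) (nat_lit 5) (nat_lit 561) (nat_lit 526) (nat_lit 473)) (XT.lf (nat_lit 0) (nat_lit 4320622744) (nat_lit 1748) (nat_lit 176309826) (nat_lit 76) (nat_lit 3261644223) (nat_lit 483) (nat_lit 5) (nat_lit 506) (nat_lit 5) (nat_lit 484) (nat_lit 5) (nat_lit 562) (nat_lit 526) (nat_lit 472))) (XT.nd (nat_lit 78) (nat_lit 1748) (nat_lit 0) (XT.lf (nat_lit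 0) (nat_lit 4670231236) (nat_lit 1748) (nat_lit 1943667047) (nat_lit 1824) (nat_lit 1203805403) (nat_lit 460) (nat_lit 5) (nat_lit 483) (nat_lit 5) (nat_lit 484) (nat_lit 5) (nat_lit 563) (nat_lit 526) (nat_lit 471)) (XT.nd (nat_lit 78) (nat_lit 0) (nat_lit 0) (XT.lf (nat_lit 0) (nat_lit 1037872668) (nat_lit 1748) (nat_lit 6166453746) (nat_lit 76) (nat_lit 674014963) (nat_lit 437) (nat_lit 5) (nat_lit 460) (nat_lit 5) (nat_lit 438) (nat_lit 5) (nat_lit 564) (nat_lit 526) (nat_lit 470)) (XT.lf (nat_lit 0) (nat_lit 3303145538) (nat_lit 1748) (nat_lit 1287432569) (nat_lit 76) (nat_lit 3349563608) (nat_lit 437) (nat_lit 5) (nat_lit 460) (nat_lit 5) (nat_lit 438) (nat_lit 5) (nat_lit 565) (nat_lit 526) (nat_lit 469)))))) (XT.nd (nat_lit 312) (nat_lit 2508) (nat_lit 0) (XT.nd (nat_lit 156) (nat_lit 988) (nat_lit 0) (XT.nd (nat_lit 78) (nat_lit 912) (nat_lit 0) (XT.lf (nat_lit 0) (nat_lit 3700665853) (nat_lit 988) (nat_lit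 1898587232) (nat_lit 1064) (nat_lit 2404220898) (nat_lit 424) (nat_lit 5) (nat_lit 437) (nat_lit 5) (nat_lit 438) (nat_lit 5) (nat_lit 566) (nat_lit 526) (nat_lit 468)) (XT.lf (nat_lit 0) (nat_lit 704186943) (nat_lit 912) (nat_lit 7217891041) (nat_lit 988) (nat_lit 146385387) (nat_lit 412) (nat_lit 5) (nat_lit 424) (nat_lit 5) (nat_lit 425) (nat_lit 5) (nat_lit 567) (nat_lit 526) (nat_lit 467))) (XT.nd (nat_lit 78) (nat_lit 912) (nat_lit 0) (XT.lf (nat_lit 0) (nat_lit 2132234968) (nat_lit 988) (nat_lit 2329122689) (nat_lit 76) (nat_lit 3673042732) (nat_lit 411) (nat_lit 5) (nat_lit 424) (nat_lit 5) (nat_lit 412) (nat_lit 5) (nat_lit 568) (nat_lit 526) (nat_lit 466)) (XT.lf (nat_lit 0) (nat_lit 2805472221) (nat_lit 912) (nat_lit 1630225632) (nat_lit 988) (nat_lit 3766320350) (nat_lit 399) (nat_lit 5) (nat_lit 411) (nat_lit 5) (nat_lit 412) (nat_lit 5) (nat_lit 569) (nat_lit 526) (nat_lit 465)))) (XT.nd (nat_lit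 156) (nat_lit 1596) (nat_lit 0) (XT.nd (nat_lit 78) (nat_lit 912) (nat_lit 0) (XT.lf (nat_lit 0) (nat_lit 6772625056) (nat_lit 988) (nat_lit 242189530) (nat_lit 76) (nat_lit 1256431779) (nat_lit 399) (nat_lit 5) (nat_lit 412) (nat_lit 5) (nat_lit 400) (nat_lit 5) (nat_lit 570) (nat_lit 526) (nat_lit 464)) (XT.lf (nat_lit 0) (nat_lit 811486359) (nat_lit 912) (nat_lit 3313414531) (nat_lit 76) (nat_lit 4216703389) (nat_lit 387) (nat_lit 5) (nat_lit 399) (nat_lit 5) (nat_lit 388) (nat_lit 5) (nat_lit 571) (nat_lit 526) (nat_lit 463))) (XT.nd (nat_lit 78) (nat_lit 760) (nat_lit 0) (XT.lf (nat_lit 0) (nat_lit 1972785304) (nat_lit 836) (nat_lit 1153845227) (nat_lit 912) (nat_lit 5286968238) (nat_lit 376) (nat_lit 5) (nat_lit 387) (nat_lit 5) (nat_lit 388) (nat_lit 5) (nat_lit 572) (nat_lit 526) (nat_lit 462)) (XT.nd (nat_lit 78) (nat_lit 760) (nat_lit 0) (XT.lf (nat_lit 0) (nat_lit 5487528401) (nat_lit 912) (nat_lit 1126824531)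 (nat_lit 76) (nat_lit 1872696646) (nat_lit 376) (nat_lit 5) (nat_lit 388) (nat_lit 5) (nat_lit 377) (nat_lit 5) (nat_lit 573) (nat_lit 526) (nat_lit 461)) (XT.lf (nat_lit 0) (nat_lit 4305477947) (nat_lit 760) (nat_lit 3591334670) (nat_lit 836) (nat_lit 665138756) (nat_lit 366) (nat_lit 5) (nat_lit 376) (nat_lit 5) (nat_lit 377) (nat_lit 5) (nat_lit 574) (nat_lit 526) (nat_lit 460))))))) (XT.nd (nat_lit 702) (nat_lit 3952) (nat_lit 0) (XT.nd (nat_lit 312) (nat_lit 2204) (nat_lit 0) (XT.nd (nat_lit 156) (nat_lit 1596) (nat_lit 0) (XT.nd (nat_lit 78) (nat_lit 0) (nat_lit 0) (XT.lf (nat_lit 0) (nat_lit 1190919152) (nat_lit 836) (nat_lit 483631797) (nat_lit 912) (nat_lit 6963960081) (nat_lit 354) (nat_lit 5) (nat_lit 365) (nat_lit 5) (nat_lit 366) (nat_lit 5) (nat_lit 575) (nat_lit 526) (nat_lit 459)) (XT.lf (nat_lit 0) (nat_lit 4064523061) (nat_lit 912) (nat_lit 1970536001) (nat_lit 76) (nat_lit 2681212020) (nat_lit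 354) (nat_lit 5) (nat_lit 366) (nat_lit 5) (nat_lit 355) (nat_lit 5) (nat_lit 576) (nat_lit 526) (nat_lit 458))) (XT.nd (nat_lit 78) (nat_lit 836) (nat_lit 0) (XT.lf (nat_lit 0) (nat_lit 3623689575) (nat_lit 760) (nat_lit 2872191573) (nat_lit 836) (nat_lit 2299838388) (nat_lit 344) (nat_lit 5) (nat_lit 354) (nat_lit 5) (nat_lit 355) (nat_lit 5) (nat_lit 577) (nat_lit 526) (nat_lit 457)) (XT.lf (nat_lit 0) (nat_lit 83462984) (nat_lit 836) (nat_lit 8431196244) (nat_lit 76) (nat_lit 362376534) (nat_lit 333) (nat_lit 5) (nat_lit 344) (nat_lit 5) (nat_lit 334) (nat_lit 5) (nat_lit 578) (nat_lit 526) (nat_lit 456)))) (XT.nd (nat_lit 156) (nat_lit 1520) (nat_lit 0) (XT.nd (nat_lit 78) (nat_lit 684) (nat_lit 0) (XT.lf (nat_lit 0) (nat_lit 2505051783) (nat_lit 836) (nat_lit 2784872525) (nat_lit 76) (nat_lit 3669326289) (nat_lit 333) (nat_lit 5) (nat_lit 344) (nat_lit 5) (nat_lit 334) (nat_lit 5) (nat_lit 579) (nat_lit 526)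 (nat_lit 455)) (XT.lf (nat_lit 0) (nat_lit 2976869585) (nat_lit 684) (nat_lit 1985598645) (nat_lit 760) (nat_lit 4080898139) (nat_lit 324) (nat_lit 5) (nat_lit 333) (nat_lit 5) (nat_lit 334) (nat_lit 5) (nat_lit 580) (nat_lit 526) (nat_lit 454))) (XT.nd (nat_lit 78) (nat_lit 1520) (nat_lit 0) (XT.lf (nat_lit 0) (nat_lit 7465263327) (nat_lit 760) (nat_lit 283223507) (nat_lit 76) (nat_lit 1380757482) (nat_lit 324) (nat_lit 5) (nat_lit 334) (nat_lit 5) (nat_lit 325) (nat_lit 5) (nat_lit 581) (nat_lit 526) (nat_lit 453)) (XT.nd (nat_lit 78) (nat_lit 684) (nat_lit 0) (XT.lf (nat_lit 0) (nat_lit 809703027) (nat_lit 836) (nat_lit 3581445413) (nat_lit 76) (nat_lit 4825212878) (nat_lit 313) (nat_lit 5) (nat_lit 324) (nat_lit 5) (nat_lit 314) (nat_lit 5) (nat_lit 582) (nat_lit 526) (nat_lit 452)) (XT.lf (nat_lit 0) (nat_lit 2353543860) (nat_lit 684) (nat_lit 943464211) (nat_lit 760) (nat_lit 6008268261) (nat_lit 304) (nat_lit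 5) (nat_lit 313) (nat_lit 5) (nat_lit 314) (nat_lit 5) (nat_lit 583) (nat_lit 526) (nat_lit 451)))))) (XT.nd (nat_lit 390) (nat_lit 1900) (nat_lit 0) (XT.nd (nat_lit 156) (nat_lit 1368) (nat_lit 0) (XT.nd (nat_lit 78) (nat_lit 684) (nat_lit 0) (XT.lf (nat_lit 0) (nat_lit 5844503843) (nat_lit 760) (nat_lit 993276290) (nat_lit 76) (nat_lit 2557984746) (nat_lit 304) (nat_lit 5) (nat_lit 314) (nat_lit 5) (nat_lit 305) (nat_lit 5) (nat_lit 584) (nat_lit 526) (nat_lit 450)) (XT.lf (nat_lit 0) (nat_lit 5109125900) (nat_lit 684) (nat_lit 3343386053) (nat_lit 760) (nat_lit 1035364044) (nat_lit 295) (nat_lit 5) (nat_lit 304) (nat_lit 5) (nat_lit 305) (nat_lit 5) (nat_lit 585) (nat_lit 526) (nat_lit 449))) (XT.nd (nat_lit 78) (nat_lit 684) (nat_lit 0) (XT.lf (nat_lit 0) (nat_lit 1500667772) (nat_lit 684) (nat_lit 7841381400) (nat_lit 76) (nat_lit 239787382) (nat_lit 286) (nat_lit 5) (nat_lit 295) (nat_lit 5) (nat_lit 287)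 (nat_lit 5) (nat_lit 586) (nat_lit 526) (nat_lit 448)) (XT.nd (nat_lit 78) (nat_lit 684) (nat_lit 0) (XT.lf (nat_lit 0) (nat_lit 4095892888) (nat_lit 684) (nat_lit 1701336551) (nat_lit 76) (nat_lit 3879867096) (nat_lit 286) (nat_lit 5) (nat_lit 295) (nat_lit 5) (nat_lit 287) (nat_lit 5) (nat_lit 587) (nat_lit 526) (nat_lit 447)) (XT.lf (nat_lit 0) (nat_lit 4585914497) (nat_lit 684) (nat_lit 2158062501) (nat_lit 760) (nat_lit 3030269365) (nat_lit 277) (nat_lit 5) (nat_lit 286) (nat_lit 5) (nat_lit 287) (nat_lit 5) (nat_lit 588) (nat_lit 526) (nat_lit 446))))) (XT.nd (nat_lit 156) (nat_lit 1216) (nat_lit 0) (XT.nd (nat_lit 78) (nat_lit 76) (nat_lit 0) (XT.lf (nat_lit 0) (nat_lit 1117318669) (nat_lit 608) (nat_lit 8328008544) (nat_lit 684) (nat_lit 428009551) (nat_lit 269) (nat_lit 5) (nat_lit 277) (nat_lit 5) (nat_lit 278) (nat_lit 5) (nat_lit 589) (nat_lit 526) (nat_lit 445)) (XT.lf (nat_lit 0) (nat_lit 2218041415)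 (nat_lit 684) (nat_lit 2419454472) (nat_lit 76) (nat_lit 5336208632) (nat_lit 268) (nat_lit 5) (nat_lit 277) (nat_lit 5) (nat_lit 269) (nat_lit 5) (nat_lit 590) (nat_lit 526) (nat_lit 444))) (XT.nd (nat_lit 78) (nat_lit 608) (nat_lit 0) (XT.lf (nat_lit 0) (nat_lit 4058770483) (nat_lit 608) (nat_lit 851031620) (nat_lit 684) (nat_lit 5166254002) (nat_lit 260) (nat_lit 5) (nat_lit 268) (nat_lit 5) (nat_lit 269) (nat_lit 5) (nat_lit 591) (nat_lit 526) (nat_lit 443)) (XT.nd (nat_lit 78) (nat_lit 76) (nat_lit 0) (XT.lf (nat_lit 0) (nat_lit 469995027) (nat_lit 532) (nat_lit 7196777461) (nat_lit 608) (nat_lit 2513458131) (nat_lit 253) (nat_lit 5) (nat_lit 260) (nat_lit 5) (nat_lit 261) (nat_lit 5) (nat_lit 592) (nat_lit 526) (nat_lit 442)) (XT.lf (nat_lit 0) (nat_lit 208708373) (nat_lit 608) (nat_lit 3160116585) (nat_lit 76) (nat_lit 6917265175) (nat_lit 252) (nat_lit 5) (nat_lit 260) (nat_lit 5) (nat_lit 253) (nat_lit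 5) (nat_lit 593) (nat_lit 526) (nat_lit 441))))))))
noncomputable def xc89 : XT := (XT.nd (nat_lit 1482) (nat_lit 2432) (nat_lit 0) (XT.nd (nat_lit 702) (nat_lit 2964) (nat_lit 0) (XT.nd (nat_lit 312) (nat_lit 1596) (nat_lit 0) (XT.nd (nat_lit 156) (nat_lit 1140) (nat_lit 0) (XT.nd (nat_lit 78) (nat_lit 0) (nat_lit 0) (XT.lf (nat_lit 0) (nat_lit 2951297468) (nat_lit 684) (nat_lit 6882208294) (nat_lit 76) (nat_lit 560239298) (nat_lit 244) (nat_lit 5) (nat_lit 253) (nat_lit 5) (nat_lit 245) (nat_lit 5) (nat_lit 594) (nat_lit 526) (nat_lit 440)) (XT.lf (nat_lit 0) (nat_lit 5765735183) (nat_lit 684) (nat_lit 201536758) (nat_lit 76) (nat_lit 4535944335) (nat_lit 244) (nat_lit 5) (nat_lit 253) (nat_lit 5) (nat_lit 245) (nat_lit 5) (nat_lit 595) (nat_lit 526) (nat_lit 439))) (XT.nd (nat_lit 78) (nat_lit 608) (nat_lit 0) (XT.lf (nat_lit 0) (nat_lit 6665444498) (nat_lit 532) (nat_lit 1988156635) (nat_lit 608) (nat_lit 1960936060)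 (nat_lit 237) (nat_lit 5) (nat_lit 244) (nat_lit 5) (nat_lit 245) (nat_lit 5) (nat_lit 596) (nat_lit 526) (nat_lit 438)) (XT.lf (nat_lit 0) (nat_lit 867717344) (nat_lit 608) (nat_lit 7799120550) (nat_lit 76) (nat_lit 2060976408) (nat_lit 229) (nat_lit 5) (nat_lit 237) (nat_lit 5) (nat_lit 230) (nat_lit 5) (nat_lit 597) (nat_lit 526) (nat_lit 437)))) (XT.nd (nat_lit 156) (nat_lit 1064) (nat_lit 0) (XT.nd (nat_lit 78) (nat_lit 532) (nat_lit 0) (XT.lf (nat_lit 0) (nat_lit 3740759284) (nat_lit 608) (nat_lit 906661779) (nat_lit 76) (nat_lit 6195398098) (nat_lit 229) (nat_lit 5) (nat_lit 237) (nat_lit 5) (nat_lit 230) (nat_lit 5) (nat_lit 598) (nat_lit 526) (nat_lit 436)) (XT.lf (nat_lit 0) (nat_lit 6170183623) (nat_lit 532) (nat_lit 515850406) (nat_lit 608) (nat_lit 4273797479) (nat_lit 222) (nat_lit 5) (nat_lit 229) (nat_lit 5) (nat_lit 230) (nat_lit 5) (nat_lit 599) (nat_lit 526) (nat_lit 435))) (XT.nd (nat_lit 78)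 (nat_lit 532) (nat_lit 0) (XT.lf (nat_lit 0) (nat_lit 2293213926) (nat_lit 532) (nat_lit 7416951781) (nat_lit 608) (nat_lit 1368622145) (nat_lit 215) (nat_lit 5) (nat_lit 222) (nat_lit 5) (nat_lit 223) (nat_lit 5) (nat_lit 600) (nat_lit 526) (nat_lit 434)) (XT.nd (nat_lit 78) (nat_lit 456) (nat_lit 0) (XT.lf (nat_lit 0) (nat_lit 1584539875) (nat_lit 608) (nat_lit 1665515226) (nat_lit 76) (nat_lit 7949647873) (nat_lit 214) (nat_lit 5) (nat_lit 222) (nat_lit 5) (nat_lit 215) (nat_lit 5) (nat_lit 601) (nat_lit 526) (nat_lit 433)) (XT.lf (nat_lit 0) (nat_lit 4597245672) (nat_lit 532) (nat_lit 5701691190) (nat_lit 76) (nat_lit 1023545093) (nat_lit 208) (nat_lit 5) (nat_lit 215) (nat_lit 5) (nat_lit 209) (nat_lit 5) (nat_lit 602) (nat_lit 526) (nat_lit 432)))))) (XT.nd (nat_lit 390) (nat_lit 1444) (nat_lit 0) (XT.nd (nat_lit 156) (nat_lit 988) (nat_lit 0) (XT.nd (nat_lit 78) (nat_lit 0) (nat_lit 0) (XT.lf (nat_lit 0)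 (nat_lit 1592970606) (nat_lit 532) (nat_lit 6096066907) (nat_lit 608) (nat_lit 3758304928) (nat_lit 201) (nat_lit 5) (nat_lit 208) (nat_lit 5) (nat_lit 209) (nat_lit 5) (nat_lit 603) (nat_lit 526) (nat_lit 431)) (XT.lf (nat_lit 0) (nat_lit 9076808446) (nat_lit 532) (nat_lit 1780088746) (nat_lit 608) (nat_lit 717520823) (nat_lit 201) (nat_lit 5) (nat_lit 208) (nat_lit 5) (nat_lit 209) (nat_lit 5) (nat_lit 604) (nat_lit 526) (nat_lit 430))) (XT.nd (nat_lit 78) (nat_lit 456) (nat_lit 0) (XT.lf (nat_lit 0) (nat_lit 2378986632) (nat_lit 532) (nat_lit 6697798163) (nat_lit 76) (nat_lit 2626419635) (nat_lit 194) (nat_lit 5) (nat_lit 201) (nat_lit 5) (nat_lit 195) (nat_lit 5) (nat_lit 605) (nat_lit 526) (nat_lit 429)) (XT.nd (nat_lit 78) (nat_lit 0) (nat_lit 0) (XT.lf (nat_lit 0) (nat_lit 818346544) (nat_lit 456) (nat_lit 4719918869) (nat_lit 532) (nat_lit 6295999699) (nat_lit 188) (nat_lit 5) (nat_lit 194) (nat_lit 5)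 (nat_lit 195) (nat_lit 5) (nat_lit 606) (nat_lit 526) (nat_lit 428)) (XT.lf (nat_lit 0) (nat_lit 8541985637) (nat_lit 456) (nat_lit 240399661) (nat_lit 532) (nat_lit 3185130924) (nat_lit 188) (nat_lit 5) (nat_lit 194) (nat_lit 5) (nat_lit 195) (nat_lit 5) (nat_lit 607) (nat_lit 526) (nat_lit 427))))) (XT.nd (nat_lit 156) (nat_lit 912) (nat_lit 0) (XT.nd (nat_lit 78) (nat_lit 0) (nat_lit 0) (XT.lf (nat_lit 0) (nat_lit 21531161) (nat_lit 532) (nat_lit 7791155445) (nat_lit 76) (nat_lit 4290081186) (nat_lit 181) (nat_lit 5) (nat_lit 188) (nat_lit 5) (nat_lit 182) (nat_lit 5) (nat_lit 608) (nat_lit 526) (nat_lit 426)) (XT.lf (nat_lit 0) (nat_lit 3251631125) (nat_lit 532) (nat_lit 46609342) (nat_lit 76) (nat_lit 8942025970) (nat_lit 181) (nat_lit 5) (nat_lit 188) (nat_lit 5) (nat_lit 182) (nat_lit 5) (nat_lit 609) (nat_lit 526) (nat_lit 425))) (XT.nd (nat_lit 78) (nat_lit 456) (nat_lit 0) (XT.lf (nat_lit 0) (nat_lit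 6584166167) (nat_lit 532) (nat_lit 4464722704) (nat_lit 76) (nat_lit 1330871670) (nat_lit 175) (nat_lit 5) (nat_lit 182) (nat_lit 5) (nat_lit 176) (nat_lit 5) (nat_lit 610) (nat_lit 526) (nat_lit 424)) (XT.nd (nat_lit 78) (nat_lit 76) (nat_lit 0) (XT.lf (nat_lit 0) (nat_lit 3505699777) (nat_lit 380) (nat_lit 6500360141) (nat_lit 456) (nat_lit 2515532554) (nat_lit 170) (nat_lit 5) (nat_lit 175) (nat_lit 5) (nat_lit 176) (nat_lit 5) (nat_lit 611) (nat_lit 526) (nat_lit 423)) (XT.lf (nat_lit 0) (nat_lit 827266792) (nat_lit 456) (nat_lit 1008223124) (nat_lit 76) (nat_lit 10830504882) (nat_lit 169) (nat_lit 5) (nat_lit 175) (nat_lit 5) (nat_lit 170) (nat_lit 5) (nat_lit 612) (nat_lit 526) (nat_lit 422))))))) (XT.nd (nat_lit 74568) (nat_lit 0) (nat_lit 42484) (XT.nd (nat_lit 312) (nat_lit 1140) (nat_lit 0) (XT.nd (nat_lit 156) (nat_lit 456) (nat_lit 0) (XT.nd (nat_lit 78) (nat_lit 380) (nat_lit 0) (XT.lf (nat_lit 0)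 (nat_lit 4247676009) (nat_lit 532) (nat_lit 5626719630) (nat_lit 76) (nat_lit 2937670224) (nat_lit 163) (nat_lit 5) (nat_lit 170) (nat_lit 5) (nat_lit 164) (nat_lit 5) (nat_lit 613) (nat_lit 526) (nat_lit 421)) (XT.lf (nat_lit 0) (nat_lit 2584703064) (nat_lit 380) (nat_lit 5165983958) (nat_lit 456) (nat_lit 5210089399) (nat_lit 158) (nat_lit 5) (nat_lit 163) (nat_lit 5) (nat_lit 164) (nat_lit 5) (nat_lit 614) (nat_lit 526) (nat_lit 420))) (XT.nd (nat_lit 78) (nat_lit 456) (nat_lit 0) (XT.lf (nat_lit 0) (nat_lit 11004313781) (nat_lit 380) (nat_lit 335861491) (nat_lit 456) (nat_lit 1771959485) (nat_lit 158) (nat_lit 5) (nat_lit 163) (nat_lit 5) (nat_lit 164) (nat_lit 5) (nat_lit 615) (nat_lit 526) (nat_lit 419)) (XT.lf (nat_lit 0) (nat_lit 1762533098) (nat_lit 456) (nat_lit 6929912008) (nat_lit 76) (nat_lit 4572844618) (nat_lit 152) (nat_lit 5) (nat_lit 158) (nat_lit 5) (nat_lit 153) (nat_lit 5) (nat_lit 616) (nat_lit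 526) (nat_lit 418)))) (XT.nd (nat_lit 156) (nat_lit 760) (nat_lit 0) (XT.nd (nat_lit 78) (nat_lit 0) (nat_lit 0) (XT.lf (nat_lit 0) (nat_lit 1528685579) (nat_lit 380) (nat_lit 3820786294) (nat_lit 456) (nat_lit 8071693804) (nat_lit 147) (nat_lit 5) (nat_lit 152) (nat_lit 5) (nat_lit 153) (nat_lit 5) (nat_lit 617) (nat_lit 526) (nat_lit 417)) (XT.lf (nat_lit 0) (nat_lit 9041620083) (nat_lit 456) (nat_lit 3368831505) (nat_lit 76) (nat_lit 1169039908) (nat_lit 147) (nat_lit 5) (nat_lit 153) (nat_lit 5) (nat_lit 148) (nat_lit 5) (nat_lit 618) (nat_lit 526) (nat_lit 416))) (XT.nd (nat_lit 78) (nat_lit 380) (nat_lit 0) (XT.lf (nat_lit 0) (nat_lit 5338402127) (nat_lit 380) (nat_lit 7508784338) (nat_lit 456) (nat_lit 893007589) (nat_lit 142) (nat_lit 5) (nat_lit 147) (nat_lit 5) (nat_lit 148) (nat_lit 5) (nat_lit 619) (nat_lit 526) (nat_lit 415)) (XT.nd (nat_lit 73944) (nat_lit 0) (nat_lit 44536) (XT.lf (nat_lit 0) (nat_lit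 315776138) (nat_lit 304) (nat_lit 2476408904) (nat_lit 380) (nat_lit 11111470904) (nat_lit 137) (nat_lit 5) (nat_lit 141) (nat_lit 5) (nat_lit 142) (nat_lit 5) (nat_lit 620) (nat_lit 526) (nat_lit 414)) (XT.lf (nat_lit 0) (nat_lit 302587756) (nat_lit 0) (nat_lit 302587756) (nat_lit 532) (nat_lit 2662781671) (nat_lit 723) (nat_lit 5) (nat_lit 723) (nat_lit 3) (nat_lit 730) (nat_lit 3) (nat_lit 527) (nat_lit 527) (nat_lit 506)))))) (XT.nd (nat_lit 390) (nat_lit 760) (nat_lit 0) (XT.nd (nat_lit 156) (nat_lit 1292) (nat_lit 0) (XT.nd (nat_lit 78) (nat_lit 0) (nat_lit 0) (XT.lf (nat_lit 0) (nat_lit 3762314662) (nat_lit 532) (nat_lit 2697026493) (nat_lit 608) (nat_lit 90493314) (nat_lit 723) (nat_lit 5) (nat_lit 730) (nat_lit 3) (nat_lit 731) (nat_lit 5) (nat_lit 528) (nat_lit 527) (nat_lit 505)) (XT.lf (nat_lit 76) (nat_lit 569959358) (nat_lit 0) (nat_lit 5736676951) (nat_lit 608) (nat_lit 258587128) (nat_lit 724) (nat_lit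 5) (nat_lit 723) (nat_lit 5) (nat_lit 731) (nat_lit 5) (nat_lit 529) (nat_lit 527) (nat_lit 504))) (XT.nd (nat_lit 78) (nat_lit 684) (nat_lit 0) (XT.lf (nat_lit 0) (nat_lit 2242941622) (nat_lit 608) (nat_lit 2692432036) (nat_lit 684) (nat_lit 1646212194) (nat_lit 715) (nat_lit 5) (nat_lit 723) (nat_lit 5) (nat_lit 724) (nat_lit 5) (nat_lit 530) (nat_lit 527) (nat_lit 503)) (XT.nd (nat_lit 78) (nat_lit 684) (nat_lit 0) (XT.lf (nat_lit 76) (nat_lit 648416074) (nat_lit 0) (nat_lit 4082363450) (nat_lit 684) (nat_lit 1868682848) (nat_lit 716) (nat_lit 5) (nat_lit 715) (nat_lit 5) (nat_lit 724) (nat_lit 5) (nat_lit 531) (nat_lit 527) (nat_lit 502)) (XT.lf (nat_lit 0) (nat_lit 596463229) (nat_lit 684) (nat_lit 2564568617) (nat_lit 760) (nat_lit 3457508947) (nat_lit 706) (nat_lit 5) (nat_lit 715) (nat_lit 5) (nat_lit 716) (nat_lit 5) (nat_lit 532) (nat_lit 527) (nat_lit 501))))) (XT.nd (nat_lit 156) (nat_lit 760) (nat_lit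 0) (XT.nd (nat_lit 78) (nat_lit 0) (nat_lit 0) (XT.lf (nat_lit 76) (nat_lit 853687902) (nat_lit 0) (nat_lit 2175153010) (nat_lit 760) (nat_lit 3610068775) (nat_lit 707) (nat_lit 5) (nat_lit 706) (nat_lit 5) (nat_lit 716) (nat_lit 5) (nat_lit 533) (nat_lit 527) (nat_lit 500)) (XT.lf (nat_lit 76) (nat_lit 4340530115) (nat_lit 0) (nat_lit 1124933375) (nat_lit 760) (nat_lit 1195125178) (nat_lit 707) (nat_lit 5) (nat_lit 706) (nat_lit 5) (nat_lit 716) (nat_lit 5) (nat_lit 534) (nat_lit 527) (nat_lit 499))) (XT.nd (nat_lit 78) (nat_lit 0) (nat_lit 76) (XT.lf (nat_lit 76) (nat_lit 1187055063) (nat_lit 0) (nat_lit 11319399) (nat_lit 836) (nat_lit 5485238410) (nat_lit 697) (nat_lit 5) (nat_lit 696) (nat_lit 5) (nat_lit 707) (nat_lit 5) (nat_lit 535) (nat_lit 527) (nat_lit 498)) (XT.nd (nat_lit 78) (nat_lit 0) (nat_lit 0) (XT.lf (nat_lit 0) (nat_lit 3587044922) (nat_lit 760) (nat_lit 1962180806) (nat_lit 836) (nat_lit 1158461576)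 (nat_lit 697) (nat_lit 5) (nat_lit 707) (nat_lit 5) (nat_lit 708) (nat_lit 5) (nat_lit 536) (nat_lit 527) (nat_lit 497)) (XT.lf (nat_lit 76) (nat_lit 1629041292) (nat_lit 0) (nat_lit 4346584808) (nat_lit 836) (nat_lit 757587918) (nat_lit 698) (nat_lit 5) (nat_lit 697) (nat_lit 5) (nat_lit 708) (nat_lit 5) (nat_lit 537) (nat_lit 527) (nat_lit 496))))))))
noncomputable def xc90 : XT := (XT.nd (nat_lit 1482) (nat_lit 13908) (nat_lit 0) (XT.nd (nat_lit 702) (nat_lit 7752) (nat_lit 0) (XT.nd (nat_lit 312) (nat_lit 1900) (nat_lit 0) (XT.nd (nat_lit 156) (nat_lit 836) (nat_lit 0) (XT.nd (nat_lit 78) (nat_lit 0) (nat_lit 0) (XT.lf (nat_lit 0) (nat_lit 1586318034) (nat_lit 836) (nat_lit 1486805178) (nat_lit 912) (nat_lit 3686821132) (nat_lit 686) (nat_lit 5) (nat_lit 697) (nat_lit 5) (nat_lit 698) (nat_lit 5) (nat_lit 538) (nat_lit 527) (nat_lit 495)) (XT.lf (nat_lit 76) (nat_lit 2191651025) (nat_lit 0) (nat_lit 1732694891)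 (nat_lit 912) (nat_lit 2863628211) (nat_lit 687) (nat_lit 5) (nat_lit 686) (nat_lit 5) (nat_lit 698) (nat_lit 5) (nat_lit 539) (nat_lit 527) (nat_lit 494))) (XT.nd (nat_lit 78) (nat_lit 836) (nat_lit 0) (XT.lf (nat_lit 76) (nat_lit 5929075102) (nat_lit 0) (nat_lit 334074352) (nat_lit 912) (nat_lit 554347257) (nat_lit 687) (nat_lit 5) (nat_lit 686) (nat_lit 5) (nat_lit 698) (nat_lit 5) (nat_lit 540) (nat_lit 527) (nat_lit 493)) (XT.lf (nat_lit 0) (nat_lit 1748415522) (nat_lit 912) (nat_lit 3970584821) (nat_lit 988) (nat_lit 1128969183) (nat_lit 675) (nat_lit 5) (nat_lit 687) (nat_lit 5) (nat_lit 688) (nat_lit 5) (nat_lit 541) (nat_lit 527) (nat_lit 492)))) (XT.nd (nat_lit 156) (nat_lit 1900) (nat_lit 0) (XT.nd (nat_lit 78) (nat_lit 0) (nat_lit 0) (XT.lf (nat_lit 0) (nat_lit 4043778212) (nat_lit 912) (nat_lit 190124481) (nat_lit 988) (nat_lit 2646008257) (nat_lit 675) (nat_lit 5) (nat_lit 687) (nat_lit 5) (nat_lit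 688) (nat_lit 5) (nat_lit 542) (nat_lit 527) (nat_lit 491)) (XT.lf (nat_lit 76) (nat_lit 3679080408) (nat_lit 0) (nat_lit 2676665324) (nat_lit 988) (nat_lit 557343078) (nat_lit 676) (nat_lit 5) (nat_lit 675) (nat_lit 5) (nat_lit 688) (nat_lit 5) (nat_lit 543) (nat_lit 527) (nat_lit 490))) (XT.nd (nat_lit 78) (nat_lit 912) (nat_lit 0) (XT.lf (nat_lit 76) (nat_lit 642692465) (nat_lit 0) (nat_lit 1053881116) (nat_lit 1064) (nat_lit 5251083779) (nat_lit 663) (nat_lit 5) (nat_lit 662) (nat_lit 5) (nat_lit 676) (nat_lit 5) (nat_lit 544) (nat_lit 527) (nat_lit 489)) (XT.nd (nat_lit 78) (nat_lit 988) (nat_lit 0) (XT.lf (nat_lit 0) (nat_lit 3962043603) (nat_lit 988) (nat_lit 2385977291) (nat_lit 76) (nat_lit 635354839) (nat_lit 663) (nat_lit 5) (nat_lit 676) (nat_lit 5) (nat_lit 664) (nat_lit 5) (nat_lit 545) (nat_lit 527) (nat_lit 488)) (XT.lf (nat_lit 0) (nat_lit 1589452681) (nat_lit 988) (nat_lit 4649866369) (nat_lit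 1064) (nat_lit 781170180) (nat_lit 650) (nat_lit 5) (nat_lit 663) (nat_lit 5) (nat_lit 664) (nat_lit 5) (nat_lit 546) (nat_lit 527) (nat_lit 487)))))) (XT.nd (nat_lit 390) (nat_lit 4180) (nat_lit 0) (XT.nd (nat_lit 156) (nat_lit 2432) (nat_lit 0) (XT.nd (nat_lit 78) (nat_lit 1064) (nat_lit 0) (XT.lf (nat_lit 0) (nat_lit 1449810061) (nat_lit 1064) (nat_lit 1427408864) (nat_lit 76) (nat_lit 4181626308) (nat_lit 649) (nat_lit 5) (nat_lit 663) (nat_lit 5) (nat_lit 650) (nat_lit 5) (nat_lit 547) (nat_lit 527) (nat_lit 486)) (XT.lf (nat_lit 0) (nat_lit 2650340276) (nat_lit 1064) (nat_lit 1032435540) (nat_lit 1140) (nat_lit 3415742815) (nat_lit 635) (nat_lit 5) (nat_lit 649) (nat_lit 5) (nat_lit 650) (nat_lit 5) (nat_lit 548) (nat_lit 527) (nat_lit 485))) (XT.nd (nat_lit 78) (nat_lit 2432) (nat_lit 0) (XT.lf (nat_lit 0) (nat_lit 5926990991) (nat_lit 1140) (nat_lit 351751169) (nat_lit 76) (nat_lit 860921398) (nat_lit 635)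 (nat_lit 5) (nat_lit 650) (nat_lit 5) (nat_lit 636) (nat_lit 5) (nat_lit 549) (nat_lit 527) (nat_lit 484)) (XT.nd (nat_lit 78) (nat_lit 1216) (nat_lit 0) (XT.lf (nat_lit 0) (nat_lit 1004896441) (nat_lit 1216) (nat_lit 3354173858) (nat_lit 76) (nat_lit 2822756148) (nat_lit 619) (nat_lit 5) (nat_lit 635) (nat_lit 5) (nat_lit 620) (nat_lit 5) (nat_lit 550) (nat_lit 527) (nat_lit 483)) (XT.lf (nat_lit 0) (nat_lit 837502124) (nat_lit 1216) (nat_lit 2373675886) (nat_lit 1292) (nat_lit 4014291586) (nat_lit 603) (nat_lit 5) (nat_lit 619) (nat_lit 5) (nat_lit 620) (nat_lit 5) (nat_lit 551) (nat_lit 527) (nat_lit 482))))) (XT.nd (nat_lit 156) (nat_lit 2812) (nat_lit 0) (XT.nd (nat_lit 78) (nat_lit 1368) (nat_lit 0) (XT.lf (nat_lit 0) (nat_lit 5122653179) (nat_lit 1216) (nat_lit 314903782) (nat_lit 1292) (nat_lit 1832918323) (nat_lit 603) (nat_lit 5) (nat_lit 619) (nat_lit 5) (nat_lit 620) (nat_lit 5) (nat_lit 552) (nat_lit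 527) (nat_lit 481)) (XT.lf (nat_lit 0) (nat_lit 366842390) (nat_lit 1368) (nat_lit 5161479485) (nat_lit 76) (nat_lit 1788419012) (nat_lit 585) (nat_lit 5) (nat_lit 603) (nat_lit 5) (nat_lit 586) (nat_lit 5) (nat_lit 553) (nat_lit 527) (nat_lit 480))) (XT.nd (nat_lit 78) (nat_lit 2812) (nat_lit 0) (XT.lf (nat_lit 0) (nat_lit 2557470913) (nat_lit 1368) (nat_lit 840926113) (nat_lit 76) (nat_lit 3965872744) (nat_lit 585) (nat_lit 5) (nat_lit 603) (nat_lit 5) (nat_lit 586) (nat_lit 5) (nat_lit 554) (nat_lit 527) (nat_lit 479)) (XT.nd (nat_lit 78) (nat_lit 1444) (nat_lit 0) (XT.lf (nat_lit 0) (nat_lit 3577185117) (nat_lit 1368) (nat_lit 1193637156) (nat_lit 1444) (nat_lit 2642357171) (nat_lit 567) (nat_lit 5) (nat_lit 585) (nat_lit 5) (nat_lit 586) (nat_lit 5) (nat_lit 555) (nat_lit 527) (nat_lit 478)) (XT.lf (nat_lit 0) (nat_lit 596570700) (nat_lit 1444) (nat_lit 6404650798) (nat_lit 1520) (nat_lit 462398449) (nat_lit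 548) (nat_lit 5) (nat_lit 567) (nat_lit 5) (nat_lit 568) (nat_lit 5) (nat_lit 556) (nat_lit 527) (nat_lit 477))))))) (XT.nd (nat_lit 702) (nat_lit 5472) (nat_lit 0) (XT.nd (nat_lit 312) (nat_lit 5168) (nat_lit 0) (XT.nd (nat_lit 156) (nat_lit 1672) (nat_lit 0) (XT.nd (nat_lit 78) (nat_lit 1520) (nat_lit 0) (XT.lf (nat_lit 0) (nat_lit 1728581702) (nat_lit 1520) (nat_lit 2401090842) (nat_lit 76) (nat_lit 3385365552) (nat_lit 547) (nat_lit 5) (nat_lit 567) (nat_lit 5) (nat_lit 548) (nat_lit 5) (nat_lit 557) (nat_lit 527) (nat_lit 476)) (XT.lf (nat_lit 0) (nat_lit 2143142596) (nat_lit 1520) (nat_lit 1785520072) (nat_lit 1596) (nat_lit 3639339135) (nat_lit 527) (nat_lit 5) (nat_lit 547) (nat_lit 5) (nat_lit 548) (nat_lit 5) (nat_lit 558) (nat_lit 527) (nat_lit 475))) (XT.nd (nat_lit 78) (nat_lit 1672) (nat_lit 0) (XT.lf (nat_lit 0) (nat_lit 6151086651) (nat_lit 1596) (nat_lit 851668205) (nat_lit 76) (nat_lit 619710725)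 (nat_lit 527) (nat_lit 5) (nat_lit 548) (nat_lit 5) (nat_lit 528) (nat_lit 5) (nat_lit 559) (nat_lit 527) (nat_lit 474)) (XT.lf (nat_lit 0) (nat_lit 725805376) (nat_lit 1672) (nat_lit 3867705605) (nat_lit 76) (nat_lit 3084507512) (nat_lit 505) (nat_lit 5) (nat_lit 527) (nat_lit 5) (nat_lit 506) (nat_lit 5) (nat_lit 560) (nat_lit 527) (nat_lit 473)))) (XT.nd (nat_lit 156) (nat_lit 3496) (nat_lit 0) (XT.nd (nat_lit 78) (nat_lit 0) (nat_lit 0) (XT.lf (nat_lit 0) (nat_lit 806985305) (nat_lit 1672) (nat_lit 2110564197) (nat_lit 1748) (nat_lit 4817539270) (nat_lit 483) (nat_lit 5) (nat_lit 505) (nat_lit 5) (nat_lit 506) (nat_lit 5) (nat_lit 561) (nat_lit 527) (nat_lit 472)) (XT.lf (nat_lit 0) (nat_lit 5141891757) (nat_lit 1748) (nat_lit 2205018916) (nat_lit 76) (nat_lit 446621564) (nat_lit 483) (nat_lit 5) (nat_lit 506) (nat_lit 5) (nat_lit 484) (nat_lit 5) (nat_lit 562) (nat_lit 527) (nat_lit 471))) (XT.nd (nat_lit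 78) (nat_lit 1748) (nat_lit 0) (XT.lf (nat_lit 0) (nat_lit 2596403069) (nat_lit 1748) (nat_lit 4805835788) (nat_lit 1824) (nat_lit 451082259) (nat_lit 460) (nat_lit 5) (nat_lit 483) (nat_lit 5) (nat_lit 484) (nat_lit 5) (nat_lit 563) (nat_lit 527) (nat_lit 470)) (XT.nd (nat_lit 78) (nat_lit 1672) (nat_lit 0) (XT.lf (nat_lit 0) (nat_lit 1745817169) (nat_lit 1824) (nat_lit 438495877) (nat_lit 76) (nat_lit 5730249435) (nat_lit 459) (nat_lit 5) (nat_lit 483) (nat_lit 5) (nat_lit 460) (nat_lit 5) (nat_lit 564) (nat_lit 527) (nat_lit 469)) (XT.lf (nat_lit 0) (nat_lit 3974945689) (nat_lit 1748) (nat_lit 3484056827) (nat_lit 76) (nat_lit 518086412) (nat_lit 437) (nat_lit 5) (nat_lit 460) (nat_lit 5) (nat_lit 438) (nat_lit 5) (nat_lit 565) (nat_lit 527) (nat_lit 468)))))) (XT.nd (nat_lit 390) (nat_lit 2584) (nat_lit 0) (XT.nd (nat_lit 156) (nat_lit 1824) (nat_lit 0) (XT.nd (nat_lit 78) (nat_lit 76) (nat_lit 0) (XT.lf (nat_lit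 0) (nat_lit 1456634563) (nat_lit 988) (nat_lit 4781164233) (nat_lit 1064) (nat_lit 1803290647) (nat_lit 424) (nat_lit 5) (nat_lit 437) (nat_lit 5) (nat_lit 438) (nat_lit 5) (nat_lit 566) (nat_lit 527) (nat_lit 467)) (XT.lf (nat_lit 0) (nat_lit 419819030) (nat_lit 1064) (nat_lit 1602121196) (nat_lit 76) (nat_lit 6084657904) (nat_lit 423) (nat_lit 5) (nat_lit 437) (nat_lit 5) (nat_lit 424) (nat_lit 5) (nat_lit 567) (nat_lit 527) (nat_lit 466))) (XT.nd (nat_lit 78) (nat_lit 912) (nat_lit 0) (XT.lf (nat_lit 0) (nat_lit 2654471468) (nat_lit 988) (nat_lit 4701180363) (nat_lit 76) (nat_lit 817708245) (nat_lit 411) (nat_lit 5) (nat_lit 424) (nat_lit 5) (nat_lit 412) (nat_lit 5) (nat_lit 568) (nat_lit 527) (nat_lit 465)) (XT.nd (nat_lit 78) (nat_lit 0) (nat_lit 0) (XT.lf (nat_lit 0) (nat_lit 383652165) (nat_lit 912) (nat_lit 4540606953) (nat_lit 988) (nat_lit 3317395196) (nat_lit 399) (nat_lit 5) (nat_lit 411) (nat_lit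 5) (nat_lit 412) (nat_lit 5) (nat_lit 569) (nat_lit 527) (nat_lit 464)) (XT.lf (nat_lit 0) (nat_lit 5597786743) (nat_lit 912) (nat_lit 1637418292) (nat_lit 988) (nat_lit 1076199927) (nat_lit 399) (nat_lit 5) (nat_lit 411) (nat_lit 5) (nat_lit 412) (nat_lit 5) (nat_lit 570) (nat_lit 527) (nat_lit 463))))) (XT.nd (nat_lit 156) (nat_lit 1672) (nat_lit 0) (XT.nd (nat_lit 78) (nat_lit 0) (nat_lit 0) (XT.lf (nat_lit 0) (nat_lit 1183764137) (nat_lit 912) (nat_lit 5868528922) (nat_lit 76) (nat_lit 1330309783) (nat_lit 387) (nat_lit 5) (nat_lit 399) (nat_lit 5) (nat_lit 388) (nat_lit 5) (nat_lit 571) (nat_lit 527) (nat_lit 462)) (XT.lf (nat_lit 0) (nat_lit 3468839688) (nat_lit 912) (nat_lit 626196809) (nat_lit 76) (nat_lit 4360164903) (nat_lit 387) (nat_lit 5) (nat_lit 399) (nat_lit 5) (nat_lit 388) (nat_lit 5) (nat_lit 572) (nat_lit 527) (nat_lit 461))) (XT.nd (nat_lit 78) (nat_lit 836) (nat_lit 0) (XT.lf (nat_lit 0) (nat_lit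 4747611982) (nat_lit 836) (nat_lit 1048647866) (nat_lit 912) (nat_lit 2733064558) (nat_lit 376) (nat_lit 5) (nat_lit 387) (nat_lit 5) (nat_lit 388) (nat_lit 5) (nat_lit 573) (nat_lit 527) (nat_lit 460)) (XT.nd (nat_lit 78) (nat_lit 76) (nat_lit 0) (XT.lf (nat_lit 0) (nat_lit 1604112961) (nat_lit 760) (nat_lit 6560374648) (nat_lit 836) (nat_lit 440562313) (nat_lit 366) (nat_lit 5) (nat_lit 376) (nat_lit 5) (nat_lit 377) (nat_lit 5) (nat_lit 574) (nat_lit 527) (nat_lit 459)) (XT.lf (nat_lit 0) (nat_lit 1871841605) (nat_lit 836) (nat_lit 1588584049) (nat_lit 76) (nat_lit 5221644062) (nat_lit 365) (nat_lit 5) (nat_lit 376) (nat_lit 5) (nat_lit 366) (nat_lit 5) (nat_lit 575) (nat_lit 527) (nat_lit 458))))))))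
noncomputable def xc91 : XT := (XT.nd (nat_lit 1482) (nat_lit 6764) (nat_lit 0) (XT.nd (nat_lit 702) (nat_lit 3952) (nat_lit 0) (XT.nd (nat_lit 312) (nat_lit 2204) (nat_lit 0) (XT.nd (nat_lit 156) (nat_lit 836) (nat_lit 0) (XT.nd (nat_lit 78) (nat_lit 760) (nat_lit 0) (XT.lf (nat_lit 0) (nat_lit 3945268503) (nat_lit 836) (nat_lit 272056054) (nat_lit 912) (nat_lit 4543397435) (nat_lit 354) (nat_lit 5) (nat_lit 365) (nat_lit 5) (nat_lit 366) (nat_lit 5) (nat_lit 576) (nat_lit 527) (nat_lit 457)) (XT.lf (nat_lit 0) (nat_lit 724708684) (nat_lit 760) (nat_lit 5887299422) (nat_lit 836) (nat_lit 2228898224) (nat_lit 344) (nat_lit 5) (nat_lit 354) (nat_lit 5) (nat_lit 355) (nat_lit 5) (nat_lit 577) (nat_lit 527) (nat_lit 456))) (XT.nd (nat_lit 78) (nat_lit 760) (nat_lit 0) (XT.lf (nat_lit 0) (nat_lit 132185189) (nat_lit 836) (nat_lit 2520142966) (nat_lit 76) (nat_lit 6270313243) (nat_lit 343) (nat_lit 5) (nat_lit 354)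 (nat_lit 5) (nat_lit 344) (nat_lit 5) (nat_lit 578) (nat_lit 527) (nat_lit 455)) (XT.lf (nat_lit 0) (nat_lit 2504055735) (nat_lit 836) (nat_lit 5831047332) (nat_lit 76) (nat_lit 670749787) (nat_lit 333) (nat_lit 5) (nat_lit 344) (nat_lit 5) (nat_lit 334) (nat_lit 5) (nat_lit 579) (nat_lit 527) (nat_lit 454)))) (XT.nd (nat_lit 156) (nat_lit 1520) (nat_lit 0) (XT.nd (nat_lit 78) (nat_lit 684) (nat_lit 0) (XT.lf (nat_lit 0) (nat_lit 4926646437) (nat_lit 836) (nat_lit 126086802) (nat_lit 76) (nat_lit 4037934111) (nat_lit 333) (nat_lit 5) (nat_lit 344) (nat_lit 5) (nat_lit 334) (nat_lit 5) (nat_lit 580) (nat_lit 527) (nat_lit 453)) (XT.lf (nat_lit 0) (nat_lit 5733031709) (nat_lit 684) (nat_lit 1671187906) (nat_lit 760) (nat_lit 1772832289) (nat_lit 324) (nat_lit 5) (nat_lit 333) (nat_lit 5) (nat_lit 334) (nat_lit 5) (nat_lit 581) (nat_lit 527) (nat_lit 452))) (XT.nd (nat_lit 78) (nat_lit 684) (nat_lit 0) (XT.lf (nat_lit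 0) (nat_lit 655255498) (nat_lit 836) (nat_lit 6838778766) (nat_lit 76) (nat_lit 1771091337) (nat_lit 313) (nat_lit 5) (nat_lit 324) (nat_lit 5) (nat_lit 314) (nat_lit 5) (nat_lit 582) (nat_lit 527) (nat_lit 451)) (XT.nd (nat_lit 78) (nat_lit 684) (nat_lit 0) (XT.lf (nat_lit 0) (nat_lit 3112337672) (nat_lit 836) (nat_lit 952306414) (nat_lit 76) (nat_lit 5290003030) (nat_lit 313) (nat_lit 5) (nat_lit 324) (nat_lit 5) (nat_lit 314) (nat_lit 5) (nat_lit 583) (nat_lit 527) (nat_lit 450)) (XT.lf (nat_lit 0) (nat_lit 5083614435) (nat_lit 684) (nat_lit 538362027) (nat_lit 760) (nat_lit 3823918345) (nat_lit 304) (nat_lit 5) (nat_lit 313) (nat_lit 5) (nat_lit 314) (nat_lit 5) (nat_lit 584) (nat_lit 527) (nat_lit 449)))))) (XT.nd (nat_lit 390) (nat_lit 1900) (nat_lit 0) (XT.nd (nat_lit 156) (nat_lit 1292) (nat_lit 0) (XT.nd (nat_lit 78) (nat_lit 76) (nat_lit 0) (XT.lf (nat_lit 0) (nat_lit 1681195647) (nat_lit 684) (nat_lit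 6508545997) (nat_lit 760) (nat_lit 1349071101) (nat_lit 295) (nat_lit 5) (nat_lit 304) (nat_lit 5) (nat_lit 305) (nat_lit 5) (nat_lit 585) (nat_lit 527) (nat_lit 448)) (XT.lf (nat_lit 0) (nat_lit 1163770495) (nat_lit 760) (nat_lit 1775155673) (nat_lit 76) (nat_lit 6694435847) (nat_lit 294) (nat_lit 5) (nat_lit 304) (nat_lit 5) (nat_lit 295) (nat_lit 5) (nat_lit 586) (nat_lit 527) (nat_lit 447))) (XT.nd (nat_lit 78) (nat_lit 684) (nat_lit 0) (XT.lf (nat_lit 0) (nat_lit 3713890677) (nat_lit 684) (nat_lit 5290831465) (nat_lit 76) (nat_lit 724803804) (nat_lit 286) (nat_lit 5) (nat_lit 295) (nat_lit 5) (nat_lit 287) (nat_lit 5) (nat_lit 587) (nat_lit 527) (nat_lit 446)) (XT.nd (nat_lit 78) (nat_lit 0) (nat_lit 0) (XT.lf (nat_lit 0) (nat_lit 931140521) (nat_lit 684) (nat_lit 5393117325) (nat_lit 760) (nat_lit 3503174081) (nat_lit 277) (nat_lit 5) (nat_lit 286) (nat_lit 5) (nat_lit 287) (nat_lit 5) (nat_lit 588) (nat_lit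 527) (nat_lit 445)) (XT.lf (nat_lit 0) (nat_lit 7314462070) (nat_lit 684) (nat_lit 1679947375) (nat_lit 760) (nat_lit 932738635) (nat_lit 277) (nat_lit 5) (nat_lit 286) (nat_lit 5) (nat_lit 287) (nat_lit 5) (nat_lit 589) (nat_lit 527) (nat_lit 444))))) (XT.nd (nat_lit 156) (nat_lit 608) (nat_lit 0) (XT.nd (nat_lit 78) (nat_lit 608) (nat_lit 0) (XT.lf (nat_lit 0) (nat_lit 1677940947) (nat_lit 684) (nat_lit 6241595157) (nat_lit 76) (nat_lit 2108886801) (nat_lit 268) (nat_lit 5) (nat_lit 277) (nat_lit 5) (nat_lit 269) (nat_lit 5) (nat_lit 590) (nat_lit 527) (nat_lit 443)) (XT.lf (nat_lit 0) (nat_lit 168393180) (nat_lit 608) (nat_lit 4162538657) (nat_lit 684) (nat_lit 5800619726) (nat_lit 260) (nat_lit 5) (nat_lit 268) (nat_lit 5) (nat_lit 269) (nat_lit 5) (nat_lit 591) (nat_lit 527) (nat_lit 442))) (XT.nd (nat_lit 78) (nat_lit 608) (nat_lit 0) (XT.lf (nat_lit 0) (nat_lit 6756644995) (nat_lit 608) (nat_lit 295240804)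 (nat_lit 684) (nat_lit 3184562248) (nat_lit 260) (nat_lit 5) (nat_lit 268) (nat_lit 5) (nat_lit 269) (nat_lit 5) (nat_lit 592) (nat_lit 527) (nat_lit 441)) (XT.nd (nat_lit 78) (nat_lit 76) (nat_lit 0) (XT.lf (nat_lit 0) (nat_lit 3116042893) (nat_lit 532) (nat_lit 6728641486) (nat_lit 608) (nat_lit 498412826) (nat_lit 253) (nat_lit 5) (nat_lit 260) (nat_lit 5) (nat_lit 261) (nat_lit 5) (nat_lit 593) (nat_lit 527) (nat_lit 440)) (XT.lf (nat_lit 0) (nat_lit 2211144792) (nat_lit 608) (nat_lit 611577152) (nat_lit 76) (nat_lit 7628887822) (nat_lit 252) (nat_lit 5) (nat_lit 260) (nat_lit 5) (nat_lit 253) (nat_lit 5) (nat_lit 594) (nat_lit 527) (nat_lit 439))))))) (XT.nd (nat_lit 702) (nat_lit 3420) (nat_lit 0) (XT.nd (nat_lit 312) (nat_lit 1596) (nat_lit 0) (XT.nd (nat_lit 156) (nat_lit 608) (nat_lit 0) (XT.nd (nat_lit 78) (nat_lit 532) (nat_lit 0) (XT.lf (nat_lit 0) (nat_lit 4990266232) (nat_lit 684) (nat_lit 4389558978)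 (nat_lit 76) (nat_lit 1181963615) (nat_lit 244) (nat_lit 5) (nat_lit 253) (nat_lit 5) (nat_lit 245) (nat_lit 5) (nat_lit 595) (nat_lit 527) (nat_lit 438)) (XT.lf (nat_lit 0) (nat_lit 2404689541) (nat_lit 532) (nat_lit 5433093591) (nat_lit 608) (nat_lit 2836135080) (nat_lit 237) (nat_lit 5) (nat_lit 244) (nat_lit 5) (nat_lit 245) (nat_lit 5) (nat_lit 596) (nat_lit 527) (nat_lit 437))) (XT.nd (nat_lit 78) (nat_lit 608) (nat_lit 0) (XT.lf (nat_lit 0) (nat_lit 9360507231) (nat_lit 532) (nat_lit 1385857752) (nat_lit 608) (nat_lit 41845858) (nat_lit 237) (nat_lit 5) (nat_lit 244) (nat_lit 5) (nat_lit 245) (nat_lit 5) (nat_lit 597) (nat_lit 527) (nat_lit 436)) (XT.lf (nat_lit 0) (nat_lit 2800772713) (nat_lit 608) (nat_lit 5350307744) (nat_lit 76) (nat_lit 2752761522) (nat_lit 229) (nat_lit 5) (nat_lit 237) (nat_lit 5) (nat_lit 230) (nat_lit 5) (nat_lit 598) (nat_lit 527) (nat_lit 435)))) (XT.nd (nat_lit 156) (nat_lit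 1064) (nat_lit 0) (XT.nd (nat_lit 78) (nat_lit 0) (nat_lit 0) (XT.lf (nat_lit 0) (nat_lit 1650573352) (nat_lit 532) (nat_lit 4053855990) (nat_lit 608) (nat_lit 5317258722) (nat_lit 222) (nat_lit 5) (nat_lit 229) (nat_lit 5) (nat_lit 230) (nat_lit 5) (nat_lit 599) (nat_lit 527) (nat_lit 434)) (XT.lf (nat_lit 0) (nat_lit 8678531272) (nat_lit 608) (nat_lit 2312152090) (nat_lit 76) (nat_lit 150962989) (nat_lit 222) (nat_lit 5) (nat_lit 230) (nat_lit 5) (nat_lit 223) (nat_lit 5) (nat_lit 600) (nat_lit 527) (nat_lit 433))) (XT.nd (nat_lit 78) (nat_lit 456) (nat_lit 0) (XT.lf (nat_lit 0) (nat_lit 476968805) (nat_lit 608) (nat_lit 6374410580) (nat_lit 76) (nat_lit 4411874158) (nat_lit 214) (nat_lit 5) (nat_lit 222) (nat_lit 5) (nat_lit 215) (nat_lit 5) (nat_lit 601) (nat_lit 527) (nat_lit 432)) (XT.nd (nat_lit 78) (nat_lit 0) (nat_lit 0) (XT.lf (nat_lit 0) (nat_lit 839449790) (nat_lit 456) (nat_lit 2600520042) (nat_lit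 532) (nat_lit 7947058057) (nat_lit 208) (nat_lit 5) (nat_lit 214) (nat_lit 5) (nat_lit 215) (nat_lit 5) (nat_lit 602) (nat_lit 527) (nat_lit 431)) (XT.lf (nat_lit 0) (nat_lit 6492748333) (nat_lit 532) (nat_lit 3273537530) (nat_lit 76) (nat_lit 1746384025) (nat_lit 208) (nat_lit 5) (nat_lit 215) (nat_lit 5) (nat_lit 209) (nat_lit 5) (nat_lit 603) (nat_lit 527) (nat_lit 430)))))) (XT.nd (nat_lit 390) (nat_lit 1900) (nat_lit 0) (XT.nd (nat_lit 156) (nat_lit 912) (nat_lit 0) (XT.nd (nat_lit 78) (nat_lit 76) (nat_lit 0) (XT.lf (nat_lit 0) (nat_lit 4150292585) (nat_lit 532) (nat_lit 5477116528) (nat_lit 608) (nat_lit 2013001547) (nat_lit 201) (nat_lit 5) (nat_lit 208) (nat_lit 5) (nat_lit 209) (nat_lit 5) (nat_lit 604) (nat_lit 527) (nat_lit 429)) (XT.lf (nat_lit 0) (nat_lit 1039093751) (nat_lit 608) (nat_lit 43279082) (nat_lit 76) (nat_lit 10688221690) (nat_lit 200) (nat_lit 5) (nat_lit 208) (nat_lit 5) (nat_lit 201)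 (nat_lit 5) (nat_lit 605) (nat_lit 527) (nat_lit 428))) (XT.nd (nat_lit 78) (nat_lit 456) (nat_lit 0) (XT.lf (nat_lit 0) (nat_lit 4174323429) (nat_lit 532) (nat_lit 4318437901) (nat_lit 76) (nat_lit 3409376009) (nat_lit 194) (nat_lit 5) (nat_lit 201) (nat_lit 5) (nat_lit 195) (nat_lit 5) (nat_lit 606) (nat_lit 527) (nat_lit 427)) (XT.nd (nat_lit 78) (nat_lit 0) (nat_lit 0) (XT.lf (nat_lit 0) (nat_lit 3331494726) (nat_lit 456) (nat_lit 4047234074) (nat_lit 532) (nat_lit 4657455066) (nat_lit 188) (nat_lit 5) (nat_lit 194) (nat_lit 5) (nat_lit 195) (nat_lit 5) (nat_lit 607) (nat_lit 527) (nat_lit 426)) (XT.lf (nat_lit 0) (nat_lit 10657106141) (nat_lit 532) (nat_lit 1015422296) (nat_lit 76) (nat_lit 500187443) (nat_lit 188) (nat_lit 5) (nat_lit 195) (nat_lit 5) (nat_lit 189) (nat_lit 5) (nat_lit 608) (nat_lit 527) (nat_lit 425))))) (XT.nd (nat_lit 156) (nat_lit 912) (nat_lit 0) (XT.nd (nat_lit 78) (nat_lit 456) (nat_lit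 0) (XT.lf (nat_lit 0) (nat_lit 1716568653) (nat_lit 532) (nat_lit 5463564868) (nat_lit 76) (nat_lit 5130634857) (nat_lit 181) (nat_lit 5) (nat_lit 188) (nat_lit 5) (nat_lit 182) (nat_lit 5) (nat_lit 609) (nat_lit 527) (nat_lit 424)) (XT.lf (nat_lit 0) (nat_lit 2418902106) (nat_lit 456) (nat_lit 2574846041) (nat_lit 532) (nat_lit 7457622488) (nat_lit 175) (nat_lit 5) (nat_lit 181) (nat_lit 5) (nat_lit 182) (nat_lit 5) (nat_lit 610) (nat_lit 527) (nat_lit 423))) (XT.nd (nat_lit 78) (nat_lit 912) (nat_lit 0) (XT.lf (nat_lit 0) (nat_lit 8365383106) (nat_lit 532) (nat_lit 2107295873) (nat_lit 76) (nat_lit 2121529783) (nat_lit 175) (nat_lit 5) (nat_lit 182) (nat_lit 5) (nat_lit 176) (nat_lit 5) (nat_lit 611) (nat_lit 527) (nat_lit 422)) (XT.nd (nat_lit 78) (nat_lit 532) (nat_lit 0) (XT.lf (nat_lit 0) (nat_lit 6006438207) (nat_lit 380) (nat_lit 5832713955) (nat_lit 456) (nat_lit 900059486) (nat_lit 170) (nat_lit 5) (nat_lit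 175) (nat_lit 5) (nat_lit 176) (nat_lit 5) (nat_lit 612) (nat_lit 527) (nat_lit 421)) (XT.lf (nat_lit 0) (nat_lit 1394431748) (nat_lit 456) (nat_lit 1070136569) (nat_lit 532) (nat_lit 10422183953) (nat_lit 163) (nat_lit 5) (nat_lit 169) (nat_lit 5) (nat_lit 170) (nat_lit 5) (nat_lit 613) (nat_lit 527) (nat_lit 420))))))))
noncomputable def xc92 : XT := (XT.nd (nat_lit 75426) (nat_lit 0) (nat_lit 29336) (XT.nd (nat_lit 74646) (nat_lit 0) (nat_lit 41344) (XT.nd (nat_lit 312) (nat_lit 836) (nat_lit 0) (XT.nd (nat_lit 156) (nat_lit 456) (nat_lit 0) (XT.nd (nat_lit 78) (nat_lit 380) (nat_lit 0) (XT.lf (nat_lit 0) (nat_lit 5933388577) (nat_lit 532) (nat_lit 3323634932) (nat_lit 76) (nat_lit 3779124077) (nat_lit 163) (nat_lit 5) (nat_lit 170) (nat_lit 5) (nat_lit 164) (nat_lit 5) (nat_lit 614) (nat_lit 527) (nat_lit 419)) (XT.lf (nat_lit 0) (nat_lit 5036123986) (nat_lit 380) (nat_lit 4454529011) (nat_lit 456) (nat_lit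 3697498327) (nat_lit 158) (nat_lit 5) (nat_lit 163) (nat_lit 5) (nat_lit 164) (nat_lit 5) (nat_lit 615) (nat_lit 527) (nat_lit 418))) (XT.nd (nat_lit 78) (nat_lit 76) (nat_lit 0) (XT.lf (nat_lit 0) (nat_lit 234019420) (nat_lit 380) (nat_lit 12891315588) (nat_lit 456) (nat_lit 217736513) (nat_lit 153) (nat_lit 5) (nat_lit 158) (nat_lit 5) (nat_lit 159) (nat_lit 5) (nat_lit 616) (nat_lit 527) (nat_lit 417)) (XT.lf (nat_lit 0) (nat_lit 3351975883) (nat_lit 456) (nat_lit 4684668440) (nat_lit 76) (nat_lit 5462733938) (nat_lit 152) (nat_lit 5) (nat_lit 158) (nat_lit 5) (nat_lit 153) (nat_lit 5) (nat_lit 617) (nat_lit 527) (nat_lit 416)))) (XT.nd (nat_lit 156) (nat_lit 456) (nat_lit 0) (XT.nd (nat_lit 78) (nat_lit 0) (nat_lit 0) (XT.lf (nat_lit 0) (nat_lit 3927417929) (nat_lit 380) (nat_lit 3068136805) (nat_lit 456) (nat_lit 6663121588) (nat_lit 147) (nat_lit 5) (nat_lit 152) (nat_lit 5) (nat_lit 153) (nat_lit 5) (nat_lit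 618) (nat_lit 527) (nat_lit 415)) (XT.lf (nat_lit 0) (nat_lit 10736644902) (nat_lit 456) (nat_lit 1089454738) (nat_lit 76) (nat_lit 1994569603) (nat_lit 147) (nat_lit 5) (nat_lit 153) (nat_lit 5) (nat_lit 148) (nat_lit 5) (nat_lit 619) (nat_lit 527) (nat_lit 414))) (XT.nd (nat_lit 74022) (nat_lit 0) (nat_lit 43548) (XT.lf (nat_lit 0) (nat_lit 610772715) (nat_lit 456) (nat_lit 6212413281) (nat_lit 76) (nat_lit 7161613078) (nat_lit 141) (nat_lit 5) (nat_lit 147) (nat_lit 5) (nat_lit 142) (nat_lit 5) (nat_lit 620) (nat_lit 527) (nat_lit 413)) (XT.nd (nat_lit 78) (nat_lit 684) (nat_lit 0) (XT.lf (nat_lit 0) (nat_lit 1570028604) (nat_lit 0) (nat_lit 1570028604) (nat_lit 532) (nat_lit 142165884) (nat_lit 723) (nat_lit 5) (nat_lit 723) (nat_lit 3) (nat_lit 730) (nat_lit 3) (nat_lit 528) (nat_lit 528) (nat_lit 504)) (XT.lf (nat_lit 0) (nat_lit 2174025443) (nat_lit 684) (nat_lit 191167807) (nat_lit 684) (nat_lit 4215181188)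 (nat_lit 714) (nat_lit 3) (nat_lit 723) (nat_lit 3) (nat_lit 723) (nat_lit 5) (nat_lit 529) (nat_lit 528) (nat_lit 503)))))) (XT.nd (nat_lit 390) (nat_lit 836) (nat_lit 0) (XT.nd (nat_lit 156) (nat_lit 684) (nat_lit 0) (XT.nd (nat_lit 78) (nat_lit 684) (nat_lit 0) (XT.lf (nat_lit 76) (nat_lit 3112777211) (nat_lit 0) (nat_lit 1520719778) (nat_lit 684) (nat_lit 1963987454) (nat_lit 715) (nat_lit 5) (nat_lit 714) (nat_lit 3) (nat_lit 723) (nat_lit 5) (nat_lit 530) (nat_lit 528) (nat_lit 502)) (XT.lf (nat_lit 0) (nat_lit 457755219) (nat_lit 684) (nat_lit 166479671) (nat_lit 760) (nat_lit 5991899576) (nat_lit 705) (nat_lit 5) (nat_lit 714) (nat_lit 3) (nat_lit 715) (nat_lit 5) (nat_lit 531) (nat_lit 528) (nat_lit 501))) (XT.nd (nat_lit 78) (nat_lit 760) (nat_lit 0) (XT.lf (nat_lit 0) (nat_lit 2862239828) (nat_lit 684) (nat_lit 3423656981) (nat_lit 760) (nat_lit 349803892) (nat_lit 706) (nat_lit 5) (nat_lit 715) (nat_lit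 5) (nat_lit 716) (nat_lit 5) (nat_lit 532) (nat_lit 528) (nat_lit 500)) (XT.nd (nat_lit 78) (nat_lit 760) (nat_lit 0) (XT.lf (nat_lit 0) (nat_lit 5258684709) (nat_lit 684) (nat_lit 33472872) (nat_lit 760) (nat_lit 1364637925) (nat_lit 706) (nat_lit 5) (nat_lit 715) (nat_lit 5) (nat_lit 716) (nat_lit 5) (nat_lit 533) (nat_lit 528) (nat_lit 499)) (XT.lf (nat_lit 0) (nat_lit 973167064) (nat_lit 760) (nat_lit 3249327093) (nat_lit 836) (nat_lit 2456461861) (nat_lit 696) (nat_lit 5) (nat_lit 706) (nat_lit 5) (nat_lit 707) (nat_lit 5) (nat_lit 534) (nat_lit 528) (nat_lit 498))))) (XT.nd (nat_lit 156) (nat_lit 836) (nat_lit 0) (XT.nd (nat_lit 78) (nat_lit 0) (nat_lit 0) (XT.lf (nat_lit 76) (nat_lit 220515134) (nat_lit 0) (nat_lit 3094684112) (nat_lit 836) (nat_lit 3387348485) (nat_lit 697) (nat_lit 5) (nat_lit 696) (nat_lit 5) (nat_lit 707) (nat_lit 5) (nat_lit 535) (nat_lit 528) (nat_lit 497)) (XT.lf (nat_lit 76) (nat_lit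 3770015718) (nat_lit 0) (nat_lit 1897184964) (nat_lit 836) (nat_lit 1060161565) (nat_lit 697) (nat_lit 5) (nat_lit 696) (nat_lit 5) (nat_lit 707) (nat_lit 5) (nat_lit 536) (nat_lit 528) (nat_lit 496))) (XT.nd (nat_lit 78) (nat_lit 0) (nat_lit 76) (XT.lf (nat_lit 76) (nat_lit 603312977) (nat_lit 0) (nat_lit 639025888) (nat_lit 912) (nat_lit 5511256681) (nat_lit 686) (nat_lit 5) (nat_lit 685) (nat_lit 5) (nat_lit 697) (nat_lit 5) (nat_lit 537) (nat_lit 528) (nat_lit 495)) (XT.nd (nat_lit 78) (nat_lit 0) (nat_lit 0) (XT.lf (nat_lit 0) (nat_lit 3544015768) (nat_lit 836) (nat_lit 2551004337) (nat_lit 912) (nat_lit 685859574) (nat_lit 686) (nat_lit 5) (nat_lit 697) (nat_lit 5) (nat_lit 698) (nat_lit 5) (nat_lit 538) (nat_lit 528) (nat_lit 494)) (XT.lf (nat_lit 76) (nat_lit 1096103633) (nat_lit 0) (nat_lit 4751234673) (nat_lit 912) (nat_lit 962271453) (nat_lit 687) (nat_lit 5) (nat_lit 686) (nat_lit 5) (nat_lit 698) (nat_lit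 5) (nat_lit 539) (nat_lit 528) (nat_lit 493))))))) (XT.nd (nat_lit 702) (nat_lit 8208) (nat_lit 0) (XT.nd (nat_lit 312) (nat_lit 2052) (nat_lit 0) (XT.nd (nat_lit 156) (nat_lit 912) (nat_lit 0) (XT.nd (nat_lit 78) (nat_lit 0) (nat_lit 0) (XT.lf (nat_lit 0) (nat_lit 1301996546) (nat_lit 912) (nat_lit 2031587910) (nat_lit 988) (nat_lit 3505925858) (nat_lit 674) (nat_lit 5) (nat_lit 686) (nat_lit 5) (nat_lit 687) (nat_lit 5) (nat_lit 540) (nat_lit 528) (nat_lit 492)) (XT.lf (nat_lit 76) (nat_lit 1705831089) (nat_lit 0) (nat_lit 1849764281) (nat_lit 988) (nat_lit 3315159483) (nat_lit 675) (nat_lit 5) (nat_lit 674) (nat_lit 5) (nat_lit 687) (nat_lit 5) (nat_lit 541) (nat_lit 528) (nat_lit 491))) (XT.nd (nat_lit 78) (nat_lit 912) (nat_lit 0) (XT.lf (nat_lit 76) (nat_lit 5511624560) (nat_lit 0) (nat_lit 302959202) (nat_lit 988) (nat_lit 1088845723) (nat_lit 675) (nat_lit 5) (nat_lit 674) (nat_lit 5) (nat_lit 687) (nat_lit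 5) (nat_lit 542) (nat_lit 528) (nat_lit 490)) (XT.lf (nat_lit 0) (nat_lit 1138307968) (nat_lit 988) (nat_lit 4498664162) (nat_lit 1064) (nat_lit 1300206787) (nat_lit 662) (nat_lit 5) (nat_lit 675) (nat_lit 5) (nat_lit 676) (nat_lit 5) (nat_lit 543) (nat_lit 528) (nat_lit 489)))) (XT.nd (nat_lit 156) (nat_lit 2052) (nat_lit 0) (XT.nd (nat_lit 78) (nat_lit 0) (nat_lit 0) (XT.lf (nat_lit 0) (nat_lit 3355149562) (nat_lit 988) (nat_lit 651287852) (nat_lit 1064) (nat_lit 2965838380) (nat_lit 662) (nat_lit 5) (nat_lit 675) (nat_lit 5) (nat_lit 676) (nat_lit 5) (nat_lit 544) (nat_lit 528) (nat_lit 488)) (XT.lf (nat_lit 76) (nat_lit 3281863191) (nat_lit 0) (nat_lit 2305089393) (nat_lit 1064) (nat_lit 1421720209) (nat_lit 663) (nat_lit 5) (nat_lit 662) (nat_lit 5) (nat_lit 676) (nat_lit 5) (nat_lit 545) (nat_lit 528) (nat_lit 487))) (XT.nd (nat_lit 78) (nat_lit 988) (nat_lit 0) (XT.lf (nat_lit 76) (nat_lit 219671039) (nat_lit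 0) (nat_lit 542774492) (nat_lit 1140) (nat_lit 6284144805) (nat_lit 649) (nat_lit 5) (nat_lit 648) (nat_lit 5) (nat_lit 663) (nat_lit 5) (nat_lit 546) (nat_lit 528) (nat_lit 486)) (XT.nd (nat_lit 78) (nat_lit 1064) (nat_lit 0) (XT.lf (nat_lit 0) (nat_lit 2955205164) (nat_lit 1064) (nat_lit 2842432245) (nat_lit 76) (nat_lit 1287771983) (nat_lit 649) (nat_lit 5) (nat_lit 663) (nat_lit 5) (nat_lit 650) (nat_lit 5) (nat_lit 547) (nat_lit 528) (nat_lit 485)) (XT.lf (nat_lit 0) (nat_lit 1199034911) (nat_lit 1064) (nat_lit 3955741238) (nat_lit 1140) (nat_lit 1970979418) (nat_lit 635) (nat_lit 5) (nat_lit 649) (nat_lit 5) (nat_lit 650) (nat_lit 5) (nat_lit 548) (nat_lit 528) (nat_lit 484)))))) (XT.nd (nat_lit 390) (nat_lit 4408) (nat_lit 0) (XT.nd (nat_lit 156) (nat_lit 2584) (nat_lit 0) (XT.nd (nat_lit 78) (nat_lit 1140) (nat_lit 0) (XT.lf (nat_lit 0) (nat_lit 199571205) (nat_lit 1140) (nat_lit 1843553911) (nat_lit 76)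 (nat_lit 5124339448) (nat_lit 634) (nat_lit 5) (nat_lit 649) (nat_lit 5) (nat_lit 635) (nat_lit 5) (nat_lit 549) (nat_lit 528) (nat_lit 483)) (XT.lf (nat_lit 0) (nat_lit 2303871224) (nat_lit 1140) (nat_lit 51170807) (nat_lit 1216) (nat_lit 4855356429) (nat_lit 619) (nat_lit 5) (nat_lit 634) (nat_lit 5) (nat_lit 635) (nat_lit 5) (nat_lit 550) (nat_lit 528) (nat_lit 482))) (XT.nd (nat_lit 78) (nat_lit 2584) (nat_lit 0) (XT.lf (nat_lit 0) (nat_lit 4532631014) (nat_lit 1216) (nat_lit 743005635) (nat_lit 76) (nat_lit 1978983323) (nat_lit 619) (nat_lit 5) (nat_lit 635) (nat_lit 5) (nat_lit 620) (nat_lit 5) (nat_lit 551) (nat_lit 528) (nat_lit 481)) (XT.nd (nat_lit 78) (nat_lit 1368) (nat_lit 0) (XT.lf (nat_lit 0) (nat_lit 3514883789) (nat_lit 1216) (nat_lit 3216651821) (nat_lit 1292) (nat_lit 568643959) (nat_lit 603) (nat_lit 5) (nat_lit 619) (nat_lit 5) (nat_lit 620) (nat_lit 5) (nat_lit 552) (nat_lit 528) (nat_lit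 480)) (XT.lf (nat_lit 0) (nat_lit 482132594) (nat_lit 1292) (nat_lit 1087401861) (nat_lit 1368) (nat_lit 5777650821) (nat_lit 585) (nat_lit 5) (nat_lit 602) (nat_lit 5) (nat_lit 603) (nat_lit 5) (nat_lit 553) (nat_lit 528) (nat_lit 479))))) (XT.nd (nat_lit 156) (nat_lit 3040) (nat_lit 0) (XT.nd (nat_lit 78) (nat_lit 1368) (nat_lit 0) (XT.lf (nat_lit 0) (nat_lit 3731164630) (nat_lit 1368) (nat_lit 2555146421) (nat_lit 76) (nat_lit 1108987241) (nat_lit 585) (nat_lit 5) (nat_lit 603) (nat_lit 5) (nat_lit 586) (nat_lit 5) (nat_lit 554) (nat_lit 528) (nat_lit 478)) (XT.lf (nat_lit 0) (nat_lit 1822592973) (nat_lit 1368) (nat_lit 4089022989) (nat_lit 1444) (nat_lit 1533254090) (nat_lit 567) (nat_lit 5) (nat_lit 585) (nat_lit 5) (nat_lit 586) (nat_lit 5) (nat_lit 555) (nat_lit 528) (nat_lit 477))) (XT.nd (nat_lit 78) (nat_lit 2964) (nat_lit 0) (XT.lf (nat_lit 0) (nat_lit 605993974) (nat_lit 1444) (nat_lit 1212255371) (nat_lit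 76) (nat_lit 5677625741) (nat_lit 566) (nat_lit 5) (nat_lit 585) (nat_lit 5) (nat_lit 567) (nat_lit 5) (nat_lit 556) (nat_lit 528) (nat_lit 476)) (XT.nd (nat_lit 78) (nat_lit 1520) (nat_lit 0) (XT.lf (nat_lit 0) (nat_lit 2750062480) (nat_lit 1520) (nat_lit 4267452032) (nat_lit 76) (nat_lit 530539475) (nat_lit 547) (nat_lit 5) (nat_lit 567) (nat_lit 5) (nat_lit 548) (nat_lit 5) (nat_lit 557) (nat_lit 528) (nat_lit 475)) (XT.lf (nat_lit 0) (nat_lit 234229854) (nat_lit 1520) (nat_lit 4682917954) (nat_lit 1596) (nat_lit 2684533572) (nat_lit 527) (nat_lit 5) (nat_lit 547) (nat_lit 5) (nat_lit 548) (nat_lit 5) (nat_lit 558) (nat_lit 528) (nat_lit 474))))))))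
noncomputable def xc93 : XT := (XT.nd (nat_lit 1482) (nat_lit 8360) (nat_lit 0) (XT.nd (nat_lit 702) (nat_lit 5244) (nat_lit 0) (XT.nd (nat_lit 312) (nat_lit 4560) (nat_lit 0) (XT.nd (nat_lit 156) (nat_lit 1672) (nat_lit 0) (XT.nd (nat_lit 78) (nat_lit 1672) (nat_lit 0) (XT.lf (nat_lit 0) (nat_lit 4848642637) (nat_lit 1520) (nat_lit 2266541379) (nat_lit 1596) (nat_lit 541452599) (nat_lit 527) (nat_lit 5) (nat_lit 547) (nat_lit 5) (nat_lit 548) (nat_lit 5) (nat_lit 559) (nat_lit 528) (nat_lit 473)) (XT.lf (nat_lit 0) (nat_lit 1595718820) (nat_lit 1672) (nat_lit 5893678303) (nat_lit 76) (nat_lit 223631540) (nat_lit 505) (nat_lit 5) (nat_lit 527) (nat_lit 5) (nat_lit 506) (nat_lit 5) (nat_lit 560) (nat_lit 528) (nat_lit 472))) (XT.nd (nat_lit 78) (nat_lit 1672) (nat_lit 0) (XT.lf (nat_lit 0) (nat_lit 3762473417) (nat_lit 1672) (nat_lit 1247201903) (nat_lit 76) (nat_lit 2760926900) (nat_lit 505) (nat_lit 5) (nat_lit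 527) (nat_lit 5) (nat_lit 506) (nat_lit 5) (nat_lit 561) (nat_lit 528) (nat_lit 471)) (XT.lf (nat_lit 0) (nat_lit 3503233760) (nat_lit 1672) (nat_lit 2452961829) (nat_lit 1748) (nat_lit 1873465917) (nat_lit 483) (nat_lit 5) (nat_lit 505) (nat_lit 5) (nat_lit 506) (nat_lit 5) (nat_lit 562) (nat_lit 528) (nat_lit 470)))) (XT.nd (nat_lit 156) (nat_lit 2736) (nat_lit 0) (XT.nd (nat_lit 78) (nat_lit 0) (nat_lit 0) (XT.lf (nat_lit 0) (nat_lit 273498951) (nat_lit 1824) (nat_lit 7447095399) (nat_lit 76) (nat_lit 169802917) (nat_lit 459) (nat_lit 5) (nat_lit 483) (nat_lit 5) (nat_lit 460) (nat_lit 5) (nat_lit 563) (nat_lit 528) (nat_lit 469)) (XT.lf (nat_lit 0) (nat_lit 2445533180) (nat_lit 1824) (nat_lit 2649310480) (nat_lit 76) (nat_lit 2857118603) (nat_lit 459) (nat_lit 5) (nat_lit 483) (nat_lit 5) (nat_lit 460) (nat_lit 5) (nat_lit 564) (nat_lit 528) (nat_lit 468))) (XT.nd (nat_lit 78) (nat_lit 1064) (nat_lit 0) (XT.lf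 (nat_lit 0) (nat_lit 2238721546) (nat_lit 1672) (nat_lit 2399295015) (nat_lit 1748) (nat_lit 3377208209) (nat_lit 437) (nat_lit 5) (nat_lit 459) (nat_lit 5) (nat_lit 460) (nat_lit 5) (nat_lit 565) (nat_lit 528) (nat_lit 467)) (XT.nd (nat_lit 78) (nat_lit 1064) (nat_lit 0) (XT.lf (nat_lit 0) (nat_lit 6857516083) (nat_lit 1748) (nat_lit 856961729) (nat_lit 76) (nat_lit 365617642) (nat_lit 437) (nat_lit 5) (nat_lit 460) (nat_lit 5) (nat_lit 438) (nat_lit 5) (nat_lit 566) (nat_lit 528) (nat_lit 466)) (XT.lf (nat_lit 0) (nat_lit 969043424) (nat_lit 1064) (nat_lit 3987710377) (nat_lit 76) (nat_lit 3189255324) (nat_lit 423) (nat_lit 5) (nat_lit 437) (nat_lit 5) (nat_lit 424) (nat_lit 5) (nat_lit 567) (nat_lit 528) (nat_lit 465)))))) (XT.nd (nat_lit 390) (nat_lit 2508) (nat_lit 0) (XT.nd (nat_lit 156) (nat_lit 1824) (nat_lit 0) (XT.nd (nat_lit 78) (nat_lit 0) (nat_lit 0) (XT.lf (nat_lit 0) (nat_lit 1042738830) (nat_lit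 912) (nat_lit 2121929472) (nat_lit 988) (nat_lit 5048886239) (nat_lit 411) (nat_lit 5) (nat_lit 423) (nat_lit 5) (nat_lit 424) (nat_lit 5) (nat_lit 568) (nat_lit 528) (nat_lit 464)) (XT.lf (nat_lit 0) (nat_lit 5400588864) (nat_lit 988) (nat_lit 2094884715) (nat_lit 76) (nat_lit 787055400) (nat_lit 411) (nat_lit 5) (nat_lit 424) (nat_lit 5) (nat_lit 412) (nat_lit 5) (nat_lit 569) (nat_lit 528) (nat_lit 463))) (XT.nd (nat_lit 78) (nat_lit 912) (nat_lit 0) (XT.lf (nat_lit 0) (nat_lit 3073879206) (nat_lit 912) (nat_lit 4606505510) (nat_lit 988) (nat_lit 672520718) (nat_lit 399) (nat_lit 5) (nat_lit 411) (nat_lit 5) (nat_lit 412) (nat_lit 5) (nat_lit 570) (nat_lit 528) (nat_lit 462)) (XT.nd (nat_lit 78) (nat_lit 836) (nat_lit 0) (XT.lf (nat_lit 0) (nat_lit 1539873128) (nat_lit 988) (nat_lit 95535090) (nat_lit 76) (nat_lit 6789490890) (nat_lit 398) (nat_lit 5) (nat_lit 411) (nat_lit 5) (nat_lit 399) (nat_lit 5) (nat_lit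 571) (nat_lit 528) (nat_lit 461)) (XT.lf (nat_lit 0) (nat_lit 3796776284) (nat_lit 912) (nat_lit 3286403410) (nat_lit 76) (nat_lit 1414884063) (nat_lit 387) (nat_lit 5) (nat_lit 399) (nat_lit 5) (nat_lit 388) (nat_lit 5) (nat_lit 572) (nat_lit 528) (nat_lit 460))))) (XT.nd (nat_lit 156) (nat_lit 1672) (nat_lit 0) (XT.nd (nat_lit 78) (nat_lit 0) (nat_lit 0) (XT.lf (nat_lit 0) (nat_lit 2034527239) (nat_lit 836) (nat_lit 4055464296) (nat_lit 912) (nat_lit 2482881917) (nat_lit 376) (nat_lit 5) (nat_lit 387) (nat_lit 5) (nat_lit 388) (nat_lit 5) (nat_lit 573) (nat_lit 528) (nat_lit 459)) (XT.lf (nat_lit 0) (nat_lit 7471717406) (nat_lit 836) (nat_lit 946327604) (nat_lit 912) (nat_lit 231359984) (nat_lit 376) (nat_lit 5) (nat_lit 387) (nat_lit 5) (nat_lit 388) (nat_lit 5) (nat_lit 574) (nat_lit 528) (nat_lit 458))) (XT.nd (nat_lit 78) (nat_lit 836) (nat_lit 0) (XT.lf (nat_lit 0) (nat_lit 2048074226) (nat_lit 836) (nat_lit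 4443318506) (nat_lit 76) (nat_lit 2235611851) (nat_lit 365) (nat_lit 5) (nat_lit 376) (nat_lit 5) (nat_lit 366) (nat_lit 5) (nat_lit 575) (nat_lit 528) (nat_lit 457)) (XT.nd (nat_lit 78) (nat_lit 0) (nat_lit 0) (XT.lf (nat_lit 0) (nat_lit 1035101740) (nat_lit 836) (nat_lit 3323597431) (nat_lit 912) (nat_lit 4447657242) (nat_lit 354) (nat_lit 5) (nat_lit 365) (nat_lit 5) (nat_lit 366) (nat_lit 5) (nat_lit 576) (nat_lit 528) (nat_lit 456)) (XT.lf (nat_lit 0) (nat_lit 6648674996) (nat_lit 836) (nat_lit 64840140) (nat_lit 912) (nat_lit 2173825315) (nat_lit 354) (nat_lit 5) (nat_lit 365) (nat_lit 5) (nat_lit 366) (nat_lit 5) (nat_lit 577) (nat_lit 528) (nat_lit 455))))))) (XT.nd (nat_lit 702) (nat_lit 3800) (nat_lit 0) (XT.nd (nat_lit 312) (nat_lit 2280) (nat_lit 0) (XT.nd (nat_lit 156) (nat_lit 684) (nat_lit 0) (XT.nd (nat_lit 78) (nat_lit 760) (nat_lit 0) (XT.lf (nat_lit 0) (nat_lit 155609776) (nat_lit 836) (nat_lit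 5577391197) (nat_lit 76) (nat_lit 3236688169) (nat_lit 343) (nat_lit 5) (nat_lit 354) (nat_lit 5) (nat_lit 344) (nat_lit 5) (nat_lit 578) (nat_lit 528) (nat_lit 454)) (XT.lf (nat_lit 0) (nat_lit 63988977) (nat_lit 760) (nat_lit 2423479802) (nat_lit 836) (nat_lit 6566234261) (nat_lit 333) (nat_lit 5) (nat_lit 343) (nat_lit 5) (nat_lit 344) (nat_lit 5) (nat_lit 579) (nat_lit 528) (nat_lit 453))) (XT.nd (nat_lit 78) (nat_lit 684) (nat_lit 0) (XT.lf (nat_lit 0) (nat_lit 4879130593) (nat_lit 836) (nat_lit 3286410265) (nat_lit 76) (nat_lit 973597425) (nat_lit 333) (nat_lit 5) (nat_lit 344) (nat_lit 5) (nat_lit 334) (nat_lit 5) (nat_lit 580) (nat_lit 528) (nat_lit 452)) (XT.lf (nat_lit 0) (nat_lit 2513432058) (nat_lit 684) (nat_lit 4807471806) (nat_lit 760) (nat_lit 1905337095) (nat_lit 324) (nat_lit 5) (nat_lit 333) (nat_lit 5) (nat_lit 334) (nat_lit 5) (nat_lit 581) (nat_lit 528) (nat_lit 451)))) (XT.nd (nat_lit 156)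 (nat_lit 1444) (nat_lit 0) (XT.nd (nat_lit 78) (nat_lit 760) (nat_lit 0) (XT.lf (nat_lit 0) (nat_lit 482192458) (nat_lit 760) (nat_lit 878811745) (nat_lit 76) (nat_lit 7954175626) (nat_lit 323) (nat_lit 5) (nat_lit 333) (nat_lit 5) (nat_lit 324) (nat_lit 5) (nat_lit 582) (nat_lit 528) (nat_lit 450)) (XT.lf (nat_lit 0) (nat_lit 2909969024) (nat_lit 836) (nat_lit 4327742667) (nat_lit 76) (nat_lit 2167577767) (nat_lit 313) (nat_lit 5) (nat_lit 324) (nat_lit 5) (nat_lit 314) (nat_lit 5) (nat_lit 583) (nat_lit 528) (nat_lit 449))) (XT.nd (nat_lit 78) (nat_lit 760) (nat_lit 0) (XT.lf (nat_lit 0) (nat_lit 1646130554) (nat_lit 684) (nat_lit 3736796951) (nat_lit 760) (nat_lit 4114345213) (nat_lit 304) (nat_lit 5) (nat_lit 313) (nat_lit 5) (nat_lit 314) (nat_lit 5) (nat_lit 584) (nat_lit 528) (nat_lit 448)) (XT.nd (nat_lit 78) (nat_lit 760) (nat_lit 0) (XT.lf (nat_lit 0) (nat_lit 7764102274) (nat_lit 684) (nat_lit 141621127)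 (nat_lit 760) (nat_lit 1685368567) (nat_lit 304) (nat_lit 5) (nat_lit 313) (nat_lit 5) (nat_lit 314) (nat_lit 5) (nat_lit 585) (nat_lit 528) (nat_lit 447)) (XT.lf (nat_lit 0) (nat_lit 804731177) (nat_lit 760) (nat_lit 5374156068) (nat_lit 76) (nat_lit 3507342563) (nat_lit 294) (nat_lit 5) (nat_lit 304) (nat_lit 5) (nat_lit 295) (nat_lit 5) (nat_lit 586) (nat_lit 528) (nat_lit 446)))))) (XT.nd (nat_lit 390) (nat_lit 1824) (nat_lit 0) (XT.nd (nat_lit 156) (nat_lit 1368) (nat_lit 0) (XT.nd (nat_lit 78) (nat_lit 0) (nat_lit 0) (XT.lf (nat_lit 0) (nat_lit 779643959) (nat_lit 608) (nat_lit 2532793837) (nat_lit 684) (nat_lit 6470806027) (nat_lit 286) (nat_lit 5) (nat_lit 294) (nat_lit 5) (nat_lit 295) (nat_lit 5) (nat_lit 587) (nat_lit 528) (nat_lit 445)) (XT.lf (nat_lit 0) (nat_lit 5886601352) (nat_lit 684) (nat_lit 2794401302) (nat_lit 76) (nat_lit 1200873001) (nat_lit 286) (nat_lit 5) (nat_lit 295) (nat_lit 5) (nat_lit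 287) (nat_lit 5) (nat_lit 588) (nat_lit 528) (nat_lit 444))) (XT.nd (nat_lit 78) (nat_lit 684) (nat_lit 0) (XT.lf (nat_lit 0) (nat_lit 3534890079) (nat_lit 684) (nat_lit 4989924401) (nat_lit 760) (nat_lit 1457417840) (nat_lit 277) (nat_lit 5) (nat_lit 286) (nat_lit 5) (nat_lit 287) (nat_lit 5) (nat_lit 589) (nat_lit 528) (nat_lit 443)) (XT.nd (nat_lit 78) (nat_lit 608) (nat_lit 0) (XT.lf (nat_lit 0) (nat_lit 1108212097) (nat_lit 760) (nat_lit 96862959) (nat_lit 76) (nat_lit 8879540515) (nat_lit 276) (nat_lit 5) (nat_lit 286) (nat_lit 5) (nat_lit 277) (nat_lit 5) (nat_lit 590) (nat_lit 528) (nat_lit 442)) (XT.lf (nat_lit 0) (nat_lit 3738398074) (nat_lit 684) (nat_lit 3784046436) (nat_lit 76) (nat_lit 2665757460) (nat_lit 268) (nat_lit 5) (nat_lit 277) (nat_lit 5) (nat_lit 269) (nat_lit 5) (nat_lit 591) (nat_lit 528) (nat_lit 441))))) (XT.nd (nat_lit 156) (nat_lit 1216) (nat_lit 0) (XT.nd (nat_lit 78) (nat_lit 0)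 (nat_lit 0) (XT.lf (nat_lit 0) (nat_lit 2737152321) (nat_lit 608) (nat_lit 3684209578) (nat_lit 684) (nat_lit 3872497970) (nat_lit 260) (nat_lit 5) (nat_lit 268) (nat_lit 5) (nat_lit 269) (nat_lit 5) (nat_lit 592) (nat_lit 528) (nat_lit 440)) (XT.lf (nat_lit 0) (nat_lit 9159063940) (nat_lit 684) (nat_lit 996396961) (nat_lit 76) (nat_lit 246151635) (nat_lit 260) (nat_lit 5) (nat_lit 269) (nat_lit 5) (nat_lit 261) (nat_lit 5) (nat_lit 593) (nat_lit 528) (nat_lit 439))) (XT.nd (nat_lit 78) (nat_lit 608) (nat_lit 0) (XT.lf (nat_lit 0) (nat_lit 1457367065) (nat_lit 608) (nat_lit 4807763510) (nat_lit 76) (nat_lit 4245480698) (nat_lit 252) (nat_lit 5) (nat_lit 260) (nat_lit 5) (nat_lit 253) (nat_lit 5) (nat_lit 594) (nat_lit 528) (nat_lit 438)) (XT.nd (nat_lit 78) (nat_lit 0) (nat_lit 0) (XT.lf (nat_lit 0) (nat_lit 1911586757) (nat_lit 608) (nat_lit 2276859512) (nat_lit 684) (nat_lit 6433306395) (nat_lit 244) (nat_lit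 5) (nat_lit 252) (nat_lit 5) (nat_lit 253) (nat_lit 5) (nat_lit 595) (nat_lit 528) (nat_lit 437)) (XT.lf (nat_lit 0) (nat_lit 6993130779) (nat_lit 684) (nat_lit 1949194177) (nat_lit 76) (nat_lit 1792415202) (nat_lit 244) (nat_lit 5) (nat_lit 253) (nat_lit 5) (nat_lit 245) (nat_lit 5) (nat_lit 596) (nat_lit 528) (nat_lit 436))))))))
noncomputable def xc94 : XT := (XT.nd (nat_lit 1482) (nat_lit 1216) (nat_lit 0) (XT.nd (nat_lit 702) (nat_lit 2888) (nat_lit 0) (XT.nd (nat_lit 312) (nat_lit 1596) (nat_lit 0) (XT.nd (nat_lit 156) (nat_lit 532) (nat_lit 0) (XT.nd (nat_lit 78) (nat_lit 608) (nat_lit 0) (XT.lf (nat_lit 0) (nat_lit 4964306707) (nat_lit 532) (nat_lit 4912282899) (nat_lit 608) (nat_lit 972947072) (nat_lit 237) (nat_lit 5) (nat_lit 244) (nat_lit 5) (nat_lit 245) (nat_lit 5) (nat_lit 597) (nat_lit 528) (nat_lit 435)) (XT.lf (nat_lit 0) (nat_lit 1044897915) (nat_lit 532) (nat_lit 777342422) (nat_lit 608) (nat_lit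 9144242613) (nat_lit 229) (nat_lit 5) (nat_lit 236) (nat_lit 5) (nat_lit 237) (nat_lit 5) (nat_lit 598) (nat_lit 528) (nat_lit 434))) (XT.nd (nat_lit 78) (nat_lit 532) (nat_lit 0) (XT.lf (nat_lit 0) (nat_lit 4698100183) (nat_lit 608) (nat_lit 2953666055) (nat_lit 76) (nat_lit 3433120082) (nat_lit 229) (nat_lit 5) (nat_lit 237) (nat_lit 5) (nat_lit 230) (nat_lit 5) (nat_lit 599) (nat_lit 528) (nat_lit 433)) (XT.lf (nat_lit 0) (nat_lit 4170761296) (nat_lit 532) (nat_lit 3469112891) (nat_lit 608) (nat_lit 3565618300) (nat_lit 222) (nat_lit 5) (nat_lit 229) (nat_lit 5) (nat_lit 230) (nat_lit 5) (nat_lit 600) (nat_lit 528) (nat_lit 432)))) (XT.nd (nat_lit 156) (nat_lit 988) (nat_lit 0) (XT.nd (nat_lit 78) (nat_lit 76) (nat_lit 0) (XT.lf (nat_lit 0) (nat_lit 113170360) (nat_lit 532) (nat_lit 10529547886) (nat_lit 608) (nat_lit 685750455) (nat_lit 215) (nat_lit 5) (nat_lit 222) (nat_lit 5) (nat_lit 223) (nat_lit 5) (nat_lit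 601) (nat_lit 528) (nat_lit 431)) (XT.lf (nat_lit 0) (nat_lit 2269144353) (nat_lit 608) (nat_lit 4024187236) (nat_lit 76) (nat_lit 5159343751) (nat_lit 214) (nat_lit 5) (nat_lit 222) (nat_lit 5) (nat_lit 215) (nat_lit 5) (nat_lit 602) (nat_lit 528) (nat_lit 430))) (XT.nd (nat_lit 78) (nat_lit 532) (nat_lit 0) (XT.lf (nat_lit 0) (nat_lit 3317649608) (nat_lit 456) (nat_lit 1954783254) (nat_lit 532) (nat_lit 6306875498) (nat_lit 208) (nat_lit 5) (nat_lit 214) (nat_lit 5) (nat_lit 215) (nat_lit 5) (nat_lit 603) (nat_lit 528) (nat_lit 429)) (XT.nd (nat_lit 78) (nat_lit 532) (nat_lit 0) (XT.lf (nat_lit 0) (nat_lit 8356126703) (nat_lit 532) (nat_lit 895537035) (nat_lit 76) (nat_lit 2456405930) (nat_lit 208) (nat_lit 5) (nat_lit 215) (nat_lit 5) (nat_lit 209) (nat_lit 5) (nat_lit 604) (nat_lit 528) (nat_lit 428)) (XT.lf (nat_lit 0) (nat_lit 6660694213) (nat_lit 532) (nat_lit 4874556093) (nat_lit 608) (nat_lit 303483147)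 (nat_lit 201) (nat_lit 5) (nat_lit 208) (nat_lit 5) (nat_lit 209) (nat_lit 5) (nat_lit 605) (nat_lit 528) (nat_lit 427)))))) (XT.nd (nat_lit 390) (nat_lit 1368) (nat_lit 0) (XT.nd (nat_lit 156) (nat_lit 988) (nat_lit 0) (XT.nd (nat_lit 78) (nat_lit 0) (nat_lit 0) (XT.lf (nat_lit 0) (nat_lit 2389667305) (nat_lit 456) (nat_lit 378693990) (nat_lit 532) (nat_lit 9203302818) (nat_lit 194) (nat_lit 5) (nat_lit 200) (nat_lit 5) (nat_lit 201) (nat_lit 5) (nat_lit 606) (nat_lit 528) (nat_lit 426)) (XT.lf (nat_lit 0) (nat_lit 5937699426) (nat_lit 532) (nat_lit 1989085565) (nat_lit 76) (nat_lit 4179628101) (nat_lit 194) (nat_lit 5) (nat_lit 201) (nat_lit 5) (nat_lit 195) (nat_lit 5) (nat_lit 607) (nat_lit 528) (nat_lit 425))) (XT.nd (nat_lit 78) (nat_lit 532) (nat_lit 0) (XT.lf (nat_lit 0) (nat_lit 5797952812) (nat_lit 456) (nat_lit 3390882357) (nat_lit 532) (nat_lit 3054655853) (nat_lit 188) (nat_lit 5) (nat_lit 194) (nat_lit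 5) (nat_lit 195) (nat_lit 5) (nat_lit 608) (nat_lit 528) (nat_lit 424)) (XT.nd (nat_lit 78) (nat_lit 0) (nat_lit 0) (XT.lf (nat_lit 0) (nat_lit 128873247) (nat_lit 532) (nat_lit 11020999962) (nat_lit 76) (nat_lit 1233247885) (nat_lit 181) (nat_lit 5) (nat_lit 188) (nat_lit 5) (nat_lit 182) (nat_lit 5) (nat_lit 609) (nat_lit 528) (nat_lit 423)) (XT.lf (nat_lit 0) (nat_lit 3379703244) (nat_lit 532) (nat_lit 3185856459) (nat_lit 76) (nat_lit 5958691660) (nat_lit 181) (nat_lit 5) (nat_lit 188) (nat_lit 5) (nat_lit 182) (nat_lit 5) (nat_lit 610) (nat_lit 528) (nat_lit 422))))) (XT.nd (nat_lit 156) (nat_lit 532) (nat_lit 0) (XT.nd (nat_lit 78) (nat_lit 380) (nat_lit 0) (XT.lf (nat_lit 0) (nat_lit 4838556040) (nat_lit 456) (nat_lit 1867328866) (nat_lit 532) (nat_lit 5962114653) (nat_lit 175) (nat_lit 5) (nat_lit 181) (nat_lit 5) (nat_lit 182) (nat_lit 5) (nat_lit 611) (nat_lit 528) (nat_lit 421)) (XT.lf (nat_lit 0) (nat_lit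 204958390) (nat_lit 380) (nat_lit 9914543319) (nat_lit 456) (nat_lit 2694704763) (nat_lit 170) (nat_lit 5) (nat_lit 175) (nat_lit 5) (nat_lit 176) (nat_lit 5) (nat_lit 612) (nat_lit 528) (nat_lit 420))) (XT.nd (nat_lit 78) (nat_lit 456) (nat_lit 0) (XT.lf (nat_lit 0) (nat_lit 674080455) (nat_lit 456) (nat_lit 4504084809) (nat_lit 76) (nat_lit 7784203406) (nat_lit 169) (nat_lit 5) (nat_lit 175) (nat_lit 5) (nat_lit 170) (nat_lit 5) (nat_lit 613) (nat_lit 528) (nat_lit 419)) (XT.nd (nat_lit 78) (nat_lit 0) (nat_lit 0) (XT.lf (nat_lit 0) (nat_lit 3764194725) (nat_lit 456) (nat_lit 313988196) (nat_lit 532) (nat_lit 9034876347) (nat_lit 163) (nat_lit 5) (nat_lit 169) (nat_lit 5) (nat_lit 170) (nat_lit 5) (nat_lit 614) (nat_lit 528) (nat_lit 418)) (XT.lf (nat_lit 0) (nat_lit 7590655972) (nat_lit 532) (nat_lit 1068289973) (nat_lit 76) (nat_lit 4607013795) (nat_lit 163) (nat_lit 5) (nat_lit 170) (nat_lit 5) (nat_lit 164)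 (nat_lit 5) (nat_lit 615) (nat_lit 528) (nat_lit 417))))))) (XT.nd (nat_lit 74802) (nat_lit 0) (nat_lit 39064) (XT.nd (nat_lit 74412) (nat_lit 0) (nat_lit 41648) (XT.nd (nat_lit 156) (nat_lit 380) (nat_lit 0) (XT.nd (nat_lit 78) (nat_lit 456) (nat_lit 0) (XT.lf (nat_lit 0) (nat_lit 7443389007) (nat_lit 380) (nat_lit 3760483657) (nat_lit 456) (nat_lit 2217437470) (nat_lit 158) (nat_lit 5) (nat_lit 163) (nat_lit 5) (nat_lit 164) (nat_lit 5) (nat_lit 616) (nat_lit 528) (nat_lit 416)) (XT.lf (nat_lit 0) (nat_lit 1304539289) (nat_lit 456) (nat_lit 11032691368) (nat_lit 76) (nat_lit 1242125979) (nat_lit 152) (nat_lit 5) (nat_lit 158) (nat_lit 5) (nat_lit 153) (nat_lit 5) (nat_lit 617) (nat_lit 528) (nat_lit 415))) (XT.nd (nat_lit 78) (nat_lit 380) (nat_lit 0) (XT.lf (nat_lit 0) (nat_lit 4912856349) (nat_lit 456) (nat_lit 2487087483) (nat_lit 76) (nat_lit 6339416940) (nat_lit 152) (nat_lit 5) (nat_lit 158) (nat_lit 5)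 (nat_lit 153) (nat_lit 5) (nat_lit 618) (nat_lit 528) (nat_lit 414)) (XT.lf (nat_lit 0) (nat_lit 6282166440) (nat_lit 380) (nat_lit 2332627940) (nat_lit 456) (nat_lit 5287343178) (nat_lit 147) (nat_lit 5) (nat_lit 152) (nat_lit 5) (nat_lit 153) (nat_lit 5) (nat_lit 619) (nat_lit 528) (nat_lit 413)))) (XT.nd (nat_lit 156) (nat_lit 760) (nat_lit 0) (XT.nd (nat_lit 78) (nat_lit 684) (nat_lit 0) (XT.lf (nat_lit 0) (nat_lit 2298371505) (nat_lit 684) (nat_lit 500042206) (nat_lit 684) (nat_lit 500042206) (nat_lit 714) (nat_lit 3) (nat_lit 723) (nat_lit 3) (nat_lit 723) (nat_lit 5) (nat_lit 529) (nat_lit 529) (nat_lit 502)) (XT.lf (nat_lit 0) (nat_lit 399430854) (nat_lit 684) (nat_lit 4340452310) (nat_lit 760) (nat_lit 1874828053) (nat_lit 705) (nat_lit 5) (nat_lit 714) (nat_lit 3) (nat_lit 715) (nat_lit 5) (nat_lit 530) (nat_lit 529) (nat_lit 501))) (XT.nd (nat_lit 78) (nat_lit 760) (nat_lit 0) (XT.lf (nat_lit 0) (nat_lit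 2764429831) (nat_lit 684) (nat_lit 1051249589) (nat_lit 760) (nat_lit 2818053902) (nat_lit 705) (nat_lit 5) (nat_lit 714) (nat_lit 3) (nat_lit 715) (nat_lit 5) (nat_lit 531) (nat_lit 529) (nat_lit 500)) (XT.nd (nat_lit 78) (nat_lit 760) (nat_lit 0) (XT.lf (nat_lit 76) (nat_lit 2301696773) (nat_lit 0) (nat_lit 2828612422) (nat_lit 760) (nat_lit 1523769723) (nat_lit 706) (nat_lit 5) (nat_lit 705) (nat_lit 5) (nat_lit 715) (nat_lit 5) (nat_lit 532) (nat_lit 529) (nat_lit 499)) (XT.lf (nat_lit 0) (nat_lit 803600690) (nat_lit 760) (nat_lit 977262449) (nat_lit 836) (nat_lit 4894943199) (nat_lit 695) (nat_lit 5) (nat_lit 705) (nat_lit 5) (nat_lit 706) (nat_lit 5) (nat_lit 533) (nat_lit 529) (nat_lit 498)))))) (XT.nd (nat_lit 390) (nat_lit 1824) (nat_lit 0) (XT.nd (nat_lit 156) (nat_lit 760) (nat_lit 0) (XT.nd (nat_lit 78) (nat_lit 0) (nat_lit 76) (XT.lf (nat_lit 76) (nat_lit 2455276304) (nat_lit 0) (nat_lit 658208736)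 (nat_lit 836) (nat_lit 3585168238) (nat_lit 696) (nat_lit 5) (nat_lit 695) (nat_lit 5) (nat_lit 706) (nat_lit 5) (nat_lit 534) (nat_lit 529) (nat_lit 497)) (XT.lf (nat_lit 0) (nat_lit 5420872985) (nat_lit 760) (nat_lit 788658705) (nat_lit 836) (nat_lit 513412888) (nat_lit 696) (nat_lit 5) (nat_lit 706) (nat_lit 5) (nat_lit 707) (nat_lit 5) (nat_lit 535) (nat_lit 529) (nat_lit 496))) (XT.nd (nat_lit 78) (nat_lit 0) (nat_lit 0) (XT.lf (nat_lit 0) (nat_lit 977774759) (nat_lit 836) (nat_lit 4020907511) (nat_lit 912) (nat_lit 1749628073) (nat_lit 685) (nat_lit 5) (nat_lit 696) (nat_lit 5) (nat_lit 697) (nat_lit 5) (nat_lit 536) (nat_lit 529) (nat_lit 495)) (XT.nd (nat_lit 78) (nat_lit 0) (nat_lit 0) (XT.lf (nat_lit 0) (nat_lit 3234343002) (nat_lit 836) (nat_lit 491499026) (nat_lit 912) (nat_lit 3049210825) (nat_lit 685) (nat_lit 5) (nat_lit 696) (nat_lit 5) (nat_lit 697) (nat_lit 5) (nat_lit 537) (nat_lit 529) (nat_lit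 494)) (XT.lf (nat_lit 76) (nat_lit 3116787119) (nat_lit 0) (nat_lit 2383821192) (nat_lit 912) (nat_lit 1302443098) (nat_lit 686) (nat_lit 5) (nat_lit 685) (nat_lit 5) (nat_lit 697) (nat_lit 5) (nat_lit 538) (nat_lit 529) (nat_lit 493))))) (XT.nd (nat_lit 156) (nat_lit 912) (nat_lit 0) (XT.nd (nat_lit 78) (nat_lit 0) (nat_lit 76) (XT.lf (nat_lit 0) (nat_lit 915884344) (nat_lit 912) (nat_lit 67149528) (nat_lit 988) (nat_lit 5849497635) (nat_lit 673) (nat_lit 5) (nat_lit 685) (nat_lit 5) (nat_lit 686) (nat_lit 5) (nat_lit 539) (nat_lit 529) (nat_lit 492)) (XT.lf (nat_lit 0) (nat_lit 3133894303) (nat_lit 912) (nat_lit 3235425915) (nat_lit 988) (nat_lit 493665481) (nat_lit 674) (nat_lit 5) (nat_lit 686) (nat_lit 5) (nat_lit 687) (nat_lit 5) (nat_lit 540) (nat_lit 529) (nat_lit 491))) (XT.nd (nat_lit 78) (nat_lit 988) (nat_lit 0) (XT.lf (nat_lit 76) (nat_lit 469206287) (nat_lit 0) (nat_lit 4883973074) (nat_lit 988) (nat_lit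 1541742871) (nat_lit 675) (nat_lit 5) (nat_lit 674) (nat_lit 5) (nat_lit 687) (nat_lit 5) (nat_lit 541) (nat_lit 529) (nat_lit 490)) (XT.nd (nat_lit 78) (nat_lit 0) (nat_lit 0) (XT.lf (nat_lit 0) (nat_lit 649539463) (nat_lit 988) (nat_lit 2673852766) (nat_lit 1064) (nat_lit 3604642303) (nat_lit 661) (nat_lit 5) (nat_lit 674) (nat_lit 5) (nat_lit 675) (nat_lit 5) (nat_lit 542) (nat_lit 529) (nat_lit 489)) (XT.lf (nat_lit 76) (nat_lit 1124290415) (nat_lit 0) (nat_lit 1695436568) (nat_lit 1064) (nat_lit 4142774699) (nat_lit 662) (nat_lit 5) (nat_lit 661) (nat_lit 5) (nat_lit 675) (nat_lit 5) (nat_lit 543) (nat_lit 529) (nat_lit 488))))))))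
noncomputable def xc95 : XT := (XT.nd (nat_lit 1482) (nat_lit 11400) (nat_lit 0) (XT.nd (nat_lit 702) (nat_lit 9044) (nat_lit 0) (XT.nd (nat_lit 312) (nat_lit 3496) (nat_lit 0) (XT.nd (nat_lit 156) (nat_lit 0) (nat_lit 0) (XT.nd (nat_lit 78) (nat_lit 1064) (nat_lit 0) (XT.lf (nat_lit 0) (nat_lit 5000469868) (nat_lit 988) (nat_lit 1996765186) (nat_lit 1064) (nat_lit 1090763) (nat_lit 662) (nat_lit 5) (nat_lit 675) (nat_lit 5) (nat_lit 676) (nat_lit 5) (nat_lit 544) (nat_lit 529) (nat_lit 487)) (XT.lf (nat_lit 0) (nat_lit 161171895) (nat_lit 1064) (nat_lit 5134781059) (nat_lit 1140) (nat_lit 1739425035) (nat_lit 648) (nat_lit 5) (nat_lit 662) (nat_lit 5) (nat_lit 663) (nat_lit 5) (nat_lit 545) (nat_lit 529) (nat_lit 486))) (XT.nd (nat_lit 78) (nat_lit 0) (nat_lit 0) (XT.lf (nat_lit 0) (nat_lit 2300876224) (nat_lit 1064) (nat_lit 1217238048) (nat_lit 1140) (nat_lit 3555517932) (nat_lit 648) (nat_lit 5) (nat_lit 662)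 (nat_lit 5) (nat_lit 663) (nat_lit 5) (nat_lit 546) (nat_lit 529) (nat_lit 485)) (XT.lf (nat_lit 76) (nat_lit 2781818075) (nat_lit 0) (nat_lit 1671318097) (nat_lit 1140) (nat_lit 2660129964) (nat_lit 649) (nat_lit 5) (nat_lit 648) (nat_lit 5) (nat_lit 663) (nat_lit 5) (nat_lit 547) (nat_lit 529) (nat_lit 484)))) (XT.nd (nat_lit 156) (nat_lit 2432) (nat_lit 0) (XT.nd (nat_lit 78) (nat_lit 1140) (nat_lit 0) (XT.lf (nat_lit 0) (nat_lit 6610569029) (nat_lit 1064) (nat_lit 311764816) (nat_lit 76) (nat_lit 232126016) (nat_lit 649) (nat_lit 5) (nat_lit 663) (nat_lit 5) (nat_lit 650) (nat_lit 5) (nat_lit 548) (nat_lit 529) (nat_lit 483)) (XT.lf (nat_lit 0) (nat_lit 1582570517) (nat_lit 1140) (nat_lit 3413606934) (nat_lit 76) (nat_lit 2200318152) (nat_lit 634) (nat_lit 5) (nat_lit 649) (nat_lit 5) (nat_lit 635) (nat_lit 5) (nat_lit 549) (nat_lit 529) (nat_lit 482))) (XT.nd (nat_lit 78) (nat_lit 1292) (nat_lit 0) (XT.lf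 (nat_lit 0) (nat_lit 695952843) (nat_lit 1140) (nat_lit 3008797766) (nat_lit 1216) (nat_lit 3535349216) (nat_lit 619) (nat_lit 5) (nat_lit 634) (nat_lit 5) (nat_lit 635) (nat_lit 5) (nat_lit 550) (nat_lit 529) (nat_lit 481)) (XT.nd (nat_lit 78) (nat_lit 1292) (nat_lit 0) (XT.lf (nat_lit 0) (nat_lit 4900309131) (nat_lit 1140) (nat_lit 946499619) (nat_lit 1216) (nat_lit 1438227625) (nat_lit 619) (nat_lit 5) (nat_lit 634) (nat_lit 5) (nat_lit 635) (nat_lit 5) (nat_lit 551) (nat_lit 529) (nat_lit 480)) (XT.lf (nat_lit 0) (nat_lit 666426632) (nat_lit 1292) (nat_lit 5495240685) (nat_lit 76) (nat_lit 1169626283) (nat_lit 602) (nat_lit 5) (nat_lit 619) (nat_lit 5) (nat_lit 603) (nat_lit 5) (nat_lit 552) (nat_lit 529) (nat_lit 479)))))) (XT.nd (nat_lit 390) (nat_lit 4864) (nat_lit 0) (XT.nd (nat_lit 156) (nat_lit 2888) (nat_lit 0) (XT.nd (nat_lit 78) (nat_lit 1292) (nat_lit 0) (XT.lf (nat_lit 0) (nat_lit 2772159781) (nat_lit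 1292) (nat_lit 1254834514) (nat_lit 76) (nat_lit 3351735087) (nat_lit 602) (nat_lit 5) (nat_lit 619) (nat_lit 5) (nat_lit 603) (nat_lit 5) (nat_lit 553) (nat_lit 529) (nat_lit 478)) (XT.lf (nat_lit 0) (nat_lit 3077055513) (nat_lit 1292) (nat_lit 1819644785) (nat_lit 1368) (nat_lit 2530887980) (nat_lit 585) (nat_lit 5) (nat_lit 602) (nat_lit 5) (nat_lit 603) (nat_lit 5) (nat_lit 554) (nat_lit 529) (nat_lit 477))) (XT.nd (nat_lit 78) (nat_lit 2888) (nat_lit 0) (XT.lf (nat_lit 0) (nat_lit 7032417481) (nat_lit 1368) (nat_lit 1902315) (nat_lit 76) (nat_lit 443738929) (nat_lit 585) (nat_lit 5) (nat_lit 603) (nat_lit 5) (nat_lit 586) (nat_lit 5) (nat_lit 555) (nat_lit 529) (nat_lit 476)) (XT.nd (nat_lit 78) (nat_lit 1444) (nat_lit 0) (XT.lf (nat_lit 0) (nat_lit 1658405830) (nat_lit 1444) (nat_lit 3094215887) (nat_lit 76) (nat_lit 2776723398) (nat_lit 566) (nat_lit 5) (nat_lit 585) (nat_lit 5) (nat_lit 567) (nat_lit 5)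 (nat_lit 556) (nat_lit 529) (nat_lit 475)) (XT.lf (nat_lit 0) (nat_lit 1360114862) (nat_lit 1444) (nat_lit 2405863015) (nat_lit 1520) (nat_lit 3816279842) (nat_lit 547) (nat_lit 5) (nat_lit 566) (nat_lit 5) (nat_lit 567) (nat_lit 5) (nat_lit 557) (nat_lit 529) (nat_lit 474))))) (XT.nd (nat_lit 156) (nat_lit 3268) (nat_lit 0) (XT.nd (nat_lit 78) (nat_lit 1596) (nat_lit 0) (XT.lf (nat_lit 0) (nat_lit 5895724217) (nat_lit 1520) (nat_lit 1725084849) (nat_lit 76) (nat_lit 15826527) (nat_lit 547) (nat_lit 5) (nat_lit 567) (nat_lit 5) (nat_lit 548) (nat_lit 5) (nat_lit 558) (nat_lit 529) (nat_lit 473)) (XT.lf (nat_lit 0) (nat_lit 365422734) (nat_lit 1596) (nat_lit 4845280719) (nat_lit 76) (nat_lit 2481468154) (nat_lit 526) (nat_lit 5) (nat_lit 547) (nat_lit 5) (nat_lit 527) (nat_lit 5) (nat_lit 559) (nat_lit 529) (nat_lit 472))) (XT.nd (nat_lit 78) (nat_lit 3268) (nat_lit 0) (XT.lf (nat_lit 0) (nat_lit 2462544636) (nat_lit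 1596) (nat_lit 260821539) (nat_lit 76) (nat_lit 5025789623) (nat_lit 526) (nat_lit 5) (nat_lit 547) (nat_lit 5) (nat_lit 527) (nat_lit 5) (nat_lit 560) (nat_lit 529) (nat_lit 471)) (XT.nd (nat_lit 78) (nat_lit 1672) (nat_lit 0) (XT.lf (nat_lit 0) (nat_lit 4439911010) (nat_lit 1596) (nat_lit 151600530) (nat_lit 1672) (nat_lit 3215976989) (nat_lit 505) (nat_lit 5) (nat_lit 526) (nat_lit 5) (nat_lit 527) (nat_lit 5) (nat_lit 561) (nat_lit 529) (nat_lit 470)) (XT.lf (nat_lit 0) (nat_lit 1338505505) (nat_lit 1672) (nat_lit 5412705937) (nat_lit 1748) (nat_lit 1116020169) (nat_lit 483) (nat_lit 5) (nat_lit 505) (nat_lit 5) (nat_lit 506) (nat_lit 5) (nat_lit 562) (nat_lit 529) (nat_lit 469))))))) (XT.nd (nat_lit 702) (nat_lit 4940) (nat_lit 0) (XT.nd (nat_lit 312) (nat_lit 2964) (nat_lit 0) (XT.nd (nat_lit 156) (nat_lit 1672) (nat_lit 0) (XT.nd (nat_lit 78) (nat_lit 1748) (nat_lit 0) (XT.lf (nat_lit 0) (nat_lit 998160500)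 (nat_lit 1748) (nat_lit 1785692129) (nat_lit 76) (nat_lit 5144476612) (nat_lit 482) (nat_lit 5) (nat_lit 505) (nat_lit 5) (nat_lit 483) (nat_lit 5) (nat_lit 563) (nat_lit 529) (nat_lit 468)) (XT.lf (nat_lit 0) (nat_lit 3050984268) (nat_lit 1748) (nat_lit 71194689) (nat_lit 1824) (nat_lit 4868678755) (nat_lit 459) (nat_lit 5) (nat_lit 482) (nat_lit 5) (nat_lit 483) (nat_lit 5) (nat_lit 564) (nat_lit 529) (nat_lit 467))) (XT.nd (nat_lit 78) (nat_lit 1672) (nat_lit 0) (XT.lf (nat_lit 0) (nat_lit 5281451475) (nat_lit 1824) (nat_lit 97761291) (nat_lit 76) (nat_lit 2675574765) (nat_lit 459) (nat_lit 5) (nat_lit 483) (nat_lit 5) (nat_lit 460) (nat_lit 5) (nat_lit 565) (nat_lit 529) (nat_lit 466)) (XT.lf (nat_lit 0) (nat_lit 4870896274) (nat_lit 1672) (nat_lit 2609040161) (nat_lit 1748) (nat_lit 640145107) (nat_lit 437) (nat_lit 5) (nat_lit 459) (nat_lit 5) (nat_lit 460) (nat_lit 5) (nat_lit 566) (nat_lit 529) (nat_lit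 465)))) (XT.nd (nat_lit 156) (nat_lit 1900) (nat_lit 0) (XT.nd (nat_lit 78) (nat_lit 0) (nat_lit 0) (XT.lf (nat_lit 0) (nat_lit 1493218067) (nat_lit 1064) (nat_lit 6456168302) (nat_lit 76) (nat_lit 237548549) (nat_lit 423) (nat_lit 5) (nat_lit 437) (nat_lit 5) (nat_lit 424) (nat_lit 5) (nat_lit 567) (nat_lit 529) (nat_lit 464)) (XT.lf (nat_lit 0) (nat_lit 3664583840) (nat_lit 1064) (nat_lit 1456457974) (nat_lit 76) (nat_lit 3133926563) (nat_lit 423) (nat_lit 5) (nat_lit 437) (nat_lit 5) (nat_lit 424) (nat_lit 5) (nat_lit 568) (nat_lit 529) (nat_lit 463))) (XT.nd (nat_lit 78) (nat_lit 988) (nat_lit 0) (XT.lf (nat_lit 0) (nat_lit 3657422542) (nat_lit 912) (nat_lit 2211065815) (nat_lit 988) (nat_lit 2456097584) (nat_lit 411) (nat_lit 5) (nat_lit 423) (nat_lit 5) (nat_lit 424) (nat_lit 5) (nat_lit 569) (nat_lit 529) (nat_lit 462)) (XT.nd (nat_lit 78) (nat_lit 76) (nat_lit 0) (XT.lf (nat_lit 0) (nat_lit 464775776) (nat_lit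 912) (nat_lit 7635296906) (nat_lit 988) (nat_lit 295856694) (nat_lit 399) (nat_lit 5) (nat_lit 411) (nat_lit 5) (nat_lit 412) (nat_lit 5) (nat_lit 570) (nat_lit 529) (nat_lit 461)) (XT.lf (nat_lit 0) (nat_lit 1894790412) (nat_lit 988) (nat_lit 2767184011) (nat_lit 76) (nat_lit 3806238494) (nat_lit 398) (nat_lit 5) (nat_lit 411) (nat_lit 5) (nat_lit 399) (nat_lit 5) (nat_lit 571) (nat_lit 529) (nat_lit 460)))))) (XT.nd (nat_lit 390) (nat_lit 2432) (nat_lit 0) (XT.nd (nat_lit 156) (nat_lit 1672) (nat_lit 0) (XT.nd (nat_lit 78) (nat_lit 0) (nat_lit 0) (XT.lf (nat_lit 0) (nat_lit 2497037581) (nat_lit 836) (nat_lit 1611183580) (nat_lit 912) (nat_lit 4434028443) (nat_lit 387) (nat_lit 5) (nat_lit 398) (nat_lit 5) (nat_lit 399) (nat_lit 5) (nat_lit 572) (nat_lit 529) (nat_lit 459)) (XT.lf (nat_lit 0) (nat_lit 6361501568) (nat_lit 912) (nat_lit 757460112) (nat_lit 76) (nat_lit 1498898857) (nat_lit 387) (nat_lit 5) (nat_lit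 399) (nat_lit 5) (nat_lit 388) (nat_lit 5) (nat_lit 573) (nat_lit 529) (nat_lit 458))) (XT.nd (nat_lit 78) (nat_lit 836) (nat_lit 0) (XT.lf (nat_lit 0) (nat_lit 4652818944) (nat_lit 836) (nat_lit 4015697877) (nat_lit 912) (nat_lit 26298512) (nat_lit 376) (nat_lit 5) (nat_lit 387) (nat_lit 5) (nat_lit 388) (nat_lit 5) (nat_lit 574) (nat_lit 529) (nat_lit 457)) (XT.nd (nat_lit 78) (nat_lit 0) (nat_lit 0) (XT.lf (nat_lit 0) (nat_lit 1378015301) (nat_lit 760) (nat_lit 822913283) (nat_lit 836) (nat_lit 6572452457) (nat_lit 365) (nat_lit 5) (nat_lit 375) (nat_lit 5) (nat_lit 376) (nat_lit 5) (nat_lit 575) (nat_lit 529) (nat_lit 456)) (XT.lf (nat_lit 0) (nat_lit 4483839796) (nat_lit 836) (nat_lit 1942104558) (nat_lit 76) (nat_lit 2427345139) (nat_lit 365) (nat_lit 5) (nat_lit 376) (nat_lit 5) (nat_lit 366) (nat_lit 5) (nat_lit 576) (nat_lit 529) (nat_lit 455))))) (XT.nd (nat_lit 156) (nat_lit 760) (nat_lit 0) (XT.nd (nat_lit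 78) (nat_lit 836) (nat_lit 0) (XT.lf (nat_lit 0) (nat_lit 3628844091) (nat_lit 836) (nat_lit 3181582091) (nat_lit 912) (nat_lit 2124414241) (nat_lit 354) (nat_lit 5) (nat_lit 365) (nat_lit 5) (nat_lit 366) (nat_lit 5) (nat_lit 577) (nat_lit 529) (nat_lit 454)) (XT.lf (nat_lit 0) (nat_lit 148451403) (nat_lit 836) (nat_lit 8730551515) (nat_lit 76) (nat_lit 139300421) (nat_lit 343) (nat_lit 5) (nat_lit 354) (nat_lit 5) (nat_lit 344) (nat_lit 5) (nat_lit 578) (nat_lit 529) (nat_lit 453))) (XT.nd (nat_lit 78) (nat_lit 760) (nat_lit 0) (XT.lf (nat_lit 0) (nat_lit 2464824353) (nat_lit 836) (nat_lit 3106884534) (nat_lit 76) (nat_lit 3530920238) (nat_lit 343) (nat_lit 5) (nat_lit 354) (nat_lit 5) (nat_lit 344) (nat_lit 5) (nat_lit 579) (nat_lit 529) (nat_lit 452)) (XT.nd (nat_lit 78) (nat_lit 0) (nat_lit 0) (XT.lf (nat_lit 0) (nat_lit 2630336043) (nat_lit 760) (nat_lit 2184420918) (nat_lit 836) (nat_lit 4374144117) (nat_lit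 333) (nat_lit 5) (nat_lit 343) (nat_lit 5) (nat_lit 344) (nat_lit 5) (nat_lit 580) (nat_lit 529) (nat_lit 451)) (XT.lf (nat_lit 0) (nat_lit 7211424608) (nat_lit 836) (nat_lit 794220349) (nat_lit 76) (nat_lit 1271262994) (nat_lit 333) (nat_lit 5) (nat_lit 344) (nat_lit 5) (nat_lit 334) (nat_lit 5) (nat_lit 581) (nat_lit 529) (nat_lit 450))))))))
noncomputable def xc96 : XT := (XT.nd (nat_lit 1404) (nat_lit 5852) (nat_lit 0) (XT.nd (nat_lit 702) (nat_lit 3572) (nat_lit 0) (XT.nd (nat_lit 312) (nat_lit 2128) (nat_lit 0) (XT.nd (nat_lit 156) (nat_lit 684) (nat_lit 0) (XT.nd (nat_lit 78) (nat_lit 760) (nat_lit 0) (XT.lf (nat_lit 0) (nat_lit 304363757) (nat_lit 760) (nat_lit 4263517303) (nat_lit 76) (nat_lit 4798384214) (nat_lit 323) (nat_lit 5) (nat_lit 333) (nat_lit 5) (nat_lit 324) (nat_lit 5) (nat_lit 582) (nat_lit 529) (nat_lit 449)) (XT.lf (nat_lit 0) (nat_lit 1645715134) (nat_lit 760) (nat_lit 1035550345) (nat_lit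 836) (nat_lit 6776128885) (nat_lit 313) (nat_lit 5) (nat_lit 323) (nat_lit 5) (nat_lit 324) (nat_lit 5) (nat_lit 583) (nat_lit 529) (nat_lit 448))) (XT.nd (nat_lit 78) (nat_lit 684) (nat_lit 0) (XT.lf (nat_lit 0) (nat_lit 5122732433) (nat_lit 836) (nat_lit 1869303600) (nat_lit 76) (nat_lit 2557973347) (nat_lit 313) (nat_lit 5) (nat_lit 324) (nat_lit 5) (nat_lit 314) (nat_lit 5) (nat_lit 584) (nat_lit 529) (nat_lit 447)) (XT.lf (nat_lit 0) (nat_lit 4207303704) (nat_lit 684) (nat_lit 3412015106) (nat_lit 760) (nat_lit 2025035897) (nat_lit 304) (nat_lit 5) (nat_lit 313) (nat_lit 5) (nat_lit 314) (nat_lit 5) (nat_lit 585) (nat_lit 529) (nat_lit 446)))) (XT.nd (nat_lit 156) (nat_lit 1368) (nat_lit 0) (XT.nd (nat_lit 78) (nat_lit 0) (nat_lit 0) (XT.lf (nat_lit 0) (nat_lit 410520833) (nat_lit 760) (nat_lit 9079195787) (nat_lit 76) (nat_lit 251001804) (nat_lit 294) (nat_lit 5) (nat_lit 304) (nat_lit 5) (nat_lit 295) (nat_lit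 5) (nat_lit 586) (nat_lit 529) (nat_lit 445)) (XT.lf (nat_lit 0) (nat_lit 2899580630) (nat_lit 760) (nat_lit 2952151370) (nat_lit 76) (nat_lit 3986375155) (nat_lit 294) (nat_lit 5) (nat_lit 304) (nat_lit 5) (nat_lit 295) (nat_lit 5) (nat_lit 587) (nat_lit 529) (nat_lit 444))) (XT.nd (nat_lit 78) (nat_lit 760) (nat_lit 0) (XT.lf (nat_lit 0) (nat_lit 3308083290) (nat_lit 608) (nat_lit 2124913258) (nat_lit 684) (nat_lit 4504559135) (nat_lit 286) (nat_lit 5) (nat_lit 294) (nat_lit 5) (nat_lit 295) (nat_lit 5) (nat_lit 588) (nat_lit 529) (nat_lit 443)) (XT.nd (nat_lit 78) (nat_lit 760) (nat_lit 0) (XT.lf (nat_lit 0) (nat_lit 8021281535) (nat_lit 684) (nat_lit 349090950) (nat_lit 76) (nat_lit 1668540135) (nat_lit 286) (nat_lit 5) (nat_lit 295) (nat_lit 5) (nat_lit 287) (nat_lit 5) (nat_lit 589) (nat_lit 529) (nat_lit 442)) (XT.lf (nat_lit 0) (nat_lit 539918434) (nat_lit 760) (nat_lit 4054970946) (nat_lit 76) (nat_lit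 5546789434) (nat_lit 276) (nat_lit 5) (nat_lit 286) (nat_lit 5) (nat_lit 277) (nat_lit 5) (nat_lit 590) (nat_lit 529) (nat_lit 441)))))) (XT.nd (nat_lit 312) (nat_lit 1748) (nat_lit 0) (XT.nd (nat_lit 156) (nat_lit 1216) (nat_lit 0) (XT.nd (nat_lit 78) (nat_lit 0) (nat_lit 0) (XT.lf (nat_lit 0) (nat_lit 2395029024) (nat_lit 608) (nat_lit 718532775) (nat_lit 684) (nat_lit 7132835879) (nat_lit 268) (nat_lit 5) (nat_lit 276) (nat_lit 5) (nat_lit 277) (nat_lit 5) (nat_lit 591) (nat_lit 529) (nat_lit 440)) (XT.lf (nat_lit 0) (nat_lit 5761357412) (nat_lit 684) (nat_lit 1377623728) (nat_lit 76) (nat_lit 3213779379) (nat_lit 268) (nat_lit 5) (nat_lit 277) (nat_lit 5) (nat_lit 269) (nat_lit 5) (nat_lit 592) (nat_lit 529) (nat_lit 439))) (XT.nd (nat_lit 78) (nat_lit 608) (nat_lit 0) (XT.lf (nat_lit 0) (nat_lit 5257669375) (nat_lit 608) (nat_lit 3218120748) (nat_lit 684) (nat_lit 1985189999) (nat_lit 260) (nat_lit 5) (nat_lit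 268) (nat_lit 5) (nat_lit 269) (nat_lit 5) (nat_lit 593) (nat_lit 529) (nat_lit 438)) (XT.lf (nat_lit 0) (nat_lit 663159268) (nat_lit 608) (nat_lit 9121012111) (nat_lit 76) (nat_lit 787131526) (nat_lit 252) (nat_lit 5) (nat_lit 260) (nat_lit 5) (nat_lit 253) (nat_lit 5) (nat_lit 594) (nat_lit 529) (nat_lit 437)))) (XT.nd (nat_lit 156) (nat_lit 1140) (nat_lit 0) (XT.nd (nat_lit 78) (nat_lit 608) (nat_lit 0) (XT.lf (nat_lit 0) (nat_lit 3369521556) (nat_lit 608) (nat_lit 2442816183) (nat_lit 76) (nat_lit 4870602356) (nat_lit 252) (nat_lit 5) (nat_lit 260) (nat_lit 5) (nat_lit 253) (nat_lit 5) (nat_lit 595) (nat_lit 529) (nat_lit 436)) (XT.lf (nat_lit 0) (nat_lit 4394729625) (nat_lit 608) (nat_lit 1739444996) (nat_lit 684) (nat_lit 4662555026) (nat_lit 244) (nat_lit 5) (nat_lit 252) (nat_lit 5) (nat_lit 253) (nat_lit 5) (nat_lit 596) (nat_lit 529) (nat_lit 435))) (XT.nd (nat_lit 78) (nat_lit 608) (nat_lit 0) (XT.lf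 (nat_lit 0) (nat_lit 447677917) (nat_lit 532) (nat_lit 8517383212) (nat_lit 608) (nat_lit 1947517887) (nat_lit 237) (nat_lit 5) (nat_lit 244) (nat_lit 5) (nat_lit 245) (nat_lit 5) (nat_lit 597) (nat_lit 529) (nat_lit 434)) (XT.nd (nat_lit 78) (nat_lit 532) (nat_lit 0) (XT.lf (nat_lit 0) (nat_lit 841765600) (nat_lit 608) (nat_lit 3558084889) (nat_lit 76) (nat_lit 6630176412) (nat_lit 236) (nat_lit 5) (nat_lit 244) (nat_lit 5) (nat_lit 237) (nat_lit 5) (nat_lit 598) (nat_lit 529) (nat_lit 433)) (XT.lf (nat_lit 0) (nat_lit 3488160051) (nat_lit 532) (nat_lit 171699778) (nat_lit 608) (nat_lit 7489727074) (nat_lit 229) (nat_lit 5) (nat_lit 236) (nat_lit 5) (nat_lit 237) (nat_lit 5) (nat_lit 599) (nat_lit 529) (nat_lit 432))))))) (XT.nd (nat_lit 702) (nat_lit 2736) (nat_lit 0) (XT.nd (nat_lit 312) (nat_lit 1976) (nat_lit 0) (XT.nd (nat_lit 156) (nat_lit 608) (nat_lit 0) (XT.nd (nat_lit 78) (nat_lit 532) (nat_lit 0) (XT.lf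 (nat_lit 0) (nat_lit 6561873812) (nat_lit 608) (nat_lit 606311229) (nat_lit 76) (nat_lit 4102804524) (nat_lit 229) (nat_lit 5) (nat_lit 237) (nat_lit 5) (nat_lit 230) (nat_lit 5) (nat_lit 600) (nat_lit 529) (nat_lit 431)) (XT.lf (nat_lit 0) (nat_lit 6644772904) (nat_lit 532) (nat_lit 2898529541) (nat_lit 608) (nat_lit 1851092915) (nat_lit 222) (nat_lit 5) (nat_lit 229) (nat_lit 5) (nat_lit 230) (nat_lit 5) (nat_lit 601) (nat_lit 529) (nat_lit 430))) (XT.nd (nat_lit 78) (nat_lit 0) (nat_lit 0) (XT.lf (nat_lit 0) (nat_lit 1057390671) (nat_lit 608) (nat_lit 9005933939) (nat_lit 76) (nat_lit 1456663829) (nat_lit 214) (nat_lit 5) (nat_lit 222) (nat_lit 5) (nat_lit 215) (nat_lit 5) (nat_lit 602) (nat_lit 529) (nat_lit 429)) (XT.lf (nat_lit 0) (nat_lit 4027941477) (nat_lit 608) (nat_lit 1723171984) (nat_lit 76) (nat_lit 5896163950) (nat_lit 214) (nat_lit 5) (nat_lit 222) (nat_lit 5) (nat_lit 215) (nat_lit 5) (nat_lit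 603) (nat_lit 529) (nat_lit 428)))) (XT.nd (nat_lit 156) (nat_lit 988) (nat_lit 0) (XT.nd (nat_lit 78) (nat_lit 532) (nat_lit 0) (XT.lf (nat_lit 0) (nat_lit 5749833840) (nat_lit 456) (nat_lit 1323226105) (nat_lit 532) (nat_lit 4703751455) (nat_lit 208) (nat_lit 5) (nat_lit 214) (nat_lit 5) (nat_lit 215) (nat_lit 5) (nat_lit 604) (nat_lit 529) (nat_lit 427)) (XT.lf (nat_lit 0) (nat_lit 1454212765) (nat_lit 532) (nat_lit 8744686762) (nat_lit 608) (nat_lit 1709642489) (nat_lit 201) (nat_lit 5) (nat_lit 208) (nat_lit 5) (nat_lit 209) (nat_lit 5) (nat_lit 605) (nat_lit 529) (nat_lit 426))) (XT.nd (nat_lit 78) (nat_lit 912) (nat_lit 0) (XT.lf (nat_lit 0) (nat_lit 1354281897) (nat_lit 608) (nat_lit 2924226425) (nat_lit 76) (nat_lit 7763675296) (nat_lit 200) (nat_lit 5) (nat_lit 208) (nat_lit 5) (nat_lit 201) (nat_lit 5) (nat_lit 606) (nat_lit 529) (nat_lit 425)) (XT.nd (nat_lit 78) (nat_lit 456) (nat_lit 0) (XT.lf (nat_lit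 0) (nat_lit 4468171132) (nat_lit 532) (nat_lit 7402774825) (nat_lit 76) (nat_lit 307096702) (nat_lit 194) (nat_lit 5) (nat_lit 201) (nat_lit 5) (nat_lit 195) (nat_lit 5) (nat_lit 607) (nat_lit 529) (nat_lit 424)) (XT.lf (nat_lit 0) (nat_lit 296942882) (nat_lit 456) (nat_lit 7376095852) (nat_lit 532) (nat_lit 4643008281) (nat_lit 188) (nat_lit 5) (nat_lit 194) (nat_lit 5) (nat_lit 195) (nat_lit 5) (nat_lit 608) (nat_lit 529) (nat_lit 423)))))) (XT.nd (nat_lit 390) (nat_lit 1368) (nat_lit 0) (XT.nd (nat_lit 156) (nat_lit 836) (nat_lit 0) (XT.nd (nat_lit 78) (nat_lit 532) (nat_lit 0) (XT.lf (nat_lit 0) (nat_lit 8220551806) (nat_lit 456) (nat_lit 2750033724) (nat_lit 532) (nat_lit 1485656395) (nat_lit 188) (nat_lit 5) (nat_lit 194) (nat_lit 5) (nat_lit 195) (nat_lit 5) (nat_lit 609) (nat_lit 529) (nat_lit 422)) (XT.lf (nat_lit 0) (nat_lit 1728316613) (nat_lit 532) (nat_lit 8901243778) (nat_lit 76) (nat_lit 1969132555)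 (nat_lit 181) (nat_lit 5) (nat_lit 188) (nat_lit 5) (nat_lit 182) (nat_lit 5) (nat_lit 610) (nat_lit 529) (nat_lit 421))) (XT.nd (nat_lit 78) (nat_lit 836) (nat_lit 0) (XT.lf (nat_lit 0) (nat_lit 5012852113) (nat_lit 532) (nat_lit 955283213) (nat_lit 76) (nat_lit 6775139720) (nat_lit 181) (nat_lit 5) (nat_lit 188) (nat_lit 5) (nat_lit 182) (nat_lit 5) (nat_lit 611) (nat_lit 529) (nat_lit 420)) (XT.nd (nat_lit 78) (nat_lit 380) (nat_lit 0) (XT.lf (nat_lit 0) (nat_lit 7214523521) (nat_lit 456) (nat_lit 1175134790) (nat_lit 532) (nat_lit 4500560824) (nat_lit 175) (nat_lit 5) (nat_lit 181) (nat_lit 5) (nat_lit 182) (nat_lit 5) (nat_lit 612) (nat_lit 529) (nat_lit 419)) (XT.lf (nat_lit 0) (nat_lit 2499489249) (nat_lit 380) (nat_lit 9361187582) (nat_lit 456) (nat_lit 1178893656) (nat_lit 170) (nat_lit 5) (nat_lit 175) (nat_lit 5) (nat_lit 176) (nat_lit 5) (nat_lit 613) (nat_lit 529) (nat_lit 418))))) (XT.nd (nat_lit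 156) (nat_lit 836) (nat_lit 0) (XT.nd (nat_lit 78) (nat_lit 456) (nat_lit 0) (XT.lf (nat_lit 0) (nat_lit 2206305433) (nat_lit 456) (nat_lit 2328323133) (nat_lit 76) (nat_lit 8656473804) (nat_lit 169) (nat_lit 5) (nat_lit 175) (nat_lit 5) (nat_lit 170) (nat_lit 5) (nat_lit 614) (nat_lit 529) (nat_lit 417)) (XT.lf (nat_lit 0) (nat_lit 5666098191) (nat_lit 532) (nat_lit 7257470622) (nat_lit 76) (nat_lit 421488525) (nat_lit 163) (nat_lit 5) (nat_lit 170) (nat_lit 5) (nat_lit 164) (nat_lit 5) (nat_lit 615) (nat_lit 529) (nat_lit 416))) (XT.nd (nat_lit 78) (nat_lit 456) (nat_lit 0) (XT.lf (nat_lit 0) (nat_lit 1157179492) (nat_lit 380) (nat_lit 8071656701) (nat_lit 456) (nat_lit 4272581985) (nat_lit 158) (nat_lit 5) (nat_lit 163) (nat_lit 5) (nat_lit 164) (nat_lit 5) (nat_lit 616) (nat_lit 529) (nat_lit 415)) (XT.nd (nat_lit 78) (nat_lit 456) (nat_lit 0) (XT.lf (nat_lit 0) (nat_lit 9809233470) (nat_lit 380) (nat_lit 3082967519)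 (nat_lit 456) (nat_lit 768119531) (nat_lit 158) (nat_lit 5) (nat_lit 163) (nat_lit 5) (nat_lit 164) (nat_lit 5) (nat_lit 617) (nat_lit 529) (nat_lit 414)) (XT.lf (nat_lit 0) (nat_lit 2795180025) (nat_lit 456) (nat_lit 9006997818) (nat_lit 76) (nat_lit 2019349208) (nat_lit 152) (nat_lit 5) (nat_lit 158) (nat_lit 5) (nat_lit 153) (nat_lit 5) (nat_lit 618) (nat_lit 529) (nat_lit 413))))))))
noncomputable def xc97 : XT := (XT.nd (nat_lit 75660) (nat_lit 0) (nat_lit 21660) (XT.nd (nat_lit 74880) (nat_lit 0) (nat_lit 37620) (XT.nd (nat_lit 74490) (nat_lit 0) (nat_lit 40432) (XT.nd (nat_lit 74334) (nat_lit 0) (nat_lit 41268) (XT.nd (nat_lit 74256) (nat_lit 0) (nat_lit 42028) (XT.lf (nat_lit 0) (nat_lit 6446946759) (nat_lit 456) (nat_lit 334527882) (nat_lit 76) (nat_lit 7203833425) (nat_lit 152) (nat_lit 5) (nat_lit 158) (nat_lit 5) (nat_lit 153) (nat_lit 5) (nat_lit 619) (nat_lit 529) (nat_lit 412)) (XT.lf (nat_lit 0)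 (nat_lit 682529043) (nat_lit 0) (nat_lit 682529043) (nat_lit 684) (nat_lit 1951497867) (nat_lit 705) (nat_lit 5) (nat_lit 705) (nat_lit 3) (nat_lit 714) (nat_lit 3) (nat_lit 530) (nat_lit 530) (nat_lit 500))) (XT.nd (nat_lit 78) (nat_lit 760) (nat_lit 0) (XT.lf (nat_lit 0) (nat_lit 4664373942) (nat_lit 0) (nat_lit 394058750) (nat_lit 684) (nat_lit 1594442225) (nat_lit 705) (nat_lit 5) (nat_lit 705) (nat_lit 3) (nat_lit 714) (nat_lit 3) (nat_lit 531) (nat_lit 530) (nat_lit 499)) (XT.lf (nat_lit 0) (nat_lit 702385110) (nat_lit 760) (nat_lit 5339887428) (nat_lit 836) (nat_lit 631634531) (nat_lit 695) (nat_lit 5) (nat_lit 705) (nat_lit 5) (nat_lit 706) (nat_lit 5) (nat_lit 532) (nat_lit 530) (nat_lit 498)))) (XT.nd (nat_lit 156) (nat_lit 836) (nat_lit 0) (XT.nd (nat_lit 78) (nat_lit 0) (nat_lit 0) (XT.lf (nat_lit 0) (nat_lit 2980270738) (nat_lit 760) (nat_lit 1990598450) (nat_lit 836) (nat_lit 1725164278) (nat_lit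 695) (nat_lit 5) (nat_lit 705) (nat_lit 5) (nat_lit 706) (nat_lit 5) (nat_lit 533) (nat_lit 530) (nat_lit 497)) (XT.lf (nat_lit 76) (nat_lit 1412641057) (nat_lit 0) (nat_lit 3841822716) (nat_lit 836) (nat_lit 1465137162) (nat_lit 696) (nat_lit 5) (nat_lit 695) (nat_lit 5) (nat_lit 706) (nat_lit 5) (nat_lit 534) (nat_lit 530) (nat_lit 496))) (XT.nd (nat_lit 78) (nat_lit 0) (nat_lit 0) (XT.lf (nat_lit 0) (nat_lit 775181257) (nat_lit 836) (nat_lit 1870061553) (nat_lit 912) (nat_lit 4099190665) (nat_lit 684) (nat_lit 5) (nat_lit 695) (nat_lit 5) (nat_lit 696) (nat_lit 5) (nat_lit 535) (nat_lit 530) (nat_lit 495)) (XT.nd (nat_lit 78) (nat_lit 0) (nat_lit 0) (XT.lf (nat_lit 76) (nat_lit 1615553476) (nat_lit 0) (nat_lit 1378902833) (nat_lit 912) (nat_lit 3776050057) (nat_lit 685) (nat_lit 5) (nat_lit 684) (nat_lit 5) (nat_lit 696) (nat_lit 5) (nat_lit 536) (nat_lit 530) (nat_lit 494)) (XT.lf (nat_lit 76) (nat_lit 5164930623)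 (nat_lit 0) (nat_lit 49905519) (nat_lit 912) (nat_lit 1583142694) (nat_lit 685) (nat_lit 5) (nat_lit 684) (nat_lit 5) (nat_lit 696) (nat_lit 5) (nat_lit 537) (nat_lit 530) (nat_lit 493)))))) (XT.nd (nat_lit 390) (nat_lit 988) (nat_lit 0) (XT.nd (nat_lit 156) (nat_lit 988) (nat_lit 0) (XT.nd (nat_lit 78) (nat_lit 0) (nat_lit 0) (XT.lf (nat_lit 0) (nat_lit 611339078) (nat_lit 912) (nat_lit 4886335277) (nat_lit 988) (nat_lit 1328927777) (nat_lit 673) (nat_lit 5) (nat_lit 685) (nat_lit 5) (nat_lit 686) (nat_lit 5) (nat_lit 538) (nat_lit 530) (nat_lit 492)) (XT.lf (nat_lit 0) (nat_lit 2785811253) (nat_lit 912) (nat_lit 1291750643) (nat_lit 988) (nat_lit 2778892513) (nat_lit 673) (nat_lit 5) (nat_lit 685) (nat_lit 5) (nat_lit 686) (nat_lit 5) (nat_lit 539) (nat_lit 530) (nat_lit 491))) (XT.nd (nat_lit 78) (nat_lit 988) (nat_lit 0) (XT.lf (nat_lit 76) (nat_lit 2374029065) (nat_lit 0) (nat_lit 2592135564) (nat_lit 988)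 (nat_lit 1921502825) (nat_lit 674) (nat_lit 5) (nat_lit 673) (nat_lit 5) (nat_lit 686) (nat_lit 5) (nat_lit 540) (nat_lit 530) (nat_lit 490)) (XT.nd (nat_lit 78) (nat_lit 0) (nat_lit 76) (XT.lf (nat_lit 0) (nat_lit 223252332) (nat_lit 988) (nat_lit 822843865) (nat_lit 1064) (nat_lit 5874260904) (nat_lit 660) (nat_lit 5) (nat_lit 673) (nat_lit 5) (nat_lit 674) (nat_lit 5) (nat_lit 541) (nat_lit 530) (nat_lit 489)) (XT.lf (nat_lit 0) (nat_lit 2356530877) (nat_lit 988) (nat_lit 4022044777) (nat_lit 1064) (nat_lit 575454609) (nat_lit 661) (nat_lit 5) (nat_lit 674) (nat_lit 5) (nat_lit 675) (nat_lit 5) (nat_lit 542) (nat_lit 530) (nat_lit 488))))) (XT.nd (nat_lit 156) (nat_lit 1064) (nat_lit 0) (XT.nd (nat_lit 78) (nat_lit 0) (nat_lit 0) (XT.lf (nat_lit 0) (nat_lit 4494377279) (nat_lit 988) (nat_lit 254805047) (nat_lit 1064) (nat_lit 2239967194) (nat_lit 661) (nat_lit 5) (nat_lit 674) (nat_lit 5) (nat_lit 675) (nat_lit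 5) (nat_lit 543) (nat_lit 530) (nat_lit 487)) (XT.lf (nat_lit 76) (nat_lit 3603034387) (nat_lit 0) (nat_lit 3045747563) (nat_lit 1064) (nat_lit 376723652) (nat_lit 662) (nat_lit 5) (nat_lit 661) (nat_lit 5) (nat_lit 675) (nat_lit 5) (nat_lit 544) (nat_lit 530) (nat_lit 486))) (XT.nd (nat_lit 78) (nat_lit 0) (nat_lit 76) (XT.lf (nat_lit 76) (nat_lit 440664779) (nat_lit 0) (nat_lit 1275050626) (nat_lit 1140) (nat_lit 5347543386) (nat_lit 648) (nat_lit 5) (nat_lit 647) (nat_lit 5) (nat_lit 662) (nat_lit 5) (nat_lit 545) (nat_lit 530) (nat_lit 485)) (XT.nd (nat_lit 78) (nat_lit 0) (nat_lit 0) (XT.lf (nat_lit 0) (nat_lit 3823230431) (nat_lit 1064) (nat_lit 2713268464) (nat_lit 1140) (nat_lit 565662780) (nat_lit 648) (nat_lit 5) (nat_lit 662) (nat_lit 5) (nat_lit 663) (nat_lit 5) (nat_lit 546) (nat_lit 530) (nat_lit 484)) (XT.lf (nat_lit 76) (nat_lit 1249518791) (nat_lit 0) (nat_lit 4692580894) (nat_lit 1140) (nat_lit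 1200368522) (nat_lit 649) (nat_lit 5) (nat_lit 648) (nat_lit 5) (nat_lit 663) (nat_lit 5) (nat_lit 547) (nat_lit 530) (nat_lit 483))))))) (XT.nd (nat_lit 702) (nat_lit 9804) (nat_lit 0) (XT.nd (nat_lit 312) (nat_lit 4028) (nat_lit 0) (XT.nd (nat_lit 156) (nat_lit 1064) (nat_lit 0) (XT.nd (nat_lit 78) (nat_lit 0) (nat_lit 0) (XT.lf (nat_lit 0) (nat_lit 879077364) (nat_lit 1140) (nat_lit 1894054945) (nat_lit 1216) (nat_lit 4410910924) (nat_lit 633) (nat_lit 5) (nat_lit 648) (nat_lit 5) (nat_lit 649) (nat_lit 5) (nat_lit 548) (nat_lit 530) (nat_lit 482)) (XT.lf (nat_lit 76) (nat_lit 2172928281) (nat_lit 0) (nat_lit 779201482) (nat_lit 1216) (nat_lit 4274808612) (nat_lit 634) (nat_lit 5) (nat_lit 633) (nat_lit 5) (nat_lit 649) (nat_lit 5) (nat_lit 549) (nat_lit 530) (nat_lit 481))) (XT.nd (nat_lit 78) (nat_lit 1140) (nat_lit 0) (XT.lf (nat_lit 0) (nat_lit 5042329174) (nat_lit 1140) (nat_lit 964967027) (nat_lit 76)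 (nat_lit 1263890432) (nat_lit 634) (nat_lit 5) (nat_lit 649) (nat_lit 5) (nat_lit 635) (nat_lit 5) (nat_lit 550) (nat_lit 530) (nat_lit 480)) (XT.lf (nat_lit 0) (nat_lit 3210225313) (nat_lit 1140) (nat_lit 3945743718) (nat_lit 1216) (nat_lit 160726854) (nat_lit 619) (nat_lit 5) (nat_lit 634) (nat_lit 5) (nat_lit 635) (nat_lit 5) (nat_lit 551) (nat_lit 530) (nat_lit 479)))) (XT.nd (nat_lit 156) (nat_lit 2736) (nat_lit 0) (XT.nd (nat_lit 78) (nat_lit 0) (nat_lit 0) (XT.lf (nat_lit 0) (nat_lit 74342605) (nat_lit 1216) (nat_lit 1811861521) (nat_lit 1292) (nat_lit 5477406636) (nat_lit 602) (nat_lit 5) (nat_lit 618) (nat_lit 5) (nat_lit 619) (nat_lit 5) (nat_lit 552) (nat_lit 530) (nat_lit 478)) (XT.lf (nat_lit 0) (nat_lit 3958744964) (nat_lit 1292) (nat_lit 3053771647) (nat_lit 76) (nat_lit 399197865) (nat_lit 602) (nat_lit 5) (nat_lit 619) (nat_lit 5) (nat_lit 603) (nat_lit 5) (nat_lit 553) (nat_lit 530) (nat_lit 477)))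 (XT.nd (nat_lit 78) (nat_lit 1444) (nat_lit 0) (XT.lf (nat_lit 0) (nat_lit 1237647680) (nat_lit 1292) (nat_lit 4812686807) (nat_lit 1368) (nat_lit 1410901910) (nat_lit 585) (nat_lit 5) (nat_lit 602) (nat_lit 5) (nat_lit 603) (nat_lit 5) (nat_lit 554) (nat_lit 530) (nat_lit 476)) (XT.nd (nat_lit 78) (nat_lit 1368) (nat_lit 0) (XT.lf (nat_lit 0) (nat_lit 641719183) (nat_lit 1368) (nat_lit 1892917727) (nat_lit 76) (nat_lit 4977461849) (nat_lit 584) (nat_lit 5) (nat_lit 602) (nat_lit 5) (nat_lit 585) (nat_lit 5) (nat_lit 555) (nat_lit 530) (nat_lit 475)) (XT.lf (nat_lit 0) (nat_lit 2515295771) (nat_lit 1368) (nat_lit 176276627) (nat_lit 1444) (nat_lit 4872725641) (nat_lit 566) (nat_lit 5) (nat_lit 584) (nat_lit 5) (nat_lit 585) (nat_lit 5) (nat_lit 556) (nat_lit 530) (nat_lit 474)))))) (XT.nd (nat_lit 390) (nat_lit 5168) (nat_lit 0) (XT.nd (nat_lit 156) (nat_lit 3192) (nat_lit 0) (XT.nd (nat_lit 78) (nat_lit 1444)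 (nat_lit 0) (XT.lf (nat_lit 0) (nat_lit 4769057531) (nat_lit 1444) (nat_lit 627887272) (nat_lit 76) (nat_lit 2220871278) (nat_lit 566) (nat_lit 5) (nat_lit 585) (nat_lit 5) (nat_lit 567) (nat_lit 5) (nat_lit 557) (nat_lit 530) (nat_lit 473)) (XT.lf (nat_lit 0) (nat_lit 3898897112) (nat_lit 1444) (nat_lit 2975847935) (nat_lit 1520) (nat_lit 797933714) (nat_lit 547) (nat_lit 5) (nat_lit 566) (nat_lit 5) (nat_lit 567) (nat_lit 5) (nat_lit 558) (nat_lit 530) (nat_lit 472))) (XT.nd (nat_lit 78) (nat_lit 1596) (nat_lit 0) (XT.lf (nat_lit 0) (nat_lit 764737483) (nat_lit 1520) (nat_lit 481880738) (nat_lit 1596) (nat_lit 6482465890) (nat_lit 526) (nat_lit 5) (nat_lit 546) (nat_lit 5) (nat_lit 547) (nat_lit 5) (nat_lit 559) (nat_lit 530) (nat_lit 471)) (XT.nd (nat_lit 78) (nat_lit 1596) (nat_lit 0) (XT.lf (nat_lit 0) (nat_lit 3321341987) (nat_lit 1596) (nat_lit 2393415216) (nat_lit 76) (nat_lit 2071762480) (nat_lit 526)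 (nat_lit 5) (nat_lit 547) (nat_lit 5) (nat_lit 527) (nat_lit 5) (nat_lit 560) (nat_lit 530) (nat_lit 470)) (XT.lf (nat_lit 0) (nat_lit 2262429410) (nat_lit 1596) (nat_lit 3154850211) (nat_lit 1672) (nat_lit 2428236729) (nat_lit 505) (nat_lit 5) (nat_lit 526) (nat_lit 5) (nat_lit 527) (nat_lit 5) (nat_lit 561) (nat_lit 530) (nat_lit 469))))) (XT.nd (nat_lit 156) (nat_lit 3420) (nat_lit 0) (XT.nd (nat_lit 78) (nat_lit 1748) (nat_lit 0) (XT.lf (nat_lit 0) (nat_lit 7011065001) (nat_lit 1596) (nat_lit 522506518) (nat_lit 1672) (nat_lit 372559360) (nat_lit 505) (nat_lit 5) (nat_lit 526) (nat_lit 5) (nat_lit 527) (nat_lit 5) (nat_lit 562) (nat_lit 530) (nat_lit 468)) (XT.lf (nat_lit 0) (nat_lit 1704072769) (nat_lit 1748) (nat_lit 4088324362) (nat_lit 76) (nat_lit 2175293954) (nat_lit 482) (nat_lit 5) (nat_lit 505) (nat_lit 5) (nat_lit 483) (nat_lit 5) (nat_lit 563) (nat_lit 530) (nat_lit 467))) (XT.nd (nat_lit 78) (nat_lit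 1672) (nat_lit 0) (XT.lf (nat_lit 0) (nat_lit 701108213) (nat_lit 1748) (nat_lit 3093610499) (nat_lit 1824) (nat_lit 4236171390) (nat_lit 459) (nat_lit 5) (nat_lit 482) (nat_lit 5) (nat_lit 483) (nat_lit 5) (nat_lit 564) (nat_lit 530) (nat_lit 466)) (XT.nd (nat_lit 78) (nat_lit 1672) (nat_lit 0) (XT.lf (nat_lit 0) (nat_lit 5608787984) (nat_lit 1748) (nat_lit 309734489) (nat_lit 1824) (nat_lit 2177009861) (nat_lit 459) (nat_lit 5) (nat_lit 482) (nat_lit 5) (nat_lit 483) (nat_lit 5) (nat_lit 565) (nat_lit 530) (nat_lit 465)) (XT.lf (nat_lit 0) (nat_lit 2435625260) (nat_lit 1672) (nat_lit 5646053668) (nat_lit 1748) (nat_lit 79856962) (nat_lit 437) (nat_lit 5) (nat_lit 459) (nat_lit 5) (nat_lit 460) (nat_lit 5) (nat_lit 566) (nat_lit 530) (nat_lit 464))))))))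
noncomputable def xc98 : XT := (XT.nd (nat_lit 1482) (nat_lit 7296) (nat_lit 0) (XT.nd (nat_lit 702) (nat_lit 5396) (nat_lit 0) (XT.nd (nat_lit 312) (nat_lit 2660) (nat_lit 0) (XT.nd (nat_lit 156) (nat_lit 988) (nat_lit 0) (XT.nd (nat_lit 78) (nat_lit 988) (nat_lit 0) (XT.lf (nat_lit 0) (nat_lit 2015961866) (nat_lit 1748) (nat_lit 787208869) (nat_lit 76) (nat_lit 5425752558) (nat_lit 436) (nat_lit 5) (nat_lit 459) (nat_lit 5) (nat_lit 437) (nat_lit 5) (nat_lit 567) (nat_lit 530) (nat_lit 463)) (XT.lf (nat_lit 0) (nat_lit 4146768260) (nat_lit 1064) (nat_lit 4025481265) (nat_lit 76) (nat_lit 125521219) (nat_lit 423) (nat_lit 5) (nat_lit 437) (nat_lit 5) (nat_lit 424) (nat_lit 5) (nat_lit 568) (nat_lit 530) (nat_lit 462))) (XT.nd (nat_lit 78) (nat_lit 76) (nat_lit 0) (XT.lf (nat_lit 0) (nat_lit 1037639740) (nat_lit 912) (nat_lit 5279213833) (nat_lit 988) (nat_lit 2051213868) (nat_lit 411) (nat_lit 5) (nat_lit 423)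 (nat_lit 5) (nat_lit 424) (nat_lit 5) (nat_lit 569) (nat_lit 530) (nat_lit 461)) (XT.lf (nat_lit 0) (nat_lit 82843663) (nat_lit 988) (nat_lit 2216771965) (nat_lit 76) (nat_lit 6140278802) (nat_lit 410) (nat_lit 5) (nat_lit 423) (nat_lit 5) (nat_lit 411) (nat_lit 5) (nat_lit 570) (nat_lit 530) (nat_lit 460)))) (XT.nd (nat_lit 156) (nat_lit 1748) (nat_lit 0) (XT.nd (nat_lit 78) (nat_lit 0) (nat_lit 0) (XT.lf (nat_lit 0) (nat_lit 2223522137) (nat_lit 988) (nat_lit 5526083079) (nat_lit 76) (nat_lit 763458697) (nat_lit 398) (nat_lit 5) (nat_lit 411) (nat_lit 5) (nat_lit 399) (nat_lit 5) (nat_lit 571) (nat_lit 530) (nat_lit 459)) (XT.lf (nat_lit 0) (nat_lit 4404586364) (nat_lit 988) (nat_lit 311023497) (nat_lit 76) (nat_lit 3872140609) (nat_lit 398) (nat_lit 5) (nat_lit 411) (nat_lit 5) (nat_lit 399) (nat_lit 5) (nat_lit 572) (nat_lit 530) (nat_lit 458))) (XT.nd (nat_lit 78) (nat_lit 912) (nat_lit 0) (XT.lf (nat_lit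 0) (nat_lit 5041959473) (nat_lit 836) (nat_lit 1588056699) (nat_lit 912) (nat_lit 2033904734) (nat_lit 387) (nat_lit 5) (nat_lit 398) (nat_lit 5) (nat_lit 399) (nat_lit 5) (nat_lit 573) (nat_lit 530) (nat_lit 457)) (XT.nd (nat_lit 78) (nat_lit 0) (nat_lit 0) (XT.lf (nat_lit 0) (nat_lit 148455403) (nat_lit 912) (nat_lit 6998568317) (nat_lit 76) (nat_lit 1594731458) (nat_lit 375) (nat_lit 5) (nat_lit 387) (nat_lit 5) (nat_lit 376) (nat_lit 5) (nat_lit 574) (nat_lit 530) (nat_lit 456)) (XT.lf (nat_lit 0) (nat_lit 2350854546) (nat_lit 912) (nat_lit 1613199862) (nat_lit 76) (nat_lit 4856755071) (nat_lit 375) (nat_lit 5) (nat_lit 387) (nat_lit 5) (nat_lit 376) (nat_lit 5) (nat_lit 575) (nat_lit 530) (nat_lit 455)))))) (XT.nd (nat_lit 390) (nat_lit 2964) (nat_lit 0) (XT.nd (nat_lit 156) (nat_lit 836) (nat_lit 0) (XT.nd (nat_lit 78) (nat_lit 836) (nat_lit 0) (XT.lf (nat_lit 0) (nat_lit 3898528280) (nat_lit 760) (nat_lit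 693317741) (nat_lit 836) (nat_lit 4309712606) (nat_lit 365) (nat_lit 5) (nat_lit 375) (nat_lit 5) (nat_lit 376) (nat_lit 5) (nat_lit 576) (nat_lit 530) (nat_lit 454)) (XT.lf (nat_lit 0) (nat_lit 515316157) (nat_lit 836) (nat_lit 6363357134) (nat_lit 912) (nat_lit 2105233704) (nat_lit 354) (nat_lit 5) (nat_lit 365) (nat_lit 5) (nat_lit 366) (nat_lit 5) (nat_lit 577) (nat_lit 530) (nat_lit 453))) (XT.nd (nat_lit 78) (nat_lit 760) (nat_lit 0) (XT.lf (nat_lit 0) (nat_lit 149636513) (nat_lit 912) (nat_lit 2894181607) (nat_lit 76) (nat_lit 6023906345) (nat_lit 353) (nat_lit 5) (nat_lit 365) (nat_lit 5) (nat_lit 354) (nat_lit 5) (nat_lit 578) (nat_lit 530) (nat_lit 452)) (XT.nd (nat_lit 78) (nat_lit 0) (nat_lit 0) (XT.lf (nat_lit 0) (nat_lit 2412305118) (nat_lit 836) (nat_lit 6373736578) (nat_lit 76) (nat_lit 367084768) (nat_lit 343) (nat_lit 5) (nat_lit 354) (nat_lit 5) (nat_lit 344) (nat_lit 5) (nat_lit 579) (nat_lit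 530) (nat_lit 451)) (XT.lf (nat_lit 0) (nat_lit 4730674455) (nat_lit 836) (nat_lit 687232061) (nat_lit 76) (nat_lit 3822125250) (nat_lit 343) (nat_lit 5) (nat_lit 354) (nat_lit 5) (nat_lit 344) (nat_lit 5) (nat_lit 580) (nat_lit 530) (nat_lit 450))))) (XT.nd (nat_lit 156) (nat_lit 1444) (nat_lit 0) (XT.nd (nat_lit 78) (nat_lit 760) (nat_lit 0) (XT.lf (nat_lit 0) (nat_lit 5148405361) (nat_lit 760) (nat_lit 1951745937) (nat_lit 836) (nat_lit 2228433200) (nat_lit 333) (nat_lit 5) (nat_lit 343) (nat_lit 5) (nat_lit 344) (nat_lit 5) (nat_lit 581) (nat_lit 530) (nat_lit 449)) (XT.lf (nat_lit 0) (nat_lit 94217123) (nat_lit 760) (nat_lit 7749190068) (nat_lit 76) (nat_lit 1575544431) (nat_lit 323) (nat_lit 5) (nat_lit 333) (nat_lit 5) (nat_lit 324) (nat_lit 5) (nat_lit 582) (nat_lit 530) (nat_lit 448))) (XT.nd (nat_lit 78) (nat_lit 1444) (nat_lit 0) (XT.lf (nat_lit 0) (nat_lit 2446474657) (nat_lit 760) (nat_lit 1877690331)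 (nat_lit 76) (nat_lit 5186410532) (nat_lit 323) (nat_lit 5) (nat_lit 333) (nat_lit 5) (nat_lit 324) (nat_lit 5) (nat_lit 583) (nat_lit 530) (nat_lit 447)) (XT.nd (nat_lit 78) (nat_lit 684) (nat_lit 0) (XT.lf (nat_lit 0) (nat_lit 4133469536) (nat_lit 760) (nat_lit 711500512) (nat_lit 836) (nat_lit 4759081808) (nat_lit 313) (nat_lit 5) (nat_lit 323) (nat_lit 5) (nat_lit 324) (nat_lit 5) (nat_lit 584) (nat_lit 530) (nat_lit 446)) (XT.lf (nat_lit 0) (nat_lit 546648424) (nat_lit 684) (nat_lit 6752987543) (nat_lit 760) (nat_lit 2399601476) (nat_lit 304) (nat_lit 5) (nat_lit 313) (nat_lit 5) (nat_lit 314) (nat_lit 5) (nat_lit 585) (nat_lit 530) (nat_lit 445))))))) (XT.nd (nat_lit 702) (nat_lit 3952) (nat_lit 0) (XT.nd (nat_lit 312) (nat_lit 1976) (nat_lit 0) (XT.nd (nat_lit 156) (nat_lit 608) (nat_lit 0) (XT.nd (nat_lit 78) (nat_lit 684) (nat_lit 0) (XT.lf (nat_lit 0) (nat_lit 21448832) (nat_lit 760) (nat_lit 3074658620)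 (nat_lit 76) (nat_lit 6699932502) (nat_lit 303) (nat_lit 5) (nat_lit 313) (nat_lit 5) (nat_lit 304) (nat_lit 5) (nat_lit 586) (nat_lit 530) (nat_lit 444)) (XT.lf (nat_lit 0) (nat_lit 2456726181) (nat_lit 760) (nat_lit 6780889684) (nat_lit 76) (nat_lit 656890213) (nat_lit 294) (nat_lit 5) (nat_lit 304) (nat_lit 5) (nat_lit 295) (nat_lit 5) (nat_lit 587) (nat_lit 530) (nat_lit 443))) (XT.nd (nat_lit 78) (nat_lit 608) (nat_lit 0) (XT.lf (nat_lit 0) (nat_lit 4955606488) (nat_lit 760) (nat_lit 579929672) (nat_lit 76) (nat_lit 4459110867) (nat_lit 294) (nat_lit 5) (nat_lit 304) (nat_lit 5) (nat_lit 295) (nat_lit 5) (nat_lit 588) (nat_lit 530) (nat_lit 442)) (XT.lf (nat_lit 0) (nat_lit 5789514518) (nat_lit 608) (nat_lit 1726680598) (nat_lit 684) (nat_lit 2580364454) (nat_lit 286) (nat_lit 5) (nat_lit 294) (nat_lit 5) (nat_lit 295) (nat_lit 5) (nat_lit 589) (nat_lit 530) (nat_lit 441)))) (XT.nd (nat_lit 156) (nat_lit 1216)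 (nat_lit 0) (XT.nd (nat_lit 78) (nat_lit 76) (nat_lit 0) (XT.lf (nat_lit 0) (nat_lit 2075217882) (nat_lit 684) (nat_lit 8058590576) (nat_lit 760) (nat_lit 66588963) (nat_lit 277) (nat_lit 5) (nat_lit 286) (nat_lit 5) (nat_lit 287) (nat_lit 5) (nat_lit 590) (nat_lit 530) (nat_lit 440)) (XT.lf (nat_lit 0) (nat_lit 2479771060) (nat_lit 760) (nat_lit 1721935064) (nat_lit 76) (nat_lit 6103983518) (nat_lit 276) (nat_lit 5) (nat_lit 286) (nat_lit 5) (nat_lit 277) (nat_lit 5) (nat_lit 591) (nat_lit 530) (nat_lit 439))) (XT.nd (nat_lit 78) (nat_lit 608) (nat_lit 0) (XT.lf (nat_lit 0) (nat_lit 4841182436) (nat_lit 608) (nat_lit 241451310) (nat_lit 684) (nat_lit 5330318945) (nat_lit 268) (nat_lit 5) (nat_lit 276) (nat_lit 5) (nat_lit 277) (nat_lit 5) (nat_lit 592) (nat_lit 530) (nat_lit 438)) (XT.nd (nat_lit 78) (nat_lit 0) (nat_lit 0) (XT.lf (nat_lit 0) (nat_lit 993575241) (nat_lit 608) (nat_lit 6762000998) (nat_lit 684)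 (nat_lit 2766427377) (nat_lit 260) (nat_lit 5) (nat_lit 268) (nat_lit 5) (nat_lit 269) (nat_lit 5) (nat_lit 593) (nat_lit 530) (nat_lit 437)) (XT.lf (nat_lit 0) (nat_lit 7732847760) (nat_lit 608) (nat_lit 2763670185) (nat_lit 684) (nat_lit 136429814) (nat_lit 260) (nat_lit 5) (nat_lit 268) (nat_lit 5) (nat_lit 269) (nat_lit 5) (nat_lit 594) (nat_lit 530) (nat_lit 436)))))) (XT.nd (nat_lit 390) (nat_lit 2128) (nat_lit 0) (XT.nd (nat_lit 156) (nat_lit 1216) (nat_lit 0) (XT.nd (nat_lit 78) (nat_lit 0) (nat_lit 0) (XT.lf (nat_lit 0) (nat_lit 2522507894) (nat_lit 608) (nat_lit 6890586670) (nat_lit 76) (nat_lit 1332493808) (nat_lit 252) (nat_lit 5) (nat_lit 260) (nat_lit 5) (nat_lit 253) (nat_lit 5) (nat_lit 595) (nat_lit 530) (nat_lit 435)) (XT.lf (nat_lit 0) (nat_lit 5246799675) (nat_lit 608) (nat_lit 126137523) (nat_lit 76) (nat_lit 5487249355) (nat_lit 252) (nat_lit 5) (nat_lit 260) (nat_lit 5) (nat_lit 253) (nat_lit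 5) (nat_lit 596) (nat_lit 530) (nat_lit 434))) (XT.nd (nat_lit 78) (nat_lit 608) (nat_lit 0) (XT.lf (nat_lit 0) (nat_lit 6832596471) (nat_lit 608) (nat_lit 1213918914) (nat_lit 684) (nat_lit 2930145326) (nat_lit 244) (nat_lit 5) (nat_lit 252) (nat_lit 5) (nat_lit 253) (nat_lit 5) (nat_lit 597) (nat_lit 530) (nat_lit 433)) (XT.nd (nat_lit 78) (nat_lit 76) (nat_lit 0) (XT.lf (nat_lit 0) (nat_lit 2823296045) (nat_lit 532) (nat_lit 8094564820) (nat_lit 608) (nat_lit 177293503) (nat_lit 237) (nat_lit 5) (nat_lit 244) (nat_lit 5) (nat_lit 245) (nat_lit 5) (nat_lit 598) (nat_lit 530) (nat_lit 432)) (XT.lf (nat_lit 0) (nat_lit 2609039235) (nat_lit 608) (nat_lit 1285526552) (nat_lit 76) (nat_lit 7320854637) (nat_lit 236) (nat_lit 5) (nat_lit 244) (nat_lit 5) (nat_lit 237) (nat_lit 5) (nat_lit 599) (nat_lit 530) (nat_lit 431))))) (XT.nd (nat_lit 156) (nat_lit 1064) (nat_lit 0) (XT.nd (nat_lit 78) (nat_lit 532) (nat_lit 0)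 (XT.lf (nat_lit 0) (nat_lit 5467029379) (nat_lit 608) (nat_lit 5454275024) (nat_lit 76) (nat_lit 416400430) (nat_lit 229) (nat_lit 5) (nat_lit 237) (nat_lit 5) (nat_lit 230) (nat_lit 5) (nat_lit 600) (nat_lit 530) (nat_lit 430)) (XT.lf (nat_lit 0) (nat_lit 1717065781) (nat_lit 532) (nat_lit 6688281521) (nat_lit 608) (nat_lit 3056626785) (nat_lit 222) (nat_lit 5) (nat_lit 229) (nat_lit 5) (nat_lit 230) (nat_lit 5) (nat_lit 601) (nat_lit 530) (nat_lit 429))) (XT.nd (nat_lit 78) (nat_lit 1064) (nat_lit 0) (XT.lf (nat_lit 0) (nat_lit 9075434974) (nat_lit 532) (nat_lit 2341385168) (nat_lit 608) (nat_lit 171623278) (nat_lit 222) (nat_lit 5) (nat_lit 229) (nat_lit 5) (nat_lit 230) (nat_lit 5) (nat_lit 602) (nat_lit 530) (nat_lit 428)) (XT.nd (nat_lit 78) (nat_lit 456) (nat_lit 0) (XT.lf (nat_lit 0) (nat_lit 2758356364) (nat_lit 608) (nat_lit 6851249680) (nat_lit 76) (nat_lit 2107006247) (nat_lit 214) (nat_lit 5) (nat_lit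 222) (nat_lit 5) (nat_lit 215) (nat_lit 5) (nat_lit 603) (nat_lit 530) (nat_lit 427)) (XT.lf (nat_lit 0) (nat_lit 538448917) (nat_lit 456) (nat_lit 5220427630) (nat_lit 532) (nat_lit 6088162848) (nat_lit 208) (nat_lit 5) (nat_lit 214) (nat_lit 5) (nat_lit 215) (nat_lit 5) (nat_lit 604) (nat_lit 530) (nat_lit 426))))))))
noncomputable def xc99 : XT := (XT.nd (nat_lit 75738) (nat_lit 0) (nat_lit 34200) (XT.nd (nat_lit 702) (nat_lit 1748) (nat_lit 0) (XT.nd (nat_lit 312) (nat_lit 1444) (nat_lit 0) (XT.nd (nat_lit 156) (nat_lit 532) (nat_lit 0) (XT.nd (nat_lit 78) (nat_lit 532) (nat_lit 0) (XT.lf (nat_lit 0) (nat_lit 8138793646) (nat_lit 456) (nat_lit 705080078) (nat_lit 532) (nat_lit 3135714265) (nat_lit 208) (nat_lit 5) (nat_lit 214) (nat_lit 5) (nat_lit 215) (nat_lit 5) (nat_lit 605) (nat_lit 530) (nat_lit 425)) (XT.lf (nat_lit 0) (nat_lit 3770686276) (nat_lit 532) (nat_lit 8248550156) (nat_lit 608) (nat_lit 94980043)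 (nat_lit 201) (nat_lit 5) (nat_lit 208) (nat_lit 5) (nat_lit 209) (nat_lit 5) (nat_lit 606) (nat_lit 530) (nat_lit 424))) (XT.nd (nat_lit 78) (nat_lit 456) (nat_lit 0) (XT.lf (nat_lit 0) (nat_lit 2976691322) (nat_lit 608) (nat_lit 718808822) (nat_lit 76) (nat_lit 8555458039) (nat_lit 200) (nat_lit 5) (nat_lit 208) (nat_lit 5) (nat_lit 201) (nat_lit 5) (nat_lit 607) (nat_lit 530) (nat_lit 423)) (XT.lf (nat_lit 0) (nat_lit 6140531976) (nat_lit 532) (nat_lit 5274442381) (nat_lit 76) (nat_lit 974809762) (nat_lit 194) (nat_lit 5) (nat_lit 201) (nat_lit 5) (nat_lit 195) (nat_lit 5) (nat_lit 608) (nat_lit 530) (nat_lit 422)))) (XT.nd (nat_lit 156) (nat_lit 912) (nat_lit 0) (XT.nd (nat_lit 78) (nat_lit 76) (nat_lit 0) (XT.lf (nat_lit 0) (nat_lit 2564293443) (nat_lit 456) (nat_lit 6828846907) (nat_lit 532) (nat_lit 3137738471) (nat_lit 188) (nat_lit 5) (nat_lit 194) (nat_lit 5) (nat_lit 195) (nat_lit 5) (nat_lit 609) (nat_lit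 530) (nat_lit 421)) (XT.lf (nat_lit 0) (nat_lit 50750128) (nat_lit 532) (nat_lit 2072795806) (nat_lit 76) (nat_lit 10550942453) (nat_lit 187) (nat_lit 5) (nat_lit 194) (nat_lit 5) (nat_lit 188) (nat_lit 5) (nat_lit 610) (nat_lit 530) (nat_lit 420))) (XT.nd (nat_lit 78) (nat_lit 456) (nat_lit 0) (XT.lf (nat_lit 0) (nat_lit 3297740597) (nat_lit 532) (nat_lit 6829964365) (nat_lit 76) (nat_lit 2692117389) (nat_lit 181) (nat_lit 5) (nat_lit 188) (nat_lit 5) (nat_lit 182) (nat_lit 5) (nat_lit 611) (nat_lit 530) (nat_lit 419)) (XT.nd (nat_lit 78) (nat_lit 0) (nat_lit 0) (XT.lf (nat_lit 0) (nat_lit 1247168241) (nat_lit 456) (nat_lit 5378800761) (nat_lit 532) (nat_lit 6341769936) (nat_lit 175) (nat_lit 5) (nat_lit 181) (nat_lit 5) (nat_lit 182) (nat_lit 5) (nat_lit 612) (nat_lit 530) (nat_lit 418)) (XT.lf (nat_lit 0) (nat_lit 9549506378) (nat_lit 456) (nat_lit 497425785) (nat_lit 532) (nat_lit 3071160159) (nat_lit 175)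 (nat_lit 5) (nat_lit 181) (nat_lit 5) (nat_lit 182) (nat_lit 5) (nat_lit 613) (nat_lit 530) (nat_lit 417)))))) (XT.nd (nat_lit 390) (nat_lit 380) (nat_lit 0) (XT.nd (nat_lit 156) (nat_lit 912) (nat_lit 0) (XT.nd (nat_lit 78) (nat_lit 0) (nat_lit 0) (XT.lf (nat_lit 0) (nat_lit 302263188) (nat_lit 456) (nat_lit 8521660550) (nat_lit 76) (nat_lit 4446678937) (nat_lit 169) (nat_lit 5) (nat_lit 175) (nat_lit 5) (nat_lit 170) (nat_lit 5) (nat_lit 614) (nat_lit 530) (nat_lit 416)) (XT.lf (nat_lit 0) (nat_lit 3710200255) (nat_lit 456) (nat_lit 197031684) (nat_lit 76) (nat_lit 9518363689) (nat_lit 169) (nat_lit 5) (nat_lit 175) (nat_lit 5) (nat_lit 170) (nat_lit 5) (nat_lit 615) (nat_lit 530) (nat_lit 415))) (XT.nd (nat_lit 78) (nat_lit 456) (nat_lit 0) (XT.lf (nat_lit 0) (nat_lit 7229276944) (nat_lit 532) (nat_lit 5214719399) (nat_lit 76) (nat_lit 1138834207) (nat_lit 163) (nat_lit 5) (nat_lit 170) (nat_lit 5) (nat_lit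 164) (nat_lit 5) (nat_lit 616) (nat_lit 530) (nat_lit 414)) (XT.nd (nat_lit 78) (nat_lit 76) (nat_lit 0) (XT.lf (nat_lit 0) (nat_lit 3353829634) (nat_lit 380) (nat_lit 7495123353) (nat_lit 456) (nat_lit 2893654518) (nat_lit 158) (nat_lit 5) (nat_lit 163) (nat_lit 5) (nat_lit 164) (nat_lit 5) (nat_lit 617) (nat_lit 530) (nat_lit 413)) (XT.lf (nat_lit 0) (nat_lit 643630360) (nat_lit 456) (nat_lit 1773180860) (nat_lit 76) (nat_lit 11488357458) (nat_lit 157) (nat_lit 5) (nat_lit 163) (nat_lit 5) (nat_lit 158) (nat_lit 5) (nat_lit 618) (nat_lit 530) (nat_lit 412))))) (XT.nd (nat_lit 74412) (nat_lit 0) (nat_lit 40356) (XT.nd (nat_lit 74334) (nat_lit 0) (nat_lit 41192) (XT.lf (nat_lit 0) (nat_lit 4258763315) (nat_lit 456) (nat_lit 7028018803) (nat_lit 76) (nat_lit 2782901041) (nat_lit 152) (nat_lit 5) (nat_lit 158) (nat_lit 5) (nat_lit 153) (nat_lit 5) (nat_lit 619) (nat_lit 530) (nat_lit 411)) (XT.lf (nat_lit 0) (nat_lit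 337330625) (nat_lit 836) (nat_lit 1499623152) (nat_lit 836) (nat_lit 1499623152) (nat_lit 694) (nat_lit 3) (nat_lit 705) (nat_lit 3) (nat_lit 705) (nat_lit 5) (nat_lit 531) (nat_lit 531) (nat_lit 498))) (XT.nd (nat_lit 78) (nat_lit 836) (nat_lit 0) (XT.lf (nat_lit 76) (nat_lit 288345356) (nat_lit 0) (nat_lit 2621765169) (nat_lit 836) (nat_lit 3784684613) (nat_lit 695) (nat_lit 5) (nat_lit 694) (nat_lit 3) (nat_lit 705) (nat_lit 5) (nat_lit 532) (nat_lit 531) (nat_lit 497)) (XT.nd (nat_lit 78) (nat_lit 836) (nat_lit 0) (XT.lf (nat_lit 76) (nat_lit 3652152289) (nat_lit 0) (nat_lit 1499636424) (nat_lit 836) (nat_lit 1565863672) (nat_lit 695) (nat_lit 5) (nat_lit 694) (nat_lit 3) (nat_lit 705) (nat_lit 5) (nat_lit 533) (nat_lit 531) (nat_lit 496)) (XT.lf (nat_lit 76) (nat_lit 311443713) (nat_lit 0) (nat_lit 320915358) (nat_lit 912) (nat_lit 6109646750) (nat_lit 684) (nat_lit 5) (nat_lit 683) (nat_lit 5) (nat_lit 695)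 (nat_lit 5) (nat_lit 534) (nat_lit 531) (nat_lit 495))))))) (XT.nd (nat_lit 702) (nat_lit 4408) (nat_lit 0) (XT.nd (nat_lit 312) (nat_lit 912) (nat_lit 0) (XT.nd (nat_lit 156) (nat_lit 912) (nat_lit 0) (XT.nd (nat_lit 78) (nat_lit 0) (nat_lit 0) (XT.lf (nat_lit 0) (nat_lit 2823289679) (nat_lit 836) (nat_lit 3016690177) (nat_lit 912) (nat_lit 927278014) (nat_lit 684) (nat_lit 5) (nat_lit 695) (nat_lit 5) (nat_lit 696) (nat_lit 5) (nat_lit 535) (nat_lit 531) (nat_lit 494)) (XT.lf (nat_lit 76) (nat_lit 438192029) (nat_lit 0) (nat_lit 4569190569) (nat_lit 912) (nat_lit 1786657997) (nat_lit 685) (nat_lit 5) (nat_lit 684) (nat_lit 5) (nat_lit 696) (nat_lit 5) (nat_lit 536) (nat_lit 531) (nat_lit 493))) (XT.nd (nat_lit 78) (nat_lit 0) (nat_lit 0) (XT.lf (nat_lit 0) (nat_lit 373639301) (nat_lit 912) (nat_lit 2852140961) (nat_lit 988) (nat_lit 3596231645) (nat_lit 672) (nat_lit 5) (nat_lit 684) (nat_lit 5) (nat_lit 685)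 (nat_lit 5) (nat_lit 537) (nat_lit 531) (nat_lit 492)) (XT.lf (nat_lit 76) (nat_lit 688018334) (nat_lit 0) (nat_lit 1815661175) (nat_lit 988) (nat_lit 4347629520) (nat_lit 673) (nat_lit 5) (nat_lit 672) (nat_lit 5) (nat_lit 685) (nat_lit 5) (nat_lit 538) (nat_lit 531) (nat_lit 491)))) (XT.nd (nat_lit 156) (nat_lit 912) (nat_lit 0) (XT.nd (nat_lit 78) (nat_lit 0) (nat_lit 76) (XT.lf (nat_lit 76) (nat_lit 4307031285) (nat_lit 0) (nat_lit 335260131) (nat_lit 988) (nat_lit 2239592815) (nat_lit 673) (nat_lit 5) (nat_lit 672) (nat_lit 5) (nat_lit 685) (nat_lit 5) (nat_lit 539) (nat_lit 531) (nat_lit 490)) (XT.lf (nat_lit 76) (nat_lit 1060425709) (nat_lit 0) (nat_lit 5725779723) (nat_lit 988) (nat_lit 127626240) (nat_lit 674) (nat_lit 5) (nat_lit 673) (nat_lit 5) (nat_lit 686) (nat_lit 5) (nat_lit 540) (nat_lit 531) (nat_lit 489))) (XT.nd (nat_lit 78) (nat_lit 0) (nat_lit 0) (XT.lf (nat_lit 0) (nat_lit 1968099825) (nat_lit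 988) (nat_lit 2189950772) (nat_lit 1064) (nat_lit 2788753213) (nat_lit 660) (nat_lit 5) (nat_lit 673) (nat_lit 5) (nat_lit 674) (nat_lit 5) (nat_lit 541) (nat_lit 531) (nat_lit 488)) (XT.nd (nat_lit 78) (nat_lit 0) (nat_lit 0) (XT.lf (nat_lit 76) (nat_lit 1534982993) (nat_lit 0) (nat_lit 2528512116) (nat_lit 1064) (nat_lit 2917744815) (nat_lit 661) (nat_lit 5) (nat_lit 660) (nat_lit 5) (nat_lit 674) (nat_lit 5) (nat_lit 542) (nat_lit 531) (nat_lit 487)) (XT.lf (nat_lit 76) (nat_lit 5333228345) (nat_lit 0) (nat_lit 832551395) (nat_lit 1064) (nat_lit 851295858) (nat_lit 661) (nat_lit 5) (nat_lit 660) (nat_lit 5) (nat_lit 674) (nat_lit 5) (nat_lit 543) (nat_lit 531) (nat_lit 486)))))) (XT.nd (nat_lit 390) (nat_lit 2280) (nat_lit 0) (XT.nd (nat_lit 156) (nat_lit 1140) (nat_lit 0) (XT.nd (nat_lit 78) (nat_lit 0) (nat_lit 0) (XT.lf (nat_lit 0) (nat_lit 1210933358) (nat_lit 1064) (nat_lit 4917441142) (nat_lit 1140) (nat_lit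 925681781) (nat_lit 647) (nat_lit 5) (nat_lit 661) (nat_lit 5) (nat_lit 662) (nat_lit 5) (nat_lit 544) (nat_lit 531) (nat_lit 485)) (XT.lf (nat_lit 0) (nat_lit 3271711362) (nat_lit 1064) (nat_lit 1078281006) (nat_lit 1140) (nat_lit 2742307472) (nat_lit 647) (nat_lit 5) (nat_lit 661) (nat_lit 5) (nat_lit 662) (nat_lit 5) (nat_lit 545) (nat_lit 531) (nat_lit 484))) (XT.nd (nat_lit 78) (nat_lit 1140) (nat_lit 0) (XT.lf (nat_lit 76) (nat_lit 2843766634) (nat_lit 0) (nat_lit 2501151402) (nat_lit 1140) (nat_lit 1786975642) (nat_lit 648) (nat_lit 5) (nat_lit 647) (nat_lit 5) (nat_lit 662) (nat_lit 5) (nat_lit 546) (nat_lit 531) (nat_lit 483)) (XT.nd (nat_lit 78) (nat_lit 0) (nat_lit 76) (XT.lf (nat_lit 0) (nat_lit 243982400) (nat_lit 1140) (nat_lit 346795196) (nat_lit 1216) (nat_lit 6582264962) (nat_lit 632) (nat_lit 5) (nat_lit 647) (nat_lit 5) (nat_lit 648) (nat_lit 5) (nat_lit 547) (nat_lit 531) (nat_lit 482)) (XT.lf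 (nat_lit 0) (nat_lit 2278764452) (nat_lit 1140) (nat_lit 3545598824) (nat_lit 1216) (nat_lit 1390681364) (nat_lit 633) (nat_lit 5) (nat_lit 648) (nat_lit 5) (nat_lit 649) (nat_lit 5) (nat_lit 548) (nat_lit 531) (nat_lit 481))))) (XT.nd (nat_lit 156) (nat_lit 2356) (nat_lit 0) (XT.nd (nat_lit 78) (nat_lit 0) (nat_lit 0) (XT.lf (nat_lit 76) (nat_lit 483483476) (nat_lit 0) (nat_lit 3835022800) (nat_lit 1216) (nat_lit 2940104138) (nat_lit 634) (nat_lit 5) (nat_lit 633) (nat_lit 5) (nat_lit 649) (nat_lit 5) (nat_lit 549) (nat_lit 531) (nat_lit 480)) (XT.lf (nat_lit 76) (nat_lit 4609616194) (nat_lit 0) (nat_lit 1768769371) (nat_lit 1216) (nat_lit 925083845) (nat_lit 634) (nat_lit 5) (nat_lit 633) (nat_lit 5) (nat_lit 649) (nat_lit 5) (nat_lit 550) (nat_lit 531) (nat_lit 479))) (XT.nd (nat_lit 78) (nat_lit 1216) (nat_lit 0) (XT.lf (nat_lit 0) (nat_lit 1083337331) (nat_lit 1216) (nat_lit 5903018403) (nat_lit 76) (nat_lit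 363373031) (nat_lit 618) (nat_lit 5) (nat_lit 634) (nat_lit 5) (nat_lit 619) (nat_lit 5) (nat_lit 551) (nat_lit 531) (nat_lit 478)) (XT.nd (nat_lit 78) (nat_lit 1216) (nat_lit 0) (XT.lf (nat_lit 0) (nat_lit 3106320256) (nat_lit 1216) (nat_lit 1740217241) (nat_lit 76) (nat_lit 2550526163) (nat_lit 618) (nat_lit 5) (nat_lit 634) (nat_lit 5) (nat_lit 619) (nat_lit 5) (nat_lit 552) (nat_lit 531) (nat_lit 477)) (XT.lf (nat_lit 0) (nat_lit 2507047005) (nat_lit 1216) (nat_lit 2636697190) (nat_lit 1292) (nat_lit 2302129522) (nat_lit 602) (nat_lit 5) (nat_lit 618) (nat_lit 5) (nat_lit 619) (nat_lit 5) (nat_lit 553) (nat_lit 531) (nat_lit 476))))))))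
noncomputable def xc100 : XT := (XT.nd (nat_lit 1482) (nat_lit 9272) (nat_lit 0) (XT.nd (nat_lit 702) (nat_lit 8056) (nat_lit 0) (XT.nd (nat_lit 312) (nat_lit 4712) (nat_lit 0) (XT.nd (nat_lit 156) (nat_lit 1368) (nat_lit 0) (XT.nd (nat_lit 78) (nat_lit 1368) (nat_lit 0) (XT.lf (nat_lit 0) (nat_lit 6831380706) (nat_lit 1216) (nat_lit 360542668) (nat_lit 1292) (nat_lit 304344398) (nat_lit 602) (nat_lit 5) (nat_lit 618) (nat_lit 5) (nat_lit 619) (nat_lit 5) (nat_lit 554) (nat_lit 531) (nat_lit 475)) (XT.lf (nat_lit 0) (nat_lit 1706585752) (nat_lit 1368) (nat_lit 3860417902) (nat_lit 76) (nat_lit 1980530129) (nat_lit 584) (nat_lit 5) (nat_lit 602) (nat_lit 5) (nat_lit 585) (nat_lit 5) (nat_lit 555) (nat_lit 531) (nat_lit 474))) (XT.nd (nat_lit 78) (nat_lit 0) (nat_lit 0) (XT.lf (nat_lit 0) (nat_lit 505559191) (nat_lit 1368) (nat_lit 3217797767) (nat_lit 1444) (nat_lit 3877041446) (nat_lit 566) (nat_lit 5) (nat_lit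 584) (nat_lit 5) (nat_lit 585) (nat_lit 5) (nat_lit 556) (nat_lit 531) (nat_lit 473)) (XT.lf (nat_lit 0) (nat_lit 4979321560) (nat_lit 1368) (nat_lit 787166467) (nat_lit 1444) (nat_lit 1888119129) (nat_lit 566) (nat_lit 5) (nat_lit 584) (nat_lit 5) (nat_lit 585) (nat_lit 5) (nat_lit 557) (nat_lit 531) (nat_lit 472)))) (XT.nd (nat_lit 156) (nat_lit 3192) (nat_lit 0) (XT.nd (nat_lit 78) (nat_lit 0) (nat_lit 0) (XT.lf (nat_lit 0) (nat_lit 122334677) (nat_lit 1520) (nat_lit 5897660777) (nat_lit 76) (nat_lit 1690221483) (nat_lit 546) (nat_lit 5) (nat_lit 566) (nat_lit 5) (nat_lit 547) (nat_lit 5) (nat_lit 558) (nat_lit 531) (nat_lit 471)) (XT.lf (nat_lit 0) (nat_lit 2132272679) (nat_lit 1520) (nat_lit 1390386445) (nat_lit 76) (nat_lit 4244345944) (nat_lit 546) (nat_lit 5) (nat_lit 566) (nat_lit 5) (nat_lit 547) (nat_lit 5) (nat_lit 559) (nat_lit 531) (nat_lit 470))) (XT.nd (nat_lit 78) (nat_lit 1672) (nat_lit 0) (XT.lf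 (nat_lit 0) (nat_lit 3217476724) (nat_lit 1520) (nat_lit 947831449) (nat_lit 1596) (nat_lit 3659969585) (nat_lit 526) (nat_lit 5) (nat_lit 546) (nat_lit 5) (nat_lit 547) (nat_lit 5) (nat_lit 560) (nat_lit 531) (nat_lit 469)) (XT.nd (nat_lit 78) (nat_lit 76) (nat_lit 0) (XT.lf (nat_lit 0) (nat_lit 8628876) (nat_lit 1596) (nat_lit 6213308623) (nat_lit 1672) (nat_lit 1663126380) (nat_lit 505) (nat_lit 5) (nat_lit 526) (nat_lit 5) (nat_lit 527) (nat_lit 5) (nat_lit 561) (nat_lit 531) (nat_lit 468)) (XT.lf (nat_lit 0) (nat_lit 369017205) (nat_lit 1672) (nat_lit 3207114473) (nat_lit 76) (nat_lit 4369866621) (nat_lit 504) (nat_lit 5) (nat_lit 526) (nat_lit 5) (nat_lit 505) (nat_lit 5) (nat_lit 562) (nat_lit 531) (nat_lit 467)))))) (XT.nd (nat_lit 390) (nat_lit 2888) (nat_lit 0) (XT.nd (nat_lit 156) (nat_lit 3496) (nat_lit 0) (XT.nd (nat_lit 78) (nat_lit 0) (nat_lit 0) (XT.lf (nat_lit 0) (nat_lit 1532692970) (nat_lit 1672)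 (nat_lit 860403190) (nat_lit 1748) (nat_lit 5615370403) (nat_lit 482) (nat_lit 5) (nat_lit 504) (nat_lit 5) (nat_lit 505) (nat_lit 5) (nat_lit 563) (nat_lit 531) (nat_lit 466)) (XT.lf (nat_lit 0) (nat_lit 4455843383) (nat_lit 1748) (nat_lit 1706052590) (nat_lit 76) (nat_lit 1910330617) (nat_lit 482) (nat_lit 5) (nat_lit 505) (nat_lit 5) (nat_lit 483) (nat_lit 5) (nat_lit 564) (nat_lit 531) (nat_lit 465))) (XT.nd (nat_lit 78) (nat_lit 1748) (nat_lit 0) (XT.lf (nat_lit 0) (nat_lit 3162957858) (nat_lit 1748) (nat_lit 3387949283) (nat_lit 1824) (nat_lit 1586539457) (nat_lit 459) (nat_lit 5) (nat_lit 482) (nat_lit 5) (nat_lit 483) (nat_lit 5) (nat_lit 565) (nat_lit 531) (nat_lit 464)) (XT.nd (nat_lit 78) (nat_lit 1672) (nat_lit 0) (XT.lf (nat_lit 0) (nat_lit 454155010) (nat_lit 1824) (nat_lit 86634954) (nat_lit 76) (nat_lit 7663591978) (nat_lit 458) (nat_lit 5) (nat_lit 482) (nat_lit 5) (nat_lit 459) (nat_lit 5) (nat_lit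 566) (nat_lit 531) (nat_lit 463)) (XT.lf (nat_lit 0) (nat_lit 2527796874) (nat_lit 1748) (nat_lit 3366644369) (nat_lit 76) (nat_lit 2377743131) (nat_lit 436) (nat_lit 5) (nat_lit 459) (nat_lit 5) (nat_lit 437) (nat_lit 5) (nat_lit 567) (nat_lit 531) (nat_lit 462))))) (XT.nd (nat_lit 156) (nat_lit 1900) (nat_lit 0) (XT.nd (nat_lit 78) (nat_lit 0) (nat_lit 0) (XT.lf (nat_lit 0) (nat_lit 1643360331) (nat_lit 988) (nat_lit 2980632411) (nat_lit 1064) (nat_lit 3717734042) (nat_lit 423) (nat_lit 5) (nat_lit 436) (nat_lit 5) (nat_lit 437) (nat_lit 5) (nat_lit 568) (nat_lit 531) (nat_lit 461)) (XT.lf (nat_lit 0) (nat_lit 6751508538) (nat_lit 1064) (nat_lit 1645581045) (nat_lit 76) (nat_lit 15787985) (nat_lit 423) (nat_lit 5) (nat_lit 437) (nat_lit 5) (nat_lit 424) (nat_lit 5) (nat_lit 569) (nat_lit 531) (nat_lit 460))) (XT.nd (nat_lit 78) (nat_lit 912) (nat_lit 0) (XT.lf (nat_lit 0) (nat_lit 440306634) (nat_lit 988) (nat_lit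 4985541122) (nat_lit 76) (nat_lit 3059354149) (nat_lit 410) (nat_lit 5) (nat_lit 423) (nat_lit 5) (nat_lit 411) (nat_lit 5) (nat_lit 570) (nat_lit 531) (nat_lit 459)) (XT.nd (nat_lit 78) (nat_lit 0) (nat_lit 0) (XT.lf (nat_lit 0) (nat_lit 170452558) (nat_lit 912) (nat_lit 2371139670) (nat_lit 988) (nat_lit 6017569557) (nat_lit 398) (nat_lit 5) (nat_lit 410) (nat_lit 5) (nat_lit 411) (nat_lit 5) (nat_lit 571) (nat_lit 531) (nat_lit 458)) (XT.lf (nat_lit 0) (nat_lit 4691424094) (nat_lit 988) (nat_lit 3174345727) (nat_lit 76) (nat_lit 768705661) (nat_lit 398) (nat_lit 5) (nat_lit 411) (nat_lit 5) (nat_lit 399) (nat_lit 5) (nat_lit 572) (nat_lit 531) (nat_lit 457))))))) (XT.nd (nat_lit 702) (nat_lit 4332) (nat_lit 0) (XT.nd (nat_lit 312) (nat_lit 2432) (nat_lit 0) (XT.nd (nat_lit 156) (nat_lit 1596) (nat_lit 0) (XT.nd (nat_lit 78) (nat_lit 76) (nat_lit 0) (XT.lf (nat_lit 0) (nat_lit 2124599967) (nat_lit 836) (nat_lit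 4757785685) (nat_lit 912) (nat_lit 1828952070) (nat_lit 387) (nat_lit 5) (nat_lit 398) (nat_lit 5) (nat_lit 399) (nat_lit 5) (nat_lit 573) (nat_lit 531) (nat_lit 456)) (XT.lf (nat_lit 0) (nat_lit 313413050) (nat_lit 912) (nat_lit 1251100393) (nat_lit 76) (nat_lit 7225380427) (nat_lit 386) (nat_lit 5) (nat_lit 398) (nat_lit 5) (nat_lit 387) (nat_lit 5) (nat_lit 574) (nat_lit 531) (nat_lit 455))) (XT.nd (nat_lit 78) (nat_lit 760) (nat_lit 0) (XT.lf (nat_lit 0) (nat_lit 2482137474) (nat_lit 912) (nat_lit 4678282534) (nat_lit 76) (nat_lit 1709203957) (nat_lit 375) (nat_lit 5) (nat_lit 387) (nat_lit 5) (nat_lit 376) (nat_lit 5) (nat_lit 575) (nat_lit 531) (nat_lit 454)) (XT.lf (nat_lit 0) (nat_lit 776740038) (nat_lit 760) (nat_lit 3911187418) (nat_lit 836) (nat_lit 4263151941) (nat_lit 365) (nat_lit 5) (nat_lit 375) (nat_lit 5) (nat_lit 376) (nat_lit 5) (nat_lit 576) (nat_lit 531) (nat_lit 453)))) (XT.nd (nat_lit 156)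 (nat_lit 1520) (nat_lit 0) (XT.nd (nat_lit 78) (nat_lit 912) (nat_lit 0) (XT.lf (nat_lit 0) (nat_lit 6372647127) (nat_lit 760) (nat_lit 566801736) (nat_lit 836) (nat_lit 2094687231) (nat_lit 365) (nat_lit 5) (nat_lit 375) (nat_lit 5) (nat_lit 376) (nat_lit 5) (nat_lit 577) (nat_lit 531) (nat_lit 452)) (XT.lf (nat_lit 0) (nat_lit 124078981) (nat_lit 912) (nat_lit 6169250431) (nat_lit 76) (nat_lit 2825344222) (nat_lit 353) (nat_lit 5) (nat_lit 365) (nat_lit 5) (nat_lit 354) (nat_lit 5) (nat_lit 578) (nat_lit 531) (nat_lit 451))) (XT.nd (nat_lit 78) (nat_lit 1520) (nat_lit 0) (XT.lf (nat_lit 0) (nat_lit 2351898488) (nat_lit 912) (nat_lit 545427711) (nat_lit 76) (nat_lit 6307448499) (nat_lit 353) (nat_lit 5) (nat_lit 365) (nat_lit 5) (nat_lit 354) (nat_lit 5) (nat_lit 579) (nat_lit 531) (nat_lit 450)) (XT.nd (nat_lit 78) (nat_lit 760) (nat_lit 0) (XT.lf (nat_lit 0) (nat_lit 4633643000) (nat_lit 836) (nat_lit 4068083698)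 (nat_lit 76) (nat_lit 590687843) (nat_lit 343) (nat_lit 5) (nat_lit 354) (nat_lit 5) (nat_lit 344) (nat_lit 5) (nat_lit 580) (nat_lit 531) (nat_lit 449)) (XT.lf (nat_lit 0) (nat_lit 1706827879) (nat_lit 760) (nat_lit 5260024060) (nat_lit 836) (nat_lit 2414842694) (nat_lit 333) (nat_lit 5) (nat_lit 343) (nat_lit 5) (nat_lit 344) (nat_lit 5) (nat_lit 581) (nat_lit 531) (nat_lit 448)))))) (XT.nd (nat_lit 390) (nat_lit 2128) (nat_lit 0) (XT.nd (nat_lit 156) (nat_lit 1444) (nat_lit 0) (XT.nd (nat_lit 78) (nat_lit 760) (nat_lit 0) (XT.lf (nat_lit 0) (nat_lit 7621099147) (nat_lit 760) (nat_lit 1725148984) (nat_lit 836) (nat_lit 126525702) (nat_lit 333) (nat_lit 5) (nat_lit 343) (nat_lit 5) (nat_lit 344) (nat_lit 5) (nat_lit 582) (nat_lit 531) (nat_lit 447)) (XT.lf (nat_lit 0) (nat_lit 2190242275) (nat_lit 760) (nat_lit 5481529439) (nat_lit 76) (nat_lit 1893387314) (nat_lit 323) (nat_lit 5) (nat_lit 333) (nat_lit 5) (nat_lit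 324) (nat_lit 5) (nat_lit 583) (nat_lit 531) (nat_lit 446))) (XT.nd (nat_lit 78) (nat_lit 684) (nat_lit 0) (XT.lf (nat_lit 0) (nat_lit 466009254) (nat_lit 760) (nat_lit 4085499761) (nat_lit 836) (nat_lit 5107872771) (nat_lit 313) (nat_lit 5) (nat_lit 323) (nat_lit 5) (nat_lit 324) (nat_lit 5) (nat_lit 584) (nat_lit 531) (nat_lit 445)) (XT.nd (nat_lit 78) (nat_lit 684) (nat_lit 0) (XT.lf (nat_lit 0) (nat_lit 6575654593) (nat_lit 760) (nat_lit 394357165) (nat_lit 836) (nat_lit 2785280693) (nat_lit 313) (nat_lit 5) (nat_lit 323) (nat_lit 5) (nat_lit 324) (nat_lit 5) (nat_lit 585) (nat_lit 531) (nat_lit 444)) (XT.lf (nat_lit 0) (nat_lit 2940008343) (nat_lit 684) (nat_lit 6511572762) (nat_lit 760) (nat_lit 401249885) (nat_lit 304) (nat_lit 5) (nat_lit 313) (nat_lit 5) (nat_lit 314) (nat_lit 5) (nat_lit 586) (nat_lit 531) (nat_lit 443))))) (XT.nd (nat_lit 156) (nat_lit 1368) (nat_lit 0) (XT.nd (nat_lit 78) (nat_lit 684)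 (nat_lit 0) (XT.lf (nat_lit 0) (nat_lit 2001785118) (nat_lit 760) (nat_lit 773865586) (nat_lit 76) (nat_lit 7176450319) (nat_lit 303) (nat_lit 5) (nat_lit 313) (nat_lit 5) (nat_lit 304) (nat_lit 5) (nat_lit 587) (nat_lit 531) (nat_lit 442)) (XT.lf (nat_lit 0) (nat_lit 4464717808) (nat_lit 760) (nat_lit 4532914610) (nat_lit 76) (nat_lit 1055330184) (nat_lit 294) (nat_lit 5) (nat_lit 304) (nat_lit 5) (nat_lit 295) (nat_lit 5) (nat_lit 588) (nat_lit 531) (nat_lit 441))) (XT.nd (nat_lit 78) (nat_lit 760) (nat_lit 0) (XT.lf (nat_lit 0) (nat_lit 1768521969) (nat_lit 608) (nat_lit 5218127207) (nat_lit 684) (nat_lit 3169000754) (nat_lit 286) (nat_lit 5) (nat_lit 294) (nat_lit 5) (nat_lit 295) (nat_lit 5) (nat_lit 589) (nat_lit 531) (nat_lit 440)) (XT.nd (nat_lit 78) (nat_lit 760) (nat_lit 0) (XT.lf (nat_lit 0) (nat_lit 8226786509) (nat_lit 608) (nat_lit 1337597402) (nat_lit 684) (nat_lit 695903054) (nat_lit 286) (nat_lit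 5) (nat_lit 294) (nat_lit 5) (nat_lit 295) (nat_lit 5) (nat_lit 590) (nat_lit 531) (nat_lit 439)) (XT.lf (nat_lit 0) (nat_lit 1824199714) (nat_lit 760) (nat_lit 5920442829) (nat_lit 76) (nat_lit 2621710128) (nat_lit 276) (nat_lit 5) (nat_lit 286) (nat_lit 5) (nat_lit 277) (nat_lit 5) (nat_lit 591) (nat_lit 531) (nat_lit 438))))))))
noncomputable def xc101 : XT := (XT.nd (nat_lit 1482) (nat_lit 2736) (nat_lit 0) (XT.nd (nat_lit 702) (nat_lit 3116) (nat_lit 0) (XT.nd (nat_lit 312) (nat_lit 2280) (nat_lit 0) (XT.nd (nat_lit 156) (nat_lit 684) (nat_lit 0) (XT.nd (nat_lit 78) (nat_lit 0) (nat_lit 0) (XT.lf (nat_lit 0) (nat_lit 571513217) (nat_lit 608) (nat_lit 3815710637) (nat_lit 684) (nat_lit 6087190155) (nat_lit 268) (nat_lit 5) (nat_lit 276) (nat_lit 5) (nat_lit 277) (nat_lit 5) (nat_lit 592) (nat_lit 531) (nat_lit 437)) (XT.lf (nat_lit 0) (nat_lit 7018511652) (nat_lit 684) (nat_lit 3342664952) (nat_lit 76) (nat_lit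 223122911) (nat_lit 268) (nat_lit 5) (nat_lit 277) (nat_lit 5) (nat_lit 269) (nat_lit 5) (nat_lit 593) (nat_lit 531) (nat_lit 436))) (XT.nd (nat_lit 78) (nat_lit 76) (nat_lit 0) (XT.lf (nat_lit 0) (nat_lit 3337000665) (nat_lit 608) (nat_lit 6388600844) (nat_lit 684) (nat_lit 970320644) (nat_lit 260) (nat_lit 5) (nat_lit 268) (nat_lit 5) (nat_lit 269) (nat_lit 5) (nat_lit 594) (nat_lit 531) (nat_lit 435)) (XT.lf (nat_lit 0) (nat_lit 1653993513) (nat_lit 684) (nat_lit 655184071) (nat_lit 76) (nat_lit 8500406073) (nat_lit 259) (nat_lit 5) (nat_lit 268) (nat_lit 5) (nat_lit 260) (nat_lit 5) (nat_lit 595) (nat_lit 531) (nat_lit 434)))) (XT.nd (nat_lit 156) (nat_lit 1140) (nat_lit 0) (XT.nd (nat_lit 78) (nat_lit 608) (nat_lit 0) (XT.lf (nat_lit 0) (nat_lit 4347357746) (nat_lit 608) (nat_lit 4709246458) (nat_lit 76) (nat_lit 1868197559) (nat_lit 252) (nat_lit 5) (nat_lit 260) (nat_lit 5) (nat_lit 253) (nat_lit 5) (nat_lit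 596) (nat_lit 531) (nat_lit 433)) (XT.lf (nat_lit 0) (nat_lit 2173524265) (nat_lit 608) (nat_lit 4931930907) (nat_lit 684) (nat_lit 3936654464) (nat_lit 244) (nat_lit 5) (nat_lit 252) (nat_lit 5) (nat_lit 253) (nat_lit 5) (nat_lit 597) (nat_lit 531) (nat_lit 432))) (XT.nd (nat_lit 78) (nat_lit 1140) (nat_lit 0) (XT.lf (nat_lit 0) (nat_lit 9227968368) (nat_lit 608) (nat_lit 699640025) (nat_lit 684) (nat_lit 1233980067) (nat_lit 244) (nat_lit 5) (nat_lit 252) (nat_lit 5) (nat_lit 253) (nat_lit 5) (nat_lit 598) (nat_lit 531) (nat_lit 431)) (XT.nd (nat_lit 78) (nat_lit 532) (nat_lit 0) (XT.lf (nat_lit 0) (nat_lit 1537648369) (nat_lit 608) (nat_lit 6138356622) (nat_lit 76) (nat_lit 3606559266) (nat_lit 236) (nat_lit 5) (nat_lit 244) (nat_lit 5) (nat_lit 237) (nat_lit 5) (nat_lit 599) (nat_lit 531) (nat_lit 430)) (XT.lf (nat_lit 0) (nat_lit 953985132) (nat_lit 532) (nat_lit 3395895461) (nat_lit 608) (nat_lit 7055884478)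 (nat_lit 229) (nat_lit 5) (nat_lit 236) (nat_lit 5) (nat_lit 237) (nat_lit 5) (nat_lit 600) (nat_lit 531) (nat_lit 429)))))) (XT.nd (nat_lit 390) (nat_lit 1520) (nat_lit 0) (XT.nd (nat_lit 156) (nat_lit 1064) (nat_lit 0) (XT.nd (nat_lit 78) (nat_lit 532) (nat_lit 0) (XT.lf (nat_lit 0) (nat_lit 7244102990) (nat_lit 608) (nat_lit 3295729535) (nat_lit 76) (nat_lit 991084931) (nat_lit 229) (nat_lit 5) (nat_lit 237) (nat_lit 5) (nat_lit 230) (nat_lit 5) (nat_lit 601) (nat_lit 531) (nat_lit 428)) (XT.lf (nat_lit 0) (nat_lit 4004119461) (nat_lit 532) (nat_lit 6218993266) (nat_lit 608) (nat_lit 1434924522) (nat_lit 222) (nat_lit 5) (nat_lit 229) (nat_lit 5) (nat_lit 230) (nat_lit 5) (nat_lit 602) (nat_lit 531) (nat_lit 427))) (XT.nd (nat_lit 78) (nat_lit 988) (nat_lit 0) (XT.lf (nat_lit 0) (nat_lit 1455440258) (nat_lit 608) (nat_lit 331776543) (nat_lit 76) (nat_lit 10000278178) (nat_lit 221) (nat_lit 5) (nat_lit 229) (nat_lit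 5) (nat_lit 222) (nat_lit 5) (nat_lit 603) (nat_lit 531) (nat_lit 426)) (XT.nd (nat_lit 78) (nat_lit 456) (nat_lit 0) (XT.lf (nat_lit 0) (nat_lit 4428111995) (nat_lit 608) (nat_lit 4744134980) (nat_lit 76) (nat_lit 2746233205) (nat_lit 214) (nat_lit 5) (nat_lit 222) (nat_lit 5) (nat_lit 215) (nat_lit 5) (nat_lit 604) (nat_lit 531) (nat_lit 425)) (XT.lf (nat_lit 0) (nat_lit 2778593512) (nat_lit 456) (nat_lit 4692865057) (nat_lit 532) (nat_lit 4580404322) (nat_lit 208) (nat_lit 5) (nat_lit 214) (nat_lit 5) (nat_lit 215) (nat_lit 5) (nat_lit 605) (nat_lit 531) (nat_lit 424))))) (XT.nd (nat_lit 156) (nat_lit 912) (nat_lit 0) (XT.nd (nat_lit 78) (nat_lit 608) (nat_lit 0) (XT.lf (nat_lit 0) (nat_lit 10487231888) (nat_lit 456) (nat_lit 99602144) (nat_lit 532) (nat_lit 1600858174) (nat_lit 208) (nat_lit 5) (nat_lit 214) (nat_lit 5) (nat_lit 215) (nat_lit 5) (nat_lit 606) (nat_lit 531) (nat_lit 423)) (XT.lf (nat_lit 0)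 (nat_lit 1468433877) (nat_lit 608) (nat_lit 6290259903) (nat_lit 76) (nat_lit 4566379302) (nat_lit 200) (nat_lit 5) (nat_lit 208) (nat_lit 5) (nat_lit 201) (nat_lit 5) (nat_lit 607) (nat_lit 531) (nat_lit 422))) (XT.nd (nat_lit 78) (nat_lit 456) (nat_lit 0) (XT.lf (nat_lit 0) (nat_lit 1461981200) (nat_lit 456) (nat_lit 3117111519) (nat_lit 532) (nat_lit 7885870958) (nat_lit 194) (nat_lit 5) (nat_lit 200) (nat_lit 5) (nat_lit 201) (nat_lit 5) (nat_lit 608) (nat_lit 531) (nat_lit 421)) (XT.nd (nat_lit 78) (nat_lit 456) (nat_lit 0) (XT.lf (nat_lit 0) (nat_lit 7784870318) (nat_lit 532) (nat_lit 3191938206) (nat_lit 76) (nat_lit 1630187471) (nat_lit 194) (nat_lit 5) (nat_lit 201) (nat_lit 5) (nat_lit 195) (nat_lit 5) (nat_lit 609) (nat_lit 531) (nat_lit 420)) (XT.lf (nat_lit 0) (nat_lit 4789177644) (nat_lit 456) (nat_lit 6297631781) (nat_lit 532) (nat_lit 1664420599) (nat_lit 188) (nat_lit 5) (nat_lit 194) (nat_lit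 5) (nat_lit 195) (nat_lit 5) (nat_lit 610) (nat_lit 531) (nat_lit 419))))))) (XT.nd (nat_lit 75036) (nat_lit 0) (nat_lit 38532) (XT.nd (nat_lit 312) (nat_lit 1748) (nat_lit 0) (XT.nd (nat_lit 156) (nat_lit 456) (nat_lit 0) (XT.nd (nat_lit 78) (nat_lit 0) (nat_lit 0) (XT.lf (nat_lit 0) (nat_lit 37108989) (nat_lit 456) (nat_lit 1501099794) (nat_lit 532) (nat_lit 11359896084) (nat_lit 181) (nat_lit 5) (nat_lit 187) (nat_lit 5) (nat_lit 188) (nat_lit 5) (nat_lit 611) (nat_lit 531) (nat_lit 418)) (XT.lf (nat_lit 0) (nat_lit 4838952667) (nat_lit 532) (nat_lit 4804602590) (nat_lit 76) (nat_lit 3403016814) (nat_lit 181) (nat_lit 5) (nat_lit 188) (nat_lit 5) (nat_lit 182) (nat_lit 5) (nat_lit 612) (nat_lit 531) (nat_lit 417))) (XT.nd (nat_lit 78) (nat_lit 0) (nat_lit 0) (XT.lf (nat_lit 0) (nat_lit 3419849240) (nat_lit 456) (nat_lit 4798914324) (nat_lit 532) (nat_lit 4978985843) (nat_lit 175) (nat_lit 5) (nat_lit 181) (nat_lit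 5) (nat_lit 182) (nat_lit 5) (nat_lit 613) (nat_lit 531) (nat_lit 416)) (XT.lf (nat_lit 0) (nat_lit 11680594875) (nat_lit 532) (nat_lit 1506645334) (nat_lit 76) (nat_lit 164423394) (nat_lit 175) (nat_lit 5) (nat_lit 182) (nat_lit 5) (nat_lit 176) (nat_lit 5) (nat_lit 614) (nat_lit 531) (nat_lit 415)))) (XT.nd (nat_lit 156) (nat_lit 836) (nat_lit 0) (XT.nd (nat_lit 78) (nat_lit 456) (nat_lit 0) (XT.lf (nat_lit 0) (nat_lit 1739454249) (nat_lit 456) (nat_lit 6556938946) (nat_lit 76) (nat_lit 5210867819) (nat_lit 169) (nat_lit 5) (nat_lit 175) (nat_lit 5) (nat_lit 170) (nat_lit 5) (nat_lit 615) (nat_lit 531) (nat_lit 414)) (XT.lf (nat_lit 0) (nat_lit 1917464609) (nat_lit 456) (nat_lit 3282473218) (nat_lit 532) (nat_lit 8465730808) (nat_lit 163) (nat_lit 5) (nat_lit 169) (nat_lit 5) (nat_lit 170) (nat_lit 5) (nat_lit 616) (nat_lit 531) (nat_lit 413))) (XT.nd (nat_lit 78) (nat_lit 836) (nat_lit 0) (XT.lf (nat_lit 0)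 (nat_lit 8767419565) (nat_lit 532) (nat_lit 3216071999) (nat_lit 76) (nat_lit 1842998733) (nat_lit 163) (nat_lit 5) (nat_lit 170) (nat_lit 5) (nat_lit 164) (nat_lit 5) (nat_lit 617) (nat_lit 531) (nat_lit 412)) (XT.nd (nat_lit 78) (nat_lit 456) (nat_lit 0) (XT.lf (nat_lit 0) (nat_lit 5510012871) (nat_lit 380) (nat_lit 6935715476) (nat_lit 456) (nat_lit 1544012127) (nat_lit 158) (nat_lit 5) (nat_lit 163) (nat_lit 5) (nat_lit 164) (nat_lit 5) (nat_lit 618) (nat_lit 531) (nat_lit 411)) (XT.lf (nat_lit 0) (nat_lit 261140526) (nat_lit 380) (nat_lit 1758877215) (nat_lit 456) (nat_lit 12135865545) (nat_lit 152) (nat_lit 5) (nat_lit 157) (nat_lit 5) (nat_lit 158) (nat_lit 5) (nat_lit 619) (nat_lit 531) (nat_lit 410)))))) (XT.nd (nat_lit 390) (nat_lit 912) (nat_lit 0) (XT.nd (nat_lit 156) (nat_lit 912) (nat_lit 0) (XT.nd (nat_lit 78) (nat_lit 836) (nat_lit 0) (XT.lf (nat_lit 0) (nat_lit 2556449710) (nat_lit 836) (nat_lit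 401049227) (nat_lit 836) (nat_lit 401049227) (nat_lit 694) (nat_lit 3) (nat_lit 705) (nat_lit 3) (nat_lit 705) (nat_lit 5) (nat_lit 532) (nat_lit 532) (nat_lit 496)) (XT.lf (nat_lit 0) (nat_lit 572612078) (nat_lit 836) (nat_lit 4208006277) (nat_lit 912) (nat_lit 1959940874) (nat_lit 683) (nat_lit 5) (nat_lit 694) (nat_lit 3) (nat_lit 695) (nat_lit 5) (nat_lit 533) (nat_lit 532) (nat_lit 495))) (XT.nd (nat_lit 78) (nat_lit 912) (nat_lit 0) (XT.lf (nat_lit 0) (nat_lit 2720198554) (nat_lit 836) (nat_lit 860059391) (nat_lit 912) (nat_lit 3185059697) (nat_lit 683) (nat_lit 5) (nat_lit 694) (nat_lit 3) (nat_lit 695) (nat_lit 5) (nat_lit 534) (nat_lit 532) (nat_lit 494)) (XT.nd (nat_lit 78) (nat_lit 912) (nat_lit 0) (XT.lf (nat_lit 76) (nat_lit 2559208727) (nat_lit 0) (nat_lit 2312539481) (nat_lit 912) (nat_lit 1919615294) (nat_lit 684) (nat_lit 5) (nat_lit 683) (nat_lit 5) (nat_lit 695) (nat_lit 5) (nat_lit 535) (nat_lit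 532) (nat_lit 493)) (XT.lf (nat_lit 0) (nat_lit 195873387) (nat_lit 912) (nat_lit 790699338) (nat_lit 988) (nat_lit 5832322671) (nat_lit 671) (nat_lit 5) (nat_lit 683) (nat_lit 5) (nat_lit 684) (nat_lit 5) (nat_lit 536) (nat_lit 532) (nat_lit 492))))) (XT.nd (nat_lit 156) (nat_lit 988) (nat_lit 0) (XT.nd (nat_lit 78) (nat_lit 0) (nat_lit 0) (XT.lf (nat_lit 0) (nat_lit 2294349352) (nat_lit 912) (nat_lit 4136913726) (nat_lit 988) (nat_lit 416145242) (nat_lit 672) (nat_lit 5) (nat_lit 684) (nat_lit 5) (nat_lit 685) (nat_lit 5) (nat_lit 537) (nat_lit 532) (nat_lit 491)) (XT.lf (nat_lit 0) (nat_lit 4393699853) (nat_lit 912) (nat_lit 620733153) (nat_lit 988) (nat_lit 1862891951) (nat_lit 672) (nat_lit 5) (nat_lit 684) (nat_lit 5) (nat_lit 685) (nat_lit 5) (nat_lit 538) (nat_lit 532) (nat_lit 490))) (XT.nd (nat_lit 78) (nat_lit 988) (nat_lit 0) (XT.lf (nat_lit 76) (nat_lit 2975173732) (nat_lit 0) (nat_lit 3527249331)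 (nat_lit 988) (nat_lit 406080481) (nat_lit 673) (nat_lit 5) (nat_lit 672) (nat_lit 5) (nat_lit 685) (nat_lit 5) (nat_lit 539) (nat_lit 532) (nat_lit 489)) (XT.nd (nat_lit 78) (nat_lit 0) (nat_lit 0) (XT.lf (nat_lit 0) (nat_lit 1643288292) (nat_lit 988) (nat_lit 330076117) (nat_lit 1064) (nat_lit 4967674947) (nat_lit 659) (nat_lit 5) (nat_lit 672) (nat_lit 5) (nat_lit 673) (nat_lit 5) (nat_lit 540) (nat_lit 532) (nat_lit 488)) (XT.lf (nat_lit 76) (nat_lit 3357055227) (nat_lit 0) (nat_lit 342508722) (nat_lit 1064) (nat_lit 3275191789) (nat_lit 660) (nat_lit 5) (nat_lit 659) (nat_lit 5) (nat_lit 673) (nat_lit 5) (nat_lit 541) (nat_lit 532) (nat_lit 487))))))))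
noncomputable def xc102 : XT := (XT.nd (nat_lit 1482) (nat_lit 13148) (nat_lit 0) (XT.nd (nat_lit 702) (nat_lit 6916) (nat_lit 0) (XT.nd (nat_lit 312) (nat_lit 2204) (nat_lit 0) (XT.nd (nat_lit 156) (nat_lit 0) (nat_lit 0) (XT.nd (nat_lit 78) (nat_lit 1064) (nat_lit 0) (XT.lf (nat_lit 76) (nat_lit 75229167) (nat_lit 0) (nat_lit 5683516782) (nat_lit 1064) (nat_lit 1251175350) (nat_lit 661) (nat_lit 5) (nat_lit 660) (nat_lit 5) (nat_lit 674) (nat_lit 5) (nat_lit 542) (nat_lit 532) (nat_lit 486)) (XT.lf (nat_lit 0) (nat_lit 780287881) (nat_lit 1064) (nat_lit 3192887291) (nat_lit 1140) (nat_lit 3072966781) (nat_lit 646) (nat_lit 5) (nat_lit 660) (nat_lit 5) (nat_lit 661) (nat_lit 5) (nat_lit 543) (nat_lit 532) (nat_lit 485))) (XT.nd (nat_lit 78) (nat_lit 0) (nat_lit 0) (XT.lf (nat_lit 76) (nat_lit 592921128) (nat_lit 0) (nat_lit 2198461115) (nat_lit 1140) (nat_lit 4292434132) (nat_lit 647) (nat_lit 5) (nat_lit 646)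 (nat_lit 5) (nat_lit 661) (nat_lit 5) (nat_lit 544) (nat_lit 532) (nat_lit 484)) (XT.lf (nat_lit 76) (nat_lit 4467602782) (nat_lit 0) (nat_lit 349159230) (nat_lit 1140) (nat_lit 2306010674) (nat_lit 647) (nat_lit 5) (nat_lit 646) (nat_lit 5) (nat_lit 661) (nat_lit 5) (nat_lit 545) (nat_lit 532) (nat_lit 483)))) (XT.nd (nat_lit 156) (nat_lit 1140) (nat_lit 0) (XT.nd (nat_lit 78) (nat_lit 1140) (nat_lit 0) (XT.lf (nat_lit 76) (nat_lit 1232878715) (nat_lit 0) (nat_lit 5621431358) (nat_lit 1140) (nat_lit 308774317) (nat_lit 648) (nat_lit 5) (nat_lit 647) (nat_lit 5) (nat_lit 662) (nat_lit 5) (nat_lit 546) (nat_lit 532) (nat_lit 482)) (XT.lf (nat_lit 0) (nat_lit 1680062096) (nat_lit 1140) (nat_lit 2013817244) (nat_lit 1216) (nat_lit 3510621185) (nat_lit 632) (nat_lit 5) (nat_lit 647) (nat_lit 5) (nat_lit 648) (nat_lit 5) (nat_lit 547) (nat_lit 532) (nat_lit 481))) (XT.nd (nat_lit 78) (nat_lit 1140) (nat_lit 0) (XT.lf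 (nat_lit 76) (nat_lit 1974357131) (nat_lit 0) (nat_lit 1697982592) (nat_lit 1216) (nat_lit 3575017396) (nat_lit 633) (nat_lit 5) (nat_lit 632) (nat_lit 5) (nat_lit 648) (nat_lit 5) (nat_lit 548) (nat_lit 532) (nat_lit 480)) (XT.nd (nat_lit 78) (nat_lit 1216) (nat_lit 0) (XT.lf (nat_lit 0) (nat_lit 5676014516) (nat_lit 1140) (nat_lit 1254669086) (nat_lit 1216) (nat_lit 360964968) (nat_lit 633) (nat_lit 5) (nat_lit 648) (nat_lit 5) (nat_lit 649) (nat_lit 5) (nat_lit 549) (nat_lit 532) (nat_lit 479)) (XT.lf (nat_lit 0) (nat_lit 364118501) (nat_lit 1216) (nat_lit 4500047465) (nat_lit 1292) (nat_lit 2472894500) (nat_lit 617) (nat_lit 5) (nat_lit 633) (nat_lit 5) (nat_lit 634) (nat_lit 5) (nat_lit 550) (nat_lit 532) (nat_lit 478)))))) (XT.nd (nat_lit 390) (nat_lit 4408) (nat_lit 0) (XT.nd (nat_lit 156) (nat_lit 2508) (nat_lit 0) (XT.nd (nat_lit 78) (nat_lit 0) (nat_lit 0) (XT.lf (nat_lit 0) (nat_lit 2327312837) (nat_lit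 1216) (nat_lit 397377305) (nat_lit 1292) (nat_lit 4659175522) (nat_lit 617) (nat_lit 5) (nat_lit 633) (nat_lit 5) (nat_lit 634) (nat_lit 5) (nat_lit 551) (nat_lit 532) (nat_lit 477)) (XT.lf (nat_lit 76) (nat_lit 3806935812) (nat_lit 0) (nat_lit 505380439) (nat_lit 1292) (nat_lit 3119647904) (nat_lit 618) (nat_lit 5) (nat_lit 617) (nat_lit 5) (nat_lit 634) (nat_lit 5) (nat_lit 552) (nat_lit 532) (nat_lit 476))) (XT.nd (nat_lit 78) (nat_lit 1368) (nat_lit 0) (XT.lf (nat_lit 0) (nat_lit 584935926) (nat_lit 1216) (nat_lit 5728515300) (nat_lit 1292) (nat_lit 1168052693) (nat_lit 602) (nat_lit 5) (nat_lit 618) (nat_lit 5) (nat_lit 619) (nat_lit 5) (nat_lit 553) (nat_lit 532) (nat_lit 475)) (XT.nd (nat_lit 78) (nat_lit 1292) (nat_lit 0) (XT.lf (nat_lit 0) (nat_lit 798487882) (nat_lit 1292) (nat_lit 2643561176) (nat_lit 76) (nat_lit 4090152196) (nat_lit 601) (nat_lit 5) (nat_lit 618) (nat_lit 5) (nat_lit 602) (nat_lit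 5) (nat_lit 554) (nat_lit 532) (nat_lit 474)) (XT.lf (nat_lit 0) (nat_lit 1677990987) (nat_lit 1292) (nat_lit 1081311655) (nat_lit 1368) (nat_lit 4825051281) (nat_lit 584) (nat_lit 5) (nat_lit 601) (nat_lit 5) (nat_lit 602) (nat_lit 5) (nat_lit 555) (nat_lit 532) (nat_lit 473))))) (XT.nd (nat_lit 156) (nat_lit 3040) (nat_lit 0) (XT.nd (nat_lit 78) (nat_lit 1368) (nat_lit 0) (XT.lf (nat_lit 0) (nat_lit 4746130178) (nat_lit 1368) (nat_lit 1555562757) (nat_lit 76) (nat_lit 1336128110) (nat_lit 584) (nat_lit 5) (nat_lit 602) (nat_lit 5) (nat_lit 585) (nat_lit 5) (nat_lit 556) (nat_lit 532) (nat_lit 472)) (XT.lf (nat_lit 0) (nat_lit 2882062408) (nat_lit 1368) (nat_lit 3877608926) (nat_lit 1444) (nat_lit 932953819) (nat_lit 566) (nat_lit 5) (nat_lit 584) (nat_lit 5) (nat_lit 585) (nat_lit 5) (nat_lit 557) (nat_lit 532) (nat_lit 471))) (XT.nd (nat_lit 78) (nat_lit 2964) (nat_lit 0) (XT.lf (nat_lit 0) (nat_lit 1022905452)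 (nat_lit 1444) (nat_lit 356919722) (nat_lit 76) (nat_lit 6369130494) (nat_lit 565) (nat_lit 5) (nat_lit 584) (nat_lit 5) (nat_lit 566) (nat_lit 5) (nat_lit 558) (nat_lit 532) (nat_lit 470)) (XT.nd (nat_lit 78) (nat_lit 1520) (nat_lit 0) (XT.lf (nat_lit 0) (nat_lit 3002713452) (nat_lit 1520) (nat_lit 3610137023) (nat_lit 76) (nat_lit 1193499276) (nat_lit 546) (nat_lit 5) (nat_lit 566) (nat_lit 5) (nat_lit 547) (nat_lit 5) (nat_lit 559) (nat_lit 532) (nat_lit 469)) (XT.lf (nat_lit 0) (nat_lit 952610233) (nat_lit 1520) (nat_lit 4049994918) (nat_lit 1596) (nat_lit 2862683453) (nat_lit 526) (nat_lit 5) (nat_lit 546) (nat_lit 5) (nat_lit 547) (nat_lit 5) (nat_lit 560) (nat_lit 532) (nat_lit 468))))))) (XT.nd (nat_lit 702) (nat_lit 5320) (nat_lit 0) (XT.nd (nat_lit 312) (nat_lit 4484) (nat_lit 0) (XT.nd (nat_lit 156) (nat_lit 1672) (nat_lit 0) (XT.nd (nat_lit 78) (nat_lit 1672) (nat_lit 0) (XT.lf (nat_lit 0) (nat_lit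 5624621810) (nat_lit 1520) (nat_lit 1405381981) (nat_lit 1596) (nat_lit 895658768) (nat_lit 526) (nat_lit 5) (nat_lit 546) (nat_lit 5) (nat_lit 547) (nat_lit 5) (nat_lit 561) (nat_lit 532) (nat_lit 467)) (XT.lf (nat_lit 0) (nat_lit 1084031080) (nat_lit 1672) (nat_lit 5599858278) (nat_lit 76) (nat_lit 1303458825) (nat_lit 504) (nat_lit 5) (nat_lit 526) (nat_lit 5) (nat_lit 505) (nat_lit 5) (nat_lit 562) (nat_lit 532) (nat_lit 466))) (XT.nd (nat_lit 78) (nat_lit 1672) (nat_lit 0) (XT.lf (nat_lit 0) (nat_lit 3080487296) (nat_lit 1672) (nat_lit 895677014) (nat_lit 76) (nat_lit 4074207626) (nat_lit 504) (nat_lit 5) (nat_lit 526) (nat_lit 5) (nat_lit 505) (nat_lit 5) (nat_lit 563) (nat_lit 532) (nat_lit 465)) (XT.lf (nat_lit 0) (nat_lit 3923297763) (nat_lit 1672) (nat_lit 1184051066) (nat_lit 1748) (nat_lit 3007503825) (nat_lit 482) (nat_lit 5) (nat_lit 504) (nat_lit 5) (nat_lit 505) (nat_lit 5) (nat_lit 564) (nat_lit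 532) (nat_lit 464)))) (XT.nd (nat_lit 156) (nat_lit 2660) (nat_lit 0) (XT.nd (nat_lit 78) (nat_lit 76) (nat_lit 0) (XT.lf (nat_lit 0) (nat_lit 636531230) (nat_lit 1748) (nat_lit 6524719780) (nat_lit 1824) (nat_lit 1019647802) (nat_lit 459) (nat_lit 5) (nat_lit 482) (nat_lit 5) (nat_lit 483) (nat_lit 5) (nat_lit 565) (nat_lit 532) (nat_lit 463)) (XT.lf (nat_lit 0) (nat_lit 996661655) (nat_lit 1824) (nat_lit 2675798103) (nat_lit 76) (nat_lit 4575642593) (nat_lit 458) (nat_lit 5) (nat_lit 482) (nat_lit 5) (nat_lit 459) (nat_lit 5) (nat_lit 566) (nat_lit 532) (nat_lit 462))) (XT.nd (nat_lit 78) (nat_lit 988) (nat_lit 0) (XT.lf (nat_lit 0) (nat_lit 2282423135) (nat_lit 1672) (nat_lit 738484956) (nat_lit 1748) (nat_lit 5295987348) (nat_lit 436) (nat_lit 5) (nat_lit 458) (nat_lit 5) (nat_lit 459) (nat_lit 5) (nat_lit 567) (nat_lit 532) (nat_lit 461)) (XT.nd (nat_lit 78) (nat_lit 988) (nat_lit 0) (XT.lf (nat_lit 0) (nat_lit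 5085256590) (nat_lit 1748) (nat_lit 1056761166) (nat_lit 76) (nat_lit 2245059737) (nat_lit 436) (nat_lit 5) (nat_lit 459) (nat_lit 5) (nat_lit 437) (nat_lit 5) (nat_lit 568) (nat_lit 532) (nat_lit 460)) (XT.lf (nat_lit 0) (nat_lit 4037804048) (nat_lit 988) (nat_lit 3151750272) (nat_lit 1064) (nat_lit 1269140961) (nat_lit 423) (nat_lit 5) (nat_lit 436) (nat_lit 5) (nat_lit 437) (nat_lit 5) (nat_lit 569) (nat_lit 532) (nat_lit 459)))))) (XT.nd (nat_lit 390) (nat_lit 2508) (nat_lit 0) (XT.nd (nat_lit 156) (nat_lit 1824) (nat_lit 0) (XT.nd (nat_lit 78) (nat_lit 0) (nat_lit 0) (XT.lf (nat_lit 0) (nat_lit 689762687) (nat_lit 912) (nat_lit 83275673) (nat_lit 988) (nat_lit 7759019910) (nat_lit 410) (nat_lit 5) (nat_lit 422) (nat_lit 5) (nat_lit 423) (nat_lit 5) (nat_lit 570) (nat_lit 532) (nat_lit 458)) (XT.lf (nat_lit 0) (nat_lit 2856941200) (nat_lit 988) (nat_lit 2703561309) (nat_lit 76) (nat_lit 3045865787) (nat_lit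 410) (nat_lit 5) (nat_lit 423) (nat_lit 5) (nat_lit 411) (nat_lit 5) (nat_lit 571) (nat_lit 532) (nat_lit 457))) (XT.nd (nat_lit 78) (nat_lit 912) (nat_lit 0) (XT.lf (nat_lit 0) (nat_lit 2539883226) (nat_lit 912) (nat_lit 2428518738) (nat_lit 988) (nat_lit 3714049891) (nat_lit 398) (nat_lit 5) (nat_lit 410) (nat_lit 5) (nat_lit 411) (nat_lit 5) (nat_lit 572) (nat_lit 532) (nat_lit 456)) (XT.nd (nat_lit 78) (nat_lit 912) (nat_lit 0) (XT.lf (nat_lit 0) (nat_lit 7114579290) (nat_lit 988) (nat_lit 871186147) (nat_lit 76) (nat_lit 774446738) (nat_lit 398) (nat_lit 5) (nat_lit 411) (nat_lit 5) (nat_lit 399) (nat_lit 5) (nat_lit 573) (nat_lit 532) (nat_lit 455)) (XT.lf (nat_lit 0) (nat_lit 473433068) (nat_lit 912) (nat_lit 4324173283) (nat_lit 76) (nat_lit 4041558365) (nat_lit 386) (nat_lit 5) (nat_lit 398) (nat_lit 5) (nat_lit 387) (nat_lit 5) (nat_lit 574) (nat_lit 532) (nat_lit 454))))) (XT.nd (nat_lit 156) (nat_lit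 1672) (nat_lit 0) (XT.nd (nat_lit 78) (nat_lit 0) (nat_lit 0) (XT.lf (nat_lit 0) (nat_lit 1073433283) (nat_lit 836) (nat_lit 1522332570) (nat_lit 912) (nat_lit 6324059047) (nat_lit 375) (nat_lit 5) (nat_lit 386) (nat_lit 5) (nat_lit 387) (nat_lit 5) (nat_lit 575) (nat_lit 532) (nat_lit 453)) (XT.lf (nat_lit 0) (nat_lit 4771988761) (nat_lit 912) (nat_lit 2407125818) (nat_lit 76) (nat_lit 1822759307) (nat_lit 375) (nat_lit 5) (nat_lit 387) (nat_lit 5) (nat_lit 376) (nat_lit 5) (nat_lit 576) (nat_lit 532) (nat_lit 452))) (XT.nd (nat_lit 78) (nat_lit 912) (nat_lit 0) (XT.lf (nat_lit 0) (nat_lit 3141439822) (nat_lit 760) (nat_lit 3851781402) (nat_lit 836) (nat_lit 2092317306) (nat_lit 365) (nat_lit 5) (nat_lit 375) (nat_lit 5) (nat_lit 376) (nat_lit 5) (nat_lit 577) (nat_lit 532) (nat_lit 451)) (XT.nd (nat_lit 78) (nat_lit 836) (nat_lit 0) (XT.lf (nat_lit 0) (nat_lit 74292184) (nat_lit 836) (nat_lit 368415904) (nat_lit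 76) (nat_lit 8728412269) (nat_lit 364) (nat_lit 5) (nat_lit 375) (nat_lit 5) (nat_lit 365) (nat_lit 5) (nat_lit 578) (nat_lit 532) (nat_lit 450)) (XT.lf (nat_lit 0) (nat_lit 2282706879) (nat_lit 912) (nat_lit 3933186883) (nat_lit 76) (nat_lit 3041717800) (nat_lit 353) (nat_lit 5) (nat_lit 365) (nat_lit 5) (nat_lit 354) (nat_lit 5) (nat_lit 579) (nat_lit 532) (nat_lit 449))))))))
noncomputable def xc103 : XT := (XT.nd (nat_lit 1482) (nat_lit 6156) (nat_lit 0) (XT.nd (nat_lit 702) (nat_lit 3800) (nat_lit 0) (XT.nd (nat_lit 312) (nat_lit 2204) (nat_lit 0) (XT.nd (nat_lit 156) (nat_lit 1520) (nat_lit 0) (XT.nd (nat_lit 78) (nat_lit 0) (nat_lit 0) (XT.lf (nat_lit 0) (nat_lit 1780196186) (nat_lit 760) (nat_lit 2744167426) (nat_lit 836) (nat_lit 4821691549) (nat_lit 343) (nat_lit 5) (nat_lit 353) (nat_lit 5) (nat_lit 354) (nat_lit 5) (nat_lit 580) (nat_lit 532) (nat_lit 448)) (XT.lf (nat_lit 0) (nat_lit 6815023837) (nat_lit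 836) (nat_lit 1810799070) (nat_lit 76) (nat_lit 810365286) (nat_lit 343) (nat_lit 5) (nat_lit 354) (nat_lit 5) (nat_lit 344) (nat_lit 5) (nat_lit 581) (nat_lit 532) (nat_lit 447))) (XT.nd (nat_lit 78) (nat_lit 760) (nat_lit 0) (XT.lf (nat_lit 0) (nat_lit 4064224906) (nat_lit 760) (nat_lit 5104801138) (nat_lit 836) (nat_lit 358751154) (nat_lit 333) (nat_lit 5) (nat_lit 343) (nat_lit 5) (nat_lit 344) (nat_lit 5) (nat_lit 582) (nat_lit 532) (nat_lit 446)) (XT.lf (nat_lit 0) (nat_lit 422721564) (nat_lit 684) (nat_lit 1488727012) (nat_lit 760) (nat_lit 7709738100) (nat_lit 323) (nat_lit 5) (nat_lit 332) (nat_lit 5) (nat_lit 333) (nat_lit 5) (nat_lit 583) (nat_lit 532) (nat_lit 445)))) (XT.nd (nat_lit 156) (nat_lit 1444) (nat_lit 0) (XT.nd (nat_lit 78) (nat_lit 760) (nat_lit 0) (XT.lf (nat_lit 0) (nat_lit 4246869889) (nat_lit 760) (nat_lit 3262589834) (nat_lit 76) (nat_lit 2206468434) (nat_lit 323) (nat_lit 5) (nat_lit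 333) (nat_lit 5) (nat_lit 324) (nat_lit 5) (nat_lit 584) (nat_lit 532) (nat_lit 444)) (XT.lf (nat_lit 0) (nat_lit 2788580092) (nat_lit 760) (nat_lit 3842333917) (nat_lit 836) (nat_lit 3181615764) (nat_lit 313) (nat_lit 5) (nat_lit 323) (nat_lit 5) (nat_lit 324) (nat_lit 5) (nat_lit 585) (nat_lit 532) (nat_lit 443))) (XT.nd (nat_lit 78) (nat_lit 1444) (nat_lit 0) (XT.lf (nat_lit 0) (nat_lit 8975060482) (nat_lit 760) (nat_lit 83738583) (nat_lit 836) (nat_lit 852344677) (nat_lit 313) (nat_lit 5) (nat_lit 323) (nat_lit 5) (nat_lit 324) (nat_lit 5) (nat_lit 586) (nat_lit 532) (nat_lit 442)) (XT.nd (nat_lit 78) (nat_lit 684) (nat_lit 0) (XT.lf (nat_lit 0) (nat_lit 1537178427) (nat_lit 760) (nat_lit 4732454948) (nat_lit 76) (nat_lit 3741229214) (nat_lit 303) (nat_lit 5) (nat_lit 313) (nat_lit 5) (nat_lit 304) (nat_lit 5) (nat_lit 587) (nat_lit 532) (nat_lit 441)) (XT.lf (nat_lit 0) (nat_lit 1500897395) (nat_lit 684) (nat_lit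 2453693341) (nat_lit 760) (nat_lit 6158045482) (nat_lit 294) (nat_lit 5) (nat_lit 303) (nat_lit 5) (nat_lit 304) (nat_lit 5) (nat_lit 588) (nat_lit 532) (nat_lit 440)))))) (XT.nd (nat_lit 390) (nat_lit 1824) (nat_lit 0) (XT.nd (nat_lit 156) (nat_lit 1368) (nat_lit 0) (XT.nd (nat_lit 78) (nat_lit 608) (nat_lit 0) (XT.lf (nat_lit 0) (nat_lit 6436804459) (nat_lit 760) (nat_lit 2332537851) (nat_lit 76) (nat_lit 1446777201) (nat_lit 294) (nat_lit 5) (nat_lit 304) (nat_lit 5) (nat_lit 295) (nat_lit 5) (nat_lit 589) (nat_lit 532) (nat_lit 439)) (XT.lf (nat_lit 0) (nat_lit 4079854861) (nat_lit 608) (nat_lit 4907179156) (nat_lit 684) (nat_lit 1334274212) (nat_lit 286) (nat_lit 5) (nat_lit 294) (nat_lit 5) (nat_lit 295) (nat_lit 5) (nat_lit 590) (nat_lit 532) (nat_lit 438))) (XT.nd (nat_lit 78) (nat_lit 608) (nat_lit 0) (XT.lf (nat_lit 0) (nat_lit 188889389) (nat_lit 684) (nat_lit 948308213) (nat_lit 760) (nat_lit 9291400811)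 (nat_lit 276) (nat_lit 5) (nat_lit 285) (nat_lit 5) (nat_lit 286) (nat_lit 5) (nat_lit 591) (nat_lit 532) (nat_lit 437)) (XT.nd (nat_lit 78) (nat_lit 608) (nat_lit 0) (XT.lf (nat_lit 0) (nat_lit 3678474619) (nat_lit 760) (nat_lit 3763958073) (nat_lit 76) (nat_lit 3094663489) (nat_lit 276) (nat_lit 5) (nat_lit 286) (nat_lit 5) (nat_lit 277) (nat_lit 5) (nat_lit 592) (nat_lit 532) (nat_lit 436)) (XT.lf (nat_lit 0) (nat_lit 2842870688) (nat_lit 608) (nat_lit 3428918541) (nat_lit 684) (nat_lit 4375953382) (nat_lit 268) (nat_lit 5) (nat_lit 276) (nat_lit 5) (nat_lit 277) (nat_lit 5) (nat_lit 593) (nat_lit 532) (nat_lit 435))))) (XT.nd (nat_lit 156) (nat_lit 1140) (nat_lit 0) (XT.nd (nat_lit 78) (nat_lit 684) (nat_lit 0) (XT.lf (nat_lit 0) (nat_lit 8923418838) (nat_lit 684) (nat_lit 1161400514) (nat_lit 76) (nat_lit 675656532) (nat_lit 268) (nat_lit 5) (nat_lit 277) (nat_lit 5) (nat_lit 269) (nat_lit 5) (nat_lit 594)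 (nat_lit 532) (nat_lit 434)) (XT.lf (nat_lit 0) (nat_lit 779456171) (nat_lit 684) (nat_lit 5242797072) (nat_lit 76) (nat_lit 4852381435) (nat_lit 259) (nat_lit 5) (nat_lit 268) (nat_lit 5) (nat_lit 260) (nat_lit 5) (nat_lit 595) (nat_lit 532) (nat_lit 433))) (XT.nd (nat_lit 78) (nat_lit 608) (nat_lit 0) (XT.lf (nat_lit 0) (nat_lit 1564860062) (nat_lit 532) (nat_lit 1854140863) (nat_lit 608) (nat_lit 7571929597) (nat_lit 252) (nat_lit 5) (nat_lit 259) (nat_lit 5) (nat_lit 260) (nat_lit 5) (nat_lit 596) (nat_lit 532) (nat_lit 432)) (XT.nd (nat_lit 78) (nat_lit 608) (nat_lit 0) (XT.lf (nat_lit 0) (nat_lit 6139802492) (nat_lit 608) (nat_lit 2574334939) (nat_lit 76) (nat_lit 2394848202) (nat_lit 252) (nat_lit 5) (nat_lit 260) (nat_lit 5) (nat_lit 253) (nat_lit 5) (nat_lit 597) (nat_lit 532) (nat_lit 431)) (XT.lf (nat_lit 0) (nat_lit 4431426090) (nat_lit 608) (nat_lit 4502572204) (nat_lit 684) (nat_lit 2295026606) (nat_lit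 244) (nat_lit 5) (nat_lit 252) (nat_lit 5) (nat_lit 253) (nat_lit 5) (nat_lit 598) (nat_lit 532) (nat_lit 430))))))) (XT.nd (nat_lit 702) (nat_lit 2888) (nat_lit 0) (XT.nd (nat_lit 312) (nat_lit 2128) (nat_lit 0) (XT.nd (nat_lit 156) (nat_lit 532) (nat_lit 0) (XT.nd (nat_lit 78) (nat_lit 0) (nat_lit 0) (XT.lf (nat_lit 0) (nat_lit 232247630) (nat_lit 532) (nat_lit 191616099) (nat_lit 608) (nat_lit 10927609073) (nat_lit 236) (nat_lit 5) (nat_lit 243) (nat_lit 5) (nat_lit 244) (nat_lit 5) (nat_lit 599) (nat_lit 532) (nat_lit 429)) (XT.lf (nat_lit 0) (nat_lit 3217878464) (nat_lit 608) (nat_lit 4052584020) (nat_lit 76) (nat_lit 4204576703) (nat_lit 236) (nat_lit 5) (nat_lit 244) (nat_lit 5) (nat_lit 237) (nat_lit 5) (nat_lit 600) (nat_lit 532) (nat_lit 428))) (XT.nd (nat_lit 78) (nat_lit 0) (nat_lit 0) (XT.lf (nat_lit 0) (nat_lit 3167074702) (nat_lit 532) (nat_lit 2901182908) (nat_lit 608) (nat_lit 5532812023) (nat_lit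 229) (nat_lit 5) (nat_lit 236) (nat_lit 5) (nat_lit 237) (nat_lit 5) (nat_lit 601) (nat_lit 532) (nat_lit 427)) (XT.lf (nat_lit 0) (nat_lit 8991957967) (nat_lit 608) (nat_lit 1182068012) (nat_lit 76) (nat_lit 1555270808) (nat_lit 229) (nat_lit 5) (nat_lit 237) (nat_lit 5) (nat_lit 230) (nat_lit 5) (nat_lit 602) (nat_lit 532) (nat_lit 426)))) (XT.nd (nat_lit 156) (nat_lit 988) (nat_lit 0) (XT.nd (nat_lit 78) (nat_lit 532) (nat_lit 0) (XT.lf (nat_lit 0) (nat_lit 151847289) (nat_lit 608) (nat_lit 5610870298) (nat_lit 76) (nat_lit 6096572383) (nat_lit 221) (nat_lit 5) (nat_lit 229) (nat_lit 5) (nat_lit 222) (nat_lit 5) (nat_lit 603) (nat_lit 532) (nat_lit 425)) (XT.lf (nat_lit 0) (nat_lit 1829327964) (nat_lit 532) (nat_lit 1232073431) (nat_lit 608) (nat_lit 8930137235) (nat_lit 214) (nat_lit 5) (nat_lit 221) (nat_lit 5) (nat_lit 222) (nat_lit 5) (nat_lit 604) (nat_lit 532) (nat_lit 424))) (XT.nd (nat_lit 78) (nat_lit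 988) (nat_lit 0) (XT.lf (nat_lit 0) (nat_lit 6068566300) (nat_lit 608) (nat_lit 2682020665) (nat_lit 76) (nat_lit 3375059092) (nat_lit 214) (nat_lit 5) (nat_lit 222) (nat_lit 5) (nat_lit 215) (nat_lit 5) (nat_lit 605) (nat_lit 532) (nat_lit 423)) (XT.nd (nat_lit 78) (nat_lit 532) (nat_lit 0) (XT.lf (nat_lit 0) (nat_lit 4976971627) (nat_lit 456) (nat_lit 4179291441) (nat_lit 532) (nat_lit 3105766941) (nat_lit 208) (nat_lit 5) (nat_lit 214) (nat_lit 5) (nat_lit 215) (nat_lit 5) (nat_lit 606) (nat_lit 532) (nat_lit 422)) (XT.lf (nat_lit 0) (nat_lit 398606653) (nat_lit 532) (nat_lit 11911028906) (nat_lit 608) (nat_lit 91429751) (nat_lit 201) (nat_lit 5) (nat_lit 208) (nat_lit 5) (nat_lit 209) (nat_lit 5) (nat_lit 607) (nat_lit 532) (nat_lit 421)))))) (XT.nd (nat_lit 390) (nat_lit 1368) (nat_lit 0) (XT.nd (nat_lit 156) (nat_lit 988) (nat_lit 0) (XT.nd (nat_lit 78) (nat_lit 456) (nat_lit 0) (XT.lf (nat_lit 0) (nat_lit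 3001111790) (nat_lit 608) (nat_lit 4282739559) (nat_lit 76) (nat_lit 5257503758) (nat_lit 200) (nat_lit 5) (nat_lit 208) (nat_lit 5) (nat_lit 201) (nat_lit 5) (nat_lit 608) (nat_lit 532) (nat_lit 420)) (XT.lf (nat_lit 0) (nat_lit 3610511330) (nat_lit 456) (nat_lit 2547755667) (nat_lit 532) (nat_lit 6526093858) (nat_lit 194) (nat_lit 5) (nat_lit 200) (nat_lit 5) (nat_lit 201) (nat_lit 5) (nat_lit 609) (nat_lit 532) (nat_lit 419))) (XT.nd (nat_lit 78) (nat_lit 988) (nat_lit 0) (XT.lf (nat_lit 0) (nat_lit 9403012652) (nat_lit 532) (nat_lit 1152746383) (nat_lit 76) (nat_lit 2273980680) (nat_lit 194) (nat_lit 5) (nat_lit 201) (nat_lit 5) (nat_lit 195) (nat_lit 5) (nat_lit 610) (nat_lit 532) (nat_lit 418)) (XT.nd (nat_lit 78) (nat_lit 532) (nat_lit 0) (XT.lf (nat_lit 0) (nat_lit 6974156056) (nat_lit 456) (nat_lit 5781723533) (nat_lit 532) (nat_lit 221283943) (nat_lit 188) (nat_lit 5) (nat_lit 194) (nat_lit 5) (nat_lit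 195) (nat_lit 5) (nat_lit 611) (nat_lit 532) (nat_lit 417)) (XT.lf (nat_lit 0) (nat_lit 2132678164) (nat_lit 456) (nat_lit 878387456) (nat_lit 532) (nat_lit 10116020687) (nat_lit 181) (nat_lit 5) (nat_lit 187) (nat_lit 5) (nat_lit 188) (nat_lit 5) (nat_lit 612) (nat_lit 532) (nat_lit 416))))) (XT.nd (nat_lit 156) (nat_lit 912) (nat_lit 0) (XT.nd (nat_lit 78) (nat_lit 456) (nat_lit 0) (XT.lf (nat_lit 0) (nat_lit 6353702941) (nat_lit 532) (nat_lit 2822685162) (nat_lit 76) (nat_lit 4102619901) (nat_lit 181) (nat_lit 5) (nat_lit 188) (nat_lit 5) (nat_lit 182) (nat_lit 5) (nat_lit 613) (nat_lit 532) (nat_lit 415)) (XT.lf (nat_lit 0) (nat_lit 5552584589) (nat_lit 456) (nat_lit 4234125164) (nat_lit 532) (nat_lit 3646789808) (nat_lit 175) (nat_lit 5) (nat_lit 181) (nat_lit 5) (nat_lit 182) (nat_lit 5) (nat_lit 614) (nat_lit 532) (nat_lit 414))) (XT.nd (nat_lit 78) (nat_lit 532) (nat_lit 0) (XT.lf (nat_lit 0) (nat_lit 517313335)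 (nat_lit 380) (nat_lit 12780508118) (nat_lit 456) (nat_lit 293072330) (nat_lit 170) (nat_lit 5) (nat_lit 175) (nat_lit 5) (nat_lit 176) (nat_lit 5) (nat_lit 615) (nat_lit 532) (nat_lit 413)) (XT.nd (nat_lit 78) (nat_lit 456) (nat_lit 0) (XT.lf (nat_lit 0) (nat_lit 3149815996) (nat_lit 456) (nat_lit 4635833573) (nat_lit 76) (nat_lit 5964119491) (nat_lit 169) (nat_lit 5) (nat_lit 175) (nat_lit 5) (nat_lit 170) (nat_lit 5) (nat_lit 616) (nat_lit 532) (nat_lit 412)) (XT.lf (nat_lit 0) (nat_lit 3994556446) (nat_lit 456) (nat_lit 2671217655) (nat_lit 532) (nat_lit 7245847901) (nat_lit 163) (nat_lit 5) (nat_lit 169) (nat_lit 5) (nat_lit 170) (nat_lit 5) (nat_lit 617) (nat_lit 532) (nat_lit 411))))))))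
noncomputable def xc104 : XT := (XT.nd (nat_lit 75816) (nat_lit 0) (nat_lit 22800) (XT.nd (nat_lit 75114) (nat_lit 0) (nat_lit 35948) (XT.nd (nat_lit 74724) (nat_lit 0) (nat_lit 38076) (XT.nd (nat_lit 74568) (nat_lit 0) (nat_lit 39900) (XT.nd (nat_lit 78) (nat_lit 380) (nat_lit 0) (XT.lf (nat_lit 0) (nat_lit 10282211520) (nat_lit 532) (nat_lit 1259111445) (nat_lit 76) (nat_lit 2534787430) (nat_lit 163) (nat_lit 5) (nat_lit 170) (nat_lit 5) (nat_lit 164) (nat_lit 5) (nat_lit 618) (nat_lit 532) (nat_lit 410)) (XT.lf (nat_lit 0) (nat_lit 7628197215) (nat_lit 380) (nat_lit 6392662827) (nat_lit 456) (nat_lit 222032430) (nat_lit 158) (nat_lit 5) (nat_lit 163) (nat_lit 5) (nat_lit 164) (nat_lit 5) (nat_lit 619) (nat_lit 532) (nat_lit 409))) (XT.nd (nat_lit 78) (nat_lit 0) (nat_lit 0) (XT.lf (nat_lit 0) (nat_lit 671227353) (nat_lit 0) (nat_lit 671227353) (nat_lit 836) (nat_lit 2039890085) (nat_lit 683) (nat_lit 5) (nat_lit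 683) (nat_lit 3) (nat_lit 694) (nat_lit 3) (nat_lit 533) (nat_lit 533) (nat_lit 494)) (XT.lf (nat_lit 0) (nat_lit 4709572848) (nat_lit 0) (nat_lit 87246350) (nat_lit 836) (nat_lit 1993348524) (nat_lit 683) (nat_lit 5) (nat_lit 683) (nat_lit 3) (nat_lit 694) (nat_lit 3) (nat_lit 534) (nat_lit 533) (nat_lit 493)))) (XT.nd (nat_lit 156) (nat_lit 912) (nat_lit 0) (XT.nd (nat_lit 78) (nat_lit 0) (nat_lit 0) (XT.lf (nat_lit 0) (nat_lit 94506676) (nat_lit 912) (nat_lit 5508889331) (nat_lit 988) (nat_lit 1213524673) (nat_lit 671) (nat_lit 5) (nat_lit 683) (nat_lit 5) (nat_lit 684) (nat_lit 5) (nat_lit 535) (nat_lit 533) (nat_lit 492)) (XT.lf (nat_lit 0) (nat_lit 2158088007) (nat_lit 912) (nat_lit 2094338212) (nat_lit 988) (nat_lit 2592317547) (nat_lit 671) (nat_lit 5) (nat_lit 683) (nat_lit 5) (nat_lit 684) (nat_lit 5) (nat_lit 536) (nat_lit 533) (nat_lit 491))) (XT.nd (nat_lit 78) (nat_lit 912) (nat_lit 0) (XT.lf (nat_lit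 76) (nat_lit 1377977703) (nat_lit 0) (nat_lit 2840971648) (nat_lit 988) (nat_lit 2655065352) (nat_lit 672) (nat_lit 5) (nat_lit 671) (nat_lit 5) (nat_lit 684) (nat_lit 5) (nat_lit 537) (nat_lit 533) (nat_lit 490)) (XT.nd (nat_lit 78) (nat_lit 912) (nat_lit 0) (XT.lf (nat_lit 76) (nat_lit 4919718740) (nat_lit 0) (nat_lit 1363278481) (nat_lit 988) (nat_lit 621645781) (nat_lit 672) (nat_lit 5) (nat_lit 671) (nat_lit 5) (nat_lit 684) (nat_lit 5) (nat_lit 538) (nat_lit 533) (nat_lit 489)) (XT.lf (nat_lit 0) (nat_lit 1393446863) (nat_lit 988) (nat_lit 5358599201) (nat_lit 1064) (nat_lit 184459014) (nat_lit 659) (nat_lit 5) (nat_lit 672) (nat_lit 5) (nat_lit 673) (nat_lit 5) (nat_lit 539) (nat_lit 533) (nat_lit 488)))))) (XT.nd (nat_lit 312) (nat_lit 1064) (nat_lit 0) (XT.nd (nat_lit 156) (nat_lit 1064) (nat_lit 0) (XT.nd (nat_lit 78) (nat_lit 0) (nat_lit 0) (XT.lf (nat_lit 0) (nat_lit 3412517350) (nat_lit 988) (nat_lit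 1772599145) (nat_lit 1064) (nat_lit 1784376400) (nat_lit 659) (nat_lit 5) (nat_lit 672) (nat_lit 5) (nat_lit 673) (nat_lit 5) (nat_lit 540) (nat_lit 533) (nat_lit 487)) (XT.lf (nat_lit 76) (nat_lit 1880840896) (nat_lit 0) (nat_lit 3553884736) (nat_lit 1064) (nat_lit 1569170174) (nat_lit 660) (nat_lit 5) (nat_lit 659) (nat_lit 5) (nat_lit 673) (nat_lit 5) (nat_lit 541) (nat_lit 533) (nat_lit 486))) (XT.nd (nat_lit 78) (nat_lit 0) (nat_lit 0) (XT.lf (nat_lit 0) (nat_lit 415348528) (nat_lit 1064) (nat_lit 1439844488) (nat_lit 1140) (nat_lit 5184484914) (nat_lit 645) (nat_lit 5) (nat_lit 659) (nat_lit 5) (nat_lit 660) (nat_lit 5) (nat_lit 542) (nat_lit 533) (nat_lit 485)) (XT.lf (nat_lit 76) (nat_lit 2308067391) (nat_lit 0) (nat_lit 77440307) (nat_lit 1140) (nat_lit 4691131193) (nat_lit 646) (nat_lit 5) (nat_lit 645) (nat_lit 5) (nat_lit 660) (nat_lit 5) (nat_lit 543) (nat_lit 533) (nat_lit 484)))) (XT.nd (nat_lit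 156) (nat_lit 1140) (nat_lit 0) (XT.nd (nat_lit 78) (nat_lit 0) (nat_lit 0) (XT.lf (nat_lit 0) (nat_lit 4368899703) (nat_lit 1064) (nat_lit 1004753528) (nat_lit 1140) (nat_lit 1741218917) (nat_lit 646) (nat_lit 5) (nat_lit 660) (nat_lit 5) (nat_lit 661) (nat_lit 5) (nat_lit 544) (nat_lit 533) (nat_lit 483)) (XT.lf (nat_lit 76) (nat_lit 2841955326) (nat_lit 0) (nat_lit 3522726914) (nat_lit 1140) (nat_lit 789742857) (nat_lit 647) (nat_lit 5) (nat_lit 646) (nat_lit 5) (nat_lit 661) (nat_lit 5) (nat_lit 545) (nat_lit 533) (nat_lit 482))) (XT.nd (nat_lit 78) (nat_lit 0) (nat_lit 76) (XT.lf (nat_lit 0) (nat_lit 1150752643) (nat_lit 1140) (nat_lit 452860337) (nat_lit 1216) (nat_lit 5591789621) (nat_lit 631) (nat_lit 5) (nat_lit 646) (nat_lit 5) (nat_lit 647) (nat_lit 5) (nat_lit 546) (nat_lit 533) (nat_lit 481)) (XT.nd (nat_lit 78) (nat_lit 0) (nat_lit 0) (XT.lf (nat_lit 0) (nat_lit 3099839658) (nat_lit 1140) (nat_lit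 3744570743) (nat_lit 1216) (nat_lit 393086659) (nat_lit 632) (nat_lit 5) (nat_lit 647) (nat_lit 5) (nat_lit 648) (nat_lit 5) (nat_lit 547) (nat_lit 533) (nat_lit 480)) (XT.lf (nat_lit 76) (nat_lit 205656756) (nat_lit 0) (nat_lit 4853125017) (nat_lit 1216) (nat_lit 2222242926) (nat_lit 633) (nat_lit 5) (nat_lit 632) (nat_lit 5) (nat_lit 648) (nat_lit 5) (nat_lit 548) (nat_lit 533) (nat_lit 479))))))) (XT.nd (nat_lit 702) (nat_lit 8132) (nat_lit 0) (XT.nd (nat_lit 312) (nat_lit 3876) (nat_lit 0) (XT.nd (nat_lit 156) (nat_lit 0) (nat_lit 76) (XT.nd (nat_lit 78) (nat_lit 1216) (nat_lit 0) (XT.lf (nat_lit 76) (nat_lit 4256048360) (nat_lit 0) (nat_lit 2782514833) (nat_lit 1216) (nat_lit 287235076) (nat_lit 633) (nat_lit 5) (nat_lit 632) (nat_lit 5) (nat_lit 648) (nat_lit 5) (nat_lit 549) (nat_lit 533) (nat_lit 478)) (XT.lf (nat_lit 76) (nat_lit 988396623) (nat_lit 0) (nat_lit 639469436) (nat_lit 1292) (nat_lit 5744120279)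 (nat_lit 617) (nat_lit 5) (nat_lit 616) (nat_lit 5) (nat_lit 633) (nat_lit 5) (nat_lit 550) (nat_lit 533) (nat_lit 477))) (XT.nd (nat_lit 78) (nat_lit 0) (nat_lit 0) (XT.lf (nat_lit 0) (nat_lit 3566031328) (nat_lit 1216) (nat_lit 2291787049) (nat_lit 1292) (nat_lit 1561477747) (nat_lit 617) (nat_lit 5) (nat_lit 633) (nat_lit 5) (nat_lit 634) (nat_lit 5) (nat_lit 551) (nat_lit 533) (nat_lit 476)) (XT.lf (nat_lit 76) (nat_lit 1872429819) (nat_lit 0) (nat_lit 3645576976) (nat_lit 1292) (nat_lit 1950052306) (nat_lit 618) (nat_lit 5) (nat_lit 617) (nat_lit 5) (nat_lit 634) (nat_lit 5) (nat_lit 552) (nat_lit 533) (nat_lit 475)))) (XT.nd (nat_lit 156) (nat_lit 2736) (nat_lit 0) (XT.nd (nat_lit 78) (nat_lit 1216) (nat_lit 0) (XT.lf (nat_lit 76) (nat_lit 6121448278) (nat_lit 0) (nat_lit 1362226369) (nat_lit 1292) (nat_lit 34637410) (nat_lit 618) (nat_lit 5) (nat_lit 617) (nat_lit 5) (nat_lit 634) (nat_lit 5) (nat_lit 553)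 (nat_lit 533) (nat_lit 474)) (XT.lf (nat_lit 0) (nat_lit 1878979795) (nat_lit 1292) (nat_lit 4694610788) (nat_lit 76) (nat_lit 996036501) (nat_lit 601) (nat_lit 5) (nat_lit 618) (nat_lit 5) (nat_lit 602) (nat_lit 5) (nat_lit 554) (nat_lit 533) (nat_lit 473))) (XT.nd (nat_lit 78) (nat_lit 2736) (nat_lit 0) (XT.lf (nat_lit 0) (nat_lit 3809328166) (nat_lit 1292) (nat_lit 410007775) (nat_lit 76) (nat_lit 3403056766) (nat_lit 601) (nat_lit 5) (nat_lit 618) (nat_lit 5) (nat_lit 602) (nat_lit 5) (nat_lit 555) (nat_lit 533) (nat_lit 472)) (XT.nd (nat_lit 78) (nat_lit 1444) (nat_lit 0) (XT.lf (nat_lit 0) (nat_lit 3982933164) (nat_lit 1292) (nat_lit 1782450427) (nat_lit 1368) (nat_lit 1911095238) (nat_lit 584) (nat_lit 5) (nat_lit 601) (nat_lit 5) (nat_lit 602) (nat_lit 5) (nat_lit 556) (nat_lit 533) (nat_lit 471)) (XT.lf (nat_lit 0) (nat_lit 2179768) (nat_lit 1444) (nat_lit 7019959428) (nat_lit 76) (nat_lit 710037718) (nat_lit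 565) (nat_lit 5) (nat_lit 584) (nat_lit 5) (nat_lit 566) (nat_lit 5) (nat_lit 557) (nat_lit 533) (nat_lit 470)))))) (XT.nd (nat_lit 390) (nat_lit 5092) (nat_lit 0) (XT.nd (nat_lit 156) (nat_lit 1596) (nat_lit 0) (XT.nd (nat_lit 78) (nat_lit 1444) (nat_lit 0) (XT.lf (nat_lit 0) (nat_lit 1927072268) (nat_lit 1444) (nat_lit 2587490119) (nat_lit 76) (nat_lit 3274201864) (nat_lit 565) (nat_lit 5) (nat_lit 584) (nat_lit 5) (nat_lit 566) (nat_lit 5) (nat_lit 558) (nat_lit 533) (nat_lit 469)) (XT.lf (nat_lit 0) (nat_lit 1928991322) (nat_lit 1444) (nat_lit 1936901029) (nat_lit 1520) (nat_lit 3981089028) (nat_lit 546) (nat_lit 5) (nat_lit 565) (nat_lit 5) (nat_lit 566) (nat_lit 5) (nat_lit 559) (nat_lit 533) (nat_lit 468))) (XT.nd (nat_lit 78) (nat_lit 1596) (nat_lit 0) (XT.lf (nat_lit 0) (nat_lit 5828946193) (nat_lit 1520) (nat_lit 1370270398) (nat_lit 76) (nat_lit 707443620) (nat_lit 546) (nat_lit 5) (nat_lit 566) (nat_lit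 5) (nat_lit 547) (nat_lit 5) (nat_lit 560) (nat_lit 533) (nat_lit 467)) (XT.nd (nat_lit 78) (nat_lit 76) (nat_lit 0) (XT.lf (nat_lit 0) (nat_lit 3268520821) (nat_lit 1520) (nat_lit 4560988838) (nat_lit 1596) (nat_lit 138064367) (nat_lit 526) (nat_lit 5) (nat_lit 546) (nat_lit 5) (nat_lit 547) (nat_lit 5) (nat_lit 561) (nat_lit 533) (nat_lit 466)) (XT.lf (nat_lit 0) (nat_lit 1789966572) (nat_lit 1596) (nat_lit 53074197) (nat_lit 76) (nat_lit 6186958000) (nat_lit 525) (nat_lit 5) (nat_lit 546) (nat_lit 5) (nat_lit 526) (nat_lit 5) (nat_lit 562) (nat_lit 533) (nat_lit 465))))) (XT.nd (nat_lit 156) (nat_lit 1824) (nat_lit 0) (XT.nd (nat_lit 78) (nat_lit 1672) (nat_lit 0) (XT.lf (nat_lit 0) (nat_lit 3756780081) (nat_lit 1672) (nat_lit 3382855691) (nat_lit 76) (nat_lit 953982582) (nat_lit 504) (nat_lit 5) (nat_lit 526) (nat_lit 5) (nat_lit 505) (nat_lit 5) (nat_lit 563) (nat_lit 533) (nat_lit 464)) (XT.lf (nat_lit 0)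 (nat_lit 1387945693) (nat_lit 1672) (nat_lit 4362249460) (nat_lit 1748) (nat_lit 2408575766) (nat_lit 482) (nat_lit 5) (nat_lit 504) (nat_lit 5) (nat_lit 505) (nat_lit 5) (nat_lit 564) (nat_lit 533) (nat_lit 463))) (XT.nd (nat_lit 78) (nat_lit 1824) (nat_lit 0) (XT.lf (nat_lit 0) (nat_lit 6270074881) (nat_lit 1672) (nat_lit 1502272469) (nat_lit 1748) (nat_lit 453107586) (nat_lit 482) (nat_lit 5) (nat_lit 504) (nat_lit 5) (nat_lit 505) (nat_lit 5) (nat_lit 565) (nat_lit 533) (nat_lit 462)) (XT.nd (nat_lit 78) (nat_lit 0) (nat_lit 0) (XT.lf (nat_lit 0) (nat_lit 1516450539) (nat_lit 1824) (nat_lit 5347645900) (nat_lit 76) (nat_lit 1429277640) (nat_lit 458) (nat_lit 5) (nat_lit 482) (nat_lit 5) (nat_lit 459) (nat_lit 5) (nat_lit 566) (nat_lit 533) (nat_lit 461)) (XT.lf (nat_lit 0) (nat_lit 3509586041) (nat_lit 1824) (nat_lit 434356810) (nat_lit 76) (nat_lit 4418849231) (nat_lit 458) (nat_lit 5) (nat_lit 482) (nat_lit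 5) (nat_lit 459) (nat_lit 5) (nat_lit 567) (nat_lit 533) (nat_lit 460))))))))
noncomputable def xc105 : XT := (XT.nd (nat_lit 1482) (nat_lit 7524) (nat_lit 0) (XT.nd (nat_lit 702) (nat_lit 4712) (nat_lit 0) (XT.nd (nat_lit 312) (nat_lit 2660) (nat_lit 0) (XT.nd (nat_lit 156) (nat_lit 988) (nat_lit 0) (XT.nd (nat_lit 78) (nat_lit 988) (nat_lit 0) (XT.lf (nat_lit 0) (nat_lit 4607930450) (nat_lit 1672) (nat_lit 932307133) (nat_lit 1748) (nat_lit 2893413135) (nat_lit 436) (nat_lit 5) (nat_lit 458) (nat_lit 5) (nat_lit 459) (nat_lit 5) (nat_lit 568) (nat_lit 533) (nat_lit 459)) (XT.lf (nat_lit 0) (nat_lit 1223050023) (nat_lit 988) (nat_lit 6381410200) (nat_lit 1064) (nat_lit 901612375) (nat_lit 423) (nat_lit 5) (nat_lit 436) (nat_lit 5) (nat_lit 437) (nat_lit 5) (nat_lit 569) (nat_lit 533) (nat_lit 458))) (XT.nd (nat_lit 78) (nat_lit 912) (nat_lit 0) (XT.lf (nat_lit 0) (nat_lit 1115628726) (nat_lit 1064) (nat_lit 2198845424)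 (nat_lit 76) (nat_lit 5265318563) (nat_lit 422) (nat_lit 5) (nat_lit 436) (nat_lit 5) (nat_lit 423) (nat_lit 5) (nat_lit 570) (nat_lit 533) (nat_lit 457)) (XT.lf (nat_lit 0) (nat_lit 2990471544) (nat_lit 912) (nat_lit 159125347) (nat_lit 988) (nat_lit 5505506983) (nat_lit 410) (nat_lit 5) (nat_lit 422) (nat_lit 5) (nat_lit 423) (nat_lit 5) (nat_lit 571) (nat_lit 533) (nat_lit 456)))) (XT.nd (nat_lit 156) (nat_lit 1748) (nat_lit 0) (XT.nd (nat_lit 78) (nat_lit 912) (nat_lit 0) (XT.lf (nat_lit 0) (nat_lit 5228409543) (nat_lit 988) (nat_lit 468425851) (nat_lit 76) (nat_lit 3035007396) (nat_lit 410) (nat_lit 5) (nat_lit 423) (nat_lit 5) (nat_lit 411) (nat_lit 5) (nat_lit 572) (nat_lit 533) (nat_lit 455)) (XT.lf (nat_lit 0) (nat_lit 4864827005) (nat_lit 912) (nat_lit 2486658773) (nat_lit 988) (nat_lit 1458581700) (nat_lit 398) (nat_lit 5) (nat_lit 410) (nat_lit 5) (nat_lit 411) (nat_lit 5) (nat_lit 573) (nat_lit 533)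 (nat_lit 454))) (XT.nd (nat_lit 78) (nat_lit 836) (nat_lit 0) (XT.lf (nat_lit 0) (nat_lit 606699151) (nat_lit 912) (nat_lit 7489538009) (nat_lit 76) (nat_lit 793787463) (nat_lit 386) (nat_lit 5) (nat_lit 398) (nat_lit 5) (nat_lit 387) (nat_lit 5) (nat_lit 574) (nat_lit 533) (nat_lit 453)) (XT.nd (nat_lit 78) (nat_lit 836) (nat_lit 0) (XT.lf (nat_lit 0) (nat_lit 2707524379) (nat_lit 912) (nat_lit 2120973009) (nat_lit 76) (nat_lit 4142619782) (nat_lit 386) (nat_lit 5) (nat_lit 398) (nat_lit 5) (nat_lit 387) (nat_lit 5) (nat_lit 575) (nat_lit 533) (nat_lit 452)) (XT.lf (nat_lit 0) (nat_lit 3369521980) (nat_lit 836) (nat_lit 1473930130) (nat_lit 912) (nat_lit 4210522117) (nat_lit 375) (nat_lit 5) (nat_lit 386) (nat_lit 5) (nat_lit 387) (nat_lit 5) (nat_lit 576) (nat_lit 533) (nat_lit 451)))))) (XT.nd (nat_lit 390) (nat_lit 2280) (nat_lit 0) (XT.nd (nat_lit 156) (nat_lit 1596) (nat_lit 0) (XT.nd (nat_lit 78) (nat_lit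 836) (nat_lit 0) (XT.lf (nat_lit 0) (nat_lit 7020647046) (nat_lit 912) (nat_lit 182371020) (nat_lit 76) (nat_lit 1935503681) (nat_lit 375) (nat_lit 5) (nat_lit 387) (nat_lit 5) (nat_lit 376) (nat_lit 5) (nat_lit 577) (nat_lit 533) (nat_lit 450)) (XT.lf (nat_lit 0) (nat_lit 33876794) (nat_lit 836) (nat_lit 3762427471) (nat_lit 76) (nat_lit 5428108536) (nat_lit 364) (nat_lit 5) (nat_lit 375) (nat_lit 5) (nat_lit 365) (nat_lit 5) (nat_lit 578) (nat_lit 533) (nat_lit 449))) (XT.nd (nat_lit 78) (nat_lit 760) (nat_lit 0) (XT.lf (nat_lit 0) (nat_lit 1890874550) (nat_lit 836) (nat_lit 295269021) (nat_lit 912) (nat_lit 7125885395) (nat_lit 353) (nat_lit 5) (nat_lit 364) (nat_lit 5) (nat_lit 365) (nat_lit 5) (nat_lit 579) (nat_lit 533) (nat_lit 448)) (XT.nd (nat_lit 78) (nat_lit 760) (nat_lit 0) (XT.lf (nat_lit 0) (nat_lit 4400781547) (nat_lit 912) (nat_lit 1744022327) (nat_lit 76) (nat_lit 3256211031) (nat_lit 353) (nat_lit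 5) (nat_lit 365) (nat_lit 5) (nat_lit 354) (nat_lit 5) (nat_lit 580) (nat_lit 533) (nat_lit 447)) (XT.lf (nat_lit 0) (nat_lit 4068708481) (nat_lit 760) (nat_lit 2592554613) (nat_lit 836) (nat_lit 2830490341) (nat_lit 343) (nat_lit 5) (nat_lit 353) (nat_lit 5) (nat_lit 354) (nat_lit 5) (nat_lit 581) (nat_lit 533) (nat_lit 446))))) (XT.nd (nat_lit 156) (nat_lit 1444) (nat_lit 0) (XT.nd (nat_lit 78) (nat_lit 76) (nat_lit 0) (XT.lf (nat_lit 0) (nat_lit 406145433) (nat_lit 760) (nat_lit 8555416747) (nat_lit 836) (nat_lit 622856210) (nat_lit 333) (nat_lit 5) (nat_lit 343) (nat_lit 5) (nat_lit 344) (nat_lit 5) (nat_lit 582) (nat_lit 533) (nat_lit 445)) (XT.lf (nat_lit 0) (nat_lit 1635017725) (nat_lit 836) (nat_lit 3310596760) (nat_lit 76) (nat_lit 4732565284) (nat_lit 332) (nat_lit 5) (nat_lit 343) (nat_lit 5) (nat_lit 333) (nat_lit 5) (nat_lit 583) (nat_lit 533) (nat_lit 444))) (XT.nd (nat_lit 78) (nat_lit 760) (nat_lit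 0) (XT.lf (nat_lit 0) (nat_lit 2676159299) (nat_lit 684) (nat_lit 1245098793) (nat_lit 760) (nat_lit 5852648555) (nat_lit 323) (nat_lit 5) (nat_lit 332) (nat_lit 5) (nat_lit 333) (nat_lit 5) (nat_lit 584) (nat_lit 533) (nat_lit 443)) (XT.nd (nat_lit 78) (nat_lit 760) (nat_lit 0) (XT.lf (nat_lit 0) (nat_lit 6266469695) (nat_lit 760) (nat_lit 1089692656) (nat_lit 76) (nat_lit 2515124306) (nat_lit 323) (nat_lit 5) (nat_lit 333) (nat_lit 5) (nat_lit 324) (nat_lit 5) (nat_lit 585) (nat_lit 533) (nat_lit 442)) (XT.lf (nat_lit 0) (nat_lit 5067776005) (nat_lit 760) (nat_lit 3606920080) (nat_lit 836) (nat_lit 1295599423) (nat_lit 313) (nat_lit 5) (nat_lit 323) (nat_lit 5) (nat_lit 324) (nat_lit 5) (nat_lit 586) (nat_lit 533) (nat_lit 441))))))) (XT.nd (nat_lit 702) (nat_lit 3496) (nat_lit 0) (XT.nd (nat_lit 312) (nat_lit 2584) (nat_lit 0) (XT.nd (nat_lit 156) (nat_lit 684) (nat_lit 0) (XT.nd (nat_lit 78) (nat_lit 0) (nat_lit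 0) (XT.lf (nat_lit 0) (nat_lit 1038157979) (nat_lit 760) (nat_lit 8800189451) (nat_lit 76) (nat_lit 232957708) (nat_lit 303) (nat_lit 5) (nat_lit 313) (nat_lit 5) (nat_lit 304) (nat_lit 5) (nat_lit 587) (nat_lit 533) (nat_lit 440)) (XT.lf (nat_lit 0) (nat_lit 3433632873) (nat_lit 760) (nat_lit 2601068994) (nat_lit 76) (nat_lit 4138817260) (nat_lit 303) (nat_lit 5) (nat_lit 313) (nat_lit 5) (nat_lit 304) (nat_lit 5) (nat_lit 588) (nat_lit 533) (nat_lit 439))) (XT.nd (nat_lit 78) (nat_lit 0) (nat_lit 0) (XT.lf (nat_lit 0) (nat_lit 3742305429) (nat_lit 684) (nat_lit 2134863245) (nat_lit 760) (nat_lit 4400608883) (nat_lit 294) (nat_lit 5) (nat_lit 303) (nat_lit 5) (nat_lit 304) (nat_lit 5) (nat_lit 589) (nat_lit 533) (nat_lit 438)) (XT.lf (nat_lit 0) (nat_lit 8375221724) (nat_lit 760) (nat_lit 177117240) (nat_lit 76) (nat_lit 1831672388) (nat_lit 294) (nat_lit 5) (nat_lit 304) (nat_lit 5) (nat_lit 295) (nat_lit 5)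 (nat_lit 590) (nat_lit 533) (nat_lit 437)))) (XT.nd (nat_lit 156) (nat_lit 1216) (nat_lit 0) (XT.nd (nat_lit 78) (nat_lit 684) (nat_lit 0) (XT.lf (nat_lit 0) (nat_lit 457362957) (nat_lit 684) (nat_lit 4145707058) (nat_lit 76) (nat_lit 5888603911) (nat_lit 285) (nat_lit 5) (nat_lit 294) (nat_lit 5) (nat_lit 286) (nat_lit 5) (nat_lit 591) (nat_lit 533) (nat_lit 436)) (XT.lf (nat_lit 0) (nat_lit 2389855387) (nat_lit 684) (nat_lit 549521792) (nat_lit 760) (nat_lit 7661981230) (nat_lit 276) (nat_lit 5) (nat_lit 285) (nat_lit 5) (nat_lit 286) (nat_lit 5) (nat_lit 592) (nat_lit 533) (nat_lit 435))) (XT.nd (nat_lit 78) (nat_lit 1216) (nat_lit 0) (XT.lf (nat_lit 0) (nat_lit 5499247986) (nat_lit 760) (nat_lit 1652680513) (nat_lit 76) (nat_lit 3560746645) (nat_lit 276) (nat_lit 5) (nat_lit 286) (nat_lit 5) (nat_lit 277) (nat_lit 5) (nat_lit 593) (nat_lit 533) (nat_lit 434)) (XT.nd (nat_lit 78) (nat_lit 608) (nat_lit 0) (XT.lf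 (nat_lit 0) (nat_lit 5071899581) (nat_lit 608) (nat_lit 3052373585) (nat_lit 684) (nat_lit 2701668743) (nat_lit 268) (nat_lit 5) (nat_lit 276) (nat_lit 5) (nat_lit 277) (nat_lit 5) (nat_lit 594) (nat_lit 533) (nat_lit 433)) (XT.lf (nat_lit 0) (nat_lit 989165138) (nat_lit 608) (nat_lit 9815162225) (nat_lit 684) (nat_lit 137098854) (nat_lit 260) (nat_lit 5) (nat_lit 268) (nat_lit 5) (nat_lit 269) (nat_lit 5) (nat_lit 595) (nat_lit 533) (nat_lit 432)))))) (XT.nd (nat_lit 390) (nat_lit 1672) (nat_lit 0) (XT.nd (nat_lit 156) (nat_lit 1216) (nat_lit 0) (XT.nd (nat_lit 78) (nat_lit 532) (nat_lit 0) (XT.lf (nat_lit 0) (nat_lit 2483052581) (nat_lit 684) (nat_lit 3178413412) (nat_lit 76) (nat_lit 5396699020) (nat_lit 259) (nat_lit 5) (nat_lit 268) (nat_lit 5) (nat_lit 260) (nat_lit 5) (nat_lit 596) (nat_lit 533) (nat_lit 431)) (XT.lf (nat_lit 0) (nat_lit 3751125552) (nat_lit 532) (nat_lit 1405155979) (nat_lit 608) (nat_lit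 6020891341) (nat_lit 252) (nat_lit 5) (nat_lit 259) (nat_lit 5) (nat_lit 260) (nat_lit 5) (nat_lit 597) (nat_lit 533) (nat_lit 430))) (XT.nd (nat_lit 78) (nat_lit 1216) (nat_lit 0) (XT.lf (nat_lit 0) (nat_lit 7901869583) (nat_lit 608) (nat_lit 483283721) (nat_lit 76) (nat_lit 2913032260) (nat_lit 252) (nat_lit 5) (nat_lit 260) (nat_lit 5) (nat_lit 253) (nat_lit 5) (nat_lit 598) (nat_lit 533) (nat_lit 429)) (XT.nd (nat_lit 78) (nat_lit 608) (nat_lit 0) (XT.lf (nat_lit 0) (nat_lit 6648496885) (nat_lit 608) (nat_lit 4085129106) (nat_lit 684) (nat_lit 687369903) (nat_lit 244) (nat_lit 5) (nat_lit 252) (nat_lit 5) (nat_lit 253) (nat_lit 5) (nat_lit 599) (nat_lit 533) (nat_lit 428)) (XT.lf (nat_lit 0) (nat_lit 2048206462) (nat_lit 608) (nat_lit 9175105661) (nat_lit 76) (nat_lit 322689675) (nat_lit 236) (nat_lit 5) (nat_lit 244) (nat_lit 5) (nat_lit 237) (nat_lit 5) (nat_lit 600) (nat_lit 533) (nat_lit 427))))) (XT.nd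 (nat_lit 156) (nat_lit 1140) (nat_lit 0) (XT.nd (nat_lit 78) (nat_lit 532) (nat_lit 0) (XT.lf (nat_lit 0) (nat_lit 4867661953) (nat_lit 608) (nat_lit 2010856255) (nat_lit 76) (nat_lit 4794133684) (nat_lit 236) (nat_lit 5) (nat_lit 244) (nat_lit 5) (nat_lit 237) (nat_lit 5) (nat_lit 601) (nat_lit 533) (nat_lit 426)) (XT.lf (nat_lit 0) (nat_lit 5339229987) (nat_lit 532) (nat_lit 2418423731) (nat_lit 608) (nat_lit 4043900651) (nat_lit 229) (nat_lit 5) (nat_lit 236) (nat_lit 5) (nat_lit 237) (nat_lit 5) (nat_lit 602) (nat_lit 533) (nat_lit 425))) (XT.nd (nat_lit 78) (nat_lit 608) (nat_lit 0) (XT.lf (nat_lit 0) (nat_lit 901048558) (nat_lit 532) (nat_lit 9817326298) (nat_lit 608) (nat_lit 1214403725) (nat_lit 222) (nat_lit 5) (nat_lit 229) (nat_lit 5) (nat_lit 230) (nat_lit 5) (nat_lit 603) (nat_lit 533) (nat_lit 424)) (XT.nd (nat_lit 78) (nat_lit 532) (nat_lit 0) (XT.lf (nat_lit 0) (nat_lit 1689173569) (nat_lit 608)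 (nat_lit 3621373907) (nat_lit 76) (nat_lit 6755076622) (nat_lit 221) (nat_lit 5) (nat_lit 229) (nat_lit 5) (nat_lit 222) (nat_lit 5) (nat_lit 604) (nat_lit 533) (nat_lit 423)) (XT.lf (nat_lit 0) (nat_lit 3953801255) (nat_lit 532) (nat_lit 686589342) (nat_lit 608) (nat_lit 7560460949) (nat_lit 214) (nat_lit 5) (nat_lit 221) (nat_lit 5) (nat_lit 222) (nat_lit 5) (nat_lit 605) (nat_lit 533) (nat_lit 422))))))))
noncomputable def xc106 : XT := (XT.nd (nat_lit 75972) (nat_lit 0) (nat_lit 32300) (XT.nd (nat_lit 702) (nat_lit 1748) (nat_lit 0) (XT.nd (nat_lit 312) (nat_lit 1444) (nat_lit 0) (XT.nd (nat_lit 156) (nat_lit 608) (nat_lit 0) (XT.nd (nat_lit 78) (nat_lit 456) (nat_lit 0) (XT.lf (nat_lit 0) (nat_lit 7681567830) (nat_lit 608) (nat_lit 662422887) (nat_lit 76) (nat_lit 3994176214) (nat_lit 214) (nat_lit 5) (nat_lit 222) (nat_lit 5) (nat_lit 215) (nat_lit 5) (nat_lit 606) (nat_lit 533) (nat_lit 421)) (XT.lf (nat_lit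 0) (nat_lit 7136109526) (nat_lit 456) (nat_lit 3679033636) (nat_lit 532) (nat_lit 1662456034) (nat_lit 208) (nat_lit 5) (nat_lit 214) (nat_lit 5) (nat_lit 215) (nat_lit 5) (nat_lit 607) (nat_lit 533) (nat_lit 420))) (XT.nd (nat_lit 78) (nat_lit 0) (nat_lit 0) (XT.lf (nat_lit 0) (nat_lit 1381797336) (nat_lit 608) (nat_lit 10150406706) (nat_lit 76) (nat_lit 1087267785) (nat_lit 200) (nat_lit 5) (nat_lit 208) (nat_lit 5) (nat_lit 201) (nat_lit 5) (nat_lit 608) (nat_lit 533) (nat_lit 419)) (XT.lf (nat_lit 0) (nat_lit 4506067931) (nat_lit 608) (nat_lit 2317908439) (nat_lit 76) (nat_lit 5939159860) (nat_lit 200) (nat_lit 5) (nat_lit 208) (nat_lit 5) (nat_lit 201) (nat_lit 5) (nat_lit 609) (nat_lit 533) (nat_lit 418)))) (XT.nd (nat_lit 156) (nat_lit 532) (nat_lit 0) (XT.nd (nat_lit 78) (nat_lit 456) (nat_lit 0) (XT.lf (nat_lit 0) (nat_lit 5719717429) (nat_lit 456) (nat_lit 1991542304) (nat_lit 532) (nat_lit 5198047378)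 (nat_lit 194) (nat_lit 5) (nat_lit 200) (nat_lit 5) (nat_lit 201) (nat_lit 5) (nat_lit 610) (nat_lit 533) (nat_lit 417)) (XT.lf (nat_lit 0) (nat_lit 856803162) (nat_lit 456) (nat_lit 10145489086) (nat_lit 532) (nat_lit 2055676294) (nat_lit 188) (nat_lit 5) (nat_lit 194) (nat_lit 5) (nat_lit 195) (nat_lit 5) (nat_lit 611) (nat_lit 533) (nat_lit 416))) (XT.nd (nat_lit 78) (nat_lit 456) (nat_lit 0) (XT.lf (nat_lit 0) (nat_lit 1177732614) (nat_lit 532) (nat_lit 4094785540) (nat_lit 76) (nat_lit 7936072234) (nat_lit 187) (nat_lit 5) (nat_lit 194) (nat_lit 5) (nat_lit 188) (nat_lit 5) (nat_lit 612) (nat_lit 533) (nat_lit 415)) (XT.nd (nat_lit 78) (nat_lit 0) (nat_lit 0) (XT.lf (nat_lit 0) (nat_lit 4188814036) (nat_lit 456) (nat_lit 268567342) (nat_lit 532) (nat_lit 8904391351) (nat_lit 181) (nat_lit 5) (nat_lit 187) (nat_lit 5) (nat_lit 188) (nat_lit 5) (nat_lit 613) (nat_lit 533) (nat_lit 414)) (XT.lf (nat_lit 0) (nat_lit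 7843686670) (nat_lit 532) (nat_lit 881821027) (nat_lit 76) (nat_lit 4791691475) (nat_lit 181) (nat_lit 5) (nat_lit 188) (nat_lit 5) (nat_lit 182) (nat_lit 5) (nat_lit 614) (nat_lit 533) (nat_lit 413)))))) (XT.nd (nat_lit 74880) (nat_lit 0) (nat_lit 38000) (XT.nd (nat_lit 156) (nat_lit 836) (nat_lit 0) (XT.nd (nat_lit 78) (nat_lit 456) (nat_lit 0) (XT.lf (nat_lit 0) (nat_lit 7647813871) (nat_lit 456) (nat_lit 3683698626) (nat_lit 532) (nat_lit 2343547451) (nat_lit 175) (nat_lit 5) (nat_lit 181) (nat_lit 5) (nat_lit 182) (nat_lit 5) (nat_lit 615) (nat_lit 533) (nat_lit 412)) (XT.lf (nat_lit 0) (nat_lit 1053587442) (nat_lit 456) (nat_lit 11321107111) (nat_lit 76) (nat_lit 1460960655) (nat_lit 169) (nat_lit 5) (nat_lit 175) (nat_lit 5) (nat_lit 170) (nat_lit 5) (nat_lit 616) (nat_lit 533) (nat_lit 411))) (XT.nd (nat_lit 78) (nat_lit 836) (nat_lit 0) (XT.lf (nat_lit 0) (nat_lit 4534969815) (nat_lit 456) (nat_lit 2755997235)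 (nat_lit 76) (nat_lit 6707233404) (nat_lit 169) (nat_lit 5) (nat_lit 175) (nat_lit 5) (nat_lit 170) (nat_lit 5) (nat_lit 617) (nat_lit 533) (nat_lit 410)) (XT.nd (nat_lit 78) (nat_lit 380) (nat_lit 0) (XT.lf (nat_lit 0) (nat_lit 6034023263) (nat_lit 456) (nat_lit 2074022027) (nat_lit 532) (nat_lit 6055511569) (nat_lit 163) (nat_lit 5) (nat_lit 169) (nat_lit 5) (nat_lit 170) (nat_lit 5) (nat_lit 618) (nat_lit 533) (nat_lit 409)) (XT.lf (nat_lit 0) (nat_lit 667250588) (nat_lit 380) (nat_lit 11112368731) (nat_lit 456) (nat_lit 2552061865) (nat_lit 158) (nat_lit 5) (nat_lit 163) (nat_lit 5) (nat_lit 164) (nat_lit 5) (nat_lit 619) (nat_lit 533) (nat_lit 408))))) (XT.nd (nat_lit 156) (nat_lit 912) (nat_lit 0) (XT.nd (nat_lit 78) (nat_lit 0) (nat_lit 0) (XT.lf (nat_lit 0) (nat_lit 32300914) (nat_lit 988) (nat_lit 1687895776) (nat_lit 988) (nat_lit 1687895776) (nat_lit 670) (nat_lit 3) (nat_lit 683) (nat_lit 3) (nat_lit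 683) (nat_lit 5) (nat_lit 534) (nat_lit 534) (nat_lit 492)) (XT.lf (nat_lit 0) (nat_lit 2083058739) (nat_lit 988) (nat_lit 22859112) (nat_lit 988) (nat_lit 4737632140) (nat_lit 670) (nat_lit 3) (nat_lit 683) (nat_lit 3) (nat_lit 683) (nat_lit 5) (nat_lit 535) (nat_lit 534) (nat_lit 491))) (XT.nd (nat_lit 78) (nat_lit 912) (nat_lit 0) (XT.lf (nat_lit 76) (nat_lit 3414920261) (nat_lit 0) (nat_lit 696208547) (nat_lit 988) (nat_lit 2760960214) (nat_lit 671) (nat_lit 5) (nat_lit 670) (nat_lit 3) (nat_lit 683) (nat_lit 5) (nat_lit 536) (nat_lit 534) (nat_lit 490)) (XT.nd (nat_lit 78) (nat_lit 988) (nat_lit 0) (XT.lf (nat_lit 0) (nat_lit 6132829916) (nat_lit 912) (nat_lit 12285169) (nat_lit 988) (nat_lit 757033687) (nat_lit 671) (nat_lit 5) (nat_lit 683) (nat_lit 5) (nat_lit 684) (nat_lit 5) (nat_lit 537) (nat_lit 534) (nat_lit 489)) (XT.lf (nat_lit 0) (nat_lit 1221988629) (nat_lit 988) (nat_lit 3425825390) (nat_lit 1064)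 (nat_lit 2285314960) (nat_lit 658) (nat_lit 5) (nat_lit 671) (nat_lit 5) (nat_lit 672) (nat_lit 5) (nat_lit 538) (nat_lit 534) (nat_lit 488))))))) (XT.nd (nat_lit 702) (nat_lit 3648) (nat_lit 0) (XT.nd (nat_lit 312) (nat_lit 1064) (nat_lit 0) (XT.nd (nat_lit 156) (nat_lit 988) (nat_lit 0) (XT.nd (nat_lit 78) (nat_lit 0) (nat_lit 0) (XT.lf (nat_lit 76) (nat_lit 100964490) (nat_lit 0) (nat_lit 3092200157) (nat_lit 1064) (nat_lit 3772466242) (nat_lit 659) (nat_lit 5) (nat_lit 658) (nat_lit 5) (nat_lit 672) (nat_lit 5) (nat_lit 539) (nat_lit 534) (nat_lit 487)) (XT.lf (nat_lit 76) (nat_lit 3716924450) (nat_lit 0) (nat_lit 1460232053) (nat_lit 1064) (nat_lit 1822168957) (nat_lit 659) (nat_lit 5) (nat_lit 658) (nat_lit 5) (nat_lit 672) (nat_lit 5) (nat_lit 540) (nat_lit 534) (nat_lit 486))) (XT.nd (nat_lit 78) (nat_lit 0) (nat_lit 0) (XT.lf (nat_lit 0) (nat_lit 119724807) (nat_lit 1064) (nat_lit 6689044904) (nat_lit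 1140) (nat_lit 225816918) (nat_lit 645) (nat_lit 5) (nat_lit 659) (nat_lit 5) (nat_lit 660) (nat_lit 5) (nat_lit 541) (nat_lit 534) (nat_lit 485)) (XT.lf (nat_lit 0) (nat_lit 2059879470) (nat_lit 1064) (nat_lit 3030300602) (nat_lit 1140) (nat_lit 1980465484) (nat_lit 645) (nat_lit 5) (nat_lit 659) (nat_lit 5) (nat_lit 660) (nat_lit 5) (nat_lit 542) (nat_lit 534) (nat_lit 484)))) (XT.nd (nat_lit 156) (nat_lit 1064) (nat_lit 0) (XT.nd (nat_lit 78) (nat_lit 0) (nat_lit 0) (XT.lf (nat_lit 76) (nat_lit 682290862) (nat_lit 0) (nat_lit 3313874424) (nat_lit 1140) (nat_lit 3112123486) (nat_lit 646) (nat_lit 5) (nat_lit 645) (nat_lit 5) (nat_lit 660) (nat_lit 5) (nat_lit 543) (nat_lit 534) (nat_lit 483)) (XT.lf (nat_lit 76) (nat_lit 4482120614) (nat_lit 0) (nat_lit 1463030476) (nat_lit 1140) (nat_lit 1202063756) (nat_lit 646) (nat_lit 5) (nat_lit 645) (nat_lit 5) (nat_lit 660) (nat_lit 5) (nat_lit 544) (nat_lit 534) (nat_lit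 482))) (XT.nd (nat_lit 78) (nat_lit 0) (nat_lit 0) (XT.lf (nat_lit 0) (nat_lit 701090141) (nat_lit 1140) (nat_lit 6037401467) (nat_lit 1216) (nat_lit 449046460) (nat_lit 631) (nat_lit 5) (nat_lit 646) (nat_lit 5) (nat_lit 647) (nat_lit 5) (nat_lit 545) (nat_lit 534) (nat_lit 481)) (XT.nd (nat_lit 78) (nat_lit 0) (nat_lit 0) (XT.lf (nat_lit 0) (nat_lit 2608982853) (nat_lit 1140) (nat_lit 2197272050) (nat_lit 1216) (nat_lit 2422607444) (nat_lit 631) (nat_lit 5) (nat_lit 646) (nat_lit 5) (nat_lit 647) (nat_lit 5) (nat_lit 546) (nat_lit 534) (nat_lit 480)) (XT.lf (nat_lit 76) (nat_lit 1713712050) (nat_lit 0) (nat_lit 2808393766) (nat_lit 1216) (nat_lit 2749574607) (nat_lit 632) (nat_lit 5) (nat_lit 631) (nat_lit 5) (nat_lit 647) (nat_lit 5) (nat_lit 547) (nat_lit 534) (nat_lit 479)))))) (XT.nd (nat_lit 390) (nat_lit 2508) (nat_lit 0) (XT.nd (nat_lit 156) (nat_lit 0) (nat_lit 0) (XT.nd (nat_lit 78) (nat_lit 1140) (nat_lit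 0) (XT.lf (nat_lit 76) (nat_lit 5704463885) (nat_lit 0) (nat_lit 740398524) (nat_lit 1216) (nat_lit 871073615) (nat_lit 632) (nat_lit 5) (nat_lit 631) (nat_lit 5) (nat_lit 647) (nat_lit 5) (nat_lit 548) (nat_lit 534) (nat_lit 478)) (XT.lf (nat_lit 0) (nat_lit 1013260890) (nat_lit 1216) (nat_lit 4960100239) (nat_lit 1292) (nat_lit 1387948787) (nat_lit 616) (nat_lit 5) (nat_lit 632) (nat_lit 5) (nat_lit 633) (nat_lit 5) (nat_lit 549) (nat_lit 534) (nat_lit 477))) (XT.nd (nat_lit 78) (nat_lit 0) (nat_lit 0) (XT.lf (nat_lit 0) (nat_lit 2897353545) (nat_lit 1216) (nat_lit 931146391) (nat_lit 1292) (nat_lit 3579509583) (nat_lit 616) (nat_lit 5) (nat_lit 632) (nat_lit 5) (nat_lit 633) (nat_lit 5) (nat_lit 550) (nat_lit 534) (nat_lit 476)) (XT.nd (nat_lit 78) (nat_lit 0) (nat_lit 76) (XT.lf (nat_lit 76) (nat_lit 3191799693) (nat_lit 0) (nat_lit 1606811924) (nat_lit 1292) (nat_lit 2657449760) (nat_lit 617) (nat_lit 5) (nat_lit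 616) (nat_lit 5) (nat_lit 633) (nat_lit 5) (nat_lit 551) (nat_lit 534) (nat_lit 475)) (XT.lf (nat_lit 0) (nat_lit 6707931018) (nat_lit 1216) (nat_lit 128605714) (nat_lit 1292) (nat_lit 669144593) (nat_lit 617) (nat_lit 5) (nat_lit 633) (nat_lit 5) (nat_lit 634) (nat_lit 5) (nat_lit 552) (nat_lit 534) (nat_lit 474))))) (XT.nd (nat_lit 156) (nat_lit 1292) (nat_lit 0) (XT.nd (nat_lit 78) (nat_lit 0) (nat_lit 0) (XT.lf (nat_lit 0) (nat_lit 1082253723) (nat_lit 1292) (nat_lit 3459107908) (nat_lit 1368) (nat_lit 3014846267) (nat_lit 600) (nat_lit 5) (nat_lit 617) (nat_lit 5) (nat_lit 618) (nat_lit 5) (nat_lit 553) (nat_lit 534) (nat_lit 473)) (XT.lf (nat_lit 76) (nat_lit 777308864) (nat_lit 0) (nat_lit 2178381226) (nat_lit 1368) (nat_lit 4652626498) (nat_lit 601) (nat_lit 5) (nat_lit 600) (nat_lit 5) (nat_lit 618) (nat_lit 5) (nat_lit 554) (nat_lit 534) (nat_lit 472))) (XT.nd (nat_lit 78) (nat_lit 1368) (nat_lit 0) (XT.lf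 (nat_lit 0) (nat_lit 4852706966) (nat_lit 1292) (nat_lit 2546910234) (nat_lit 76) (nat_lit 262135198) (nat_lit 601) (nat_lit 5) (nat_lit 618) (nat_lit 5) (nat_lit 602) (nat_lit 5) (nat_lit 555) (nat_lit 534) (nat_lit 471)) (XT.nd (nat_lit 78) (nat_lit 76) (nat_lit 0) (XT.lf (nat_lit 0) (nat_lit 1803079753) (nat_lit 1292) (nat_lit 4972717820) (nat_lit 1368) (nat_lit 940703730) (nat_lit 584) (nat_lit 5) (nat_lit 601) (nat_lit 5) (nat_lit 602) (nat_lit 5) (nat_lit 556) (nat_lit 534) (nat_lit 470)) (XT.lf (nat_lit 0) (nat_lit 931856328) (nat_lit 1368) (nat_lit 1533116100) (nat_lit 76) (nat_lit 5307664064) (nat_lit 583) (nat_lit 5) (nat_lit 601) (nat_lit 5) (nat_lit 584) (nat_lit 5) (nat_lit 557) (nat_lit 534) (nat_lit 469))))))))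
noncomputable def xc107 : XT := (XT.nd (nat_lit 1482) (nat_lit 8132) (nat_lit 0) (XT.nd (nat_lit 702) (nat_lit 6308) (nat_lit 0) (XT.nd (nat_lit 312) (nat_lit 5092) (nat_lit 0) (XT.nd (nat_lit 156) (nat_lit 3040) (nat_lit 0) (XT.nd (nat_lit 78) (nat_lit 0) (nat_lit 0) (XT.lf (nat_lit 0) (nat_lit 2812227863) (nat_lit 1444) (nat_lit 4892608245) (nat_lit 76) (nat_lit 125281428) (nat_lit 565) (nat_lit 5) (nat_lit 584) (nat_lit 5) (nat_lit 566) (nat_lit 5) (nat_lit 558) (nat_lit 534) (nat_lit 468)) (XT.lf (nat_lit 0) (nat_lit 4720520086) (nat_lit 1444) (nat_lit 415955244) (nat_lit 76) (nat_lit 2752473113) (nat_lit 565) (nat_lit 5) (nat_lit 584) (nat_lit 5) (nat_lit 566) (nat_lit 5) (nat_lit 559) (nat_lit 534) (nat_lit 467))) (XT.nd (nat_lit 78) (nat_lit 1596) (nat_lit 0) (XT.lf (nat_lit 0) (nat_lit 4176228954) (nat_lit 1444) (nat_lit 2482209917) (nat_lit 1520) (nat_lit 1290694263) (nat_lit 546) (nat_lit 5) (nat_lit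 565) (nat_lit 5) (nat_lit 566) (nat_lit 5) (nat_lit 560) (nat_lit 534) (nat_lit 466)) (XT.lf (nat_lit 0) (nat_lit 590827010) (nat_lit 1596) (nat_lit 7179351059) (nat_lit 76) (nat_lit 240779992) (nat_lit 525) (nat_lit 5) (nat_lit 546) (nat_lit 5) (nat_lit 526) (nat_lit 5) (nat_lit 561) (nat_lit 534) (nat_lit 465)))) (XT.nd (nat_lit 156) (nat_lit 3496) (nat_lit 0) (XT.nd (nat_lit 78) (nat_lit 1596) (nat_lit 0) (XT.lf (nat_lit 0) (nat_lit 2499802529) (nat_lit 1596) (nat_lit 2548927925) (nat_lit 76) (nat_lit 3024982291) (nat_lit 525) (nat_lit 5) (nat_lit 546) (nat_lit 5) (nat_lit 526) (nat_lit 5) (nat_lit 562) (nat_lit 534) (nat_lit 464)) (XT.lf (nat_lit 0) (nat_lit 2173579053) (nat_lit 1596) (nat_lit 2253339590) (nat_lit 1672) (nat_lit 3711210553) (nat_lit 504) (nat_lit 5) (nat_lit 525) (nat_lit 5) (nat_lit 526) (nat_lit 5) (nat_lit 563) (nat_lit 534) (nat_lit 463))) (XT.nd (nat_lit 78) (nat_lit 3496) (nat_lit 0)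 (XT.lf (nat_lit 0) (nat_lit 6380039847) (nat_lit 1672) (nat_lit 1211950951) (nat_lit 76) (nat_lit 612099700) (nat_lit 504) (nat_lit 5) (nat_lit 526) (nat_lit 5) (nat_lit 505) (nat_lit 5) (nat_lit 564) (nat_lit 534) (nat_lit 462)) (XT.nd (nat_lit 78) (nat_lit 1748) (nat_lit 0) (XT.lf (nat_lit 0) (nat_lit 105136214) (nat_lit 1748) (nat_lit 4632417795) (nat_lit 76) (nat_lit 3533697346) (nat_lit 481) (nat_lit 5) (nat_lit 504) (nat_lit 5) (nat_lit 482) (nat_lit 5) (nat_lit 565) (nat_lit 534) (nat_lit 461)) (XT.lf (nat_lit 0) (nat_lit 225065915) (nat_lit 1748) (nat_lit 1800348644) (nat_lit 1824) (nat_lit 6314566541) (nat_lit 458) (nat_lit 5) (nat_lit 481) (nat_lit 5) (nat_lit 482) (nat_lit 5) (nat_lit 566) (nat_lit 534) (nat_lit 460)))))) (XT.nd (nat_lit 390) (nat_lit 3572) (nat_lit 0) (XT.nd (nat_lit 156) (nat_lit 1064) (nat_lit 0) (XT.nd (nat_lit 78) (nat_lit 1672) (nat_lit 0) (XT.lf (nat_lit 0) (nat_lit 3990888524)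 (nat_lit 1824) (nat_lit 3204640724) (nat_lit 76) (nat_lit 1214425729) (nat_lit 458) (nat_lit 5) (nat_lit 482) (nat_lit 5) (nat_lit 459) (nat_lit 5) (nat_lit 567) (nat_lit 534) (nat_lit 459)) (XT.lf (nat_lit 0) (nat_lit 1786223969) (nat_lit 1672) (nat_lit 4201336412) (nat_lit 1748) (nat_lit 2493935416) (nat_lit 436) (nat_lit 5) (nat_lit 458) (nat_lit 5) (nat_lit 459) (nat_lit 5) (nat_lit 568) (nat_lit 534) (nat_lit 458))) (XT.nd (nat_lit 78) (nat_lit 1064) (nat_lit 0) (XT.lf (nat_lit 0) (nat_lit 6891418213) (nat_lit 1672) (nat_lit 1123052928) (nat_lit 1748) (nat_lit 540195314) (nat_lit 436) (nat_lit 5) (nat_lit 458) (nat_lit 5) (nat_lit 459) (nat_lit 5) (nat_lit 569) (nat_lit 534) (nat_lit 457)) (XT.nd (nat_lit 78) (nat_lit 0) (nat_lit 0) (XT.lf (nat_lit 0) (nat_lit 1438666284) (nat_lit 1064) (nat_lit 5165791764) (nat_lit 76) (nat_lit 2024556822) (nat_lit 422) (nat_lit 5) (nat_lit 436) (nat_lit 5) (nat_lit 423)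 (nat_lit 5) (nat_lit 570) (nat_lit 534) (nat_lit 456)) (XT.lf (nat_lit 0) (nat_lit 3438186010) (nat_lit 1064) (nat_lit 30155352) (nat_lit 76) (nat_lit 5236676031) (nat_lit 422) (nat_lit 5) (nat_lit 436) (nat_lit 5) (nat_lit 423) (nat_lit 5) (nat_lit 571) (nat_lit 534) (nat_lit 455))))) (XT.nd (nat_lit 156) (nat_lit 1748) (nat_lit 0) (XT.nd (nat_lit 78) (nat_lit 912) (nat_lit 0) (XT.lf (nat_lit 0) (nat_lit 5248390936) (nat_lit 912) (nat_lit 233611352) (nat_lit 988) (nat_lit 3300456295) (nat_lit 410) (nat_lit 5) (nat_lit 422) (nat_lit 5) (nat_lit 423) (nat_lit 5) (nat_lit 572) (nat_lit 534) (nat_lit 454)) (XT.lf (nat_lit 0) (nat_lit 1745411009) (nat_lit 912) (nat_lit 5823360374) (nat_lit 988) (nat_lit 1292640331) (nat_lit 398) (nat_lit 5) (nat_lit 410) (nat_lit 5) (nat_lit 411) (nat_lit 5) (nat_lit 573) (nat_lit 534) (nat_lit 453))) (XT.nd (nat_lit 78) (nat_lit 1672) (nat_lit 0) (XT.lf (nat_lit 0) (nat_lit 741672418)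 (nat_lit 988) (nat_lit 1798940577) (nat_lit 76) (nat_lit 6401312363) (nat_lit 397) (nat_lit 5) (nat_lit 410) (nat_lit 5) (nat_lit 398) (nat_lit 5) (nat_lit 574) (nat_lit 534) (nat_lit 452)) (XT.nd (nat_lit 78) (nat_lit 836) (nat_lit 0) (XT.lf (nat_lit 0) (nat_lit 2799835732) (nat_lit 912) (nat_lit 5394540789) (nat_lit 76) (nat_lit 829496791) (nat_lit 386) (nat_lit 5) (nat_lit 398) (nat_lit 5) (nat_lit 387) (nat_lit 5) (nat_lit 575) (nat_lit 534) (nat_lit 451)) (XT.lf (nat_lit 0) (nat_lit 37876820) (nat_lit 836) (nat_lit 4862281808) (nat_lit 912) (nat_lit 4207285963) (nat_lit 375) (nat_lit 5) (nat_lit 386) (nat_lit 5) (nat_lit 387) (nat_lit 5) (nat_lit 576) (nat_lit 534) (nat_lit 450))))))) (XT.nd (nat_lit 702) (nat_lit 4180) (nat_lit 0) (XT.nd (nat_lit 312) (nat_lit 2280) (nat_lit 0) (XT.nd (nat_lit 156) (nat_lit 912) (nat_lit 0) (XT.nd (nat_lit 78) (nat_lit 760) (nat_lit 0) (XT.lf (nat_lit 0) (nat_lit 5623206182)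 (nat_lit 836) (nat_lit 1427621448) (nat_lit 912) (nat_lit 2141697082) (nat_lit 375) (nat_lit 5) (nat_lit 386) (nat_lit 5) (nat_lit 387) (nat_lit 5) (nat_lit 577) (nat_lit 534) (nat_lit 449)) (XT.lf (nat_lit 0) (nat_lit 2025180102) (nat_lit 760) (nat_lit 7218635108) (nat_lit 836) (nat_lit 35509249) (nat_lit 365) (nat_lit 5) (nat_lit 375) (nat_lit 5) (nat_lit 376) (nat_lit 5) (nat_lit 578) (nat_lit 534) (nat_lit 448))) (XT.nd (nat_lit 78) (nat_lit 836) (nat_lit 0) (XT.lf (nat_lit 0) (nat_lit 2091504067) (nat_lit 836) (nat_lit 1639774439) (nat_lit 76) (nat_lit 5636183078) (nat_lit 364) (nat_lit 5) (nat_lit 375) (nat_lit 5) (nat_lit 365) (nat_lit 5) (nat_lit 579) (nat_lit 534) (nat_lit 447)) (XT.lf (nat_lit 0) (nat_lit 4112133744) (nat_lit 836) (nat_lit 148526440) (nat_lit 912) (nat_lit 5196698900) (nat_lit 353) (nat_lit 5) (nat_lit 364) (nat_lit 5) (nat_lit 365) (nat_lit 5) (nat_lit 580) (nat_lit 534) (nat_lit 446))))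 (XT.nd (nat_lit 156) (nat_lit 1520) (nat_lit 0) (XT.nd (nat_lit 78) (nat_lit 0) (nat_lit 0) (XT.lf (nat_lit 0) (nat_lit 406190241) (nat_lit 760) (nat_lit 6077190108) (nat_lit 836) (nat_lit 3065474381) (nat_lit 343) (nat_lit 5) (nat_lit 353) (nat_lit 5) (nat_lit 354) (nat_lit 5) (nat_lit 581) (nat_lit 534) (nat_lit 445)) (XT.lf (nat_lit 0) (nat_lit 6315507843) (nat_lit 760) (nat_lit 2445928040) (nat_lit 836) (nat_lit 880530522) (nat_lit 343) (nat_lit 5) (nat_lit 353) (nat_lit 5) (nat_lit 354) (nat_lit 5) (nat_lit 582) (nat_lit 534) (nat_lit 444))) (XT.nd (nat_lit 78) (nat_lit 684) (nat_lit 0) (XT.lf (nat_lit 0) (nat_lit 1330023536) (nat_lit 836) (nat_lit 7142173597) (nat_lit 76) (nat_lit 1264579876) (nat_lit 332) (nat_lit 5) (nat_lit 343) (nat_lit 5) (nat_lit 333) (nat_lit 5) (nat_lit 583) (nat_lit 534) (nat_lit 443)) (XT.nd (nat_lit 78) (nat_lit 684) (nat_lit 0) (XT.lf (nat_lit 0) (nat_lit 3586350063) (nat_lit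 836) (nat_lit 1204710711) (nat_lit 76) (nat_lit 5042043135) (nat_lit 332) (nat_lit 5) (nat_lit 343) (nat_lit 5) (nat_lit 333) (nat_lit 5) (nat_lit 584) (nat_lit 534) (nat_lit 442)) (XT.lf (nat_lit 0) (nat_lit 4887490351) (nat_lit 684) (nat_lit 1007214571) (nat_lit 760) (nat_lit 4036517840) (nat_lit 323) (nat_lit 5) (nat_lit 332) (nat_lit 5) (nat_lit 333) (nat_lit 5) (nat_lit 585) (nat_lit 534) (nat_lit 441)))))) (XT.nd (nat_lit 390) (nat_lit 1976) (nat_lit 0) (XT.nd (nat_lit 156) (nat_lit 1368) (nat_lit 0) (XT.nd (nat_lit 78) (nat_lit 76) (nat_lit 0) (XT.lf (nat_lit 0) (nat_lit 1053570175) (nat_lit 760) (nat_lit 7204606498) (nat_lit 836) (nat_lit 1772951710) (nat_lit 313) (nat_lit 5) (nat_lit 323) (nat_lit 5) (nat_lit 324) (nat_lit 5) (nat_lit 586) (nat_lit 534) (nat_lit 440)) (XT.lf (nat_lit 0) (nat_lit 545184792) (nat_lit 836) (nat_lit 2830080155) (nat_lit 76) (nat_lit 6757374292) (nat_lit 312) (nat_lit 5) (nat_lit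 323) (nat_lit 5) (nat_lit 313) (nat_lit 5) (nat_lit 587) (nat_lit 534) (nat_lit 439))) (XT.nd (nat_lit 78) (nat_lit 684) (nat_lit 0) (XT.lf (nat_lit 0) (nat_lit 2888049450) (nat_lit 760) (nat_lit 6793805933) (nat_lit 76) (nat_lit 554051628) (nat_lit 303) (nat_lit 5) (nat_lit 313) (nat_lit 5) (nat_lit 304) (nat_lit 5) (nat_lit 588) (nat_lit 534) (nat_lit 438)) (XT.nd (nat_lit 78) (nat_lit 684) (nat_lit 0) (XT.lf (nat_lit 0) (nat_lit 5295568580) (nat_lit 760) (nat_lit 513494974) (nat_lit 76) (nat_lit 4531823768) (nat_lit 303) (nat_lit 5) (nat_lit 313) (nat_lit 5) (nat_lit 304) (nat_lit 5) (nat_lit 589) (nat_lit 534) (nat_lit 437)) (XT.lf (nat_lit 0) (nat_lit 5942670651) (nat_lit 684) (nat_lit 1823942706) (nat_lit 760) (nat_lit 2681049446) (nat_lit 294) (nat_lit 5) (nat_lit 303) (nat_lit 5) (nat_lit 304) (nat_lit 5) (nat_lit 590) (nat_lit 534) (nat_lit 436))))) (XT.nd (nat_lit 156) (nat_lit 1292) (nat_lit 0) (XT.nd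 (nat_lit 78) (nat_lit 76) (nat_lit 0) (XT.lf (nat_lit 0) (nat_lit 1961629794) (nat_lit 608) (nat_lit 8333241616) (nat_lit 684) (nat_lit 261549540) (nat_lit 286) (nat_lit 5) (nat_lit 294) (nat_lit 5) (nat_lit 295) (nat_lit 5) (nat_lit 591) (nat_lit 534) (nat_lit 435)) (XT.lf (nat_lit 0) (nat_lit 2197069061) (nat_lit 684) (nat_lit 2102766599) (nat_lit 76) (nat_lit 6366841685) (nat_lit 285) (nat_lit 5) (nat_lit 294) (nat_lit 5) (nat_lit 286) (nat_lit 5) (nat_lit 592) (nat_lit 534) (nat_lit 434))) (XT.nd (nat_lit 78) (nat_lit 608) (nat_lit 0) (XT.lf (nat_lit 0) (nat_lit 4549521208) (nat_lit 684) (nat_lit 158981485) (nat_lit 760) (nat_lit 6070461533) (nat_lit 276) (nat_lit 5) (nat_lit 285) (nat_lit 5) (nat_lit 286) (nat_lit 5) (nat_lit 593) (nat_lit 534) (nat_lit 433)) (XT.nd (nat_lit 78) (nat_lit 0) (nat_lit 0) (XT.lf (nat_lit 0) (nat_lit 421443238) (nat_lit 608) (nat_lit 6869883815) (nat_lit 684) (nat_lit 3601749329)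 (nat_lit 268) (nat_lit 5) (nat_lit 276) (nat_lit 5) (nat_lit 277) (nat_lit 5) (nat_lit 594) (nat_lit 534) (nat_lit 432)) (XT.lf (nat_lit 0) (nat_lit 7261160987) (nat_lit 608) (nat_lit 2685582412) (nat_lit 684) (nat_lit 1062311396) (nat_lit 268) (nat_lit 5) (nat_lit 276) (nat_lit 5) (nat_lit 277) (nat_lit 5) (nat_lit 595) (nat_lit 534) (nat_lit 431))))))))
noncomputable def xc108 : XT := (XT.nd (nat_lit 1482) (nat_lit 1368) (nat_lit 0) (XT.nd (nat_lit 702) (nat_lit 3040) (nat_lit 0) (XT.nd (nat_lit 312) (nat_lit 1748) (nat_lit 0) (XT.nd (nat_lit 156) (nat_lit 1140) (nat_lit 0) (XT.nd (nat_lit 78) (nat_lit 0) (nat_lit 0) (XT.lf (nat_lit 0) (nat_lit 1516902310) (nat_lit 684) (nat_lit 8023692869) (nat_lit 76) (nat_lit 1586381290) (nat_lit 259) (nat_lit 5) (nat_lit 268) (nat_lit 5) (nat_lit 260) (nat_lit 5) (nat_lit 596) (nat_lit 534) (nat_lit 430)) (XT.lf (nat_lit 0) (nat_lit 4155173539) (nat_lit 684) (nat_lit 1156976296)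 (nat_lit 76) (nat_lit 5934534920) (nat_lit 259) (nat_lit 5) (nat_lit 268) (nat_lit 5) (nat_lit 260) (nat_lit 5) (nat_lit 597) (nat_lit 534) (nat_lit 429))) (XT.nd (nat_lit 78) (nat_lit 608) (nat_lit 0) (XT.lf (nat_lit 0) (nat_lit 5897436306) (nat_lit 532) (nat_lit 966065999) (nat_lit 608) (nat_lit 4504941571) (nat_lit 252) (nat_lit 5) (nat_lit 259) (nat_lit 5) (nat_lit 260) (nat_lit 5) (nat_lit 598) (nat_lit 534) (nat_lit 428)) (XT.lf (nat_lit 0) (nat_lit 1587207675) (nat_lit 608) (nat_lit 8058620652) (nat_lit 684) (nat_lit 1846415707) (nat_lit 244) (nat_lit 5) (nat_lit 252) (nat_lit 5) (nat_lit 253) (nat_lit 5) (nat_lit 599) (nat_lit 534) (nat_lit 427)))) (XT.nd (nat_lit 156) (nat_lit 1140) (nat_lit 0) (XT.nd (nat_lit 78) (nat_lit 532) (nat_lit 0) (XT.lf (nat_lit 0) (nat_lit 876580990) (nat_lit 684) (nat_lit 2796580467) (nat_lit 76) (nat_lit 7944795777) (nat_lit 243) (nat_lit 5) (nat_lit 252) (nat_lit 5) (nat_lit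 244) (nat_lit 5) (nat_lit 600) (nat_lit 534) (nat_lit 426)) (XT.lf (nat_lit 0) (nat_lit 3643509728) (nat_lit 608) (nat_lit 7277451456) (nat_lit 76) (nat_lit 824697829) (nat_lit 236) (nat_lit 5) (nat_lit 244) (nat_lit 5) (nat_lit 237) (nat_lit 5) (nat_lit 601) (nat_lit 534) (nat_lit 425))) (XT.nd (nat_lit 78) (nat_lit 1140) (nat_lit 0) (XT.lf (nat_lit 0) (nat_lit 6488877091) (nat_lit 608) (nat_lit 10724048) (nat_lit 76) (nat_lit 5375853966) (nat_lit 236) (nat_lit 5) (nat_lit 244) (nat_lit 5) (nat_lit 237) (nat_lit 5) (nat_lit 602) (nat_lit 534) (nat_lit 424)) (XT.nd (nat_lit 78) (nat_lit 608) (nat_lit 0) (XT.lf (nat_lit 0) (nat_lit 7472940568) (nat_lit 532) (nat_lit 1947008626) (nat_lit 608) (nat_lit 2587324211) (nat_lit 229) (nat_lit 5) (nat_lit 236) (nat_lit 5) (nat_lit 237) (nat_lit 5) (nat_lit 603) (nat_lit 534) (nat_lit 423)) (XT.lf (nat_lit 0) (nat_lit 281759094) (nat_lit 608) (nat_lit 9183818492) (nat_lit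 76) (nat_lit 2675770677) (nat_lit 221) (nat_lit 5) (nat_lit 229) (nat_lit 5) (nat_lit 222) (nat_lit 5) (nat_lit 604) (nat_lit 534) (nat_lit 422)))))) (XT.nd (nat_lit 390) (nat_lit 1444) (nat_lit 0) (XT.nd (nat_lit 156) (nat_lit 1064) (nat_lit 0) (XT.nd (nat_lit 78) (nat_lit 532) (nat_lit 0) (XT.lf (nat_lit 0) (nat_lit 3197668049) (nat_lit 608) (nat_lit 1673699697) (nat_lit 76) (nat_lit 7405915170) (nat_lit 221) (nat_lit 5) (nat_lit 229) (nat_lit 5) (nat_lit 222) (nat_lit 5) (nat_lit 605) (nat_lit 534) (nat_lit 421)) (XT.lf (nat_lit 0) (nat_lit 6039688826) (nat_lit 532) (nat_lit 152334241) (nat_lit 608) (nat_lit 6223512698) (nat_lit 214) (nat_lit 5) (nat_lit 221) (nat_lit 5) (nat_lit 222) (nat_lit 5) (nat_lit 606) (nat_lit 534) (nat_lit 420))) (XT.nd (nat_lit 78) (nat_lit 608) (nat_lit 0) (XT.lf (nat_lit 0) (nat_lit 1334563520) (nat_lit 456) (nat_lit 7943008922) (nat_lit 532) (nat_lit 3278357109) (nat_lit 208) (nat_lit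 5) (nat_lit 214) (nat_lit 5) (nat_lit 215) (nat_lit 5) (nat_lit 607) (nat_lit 534) (nat_lit 419)) (XT.nd (nat_lit 78) (nat_lit 608) (nat_lit 0) (XT.lf (nat_lit 0) (nat_lit 9258453465) (nat_lit 456) (nat_lit 3191442034) (nat_lit 532) (nat_lit 248736444) (nat_lit 208) (nat_lit 5) (nat_lit 214) (nat_lit 5) (nat_lit 215) (nat_lit 5) (nat_lit 608) (nat_lit 534) (nat_lit 418)) (XT.lf (nat_lit 0) (nat_lit 2826035150) (nat_lit 608) (nat_lit 8343134535) (nat_lit 76) (nat_lit 1674215127) (nat_lit 200) (nat_lit 5) (nat_lit 208) (nat_lit 5) (nat_lit 201) (nat_lit 5) (nat_lit 609) (nat_lit 534) (nat_lit 417))))) (XT.nd (nat_lit 156) (nat_lit 988) (nat_lit 0) (XT.nd (nat_lit 78) (nat_lit 456) (nat_lit 0) (XT.lf (nat_lit 0) (nat_lit 5985014650) (nat_lit 608) (nat_lit 393403564) (nat_lit 76) (nat_lit 6612062652) (nat_lit 200) (nat_lit 5) (nat_lit 208) (nat_lit 5) (nat_lit 201) (nat_lit 5) (nat_lit 610) (nat_lit 534) (nat_lit 416))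 (XT.lf (nat_lit 0) (nat_lit 7792008617) (nat_lit 456) (nat_lit 1447781766) (nat_lit 532) (nat_lit 3900077955) (nat_lit 194) (nat_lit 5) (nat_lit 200) (nat_lit 5) (nat_lit 201) (nat_lit 5) (nat_lit 611) (nat_lit 534) (nat_lit 415))) (XT.nd (nat_lit 78) (nat_lit 532) (nat_lit 0) (XT.lf (nat_lit 0) (nat_lit 2842634202) (nat_lit 456) (nat_lit 9743559021) (nat_lit 532) (nat_lit 705521502) (nat_lit 188) (nat_lit 5) (nat_lit 194) (nat_lit 5) (nat_lit 195) (nat_lit 5) (nat_lit 612) (nat_lit 534) (nat_lit 414)) (XT.nd (nat_lit 78) (nat_lit 456) (nat_lit 0) (XT.lf (nat_lit 0) (nat_lit 2547386857) (nat_lit 532) (nat_lit 2228568382) (nat_lit 76) (nat_lit 8669754166) (nat_lit 187) (nat_lit 5) (nat_lit 194) (nat_lit 5) (nat_lit 188) (nat_lit 5) (nat_lit 613) (nat_lit 534) (nat_lit 413)) (XT.lf (nat_lit 0) (nat_lit 5880936365) (nat_lit 532) (nat_lit 7396484531) (nat_lit 76) (nat_lit 324770905) (nat_lit 181) (nat_lit 5) (nat_lit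 188) (nat_lit 5) (nat_lit 182) (nat_lit 5) (nat_lit 614) (nat_lit 534) (nat_lit 412))))))) (XT.nd (nat_lit 75270) (nat_lit 0) (nat_lit 34352) (XT.nd (nat_lit 312) (nat_lit 456) (nat_lit 0) (XT.nd (nat_lit 156) (nat_lit 456) (nat_lit 0) (XT.nd (nat_lit 78) (nat_lit 0) (nat_lit 0) (XT.lf (nat_lit 0) (nat_lit 1033861382) (nat_lit 456) (nat_lit 8283397761) (nat_lit 532) (nat_lit 4443824317) (nat_lit 175) (nat_lit 5) (nat_lit 181) (nat_lit 5) (nat_lit 182) (nat_lit 5) (nat_lit 615) (nat_lit 534) (nat_lit 411)) (XT.lf (nat_lit 0) (nat_lit 9707899704) (nat_lit 456) (nat_lit 3146925615) (nat_lit 532) (nat_lit 1067678921) (nat_lit 175) (nat_lit 5) (nat_lit 181) (nat_lit 5) (nat_lit 182) (nat_lit 5) (nat_lit 616) (nat_lit 534) (nat_lit 410))) (XT.nd (nat_lit 78) (nat_lit 0) (nat_lit 0) (XT.lf (nat_lit 0) (nat_lit 2370892033) (nat_lit 456) (nat_lit 9613653753) (nat_lit 76) (nat_lit 2101779400) (nat_lit 169) (nat_lit 5) (nat_lit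 175) (nat_lit 5) (nat_lit 170) (nat_lit 5) (nat_lit 617) (nat_lit 534) (nat_lit 409)) (XT.lf (nat_lit 0) (nat_lit 5896485723) (nat_lit 456) (nat_lit 915160807) (nat_lit 76) (nat_lit 7440985457) (nat_lit 169) (nat_lit 5) (nat_lit 175) (nat_lit 5) (nat_lit 170) (nat_lit 5) (nat_lit 618) (nat_lit 534) (nat_lit 408)))) (XT.nd (nat_lit 74724) (nat_lit 0) (nat_lit 37544) (XT.nd (nat_lit 74646) (nat_lit 0) (nat_lit 38532) (XT.lf (nat_lit 0) (nat_lit 8038186704) (nat_lit 456) (nat_lit 1490146854) (nat_lit 532) (nat_lit 4893218022) (nat_lit 163) (nat_lit 5) (nat_lit 169) (nat_lit 5) (nat_lit 170) (nat_lit 5) (nat_lit 619) (nat_lit 534) (nat_lit 407)) (XT.lf (nat_lit 0) (nat_lit 2037656857) (nat_lit 988) (nat_lit 699032772) (nat_lit 988) (nat_lit 699032772) (nat_lit 670) (nat_lit 3) (nat_lit 683) (nat_lit 3) (nat_lit 683) (nat_lit 5) (nat_lit 535) (nat_lit 535) (nat_lit 490))) (XT.nd (nat_lit 78) (nat_lit 988) (nat_lit 0)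 (XT.lf (nat_lit 76) (nat_lit 2008160145) (nat_lit 0) (nat_lit 4060401850) (nat_lit 988) (nat_lit 832123887) (nat_lit 671) (nat_lit 5) (nat_lit 670) (nat_lit 3) (nat_lit 683) (nat_lit 5) (nat_lit 536) (nat_lit 535) (nat_lit 489)) (XT.nd (nat_lit 78) (nat_lit 0) (nat_lit 0) (XT.lf (nat_lit 0) (nat_lit 1113854951) (nat_lit 988) (nat_lit 1463518094) (nat_lit 1064) (nat_lit 4353836515) (nat_lit 657) (nat_lit 5) (nat_lit 670) (nat_lit 3) (nat_lit 671) (nat_lit 5) (nat_lit 537) (nat_lit 535) (nat_lit 488)) (XT.lf (nat_lit 76) (nat_lit 2028705646) (nat_lit 0) (nat_lit 1021703017) (nat_lit 1064) (nat_lit 3912579770) (nat_lit 658) (nat_lit 5) (nat_lit 657) (nat_lit 5) (nat_lit 671) (nat_lit 5) (nat_lit 538) (nat_lit 535) (nat_lit 487)))))) (XT.nd (nat_lit 390) (nat_lit 2204) (nat_lit 0) (XT.nd (nat_lit 156) (nat_lit 1064) (nat_lit 0) (XT.nd (nat_lit 78) (nat_lit 0) (nat_lit 0) (XT.lf (nat_lit 0) (nat_lit 4989832088) (nat_lit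 988) (nat_lit 1415767180) (nat_lit 1064) (nat_lit 590531311) (nat_lit 658) (nat_lit 5) (nat_lit 671) (nat_lit 5) (nat_lit 672) (nat_lit 5) (nat_lit 539) (nat_lit 535) (nat_lit 486)) (XT.lf (nat_lit 76) (nat_lit 2167883664) (nat_lit 0) (nat_lit 4772554590) (nat_lit 1064) (nat_lit 90059688) (nat_lit 659) (nat_lit 5) (nat_lit 658) (nat_lit 5) (nat_lit 672) (nat_lit 5) (nat_lit 540) (nat_lit 535) (nat_lit 485))) (XT.nd (nat_lit 78) (nat_lit 0) (nat_lit 0) (XT.lf (nat_lit 0) (nat_lit 1801617544) (nat_lit 1064) (nat_lit 1262504279) (nat_lit 1140) (nat_lit 4001967244) (nat_lit 644) (nat_lit 5) (nat_lit 658) (nat_lit 5) (nat_lit 659) (nat_lit 5) (nat_lit 541) (nat_lit 535) (nat_lit 484)) (XT.nd (nat_lit 78) (nat_lit 0) (nat_lit 76) (XT.lf (nat_lit 76) (nat_lit 2413834326) (nat_lit 0) (nat_lit 1284706042) (nat_lit 1140) (nat_lit 3404477050) (nat_lit 645) (nat_lit 5) (nat_lit 644) (nat_lit 5) (nat_lit 659) (nat_lit 5) (nat_lit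 542) (nat_lit 535) (nat_lit 483)) (XT.lf (nat_lit 0) (nat_lit 5599194611) (nat_lit 1064) (nat_lit 990922424) (nat_lit 1140) (nat_lit 551260922) (nat_lit 645) (nat_lit 5) (nat_lit 659) (nat_lit 5) (nat_lit 660) (nat_lit 5) (nat_lit 543) (nat_lit 535) (nat_lit 482))))) (XT.nd (nat_lit 156) (nat_lit 1140) (nat_lit 0) (XT.nd (nat_lit 78) (nat_lit 0) (nat_lit 0) (XT.lf (nat_lit 0) (nat_lit 333834868) (nat_lit 1140) (nat_lit 4400980133) (nat_lit 1216) (nat_lit 2446030107) (nat_lit 630) (nat_lit 5) (nat_lit 645) (nat_lit 5) (nat_lit 646) (nat_lit 5) (nat_lit 544) (nat_lit 535) (nat_lit 481)) (XT.lf (nat_lit 0) (nat_lit 2188572070) (nat_lit 1140) (nat_lit 619329895) (nat_lit 1216) (nat_lit 4413767724) (nat_lit 630) (nat_lit 5) (nat_lit 645) (nat_lit 5) (nat_lit 646) (nat_lit 5) (nat_lit 545) (nat_lit 535) (nat_lit 480))) (XT.nd (nat_lit 78) (nat_lit 1140) (nat_lit 0) (XT.lf (nat_lit 76) (nat_lit 3253561200) (nat_lit 0)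 (nat_lit 803982294) (nat_lit 1216) (nat_lit 3206233236) (nat_lit 631) (nat_lit 5) (nat_lit 630) (nat_lit 5) (nat_lit 646) (nat_lit 5) (nat_lit 546) (nat_lit 535) (nat_lit 479)) (XT.nd (nat_lit 78) (nat_lit 1216) (nat_lit 0) (XT.lf (nat_lit 0) (nat_lit 5932938554) (nat_lit 1140) (nat_lit 130282244) (nat_lit 1216) (nat_lit 1244132817) (nat_lit 631) (nat_lit 5) (nat_lit 646) (nat_lit 5) (nat_lit 647) (nat_lit 5) (nat_lit 547) (nat_lit 535) (nat_lit 478)) (XT.lf (nat_lit 0) (nat_lit 475417334) (nat_lit 1216) (nat_lit 3510145487) (nat_lit 1292) (nat_lit 3366426171) (nat_lit 615) (nat_lit 5) (nat_lit 631) (nat_lit 5) (nat_lit 632) (nat_lit 5) (nat_lit 548) (nat_lit 535) (nat_lit 477))))))))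
noncomputable def xc109 : XT := (XT.nd (nat_lit 1482) (nat_lit 10260) (nat_lit 0) (XT.nd (nat_lit 702) (nat_lit 9424) (nat_lit 0) (XT.nd (nat_lit 312) (nat_lit 1292) (nat_lit 0) (XT.nd (nat_lit 156) (nat_lit 1216) (nat_lit 0) (XT.nd (nat_lit 78) (nat_lit 0) (nat_lit 76) (XT.lf (nat_lit 76) (nat_lit 466988967) (nat_lit 0) (nat_lit 1838809587) (nat_lit 1292) (nat_lit 5092305805) (nat_lit 616) (nat_lit 5) (nat_lit 615) (nat_lit 5) (nat_lit 632) (nat_lit 5) (nat_lit 549) (nat_lit 535) (nat_lit 476)) (XT.lf (nat_lit 0) (nat_lit 4157536737) (nat_lit 1216) (nat_lit 2904305875) (nat_lit 1292) (nat_lit 383612367) (nat_lit 616) (nat_lit 5) (nat_lit 632) (nat_lit 5) (nat_lit 633) (nat_lit 5) (nat_lit 550) (nat_lit 535) (nat_lit 475))) (XT.nd (nat_lit 78) (nat_lit 1292) (nat_lit 0) (XT.lf (nat_lit 76) (nat_lit 1178427508) (nat_lit 0) (nat_lit 4847279759) (nat_lit 1292) (nat_lit 1468465170) (nat_lit 617) (nat_lit 5) (nat_lit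 616) (nat_lit 5) (nat_lit 633) (nat_lit 5) (nat_lit 551) (nat_lit 535) (nat_lit 474)) (XT.lf (nat_lit 0) (nat_lit 361825496) (nat_lit 1292) (nat_lit 2192181266) (nat_lit 1368) (nat_lit 4990224074) (nat_lit 599) (nat_lit 5) (nat_lit 616) (nat_lit 5) (nat_lit 617) (nat_lit 5) (nat_lit 552) (nat_lit 535) (nat_lit 473)))) (XT.nd (nat_lit 156) (nat_lit 1292) (nat_lit 0) (XT.nd (nat_lit 78) (nat_lit 0) (nat_lit 76) (XT.lf (nat_lit 76) (nat_lit 2002701564) (nat_lit 0) (nat_lit 180075537) (nat_lit 1368) (nat_lit 5412852142) (nat_lit 600) (nat_lit 5) (nat_lit 599) (nat_lit 5) (nat_lit 617) (nat_lit 5) (nat_lit 553) (nat_lit 535) (nat_lit 472)) (XT.lf (nat_lit 0) (nat_lit 4030869467) (nat_lit 1292) (nat_lit 1379578314) (nat_lit 1368) (nat_lit 2237800587) (nat_lit 600) (nat_lit 5) (nat_lit 617) (nat_lit 5) (nat_lit 618) (nat_lit 5) (nat_lit 554) (nat_lit 535) (nat_lit 471))) (XT.nd (nat_lit 78) (nat_lit 1368) (nat_lit 0)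 (XT.lf (nat_lit 76) (nat_lit 2927430531) (nat_lit 0) (nat_lit 2970811527) (nat_lit 1368) (nat_lit 1804038495) (nat_lit 601) (nat_lit 5) (nat_lit 600) (nat_lit 5) (nat_lit 618) (nat_lit 5) (nat_lit 555) (nat_lit 535) (nat_lit 470)) (XT.nd (nat_lit 78) (nat_lit 0) (nat_lit 76) (XT.lf (nat_lit 0) (nat_lit 16718537) (nat_lit 1368) (nat_lit 446417152) (nat_lit 1444) (nat_lit 7294823596) (nat_lit 582) (nat_lit 5) (nat_lit 600) (nat_lit 5) (nat_lit 601) (nat_lit 5) (nat_lit 556) (nat_lit 535) (nat_lit 469)) (XT.lf (nat_lit 0) (nat_lit 1852681959) (nat_lit 1368) (nat_lit 3847377588) (nat_lit 76) (nat_lit 2114401242) (nat_lit 583) (nat_lit 5) (nat_lit 601) (nat_lit 5) (nat_lit 584) (nat_lit 5) (nat_lit 557) (nat_lit 535) (nat_lit 468)))))) (XT.nd (nat_lit 390) (nat_lit 5092) (nat_lit 0) (XT.nd (nat_lit 156) (nat_lit 3040) (nat_lit 0) (XT.nd (nat_lit 78) (nat_lit 0) (nat_lit 0) (XT.lf (nat_lit 0) (nat_lit 579192862) (nat_lit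 1368) (nat_lit 3119782190) (nat_lit 1444) (nat_lit 4173651571) (nat_lit 565) (nat_lit 5) (nat_lit 583) (nat_lit 5) (nat_lit 584) (nat_lit 5) (nat_lit 558) (nat_lit 535) (nat_lit 467)) (XT.lf (nat_lit 0) (nat_lit 5118443542) (nat_lit 1368) (nat_lit 453864266) (nat_lit 1444) (nat_lit 2359852070) (nat_lit 565) (nat_lit 5) (nat_lit 583) (nat_lit 5) (nat_lit 584) (nat_lit 5) (nat_lit 559) (nat_lit 535) (nat_lit 466))) (XT.nd (nat_lit 78) (nat_lit 1596) (nat_lit 0) (XT.lf (nat_lit 0) (nat_lit 1735438057) (nat_lit 1444) (nat_lit 5738690045) (nat_lit 1520) (nat_lit 518941533) (nat_lit 546) (nat_lit 5) (nat_lit 565) (nat_lit 5) (nat_lit 566) (nat_lit 5) (nat_lit 560) (nat_lit 535) (nat_lit 465)) (XT.nd (nat_lit 78) (nat_lit 1520) (nat_lit 0) (XT.lf (nat_lit 0) (nat_lit 1328292964) (nat_lit 1520) (nat_lit 1681547708) (nat_lit 76) (nat_lit 5045439954) (nat_lit 545) (nat_lit 5) (nat_lit 565) (nat_lit 5) (nat_lit 546) (nat_lit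 5) (nat_lit 561) (nat_lit 535) (nat_lit 464)) (XT.lf (nat_lit 0) (nat_lit 2993955004) (nat_lit 1520) (nat_lit 197008075) (nat_lit 1596) (nat_lit 4928001257) (nat_lit 525) (nat_lit 5) (nat_lit 545) (nat_lit 5) (nat_lit 546) (nat_lit 5) (nat_lit 562) (nat_lit 535) (nat_lit 463))))) (XT.nd (nat_lit 156) (nat_lit 3496) (nat_lit 0) (XT.nd (nat_lit 78) (nat_lit 1596) (nat_lit 0) (XT.lf (nat_lit 0) (nat_lit 5086112720) (nat_lit 1596) (nat_lit 443820352) (nat_lit 76) (nat_lit 2654089906) (nat_lit 525) (nat_lit 5) (nat_lit 546) (nat_lit 5) (nat_lit 526) (nat_lit 5) (nat_lit 563) (nat_lit 535) (nat_lit 462)) (XT.lf (nat_lit 0) (nat_lit 4358951989) (nat_lit 1596) (nat_lit 2656994162) (nat_lit 1672) (nat_lit 1234506690) (nat_lit 504) (nat_lit 5) (nat_lit 525) (nat_lit 5) (nat_lit 526) (nat_lit 5) (nat_lit 564) (nat_lit 535) (nat_lit 461))) (XT.nd (nat_lit 78) (nat_lit 1748) (nat_lit 0) (XT.lf (nat_lit 0) (nat_lit 635744435)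 (nat_lit 1748) (nat_lit 7395218504) (nat_lit 76) (nat_lit 287600975) (nat_lit 481) (nat_lit 5) (nat_lit 504) (nat_lit 5) (nat_lit 482) (nat_lit 5) (nat_lit 565) (nat_lit 535) (nat_lit 460)) (XT.nd (nat_lit 78) (nat_lit 1748) (nat_lit 0) (XT.lf (nat_lit 0) (nat_lit 2538671862) (nat_lit 1748) (nat_lit 2554869013) (nat_lit 76) (nat_lit 3294102445) (nat_lit 481) (nat_lit 5) (nat_lit 504) (nat_lit 5) (nat_lit 482) (nat_lit 5) (nat_lit 566) (nat_lit 535) (nat_lit 459)) (XT.lf (nat_lit 0) (nat_lit 2385486759) (nat_lit 1748) (nat_lit 2078191519) (nat_lit 1824) (nat_lit 3994750860) (nat_lit 458) (nat_lit 5) (nat_lit 481) (nat_lit 5) (nat_lit 482) (nat_lit 5) (nat_lit 567) (nat_lit 535) (nat_lit 458))))))) (XT.nd (nat_lit 702) (nat_lit 4788) (nat_lit 0) (XT.nd (nat_lit 312) (nat_lit 2736) (nat_lit 0) (XT.nd (nat_lit 156) (nat_lit 1064) (nat_lit 0) (XT.nd (nat_lit 78) (nat_lit 1672) (nat_lit 0) (XT.lf (nat_lit 0) (nat_lit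 6419907538) (nat_lit 1824) (nat_lit 1106144061) (nat_lit 76) (nat_lit 1004729752) (nat_lit 458) (nat_lit 5) (nat_lit 482) (nat_lit 5) (nat_lit 459) (nat_lit 5) (nat_lit 568) (nat_lit 535) (nat_lit 457)) (XT.lf (nat_lit 0) (nat_lit 3970310364) (nat_lit 1672) (nat_lit 4454088290) (nat_lit 1748) (nat_lit 180004239) (nat_lit 436) (nat_lit 5) (nat_lit 458) (nat_lit 5) (nat_lit 459) (nat_lit 5) (nat_lit 569) (nat_lit 535) (nat_lit 456))) (XT.nd (nat_lit 78) (nat_lit 0) (nat_lit 0) (XT.lf (nat_lit 0) (nat_lit 449962956) (nat_lit 988) (nat_lit 1296252492) (nat_lit 1064) (nat_lit 6933449840) (nat_lit 422) (nat_lit 5) (nat_lit 435) (nat_lit 5) (nat_lit 436) (nat_lit 5) (nat_lit 570) (nat_lit 535) (nat_lit 455)) (XT.lf (nat_lit 0) (nat_lit 3722581481) (nat_lit 1064) (nat_lit 3099826246) (nat_lit 76) (nat_lit 1933725504) (nat_lit 422) (nat_lit 5) (nat_lit 436) (nat_lit 5) (nat_lit 423) (nat_lit 5) (nat_lit 571) (nat_lit 535)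 (nat_lit 454)))) (XT.nd (nat_lit 156) (nat_lit 1824) (nat_lit 0) (XT.nd (nat_lit 78) (nat_lit 0) (nat_lit 0) (XT.lf (nat_lit 0) (nat_lit 2123842541) (nat_lit 912) (nat_lit 3607819986) (nat_lit 988) (nat_lit 3102608900) (nat_lit 410) (nat_lit 5) (nat_lit 422) (nat_lit 5) (nat_lit 423) (nat_lit 5) (nat_lit 572) (nat_lit 535) (nat_lit 453)) (XT.lf (nat_lit 0) (nat_lit 7466113427) (nat_lit 912) (nat_lit 306818275) (nat_lit 988) (nat_lit 1141205110) (nat_lit 410) (nat_lit 5) (nat_lit 422) (nat_lit 5) (nat_lit 423) (nat_lit 5) (nat_lit 573) (nat_lit 535) (nat_lit 452))) (XT.nd (nat_lit 78) (nat_lit 836) (nat_lit 0) (XT.lf (nat_lit 0) (nat_lit 865381097) (nat_lit 988) (nat_lit 5077657027) (nat_lit 76) (nat_lit 3052109645) (nat_lit 397) (nat_lit 5) (nat_lit 410) (nat_lit 5) (nat_lit 398) (nat_lit 5) (nat_lit 574) (nat_lit 535) (nat_lit 451)) (XT.nd (nat_lit 78) (nat_lit 0) (nat_lit 0) (XT.lf (nat_lit 0) (nat_lit 298508507)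 (nat_lit 836) (nat_lit 2584035436) (nat_lit 912) (nat_lit 6195373913) (nat_lit 386) (nat_lit 5) (nat_lit 397) (nat_lit 5) (nat_lit 398) (nat_lit 5) (nat_lit 575) (nat_lit 535) (nat_lit 450)) (XT.lf (nat_lit 0) (nat_lit 4952144055) (nat_lit 912) (nat_lit 3344811478) (nat_lit 76) (nat_lit 865150143) (nat_lit 386) (nat_lit 5) (nat_lit 398) (nat_lit 5) (nat_lit 387) (nat_lit 5) (nat_lit 576) (nat_lit 535) (nat_lit 449)))))) (XT.nd (nat_lit 390) (nat_lit 2280) (nat_lit 0) (XT.nd (nat_lit 156) (nat_lit 1672) (nat_lit 0) (XT.nd (nat_lit 78) (nat_lit 0) (nat_lit 0) (XT.lf (nat_lit 0) (nat_lit 2182059614) (nat_lit 836) (nat_lit 4885226184) (nat_lit 912) (nat_lit 2180612587) (nat_lit 375) (nat_lit 5) (nat_lit 386) (nat_lit 5) (nat_lit 387) (nat_lit 5) (nat_lit 577) (nat_lit 535) (nat_lit 448)) (XT.lf (nat_lit 0) (nat_lit 7837067617) (nat_lit 836) (nat_lit 1383329505) (nat_lit 912) (nat_lit 115100539) (nat_lit 375) (nat_lit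 5) (nat_lit 386) (nat_lit 5) (nat_lit 387) (nat_lit 5) (nat_lit 578) (nat_lit 535) (nat_lit 447))) (XT.nd (nat_lit 78) (nat_lit 836) (nat_lit 0) (XT.lf (nat_lit 0) (nat_lit 1980872978) (nat_lit 836) (nat_lit 5244186612) (nat_lit 76) (nat_lit 2199229127) (nat_lit 364) (nat_lit 5) (nat_lit 375) (nat_lit 5) (nat_lit 365) (nat_lit 5) (nat_lit 579) (nat_lit 535) (nat_lit 446)) (XT.nd (nat_lit 78) (nat_lit 0) (nat_lit 0) (XT.lf (nat_lit 0) (nat_lit 445831618) (nat_lit 836) (nat_lit 3667473037) (nat_lit 912) (nat_lit 5401617940) (nat_lit 353) (nat_lit 5) (nat_lit 364) (nat_lit 5) (nat_lit 365) (nat_lit 5) (nat_lit 580) (nat_lit 535) (nat_lit 445)) (XT.lf (nat_lit 0) (nat_lit 6293032419) (nat_lit 836) (nat_lit 4776514) (nat_lit 912) (nat_lit 3309375475) (nat_lit 353) (nat_lit 5) (nat_lit 364) (nat_lit 5) (nat_lit 365) (nat_lit 5) (nat_lit 581) (nat_lit 535) (nat_lit 444))))) (XT.nd (nat_lit 156) (nat_lit 1444) (nat_lit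 0) (XT.nd (nat_lit 78) (nat_lit 76) (nat_lit 0) (XT.lf (nat_lit 0) (nat_lit 2537279921) (nat_lit 760) (nat_lit 6004147964) (nat_lit 836) (nat_lit 1159558744) (nat_lit 343) (nat_lit 5) (nat_lit 353) (nat_lit 5) (nat_lit 354) (nat_lit 5) (nat_lit 582) (nat_lit 535) (nat_lit 443)) (XT.lf (nat_lit 0) (nat_lit 1016995613) (nat_lit 836) (nat_lit 1280255877) (nat_lit 76) (nat_lit 7499336905) (nat_lit 342) (nat_lit 5) (nat_lit 353) (nat_lit 5) (nat_lit 343) (nat_lit 5) (nat_lit 583) (nat_lit 535) (nat_lit 442))) (XT.nd (nat_lit 78) (nat_lit 684) (nat_lit 0) (XT.lf (nat_lit 0) (nat_lit 3237635756) (nat_lit 836) (nat_lit 5155509241) (nat_lit 76) (nat_lit 1500485734) (nat_lit 332) (nat_lit 5) (nat_lit 343) (nat_lit 5) (nat_lit 333) (nat_lit 5) (nat_lit 584) (nat_lit 535) (nat_lit 441)) (XT.nd (nat_lit 78) (nat_lit 0) (nat_lit 0) (XT.lf (nat_lit 0) (nat_lit 870362811) (nat_lit 684) (nat_lit 4637494391) (nat_lit 760) (nat_lit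 4484656727) (nat_lit 323) (nat_lit 5) (nat_lit 332) (nat_lit 5) (nat_lit 333) (nat_lit 5) (nat_lit 585) (nat_lit 535) (nat_lit 440)) (XT.lf (nat_lit 0) (nat_lit 7059257715) (nat_lit 684) (nat_lit 774776974) (nat_lit 760) (nat_lit 2259132389) (nat_lit 323) (nat_lit 5) (nat_lit 332) (nat_lit 5) (nat_lit 333) (nat_lit 5) (nat_lit 586) (nat_lit 535) (nat_lit 439))))))))
noncomputable def xc110 : XT := (XT.nd (nat_lit 1482) (nat_lit 4408) (nat_lit 0) (XT.nd (nat_lit 702) (nat_lit 3572) (nat_lit 0) (XT.nd (nat_lit 312) (nat_lit 1976) (nat_lit 0) (XT.nd (nat_lit 156) (nat_lit 1368) (nat_lit 0) (XT.nd (nat_lit 78) (nat_lit 0) (nat_lit 0) (XT.lf (nat_lit 0) (nat_lit 28409185) (nat_lit 836) (nat_lit 7025848744) (nat_lit 76) (nat_lit 3141224140) (nat_lit 312) (nat_lit 5) (nat_lit 323) (nat_lit 5) (nat_lit 313) (nat_lit 5) (nat_lit 587) (nat_lit 535) (nat_lit 438)) (XT.lf (nat_lit 0) (nat_lit 2333639760) (nat_lit 836) (nat_lit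 808721732) (nat_lit 76) (nat_lit 7157142580) (nat_lit 312) (nat_lit 5) (nat_lit 323) (nat_lit 5) (nat_lit 313) (nat_lit 5) (nat_lit 588) (nat_lit 535) (nat_lit 437))) (XT.nd (nat_lit 78) (nat_lit 684) (nat_lit 0) (XT.lf (nat_lit 0) (nat_lit 4703911468) (nat_lit 760) (nat_lit 4832039503) (nat_lit 76) (nat_lit 869279879) (nat_lit 303) (nat_lit 5) (nat_lit 313) (nat_lit 5) (nat_lit 304) (nat_lit 5) (nat_lit 589) (nat_lit 535) (nat_lit 436)) (XT.lf (nat_lit 0) (nat_lit 1553116834) (nat_lit 684) (nat_lit 5582075443) (nat_lit 760) (nat_lit 3377610821) (nat_lit 294) (nat_lit 5) (nat_lit 303) (nat_lit 5) (nat_lit 304) (nat_lit 5) (nat_lit 590) (nat_lit 535) (nat_lit 435)))) (XT.nd (nat_lit 156) (nat_lit 1292) (nat_lit 0) (XT.nd (nat_lit 78) (nat_lit 684) (nat_lit 0) (XT.lf (nat_lit 0) (nat_lit 8104506680) (nat_lit 684) (nat_lit 1520535166) (nat_lit 760) (nat_lit 997289028) (nat_lit 294) (nat_lit 5) (nat_lit 303) (nat_lit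 5) (nat_lit 304) (nat_lit 5) (nat_lit 591) (nat_lit 535) (nat_lit 434)) (XT.lf (nat_lit 0) (nat_lit 1433344662) (nat_lit 684) (nat_lit 6680783687) (nat_lit 76) (nat_lit 2619308546) (nat_lit 285) (nat_lit 5) (nat_lit 294) (nat_lit 5) (nat_lit 286) (nat_lit 5) (nat_lit 592) (nat_lit 535) (nat_lit 433))) (XT.nd (nat_lit 78) (nat_lit 1292) (nat_lit 0) (XT.lf (nat_lit 0) (nat_lit 3904369578) (nat_lit 684) (nat_lit 101516857) (nat_lit 76) (nat_lit 6840646891) (nat_lit 285) (nat_lit 5) (nat_lit 294) (nat_lit 5) (nat_lit 286) (nat_lit 5) (nat_lit 593) (nat_lit 535) (nat_lit 432)) (XT.nd (nat_lit 78) (nat_lit 608) (nat_lit 0) (XT.lf (nat_lit 0) (nat_lit 6448049125) (nat_lit 760) (nat_lit 4292537788) (nat_lit 76) (nat_lit 220842814) (nat_lit 276) (nat_lit 5) (nat_lit 286) (nat_lit 5) (nat_lit 277) (nat_lit 5) (nat_lit 594) (nat_lit 535) (nat_lit 431)) (XT.lf (nat_lit 0) (nat_lit 2476757802) (nat_lit 608) (nat_lit 6587831840)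 (nat_lit 684) (nat_lit 2013597334) (nat_lit 268) (nat_lit 5) (nat_lit 276) (nat_lit 5) (nat_lit 277) (nat_lit 5) (nat_lit 595) (nat_lit 535) (nat_lit 430)))))) (XT.nd (nat_lit 390) (nat_lit 1748) (nat_lit 0) (XT.nd (nat_lit 156) (nat_lit 1140) (nat_lit 0) (XT.nd (nat_lit 78) (nat_lit 608) (nat_lit 0) (XT.lf (nat_lit 0) (nat_lit 536941007) (nat_lit 684) (nat_lit 1787524747) (nat_lit 76) (nat_lit 8872590728) (nat_lit 267) (nat_lit 5) (nat_lit 276) (nat_lit 5) (nat_lit 268) (nat_lit 5) (nat_lit 596) (nat_lit 535) (nat_lit 429)) (XT.lf (nat_lit 0) (nat_lit 3137887323) (nat_lit 684) (nat_lit 6140043800) (nat_lit 76) (nat_lit 2039581386) (nat_lit 259) (nat_lit 5) (nat_lit 268) (nat_lit 5) (nat_lit 260) (nat_lit 5) (nat_lit 597) (nat_lit 535) (nat_lit 428))) (XT.nd (nat_lit 78) (nat_lit 608) (nat_lit 0) (XT.lf (nat_lit 0) (nat_lit 834875808) (nat_lit 532) (nat_lit 4968279579) (nat_lit 608) (nat_lit 5636978680) (nat_lit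 252) (nat_lit 5) (nat_lit 259) (nat_lit 5) (nat_lit 260) (nat_lit 5) (nat_lit 598) (nat_lit 535) (nat_lit 427)) (XT.nd (nat_lit 78) (nat_lit 608) (nat_lit 0) (XT.lf (nat_lit 0) (nat_lit 8006242629) (nat_lit 532) (nat_lit 536335897) (nat_lit 608) (nat_lit 3022214954) (nat_lit 252) (nat_lit 5) (nat_lit 259) (nat_lit 5) (nat_lit 260) (nat_lit 5) (nat_lit 599) (nat_lit 535) (nat_lit 426)) (XT.lf (nat_lit 0) (nat_lit 3624630520) (nat_lit 608) (nat_lit 7741569624) (nat_lit 684) (nat_lit 325160108) (nat_lit 244) (nat_lit 5) (nat_lit 252) (nat_lit 5) (nat_lit 253) (nat_lit 5) (nat_lit 600) (nat_lit 535) (nat_lit 425))))) (XT.nd (nat_lit 156) (nat_lit 1140) (nat_lit 0) (XT.nd (nat_lit 78) (nat_lit 532) (nat_lit 0) (XT.lf (nat_lit 0) (nat_lit 2401708739) (nat_lit 684) (nat_lit 865952673) (nat_lit 76) (nat_lit 8552330457) (nat_lit 243) (nat_lit 5) (nat_lit 252) (nat_lit 5) (nat_lit 244) (nat_lit 5) (nat_lit 601) (nat_lit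 535) (nat_lit 424)) (XT.lf (nat_lit 0) (nat_lit 5210362177) (nat_lit 608) (nat_lit 5422658003) (nat_lit 76) (nat_lit 1317503165) (nat_lit 236) (nat_lit 5) (nat_lit 244) (nat_lit 5) (nat_lit 237) (nat_lit 5) (nat_lit 602) (nat_lit 535) (nat_lit 423))) (XT.nd (nat_lit 78) (nat_lit 608) (nat_lit 0) (XT.lf (nat_lit 0) (nat_lit 1976098437) (nat_lit 532) (nat_lit 6120074822) (nat_lit 608) (nat_lit 3987074691) (nat_lit 229) (nat_lit 5) (nat_lit 236) (nat_lit 5) (nat_lit 237) (nat_lit 5) (nat_lit 603) (nat_lit 535) (nat_lit 422)) (XT.nd (nat_lit 78) (nat_lit 608) (nat_lit 0) (XT.lf (nat_lit 0) (nat_lit 9570617354) (nat_lit 532) (nat_lit 1486349049) (nat_lit 608) (nat_lit 1161317472) (nat_lit 229) (nat_lit 5) (nat_lit 236) (nat_lit 5) (nat_lit 237) (nat_lit 5) (nat_lit 604) (nat_lit 535) (nat_lit 421)) (XT.lf (nat_lit 0) (nat_lit 1733189383) (nat_lit 608) (nat_lit 7387003011) (nat_lit 76) (nat_lit 3234910615) (nat_lit 221)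 (nat_lit 5) (nat_lit 229) (nat_lit 5) (nat_lit 222) (nat_lit 5) (nat_lit 605) (nat_lit 535) (nat_lit 420))))))) (XT.nd (nat_lit 702) (nat_lit 1824) (nat_lit 0) (XT.nd (nat_lit 312) (nat_lit 1520) (nat_lit 0) (XT.nd (nat_lit 156) (nat_lit 532) (nat_lit 0) (XT.nd (nat_lit 78) (nat_lit 0) (nat_lit 0) (XT.lf (nat_lit 0) (nat_lit 237601169) (nat_lit 532) (nat_lit 4443009089) (nat_lit 608) (nat_lit 7813685287) (nat_lit 214) (nat_lit 5) (nat_lit 221) (nat_lit 5) (nat_lit 222) (nat_lit 5) (nat_lit 606) (nat_lit 535) (nat_lit 419)) (XT.lf (nat_lit 0) (nat_lit 7720451150) (nat_lit 608) (nat_lit 4548696390) (nat_lit 76) (nat_lit 366456942) (nat_lit 214) (nat_lit 5) (nat_lit 222) (nat_lit 5) (nat_lit 215) (nat_lit 5) (nat_lit 607) (nat_lit 535) (nat_lit 418))) (XT.nd (nat_lit 78) (nat_lit 76) (nat_lit 0) (XT.lf (nat_lit 0) (nat_lit 3302060426) (nat_lit 456) (nat_lit 7551700205) (nat_lit 532) (nat_lit 1925327476) (nat_lit 208)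 (nat_lit 5) (nat_lit 214) (nat_lit 5) (nat_lit 215) (nat_lit 5) (nat_lit 608) (nat_lit 535) (nat_lit 417)) (XT.lf (nat_lit 0) (nat_lit 1122157101) (nat_lit 532) (nat_lit 1586202238) (nat_lit 76) (nat_lit 10216685790) (nat_lit 207) (nat_lit 5) (nat_lit 214) (nat_lit 5) (nat_lit 208) (nat_lit 5) (nat_lit 609) (nat_lit 535) (nat_lit 416)))) (XT.nd (nat_lit 156) (nat_lit 532) (nat_lit 0) (XT.nd (nat_lit 78) (nat_lit 456) (nat_lit 0) (XT.lf (nat_lit 0) (nat_lit 4244149344) (nat_lit 608) (nat_lit 6577778555) (nat_lit 76) (nat_lit 2250953935) (nat_lit 200) (nat_lit 5) (nat_lit 208) (nat_lit 5) (nat_lit 201) (nat_lit 5) (nat_lit 610) (nat_lit 535) (nat_lit 415)) (XT.lf (nat_lit 0) (nat_lit 1512902381) (nat_lit 456) (nat_lit 5936530906) (nat_lit 532) (nat_lit 5773826745) (nat_lit 194) (nat_lit 5) (nat_lit 200) (nat_lit 5) (nat_lit 201) (nat_lit 5) (nat_lit 611) (nat_lit 535) (nat_lit 414))) (XT.nd (nat_lit 78) (nat_lit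 532) (nat_lit 0) (XT.lf (nat_lit 0) (nat_lit 9829718109) (nat_lit 456) (nat_lit 915807582) (nat_lit 532) (nat_lit 2630587809) (nat_lit 194) (nat_lit 5) (nat_lit 200) (nat_lit 5) (nat_lit 201) (nat_lit 5) (nat_lit 612) (nat_lit 535) (nat_lit 413)) (XT.nd (nat_lit 78) (nat_lit 0) (nat_lit 0) (XT.lf (nat_lit 0) (nat_lit 609511650) (nat_lit 532) (nat_lit 8743475229) (nat_lit 76) (nat_lit 4178133243) (nat_lit 187) (nat_lit 5) (nat_lit 194) (nat_lit 5) (nat_lit 188) (nat_lit 5) (nat_lit 613) (nat_lit 535) (nat_lit 412)) (XT.lf (nat_lit 0) (nat_lit 3892163497) (nat_lit 532) (nat_lit 400674477) (nat_lit 76) (nat_lit 9395783320) (nat_lit 187) (nat_lit 5) (nat_lit 194) (nat_lit 5) (nat_lit 188) (nat_lit 5) (nat_lit 614) (nat_lit 535) (nat_lit 411)))))) (XT.nd (nat_lit 75036) (nat_lit 0) (nat_lit 36480) (XT.nd (nat_lit 156) (nat_lit 912) (nat_lit 0) (XT.nd (nat_lit 78) (nat_lit 456) (nat_lit 0) (XT.lf (nat_lit 0) (nat_lit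 7282855315) (nat_lit 532) (nat_lit 5662297013) (nat_lit 76) (nat_lit 903274049) (nat_lit 181) (nat_lit 5) (nat_lit 188) (nat_lit 5) (nat_lit 182) (nat_lit 5) (nat_lit 615) (nat_lit 535) (nat_lit 410)) (XT.lf (nat_lit 0) (nat_lit 2924273468) (nat_lit 456) (nat_lit 7850588282) (nat_lit 532) (nat_lit 3235897392) (nat_lit 175) (nat_lit 5) (nat_lit 181) (nat_lit 5) (nat_lit 182) (nat_lit 5) (nat_lit 616) (nat_lit 535) (nat_lit 409))) (XT.nd (nat_lit 78) (nat_lit 836) (nat_lit 0) (XT.lf (nat_lit 0) (nat_lit 179951926) (nat_lit 532) (nat_lit 2441962046) (nat_lit 76) (nat_lit 11553971590) (nat_lit 174) (nat_lit 5) (nat_lit 181) (nat_lit 5) (nat_lit 175) (nat_lit 5) (nat_lit 617) (nat_lit 535) (nat_lit 408)) (XT.nd (nat_lit 78) (nat_lit 456) (nat_lit 0) (XT.lf (nat_lit 0) (nat_lit 3664208414) (nat_lit 456) (nat_lit 7947146071) (nat_lit 76) (nat_lit 2731665365) (nat_lit 169) (nat_lit 5) (nat_lit 175) (nat_lit 5) (nat_lit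 170) (nat_lit 5) (nat_lit 618) (nat_lit 535) (nat_lit 407)) (XT.lf (nat_lit 0) (nat_lit 900682667) (nat_lit 456) (nat_lit 6341049756) (nat_lit 532) (nat_lit 7271294226) (nat_lit 163) (nat_lit 5) (nat_lit 169) (nat_lit 5) (nat_lit 170) (nat_lit 5) (nat_lit 619) (nat_lit 535) (nat_lit 406))))) (XT.nd (nat_lit 156) (nat_lit 1064) (nat_lit 0) (XT.nd (nat_lit 78) (nat_lit 0) (nat_lit 0) (XT.lf (nat_lit 0) (nat_lit 268122231) (nat_lit 0) (nat_lit 268122231) (nat_lit 988) (nat_lit 2929093719) (nat_lit 657) (nat_lit 5) (nat_lit 657) (nat_lit 3) (nat_lit 670) (nat_lit 3) (nat_lit 536) (nat_lit 536) (nat_lit 488)) (XT.lf (nat_lit 0) (nat_lit 2979129741) (nat_lit 988) (nat_lit 2980444382) (nat_lit 1064) (nat_lit 1002091640) (nat_lit 657) (nat_lit 5) (nat_lit 670) (nat_lit 3) (nat_lit 671) (nat_lit 5) (nat_lit 537) (nat_lit 536) (nat_lit 487))) (XT.nd (nat_lit 78) (nat_lit 1064) (nat_lit 0) (XT.lf (nat_lit 76) (nat_lit 478607305)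 (nat_lit 0) (nat_lit 4402558046) (nat_lit 1064) (nat_lit 2112974829) (nat_lit 658) (nat_lit 5) (nat_lit 657) (nat_lit 5) (nat_lit 671) (nat_lit 5) (nat_lit 538) (nat_lit 536) (nat_lit 486)) (XT.nd (nat_lit 78) (nat_lit 1064) (nat_lit 0) (XT.lf (nat_lit 76) (nat_lit 4021470088) (nat_lit 0) (nat_lit 2771176434) (nat_lit 1064) (nat_lit 235199729) (nat_lit 658) (nat_lit 5) (nat_lit 657) (nat_lit 5) (nat_lit 671) (nat_lit 5) (nat_lit 539) (nat_lit 536) (nat_lit 485)) (XT.lf (nat_lit 76) (nat_lit 543267535) (nat_lit 0) (nat_lit 1070387277) (nat_lit 1140) (nat_lit 5449252139) (nat_lit 644) (nat_lit 5) (nat_lit 643) (nat_lit 5) (nat_lit 658) (nat_lit 5) (nat_lit 540) (nat_lit 536) (nat_lit 484))))))))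
noncomputable def xc111 : XT := (XT.nd (nat_lit 1482) (nat_lit 14440) (nat_lit 0) (XT.nd (nat_lit 702) (nat_lit 3724) (nat_lit 0) (XT.nd (nat_lit 312) (nat_lit 1140) (nat_lit 0) (XT.nd (nat_lit 156) (nat_lit 1140) (nat_lit 0) (XT.nd (nat_lit 78) (nat_lit 0) (nat_lit 0) (XT.lf (nat_lit 0) (nat_lit 3473906483) (nat_lit 1064) (nat_lit 2926449155) (nat_lit 1140) (nat_lit 698740418) (nat_lit 644) (nat_lit 5) (nat_lit 658) (nat_lit 5) (nat_lit 659) (nat_lit 5) (nat_lit 541) (nat_lit 536) (nat_lit 483)) (XT.lf (nat_lit 76) (nat_lit 714579222) (nat_lit 0) (nat_lit 4622379404) (nat_lit 1140) (nat_lit 1799747888) (nat_lit 645) (nat_lit 5) (nat_lit 644) (nat_lit 5) (nat_lit 659) (nat_lit 5) (nat_lit 542) (nat_lit 536) (nat_lit 482))) (XT.nd (nat_lit 78) (nat_lit 0) (nat_lit 0) (XT.lf (nat_lit 0) (nat_lit 35447211) (nat_lit 1140) (nat_lit 2733865704) (nat_lit 1216) (nat_lit 4406276094) (nat_lit 629) (nat_lit 5) (nat_lit 644)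 (nat_lit 5) (nat_lit 645) (nat_lit 5) (nat_lit 543) (nat_lit 536) (nat_lit 481)) (XT.lf (nat_lit 76) (nat_lit 1003171256) (nat_lit 0) (nat_lit 841800654) (nat_lit 1216) (nat_lit 5370813764) (nat_lit 630) (nat_lit 5) (nat_lit 629) (nat_lit 5) (nat_lit 645) (nat_lit 5) (nat_lit 544) (nat_lit 536) (nat_lit 480)))) (XT.nd (nat_lit 156) (nat_lit 1216) (nat_lit 0) (XT.nd (nat_lit 78) (nat_lit 0) (nat_lit 0) (XT.lf (nat_lit 0) (nat_lit 3672468932) (nat_lit 1140) (nat_lit 2438896270) (nat_lit 1216) (nat_lit 1145794194) (nat_lit 630) (nat_lit 5) (nat_lit 645) (nat_lit 5) (nat_lit 646) (nat_lit 5) (nat_lit 545) (nat_lit 536) (nat_lit 479)) (XT.lf (nat_lit 76) (nat_lit 1396504270) (nat_lit 0) (nat_lit 4111531142) (nat_lit 1216) (nat_lit 1791903374) (nat_lit 631) (nat_lit 5) (nat_lit 630) (nat_lit 5) (nat_lit 646) (nat_lit 5) (nat_lit 546) (nat_lit 536) (nat_lit 478))) (XT.nd (nat_lit 78) (nat_lit 0) (nat_lit 76) (XT.lf (nat_lit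 0) (nat_lit 9994907) (nat_lit 1216) (nat_lit 2028854851) (nat_lit 1292) (nat_lit 5305252744) (nat_lit 614) (nat_lit 5) (nat_lit 630) (nat_lit 5) (nat_lit 631) (nat_lit 5) (nat_lit 547) (nat_lit 536) (nat_lit 477)) (XT.nd (nat_lit 78) (nat_lit 0) (nat_lit 0) (XT.lf (nat_lit 0) (nat_lit 1795211667) (nat_lit 1216) (nat_lit 5480266990) (nat_lit 1292) (nat_lit 114016554) (nat_lit 615) (nat_lit 5) (nat_lit 631) (nat_lit 5) (nat_lit 632) (nat_lit 5) (nat_lit 548) (nat_lit 536) (nat_lit 476)) (XT.lf (nat_lit 0) (nat_lit 3602189277) (nat_lit 1216) (nat_lit 1522704076) (nat_lit 1292) (nat_lit 2311189224) (nat_lit 615) (nat_lit 5) (nat_lit 631) (nat_lit 5) (nat_lit 632) (nat_lit 5) (nat_lit 549) (nat_lit 536) (nat_lit 475)))))) (XT.nd (nat_lit 390) (nat_lit 2584) (nat_lit 0) (XT.nd (nat_lit 156) (nat_lit 1216) (nat_lit 0) (XT.nd (nat_lit 78) (nat_lit 0) (nat_lit 0) (XT.lf (nat_lit 76) (nat_lit 2520435934) (nat_lit 0) (nat_lit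 2900891072) (nat_lit 1292) (nat_lit 2062762050) (nat_lit 616) (nat_lit 5) (nat_lit 615) (nat_lit 5) (nat_lit 632) (nat_lit 5) (nat_lit 550) (nat_lit 536) (nat_lit 474)) (XT.lf (nat_lit 76) (nat_lit 6638624466) (nat_lit 0) (nat_lit 608716686) (nat_lit 1292) (nat_lit 286312264) (nat_lit 616) (nat_lit 5) (nat_lit 615) (nat_lit 5) (nat_lit 632) (nat_lit 5) (nat_lit 551) (nat_lit 536) (nat_lit 473))) (XT.nd (nat_lit 78) (nat_lit 0) (nat_lit 0) (XT.lf (nat_lit 0) (nat_lit 1499137602) (nat_lit 1292) (nat_lit 4334524455) (nat_lit 1368) (nat_lit 1750486613) (nat_lit 599) (nat_lit 5) (nat_lit 616) (nat_lit 5) (nat_lit 617) (nat_lit 5) (nat_lit 552) (nat_lit 536) (nat_lit 472)) (XT.nd (nat_lit 78) (nat_lit 0) (nat_lit 0) (XT.lf (nat_lit 0) (nat_lit 3288010738) (nat_lit 1292) (nat_lit 179347991) (nat_lit 1368) (nat_lit 4168833474) (nat_lit 599) (nat_lit 5) (nat_lit 616) (nat_lit 5) (nat_lit 617) (nat_lit 5) (nat_lit 553) (nat_lit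 536) (nat_lit 471)) (XT.lf (nat_lit 76) (nat_lit 4085901727) (nat_lit 0) (nat_lit 1015510820) (nat_lit 1368) (nat_lit 2588096080) (nat_lit 600) (nat_lit 5) (nat_lit 599) (nat_lit 5) (nat_lit 617) (nat_lit 5) (nat_lit 554) (nat_lit 536) (nat_lit 470))))) (XT.nd (nat_lit 156) (nat_lit 1292) (nat_lit 0) (XT.nd (nat_lit 78) (nat_lit 1368) (nat_lit 0) (XT.lf (nat_lit 76) (nat_lit 666850640) (nat_lit 0) (nat_lit 6262278683) (nat_lit 1368) (nat_lit 815208024) (nat_lit 601) (nat_lit 5) (nat_lit 600) (nat_lit 5) (nat_lit 618) (nat_lit 5) (nat_lit 555) (nat_lit 536) (nat_lit 469)) (XT.lf (nat_lit 0) (nat_lit 974345245) (nat_lit 1368) (nat_lit 2769127569) (nat_lit 1444) (nat_lit 4056782849) (nat_lit 582) (nat_lit 5) (nat_lit 600) (nat_lit 5) (nat_lit 601) (nat_lit 5) (nat_lit 556) (nat_lit 536) (nat_lit 468))) (XT.nd (nat_lit 78) (nat_lit 1292) (nat_lit 0) (XT.lf (nat_lit 76) (nat_lit 1614130169) (nat_lit 0) (nat_lit 1149021385)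 (nat_lit 1444) (nat_lit 5094551978) (nat_lit 583) (nat_lit 5) (nat_lit 582) (nat_lit 5) (nat_lit 601) (nat_lit 5) (nat_lit 557) (nat_lit 536) (nat_lit 467)) (XT.nd (nat_lit 78) (nat_lit 1368) (nat_lit 0) (XT.lf (nat_lit 0) (nat_lit 4580638632) (nat_lit 1368) (nat_lit 1830820173) (nat_lit 76) (nat_lit 1504989840) (nat_lit 583) (nat_lit 5) (nat_lit 601) (nat_lit 5) (nat_lit 584) (nat_lit 5) (nat_lit 558) (nat_lit 536) (nat_lit 466)) (XT.lf (nat_lit 0) (nat_lit 2670508627) (nat_lit 1368) (nat_lit 3754089154) (nat_lit 1444) (nat_lit 1551974686) (nat_lit 565) (nat_lit 5) (nat_lit 583) (nat_lit 5) (nat_lit 584) (nat_lit 5) (nat_lit 559) (nat_lit 536) (nat_lit 465))))))) (XT.nd (nat_lit 702) (nat_lit 6308) (nat_lit 0) (XT.nd (nat_lit 312) (nat_lit 5092) (nat_lit 0) (XT.nd (nat_lit 156) (nat_lit 1520) (nat_lit 0) (XT.nd (nat_lit 78) (nat_lit 1444) (nat_lit 0) (XT.lf (nat_lit 0) (nat_lit 241844661) (nat_lit 1444) (nat_lit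 780171358) (nat_lit 76) (nat_lit 7016297698) (nat_lit 564) (nat_lit 5) (nat_lit 583) (nat_lit 5) (nat_lit 565) (nat_lit 5) (nat_lit 560) (nat_lit 536) (nat_lit 464)) (XT.lf (nat_lit 0) (nat_lit 2053636347) (nat_lit 1520) (nat_lit 4263399560) (nat_lit 76) (nat_lit 1783997068) (nat_lit 545) (nat_lit 5) (nat_lit 565) (nat_lit 5) (nat_lit 546) (nat_lit 5) (nat_lit 561) (nat_lit 536) (nat_lit 463))) (XT.nd (nat_lit 78) (nat_lit 0) (nat_lit 0) (XT.lf (nat_lit 0) (nat_lit 364054756) (nat_lit 1520) (nat_lit 3518672242) (nat_lit 1596) (nat_lit 4282664137) (nat_lit 525) (nat_lit 5) (nat_lit 545) (nat_lit 5) (nat_lit 546) (nat_lit 5) (nat_lit 562) (nat_lit 536) (nat_lit 462)) (XT.lf (nat_lit 0) (nat_lit 5114645126) (nat_lit 1520) (nat_lit 629502162) (nat_lit 1596) (nat_lit 2486979880) (nat_lit 525) (nat_lit 5) (nat_lit 545) (nat_lit 5) (nat_lit 546) (nat_lit 5) (nat_lit 563) (nat_lit 536) (nat_lit 461)))) (XT.nd (nat_lit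 156) (nat_lit 3420) (nat_lit 0) (XT.nd (nat_lit 78) (nat_lit 76) (nat_lit 0) (XT.lf (nat_lit 0) (nat_lit 1641190428) (nat_lit 1596) (nat_lit 5995126214) (nat_lit 1672) (nat_lit 661996420) (nat_lit 504) (nat_lit 5) (nat_lit 525) (nat_lit 5) (nat_lit 526) (nat_lit 5) (nat_lit 564) (nat_lit 536) (nat_lit 460)) (XT.lf (nat_lit 0) (nat_lit 1177033449) (nat_lit 1672) (nat_lit 1869865461) (nat_lit 76) (nat_lit 5319927780) (nat_lit 503) (nat_lit 5) (nat_lit 525) (nat_lit 5) (nat_lit 504) (nat_lit 5) (nat_lit 565) (nat_lit 536) (nat_lit 459))) (XT.nd (nat_lit 78) (nat_lit 1748) (nat_lit 0) (XT.lf (nat_lit 0) (nat_lit 3021312252) (nat_lit 1672) (nat_lit 10976103) (nat_lit 1748) (nat_lit 5404573781) (nat_lit 481) (nat_lit 5) (nat_lit 503) (nat_lit 5) (nat_lit 504) (nat_lit 5) (nat_lit 566) (nat_lit 536) (nat_lit 458)) (XT.nd (nat_lit 78) (nat_lit 1748) (nat_lit 0) (XT.lf (nat_lit 0) (nat_lit 4926462719) (nat_lit 1748) (nat_lit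 520040655) (nat_lit 76) (nat_lit 3061763763) (nat_lit 481) (nat_lit 5) (nat_lit 504) (nat_lit 5) (nat_lit 482) (nat_lit 5) (nat_lit 567) (nat_lit 536) (nat_lit 457)) (XT.lf (nat_lit 0) (nat_lit 4505399037) (nat_lit 1748) (nat_lit 2352200469) (nat_lit 1824) (nat_lit 1723524183) (nat_lit 458) (nat_lit 5) (nat_lit 481) (nat_lit 5) (nat_lit 482) (nat_lit 5) (nat_lit 568) (nat_lit 536) (nat_lit 456)))))) (XT.nd (nat_lit 390) (nat_lit 2660) (nat_lit 0) (XT.nd (nat_lit 156) (nat_lit 1900) (nat_lit 0) (XT.nd (nat_lit 78) (nat_lit 0) (nat_lit 0) (XT.lf (nat_lit 0) (nat_lit 154741681) (nat_lit 1748) (nat_lit 7693780630) (nat_lit 76) (nat_lit 807196076) (nat_lit 435) (nat_lit 5) (nat_lit 458) (nat_lit 5) (nat_lit 436) (nat_lit 5) (nat_lit 569) (nat_lit 536) (nat_lit 455)) (XT.lf (nat_lit 0) (nat_lit 2061025991) (nat_lit 1748) (nat_lit 2630486841) (nat_lit 76) (nat_lit 4039798415) (nat_lit 435) (nat_lit 5) (nat_lit 458) (nat_lit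 5) (nat_lit 436) (nat_lit 5) (nat_lit 570) (nat_lit 536) (nat_lit 454))) (XT.nd (nat_lit 78) (nat_lit 912) (nat_lit 0) (XT.lf (nat_lit 0) (nat_lit 2540274150) (nat_lit 988) (nat_lit 1452636033) (nat_lit 1064) (nat_lit 4815760944) (nat_lit 422) (nat_lit 5) (nat_lit 435) (nat_lit 5) (nat_lit 436) (nat_lit 5) (nat_lit 571) (nat_lit 536) (nat_lit 453)) (XT.nd (nat_lit 78) (nat_lit 912) (nat_lit 0) (XT.lf (nat_lit 0) (nat_lit 5964605074) (nat_lit 1064) (nat_lit 1076777257) (nat_lit 76) (nat_lit 1846176971) (nat_lit 422) (nat_lit 5) (nat_lit 436) (nat_lit 5) (nat_lit 423) (nat_lit 5) (nat_lit 572) (nat_lit 536) (nat_lit 452)) (XT.lf (nat_lit 0) (nat_lit 4237647502) (nat_lit 912) (nat_lit 3747167264) (nat_lit 988) (nat_lit 983033322) (nat_lit 410) (nat_lit 5) (nat_lit 422) (nat_lit 5) (nat_lit 423) (nat_lit 5) (nat_lit 573) (nat_lit 536) (nat_lit 451))))) (XT.nd (nat_lit 156) (nat_lit 1672) (nat_lit 0) (XT.nd (nat_lit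 78) (nat_lit 0) (nat_lit 0) (XT.lf (nat_lit 0) (nat_lit 597500616) (nat_lit 912) (nat_lit 368415322) (nat_lit 988) (nat_lit 8084035943) (nat_lit 397) (nat_lit 5) (nat_lit 409) (nat_lit 5) (nat_lit 410) (nat_lit 5) (nat_lit 574) (nat_lit 536) (nat_lit 450)) (XT.lf (nat_lit 0) (nat_lit 2965139662) (nat_lit 988) (nat_lit 3091452419) (nat_lit 76) (nat_lit 3076490755) (nat_lit 397) (nat_lit 5) (nat_lit 410) (nat_lit 5) (nat_lit 398) (nat_lit 5) (nat_lit 575) (nat_lit 536) (nat_lit 449))) (XT.nd (nat_lit 78) (nat_lit 836) (nat_lit 0) (XT.lf (nat_lit 0) (nat_lit 2378501178) (nat_lit 836) (nat_lit 2616778145) (nat_lit 912) (nat_lit 4222782583) (nat_lit 386) (nat_lit 5) (nat_lit 397) (nat_lit 5) (nat_lit 398) (nat_lit 5) (nat_lit 576) (nat_lit 536) (nat_lit 448)) (XT.nd (nat_lit 78) (nat_lit 836) (nat_lit 0) (XT.lf (nat_lit 0) (nat_lit 7066096210) (nat_lit 912) (nat_lit 1337870600) (nat_lit 76) (nat_lit 900776306) (nat_lit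 386) (nat_lit 5) (nat_lit 398) (nat_lit 5) (nat_lit 387) (nat_lit 5) (nat_lit 577) (nat_lit 536) (nat_lit 447)) (XT.lf (nat_lit 0) (nat_lit 4285894249) (nat_lit 836) (nat_lit 4911514657) (nat_lit 912) (nat_lit 195371421) (nat_lit 375) (nat_lit 5) (nat_lit 386) (nat_lit 5) (nat_lit 387) (nat_lit 5) (nat_lit 578) (nat_lit 536) (nat_lit 446))))))))
noncomputable def xc112 : XT := (XT.nd (nat_lit 1404) (nat_lit 6612) (nat_lit 0) (XT.nd (nat_lit 702) (nat_lit 4180) (nat_lit 0) (XT.nd (nat_lit 312) (nat_lit 2280) (nat_lit 0) (XT.nd (nat_lit 156) (nat_lit 836) (nat_lit 0) (XT.nd (nat_lit 78) (nat_lit 0) (nat_lit 0) (XT.lf (nat_lit 0) (nat_lit 525428032) (nat_lit 760) (nat_lit 1325105541) (nat_lit 836) (nat_lit 7632072548) (nat_lit 364) (nat_lit 5) (nat_lit 374) (nat_lit 5) (nat_lit 375) (nat_lit 5) (nat_lit 579) (nat_lit 536) (nat_lit 445)) (XT.lf (nat_lit 0) (nat_lit 3958800117) (nat_lit 836) (nat_lit 3277938595) (nat_lit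 76) (nat_lit 2336986439) (nat_lit 364) (nat_lit 5) (nat_lit 375) (nat_lit 5) (nat_lit 365) (nat_lit 5) (nat_lit 580) (nat_lit 536) (nat_lit 444))) (XT.nd (nat_lit 78) (nat_lit 0) (nat_lit 0) (XT.lf (nat_lit 0) (nat_lit 2512254133) (nat_lit 836) (nat_lit 3596978914) (nat_lit 912) (nat_lit 3557437158) (nat_lit 353) (nat_lit 5) (nat_lit 364) (nat_lit 5) (nat_lit 365) (nat_lit 5) (nat_lit 581) (nat_lit 536) (nat_lit 443)) (XT.lf (nat_lit 0) (nat_lit 8300788604) (nat_lit 912) (nat_lit 1326361440) (nat_lit 76) (nat_lit 134365430) (nat_lit 353) (nat_lit 5) (nat_lit 365) (nat_lit 5) (nat_lit 354) (nat_lit 5) (nat_lit 582) (nat_lit 536) (nat_lit 442)))) (XT.nd (nat_lit 156) (nat_lit 684) (nat_lit 0) (XT.nd (nat_lit 78) (nat_lit 760) (nat_lit 0) (XT.lf (nat_lit 0) (nat_lit 698798786) (nat_lit 836) (nat_lit 5233712893) (nat_lit 76) (nat_lit 3925065948) (nat_lit 342) (nat_lit 5) (nat_lit 353) (nat_lit 5) (nat_lit 343) (nat_lit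 5) (nat_lit 583) (nat_lit 536) (nat_lit 441)) (XT.lf (nat_lit 0) (nat_lit 728784153) (nat_lit 760) (nat_lit 2142730895) (nat_lit 836) (nat_lit 7084065069) (nat_lit 332) (nat_lit 5) (nat_lit 342) (nat_lit 5) (nat_lit 343) (nat_lit 5) (nat_lit 584) (nat_lit 536) (nat_lit 440))) (XT.nd (nat_lit 78) (nat_lit 684) (nat_lit 0) (XT.lf (nat_lit 0) (nat_lit 5110358241) (nat_lit 836) (nat_lit 3211802983) (nat_lit 76) (nat_lit 1732931300) (nat_lit 332) (nat_lit 5) (nat_lit 343) (nat_lit 5) (nat_lit 333) (nat_lit 5) (nat_lit 585) (nat_lit 536) (nat_lit 439)) (XT.nd (nat_lit 78) (nat_lit 0) (nat_lit 0) (XT.lf (nat_lit 0) (nat_lit 2921120613) (nat_lit 684) (nat_lit 4482614976) (nat_lit 760) (nat_lit 2752667697) (nat_lit 323) (nat_lit 5) (nat_lit 332) (nat_lit 5) (nat_lit 333) (nat_lit 5) (nat_lit 586) (nat_lit 536) (nat_lit 438)) (XT.lf (nat_lit 0) (nat_lit 9193923796) (nat_lit 684) (nat_lit 547498687) (nat_lit 760) (nat_lit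 518352131) (nat_lit 323) (nat_lit 5) (nat_lit 332) (nat_lit 5) (nat_lit 333) (nat_lit 5) (nat_lit 587) (nat_lit 536) (nat_lit 437)))))) (XT.nd (nat_lit 312) (nat_lit 1976) (nat_lit 0) (XT.nd (nat_lit 156) (nat_lit 684) (nat_lit 0) (XT.nd (nat_lit 78) (nat_lit 684) (nat_lit 0) (XT.lf (nat_lit 0) (nat_lit 1771674695) (nat_lit 836) (nat_lit 5129150007) (nat_lit 76) (nat_lit 3463480782) (nat_lit 312) (nat_lit 5) (nat_lit 323) (nat_lit 5) (nat_lit 313) (nat_lit 5) (nat_lit 588) (nat_lit 536) (nat_lit 436)) (XT.lf (nat_lit 0) (nat_lit 1187954373) (nat_lit 684) (nat_lit 2908597960) (nat_lit 760) (nat_lit 6374389300) (nat_lit 303) (nat_lit 5) (nat_lit 312) (nat_lit 5) (nat_lit 313) (nat_lit 5) (nat_lit 589) (nat_lit 536) (nat_lit 435))) (XT.nd (nat_lit 78) (nat_lit 684) (nat_lit 0) (XT.lf (nat_lit 0) (nat_lit 6487821522) (nat_lit 760) (nat_lit 2912491762) (nat_lit 76) (nat_lit 1179002288) (nat_lit 303) (nat_lit 5) (nat_lit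 313) (nat_lit 5) (nat_lit 304) (nat_lit 5) (nat_lit 590) (nat_lit 536) (nat_lit 434)) (XT.lf (nat_lit 0) (nat_lit 3587103304) (nat_lit 684) (nat_lit 5360494997) (nat_lit 760) (nat_lit 1741847933) (nat_lit 294) (nat_lit 5) (nat_lit 303) (nat_lit 5) (nat_lit 304) (nat_lit 5) (nat_lit 591) (nat_lit 536) (nat_lit 433)))) (XT.nd (nat_lit 156) (nat_lit 1292) (nat_lit 0) (XT.nd (nat_lit 78) (nat_lit 608) (nat_lit 0) (XT.lf (nat_lit 0) (nat_lit 644121918) (nat_lit 760) (nat_lit 575813363) (nat_lit 76) (nat_lit 9581803609) (nat_lit 293) (nat_lit 5) (nat_lit 303) (nat_lit 5) (nat_lit 294) (nat_lit 5) (nat_lit 592) (nat_lit 536) (nat_lit 432)) (XT.lf (nat_lit 0) (nat_lit 3092755806) (nat_lit 684) (nat_lit 4811159092) (nat_lit 76) (nat_lit 3011369593) (nat_lit 285) (nat_lit 5) (nat_lit 294) (nat_lit 5) (nat_lit 286) (nat_lit 5) (nat_lit 593) (nat_lit 536) (nat_lit 431))) (XT.nd (nat_lit 78) (nat_lit 608) (nat_lit 0) (XT.lf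 (nat_lit 0) (nat_lit 1885137774) (nat_lit 684) (nat_lit 3708327633) (nat_lit 760) (nat_lit 5437576203) (nat_lit 276) (nat_lit 5) (nat_lit 285) (nat_lit 5) (nat_lit 286) (nat_lit 5) (nat_lit 594) (nat_lit 536) (nat_lit 430)) (XT.nd (nat_lit 78) (nat_lit 608) (nat_lit 0) (XT.lf (nat_lit 0) (nat_lit 8159506487) (nat_lit 760) (nat_lit 2397956754) (nat_lit 76) (nat_lit 591346904) (nat_lit 276) (nat_lit 5) (nat_lit 286) (nat_lit 5) (nat_lit 277) (nat_lit 5) (nat_lit 595) (nat_lit 536) (nat_lit 429)) (XT.lf (nat_lit 0) (nat_lit 4493695592) (nat_lit 608) (nat_lit 6316426566) (nat_lit 684) (nat_lit 458149383) (nat_lit 268) (nat_lit 5) (nat_lit 276) (nat_lit 5) (nat_lit 277) (nat_lit 5) (nat_lit 596) (nat_lit 536) (nat_lit 428))))))) (XT.nd (nat_lit 702) (nat_lit 3572) (nat_lit 0) (XT.nd (nat_lit 312) (nat_lit 1824) (nat_lit 0) (XT.nd (nat_lit 156) (nat_lit 532) (nat_lit 0) (XT.nd (nat_lit 78) (nat_lit 0) (nat_lit 0) (XT.lf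 (nat_lit 0) (nat_lit 127933348) (nat_lit 608) (nat_lit 1964490582) (nat_lit 684) (nat_lit 9297491986) (nat_lit 259) (nat_lit 5) (nat_lit 267) (nat_lit 5) (nat_lit 268) (nat_lit 5) (nat_lit 597) (nat_lit 536) (nat_lit 427)) (XT.lf (nat_lit 0) (nat_lit 4729525276) (nat_lit 684) (nat_lit 4298097535) (nat_lit 76) (nat_lit 2485479194) (nat_lit 259) (nat_lit 5) (nat_lit 268) (nat_lit 5) (nat_lit 260) (nat_lit 5) (nat_lit 598) (nat_lit 536) (nat_lit 426))) (XT.nd (nat_lit 78) (nat_lit 0) (nat_lit 0) (XT.lf (nat_lit 0) (nat_lit 2803394498) (nat_lit 532) (nat_lit 4627398678) (nat_lit 608) (nat_lit 4207732520) (nat_lit 252) (nat_lit 5) (nat_lit 259) (nat_lit 5) (nat_lit 260) (nat_lit 5) (nat_lit 599) (nat_lit 536) (nat_lit 425)) (XT.lf (nat_lit 0) (nat_lit 10079917652) (nat_lit 532) (nat_lit 115448406) (nat_lit 608) (nat_lit 1570908533) (nat_lit 252) (nat_lit 5) (nat_lit 259) (nat_lit 5) (nat_lit 260) (nat_lit 5) (nat_lit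 600) (nat_lit 536) (nat_lit 424)))) (XT.nd (nat_lit 156) (nat_lit 608) (nat_lit 0) (XT.nd (nat_lit 78) (nat_lit 532) (nat_lit 0) (XT.lf (nat_lit 0) (nat_lit 1150721934) (nat_lit 684) (nat_lit 6278303689) (nat_lit 76) (nat_lit 4466474989) (nat_lit 243) (nat_lit 5) (nat_lit 252) (nat_lit 5) (nat_lit 244) (nat_lit 5) (nat_lit 601) (nat_lit 536) (nat_lit 423)) (XT.lf (nat_lit 0) (nat_lit 1039784110) (nat_lit 532) (nat_lit 2865764106) (nat_lit 608) (nat_lit 8121561500) (nat_lit 236) (nat_lit 5) (nat_lit 243) (nat_lit 5) (nat_lit 244) (nat_lit 5) (nat_lit 602) (nat_lit 536) (nat_lit 422))) (XT.nd (nat_lit 78) (nat_lit 608) (nat_lit 0) (XT.lf (nat_lit 0) (nat_lit 6750538523) (nat_lit 608) (nat_lit 3608444417) (nat_lit 76) (nat_lit 1801668858) (nat_lit 236) (nat_lit 5) (nat_lit 244) (nat_lit 5) (nat_lit 237) (nat_lit 5) (nat_lit 603) (nat_lit 536) (nat_lit 421)) (XT.nd (nat_lit 78) (nat_lit 76) (nat_lit 0) (XT.lf (nat_lit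 0) (nat_lit 3925638028) (nat_lit 532) (nat_lit 5752672642) (nat_lit 608) (nat_lit 2618038515) (nat_lit 229) (nat_lit 5) (nat_lit 236) (nat_lit 5) (nat_lit 237) (nat_lit 5) (nat_lit 604) (nat_lit 536) (nat_lit 420)) (XT.lf (nat_lit 0) (nat_lit 232733535) (nat_lit 608) (nat_lit 801581048) (nat_lit 76) (nat_lit 11400300697) (nat_lit 228) (nat_lit 5) (nat_lit 236) (nat_lit 5) (nat_lit 229) (nat_lit 5) (nat_lit 605) (nat_lit 536) (nat_lit 419)))))) (XT.nd (nat_lit 390) (nat_lit 1444) (nat_lit 0) (XT.nd (nat_lit 156) (nat_lit 1064) (nat_lit 0) (XT.nd (nat_lit 78) (nat_lit 532) (nat_lit 0) (XT.lf (nat_lit 0) (nat_lit 3157506292) (nat_lit 608) (nat_lit 5631156131) (nat_lit 76) (nat_lit 3785599336) (nat_lit 221) (nat_lit 5) (nat_lit 229) (nat_lit 5) (nat_lit 222) (nat_lit 5) (nat_lit 606) (nat_lit 536) (nat_lit 418)) (XT.lf (nat_lit 0) (nat_lit 2133416533) (nat_lit 532) (nat_lit 4015488988) (nat_lit 608) (nat_lit 6567634972)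 (nat_lit 214) (nat_lit 5) (nat_lit 221) (nat_lit 5) (nat_lit 222) (nat_lit 5) (nat_lit 607) (nat_lit 536) (nat_lit 417))) (XT.nd (nat_lit 78) (nat_lit 1064) (nat_lit 0) (XT.lf (nat_lit 0) (nat_lit 9225875606) (nat_lit 608) (nat_lit 2761874612) (nat_lit 76) (nat_lit 873401632) (nat_lit 214) (nat_lit 5) (nat_lit 222) (nat_lit 5) (nat_lit 215) (nat_lit 5) (nat_lit 608) (nat_lit 536) (nat_lit 416)) (XT.nd (nat_lit 78) (nat_lit 608) (nat_lit 0) (XT.lf (nat_lit 0) (nat_lit 5233543422) (nat_lit 456) (nat_lit 7173929041) (nat_lit 532) (nat_lit 600323092) (nat_lit 208) (nat_lit 5) (nat_lit 214) (nat_lit 5) (nat_lit 215) (nat_lit 5) (nat_lit 609) (nat_lit 536) (nat_lit 415)) (XT.lf (nat_lit 0) (nat_lit 231644406) (nat_lit 532) (nat_lit 2233703201) (nat_lit 608) (nat_lit 10691647394) (nat_lit 200) (nat_lit 5) (nat_lit 207) (nat_lit 5) (nat_lit 208) (nat_lit 5) (nat_lit 610) (nat_lit 536) (nat_lit 414))))) (XT.nd (nat_lit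 156) (nat_lit 988) (nat_lit 0) (XT.nd (nat_lit 78) (nat_lit 456) (nat_lit 0) (XT.lf (nat_lit 0) (nat_lit 5637753487) (nat_lit 608) (nat_lit 4852145861) (nat_lit 76) (nat_lit 2818132284) (nat_lit 200) (nat_lit 5) (nat_lit 208) (nat_lit 5) (nat_lit 201) (nat_lit 5) (nat_lit 611) (nat_lit 536) (nat_lit 413)) (XT.lf (nat_lit 0) (nat_lit 3388130350) (nat_lit 456) (nat_lit 5505330329) (nat_lit 532) (nat_lit 4568232980) (nat_lit 194) (nat_lit 5) (nat_lit 200) (nat_lit 5) (nat_lit 201) (nat_lit 5) (nat_lit 612) (nat_lit 536) (nat_lit 412))) (XT.nd (nat_lit 78) (nat_lit 988) (nat_lit 0) (XT.lf (nat_lit 0) (nat_lit 11835106512) (nat_lit 456) (nat_lit 394975503) (nat_lit 532) (nat_lit 1388032605) (nat_lit 194) (nat_lit 5) (nat_lit 200) (nat_lit 5) (nat_lit 201) (nat_lit 5) (nat_lit 613) (nat_lit 536) (nat_lit 411)) (XT.nd (nat_lit 78) (nat_lit 456) (nat_lit 0) (XT.lf (nat_lit 0) (nat_lit 1890161592) (nat_lit 532) (nat_lit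 7082594467) (nat_lit 76) (nat_lit 4803494017) (nat_lit 187) (nat_lit 5) (nat_lit 194) (nat_lit 5) (nat_lit 188) (nat_lit 5) (nat_lit 614) (nat_lit 536) (nat_lit 410)) (XT.lf (nat_lit 0) (nat_lit 1409553747) (nat_lit 456) (nat_lit 3813192728) (nat_lit 532) (nat_lit 8714471613) (nat_lit 181) (nat_lit 5) (nat_lit 187) (nat_lit 5) (nat_lit 188) (nat_lit 5) (nat_lit 615) (nat_lit 536) (nat_lit 409))))))))
noncomputable def xc113 : XT := (XT.nd (nat_lit 76206) (nat_lit 0) (nat_lit 20216) (XT.nd (nat_lit 75426) (nat_lit 0) (nat_lit 32604) (XT.nd (nat_lit 75036) (nat_lit 0) (nat_lit 36024) (XT.nd (nat_lit 156) (nat_lit 456) (nat_lit 0) (XT.nd (nat_lit 78) (nat_lit 456) (nat_lit 0) (XT.lf (nat_lit 0) (nat_lit 8662941700) (nat_lit 532) (nat_lit 3966510650) (nat_lit 76) (nat_lit 1471135500) (nat_lit 181) (nat_lit 5) (nat_lit 188) (nat_lit 5) (nat_lit 182) (nat_lit 5) (nat_lit 616) (nat_lit 536) (nat_lit 408)) (XT.lf (nat_lit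 0) (nat_lit 4779889713) (nat_lit 456) (nat_lit 7432362221) (nat_lit 532) (nat_lit 2054168386) (nat_lit 175) (nat_lit 5) (nat_lit 181) (nat_lit 5) (nat_lit 182) (nat_lit 5) (nat_lit 617) (nat_lit 536) (nat_lit 407))) (XT.nd (nat_lit 78) (nat_lit 380) (nat_lit 0) (XT.lf (nat_lit 0) (nat_lit 1389530943) (nat_lit 532) (nat_lit 712769894) (nat_lit 76) (nat_lit 12332871200) (nat_lit 174) (nat_lit 5) (nat_lit 181) (nat_lit 5) (nat_lit 175) (nat_lit 5) (nat_lit 618) (nat_lit 536) (nat_lit 406)) (XT.lf (nat_lit 0) (nat_lit 4935011364) (nat_lit 456) (nat_lit 6319486957) (nat_lit 76) (nat_lit 3351322103) (nat_lit 169) (nat_lit 5) (nat_lit 175) (nat_lit 5) (nat_lit 170) (nat_lit 5) (nat_lit 619) (nat_lit 536) (nat_lit 405)))) (XT.nd (nat_lit 156) (nat_lit 1064) (nat_lit 0) (XT.nd (nat_lit 78) (nat_lit 0) (nat_lit 0) (XT.lf (nat_lit 0) (nat_lit 1212012916) (nat_lit 0) (nat_lit 1212012916) (nat_lit 988) (nat_lit 1072681530)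 (nat_lit 657) (nat_lit 5) (nat_lit 657) (nat_lit 3) (nat_lit 670) (nat_lit 3) (nat_lit 537) (nat_lit 537) (nat_lit 486)) (XT.lf (nat_lit 0) (nat_lit 5907956315) (nat_lit 0) (nat_lit 804534362) (nat_lit 988) (nat_lit 314155477) (nat_lit 657) (nat_lit 5) (nat_lit 657) (nat_lit 3) (nat_lit 670) (nat_lit 3) (nat_lit 538) (nat_lit 537) (nat_lit 485))) (XT.nd (nat_lit 78) (nat_lit 0) (nat_lit 0) (XT.lf (nat_lit 0) (nat_lit 1506733776) (nat_lit 1064) (nat_lit 4668901078) (nat_lit 1140) (nat_lit 885246785) (nat_lit 643) (nat_lit 5) (nat_lit 657) (nat_lit 5) (nat_lit 658) (nat_lit 5) (nat_lit 539) (nat_lit 537) (nat_lit 484)) (XT.nd (nat_lit 78) (nat_lit 0) (nat_lit 0) (XT.lf (nat_lit 0) (nat_lit 3325695417) (nat_lit 1064) (nat_lit 1140486029) (nat_lit 1140) (nat_lit 2630271304) (nat_lit 643) (nat_lit 5) (nat_lit 657) (nat_lit 5) (nat_lit 658) (nat_lit 5) (nat_lit 540) (nat_lit 537) (nat_lit 483)) (XT.lf (nat_lit 76) (nat_lit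 2465932007) (nat_lit 0) (nat_lit 2685009315) (nat_lit 1140) (nat_lit 1982405341) (nat_lit 644) (nat_lit 5) (nat_lit 643) (nat_lit 5) (nat_lit 658) (nat_lit 5) (nat_lit 541) (nat_lit 537) (nat_lit 482)))))) (XT.nd (nat_lit 390) (nat_lit 2356) (nat_lit 0) (XT.nd (nat_lit 156) (nat_lit 0) (nat_lit 0) (XT.nd (nat_lit 78) (nat_lit 1064) (nat_lit 0) (XT.lf (nat_lit 76) (nat_lit 6135195399) (nat_lit 0) (nat_lit 839787959) (nat_lit 1140) (nat_lit 196758568) (nat_lit 644) (nat_lit 5) (nat_lit 643) (nat_lit 5) (nat_lit 658) (nat_lit 5) (nat_lit 542) (nat_lit 537) (nat_lit 481)) (XT.lf (nat_lit 0) (nat_lit 1582912141) (nat_lit 1140) (nat_lit 4551832504) (nat_lit 1216) (nat_lit 1076366063) (nat_lit 629) (nat_lit 5) (nat_lit 644) (nat_lit 5) (nat_lit 645) (nat_lit 5) (nat_lit 543) (nat_lit 537) (nat_lit 480))) (XT.nd (nat_lit 78) (nat_lit 0) (nat_lit 0) (XT.lf (nat_lit 0) (nat_lit 3364174675) (nat_lit 1140) (nat_lit 840681768)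 (nat_lit 1216) (nat_lit 3047020508) (nat_lit 629) (nat_lit 5) (nat_lit 644) (nat_lit 5) (nat_lit 645) (nat_lit 5) (nat_lit 544) (nat_lit 537) (nat_lit 479)) (XT.nd (nat_lit 78) (nat_lit 0) (nat_lit 0) (XT.lf (nat_lit 76) (nat_lit 2958281055) (nat_lit 0) (nat_lit 2198917153) (nat_lit 1216) (nat_lit 2136746185) (nat_lit 630) (nat_lit 5) (nat_lit 629) (nat_lit 5) (nat_lit 645) (nat_lit 5) (nat_lit 545) (nat_lit 537) (nat_lit 478)) (XT.lf (nat_lit 76) (nat_lit 6819575336) (nat_lit 0) (nat_lit 129758856) (nat_lit 1216) (nat_lit 388262369) (nat_lit 630) (nat_lit 5) (nat_lit 629) (nat_lit 5) (nat_lit 645) (nat_lit 5) (nat_lit 546) (nat_lit 537) (nat_lit 477))))) (XT.nd (nat_lit 156) (nat_lit 1216) (nat_lit 0) (XT.nd (nat_lit 78) (nat_lit 0) (nat_lit 0) (XT.lf (nat_lit 0) (nat_lit 1370211555) (nat_lit 1216) (nat_lit 4009311143) (nat_lit 1292) (nat_lit 2002559624) (nat_lit 614) (nat_lit 5) (nat_lit 630) (nat_lit 5) (nat_lit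 631) (nat_lit 5) (nat_lit 547) (nat_lit 537) (nat_lit 476)) (XT.lf (nat_lit 0) (nat_lit 3121941706) (nat_lit 1216) (nat_lit 108328856) (nat_lit 1292) (nat_lit 4197878128) (nat_lit 614) (nat_lit 5) (nat_lit 630) (nat_lit 5) (nat_lit 631) (nat_lit 5) (nat_lit 548) (nat_lit 537) (nat_lit 475))) (XT.nd (nat_lit 78) (nat_lit 1216) (nat_lit 0) (XT.lf (nat_lit 76) (nat_lit 3896394298) (nat_lit 0) (nat_lit 997337761) (nat_lit 1292) (nat_lit 2581711592) (nat_lit 615) (nat_lit 5) (nat_lit 614) (nat_lit 5) (nat_lit 631) (nat_lit 5) (nat_lit 549) (nat_lit 537) (nat_lit 474)) (XT.nd (nat_lit 78) (nat_lit 1292) (nat_lit 0) (XT.lf (nat_lit 76) (nat_lit 430227840) (nat_lit 0) (nat_lit 6243014998) (nat_lit 1292) (nat_lit 851003606) (nat_lit 616) (nat_lit 5) (nat_lit 615) (nat_lit 5) (nat_lit 632) (nat_lit 5) (nat_lit 550) (nat_lit 537) (nat_lit 473)) (XT.lf (nat_lit 0) (nat_lit 893897466) (nat_lit 1292) (nat_lit 3044504344) (nat_lit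 1368) (nat_lit 3635680677) (nat_lit 598) (nat_lit 5) (nat_lit 615) (nat_lit 5) (nat_lit 616) (nat_lit 5) (nat_lit 551) (nat_lit 537) (nat_lit 472))))))) (XT.nd (nat_lit 702) (nat_lit 9804) (nat_lit 0) (XT.nd (nat_lit 312) (nat_lit 1292) (nat_lit 0) (XT.nd (nat_lit 156) (nat_lit 1292) (nat_lit 0) (XT.nd (nat_lit 78) (nat_lit 0) (nat_lit 76) (XT.lf (nat_lit 76) (nat_lit 1068431370) (nat_lit 0) (nat_lit 1562375843) (nat_lit 1368) (nat_lit 4994632608) (nat_lit 599) (nat_lit 5) (nat_lit 598) (nat_lit 5) (nat_lit 616) (nat_lit 5) (nat_lit 552) (nat_lit 537) (nat_lit 471)) (XT.lf (nat_lit 0) (nat_lit 4390834798) (nat_lit 1292) (nat_lit 2404865041) (nat_lit 1368) (nat_lit 882363912) (nat_lit 599) (nat_lit 5) (nat_lit 616) (nat_lit 5) (nat_lit 617) (nat_lit 5) (nat_lit 553) (nat_lit 537) (nat_lit 470))) (XT.nd (nat_lit 78) (nat_lit 1368) (nat_lit 0) (XT.lf (nat_lit 76) (nat_lit 1817718382) (nat_lit 0) (nat_lit 4353456800)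 (nat_lit 1368) (nat_lit 1560869641) (nat_lit 600) (nat_lit 5) (nat_lit 599) (nat_lit 5) (nat_lit 617) (nat_lit 5) (nat_lit 554) (nat_lit 537) (nat_lit 469)) (XT.lf (nat_lit 0) (nat_lit 176911567) (nat_lit 1368) (nat_lit 1657254952) (nat_lit 1444) (nat_lit 5953329302) (nat_lit 581) (nat_lit 5) (nat_lit 599) (nat_lit 5) (nat_lit 600) (nat_lit 5) (nat_lit 555) (nat_lit 537) (nat_lit 468)))) (XT.nd (nat_lit 156) (nat_lit 1368) (nat_lit 0) (XT.nd (nat_lit 78) (nat_lit 0) (nat_lit 0) (XT.lf (nat_lit 0) (nat_lit 1915011889) (nat_lit 1368) (nat_lit 5165331655) (nat_lit 1444) (nat_lit 763783185) (nat_lit 582) (nat_lit 5) (nat_lit 600) (nat_lit 5) (nat_lit 601) (nat_lit 5) (nat_lit 556) (nat_lit 537) (nat_lit 467)) (XT.lf (nat_lit 0) (nat_lit 3675811211) (nat_lit 1368) (nat_lit 816366927) (nat_lit 1444) (nat_lit 3409959757) (nat_lit 582) (nat_lit 5) (nat_lit 600) (nat_lit 5) (nat_lit 601) (nat_lit 5) (nat_lit 557) (nat_lit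 537) (nat_lit 466))) (XT.nd (nat_lit 78) (nat_lit 1368) (nat_lit 0) (XT.lf (nat_lit 76) (nat_lit 3641344498) (nat_lit 0) (nat_lit 1819413744) (nat_lit 1444) (nat_lit 2500778664) (nat_lit 583) (nat_lit 5) (nat_lit 582) (nat_lit 5) (nat_lit 601) (nat_lit 5) (nat_lit 558) (nat_lit 537) (nat_lit 465)) (XT.nd (nat_lit 78) (nat_lit 76) (nat_lit 0) (XT.lf (nat_lit 0) (nat_lit 146699025) (nat_lit 1368) (nat_lit 7112916836) (nat_lit 1444) (nat_lit 762949934) (nat_lit 565) (nat_lit 5) (nat_lit 583) (nat_lit 5) (nat_lit 584) (nat_lit 5) (nat_lit 559) (nat_lit 537) (nat_lit 464)) (XT.lf (nat_lit 0) (nat_lit 1003752130) (nat_lit 1444) (nat_lit 3368386408) (nat_lit 76) (nat_lit 3712404348) (nat_lit 564) (nat_lit 5) (nat_lit 583) (nat_lit 5) (nat_lit 565) (nat_lit 5) (nat_lit 560) (nat_lit 537) (nat_lit 463)))))) (XT.nd (nat_lit 390) (nat_lit 5168) (nat_lit 0) (XT.nd (nat_lit 156) (nat_lit 3192) (nat_lit 0) (XT.nd (nat_lit 78)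 (nat_lit 0) (nat_lit 0) (XT.lf (nat_lit 0) (nat_lit 1213792091) (nat_lit 1444) (nat_lit 1556461181) (nat_lit 1520) (nat_lit 5377917544) (nat_lit 545) (nat_lit 5) (nat_lit 564) (nat_lit 5) (nat_lit 565) (nat_lit 5) (nat_lit 561) (nat_lit 537) (nat_lit 462)) (XT.lf (nat_lit 0) (nat_lit 4570693869) (nat_lit 1520) (nat_lit 2314884437) (nat_lit 76) (nat_lit 1327526477) (nat_lit 545) (nat_lit 5) (nat_lit 565) (nat_lit 5) (nat_lit 546) (nat_lit 5) (nat_lit 562) (nat_lit 537) (nat_lit 461))) (XT.nd (nat_lit 78) (nat_lit 1672) (nat_lit 0) (XT.lf (nat_lit 0) (nat_lit 2391738813) (nat_lit 1520) (nat_lit 4009196594) (nat_lit 1596) (nat_lit 1878531732) (nat_lit 525) (nat_lit 5) (nat_lit 545) (nat_lit 5) (nat_lit 546) (nat_lit 5) (nat_lit 563) (nat_lit 537) (nat_lit 460)) (XT.nd (nat_lit 78) (nat_lit 1672) (nat_lit 0) (XT.lf (nat_lit 0) (nat_lit 7197725246) (nat_lit 1520) (nat_lit 1054004859) (nat_lit 1596) (nat_lit 95753116)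 (nat_lit 525) (nat_lit 5) (nat_lit 545) (nat_lit 5) (nat_lit 546) (nat_lit 5) (nat_lit 564) (nat_lit 537) (nat_lit 459)) (XT.lf (nat_lit 0) (nat_lit 1705889772) (nat_lit 1672) (nat_lit 4735596821) (nat_lit 76) (nat_lit 1975038531) (nat_lit 503) (nat_lit 5) (nat_lit 525) (nat_lit 5) (nat_lit 504) (nat_lit 5) (nat_lit 565) (nat_lit 537) (nat_lit 458))))) (XT.nd (nat_lit 156) (nat_lit 3496) (nat_lit 0) (XT.nd (nat_lit 78) (nat_lit 0) (nat_lit 0) (XT.lf (nat_lit 0) (nat_lit 104186182) (nat_lit 1672) (nat_lit 3422819552) (nat_lit 1748) (nat_lit 4960240156) (nat_lit 481) (nat_lit 5) (nat_lit 503) (nat_lit 5) (nat_lit 504) (nat_lit 5) (nat_lit 566) (nat_lit 537) (nat_lit 457)) (XT.lf (nat_lit 0) (nat_lit 5078596803) (nat_lit 1672) (nat_lit 307454377) (nat_lit 1748) (nat_lit 3173304779) (nat_lit 481) (nat_lit 5) (nat_lit 503) (nat_lit 5) (nat_lit 504) (nat_lit 5) (nat_lit 567) (nat_lit 537) (nat_lit 456))) (XT.nd (nat_lit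 78) (nat_lit 1748) (nat_lit 0) (XT.lf (nat_lit 0) (nat_lit 1494080363) (nat_lit 1748) (nat_lit 5786880356) (nat_lit 1824) (nat_lit 1351978779) (nat_lit 458) (nat_lit 5) (nat_lit 481) (nat_lit 5) (nat_lit 482) (nat_lit 5) (nat_lit 568) (nat_lit 537) (nat_lit 455)) (XT.nd (nat_lit 78) (nat_lit 1672) (nat_lit 0) (XT.lf (nat_lit 0) (nat_lit 495248514) (nat_lit 1824) (nat_lit 2124091578) (nat_lit 76) (nat_lit 6088671518) (nat_lit 457) (nat_lit 5) (nat_lit 481) (nat_lit 5) (nat_lit 458) (nat_lit 5) (nat_lit 569) (nat_lit 537) (nat_lit 454)) (XT.lf (nat_lit 0) (nat_lit 2356093683) (nat_lit 1748) (nat_lit 5793641088) (nat_lit 76) (nat_lit 634780782) (nat_lit 435) (nat_lit 5) (nat_lit 458) (nat_lit 5) (nat_lit 436) (nat_lit 5) (nat_lit 570) (nat_lit 537) (nat_lit 453))))))))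
noncomputable def xc114 : XT := (XT.nd (nat_lit 1482) (nat_lit 7448) (nat_lit 0) (XT.nd (nat_lit 702) (nat_lit 4712) (nat_lit 0) (XT.nd (nat_lit 312) (nat_lit 2660) (nat_lit 0) (XT.nd (nat_lit 156) (nat_lit 988) (nat_lit 0) (XT.nd (nat_lit 78) (nat_lit 988) (nat_lit 0) (XT.lf (nat_lit 0) (nat_lit 4257400598) (nat_lit 1748) (nat_lit 669356230) (nat_lit 76) (nat_lit 3935732408) (nat_lit 435) (nat_lit 5) (nat_lit 458) (nat_lit 5) (nat_lit 436) (nat_lit 5) (nat_lit 571) (nat_lit 537) (nat_lit 452)) (XT.lf (nat_lit 0) (nat_lit 4591571689) (nat_lit 988) (nat_lit 1607081383) (nat_lit 1064) (nat_lit 2743335397) (nat_lit 422) (nat_lit 5) (nat_lit 435) (nat_lit 5) (nat_lit 436) (nat_lit 5) (nat_lit 572) (nat_lit 537) (nat_lit 451))) (XT.nd (nat_lit 78) (nat_lit 76) (nat_lit 0) (XT.lf (nat_lit 0) (nat_lit 917805031) (nat_lit 912) (nat_lit 7255453646) (nat_lit 988) (nat_lit 849932828) (nat_lit 410) (nat_lit 5) (nat_lit 422)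 (nat_lit 5) (nat_lit 423) (nat_lit 5) (nat_lit 573) (nat_lit 537) (nat_lit 450)) (XT.lf (nat_lit 0) (nat_lit 1079867630) (nat_lit 988) (nat_lit 2799578275) (nat_lit 76) (nat_lit 5226182257) (nat_lit 409) (nat_lit 5) (nat_lit 422) (nat_lit 5) (nat_lit 410) (nat_lit 5) (nat_lit 574) (nat_lit 537) (nat_lit 449)))) (XT.nd (nat_lit 156) (nat_lit 1748) (nat_lit 0) (XT.nd (nat_lit 78) (nat_lit 0) (nat_lit 0) (XT.lf (nat_lit 0) (nat_lit 2614885770) (nat_lit 912) (nat_lit 412203520) (nat_lit 988) (nat_lit 6162711910) (nat_lit 397) (nat_lit 5) (nat_lit 409) (nat_lit 5) (nat_lit 410) (nat_lit 5) (nat_lit 575) (nat_lit 537) (nat_lit 448)) (XT.lf (nat_lit 0) (nat_lit 5026029290) (nat_lit 988) (nat_lit 1146593896) (nat_lit 76) (nat_lit 3102783081) (nat_lit 397) (nat_lit 5) (nat_lit 410) (nat_lit 5) (nat_lit 398) (nat_lit 5) (nat_lit 576) (nat_lit 537) (nat_lit 447))) (XT.nd (nat_lit 78) (nat_lit 912) (nat_lit 0) (XT.lf (nat_lit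 0) (nat_lit 4419556880) (nat_lit 836) (nat_lit 2650911095) (nat_lit 912) (nat_lit 2292149029) (nat_lit 386) (nat_lit 5) (nat_lit 397) (nat_lit 5) (nat_lit 398) (nat_lit 5) (nat_lit 577) (nat_lit 537) (nat_lit 446)) (XT.nd (nat_lit 78) (nat_lit 76) (nat_lit 0) (XT.lf (nat_lit 0) (nat_lit 637034292) (nat_lit 836) (nat_lit 8511187782) (nat_lit 912) (nat_lit 303505239) (nat_lit 375) (nat_lit 5) (nat_lit 386) (nat_lit 5) (nat_lit 387) (nat_lit 5) (nat_lit 578) (nat_lit 537) (nat_lit 445)) (XT.lf (nat_lit 0) (nat_lit 1727829768) (nat_lit 912) (nat_lit 3201677656) (nat_lit 76) (nat_lit 4612381339) (nat_lit 374) (nat_lit 5) (nat_lit 386) (nat_lit 5) (nat_lit 375) (nat_lit 5) (nat_lit 579) (nat_lit 537) (nat_lit 444)))))) (XT.nd (nat_lit 390) (nat_lit 2280) (nat_lit 0) (XT.nd (nat_lit 156) (nat_lit 1672) (nat_lit 0) (XT.nd (nat_lit 78) (nat_lit 0) (nat_lit 0) (XT.lf (nat_lit 0) (nat_lit 2528791174) (nat_lit 760) (nat_lit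 1258451847) (nat_lit 836) (nat_lit 5846743651) (nat_lit 364) (nat_lit 5) (nat_lit 374) (nat_lit 5) (nat_lit 375) (nat_lit 5) (nat_lit 580) (nat_lit 537) (nat_lit 443)) (XT.lf (nat_lit 0) (nat_lit 5901018870) (nat_lit 836) (nat_lit 1352790188) (nat_lit 76) (nat_lit 2473857589) (nat_lit 364) (nat_lit 5) (nat_lit 375) (nat_lit 5) (nat_lit 365) (nat_lit 5) (nat_lit 581) (nat_lit 537) (nat_lit 442))) (XT.nd (nat_lit 78) (nat_lit 836) (nat_lit 0) (XT.lf (nat_lit 0) (nat_lit 4540109637) (nat_lit 836) (nat_lit 3530660531) (nat_lit 912) (nat_lit 1752179576) (nat_lit 353) (nat_lit 5) (nat_lit 364) (nat_lit 5) (nat_lit 365) (nat_lit 5) (nat_lit 582) (nat_lit 537) (nat_lit 441)) (XT.nd (nat_lit 78) (nat_lit 0) (nat_lit 0) (XT.lf (nat_lit 0) (nat_lit 350087687) (nat_lit 836) (nat_lit 9292971998) (nat_lit 76) (nat_lit 277213352) (nat_lit 342) (nat_lit 5) (nat_lit 353) (nat_lit 5) (nat_lit 343) (nat_lit 5) (nat_lit 583) (nat_lit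 537) (nat_lit 440)) (XT.lf (nat_lit 0) (nat_lit 2506351010) (nat_lit 836) (nat_lit 3353007726) (nat_lit 76) (nat_lit 4159247491) (nat_lit 342) (nat_lit 5) (nat_lit 353) (nat_lit 5) (nat_lit 343) (nat_lit 5) (nat_lit 584) (nat_lit 537) (nat_lit 439))))) (XT.nd (nat_lit 156) (nat_lit 1520) (nat_lit 0) (XT.nd (nat_lit 78) (nat_lit 0) (nat_lit 0) (XT.lf (nat_lit 0) (nat_lit 2715677554) (nat_lit 760) (nat_lit 1984481477) (nat_lit 836) (nat_lit 5418861919) (nat_lit 332) (nat_lit 5) (nat_lit 342) (nat_lit 5) (nat_lit 343) (nat_lit 5) (nat_lit 585) (nat_lit 537) (nat_lit 438)) (XT.lf (nat_lit 0) (nat_lit 6950329506) (nat_lit 836) (nat_lit 1308702976) (nat_lit 76) (nat_lit 1962164946) (nat_lit 332) (nat_lit 5) (nat_lit 343) (nat_lit 5) (nat_lit 333) (nat_lit 5) (nat_lit 586) (nat_lit 537) (nat_lit 437))) (XT.nd (nat_lit 78) (nat_lit 836) (nat_lit 0) (XT.lf (nat_lit 0) (nat_lit 4933936091) (nat_lit 684) (nat_lit 4334253720)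 (nat_lit 760) (nat_lit 1056777025) (nat_lit 323) (nat_lit 5) (nat_lit 332) (nat_lit 5) (nat_lit 333) (nat_lit 5) (nat_lit 587) (nat_lit 537) (nat_lit 436)) (XT.nd (nat_lit 78) (nat_lit 0) (nat_lit 0) (XT.lf (nat_lit 0) (nat_lit 866441527) (nat_lit 760) (nat_lit 311497176) (nat_lit 836) (nat_lit 9252877862) (nat_lit 312) (nat_lit 5) (nat_lit 322) (nat_lit 5) (nat_lit 323) (nat_lit 5) (nat_lit 588) (nat_lit 537) (nat_lit 435)) (XT.lf (nat_lit 0) (nat_lit 3482134454) (nat_lit 836) (nat_lit 3273624865) (nat_lit 76) (nat_lit 3782108490) (nat_lit 312) (nat_lit 5) (nat_lit 323) (nat_lit 5) (nat_lit 313) (nat_lit 5) (nat_lit 589) (nat_lit 537) (nat_lit 434))))))) (XT.nd (nat_lit 702) (nat_lit 3420) (nat_lit 0) (XT.nd (nat_lit 312) (nat_lit 1976) (nat_lit 0) (XT.nd (nat_lit 156) (nat_lit 1368) (nat_lit 0) (XT.nd (nat_lit 78) (nat_lit 0) (nat_lit 0) (XT.lf (nat_lit 0) (nat_lit 3156939313) (nat_lit 684) (nat_lit 2676356376)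 (nat_lit 760) (nat_lit 4813749648) (nat_lit 303) (nat_lit 5) (nat_lit 312) (nat_lit 5) (nat_lit 313) (nat_lit 5) (nat_lit 590) (nat_lit 537) (nat_lit 433)) (XT.lf (nat_lit 0) (nat_lit 8241791547) (nat_lit 760) (nat_lit 1032844124) (nat_lit 76) (nat_lit 1483567350) (nat_lit 303) (nat_lit 5) (nat_lit 313) (nat_lit 5) (nat_lit 304) (nat_lit 5) (nat_lit 591) (nat_lit 537) (nat_lit 432))) (XT.nd (nat_lit 78) (nat_lit 684) (nat_lit 0) (XT.lf (nat_lit 0) (nat_lit 5583993518) (nat_lit 684) (nat_lit 5147422357) (nat_lit 760) (nat_lit 139511589) (nat_lit 294) (nat_lit 5) (nat_lit 303) (nat_lit 5) (nat_lit 304) (nat_lit 5) (nat_lit 592) (nat_lit 537) (nat_lit 431)) (XT.lf (nat_lit 0) (nat_lit 1338883228) (nat_lit 608) (nat_lit 910835106) (nat_lit 684) (nat_lit 8735998842) (nat_lit 285) (nat_lit 5) (nat_lit 293) (nat_lit 5) (nat_lit 294) (nat_lit 5) (nat_lit 593) (nat_lit 537) (nat_lit 430)))) (XT.nd (nat_lit 156) (nat_lit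 1292) (nat_lit 0) (XT.nd (nat_lit 78) (nat_lit 684) (nat_lit 0) (XT.lf (nat_lit 0) (nat_lit 4722031386) (nat_lit 684) (nat_lit 2981930265) (nat_lit 76) (nat_lit 3398081871) (nat_lit 285) (nat_lit 5) (nat_lit 294) (nat_lit 5) (nat_lit 286) (nat_lit 5) (nat_lit 594) (nat_lit 537) (nat_lit 429)) (XT.lf (nat_lit 0) (nat_lit 3835625090) (nat_lit 684) (nat_lit 3418815421) (nat_lit 760) (nat_lit 3966045454) (nat_lit 276) (nat_lit 5) (nat_lit 285) (nat_lit 5) (nat_lit 286) (nat_lit 5) (nat_lit 595) (nat_lit 537) (nat_lit 428))) (XT.nd (nat_lit 78) (nat_lit 1292) (nat_lit 0) (XT.lf (nat_lit 0) (nat_lit 9843742734) (nat_lit 760) (nat_lit 542386679) (nat_lit 76) (nat_lit 955045462) (nat_lit 276) (nat_lit 5) (nat_lit 286) (nat_lit 5) (nat_lit 277) (nat_lit 5) (nat_lit 596) (nat_lit 537) (nat_lit 427)) (XT.nd (nat_lit 78) (nat_lit 608) (nat_lit 0) (XT.lf (nat_lit 0) (nat_lit 1052457176) (nat_lit 684) (nat_lit 4995728737) (nat_lit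 76) (nat_lit 5415055777) (nat_lit 267) (nat_lit 5) (nat_lit 276) (nat_lit 5) (nat_lit 268) (nat_lit 5) (nat_lit 597) (nat_lit 537) (nat_lit 426)) (XT.lf (nat_lit 0) (nat_lit 2029222272) (nat_lit 608) (nat_lit 1601339385) (nat_lit 684) (nat_lit 7957047232) (nat_lit 259) (nat_lit 5) (nat_lit 267) (nat_lit 5) (nat_lit 268) (nat_lit 5) (nat_lit 598) (nat_lit 537) (nat_lit 425)))))) (XT.nd (nat_lit 390) (nat_lit 1672) (nat_lit 0) (XT.nd (nat_lit 156) (nat_lit 1216) (nat_lit 0) (XT.nd (nat_lit 78) (nat_lit 532) (nat_lit 0) (XT.lf (nat_lit 0) (nat_lit 6293627707) (nat_lit 684) (nat_lit 2495605870) (nat_lit 76) (nat_lit 2924564191) (nat_lit 259) (nat_lit 5) (nat_lit 268) (nat_lit 5) (nat_lit 260) (nat_lit 5) (nat_lit 599) (nat_lit 537) (nat_lit 424)) (XT.lf (nat_lit 0) (nat_lit 4735491966) (nat_lit 532) (nat_lit 4296795467) (nat_lit 608) (nat_lit 2809778622) (nat_lit 252) (nat_lit 5) (nat_lit 259) (nat_lit 5) (nat_lit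 260) (nat_lit 5) (nat_lit 600) (nat_lit 537) (nat_lit 423))) (XT.nd (nat_lit 78) (nat_lit 608) (nat_lit 0) (XT.lf (nat_lit 0) (nat_lit 147827454) (nat_lit 608) (nat_lit 11678725251) (nat_lit 684) (nat_lit 146332589) (nat_lit 244) (nat_lit 5) (nat_lit 252) (nat_lit 5) (nat_lit 253) (nat_lit 5) (nat_lit 601) (nat_lit 537) (nat_lit 422)) (XT.nd (nat_lit 78) (nat_lit 532) (nat_lit 0) (XT.lf (nat_lit 0) (nat_lit 2594377877) (nat_lit 684) (nat_lit 4531890468) (nat_lit 76) (nat_lit 4978566817) (nat_lit 243) (nat_lit 5) (nat_lit 252) (nat_lit 5) (nat_lit 244) (nat_lit 5) (nat_lit 602) (nat_lit 537) (nat_lit 421)) (XT.lf (nat_lit 0) (nat_lit 2920243434) (nat_lit 532) (nat_lit 2468275704) (nat_lit 608) (nat_lit 6850876129) (nat_lit 236) (nat_lit 5) (nat_lit 243) (nat_lit 5) (nat_lit 244) (nat_lit 5) (nat_lit 603) (nat_lit 537) (nat_lit 420))))) (XT.nd (nat_lit 156) (nat_lit 1140) (nat_lit 0) (XT.nd (nat_lit 78) (nat_lit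 532) (nat_lit 0) (XT.lf (nat_lit 0) (nat_lit 8265757965) (nat_lit 608) (nat_lit 1832606053) (nat_lit 76) (nat_lit 2277740325) (nat_lit 236) (nat_lit 5) (nat_lit 244) (nat_lit 5) (nat_lit 237) (nat_lit 5) (nat_lit 604) (nat_lit 537) (nat_lit 419)) (XT.lf (nat_lit 0) (nat_lit 5840000099) (nat_lit 532) (nat_lit 5396942093) (nat_lit 608) (nat_lit 1277879419) (nat_lit 229) (nat_lit 5) (nat_lit 236) (nat_lit 5) (nat_lit 237) (nat_lit 5) (nat_lit 605) (nat_lit 537) (nat_lit 418))) (XT.nd (nat_lit 78) (nat_lit 532) (nat_lit 0) (XT.lf (nat_lit 0) (nat_lit 1013585297) (nat_lit 532) (nat_lit 577694284) (nat_lit 608) (nat_lit 11064802876) (nat_lit 221) (nat_lit 5) (nat_lit 228) (nat_lit 5) (nat_lit 229) (nat_lit 5) (nat_lit 606) (nat_lit 537) (nat_lit 417)) (XT.nd (nat_lit 78) (nat_lit 532) (nat_lit 0) (XT.lf (nat_lit 0) (nat_lit 4556347615) (nat_lit 608) (nat_lit 3914110916) (nat_lit 76) (nat_lit 4328430228) (nat_lit 221)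 (nat_lit 5) (nat_lit 229) (nat_lit 5) (nat_lit 222) (nat_lit 5) (nat_lit 607) (nat_lit 537) (nat_lit 416)) (XT.lf (nat_lit 0) (nat_lit 3993715910) (nat_lit 532) (nat_lit 3599470160) (nat_lit 608) (nat_lit 5351117602) (nat_lit 214) (nat_lit 5) (nat_lit 221) (nat_lit 5) (nat_lit 222) (nat_lit 5) (nat_lit 608) (nat_lit 537) (nat_lit 415))))))))
noncomputable def xc115 : XT := (XT.nd (nat_lit 76284) (nat_lit 0) (nat_lit 26980) (XT.nd (nat_lit 702) (nat_lit 912) (nat_lit 0) (XT.nd (nat_lit 312) (nat_lit 1444) (nat_lit 0) (XT.nd (nat_lit 156) (nat_lit 532) (nat_lit 0) (XT.nd (nat_lit 78) (nat_lit 532) (nat_lit 0) (XT.lf (nat_lit 0) (nat_lit 10708946975) (nat_lit 608) (nat_lit 1012233494) (nat_lit 76) (nat_lit 1371084536) (nat_lit 214) (nat_lit 5) (nat_lit 222) (nat_lit 5) (nat_lit 215) (nat_lit 5) (nat_lit 609) (nat_lit 537) (nat_lit 414)) (XT.lf (nat_lit 0) (nat_lit 689077115) (nat_lit 532) (nat_lit 6115435418) (nat_lit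 76) (nat_lit 6437517514) (nat_lit 207) (nat_lit 5) (nat_lit 214) (nat_lit 5) (nat_lit 208) (nat_lit 5) (nat_lit 610) (nat_lit 537) (nat_lit 413))) (XT.nd (nat_lit 78) (nat_lit 0) (nat_lit 0) (XT.lf (nat_lit 0) (nat_lit 2034693362) (nat_lit 532) (nat_lit 1759653253) (nat_lit 608) (nat_lit 9600063645) (nat_lit 200) (nat_lit 5) (nat_lit 207) (nat_lit 5) (nat_lit 208) (nat_lit 5) (nat_lit 611) (nat_lit 537) (nat_lit 412)) (XT.lf (nat_lit 0) (nat_lit 7008410476) (nat_lit 608) (nat_lit 3164117397) (nat_lit 76) (nat_lit 3376378119) (nat_lit 200) (nat_lit 5) (nat_lit 208) (nat_lit 5) (nat_lit 201) (nat_lit 5) (nat_lit 612) (nat_lit 537) (nat_lit 411)))) (XT.nd (nat_lit 156) (nat_lit 988) (nat_lit 0) (XT.nd (nat_lit 78) (nat_lit 0) (nat_lit 0) (XT.lf (nat_lit 0) (nat_lit 5229220447) (nat_lit 456) (nat_lit 5086860238) (nat_lit 532) (nat_lit 3389826110) (nat_lit 194) (nat_lit 5) (nat_lit 200) (nat_lit 5) (nat_lit 201) (nat_lit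 5) (nat_lit 613) (nat_lit 537) (nat_lit 410)) (XT.lf (nat_lit 0) (nat_lit 13695776417) (nat_lit 532) (nat_lit 56330621) (nat_lit 76) (nat_lit 113824763) (nat_lit 194) (nat_lit 5) (nat_lit 201) (nat_lit 5) (nat_lit 195) (nat_lit 5) (nat_lit 614) (nat_lit 537) (nat_lit 409))) (XT.nd (nat_lit 78) (nat_lit 456) (nat_lit 0) (XT.lf (nat_lit 0) (nat_lit 3147168696) (nat_lit 532) (nat_lit 5459780509) (nat_lit 76) (nat_lit 5420323325) (nat_lit 187) (nat_lit 5) (nat_lit 194) (nat_lit 5) (nat_lit 188) (nat_lit 5) (nat_lit 615) (nat_lit 537) (nat_lit 408)) (XT.nd (nat_lit 78) (nat_lit 0) (nat_lit 0) (XT.lf (nat_lit 0) (nat_lit 3190602340) (nat_lit 456) (nat_lit 3343277692) (nat_lit 532) (nat_lit 7657832698) (nat_lit 181) (nat_lit 5) (nat_lit 187) (nat_lit 5) (nat_lit 188) (nat_lit 5) (nat_lit 616) (nat_lit 537) (nat_lit 407)) (XT.lf (nat_lit 0) (nat_lit 10022695420) (nat_lit 532) (nat_lit 2307055489) (nat_lit 76) (nat_lit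 2029004932) (nat_lit 181) (nat_lit 5) (nat_lit 188) (nat_lit 5) (nat_lit 182) (nat_lit 5) (nat_lit 617) (nat_lit 537) (nat_lit 406)))))) (XT.nd (nat_lit 75192) (nat_lit 0) (nat_lit 34884) (XT.nd (nat_lit 74958) (nat_lit 0) (nat_lit 35948) (XT.nd (nat_lit 78) (nat_lit 456) (nat_lit 0) (XT.lf (nat_lit 0) (nat_lit 6602833504) (nat_lit 456) (nat_lit 7028108824) (nat_lit 532) (nat_lit 897205855) (nat_lit 175) (nat_lit 5) (nat_lit 181) (nat_lit 5) (nat_lit 182) (nat_lit 5) (nat_lit 618) (nat_lit 537) (nat_lit 405)) (XT.lf (nat_lit 0) (nat_lit 995012744) (nat_lit 380) (nat_lit 1587919406) (nat_lit 456) (nat_lit 12117523816) (nat_lit 169) (nat_lit 5) (nat_lit 174) (nat_lit 5) (nat_lit 175) (nat_lit 5) (nat_lit 619) (nat_lit 537) (nat_lit 404))) (XT.nd (nat_lit 78) (nat_lit 0) (nat_lit 0) (XT.lf (nat_lit 0) (nat_lit 736706901) (nat_lit 1140) (nat_lit 1396686626) (nat_lit 1140) (nat_lit 1396686626) (nat_lit 642) (nat_lit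 3) (nat_lit 657) (nat_lit 3) (nat_lit 657) (nat_lit 5) (nat_lit 538) (nat_lit 538) (nat_lit 484)) (XT.nd (nat_lit 78) (nat_lit 0) (nat_lit 0) (XT.lf (nat_lit 76) (nat_lit 686884015) (nat_lit 0) (nat_lit 2563089289) (nat_lit 1140) (nat_lit 3845190675) (nat_lit 643) (nat_lit 5) (nat_lit 642) (nat_lit 3) (nat_lit 657) (nat_lit 5) (nat_lit 539) (nat_lit 538) (nat_lit 483)) (XT.lf (nat_lit 76) (nat_lit 4250784981) (nat_lit 0) (nat_lit 783772990) (nat_lit 1140) (nat_lit 2096869352) (nat_lit 643) (nat_lit 5) (nat_lit 642) (nat_lit 3) (nat_lit 657) (nat_lit 5) (nat_lit 540) (nat_lit 538) (nat_lit 482))))) (XT.nd (nat_lit 156) (nat_lit 0) (nat_lit 0) (XT.nd (nat_lit 78) (nat_lit 1140) (nat_lit 0) (XT.lf (nat_lit 76) (nat_lit 695557525) (nat_lit 0) (nat_lit 6125286199) (nat_lit 1140) (nat_lit 348261316) (nat_lit 644) (nat_lit 5) (nat_lit 643) (nat_lit 5) (nat_lit 658) (nat_lit 5) (nat_lit 541) (nat_lit 538) (nat_lit 481))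 (XT.lf (nat_lit 0) (nat_lit 1396367495) (nat_lit 1140) (nat_lit 2864319485) (nat_lit 1216) (nat_lit 2947074423) (nat_lit 628) (nat_lit 5) (nat_lit 643) (nat_lit 5) (nat_lit 644) (nat_lit 5) (nat_lit 542) (nat_lit 538) (nat_lit 480))) (XT.nd (nat_lit 78) (nat_lit 0) (nat_lit 0) (XT.lf (nat_lit 76) (nat_lit 800916956) (nat_lit 0) (nat_lit 2331615001) (nat_lit 1216) (nat_lit 4115395528) (nat_lit 629) (nat_lit 5) (nat_lit 628) (nat_lit 5) (nat_lit 644) (nat_lit 5) (nat_lit 543) (nat_lit 538) (nat_lit 479)) (XT.nd (nat_lit 78) (nat_lit 0) (nat_lit 76) (XT.lf (nat_lit 76) (nat_lit 4554071135) (nat_lit 0) (nat_lit 325375053) (nat_lit 1216) (nat_lit 2409938758) (nat_lit 629) (nat_lit 5) (nat_lit 628) (nat_lit 5) (nat_lit 644) (nat_lit 5) (nat_lit 544) (nat_lit 538) (nat_lit 478)) (XT.lf (nat_lit 76) (nat_lit 1028213220) (nat_lit 0) (nat_lit 5608708295) (nat_lit 1216) (nat_lit 695246004) (nat_lit 630) (nat_lit 5) (nat_lit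 629) (nat_lit 5) (nat_lit 645) (nat_lit 5) (nat_lit 545) (nat_lit 538) (nat_lit 477))))))) (XT.nd (nat_lit 702) (nat_lit 5548) (nat_lit 0) (XT.nd (nat_lit 312) (nat_lit 1216) (nat_lit 0) (XT.nd (nat_lit 156) (nat_lit 0) (nat_lit 76) (XT.nd (nat_lit 78) (nat_lit 0) (nat_lit 0) (XT.lf (nat_lit 0) (nat_lit 1018710725) (nat_lit 1216) (nat_lit 2505584446) (nat_lit 1292) (nat_lit 3851806029) (nat_lit 613) (nat_lit 5) (nat_lit 629) (nat_lit 5) (nat_lit 630) (nat_lit 5) (nat_lit 546) (nat_lit 538) (nat_lit 476)) (XT.lf (nat_lit 76) (nat_lit 1357326023) (nat_lit 0) (nat_lit 1368111374) (nat_lit 1292) (nat_lit 4696036177) (nat_lit 614) (nat_lit 5) (nat_lit 613) (nat_lit 5) (nat_lit 630) (nat_lit 5) (nat_lit 547) (nat_lit 538) (nat_lit 475))) (XT.nd (nat_lit 78) (nat_lit 0) (nat_lit 0) (XT.lf (nat_lit 0) (nat_lit 4448348042) (nat_lit 1216) (nat_lit 2166847275) (nat_lit 1292) (nat_lit 852924865) (nat_lit 614) (nat_lit 5) (nat_lit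 630) (nat_lit 5) (nat_lit 631) (nat_lit 5) (nat_lit 548) (nat_lit 538) (nat_lit 474)) (XT.lf (nat_lit 76) (nat_lit 1798037216) (nat_lit 0) (nat_lit 4388931350) (nat_lit 1292) (nat_lit 1329113748) (nat_lit 615) (nat_lit 5) (nat_lit 614) (nat_lit 5) (nat_lit 631) (nat_lit 5) (nat_lit 549) (nat_lit 538) (nat_lit 473)))) (XT.nd (nat_lit 156) (nat_lit 0) (nat_lit 76) (XT.nd (nat_lit 78) (nat_lit 0) (nat_lit 76) (XT.lf (nat_lit 0) (nat_lit 365675770) (nat_lit 1292) (nat_lit 1721031236) (nat_lit 1368) (nat_lit 5478742611) (nat_lit 597) (nat_lit 5) (nat_lit 614) (nat_lit 5) (nat_lit 615) (nat_lit 5) (nat_lit 550) (nat_lit 538) (nat_lit 472)) (XT.lf (nat_lit 0) (nat_lit 2055439228) (nat_lit 1292) (nat_lit 5264811068) (nat_lit 1368) (nat_lit 295807946) (nat_lit 598) (nat_lit 5) (nat_lit 615) (nat_lit 5) (nat_lit 616) (nat_lit 5) (nat_lit 551) (nat_lit 538) (nat_lit 471))) (XT.nd (nat_lit 78) (nat_lit 0) (nat_lit 0) (XT.lf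 (nat_lit 0) (nat_lit 3766754455) (nat_lit 1292) (nat_lit 1178480585) (nat_lit 1368) (nat_lit 2722695913) (nat_lit 598) (nat_lit 5) (nat_lit 615) (nat_lit 5) (nat_lit 616) (nat_lit 5) (nat_lit 552) (nat_lit 538) (nat_lit 470)) (XT.nd (nat_lit 78) (nat_lit 0) (nat_lit 76) (XT.lf (nat_lit 76) (nat_lit 3004036779) (nat_lit 0) (nat_lit 2490814132) (nat_lit 1368) (nat_lit 2226346015) (nat_lit 599) (nat_lit 5) (nat_lit 598) (nat_lit 5) (nat_lit 616) (nat_lit 5) (nat_lit 553) (nat_lit 538) (nat_lit 469)) (XT.lf (nat_lit 0) (nat_lit 7229242078) (nat_lit 1292) (nat_lit 514909764) (nat_lit 1368) (nat_lit 31948491) (nat_lit 599) (nat_lit 5) (nat_lit 616) (nat_lit 5) (nat_lit 617) (nat_lit 5) (nat_lit 554) (nat_lit 538) (nat_lit 468)))))) (XT.nd (nat_lit 390) (nat_lit 2964) (nat_lit 0) (XT.nd (nat_lit 156) (nat_lit 1368) (nat_lit 0) (XT.nd (nat_lit 78) (nat_lit 0) (nat_lit 0) (XT.lf (nat_lit 0) (nat_lit 1156388921) (nat_lit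 1368) (nat_lit 4060232578) (nat_lit 1444) (nat_lit 2615226082) (nat_lit 581) (nat_lit 5) (nat_lit 599) (nat_lit 5) (nat_lit 600) (nat_lit 5) (nat_lit 555) (nat_lit 538) (nat_lit 467)) (XT.lf (nat_lit 76) (nat_lit 236270746) (nat_lit 0) (nat_lit 2619826262) (nat_lit 1444) (nat_lit 5033152484) (nat_lit 582) (nat_lit 5) (nat_lit 581) (nat_lit 5) (nat_lit 600) (nat_lit 5) (nat_lit 556) (nat_lit 538) (nat_lit 466))) (XT.nd (nat_lit 78) (nat_lit 1444) (nat_lit 0) (XT.lf (nat_lit 0) (nat_lit 4582703364) (nat_lit 1368) (nat_lit 3299870451) (nat_lit 1444) (nat_lit 65373800) (nat_lit 582) (nat_lit 5) (nat_lit 600) (nat_lit 5) (nat_lit 601) (nat_lit 5) (nat_lit 557) (nat_lit 538) (nat_lit 465)) (XT.nd (nat_lit 78) (nat_lit 1444) (nat_lit 0) (XT.lf (nat_lit 76) (nat_lit 1112055082) (nat_lit 0) (nat_lit 5222327098) (nat_lit 1444) (nat_lit 1673632845) (nat_lit 583) (nat_lit 5) (nat_lit 582) (nat_lit 5) (nat_lit 601) (nat_lit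 5) (nat_lit 558) (nat_lit 538) (nat_lit 464)) (XT.lf (nat_lit 0) (nat_lit 39667030) (nat_lit 1444) (nat_lit 2438140939) (nat_lit 1520) (nat_lit 5591704266) (nat_lit 563) (nat_lit 5) (nat_lit 582) (nat_lit 5) (nat_lit 583) (nat_lit 5) (nat_lit 559) (nat_lit 538) (nat_lit 463))))) (XT.nd (nat_lit 156) (nat_lit 3040) (nat_lit 0) (XT.nd (nat_lit 78) (nat_lit 0) (nat_lit 0) (XT.lf (nat_lit 0) (nat_lit 1747688392) (nat_lit 1444) (nat_lit 6034683682) (nat_lit 76) (nat_lit 349994531) (nat_lit 564) (nat_lit 5) (nat_lit 583) (nat_lit 5) (nat_lit 565) (nat_lit 5) (nat_lit 560) (nat_lit 538) (nat_lit 462)) (XT.lf (nat_lit 0) (nat_lit 3490190874) (nat_lit 1444) (nat_lit 1481197493) (nat_lit 76) (nat_lit 3225088945) (nat_lit 564) (nat_lit 5) (nat_lit 583) (nat_lit 5) (nat_lit 565) (nat_lit 5) (nat_lit 561) (nat_lit 538) (nat_lit 461))) (XT.nd (nat_lit 78) (nat_lit 1596) (nat_lit 0) (XT.lf (nat_lit 0) (nat_lit 3179765651) (nat_lit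 1444) (nat_lit 2076503106) (nat_lit 1520) (nat_lit 3005832526) (nat_lit 545) (nat_lit 5) (nat_lit 564) (nat_lit 5) (nat_lit 565) (nat_lit 5) (nat_lit 562) (nat_lit 538) (nat_lit 460)) (XT.nd (nat_lit 78) (nat_lit 1596) (nat_lit 0) (XT.lf (nat_lit 0) (nat_lit 7041947033) (nat_lit 1520) (nat_lit 406373289) (nat_lit 76) (nat_lit 881037278) (nat_lit 545) (nat_lit 5) (nat_lit 565) (nat_lit 5) (nat_lit 546) (nat_lit 5) (nat_lit 563) (nat_lit 538) (nat_lit 459)) (XT.lf (nat_lit 0) (nat_lit 470745943) (nat_lit 1596) (nat_lit 4019311565) (nat_lit 76) (nat_lit 3907616946) (nat_lit 524) (nat_lit 5) (nat_lit 545) (nat_lit 5) (nat_lit 525) (nat_lit 5) (nat_lit 564) (nat_lit 538) (nat_lit 458))))))))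
noncomputable def xc116 : XT := (XT.nd (nat_lit 1482) (nat_lit 8284) (nat_lit 0) (XT.nd (nat_lit 702) (nat_lit 5320) (nat_lit 0) (XT.nd (nat_lit 312) (nat_lit 4484) (nat_lit 0) (XT.nd (nat_lit 156) (nat_lit 1672) (nat_lit 0) (XT.nd (nat_lit 78) (nat_lit 0) (nat_lit 0) (XT.lf (nat_lit 0) (nat_lit 773049795) (nat_lit 1596) (nat_lit 1450992194) (nat_lit 1672) (nat_lit 6243606294) (nat_lit 503) (nat_lit 5) (nat_lit 524) (nat_lit 5) (nat_lit 525) (nat_lit 5) (nat_lit 565) (nat_lit 538) (nat_lit 457)) (XT.lf (nat_lit 0) (nat_lit 4020159696) (nat_lit 1672) (nat_lit 2859639608) (nat_lit 76) (nat_lit 1659072201) (nat_lit 503) (nat_lit 5) (nat_lit 525) (nat_lit 5) (nat_lit 504) (nat_lit 5) (nat_lit 566) (nat_lit 538) (nat_lit 456))) (XT.nd (nat_lit 78) (nat_lit 0) (nat_lit 0) (XT.lf (nat_lit 0) (nat_lit 2063974126) (nat_lit 1672) (nat_lit 3781725700) (nat_lit 1748) (nat_lit 2765954295) (nat_lit 481) (nat_lit 5) (nat_lit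 503) (nat_lit 5) (nat_lit 504) (nat_lit 5) (nat_lit 567) (nat_lit 538) (nat_lit 455)) (XT.lf (nat_lit 0) (nat_lit 7099486602) (nat_lit 1672) (nat_lit 598358129) (nat_lit 1748) (nat_lit 988250616) (nat_lit 481) (nat_lit 5) (nat_lit 503) (nat_lit 5) (nat_lit 504) (nat_lit 5) (nat_lit 568) (nat_lit 538) (nat_lit 454)))) (XT.nd (nat_lit 156) (nat_lit 2660) (nat_lit 0) (XT.nd (nat_lit 78) (nat_lit 0) (nat_lit 0) (XT.lf (nat_lit 0) (nat_lit 825525331) (nat_lit 1824) (nat_lit 5290591149) (nat_lit 76) (nat_lit 2645579667) (nat_lit 457) (nat_lit 5) (nat_lit 481) (nat_lit 5) (nat_lit 458) (nat_lit 5) (nat_lit 569) (nat_lit 538) (nat_lit 453)) (XT.lf (nat_lit 0) (nat_lit 2648739379) (nat_lit 1824) (nat_lit 223346285) (nat_lit 76) (nat_lit 5966869304) (nat_lit 457) (nat_lit 5) (nat_lit 481) (nat_lit 5) (nat_lit 458) (nat_lit 5) (nat_lit 570) (nat_lit 538) (nat_lit 452))) (XT.nd (nat_lit 78) (nat_lit 988) (nat_lit 0) (XT.lf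 (nat_lit 0) (nat_lit 4516111720) (nat_lit 1748) (nat_lit 3935258667) (nat_lit 76) (nat_lit 466239167) (nat_lit 435) (nat_lit 5) (nat_lit 458) (nat_lit 5) (nat_lit 436) (nat_lit 5) (nat_lit 571) (nat_lit 538) (nat_lit 451)) (XT.nd (nat_lit 78) (nat_lit 0) (nat_lit 0) (XT.lf (nat_lit 0) (nat_lit 1269450067) (nat_lit 988) (nat_lit 5152807482) (nat_lit 1064) (nat_lit 2575555540) (nat_lit 422) (nat_lit 5) (nat_lit 435) (nat_lit 5) (nat_lit 436) (nat_lit 5) (nat_lit 572) (nat_lit 538) (nat_lit 450)) (XT.lf (nat_lit 0) (nat_lit 6606213635) (nat_lit 988) (nat_lit 1759746491) (nat_lit 1064) (nat_lit 713676186) (nat_lit 422) (nat_lit 5) (nat_lit 435) (nat_lit 5) (nat_lit 436) (nat_lit 5) (nat_lit 573) (nat_lit 538) (nat_lit 449)))))) (XT.nd (nat_lit 390) (nat_lit 2584) (nat_lit 0) (XT.nd (nat_lit 156) (nat_lit 1748) (nat_lit 0) (XT.nd (nat_lit 78) (nat_lit 0) (nat_lit 0) (XT.lf (nat_lit 0) (nat_lit 1173272895) (nat_lit 988)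 (nat_lit 6282732010) (nat_lit 76) (nat_lit 1706873698) (nat_lit 409) (nat_lit 5) (nat_lit 422) (nat_lit 5) (nat_lit 410) (nat_lit 5) (nat_lit 574) (nat_lit 538) (nat_lit 448)) (XT.lf (nat_lit 0) (nat_lit 3090518334) (nat_lit 988) (nat_lit 915242880) (nat_lit 76) (nat_lit 5241891956) (nat_lit 409) (nat_lit 5) (nat_lit 422) (nat_lit 5) (nat_lit 410) (nat_lit 5) (nat_lit 575) (nat_lit 538) (nat_lit 447))) (XT.nd (nat_lit 78) (nat_lit 836) (nat_lit 0) (XT.lf (nat_lit 0) (nat_lit 4594745136) (nat_lit 912) (nat_lit 455453254) (nat_lit 988) (nat_lit 4283847009) (nat_lit 397) (nat_lit 5) (nat_lit 409) (nat_lit 5) (nat_lit 410) (nat_lit 5) (nat_lit 576) (nat_lit 538) (nat_lit 446)) (XT.nd (nat_lit 78) (nat_lit 0) (nat_lit 0) (XT.lf (nat_lit 0) (nat_lit 769329567) (nat_lit 836) (nat_lit 6286078084) (nat_lit 912) (nat_lit 2366634999) (nat_lit 386) (nat_lit 5) (nat_lit 397) (nat_lit 5) (nat_lit 398) (nat_lit 5) (nat_lit 577)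 (nat_lit 538) (nat_lit 445)) (XT.lf (nat_lit 0) (nat_lit 6424024218) (nat_lit 836) (nat_lit 2686433533) (nat_lit 912) (nat_lit 401151175) (nat_lit 386) (nat_lit 5) (nat_lit 397) (nat_lit 5) (nat_lit 398) (nat_lit 5) (nat_lit 578) (nat_lit 538) (nat_lit 444))))) (XT.nd (nat_lit 156) (nat_lit 1672) (nat_lit 0) (XT.nd (nat_lit 78) (nat_lit 0) (nat_lit 0) (XT.lf (nat_lit 0) (nat_lit 1581244635) (nat_lit 912) (nat_lit 7022258978) (nat_lit 76) (nat_lit 999285653) (nat_lit 374) (nat_lit 5) (nat_lit 386) (nat_lit 5) (nat_lit 375) (nat_lit 5) (nat_lit 579) (nat_lit 538) (nat_lit 443)) (XT.lf (nat_lit 0) (nat_lit 3612150915) (nat_lit 912) (nat_lit 1337556371) (nat_lit 76) (nat_lit 4745751808) (nat_lit 374) (nat_lit 5) (nat_lit 386) (nat_lit 5) (nat_lit 375) (nat_lit 5) (nat_lit 580) (nat_lit 538) (nat_lit 442))) (XT.nd (nat_lit 78) (nat_lit 912) (nat_lit 0) (XT.lf (nat_lit 0) (nat_lit 4494836607) (nat_lit 760) (nat_lit 1194082433)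 (nat_lit 836) (nat_lit 4100961926) (nat_lit 364) (nat_lit 5) (nat_lit 374) (nat_lit 5) (nat_lit 375) (nat_lit 5) (nat_lit 581) (nat_lit 538) (nat_lit 441)) (XT.nd (nat_lit 78) (nat_lit 76) (nat_lit 0) (XT.lf (nat_lit 0) (nat_lit 540650327) (nat_lit 836) (nat_lit 7272597711) (nat_lit 912) (nat_lit 2072826181) (nat_lit 353) (nat_lit 5) (nat_lit 364) (nat_lit 5) (nat_lit 365) (nat_lit 5) (nat_lit 582) (nat_lit 538) (nat_lit 440)) (XT.lf (nat_lit 0) (nat_lit 16105972) (nat_lit 912) (nat_lit 3452170453) (nat_lit 76) (nat_lit 6515515177) (nat_lit 352) (nat_lit 5) (nat_lit 364) (nat_lit 5) (nat_lit 353) (nat_lit 5) (nat_lit 583) (nat_lit 538) (nat_lit 439))))))) (XT.nd (nat_lit 702) (nat_lit 3876) (nat_lit 0) (XT.nd (nat_lit 312) (nat_lit 2204) (nat_lit 0) (XT.nd (nat_lit 156) (nat_lit 1444) (nat_lit 0) (XT.nd (nat_lit 78) (nat_lit 0) (nat_lit 0) (XT.lf (nat_lit 0) (nat_lit 2115497527) (nat_lit 836) (nat_lit 7532381021)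 (nat_lit 76) (nat_lit 435385290) (nat_lit 342) (nat_lit 5) (nat_lit 353) (nat_lit 5) (nat_lit 343) (nat_lit 5) (nat_lit 584) (nat_lit 538) (nat_lit 438)) (XT.lf (nat_lit 0) (nat_lit 4280407527) (nat_lit 836) (nat_lit 1511783159) (nat_lit 76) (nat_lit 4392067413) (nat_lit 342) (nat_lit 5) (nat_lit 353) (nat_lit 5) (nat_lit 343) (nat_lit 5) (nat_lit 585) (nat_lit 538) (nat_lit 437))) (XT.nd (nat_lit 78) (nat_lit 684) (nat_lit 0) (XT.lf (nat_lit 0) (nat_lit 4665721322) (nat_lit 760) (nat_lit 1830876184) (nat_lit 836) (nat_lit 3790518231) (nat_lit 332) (nat_lit 5) (nat_lit 342) (nat_lit 5) (nat_lit 343) (nat_lit 5) (nat_lit 586) (nat_lit 538) (nat_lit 436)) (XT.lf (nat_lit 0) (nat_lit 563454783) (nat_lit 684) (nat_lit 8199824237) (nat_lit 760) (nat_lit 1628631219) (nat_lit 323) (nat_lit 5) (nat_lit 332) (nat_lit 5) (nat_lit 333) (nat_lit 5) (nat_lit 587) (nat_lit 538) (nat_lit 435)))) (XT.nd (nat_lit 156) (nat_lit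 1368) (nat_lit 0) (XT.nd (nat_lit 78) (nat_lit 760) (nat_lit 0) (XT.lf (nat_lit 0) (nat_lit 597104958) (nat_lit 760) (nat_lit 3591055749) (nat_lit 76) (nat_lit 6310004567) (nat_lit 322) (nat_lit 5) (nat_lit 332) (nat_lit 5) (nat_lit 323) (nat_lit 5) (nat_lit 588) (nat_lit 538) (nat_lit 434)) (XT.lf (nat_lit 0) (nat_lit 2772062202) (nat_lit 760) (nat_lit 70009540) (nat_lit 836) (nat_lit 7764330786) (nat_lit 312) (nat_lit 5) (nat_lit 322) (nat_lit 5) (nat_lit 323) (nat_lit 5) (nat_lit 589) (nat_lit 538) (nat_lit 433))) (XT.nd (nat_lit 78) (nat_lit 1368) (nat_lit 0) (XT.lf (nat_lit 0) (nat_lit 5161760097) (nat_lit 836) (nat_lit 1457024945) (nat_lit 76) (nat_lit 4097425874) (nat_lit 312) (nat_lit 5) (nat_lit 323) (nat_lit 5) (nat_lit 313) (nat_lit 5) (nat_lit 590) (nat_lit 538) (nat_lit 432)) (XT.nd (nat_lit 78) (nat_lit 684) (nat_lit 0) (XT.lf (nat_lit 0) (nat_lit 5089768460) (nat_lit 684) (nat_lit 2450747073) (nat_lit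 760) (nat_lit 3287449250) (nat_lit 303) (nat_lit 5) (nat_lit 312) (nat_lit 5) (nat_lit 313) (nat_lit 5) (nat_lit 591) (nat_lit 538) (nat_lit 431)) (XT.lf (nat_lit 0) (nat_lit 819898664) (nat_lit 684) (nat_lit 9153195440) (nat_lit 760) (nat_lit 968737385) (nat_lit 294) (nat_lit 5) (nat_lit 303) (nat_lit 5) (nat_lit 304) (nat_lit 5) (nat_lit 592) (nat_lit 538) (nat_lit 430)))))) (XT.nd (nat_lit 390) (nat_lit 1900) (nat_lit 0) (XT.nd (nat_lit 156) (nat_lit 1292) (nat_lit 0) (XT.nd (nat_lit 78) (nat_lit 608) (nat_lit 0) (XT.lf (nat_lit 0) (nat_lit 1412526315) (nat_lit 760) (nat_lit 3520520115) (nat_lit 76) (nat_lit 6124060577) (nat_lit 293) (nat_lit 5) (nat_lit 303) (nat_lit 5) (nat_lit 294) (nat_lit 5) (nat_lit 593) (nat_lit 538) (nat_lit 429)) (XT.lf (nat_lit 0) (nat_lit 3224578771) (nat_lit 608) (nat_lit 604714849) (nat_lit 684) (nat_lit 7345251920) (nat_lit 285) (nat_lit 5) (nat_lit 293) (nat_lit 5) (nat_lit 294)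 (nat_lit 5) (nat_lit 594) (nat_lit 538) (nat_lit 428))) (XT.nd (nat_lit 78) (nat_lit 1292) (nat_lit 0) (XT.lf (nat_lit 0) (nat_lit 6323027631) (nat_lit 684) (nat_lit 1190884511) (nat_lit 76) (nat_lit 3779850588) (nat_lit 285) (nat_lit 5) (nat_lit 294) (nat_lit 5) (nat_lit 286) (nat_lit 5) (nat_lit 595) (nat_lit 538) (nat_lit 427)) (XT.nd (nat_lit 78) (nat_lit 608) (nat_lit 0) (XT.lf (nat_lit 0) (nat_lit 5750846397) (nat_lit 684) (nat_lit 3137635054) (nat_lit 760) (nat_lit 2526448377) (nat_lit 276) (nat_lit 5) (nat_lit 285) (nat_lit 5) (nat_lit 286) (nat_lit 5) (nat_lit 596) (nat_lit 538) (nat_lit 426)) (XT.lf (nat_lit 0) (nat_lit 1293340834) (nat_lit 608) (nat_lit 10217656024) (nat_lit 684) (nat_lit 27410779) (nat_lit 268) (nat_lit 5) (nat_lit 276) (nat_lit 5) (nat_lit 277) (nat_lit 5) (nat_lit 597) (nat_lit 538) (nat_lit 425))))) (XT.nd (nat_lit 156) (nat_lit 1216) (nat_lit 0) (XT.nd (nat_lit 78) (nat_lit 608)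 (nat_lit 0) (XT.lf (nat_lit 0) (nat_lit 2528370469) (nat_lit 684) (nat_lit 3258556970) (nat_lit 76) (nat_lit 5876305762) (nat_lit 267) (nat_lit 5) (nat_lit 276) (nat_lit 5) (nat_lit 268) (nat_lit 5) (nat_lit 598) (nat_lit 538) (nat_lit 424)) (XT.lf (nat_lit 0) (nat_lit 3894806965) (nat_lit 608) (nat_lit 1246552440) (nat_lit 684) (nat_lit 6649065345) (nat_lit 259) (nat_lit 5) (nat_lit 267) (nat_lit 5) (nat_lit 268) (nat_lit 5) (nat_lit 599) (nat_lit 538) (nat_lit 423))) (XT.nd (nat_lit 78) (nat_lit 1216) (nat_lit 0) (XT.lf (nat_lit 0) (nat_lit 7831949246) (nat_lit 684) (nat_lit 730395328) (nat_lit 76) (nat_lit 3357310966) (nat_lit 259) (nat_lit 5) (nat_lit 268) (nat_lit 5) (nat_lit 260) (nat_lit 5) (nat_lit 600) (nat_lit 538) (nat_lit 422)) (XT.nd (nat_lit 78) (nat_lit 684) (nat_lit 0) (XT.lf (nat_lit 0) (nat_lit 6633382869) (nat_lit 532) (nat_lit 3976011668) (nat_lit 608) (nat_lit 1441417727) (nat_lit 252) (nat_lit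 5) (nat_lit 259) (nat_lit 5) (nat_lit 260) (nat_lit 5) (nat_lit 601) (nat_lit 538) (nat_lit 421)) (XT.lf (nat_lit 0) (nat_lit 1245484108) (nat_lit 684) (nat_lit 10225316088) (nat_lit 76) (nat_lit 713547026) (nat_lit 243) (nat_lit 5) (nat_lit 252) (nat_lit 5) (nat_lit 244) (nat_lit 5) (nat_lit 602) (nat_lit 538) (nat_lit 420))))))))
noncomputable def xc117 : XT := (XT.nd (nat_lit 76284) (nat_lit 0) (nat_lit 31236) (XT.nd (nat_lit 702) (nat_lit 2888) (nat_lit 0) (XT.nd (nat_lit 312) (nat_lit 1596) (nat_lit 0) (XT.nd (nat_lit 156) (nat_lit 608) (nat_lit 0) (XT.nd (nat_lit 78) (nat_lit 532) (nat_lit 0) (XT.lf (nat_lit 0) (nat_lit 4011741698) (nat_lit 684) (nat_lit 2823240219) (nat_lit 76) (nat_lit 5484484106) (nat_lit 243) (nat_lit 5) (nat_lit 252) (nat_lit 5) (nat_lit 244) (nat_lit 5) (nat_lit 603) (nat_lit 538) (nat_lit 419)) (XT.lf (nat_lit 0) (nat_lit 4766098939) (nat_lit 532) (nat_lit 2080498116) (nat_lit 608)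 (nat_lit 5610426714) (nat_lit 236) (nat_lit 5) (nat_lit 243) (nat_lit 5) (nat_lit 244) (nat_lit 5) (nat_lit 604) (nat_lit 538) (nat_lit 418))) (XT.nd (nat_lit 78) (nat_lit 608) (nat_lit 0) (XT.lf (nat_lit 0) (nat_lit 9757686612) (nat_lit 608) (nat_lit 93011295) (nat_lit 76) (nat_lit 2746246006) (nat_lit 236) (nat_lit 5) (nat_lit 244) (nat_lit 5) (nat_lit 237) (nat_lit 5) (nat_lit 605) (nat_lit 538) (nat_lit 417)) (XT.lf (nat_lit 0) (nat_lit 34550457) (nat_lit 608) (nat_lit 5017595740) (nat_lit 76) (nat_lit 7686578835) (nat_lit 228) (nat_lit 5) (nat_lit 236) (nat_lit 5) (nat_lit 229) (nat_lit 5) (nat_lit 606) (nat_lit 538) (nat_lit 416)))) (XT.nd (nat_lit 156) (nat_lit 1064) (nat_lit 0) (XT.nd (nat_lit 78) (nat_lit 0) (nat_lit 0) (XT.lf (nat_lit 0) (nat_lit 2804391038) (nat_lit 532) (nat_lit 125202416) (nat_lit 608) (nat_lit 9953339306) (nat_lit 221) (nat_lit 5) (nat_lit 228) (nat_lit 5) (nat_lit 229) (nat_lit 5)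 (nat_lit 607) (nat_lit 538) (nat_lit 415)) (XT.lf (nat_lit 0) (nat_lit 5931299246) (nat_lit 608) (nat_lit 2233773047) (nat_lit 76) (nat_lit 4863978941) (nat_lit 221) (nat_lit 5) (nat_lit 229) (nat_lit 5) (nat_lit 222) (nat_lit 5) (nat_lit 608) (nat_lit 538) (nat_lit 414))) (XT.nd (nat_lit 78) (nat_lit 532) (nat_lit 0) (XT.lf (nat_lit 0) (nat_lit 5820640447) (nat_lit 532) (nat_lit 3194404001) (nat_lit 608) (nat_lit 4162609322) (nat_lit 214) (nat_lit 5) (nat_lit 221) (nat_lit 5) (nat_lit 222) (nat_lit 5) (nat_lit 609) (nat_lit 538) (nat_lit 413)) (XT.nd (nat_lit 78) (nat_lit 76) (nat_lit 0) (XT.lf (nat_lit 0) (nat_lit 711648204) (nat_lit 456) (nat_lit 11464227630) (nat_lit 532) (nat_lit 1153046056) (nat_lit 208) (nat_lit 5) (nat_lit 214) (nat_lit 5) (nat_lit 215) (nat_lit 5) (nat_lit 610) (nat_lit 538) (nat_lit 412)) (XT.lf (nat_lit 0) (nat_lit 1946011154) (nat_lit 532) (nat_lit 4497715187) (nat_lit 76) (nat_lit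 7038153022) (nat_lit 207) (nat_lit 5) (nat_lit 214) (nat_lit 5) (nat_lit 208) (nat_lit 5) (nat_lit 611) (nat_lit 538) (nat_lit 411)))))) (XT.nd (nat_lit 390) (nat_lit 1368) (nat_lit 0) (XT.nd (nat_lit 156) (nat_lit 988) (nat_lit 0) (XT.nd (nat_lit 78) (nat_lit 0) (nat_lit 0) (XT.lf (nat_lit 0) (nat_lit 3803968610) (nat_lit 532) (nat_lit 1296264992) (nat_lit 608) (nat_lit 8537339142) (nat_lit 200) (nat_lit 5) (nat_lit 207) (nat_lit 5) (nat_lit 208) (nat_lit 5) (nat_lit 612) (nat_lit 538) (nat_lit 410)) (XT.lf (nat_lit 0) (nat_lit 8357634739) (nat_lit 608) (nat_lit 1511644862) (nat_lit 76) (nat_lit 3926300135) (nat_lit 200) (nat_lit 5) (nat_lit 208) (nat_lit 5) (nat_lit 201) (nat_lit 5) (nat_lit 613) (nat_lit 538) (nat_lit 409))) (XT.nd (nat_lit 78) (nat_lit 532) (nat_lit 0) (XT.lf (nat_lit 0) (nat_lit 7038271879) (nat_lit 456) (nat_lit 4680546024) (nat_lit 532) (nat_lit 2237157879) (nat_lit 194) (nat_lit 5) (nat_lit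 200) (nat_lit 5) (nat_lit 201) (nat_lit 5) (nat_lit 614) (nat_lit 538) (nat_lit 408)) (XT.nd (nat_lit 78) (nat_lit 0) (nat_lit 0) (XT.lf (nat_lit 0) (nat_lit 1023635161) (nat_lit 532) (nat_lit 12470480971) (nat_lit 76) (nat_lit 625142349) (nat_lit 187) (nat_lit 5) (nat_lit 194) (nat_lit 5) (nat_lit 188) (nat_lit 5) (nat_lit 615) (nat_lit 538) (nat_lit 407)) (XT.lf (nat_lit 0) (nat_lit 4381972771) (nat_lit 532) (nat_lit 3873026632) (nat_lit 76) (nat_lit 6029267496) (nat_lit 187) (nat_lit 5) (nat_lit 194) (nat_lit 5) (nat_lit 188) (nat_lit 5) (nat_lit 616) (nat_lit 538) (nat_lit 406))))) (XT.nd (nat_lit 156) (nat_lit 912) (nat_lit 0) (XT.nd (nat_lit 78) (nat_lit 0) (nat_lit 0) (XT.lf (nat_lit 0) (nat_lit 4939206312) (nat_lit 456) (nat_lit 2885173147) (nat_lit 532) (nat_lit 6627859454) (nat_lit 181) (nat_lit 5) (nat_lit 187) (nat_lit 5) (nat_lit 188) (nat_lit 5) (nat_lit 617) (nat_lit 538) (nat_lit 405)) (XT.lf (nat_lit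 0) (nat_lit 11363571172) (nat_lit 532) (nat_lit 681930379) (nat_lit 76) (nat_lit 2577511522) (nat_lit 181) (nat_lit 5) (nat_lit 188) (nat_lit 5) (nat_lit 182) (nat_lit 5) (nat_lit 618) (nat_lit 538) (nat_lit 404))) (XT.nd (nat_lit 78) (nat_lit 380) (nat_lit 0) (XT.lf (nat_lit 0) (nat_lit 233274252) (nat_lit 532) (nat_lit 6402400520) (nat_lit 76) (nat_lit 8160321575) (nat_lit 174) (nat_lit 5) (nat_lit 181) (nat_lit 5) (nat_lit 175) (nat_lit 5) (nat_lit 619) (nat_lit 538) (nat_lit 403)) (XT.nd (nat_lit 74880) (nat_lit 0) (nat_lit 35948) (XT.lf (nat_lit 0) (nat_lit 2679368805) (nat_lit 380) (nat_lit 1080167826) (nat_lit 456) (nat_lit 11212326403) (nat_lit 169) (nat_lit 5) (nat_lit 174) (nat_lit 5) (nat_lit 175) (nat_lit 5) (nat_lit 620) (nat_lit 538) (nat_lit 402)) (XT.lf (nat_lit 0) (nat_lit 2497396713) (nat_lit 1140) (nat_lit 534003425) (nat_lit 1140) (nat_lit 534003425) (nat_lit 642) (nat_lit 3) (nat_lit 657) (nat_lit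 3) (nat_lit 657) (nat_lit 5) (nat_lit 539) (nat_lit 539) (nat_lit 482))))))) (XT.nd (nat_lit 702) (nat_lit 2432) (nat_lit 0) (XT.nd (nat_lit 312) (nat_lit 1140) (nat_lit 0) (XT.nd (nat_lit 156) (nat_lit 0) (nat_lit 0) (XT.nd (nat_lit 78) (nat_lit 1140) (nat_lit 0) (XT.lf (nat_lit 76) (nat_lit 2470136918) (nat_lit 0) (nat_lit 4279767217) (nat_lit 1140) (nat_lit 417760419) (nat_lit 643) (nat_lit 5) (nat_lit 642) (nat_lit 3) (nat_lit 657) (nat_lit 5) (nat_lit 540) (nat_lit 539) (nat_lit 481)) (XT.lf (nat_lit 0) (nat_lit 1279806936) (nat_lit 1140) (nat_lit 1143814257) (nat_lit 1216) (nat_lit 4782224412) (nat_lit 627) (nat_lit 5) (nat_lit 642) (nat_lit 3) (nat_lit 643) (nat_lit 5) (nat_lit 541) (nat_lit 539) (nat_lit 480))) (XT.nd (nat_lit 78) (nat_lit 0) (nat_lit 76) (XT.lf (nat_lit 76) (nat_lit 2487790563) (nat_lit 0) (nat_lit 490218053) (nat_lit 1216) (nat_lit 4267289658) (nat_lit 628) (nat_lit 5) (nat_lit 627) (nat_lit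 5) (nat_lit 643) (nat_lit 5) (nat_lit 542) (nat_lit 539) (nat_lit 479)) (XT.lf (nat_lit 0) (nat_lit 4684484530) (nat_lit 1140) (nat_lit 1111422337) (nat_lit 1216) (nat_lit 1490155511) (nat_lit 628) (nat_lit 5) (nat_lit 643) (nat_lit 5) (nat_lit 644) (nat_lit 5) (nat_lit 543) (nat_lit 539) (nat_lit 478)))) (XT.nd (nat_lit 156) (nat_lit 0) (nat_lit 76) (XT.nd (nat_lit 78) (nat_lit 1216) (nat_lit 0) (XT.lf (nat_lit 76) (nat_lit 2615209731) (nat_lit 0) (nat_lit 3787912853) (nat_lit 1216) (nat_lit 924966946) (nat_lit 629) (nat_lit 5) (nat_lit 628) (nat_lit 5) (nat_lit 644) (nat_lit 5) (nat_lit 544) (nat_lit 539) (nat_lit 477)) (XT.lf (nat_lit 0) (nat_lit 740585660) (nat_lit 1216) (nat_lit 968352225) (nat_lit 1292) (nat_lit 5662611330) (nat_lit 612) (nat_lit 5) (nat_lit 628) (nat_lit 5) (nat_lit 629) (nat_lit 5) (nat_lit 545) (nat_lit 539) (nat_lit 476))) (XT.nd (nat_lit 78) (nat_lit 0) (nat_lit 0) (XT.lf (nat_lit 0)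 (nat_lit 2407608097) (nat_lit 1216) (nat_lit 4560094282) (nat_lit 1292) (nat_lit 448450485) (nat_lit 613) (nat_lit 5) (nat_lit 629) (nat_lit 5) (nat_lit 630) (nat_lit 5) (nat_lit 546) (nat_lit 539) (nat_lit 475)) (XT.nd (nat_lit 78) (nat_lit 0) (nat_lit 0) (XT.lf (nat_lit 0) (nat_lit 4085612764) (nat_lit 1216) (nat_lit 726936502) (nat_lit 1292) (nat_lit 2649554262) (nat_lit 613) (nat_lit 5) (nat_lit 629) (nat_lit 5) (nat_lit 630) (nat_lit 5) (nat_lit 547) (nat_lit 539) (nat_lit 474)) (XT.lf (nat_lit 76) (nat_lit 3201200863) (nat_lit 0) (nat_lit 2577332671) (nat_lit 1292) (nat_lit 1730820174) (nat_lit 614) (nat_lit 5) (nat_lit 613) (nat_lit 5) (nat_lit 630) (nat_lit 5) (nat_lit 548) (nat_lit 539) (nat_lit 473)))))) (XT.nd (nat_lit 390) (nat_lit 1292) (nat_lit 0) (XT.nd (nat_lit 156) (nat_lit 0) (nat_lit 0) (XT.nd (nat_lit 78) (nat_lit 1216) (nat_lit 0) (XT.lf (nat_lit 76) (nat_lit 7194242608) (nat_lit 0) (nat_lit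 277140379) (nat_lit 1292) (nat_lit 86851977) (nat_lit 614) (nat_lit 5) (nat_lit 613) (nat_lit 5) (nat_lit 630) (nat_lit 5) (nat_lit 549) (nat_lit 539) (nat_lit 472)) (XT.lf (nat_lit 0) (nat_lit 1568441812) (nat_lit 1292) (nat_lit 3948602278) (nat_lit 1368) (nat_lit 2090864485) (nat_lit 597) (nat_lit 5) (nat_lit 614) (nat_lit 5) (nat_lit 615) (nat_lit 5) (nat_lit 550) (nat_lit 539) (nat_lit 471))) (XT.nd (nat_lit 78) (nat_lit 0) (nat_lit 0) (XT.lf (nat_lit 76) (nat_lit 83885215) (nat_lit 0) (nat_lit 3139018942) (nat_lit 1368) (nat_lit 4436322552) (nat_lit 598) (nat_lit 5) (nat_lit 597) (nat_lit 5) (nat_lit 615) (nat_lit 5) (nat_lit 551) (nat_lit 539) (nat_lit 470)) (XT.nd (nat_lit 78) (nat_lit 0) (nat_lit 76) (XT.lf (nat_lit 76) (nat_lit 4226440088) (nat_lit 0) (nat_lit 673479659) (nat_lit 1368) (nat_lit 2811869084) (nat_lit 598) (nat_lit 5) (nat_lit 597) (nat_lit 5) (nat_lit 615) (nat_lit 5) (nat_lit 552) (nat_lit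 539) (nat_lit 469)) (XT.lf (nat_lit 76) (nat_lit 658677915) (nat_lit 0) (nat_lit 5931804927) (nat_lit 1368) (nat_lit 1175325982) (nat_lit 599) (nat_lit 5) (nat_lit 598) (nat_lit 5) (nat_lit 616) (nat_lit 5) (nat_lit 553) (nat_lit 539) (nat_lit 468))))) (XT.nd (nat_lit 156) (nat_lit 0) (nat_lit 76) (XT.nd (nat_lit 78) (nat_lit 0) (nat_lit 0) (XT.lf (nat_lit 0) (nat_lit 479558335) (nat_lit 1368) (nat_lit 2920205752) (nat_lit 1444) (nat_lit 4421245725) (nat_lit 580) (nat_lit 5) (nat_lit 598) (nat_lit 5) (nat_lit 599) (nat_lit 5) (nat_lit 554) (nat_lit 539) (nat_lit 467)) (XT.lf (nat_lit 76) (nat_lit 1335908526) (nat_lit 0) (nat_lit 789371750) (nat_lit 1444) (nat_lit 5752415992) (nat_lit 581) (nat_lit 5) (nat_lit 580) (nat_lit 5) (nat_lit 599) (nat_lit 5) (nat_lit 555) (nat_lit 539) (nat_lit 466))) (XT.nd (nat_lit 78) (nat_lit 0) (nat_lit 0) (XT.lf (nat_lit 0) (nat_lit 3801196293) (nat_lit 1368) (nat_lit 2255582264)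 (nat_lit 1444) (nat_lit 1878798561) (nat_lit 581) (nat_lit 5) (nat_lit 599) (nat_lit 5) (nat_lit 600) (nat_lit 5) (nat_lit 556) (nat_lit 539) (nat_lit 465)) (XT.nd (nat_lit 78) (nat_lit 0) (nat_lit 0) (XT.lf (nat_lit 76) (nat_lit 2114444187) (nat_lit 0) (nat_lit 3381212540) (nat_lit 1444) (nat_lit 2499264467) (nat_lit 582) (nat_lit 5) (nat_lit 581) (nat_lit 5) (nat_lit 600) (nat_lit 5) (nat_lit 557) (nat_lit 539) (nat_lit 464)) (XT.lf (nat_lit 76) (nat_lit 6578199925) (nat_lit 0) (nat_lit 627520556) (nat_lit 1444) (nat_lit 850103401) (nat_lit 582) (nat_lit 5) (nat_lit 581) (nat_lit 5) (nat_lit 600) (nat_lit 5) (nat_lit 558) (nat_lit 539) (nat_lit 463))))))))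
noncomputable def xc118 : XT := (XT.nd (nat_lit 1482) (nat_lit 9196) (nat_lit 0) (XT.nd (nat_lit 702) (nat_lit 8056) (nat_lit 0) (XT.nd (nat_lit 312) (nat_lit 3192) (nat_lit 0) (XT.nd (nat_lit 156) (nat_lit 1368) (nat_lit 0) (XT.nd (nat_lit 78) (nat_lit 0) (nat_lit 0) (XT.lf (nat_lit 0) (nat_lit 822153240) (nat_lit 1444) (nat_lit 5109174041) (nat_lit 1520) (nat_lit 2186494583) (nat_lit 563) (nat_lit 5) (nat_lit 582) (nat_lit 5) (nat_lit 583) (nat_lit 5) (nat_lit 559) (nat_lit 539) (nat_lit 462)) (XT.lf (nat_lit 0) (nat_lit 2498175809) (nat_lit 1444) (nat_lit 610804307) (nat_lit 1520) (nat_lit 5072338898) (nat_lit 563) (nat_lit 5) (nat_lit 582) (nat_lit 5) (nat_lit 583) (nat_lit 5) (nat_lit 560) (nat_lit 539) (nat_lit 461))) (XT.nd (nat_lit 78) (nat_lit 1368) (nat_lit 0) (XT.lf (nat_lit 76) (nat_lit 4005788894) (nat_lit 0) (nat_lit 196130303) (nat_lit 1520) (nat_lit 4044288457) (nat_lit 564) (nat_lit 5) (nat_lit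 563) (nat_lit 5) (nat_lit 583) (nat_lit 5) (nat_lit 561) (nat_lit 539) (nat_lit 460)) (XT.lf (nat_lit 0) (nat_lit 372725747) (nat_lit 1444) (nat_lit 5560280720) (nat_lit 1520) (nat_lit 2379527664) (nat_lit 545) (nat_lit 5) (nat_lit 564) (nat_lit 5) (nat_lit 565) (nat_lit 5) (nat_lit 562) (nat_lit 539) (nat_lit 459)))) (XT.nd (nat_lit 156) (nat_lit 1596) (nat_lit 0) (XT.nd (nat_lit 78) (nat_lit 1596) (nat_lit 0) (XT.lf (nat_lit 0) (nat_lit 5109660193) (nat_lit 1444) (nat_lit 2587960792) (nat_lit 1520) (nat_lit 682593382) (nat_lit 545) (nat_lit 5) (nat_lit 564) (nat_lit 5) (nat_lit 565) (nat_lit 5) (nat_lit 563) (nat_lit 539) (nat_lit 458)) (XT.lf (nat_lit 0) (nat_lit 1016728577) (nat_lit 1596) (nat_lit 6972434469) (nat_lit 76) (nat_lit 460310222) (nat_lit 524) (nat_lit 5) (nat_lit 545) (nat_lit 5) (nat_lit 525) (nat_lit 5) (nat_lit 564) (nat_lit 539) (nat_lit 457))) (XT.nd (nat_lit 78) (nat_lit 1596) (nat_lit 0)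 (XT.lf (nat_lit 0) (nat_lit 2750170745) (nat_lit 1596) (nat_lit 2202609445) (nat_lit 76) (nat_lit 3567066475) (nat_lit 524) (nat_lit 5) (nat_lit 545) (nat_lit 5) (nat_lit 525) (nat_lit 5) (nat_lit 565) (nat_lit 539) (nat_lit 456)) (XT.nd (nat_lit 78) (nat_lit 0) (nat_lit 0) (XT.lf (nat_lit 0) (nat_lit 2673118297) (nat_lit 1596) (nat_lit 1833140539) (nat_lit 1672) (nat_lit 4085614085) (nat_lit 503) (nat_lit 5) (nat_lit 524) (nat_lit 5) (nat_lit 525) (nat_lit 5) (nat_lit 566) (nat_lit 539) (nat_lit 455)) (XT.lf (nat_lit 0) (nat_lit 6292173932) (nat_lit 1672) (nat_lit 1022686736) (nat_lit 76) (nat_lit 1350589765) (nat_lit 503) (nat_lit 5) (nat_lit 525) (nat_lit 5) (nat_lit 504) (nat_lit 5) (nat_lit 567) (nat_lit 539) (nat_lit 454)))))) (XT.nd (nat_lit 390) (nat_lit 2888) (nat_lit 0) (XT.nd (nat_lit 156) (nat_lit 1672) (nat_lit 0) (XT.nd (nat_lit 78) (nat_lit 1824) (nat_lit 0) (XT.lf (nat_lit 0) (nat_lit 3986937789)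 (nat_lit 1672) (nat_lit 4136531453) (nat_lit 1748) (nat_lit 616841755) (nat_lit 481) (nat_lit 5) (nat_lit 503) (nat_lit 5) (nat_lit 504) (nat_lit 5) (nat_lit 568) (nat_lit 539) (nat_lit 453)) (XT.lf (nat_lit 0) (nat_lit 265159592) (nat_lit 1748) (nat_lit 874629528) (nat_lit 1824) (nat_lit 7677122184) (nat_lit 457) (nat_lit 5) (nat_lit 480) (nat_lit 5) (nat_lit 481) (nat_lit 5) (nat_lit 569) (nat_lit 539) (nat_lit 452))) (XT.nd (nat_lit 78) (nat_lit 1672) (nat_lit 0) (XT.lf (nat_lit 0) (nat_lit 2943590637) (nat_lit 1824) (nat_lit 3491278341) (nat_lit 76) (nat_lit 2459691610) (nat_lit 457) (nat_lit 5) (nat_lit 481) (nat_lit 5) (nat_lit 458) (nat_lit 5) (nat_lit 570) (nat_lit 539) (nat_lit 451)) (XT.nd (nat_lit 78) (nat_lit 0) (nat_lit 0) (XT.lf (nat_lit 0) (nat_lit 1661750187) (nat_lit 1672) (nat_lit 3111101006) (nat_lit 1748) (nat_lit 4201128383) (nat_lit 435) (nat_lit 5) (nat_lit 457) (nat_lit 5) (nat_lit 458)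 (nat_lit 5) (nat_lit 571) (nat_lit 539) (nat_lit 450)) (XT.lf (nat_lit 0) (nat_lit 6637283785) (nat_lit 1748) (nat_lit 2116371334) (nat_lit 76) (nat_lit 301364382) (nat_lit 435) (nat_lit 5) (nat_lit 458) (nat_lit 5) (nat_lit 436) (nat_lit 5) (nat_lit 572) (nat_lit 539) (nat_lit 449))))) (XT.nd (nat_lit 156) (nat_lit 1824) (nat_lit 0) (XT.nd (nat_lit 78) (nat_lit 76) (nat_lit 0) (XT.lf (nat_lit 0) (nat_lit 3179947413) (nat_lit 988) (nat_lit 5374023906) (nat_lit 1064) (nat_lit 583413790) (nat_lit 422) (nat_lit 5) (nat_lit 435) (nat_lit 5) (nat_lit 436) (nat_lit 5) (nat_lit 573) (nat_lit 539) (nat_lit 448)) (XT.lf (nat_lit 0) (nat_lit 1258901389) (nat_lit 1064) (nat_lit 643435546) (nat_lit 76) (nat_lit 7319134062) (nat_lit 421) (nat_lit 5) (nat_lit 435) (nat_lit 5) (nat_lit 422) (nat_lit 5) (nat_lit 574) (nat_lit 539) (nat_lit 447))) (XT.nd (nat_lit 78) (nat_lit 912) (nat_lit 0) (XT.lf (nat_lit 0) (nat_lit 3146790658)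 (nat_lit 988) (nat_lit 4506105317) (nat_lit 76) (nat_lit 1653938676) (nat_lit 409) (nat_lit 5) (nat_lit 422) (nat_lit 5) (nat_lit 410) (nat_lit 5) (nat_lit 575) (nat_lit 539) (nat_lit 446)) (XT.nd (nat_lit 78) (nat_lit 0) (nat_lit 0) (XT.lf (nat_lit 0) (nat_lit 943812228) (nat_lit 912) (nat_lit 4126460313) (nat_lit 988) (nat_lit 4323680229) (nat_lit 397) (nat_lit 5) (nat_lit 409) (nat_lit 5) (nat_lit 410) (nat_lit 5) (nat_lit 576) (nat_lit 539) (nat_lit 445)) (XT.lf (nat_lit 0) (nat_lit 6539352122) (nat_lit 912) (nat_lit 498208669) (nat_lit 988) (nat_lit 2445149537) (nat_lit 397) (nat_lit 5) (nat_lit 409) (nat_lit 5) (nat_lit 410) (nat_lit 5) (nat_lit 577) (nat_lit 539) (nat_lit 444))))))) (XT.nd (nat_lit 702) (nat_lit 4256) (nat_lit 0) (XT.nd (nat_lit 312) (nat_lit 2432) (nat_lit 0) (XT.nd (nat_lit 156) (nat_lit 1596) (nat_lit 0) (XT.nd (nat_lit 78) (nat_lit 76) (nat_lit 0) (XT.lf (nat_lit 0) (nat_lit 2663222237)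 (nat_lit 836) (nat_lit 6394646917) (nat_lit 912) (nat_lit 515104135) (nat_lit 386) (nat_lit 5) (nat_lit 397) (nat_lit 5) (nat_lit 398) (nat_lit 5) (nat_lit 578) (nat_lit 539) (nat_lit 443)) (XT.lf (nat_lit 0) (nat_lit 1433407514) (nat_lit 912) (nat_lit 1280319369) (nat_lit 76) (nat_lit 6951150895) (nat_lit 385) (nat_lit 5) (nat_lit 397) (nat_lit 5) (nat_lit 386) (nat_lit 5) (nat_lit 579) (nat_lit 539) (nat_lit 442))) (XT.nd (nat_lit 78) (nat_lit 760) (nat_lit 0) (XT.lf (nat_lit 0) (nat_lit 3426364187) (nat_lit 912) (nat_lit 5272356277) (nat_lit 76) (nat_lit 1059587878) (nat_lit 374) (nat_lit 5) (nat_lit 386) (nat_lit 5) (nat_lit 375) (nat_lit 5) (nat_lit 580) (nat_lit 539) (nat_lit 441)) (XT.lf (nat_lit 0) (nat_lit 495472954) (nat_lit 760) (nat_lit 4970073859) (nat_lit 836) (nat_lit 4387936822) (nat_lit 364) (nat_lit 5) (nat_lit 374) (nat_lit 5) (nat_lit 375) (nat_lit 5) (nat_lit 581) (nat_lit 539) (nat_lit 440))))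 (XT.nd (nat_lit 156) (nat_lit 1596) (nat_lit 0) (XT.nd (nat_lit 78) (nat_lit 836) (nat_lit 0) (XT.lf (nat_lit 0) (nat_lit 6425822929) (nat_lit 760) (nat_lit 1131902518) (nat_lit 836) (nat_lit 2392596123) (nat_lit 364) (nat_lit 5) (nat_lit 374) (nat_lit 5) (nat_lit 375) (nat_lit 5) (nat_lit 582) (nat_lit 539) (nat_lit 439)) (XT.lf (nat_lit 0) (nat_lit 2415009803) (nat_lit 836) (nat_lit 7287766100) (nat_lit 912) (nat_lit 346103116) (nat_lit 353) (nat_lit 5) (nat_lit 364) (nat_lit 5) (nat_lit 365) (nat_lit 5) (nat_lit 583) (nat_lit 539) (nat_lit 438))) (XT.nd (nat_lit 78) (nat_lit 1520) (nat_lit 0) (XT.lf (nat_lit 0) (nat_lit 1727202205) (nat_lit 912) (nat_lit 1671230568) (nat_lit 76) (nat_lit 6750577515) (nat_lit 352) (nat_lit 5) (nat_lit 364) (nat_lit 5) (nat_lit 353) (nat_lit 5) (nat_lit 584) (nat_lit 539) (nat_lit 437)) (XT.nd (nat_lit 78) (nat_lit 760) (nat_lit 0) (XT.lf (nat_lit 0) (nat_lit 3847934435) (nat_lit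 836) (nat_lit 5812161267) (nat_lit 76) (nat_lit 590793949) (nat_lit 342) (nat_lit 5) (nat_lit 353) (nat_lit 5) (nat_lit 343) (nat_lit 5) (nat_lit 585) (nat_lit 539) (nat_lit 436)) (XT.lf (nat_lit 0) (nat_lit 296047595) (nat_lit 760) (nat_lit 5728877433) (nat_lit 836) (nat_lit 4329607767) (nat_lit 332) (nat_lit 5) (nat_lit 342) (nat_lit 5) (nat_lit 343) (nat_lit 5) (nat_lit 586) (nat_lit 539) (nat_lit 435)))))) (XT.nd (nat_lit 390) (nat_lit 2052) (nat_lit 0) (XT.nd (nat_lit 156) (nat_lit 1520) (nat_lit 0) (XT.nd (nat_lit 78) (nat_lit 684) (nat_lit 0) (XT.lf (nat_lit 0) (nat_lit 6581152451) (nat_lit 760) (nat_lit 1681704664) (nat_lit 836) (nat_lit 2197046659) (nat_lit 332) (nat_lit 5) (nat_lit 342) (nat_lit 5) (nat_lit 343) (nat_lit 5) (nat_lit 587) (nat_lit 539) (nat_lit 434)) (XT.lf (nat_lit 0) (nat_lit 2416392115) (nat_lit 684) (nat_lit 8139535232) (nat_lit 760) (nat_lit 11250181) (nat_lit 323) (nat_lit 5) (nat_lit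 332) (nat_lit 5) (nat_lit 333) (nat_lit 5) (nat_lit 588) (nat_lit 539) (nat_lit 433))) (XT.nd (nat_lit 78) (nat_lit 1444) (nat_lit 0) (XT.lf (nat_lit 0) (nat_lit 2205433550) (nat_lit 760) (nat_lit 1835890043) (nat_lit 76) (nat_lit 6634662666) (nat_lit 322) (nat_lit 5) (nat_lit 332) (nat_lit 5) (nat_lit 323) (nat_lit 5) (nat_lit 589) (nat_lit 539) (nat_lit 432)) (XT.nd (nat_lit 78) (nat_lit 684) (nat_lit 0) (XT.lf (nat_lit 0) (nat_lit 4476864199) (nat_lit 836) (nat_lit 6145394458) (nat_lit 76) (nat_lit 164502519) (nat_lit 312) (nat_lit 5) (nat_lit 323) (nat_lit 5) (nat_lit 313) (nat_lit 5) (nat_lit 590) (nat_lit 539) (nat_lit 431)) (XT.lf (nat_lit 0) (nat_lit 327113964) (nat_lit 684) (nat_lit 6487470529) (nat_lit 760) (nat_lit 4084752600) (nat_lit 303) (nat_lit 5) (nat_lit 312) (nat_lit 5) (nat_lit 313) (nat_lit 5) (nat_lit 591) (nat_lit 539) (nat_lit 430))))) (XT.nd (nat_lit 156) (nat_lit 1292) (nat_lit 0) (XT.nd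 (nat_lit 78) (nat_lit 760) (nat_lit 0) (XT.lf (nat_lit 0) (nat_lit 6988651836) (nat_lit 684) (nat_lit 2231464791) (nat_lit 760) (nat_lit 1793629423) (nat_lit 303) (nat_lit 5) (nat_lit 312) (nat_lit 5) (nat_lit 313) (nat_lit 5) (nat_lit 592) (nat_lit 539) (nat_lit 429)) (XT.lf (nat_lit 0) (nat_lit 547358726) (nat_lit 760) (nat_lit 8483418167) (nat_lit 76) (nat_lit 2099374943) (nat_lit 293) (nat_lit 5) (nat_lit 303) (nat_lit 5) (nat_lit 294) (nat_lit 5) (nat_lit 593) (nat_lit 539) (nat_lit 428))) (XT.nd (nat_lit 78) (nat_lit 1292) (nat_lit 0) (XT.lf (nat_lit 0) (nat_lit 2933435264) (nat_lit 760) (nat_lit 1792364011) (nat_lit 76) (nat_lit 6522406153) (nat_lit 293) (nat_lit 5) (nat_lit 303) (nat_lit 5) (nat_lit 294) (nat_lit 5) (nat_lit 594) (nat_lit 539) (nat_lit 427)) (XT.nd (nat_lit 78) (nat_lit 684) (nat_lit 0) (XT.lf (nat_lit 0) (nat_lit 5075804178) (nat_lit 608) (nat_lit 305066586) (nat_lit 684) (nat_lit 5987479048)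 (nat_lit 285) (nat_lit 5) (nat_lit 293) (nat_lit 5) (nat_lit 294) (nat_lit 5) (nat_lit 595) (nat_lit 539) (nat_lit 426)) (XT.lf (nat_lit 0) (nat_lit 571614658) (nat_lit 684) (nat_lit 7329639054) (nat_lit 760) (nat_lit 3589165812) (nat_lit 276) (nat_lit 5) (nat_lit 285) (nat_lit 5) (nat_lit 286) (nat_lit 5) (nat_lit 596) (nat_lit 539) (nat_lit 425))))))))
noncomputable def xc119 : XT := (XT.nd (nat_lit 1482) (nat_lit 4332) (nat_lit 0) (XT.nd (nat_lit 702) (nat_lit 3192) (nat_lit 0) (XT.nd (nat_lit 312) (nat_lit 1748) (nat_lit 0) (XT.nd (nat_lit 156) (nat_lit 608) (nat_lit 0) (XT.nd (nat_lit 78) (nat_lit 684) (nat_lit 0) (XT.lf (nat_lit 0) (nat_lit 7632980592) (nat_lit 684) (nat_lit 2864404792) (nat_lit 760) (nat_lit 1117040796) (nat_lit 276) (nat_lit 5) (nat_lit 285) (nat_lit 5) (nat_lit 286) (nat_lit 5) (nat_lit 597) (nat_lit 539) (nat_lit 424)) (XT.lf (nat_lit 0) (nat_lit 1398745093) (nat_lit 684) (nat_lit 8648721570)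 (nat_lit 76) (nat_lit 1693013421) (nat_lit 267) (nat_lit 5) (nat_lit 276) (nat_lit 5) (nat_lit 268) (nat_lit 5) (nat_lit 598) (nat_lit 539) (nat_lit 423))) (XT.nd (nat_lit 78) (nat_lit 608) (nat_lit 0) (XT.lf (nat_lit 0) (nat_lit 3977307881) (nat_lit 684) (nat_lit 1557978070) (nat_lit 76) (nat_lit 6333075312) (nat_lit 267) (nat_lit 5) (nat_lit 276) (nat_lit 5) (nat_lit 268) (nat_lit 5) (nat_lit 599) (nat_lit 539) (nat_lit 422)) (XT.lf (nat_lit 0) (nat_lit 5726836368) (nat_lit 608) (nat_lit 899690205) (nat_lit 684) (nat_lit 5371893988) (nat_lit 259) (nat_lit 5) (nat_lit 267) (nat_lit 5) (nat_lit 268) (nat_lit 5) (nat_lit 600) (nat_lit 539) (nat_lit 421)))) (XT.nd (nat_lit 156) (nat_lit 1216) (nat_lit 0) (XT.nd (nat_lit 78) (nat_lit 0) (nat_lit 0) (XT.lf (nat_lit 0) (nat_lit 1012920636) (nat_lit 532) (nat_lit 8339846018) (nat_lit 608) (nat_lit 2777835796) (nat_lit 252) (nat_lit 5) (nat_lit 259) (nat_lit 5) (nat_lit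 260) (nat_lit 5) (nat_lit 601) (nat_lit 539) (nat_lit 420)) (XT.lf (nat_lit 0) (nat_lit 8499211871) (nat_lit 532) (nat_lit 3664605615) (nat_lit 608) (nat_lit 101006878) (nat_lit 252) (nat_lit 5) (nat_lit 259) (nat_lit 5) (nat_lit 260) (nat_lit 5) (nat_lit 602) (nat_lit 539) (nat_lit 419))) (XT.nd (nat_lit 78) (nat_lit 532) (nat_lit 0) (XT.lf (nat_lit 0) (nat_lit 2609096009) (nat_lit 684) (nat_lit 8665814510) (nat_lit 76) (nat_lit 1126196351) (nat_lit 243) (nat_lit 5) (nat_lit 252) (nat_lit 5) (nat_lit 244) (nat_lit 5) (nat_lit 603) (nat_lit 539) (nat_lit 418)) (XT.nd (nat_lit 78) (nat_lit 532) (nat_lit 0) (XT.lf (nat_lit 0) (nat_lit 5404429687) (nat_lit 684) (nat_lit 1150285514) (nat_lit 76) (nat_lit 5984740831) (nat_lit 243) (nat_lit 5) (nat_lit 252) (nat_lit 5) (nat_lit 244) (nat_lit 5) (nat_lit 604) (nat_lit 539) (nat_lit 417)) (XT.lf (nat_lit 0) (nat_lit 6579462667) (nat_lit 532) (nat_lit 1701939775) (nat_lit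 608) (nat_lit 4398657032) (nat_lit 236) (nat_lit 5) (nat_lit 243) (nat_lit 5) (nat_lit 244) (nat_lit 5) (nat_lit 605) (nat_lit 539) (nat_lit 416)))))) (XT.nd (nat_lit 390) (nat_lit 1520) (nat_lit 0) (XT.nd (nat_lit 156) (nat_lit 1064) (nat_lit 0) (XT.nd (nat_lit 78) (nat_lit 76) (nat_lit 0) (XT.lf (nat_lit 0) (nat_lit 1633829493) (nat_lit 532) (nat_lit 9604718223) (nat_lit 608) (nat_lit 1584476514) (nat_lit 229) (nat_lit 5) (nat_lit 236) (nat_lit 5) (nat_lit 237) (nat_lit 5) (nat_lit 606) (nat_lit 539) (nat_lit 415)) (XT.lf (nat_lit 0) (nat_lit 1304842250) (nat_lit 608) (nat_lit 3404895535) (nat_lit 76) (nat_lit 8258230927) (nat_lit 228) (nat_lit 5) (nat_lit 236) (nat_lit 5) (nat_lit 229) (nat_lit 5) (nat_lit 607) (nat_lit 539) (nat_lit 414))) (XT.nd (nat_lit 78) (nat_lit 532) (nat_lit 0) (XT.lf (nat_lit 0) (nat_lit 4246007815) (nat_lit 608) (nat_lit 8555146061) (nat_lit 76) (nat_lit 314145005) (nat_lit 221) (nat_lit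 5) (nat_lit 229) (nat_lit 5) (nat_lit 222) (nat_lit 5) (nat_lit 608) (nat_lit 539) (nat_lit 413)) (XT.nd (nat_lit 78) (nat_lit 532) (nat_lit 0) (XT.lf (nat_lit 0) (nat_lit 7283897434) (nat_lit 608) (nat_lit 588117782) (nat_lit 76) (nat_lit 5392804183) (nat_lit 221) (nat_lit 5) (nat_lit 229) (nat_lit 5) (nat_lit 222) (nat_lit 5) (nat_lit 609) (nat_lit 539) (nat_lit 412)) (XT.lf (nat_lit 0) (nat_lit 7616263384) (nat_lit 532) (nat_lit 2799761167) (nat_lit 608) (nat_lit 3000637909) (nat_lit 214) (nat_lit 5) (nat_lit 221) (nat_lit 5) (nat_lit 222) (nat_lit 5) (nat_lit 610) (nat_lit 539) (nat_lit 411))))) (XT.nd (nat_lit 156) (nat_lit 988) (nat_lit 0) (XT.nd (nat_lit 78) (nat_lit 0) (nat_lit 0) (XT.lf (nat_lit 0) (nat_lit 58094834) (nat_lit 532) (nat_lit 11156072369) (nat_lit 76) (nat_lit 2356984587) (nat_lit 207) (nat_lit 5) (nat_lit 214) (nat_lit 5) (nat_lit 208) (nat_lit 5) (nat_lit 611) (nat_lit 539) (nat_lit 410))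 (XT.lf (nat_lit 0) (nat_lit 3179810747) (nat_lit 532) (nat_lit 2915207996) (nat_lit 76) (nat_lit 7632477365) (nat_lit 207) (nat_lit 5) (nat_lit 214) (nat_lit 5) (nat_lit 208) (nat_lit 5) (nat_lit 612) (nat_lit 539) (nat_lit 409))) (XT.nd (nat_lit 78) (nat_lit 456) (nat_lit 0) (XT.lf (nat_lit 0) (nat_lit 5541506442) (nat_lit 532) (nat_lit 842969486) (nat_lit 608) (nat_lit 7502082680) (nat_lit 200) (nat_lit 5) (nat_lit 207) (nat_lit 5) (nat_lit 208) (nat_lit 5) (nat_lit 613) (nat_lit 539) (nat_lit 408)) (XT.nd (nat_lit 78) (nat_lit 0) (nat_lit 0) (XT.lf (nat_lit 0) (nat_lit 108677597) (nat_lit 456) (nat_lit 9578922378) (nat_lit 532) (nat_lit 4360516636) (nat_lit 194) (nat_lit 5) (nat_lit 200) (nat_lit 5) (nat_lit 201) (nat_lit 5) (nat_lit 614) (nat_lit 539) (nat_lit 407)) (XT.lf (nat_lit 0) (nat_lit 8817317808) (nat_lit 456) (nat_lit 4285833780) (nat_lit 532) (nat_lit 1108828417) (nat_lit 194) (nat_lit 5) (nat_lit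 200) (nat_lit 5) (nat_lit 201) (nat_lit 5) (nat_lit 615) (nat_lit 539) (nat_lit 406))))))) (XT.nd (nat_lit 1014) (nat_lit 760) (nat_lit 0) (XT.nd (nat_lit 312) (nat_lit 2128) (nat_lit 0) (XT.nd (nat_lit 156) (nat_lit 912) (nat_lit 0) (XT.nd (nat_lit 78) (nat_lit 0) (nat_lit 0) (XT.lf (nat_lit 0) (nat_lit 2192990903) (nat_lit 532) (nat_lit 11057195015) (nat_lit 76) (nat_lit 1128368435) (nat_lit 187) (nat_lit 5) (nat_lit 194) (nat_lit 5) (nat_lit 188) (nat_lit 5) (nat_lit 616) (nat_lit 539) (nat_lit 405)) (XT.lf (nat_lit 0) (nat_lit 5595968147) (nat_lit 532) (nat_lit 2320393463) (nat_lit 76) (nat_lit 6630954061) (nat_lit 187) (nat_lit 5) (nat_lit 194) (nat_lit 5) (nat_lit 188) (nat_lit 5) (nat_lit 617) (nat_lit 539) (nat_lit 404))) (XT.nd (nat_lit 78) (nat_lit 456) (nat_lit 0) (XT.lf (nat_lit 0) (nat_lit 6657359840) (nat_lit 456) (nat_lit 2438291740) (nat_lit 532) (nat_lit 5623229120) (nat_lit 181) (nat_lit 5) (nat_lit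 187) (nat_lit 5) (nat_lit 188) (nat_lit 5) (nat_lit 618) (nat_lit 539) (nat_lit 403)) (XT.lf (nat_lit 0) (nat_lit 922903979) (nat_lit 456) (nat_lit 11770068595) (nat_lit 532) (nat_lit 2200352965) (nat_lit 175) (nat_lit 5) (nat_lit 181) (nat_lit 5) (nat_lit 182) (nat_lit 5) (nat_lit 619) (nat_lit 539) (nat_lit 402)))) (XT.nd (nat_lit 156) (nat_lit 1672) (nat_lit 0) (XT.nd (nat_lit 78) (nat_lit 380) (nat_lit 0) (XT.lf (nat_lit 0) (nat_lit 1330232960) (nat_lit 532) (nat_lit 4920030718) (nat_lit 76) (nat_lit 8819705620) (nat_lit 174) (nat_lit 5) (nat_lit 181) (nat_lit 5) (nat_lit 175) (nat_lit 5) (nat_lit 620) (nat_lit 539) (nat_lit 401)) (XT.lf (nat_lit 0) (nat_lit 4332779140) (nat_lit 380) (nat_lit 583211043) (nat_lit 456) (nat_lit 10333585725) (nat_lit 169) (nat_lit 5) (nat_lit 174) (nat_lit 5) (nat_lit 175) (nat_lit 5) (nat_lit 621) (nat_lit 539) (nat_lit 400))) (XT.nd (nat_lit 78) (nat_lit 1672) (nat_lit 0) (XT.lf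 (nat_lit 0) (nat_lit 8626403425) (nat_lit 456) (nat_lit 1649681600) (nat_lit 76) (nat_lit 5155632091) (nat_lit 169) (nat_lit 5) (nat_lit 175) (nat_lit 5) (nat_lit 170) (nat_lit 5) (nat_lit 622) (nat_lit 539) (nat_lit 399)) (XT.nd (nat_lit 390) (nat_lit 1216) (nat_lit 0) (XT.lf (nat_lit 0) (nat_lit 7881752214) (nat_lit 456) (nat_lit 4570546517) (nat_lit 532) (nat_lit 3164378198) (nat_lit 163) (nat_lit 5) (nat_lit 169) (nat_lit 5) (nat_lit 170) (nat_lit 5) (nat_lit 623) (nat_lit 539) (nat_lit 398)) (XT.lf (nat_lit 0) (nat_lit 9180088629) (nat_lit 380) (nat_lit 7351750978) (nat_lit 456) (nat_lit 52912605) (nat_lit 147) (nat_lit 5) (nat_lit 152) (nat_lit 5) (nat_lit 153) (nat_lit 5) (nat_lit 628) (nat_lit 539) (nat_lit 393)))))) (XT.nd (nat_lit 74412) (nat_lit 0) (nat_lit 36100) (XT.nd (nat_lit 156) (nat_lit 304) (nat_lit 0) (XT.nd (nat_lit 78) (nat_lit 0) (nat_lit 0) (XT.lf (nat_lit 0) (nat_lit 2715525711) (nat_lit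 380) (nat_lit 1255473962) (nat_lit 456) (nat_lit 12816334065) (nat_lit 141) (nat_lit 5) (nat_lit 146) (nat_lit 5) (nat_lit 147) (nat_lit 5) (nat_lit 629) (nat_lit 539) (nat_lit 392)) (XT.lf (nat_lit 0) (nat_lit 8144030890) (nat_lit 456) (nat_lit 3907462072) (nat_lit 76) (nat_lit 4941081004) (nat_lit 141) (nat_lit 5) (nat_lit 147) (nat_lit 5) (nat_lit 142) (nat_lit 5) (nat_lit 630) (nat_lit 539) (nat_lit 391))) (XT.nd (nat_lit 74100) (nat_lit 0) (nat_lit 37240) (XT.lf (nat_lit 0) (nat_lit 6517651168) (nat_lit 304) (nat_lit 5920864588) (nat_lit 380) (nat_lit 4762644417) (nat_lit 137) (nat_lit 5) (nat_lit 141) (nat_lit 5) (nat_lit 142) (nat_lit 5) (nat_lit 631) (nat_lit 539) (nat_lit 390)) (XT.nd (nat_lit 78) (nat_lit 0) (nat_lit 0) (XT.lf (nat_lit 0) (nat_lit 309301344) (nat_lit 0) (nat_lit 309301344) (nat_lit 1140) (nat_lit 2984038387) (nat_lit 627) (nat_lit 5) (nat_lit 627) (nat_lit 3) (nat_lit 642) (nat_lit 3)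 (nat_lit 540) (nat_lit 540) (nat_lit 480)) (XT.lf (nat_lit 0) (nat_lit 2903554171) (nat_lit 1140) (nat_lit 3043070015) (nat_lit 1216) (nat_lit 1297303898) (nat_lit 627) (nat_lit 5) (nat_lit 642) (nat_lit 3) (nat_lit 643) (nat_lit 5) (nat_lit 541) (nat_lit 540) (nat_lit 479))))) (XT.nd (nat_lit 156) (nat_lit 1140) (nat_lit 0) (XT.nd (nat_lit 78) (nat_lit 0) (nat_lit 0) (XT.lf (nat_lit 76) (nat_lit 551961817) (nat_lit 0) (nat_lit 4015928113) (nat_lit 1216) (nat_lit 2716172392) (nat_lit 628) (nat_lit 5) (nat_lit 627) (nat_lit 5) (nat_lit 643) (nat_lit 5) (nat_lit 542) (nat_lit 540) (nat_lit 478)) (XT.lf (nat_lit 76) (nat_lit 4237700359) (nat_lit 0) (nat_lit 2005910049) (nat_lit 1216) (nat_lit 1081835295) (nat_lit 628) (nat_lit 5) (nat_lit 627) (nat_lit 5) (nat_lit 643) (nat_lit 5) (nat_lit 543) (nat_lit 540) (nat_lit 477))) (XT.nd (nat_lit 78) (nat_lit 0) (nat_lit 0) (XT.lf (nat_lit 0) (nat_lit 540169816) (nat_lit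 1216) (nat_lit 6757662810) (nat_lit 1292) (nat_lit 70503105) (nat_lit 612) (nat_lit 5) (nat_lit 628) (nat_lit 5) (nat_lit 629) (nat_lit 5) (nat_lit 544) (nat_lit 540) (nat_lit 476)) (XT.nd (nat_lit 78) (nat_lit 0) (nat_lit 0) (XT.lf (nat_lit 0) (nat_lit 2173303796) (nat_lit 1216) (nat_lit 3030709823) (nat_lit 1292) (nat_lit 2208071365) (nat_lit 612) (nat_lit 5) (nat_lit 628) (nat_lit 5) (nat_lit 629) (nat_lit 5) (nat_lit 545) (nat_lit 540) (nat_lit 475)) (XT.lf (nat_lit 76) (nat_lit 757809701) (nat_lit 0) (nat_lit 3046033711) (nat_lit 1292) (nat_lit 3653578727) (nat_lit 613) (nat_lit 5) (nat_lit 612) (nat_lit 5) (nat_lit 629) (nat_lit 5) (nat_lit 546) (nat_lit 540) (nat_lit 474))))))))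
noncomputable def xc120 : XT := (XT.nd (nat_lit 1482) (nat_lit 13072) (nat_lit 0) (XT.nd (nat_lit 702) (nat_lit 4256) (nat_lit 0) (XT.nd (nat_lit 312) (nat_lit 1216) (nat_lit 0) (XT.nd (nat_lit 156) (nat_lit 1216) (nat_lit 0) (XT.nd (nat_lit 78) (nat_lit 0) (nat_lit 76) (XT.lf (nat_lit 76) (nat_lit 4640421085) (nat_lit 0) (nat_lit 807373160) (nat_lit 1292) (nat_lit 2056263408) (nat_lit 613) (nat_lit 5) (nat_lit 612) (nat_lit 5) (nat_lit 629) (nat_lit 5) (nat_lit 547) (nat_lit 540) (nat_lit 473)) (XT.lf (nat_lit 76) (nat_lit 1029777147) (nat_lit 0) (nat_lit 6072461304) (nat_lit 1292) (nat_lit 449842615) (nat_lit 614) (nat_lit 5) (nat_lit 613) (nat_lit 5) (nat_lit 630) (nat_lit 5) (nat_lit 548) (nat_lit 540) (nat_lit 472))) (XT.nd (nat_lit 78) (nat_lit 0) (nat_lit 0) (XT.lf (nat_lit 0) (nat_lit 1159500983) (nat_lit 1292) (nat_lit 2597563522) (nat_lit 1368) (nat_lit 3844125580) (nat_lit 596) (nat_lit 5) (nat_lit 613)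 (nat_lit 5) (nat_lit 614) (nat_lit 5) (nat_lit 549) (nat_lit 540) (nat_lit 471)) (XT.lf (nat_lit 76) (nat_lit 1397921273) (nat_lit 0) (nat_lit 1368613629) (nat_lit 1368) (nat_lit 4885263421) (nat_lit 597) (nat_lit 5) (nat_lit 596) (nat_lit 5) (nat_lit 614) (nat_lit 5) (nat_lit 550) (nat_lit 540) (nat_lit 470)))) (XT.nd (nat_lit 156) (nat_lit 1292) (nat_lit 0) (XT.nd (nat_lit 78) (nat_lit 0) (nat_lit 0) (XT.lf (nat_lit 0) (nat_lit 4393310877) (nat_lit 1292) (nat_lit 2225381278) (nat_lit 1368) (nat_lit 1084981447) (nat_lit 597) (nat_lit 5) (nat_lit 614) (nat_lit 5) (nat_lit 615) (nat_lit 5) (nat_lit 551) (nat_lit 540) (nat_lit 469)) (XT.lf (nat_lit 76) (nat_lit 1875899432) (nat_lit 0) (nat_lit 4161812576) (nat_lit 1368) (nat_lit 1719179358) (nat_lit 598) (nat_lit 5) (nat_lit 597) (nat_lit 5) (nat_lit 615) (nat_lit 5) (nat_lit 552) (nat_lit 540) (nat_lit 468))) (XT.nd (nat_lit 78) (nat_lit 1292) (nat_lit 0) (XT.lf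 (nat_lit 76) (nat_lit 6066200765) (nat_lit 0) (nat_lit 1628138718) (nat_lit 1368) (nat_lit 117253873) (nat_lit 598) (nat_lit 5) (nat_lit 597) (nat_lit 5) (nat_lit 615) (nat_lit 5) (nat_lit 553) (nat_lit 540) (nat_lit 467)) (XT.nd (nat_lit 78) (nat_lit 0) (nat_lit 0) (XT.lf (nat_lit 0) (nat_lit 1484192719) (nat_lit 1368) (nat_lit 5401731494) (nat_lit 1444) (nat_lit 981527112) (nat_lit 580) (nat_lit 5) (nat_lit 598) (nat_lit 5) (nat_lit 599) (nat_lit 5) (nat_lit 554) (nat_lit 540) (nat_lit 466)) (XT.lf (nat_lit 0) (nat_lit 3104151774) (nat_lit 1368) (nat_lit 1174925144) (nat_lit 1444) (nat_lit 3645579220) (nat_lit 580) (nat_lit 5) (nat_lit 598) (nat_lit 5) (nat_lit 599) (nat_lit 5) (nat_lit 555) (nat_lit 540) (nat_lit 465)))))) (XT.nd (nat_lit 390) (nat_lit 2888) (nat_lit 0) (XT.nd (nat_lit 156) (nat_lit 1368) (nat_lit 0) (XT.nd (nat_lit 78) (nat_lit 0) (nat_lit 76) (XT.lf (nat_lit 76) (nat_lit 3154445073) (nat_lit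 0) (nat_lit 1588702201) (nat_lit 1444) (nat_lit 3240131159) (nat_lit 581) (nat_lit 5) (nat_lit 580) (nat_lit 5) (nat_lit 599) (nat_lit 5) (nat_lit 556) (nat_lit 540) (nat_lit 464)) (XT.lf (nat_lit 0) (nat_lit 6397096797) (nat_lit 1368) (nat_lit 488068990) (nat_lit 1444) (nat_lit 1158269917) (nat_lit 581) (nat_lit 5) (nat_lit 599) (nat_lit 5) (nat_lit 600) (nat_lit 5) (nat_lit 557) (nat_lit 540) (nat_lit 463))) (XT.nd (nat_lit 78) (nat_lit 1444) (nat_lit 0) (XT.lf (nat_lit 76) (nat_lit 3957432826) (nat_lit 0) (nat_lit 4130295606) (nat_lit 1444) (nat_lit 17001519) (nat_lit 582) (nat_lit 5) (nat_lit 581) (nat_lit 5) (nat_lit 600) (nat_lit 5) (nat_lit 558) (nat_lit 540) (nat_lit 462)) (XT.nd (nat_lit 78) (nat_lit 0) (nat_lit 76) (XT.lf (nat_lit 76) (nat_lit 300778927) (nat_lit 0) (nat_lit 1295477317) (nat_lit 1520) (nat_lit 6571327765) (nat_lit 563) (nat_lit 5) (nat_lit 562) (nat_lit 5) (nat_lit 582) (nat_lit 5) (nat_lit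 559) (nat_lit 540) (nat_lit 461)) (XT.lf (nat_lit 0) (nat_lit 3248121245) (nat_lit 1444) (nat_lit 3372044334) (nat_lit 1520) (nat_lit 1611401481) (nat_lit 563) (nat_lit 5) (nat_lit 582) (nat_lit 5) (nat_lit 583) (nat_lit 5) (nat_lit 560) (nat_lit 540) (nat_lit 460))))) (XT.nd (nat_lit 156) (nat_lit 2964) (nat_lit 0) (XT.nd (nat_lit 78) (nat_lit 0) (nat_lit 0) (XT.lf (nat_lit 76) (nat_lit 1195912436) (nat_lit 0) (nat_lit 3722270899) (nat_lit 1520) (nat_lit 3378948688) (nat_lit 564) (nat_lit 5) (nat_lit 563) (nat_lit 5) (nat_lit 583) (nat_lit 5) (nat_lit 561) (nat_lit 540) (nat_lit 459)) (XT.lf (nat_lit 76) (nat_lit 5877289419) (nat_lit 0) (nat_lit 736259169) (nat_lit 1520) (nat_lit 1750626994) (nat_lit 564) (nat_lit 5) (nat_lit 563) (nat_lit 5) (nat_lit 583) (nat_lit 5) (nat_lit 562) (nat_lit 540) (nat_lit 458))) (XT.nd (nat_lit 78) (nat_lit 1596) (nat_lit 0) (XT.lf (nat_lit 0) (nat_lit 2209885389) (nat_lit 1444)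 (nat_lit 6132199692) (nat_lit 1520) (nat_lit 90494889) (nat_lit 545) (nat_lit 5) (nat_lit 564) (nat_lit 5) (nat_lit 565) (nat_lit 5) (nat_lit 563) (nat_lit 540) (nat_lit 457)) (XT.nd (nat_lit 78) (nat_lit 1520) (nat_lit 0) (XT.lf (nat_lit 0) (nat_lit 1573648967) (nat_lit 1520) (nat_lit 1507190790) (nat_lit 76) (nat_lit 5421472971) (nat_lit 544) (nat_lit 5) (nat_lit 564) (nat_lit 5) (nat_lit 545) (nat_lit 5) (nat_lit 564) (nat_lit 540) (nat_lit 456)) (XT.lf (nat_lit 0) (nat_lit 3262563035) (nat_lit 1596) (nat_lit 5251992619) (nat_lit 76) (nat_lit 59023476) (nat_lit 524) (nat_lit 5) (nat_lit 545) (nat_lit 5) (nat_lit 525) (nat_lit 5) (nat_lit 565) (nat_lit 540) (nat_lit 455))))))) (XT.nd (nat_lit 702) (nat_lit 5244) (nat_lit 0) (XT.nd (nat_lit 312) (nat_lit 4484) (nat_lit 0) (XT.nd (nat_lit 156) (nat_lit 1748) (nat_lit 0) (XT.nd (nat_lit 78) (nat_lit 1596) (nat_lit 0) (XT.lf (nat_lit 0) (nat_lit 4987036793) (nat_lit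 1596) (nat_lit 423239536) (nat_lit 76) (nat_lit 3235963736) (nat_lit 524) (nat_lit 5) (nat_lit 545) (nat_lit 5) (nat_lit 525) (nat_lit 5) (nat_lit 566) (nat_lit 540) (nat_lit 454)) (XT.lf (nat_lit 0) (nat_lit 4538006563) (nat_lit 1596) (nat_lit 2209219442) (nat_lit 1672) (nat_lit 1973108436) (nat_lit 503) (nat_lit 5) (nat_lit 524) (nat_lit 5) (nat_lit 525) (nat_lit 5) (nat_lit 567) (nat_lit 540) (nat_lit 453))) (XT.nd (nat_lit 78) (nat_lit 76) (nat_lit 0) (XT.lf (nat_lit 0) (nat_lit 787785152) (nat_lit 1672) (nat_lit 7741855196) (nat_lit 1748) (nat_lit 266534576) (nat_lit 481) (nat_lit 5) (nat_lit 503) (nat_lit 5) (nat_lit 504) (nat_lit 5) (nat_lit 568) (nat_lit 540) (nat_lit 452)) (XT.lf (nat_lit 0) (nat_lit 1470115211) (nat_lit 1748) (nat_lit 3007612303) (nat_lit 76) (nat_lit 4395312176) (nat_lit 480) (nat_lit 5) (nat_lit 503) (nat_lit 5) (nat_lit 481) (nat_lit 5) (nat_lit 569) (nat_lit 540) (nat_lit 451))))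 (XT.nd (nat_lit 156) (nat_lit 2736) (nat_lit 0) (XT.nd (nat_lit 78) (nat_lit 0) (nat_lit 0) (XT.lf (nat_lit 0) (nat_lit 2095122271) (nat_lit 1748) (nat_lit 1129350719) (nat_lit 1824) (nat_lit 5727207025) (nat_lit 457) (nat_lit 5) (nat_lit 480) (nat_lit 5) (nat_lit 481) (nat_lit 5) (nat_lit 570) (nat_lit 540) (nat_lit 450)) (XT.lf (nat_lit 0) (nat_lit 5022411315) (nat_lit 1824) (nat_lit 1729957587) (nat_lit 76) (nat_lit 2279358673) (nat_lit 457) (nat_lit 5) (nat_lit 481) (nat_lit 5) (nat_lit 458) (nat_lit 5) (nat_lit 571) (nat_lit 540) (nat_lit 449))) (XT.nd (nat_lit 78) (nat_lit 1064) (nat_lit 0) (XT.lf (nat_lit 0) (nat_lit 3514084496) (nat_lit 1672) (nat_lit 3346376545) (nat_lit 1748) (nat_lit 2252836200) (nat_lit 435) (nat_lit 5) (nat_lit 457) (nat_lit 5) (nat_lit 458) (nat_lit 5) (nat_lit 572) (nat_lit 540) (nat_lit 448)) (XT.nd (nat_lit 78) (nat_lit 1064) (nat_lit 0) (XT.lf (nat_lit 0) (nat_lit 8722018918)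 (nat_lit 1748) (nat_lit 334792085) (nat_lit 76) (nat_lit 139956482) (nat_lit 435) (nat_lit 5) (nat_lit 458) (nat_lit 5) (nat_lit 436) (nat_lit 5) (nat_lit 573) (nat_lit 540) (nat_lit 447)) (XT.lf (nat_lit 0) (nat_lit 1351255786) (nat_lit 1064) (nat_lit 4234752928) (nat_lit 76) (nat_lit 3695130227) (nat_lit 421) (nat_lit 5) (nat_lit 435) (nat_lit 5) (nat_lit 422) (nat_lit 5) (nat_lit 574) (nat_lit 540) (nat_lit 446)))))) (XT.nd (nat_lit 390) (nat_lit 2508) (nat_lit 0) (XT.nd (nat_lit 156) (nat_lit 1824) (nat_lit 0) (XT.nd (nat_lit 78) (nat_lit 0) (nat_lit 0) (XT.lf (nat_lit 0) (nat_lit 1160851751) (nat_lit 912) (nat_lit 2031287473) (nat_lit 988) (nat_lit 6175305411) (nat_lit 409) (nat_lit 5) (nat_lit 421) (nat_lit 5) (nat_lit 422) (nat_lit 5) (nat_lit 575) (nat_lit 540) (nat_lit 445)) (XT.lf (nat_lit 0) (nat_lit 5084055869) (nat_lit 988) (nat_lit 2767813993) (nat_lit 76) (nat_lit 1603326084) (nat_lit 409) (nat_lit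 5) (nat_lit 422) (nat_lit 5) (nat_lit 410) (nat_lit 5) (nat_lit 576) (nat_lit 540) (nat_lit 444))) (XT.nd (nat_lit 78) (nat_lit 912) (nat_lit 0) (XT.lf (nat_lit 0) (nat_lit 2779072868) (nat_lit 912) (nat_lit 4241976137) (nat_lit 988) (nat_lit 2523512253) (nat_lit 397) (nat_lit 5) (nat_lit 409) (nat_lit 5) (nat_lit 410) (nat_lit 5) (nat_lit 577) (nat_lit 540) (nat_lit 443)) (XT.nd (nat_lit 78) (nat_lit 912) (nat_lit 0) (XT.lf (nat_lit 0) (nat_lit 8450908179) (nat_lit 912) (nat_lit 540512664) (nat_lit 988) (nat_lit 644403919) (nat_lit 397) (nat_lit 5) (nat_lit 409) (nat_lit 5) (nat_lit 410) (nat_lit 5) (nat_lit 578) (nat_lit 540) (nat_lit 442)) (XT.lf (nat_lit 0) (nat_lit 1282676069) (nat_lit 912) (nat_lit 5214769686) (nat_lit 76) (nat_lit 3230764580) (nat_lit 385) (nat_lit 5) (nat_lit 397) (nat_lit 5) (nat_lit 386) (nat_lit 5) (nat_lit 579) (nat_lit 540) (nat_lit 441))))) (XT.nd (nat_lit 156) (nat_lit 1672) (nat_lit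 0) (XT.nd (nat_lit 78) (nat_lit 0) (nat_lit 0) (XT.lf (nat_lit 0) (nat_lit 494446350) (nat_lit 836) (nat_lit 2736713598) (nat_lit 912) (nat_lit 6591372116) (nat_lit 374) (nat_lit 5) (nat_lit 385) (nat_lit 5) (nat_lit 386) (nat_lit 5) (nat_lit 580) (nat_lit 540) (nat_lit 440)) (XT.lf (nat_lit 0) (nat_lit 5237965922) (nat_lit 912) (nat_lit 3560860034) (nat_lit 76) (nat_lit 1119530609) (nat_lit 374) (nat_lit 5) (nat_lit 386) (nat_lit 5) (nat_lit 375) (nat_lit 5) (nat_lit 581) (nat_lit 540) (nat_lit 439))) (XT.nd (nat_lit 78) (nat_lit 912) (nat_lit 0) (XT.lf (nat_lit 0) (nat_lit 2310372207) (nat_lit 760) (nat_lit 4985101254) (nat_lit 836) (nat_lit 2720416105) (nat_lit 364) (nat_lit 5) (nat_lit 374) (nat_lit 5) (nat_lit 375) (nat_lit 5) (nat_lit 582) (nat_lit 540) (nat_lit 438)) (XT.nd (nat_lit 78) (nat_lit 912) (nat_lit 0) (XT.lf (nat_lit 0) (nat_lit 8323937224) (nat_lit 760) (nat_lit 1071820881) (nat_lit 836) (nat_lit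 719585837) (nat_lit 364) (nat_lit 5) (nat_lit 374) (nat_lit 5) (nat_lit 375) (nat_lit 5) (nat_lit 583) (nat_lit 540) (nat_lit 437)) (XT.lf (nat_lit 0) (nat_lit 1328834332) (nat_lit 912) (nat_lit 5970545416) (nat_lit 76) (nat_lit 2916741177) (nat_lit 352) (nat_lit 5) (nat_lit 364) (nat_lit 5) (nat_lit 353) (nat_lit 5) (nat_lit 584) (nat_lit 540) (nat_lit 436))))))))
noncomputable def xc121 : XT := (XT.nd (nat_lit 1482) (nat_lit 6232) (nat_lit 0) (XT.nd (nat_lit 702) (nat_lit 3952) (nat_lit 0) (XT.nd (nat_lit 312) (nat_lit 2204) (nat_lit 0) (XT.nd (nat_lit 156) (nat_lit 760) (nat_lit 0) (XT.nd (nat_lit 78) (nat_lit 0) (nat_lit 0) (XT.lf (nat_lit 0) (nat_lit 74467664) (nat_lit 760) (nat_lit 3332104747) (nat_lit 836) (nat_lit 6912289279) (nat_lit 342) (nat_lit 5) (nat_lit 352) (nat_lit 5) (nat_lit 353) (nat_lit 5) (nat_lit 585) (nat_lit 540) (nat_lit 435)) (XT.lf (nat_lit 0) (nat_lit 5549390392) (nat_lit 836) (nat_lit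 4130185178) (nat_lit 76) (nat_lit 743614204) (nat_lit 342) (nat_lit 5) (nat_lit 353) (nat_lit 5) (nat_lit 343) (nat_lit 5) (nat_lit 586) (nat_lit 540) (nat_lit 434))) (XT.nd (nat_lit 78) (nat_lit 0) (nat_lit 0) (XT.lf (nat_lit 0) (nat_lit 2088357471) (nat_lit 760) (nat_lit 5661308860) (nat_lit 836) (nat_lit 2779649004) (nat_lit 332) (nat_lit 5) (nat_lit 342) (nat_lit 5) (nat_lit 343) (nat_lit 5) (nat_lit 587) (nat_lit 540) (nat_lit 433)) (XT.lf (nat_lit 0) (nat_lit 8464137190) (nat_lit 760) (nat_lit 1536764128) (nat_lit 836) (nat_lit 636525908) (nat_lit 332) (nat_lit 5) (nat_lit 342) (nat_lit 5) (nat_lit 343) (nat_lit 5) (nat_lit 588) (nat_lit 540) (nat_lit 432)))) (XT.nd (nat_lit 156) (nat_lit 1444) (nat_lit 0) (XT.nd (nat_lit 78) (nat_lit 0) (nat_lit 0) (XT.lf (nat_lit 0) (nat_lit 1553760110) (nat_lit 760) (nat_lit 6522563068) (nat_lit 76) (nat_lit 2670687313) (nat_lit 322) (nat_lit 5) (nat_lit 332) (nat_lit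 5) (nat_lit 323) (nat_lit 5) (nat_lit 589) (nat_lit 540) (nat_lit 431)) (XT.lf (nat_lit 0) (nat_lit 3783939081) (nat_lit 760) (nat_lit 116565147) (nat_lit 76) (nat_lit 6958107561) (nat_lit 322) (nat_lit 5) (nat_lit 332) (nat_lit 5) (nat_lit 323) (nat_lit 5) (nat_lit 590) (nat_lit 540) (nat_lit 430))) (XT.nd (nat_lit 78) (nat_lit 684) (nat_lit 0) (XT.lf (nat_lit 0) (nat_lit 6083524379) (nat_lit 836) (nat_lit 4494783473) (nat_lit 76) (nat_lit 393643876) (nat_lit 312) (nat_lit 5) (nat_lit 323) (nat_lit 5) (nat_lit 313) (nat_lit 5) (nat_lit 591) (nat_lit 540) (nat_lit 429)) (XT.nd (nat_lit 78) (nat_lit 0) (nat_lit 0) (XT.lf (nat_lit 0) (nat_lit 2095507230) (nat_lit 684) (nat_lit 6354183446) (nat_lit 760) (nat_lit 2637458621) (nat_lit 303) (nat_lit 5) (nat_lit 312) (nat_lit 5) (nat_lit 313) (nat_lit 5) (nat_lit 592) (nat_lit 540) (nat_lit 428)) (XT.lf (nat_lit 0) (nat_lit 8855729761) (nat_lit 684) (nat_lit 2018215172)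 (nat_lit 760) (nat_lit 330493157) (nat_lit 303) (nat_lit 5) (nat_lit 312) (nat_lit 5) (nat_lit 313) (nat_lit 5) (nat_lit 593) (nat_lit 540) (nat_lit 427)))))) (XT.nd (nat_lit 390) (nat_lit 1824) (nat_lit 0) (XT.nd (nat_lit 156) (nat_lit 1368) (nat_lit 0) (XT.nd (nat_lit 78) (nat_lit 0) (nat_lit 0) (XT.lf (nat_lit 0) (nat_lit 2021696511) (nat_lit 760) (nat_lit 6889786034) (nat_lit 76) (nat_lit 2411817701) (nat_lit 293) (nat_lit 5) (nat_lit 303) (nat_lit 5) (nat_lit 294) (nat_lit 5) (nat_lit 594) (nat_lit 540) (nat_lit 426)) (XT.lf (nat_lit 0) (nat_lit 4426800646) (nat_lit 760) (nat_lit 99485315) (nat_lit 76) (nat_lit 6918006492) (nat_lit 293) (nat_lit 5) (nat_lit 303) (nat_lit 5) (nat_lit 294) (nat_lit 5) (nat_lit 595) (nat_lit 540) (nat_lit 425))) (XT.nd (nat_lit 78) (nat_lit 760) (nat_lit 0) (XT.lf (nat_lit 0) (nat_lit 6894673040) (nat_lit 608) (nat_lit 11530701) (nat_lit 684) (nat_lit 4660979195) (nat_lit 285)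 (nat_lit 5) (nat_lit 293) (nat_lit 5) (nat_lit 294) (nat_lit 5) (nat_lit 596) (nat_lit 540) (nat_lit 424)) (XT.nd (nat_lit 78) (nat_lit 76) (nat_lit 0) (XT.lf (nat_lit 0) (nat_lit 2315514860) (nat_lit 684) (nat_lit 7146836773) (nat_lit 760) (nat_lit 2229638786) (nat_lit 276) (nat_lit 5) (nat_lit 285) (nat_lit 5) (nat_lit 286) (nat_lit 5) (nat_lit 597) (nat_lit 540) (nat_lit 423)) (XT.lf (nat_lit 0) (nat_lit 260403200) (nat_lit 760) (nat_lit 2336605909) (nat_lit 76) (nat_lit 9221987511) (nat_lit 275) (nat_lit 5) (nat_lit 285) (nat_lit 5) (nat_lit 276) (nat_lit 5) (nat_lit 598) (nat_lit 540) (nat_lit 422))))) (XT.nd (nat_lit 156) (nat_lit 608) (nat_lit 0) (XT.nd (nat_lit 78) (nat_lit 608) (nat_lit 0) (XT.lf (nat_lit 0) (nat_lit 2797670978) (nat_lit 684) (nat_lit 7090568512) (nat_lit 76) (nat_lit 2059465293) (nat_lit 267) (nat_lit 5) (nat_lit 276) (nat_lit 5) (nat_lit 268) (nat_lit 5) (nat_lit 599) (nat_lit 540) (nat_lit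 421)) (XT.lf (nat_lit 0) (nat_lit 109482059) (nat_lit 608) (nat_lit 5292152400) (nat_lit 684) (nat_lit 6677035788) (nat_lit 259) (nat_lit 5) (nat_lit 267) (nat_lit 5) (nat_lit 268) (nat_lit 5) (nat_lit 600) (nat_lit 540) (nat_lit 420))) (XT.nd (nat_lit 78) (nat_lit 608) (nat_lit 0) (XT.lf (nat_lit 0) (nat_lit 7527391226) (nat_lit 608) (nat_lit 560327911) (nat_lit 684) (nat_lit 4123937150) (nat_lit 259) (nat_lit 5) (nat_lit 267) (nat_lit 5) (nat_lit 268) (nat_lit 5) (nat_lit 601) (nat_lit 540) (nat_lit 419)) (XT.nd (nat_lit 78) (nat_lit 76) (nat_lit 0) (XT.lf (nat_lit 0) (nat_lit 2732356838) (nat_lit 532) (nat_lit 8123381873) (nat_lit 608) (nat_lit 1491001136) (nat_lit 252) (nat_lit 5) (nat_lit 259) (nat_lit 5) (nat_lit 260) (nat_lit 5) (nat_lit 602) (nat_lit 540) (nat_lit 418)) (XT.lf (nat_lit 0) (nat_lit 1197133684) (nat_lit 608) (nat_lit 2156984504) (nat_lit 76) (nat_lit 9129889605) (nat_lit 251) (nat_lit 5)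 (nat_lit 259) (nat_lit 5) (nat_lit 252) (nat_lit 5) (nat_lit 603) (nat_lit 540) (nat_lit 417))))))) (XT.nd (nat_lit 702) (nat_lit 2888) (nat_lit 0) (XT.nd (nat_lit 312) (nat_lit 1672) (nat_lit 0) (XT.nd (nat_lit 156) (nat_lit 532) (nat_lit 0) (XT.nd (nat_lit 78) (nat_lit 532) (nat_lit 0) (XT.lf (nat_lit 0) (nat_lit 3947996709) (nat_lit 684) (nat_lit 7143621478) (nat_lit 76) (nat_lit 1531629144) (nat_lit 243) (nat_lit 5) (nat_lit 252) (nat_lit 5) (nat_lit 244) (nat_lit 5) (nat_lit 604) (nat_lit 540) (nat_lit 416)) (XT.lf (nat_lit 0) (nat_lit 495471008) (nat_lit 532) (nat_lit 6281753198) (nat_lit 608) (nat_lit 5987582415) (nat_lit 236) (nat_lit 5) (nat_lit 243) (nat_lit 5) (nat_lit 244) (nat_lit 5) (nat_lit 605) (nat_lit 540) (nat_lit 415))) (XT.nd (nat_lit 78) (nat_lit 532) (nat_lit 0) (XT.lf (nat_lit 0) (nat_lit 8362380015) (nat_lit 532) (nat_lit 1332125915) (nat_lit 608) (nat_lit 3214063643) (nat_lit 236) (nat_lit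 5) (nat_lit 243) (nat_lit 5) (nat_lit 244) (nat_lit 5) (nat_lit 606) (nat_lit 540) (nat_lit 414)) (XT.lf (nat_lit 0) (nat_lit 3329291366) (nat_lit 532) (nat_lit 9370409012) (nat_lit 608) (nat_lit 354917897) (nat_lit 229) (nat_lit 5) (nat_lit 236) (nat_lit 5) (nat_lit 237) (nat_lit 5) (nat_lit 607) (nat_lit 540) (nat_lit 413)))) (XT.nd (nat_lit 156) (nat_lit 1064) (nat_lit 0) (XT.nd (nat_lit 78) (nat_lit 532) (nat_lit 0) (XT.lf (nat_lit 0) (nat_lit 2551239732) (nat_lit 608) (nat_lit 1826461228) (nat_lit 76) (nat_lit 8825087698) (nat_lit 228) (nat_lit 5) (nat_lit 236) (nat_lit 5) (nat_lit 229) (nat_lit 5) (nat_lit 608) (nat_lit 540) (nat_lit 412)) (XT.lf (nat_lit 0) (nat_lit 5540704640) (nat_lit 608) (nat_lit 7069061997) (nat_lit 76) (nat_lit 743511889) (nat_lit 221) (nat_lit 5) (nat_lit 229) (nat_lit 5) (nat_lit 222) (nat_lit 5) (nat_lit 609) (nat_lit 540) (nat_lit 411))) (XT.nd (nat_lit 78) (nat_lit 532) (nat_lit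 0) (XT.lf (nat_lit 0) (nat_lit 1038432210) (nat_lit 532) (nat_lit 7583940921) (nat_lit 608) (nat_lit 4883758467) (nat_lit 214) (nat_lit 5) (nat_lit 221) (nat_lit 5) (nat_lit 222) (nat_lit 5) (nat_lit 610) (nat_lit 540) (nat_lit 410)) (XT.nd (nat_lit 78) (nat_lit 532) (nat_lit 0) (XT.lf (nat_lit 0) (nat_lit 9382593005) (nat_lit 532) (nat_lit 2415030791) (nat_lit 608) (nat_lit 1863780618) (nat_lit 214) (nat_lit 5) (nat_lit 221) (nat_lit 5) (nat_lit 222) (nat_lit 5) (nat_lit 611) (nat_lit 540) (nat_lit 409)) (XT.lf (nat_lit 0) (nat_lit 1230707093) (nat_lit 532) (nat_lit 9739525684) (nat_lit 76) (nat_lit 2848792203) (nat_lit 207) (nat_lit 5) (nat_lit 214) (nat_lit 5) (nat_lit 208) (nat_lit 5) (nat_lit 612) (nat_lit 540) (nat_lit 408)))))) (XT.nd (nat_lit 390) (nat_lit 1368) (nat_lit 0) (XT.nd (nat_lit 156) (nat_lit 988) (nat_lit 0) (XT.nd (nat_lit 78) (nat_lit 532) (nat_lit 0) (XT.lf (nat_lit 0) (nat_lit 4391887710)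 (nat_lit 532) (nat_lit 1365994379) (nat_lit 76) (nat_lit 8221075857) (nat_lit 207) (nat_lit 5) (nat_lit 214) (nat_lit 5) (nat_lit 208) (nat_lit 5) (nat_lit 613) (nat_lit 540) (nat_lit 407)) (XT.lf (nat_lit 0) (nat_lit 7249278573) (nat_lit 532) (nat_lit 399216798) (nat_lit 608) (nat_lit 6492951665) (nat_lit 200) (nat_lit 5) (nat_lit 207) (nat_lit 5) (nat_lit 208) (nat_lit 5) (nat_lit 614) (nat_lit 540) (nat_lit 406))) (XT.nd (nat_lit 78) (nat_lit 532) (nat_lit 0) (XT.lf (nat_lit 0) (nat_lit 1717008493) (nat_lit 456) (nat_lit 9291752625) (nat_lit 532) (nat_lit 3297655773) (nat_lit 194) (nat_lit 5) (nat_lit 200) (nat_lit 5) (nat_lit 201) (nat_lit 5) (nat_lit 615) (nat_lit 540) (nat_lit 405)) (XT.nd (nat_lit 78) (nat_lit 532) (nat_lit 0) (XT.lf (nat_lit 0) (nat_lit 10568328227) (nat_lit 456) (nat_lit 3902189476) (nat_lit 532) (nat_lit 3484205) (nat_lit 194) (nat_lit 5) (nat_lit 200) (nat_lit 5) (nat_lit 201) (nat_lit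 5) (nat_lit 616) (nat_lit 540) (nat_lit 404)) (XT.lf (nat_lit 0) (nat_lit 3341121232) (nat_lit 532) (nat_lit 9680207835) (nat_lit 76) (nat_lit 1622603662) (nat_lit 187) (nat_lit 5) (nat_lit 194) (nat_lit 5) (nat_lit 188) (nat_lit 5) (nat_lit 617) (nat_lit 540) (nat_lit 403))))) (XT.nd (nat_lit 156) (nat_lit 912) (nat_lit 0) (XT.nd (nat_lit 78) (nat_lit 456) (nat_lit 0) (XT.lf (nat_lit 0) (nat_lit 6790505658) (nat_lit 532) (nat_lit 800006156) (nat_lit 76) (nat_lit 7225992611) (nat_lit 187) (nat_lit 5) (nat_lit 194) (nat_lit 5) (nat_lit 188) (nat_lit 5) (nat_lit 618) (nat_lit 540) (nat_lit 402)) (XT.lf (nat_lit 0) (nat_lit 8346994350) (nat_lit 456) (nat_lit 2002066350) (nat_lit 532) (nat_lit 4642664557) (nat_lit 181) (nat_lit 5) (nat_lit 187) (nat_lit 5) (nat_lit 188) (nat_lit 5) (nat_lit 619) (nat_lit 540) (nat_lit 401))) (XT.nd (nat_lit 78) (nat_lit 456) (nat_lit 0) (XT.lf (nat_lit 0) (nat_lit 2505872547) (nat_lit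 456) (nat_lit 11504690822) (nat_lit 532) (nat_lit 1159252942) (nat_lit 175) (nat_lit 5) (nat_lit 181) (nat_lit 5) (nat_lit 182) (nat_lit 5) (nat_lit 620) (nat_lit 540) (nat_lit 400)) (XT.nd (nat_lit 78) (nat_lit 380) (nat_lit 0) (XT.lf (nat_lit 0) (nat_lit 2406715764) (nat_lit 532) (nat_lit 3470548006) (nat_lit 76) (nat_lit 9473010165) (nat_lit 174) (nat_lit 5) (nat_lit 181) (nat_lit 5) (nat_lit 175) (nat_lit 5) (nat_lit 621) (nat_lit 540) (nat_lit 399)) (XT.lf (nat_lit 0) (nat_lit 5957134606) (nat_lit 380) (nat_lit 96451448) (nat_lit 456) (nat_lit 9480100571) (nat_lit 169) (nat_lit 5) (nat_lit 174) (nat_lit 5) (nat_lit 175) (nat_lit 5) (nat_lit 622) (nat_lit 540) (nat_lit 398))))))))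
noncomputable def xc122 : XT := (XT.nd (nat_lit 75426) (nat_lit 0) (nat_lit 28272) (XT.nd (nat_lit 702) (nat_lit 760) (nat_lit 0) (XT.nd (nat_lit 312) (nat_lit 1216) (nat_lit 0) (XT.nd (nat_lit 156) (nat_lit 456) (nat_lit 0) (XT.nd (nat_lit 78) (nat_lit 456) (nat_lit 0) (XT.lf (nat_lit 0) (nat_lit 9821002243) (nat_lit 456) (nat_lit 157827598) (nat_lit 76) (nat_lit 5740986791) (nat_lit 169) (nat_lit 5) (nat_lit 175) (nat_lit 5) (nat_lit 170) (nat_lit 5) (nat_lit 623) (nat_lit 540) (nat_lit 397)) (XT.lf (nat_lit 0) (nat_lit 9554203000) (nat_lit 456) (nat_lit 4159007041) (nat_lit 532) (nat_lit 2195471540) (nat_lit 163) (nat_lit 5) (nat_lit 169) (nat_lit 5) (nat_lit 170) (nat_lit 5) (nat_lit 624) (nat_lit 540) (nat_lit 396))) (XT.nd (nat_lit 78) (nat_lit 0) (nat_lit 0) (XT.lf (nat_lit 0) (nat_lit 1582705731) (nat_lit 456) (nat_lit 12737117471) (nat_lit 76) (nat_lit 1780866071) (nat_lit 157) (nat_lit 5) (nat_lit 163)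 (nat_lit 5) (nat_lit 158) (nat_lit 5) (nat_lit 625) (nat_lit 540) (nat_lit 395)) (XT.lf (nat_lit 0) (nat_lit 5464448615) (nat_lit 456) (nat_lit 2995799884) (nat_lit 76) (nat_lit 7834851529) (nat_lit 157) (nat_lit 5) (nat_lit 163) (nat_lit 5) (nat_lit 158) (nat_lit 5) (nat_lit 626) (nat_lit 540) (nat_lit 394)))) (XT.nd (nat_lit 156) (nat_lit 456) (nat_lit 0) (XT.nd (nat_lit 78) (nat_lit 380) (nat_lit 0) (XT.lf (nat_lit 0) (nat_lit 7012837907) (nat_lit 380) (nat_lit 2443681783) (nat_lit 456) (nat_lit 7036226557) (nat_lit 152) (nat_lit 5) (nat_lit 157) (nat_lit 5) (nat_lit 158) (nat_lit 5) (nat_lit 627) (nat_lit 540) (nat_lit 393)) (XT.lf (nat_lit 0) (nat_lit 531609344) (nat_lit 380) (nat_lit 13031734058) (nat_lit 456) (nat_lit 3130304860) (nat_lit 147) (nat_lit 5) (nat_lit 152) (nat_lit 5) (nat_lit 153) (nat_lit 5) (nat_lit 628) (nat_lit 540) (nat_lit 392))) (XT.nd (nat_lit 78) (nat_lit 380) (nat_lit 0) (XT.lf (nat_lit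 0) (nat_lit 910041691) (nat_lit 456) (nat_lit 6067189789) (nat_lit 76) (nat_lit 9919876964) (nat_lit 146) (nat_lit 5) (nat_lit 152) (nat_lit 5) (nat_lit 147) (nat_lit 5) (nat_lit 629) (nat_lit 540) (nat_lit 391)) (XT.nd (nat_lit 78) (nat_lit 0) (nat_lit 0) (XT.lf (nat_lit 0) (nat_lit 4245281714) (nat_lit 380) (nat_lit 759133906) (nat_lit 456) (nat_lit 12099506710) (nat_lit 141) (nat_lit 5) (nat_lit 146) (nat_lit 5) (nat_lit 147) (nat_lit 5) (nat_lit 630) (nat_lit 540) (nat_lit 390)) (XT.lf (nat_lit 0) (nat_lit 9245520871) (nat_lit 456) (nat_lit 2523632907) (nat_lit 76) (nat_lit 5544422850) (nat_lit 141) (nat_lit 5) (nat_lit 147) (nat_lit 5) (nat_lit 142) (nat_lit 5) (nat_lit 631) (nat_lit 540) (nat_lit 389)))))) (XT.nd (nat_lit 74334) (nat_lit 0) (nat_lit 35264) (XT.nd (nat_lit 74100) (nat_lit 0) (nat_lit 36480) (XT.nd (nat_lit 78) (nat_lit 456) (nat_lit 0) (XT.lf (nat_lit 0) (nat_lit 8100364319) (nat_lit 304)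 (nat_lit 5516556695) (nat_lit 380) (nat_lit 3909594535) (nat_lit 137) (nat_lit 5) (nat_lit 141) (nat_lit 5) (nat_lit 142) (nat_lit 5) (nat_lit 632) (nat_lit 540) (nat_lit 388)) (XT.lf (nat_lit 0) (nat_lit 346279471) (nat_lit 456) (nat_lit 16526657566) (nat_lit 76) (nat_lit 870362083) (nat_lit 131) (nat_lit 5) (nat_lit 137) (nat_lit 5) (nat_lit 132) (nat_lit 5) (nat_lit 633) (nat_lit 540) (nat_lit 387))) (XT.nd (nat_lit 78) (nat_lit 1216) (nat_lit 0) (XT.lf (nat_lit 0) (nat_lit 1132866644) (nat_lit 0) (nat_lit 1132866644) (nat_lit 1140) (nat_lit 1375940210) (nat_lit 627) (nat_lit 5) (nat_lit 627) (nat_lit 3) (nat_lit 642) (nat_lit 3) (nat_lit 541) (nat_lit 541) (nat_lit 478)) (XT.nd (nat_lit 78) (nat_lit 1216) (nat_lit 0) (XT.lf (nat_lit 0) (nat_lit 5896459392) (nat_lit 0) (nat_lit 261869183) (nat_lit 1140) (nat_lit 1165906301) (nat_lit 627) (nat_lit 5) (nat_lit 627) (nat_lit 3) (nat_lit 642) (nat_lit 3) (nat_lit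 542) (nat_lit 541) (nat_lit 477)) (XT.lf (nat_lit 0) (nat_lit 430450518) (nat_lit 1216) (nat_lit 5139268034) (nat_lit 1292) (nat_lit 1796479618) (nat_lit 611) (nat_lit 5) (nat_lit 627) (nat_lit 5) (nat_lit 628) (nat_lit 5) (nat_lit 543) (nat_lit 541) (nat_lit 476))))) (XT.nd (nat_lit 156) (nat_lit 1216) (nat_lit 0) (XT.nd (nat_lit 78) (nat_lit 0) (nat_lit 0) (XT.lf (nat_lit 0) (nat_lit 2013559847) (nat_lit 1216) (nat_lit 1466368538) (nat_lit 1292) (nat_lit 3929517406) (nat_lit 611) (nat_lit 5) (nat_lit 627) (nat_lit 5) (nat_lit 628) (nat_lit 5) (nat_lit 544) (nat_lit 541) (nat_lit 475)) (XT.lf (nat_lit 76) (nat_lit 2288310096) (nat_lit 0) (nat_lit 1314725018) (nat_lit 1292) (nat_lit 3851036953) (nat_lit 612) (nat_lit 5) (nat_lit 611) (nat_lit 5) (nat_lit 628) (nat_lit 5) (nat_lit 545) (nat_lit 541) (nat_lit 474))) (XT.nd (nat_lit 78) (nat_lit 1292) (nat_lit 0) (XT.lf (nat_lit 0) (nat_lit 5200618730) (nat_lit 1216)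 (nat_lit 1389765038) (nat_lit 1292) (nat_lit 909688349) (nat_lit 612) (nat_lit 5) (nat_lit 628) (nat_lit 5) (nat_lit 629) (nat_lit 5) (nat_lit 546) (nat_lit 541) (nat_lit 473)) (XT.nd (nat_lit 78) (nat_lit 1292) (nat_lit 0) (XT.lf (nat_lit 76) (nat_lit 2463330409) (nat_lit 0) (nat_lit 4352906856) (nat_lit 1292) (nat_lit 731040713) (nat_lit 613) (nat_lit 5) (nat_lit 612) (nat_lit 5) (nat_lit 629) (nat_lit 5) (nat_lit 547) (nat_lit 541) (nat_lit 472)) (XT.lf (nat_lit 0) (nat_lit 828473492) (nat_lit 1292) (nat_lit 1211009668) (nat_lit 1368) (nat_lit 5556416633) (nat_lit 595) (nat_lit 5) (nat_lit 612) (nat_lit 5) (nat_lit 613) (nat_lit 5) (nat_lit 548) (nat_lit 541) (nat_lit 471))))))) (XT.nd (nat_lit 702) (nat_lit 5776) (nat_lit 0) (XT.nd (nat_lit 312) (nat_lit 1292) (nat_lit 0) (XT.nd (nat_lit 156) (nat_lit 0) (nat_lit 0) (XT.nd (nat_lit 78) (nat_lit 0) (nat_lit 0) (XT.lf (nat_lit 0) (nat_lit 2392064120) (nat_lit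 1292) (nat_lit 4899486598) (nat_lit 1368) (nat_lit 354200232) (nat_lit 596) (nat_lit 5) (nat_lit 613) (nat_lit 5) (nat_lit 614) (nat_lit 5) (nat_lit 549) (nat_lit 541) (nat_lit 470)) (XT.lf (nat_lit 0) (nat_lit 3971794753) (nat_lit 1292) (nat_lit 933549783) (nat_lit 1368) (nat_lit 2791564135) (nat_lit 596) (nat_lit 5) (nat_lit 613) (nat_lit 5) (nat_lit 614) (nat_lit 5) (nat_lit 550) (nat_lit 541) (nat_lit 469))) (XT.nd (nat_lit 78) (nat_lit 0) (nat_lit 76) (XT.lf (nat_lit 76) (nat_lit 3130555464) (nat_lit 0) (nat_lit 2436793464) (nat_lit 1368) (nat_lit 2182062812) (nat_lit 597) (nat_lit 5) (nat_lit 596) (nat_lit 5) (nat_lit 614) (nat_lit 5) (nat_lit 551) (nat_lit 541) (nat_lit 468)) (XT.lf (nat_lit 0) (nat_lit 7166202306) (nat_lit 1292) (nat_lit 537677210) (nat_lit 1368) (nat_lit 99664229) (nat_lit 597) (nat_lit 5) (nat_lit 614) (nat_lit 5) (nat_lit 615) (nat_lit 5) (nat_lit 552) (nat_lit 541) (nat_lit 467))))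 (XT.nd (nat_lit 156) (nat_lit 0) (nat_lit 76) (XT.nd (nat_lit 78) (nat_lit 0) (nat_lit 0) (XT.lf (nat_lit 0) (nat_lit 930979138) (nat_lit 1368) (nat_lit 4230557099) (nat_lit 1444) (nat_lit 2697006486) (nat_lit 579) (nat_lit 5) (nat_lit 597) (nat_lit 5) (nat_lit 598) (nat_lit 5) (nat_lit 553) (nat_lit 541) (nat_lit 466)) (XT.lf (nat_lit 0) (nat_lit 2491326268) (nat_lit 1368) (nat_lit 57299044) (nat_lit 1444) (nat_lit 5366554484) (nat_lit 579) (nat_lit 5) (nat_lit 597) (nat_lit 5) (nat_lit 598) (nat_lit 5) (nat_lit 554) (nat_lit 541) (nat_lit 465))) (XT.nd (nat_lit 78) (nat_lit 0) (nat_lit 0) (XT.lf (nat_lit 0) (nat_lit 4077604292) (nat_lit 1368) (nat_lit 3741447769) (nat_lit 1444) (nat_lit 154009204) (nat_lit 580) (nat_lit 5) (nat_lit 598) (nat_lit 5) (nat_lit 599) (nat_lit 5) (nat_lit 555) (nat_lit 541) (nat_lit 464)) (XT.nd (nat_lit 78) (nat_lit 0) (nat_lit 0) (XT.lf (nat_lit 76) (nat_lit 542334615) (nat_lit 0)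 (nat_lit 5140879937) (nat_lit 1444) (nat_lit 2349139689) (nat_lit 581) (nat_lit 5) (nat_lit 580) (nat_lit 5) (nat_lit 599) (nat_lit 5) (nat_lit 556) (nat_lit 541) (nat_lit 463)) (XT.lf (nat_lit 76) (nat_lit 4939773859) (nat_lit 0) (nat_lit 2373593330) (nat_lit 1444) (nat_lit 779623179) (nat_lit 581) (nat_lit 5) (nat_lit 580) (nat_lit 5) (nat_lit 599) (nat_lit 5) (nat_lit 557) (nat_lit 541) (nat_lit 462)))))) (XT.nd (nat_lit 390) (nat_lit 4484) (nat_lit 0) (XT.nd (nat_lit 156) (nat_lit 0) (nat_lit 0) (XT.nd (nat_lit 78) (nat_lit 0) (nat_lit 0) (XT.lf (nat_lit 0) (nat_lit 789497910) (nat_lit 1444) (nat_lit 6899510828) (nat_lit 1520) (nat_lit 466149787) (nat_lit 562) (nat_lit 5) (nat_lit 581) (nat_lit 5) (nat_lit 582) (nat_lit 5) (nat_lit 558) (nat_lit 541) (nat_lit 461)) (XT.lf (nat_lit 0) (nat_lit 2384882568) (nat_lit 1444) (nat_lit 2467012073) (nat_lit 1520) (nat_lit 3366471487) (nat_lit 562) (nat_lit 5) (nat_lit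 581) (nat_lit 5) (nat_lit 582) (nat_lit 5) (nat_lit 559) (nat_lit 541) (nat_lit 460))) (XT.nd (nat_lit 78) (nat_lit 0) (nat_lit 76) (XT.lf (nat_lit 76) (nat_lit 2058313446) (nat_lit 0) (nat_lit 1936138653) (nat_lit 1520) (nat_lit 4288745684) (nat_lit 563) (nat_lit 5) (nat_lit 562) (nat_lit 5) (nat_lit 582) (nat_lit 5) (nat_lit 560) (nat_lit 541) (nat_lit 459)) (XT.nd (nat_lit 78) (nat_lit 0) (nat_lit 0) (XT.lf (nat_lit 0) (nat_lit 5629043820) (nat_lit 1444) (nat_lit 1671594806) (nat_lit 1520) (nat_lit 1048836169) (nat_lit 563) (nat_lit 5) (nat_lit 582) (nat_lit 5) (nat_lit 583) (nat_lit 5) (nat_lit 561) (nat_lit 541) (nat_lit 458)) (XT.lf (nat_lit 76) (nat_lit 2976090241) (nat_lit 0) (nat_lit 4322408728) (nat_lit 1520) (nat_lit 1118540179) (nat_lit 564) (nat_lit 5) (nat_lit 563) (nat_lit 5) (nat_lit 583) (nat_lit 5) (nat_lit 562) (nat_lit 541) (nat_lit 457))))) (XT.nd (nat_lit 156) (nat_lit 3040) (nat_lit 0) (XT.nd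 (nat_lit 78) (nat_lit 0) (nat_lit 76) (XT.lf (nat_lit 0) (nat_lit 490186809) (nat_lit 1520) (nat_lit 772892848) (nat_lit 1596) (nat_lit 7223182082) (nat_lit 543) (nat_lit 5) (nat_lit 563) (nat_lit 5) (nat_lit 564) (nat_lit 5) (nat_lit 563) (nat_lit 541) (nat_lit 456)) (XT.lf (nat_lit 0) (nat_lit 2125339959) (nat_lit 1520) (nat_lit 4558064873) (nat_lit 76) (nat_lit 1873136433) (nat_lit 544) (nat_lit 5) (nat_lit 564) (nat_lit 5) (nat_lit 545) (nat_lit 5) (nat_lit 564) (nat_lit 541) (nat_lit 455))) (XT.nd (nat_lit 78) (nat_lit 1596) (nat_lit 0) (XT.lf (nat_lit 0) (nat_lit 218952978) (nat_lit 1520) (nat_lit 3560565216) (nat_lit 1596) (nat_lit 4848986582) (nat_lit 524) (nat_lit 5) (nat_lit 544) (nat_lit 5) (nat_lit 545) (nat_lit 5) (nat_lit 565) (nat_lit 541) (nat_lit 454)) (XT.nd (nat_lit 78) (nat_lit 1596) (nat_lit 0) (XT.lf (nat_lit 0) (nat_lit 5130302587) (nat_lit 1520) (nat_lit 338792386) (nat_lit 1596) (nat_lit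 3232771026) (nat_lit 524) (nat_lit 5) (nat_lit 544) (nat_lit 5) (nat_lit 545) (nat_lit 5) (nat_lit 566) (nat_lit 541) (nat_lit 453)) (XT.lf (nat_lit 0) (nat_lit 1338466294) (nat_lit 1596) (nat_lit 5854139694) (nat_lit 1672) (nat_lit 1584090252) (nat_lit 503) (nat_lit 5) (nat_lit 524) (nat_lit 5) (nat_lit 525) (nat_lit 5) (nat_lit 567) (nat_lit 541) (nat_lit 452))))))))
noncomputable def xc123 : XT := (XT.nd (nat_lit 1482) (nat_lit 7524) (nat_lit 0) (XT.nd (nat_lit 702) (nat_lit 5092) (nat_lit 0) (XT.nd (nat_lit 312) (nat_lit 3648) (nat_lit 0) (XT.nd (nat_lit 156) (nat_lit 1748) (nat_lit 0) (XT.nd (nat_lit 78) (nat_lit 1672) (nat_lit 0) (XT.lf (nat_lit 0) (nat_lit 95178298) (nat_lit 1672) (nat_lit 2483822986) (nat_lit 76) (nat_lit 6274035724) (nat_lit 502) (nat_lit 5) (nat_lit 524) (nat_lit 5) (nat_lit 503) (nat_lit 5) (nat_lit 568) (nat_lit 541) (nat_lit 451)) (XT.lf (nat_lit 0) (nat_lit 1781741481) (nat_lit 1748)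 (nat_lit 6366063689) (nat_lit 76) (nat_lit 782995980) (nat_lit 480) (nat_lit 5) (nat_lit 503) (nat_lit 5) (nat_lit 481) (nat_lit 5) (nat_lit 569) (nat_lit 541) (nat_lit 450))) (XT.nd (nat_lit 78) (nat_lit 1748) (nat_lit 0) (XT.lf (nat_lit 0) (nat_lit 3509361817) (nat_lit 1748) (nat_lit 1302344206) (nat_lit 76) (nat_lit 4198272327) (nat_lit 480) (nat_lit 5) (nat_lit 503) (nat_lit 5) (nat_lit 481) (nat_lit 5) (nat_lit 570) (nat_lit 541) (nat_lit 449)) (XT.lf (nat_lit 0) (nat_lit 3890830452) (nat_lit 1748) (nat_lit 1379954458) (nat_lit 1824) (nat_lit 3819973387) (nat_lit 457) (nat_lit 5) (nat_lit 480) (nat_lit 5) (nat_lit 481) (nat_lit 5) (nat_lit 571) (nat_lit 541) (nat_lit 448)))) (XT.nd (nat_lit 156) (nat_lit 1976) (nat_lit 0) (XT.nd (nat_lit 78) (nat_lit 1672) (nat_lit 0) (XT.lf (nat_lit 0) (nat_lit 7064371330) (nat_lit 1824) (nat_lit 4516062) (nat_lit 76) (nat_lit 2104331881) (nat_lit 457) (nat_lit 5) (nat_lit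 481) (nat_lit 5) (nat_lit 458) (nat_lit 5) (nat_lit 572) (nat_lit 541) (nat_lit 447)) (XT.lf (nat_lit 0) (nat_lit 5332827648) (nat_lit 1672) (nat_lit 3579637716) (nat_lit 1748) (nat_lit 344495433) (nat_lit 435) (nat_lit 5) (nat_lit 457) (nat_lit 5) (nat_lit 458) (nat_lit 5) (nat_lit 573) (nat_lit 541) (nat_lit 446))) (XT.nd (nat_lit 78) (nat_lit 912) (nat_lit 0) (XT.lf (nat_lit 0) (nat_lit 1420368680) (nat_lit 1064) (nat_lit 7921683751) (nat_lit 76) (nat_lit 453472) (nat_lit 421) (nat_lit 5) (nat_lit 435) (nat_lit 5) (nat_lit 422) (nat_lit 5) (nat_lit 574) (nat_lit 541) (nat_lit 445)) (XT.nd (nat_lit 78) (nat_lit 912) (nat_lit 0) (XT.lf (nat_lit 0) (nat_lit 3241538537) (nat_lit 1064) (nat_lit 2552848741) (nat_lit 76) (nat_lit 3634820479) (nat_lit 421) (nat_lit 5) (nat_lit 435) (nat_lit 5) (nat_lit 422) (nat_lit 5) (nat_lit 575) (nat_lit 541) (nat_lit 444)) (XT.lf (nat_lit 0) (nat_lit 2939045668) (nat_lit 912) (nat_lit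 2155053986) (nat_lit 988) (nat_lit 4423648373) (nat_lit 409) (nat_lit 5) (nat_lit 421) (nat_lit 5) (nat_lit 422) (nat_lit 5) (nat_lit 576) (nat_lit 541) (nat_lit 443)))))) (XT.nd (nat_lit 390) (nat_lit 2432) (nat_lit 0) (XT.nd (nat_lit 156) (nat_lit 1748) (nat_lit 0) (XT.nd (nat_lit 78) (nat_lit 912) (nat_lit 0) (XT.lf (nat_lit 0) (nat_lit 6987283889) (nat_lit 988) (nat_lit 1065756364) (nat_lit 76) (nat_lit 1554951079) (nat_lit 409) (nat_lit 5) (nat_lit 422) (nat_lit 5) (nat_lit 410) (nat_lit 5) (nat_lit 577) (nat_lit 541) (nat_lit 442)) (XT.lf (nat_lit 0) (nat_lit 4580506300) (nat_lit 912) (nat_lit 4358521367) (nat_lit 988) (nat_lit 760601509) (nat_lit 397) (nat_lit 5) (nat_lit 409) (nat_lit 5) (nat_lit 410) (nat_lit 5) (nat_lit 578) (nat_lit 541) (nat_lit 441))) (XT.nd (nat_lit 78) (nat_lit 836) (nat_lit 0) (XT.lf (nat_lit 0) (nat_lit 537905036) (nat_lit 836) (nat_lit 571423914) (nat_lit 912) (nat_lit 8683876066)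 (nat_lit 385) (nat_lit 5) (nat_lit 396) (nat_lit 5) (nat_lit 397) (nat_lit 5) (nat_lit 579) (nat_lit 541) (nat_lit 440)) (XT.nd (nat_lit 78) (nat_lit 836) (nat_lit 0) (XT.lf (nat_lit 0) (nat_lit 3039578620) (nat_lit 912) (nat_lit 3560351988) (nat_lit 76) (nat_lit 3287962498) (nat_lit 385) (nat_lit 5) (nat_lit 397) (nat_lit 5) (nat_lit 386) (nat_lit 5) (nat_lit 580) (nat_lit 541) (nat_lit 439)) (XT.lf (nat_lit 0) (nat_lit 2251477888) (nat_lit 836) (nat_lit 2752951838) (nat_lit 912) (nat_lit 4980128621) (nat_lit 374) (nat_lit 5) (nat_lit 385) (nat_lit 5) (nat_lit 386) (nat_lit 5) (nat_lit 581) (nat_lit 541) (nat_lit 438))))) (XT.nd (nat_lit 156) (nat_lit 1672) (nat_lit 0) (XT.nd (nat_lit 78) (nat_lit 760) (nat_lit 0) (XT.lf (nat_lit 0) (nat_lit 7018113986) (nat_lit 912) (nat_lit 1885687992) (nat_lit 76) (nat_lit 1179167447) (nat_lit 374) (nat_lit 5) (nat_lit 386) (nat_lit 5) (nat_lit 375) (nat_lit 5) (nat_lit 582)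 (nat_lit 541) (nat_lit 437)) (XT.lf (nat_lit 0) (nat_lit 4091479491) (nat_lit 760) (nat_lit 5003705545) (nat_lit 836) (nat_lit 1087704615) (nat_lit 364) (nat_lit 5) (nat_lit 374) (nat_lit 5) (nat_lit 375) (nat_lit 5) (nat_lit 583) (nat_lit 541) (nat_lit 436))) (XT.nd (nat_lit 78) (nat_lit 1596) (nat_lit 0) (XT.lf (nat_lit 0) (nat_lit 907994705) (nat_lit 836) (nat_lit 99661888) (nat_lit 76) (nat_lit 9277210337) (nat_lit 363) (nat_lit 5) (nat_lit 374) (nat_lit 5) (nat_lit 364) (nat_lit 5) (nat_lit 584) (nat_lit 541) (nat_lit 435)) (XT.nd (nat_lit 78) (nat_lit 760) (nat_lit 0) (XT.lf (nat_lit 0) (nat_lit 2967511675) (nat_lit 912) (nat_lit 4346675748) (nat_lit 76) (nat_lit 3073786183) (nat_lit 352) (nat_lit 5) (nat_lit 364) (nat_lit 5) (nat_lit 353) (nat_lit 5) (nat_lit 585) (nat_lit 541) (nat_lit 434)) (XT.lf (nat_lit 0) (nat_lit 1807768642) (nat_lit 760) (nat_lit 3258670127) (nat_lit 836) (nat_lit 5426742198) (nat_lit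 342) (nat_lit 5) (nat_lit 352) (nat_lit 5) (nat_lit 353) (nat_lit 5) (nat_lit 586) (nat_lit 541) (nat_lit 433))))))) (XT.nd (nat_lit 702) (nat_lit 3800) (nat_lit 0) (XT.nd (nat_lit 312) (nat_lit 2204) (nat_lit 0) (XT.nd (nat_lit 156) (nat_lit 760) (nat_lit 0) (XT.nd (nat_lit 78) (nat_lit 760) (nat_lit 0) (XT.lf (nat_lit 0) (nat_lit 7221794259) (nat_lit 836) (nat_lit 2484396615) (nat_lit 76) (nat_lit 894015492) (nat_lit 342) (nat_lit 5) (nat_lit 353) (nat_lit 5) (nat_lit 343) (nat_lit 5) (nat_lit 587) (nat_lit 541) (nat_lit 432)) (XT.lf (nat_lit 0) (nat_lit 3847145885) (nat_lit 760) (nat_lit 5599461871) (nat_lit 836) (nat_lit 1262240333) (nat_lit 332) (nat_lit 5) (nat_lit 342) (nat_lit 5) (nat_lit 343) (nat_lit 5) (nat_lit 588) (nat_lit 541) (nat_lit 431))) (XT.nd (nat_lit 78) (nat_lit 684) (nat_lit 0) (XT.lf (nat_lit 0) (nat_lit 881191483) (nat_lit 836) (nat_lit 508754309) (nat_lit 76) (nat_lit 9429669372) (nat_lit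 331) (nat_lit 5) (nat_lit 342) (nat_lit 5) (nat_lit 332) (nat_lit 5) (nat_lit 589) (nat_lit 541) (nat_lit 430)) (XT.lf (nat_lit 0) (nat_lit 3089145959) (nat_lit 760) (nat_lit 4931403843) (nat_lit 76) (nat_lit 2911112473) (nat_lit 322) (nat_lit 5) (nat_lit 332) (nat_lit 5) (nat_lit 323) (nat_lit 5) (nat_lit 590) (nat_lit 541) (nat_lit 429)))) (XT.nd (nat_lit 156) (nat_lit 1444) (nat_lit 0) (XT.nd (nat_lit 78) (nat_lit 0) (nat_lit 0) (XT.lf (nat_lit 0) (nat_lit 1589807579) (nat_lit 760) (nat_lit 3754946728) (nat_lit 836) (nat_lit 5701128741) (nat_lit 312) (nat_lit 5) (nat_lit 322) (nat_lit 5) (nat_lit 323) (nat_lit 5) (nat_lit 591) (nat_lit 541) (nat_lit 428)) (XT.lf (nat_lit 0) (nat_lit 7663406031) (nat_lit 836) (nat_lit 2880028168) (nat_lit 76) (nat_lit 618597979) (nat_lit 312) (nat_lit 5) (nat_lit 323) (nat_lit 5) (nat_lit 313) (nat_lit 5) (nat_lit 592) (nat_lit 541) (nat_lit 427))) (XT.nd (nat_lit 78) (nat_lit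 760) (nat_lit 0) (XT.lf (nat_lit 0) (nat_lit 3830853540) (nat_lit 684) (nat_lit 6228444649) (nat_lit 760) (nat_lit 1220591270) (nat_lit 303) (nat_lit 5) (nat_lit 312) (nat_lit 5) (nat_lit 313) (nat_lit 5) (nat_lit 593) (nat_lit 541) (nat_lit 426)) (XT.nd (nat_lit 78) (nat_lit 684) (nat_lit 0) (XT.lf (nat_lit 0) (nat_lit 1089222301) (nat_lit 760) (nat_lit 714182757) (nat_lit 76) (nat_lit 9596544334) (nat_lit 302) (nat_lit 5) (nat_lit 312) (nat_lit 5) (nat_lit 303) (nat_lit 5) (nat_lit 594) (nat_lit 541) (nat_lit 425)) (XT.lf (nat_lit 0) (nat_lit 3468695811) (nat_lit 760) (nat_lit 5332752366) (nat_lit 76) (nat_lit 2720007208) (nat_lit 293) (nat_lit 5) (nat_lit 303) (nat_lit 5) (nat_lit 294) (nat_lit 5) (nat_lit 595) (nat_lit 541) (nat_lit 424)))))) (XT.nd (nat_lit 390) (nat_lit 1824) (nat_lit 0) (XT.nd (nat_lit 156) (nat_lit 1368) (nat_lit 0) (XT.nd (nat_lit 78) (nat_lit 0) (nat_lit 0) (XT.lf (nat_lit 0) (nat_lit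 1580855624) (nat_lit 608) (nat_lit 4323730655) (nat_lit 684) (nat_lit 5740630992) (nat_lit 285) (nat_lit 5) (nat_lit 293) (nat_lit 5) (nat_lit 294) (nat_lit 5) (nat_lit 596) (nat_lit 541) (nat_lit 423)) (XT.lf (nat_lit 0) (nat_lit 8408785294) (nat_lit 684) (nat_lit 3089661888) (nat_lit 76) (nat_lit 272617677) (nat_lit 285) (nat_lit 5) (nat_lit 294) (nat_lit 5) (nat_lit 286) (nat_lit 5) (nat_lit 597) (nat_lit 541) (nat_lit 422))) (XT.nd (nat_lit 78) (nat_lit 684) (nat_lit 0) (XT.lf (nat_lit 0) (nat_lit 4027019226) (nat_lit 684) (nat_lit 6973169258) (nat_lit 760) (nat_lit 898500744) (nat_lit 276) (nat_lit 5) (nat_lit 285) (nat_lit 5) (nat_lit 286) (nat_lit 5) (nat_lit 598) (nat_lit 541) (nat_lit 421)) (XT.nd (nat_lit 78) (nat_lit 608) (nat_lit 0) (XT.lf (nat_lit 0) (nat_lit 1596677794) (nat_lit 760) (nat_lit 732943017) (nat_lit 76) (nat_lit 9698971779) (nat_lit 275) (nat_lit 5) (nat_lit 285) (nat_lit 5) (nat_lit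 276) (nat_lit 5) (nat_lit 599) (nat_lit 541) (nat_lit 420)) (XT.lf (nat_lit 0) (nat_lit 4171339682) (nat_lit 684) (nat_lit 5568474182) (nat_lit 76) (nat_lit 2420331264) (nat_lit 267) (nat_lit 5) (nat_lit 276) (nat_lit 5) (nat_lit 268) (nat_lit 5) (nat_lit 600) (nat_lit 541) (nat_lit 419))))) (XT.nd (nat_lit 156) (nat_lit 1216) (nat_lit 0) (XT.nd (nat_lit 78) (nat_lit 0) (nat_lit 0) (XT.lf (nat_lit 0) (nat_lit 1764630651) (nat_lit 608) (nat_lit 5047646332) (nat_lit 684) (nat_lit 5481758154) (nat_lit 259) (nat_lit 5) (nat_lit 267) (nat_lit 5) (nat_lit 268) (nat_lit 5) (nat_lit 601) (nat_lit 541) (nat_lit 418)) (XT.lf (nat_lit 0) (nat_lit 9298487042) (nat_lit 608) (nat_lit 228054944) (nat_lit 684) (nat_lit 2903652805) (nat_lit 259) (nat_lit 5) (nat_lit 267) (nat_lit 5) (nat_lit 268) (nat_lit 5) (nat_lit 602) (nat_lit 541) (nat_lit 417))) (XT.nd (nat_lit 78) (nat_lit 684) (nat_lit 0) (XT.lf (nat_lit 0) (nat_lit 4420200619)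 (nat_lit 532) (nat_lit 7917470940) (nat_lit 608) (nat_lit 230556476) (nat_lit 252) (nat_lit 5) (nat_lit 259) (nat_lit 5) (nat_lit 260) (nat_lit 5) (nat_lit 603) (nat_lit 541) (nat_lit 416)) (XT.nd (nat_lit 78) (nat_lit 608) (nat_lit 0) (XT.lf (nat_lit 0) (nat_lit 2469451485) (nat_lit 608) (nat_lit 582216351) (nat_lit 76) (nat_lit 9656908197) (nat_lit 251) (nat_lit 5) (nat_lit 259) (nat_lit 5) (nat_lit 252) (nat_lit 5) (nat_lit 604) (nat_lit 541) (nat_lit 415)) (XT.lf (nat_lit 0) (nat_lit 5263710565) (nat_lit 684) (nat_lit 5656823277) (nat_lit 76) (nat_lit 1930301775) (nat_lit 243) (nat_lit 5) (nat_lit 252) (nat_lit 5) (nat_lit 244) (nat_lit 5) (nat_lit 605) (nat_lit 541) (nat_lit 414))))))))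
noncomputable def xc124 : XT := (XT.nd (nat_lit 1482) (nat_lit 2432) (nat_lit 0) (XT.nd (nat_lit 702) (nat_lit 2812) (nat_lit 0) (XT.nd (nat_lit 312) (nat_lit 2128) (nat_lit 0) (XT.nd (nat_lit 156) (nat_lit 608) (nat_lit 0) (XT.nd (nat_lit 78) (nat_lit 0) (nat_lit 0) (XT.lf (nat_lit 0) (nat_lit 2124329541) (nat_lit 532) (nat_lit 6011454286) (nat_lit 608) (nat_lit 4859719819) (nat_lit 236) (nat_lit 5) (nat_lit 243) (nat_lit 5) (nat_lit 244) (nat_lit 5) (nat_lit 606) (nat_lit 541) (nat_lit 413)) (XT.lf (nat_lit 0) (nat_lit 10116832628) (nat_lit 532) (nat_lit 970597868) (nat_lit 608) (nat_lit 2055193696) (nat_lit 236) (nat_lit 5) (nat_lit 243) (nat_lit 5) (nat_lit 244) (nat_lit 5) (nat_lit 607) (nat_lit 541) (nat_lit 412))) (XT.nd (nat_lit 78) (nat_lit 0) (nat_lit 0) (XT.lf (nat_lit 0) (nat_lit 839104826) (nat_lit 608) (nat_lit 8303235726) (nat_lit 76) (nat_lit 4149358835) (nat_lit 228) (nat_lit 5) (nat_lit 236) (nat_lit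 5) (nat_lit 229) (nat_lit 5) (nat_lit 608) (nat_lit 541) (nat_lit 411)) (XT.lf (nat_lit 0) (nat_lit 3775179404) (nat_lit 608) (nat_lit 280395087) (nat_lit 76) (nat_lit 9387683409) (nat_lit 228) (nat_lit 5) (nat_lit 236) (nat_lit 5) (nat_lit 229) (nat_lit 5) (nat_lit 609) (nat_lit 541) (nat_lit 410)))) (XT.nd (nat_lit 156) (nat_lit 1064) (nat_lit 0) (XT.nd (nat_lit 78) (nat_lit 532) (nat_lit 0) (XT.lf (nat_lit 0) (nat_lit 6814318300) (nat_lit 608) (nat_lit 5617606841) (nat_lit 76) (nat_lit 1165037244) (nat_lit 221) (nat_lit 5) (nat_lit 229) (nat_lit 5) (nat_lit 222) (nat_lit 5) (nat_lit 610) (nat_lit 541) (nat_lit 409)) (XT.lf (nat_lit 0) (nat_lit 2641558063) (nat_lit 532) (nat_lit 7303535819) (nat_lit 608) (nat_lit 3808031627) (nat_lit 214) (nat_lit 5) (nat_lit 221) (nat_lit 5) (nat_lit 222) (nat_lit 5) (nat_lit 611) (nat_lit 541) (nat_lit 408))) (XT.nd (nat_lit 78) (nat_lit 1064) (nat_lit 0) (XT.lf (nat_lit 0)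 (nat_lit 11121575462) (nat_lit 532) (nat_lit 2039719720) (nat_lit 608) (nat_lit 750662105) (nat_lit 214) (nat_lit 5) (nat_lit 221) (nat_lit 5) (nat_lit 222) (nat_lit 5) (nat_lit 612) (nat_lit 541) (nat_lit 407)) (XT.nd (nat_lit 78) (nat_lit 532) (nat_lit 0) (XT.lf (nat_lit 0) (nat_lit 2381282753) (nat_lit 532) (nat_lit 8358318377) (nat_lit 76) (nat_lit 3333168973) (nat_lit 207) (nat_lit 5) (nat_lit 214) (nat_lit 5) (nat_lit 208) (nat_lit 5) (nat_lit 613) (nat_lit 541) (nat_lit 406)) (XT.lf (nat_lit 0) (nat_lit 153798733) (nat_lit 532) (nat_lit 5430809134) (nat_lit 608) (nat_lit 8651717720) (nat_lit 200) (nat_lit 5) (nat_lit 207) (nat_lit 5) (nat_lit 208) (nat_lit 5) (nat_lit 614) (nat_lit 541) (nat_lit 405)))))) (XT.nd (nat_lit 390) (nat_lit 1368) (nat_lit 0) (XT.nd (nat_lit 156) (nat_lit 988) (nat_lit 0) (XT.nd (nat_lit 78) (nat_lit 456) (nat_lit 0) (XT.lf (nat_lit 0) (nat_lit 8893900777) (nat_lit 608) (nat_lit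 5473355952) (nat_lit 76) (nat_lit 35058900) (nat_lit 200) (nat_lit 5) (nat_lit 208) (nat_lit 5) (nat_lit 201) (nat_lit 5) (nat_lit 615) (nat_lit 541) (nat_lit 404)) (XT.lf (nat_lit 0) (nat_lit 3295136960) (nat_lit 456) (nat_lit 9017429854) (nat_lit 532) (nat_lit 2258196358) (nat_lit 194) (nat_lit 5) (nat_lit 200) (nat_lit 5) (nat_lit 201) (nat_lit 5) (nat_lit 616) (nat_lit 541) (nat_lit 403))) (XT.nd (nat_lit 78) (nat_lit 912) (nat_lit 0) (XT.lf (nat_lit 0) (nat_lit 1066017078) (nat_lit 532) (nat_lit 2455927529) (nat_lit 76) (nat_lit 11220042115) (nat_lit 193) (nat_lit 5) (nat_lit 200) (nat_lit 5) (nat_lit 194) (nat_lit 5) (nat_lit 617) (nat_lit 541) (nat_lit 402)) (XT.nd (nat_lit 78) (nat_lit 456) (nat_lit 0) (XT.lf (nat_lit 0) (nat_lit 4469333998) (nat_lit 532) (nat_lit 8337738289) (nat_lit 76) (nat_lit 2108408156) (nat_lit 187) (nat_lit 5) (nat_lit 194) (nat_lit 5) (nat_lit 188) (nat_lit 5) (nat_lit 618) (nat_lit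 541) (nat_lit 401)) (XT.lf (nat_lit 0) (nat_lit 699117381) (nat_lit 456) (nat_lit 7272316289) (nat_lit 532) (nat_lit 7120397372) (nat_lit 181) (nat_lit 5) (nat_lit 187) (nat_lit 5) (nat_lit 188) (nat_lit 5) (nat_lit 619) (nat_lit 541) (nat_lit 400))))) (XT.nd (nat_lit 156) (nat_lit 912) (nat_lit 0) (XT.nd (nat_lit 78) (nat_lit 456) (nat_lit 0) (XT.lf (nat_lit 0) (nat_lit 10009981251) (nat_lit 456) (nat_lit 1575949253) (nat_lit 532) (nat_lit 3684932357) (nat_lit 181) (nat_lit 5) (nat_lit 187) (nat_lit 5) (nat_lit 188) (nat_lit 5) (nat_lit 620) (nat_lit 541) (nat_lit 399)) (XT.lf (nat_lit 0) (nat_lit 4059748637) (nat_lit 456) (nat_lit 11253451357) (nat_lit 532) (nat_lit 139466949) (nat_lit 175) (nat_lit 5) (nat_lit 181) (nat_lit 5) (nat_lit 182) (nat_lit 5) (nat_lit 621) (nat_lit 541) (nat_lit 398))) (XT.nd (nat_lit 78) (nat_lit 836) (nat_lit 0) (XT.lf (nat_lit 0) (nat_lit 3463960177) (nat_lit 532) (nat_lit 2052181836)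 (nat_lit 76) (nat_lit 10120861787) (nat_lit 174) (nat_lit 5) (nat_lit 181) (nat_lit 5) (nat_lit 175) (nat_lit 5) (nat_lit 622) (nat_lit 541) (nat_lit 397)) (XT.nd (nat_lit 78) (nat_lit 456) (nat_lit 0) (XT.lf (nat_lit 0) (nat_lit 7176049171) (nat_lit 456) (nat_lit 8272495647) (nat_lit 76) (nat_lit 375696131) (nat_lit 169) (nat_lit 5) (nat_lit 175) (nat_lit 5) (nat_lit 170) (nat_lit 5) (nat_lit 623) (nat_lit 541) (nat_lit 396)) (XT.lf (nat_lit 0) (nat_lit 1321989927) (nat_lit 456) (nat_lit 9686398093) (nat_lit 532) (nat_lit 5005915844) (nat_lit 163) (nat_lit 5) (nat_lit 169) (nat_lit 5) (nat_lit 170) (nat_lit 5) (nat_lit 624) (nat_lit 541) (nat_lit 395))))))) (XT.nd (nat_lit 702) (nat_lit 456) (nat_lit 0) (XT.nd (nat_lit 312) (nat_lit 1140) (nat_lit 0) (XT.nd (nat_lit 156) (nat_lit 380) (nat_lit 0) (XT.nd (nat_lit 78) (nat_lit 456) (nat_lit 0) (XT.lf (nat_lit 0) (nat_lit 11201280661) (nat_lit 456) (nat_lit 3758766953)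 (nat_lit 532) (nat_lit 1247268108) (nat_lit 163) (nat_lit 5) (nat_lit 169) (nat_lit 5) (nat_lit 170) (nat_lit 5) (nat_lit 625) (nat_lit 541) (nat_lit 394)) (XT.lf (nat_lit 0) (nat_lit 2586920190) (nat_lit 456) (nat_lit 11516142797) (nat_lit 76) (nat_lit 2300104258) (nat_lit 157) (nat_lit 5) (nat_lit 163) (nat_lit 5) (nat_lit 158) (nat_lit 5) (nat_lit 626) (nat_lit 541) (nat_lit 393))) (XT.nd (nat_lit 78) (nat_lit 380) (nat_lit 0) (XT.lf (nat_lit 0) (nat_lit 6527228121) (nat_lit 456) (nat_lit 1608934487) (nat_lit 76) (nat_lit 8465686663) (nat_lit 157) (nat_lit 5) (nat_lit 163) (nat_lit 5) (nat_lit 158) (nat_lit 5) (nat_lit 627) (nat_lit 541) (nat_lit 392)) (XT.lf (nat_lit 0) (nat_lit 8590357762) (nat_lit 380) (nat_lit 1999418629) (nat_lit 456) (nat_lit 6213860935) (nat_lit 152) (nat_lit 5) (nat_lit 157) (nat_lit 5) (nat_lit 158) (nat_lit 5) (nat_lit 628) (nat_lit 541) (nat_lit 391)))) (XT.nd (nat_lit 156) (nat_lit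 684) (nat_lit 0) (XT.nd (nat_lit 78) (nat_lit 76) (nat_lit 0) (XT.lf (nat_lit 0) (nat_lit 1985707328) (nat_lit 380) (nat_lit 12787027898) (nat_lit 456) (nat_lit 2235943777) (nat_lit 147) (nat_lit 5) (nat_lit 152) (nat_lit 5) (nat_lit 153) (nat_lit 5) (nat_lit 629) (nat_lit 541) (nat_lit 390)) (XT.lf (nat_lit 0) (nat_lit 1854140939) (nat_lit 456) (nat_lit 4760989706) (nat_lit 76) (nat_lit 10601325369) (nat_lit 146) (nat_lit 5) (nat_lit 152) (nat_lit 5) (nat_lit 147) (nat_lit 5) (nat_lit 630) (nat_lit 541) (nat_lit 389))) (XT.nd (nat_lit 78) (nat_lit 304) (nat_lit 0) (XT.lf (nat_lit 0) (nat_lit 5748339491) (nat_lit 380) (nat_lit 273115570) (nat_lit 456) (nat_lit 11406131565) (nat_lit 141) (nat_lit 5) (nat_lit 146) (nat_lit 5) (nat_lit 147) (nat_lit 5) (nat_lit 631) (nat_lit 541) (nat_lit 388)) (XT.nd (nat_lit 78) (nat_lit 304) (nat_lit 0) (XT.lf (nat_lit 0) (nat_lit 10332593306) (nat_lit 456) (nat_lit 1168897562)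 (nat_lit 76) (nat_lit 6140240398) (nat_lit 141) (nat_lit 5) (nat_lit 147) (nat_lit 5) (nat_lit 142) (nat_lit 5) (nat_lit 632) (nat_lit 541) (nat_lit 387)) (XT.lf (nat_lit 0) (nat_lit 9658334819) (nat_lit 304) (nat_lit 5124460700) (nat_lit 380) (nat_lit 3076307408) (nat_lit 137) (nat_lit 5) (nat_lit 141) (nat_lit 5) (nat_lit 142) (nat_lit 5) (nat_lit 633) (nat_lit 541) (nat_lit 386)))))) (XT.nd (nat_lit 74334) (nat_lit 0) (nat_lit 35188) (XT.nd (nat_lit 74100) (nat_lit 0) (nat_lit 36404) (XT.nd (nat_lit 74022) (nat_lit 0) (nat_lit 36404) (XT.lf (nat_lit 0) (nat_lit 1247470270) (nat_lit 456) (nat_lit 15443873494) (nat_lit 76) (nat_lit 1388866628) (nat_lit 131) (nat_lit 5) (nat_lit 137) (nat_lit 5) (nat_lit 132) (nat_lit 5) (nat_lit 634) (nat_lit 541) (nat_lit 385)) (XT.lf (nat_lit 0) (nat_lit 196940802) (nat_lit 1292) (nat_lit 1742901037) (nat_lit 1292) (nat_lit 1742901037) (nat_lit 610) (nat_lit 3) (nat_lit 627)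 (nat_lit 3) (nat_lit 627) (nat_lit 5) (nat_lit 542) (nat_lit 542) (nat_lit 476))) (XT.nd (nat_lit 78) (nat_lit 0) (nat_lit 76) (XT.lf (nat_lit 76) (nat_lit 135460488) (nat_lit 0) (nat_lit 1793738925) (nat_lit 1292) (nat_lit 5479017123) (nat_lit 611) (nat_lit 5) (nat_lit 610) (nat_lit 3) (nat_lit 627) (nat_lit 5) (nat_lit 543) (nat_lit 542) (nat_lit 475)) (XT.nd (nat_lit 78) (nat_lit 0) (nat_lit 0) (XT.lf (nat_lit 0) (nat_lit 3480784641) (nat_lit 1216) (nat_lit 3598948256) (nat_lit 1292) (nat_lit 372365592) (nat_lit 611) (nat_lit 5) (nat_lit 627) (nat_lit 5) (nat_lit 628) (nat_lit 5) (nat_lit 544) (nat_lit 542) (nat_lit 474)) (XT.lf (nat_lit 76) (nat_lit 116722314) (nat_lit 0) (nat_lit 4919950012) (nat_lit 1292) (nat_lit 2460727966) (nat_lit 612) (nat_lit 5) (nat_lit 611) (nat_lit 5) (nat_lit 628) (nat_lit 5) (nat_lit 545) (nat_lit 542) (nat_lit 473))))) (XT.nd (nat_lit 156) (nat_lit 0) (nat_lit 76) (XT.nd (nat_lit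 78) (nat_lit 1292) (nat_lit 0) (XT.lf (nat_lit 76) (nat_lit 3934365745) (nat_lit 0) (nat_lit 2674731432) (nat_lit 1292) (nat_lit 934810041) (nat_lit 612) (nat_lit 5) (nat_lit 611) (nat_lit 5) (nat_lit 628) (nat_lit 5) (nat_lit 546) (nat_lit 542) (nat_lit 472)) (XT.lf (nat_lit 76) (nat_lit 214569596) (nat_lit 0) (nat_lit 362066344) (nat_lit 1368) (nat_lit 7015371558) (nat_lit 595) (nat_lit 5) (nat_lit 594) (nat_lit 5) (nat_lit 612) (nat_lit 5) (nat_lit 547) (nat_lit 542) (nat_lit 471))) (XT.nd (nat_lit 78) (nat_lit 0) (nat_lit 0) (XT.lf (nat_lit 0) (nat_lit 2105642015) (nat_lit 1292) (nat_lit 3517763630) (nat_lit 1368) (nat_lit 2017550636) (nat_lit 595) (nat_lit 5) (nat_lit 612) (nat_lit 5) (nat_lit 613) (nat_lit 5) (nat_lit 548) (nat_lit 542) (nat_lit 470)) (XT.nd (nat_lit 78) (nat_lit 0) (nat_lit 0) (XT.lf (nat_lit 76) (nat_lit 400435213) (nat_lit 0) (nat_lit 3233015539) (nat_lit 1368) (nat_lit 4058075741) (nat_lit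 596) (nat_lit 5) (nat_lit 595) (nat_lit 5) (nat_lit 613) (nat_lit 5) (nat_lit 549) (nat_lit 542) (nat_lit 469)) (XT.lf (nat_lit 76) (nat_lit 4423300940) (nat_lit 0) (nat_lit 755927890) (nat_lit 1368) (nat_lit 2564137789) (nat_lit 596) (nat_lit 5) (nat_lit 595) (nat_lit 5) (nat_lit 613) (nat_lit 5) (nat_lit 550) (nat_lit 542) (nat_lit 468))))))))
noncomputable def xc125 : XT := (XT.nd (nat_lit 1482) (nat_lit 12160) (nat_lit 0) (XT.nd (nat_lit 702) (nat_lit 4484) (nat_lit 0) (XT.nd (nat_lit 312) (nat_lit 1292) (nat_lit 0) (XT.nd (nat_lit 156) (nat_lit 0) (nat_lit 0) (XT.nd (nat_lit 78) (nat_lit 1368) (nat_lit 0) (XT.lf (nat_lit 76) (nat_lit 706375458) (nat_lit 0) (nat_lit 6030240902) (nat_lit 1368) (nat_lit 1060019946) (nat_lit 597) (nat_lit 5) (nat_lit 596) (nat_lit 5) (nat_lit 614) (nat_lit 5) (nat_lit 551) (nat_lit 542) (nat_lit 467)) (XT.lf (nat_lit 0) (nat_lit 460321784) (nat_lit 1368) (nat_lit 3022510283) (nat_lit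 1444) (nat_lit 4368236915) (nat_lit 578) (nat_lit 5) (nat_lit 596) (nat_lit 5) (nat_lit 597) (nat_lit 5) (nat_lit 552) (nat_lit 542) (nat_lit 466))) (XT.nd (nat_lit 78) (nat_lit 0) (nat_lit 76) (XT.lf (nat_lit 76) (nat_lit 1112497383) (nat_lit 0) (nat_lit 857230748) (nat_lit 1444) (nat_lit 5937271273) (nat_lit 579) (nat_lit 5) (nat_lit 578) (nat_lit 5) (nat_lit 597) (nat_lit 5) (nat_lit 553) (nat_lit 542) (nat_lit 465)) (XT.lf (nat_lit 0) (nat_lit 3507791522) (nat_lit 1368) (nat_lit 2626712473) (nat_lit 1444) (nat_lit 1829581193) (nat_lit 579) (nat_lit 5) (nat_lit 597) (nat_lit 5) (nat_lit 598) (nat_lit 5) (nat_lit 554) (nat_lit 542) (nat_lit 464)))) (XT.nd (nat_lit 156) (nat_lit 1368) (nat_lit 0) (XT.nd (nat_lit 78) (nat_lit 0) (nat_lit 0) (XT.lf (nat_lit 76) (nat_lit 1618125776) (nat_lit 0) (nat_lit 3441565121) (nat_lit 1444) (nat_lit 2962966309) (nat_lit 580) (nat_lit 5) (nat_lit 579) (nat_lit 5) (nat_lit 598)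 (nat_lit 5) (nat_lit 555) (nat_lit 542) (nat_lit 463)) (XT.lf (nat_lit 76) (nat_lit 5961758258) (nat_lit 0) (nat_lit 665896608) (nat_lit 1444) (nat_lit 1455051160) (nat_lit 580) (nat_lit 5) (nat_lit 579) (nat_lit 5) (nat_lit 598) (nat_lit 5) (nat_lit 556) (nat_lit 542) (nat_lit 462))) (XT.nd (nat_lit 78) (nat_lit 0) (nat_lit 0) (XT.lf (nat_lit 0) (nat_lit 78627310) (nat_lit 1444) (nat_lit 5902892678) (nat_lit 1520) (nat_lit 2162496841) (nat_lit 561) (nat_lit 5) (nat_lit 580) (nat_lit 5) (nat_lit 581) (nat_lit 5) (nat_lit 557) (nat_lit 542) (nat_lit 461)) (XT.nd (nat_lit 78) (nat_lit 0) (nat_lit 0) (XT.lf (nat_lit 0) (nat_lit 1610629652) (nat_lit 1444) (nat_lit 1523500003) (nat_lit 1520) (nat_lit 5072494722) (nat_lit 561) (nat_lit 5) (nat_lit 580) (nat_lit 5) (nat_lit 581) (nat_lit 5) (nat_lit 558) (nat_lit 542) (nat_lit 460)) (XT.lf (nat_lit 76) (nat_lit 2960466344) (nat_lit 0) (nat_lit 201025420) (nat_lit 1520)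 (nat_lit 5109233361) (nat_lit 562) (nat_lit 5) (nat_lit 561) (nat_lit 5) (nat_lit 581) (nat_lit 5) (nat_lit 559) (nat_lit 542) (nat_lit 459)))))) (XT.nd (nat_lit 390) (nat_lit 3116) (nat_lit 0) (XT.nd (nat_lit 156) (nat_lit 1444) (nat_lit 0) (XT.nd (nat_lit 78) (nat_lit 0) (nat_lit 0) (XT.lf (nat_lit 0) (nat_lit 4741304441) (nat_lit 1444) (nat_lit 821697947) (nat_lit 1520) (nat_lit 2773152172) (nat_lit 562) (nat_lit 5) (nat_lit 581) (nat_lit 5) (nat_lit 582) (nat_lit 5) (nat_lit 560) (nat_lit 542) (nat_lit 458)) (XT.lf (nat_lit 76) (nat_lit 3782985040) (nat_lit 0) (nat_lit 2565741654) (nat_lit 1520) (nat_lit 2054250859) (nat_lit 563) (nat_lit 5) (nat_lit 562) (nat_lit 5) (nat_lit 582) (nat_lit 5) (nat_lit 561) (nat_lit 542) (nat_lit 457))) (XT.nd (nat_lit 78) (nat_lit 1520) (nat_lit 0) (XT.lf (nat_lit 0) (nat_lit 7967653291) (nat_lit 1444) (nat_lit 5785627) (nat_lit 1520) (nat_lit 498116100) (nat_lit 563) (nat_lit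 5) (nat_lit 582) (nat_lit 5) (nat_lit 583) (nat_lit 5) (nat_lit 562) (nat_lit 542) (nat_lit 456)) (XT.nd (nat_lit 78) (nat_lit 0) (nat_lit 0) (XT.lf (nat_lit 0) (nat_lit 1082294780) (nat_lit 1520) (nat_lit 3824578490) (nat_lit 1596) (nat_lit 3634116356) (nat_lit 543) (nat_lit 5) (nat_lit 563) (nat_lit 5) (nat_lit 564) (nat_lit 5) (nat_lit 563) (nat_lit 542) (nat_lit 455)) (XT.lf (nat_lit 76) (nat_lit 907653177) (nat_lit 0) (nat_lit 1763174092) (nat_lit 1596) (nat_lit 5941376689) (nat_lit 544) (nat_lit 5) (nat_lit 543) (nat_lit 5) (nat_lit 564) (nat_lit 5) (nat_lit 564) (nat_lit 542) (nat_lit 454))))) (XT.nd (nat_lit 156) (nat_lit 1672) (nat_lit 0) (XT.nd (nat_lit 78) (nat_lit 1520) (nat_lit 0) (XT.lf (nat_lit 0) (nat_lit 4298214072) (nat_lit 1520) (nat_lit 2930190898) (nat_lit 76) (nat_lit 1456300674) (nat_lit 544) (nat_lit 5) (nat_lit 564) (nat_lit 5) (nat_lit 545) (nat_lit 5) (nat_lit 565) (nat_lit 542) (nat_lit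 453)) (XT.lf (nat_lit 0) (nat_lit 1931057867) (nat_lit 1520) (nat_lit 4023733786) (nat_lit 1596) (nat_lit 2803937499) (nat_lit 524) (nat_lit 5) (nat_lit 544) (nat_lit 5) (nat_lit 545) (nat_lit 5) (nat_lit 566) (nat_lit 542) (nat_lit 452))) (XT.nd (nat_lit 78) (nat_lit 1672) (nat_lit 0) (XT.lf (nat_lit 0) (nat_lit 6907149648) (nat_lit 1520) (nat_lit 729840062) (nat_lit 1596) (nat_lit 1197398197) (nat_lit 524) (nat_lit 5) (nat_lit 544) (nat_lit 5) (nat_lit 545) (nat_lit 5) (nat_lit 567) (nat_lit 542) (nat_lit 451)) (XT.nd (nat_lit 78) (nat_lit 0) (nat_lit 0) (XT.lf (nat_lit 0) (nat_lit 445961906) (nat_lit 1672) (nat_lit 5842107306) (nat_lit 76) (nat_lit 2623228157) (nat_lit 502) (nat_lit 5) (nat_lit 524) (nat_lit 5) (nat_lit 503) (nat_lit 5) (nat_lit 568) (nat_lit 542) (nat_lit 450)) (XT.lf (nat_lit 0) (nat_lit 2097614043) (nat_lit 1672) (nat_lit 833110646) (nat_lit 76) (nat_lit 6059037167) (nat_lit 502) (nat_lit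 5) (nat_lit 524) (nat_lit 5) (nat_lit 503) (nat_lit 5) (nat_lit 569) (nat_lit 542) (nat_lit 449))))))) (XT.nd (nat_lit 702) (nat_lit 4180) (nat_lit 0) (XT.nd (nat_lit 312) (nat_lit 2888) (nat_lit 0) (XT.nd (nat_lit 156) (nat_lit 1672) (nat_lit 0) (XT.nd (nat_lit 78) (nat_lit 1748) (nat_lit 0) (XT.lf (nat_lit 0) (nat_lit 3787811901) (nat_lit 1748) (nat_lit 4762580705) (nat_lit 76) (nat_lit 519296985) (nat_lit 480) (nat_lit 5) (nat_lit 503) (nat_lit 5) (nat_lit 481) (nat_lit 5) (nat_lit 570) (nat_lit 542) (nat_lit 448)) (XT.lf (nat_lit 0) (nat_lit 373372678) (nat_lit 1748) (nat_lit 5140400156) (nat_lit 1824) (nat_lit 3637407990) (nat_lit 457) (nat_lit 5) (nat_lit 480) (nat_lit 5) (nat_lit 481) (nat_lit 5) (nat_lit 571) (nat_lit 542) (nat_lit 447))) (XT.nd (nat_lit 78) (nat_lit 1672) (nat_lit 0) (XT.lf (nat_lit 0) (nat_lit 5654350383) (nat_lit 1748) (nat_lit 1626716105) (nat_lit 1824) (nat_lit 1953103170) (nat_lit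 457) (nat_lit 5) (nat_lit 480) (nat_lit 5) (nat_lit 481) (nat_lit 5) (nat_lit 572) (nat_lit 542) (nat_lit 446)) (XT.lf (nat_lit 0) (nat_lit 1709510303) (nat_lit 1672) (nat_lit 7373368248) (nat_lit 1748) (nat_lit 235960234) (nat_lit 435) (nat_lit 5) (nat_lit 457) (nat_lit 5) (nat_lit 458) (nat_lit 5) (nat_lit 573) (nat_lit 542) (nat_lit 445)))) (XT.nd (nat_lit 156) (nat_lit 1824) (nat_lit 0) (XT.nd (nat_lit 78) (nat_lit 988) (nat_lit 0) (XT.lf (nat_lit 0) (nat_lit 1506143490) (nat_lit 1748) (nat_lit 2294854666) (nat_lit 76) (nat_lit 5603800267) (nat_lit 434) (nat_lit 5) (nat_lit 457) (nat_lit 5) (nat_lit 435) (nat_lit 5) (nat_lit 574) (nat_lit 542) (nat_lit 444)) (XT.lf (nat_lit 0) (nat_lit 3143501157) (nat_lit 988) (nat_lit 132860688) (nat_lit 1064) (nat_lit 6216159313) (nat_lit 421) (nat_lit 5) (nat_lit 434) (nat_lit 5) (nat_lit 435) (nat_lit 5) (nat_lit 575) (nat_lit 542) (nat_lit 443))) (XT.nd (nat_lit 78) (nat_lit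 1824) (nat_lit 0) (XT.lf (nat_lit 0) (nat_lit 5097274378) (nat_lit 1064) (nat_lit 905905672) (nat_lit 76) (nat_lit 3578516165) (nat_lit 421) (nat_lit 5) (nat_lit 435) (nat_lit 5) (nat_lit 422) (nat_lit 5) (nat_lit 576) (nat_lit 542) (nat_lit 442)) (XT.nd (nat_lit 78) (nat_lit 912) (nat_lit 0) (XT.lf (nat_lit 0) (nat_lit 4684655572) (nat_lit 912) (nat_lit 2278067373) (nat_lit 988) (nat_lit 2709773065) (nat_lit 409) (nat_lit 5) (nat_lit 421) (nat_lit 5) (nat_lit 422) (nat_lit 5) (nat_lit 577) (nat_lit 542) (nat_lit 441)) (XT.lf (nat_lit 0) (nat_lit 610101484) (nat_lit 912) (nat_lit 8252479907) (nat_lit 988) (nat_lit 902591915) (nat_lit 397) (nat_lit 5) (nat_lit 409) (nat_lit 5) (nat_lit 410) (nat_lit 5) (nat_lit 578) (nat_lit 542) (nat_lit 440)))))) (XT.nd (nat_lit 390) (nat_lit 2432) (nat_lit 0) (XT.nd (nat_lit 156) (nat_lit 836) (nat_lit 0) (XT.nd (nat_lit 78) (nat_lit 836) (nat_lit 0) (XT.lf (nat_lit 0) (nat_lit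 954467286) (nat_lit 988) (nat_lit 3515294066) (nat_lit 76) (nat_lit 5389302577) (nat_lit 396) (nat_lit 5) (nat_lit 409) (nat_lit 5) (nat_lit 397) (nat_lit 5) (nat_lit 579) (nat_lit 542) (nat_lit 439)) (XT.lf (nat_lit 0) (nat_lit 2238645374) (nat_lit 836) (nat_lit 590220967) (nat_lit 912) (nat_lit 7126004332) (nat_lit 385) (nat_lit 5) (nat_lit 396) (nat_lit 5) (nat_lit 397) (nat_lit 5) (nat_lit 580) (nat_lit 542) (nat_lit 438))) (XT.nd (nat_lit 78) (nat_lit 836) (nat_lit 0) (XT.lf (nat_lit 0) (nat_lit 4764392712) (nat_lit 912) (nat_lit 1941138908) (nat_lit 76) (nat_lit 3346592400) (nat_lit 385) (nat_lit 5) (nat_lit 397) (nat_lit 5) (nat_lit 386) (nat_lit 5) (nat_lit 581) (nat_lit 542) (nat_lit 437)) (XT.nd (nat_lit 78) (nat_lit 0) (nat_lit 0) (XT.lf (nat_lit 0) (nat_lit 3975806380) (nat_lit 836) (nat_lit 2771009690) (nat_lit 912) (nat_lit 3404345825) (nat_lit 374) (nat_lit 5) (nat_lit 385) (nat_lit 5) (nat_lit 386)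 (nat_lit 5) (nat_lit 582) (nat_lit 542) (nat_lit 436)) (XT.lf (nat_lit 0) (nat_lit 8768807625) (nat_lit 912) (nat_lit 244826931) (nat_lit 76) (nat_lit 1238550705) (nat_lit 374) (nat_lit 5) (nat_lit 386) (nat_lit 5) (nat_lit 375) (nat_lit 5) (nat_lit 583) (nat_lit 542) (nat_lit 435))))) (XT.nd (nat_lit 156) (nat_lit 760) (nat_lit 0) (XT.nd (nat_lit 78) (nat_lit 836) (nat_lit 0) (XT.lf (nat_lit 0) (nat_lit 505431270) (nat_lit 836) (nat_lit 4517008066) (nat_lit 76) (nat_lit 5332017666) (nat_lit 363) (nat_lit 5) (nat_lit 374) (nat_lit 5) (nat_lit 364) (nat_lit 5) (nat_lit 584) (nat_lit 542) (nat_lit 434)) (XT.lf (nat_lit 0) (nat_lit 1574908867) (nat_lit 836) (nat_lit 930431113) (nat_lit 912) (nat_lit 7953417323) (nat_lit 352) (nat_lit 5) (nat_lit 363) (nat_lit 5) (nat_lit 364) (nat_lit 5) (nat_lit 585) (nat_lit 542) (nat_lit 433))) (XT.nd (nat_lit 78) (nat_lit 760) (nat_lit 0) (XT.lf (nat_lit 0) (nat_lit 4576362732)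 (nat_lit 912) (nat_lit 2758022396) (nat_lit 76) (nat_lit 3230139051) (nat_lit 352) (nat_lit 5) (nat_lit 364) (nat_lit 5) (nat_lit 353) (nat_lit 5) (nat_lit 586) (nat_lit 542) (nat_lit 432)) (XT.nd (nat_lit 78) (nat_lit 0) (nat_lit 0) (XT.lf (nat_lit 0) (nat_lit 3508487284) (nat_lit 760) (nat_lit 3189206163) (nat_lit 836) (nat_lit 3974538030) (nat_lit 342) (nat_lit 5) (nat_lit 352) (nat_lit 5) (nat_lit 353) (nat_lit 5) (nat_lit 587) (nat_lit 542) (nat_lit 431)) (XT.lf (nat_lit 0) (nat_lit 8867014514) (nat_lit 836) (nat_lit 872807859) (nat_lit 76) (nat_lit 1042162050) (nat_lit 342) (nat_lit 5) (nat_lit 353) (nat_lit 5) (nat_lit 343) (nat_lit 5) (nat_lit 588) (nat_lit 542) (nat_lit 430))))))))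
noncomputable def xc126 : XT := (XT.nd (nat_lit 1482) (nat_lit 5548) (nat_lit 0) (XT.nd (nat_lit 702) (nat_lit 3724) (nat_lit 0) (XT.nd (nat_lit 312) (nat_lit 2052) (nat_lit 0) (XT.nd (nat_lit 156) (nat_lit 760) (nat_lit 0) (XT.nd (nat_lit 78) (nat_lit 684) (nat_lit 0) (XT.lf (nat_lit 0) (nat_lit 221491434) (nat_lit 836) (nat_lit 5320198488) (nat_lit 76) (nat_lit 5351458280) (nat_lit 331) (nat_lit 5) (nat_lit 342) (nat_lit 5) (nat_lit 332) (nat_lit 5) (nat_lit 589) (nat_lit 542) (nat_lit 429)) (XT.lf (nat_lit 0) (nat_lit 1133563526) (nat_lit 684) (nat_lit 1235445923) (nat_lit 760) (nat_lit 8637395888) (nat_lit 322) (nat_lit 5) (nat_lit 331) (nat_lit 5) (nat_lit 332) (nat_lit 5) (nat_lit 590) (nat_lit 542) (nat_lit 428))) (XT.nd (nat_lit 78) (nat_lit 760) (nat_lit 0) (XT.lf (nat_lit 0) (nat_lit 4596825310) (nat_lit 760) (nat_lit 3375273667) (nat_lit 76) (nat_lit 3149084254) (nat_lit 322) (nat_lit 5) (nat_lit 332)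 (nat_lit 5) (nat_lit 323) (nat_lit 5) (nat_lit 591) (nat_lit 542) (nat_lit 427)) (XT.lf (nat_lit 0) (nat_lit 3265475416) (nat_lit 760) (nat_lit 3614392603) (nat_lit 836) (nat_lit 4358177767) (nat_lit 312) (nat_lit 5) (nat_lit 322) (nat_lit 5) (nat_lit 323) (nat_lit 5) (nat_lit 592) (nat_lit 542) (nat_lit 426)))) (XT.nd (nat_lit 156) (nat_lit 1292) (nat_lit 0) (XT.nd (nat_lit 78) (nat_lit 760) (nat_lit 0) (XT.lf (nat_lit 0) (nat_lit 9218261200) (nat_lit 836) (nat_lit 1299171432) (nat_lit 76) (nat_lit 839621636) (nat_lit 312) (nat_lit 5) (nat_lit 323) (nat_lit 5) (nat_lit 313) (nat_lit 5) (nat_lit 593) (nat_lit 542) (nat_lit 425)) (XT.lf (nat_lit 0) (nat_lit 165349025) (nat_lit 760) (nat_lit 5943549877) (nat_lit 76) (nat_lit 5368689981) (nat_lit 302) (nat_lit 5) (nat_lit 312) (nat_lit 5) (nat_lit 303) (nat_lit 5) (nat_lit 594) (nat_lit 542) (nat_lit 424))) (XT.nd (nat_lit 78) (nat_lit 608) (nat_lit 0) (XT.lf (nat_lit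 0) (nat_lit 897404558) (nat_lit 684) (nat_lit 1586118618) (nat_lit 760) (nat_lit 9116798836) (nat_lit 293) (nat_lit 5) (nat_lit 302) (nat_lit 5) (nat_lit 303) (nat_lit 5) (nat_lit 595) (nat_lit 542) (nat_lit 423)) (XT.nd (nat_lit 78) (nat_lit 608) (nat_lit 0) (XT.lf (nat_lit 0) (nat_lit 4890016449) (nat_lit 760) (nat_lit 3810390315) (nat_lit 76) (nat_lit 3024266206) (nat_lit 293) (nat_lit 5) (nat_lit 303) (nat_lit 5) (nat_lit 294) (nat_lit 5) (nat_lit 596) (nat_lit 542) (nat_lit 422)) (XT.lf (nat_lit 0) (nat_lit 3230772616) (nat_lit 608) (nat_lit 4127850427) (nat_lit 684) (nat_lit 4492610470) (nat_lit 285) (nat_lit 5) (nat_lit 293) (nat_lit 5) (nat_lit 294) (nat_lit 5) (nat_lit 597) (nat_lit 542) (nat_lit 421)))))) (XT.nd (nat_lit 390) (nat_lit 1748) (nat_lit 0) (XT.nd (nat_lit 156) (nat_lit 1216) (nat_lit 0) (XT.nd (nat_lit 78) (nat_lit 760) (nat_lit 0) (XT.lf (nat_lit 0) (nat_lit 9888508327) (nat_lit 684) (nat_lit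 1540323019) (nat_lit 76) (nat_lit 551257978) (nat_lit 285) (nat_lit 5) (nat_lit 294) (nat_lit 5) (nat_lit 286) (nat_lit 5) (nat_lit 598) (nat_lit 542) (nat_lit 420)) (XT.lf (nat_lit 0) (nat_lit 400516105) (nat_lit 760) (nat_lit 6405118742) (nat_lit 76) (nat_lit 5304888384) (nat_lit 275) (nat_lit 5) (nat_lit 285) (nat_lit 5) (nat_lit 276) (nat_lit 5) (nat_lit 599) (nat_lit 542) (nat_lit 419))) (XT.nd (nat_lit 78) (nat_lit 608) (nat_lit 0) (XT.lf (nat_lit 0) (nat_lit 849852248) (nat_lit 608) (nat_lit 2063656500) (nat_lit 684) (nat_lit 9329801428) (nat_lit 267) (nat_lit 5) (nat_lit 275) (nat_lit 5) (nat_lit 276) (nat_lit 5) (nat_lit 600) (nat_lit 542) (nat_lit 418)) (XT.nd (nat_lit 78) (nat_lit 608) (nat_lit 0) (XT.lf (nat_lit 0) (nat_lit 5521313270) (nat_lit 684) (nat_lit 4080549453) (nat_lit 76) (nat_lit 2776001120) (nat_lit 267) (nat_lit 5) (nat_lit 276) (nat_lit 5) (nat_lit 268) (nat_lit 5) (nat_lit 601) (nat_lit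 542) (nat_lit 417)) (XT.lf (nat_lit 0) (nat_lit 3388695806) (nat_lit 608) (nat_lit 4811854627) (nat_lit 684) (nat_lit 4314174603) (nat_lit 259) (nat_lit 5) (nat_lit 267) (nat_lit 5) (nat_lit 268) (nat_lit 5) (nat_lit 602) (nat_lit 542) (nat_lit 416))))) (XT.nd (nat_lit 156) (nat_lit 1140) (nat_lit 0) (XT.nd (nat_lit 78) (nat_lit 608) (nat_lit 0) (XT.lf (nat_lit 0) (nat_lit 10945184370) (nat_lit 684) (nat_lit 1612658100) (nat_lit 76) (nat_lit 96246685) (nat_lit 259) (nat_lit 5) (nat_lit 268) (nat_lit 5) (nat_lit 260) (nat_lit 5) (nat_lit 603) (nat_lit 542) (nat_lit 415)) (XT.lf (nat_lit 0) (nat_lit 991813842) (nat_lit 608) (nat_lit 6723276941) (nat_lit 76) (nat_lit 5079912825) (nat_lit 251) (nat_lit 5) (nat_lit 259) (nat_lit 5) (nat_lit 252) (nat_lit 5) (nat_lit 604) (nat_lit 542) (nat_lit 414))) (XT.nd (nat_lit 78) (nat_lit 532) (nat_lit 0) (XT.lf (nat_lit 0) (nat_lit 973995963) (nat_lit 608) (nat_lit 2751067578)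 (nat_lit 684) (nat_lit 9213420746) (nat_lit 243) (nat_lit 5) (nat_lit 251) (nat_lit 5) (nat_lit 252) (nat_lit 5) (nat_lit 605) (nat_lit 542) (nat_lit 413)) (XT.nd (nat_lit 78) (nat_lit 532) (nat_lit 0) (XT.lf (nat_lit 0) (nat_lit 6557714036) (nat_lit 684) (nat_lit 4203571210) (nat_lit 76) (nat_lit 2322656415) (nat_lit 243) (nat_lit 5) (nat_lit 252) (nat_lit 5) (nat_lit 244) (nat_lit 5) (nat_lit 606) (nat_lit 542) (nat_lit 412)) (XT.lf (nat_lit 0) (nat_lit 3722899477) (nat_lit 532) (nat_lit 5751123995) (nat_lit 608) (nat_lit 3757746352) (nat_lit 236) (nat_lit 5) (nat_lit 243) (nat_lit 5) (nat_lit 244) (nat_lit 5) (nat_lit 607) (nat_lit 542) (nat_lit 411))))))) (XT.nd (nat_lit 702) (nat_lit 2812) (nat_lit 0) (XT.nd (nat_lit 312) (nat_lit 1596) (nat_lit 0) (XT.nd (nat_lit 156) (nat_lit 532) (nat_lit 0) (XT.nd (nat_lit 78) (nat_lit 608) (nat_lit 0) (XT.lf (nat_lit 0) (nat_lit 11844741188) (nat_lit 532) (nat_lit 616912397)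 (nat_lit 608) (nat_lit 920642803) (nat_lit 236) (nat_lit 5) (nat_lit 243) (nat_lit 5) (nat_lit 244) (nat_lit 5) (nat_lit 608) (nat_lit 542) (nat_lit 410)) (XT.lf (nat_lit 0) (nat_lit 2005803468) (nat_lit 608) (nat_lit 6917736357) (nat_lit 76) (nat_lit 4610869498) (nat_lit 228) (nat_lit 5) (nat_lit 236) (nat_lit 5) (nat_lit 229) (nat_lit 5) (nat_lit 609) (nat_lit 542) (nat_lit 409))) (XT.nd (nat_lit 78) (nat_lit 0) (nat_lit 0) (XT.lf (nat_lit 0) (nat_lit 1251552607) (nat_lit 532) (nat_lit 3734625457) (nat_lit 608) (nat_lit 8703111837) (nat_lit 221) (nat_lit 5) (nat_lit 228) (nat_lit 5) (nat_lit 229) (nat_lit 5) (nat_lit 610) (nat_lit 542) (nat_lit 408)) (XT.lf (nat_lit 0) (nat_lit 8068251308) (nat_lit 608) (nat_lit 4198974361) (nat_lit 76) (nat_lit 1579202192) (nat_lit 221) (nat_lit 5) (nat_lit 229) (nat_lit 5) (nat_lit 222) (nat_lit 5) (nat_lit 611) (nat_lit 542) (nat_lit 407)))) (XT.nd (nat_lit 156) (nat_lit 988)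 (nat_lit 0) (XT.nd (nat_lit 78) (nat_lit 76) (nat_lit 0) (XT.lf (nat_lit 0) (nat_lit 4215301574) (nat_lit 532) (nat_lit 7034300959) (nat_lit 608) (nat_lit 2756354881) (nat_lit 214) (nat_lit 5) (nat_lit 221) (nat_lit 5) (nat_lit 222) (nat_lit 5) (nat_lit 612) (nat_lit 542) (nat_lit 406)) (XT.lf (nat_lit 0) (nat_lit 335587787) (nat_lit 608) (nat_lit 1335512027) (nat_lit 76) (nat_lit 12497257752) (nat_lit 213) (nat_lit 5) (nat_lit 221) (nat_lit 5) (nat_lit 214) (nat_lit 5) (nat_lit 613) (nat_lit 542) (nat_lit 405))) (XT.nd (nat_lit 78) (nat_lit 532) (nat_lit 0) (XT.lf (nat_lit 0) (nat_lit 3511147467) (nat_lit 532) (nat_lit 7010684840) (nat_lit 76) (nat_lit 3810636781) (nat_lit 207) (nat_lit 5) (nat_lit 214) (nat_lit 5) (nat_lit 208) (nat_lit 5) (nat_lit 614) (nat_lit 542) (nat_lit 404)) (XT.nd (nat_lit 78) (nat_lit 0) (nat_lit 0) (XT.lf (nat_lit 0) (nat_lit 1661708824) (nat_lit 532) (nat_lit 5105380268) (nat_lit 608)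 (nat_lit 7732437779) (nat_lit 200) (nat_lit 5) (nat_lit 207) (nat_lit 5) (nat_lit 208) (nat_lit 5) (nat_lit 615) (nat_lit 542) (nat_lit 403)) (XT.lf (nat_lit 0) (nat_lit 10124334847) (nat_lit 608) (nat_lit 4089155193) (nat_lit 76) (nat_lit 455713480) (nat_lit 200) (nat_lit 5) (nat_lit 208) (nat_lit 5) (nat_lit 201) (nat_lit 5) (nat_lit 616) (nat_lit 542) (nat_lit 402)))))) (XT.nd (nat_lit 390) (nat_lit 1368) (nat_lit 0) (XT.nd (nat_lit 156) (nat_lit 912) (nat_lit 0) (XT.nd (nat_lit 78) (nat_lit 76) (nat_lit 0) (XT.lf (nat_lit 0) (nat_lit 4844880815) (nat_lit 456) (nat_lit 8755489116) (nat_lit 532) (nat_lit 1240872272) (nat_lit 194) (nat_lit 5) (nat_lit 200) (nat_lit 5) (nat_lit 201) (nat_lit 5) (nat_lit 617) (nat_lit 542) (nat_lit 401)) (XT.lf (nat_lit 0) (nat_lit 2115330844) (nat_lit 532) (nat_lit 1036537284) (nat_lit 76) (nat_lit 11864297348) (nat_lit 193) (nat_lit 5) (nat_lit 200) (nat_lit 5) (nat_lit 194) (nat_lit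 5) (nat_lit 618) (nat_lit 542) (nat_lit 400))) (XT.nd (nat_lit 78) (nat_lit 456) (nat_lit 0) (XT.lf (nat_lit 0) (nat_lit 5578895938) (nat_lit 532) (nat_lit 7028066966) (nat_lit 76) (nat_lit 2586324512) (nat_lit 187) (nat_lit 5) (nat_lit 194) (nat_lit 5) (nat_lit 188) (nat_lit 5) (nat_lit 619) (nat_lit 542) (nat_lit 399)) (XT.nd (nat_lit 78) (nat_lit 0) (nat_lit 0) (XT.lf (nat_lit 0) (nat_lit 2179812488) (nat_lit 456) (nat_lit 6960744552) (nat_lit 532) (nat_lit 6232819544) (nat_lit 181) (nat_lit 5) (nat_lit 187) (nat_lit 5) (nat_lit 188) (nat_lit 5) (nat_lit 620) (nat_lit 542) (nat_lit 398)) (XT.lf (nat_lit 0) (nat_lit 11648134562) (nat_lit 456) (nat_lit 1159411313) (nat_lit 532) (nat_lit 2748841027) (nat_lit 181) (nat_lit 5) (nat_lit 187) (nat_lit 5) (nat_lit 188) (nat_lit 5) (nat_lit 621) (nat_lit 542) (nat_lit 397))))) (XT.nd (nat_lit 156) (nat_lit 836) (nat_lit 0) (XT.nd (nat_lit 78) (nat_lit 0) (nat_lit 0)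 (XT.lf (nat_lit 0) (nat_lit 848933053) (nat_lit 532) (nat_lit 10161248021) (nat_lit 76) (nat_lit 4731679628) (nat_lit 174) (nat_lit 5) (nat_lit 181) (nat_lit 5) (nat_lit 175) (nat_lit 5) (nat_lit 622) (nat_lit 542) (nat_lit 396)) (XT.lf (nat_lit 0) (nat_lit 4503164502) (nat_lit 532) (nat_lit 663220542) (nat_lit 76) (nat_lit 10763870544) (nat_lit 174) (nat_lit 5) (nat_lit 181) (nat_lit 5) (nat_lit 175) (nat_lit 5) (nat_lit 623) (nat_lit 542) (nat_lit 395))) (XT.nd (nat_lit 78) (nat_lit 456) (nat_lit 0) (XT.lf (nat_lit 0) (nat_lit 8282690249) (nat_lit 456) (nat_lit 7001047578) (nat_lit 76) (nat_lit 837637515) (nat_lit 169) (nat_lit 5) (nat_lit 175) (nat_lit 5) (nat_lit 170) (nat_lit 5) (nat_lit 624) (nat_lit 542) (nat_lit 394)) (XT.nd (nat_lit 78) (nat_lit 0) (nat_lit 0) (XT.lf (nat_lit 0) (nat_lit 2775874432) (nat_lit 456) (nat_lit 9406184653) (nat_lit 532) (nat_lit 4133374492) (nat_lit 163) (nat_lit 5) (nat_lit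 169) (nat_lit 5) (nat_lit 170) (nat_lit 5) (nat_lit 625) (nat_lit 542) (nat_lit 393)) (XT.lf (nat_lit 0) (nat_lit 12824761868) (nat_lit 456) (nat_lit 3369293859) (nat_lit 532) (nat_lit 318625558) (nat_lit 163) (nat_lit 5) (nat_lit 169) (nat_lit 5) (nat_lit 170) (nat_lit 5) (nat_lit 626) (nat_lit 542) (nat_lit 392))))))))
noncomputable def xc127 : XT := (XT.nd (nat_lit 75348) (nat_lit 0) (nat_lit 26524) (XT.nd (nat_lit 702) (nat_lit 0) (nat_lit 0) (XT.nd (nat_lit 312) (nat_lit 1216) (nat_lit 0) (XT.nd (nat_lit 156) (nat_lit 760) (nat_lit 0) (XT.nd (nat_lit 78) (nat_lit 0) (nat_lit 0) (XT.lf (nat_lit 0) (nat_lit 3573453235) (nat_lit 456) (nat_lit 10328052520) (nat_lit 76) (nat_lit 2810947622) (nat_lit 157) (nat_lit 5) (nat_lit 163) (nat_lit 5) (nat_lit 158) (nat_lit 5) (nat_lit 627) (nat_lit 542) (nat_lit 391)) (XT.lf (nat_lit 0) (nat_lit 7574238018) (nat_lit 456) (nat_lit 250512066) (nat_lit 76) (nat_lit 9090727139)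 (nat_lit 157) (nat_lit 5) (nat_lit 163) (nat_lit 5) (nat_lit 158) (nat_lit 5) (nat_lit 628) (nat_lit 542) (nat_lit 390))) (XT.nd (nat_lit 78) (nat_lit 380) (nat_lit 0) (XT.lf (nat_lit 0) (nat_lit 10143617336) (nat_lit 380) (nat_lit 1565419313) (nat_lit 456) (nat_lit 5412445965) (nat_lit 152) (nat_lit 5) (nat_lit 157) (nat_lit 5) (nat_lit 158) (nat_lit 5) (nat_lit 629) (nat_lit 542) (nat_lit 389)) (XT.lf (nat_lit 0) (nat_lit 3412835735) (nat_lit 380) (nat_lit 12557050615) (nat_lit 456) (nat_lit 1360855675) (nat_lit 147) (nat_lit 5) (nat_lit 152) (nat_lit 5) (nat_lit 153) (nat_lit 5) (nat_lit 630) (nat_lit 542) (nat_lit 388)))) (XT.nd (nat_lit 156) (nat_lit 760) (nat_lit 0) (XT.nd (nat_lit 78) (nat_lit 380) (nat_lit 0) (XT.lf (nat_lit 0) (nat_lit 2781168409) (nat_lit 456) (nat_lit 3484098891) (nat_lit 76) (nat_lit 11277645287) (nat_lit 146) (nat_lit 5) (nat_lit 152) (nat_lit 5) (nat_lit 147) (nat_lit 5) (nat_lit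 631) (nat_lit 542) (nat_lit 387)) (XT.lf (nat_lit 0) (nat_lit 7024548017) (nat_lit 456) (nat_lit 10533368461) (nat_lit 76) (nat_lit 200496394) (nat_lit 141) (nat_lit 5) (nat_lit 147) (nat_lit 5) (nat_lit 142) (nat_lit 5) (nat_lit 632) (nat_lit 542) (nat_lit 386))) (XT.nd (nat_lit 78) (nat_lit 456) (nat_lit 0) (XT.lf (nat_lit 0) (nat_lit 160471158) (nat_lit 304) (nat_lit 11246945866) (nat_lit 380) (nat_lit 6569714636) (nat_lit 137) (nat_lit 5) (nat_lit 141) (nat_lit 5) (nat_lit 142) (nat_lit 5) (nat_lit 633) (nat_lit 542) (nat_lit 385)) (XT.nd (nat_lit 78) (nat_lit 456) (nat_lit 0) (XT.lf (nat_lit 0) (nat_lit 11193257776) (nat_lit 304) (nat_lit 4744032643) (nat_lit 380) (nat_lit 2261748380) (nat_lit 137) (nat_lit 5) (nat_lit 141) (nat_lit 5) (nat_lit 142) (nat_lit 5) (nat_lit 634) (nat_lit 542) (nat_lit 384)) (XT.lf (nat_lit 0) (nat_lit 2131959476) (nat_lit 456) (nat_lit 14394314571) (nat_lit 76) (nat_lit 1898283045)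 (nat_lit 131) (nat_lit 5) (nat_lit 137) (nat_lit 5) (nat_lit 132) (nat_lit 5) (nat_lit 635) (nat_lit 542) (nat_lit 383)))))) (XT.nd (nat_lit 74256) (nat_lit 0) (nat_lit 33896) (XT.nd (nat_lit 74022) (nat_lit 0) (nat_lit 35188) (XT.nd (nat_lit 73944) (nat_lit 0) (nat_lit 36404) (XT.lf (nat_lit 0) (nat_lit 6650902037) (nat_lit 456) (nat_lit 3335981946) (nat_lit 76) (nat_lit 8666050719) (nat_lit 131) (nat_lit 5) (nat_lit 137) (nat_lit 5) (nat_lit 132) (nat_lit 5) (nat_lit 636) (nat_lit 542) (nat_lit 382)) (XT.lf (nat_lit 0) (nat_lit 1721442093) (nat_lit 1292) (nat_lit 1002124910) (nat_lit 1292) (nat_lit 1002124910) (nat_lit 610) (nat_lit 3) (nat_lit 627) (nat_lit 3) (nat_lit 627) (nat_lit 5) (nat_lit 543) (nat_lit 543) (nat_lit 474))) (XT.nd (nat_lit 78) (nat_lit 1216) (nat_lit 0) (XT.lf (nat_lit 76) (nat_lit 1679232280) (nat_lit 0) (nat_lit 3280051771) (nat_lit 1292) (nat_lit 2536689214) (nat_lit 611) (nat_lit 5)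 (nat_lit 610) (nat_lit 3) (nat_lit 627) (nat_lit 5) (nat_lit 544) (nat_lit 543) (nat_lit 473)) (XT.nd (nat_lit 78) (nat_lit 1216) (nat_lit 0) (XT.lf (nat_lit 76) (nat_lit 5443607653) (nat_lit 0) (nat_lit 1037137687) (nat_lit 1292) (nat_lit 1061221957) (nat_lit 611) (nat_lit 5) (nat_lit 610) (nat_lit 3) (nat_lit 627) (nat_lit 5) (nat_lit 545) (nat_lit 543) (nat_lit 472)) (XT.lf (nat_lit 0) (nat_lit 419045105) (nat_lit 1292) (nat_lit 5904052593) (nat_lit 1368) (nat_lit 1266110864) (nat_lit 594) (nat_lit 5) (nat_lit 611) (nat_lit 5) (nat_lit 612) (nat_lit 5) (nat_lit 546) (nat_lit 543) (nat_lit 471))))) (XT.nd (nat_lit 156) (nat_lit 1292) (nat_lit 0) (XT.nd (nat_lit 78) (nat_lit 0) (nat_lit 0) (XT.lf (nat_lit 0) (nat_lit 1898282774) (nat_lit 1292) (nat_lit 2099127064) (nat_lit 1368) (nat_lit 3640180066) (nat_lit 594) (nat_lit 5) (nat_lit 611) (nat_lit 5) (nat_lit 612) (nat_lit 5) (nat_lit 547) (nat_lit 543) (nat_lit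 470)) (XT.lf (nat_lit 76) (nat_lit 1784904285) (nat_lit 0) (nat_lit 1597043550) (nat_lit 1368) (nat_lit 4305501090) (nat_lit 595) (nat_lit 5) (nat_lit 594) (nat_lit 5) (nat_lit 612) (nat_lit 5) (nat_lit 548) (nat_lit 543) (nat_lit 469))) (XT.nd (nat_lit 78) (nat_lit 1368) (nat_lit 0) (XT.lf (nat_lit 0) (nat_lit 4878939072) (nat_lit 1292) (nat_lit 1989674494) (nat_lit 1368) (nat_lit 870025274) (nat_lit 595) (nat_lit 5) (nat_lit 612) (nat_lit 5) (nat_lit 613) (nat_lit 5) (nat_lit 549) (nat_lit 543) (nat_lit 468)) (XT.nd (nat_lit 78) (nat_lit 1368) (nat_lit 0) (XT.lf (nat_lit 76) (nat_lit 1996372244) (nat_lit 0) (nat_lit 4397688992) (nat_lit 1368) (nat_lit 1397034133) (nat_lit 596) (nat_lit 5) (nat_lit 595) (nat_lit 5) (nat_lit 613) (nat_lit 5) (nat_lit 550) (nat_lit 543) (nat_lit 467)) (XT.lf (nat_lit 0) (nat_lit 72056299) (nat_lit 1368) (nat_lit 1776950869) (nat_lit 1444) (nat_lit 5996019600) (nat_lit 577) (nat_lit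 5) (nat_lit 595) (nat_lit 5) (nat_lit 596) (nat_lit 5) (nat_lit 551) (nat_lit 543) (nat_lit 466))))))) (XT.nd (nat_lit 702) (nat_lit 6080) (nat_lit 0) (XT.nd (nat_lit 312) (nat_lit 1368) (nat_lit 0) (XT.nd (nat_lit 156) (nat_lit 0) (nat_lit 0) (XT.nd (nat_lit 78) (nat_lit 0) (nat_lit 0) (XT.lf (nat_lit 0) (nat_lit 1537700587) (nat_lit 1368) (nat_lit 5583602564) (nat_lit 1444) (nat_lit 778837646) (nat_lit 578) (nat_lit 5) (nat_lit 596) (nat_lit 5) (nat_lit 597) (nat_lit 5) (nat_lit 552) (nat_lit 543) (nat_lit 465)) (XT.lf (nat_lit 0) (nat_lit 3023195410) (nat_lit 1368) (nat_lit 1473702154) (nat_lit 1444) (nat_lit 3459654921) (nat_lit 578) (nat_lit 5) (nat_lit 596) (nat_lit 5) (nat_lit 597) (nat_lit 5) (nat_lit 553) (nat_lit 543) (nat_lit 464))) (XT.nd (nat_lit 78) (nat_lit 0) (nat_lit 76) (XT.lf (nat_lit 76) (nat_lit 2733418440) (nat_lit 0) (nat_lit 1789679172) (nat_lit 1444) (nat_lit 3491306857) (nat_lit 579) (nat_lit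 5) (nat_lit 578) (nat_lit 5) (nat_lit 597) (nat_lit 5) (nat_lit 554) (nat_lit 543) (nat_lit 463)) (XT.lf (nat_lit 0) (nat_lit 6036802410) (nat_lit 1368) (nat_lit 1056355750) (nat_lit 1444) (nat_lit 980585136) (nat_lit 579) (nat_lit 5) (nat_lit 597) (nat_lit 5) (nat_lit 598) (nat_lit 5) (nat_lit 555) (nat_lit 543) (nat_lit 462)))) (XT.nd (nat_lit 156) (nat_lit 0) (nat_lit 76) (XT.nd (nat_lit 78) (nat_lit 1444) (nat_lit 0) (XT.lf (nat_lit 76) (nat_lit 3262702349) (nat_lit 0) (nat_lit 4319292141) (nat_lit 1444) (nat_lit 552255924) (nat_lit 580) (nat_lit 5) (nat_lit 579) (nat_lit 5) (nat_lit 598) (nat_lit 5) (nat_lit 556) (nat_lit 543) (nat_lit 461)) (XT.lf (nat_lit 0) (nat_lit 925092753) (nat_lit 1444) (nat_lit 540948945) (nat_lit 1520) (nat_lit 6730294828) (nat_lit 560) (nat_lit 5) (nat_lit 579) (nat_lit 5) (nat_lit 580) (nat_lit 5) (nat_lit 557) (nat_lit 543) (nat_lit 460))) (XT.nd (nat_lit 78) (nat_lit 0) (nat_lit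 0) (XT.lf (nat_lit 0) (nat_lit 2428646816) (nat_lit 1444) (nat_lit 4366423307) (nat_lit 1520) (nat_lit 1464445611) (nat_lit 561) (nat_lit 5) (nat_lit 580) (nat_lit 5) (nat_lit 581) (nat_lit 5) (nat_lit 558) (nat_lit 543) (nat_lit 459)) (XT.nd (nat_lit 78) (nat_lit 0) (nat_lit 0) (XT.lf (nat_lit 76) (nat_lit 69020730) (nat_lit 0) (nat_lit 3876668623) (nat_lit 1520) (nat_lit 4378606164) (nat_lit 562) (nat_lit 5) (nat_lit 561) (nat_lit 5) (nat_lit 581) (nat_lit 5) (nat_lit 559) (nat_lit 543) (nat_lit 458)) (XT.lf (nat_lit 76) (nat_lit 4631089570) (nat_lit 0) (nat_lit 861348299) (nat_lit 1520) (nat_lit 2897950958) (nat_lit 562) (nat_lit 5) (nat_lit 561) (nat_lit 5) (nat_lit 581) (nat_lit 5) (nat_lit 560) (nat_lit 543) (nat_lit 457)))))) (XT.nd (nat_lit 390) (nat_lit 4712) (nat_lit 0) (XT.nd (nat_lit 156) (nat_lit 0) (nat_lit 0) (XT.nd (nat_lit 78) (nat_lit 1520) (nat_lit 0) (XT.lf (nat_lit 76) (nat_lit 801225177) (nat_lit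 0) (nat_lit 6259181084) (nat_lit 1520) (nat_lit 1397597175) (nat_lit 563) (nat_lit 5) (nat_lit 562) (nat_lit 5) (nat_lit 582) (nat_lit 5) (nat_lit 561) (nat_lit 543) (nat_lit 456)) (XT.lf (nat_lit 0) (nat_lit 133066575) (nat_lit 1520) (nat_lit 3051032594) (nat_lit 1596) (nat_lit 5342817980) (nat_lit 542) (nat_lit 5) (nat_lit 562) (nat_lit 5) (nat_lit 563) (nat_lit 5) (nat_lit 562) (nat_lit 543) (nat_lit 455))) (XT.nd (nat_lit 78) (nat_lit 0) (nat_lit 76) (XT.lf (nat_lit 76) (nat_lit 1637726117) (nat_lit 0) (nat_lit 20069920) (nat_lit 1596) (nat_lit 6939589845) (nat_lit 543) (nat_lit 5) (nat_lit 542) (nat_lit 5) (nat_lit 563) (nat_lit 5) (nat_lit 563) (nat_lit 543) (nat_lit 454)) (XT.nd (nat_lit 78) (nat_lit 0) (nat_lit 0) (XT.lf (nat_lit 0) (nat_lit 3226434438) (nat_lit 1520) (nat_lit 2249991777) (nat_lit 1596) (nat_lit 3192574229) (nat_lit 543) (nat_lit 5) (nat_lit 563) (nat_lit 5) (nat_lit 564) (nat_lit 5) (nat_lit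 564) (nat_lit 543) (nat_lit 453)) (XT.lf (nat_lit 76) (nat_lit 2566022166) (nat_lit 0) (nat_lit 2249747256) (nat_lit 1596) (nat_lit 3926496045) (nat_lit 544) (nat_lit 5) (nat_lit 543) (nat_lit 5) (nat_lit 564) (nat_lit 5) (nat_lit 565) (nat_lit 543) (nat_lit 452))))) (XT.nd (nat_lit 156) (nat_lit 3344) (nat_lit 0) (XT.nd (nat_lit 78) (nat_lit 1520) (nat_lit 0) (XT.lf (nat_lit 0) (nat_lit 6431820908) (nat_lit 1520) (nat_lit 1336511679) (nat_lit 76) (nat_lit 1048769164) (nat_lit 544) (nat_lit 5) (nat_lit 564) (nat_lit 5) (nat_lit 545) (nat_lit 5) (nat_lit 566) (nat_lit 543) (nat_lit 451)) (XT.lf (nat_lit 0) (nat_lit 3611091778) (nat_lit 1520) (nat_lit 4480945549) (nat_lit 1596) (nat_lit 801165024) (nat_lit 524) (nat_lit 5) (nat_lit 544) (nat_lit 5) (nat_lit 545) (nat_lit 5) (nat_lit 567) (nat_lit 543) (nat_lit 450))) (XT.nd (nat_lit 78) (nat_lit 3268) (nat_lit 0) (XT.lf (nat_lit 0) (nat_lit 786680856) (nat_lit 1596)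 (nat_lit 321827049) (nat_lit 76) (nat_lit 7862560931) (nat_lit 523) (nat_lit 5) (nat_lit 544) (nat_lit 5) (nat_lit 524) (nat_lit 5) (nat_lit 568) (nat_lit 543) (nat_lit 449)) (XT.nd (nat_lit 78) (nat_lit 1672) (nat_lit 0) (XT.lf (nat_lit 0) (nat_lit 2416187202) (nat_lit 1672) (nat_lit 4291901609) (nat_lit 76) (nat_lit 2341889514) (nat_lit 502) (nat_lit 5) (nat_lit 524) (nat_lit 5) (nat_lit 503) (nat_lit 5) (nat_lit 569) (nat_lit 543) (nat_lit 448)) (XT.lf (nat_lit 0) (nat_lit 795014528) (nat_lit 1672) (nat_lit 3272562634) (nat_lit 1748) (nat_lit 5063107098) (nat_lit 480) (nat_lit 5) (nat_lit 502) (nat_lit 5) (nat_lit 503) (nat_lit 5) (nat_lit 570) (nat_lit 543) (nat_lit 447))))))))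
noncomputable def xc128 : XT := (XT.nd (nat_lit 1404) (nat_lit 7524) (nat_lit 0) (XT.nd (nat_lit 702) (nat_lit 4104) (nat_lit 0) (XT.nd (nat_lit 312) (nat_lit 2888) (nat_lit 0) (XT.nd (nat_lit 156) (nat_lit 1748) (nat_lit 0) (XT.nd (nat_lit 78) (nat_lit 1748) (nat_lit 0) (XT.lf (nat_lit 0) (nat_lit 5757489314) (nat_lit 1748) (nat_lit 3194237300) (nat_lit 76) (nat_lit 261171858) (nat_lit 480) (nat_lit 5) (nat_lit 503) (nat_lit 5) (nat_lit 481) (nat_lit 5) (nat_lit 571) (nat_lit 543) (nat_lit 446)) (XT.lf (nat_lit 0) (nat_lit 2033490447) (nat_lit 1748) (nat_lit 5458073412) (nat_lit 1824) (nat_lit 1804989792) (nat_lit 457) (nat_lit 5) (nat_lit 480) (nat_lit 5) (nat_lit 481) (nat_lit 5) (nat_lit 572) (nat_lit 543) (nat_lit 445))) (XT.nd (nat_lit 78) (nat_lit 1748) (nat_lit 0) (XT.lf (nat_lit 0) (nat_lit 7387682798) (nat_lit 1748) (nat_lit 1869902636) (nat_lit 1824) (nat_lit 124355079) (nat_lit 457) (nat_lit 5) (nat_lit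 480) (nat_lit 5) (nat_lit 481) (nat_lit 5) (nat_lit 573) (nat_lit 543) (nat_lit 444)) (XT.lf (nat_lit 0) (nat_lit 1579065693) (nat_lit 1748) (nat_lit 6087913461) (nat_lit 76) (nat_lit 1801652740) (nat_lit 434) (nat_lit 5) (nat_lit 457) (nat_lit 5) (nat_lit 435) (nat_lit 5) (nat_lit 574) (nat_lit 543) (nat_lit 443)))) (XT.nd (nat_lit 156) (nat_lit 1900) (nat_lit 0) (XT.nd (nat_lit 78) (nat_lit 988) (nat_lit 0) (XT.lf (nat_lit 0) (nat_lit 3317235554) (nat_lit 1748) (nat_lit 701497896) (nat_lit 76) (nat_lit 5538263962) (nat_lit 434) (nat_lit 5) (nat_lit 457) (nat_lit 5) (nat_lit 435) (nat_lit 5) (nat_lit 575) (nat_lit 543) (nat_lit 442)) (XT.lf (nat_lit 0) (nat_lit 4834840478) (nat_lit 988) (nat_lit 263669936) (nat_lit 1064) (nat_lit 4548456587) (nat_lit 421) (nat_lit 5) (nat_lit 434) (nat_lit 5) (nat_lit 435) (nat_lit 5) (nat_lit 576) (nat_lit 543) (nat_lit 441))) (XT.nd (nat_lit 78) (nat_lit 988) (nat_lit 0) (XT.lf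 (nat_lit 0) (nat_lit 717450336) (nat_lit 912) (nat_lit 6207789737) (nat_lit 988) (nat_lit 2813302847) (nat_lit 409) (nat_lit 5) (nat_lit 421) (nat_lit 5) (nat_lit 422) (nat_lit 5) (nat_lit 577) (nat_lit 543) (nat_lit 440)) (XT.nd (nat_lit 78) (nat_lit 988) (nat_lit 0) (XT.lf (nat_lit 0) (nat_lit 6399676049) (nat_lit 912) (nat_lit 2400437935) (nat_lit 988) (nat_lit 1031607631) (nat_lit 409) (nat_lit 5) (nat_lit 421) (nat_lit 5) (nat_lit 422) (nat_lit 5) (nat_lit 578) (nat_lit 543) (nat_lit 439)) (XT.lf (nat_lit 0) (nat_lit 777808981) (nat_lit 988) (nat_lit 7664378013) (nat_lit 76) (nat_lit 1484430334) (nat_lit 396) (nat_lit 5) (nat_lit 409) (nat_lit 5) (nat_lit 397) (nat_lit 5) (nat_lit 579) (nat_lit 543) (nat_lit 438)))))) (XT.nd (nat_lit 312) (nat_lit 2432) (nat_lit 0) (XT.nd (nat_lit 156) (nat_lit 836) (nat_lit 0) (XT.nd (nat_lit 78) (nat_lit 836) (nat_lit 0) (XT.lf (nat_lit 0) (nat_lit 2626868717) (nat_lit 988)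 (nat_lit 1950484441) (nat_lit 76) (nat_lit 5445579311) (nat_lit 396) (nat_lit 5) (nat_lit 409) (nat_lit 5) (nat_lit 397) (nat_lit 5) (nat_lit 580) (nat_lit 543) (nat_lit 437)) (XT.lf (nat_lit 0) (nat_lit 3907776449) (nat_lit 836) (nat_lit 609107831) (nat_lit 912) (nat_lit 5604213332) (nat_lit 385) (nat_lit 5) (nat_lit 396) (nat_lit 5) (nat_lit 397) (nat_lit 5) (nat_lit 581) (nat_lit 543) (nat_lit 436))) (XT.nd (nat_lit 78) (nat_lit 836) (nat_lit 0) (XT.lf (nat_lit 0) (nat_lit 6459087064) (nat_lit 912) (nat_lit 355182640) (nat_lit 76) (nat_lit 3406671742) (nat_lit 385) (nat_lit 5) (nat_lit 397) (nat_lit 5) (nat_lit 386) (nat_lit 5) (nat_lit 582) (nat_lit 543) (nat_lit 435)) (XT.lf (nat_lit 0) (nat_lit 5669412218) (nat_lit 836) (nat_lit 2790865501) (nat_lit 912) (nat_lit 1862104629) (nat_lit 374) (nat_lit 5) (nat_lit 385) (nat_lit 5) (nat_lit 386) (nat_lit 5) (nat_lit 583) (nat_lit 543) (nat_lit 434)))) (XT.nd (nat_lit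 156) (nat_lit 1596) (nat_lit 0) (XT.nd (nat_lit 78) (nat_lit 0) (nat_lit 0) (XT.lf (nat_lit 0) (nat_lit 74104899) (nat_lit 836) (nat_lit 9044560636) (nat_lit 76) (nat_lit 1307190521) (nat_lit 363) (nat_lit 5) (nat_lit 374) (nat_lit 5) (nat_lit 364) (nat_lit 5) (nat_lit 584) (nat_lit 543) (nat_lit 433)) (XT.lf (nat_lit 0) (nat_lit 2053736000) (nat_lit 836) (nat_lit 2983908247) (nat_lit 76) (nat_lit 5492919091) (nat_lit 363) (nat_lit 5) (nat_lit 374) (nat_lit 5) (nat_lit 364) (nat_lit 5) (nat_lit 585) (nat_lit 543) (nat_lit 432))) (XT.nd (nat_lit 78) (nat_lit 760) (nat_lit 0) (XT.lf (nat_lit 0) (nat_lit 3219166498) (nat_lit 836) (nat_lit 854786782) (nat_lit 912) (nat_lit 6563394447) (nat_lit 352) (nat_lit 5) (nat_lit 363) (nat_lit 5) (nat_lit 364) (nat_lit 5) (nat_lit 586) (nat_lit 543) (nat_lit 431)) (XT.nd (nat_lit 78) (nat_lit 760) (nat_lit 0) (XT.lf (nat_lit 0) (nat_lit 6157221804) (nat_lit 912) (nat_lit 1202661058)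 (nat_lit 76) (nat_lit 3385934782) (nat_lit 352) (nat_lit 5) (nat_lit 364) (nat_lit 5) (nat_lit 353) (nat_lit 5) (nat_lit 587) (nat_lit 543) (nat_lit 430)) (XT.lf (nat_lit 0) (nat_lit 5178583278) (nat_lit 760) (nat_lit 3123581053) (nat_lit 836) (nat_lit 2553895178) (nat_lit 342) (nat_lit 5) (nat_lit 352) (nat_lit 5) (nat_lit 353) (nat_lit 5) (nat_lit 588) (nat_lit 543) (nat_lit 429))))))) (XT.nd (nat_lit 702) (nat_lit 3800) (nat_lit 0) (XT.nd (nat_lit 312) (nat_lit 2204) (nat_lit 0) (XT.nd (nat_lit 156) (nat_lit 684) (nat_lit 0) (XT.nd (nat_lit 78) (nat_lit 76) (nat_lit 0) (XT.lf (nat_lit 0) (nat_lit 715892329) (nat_lit 760) (nat_lit 9775617608) (nat_lit 836) (nat_lit 476968860) (nat_lit 332) (nat_lit 5) (nat_lit 342) (nat_lit 5) (nat_lit 343) (nat_lit 5) (nat_lit 589) (nat_lit 543) (nat_lit 428)) (XT.lf (nat_lit 0) (nat_lit 1660072528) (nat_lit 836) (nat_lit 3821086740) (nat_lit 76) (nat_lit 5600974513) (nat_lit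 331) (nat_lit 5) (nat_lit 342) (nat_lit 5) (nat_lit 332) (nat_lit 5) (nat_lit 590) (nat_lit 543) (nat_lit 427))) (XT.nd (nat_lit 78) (nat_lit 0) (nat_lit 0) (XT.lf (nat_lit 0) (nat_lit 2751187911) (nat_lit 684) (nat_lit 1081587872) (nat_lit 760) (nat_lit 7365239387) (nat_lit 322) (nat_lit 5) (nat_lit 331) (nat_lit 5) (nat_lit 332) (nat_lit 5) (nat_lit 591) (nat_lit 543) (nat_lit 426)) (XT.lf (nat_lit 0) (nat_lit 6078512326) (nat_lit 760) (nat_lit 1852277167) (nat_lit 76) (nat_lit 3384835578) (nat_lit 322) (nat_lit 5) (nat_lit 332) (nat_lit 5) (nat_lit 323) (nat_lit 5) (nat_lit 592) (nat_lit 543) (nat_lit 425)))) (XT.nd (nat_lit 156) (nat_lit 760) (nat_lit 0) (XT.nd (nat_lit 78) (nat_lit 684) (nat_lit 0) (XT.lf (nat_lit 0) (nat_lit 4910823069) (nat_lit 760) (nat_lit 3479401467) (nat_lit 836) (nat_lit 3044943833) (nat_lit 312) (nat_lit 5) (nat_lit 322) (nat_lit 5) (nat_lit 323) (nat_lit 5) (nat_lit 593) (nat_lit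 543) (nat_lit 424)) (XT.lf (nat_lit 0) (nat_lit 252997248) (nat_lit 684) (nat_lit 10498433515) (nat_lit 760) (nat_lit 805608943) (nat_lit 303) (nat_lit 5) (nat_lit 312) (nat_lit 5) (nat_lit 313) (nat_lit 5) (nat_lit 594) (nat_lit 543) (nat_lit 423))) (XT.nd (nat_lit 78) (nat_lit 684) (nat_lit 0) (XT.lf (nat_lit 0) (nat_lit 1508548049) (nat_lit 760) (nat_lit 4479968571) (nat_lit 76) (nat_lit 5691653612) (nat_lit 302) (nat_lit 5) (nat_lit 312) (nat_lit 5) (nat_lit 303) (nat_lit 5) (nat_lit 595) (nat_lit 543) (nat_lit 422)) (XT.nd (nat_lit 78) (nat_lit 0) (nat_lit 0) (XT.lf (nat_lit 0) (nat_lit 2487394081) (nat_lit 684) (nat_lit 1369625944) (nat_lit 760) (nat_lit 7948662696) (nat_lit 293) (nat_lit 5) (nat_lit 302) (nat_lit 5) (nat_lit 303) (nat_lit 5) (nat_lit 596) (nat_lit 543) (nat_lit 421)) (XT.lf (nat_lit 0) (nat_lit 6287265761) (nat_lit 760) (nat_lit 2320837743) (nat_lit 76) (nat_lit 3324908061) (nat_lit 293)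 (nat_lit 5) (nat_lit 303) (nat_lit 5) (nat_lit 294) (nat_lit 5) (nat_lit 597) (nat_lit 543) (nat_lit 420)))))) (XT.nd (nat_lit 390) (nat_lit 1824) (nat_lit 0) (XT.nd (nat_lit 156) (nat_lit 1368) (nat_lit 0) (XT.nd (nat_lit 78) (nat_lit 0) (nat_lit 0) (XT.lf (nat_lit 0) (nat_lit 4850847392) (nat_lit 608) (nat_lit 3939016777) (nat_lit 684) (nat_lit 3272550008) (nat_lit 285) (nat_lit 5) (nat_lit 293) (nat_lit 5) (nat_lit 294) (nat_lit 5) (nat_lit 598) (nat_lit 543) (nat_lit 419)) (XT.lf (nat_lit 0) (nat_lit 11346896840) (nat_lit 684) (nat_lit 22559596) (nat_lit 76) (nat_lit 824862864) (nat_lit 285) (nat_lit 5) (nat_lit 294) (nat_lit 5) (nat_lit 286) (nat_lit 5) (nat_lit 599) (nat_lit 543) (nat_lit 418))) (XT.nd (nat_lit 78) (nat_lit 608) (nat_lit 0) (XT.lf (nat_lit 0) (nat_lit 1662820147) (nat_lit 760) (nat_lit 4978017037) (nat_lit 76) (nat_lit 5686657385) (nat_lit 275) (nat_lit 5) (nat_lit 285) (nat_lit 5) (nat_lit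 276) (nat_lit 5) (nat_lit 600) (nat_lit 543) (nat_lit 417)) (XT.nd (nat_lit 78) (nat_lit 0) (nat_lit 0) (XT.lf (nat_lit 0) (nat_lit 2411821767) (nat_lit 608) (nat_lit 1799687868) (nat_lit 684) (nat_lit 8251721884) (nat_lit 267) (nat_lit 5) (nat_lit 275) (nat_lit 5) (nat_lit 276) (nat_lit 5) (nat_lit 601) (nat_lit 543) (nat_lit 416)) (XT.lf (nat_lit 0) (nat_lit 6849104774) (nat_lit 684) (nat_lit 2624968772) (nat_lit 76) (nat_lit 3126852968) (nat_lit 267) (nat_lit 5) (nat_lit 276) (nat_lit 5) (nat_lit 268) (nat_lit 5) (nat_lit 602) (nat_lit 543) (nat_lit 415))))) (XT.nd (nat_lit 156) (nat_lit 1216) (nat_lit 0) (XT.nd (nat_lit 78) (nat_lit 0) (nat_lit 0) (XT.lf (nat_lit 0) (nat_lit 4983548289) (nat_lit 608) (nat_lit 4584423291) (nat_lit 684) (nat_lit 3172835340) (nat_lit 259) (nat_lit 5) (nat_lit 267) (nat_lit 5) (nat_lit 268) (nat_lit 5) (nat_lit 603) (nat_lit 543) (nat_lit 414)) (XT.lf (nat_lit 0) (nat_lit 12345962184)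 (nat_lit 684) (nat_lit 126097818) (nat_lit 76) (nat_lit 411331872) (nat_lit 259) (nat_lit 5) (nat_lit 268) (nat_lit 5) (nat_lit 260) (nat_lit 5) (nat_lit 604) (nat_lit 543) (nat_lit 413))) (XT.nd (nat_lit 78) (nat_lit 608) (nat_lit 0) (XT.lf (nat_lit 0) (nat_lit 2188021883) (nat_lit 608) (nat_lit 5333151785) (nat_lit 76) (nat_lit 5506066494) (nat_lit 251) (nat_lit 5) (nat_lit 259) (nat_lit 5) (nat_lit 252) (nat_lit 5) (nat_lit 605) (nat_lit 543) (nat_lit 412)) (XT.nd (nat_lit 78) (nat_lit 0) (nat_lit 0) (XT.lf (nat_lit 0) (nat_lit 2508036375) (nat_lit 608) (nat_lit 2454667619) (nat_lit 684) (nat_lit 8211153780) (nat_lit 243) (nat_lit 5) (nat_lit 251) (nat_lit 5) (nat_lit 252) (nat_lit 5) (nat_lit 606) (nat_lit 543) (nat_lit 411)) (XT.lf (nat_lit 0) (nat_lit 7831437770) (nat_lit 684) (nat_lit 2782078877) (nat_lit 76) (nat_lit 2709121659) (nat_lit 243) (nat_lit 5) (nat_lit 252) (nat_lit 5) (nat_lit 244) (nat_lit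 5) (nat_lit 607) (nat_lit 543) (nat_lit 410))))))))
noncomputable def xc129 : XT := (XT.nd (nat_lit 1482) (nat_lit 2432) (nat_lit 0) (XT.nd (nat_lit 702) (nat_lit 2812) (nat_lit 0) (XT.nd (nat_lit 312) (nat_lit 1596) (nat_lit 0) (XT.nd (nat_lit 156) (nat_lit 1064) (nat_lit 0) (XT.nd (nat_lit 78) (nat_lit 76) (nat_lit 0) (XT.lf (nat_lit 0) (nat_lit 5293016199) (nat_lit 532) (nat_lit 5500364681) (nat_lit 608) (nat_lit 2680298567) (nat_lit 236) (nat_lit 5) (nat_lit 243) (nat_lit 5) (nat_lit 244) (nat_lit 5) (nat_lit 608) (nat_lit 543) (nat_lit 409)) (XT.lf (nat_lit 0) (nat_lit 188442696) (nat_lit 608) (nat_lit 80933798) (nat_lit 76) (nat_lit 13358260856) (nat_lit 235) (nat_lit 5) (nat_lit 243) (nat_lit 5) (nat_lit 236) (nat_lit 5) (nat_lit 609) (nat_lit 543) (nat_lit 408))) (XT.nd (nat_lit 78) (nat_lit 532) (nat_lit 0) (XT.lf (nat_lit 0) (nat_lit 3151183422) (nat_lit 608) (nat_lit 5564776125) (nat_lit 76) (nat_lit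 5066911847) (nat_lit 228) (nat_lit 5) (nat_lit 236) (nat_lit 5) (nat_lit 229) (nat_lit 5) (nat_lit 610) (nat_lit 543) (nat_lit 407)) (XT.lf (nat_lit 0) (nat_lit 2758087335) (nat_lit 532) (nat_lit 3421025238) (nat_lit 608) (nat_lit 7761980438) (nat_lit 221) (nat_lit 5) (nat_lit 228) (nat_lit 5) (nat_lit 229) (nat_lit 5) (nat_lit 611) (nat_lit 543) (nat_lit 406)))) (XT.nd (nat_lit 156) (nat_lit 1064) (nat_lit 0) (XT.nd (nat_lit 78) (nat_lit 532) (nat_lit 0) (XT.lf (nat_lit 0) (nat_lit 9303863395) (nat_lit 608) (nat_lit 2811419230) (nat_lit 76) (nat_lit 1986472706) (nat_lit 221) (nat_lit 5) (nat_lit 229) (nat_lit 5) (nat_lit 222) (nat_lit 5) (nat_lit 612) (nat_lit 543) (nat_lit 405)) (XT.lf (nat_lit 0) (nat_lit 5761461075) (nat_lit 532) (nat_lit 6775808224) (nat_lit 608) (nat_lit 1727439900) (nat_lit 214) (nat_lit 5) (nat_lit 221) (nat_lit 5) (nat_lit 222) (nat_lit 5) (nat_lit 613) (nat_lit 543) (nat_lit 404))) (XT.nd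 (nat_lit 78) (nat_lit 532) (nat_lit 0) (XT.lf (nat_lit 0) (nat_lit 86145300) (nat_lit 456) (nat_lit 1305561272) (nat_lit 532) (nat_lit 13038920557) (nat_lit 207) (nat_lit 5) (nat_lit 213) (nat_lit 5) (nat_lit 214) (nat_lit 5) (nat_lit 614) (nat_lit 543) (nat_lit 403)) (XT.nd (nat_lit 78) (nat_lit 532) (nat_lit 0) (XT.lf (nat_lit 0) (nat_lit 4621584815) (nat_lit 532) (nat_lit 5694920159) (nat_lit 76) (nat_lit 4281701907) (nat_lit 207) (nat_lit 5) (nat_lit 214) (nat_lit 5) (nat_lit 208) (nat_lit 5) (nat_lit 615) (nat_lit 543) (nat_lit 402)) (XT.lf (nat_lit 0) (nat_lit 3141342573) (nat_lit 532) (nat_lit 4790297324) (nat_lit 608) (nat_lit 6837188134) (nat_lit 200) (nat_lit 5) (nat_lit 207) (nat_lit 5) (nat_lit 208) (nat_lit 5) (nat_lit 616) (nat_lit 543) (nat_lit 401)))))) (XT.nd (nat_lit 390) (nat_lit 1368) (nat_lit 0) (XT.nd (nat_lit 156) (nat_lit 988) (nat_lit 0) (XT.nd (nat_lit 78) (nat_lit 456) (nat_lit 0) (XT.lf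 (nat_lit 0) (nat_lit 11338505564) (nat_lit 608) (nat_lit 2735271363) (nat_lit 76) (nat_lit 868473849) (nat_lit 200) (nat_lit 5) (nat_lit 208) (nat_lit 5) (nat_lit 201) (nat_lit 5) (nat_lit 617) (nat_lit 543) (nat_lit 400)) (XT.lf (nat_lit 0) (nat_lit 6368000188) (nat_lit 456) (nat_lit 8505484198) (nat_lit 532) (nat_lit 244459408) (nat_lit 194) (nat_lit 5) (nat_lit 200) (nat_lit 5) (nat_lit 201) (nat_lit 5) (nat_lit 618) (nat_lit 543) (nat_lit 399))) (XT.nd (nat_lit 78) (nat_lit 456) (nat_lit 0) (XT.lf (nat_lit 0) (nat_lit 358924133) (nat_lit 456) (nat_lit 2789118887) (nat_lit 532) (nat_lit 12148540468) (nat_lit 187) (nat_lit 5) (nat_lit 193) (nat_lit 5) (nat_lit 194) (nat_lit 5) (nat_lit 619) (nat_lit 543) (nat_lit 398)) (XT.nd (nat_lit 78) (nat_lit 456) (nat_lit 0) (XT.lf (nat_lit 0) (nat_lit 6671034469) (nat_lit 532) (nat_lit 5749533641) (nat_lit 76) (nat_lit 3056878562) (nat_lit 187) (nat_lit 5) (nat_lit 194)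 (nat_lit 5) (nat_lit 188) (nat_lit 5) (nat_lit 620) (nat_lit 543) (nat_lit 397)) (XT.lf (nat_lit 0) (nat_lit 3633167253) (nat_lit 456) (nat_lit 6660687949) (nat_lit 532) (nat_lit 5367485762) (nat_lit 181) (nat_lit 5) (nat_lit 187) (nat_lit 5) (nat_lit 188) (nat_lit 5) (nat_lit 621) (nat_lit 543) (nat_lit 396))))) (XT.nd (nat_lit 156) (nat_lit 836) (nat_lit 0) (XT.nd (nat_lit 78) (nat_lit 532) (nat_lit 0) (XT.lf (nat_lit 0) (nat_lit 13263213445) (nat_lit 456) (nat_lit 751941211) (nat_lit 532) (nat_lit 1833239247) (nat_lit 181) (nat_lit 5) (nat_lit 187) (nat_lit 5) (nat_lit 188) (nat_lit 5) (nat_lit 622) (nat_lit 543) (nat_lit 395)) (XT.lf (nat_lit 0) (nat_lit 1816818697) (nat_lit 532) (nat_lit 8962507363) (nat_lit 76) (nat_lit 5258265693) (nat_lit 174) (nat_lit 5) (nat_lit 181) (nat_lit 5) (nat_lit 175) (nat_lit 5) (nat_lit 623) (nat_lit 543) (nat_lit 394))) (XT.nd (nat_lit 78) (nat_lit 456) (nat_lit 0) (XT.lf (nat_lit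 0) (nat_lit 707267078) (nat_lit 380) (nat_lit 4822814509) (nat_lit 456) (nat_lit 10699955740) (nat_lit 169) (nat_lit 5) (nat_lit 174) (nat_lit 5) (nat_lit 175) (nat_lit 5) (nat_lit 624) (nat_lit 543) (nat_lit 393)) (XT.nd (nat_lit 78) (nat_lit 456) (nat_lit 0) (XT.lf (nat_lit 0) (nat_lit 9374065022) (nat_lit 456) (nat_lit 5759967047) (nat_lit 76) (nat_lit 1291171754) (nat_lit 169) (nat_lit 5) (nat_lit 175) (nat_lit 5) (nat_lit 170) (nat_lit 5) (nat_lit 625) (nat_lit 543) (nat_lit 392)) (XT.lf (nat_lit 0) (nat_lit 4203407210) (nat_lit 456) (nat_lit 9138770667) (nat_lit 532) (nat_lit 3281151873) (nat_lit 163) (nat_lit 5) (nat_lit 169) (nat_lit 5) (nat_lit 170) (nat_lit 5) (nat_lit 626) (nat_lit 543) (nat_lit 391))))))) (XT.nd (nat_lit 702) (nat_lit 456) (nat_lit 0) (XT.nd (nat_lit 312) (nat_lit 1140) (nat_lit 0) (XT.nd (nat_lit 156) (nat_lit 380) (nat_lit 0) (XT.nd (nat_lit 78) (nat_lit 380) (nat_lit 0) (XT.lf (nat_lit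 0) (nat_lit 583802433) (nat_lit 532) (nat_lit 2402354114) (nat_lit 76) (nat_lit 13838650079) (nat_lit 162) (nat_lit 5) (nat_lit 169) (nat_lit 5) (nat_lit 163) (nat_lit 5) (nat_lit 627) (nat_lit 543) (nat_lit 390)) (XT.lf (nat_lit 0) (nat_lit 4543417725) (nat_lit 456) (nat_lit 9171279148) (nat_lit 76) (nat_lit 3313957499) (nat_lit 157) (nat_lit 5) (nat_lit 163) (nat_lit 5) (nat_lit 158) (nat_lit 5) (nat_lit 628) (nat_lit 543) (nat_lit 389))) (XT.nd (nat_lit 78) (nat_lit 0) (nat_lit 0) (XT.lf (nat_lit 0) (nat_lit 1095447052) (nat_lit 380) (nat_lit 7518265963) (nat_lit 456) (nat_lit 8622237317) (nat_lit 152) (nat_lit 5) (nat_lit 157) (nat_lit 5) (nat_lit 158) (nat_lit 5) (nat_lit 629) (nat_lit 543) (nat_lit 388)) (XT.lf (nat_lit 0) (nat_lit 11674298621) (nat_lit 380) (nat_lit 1141145531) (nat_lit 456) (nat_lit 4630948451) (nat_lit 152) (nat_lit 5) (nat_lit 157) (nat_lit 5) (nat_lit 158) (nat_lit 5) (nat_lit 630) (nat_lit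 543) (nat_lit 387)))) (XT.nd (nat_lit 156) (nat_lit 684) (nat_lit 0) (XT.nd (nat_lit 78) (nat_lit 76) (nat_lit 0) (XT.lf (nat_lit 0) (nat_lit 4814631723) (nat_lit 380) (nat_lit 12341334802) (nat_lit 456) (nat_lit 503983036) (nat_lit 147) (nat_lit 5) (nat_lit 152) (nat_lit 5) (nat_lit 153) (nat_lit 5) (nat_lit 631) (nat_lit 543) (nat_lit 386)) (XT.lf (nat_lit 0) (nat_lit 3692178793) (nat_lit 456) (nat_lit 2234950986) (nat_lit 76) (nat_lit 11949462525) (nat_lit 146) (nat_lit 5) (nat_lit 152) (nat_lit 5) (nat_lit 147) (nat_lit 5) (nat_lit 632) (nat_lit 543) (nat_lit 385))) (XT.nd (nat_lit 78) (nat_lit 304) (nat_lit 0) (XT.lf (nat_lit 0) (nat_lit 8015166395) (nat_lit 456) (nat_lit 9419876944) (nat_lit 76) (nat_lit 661465835) (nat_lit 141) (nat_lit 5) (nat_lit 147) (nat_lit 5) (nat_lit 142) (nat_lit 5) (nat_lit 633) (nat_lit 543) (nat_lit 384)) (XT.nd (nat_lit 78) (nat_lit 0) (nat_lit 0) (XT.lf (nat_lit 0) (nat_lit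 1479127896) (nat_lit 304) (nat_lit 10998436478) (nat_lit 380) (nat_lit 5842201893) (nat_lit 137) (nat_lit 5) (nat_lit 141) (nat_lit 5) (nat_lit 142) (nat_lit 5) (nat_lit 634) (nat_lit 543) (nat_lit 383)) (XT.lf (nat_lit 0) (nat_lit 12706777162) (nat_lit 304) (nat_lit 4374748292) (nat_lit 380) (nat_lit 1464917626) (nat_lit 137) (nat_lit 5) (nat_lit 141) (nat_lit 5) (nat_lit 142) (nat_lit 5) (nat_lit 635) (nat_lit 543) (nat_lit 382)))))) (XT.nd (nat_lit 74334) (nat_lit 0) (nat_lit 33896) (XT.nd (nat_lit 74100) (nat_lit 0) (nat_lit 35112) (XT.nd (nat_lit 74022) (nat_lit 0) (nat_lit 36404) (XT.lf (nat_lit 0) (nat_lit 3000761489) (nat_lit 456) (nat_lit 13376514210) (nat_lit 76) (nat_lit 2399185158) (nat_lit 131) (nat_lit 5) (nat_lit 137) (nat_lit 5) (nat_lit 132) (nat_lit 5) (nat_lit 636) (nat_lit 543) (nat_lit 381)) (XT.lf (nat_lit 0) (nat_lit 3217388117) (nat_lit 1292) (nat_lit 276652080) (nat_lit 1292) (nat_lit 276652080)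 (nat_lit 610) (nat_lit 3) (nat_lit 627) (nat_lit 3) (nat_lit 627) (nat_lit 5) (nat_lit 544) (nat_lit 544) (nat_lit 472))) (XT.nd (nat_lit 78) (nat_lit 0) (nat_lit 0) (XT.lf (nat_lit 0) (nat_lit 341438399) (nat_lit 1292) (nat_lit 4396038965) (nat_lit 1368) (nat_lit 2850308539) (nat_lit 593) (nat_lit 5) (nat_lit 610) (nat_lit 3) (nat_lit 611) (nat_lit 5) (nat_lit 545) (nat_lit 544) (nat_lit 471)) (XT.nd (nat_lit 78) (nat_lit 0) (nat_lit 0) (XT.lf (nat_lit 0) (nat_lit 1769913690) (nat_lit 1292) (nat_lit 642869883) (nat_lit 1368) (nat_lit 5222866753) (nat_lit 593) (nat_lit 5) (nat_lit 610) (nat_lit 3) (nat_lit 611) (nat_lit 5) (nat_lit 546) (nat_lit 544) (nat_lit 470)) (XT.lf (nat_lit 76) (nat_lit 3208148825) (nat_lit 0) (nat_lit 2907443) (nat_lit 1368) (nat_lit 4473740721) (nat_lit 594) (nat_lit 5) (nat_lit 593) (nat_lit 5) (nat_lit 611) (nat_lit 5) (nat_lit 547) (nat_lit 544) (nat_lit 469))))) (XT.nd (nat_lit 156)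 (nat_lit 1292) (nat_lit 0) (XT.nd (nat_lit 78) (nat_lit 0) (nat_lit 0) (XT.lf (nat_lit 0) (nat_lit 4665279199) (nat_lit 1292) (nat_lit 625909254) (nat_lit 1368) (nat_lit 2444059751) (nat_lit 594) (nat_lit 5) (nat_lit 611) (nat_lit 5) (nat_lit 612) (nat_lit 5) (nat_lit 548) (nat_lit 544) (nat_lit 468)) (XT.lf (nat_lit 76) (nat_lit 3325834298) (nat_lit 0) (nat_lit 2809045819) (nat_lit 1368) (nat_lit 1652109094) (nat_lit 595) (nat_lit 5) (nat_lit 594) (nat_lit 5) (nat_lit 612) (nat_lit 5) (nat_lit 549) (nat_lit 544) (nat_lit 467))) (XT.nd (nat_lit 78) (nat_lit 1292) (nat_lit 0) (XT.lf (nat_lit 76) (nat_lit 7345616303) (nat_lit 0) (nat_lit 257703737) (nat_lit 1368) (nat_lit 237062566) (nat_lit 595) (nat_lit 5) (nat_lit 594) (nat_lit 5) (nat_lit 612) (nat_lit 5) (nat_lit 550) (nat_lit 544) (nat_lit 466)) (XT.nd (nat_lit 78) (nat_lit 0) (nat_lit 0) (XT.lf (nat_lit 0) (nat_lit 1194866076) (nat_lit 1368) (nat_lit 4340056805)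 (nat_lit 1444) (nat_lit 2359682566) (nat_lit 577) (nat_lit 5) (nat_lit 595) (nat_lit 5) (nat_lit 596) (nat_lit 5) (nat_lit 551) (nat_lit 544) (nat_lit 465)) (XT.lf (nat_lit 0) (nat_lit 2623646534) (nat_lit 1368) (nat_lit 281794887) (nat_lit 1444) (nat_lit 5045018368) (nat_lit 577) (nat_lit 5) (nat_lit 595) (nat_lit 5) (nat_lit 596) (nat_lit 5) (nat_lit 552) (nat_lit 544) (nat_lit 464))))))))
noncomputable def xc130 : XT := (XT.nd (nat_lit 1482) (nat_lit 11324) (nat_lit 0) (XT.nd (nat_lit 702) (nat_lit 6080) (nat_lit 0) (XT.nd (nat_lit 312) (nat_lit 0) (nat_lit 0) (XT.nd (nat_lit 156) (nat_lit 1292) (nat_lit 0) (XT.nd (nat_lit 78) (nat_lit 0) (nat_lit 76) (XT.lf (nat_lit 76) (nat_lit 3888824576) (nat_lit 0) (nat_lit 184422702) (nat_lit 1444) (nat_lit 3934345057) (nat_lit 578) (nat_lit 5) (nat_lit 577) (nat_lit 5) (nat_lit 596) (nat_lit 5) (nat_lit 553) (nat_lit 544) (nat_lit 463)) (XT.lf (nat_lit 76) (nat_lit 44171999)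 (nat_lit 0) (nat_lit 5494279294) (nat_lit 1444) (nat_lit 2527689908) (nat_lit 579) (nat_lit 5) (nat_lit 578) (nat_lit 5) (nat_lit 597) (nat_lit 5) (nat_lit 554) (nat_lit 544) (nat_lit 462))) (XT.nd (nat_lit 78) (nat_lit 1368) (nat_lit 0) (XT.lf (nat_lit 76) (nat_lit 4324679570) (nat_lit 0) (nat_lit 2705234201) (nat_lit 1444) (nat_lit 1096013963) (nat_lit 579) (nat_lit 5) (nat_lit 578) (nat_lit 5) (nat_lit 597) (nat_lit 5) (nat_lit 555) (nat_lit 544) (nat_lit 461)) (XT.lf (nat_lit 0) (nat_lit 332213803) (nat_lit 1444) (nat_lit 7700843685) (nat_lit 1520) (nat_lit 154356838) (nat_lit 560) (nat_lit 5) (nat_lit 579) (nat_lit 5) (nat_lit 580) (nat_lit 5) (nat_lit 556) (nat_lit 544) (nat_lit 460)))) (XT.nd (nat_lit 156) (nat_lit 0) (nat_lit 76) (XT.nd (nat_lit 78) (nat_lit 0) (nat_lit 0) (XT.lf (nat_lit 0) (nat_lit 1787008334) (nat_lit 1444) (nat_lit 3384163195) (nat_lit 1520) (nat_lit 3078566117) (nat_lit 560) (nat_lit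 5) (nat_lit 579) (nat_lit 5) (nat_lit 580) (nat_lit 5) (nat_lit 557) (nat_lit 544) (nat_lit 459)) (XT.lf (nat_lit 76) (nat_lit 1011655519) (nat_lit 0) (nat_lit 2235489370) (nat_lit 1520) (nat_lit 5066642957) (nat_lit 561) (nat_lit 5) (nat_lit 560) (nat_lit 5) (nat_lit 580) (nat_lit 5) (nat_lit 558) (nat_lit 544) (nat_lit 458))) (XT.nd (nat_lit 78) (nat_lit 0) (nat_lit 0) (XT.lf (nat_lit 0) (nat_lit 4734473654) (nat_lit 1444) (nat_lit 2863471857) (nat_lit 1520) (nat_lit 781218985) (nat_lit 561) (nat_lit 5) (nat_lit 580) (nat_lit 5) (nat_lit 581) (nat_lit 5) (nat_lit 559) (nat_lit 544) (nat_lit 457)) (XT.nd (nat_lit 78) (nat_lit 0) (nat_lit 0) (XT.lf (nat_lit 76) (nat_lit 1650218693) (nat_lit 0) (nat_lit 4597635692) (nat_lit 1520) (nat_lit 2198073317) (nat_lit 562) (nat_lit 5) (nat_lit 561) (nat_lit 5) (nat_lit 581) (nat_lit 5) (nat_lit 560) (nat_lit 544) (nat_lit 456)) (XT.lf (nat_lit 76) (nat_lit 6272552095) (nat_lit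 0) (nat_lit 1509392615) (nat_lit 1520) (nat_lit 732277653) (nat_lit 562) (nat_lit 5) (nat_lit 561) (nat_lit 5) (nat_lit 581) (nat_lit 5) (nat_lit 561) (nat_lit 544) (nat_lit 455)))))) (XT.nd (nat_lit 390) (nat_lit 4712) (nat_lit 0) (XT.nd (nat_lit 156) (nat_lit 0) (nat_lit 0) (XT.nd (nat_lit 78) (nat_lit 0) (nat_lit 0) (XT.lf (nat_lit 0) (nat_lit 750913630) (nat_lit 1520) (nat_lit 6185211686) (nat_lit 1596) (nat_lit 1647701693) (nat_lit 542) (nat_lit 5) (nat_lit 562) (nat_lit 5) (nat_lit 563) (nat_lit 5) (nat_lit 562) (nat_lit 544) (nat_lit 454)) (XT.lf (nat_lit 0) (nat_lit 2251185177) (nat_lit 1520) (nat_lit 1528282139) (nat_lit 1596) (nat_lit 4875319930) (nat_lit 542) (nat_lit 5) (nat_lit 562) (nat_lit 5) (nat_lit 563) (nat_lit 5) (nat_lit 563) (nat_lit 544) (nat_lit 453))) (XT.nd (nat_lit 78) (nat_lit 0) (nat_lit 76) (XT.lf (nat_lit 76) (nat_lit 3243832199) (nat_lit 0) (nat_lit 531312717) (nat_lit 1596) (nat_lit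 4952152766) (nat_lit 543) (nat_lit 5) (nat_lit 542) (nat_lit 5) (nat_lit 563) (nat_lit 5) (nat_lit 564) (nat_lit 544) (nat_lit 452)) (XT.nd (nat_lit 78) (nat_lit 0) (nat_lit 0) (XT.lf (nat_lit 0) (nat_lit 5331037870) (nat_lit 1520) (nat_lit 708026712) (nat_lit 1596) (nat_lit 2762169221) (nat_lit 543) (nat_lit 5) (nat_lit 563) (nat_lit 5) (nat_lit 564) (nat_lit 5) (nat_lit 565) (nat_lit 544) (nat_lit 451)) (XT.lf (nat_lit 76) (nat_lit 4193866951) (nat_lit 0) (nat_lit 2728526978) (nat_lit 1596) (nat_lit 1954172277) (nat_lit 544) (nat_lit 5) (nat_lit 543) (nat_lit 5) (nat_lit 564) (nat_lit 5) (nat_lit 566) (nat_lit 544) (nat_lit 450))))) (XT.nd (nat_lit 156) (nat_lit 3268) (nat_lit 0) (XT.nd (nat_lit 78) (nat_lit 76) (nat_lit 0) (XT.lf (nat_lit 0) (nat_lit 227869508) (nat_lit 1520) (nat_lit 8302197396) (nat_lit 1596) (nat_lit 423652939) (nat_lit 524) (nat_lit 5) (nat_lit 544) (nat_lit 5) (nat_lit 545) (nat_lit 5)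 (nat_lit 567) (nat_lit 544) (nat_lit 449)) (XT.lf (nat_lit 0) (nat_lit 1146479093) (nat_lit 1596) (nat_lit 3778499815) (nat_lit 76) (nat_lit 4106815738) (nat_lit 523) (nat_lit 5) (nat_lit 544) (nat_lit 5) (nat_lit 524) (nat_lit 5) (nat_lit 568) (nat_lit 544) (nat_lit 448))) (XT.nd (nat_lit 78) (nat_lit 1672) (nat_lit 0) (XT.lf (nat_lit 0) (nat_lit 1260768915) (nat_lit 1596) (nat_lit 1464488018) (nat_lit 1672) (nat_lit 6386463813) (nat_lit 502) (nat_lit 5) (nat_lit 523) (nat_lit 5) (nat_lit 524) (nat_lit 5) (nat_lit 569) (nat_lit 544) (nat_lit 447)) (XT.nd (nat_lit 78) (nat_lit 1672) (nat_lit 0) (XT.lf (nat_lit 0) (nat_lit 4349657099) (nat_lit 1672) (nat_lit 2775425299) (nat_lit 76) (nat_lit 2067886083) (nat_lit 502) (nat_lit 5) (nat_lit 524) (nat_lit 5) (nat_lit 503) (nat_lit 5) (nat_lit 570) (nat_lit 544) (nat_lit 446)) (XT.lf (nat_lit 0) (nat_lit 2402687620) (nat_lit 1672) (nat_lit 3604758433) (nat_lit 1748)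 (nat_lit 3268381067) (nat_lit 480) (nat_lit 5) (nat_lit 502) (nat_lit 5) (nat_lit 503) (nat_lit 5) (nat_lit 571) (nat_lit 544) (nat_lit 445))))))) (XT.nd (nat_lit 702) (nat_lit 4940) (nat_lit 0) (XT.nd (nat_lit 312) (nat_lit 2888) (nat_lit 0) (XT.nd (nat_lit 156) (nat_lit 1748) (nat_lit 0) (XT.nd (nat_lit 78) (nat_lit 1748) (nat_lit 0) (XT.lf (nat_lit 0) (nat_lit 7693017008) (nat_lit 1748) (nat_lit 1659126449) (nat_lit 76) (nat_lit 8310840) (nat_lit 480) (nat_lit 5) (nat_lit 503) (nat_lit 5) (nat_lit 481) (nat_lit 5) (nat_lit 572) (nat_lit 544) (nat_lit 444)) (XT.lf (nat_lit 0) (nat_lit 3662636145) (nat_lit 1748) (nat_lit 5773756653) (nat_lit 1824) (nat_lit 9903163) (nat_lit 457) (nat_lit 5) (nat_lit 480) (nat_lit 5) (nat_lit 481) (nat_lit 5) (nat_lit 573) (nat_lit 544) (nat_lit 443))) (XT.nd (nat_lit 78) (nat_lit 1672) (nat_lit 0) (XT.lf (nat_lit 0) (nat_lit 1646556755) (nat_lit 1824) (nat_lit 452166997) (nat_lit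 76) (nat_lit 7435159739) (nat_lit 456) (nat_lit 5) (nat_lit 480) (nat_lit 5) (nat_lit 457) (nat_lit 5) (nat_lit 574) (nat_lit 544) (nat_lit 442)) (XT.lf (nat_lit 0) (nat_lit 3356695237) (nat_lit 1748) (nat_lit 4602560099) (nat_lit 76) (nat_lit 1663556078) (nat_lit 434) (nat_lit 5) (nat_lit 457) (nat_lit 5) (nat_lit 435) (nat_lit 5) (nat_lit 575) (nat_lit 544) (nat_lit 441)))) (XT.nd (nat_lit 156) (nat_lit 1900) (nat_lit 0) (XT.nd (nat_lit 78) (nat_lit 0) (nat_lit 0) (XT.lf (nat_lit 0) (nat_lit 871501683) (nat_lit 988) (nat_lit 4229548938) (nat_lit 1064) (nat_lit 4612470516) (nat_lit 421) (nat_lit 5) (nat_lit 434) (nat_lit 5) (nat_lit 435) (nat_lit 5) (nat_lit 576) (nat_lit 544) (nat_lit 440)) (XT.lf (nat_lit 0) (nat_lit 6496771138) (nat_lit 988) (nat_lit 392119070) (nat_lit 1064) (nat_lit 2916986357) (nat_lit 421) (nat_lit 5) (nat_lit 434) (nat_lit 5) (nat_lit 435) (nat_lit 5) (nat_lit 577) (nat_lit 544) (nat_lit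 439))) (XT.nd (nat_lit 78) (nat_lit 988) (nat_lit 0) (XT.lf (nat_lit 0) (nat_lit 2321335975) (nat_lit 912) (nat_lit 6407248683) (nat_lit 988) (nat_lit 1171175869) (nat_lit 409) (nat_lit 5) (nat_lit 421) (nat_lit 5) (nat_lit 422) (nat_lit 5) (nat_lit 578) (nat_lit 544) (nat_lit 438)) (XT.nd (nat_lit 78) (nat_lit 912) (nat_lit 0) (XT.lf (nat_lit 0) (nat_lit 604813769) (nat_lit 988) (nat_lit 1913400924) (nat_lit 76) (nat_lit 7477166429) (nat_lit 408) (nat_lit 5) (nat_lit 421) (nat_lit 5) (nat_lit 409) (nat_lit 5) (nat_lit 579) (nat_lit 544) (nat_lit 437)) (XT.lf (nat_lit 0) (nat_lit 2414259361) (nat_lit 988) (nat_lit 6214611155) (nat_lit 76) (nat_lit 1463619610) (nat_lit 396) (nat_lit 5) (nat_lit 409) (nat_lit 5) (nat_lit 397) (nat_lit 5) (nat_lit 580) (nat_lit 544) (nat_lit 436)))))) (XT.nd (nat_lit 390) (nat_lit 2432) (nat_lit 0) (XT.nd (nat_lit 156) (nat_lit 1672) (nat_lit 0) (XT.nd (nat_lit 78) (nat_lit 836) (nat_lit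 0) (XT.lf (nat_lit 0) (nat_lit 4268518053) (nat_lit 988) (nat_lit 417872152) (nat_lit 76) (nat_lit 5504981750) (nat_lit 396) (nat_lit 5) (nat_lit 409) (nat_lit 5) (nat_lit 397) (nat_lit 5) (nat_lit 581) (nat_lit 544) (nat_lit 435)) (XT.lf (nat_lit 0) (nat_lit 5547214338) (nat_lit 836) (nat_lit 628097411) (nat_lit 912) (nat_lit 4116613739) (nat_lit 385) (nat_lit 5) (nat_lit 396) (nat_lit 5) (nat_lit 397) (nat_lit 5) (nat_lit 582) (nat_lit 544) (nat_lit 434))) (XT.nd (nat_lit 78) (nat_lit 836) (nat_lit 0) (XT.lf (nat_lit 0) (nat_lit 1215340004) (nat_lit 836) (nat_lit 6918119188) (nat_lit 912) (nat_lit 2260769550) (nat_lit 374) (nat_lit 5) (nat_lit 385) (nat_lit 5) (nat_lit 386) (nat_lit 5) (nat_lit 583) (nat_lit 544) (nat_lit 433)) (XT.nd (nat_lit 78) (nat_lit 836) (nat_lit 0) (XT.lf (nat_lit 0) (nat_lit 7334213102) (nat_lit 836) (nat_lit 2812499435) (nat_lit 912) (nat_lit 351549612) (nat_lit 374) (nat_lit 5) (nat_lit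 385) (nat_lit 5) (nat_lit 386) (nat_lit 5) (nat_lit 584) (nat_lit 544) (nat_lit 432)) (XT.lf (nat_lit 0) (nat_lit 1583622394) (nat_lit 836) (nat_lit 7633844024) (nat_lit 76) (nat_lit 1386531460) (nat_lit 363) (nat_lit 5) (nat_lit 374) (nat_lit 5) (nat_lit 364) (nat_lit 5) (nat_lit 585) (nat_lit 544) (nat_lit 431))))) (XT.nd (nat_lit 156) (nat_lit 1596) (nat_lit 0) (XT.nd (nat_lit 78) (nat_lit 836) (nat_lit 0) (XT.lf (nat_lit 0) (nat_lit 3573276796) (nat_lit 836) (nat_lit 1483186584) (nat_lit 76) (nat_lit 5654931520) (nat_lit 363) (nat_lit 5) (nat_lit 374) (nat_lit 5) (nat_lit 364) (nat_lit 5) (nat_lit 586) (nat_lit 544) (nat_lit 430)) (XT.lf (nat_lit 0) (nat_lit 4833683868) (nat_lit 836) (nat_lit 781289521) (nat_lit 912) (nat_lit 5205724215) (nat_lit 352) (nat_lit 5) (nat_lit 363) (nat_lit 5) (nat_lit 364) (nat_lit 5) (nat_lit 587) (nat_lit 544) (nat_lit 429))) (XT.nd (nat_lit 78) (nat_lit 836) (nat_lit 0) (XT.lf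 (nat_lit 0) (nat_lit 325538479) (nat_lit 760) (nat_lit 7388440621) (nat_lit 836) (nat_lit 3217880427) (nat_lit 342) (nat_lit 5) (nat_lit 352) (nat_lit 5) (nat_lit 353) (nat_lit 5) (nat_lit 588) (nat_lit 544) (nat_lit 428)) (XT.nd (nat_lit 78) (nat_lit 836) (nat_lit 0) (XT.lf (nat_lit 0) (nat_lit 6819954106) (nat_lit 760) (nat_lit 3061668560) (nat_lit 836) (nat_lit 1163091485) (nat_lit 342) (nat_lit 5) (nat_lit 352) (nat_lit 5) (nat_lit 353) (nat_lit 5) (nat_lit 589) (nat_lit 544) (nat_lit 427)) (XT.lf (nat_lit 0) (nat_lit 925903057) (nat_lit 836) (nat_lit 8880444445) (nat_lit 76) (nat_lit 1353252882) (nat_lit 331) (nat_lit 5) (nat_lit 342) (nat_lit 5) (nat_lit 332) (nat_lit 5) (nat_lit 590) (nat_lit 544) (nat_lit 426))))))))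
noncomputable def xc131 : XT := (XT.nd (nat_lit 1482) (nat_lit 5624) (nat_lit 0) (XT.nd (nat_lit 702) (nat_lit 3724) (nat_lit 0) (XT.nd (nat_lit 312) (nat_lit 2052) (nat_lit 0) (XT.nd (nat_lit 156) (nat_lit 760) (nat_lit 0) (XT.nd (nat_lit 78) (nat_lit 684) (nat_lit 0) (XT.lf (nat_lit 0) (nat_lit 3071735402) (nat_lit 836) (nat_lit 2354336888) (nat_lit 76) (nat_lit 5849948124) (nat_lit 331) (nat_lit 5) (nat_lit 342) (nat_lit 5) (nat_lit 332) (nat_lit 5) (nat_lit 591) (nat_lit 544) (nat_lit 425)) (XT.lf (nat_lit 0) (nat_lit 4339230811) (nat_lit 684) (nat_lit 931586633) (nat_lit 760) (nat_lit 6123747156) (nat_lit 322) (nat_lit 5) (nat_lit 331) (nat_lit 5) (nat_lit 332) (nat_lit 5) (nat_lit 592) (nat_lit 544) (nat_lit 424))) (XT.nd (nat_lit 78) (nat_lit 760) (nat_lit 0) (XT.lf (nat_lit 0) (nat_lit 7535867377) (nat_lit 760) (nat_lit 360581867) (nat_lit 76) (nat_lit 3618593073) (nat_lit 322) (nat_lit 5) (nat_lit 332)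 (nat_lit 5) (nat_lit 323) (nat_lit 5) (nat_lit 593) (nat_lit 544) (nat_lit 423)) (XT.lf (nat_lit 0) (nat_lit 6527722868) (nat_lit 760) (nat_lit 3349759403) (nat_lit 836) (nat_lit 1759824361) (nat_lit 312) (nat_lit 5) (nat_lit 322) (nat_lit 5) (nat_lit 323) (nat_lit 5) (nat_lit 594) (nat_lit 544) (nat_lit 422)))) (XT.nd (nat_lit 156) (nat_lit 1292) (nat_lit 0) (XT.nd (nat_lit 78) (nat_lit 0) (nat_lit 0) (XT.lf (nat_lit 0) (nat_lit 502675548) (nat_lit 760) (nat_lit 9973364323) (nat_lit 76) (nat_lit 1285805737) (nat_lit 302) (nat_lit 5) (nat_lit 312) (nat_lit 5) (nat_lit 303) (nat_lit 5) (nat_lit 595) (nat_lit 544) (nat_lit 421)) (XT.lf (nat_lit 0) (nat_lit 2826581412) (nat_lit 760) (nat_lit 3048564192) (nat_lit 76) (nat_lit 6012704900) (nat_lit 302) (nat_lit 5) (nat_lit 312) (nat_lit 5) (nat_lit 303) (nat_lit 5) (nat_lit 596) (nat_lit 544) (nat_lit 420))) (XT.nd (nat_lit 78) (nat_lit 608) (nat_lit 0) (XT.lf (nat_lit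 0) (nat_lit 4048139111) (nat_lit 684) (nat_lit 1158441910) (nat_lit 760) (nat_lit 6809604312) (nat_lit 293) (nat_lit 5) (nat_lit 302) (nat_lit 5) (nat_lit 303) (nat_lit 5) (nat_lit 597) (nat_lit 544) (nat_lit 419)) (XT.nd (nat_lit 78) (nat_lit 608) (nat_lit 0) (XT.lf (nat_lit 0) (nat_lit 7662000872) (nat_lit 760) (nat_lit 862294503) (nat_lit 76) (nat_lit 3622237182) (nat_lit 293) (nat_lit 5) (nat_lit 303) (nat_lit 5) (nat_lit 294) (nat_lit 5) (nat_lit 598) (nat_lit 544) (nat_lit 418)) (XT.lf (nat_lit 0) (nat_lit 6442923282) (nat_lit 608) (nat_lit 3756944884) (nat_lit 684) (nat_lit 2078953843) (nat_lit 285) (nat_lit 5) (nat_lit 293) (nat_lit 5) (nat_lit 294) (nat_lit 5) (nat_lit 599) (nat_lit 544) (nat_lit 417)))))) (XT.nd (nat_lit 390) (nat_lit 1748) (nat_lit 0) (XT.nd (nat_lit 156) (nat_lit 1216) (nat_lit 0) (XT.nd (nat_lit 78) (nat_lit 0) (nat_lit 0) (XT.lf (nat_lit 0) (nat_lit 376512805) (nat_lit 760) (nat_lit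 10931202350) (nat_lit 76) (nat_lit 1105861578) (nat_lit 275) (nat_lit 5) (nat_lit 285) (nat_lit 5) (nat_lit 276) (nat_lit 5) (nat_lit 600) (nat_lit 544) (nat_lit 416)) (XT.lf (nat_lit 0) (nat_lit 2901664516) (nat_lit 760) (nat_lit 3582763768) (nat_lit 76) (nat_lit 6065357116) (nat_lit 275) (nat_lit 5) (nat_lit 285) (nat_lit 5) (nat_lit 276) (nat_lit 5) (nat_lit 601) (nat_lit 544) (nat_lit 415))) (XT.nd (nat_lit 78) (nat_lit 608) (nat_lit 0) (XT.lf (nat_lit 0) (nat_lit 3945037512) (nat_lit 608) (nat_lit 1542292772) (nat_lit 684) (nat_lit 7201189642) (nat_lit 267) (nat_lit 5) (nat_lit 275) (nat_lit 5) (nat_lit 276) (nat_lit 5) (nat_lit 602) (nat_lit 544) (nat_lit 414)) (XT.nd (nat_lit 78) (nat_lit 608) (nat_lit 0) (XT.lf (nat_lit 0) (nat_lit 8156180332) (nat_lit 684) (nat_lit 1199967503) (nat_lit 76) (nat_lit 3473253758) (nat_lit 267) (nat_lit 5) (nat_lit 276) (nat_lit 5) (nat_lit 268) (nat_lit 5) (nat_lit 603) (nat_lit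 544) (nat_lit 413)) (XT.lf (nat_lit 0) (nat_lit 6550999499) (nat_lit 608) (nat_lit 4365011769) (nat_lit 684) (nat_lit 2056339379) (nat_lit 259) (nat_lit 5) (nat_lit 267) (nat_lit 5) (nat_lit 268) (nat_lit 5) (nat_lit 604) (nat_lit 544) (nat_lit 412))))) (XT.nd (nat_lit 156) (nat_lit 1140) (nat_lit 0) (XT.nd (nat_lit 78) (nat_lit 0) (nat_lit 0) (XT.lf (nat_lit 0) (nat_lit 611465036) (nat_lit 608) (nat_lit 11773144198) (nat_lit 76) (nat_lit 733339166) (nat_lit 251) (nat_lit 5) (nat_lit 259) (nat_lit 5) (nat_lit 252) (nat_lit 5) (nat_lit 605) (nat_lit 544) (nat_lit 411)) (XT.lf (nat_lit 0) (nat_lit 3362474136) (nat_lit 608) (nat_lit 3974425840) (nat_lit 76) (nat_lit 5928140354) (nat_lit 251) (nat_lit 5) (nat_lit 259) (nat_lit 5) (nat_lit 252) (nat_lit 5) (nat_lit 606) (nat_lit 544) (nat_lit 410))) (XT.nd (nat_lit 78) (nat_lit 532) (nat_lit 0) (XT.lf (nat_lit 0) (nat_lit 4013945367) (nat_lit 608) (nat_lit 2165985778)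 (nat_lit 684) (nat_lit 7234916089) (nat_lit 243) (nat_lit 5) (nat_lit 251) (nat_lit 5) (nat_lit 252) (nat_lit 5) (nat_lit 607) (nat_lit 544) (nat_lit 409)) (XT.nd (nat_lit 78) (nat_lit 532) (nat_lit 0) (XT.lf (nat_lit 0) (nat_lit 9086268614) (nat_lit 684) (nat_lit 1390619573) (nat_lit 76) (nat_lit 3090113122) (nat_lit 243) (nat_lit 5) (nat_lit 252) (nat_lit 5) (nat_lit 244) (nat_lit 5) (nat_lit 608) (nat_lit 544) (nat_lit 408)) (XT.lf (nat_lit 0) (nat_lit 6836457004) (nat_lit 532) (nat_lit 5258793935) (nat_lit 608) (nat_lit 1626058793) (nat_lit 236) (nat_lit 5) (nat_lit 243) (nat_lit 5) (nat_lit 244) (nat_lit 5) (nat_lit 609) (nat_lit 544) (nat_lit 407))))))) (XT.nd (nat_lit 702) (nat_lit 2888) (nat_lit 0) (XT.nd (nat_lit 312) (nat_lit 1596) (nat_lit 0) (XT.nd (nat_lit 156) (nat_lit 532) (nat_lit 0) (XT.nd (nat_lit 78) (nat_lit 0) (nat_lit 0) (XT.lf (nat_lit 0) (nat_lit 1273472938) (nat_lit 608) (nat_lit 12519989477)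 (nat_lit 76) (nat_lit 84983985) (nat_lit 228) (nat_lit 5) (nat_lit 236) (nat_lit 5) (nat_lit 229) (nat_lit 5) (nat_lit 610) (nat_lit 544) (nat_lit 406)) (XT.lf (nat_lit 0) (nat_lit 4276552232) (nat_lit 608) (nat_lit 4242666265) (nat_lit 76) (nat_lit 5517947276) (nat_lit 228) (nat_lit 5) (nat_lit 236) (nat_lit 5) (nat_lit 229) (nat_lit 5) (nat_lit 611) (nat_lit 544) (nat_lit 405))) (XT.nd (nat_lit 78) (nat_lit 0) (nat_lit 0) (XT.lf (nat_lit 0) (nat_lit 4237224166) (nat_lit 532) (nat_lit 3116230894) (nat_lit 608) (nat_lit 6845330738) (nat_lit 221) (nat_lit 5) (nat_lit 228) (nat_lit 5) (nat_lit 229) (nat_lit 5) (nat_lit 612) (nat_lit 544) (nat_lit 404)) (XT.lf (nat_lit 0) (nat_lit 10522473402) (nat_lit 608) (nat_lit 1453254478) (nat_lit 76) (nat_lit 2387300267) (nat_lit 221) (nat_lit 5) (nat_lit 229) (nat_lit 5) (nat_lit 222) (nat_lit 5) (nat_lit 613) (nat_lit 544) (nat_lit 403)))) (XT.nd (nat_lit 156) (nat_lit 532)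 (nat_lit 0) (XT.nd (nat_lit 78) (nat_lit 532) (nat_lit 0) (XT.lf (nat_lit 0) (nat_lit 7281778214) (nat_lit 532) (nat_lit 6527646232) (nat_lit 608) (nat_lit 720041295) (nat_lit 214) (nat_lit 5) (nat_lit 221) (nat_lit 5) (nat_lit 222) (nat_lit 5) (nat_lit 614) (nat_lit 544) (nat_lit 402)) (XT.lf (nat_lit 0) (nat_lit 1497394144) (nat_lit 456) (nat_lit 939417820) (nat_lit 532) (nat_lit 12261977086) (nat_lit 207) (nat_lit 5) (nat_lit 213) (nat_lit 5) (nat_lit 214) (nat_lit 5) (nat_lit 615) (nat_lit 544) (nat_lit 401))) (XT.nd (nat_lit 78) (nat_lit 532) (nat_lit 0) (XT.lf (nat_lit 0) (nat_lit 5713838116) (nat_lit 532) (nat_lit 4409377599) (nat_lit 76) (nat_lit 4746855737) (nat_lit 207) (nat_lit 5) (nat_lit 214) (nat_lit 5) (nat_lit 208) (nat_lit 5) (nat_lit 616) (nat_lit 544) (nat_lit 400)) (XT.nd (nat_lit 78) (nat_lit 0) (nat_lit 0) (XT.lf (nat_lit 0) (nat_lit 4594403539) (nat_lit 532) (nat_lit 4485112737) (nat_lit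 608) (nat_lit 5964802331) (nat_lit 200) (nat_lit 5) (nat_lit 207) (nat_lit 5) (nat_lit 208) (nat_lit 5) (nat_lit 617) (nat_lit 544) (nat_lit 399)) (XT.lf (nat_lit 0) (nat_lit 12537674772) (nat_lit 608) (nat_lit 1410058553) (nat_lit 76) (nat_lit 1273815355) (nat_lit 200) (nat_lit 5) (nat_lit 208) (nat_lit 5) (nat_lit 201) (nat_lit 5) (nat_lit 618) (nat_lit 544) (nat_lit 398)))))) (XT.nd (nat_lit 390) (nat_lit 1444) (nat_lit 0) (XT.nd (nat_lit 156) (nat_lit 456) (nat_lit 0) (XT.nd (nat_lit 78) (nat_lit 456) (nat_lit 0) (XT.lf (nat_lit 0) (nat_lit 722622818) (nat_lit 532) (nat_lit 7539514905) (nat_lit 76) (nat_lit 7138728022) (nat_lit 193) (nat_lit 5) (nat_lit 200) (nat_lit 5) (nat_lit 194) (nat_lit 5) (nat_lit 619) (nat_lit 544) (nat_lit 397)) (XT.lf (nat_lit 0) (nat_lit 1740807248) (nat_lit 456) (nat_lit 2428829150) (nat_lit 532) (nat_lit 11413612698) (nat_lit 187) (nat_lit 5) (nat_lit 193) (nat_lit 5) (nat_lit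 194) (nat_lit 5) (nat_lit 620) (nat_lit 544) (nat_lit 396))) (XT.nd (nat_lit 78) (nat_lit 456) (nat_lit 0) (XT.lf (nat_lit 0) (nat_lit 7746939407) (nat_lit 532) (nat_lit 4500534825) (nat_lit 76) (nat_lit 3520580109) (nat_lit 187) (nat_lit 5) (nat_lit 194) (nat_lit 5) (nat_lit 188) (nat_lit 5) (nat_lit 621) (nat_lit 544) (nat_lit 395)) (XT.nd (nat_lit 78) (nat_lit 0) (nat_lit 0) (XT.lf (nat_lit 0) (nat_lit 5060846472) (nat_lit 456) (nat_lit 6371687660) (nat_lit 532) (nat_lit 4523287829) (nat_lit 181) (nat_lit 5) (nat_lit 187) (nat_lit 5) (nat_lit 188) (nat_lit 5) (nat_lit 622) (nat_lit 544) (nat_lit 394)) (XT.lf (nat_lit 0) (nat_lit 14856924649) (nat_lit 456) (nat_lit 353044695) (nat_lit 532) (nat_lit 937014181) (nat_lit 181) (nat_lit 5) (nat_lit 187) (nat_lit 5) (nat_lit 188) (nat_lit 5) (nat_lit 623) (nat_lit 544) (nat_lit 393))))) (XT.nd (nat_lit 156) (nat_lit 532) (nat_lit 0) (XT.nd (nat_lit 78) (nat_lit 380)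 (nat_lit 0) (XT.lf (nat_lit 0) (nat_lit 2767137176) (nat_lit 532) (nat_lit 7794231925) (nat_lit 76) (nat_lit 5778610238) (nat_lit 174) (nat_lit 5) (nat_lit 181) (nat_lit 5) (nat_lit 175) (nat_lit 5) (nat_lit 624) (nat_lit 544) (nat_lit 392)) (XT.lf (nat_lit 0) (nat_lit 2060072704) (nat_lit 380) (nat_lit 4485362872) (nat_lit 456) (nat_lit 9991024502) (nat_lit 169) (nat_lit 5) (nat_lit 174) (nat_lit 5) (nat_lit 175) (nat_lit 5) (nat_lit 625) (nat_lit 544) (nat_lit 391))) (XT.nd (nat_lit 78) (nat_lit 532) (nat_lit 0) (XT.lf (nat_lit 0) (nat_lit 10451320417) (nat_lit 456) (nat_lit 4547694759) (nat_lit 76) (nat_lit 1736815921) (nat_lit 169) (nat_lit 5) (nat_lit 175) (nat_lit 5) (nat_lit 170) (nat_lit 5) (nat_lit 626) (nat_lit 544) (nat_lit 390)) (XT.nd (nat_lit 78) (nat_lit 76) (nat_lit 0) (XT.lf (nat_lit 0) (nat_lit 5606213617) (nat_lit 456) (nat_lit 8883697485) (nat_lit 532) (nat_lit 2448187723) (nat_lit 163) (nat_lit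 5) (nat_lit 169) (nat_lit 5) (nat_lit 170) (nat_lit 5) (nat_lit 627) (nat_lit 544) (nat_lit 389)) (XT.lf (nat_lit 0) (nat_lit 1464892260) (nat_lit 532) (nat_lit 1145889865) (nat_lit 76) (nat_lit 14533055727) (nat_lit 162) (nat_lit 5) (nat_lit 169) (nat_lit 5) (nat_lit 163) (nat_lit 5) (nat_lit 628) (nat_lit 544) (nat_lit 388))))))))
noncomputable def xc132 : XT := (XT.nd (nat_lit 75426) (nat_lit 0) (nat_lit 26448) (XT.nd (nat_lit 74646) (nat_lit 0) (nat_lit 33820) (XT.nd (nat_lit 312) (nat_lit 1140) (nat_lit 0) (XT.nd (nat_lit 156) (nat_lit 456) (nat_lit 0) (XT.nd (nat_lit 78) (nat_lit 380) (nat_lit 0) (XT.lf (nat_lit 0) (nat_lit 5497891833) (nat_lit 456) (nat_lit 8044310246) (nat_lit 76) (nat_lit 3809678137) (nat_lit 157) (nat_lit 5) (nat_lit 163) (nat_lit 5) (nat_lit 158) (nat_lit 5) (nat_lit 629) (nat_lit 544) (nat_lit 387)) (XT.lf (nat_lit 0) (nat_lit 2419129461) (nat_lit 380) (nat_lit 7221982098) (nat_lit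 456) (nat_lit 7922381639) (nat_lit 152) (nat_lit 5) (nat_lit 157) (nat_lit 5) (nat_lit 158) (nat_lit 5) (nat_lit 630) (nat_lit 544) (nat_lit 386))) (XT.nd (nat_lit 78) (nat_lit 456) (nat_lit 0) (XT.lf (nat_lit 0) (nat_lit 13184033092) (nat_lit 380) (nat_lit 726077085) (nat_lit 456) (nat_lit 3868370926) (nat_lit 152) (nat_lit 5) (nat_lit 157) (nat_lit 5) (nat_lit 158) (nat_lit 5) (nat_lit 631) (nat_lit 544) (nat_lit 385)) (XT.lf (nat_lit 0) (nat_lit 331294048) (nat_lit 456) (nat_lit 11805916086) (nat_lit 76) (nat_lit 5859163470) (nat_lit 146) (nat_lit 5) (nat_lit 152) (nat_lit 5) (nat_lit 147) (nat_lit 5) (nat_lit 632) (nat_lit 544) (nat_lit 384)))) (XT.nd (nat_lit 156) (nat_lit 760) (nat_lit 0) (XT.nd (nat_lit 78) (nat_lit 380) (nat_lit 0) (XT.lf (nat_lit 0) (nat_lit 4588193664) (nat_lit 456) (nat_lit 1012031895) (nat_lit 76) (nat_lit 12617387119) (nat_lit 146) (nat_lit 5) (nat_lit 152) (nat_lit 5) (nat_lit 147)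 (nat_lit 5) (nat_lit 633) (nat_lit 544) (nat_lit 383)) (XT.lf (nat_lit 0) (nat_lit 8992585658) (nat_lit 456) (nat_lit 8335534299) (nat_lit 76) (nat_lit 1113910370) (nat_lit 141) (nat_lit 5) (nat_lit 147) (nat_lit 5) (nat_lit 142) (nat_lit 5) (nat_lit 634) (nat_lit 544) (nat_lit 382))) (XT.nd (nat_lit 78) (nat_lit 456) (nat_lit 0) (XT.lf (nat_lit 0) (nat_lit 2773077346) (nat_lit 304) (nat_lit 10763341478) (nat_lit 380) (nat_lit 5133491302) (nat_lit 137) (nat_lit 5) (nat_lit 141) (nat_lit 5) (nat_lit 142) (nat_lit 5) (nat_lit 635) (nat_lit 544) (nat_lit 381)) (XT.nd (nat_lit 78) (nat_lit 456) (nat_lit 0) (XT.lf (nat_lit 0) (nat_lit 14200488090) (nat_lit 304) (nat_lit 4016102346) (nat_lit 380) (nat_lit 684848696) (nat_lit 137) (nat_lit 5) (nat_lit 141) (nat_lit 5) (nat_lit 142) (nat_lit 5) (nat_lit 636) (nat_lit 544) (nat_lit 380)) (XT.lf (nat_lit 0) (nat_lit 3854858632) (nat_lit 456) (nat_lit 12389059245) (nat_lit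 76) (nat_lit 2892128926) (nat_lit 131) (nat_lit 5) (nat_lit 137) (nat_lit 5) (nat_lit 132) (nat_lit 5) (nat_lit 637) (nat_lit 544) (nat_lit 379)))))) (XT.nd (nat_lit 390) (nat_lit 1292) (nat_lit 0) (XT.nd (nat_lit 156) (nat_lit 0) (nat_lit 0) (XT.nd (nat_lit 78) (nat_lit 0) (nat_lit 0) (XT.lf (nat_lit 0) (nat_lit 431523167) (nat_lit 0) (nat_lit 431523167) (nat_lit 1292) (nat_lit 2954465976) (nat_lit 593) (nat_lit 5) (nat_lit 593) (nat_lit 3) (nat_lit 610) (nat_lit 3) (nat_lit 545) (nat_lit 545) (nat_lit 470)) (XT.lf (nat_lit 0) (nat_lit 3130780508) (nat_lit 1292) (nat_lit 3022754848) (nat_lit 1368) (nat_lit 1529832858) (nat_lit 593) (nat_lit 5) (nat_lit 610) (nat_lit 3) (nat_lit 611) (nat_lit 5) (nat_lit 546) (nat_lit 545) (nat_lit 469))) (XT.nd (nat_lit 78) (nat_lit 0) (nat_lit 0) (XT.lf (nat_lit 76) (nat_lit 787150154) (nat_lit 0) (nat_lit 3751226767) (nat_lit 1368) (nat_lit 3194812231) (nat_lit 594) (nat_lit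 5) (nat_lit 593) (nat_lit 5) (nat_lit 611) (nat_lit 5) (nat_lit 547) (nat_lit 545) (nat_lit 468)) (XT.nd (nat_lit 78) (nat_lit 0) (nat_lit 76) (XT.lf (nat_lit 76) (nat_lit 4695440925) (nat_lit 0) (nat_lit 1263541324) (nat_lit 1368) (nat_lit 1825333757) (nat_lit 594) (nat_lit 5) (nat_lit 593) (nat_lit 5) (nat_lit 611) (nat_lit 5) (nat_lit 548) (nat_lit 545) (nat_lit 467)) (XT.lf (nat_lit 76) (nat_lit 828805771) (nat_lit 0) (nat_lit 6558219346) (nat_lit 1368) (nat_lit 449866278) (nat_lit 595) (nat_lit 5) (nat_lit 594) (nat_lit 5) (nat_lit 612) (nat_lit 5) (nat_lit 549) (nat_lit 545) (nat_lit 466))))) (XT.nd (nat_lit 156) (nat_lit 0) (nat_lit 76) (XT.nd (nat_lit 78) (nat_lit 0) (nat_lit 0) (XT.lf (nat_lit 0) (nat_lit 935539708) (nat_lit 1368) (nat_lit 3057647239) (nat_lit 1444) (nat_lit 3897315248) (nat_lit 576) (nat_lit 5) (nat_lit 594) (nat_lit 5) (nat_lit 595) (nat_lit 5) (nat_lit 550) (nat_lit 545) (nat_lit 465))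 (XT.lf (nat_lit 76) (nat_lit 962263533) (nat_lit 0) (nat_lit 1352988781) (nat_lit 1444) (nat_lit 5630427113) (nat_lit 577) (nat_lit 5) (nat_lit 576) (nat_lit 5) (nat_lit 595) (nat_lit 5) (nat_lit 551) (nat_lit 545) (nat_lit 464))) (XT.nd (nat_lit 78) (nat_lit 0) (nat_lit 0) (XT.lf (nat_lit 0) (nat_lit 3718909583) (nat_lit 1368) (nat_lit 2926176569) (nat_lit 1444) (nat_lit 1356953057) (nat_lit 577) (nat_lit 5) (nat_lit 595) (nat_lit 5) (nat_lit 596) (nat_lit 5) (nat_lit 552) (nat_lit 545) (nat_lit 463)) (XT.nd (nat_lit 78) (nat_lit 0) (nat_lit 0) (XT.lf (nat_lit 76) (nat_lit 1199557880) (nat_lit 0) (nat_lit 3935473621) (nat_lit 1444) (nat_lit 2924812748) (nat_lit 578) (nat_lit 5) (nat_lit 577) (nat_lit 5) (nat_lit 596) (nat_lit 5) (nat_lit 553) (nat_lit 545) (nat_lit 462)) (XT.lf (nat_lit 76) (nat_lit 5428177998) (nat_lit 0) (nat_lit 1139086215) (nat_lit 1444) (nat_lit 1551791189) (nat_lit 578) (nat_lit 5) (nat_lit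 577) (nat_lit 5) (nat_lit 596) (nat_lit 5) (nat_lit 554) (nat_lit 545) (nat_lit 461))))))) (XT.nd (nat_lit 702) (nat_lit 4712) (nat_lit 0) (XT.nd (nat_lit 312) (nat_lit 1368) (nat_lit 0) (XT.nd (nat_lit 156) (nat_lit 0) (nat_lit 0) (XT.nd (nat_lit 78) (nat_lit 1444) (nat_lit 0) (XT.lf (nat_lit 76) (nat_lit 1551518930) (nat_lit 0) (nat_lit 6466676102) (nat_lit 1444) (nat_lit 161460341) (nat_lit 579) (nat_lit 5) (nat_lit 578) (nat_lit 5) (nat_lit 597) (nat_lit 5) (nat_lit 555) (nat_lit 545) (nat_lit 460)) (XT.lf (nat_lit 0) (nat_lit 1235048074) (nat_lit 1444) (nat_lit 2361602226) (nat_lit 1520) (nat_lit 4644762257) (nat_lit 559) (nat_lit 5) (nat_lit 578) (nat_lit 5) (nat_lit 579) (nat_lit 5) (nat_lit 556) (nat_lit 545) (nat_lit 459))) (XT.nd (nat_lit 78) (nat_lit 0) (nat_lit 76) (XT.lf (nat_lit 76) (nat_lit 1995847351) (nat_lit 0) (nat_lit 644175083) (nat_lit 1520) (nat_lit 5664712487) (nat_lit 560) (nat_lit 5) (nat_lit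 559) (nat_lit 5) (nat_lit 579) (nat_lit 5) (nat_lit 557) (nat_lit 545) (nat_lit 458)) (XT.lf (nat_lit 0) (nat_lit 4074691582) (nat_lit 1444) (nat_lit 1932086262) (nat_lit 1520) (nat_lit 2362519217) (nat_lit 560) (nat_lit 5) (nat_lit 579) (nat_lit 5) (nat_lit 580) (nat_lit 5) (nat_lit 558) (nat_lit 545) (nat_lit 457)))) (XT.nd (nat_lit 156) (nat_lit 1444) (nat_lit 0) (XT.nd (nat_lit 78) (nat_lit 0) (nat_lit 76) (XT.lf (nat_lit 76) (nat_lit 2541650404) (nat_lit 0) (nat_lit 2988027094) (nat_lit 1520) (nat_lit 2905645611) (nat_lit 561) (nat_lit 5) (nat_lit 560) (nat_lit 5) (nat_lit 580) (nat_lit 5) (nat_lit 559) (nat_lit 545) (nat_lit 456)) (XT.lf (nat_lit 0) (nat_lit 6998765110) (nat_lit 1444) (nat_lit 1392213885) (nat_lit 1520) (nat_lit 111995673) (nat_lit 561) (nat_lit 5) (nat_lit 580) (nat_lit 5) (nat_lit 581) (nat_lit 5) (nat_lit 560) (nat_lit 545) (nat_lit 455))) (XT.nd (nat_lit 78) (nat_lit 1520) (nat_lit 0)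 (XT.lf (nat_lit 76) (nat_lit 3201694374) (nat_lit 0) (nat_lit 5308036788) (nat_lit 1520) (nat_lit 62003093) (nat_lit 562) (nat_lit 5) (nat_lit 561) (nat_lit 5) (nat_lit 581) (nat_lit 5) (nat_lit 561) (nat_lit 545) (nat_lit 454)) (XT.nd (nat_lit 78) (nat_lit 0) (nat_lit 76) (XT.lf (nat_lit 0) (nat_lit 1372127906) (nat_lit 1520) (nat_lit 764566803) (nat_lit 1596) (nat_lit 6505364891) (nat_lit 541) (nat_lit 5) (nat_lit 561) (nat_lit 5) (nat_lit 562) (nat_lit 5) (nat_lit 562) (nat_lit 545) (nat_lit 453)) (XT.lf (nat_lit 0) (nat_lit 2839909620) (nat_lit 1520) (nat_lit 4756199148) (nat_lit 1596) (nat_lit 1117563168) (nat_lit 542) (nat_lit 5) (nat_lit 562) (nat_lit 5) (nat_lit 563) (nat_lit 5) (nat_lit 563) (nat_lit 545) (nat_lit 452)))))) (XT.nd (nat_lit 390) (nat_lit 3344) (nat_lit 0) (XT.nd (nat_lit 156) (nat_lit 1444) (nat_lit 0) (XT.nd (nat_lit 78) (nat_lit 0) (nat_lit 0) (XT.lf (nat_lit 0) (nat_lit 4329520368) (nat_lit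 1520) (nat_lit 36576437) (nat_lit 1596) (nat_lit 4420774802) (nat_lit 542) (nat_lit 5) (nat_lit 562) (nat_lit 5) (nat_lit 563) (nat_lit 5) (nat_lit 564) (nat_lit 545) (nat_lit 451)) (XT.lf (nat_lit 76) (nat_lit 4820965245) (nat_lit 0) (nat_lit 1032943776) (nat_lit 1596) (nat_lit 3007531003) (nat_lit 543) (nat_lit 5) (nat_lit 542) (nat_lit 5) (nat_lit 563) (nat_lit 5) (nat_lit 565) (nat_lit 545) (nat_lit 450))) (XT.nd (nat_lit 78) (nat_lit 1520) (nat_lit 0) (XT.lf (nat_lit 76) (nat_lit 813827365) (nat_lit 0) (nat_lit 6589971323) (nat_lit 1596) (nat_lit 1533805237) (nat_lit 544) (nat_lit 5) (nat_lit 543) (nat_lit 5) (nat_lit 564) (nat_lit 5) (nat_lit 566) (nat_lit 545) (nat_lit 449)) (XT.nd (nat_lit 78) (nat_lit 1520) (nat_lit 0) (XT.lf (nat_lit 76) (nat_lit 5793050271) (nat_lit 0) (nat_lit 3200037903) (nat_lit 1596) (nat_lit 22039182) (nat_lit 544) (nat_lit 5) (nat_lit 543) (nat_lit 5) (nat_lit 564) (nat_lit 5)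 (nat_lit 567) (nat_lit 545) (nat_lit 448)) (XT.lf (nat_lit 0) (nat_lit 1488198125) (nat_lit 1596) (nat_lit 7325064398) (nat_lit 76) (nat_lit 280982079) (nat_lit 523) (nat_lit 5) (nat_lit 544) (nat_lit 5) (nat_lit 524) (nat_lit 5) (nat_lit 568) (nat_lit 545) (nat_lit 447))))) (XT.nd (nat_lit 156) (nat_lit 1748) (nat_lit 0) (XT.nd (nat_lit 78) (nat_lit 1596) (nat_lit 0) (XT.lf (nat_lit 0) (nat_lit 3046523099) (nat_lit 1596) (nat_lit 2312405796) (nat_lit 76) (nat_lit 3815652867) (nat_lit 523) (nat_lit 5) (nat_lit 544) (nat_lit 5) (nat_lit 524) (nat_lit 5) (nat_lit 569) (nat_lit 545) (nat_lit 446)) (XT.lf (nat_lit 0) (nat_lit 2817505782) (nat_lit 1596) (nat_lit 1812508202) (nat_lit 1672) (nat_lit 4626635661) (nat_lit 502) (nat_lit 5) (nat_lit 523) (nat_lit 5) (nat_lit 524) (nat_lit 5) (nat_lit 570) (nat_lit 545) (nat_lit 445))) (XT.nd (nat_lit 78) (nat_lit 1748) (nat_lit 0) (XT.lf (nat_lit 0) (nat_lit 6248593872) (nat_lit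 1672) (nat_lit 1290839280) (nat_lit 76) (nat_lit 1800861239) (nat_lit 502) (nat_lit 5) (nat_lit 524) (nat_lit 5) (nat_lit 503) (nat_lit 5) (nat_lit 571) (nat_lit 545) (nat_lit 444)) (XT.nd (nat_lit 78) (nat_lit 76) (nat_lit 0) (XT.lf (nat_lit 0) (nat_lit 3980703696) (nat_lit 1672) (nat_lit 3933240133) (nat_lit 1748) (nat_lit 1511384047) (nat_lit 480) (nat_lit 5) (nat_lit 502) (nat_lit 5) (nat_lit 503) (nat_lit 5) (nat_lit 572) (nat_lit 545) (nat_lit 443)) (XT.lf (nat_lit 0) (nat_lit 84663941) (nat_lit 1748) (nat_lit 157537550) (nat_lit 76) (nat_lit 9270142272) (nat_lit 479) (nat_lit 5) (nat_lit 502) (nat_lit 5) (nat_lit 480) (nat_lit 5) (nat_lit 573) (nat_lit 545) (nat_lit 442))))))))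
noncomputable def xc133 : XT := (XT.nd (nat_lit 1482) (nat_lit 7828) (nat_lit 0) (XT.nd (nat_lit 702) (nat_lit 4104) (nat_lit 0) (XT.nd (nat_lit 312) (nat_lit 2736) (nat_lit 0) (XT.nd (nat_lit 156) (nat_lit 988) (nat_lit 0) (XT.nd (nat_lit 78) (nat_lit 1672) (nat_lit 0) (XT.lf (nat_lit 0) (nat_lit 1727026722) (nat_lit 1824) (nat_lit 4349118086) (nat_lit 76) (nat_lit 3524066322) (nat_lit 456) (nat_lit 5) (nat_lit 480) (nat_lit 5) (nat_lit 457) (nat_lit 5) (nat_lit 574) (nat_lit 545) (nat_lit 441)) (XT.lf (nat_lit 0) (nat_lit 1072611411) (nat_lit 1672) (nat_lit 2316777318) (nat_lit 1748) (nat_lit 6300707599) (nat_lit 434) (nat_lit 5) (nat_lit 456) (nat_lit 5) (nat_lit 457) (nat_lit 5) (nat_lit 575) (nat_lit 545) (nat_lit 440))) (XT.nd (nat_lit 78) (nat_lit 988) (nat_lit 0) (XT.lf (nat_lit 0) (nat_lit 5102076191) (nat_lit 1748) (nat_lit 3149905774) (nat_lit 76) (nat_lit 1529459153) (nat_lit 434) (nat_lit 5) (nat_lit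 457) (nat_lit 5) (nat_lit 435) (nat_lit 5) (nat_lit 576) (nat_lit 545) (nat_lit 439)) (XT.lf (nat_lit 0) (nat_lit 2423474708) (nat_lit 988) (nat_lit 4434900442) (nat_lit 1064) (nat_lit 3016053885) (nat_lit 421) (nat_lit 5) (nat_lit 434) (nat_lit 5) (nat_lit 435) (nat_lit 5) (nat_lit 577) (nat_lit 545) (nat_lit 438)))) (XT.nd (nat_lit 156) (nat_lit 1748) (nat_lit 0) (XT.nd (nat_lit 78) (nat_lit 988) (nat_lit 0) (XT.lf (nat_lit 0) (nat_lit 8131160474) (nat_lit 988) (nat_lit 518354122) (nat_lit 1064) (nat_lit 1319771143) (nat_lit 421) (nat_lit 5) (nat_lit 434) (nat_lit 5) (nat_lit 435) (nat_lit 5) (nat_lit 578) (nat_lit 545) (nat_lit 437)) (XT.lf (nat_lit 0) (nat_lit 432100587) (nat_lit 988) (nat_lit 6172772485) (nat_lit 76) (nat_lit 3460575472) (nat_lit 408) (nat_lit 5) (nat_lit 421) (nat_lit 5) (nat_lit 409) (nat_lit 5) (nat_lit 579) (nat_lit 545) (nat_lit 436))) (XT.nd (nat_lit 78) (nat_lit 1748) (nat_lit 0) (XT.lf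 (nat_lit 0) (nat_lit 2196353759) (nat_lit 988) (nat_lit 432586171) (nat_lit 76) (nat_lit 7534523015) (nat_lit 408) (nat_lit 5) (nat_lit 421) (nat_lit 5) (nat_lit 409) (nat_lit 5) (nat_lit 580) (nat_lit 545) (nat_lit 435)) (XT.nd (nat_lit 78) (nat_lit 836) (nat_lit 0) (XT.lf (nat_lit 0) (nat_lit 4020497452) (nat_lit 988) (nat_lit 4798097517) (nat_lit 76) (nat_lit 1444353622) (nat_lit 396) (nat_lit 5) (nat_lit 409) (nat_lit 5) (nat_lit 397) (nat_lit 5) (nat_lit 581) (nat_lit 545) (nat_lit 434)) (XT.lf (nat_lit 0) (nat_lit 1098775018) (nat_lit 836) (nat_lit 4789652179) (nat_lit 912) (nat_lit 4475853696) (nat_lit 385) (nat_lit 5) (nat_lit 396) (nat_lit 5) (nat_lit 397) (nat_lit 5) (nat_lit 582) (nat_lit 545) (nat_lit 433)))))) (XT.nd (nat_lit 390) (nat_lit 2432) (nat_lit 0) (XT.nd (nat_lit 156) (nat_lit 836) (nat_lit 0) (XT.nd (nat_lit 78) (nat_lit 836) (nat_lit 0) (XT.lf (nat_lit 0) (nat_lit 7158814488) (nat_lit 836)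 (nat_lit 647202443) (nat_lit 912) (nat_lit 2661379829) (nat_lit 385) (nat_lit 5) (nat_lit 396) (nat_lit 5) (nat_lit 397) (nat_lit 5) (nat_lit 583) (nat_lit 545) (nat_lit 432)) (XT.lf (nat_lit 0) (nat_lit 2760639588) (nat_lit 836) (nat_lit 7022968459) (nat_lit 912) (nat_lit 788536795) (nat_lit 374) (nat_lit 5) (nat_lit 385) (nat_lit 5) (nat_lit 386) (nat_lit 5) (nat_lit 584) (nat_lit 545) (nat_lit 431))) (XT.nd (nat_lit 78) (nat_lit 760) (nat_lit 0) (XT.lf (nat_lit 0) (nat_lit 1114305128) (nat_lit 912) (nat_lit 1714110729) (nat_lit 76) (nat_lit 7850284058) (nat_lit 373) (nat_lit 5) (nat_lit 385) (nat_lit 5) (nat_lit 374) (nat_lit 5) (nat_lit 585) (nat_lit 545) (nat_lit 430)) (XT.nd (nat_lit 78) (nat_lit 0) (nat_lit 0) (XT.lf (nat_lit 0) (nat_lit 3064771387) (nat_lit 836) (nat_lit 6256717152) (nat_lit 76) (nat_lit 1465393509) (nat_lit 363) (nat_lit 5) (nat_lit 374) (nat_lit 5) (nat_lit 364) (nat_lit 5) (nat_lit 586)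 (nat_lit 545) (nat_lit 429)) (XT.lf (nat_lit 0) (nat_lit 5065797768) (nat_lit 836) (nat_lit 13042715) (nat_lit 76) (nat_lit 5818158993) (nat_lit 363) (nat_lit 5) (nat_lit 374) (nat_lit 5) (nat_lit 364) (nat_lit 5) (nat_lit 587) (nat_lit 545) (nat_lit 428))))) (XT.nd (nat_lit 156) (nat_lit 836) (nat_lit 0) (XT.nd (nat_lit 78) (nat_lit 760) (nat_lit 0) (XT.lf (nat_lit 0) (nat_lit 6420297991) (nat_lit 836) (nat_lit 709840152) (nat_lit 912) (nat_lit 3878717860) (nat_lit 352) (nat_lit 5) (nat_lit 363) (nat_lit 5) (nat_lit 364) (nat_lit 5) (nat_lit 588) (nat_lit 545) (nat_lit 427)) (XT.lf (nat_lit 0) (nat_lit 1839695486) (nat_lit 760) (nat_lit 7414264223) (nat_lit 836) (nat_lit 1868628627) (nat_lit 342) (nat_lit 5) (nat_lit 352) (nat_lit 5) (nat_lit 353) (nat_lit 5) (nat_lit 589) (nat_lit 545) (nat_lit 426))) (XT.nd (nat_lit 78) (nat_lit 760) (nat_lit 0) (XT.lf (nat_lit 0) (nat_lit 196921281) (nat_lit 836) (nat_lit 2805105075)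 (nat_lit 76) (nat_lit 8236195007) (nat_lit 341) (nat_lit 5) (nat_lit 352) (nat_lit 5) (nat_lit 342) (nat_lit 5) (nat_lit 590) (nat_lit 545) (nat_lit 425)) (XT.nd (nat_lit 78) (nat_lit 0) (nat_lit 0) (XT.lf (nat_lit 0) (nat_lit 2295853886) (nat_lit 836) (nat_lit 7545140014) (nat_lit 76) (nat_lit 1514586685) (nat_lit 331) (nat_lit 5) (nat_lit 342) (nat_lit 5) (nat_lit 332) (nat_lit 5) (nat_lit 591) (nat_lit 545) (nat_lit 424)) (XT.lf (nat_lit 0) (nat_lit 4458104196) (nat_lit 836) (nat_lit 918175273) (nat_lit 76) (nat_lit 6098583111) (nat_lit 331) (nat_lit 5) (nat_lit 342) (nat_lit 5) (nat_lit 332) (nat_lit 5) (nat_lit 592) (nat_lit 545) (nat_lit 423))))))) (XT.nd (nat_lit 702) (nat_lit 3572) (nat_lit 0) (XT.nd (nat_lit 312) (nat_lit 2052) (nat_lit 0) (XT.nd (nat_lit 156) (nat_lit 760) (nat_lit 0) (XT.nd (nat_lit 78) (nat_lit 760) (nat_lit 0) (XT.lf (nat_lit 0) (nat_lit 5899505568) (nat_lit 684) (nat_lit 785250088)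 (nat_lit 760) (nat_lit 4911353761) (nat_lit 322) (nat_lit 5) (nat_lit 331) (nat_lit 5) (nat_lit 332) (nat_lit 5) (nat_lit 593) (nat_lit 545) (nat_lit 422)) (XT.lf (nat_lit 0) (nat_lit 1116223946) (nat_lit 760) (nat_lit 7861522697) (nat_lit 836) (nat_lit 2741600695) (nat_lit 312) (nat_lit 5) (nat_lit 322) (nat_lit 5) (nat_lit 323) (nat_lit 5) (nat_lit 594) (nat_lit 545) (nat_lit 421))) (XT.nd (nat_lit 78) (nat_lit 760) (nat_lit 0) (XT.lf (nat_lit 0) (nat_lit 8117988338) (nat_lit 760) (nat_lit 3225260846) (nat_lit 836) (nat_lit 501270032) (nat_lit 312) (nat_lit 5) (nat_lit 322) (nat_lit 5) (nat_lit 323) (nat_lit 5) (nat_lit 595) (nat_lit 545) (nat_lit 420)) (XT.lf (nat_lit 0) (nat_lit 1775339257) (nat_lit 760) (nat_lit 8681651462) (nat_lit 76) (nat_lit 1514676965) (nat_lit 302) (nat_lit 5) (nat_lit 312) (nat_lit 5) (nat_lit 303) (nat_lit 5) (nat_lit 596) (nat_lit 545) (nat_lit 419)))) (XT.nd (nat_lit 156) (nat_lit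 1368) (nat_lit 0) (XT.nd (nat_lit 78) (nat_lit 684) (nat_lit 0) (XT.lf (nat_lit 0) (nat_lit 4120966176) (nat_lit 760) (nat_lit 1647594154) (nat_lit 76) (nat_lit 6332130678) (nat_lit 302) (nat_lit 5) (nat_lit 312) (nat_lit 5) (nat_lit 303) (nat_lit 5) (nat_lit 597) (nat_lit 545) (nat_lit 418)) (XT.lf (nat_lit 0) (nat_lit 5581425179) (nat_lit 684) (nat_lit 952298413) (nat_lit 760) (nat_lit 5698168910) (nat_lit 293) (nat_lit 5) (nat_lit 302) (nat_lit 5) (nat_lit 303) (nat_lit 5) (nat_lit 598) (nat_lit 545) (nat_lit 417))) (XT.nd (nat_lit 78) (nat_lit 760) (nat_lit 0) (XT.lf (nat_lit 0) (nat_lit 574515038) (nat_lit 608) (nat_lit 8444945983) (nat_lit 684) (nat_lit 3345764532) (nat_lit 285) (nat_lit 5) (nat_lit 293) (nat_lit 5) (nat_lit 294) (nat_lit 5) (nat_lit 599) (nat_lit 545) (nat_lit 416)) (XT.nd (nat_lit 78) (nat_lit 760) (nat_lit 0) (XT.lf (nat_lit 0) (nat_lit 8008785729) (nat_lit 608) (nat_lit 3581360763) (nat_lit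 684) (nat_lit 910376090) (nat_lit 285) (nat_lit 5) (nat_lit 293) (nat_lit 5) (nat_lit 294) (nat_lit 5) (nat_lit 600) (nat_lit 545) (nat_lit 415)) (XT.lf (nat_lit 0) (nat_lit 1565992048) (nat_lit 760) (nat_lit 9684322858) (nat_lit 76) (nat_lit 1387749969) (nat_lit 275) (nat_lit 5) (nat_lit 285) (nat_lit 5) (nat_lit 276) (nat_lit 5) (nat_lit 601) (nat_lit 545) (nat_lit 414)))))) (XT.nd (nat_lit 390) (nat_lit 1748) (nat_lit 0) (XT.nd (nat_lit 156) (nat_lit 1216) (nat_lit 0) (XT.nd (nat_lit 78) (nat_lit 608) (nat_lit 0) (XT.lf (nat_lit 0) (nat_lit 4118471323) (nat_lit 760) (nat_lit 2217650868) (nat_lit 76) (nat_lit 6441341866) (nat_lit 275) (nat_lit 5) (nat_lit 285) (nat_lit 5) (nat_lit 276) (nat_lit 5) (nat_lit 602) (nat_lit 545) (nat_lit 413)) (XT.lf (nat_lit 0) (nat_lit 5451254016) (nat_lit 608) (nat_lit 1291142422) (nat_lit 684) (nat_lit 6176848691) (nat_lit 267) (nat_lit 5) (nat_lit 275) (nat_lit 5) (nat_lit 276)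 (nat_lit 5) (nat_lit 603) (nat_lit 545) (nat_lit 412))) (XT.nd (nat_lit 78) (nat_lit 608) (nat_lit 0) (XT.lf (nat_lit 0) (nat_lit 198767511) (nat_lit 608) (nat_lit 9246484266) (nat_lit 684) (nat_lit 3618082808) (nat_lit 259) (nat_lit 5) (nat_lit 267) (nat_lit 5) (nat_lit 268) (nat_lit 5) (nat_lit 604) (nat_lit 545) (nat_lit 411)) (XT.nd (nat_lit 78) (nat_lit 608) (nat_lit 0) (XT.lf (nat_lit 0) (nat_lit 8092804039) (nat_lit 608) (nat_lit 4153292407) (nat_lit 684) (nat_lit 963332500) (nat_lit 259) (nat_lit 5) (nat_lit 267) (nat_lit 5) (nat_lit 268) (nat_lit 5) (nat_lit 605) (nat_lit 545) (nat_lit 410)) (XT.lf (nat_lit 0) (nat_lit 1732215724) (nat_lit 608) (nat_lit 10571951219) (nat_lit 76) (nat_lit 1053841764) (nat_lit 251) (nat_lit 5) (nat_lit 259) (nat_lit 5) (nat_lit 252) (nat_lit 5) (nat_lit 606) (nat_lit 545) (nat_lit 409))))) (XT.nd (nat_lit 156) (nat_lit 1140) (nat_lit 0) (XT.nd (nat_lit 78) (nat_lit 608)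 (nat_lit 0) (XT.lf (nat_lit 0) (nat_lit 4516509292) (nat_lit 608) (nat_lit 2645428216) (nat_lit 76) (nat_lit 6346542194) (nat_lit 251) (nat_lit 5) (nat_lit 259) (nat_lit 5) (nat_lit 252) (nat_lit 5) (nat_lit 607) (nat_lit 545) (nat_lit 408)) (XT.lf (nat_lit 0) (nat_lit 5493444058) (nat_lit 608) (nat_lit 1884646523) (nat_lit 684) (nat_lit 6283439126) (nat_lit 243) (nat_lit 5) (nat_lit 251) (nat_lit 5) (nat_lit 252) (nat_lit 5) (nat_lit 608) (nat_lit 545) (nat_lit 407))) (XT.nd (nat_lit 78) (nat_lit 1140) (nat_lit 0) (XT.lf (nat_lit 0) (nat_lit 10323551550) (nat_lit 684) (nat_lit 27523774) (nat_lit 76) (nat_lit 3466034022) (nat_lit 243) (nat_lit 5) (nat_lit 252) (nat_lit 5) (nat_lit 244) (nat_lit 5) (nat_lit 609) (nat_lit 545) (nat_lit 406)) (XT.nd (nat_lit 78) (nat_lit 608) (nat_lit 0) (XT.lf (nat_lit 0) (nat_lit 8354943623) (nat_lit 532) (nat_lit 5026043977) (nat_lit 608) (nat_lit 593753224) (nat_lit 236) (nat_lit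 5) (nat_lit 243) (nat_lit 5) (nat_lit 244) (nat_lit 5) (nat_lit 610) (nat_lit 545) (nat_lit 405)) (XT.lf (nat_lit 0) (nat_lit 2340457241) (nat_lit 608) (nat_lit 11365089873) (nat_lit 76) (nat_lit 429524049) (nat_lit 228) (nat_lit 5) (nat_lit 236) (nat_lit 5) (nat_lit 229) (nat_lit 5) (nat_lit 611) (nat_lit 545) (nat_lit 404))))))))
noncomputable def xc134 : XT := (XT.nd (nat_lit 1482) (nat_lit 1976) (nat_lit 0) (XT.nd (nat_lit 702) (nat_lit 2736) (nat_lit 0) (XT.nd (nat_lit 312) (nat_lit 1520) (nat_lit 0) (XT.nd (nat_lit 156) (nat_lit 608) (nat_lit 0) (XT.nd (nat_lit 78) (nat_lit 532) (nat_lit 0) (XT.lf (nat_lit 0) (nat_lit 5383176261) (nat_lit 608) (nat_lit 2949775087) (nat_lit 76) (nat_lit 5964424245) (nat_lit 228) (nat_lit 5) (nat_lit 236) (nat_lit 5) (nat_lit 229) (nat_lit 5) (nat_lit 612) (nat_lit 545) (nat_lit 403)) (XT.lf (nat_lit 0) (nat_lit 5690649044) (nat_lit 532) (nat_lit 2819833051) (nat_lit 608) (nat_lit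 5951970813) (nat_lit 221) (nat_lit 5) (nat_lit 228) (nat_lit 5) (nat_lit 229) (nat_lit 5) (nat_lit 613) (nat_lit 545) (nat_lit 402))) (XT.nd (nat_lit 78) (nat_lit 608) (nat_lit 0) (XT.lf (nat_lit 0) (nat_lit 11725361104) (nat_lit 608) (nat_lit 122849042) (nat_lit 76) (nat_lit 2782122499) (nat_lit 221) (nat_lit 5) (nat_lit 229) (nat_lit 5) (nat_lit 222) (nat_lit 5) (nat_lit 614) (nat_lit 545) (nat_lit 401)) (XT.lf (nat_lit 0) (nat_lit 263542849) (nat_lit 608) (nat_lit 6024108331) (nat_lit 76) (nat_lit 8512629060) (nat_lit 213) (nat_lit 5) (nat_lit 221) (nat_lit 5) (nat_lit 214) (nat_lit 5) (nat_lit 615) (nat_lit 545) (nat_lit 400)))) (XT.nd (nat_lit 156) (nat_lit 1064) (nat_lit 0) (XT.nd (nat_lit 78) (nat_lit 0) (nat_lit 0) (XT.lf (nat_lit 0) (nat_lit 2882134354) (nat_lit 456) (nat_lit 581183226) (nat_lit 532) (nat_lit 11509790751) (nat_lit 207) (nat_lit 5) (nat_lit 213) (nat_lit 5) (nat_lit 214) (nat_lit 5) (nat_lit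 616) (nat_lit 545) (nat_lit 399)) (XT.lf (nat_lit 0) (nat_lit 6789112192) (nat_lit 532) (nat_lit 3152466187) (nat_lit 76) (nat_lit 5206575427) (nat_lit 207) (nat_lit 5) (nat_lit 214) (nat_lit 5) (nat_lit 208) (nat_lit 5) (nat_lit 617) (nat_lit 545) (nat_lit 398))) (XT.nd (nat_lit 78) (nat_lit 532) (nat_lit 0) (XT.lf (nat_lit 0) (nat_lit 6022541240) (nat_lit 532) (nat_lit 4189395410) (nat_lit 608) (nat_lit 5114154543) (nat_lit 200) (nat_lit 5) (nat_lit 207) (nat_lit 5) (nat_lit 208) (nat_lit 5) (nat_lit 618) (nat_lit 545) (nat_lit 397)) (XT.nd (nat_lit 78) (nat_lit 532) (nat_lit 0) (XT.lf (nat_lit 0) (nat_lit 13723067922) (nat_lit 608) (nat_lit 111925394) (nat_lit 76) (nat_lit 1672198264) (nat_lit 200) (nat_lit 5) (nat_lit 208) (nat_lit 5) (nat_lit 201) (nat_lit 5) (nat_lit 619) (nat_lit 545) (nat_lit 396)) (XT.lf (nat_lit 0) (nat_lit 1668160591) (nat_lit 532) (nat_lit 6360231543) (nat_lit 76) (nat_lit 7661777640)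 (nat_lit 193) (nat_lit 5) (nat_lit 200) (nat_lit 5) (nat_lit 194) (nat_lit 5) (nat_lit 620) (nat_lit 545) (nat_lit 395)))))) (XT.nd (nat_lit 390) (nat_lit 1292) (nat_lit 0) (XT.nd (nat_lit 156) (nat_lit 988) (nat_lit 0) (XT.nd (nat_lit 78) (nat_lit 0) (nat_lit 0) (XT.lf (nat_lit 0) (nat_lit 3096946569) (nat_lit 456) (nat_lit 2077490204) (nat_lit 532) (nat_lit 10701959367) (nat_lit 187) (nat_lit 5) (nat_lit 193) (nat_lit 5) (nat_lit 194) (nat_lit 5) (nat_lit 621) (nat_lit 545) (nat_lit 394)) (XT.lf (nat_lit 0) (nat_lit 8807764631) (nat_lit 532) (nat_lit 3279521406) (nat_lit 76) (nat_lit 3977923636) (nat_lit 187) (nat_lit 5) (nat_lit 194) (nat_lit 5) (nat_lit 188) (nat_lit 5) (nat_lit 622) (nat_lit 545) (nat_lit 393))) (XT.nd (nat_lit 78) (nat_lit 532) (nat_lit 0) (XT.lf (nat_lit 0) (nat_lit 6464462357) (nat_lit 456) (nat_lit 6093302453) (nat_lit 532) (nat_lit 3699155693) (nat_lit 181) (nat_lit 5) (nat_lit 187) (nat_lit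 5) (nat_lit 188) (nat_lit 5) (nat_lit 623) (nat_lit 545) (nat_lit 392)) (XT.nd (nat_lit 78) (nat_lit 532) (nat_lit 0) (XT.lf (nat_lit 0) (nat_lit 16393413864) (nat_lit 532) (nat_lit 21578864) (nat_lit 76) (nat_lit 37260958) (nat_lit 181) (nat_lit 5) (nat_lit 188) (nat_lit 5) (nat_lit 182) (nat_lit 5) (nat_lit 624) (nat_lit 545) (nat_lit 391)) (XT.lf (nat_lit 0) (nat_lit 3700970986) (nat_lit 532) (nat_lit 6654917040) (nat_lit 76) (nat_lit 6293239758) (nat_lit 174) (nat_lit 5) (nat_lit 181) (nat_lit 5) (nat_lit 175) (nat_lit 5) (nat_lit 625) (nat_lit 545) (nat_lit 390))))) (XT.nd (nat_lit 156) (nat_lit 912) (nat_lit 0) (XT.nd (nat_lit 78) (nat_lit 0) (nat_lit 0) (XT.lf (nat_lit 0) (nat_lit 3387952633) (nat_lit 380) (nat_lit 4158011377) (nat_lit 456) (nat_lit 9303753149) (nat_lit 169) (nat_lit 5) (nat_lit 174) (nat_lit 5) (nat_lit 175) (nat_lit 5) (nat_lit 626) (nat_lit 545) (nat_lit 389)) (XT.lf (nat_lit 0) (nat_lit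 11515569908) (nat_lit 456) (nat_lit 3362724367) (nat_lit 76) (nat_lit 2175070820) (nat_lit 169) (nat_lit 5) (nat_lit 175) (nat_lit 5) (nat_lit 170) (nat_lit 5) (nat_lit 627) (nat_lit 545) (nat_lit 388))) (XT.nd (nat_lit 78) (nat_lit 456) (nat_lit 0) (XT.lf (nat_lit 0) (nat_lit 6985867938) (nat_lit 456) (nat_lit 8640525034) (nat_lit 532) (nat_lit 1633457526) (nat_lit 163) (nat_lit 5) (nat_lit 169) (nat_lit 5) (nat_lit 170) (nat_lit 5) (nat_lit 628) (nat_lit 545) (nat_lit 387)) (XT.nd (nat_lit 78) (nat_lit 0) (nat_lit 0) (XT.lf (nat_lit 0) (nat_lit 86178146) (nat_lit 380) (nat_lit 2244224867) (nat_lit 456) (nat_lit 15139513684) (nat_lit 157) (nat_lit 5) (nat_lit 162) (nat_lit 5) (nat_lit 163) (nat_lit 5) (nat_lit 629) (nat_lit 545) (nat_lit 386)) (XT.lf (nat_lit 0) (nat_lit 6437920559) (nat_lit 456) (nat_lit 6945686181) (nat_lit 76) (nat_lit 4298637452) (nat_lit 157) (nat_lit 5) (nat_lit 163) (nat_lit 5) (nat_lit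 158) (nat_lit 5) (nat_lit 630) (nat_lit 545) (nat_lit 385))))))) (XT.nd (nat_lit 74646) (nat_lit 0) (nat_lit 32452) (XT.nd (nat_lit 312) (nat_lit 760) (nat_lit 0) (XT.nd (nat_lit 156) (nat_lit 836) (nat_lit 0) (XT.nd (nat_lit 78) (nat_lit 0) (nat_lit 0) (XT.lf (nat_lit 0) (nat_lit 3718736069) (nat_lit 380) (nat_lit 6937116488) (nat_lit 456) (nat_lit 7242401336) (nat_lit 152) (nat_lit 5) (nat_lit 157) (nat_lit 5) (nat_lit 158) (nat_lit 5) (nat_lit 631) (nat_lit 545) (nat_lit 384)) (XT.lf (nat_lit 0) (nat_lit 14674403968) (nat_lit 380) (nat_lit 319711124) (nat_lit 456) (nat_lit 3123750172) (nat_lit 152) (nat_lit 5) (nat_lit 157) (nat_lit 5) (nat_lit 158) (nat_lit 5) (nat_lit 632) (nat_lit 545) (nat_lit 383))) (XT.nd (nat_lit 78) (nat_lit 380) (nat_lit 0) (XT.lf (nat_lit 0) (nat_lit 1143970218) (nat_lit 456) (nat_lit 10799271554) (nat_lit 76) (nat_lit 6396871586) (nat_lit 146) (nat_lit 5) (nat_lit 152) (nat_lit 5)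 (nat_lit 147) (nat_lit 5) (nat_lit 633) (nat_lit 545) (nat_lit 382)) (XT.lf (nat_lit 0) (nat_lit 188595890) (nat_lit 380) (nat_lit 5282831518) (nat_lit 456) (nat_lit 13094642723) (nat_lit 141) (nat_lit 5) (nat_lit 146) (nat_lit 5) (nat_lit 147) (nat_lit 5) (nat_lit 634) (nat_lit 545) (nat_lit 381)))) (XT.nd (nat_lit 156) (nat_lit 456) (nat_lit 0) (XT.nd (nat_lit 78) (nat_lit 304) (nat_lit 0) (XT.lf (nat_lit 0) (nat_lit 9957823698) (nat_lit 456) (nat_lit 7278926855) (nat_lit 76) (nat_lit 1558348533) (nat_lit 141) (nat_lit 5) (nat_lit 147) (nat_lit 5) (nat_lit 142) (nat_lit 5) (nat_lit 635) (nat_lit 545) (nat_lit 380)) (XT.lf (nat_lit 0) (nat_lit 4043808878) (nat_lit 304) (nat_lit 10541215257) (nat_lit 380) (nat_lit 4442663792) (nat_lit 137) (nat_lit 5) (nat_lit 141) (nat_lit 5) (nat_lit 142) (nat_lit 5) (nat_lit 636) (nat_lit 545) (nat_lit 379))) (XT.nd (nat_lit 78) (nat_lit 380) (nat_lit 0) (XT.lf (nat_lit 0) (nat_lit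 78351642) (nat_lit 380) (nat_lit 3588730253) (nat_lit 76) (nat_lit 15597061590) (nat_lit 136) (nat_lit 5) (nat_lit 141) (nat_lit 5) (nat_lit 137) (nat_lit 5) (nat_lit 637) (nat_lit 545) (nat_lit 378)) (XT.nd (nat_lit 74022) (nat_lit 0) (nat_lit 35112) (XT.lf (nat_lit 0) (nat_lit 4695202550) (nat_lit 456) (nat_lit 11430587789) (nat_lit 76) (nat_lit 3377653228) (nat_lit 131) (nat_lit 5) (nat_lit 137) (nat_lit 5) (nat_lit 132) (nat_lit 5) (nat_lit 638) (nat_lit 545) (nat_lit 377)) (XT.lf (nat_lit 0) (nat_lit 1124363367) (nat_lit 0) (nat_lit 1124363367) (nat_lit 1292) (nat_lit 1617510994) (nat_lit 593) (nat_lit 5) (nat_lit 593) (nat_lit 3) (nat_lit 610) (nat_lit 3) (nat_lit 546) (nat_lit 546) (nat_lit 468)))))) (XT.nd (nat_lit 390) (nat_lit 1292) (nat_lit 0) (XT.nd (nat_lit 156) (nat_lit 1368) (nat_lit 0) (XT.nd (nat_lit 78) (nat_lit 0) (nat_lit 0) (XT.lf (nat_lit 0) (nat_lit 5867861076) (nat_lit 1292) (nat_lit 1678745416)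 (nat_lit 1368) (nat_lit 236436962) (nat_lit 593) (nat_lit 5) (nat_lit 610) (nat_lit 3) (nat_lit 611) (nat_lit 5) (nat_lit 547) (nat_lit 546) (nat_lit 467)) (XT.lf (nat_lit 76) (nat_lit 2198117787) (nat_lit 0) (nat_lit 5062109863) (nat_lit 1368) (nat_lit 574510654) (nat_lit 594) (nat_lit 5) (nat_lit 593) (nat_lit 5) (nat_lit 611) (nat_lit 5) (nat_lit 548) (nat_lit 546) (nat_lit 466))) (XT.nd (nat_lit 78) (nat_lit 0) (nat_lit 76) (XT.lf (nat_lit 0) (nat_lit 759630963) (nat_lit 1368) (nat_lit 1735709703) (nat_lit 1444) (nat_lit 5392488541) (nat_lit 575) (nat_lit 5) (nat_lit 593) (nat_lit 5) (nat_lit 594) (nat_lit 5) (nat_lit 549) (nat_lit 546) (nat_lit 465)) (XT.nd (nat_lit 78) (nat_lit 0) (nat_lit 0) (XT.lf (nat_lit 0) (nat_lit 2094791653) (nat_lit 1368) (nat_lit 5692533136) (nat_lit 1444) (nat_lit 154946742) (nat_lit 576) (nat_lit 5) (nat_lit 594) (nat_lit 5) (nat_lit 595) (nat_lit 5) (nat_lit 550) (nat_lit 546)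 (nat_lit 464)) (XT.lf (nat_lit 0) (nat_lit 3451934012) (nat_lit 1368) (nat_lit 1694550229) (nat_lit 1444) (nat_lit 2851418904) (nat_lit 576) (nat_lit 5) (nat_lit 594) (nat_lit 5) (nat_lit 595) (nat_lit 5) (nat_lit 551) (nat_lit 546) (nat_lit 463))))) (XT.nd (nat_lit 156) (nat_lit 1368) (nat_lit 0) (XT.nd (nat_lit 78) (nat_lit 0) (nat_lit 76) (XT.lf (nat_lit 76) (nat_lit 2396388693) (nat_lit 0) (nat_lit 2423064329) (nat_lit 1444) (nat_lit 3235535586) (nat_lit 577) (nat_lit 5) (nat_lit 576) (nat_lit 5) (nat_lit 595) (nat_lit 5) (nat_lit 552) (nat_lit 546) (nat_lit 462)) (XT.lf (nat_lit 0) (nat_lit 6196350237) (nat_lit 1368) (nat_lit 1542292014) (nat_lit 1444) (nat_lit 374938752) (nat_lit 577) (nat_lit 5) (nat_lit 595) (nat_lit 5) (nat_lit 596) (nat_lit 5) (nat_lit 553) (nat_lit 546) (nat_lit 461))) (XT.nd (nat_lit 78) (nat_lit 1444) (nat_lit 0) (XT.lf (nat_lit 76) (nat_lit 2656467597) (nat_lit 0) (nat_lit 4946511582)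 (nat_lit 1444) (nat_lit 570327857) (nat_lit 578) (nat_lit 5) (nat_lit 577) (nat_lit 5) (nat_lit 596) (nat_lit 5) (nat_lit 554) (nat_lit 546) (nat_lit 460)) (XT.nd (nat_lit 78) (nat_lit 0) (nat_lit 76) (XT.lf (nat_lit 0) (nat_lit 772573679) (nat_lit 1444) (nat_lit 1298157422) (nat_lit 1520) (nat_lit 6163805619) (nat_lit 558) (nat_lit 5) (nat_lit 577) (nat_lit 5) (nat_lit 578) (nat_lit 5) (nat_lit 555) (nat_lit 546) (nat_lit 459)) (XT.lf (nat_lit 0) (nat_lit 2129941372) (nat_lit 1444) (nat_lit 5280794083) (nat_lit 1520) (nat_lit 886280587) (nat_lit 559) (nat_lit 5) (nat_lit 578) (nat_lit 5) (nat_lit 579) (nat_lit 5) (nat_lit 556) (nat_lit 546) (nat_lit 458))))))))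
noncomputable def xc135 : XT := (XT.nd (nat_lit 1482) (nat_lit 10184) (nat_lit 0) (XT.nd (nat_lit 702) (nat_lit 6384) (nat_lit 0) (XT.nd (nat_lit 312) (nat_lit 1444) (nat_lit 0) (XT.nd (nat_lit 156) (nat_lit 0) (nat_lit 76) (XT.nd (nat_lit 78) (nat_lit 0) (nat_lit 0) (XT.lf (nat_lit 0) (nat_lit 3507269612) (nat_lit 1444) (nat_lit 958995235) (nat_lit 1520) (nat_lit 3894629074) (nat_lit 559) (nat_lit 5) (nat_lit 578) (nat_lit 5) (nat_lit 579) (nat_lit 5) (nat_lit 557) (nat_lit 546) (nat_lit 457)) (XT.lf (nat_lit 76) (nat_lit 3476064918) (nat_lit 0) (nat_lit 1429560898) (nat_lit 1520) (nat_lit 3520559045) (nat_lit 560) (nat_lit 5) (nat_lit 559) (nat_lit 5) (nat_lit 579) (nat_lit 5) (nat_lit 558) (nat_lit 546) (nat_lit 456))) (XT.nd (nat_lit 78) (nat_lit 0) (nat_lit 0) (XT.lf (nat_lit 0) (nat_lit 6320682802) (nat_lit 1444) (nat_lit 509981932) (nat_lit 1520) (nat_lit 1662347243) (nat_lit 560) (nat_lit 5) (nat_lit 579)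 (nat_lit 5) (nat_lit 580) (nat_lit 5) (nat_lit 559) (nat_lit 546) (nat_lit 455)) (XT.lf (nat_lit 76) (nat_lit 4043619296) (nat_lit 0) (nat_lit 3728129751) (nat_lit 1520) (nat_lit 789277357) (nat_lit 561) (nat_lit 5) (nat_lit 560) (nat_lit 5) (nat_lit 580) (nat_lit 5) (nat_lit 560) (nat_lit 546) (nat_lit 454)))) (XT.nd (nat_lit 156) (nat_lit 0) (nat_lit 76) (XT.nd (nat_lit 78) (nat_lit 0) (nat_lit 76) (XT.lf (nat_lit 76) (nat_lit 42214527) (nat_lit 0) (nat_lit 547016577) (nat_lit 1596) (nat_lit 8041575144) (nat_lit 541) (nat_lit 5) (nat_lit 540) (nat_lit 5) (nat_lit 561) (nat_lit 5) (nat_lit 561) (nat_lit 546) (nat_lit 453)) (XT.lf (nat_lit 0) (nat_lit 2005483428) (nat_lit 1520) (nat_lit 3989689524) (nat_lit 1596) (nat_lit 2706294201) (nat_lit 541) (nat_lit 5) (nat_lit 561) (nat_lit 5) (nat_lit 562) (nat_lit 5) (nat_lit 562) (nat_lit 546) (nat_lit 452))) (XT.nd (nat_lit 78) (nat_lit 0) (nat_lit 76) (XT.lf (nat_lit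 76) (nat_lit 687333359) (nat_lit 0) (nat_lit 2744049864) (nat_lit 1596) (nat_lit 5342536159) (nat_lit 542) (nat_lit 5) (nat_lit 541) (nat_lit 5) (nat_lit 562) (nat_lit 5) (nat_lit 563) (nat_lit 546) (nat_lit 451)) (XT.nd (nat_lit 78) (nat_lit 0) (nat_lit 0) (XT.lf (nat_lit 0) (nat_lit 4890150447) (nat_lit 1520) (nat_lit 3358900244) (nat_lit 1596) (nat_lit 598687444) (nat_lit 542) (nat_lit 5) (nat_lit 562) (nat_lit 5) (nat_lit 563) (nat_lit 5) (nat_lit 564) (nat_lit 546) (nat_lit 450)) (XT.lf (nat_lit 76) (nat_lit 1444800545) (nat_lit 0) (nat_lit 4935046357) (nat_lit 1596) (nat_lit 2543155662) (nat_lit 543) (nat_lit 5) (nat_lit 542) (nat_lit 5) (nat_lit 563) (nat_lit 5) (nat_lit 565) (nat_lit 546) (nat_lit 449)))))) (XT.nd (nat_lit 390) (nat_lit 5016) (nat_lit 0) (XT.nd (nat_lit 156) (nat_lit 0) (nat_lit 0) (XT.nd (nat_lit 78) (nat_lit 1520) (nat_lit 0) (XT.lf (nat_lit 76) (nat_lit 6370918192) (nat_lit 0) (nat_lit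 1525541141) (nat_lit 1596) (nat_lit 1103374801) (nat_lit 543) (nat_lit 5) (nat_lit 542) (nat_lit 5) (nat_lit 563) (nat_lit 5) (nat_lit 566) (nat_lit 546) (nat_lit 448)) (XT.lf (nat_lit 0) (nat_lit 363256407) (nat_lit 1596) (nat_lit 6764841784) (nat_lit 1672) (nat_lit 1950003962) (nat_lit 522) (nat_lit 5) (nat_lit 543) (nat_lit 5) (nat_lit 544) (nat_lit 5) (nat_lit 567) (nat_lit 546) (nat_lit 447))) (XT.nd (nat_lit 78) (nat_lit 0) (nat_lit 0) (XT.lf (nat_lit 0) (nat_lit 1847637700) (nat_lit 1596) (nat_lit 1804752421) (nat_lit 1672) (nat_lit 5505339757) (nat_lit 522) (nat_lit 5) (nat_lit 543) (nat_lit 5) (nat_lit 544) (nat_lit 5) (nat_lit 568) (nat_lit 546) (nat_lit 446)) (XT.nd (nat_lit 78) (nat_lit 0) (nat_lit 76) (XT.lf (nat_lit 76) (nat_lit 3278359807) (nat_lit 0) (nat_lit 80432762) (nat_lit 1672) (nat_lit 5880219837) (nat_lit 523) (nat_lit 5) (nat_lit 522) (nat_lit 5) (nat_lit 544) (nat_lit 5) (nat_lit 569)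 (nat_lit 546) (nat_lit 445)) (XT.lf (nat_lit 0) (nat_lit 4911677345) (nat_lit 1596) (nat_lit 876854589) (nat_lit 76) (nat_lit 3533162402) (nat_lit 523) (nat_lit 5) (nat_lit 544) (nat_lit 5) (nat_lit 524) (nat_lit 5) (nat_lit 570) (nat_lit 546) (nat_lit 444))))) (XT.nd (nat_lit 156) (nat_lit 1824) (nat_lit 0) (XT.nd (nat_lit 78) (nat_lit 1672) (nat_lit 0) (XT.lf (nat_lit 0) (nat_lit 4345906541) (nat_lit 1596) (nat_lit 2155112099) (nat_lit 1672) (nat_lit 2904907100) (nat_lit 502) (nat_lit 5) (nat_lit 523) (nat_lit 5) (nat_lit 524) (nat_lit 5) (nat_lit 571) (nat_lit 546) (nat_lit 443)) (XT.lf (nat_lit 0) (nat_lit 165809329) (nat_lit 1672) (nat_lit 7950416615) (nat_lit 1748) (nat_lit 1375737984) (nat_lit 480) (nat_lit 5) (nat_lit 502) (nat_lit 5) (nat_lit 503) (nat_lit 5) (nat_lit 572) (nat_lit 546) (nat_lit 442))) (XT.nd (nat_lit 78) (nat_lit 1748) (nat_lit 0) (XT.lf (nat_lit 0) (nat_lit 207234239) (nat_lit 1748)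 (nat_lit 4049710774) (nat_lit 76) (nat_lit 5322244901) (nat_lit 479) (nat_lit 5) (nat_lit 502) (nat_lit 5) (nat_lit 480) (nat_lit 5) (nat_lit 573) (nat_lit 546) (nat_lit 441)) (XT.nd (nat_lit 78) (nat_lit 0) (nat_lit 0) (XT.lf (nat_lit 0) (nat_lit 1321145349) (nat_lit 1748) (nat_lit 468522419) (nat_lit 1824) (nat_lit 7878589843) (nat_lit 456) (nat_lit 5) (nat_lit 479) (nat_lit 5) (nat_lit 480) (nat_lit 5) (nat_lit 574) (nat_lit 546) (nat_lit 440)) (XT.lf (nat_lit 0) (nat_lit 3431113074) (nat_lit 1824) (nat_lit 2946145294) (nat_lit 76) (nat_lit 3381304484) (nat_lit 456) (nat_lit 5) (nat_lit 480) (nat_lit 5) (nat_lit 457) (nat_lit 5) (nat_lit 575) (nat_lit 546) (nat_lit 439))))))) (XT.nd (nat_lit 702) (nat_lit 4788) (nat_lit 0) (XT.nd (nat_lit 312) (nat_lit 2660) (nat_lit 0) (XT.nd (nat_lit 156) (nat_lit 1064) (nat_lit 0) (XT.nd (nat_lit 78) (nat_lit 0) (nat_lit 0) (XT.lf (nat_lit 0) (nat_lit 2574216457) (nat_lit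 1672) (nat_lit 2529379806) (nat_lit 1748) (nat_lit 4747117141) (nat_lit 434) (nat_lit 5) (nat_lit 456) (nat_lit 5) (nat_lit 457) (nat_lit 5) (nat_lit 576) (nat_lit 546) (nat_lit 438)) (XT.lf (nat_lit 0) (nat_lit 6817196386) (nat_lit 1748) (nat_lit 1728181161) (nat_lit 76) (nat_lit 1399179393) (nat_lit 434) (nat_lit 5) (nat_lit 457) (nat_lit 5) (nat_lit 435) (nat_lit 5) (nat_lit 577) (nat_lit 546) (nat_lit 437))) (XT.nd (nat_lit 78) (nat_lit 76) (nat_lit 0) (XT.lf (nat_lit 0) (nat_lit 3946899018) (nat_lit 988) (nat_lit 4639669697) (nat_lit 1064) (nat_lit 1453281883) (nat_lit 421) (nat_lit 5) (nat_lit 434) (nat_lit 5) (nat_lit 435) (nat_lit 5) (nat_lit 578) (nat_lit 546) (nat_lit 436)) (XT.lf (nat_lit 0) (nat_lit 241886614) (nat_lit 1064) (nat_lit 399006744) (nat_lit 76) (nat_lit 9496308016) (nat_lit 420) (nat_lit 5) (nat_lit 434) (nat_lit 5) (nat_lit 421) (nat_lit 5) (nat_lit 579) (nat_lit 546) (nat_lit 435))))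 (XT.nd (nat_lit 156) (nat_lit 836) (nat_lit 0) (XT.nd (nat_lit 78) (nat_lit 912) (nat_lit 0) (XT.lf (nat_lit 0) (nat_lit 1989216828) (nat_lit 988) (nat_lit 4806931100) (nat_lit 76) (nat_lit 3439407823) (nat_lit 408) (nat_lit 5) (nat_lit 421) (nat_lit 5) (nat_lit 409) (nat_lit 5) (nat_lit 580) (nat_lit 546) (nat_lit 434)) (XT.lf (nat_lit 0) (nat_lit 1032397114) (nat_lit 912) (nat_lit 2732698716) (nat_lit 988) (nat_lit 6570912350) (nat_lit 396) (nat_lit 5) (nat_lit 408) (nat_lit 5) (nat_lit 409) (nat_lit 5) (nat_lit 581) (nat_lit 546) (nat_lit 433))) (XT.nd (nat_lit 78) (nat_lit 836) (nat_lit 0) (XT.lf (nat_lit 0) (nat_lit 5598363094) (nat_lit 988) (nat_lit 3413084976) (nat_lit 76) (nat_lit 1426587119) (nat_lit 396) (nat_lit 5) (nat_lit 409) (nat_lit 5) (nat_lit 397) (nat_lit 5) (nat_lit 582) (nat_lit 546) (nat_lit 432)) (XT.nd (nat_lit 78) (nat_lit 0) (nat_lit 0) (XT.lf (nat_lit 0) (nat_lit 2591981756) (nat_lit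 836) (nat_lit 4891860010) (nat_lit 912) (nat_lit 3057952941) (nat_lit 385) (nat_lit 5) (nat_lit 396) (nat_lit 5) (nat_lit 397) (nat_lit 5) (nat_lit 583) (nat_lit 546) (nat_lit 431)) (XT.lf (nat_lit 0) (nat_lit 8744374345) (nat_lit 836) (nat_lit 666435500) (nat_lit 912) (nat_lit 1236746809) (nat_lit 385) (nat_lit 5) (nat_lit 396) (nat_lit 5) (nat_lit 397) (nat_lit 5) (nat_lit 584) (nat_lit 546) (nat_lit 430)))))) (XT.nd (nat_lit 390) (nat_lit 2280) (nat_lit 0) (XT.nd (nat_lit 156) (nat_lit 1596) (nat_lit 0) (XT.nd (nat_lit 78) (nat_lit 0) (nat_lit 0) (XT.lf (nat_lit 0) (nat_lit 645636090) (nat_lit 912) (nat_lit 6481247422) (nat_lit 76) (nat_lit 3627814512) (nat_lit 373) (nat_lit 5) (nat_lit 385) (nat_lit 5) (nat_lit 374) (nat_lit 5) (nat_lit 585) (nat_lit 546) (nat_lit 429)) (XT.lf (nat_lit 0) (nat_lit 2547762783) (nat_lit 912) (nat_lit 296171532) (nat_lit 76) (nat_lit 8019913954) (nat_lit 373) (nat_lit 5) (nat_lit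 385) (nat_lit 5) (nat_lit 374) (nat_lit 5) (nat_lit 586) (nat_lit 546) (nat_lit 428))) (XT.nd (nat_lit 78) (nat_lit 836) (nat_lit 0) (XT.lf (nat_lit 0) (nat_lit 4519258418) (nat_lit 836) (nat_lit 4911451887) (nat_lit 76) (nat_lit 1543847303) (nat_lit 363) (nat_lit 5) (nat_lit 374) (nat_lit 5) (nat_lit 364) (nat_lit 5) (nat_lit 587) (nat_lit 546) (nat_lit 427)) (XT.nd (nat_lit 78) (nat_lit 0) (nat_lit 0) (XT.lf (nat_lit 0) (nat_lit 1447245559) (nat_lit 836) (nat_lit 5095138764) (nat_lit 912) (nat_lit 4544855371) (nat_lit 352) (nat_lit 5) (nat_lit 363) (nat_lit 5) (nat_lit 364) (nat_lit 5) (nat_lit 588) (nat_lit 546) (nat_lit 426)) (XT.lf (nat_lit 0) (nat_lit 7980788192) (nat_lit 836) (nat_lit 640343030) (nat_lit 912) (nat_lit 2580743544) (nat_lit 352) (nat_lit 5) (nat_lit 363) (nat_lit 5) (nat_lit 364) (nat_lit 5) (nat_lit 589) (nat_lit 546) (nat_lit 425))))) (XT.nd (nat_lit 156) (nat_lit 1444) (nat_lit 0) (XT.nd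 (nat_lit 78) (nat_lit 76) (nat_lit 0) (XT.lf (nat_lit 0) (nat_lit 3325591892) (nat_lit 760) (nat_lit 7445339578) (nat_lit 836) (nat_lit 547283967) (nat_lit 342) (nat_lit 5) (nat_lit 352) (nat_lit 5) (nat_lit 353) (nat_lit 5) (nat_lit 590) (nat_lit 546) (nat_lit 424)) (XT.lf (nat_lit 0) (nat_lit 1515465012) (nat_lit 836) (nat_lit 1422868483) (nat_lit 76) (nat_lit 8498180631) (nat_lit 341) (nat_lit 5) (nat_lit 352) (nat_lit 5) (nat_lit 342) (nat_lit 5) (nat_lit 591) (nat_lit 546) (nat_lit 423))) (XT.nd (nat_lit 78) (nat_lit 684) (nat_lit 0) (XT.lf (nat_lit 0) (nat_lit 3640725951) (nat_lit 836) (nat_lit 6241877763) (nat_lit 76) (nat_lit 1673933346) (nat_lit 331) (nat_lit 5) (nat_lit 342) (nat_lit 5) (nat_lit 332) (nat_lit 5) (nat_lit 592) (nat_lit 546) (nat_lit 422)) (XT.nd (nat_lit 78) (nat_lit 0) (nat_lit 0) (XT.lf (nat_lit 0) (nat_lit 495613290) (nat_lit 684) (nat_lit 5328356122) (nat_lit 760) (nat_lit 5854683772)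 (nat_lit 322) (nat_lit 5) (nat_lit 331) (nat_lit 5) (nat_lit 332) (nat_lit 5) (nat_lit 593) (nat_lit 546) (nat_lit 421)) (XT.lf (nat_lit 0) (nat_lit 7433768401) (nat_lit 684) (nat_lit 642392731) (nat_lit 760) (nat_lit 3726547063) (nat_lit 322) (nat_lit 5) (nat_lit 331) (nat_lit 5) (nat_lit 332) (nat_lit 5) (nat_lit 594) (nat_lit 546) (nat_lit 420))))))))
noncomputable def xc136 : XT := (XT.nd (nat_lit 1404) (nat_lit 5396) (nat_lit 0) (XT.nd (nat_lit 702) (nat_lit 3572) (nat_lit 0) (XT.nd (nat_lit 312) (nat_lit 2052) (nat_lit 0) (XT.nd (nat_lit 156) (nat_lit 684) (nat_lit 0) (XT.nd (nat_lit 78) (nat_lit 76) (nat_lit 0) (XT.lf (nat_lit 0) (nat_lit 2569637653) (nat_lit 760) (nat_lit 7831014185) (nat_lit 836) (nat_lit 1528049556) (nat_lit 312) (nat_lit 5) (nat_lit 322) (nat_lit 5) (nat_lit 323) (nat_lit 5) (nat_lit 595) (nat_lit 546) (nat_lit 419)) (XT.lf (nat_lit 0) (nat_lit 722614298) (nat_lit 836) (nat_lit 2378244833)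 (nat_lit 76) (nat_lit 8955913340) (nat_lit 311) (nat_lit 5) (nat_lit 322) (nat_lit 5) (nat_lit 312) (nat_lit 5) (nat_lit 596) (nat_lit 546) (nat_lit 418))) (XT.nd (nat_lit 78) (nat_lit 0) (nat_lit 0) (XT.lf (nat_lit 0) (nat_lit 3024427548) (nat_lit 760) (nat_lit 7422008685) (nat_lit 76) (nat_lit 1740236857) (nat_lit 302) (nat_lit 5) (nat_lit 312) (nat_lit 5) (nat_lit 303) (nat_lit 5) (nat_lit 597) (nat_lit 546) (nat_lit 417)) (XT.lf (nat_lit 0) (nat_lit 5393171289) (nat_lit 760) (nat_lit 275373679) (nat_lit 76) (nat_lit 6650210892) (nat_lit 302) (nat_lit 5) (nat_lit 312) (nat_lit 5) (nat_lit 303) (nat_lit 5) (nat_lit 598) (nat_lit 546) (nat_lit 416)))) (XT.nd (nat_lit 156) (nat_lit 760) (nat_lit 0) (XT.nd (nat_lit 78) (nat_lit 608) (nat_lit 0) (XT.lf (nat_lit 0) (nat_lit 7088981486) (nat_lit 684) (nat_lit 750936524) (nat_lit 760) (nat_lit 4612951696) (nat_lit 293) (nat_lit 5) (nat_lit 302) (nat_lit 5) (nat_lit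 303) (nat_lit 5) (nat_lit 599) (nat_lit 546) (nat_lit 415)) (XT.lf (nat_lit 0) (nat_lit 1994832772) (nat_lit 608) (nat_lit 8368038022) (nat_lit 684) (nat_lit 2226251559) (nat_lit 285) (nat_lit 5) (nat_lit 293) (nat_lit 5) (nat_lit 294) (nat_lit 5) (nat_lit 600) (nat_lit 546) (nat_lit 414))) (XT.nd (nat_lit 78) (nat_lit 684) (nat_lit 0) (XT.lf (nat_lit 0) (nat_lit 231504775) (nat_lit 684) (nat_lit 3178942545) (nat_lit 76) (nat_lit 9317106515) (nat_lit 284) (nat_lit 5) (nat_lit 293) (nat_lit 5) (nat_lit 285) (nat_lit 5) (nat_lit 601) (nat_lit 546) (nat_lit 413)) (XT.nd (nat_lit 78) (nat_lit 0) (nat_lit 0) (XT.lf (nat_lit 0) (nat_lit 2733364355) (nat_lit 760) (nat_lit 8469413065) (nat_lit 76) (nat_lit 1665188897) (nat_lit 275) (nat_lit 5) (nat_lit 285) (nat_lit 5) (nat_lit 276) (nat_lit 5) (nat_lit 602) (nat_lit 546) (nat_lit 412)) (XT.lf (nat_lit 0) (nat_lit 5314617677) (nat_lit 760) (nat_lit 881027169) (nat_lit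 76) (nat_lit 6814956869) (nat_lit 275) (nat_lit 5) (nat_lit 285) (nat_lit 5) (nat_lit 276) (nat_lit 5) (nat_lit 603) (nat_lit 546) (nat_lit 411)))))) (XT.nd (nat_lit 312) (nat_lit 1748) (nat_lit 0) (XT.nd (nat_lit 156) (nat_lit 608) (nat_lit 0) (XT.nd (nat_lit 78) (nat_lit 608) (nat_lit 0) (XT.lf (nat_lit 0) (nat_lit 6932170439) (nat_lit 608) (nat_lit 1045919321) (nat_lit 684) (nat_lit 5177389948) (nat_lit 267) (nat_lit 5) (nat_lit 275) (nat_lit 5) (nat_lit 276) (nat_lit 5) (nat_lit 604) (nat_lit 546) (nat_lit 410)) (XT.lf (nat_lit 0) (nat_lit 1585864968) (nat_lit 608) (nat_lit 9138257484) (nat_lit 684) (nat_lit 2578548712) (nat_lit 259) (nat_lit 5) (nat_lit 267) (nat_lit 5) (nat_lit 268) (nat_lit 5) (nat_lit 605) (nat_lit 546) (nat_lit 409))) (XT.nd (nat_lit 78) (nat_lit 532) (nat_lit 0) (XT.lf (nat_lit 0) (nat_lit 106084911) (nat_lit 684) (nat_lit 3842153157) (nat_lit 76) (nat_lit 9503865388) (nat_lit 258) (nat_lit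 5) (nat_lit 267) (nat_lit 5) (nat_lit 259) (nat_lit 5) (nat_lit 606) (nat_lit 546) (nat_lit 408)) (XT.lf (nat_lit 0) (nat_lit 2832336189) (nat_lit 608) (nat_lit 9402521478) (nat_lit 76) (nat_lit 1368878435) (nat_lit 251) (nat_lit 5) (nat_lit 259) (nat_lit 5) (nat_lit 252) (nat_lit 5) (nat_lit 607) (nat_lit 546) (nat_lit 407)))) (XT.nd (nat_lit 156) (nat_lit 1140) (nat_lit 0) (XT.nd (nat_lit 78) (nat_lit 608) (nat_lit 0) (XT.lf (nat_lit 0) (nat_lit 5651423939) (nat_lit 608) (nat_lit 1344543873) (nat_lit 76) (nat_lit 6761668956) (nat_lit 251) (nat_lit 5) (nat_lit 259) (nat_lit 5) (nat_lit 252) (nat_lit 5) (nat_lit 608) (nat_lit 546) (nat_lit 406)) (XT.lf (nat_lit 0) (nat_lit 6948199314) (nat_lit 608) (nat_lit 1610287386) (nat_lit 684) (nat_lit 5355498446) (nat_lit 243) (nat_lit 5) (nat_lit 251) (nat_lit 5) (nat_lit 252) (nat_lit 5) (nat_lit 609) (nat_lit 546) (nat_lit 405))) (XT.nd (nat_lit 78) (nat_lit 608) (nat_lit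 0) (XT.lf (nat_lit 0) (nat_lit 1326216853) (nat_lit 532) (nat_lit 10226985385) (nat_lit 608) (nat_lit 2519669557) (nat_lit 236) (nat_lit 5) (nat_lit 243) (nat_lit 5) (nat_lit 244) (nat_lit 5) (nat_lit 610) (nat_lit 546) (nat_lit 404)) (XT.nd (nat_lit 78) (nat_lit 532) (nat_lit 0) (XT.lf (nat_lit 0) (nat_lit 412369757) (nat_lit 608) (nat_lit 4386624117) (nat_lit 76) (nat_lit 9435007672) (nat_lit 235) (nat_lit 5) (nat_lit 243) (nat_lit 5) (nat_lit 236) (nat_lit 5) (nat_lit 611) (nat_lit 546) (nat_lit 403)) (XT.lf (nat_lit 0) (nat_lit 3388337939) (nat_lit 608) (nat_lit 10241661764) (nat_lit 76) (nat_lit 767642004) (nat_lit 228) (nat_lit 5) (nat_lit 236) (nat_lit 5) (nat_lit 229) (nat_lit 5) (nat_lit 612) (nat_lit 546) (nat_lit 402))))))) (XT.nd (nat_lit 702) (nat_lit 2736) (nat_lit 0) (XT.nd (nat_lit 312) (nat_lit 1520) (nat_lit 0) (XT.nd (nat_lit 156) (nat_lit 608) (nat_lit 0) (XT.nd (nat_lit 78) (nat_lit 532) (nat_lit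 0) (XT.lf (nat_lit 0) (nat_lit 6472282486) (nat_lit 608) (nat_lit 1684525583) (nat_lit 76) (nat_lit 6406778881) (nat_lit 228) (nat_lit 5) (nat_lit 236) (nat_lit 5) (nat_lit 229) (nat_lit 5) (nat_lit 613) (nat_lit 546) (nat_lit 401)) (XT.lf (nat_lit 0) (nat_lit 7119994893) (nat_lit 532) (nat_lit 2531436881) (nat_lit 608) (nat_lit 5080750194) (nat_lit 221) (nat_lit 5) (nat_lit 228) (nat_lit 5) (nat_lit 229) (nat_lit 5) (nat_lit 614) (nat_lit 546) (nat_lit 400))) (XT.nd (nat_lit 78) (nat_lit 76) (nat_lit 0) (XT.lf (nat_lit 0) (nat_lit 1197074452) (nat_lit 532) (nat_lit 11724466722) (nat_lit 608) (nat_lit 1982061531) (nat_lit 214) (nat_lit 5) (nat_lit 221) (nat_lit 5) (nat_lit 222) (nat_lit 5) (nat_lit 615) (nat_lit 546) (nat_lit 399)) (XT.lf (nat_lit 0) (nat_lit 1218787398) (nat_lit 608) (nat_lit 4833782671) (nat_lit 76) (nat_lit 9024617171) (nat_lit 213) (nat_lit 5) (nat_lit 221) (nat_lit 5) (nat_lit 214) (nat_lit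 5) (nat_lit 616) (nat_lit 546) (nat_lit 398)))) (XT.nd (nat_lit 156) (nat_lit 1064) (nat_lit 0) (XT.nd (nat_lit 78) (nat_lit 0) (nat_lit 0) (XT.lf (nat_lit 0) (nat_lit 4241961132) (nat_lit 456) (nat_lit 230424200) (nat_lit 532) (nat_lit 10781291952) (nat_lit 207) (nat_lit 5) (nat_lit 213) (nat_lit 5) (nat_lit 214) (nat_lit 5) (nat_lit 617) (nat_lit 546) (nat_lit 397)) (XT.lf (nat_lit 0) (nat_lit 7848575052) (nat_lit 532) (nat_lit 1922648378) (nat_lit 76) (nat_lit 5661324559) (nat_lit 207) (nat_lit 5) (nat_lit 214) (nat_lit 5) (nat_lit 208) (nat_lit 5) (nat_lit 618) (nat_lit 546) (nat_lit 396))) (XT.nd (nat_lit 78) (nat_lit 532) (nat_lit 0) (XT.lf (nat_lit 0) (nat_lit 7427353492) (nat_lit 532) (nat_lit 3902730049) (nat_lit 608) (nat_lit 4284157901) (nat_lit 200) (nat_lit 5) (nat_lit 207) (nat_lit 5) (nat_lit 208) (nat_lit 5) (nat_lit 619) (nat_lit 546) (nat_lit 395)) (XT.nd (nat_lit 78) (nat_lit 76) (nat_lit 0)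 (XT.lf (nat_lit 0) (nat_lit 1176091906) (nat_lit 456) (nat_lit 13727419800) (nat_lit 532) (nat_lit 895612477) (nat_lit 194) (nat_lit 5) (nat_lit 200) (nat_lit 5) (nat_lit 201) (nat_lit 5) (nat_lit 620) (nat_lit 546) (nat_lit 394)) (XT.lf (nat_lit 0) (nat_lit 2596453941) (nat_lit 532) (nat_lit 5209010894) (nat_lit 76) (nat_lit 8180521706) (nat_lit 193) (nat_lit 5) (nat_lit 200) (nat_lit 5) (nat_lit 194) (nat_lit 5) (nat_lit 621) (nat_lit 546) (nat_lit 393)))))) (XT.nd (nat_lit 390) (nat_lit 1292) (nat_lit 0) (XT.nd (nat_lit 156) (nat_lit 988) (nat_lit 0) (XT.nd (nat_lit 78) (nat_lit 0) (nat_lit 0) (XT.lf (nat_lit 0) (nat_lit 4428900088) (nat_lit 456) (nat_lit 1734653688) (nat_lit 532) (nat_lit 10012571424) (nat_lit 187) (nat_lit 5) (nat_lit 193) (nat_lit 5) (nat_lit 194) (nat_lit 5) (nat_lit 622) (nat_lit 546) (nat_lit 392)) (XT.lf (nat_lit 0) (nat_lit 9854629686) (nat_lit 532) (nat_lit 2084996384) (nat_lit 76)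 (nat_lit 4429388996) (nat_lit 187) (nat_lit 5) (nat_lit 194) (nat_lit 5) (nat_lit 188) (nat_lit 5) (nat_lit 623) (nat_lit 546) (nat_lit 391))) (XT.nd (nat_lit 78) (nat_lit 532) (nat_lit 0) (XT.lf (nat_lit 0) (nat_lit 7845576822) (nat_lit 456) (nat_lit 5825107985) (nat_lit 532) (nat_lit 2894055864) (nat_lit 181) (nat_lit 5) (nat_lit 187) (nat_lit 5) (nat_lit 188) (nat_lit 5) (nat_lit 624) (nat_lit 546) (nat_lit 390)) (XT.nd (nat_lit 78) (nat_lit 0) (nat_lit 0) (XT.lf (nat_lit 0) (nat_lit 801890496) (nat_lit 532) (nat_lit 15533410525) (nat_lit 76) (nat_lit 428703407) (nat_lit 174) (nat_lit 5) (nat_lit 181) (nat_lit 5) (nat_lit 175) (nat_lit 5) (nat_lit 625) (nat_lit 546) (nat_lit 389)) (XT.lf (nat_lit 0) (nat_lit 4619368594) (nat_lit 532) (nat_lit 5543110032) (nat_lit 76) (nat_lit 6802665987) (nat_lit 174) (nat_lit 5) (nat_lit 181) (nat_lit 5) (nat_lit 175) (nat_lit 5) (nat_lit 626) (nat_lit 546) (nat_lit 388)))))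 (XT.nd (nat_lit 156) (nat_lit 912) (nat_lit 0) (XT.nd (nat_lit 78) (nat_lit 0) (nat_lit 0) (XT.lf (nat_lit 0) (nat_lit 4692426867) (nat_lit 380) (nat_lit 3840307751) (nat_lit 456) (nat_lit 8637183227) (nat_lit 169) (nat_lit 5) (nat_lit 174) (nat_lit 5) (nat_lit 175) (nat_lit 5) (nat_lit 627) (nat_lit 546) (nat_lit 387)) (XT.lf (nat_lit 0) (nat_lit 12567895033) (nat_lit 456) (nat_lit 2203600261) (nat_lit 76) (nat_lit 2606421699) (nat_lit 169) (nat_lit 5) (nat_lit 175) (nat_lit 5) (nat_lit 170) (nat_lit 5) (nat_lit 628) (nat_lit 546) (nat_lit 386))) (XT.nd (nat_lit 78) (nat_lit 456) (nat_lit 0) (XT.lf (nat_lit 0) (nat_lit 8343895609) (nat_lit 456) (nat_lit 8408831112) (nat_lit 532) (nat_lit 835971015) (nat_lit 163) (nat_lit 5) (nat_lit 169) (nat_lit 5) (nat_lit 170) (nat_lit 5) (nat_lit 629) (nat_lit 546) (nat_lit 385)) (XT.nd (nat_lit 78) (nat_lit 0) (nat_lit 0) (XT.lf (nat_lit 0) (nat_lit 1309084569) (nat_lit 380)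 (nat_lit 1879059176) (nat_lit 456) (nat_lit 14614877838) (nat_lit 157) (nat_lit 5) (nat_lit 162) (nat_lit 5) (nat_lit 163) (nat_lit 5) (nat_lit 630) (nat_lit 546) (nat_lit 384)) (XT.lf (nat_lit 0) (nat_lit 7364517196) (nat_lit 456) (nat_lit 5873997954) (nat_lit 76) (nat_lit 4781347756) (nat_lit 157) (nat_lit 5) (nat_lit 163) (nat_lit 5) (nat_lit 158) (nat_lit 5) (nat_lit 631) (nat_lit 546) (nat_lit 383))))))))
noncomputable def xc137 : XT := (XT.nd (nat_lit 75426) (nat_lit 0) (nat_lit 24700) (XT.nd (nat_lit 74646) (nat_lit 0) (nat_lit 32376) (XT.nd (nat_lit 312) (nat_lit 760) (nat_lit 0) (XT.nd (nat_lit 156) (nat_lit 836) (nat_lit 0) (XT.nd (nat_lit 78) (nat_lit 0) (nat_lit 0) (XT.lf (nat_lit 0) (nat_lit 4995748255) (nat_lit 380) (nat_lit 6663224011) (nat_lit 456) (nat_lit 6581378605) (nat_lit 152) (nat_lit 5) (nat_lit 157) (nat_lit 5) (nat_lit 158) (nat_lit 5) (nat_lit 632) (nat_lit 546) (nat_lit 382)) (XT.lf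 (nat_lit 0) (nat_lit 16069019080) (nat_lit 456) (nat_lit 2318226500) (nat_lit 76) (nat_lit 77409844) (nat_lit 152) (nat_lit 5) (nat_lit 158) (nat_lit 5) (nat_lit 153) (nat_lit 5) (nat_lit 633) (nat_lit 546) (nat_lit 381))) (XT.nd (nat_lit 78) (nat_lit 380) (nat_lit 0) (XT.lf (nat_lit 0) (nat_lit 1941599997) (nat_lit 456) (nat_lit 9820752127) (nat_lit 76) (nat_lit 6929004373) (nat_lit 146) (nat_lit 5) (nat_lit 152) (nat_lit 5) (nat_lit 147) (nat_lit 5) (nat_lit 634) (nat_lit 546) (nat_lit 380)) (XT.lf (nat_lit 0) (nat_lit 1379014081) (nat_lit 380) (nat_lit 4969105561) (nat_lit 456) (nat_lit 12573863755) (nat_lit 141) (nat_lit 5) (nat_lit 146) (nat_lit 5) (nat_lit 147) (nat_lit 5) (nat_lit 635) (nat_lit 546) (nat_lit 379)))) (XT.nd (nat_lit 156) (nat_lit 456) (nat_lit 0) (XT.nd (nat_lit 78) (nat_lit 304) (nat_lit 0) (XT.lf (nat_lit 0) (nat_lit 10911868991) (nat_lit 456) (nat_lit 6248690196) (nat_lit 76) (nat_lit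 1995282474) (nat_lit 141) (nat_lit 5) (nat_lit 147) (nat_lit 5) (nat_lit 142) (nat_lit 5) (nat_lit 636) (nat_lit 546) (nat_lit 378)) (XT.lf (nat_lit 0) (nat_lit 5292764626) (nat_lit 304) (nat_lit 10331631016) (nat_lit 380) (nat_lit 3768832200) (nat_lit 137) (nat_lit 5) (nat_lit 141) (nat_lit 5) (nat_lit 142) (nat_lit 5) (nat_lit 637) (nat_lit 546) (nat_lit 377))) (XT.nd (nat_lit 78) (nat_lit 380) (nat_lit 0) (XT.lf (nat_lit 0) (nat_lit 817842321) (nat_lit 380) (nat_lit 2505464115) (nat_lit 76) (nat_lit 16311303369) (nat_lit 136) (nat_lit 5) (nat_lit 141) (nat_lit 5) (nat_lit 137) (nat_lit 5) (nat_lit 638) (nat_lit 546) (nat_lit 376)) (XT.nd (nat_lit 74022) (nat_lit 0) (nat_lit 35112) (XT.lf (nat_lit 0) (nat_lit 5522715545) (nat_lit 456) (nat_lit 10499787163) (nat_lit 76) (nat_lit 3856280614) (nat_lit 131) (nat_lit 5) (nat_lit 137) (nat_lit 5) (nat_lit 132) (nat_lit 5) (nat_lit 639) (nat_lit 546) (nat_lit 375))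 (XT.lf (nat_lit 0) (nat_lit 1804491672) (nat_lit 0) (nat_lit 1804491672) (nat_lit 1292) (nat_lit 308027013) (nat_lit 593) (nat_lit 5) (nat_lit 593) (nat_lit 3) (nat_lit 610) (nat_lit 3) (nat_lit 547) (nat_lit 547) (nat_lit 466)))))) (XT.nd (nat_lit 390) (nat_lit 1292) (nat_lit 0) (XT.nd (nat_lit 156) (nat_lit 0) (nat_lit 76) (XT.nd (nat_lit 78) (nat_lit 0) (nat_lit 76) (XT.lf (nat_lit 0) (nat_lit 667077960) (nat_lit 1444) (nat_lit 373567158) (nat_lit 1444) (nat_lit 6845940174) (nat_lit 574) (nat_lit 3) (nat_lit 593) (nat_lit 3) (nat_lit 593) (nat_lit 5) (nat_lit 548) (nat_lit 547) (nat_lit 465)) (XT.lf (nat_lit 0) (nat_lit 1967815054) (nat_lit 1368) (nat_lit 4370200598) (nat_lit 1444) (nat_lit 1602106371) (nat_lit 575) (nat_lit 5) (nat_lit 593) (nat_lit 5) (nat_lit 594) (nat_lit 5) (nat_lit 549) (nat_lit 547) (nat_lit 464))) (XT.nd (nat_lit 78) (nat_lit 0) (nat_lit 0) (XT.lf (nat_lit 0) (nat_lit 3271029872) (nat_lit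 1368) (nat_lit 422043874) (nat_lit 1444) (nat_lit 4302132495) (nat_lit 575) (nat_lit 5) (nat_lit 593) (nat_lit 5) (nat_lit 594) (nat_lit 5) (nat_lit 550) (nat_lit 547) (nat_lit 463)) (XT.nd (nat_lit 78) (nat_lit 0) (nat_lit 76) (XT.lf (nat_lit 76) (nat_lit 3635302835) (nat_lit 0) (nat_lit 956302926) (nat_lit 1444) (nat_lit 3459966340) (nat_lit 576) (nat_lit 5) (nat_lit 575) (nat_lit 5) (nat_lit 594) (nat_lit 5) (nat_lit 551) (nat_lit 547) (nat_lit 462)) (XT.lf (nat_lit 0) (nat_lit 5921668107) (nat_lit 1368) (nat_lit 359496640) (nat_lit 1444) (nat_lit 1828244813) (nat_lit 576) (nat_lit 5) (nat_lit 594) (nat_lit 5) (nat_lit 595) (nat_lit 5) (nat_lit 552) (nat_lit 547) (nat_lit 461))))) (XT.nd (nat_lit 156) (nat_lit 0) (nat_lit 76) (XT.nd (nat_lit 78) (nat_lit 1444) (nat_lit 0) (XT.lf (nat_lit 76) (nat_lit 3804254846) (nat_lit 0) (nat_lit 3474039814) (nat_lit 1444) (nat_lit 890115512) (nat_lit 577) (nat_lit 5) (nat_lit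 576) (nat_lit 5) (nat_lit 595) (nat_lit 5) (nat_lit 553) (nat_lit 547) (nat_lit 460)) (XT.lf (nat_lit 0) (nat_lit 399423452) (nat_lit 1444) (nat_lit 193233341) (nat_lit 1520) (nat_lit 7636450254) (nat_lit 557) (nat_lit 5) (nat_lit 576) (nat_lit 5) (nat_lit 577) (nat_lit 5) (nat_lit 554) (nat_lit 547) (nat_lit 459))) (XT.nd (nat_lit 78) (nat_lit 0) (nat_lit 0) (XT.lf (nat_lit 0) (nat_lit 1714759482) (nat_lit 1444) (nat_lit 4215300431) (nat_lit 1520) (nat_lit 2360607113) (nat_lit 558) (nat_lit 5) (nat_lit 577) (nat_lit 5) (nat_lit 578) (nat_lit 5) (nat_lit 555) (nat_lit 547) (nat_lit 458)) (XT.nd (nat_lit 78) (nat_lit 0) (nat_lit 76) (XT.lf (nat_lit 76) (nat_lit 57117547) (nat_lit 0) (nat_lit 2975263101) (nat_lit 1520) (nat_lit 5321563221) (nat_lit 559) (nat_lit 5) (nat_lit 558) (nat_lit 5) (nat_lit 578) (nat_lit 5) (nat_lit 556) (nat_lit 547) (nat_lit 457)) (XT.lf (nat_lit 0) (nat_lit 4375991745) (nat_lit 1444)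 (nat_lit 3964999146) (nat_lit 1520) (nat_lit 77507740) (nat_lit 559) (nat_lit 5) (nat_lit 578) (nat_lit 5) (nat_lit 579) (nat_lit 5) (nat_lit 557) (nat_lit 547) (nat_lit 456))))))) (XT.nd (nat_lit 702) (nat_lit 6384) (nat_lit 0) (XT.nd (nat_lit 312) (nat_lit 0) (nat_lit 0) (XT.nd (nat_lit 156) (nat_lit 1444) (nat_lit 0) (XT.nd (nat_lit 78) (nat_lit 0) (nat_lit 0) (XT.lf (nat_lit 76) (nat_lit 420884857) (nat_lit 0) (nat_lit 5319509423) (nat_lit 1520) (nat_lit 2744076854) (nat_lit 560) (nat_lit 5) (nat_lit 559) (nat_lit 5) (nat_lit 579) (nat_lit 5) (nat_lit 558) (nat_lit 547) (nat_lit 455)) (XT.lf (nat_lit 76) (nat_lit 4929958208) (nat_lit 0) (nat_lit 2200657222) (nat_lit 1520) (nat_lit 1421181979) (nat_lit 560) (nat_lit 5) (nat_lit 559) (nat_lit 5) (nat_lit 579) (nat_lit 5) (nat_lit 559) (nat_lit 547) (nat_lit 454))) (XT.nd (nat_lit 78) (nat_lit 1520) (nat_lit 0) (XT.lf (nat_lit 76) (nat_lit 895587728) (nat_lit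 0) (nat_lit 7637770795) (nat_lit 1520) (nat_lit 87422171) (nat_lit 561) (nat_lit 5) (nat_lit 560) (nat_lit 5) (nat_lit 580) (nat_lit 5) (nat_lit 560) (nat_lit 547) (nat_lit 453)) (XT.lf (nat_lit 0) (nat_lit 1268127756) (nat_lit 1520) (nat_lit 3179978386) (nat_lit 1596) (nat_lit 4242640630) (nat_lit 540) (nat_lit 5) (nat_lit 560) (nat_lit 5) (nat_lit 561) (nat_lit 5) (nat_lit 561) (nat_lit 547) (nat_lit 452)))) (XT.nd (nat_lit 156) (nat_lit 0) (nat_lit 76) (XT.nd (nat_lit 78) (nat_lit 0) (nat_lit 76) (XT.lf (nat_lit 76) (nat_lit 1456249799) (nat_lit 0) (nat_lit 1176129650) (nat_lit 1596) (nat_lit 6130070495) (nat_lit 541) (nat_lit 5) (nat_lit 540) (nat_lit 5) (nat_lit 561) (nat_lit 5) (nat_lit 562) (nat_lit 547) (nat_lit 451)) (XT.lf (nat_lit 0) (nat_lit 4033191268) (nat_lit 1520) (nat_lit 2639898022) (nat_lit 1596) (nat_lit 2162316855) (nat_lit 541) (nat_lit 5) (nat_lit 561) (nat_lit 5) (nat_lit 562) (nat_lit 5)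 (nat_lit 563) (nat_lit 547) (nat_lit 450))) (XT.nd (nat_lit 78) (nat_lit 0) (nat_lit 76) (XT.lf (nat_lit 76) (nat_lit 2121260153) (nat_lit 0) (nat_lit 3336597145) (nat_lit 1596) (nat_lit 3452051791) (nat_lit 542) (nat_lit 5) (nat_lit 541) (nat_lit 5) (nat_lit 562) (nat_lit 5) (nat_lit 564) (nat_lit 547) (nat_lit 449)) (XT.nd (nat_lit 78) (nat_lit 0) (nat_lit 0) (XT.lf (nat_lit 0) (nat_lit 6903988283) (nat_lit 1520) (nat_lit 1991607962) (nat_lit 1596) (nat_lit 90450709) (nat_lit 542) (nat_lit 5) (nat_lit 562) (nat_lit 5) (nat_lit 563) (nat_lit 5) (nat_lit 565) (nat_lit 547) (nat_lit 448)) (XT.lf (nat_lit 76) (nat_lit 2898729539) (nat_lit 0) (nat_lit 5496432078) (nat_lit 1596) (nat_lit 668227773) (nat_lit 543) (nat_lit 5) (nat_lit 542) (nat_lit 5) (nat_lit 563) (nat_lit 5) (nat_lit 566) (nat_lit 547) (nat_lit 447)))))) (XT.nd (nat_lit 390) (nat_lit 3496) (nat_lit 0) (XT.nd (nat_lit 156) (nat_lit 1444) (nat_lit 0)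 (XT.nd (nat_lit 78) (nat_lit 0) (nat_lit 76) (XT.lf (nat_lit 0) (nat_lit 752586616) (nat_lit 1596) (nat_lit 1252027639) (nat_lit 1672) (nat_lit 7137790847) (nat_lit 521) (nat_lit 5) (nat_lit 542) (nat_lit 5) (nat_lit 543) (nat_lit 5) (nat_lit 567) (nat_lit 547) (nat_lit 446)) (XT.lf (nat_lit 0) (nat_lit 2203681180) (nat_lit 1596) (nat_lit 5447569746) (nat_lit 1672) (nat_lit 1571449599) (nat_lit 522) (nat_lit 5) (nat_lit 543) (nat_lit 5) (nat_lit 544) (nat_lit 5) (nat_lit 568) (nat_lit 547) (nat_lit 445))) (XT.nd (nat_lit 78) (nat_lit 1520) (nat_lit 0) (XT.lf (nat_lit 0) (nat_lit 3681805793) (nat_lit 1596) (nat_lit 416760338) (nat_lit 1672) (nat_lit 5206079452) (nat_lit 522) (nat_lit 5) (nat_lit 543) (nat_lit 5) (nat_lit 544) (nat_lit 5) (nat_lit 569) (nat_lit 547) (nat_lit 444)) (XT.nd (nat_lit 78) (nat_lit 1520) (nat_lit 0) (XT.lf (nat_lit 76) (nat_lit 4758645140) (nat_lit 0) (nat_lit 438484391) (nat_lit 1672)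 (nat_lit 4190951090) (nat_lit 523) (nat_lit 5) (nat_lit 522) (nat_lit 5) (nat_lit 544) (nat_lit 5) (nat_lit 570) (nat_lit 547) (nat_lit 443)) (XT.lf (nat_lit 0) (nat_lit 536909228) (nat_lit 1596) (nat_lit 6210651209) (nat_lit 1672) (nat_lit 2725531647) (nat_lit 502) (nat_lit 5) (nat_lit 523) (nat_lit 5) (nat_lit 524) (nat_lit 5) (nat_lit 571) (nat_lit 547) (nat_lit 442))))) (XT.nd (nat_lit 156) (nat_lit 1748) (nat_lit 0) (XT.nd (nat_lit 78) (nat_lit 1748) (nat_lit 0) (XT.lf (nat_lit 0) (nat_lit 5847713794) (nat_lit 1596) (nat_lit 2492671985) (nat_lit 1672) (nat_lit 1219193945) (nat_lit 502) (nat_lit 5) (nat_lit 523) (nat_lit 5) (nat_lit 524) (nat_lit 5) (nat_lit 572) (nat_lit 547) (nat_lit 441)) (XT.lf (nat_lit 0) (nat_lit 309883964) (nat_lit 1748) (nat_lit 8039060253) (nat_lit 76) (nat_lit 1298879735) (nat_lit 479) (nat_lit 5) (nat_lit 502) (nat_lit 5) (nat_lit 480) (nat_lit 5) (nat_lit 573) (nat_lit 547) (nat_lit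 440))) (XT.nd (nat_lit 78) (nat_lit 1748) (nat_lit 0) (XT.lf (nat_lit 0) (nat_lit 1872881666) (nat_lit 1748) (nat_lit 2694914214) (nat_lit 76) (nat_lit 5169486194) (nat_lit 479) (nat_lit 5) (nat_lit 502) (nat_lit 5) (nat_lit 480) (nat_lit 5) (nat_lit 574) (nat_lit 547) (nat_lit 439)) (XT.nd (nat_lit 78) (nat_lit 0) (nat_lit 0) (XT.lf (nat_lit 0) (nat_lit 2773913039) (nat_lit 1748) (nat_lit 689733117) (nat_lit 1824) (nat_lit 6364956451) (nat_lit 456) (nat_lit 5) (nat_lit 479) (nat_lit 5) (nat_lit 480) (nat_lit 5) (nat_lit 575) (nat_lit 547) (nat_lit 438)) (XT.lf (nat_lit 0) (nat_lit 5104450655) (nat_lit 1824) (nat_lit 1572969820) (nat_lit 76) (nat_lit 3243967900) (nat_lit 456) (nat_lit 5) (nat_lit 480) (nat_lit 5) (nat_lit 457) (nat_lit 5) (nat_lit 576) (nat_lit 547) (nat_lit 437))))))))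
noncomputable def xc138 : XT := (XT.nd (nat_lit 1482) (nat_lit 7144) (nat_lit 0) (XT.nd (nat_lit 702) (nat_lit 4712) (nat_lit 0) (XT.nd (nat_lit 312) (nat_lit 1824) (nat_lit 0) (XT.nd (nat_lit 156) (nat_lit 1976) (nat_lit 0) (XT.nd (nat_lit 78) (nat_lit 0) (nat_lit 0) (XT.lf (nat_lit 0) (nat_lit 4048377466) (nat_lit 1672) (nat_lit 2739777996) (nat_lit 1748) (nat_lit 3227675968) (nat_lit 434) (nat_lit 5) (nat_lit 456) (nat_lit 5) (nat_lit 457) (nat_lit 5) (nat_lit 577) (nat_lit 547) (nat_lit 436)) (XT.lf (nat_lit 0) (nat_lit 8503981174) (nat_lit 1748) (nat_lit 335675649) (nat_lit 76) (nat_lit 1272540776) (nat_lit 434) (nat_lit 5) (nat_lit 457) (nat_lit 5) (nat_lit 435) (nat_lit 5) (nat_lit 578) (nat_lit 547) (nat_lit 435))) (XT.nd (nat_lit 78) (nat_lit 912) (nat_lit 0) (XT.lf (nat_lit 0) (nat_lit 76699580) (nat_lit 1064) (nat_lit 4766812874) (nat_lit 76) (nat_lit 5366303247) (nat_lit 420) (nat_lit 5) (nat_lit 434)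 (nat_lit 5) (nat_lit 421) (nat_lit 5) (nat_lit 579) (nat_lit 547) (nat_lit 434)) (XT.lf (nat_lit 0) (nat_lit 1016514850) (nat_lit 912) (nat_lit 746226880) (nat_lit 988) (nat_lit 8546655598) (nat_lit 408) (nat_lit 5) (nat_lit 420) (nat_lit 5) (nat_lit 421) (nat_lit 5) (nat_lit 580) (nat_lit 547) (nat_lit 433)))) (XT.nd (nat_lit 156) (nat_lit 912) (nat_lit 0) (XT.nd (nat_lit 78) (nat_lit 912) (nat_lit 0) (XT.lf (nat_lit 0) (nat_lit 3517346252) (nat_lit 988) (nat_lit 3471604099) (nat_lit 76) (nat_lit 3421326353) (nat_lit 408) (nat_lit 5) (nat_lit 421) (nat_lit 5) (nat_lit 409) (nat_lit 5) (nat_lit 581) (nat_lit 547) (nat_lit 432)) (XT.lf (nat_lit 0) (nat_lit 2475093142) (nat_lit 912) (nat_lit 2833699335) (nat_lit 988) (nat_lit 5204349090) (nat_lit 396) (nat_lit 5) (nat_lit 408) (nat_lit 5) (nat_lit 409) (nat_lit 5) (nat_lit 582) (nat_lit 547) (nat_lit 431))) (XT.nd (nat_lit 78) (nat_lit 912) (nat_lit 0) (XT.lf (nat_lit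 0) (nat_lit 7149638020) (nat_lit 988) (nat_lit 2057880229) (nat_lit 76) (nat_lit 1410276901) (nat_lit 396) (nat_lit 5) (nat_lit 409) (nat_lit 5) (nat_lit 397) (nat_lit 5) (nat_lit 583) (nat_lit 547) (nat_lit 430)) (XT.nd (nat_lit 78) (nat_lit 76) (nat_lit 0) (XT.lf (nat_lit 0) (nat_lit 4057922928) (nat_lit 836) (nat_lit 4995862904) (nat_lit 912) (nat_lit 1670229043) (nat_lit 385) (nat_lit 5) (nat_lit 396) (nat_lit 5) (nat_lit 397) (nat_lit 5) (nat_lit 584) (nat_lit 547) (nat_lit 429)) (XT.lf (nat_lit 0) (nat_lit 156906536) (nat_lit 912) (nat_lit 527849545) (nat_lit 76) (nat_lit 10147676425) (nat_lit 384) (nat_lit 5) (nat_lit 396) (nat_lit 5) (nat_lit 385) (nat_lit 5) (nat_lit 585) (nat_lit 547) (nat_lit 428)))))) (XT.nd (nat_lit 390) (nat_lit 2280) (nat_lit 0) (XT.nd (nat_lit 156) (nat_lit 836) (nat_lit 0) (XT.nd (nat_lit 78) (nat_lit 760) (nat_lit 0) (XT.lf (nat_lit 0) (nat_lit 2042050334) (nat_lit 912) (nat_lit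 5187125888) (nat_lit 76) (nat_lit 3712747483) (nat_lit 373) (nat_lit 5) (nat_lit 385) (nat_lit 5) (nat_lit 374) (nat_lit 5) (nat_lit 586) (nat_lit 547) (nat_lit 427)) (XT.lf (nat_lit 0) (nat_lit 1108270081) (nat_lit 760) (nat_lit 2854017623) (nat_lit 836) (nat_lit 7091371776) (nat_lit 363) (nat_lit 5) (nat_lit 373) (nat_lit 5) (nat_lit 374) (nat_lit 5) (nat_lit 587) (nat_lit 547) (nat_lit 426))) (XT.nd (nat_lit 78) (nat_lit 836) (nat_lit 0) (XT.lf (nat_lit 0) (nat_lit 5948735863) (nat_lit 836) (nat_lit 3596378725) (nat_lit 76) (nat_lit 1621961778) (nat_lit 363) (nat_lit 5) (nat_lit 374) (nat_lit 5) (nat_lit 364) (nat_lit 5) (nat_lit 588) (nat_lit 547) (nat_lit 425)) (XT.nd (nat_lit 78) (nat_lit 0) (nat_lit 0) (XT.lf (nat_lit 0) (nat_lit 2880194629) (nat_lit 836) (nat_lit 5114988671) (nat_lit 912) (nat_lit 3287175347) (nat_lit 352) (nat_lit 5) (nat_lit 363) (nat_lit 5) (nat_lit 364) (nat_lit 5) (nat_lit 589) (nat_lit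 547) (nat_lit 424)) (XT.lf (nat_lit 0) (nat_lit 9516878622) (nat_lit 836) (nat_lit 572705902) (nat_lit 912) (nat_lit 1310223973) (nat_lit 352) (nat_lit 5) (nat_lit 363) (nat_lit 5) (nat_lit 364) (nat_lit 5) (nat_lit 590) (nat_lit 547) (nat_lit 423))))) (XT.nd (nat_lit 156) (nat_lit 1444) (nat_lit 0) (XT.nd (nat_lit 78) (nat_lit 0) (nat_lit 0) (XT.lf (nat_lit 0) (nat_lit 737920365) (nat_lit 836) (nat_lit 6738715645) (nat_lit 76) (nat_lit 4042063611) (nat_lit 341) (nat_lit 5) (nat_lit 352) (nat_lit 5) (nat_lit 342) (nat_lit 5) (nat_lit 591) (nat_lit 547) (nat_lit 422)) (XT.lf (nat_lit 0) (nat_lit 2809331892) (nat_lit 836) (nat_lit 68839602) (nat_lit 76) (nat_lit 8761629175) (nat_lit 341) (nat_lit 5) (nat_lit 352) (nat_lit 5) (nat_lit 342) (nat_lit 5) (nat_lit 592) (nat_lit 547) (nat_lit 421))) (XT.nd (nat_lit 78) (nat_lit 684) (nat_lit 0) (XT.lf (nat_lit 0) (nat_lit 4962055451) (nat_lit 836) (nat_lit 4969017267)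 (nat_lit 76) (nat_lit 1831455579) (nat_lit 331) (nat_lit 5) (nat_lit 342) (nat_lit 5) (nat_lit 332) (nat_lit 5) (nat_lit 593) (nat_lit 547) (nat_lit 420)) (XT.nd (nat_lit 78) (nat_lit 0) (nat_lit 0) (XT.lf (nat_lit 0) (nat_lit 1894028224) (nat_lit 684) (nat_lit 5279469951) (nat_lit 760) (nat_lit 4713901198) (nat_lit 322) (nat_lit 5) (nat_lit 331) (nat_lit 5) (nat_lit 332) (nat_lit 5) (nat_lit 594) (nat_lit 547) (nat_lit 419)) (XT.lf (nat_lit 0) (nat_lit 8943720895) (nat_lit 684) (nat_lit 502835396) (nat_lit 760) (nat_lit 2567865996) (nat_lit 322) (nat_lit 5) (nat_lit 331) (nat_lit 5) (nat_lit 332) (nat_lit 5) (nat_lit 595) (nat_lit 547) (nat_lit 418))))))) (XT.nd (nat_lit 702) (nat_lit 2964) (nat_lit 0) (XT.nd (nat_lit 312) (nat_lit 1976) (nat_lit 0) (XT.nd (nat_lit 156) (nat_lit 1368) (nat_lit 0) (XT.nd (nat_lit 78) (nat_lit 76) (nat_lit 0) (XT.lf (nat_lit 0) (nat_lit 3996548695) (nat_lit 760) (nat_lit 7807185636)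 (nat_lit 836) (nat_lit 339480258) (nat_lit 312) (nat_lit 5) (nat_lit 322) (nat_lit 5) (nat_lit 323) (nat_lit 5) (nat_lit 596) (nat_lit 547) (nat_lit 417)) (XT.lf (nat_lit 0) (nat_lit 1916616756) (nat_lit 836) (nat_lit 1061433534) (nat_lit 76) (nat_lit 9296113374) (nat_lit 311) (nat_lit 5) (nat_lit 322) (nat_lit 5) (nat_lit 312) (nat_lit 5) (nat_lit 597) (nat_lit 547) (nat_lit 416))) (XT.nd (nat_lit 78) (nat_lit 684) (nat_lit 0) (XT.lf (nat_lit 0) (nat_lit 4251372755) (nat_lit 760) (nat_lit 6192828900) (nat_lit 76) (nat_lit 1962725516) (nat_lit 302) (nat_lit 5) (nat_lit 312) (nat_lit 5) (nat_lit 303) (nat_lit 5) (nat_lit 598) (nat_lit 547) (nat_lit 415)) (XT.lf (nat_lit 0) (nat_lit 1083942754) (nat_lit 684) (nat_lit 5567714593) (nat_lit 760) (nat_lit 5890313876) (nat_lit 293) (nat_lit 5) (nat_lit 302) (nat_lit 5) (nat_lit 303) (nat_lit 5) (nat_lit 599) (nat_lit 547) (nat_lit 414)))) (XT.nd (nat_lit 156) (nat_lit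 1368) (nat_lit 0) (XT.nd (nat_lit 78) (nat_lit 608) (nat_lit 0) (XT.lf (nat_lit 0) (nat_lit 8572483342) (nat_lit 684) (nat_lit 554106102) (nat_lit 760) (nat_lit 3552595782) (nat_lit 293) (nat_lit 5) (nat_lit 302) (nat_lit 5) (nat_lit 303) (nat_lit 5) (nat_lit 600) (nat_lit 547) (nat_lit 413)) (XT.lf (nat_lit 0) (nat_lit 3388850374) (nat_lit 608) (nat_lit 8299136882) (nat_lit 684) (nat_lit 1130418781) (nat_lit 285) (nat_lit 5) (nat_lit 293) (nat_lit 5) (nat_lit 294) (nat_lit 5) (nat_lit 601) (nat_lit 547) (nat_lit 412))) (XT.nd (nat_lit 78) (nat_lit 1292) (nat_lit 0) (XT.lf (nat_lit 0) (nat_lit 1339469979) (nat_lit 684) (nat_lit 1900153014) (nat_lit 76) (nat_lit 9720279133) (nat_lit 284) (nat_lit 5) (nat_lit 293) (nat_lit 5) (nat_lit 285) (nat_lit 5) (nat_lit 602) (nat_lit 547) (nat_lit 411)) (XT.nd (nat_lit 78) (nat_lit 608) (nat_lit 0) (XT.lf (nat_lit 0) (nat_lit 3879969807) (nat_lit 760) (nat_lit 7284902585)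 (nat_lit 76) (nat_lit 1938481073) (nat_lit 275) (nat_lit 5) (nat_lit 285) (nat_lit 5) (nat_lit 276) (nat_lit 5) (nat_lit 603) (nat_lit 547) (nat_lit 410)) (XT.lf (nat_lit 0) (nat_lit 434401244) (nat_lit 608) (nat_lit 6059856820) (nat_lit 684) (nat_lit 6754957925) (nat_lit 267) (nat_lit 5) (nat_lit 275) (nat_lit 5) (nat_lit 276) (nat_lit 5) (nat_lit 604) (nat_lit 547) (nat_lit 409)))))) (XT.nd (nat_lit 390) (nat_lit 1748) (nat_lit 0) (XT.nd (nat_lit 156) (nat_lit 608) (nat_lit 0) (XT.nd (nat_lit 78) (nat_lit 608) (nat_lit 0) (XT.lf (nat_lit 0) (nat_lit 8389432978) (nat_lit 608) (nat_lit 806316802) (nat_lit 684) (nat_lit 4201549323) (nat_lit 267) (nat_lit 5) (nat_lit 275) (nat_lit 5) (nat_lit 276) (nat_lit 5) (nat_lit 605) (nat_lit 547) (nat_lit 408)) (XT.lf (nat_lit 0) (nat_lit 2946996058) (nat_lit 608) (nat_lit 9039249789) (nat_lit 684) (nat_lit 1561400201) (nat_lit 259) (nat_lit 5) (nat_lit 267) (nat_lit 5) (nat_lit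 268) (nat_lit 5) (nat_lit 606) (nat_lit 547) (nat_lit 407))) (XT.nd (nat_lit 78) (nat_lit 532) (nat_lit 0) (XT.lf (nat_lit 0) (nat_lit 1142229194) (nat_lit 684) (nat_lit 2601786913) (nat_lit 76) (nat_lit 9956328129) (nat_lit 258) (nat_lit 5) (nat_lit 267) (nat_lit 5) (nat_lit 259) (nat_lit 5) (nat_lit 607) (nat_lit 547) (nat_lit 406)) (XT.nd (nat_lit 78) (nat_lit 0) (nat_lit 0) (XT.lf (nat_lit 0) (nat_lit 3913085326) (nat_lit 608) (nat_lit 8263323960) (nat_lit 76) (nat_lit 1678801022) (nat_lit 251) (nat_lit 5) (nat_lit 259) (nat_lit 5) (nat_lit 252) (nat_lit 5) (nat_lit 608) (nat_lit 547) (nat_lit 405)) (XT.lf (nat_lit 0) (nat_lit 6768474391) (nat_lit 608) (nat_lit 70211272) (nat_lit 76) (nat_lit 7173907255) (nat_lit 251) (nat_lit 5) (nat_lit 259) (nat_lit 5) (nat_lit 252) (nat_lit 5) (nat_lit 609) (nat_lit 547) (nat_lit 404))))) (XT.nd (nat_lit 156) (nat_lit 608) (nat_lit 0) (XT.nd (nat_lit 78) (nat_lit 532) (nat_lit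 0) (XT.lf (nat_lit 0) (nat_lit 8379826098) (nat_lit 608) (nat_lit 1342558428) (nat_lit 684) (nat_lit 4449911892) (nat_lit 243) (nat_lit 5) (nat_lit 251) (nat_lit 5) (nat_lit 252) (nat_lit 5) (nat_lit 610) (nat_lit 547) (nat_lit 403)) (XT.lf (nat_lit 0) (nat_lit 2654802123) (nat_lit 532) (nat_lit 10113090029) (nat_lit 608) (nat_lit 1566652924) (nat_lit 236) (nat_lit 5) (nat_lit 243) (nat_lit 5) (nat_lit 244) (nat_lit 5) (nat_lit 611) (nat_lit 547) (nat_lit 402))) (XT.nd (nat_lit 78) (nat_lit 532) (nat_lit 0) (XT.lf (nat_lit 0) (nat_lit 1391450604) (nat_lit 608) (nat_lit 3184817106) (nat_lit 76) (nat_lit 9922889897) (nat_lit 235) (nat_lit 5) (nat_lit 243) (nat_lit 5) (nat_lit 236) (nat_lit 5) (nat_lit 612) (nat_lit 547) (nat_lit 401)) (XT.nd (nat_lit 78) (nat_lit 0) (nat_lit 0) (XT.lf (nat_lit 0) (nat_lit 4418303423) (nat_lit 608) (nat_lit 9148215582) (nat_lit 76) (nat_lit 1099726365) (nat_lit 228) (nat_lit 5) (nat_lit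 236) (nat_lit 5) (nat_lit 229) (nat_lit 5) (nat_lit 613) (nat_lit 547) (nat_lit 400)) (XT.lf (nat_lit 0) (nat_lit 7545060219) (nat_lit 608) (nat_lit 445393136) (nat_lit 76) (nat_lit 6845435558) (nat_lit 228) (nat_lit 5) (nat_lit 236) (nat_lit 5) (nat_lit 229) (nat_lit 5) (nat_lit 614) (nat_lit 547) (nat_lit 399))))))))
noncomputable def xc139 : XT := (XT.nd (nat_lit 1482) (nat_lit 1216) (nat_lit 0) (XT.nd (nat_lit 702) (nat_lit 2660) (nat_lit 0) (XT.nd (nat_lit 312) (nat_lit 1520) (nat_lit 0) (XT.nd (nat_lit 156) (nat_lit 532) (nat_lit 0) (XT.nd (nat_lit 78) (nat_lit 532) (nat_lit 0) (XT.lf (nat_lit 0) (nat_lit 8526843913) (nat_lit 532) (nat_lit 2250661514) (nat_lit 608) (nat_lit 4230558167) (nat_lit 221) (nat_lit 5) (nat_lit 228) (nat_lit 5) (nat_lit 229) (nat_lit 5) (nat_lit 615) (nat_lit 547) (nat_lit 398)) (XT.lf (nat_lit 0) (nat_lit 2493647359) (nat_lit 532) (nat_lit 11611446929) (nat_lit 608) (nat_lit 1077978896)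 (nat_lit 214) (nat_lit 5) (nat_lit 221) (nat_lit 5) (nat_lit 222) (nat_lit 5) (nat_lit 616) (nat_lit 547) (nat_lit 397))) (XT.nd (nat_lit 78) (nat_lit 456) (nat_lit 0) (XT.lf (nat_lit 0) (nat_lit 2156248202) (nat_lit 608) (nat_lit 3670550764) (nat_lit 76) (nat_lit 9533575037) (nat_lit 213) (nat_lit 5) (nat_lit 221) (nat_lit 5) (nat_lit 214) (nat_lit 5) (nat_lit 617) (nat_lit 547) (nat_lit 396)) (XT.lf (nat_lit 0) (nat_lit 5465876283) (nat_lit 532) (nat_lit 9962907691) (nat_lit 76) (nat_lit 111792579) (nat_lit 207) (nat_lit 5) (nat_lit 214) (nat_lit 5) (nat_lit 208) (nat_lit 5) (nat_lit 618) (nat_lit 547) (nat_lit 395)))) (XT.nd (nat_lit 156) (nat_lit 988) (nat_lit 0) (XT.nd (nat_lit 78) (nat_lit 532) (nat_lit 0) (XT.lf (nat_lit 0) (nat_lit 8893359526) (nat_lit 532) (nat_lit 718437819) (nat_lit 76) (nat_lit 6111553764) (nat_lit 207) (nat_lit 5) (nat_lit 214) (nat_lit 5) (nat_lit 208) (nat_lit 5) (nat_lit 619) (nat_lit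 547) (nat_lit 394)) (XT.lf (nat_lit 0) (nat_lit 8810388670) (nat_lit 532) (nat_lit 3624716532) (nat_lit 608) (nat_lit 3473762883) (nat_lit 200) (nat_lit 5) (nat_lit 207) (nat_lit 5) (nat_lit 208) (nat_lit 5) (nat_lit 620) (nat_lit 547) (nat_lit 393))) (XT.nd (nat_lit 78) (nat_lit 532) (nat_lit 0) (XT.lf (nat_lit 0) (nat_lit 2441225611) (nat_lit 456) (nat_lit 13631880267) (nat_lit 532) (nat_lit 24482286) (nat_lit 194) (nat_lit 5) (nat_lit 200) (nat_lit 5) (nat_lit 201) (nat_lit 5) (nat_lit 621) (nat_lit 547) (nat_lit 392)) (XT.nd (nat_lit 78) (nat_lit 456) (nat_lit 0) (XT.lf (nat_lit 0) (nat_lit 3508561931) (nat_lit 532) (nat_lit 4084408644) (nat_lit 76) (nat_lit 8695447513) (nat_lit 193) (nat_lit 5) (nat_lit 200) (nat_lit 5) (nat_lit 194) (nat_lit 5) (nat_lit 622) (nat_lit 547) (nat_lit 391)) (XT.lf (nat_lit 0) (nat_lit 5738176462) (nat_lit 456) (nat_lit 1399886630) (nat_lit 532) (nat_lit 9344476899) (nat_lit 187)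 (nat_lit 5) (nat_lit 193) (nat_lit 5) (nat_lit 194) (nat_lit 5) (nat_lit 623) (nat_lit 547) (nat_lit 390)))))) (XT.nd (nat_lit 390) (nat_lit 1292) (nat_lit 0) (XT.nd (nat_lit 156) (nat_lit 912) (nat_lit 0) (XT.nd (nat_lit 78) (nat_lit 456) (nat_lit 0) (XT.lf (nat_lit 0) (nat_lit 10888621320) (nat_lit 532) (nat_lit 915512680) (nat_lit 76) (nat_lit 4875442066) (nat_lit 187) (nat_lit 5) (nat_lit 194) (nat_lit 5) (nat_lit 188) (nat_lit 5) (nat_lit 624) (nat_lit 547) (nat_lit 389)) (XT.lf (nat_lit 0) (nat_lit 9205703676) (nat_lit 456) (nat_lit 5566696154) (nat_lit 532) (nat_lit 2106989901) (nat_lit 181) (nat_lit 5) (nat_lit 187) (nat_lit 5) (nat_lit 188) (nat_lit 5) (nat_lit 625) (nat_lit 547) (nat_lit 388))) (XT.nd (nat_lit 78) (nat_lit 380) (nat_lit 0) (XT.lf (nat_lit 0) (nat_lit 1645750058) (nat_lit 532) (nat_lit 14623583296) (nat_lit 76) (nat_lit 813318096) (nat_lit 174) (nat_lit 5) (nat_lit 181) (nat_lit 5) (nat_lit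 175) (nat_lit 5) (nat_lit 626) (nat_lit 547) (nat_lit 387)) (XT.nd (nat_lit 78) (nat_lit 380) (nat_lit 0) (XT.lf (nat_lit 0) (nat_lit 5523345919) (nat_lit 532) (nat_lit 4457408077) (nat_lit 76) (nat_lit 7307386582) (nat_lit 174) (nat_lit 5) (nat_lit 181) (nat_lit 5) (nat_lit 175) (nat_lit 5) (nat_lit 627) (nat_lit 547) (nat_lit 386)) (XT.lf (nat_lit 0) (nat_lit 5974967428) (nat_lit 380) (nat_lit 3531816084) (nat_lit 456) (nat_lit 7990391151) (nat_lit 169) (nat_lit 5) (nat_lit 174) (nat_lit 5) (nat_lit 175) (nat_lit 5) (nat_lit 628) (nat_lit 547) (nat_lit 385))))) (XT.nd (nat_lit 156) (nat_lit 836) (nat_lit 0) (XT.nd (nat_lit 78) (nat_lit 456) (nat_lit 0) (XT.lf (nat_lit 0) (nat_lit 13609346866) (nat_lit 456) (nat_lit 1068915450) (nat_lit 76) (nat_lit 3031338928) (nat_lit 169) (nat_lit 5) (nat_lit 175) (nat_lit 5) (nat_lit 170) (nat_lit 5) (nat_lit 629) (nat_lit 547) (nat_lit 384)) (XT.lf (nat_lit 0) (nat_lit 9681775359)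 (nat_lit 456) (nat_lit 8188210712) (nat_lit 532) (nat_lit 54770729) (nat_lit 163) (nat_lit 5) (nat_lit 169) (nat_lit 5) (nat_lit 170) (nat_lit 5) (nat_lit 630) (nat_lit 547) (nat_lit 383))) (XT.nd (nat_lit 78) (nat_lit 380) (nat_lit 0) (XT.lf (nat_lit 0) (nat_lit 2509029101) (nat_lit 380) (nat_lit 1522512920) (nat_lit 456) (nat_lit 14111879239) (nat_lit 157) (nat_lit 5) (nat_lit 162) (nat_lit 5) (nat_lit 163) (nat_lit 5) (nat_lit 631) (nat_lit 547) (nat_lit 382)) (XT.nd (nat_lit 78) (nat_lit 380) (nat_lit 0) (XT.lf (nat_lit 0) (nat_lit 8278664734) (nat_lit 456) (nat_lit 4827885111) (nat_lit 76) (nat_lit 5258306464) (nat_lit 157) (nat_lit 5) (nat_lit 163) (nat_lit 5) (nat_lit 158) (nat_lit 5) (nat_lit 632) (nat_lit 547) (nat_lit 381)) (XT.lf (nat_lit 0) (nat_lit 6251600806) (nat_lit 380) (nat_lit 6399876798) (nat_lit 456) (nat_lit 5938428364) (nat_lit 152) (nat_lit 5) (nat_lit 157) (nat_lit 5) (nat_lit 158) (nat_lit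 5) (nat_lit 633) (nat_lit 547) (nat_lit 380))))))) (XT.nd (nat_lit 74724) (nat_lit 0) (nat_lit 30628) (XT.nd (nat_lit 312) (nat_lit 380) (nat_lit 0) (XT.nd (nat_lit 156) (nat_lit 380) (nat_lit 0) (XT.nd (nat_lit 78) (nat_lit 456) (nat_lit 0) (XT.lf (nat_lit 0) (nat_lit 17137361186) (nat_lit 456) (nat_lit 1218890598) (nat_lit 76) (nat_lit 462693394) (nat_lit 152) (nat_lit 5) (nat_lit 158) (nat_lit 5) (nat_lit 153) (nat_lit 5) (nat_lit 634) (nat_lit 547) (nat_lit 379)) (XT.lf (nat_lit 0) (nat_lit 2725097870) (nat_lit 456) (nat_lit 8869046392) (nat_lit 76) (nat_lit 7456084417) (nat_lit 146) (nat_lit 5) (nat_lit 152) (nat_lit 5) (nat_lit 147) (nat_lit 5) (nat_lit 635) (nat_lit 547) (nat_lit 378))) (XT.nd (nat_lit 78) (nat_lit 0) (nat_lit 0) (XT.lf (nat_lit 0) (nat_lit 2547161715) (nat_lit 380) (nat_lit 4665390221) (nat_lit 456) (nat_lit 12073061308) (nat_lit 141) (nat_lit 5) (nat_lit 146) (nat_lit 5) (nat_lit 147)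 (nat_lit 5) (nat_lit 636) (nat_lit 547) (nat_lit 377)) (XT.lf (nat_lit 0) (nat_lit 11855681937) (nat_lit 456) (nat_lit 5243507140) (nat_lit 76) (nat_lit 2425198668) (nat_lit 141) (nat_lit 5) (nat_lit 147) (nat_lit 5) (nat_lit 142) (nat_lit 5) (nat_lit 637) (nat_lit 547) (nat_lit 376)))) (XT.nd (nat_lit 74178) (nat_lit 0) (nat_lit 33288) (XT.nd (nat_lit 78) (nat_lit 76) (nat_lit 0) (XT.lf (nat_lit 0) (nat_lit 6521341535) (nat_lit 304) (nat_lit 10134180067) (nat_lit 380) (nat_lit 3111139959) (nat_lit 137) (nat_lit 5) (nat_lit 141) (nat_lit 5) (nat_lit 142) (nat_lit 5) (nat_lit 638) (nat_lit 547) (nat_lit 375)) (XT.lf (nat_lit 0) (nat_lit 1543468338) (nat_lit 380) (nat_lit 1445384295) (nat_lit 76) (nat_lit 17024208164) (nat_lit 136) (nat_lit 5) (nat_lit 141) (nat_lit 5) (nat_lit 137) (nat_lit 5) (nat_lit 639) (nat_lit 547) (nat_lit 374))) (XT.nd (nat_lit 78) (nat_lit 0) (nat_lit 0) (XT.lf (nat_lit 0) (nat_lit 962747185)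 (nat_lit 1444) (nat_lit 1503477814) (nat_lit 1444) (nat_lit 1503477814) (nat_lit 574) (nat_lit 3) (nat_lit 593) (nat_lit 3) (nat_lit 593) (nat_lit 5) (nat_lit 548) (nat_lit 548) (nat_lit 464)) (XT.nd (nat_lit 78) (nat_lit 0) (nat_lit 76) (XT.lf (nat_lit 76) (nat_lit 903857578) (nat_lit 0) (nat_lit 2278144332) (nat_lit 1444) (nat_lit 4811828016) (nat_lit 575) (nat_lit 5) (nat_lit 574) (nat_lit 3) (nat_lit 593) (nat_lit 5) (nat_lit 549) (nat_lit 548) (nat_lit 463)) (XT.lf (nat_lit 0) (nat_lit 4454432424) (nat_lit 1368) (nat_lit 3135663410) (nat_lit 1444) (nat_lit 459436914) (nat_lit 575) (nat_lit 5) (nat_lit 593) (nat_lit 5) (nat_lit 594) (nat_lit 5) (nat_lit 550) (nat_lit 548) (nat_lit 462)))))) (XT.nd (nat_lit 390) (nat_lit 1368) (nat_lit 0) (XT.nd (nat_lit 156) (nat_lit 1368) (nat_lit 0) (XT.nd (nat_lit 78) (nat_lit 0) (nat_lit 0) (XT.lf (nat_lit 76) (nat_lit 877038550) (nat_lit 0) (nat_lit 4864381792) (nat_lit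 1444) (nat_lit 2365152886) (nat_lit 576) (nat_lit 5) (nat_lit 575) (nat_lit 5) (nat_lit 594) (nat_lit 5) (nat_lit 551) (nat_lit 548) (nat_lit 461)) (XT.lf (nat_lit 76) (nat_lit 4995503224) (nat_lit 0) (nat_lit 2048524859) (nat_lit 1444) (nat_lit 1120934500) (nat_lit 576) (nat_lit 5) (nat_lit 575) (nat_lit 5) (nat_lit 594) (nat_lit 5) (nat_lit 552) (nat_lit 548) (nat_lit 460))) (XT.nd (nat_lit 78) (nat_lit 0) (nat_lit 0) (XT.lf (nat_lit 0) (nat_lit 127225615) (nat_lit 1444) (nat_lit 7264026393) (nat_lit 1520) (nat_lit 833633909) (nat_lit 557) (nat_lit 5) (nat_lit 576) (nat_lit 5) (nat_lit 577) (nat_lit 5) (nat_lit 553) (nat_lit 548) (nat_lit 459)) (XT.nd (nat_lit 78) (nat_lit 0) (nat_lit 0) (XT.lf (nat_lit 0) (nat_lit 1390150282) (nat_lit 1444) (nat_lit 3107627038) (nat_lit 1520) (nat_lit 3787991336) (nat_lit 557) (nat_lit 5) (nat_lit 576) (nat_lit 5) (nat_lit 577) (nat_lit 5) (nat_lit 554) (nat_lit 548) (nat_lit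 458)) (XT.lf (nat_lit 76) (nat_lit 1129397169) (nat_lit 0) (nat_lit 1526681468) (nat_lit 1520) (nat_lit 5692240742) (nat_lit 558) (nat_lit 5) (nat_lit 557) (nat_lit 5) (nat_lit 577) (nat_lit 5) (nat_lit 555) (nat_lit 548) (nat_lit 457))))) (XT.nd (nat_lit 156) (nat_lit 1444) (nat_lit 0) (XT.nd (nat_lit 78) (nat_lit 0) (nat_lit 0) (XT.lf (nat_lit 0) (nat_lit 3949039624) (nat_lit 1444) (nat_lit 2946185840) (nat_lit 1520) (nat_lit 1516866503) (nat_lit 558) (nat_lit 5) (nat_lit 577) (nat_lit 5) (nat_lit 578) (nat_lit 5) (nat_lit 556) (nat_lit 548) (nat_lit 456)) (XT.lf (nat_lit 76) (nat_lit 1402776415) (nat_lit 0) (nat_lit 3855829332) (nat_lit 1520) (nat_lit 3218724371) (nat_lit 559) (nat_lit 5) (nat_lit 558) (nat_lit 5) (nat_lit 578) (nat_lit 5) (nat_lit 557) (nat_lit 548) (nat_lit 455))) (XT.nd (nat_lit 78) (nat_lit 1444) (nat_lit 0) (XT.lf (nat_lit 76) (nat_lit 5861253443) (nat_lit 0) (nat_lit 724853201) (nat_lit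 1520) (nat_lit 1957936452) (nat_lit 559) (nat_lit 5) (nat_lit 558) (nat_lit 5) (nat_lit 578) (nat_lit 5) (nat_lit 558) (nat_lit 548) (nat_lit 454)) (XT.nd (nat_lit 78) (nat_lit 1520) (nat_lit 0) (XT.lf (nat_lit 76) (nat_lit 1786529997) (nat_lit 0) (nat_lit 6153845795) (nat_lit 1520) (nat_lit 671715012) (nat_lit 560) (nat_lit 5) (nat_lit 559) (nat_lit 5) (nat_lit 579) (nat_lit 5) (nat_lit 559) (nat_lit 548) (nat_lit 453)) (XT.lf (nat_lit 0) (nat_lit 627586807) (nat_lit 1520) (nat_lit 2326544849) (nat_lit 1596) (nat_lit 5727374267) (nat_lit 539) (nat_lit 5) (nat_lit 559) (nat_lit 5) (nat_lit 560) (nat_lit 5) (nat_lit 560) (nat_lit 548) (nat_lit 452))))))))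
noncomputable def xc140 : XT := (XT.nd (nat_lit 1482) (nat_lit 9044) (nat_lit 0) (XT.nd (nat_lit 702) (nat_lit 7600) (nat_lit 0) (XT.nd (nat_lit 312) (nat_lit 1444) (nat_lit 0) (XT.nd (nat_lit 156) (nat_lit 0) (nat_lit 0) (XT.nd (nat_lit 78) (nat_lit 0) (nat_lit 0) (XT.lf (nat_lit 0) (nat_lit 1934187223) (nat_lit 1520) (nat_lit 6484461142) (nat_lit 1596) (nat_lit 333770599) (nat_lit 540) (nat_lit 5) (nat_lit 560) (nat_lit 5) (nat_lit 561) (nat_lit 5) (nat_lit 561) (nat_lit 548) (nat_lit 451)) (XT.lf (nat_lit 0) (nat_lit 3276027909) (nat_lit 1520) (nat_lit 1876267436) (nat_lit 1596) (nat_lit 3672277223) (nat_lit 540) (nat_lit 5) (nat_lit 560) (nat_lit 5) (nat_lit 561) (nat_lit 5) (nat_lit 562) (nat_lit 548) (nat_lit 450))) (XT.nd (nat_lit 78) (nat_lit 0) (nat_lit 76) (XT.lf (nat_lit 76) (nat_lit 2843689849) (nat_lit 0) (nat_lit 1793820583) (nat_lit 1596) (nat_lit 4260807091) (nat_lit 541) (nat_lit 5) (nat_lit 540)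 (nat_lit 5) (nat_lit 561) (nat_lit 5) (nat_lit 563) (nat_lit 548) (nat_lit 449)) (XT.lf (nat_lit 0) (nat_lit 6024272406) (nat_lit 1520) (nat_lit 1318623228) (nat_lit 1596) (nat_lit 1630685039) (nat_lit 541) (nat_lit 5) (nat_lit 561) (nat_lit 5) (nat_lit 562) (nat_lit 5) (nat_lit 564) (nat_lit 548) (nat_lit 448)))) (XT.nd (nat_lit 156) (nat_lit 1520) (nat_lit 0) (XT.nd (nat_lit 78) (nat_lit 0) (nat_lit 0) (XT.lf (nat_lit 76) (nat_lit 3528718157) (nat_lit 0) (nat_lit 3920117135) (nat_lit 1596) (nat_lit 1601316692) (nat_lit 542) (nat_lit 5) (nat_lit 541) (nat_lit 5) (nat_lit 562) (nat_lit 5) (nat_lit 565) (nat_lit 548) (nat_lit 447)) (XT.lf (nat_lit 76) (nat_lit 8473214336) (nat_lit 0) (nat_lit 413169140) (nat_lit 1596) (nat_lit 242185490) (nat_lit 542) (nat_lit 5) (nat_lit 541) (nat_lit 5) (nat_lit 562) (nat_lit 5) (nat_lit 566) (nat_lit 548) (nat_lit 446))) (XT.nd (nat_lit 78) (nat_lit 0) (nat_lit 0) (XT.lf (nat_lit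 0) (nat_lit 1154080735) (nat_lit 1596) (nat_lit 4889253674) (nat_lit 1672) (nat_lit 3164576120) (nat_lit 521) (nat_lit 5) (nat_lit 542) (nat_lit 5) (nat_lit 543) (nat_lit 5) (nat_lit 567) (nat_lit 548) (nat_lit 445)) (XT.nd (nat_lit 78) (nat_lit 0) (nat_lit 76) (XT.lf (nat_lit 76) (nat_lit 91061413) (nat_lit 0) (nat_lit 2468083713) (nat_lit 1672) (nat_lit 6729983355) (nat_lit 522) (nat_lit 5) (nat_lit 521) (nat_lit 5) (nat_lit 543) (nat_lit 5) (nat_lit 568) (nat_lit 548) (nat_lit 444)) (XT.lf (nat_lit 0) (nat_lit 4009730626) (nat_lit 1596) (nat_lit 4160357286) (nat_lit 1672) (nat_lit 1201538296) (nat_lit 522) (nat_lit 5) (nat_lit 543) (nat_lit 5) (nat_lit 544) (nat_lit 5) (nat_lit 569) (nat_lit 548) (nat_lit 443)))))) (XT.nd (nat_lit 390) (nat_lit 4408) (nat_lit 0) (XT.nd (nat_lit 156) (nat_lit 3268) (nat_lit 0) (XT.nd (nat_lit 78) (nat_lit 0) (nat_lit 0) (XT.lf (nat_lit 76) (nat_lit 956233724) (nat_lit 0) (nat_lit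 4532843964) (nat_lit 1672) (nat_lit 3966704943) (nat_lit 523) (nat_lit 5) (nat_lit 522) (nat_lit 5) (nat_lit 544) (nat_lit 5) (nat_lit 570) (nat_lit 548) (nat_lit 442)) (XT.lf (nat_lit 76) (nat_lit 6213600951) (nat_lit 0) (nat_lit 789855937) (nat_lit 1672) (nat_lit 2538060055) (nat_lit 523) (nat_lit 5) (nat_lit 522) (nat_lit 5) (nat_lit 544) (nat_lit 5) (nat_lit 571) (nat_lit 548) (nat_lit 441))) (XT.nd (nat_lit 78) (nat_lit 1748) (nat_lit 0) (XT.lf (nat_lit 0) (nat_lit 1934793611) (nat_lit 1596) (nat_lit 6623548198) (nat_lit 1672) (nat_lit 1070423361) (nat_lit 502) (nat_lit 5) (nat_lit 523) (nat_lit 5) (nat_lit 524) (nat_lit 5) (nat_lit 572) (nat_lit 548) (nat_lit 440)) (XT.nd (nat_lit 78) (nat_lit 1672) (nat_lit 0) (XT.lf (nat_lit 0) (nat_lit 426846588) (nat_lit 1672) (nat_lit 2395837966) (nat_lit 76) (nat_lit 6894904370) (nat_lit 501) (nat_lit 5) (nat_lit 523) (nat_lit 5) (nat_lit 502) (nat_lit 5) (nat_lit 573)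 (nat_lit 548) (nat_lit 439)) (XT.lf (nat_lit 0) (nat_lit 1945005900) (nat_lit 1748) (nat_lit 6792203442) (nat_lit 76) (nat_lit 1070736148) (nat_lit 479) (nat_lit 5) (nat_lit 502) (nat_lit 5) (nat_lit 480) (nat_lit 5) (nat_lit 574) (nat_lit 548) (nat_lit 438))))) (XT.nd (nat_lit 156) (nat_lit 2660) (nat_lit 0) (XT.nd (nat_lit 78) (nat_lit 1748) (nat_lit 0) (XT.lf (nat_lit 0) (nat_lit 3507323864) (nat_lit 1748) (nat_lit 1368775228) (nat_lit 76) (nat_lit 5023737505) (nat_lit 479) (nat_lit 5) (nat_lit 502) (nat_lit 5) (nat_lit 480) (nat_lit 5) (nat_lit 575) (nat_lit 548) (nat_lit 437)) (XT.lf (nat_lit 0) (nat_lit 4200349378) (nat_lit 1748) (nat_lit 907142013) (nat_lit 1824) (nat_lit 4885945325) (nat_lit 456) (nat_lit 5) (nat_lit 479) (nat_lit 5) (nat_lit 480) (nat_lit 5) (nat_lit 576) (nat_lit 548) (nat_lit 436))) (XT.nd (nat_lit 78) (nat_lit 2660) (nat_lit 0) (XT.lf (nat_lit 0) (nat_lit 6748941936) (nat_lit 1824)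 (nat_lit 227940962) (nat_lit 76) (nat_lit 3111843536) (nat_lit 456) (nat_lit 5) (nat_lit 480) (nat_lit 5) (nat_lit 457) (nat_lit 5) (nat_lit 577) (nat_lit 548) (nat_lit 435)) (XT.nd (nat_lit 78) (nat_lit 988) (nat_lit 0) (XT.lf (nat_lit 0) (nat_lit 5496777425) (nat_lit 1672) (nat_lit 2948178510) (nat_lit 1748) (nat_lit 1740534451) (nat_lit 434) (nat_lit 5) (nat_lit 456) (nat_lit 5) (nat_lit 457) (nat_lit 5) (nat_lit 578) (nat_lit 548) (nat_lit 434)) (XT.lf (nat_lit 0) (nat_lit 1042943531) (nat_lit 988) (nat_lit 9128124098) (nat_lit 1064) (nat_lit 113201505) (nat_lit 421) (nat_lit 5) (nat_lit 434) (nat_lit 5) (nat_lit 435) (nat_lit 5) (nat_lit 579) (nat_lit 548) (nat_lit 433))))))) (XT.nd (nat_lit 702) (nat_lit 4636) (nat_lit 0) (XT.nd (nat_lit 312) (nat_lit 2508) (nat_lit 0) (XT.nd (nat_lit 156) (nat_lit 912) (nat_lit 0) (XT.nd (nat_lit 78) (nat_lit 912) (nat_lit 0) (XT.lf (nat_lit 0) (nat_lit 1558054646) (nat_lit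 1064) (nat_lit 3479629569) (nat_lit 76) (nat_lit 5346508119) (nat_lit 420) (nat_lit 5) (nat_lit 434) (nat_lit 5) (nat_lit 421) (nat_lit 5) (nat_lit 580) (nat_lit 548) (nat_lit 432)) (XT.lf (nat_lit 0) (nat_lit 2410269187) (nat_lit 912) (nat_lit 847449534) (nat_lit 988) (nat_lit 7228453229) (nat_lit 408) (nat_lit 5) (nat_lit 420) (nat_lit 5) (nat_lit 421) (nat_lit 5) (nat_lit 581) (nat_lit 548) (nat_lit 431))) (XT.nd (nat_lit 78) (nat_lit 912) (nat_lit 0) (XT.lf (nat_lit 0) (nat_lit 5018244012) (nat_lit 988) (nat_lit 2165156113) (nat_lit 76) (nat_lit 3406256508) (nat_lit 408) (nat_lit 5) (nat_lit 421) (nat_lit 5) (nat_lit 409) (nat_lit 5) (nat_lit 582) (nat_lit 548) (nat_lit 430)) (XT.lf (nat_lit 0) (nat_lit 3891423231) (nat_lit 912) (nat_lit 2934920269) (nat_lit 988) (nat_lit 3868623012) (nat_lit 396) (nat_lit 5) (nat_lit 408) (nat_lit 5) (nat_lit 409) (nat_lit 5) (nat_lit 583) (nat_lit 548) (nat_lit 429)))) (XT.nd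 (nat_lit 156) (nat_lit 1672) (nat_lit 0) (XT.nd (nat_lit 78) (nat_lit 836) (nat_lit 0) (XT.lf (nat_lit 0) (nat_lit 8676048373) (nat_lit 988) (nat_lit 730846323) (nat_lit 76) (nat_lit 1395381747) (nat_lit 396) (nat_lit 5) (nat_lit 409) (nat_lit 5) (nat_lit 397) (nat_lit 5) (nat_lit 584) (nat_lit 548) (nat_lit 428)) (XT.lf (nat_lit 0) (nat_lit 5498271637) (nat_lit 836) (nat_lit 5101706435) (nat_lit 912) (nat_lit 311012558) (nat_lit 385) (nat_lit 5) (nat_lit 396) (nat_lit 5) (nat_lit 397) (nat_lit 5) (nat_lit 585) (nat_lit 548) (nat_lit 427))) (XT.nd (nat_lit 78) (nat_lit 760) (nat_lit 0) (XT.lf (nat_lit 0) (nat_lit 823027791) (nat_lit 836) (nat_lit 689768940) (nat_lit 912) (nat_lit 9509035023) (nat_lit 373) (nat_lit 5) (nat_lit 384) (nat_lit 5) (nat_lit 385) (nat_lit 5) (nat_lit 586) (nat_lit 548) (nat_lit 426)) (XT.nd (nat_lit 78) (nat_lit 760) (nat_lit 0) (XT.lf (nat_lit 0) (nat_lit 3412669813) (nat_lit 912) (nat_lit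 3922407735) (nat_lit 76) (nat_lit 3798898512) (nat_lit 373) (nat_lit 5) (nat_lit 385) (nat_lit 5) (nat_lit 374) (nat_lit 5) (nat_lit 587) (nat_lit 548) (nat_lit 425)) (XT.lf (nat_lit 0) (nat_lit 2489893123) (nat_lit 760) (nat_lit 2864171220) (nat_lit 836) (nat_lit 5894230895) (nat_lit 363) (nat_lit 5) (nat_lit 373) (nat_lit 5) (nat_lit 374) (nat_lit 5) (nat_lit 588) (nat_lit 548) (nat_lit 424)))))) (XT.nd (nat_lit 390) (nat_lit 2204) (nat_lit 0) (XT.nd (nat_lit 156) (nat_lit 1596) (nat_lit 0) (XT.nd (nat_lit 78) (nat_lit 836) (nat_lit 0) (XT.lf (nat_lit 0) (nat_lit 7354804271) (nat_lit 836) (nat_lit 2309884347) (nat_lit 76) (nat_lit 1699804250) (nat_lit 363) (nat_lit 5) (nat_lit 374) (nat_lit 5) (nat_lit 364) (nat_lit 5) (nat_lit 589) (nat_lit 548) (nat_lit 423)) (XT.lf (nat_lit 0) (nat_lit 4287283488) (nat_lit 836) (nat_lit 5138421790) (nat_lit 912) (nat_lit 2056708617) (nat_lit 352) (nat_lit 5) (nat_lit 363)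 (nat_lit 5) (nat_lit 364) (nat_lit 5) (nat_lit 590) (nat_lit 548) (nat_lit 422))) (XT.nd (nat_lit 78) (nat_lit 1596) (nat_lit 0) (XT.lf (nat_lit 0) (nat_lit 11030240671) (nat_lit 836) (nat_lit 506839770) (nat_lit 912) (nat_lit 65634102) (nat_lit 352) (nat_lit 5) (nat_lit 363) (nat_lit 5) (nat_lit 364) (nat_lit 5) (nat_lit 591) (nat_lit 548) (nat_lit 421)) (XT.nd (nat_lit 78) (nat_lit 760) (nat_lit 0) (XT.lf (nat_lit 0) (nat_lit 1991460713) (nat_lit 836) (nat_lit 5518111281) (nat_lit 76) (nat_lit 4214556777) (nat_lit 341) (nat_lit 5) (nat_lit 352) (nat_lit 5) (nat_lit 342) (nat_lit 5) (nat_lit 592) (nat_lit 548) (nat_lit 420)) (XT.lf (nat_lit 0) (nat_lit 1275312177) (nat_lit 760) (nat_lit 2812978623) (nat_lit 836) (nat_lit 7759684552) (nat_lit 331) (nat_lit 5) (nat_lit 341) (nat_lit 5) (nat_lit 342) (nat_lit 5) (nat_lit 593) (nat_lit 548) (nat_lit 419))))) (XT.nd (nat_lit 156) (nat_lit 1520) (nat_lit 0) (XT.nd (nat_lit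 78) (nat_lit 684) (nat_lit 0) (XT.lf (nat_lit 0) (nat_lit 6261330183) (nat_lit 836) (nat_lit 3724973881) (nat_lit 76) (nat_lit 1987311494) (nat_lit 331) (nat_lit 5) (nat_lit 342) (nat_lit 5) (nat_lit 332) (nat_lit 5) (nat_lit 594) (nat_lit 548) (nat_lit 418)) (XT.lf (nat_lit 0) (nat_lit 3266494206) (nat_lit 684) (nat_lit 5235642498) (nat_lit 760) (nat_lit 3599147841) (nat_lit 322) (nat_lit 5) (nat_lit 331) (nat_lit 5) (nat_lit 332) (nat_lit 5) (nat_lit 595) (nat_lit 548) (nat_lit 417))) (XT.nd (nat_lit 78) (nat_lit 1520) (nat_lit 0) (XT.lf (nat_lit 0) (nat_lit 10431012389) (nat_lit 684) (nat_lit 366404995) (nat_lit 760) (nat_lit 1433898433) (nat_lit 322) (nat_lit 5) (nat_lit 331) (nat_lit 5) (nat_lit 332) (nat_lit 5) (nat_lit 596) (nat_lit 548) (nat_lit 416)) (XT.nd (nat_lit 78) (nat_lit 684) (nat_lit 0) (XT.lf (nat_lit 0) (nat_lit 814693265) (nat_lit 836) (nat_lit 6969727277) (nat_lit 76) (nat_lit 4578424621)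 (nat_lit 311) (nat_lit 5) (nat_lit 322) (nat_lit 5) (nat_lit 312) (nat_lit 5) (nat_lit 597) (nat_lit 548) (nat_lit 415)) (XT.lf (nat_lit 0) (nat_lit 231773349) (nat_lit 684) (nat_lit 2858427370) (nat_lit 760) (nat_lit 9406593885) (nat_lit 302) (nat_lit 5) (nat_lit 311) (nat_lit 5) (nat_lit 312) (nat_lit 5) (nat_lit 598) (nat_lit 548) (nat_lit 414))))))))
noncomputable def xc141 : XT := (XT.nd (nat_lit 1482) (nat_lit 5168) (nat_lit 0) (XT.nd (nat_lit 702) (nat_lit 3420) (nat_lit 0) (XT.nd (nat_lit 312) (nat_lit 1976) (nat_lit 0) (XT.nd (nat_lit 156) (nat_lit 608) (nat_lit 0) (XT.nd (nat_lit 78) (nat_lit 684) (nat_lit 0) (XT.lf (nat_lit 0) (nat_lit 5457561933) (nat_lit 760) (nat_lit 4992560180) (nat_lit 76) (nat_lit 2182375953) (nat_lit 302) (nat_lit 5) (nat_lit 312) (nat_lit 5) (nat_lit 303) (nat_lit 5) (nat_lit 599) (nat_lit 548) (nat_lit 413)) (XT.lf (nat_lit 0) (nat_lit 2421035556) (nat_lit 684) (nat_lit 5471373638)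 (nat_lit 760) (nat_lit 4878105498) (nat_lit 293) (nat_lit 5) (nat_lit 302) (nat_lit 5) (nat_lit 303) (nat_lit 5) (nat_lit 600) (nat_lit 548) (nat_lit 412))) (XT.nd (nat_lit 78) (nat_lit 608) (nat_lit 0) (XT.lf (nat_lit 0) (nat_lit 10033554525) (nat_lit 684) (nat_lit 361565433) (nat_lit 760) (nat_lit 2515790193) (nat_lit 293) (nat_lit 5) (nat_lit 302) (nat_lit 5) (nat_lit 303) (nat_lit 5) (nat_lit 601) (nat_lit 548) (nat_lit 411)) (XT.lf (nat_lit 0) (nat_lit 4758166161) (nat_lit 608) (nat_lit 8238032057) (nat_lit 684) (nat_lit 56950832) (nat_lit 285) (nat_lit 5) (nat_lit 293) (nat_lit 5) (nat_lit 294) (nat_lit 5) (nat_lit 602) (nat_lit 548) (nat_lit 410)))) (XT.nd (nat_lit 156) (nat_lit 1216) (nat_lit 0) (XT.nd (nat_lit 78) (nat_lit 684) (nat_lit 0) (XT.lf (nat_lit 0) (nat_lit 2426750641) (nat_lit 684) (nat_lit 647913493) (nat_lit 76) (nat_lit 10123095411) (nat_lit 284) (nat_lit 5) (nat_lit 293) (nat_lit 5) (nat_lit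 285) (nat_lit 5) (nat_lit 603) (nat_lit 548) (nat_lit 409)) (XT.lf (nat_lit 0) (nat_lit 5007106079) (nat_lit 760) (nat_lit 6129275434) (nat_lit 76) (nat_lit 2207920050) (nat_lit 275) (nat_lit 5) (nat_lit 285) (nat_lit 5) (nat_lit 276) (nat_lit 5) (nat_lit 604) (nat_lit 548) (nat_lit 408))) (XT.nd (nat_lit 78) (nat_lit 608) (nat_lit 0) (XT.lf (nat_lit 0) (nat_lit 1735853122) (nat_lit 608) (nat_lit 5925641304) (nat_lit 684) (nat_lit 5831833139) (nat_lit 267) (nat_lit 5) (nat_lit 275) (nat_lit 5) (nat_lit 276) (nat_lit 5) (nat_lit 605) (nat_lit 548) (nat_lit 407)) (XT.nd (nat_lit 78) (nat_lit 608) (nat_lit 0) (XT.lf (nat_lit 0) (nat_lit 9824637180) (nat_lit 608) (nat_lit 572038577) (nat_lit 684) (nat_lit 3248105853) (nat_lit 267) (nat_lit 5) (nat_lit 275) (nat_lit 5) (nat_lit 276) (nat_lit 5) (nat_lit 606) (nat_lit 548) (nat_lit 406)) (XT.lf (nat_lit 0) (nat_lit 4283727011) (nat_lit 608) (nat_lit 8949203523) (nat_lit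 684) (nat_lit 565408401) (nat_lit 259) (nat_lit 5) (nat_lit 267) (nat_lit 5) (nat_lit 268) (nat_lit 5) (nat_lit 607) (nat_lit 548) (nat_lit 405)))))) (XT.nd (nat_lit 390) (nat_lit 1672) (nat_lit 0) (XT.nd (nat_lit 156) (nat_lit 1140) (nat_lit 0) (XT.nd (nat_lit 78) (nat_lit 532) (nat_lit 0) (XT.lf (nat_lit 0) (nat_lit 2158944005) (nat_lit 684) (nat_lit 1387762187) (nat_lit 76) (nat_lit 10407651377) (nat_lit 258) (nat_lit 5) (nat_lit 267) (nat_lit 5) (nat_lit 259) (nat_lit 5) (nat_lit 608) (nat_lit 548) (nat_lit 404)) (XT.lf (nat_lit 0) (nat_lit 4975682301) (nat_lit 608) (nat_lit 7152881146) (nat_lit 76) (nat_lit 1983950493) (nat_lit 251) (nat_lit 5) (nat_lit 259) (nat_lit 5) (nat_lit 252) (nat_lit 5) (nat_lit 609) (nat_lit 548) (nat_lit 403))) (XT.nd (nat_lit 78) (nat_lit 532) (nat_lit 0) (XT.lf (nat_lit 0) (nat_lit 1194749238) (nat_lit 608) (nat_lit 6681886322) (nat_lit 684) (nat_lit 6396641747) (nat_lit 243)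 (nat_lit 5) (nat_lit 251) (nat_lit 5) (nat_lit 252) (nat_lit 5) (nat_lit 610) (nat_lit 548) (nat_lit 402)) (XT.nd (nat_lit 78) (nat_lit 532) (nat_lit 0) (XT.lf (nat_lit 0) (nat_lit 9789889746) (nat_lit 608) (nat_lit 1081121722) (nat_lit 684) (nat_lit 3565537847) (nat_lit 243) (nat_lit 5) (nat_lit 251) (nat_lit 5) (nat_lit 252) (nat_lit 5) (nat_lit 611) (nat_lit 548) (nat_lit 401)) (XT.lf (nat_lit 0) (nat_lit 3959398486) (nat_lit 532) (nat_lit 10009281988) (nat_lit 608) (nat_lit 633539593) (nat_lit 236) (nat_lit 5) (nat_lit 243) (nat_lit 5) (nat_lit 244) (nat_lit 5) (nat_lit 612) (nat_lit 548) (nat_lit 400))))) (XT.nd (nat_lit 156) (nat_lit 1064) (nat_lit 0) (XT.nd (nat_lit 78) (nat_lit 532) (nat_lit 0) (XT.lf (nat_lit 0) (nat_lit 2352414422) (nat_lit 608) (nat_lit 2009048345) (nat_lit 76) (nat_lit 10408912162) (nat_lit 235) (nat_lit 5) (nat_lit 243) (nat_lit 5) (nat_lit 236) (nat_lit 5) (nat_lit 613) (nat_lit 548)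 (nat_lit 399)) (XT.lf (nat_lit 0) (nat_lit 5431504867) (nat_lit 608) (nat_lit 8083314248) (nat_lit 76) (nat_lit 1426153343) (nat_lit 228) (nat_lit 5) (nat_lit 236) (nat_lit 5) (nat_lit 229) (nat_lit 5) (nat_lit 614) (nat_lit 548) (nat_lit 398))) (XT.nd (nat_lit 78) (nat_lit 532) (nat_lit 0) (XT.lf (nat_lit 0) (nat_lit 779317582) (nat_lit 532) (nat_lit 7828405036) (nat_lit 608) (nat_lit 6506549719) (nat_lit 221) (nat_lit 5) (nat_lit 228) (nat_lit 5) (nat_lit 229) (nat_lit 5) (nat_lit 615) (nat_lit 548) (nat_lit 397)) (XT.nd (nat_lit 78) (nat_lit 532) (nat_lit 0) (XT.lf (nat_lit 0) (nat_lit 9912729814) (nat_lit 532) (nat_lit 1977139465) (nat_lit 608) (nat_lit 3400322127) (nat_lit 221) (nat_lit 5) (nat_lit 228) (nat_lit 5) (nat_lit 229) (nat_lit 5) (nat_lit 616) (nat_lit 548) (nat_lit 396)) (XT.lf (nat_lit 0) (nat_lit 3766733895) (nat_lit 532) (nat_lit 11509660943) (nat_lit 608) (nat_lit 192460557) (nat_lit 214) (nat_lit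 5) (nat_lit 221) (nat_lit 5) (nat_lit 222) (nat_lit 5) (nat_lit 617) (nat_lit 548) (nat_lit 395))))))) (XT.nd (nat_lit 702) (nat_lit 2660) (nat_lit 0) (XT.nd (nat_lit 312) (nat_lit 1444) (nat_lit 0) (XT.nd (nat_lit 156) (nat_lit 532) (nat_lit 0) (XT.nd (nat_lit 78) (nat_lit 456) (nat_lit 0) (XT.lf (nat_lit 0) (nat_lit 3077002017) (nat_lit 608) (nat_lit 2532977965) (nat_lit 76) (nat_lit 10039957344) (nat_lit 213) (nat_lit 5) (nat_lit 221) (nat_lit 5) (nat_lit 214) (nat_lit 5) (nat_lit 618) (nat_lit 548) (nat_lit 394)) (XT.lf (nat_lit 0) (nat_lit 6445598684) (nat_lit 532) (nat_lit 8943868270) (nat_lit 76) (nat_lit 444423248) (nat_lit 207) (nat_lit 5) (nat_lit 214) (nat_lit 5) (nat_lit 208) (nat_lit 5) (nat_lit 619) (nat_lit 548) (nat_lit 393))) (XT.nd (nat_lit 78) (nat_lit 0) (nat_lit 0) (XT.lf (nat_lit 0) (nat_lit 467737269) (nat_lit 532) (nat_lit 9459864420) (nat_lit 608) (nat_lit 6093000918) (nat_lit 200) (nat_lit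 5) (nat_lit 207) (nat_lit 5) (nat_lit 208) (nat_lit 5) (nat_lit 620) (nat_lit 548) (nat_lit 392)) (XT.lf (nat_lit 0) (nat_lit 10173147874) (nat_lit 532) (nat_lit 3354969304) (nat_lit 608) (nat_lit 2681955773) (nat_lit 200) (nat_lit 5) (nat_lit 207) (nat_lit 5) (nat_lit 208) (nat_lit 5) (nat_lit 621) (nat_lit 548) (nat_lit 391)))) (XT.nd (nat_lit 156) (nat_lit 912) (nat_lit 0) (XT.nd (nat_lit 78) (nat_lit 0) (nat_lit 0) (XT.lf (nat_lit 0) (nat_lit 818668237) (nat_lit 532) (nat_lit 12724638976) (nat_lit 76) (nat_lit 2859286757) (nat_lit 193) (nat_lit 5) (nat_lit 200) (nat_lit 5) (nat_lit 194) (nat_lit 5) (nat_lit 622) (nat_lit 548) (nat_lit 390)) (XT.lf (nat_lit 0) (nat_lit 4405510285) (nat_lit 532) (nat_lit 2985029470) (nat_lit 76) (nat_lit 9207029831) (nat_lit 193) (nat_lit 5) (nat_lit 200) (nat_lit 5) (nat_lit 194) (nat_lit 5) (nat_lit 623) (nat_lit 548) (nat_lit 389))) (XT.nd (nat_lit 78) (nat_lit 456) (nat_lit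 0) (XT.lf (nat_lit 0) (nat_lit 7026237158) (nat_lit 456) (nat_lit 1072770819) (nat_lit 532) (nat_lit 8696739416) (nat_lit 187) (nat_lit 5) (nat_lit 193) (nat_lit 5) (nat_lit 194) (nat_lit 5) (nat_lit 624) (nat_lit 548) (nat_lit 388)) (XT.nd (nat_lit 78) (nat_lit 0) (nat_lit 0) (XT.lf (nat_lit 0) (nat_lit 233389911) (nat_lit 456) (nat_lit 11678920388) (nat_lit 532) (nat_lit 5084660794) (nat_lit 181) (nat_lit 5) (nat_lit 187) (nat_lit 5) (nat_lit 188) (nat_lit 5) (nat_lit 625) (nat_lit 548) (nat_lit 387)) (XT.lf (nat_lit 0) (nat_lit 10546310751) (nat_lit 456) (nat_lit 5317674453) (nat_lit 532) (nat_lit 1336992944) (nat_lit 181) (nat_lit 5) (nat_lit 187) (nat_lit 5) (nat_lit 188) (nat_lit 5) (nat_lit 626) (nat_lit 548) (nat_lit 386)))))) (XT.nd (nat_lit 390) (nat_lit 1216) (nat_lit 0) (XT.nd (nat_lit 156) (nat_lit 912) (nat_lit 0) (XT.nd (nat_lit 78) (nat_lit 0) (nat_lit 0) (XT.lf (nat_lit 0) (nat_lit 2474341485)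 (nat_lit 532) (nat_lit 13742952848) (nat_lit 76) (nat_lit 1191022964) (nat_lit 174) (nat_lit 5) (nat_lit 181) (nat_lit 5) (nat_lit 175) (nat_lit 5) (nat_lit 627) (nat_lit 548) (nat_lit 385)) (XT.lf (nat_lit 0) (nat_lit 6413887764) (nat_lit 532) (nat_lit 3396456126) (nat_lit 76) (nat_lit 7807885790) (nat_lit 174) (nat_lit 5) (nat_lit 181) (nat_lit 5) (nat_lit 175) (nat_lit 5) (nat_lit 628) (nat_lit 548) (nat_lit 384))) (XT.nd (nat_lit 78) (nat_lit 532) (nat_lit 0) (XT.lf (nat_lit 0) (nat_lit 7237000440) (nat_lit 380) (nat_lit 3232116169) (nat_lit 456) (nat_lit 7362486805) (nat_lit 169) (nat_lit 5) (nat_lit 174) (nat_lit 5) (nat_lit 175) (nat_lit 5) (nat_lit 629) (nat_lit 548) (nat_lit 383)) (XT.nd (nat_lit 78) (nat_lit 76) (nat_lit 0) (XT.lf (nat_lit 0) (nat_lit 43257828) (nat_lit 456) (nat_lit 14597970456) (nat_lit 532) (nat_lit 3407301689) (nat_lit 163) (nat_lit 5) (nat_lit 169) (nat_lit 5) (nat_lit 170) (nat_lit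 5) (nat_lit 630) (nat_lit 548) (nat_lit 382)) (XT.lf (nat_lit 0) (nat_lit 701743565) (nat_lit 532) (nat_lit 7271822732) (nat_lit 76) (nat_lit 10294488642) (nat_lit 162) (nat_lit 5) (nat_lit 169) (nat_lit 5) (nat_lit 163) (nat_lit 5) (nat_lit 631) (nat_lit 548) (nat_lit 381))))) (XT.nd (nat_lit 156) (nat_lit 836) (nat_lit 0) (XT.nd (nat_lit 78) (nat_lit 0) (nat_lit 0) (XT.lf (nat_lit 0) (nat_lit 3687393883) (nat_lit 380) (nat_lit 1174140188) (nat_lit 456) (nat_lit 13629702988) (nat_lit 157) (nat_lit 5) (nat_lit 162) (nat_lit 5) (nat_lit 163) (nat_lit 5) (nat_lit 632) (nat_lit 548) (nat_lit 380)) (XT.lf (nat_lit 0) (nat_lit 9181317224) (nat_lit 456) (nat_lit 3806033738) (nat_lit 76) (nat_lit 5729996768) (nat_lit 157) (nat_lit 5) (nat_lit 163) (nat_lit 5) (nat_lit 158) (nat_lit 5) (nat_lit 633) (nat_lit 548) (nat_lit 379))) (XT.nd (nat_lit 78) (nat_lit 456) (nat_lit 0) (XT.lf (nat_lit 0) (nat_lit 7487683943) (nat_lit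 380) (nat_lit 6146663556) (nat_lit 456) (nat_lit 5312696918) (nat_lit 152) (nat_lit 5) (nat_lit 157) (nat_lit 5) (nat_lit 158) (nat_lit 5) (nat_lit 634) (nat_lit 548) (nat_lit 378)) (XT.nd (nat_lit 78) (nat_lit 456) (nat_lit 0) (XT.lf (nat_lit 0) (nat_lit 18198064699) (nat_lit 456) (nat_lit 142056922) (nat_lit 76) (nat_lit 840781703) (nat_lit 152) (nat_lit 5) (nat_lit 158) (nat_lit 5) (nat_lit 153) (nat_lit 5) (nat_lit 635) (nat_lit 548) (nat_lit 377)) (XT.lf (nat_lit 0) (nat_lit 3495349417) (nat_lit 456) (nat_lit 7942889470) (nat_lit 76) (nat_lit 7978620135) (nat_lit 146) (nat_lit 5) (nat_lit 152) (nat_lit 5) (nat_lit 147) (nat_lit 5) (nat_lit 636) (nat_lit 548) (nat_lit 376))))))))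
noncomputable def xc142 : XT := (XT.nd (nat_lit 75504) (nat_lit 0) (nat_lit 20672) (XT.nd (nat_lit 74724) (nat_lit 0) (nat_lit 30552) (XT.nd (nat_lit 74334) (nat_lit 0) (nat_lit 31920) (XT.nd (nat_lit 156) (nat_lit 380) (nat_lit 0) (XT.nd (nat_lit 78) (nat_lit 0) (nat_lit 0) (XT.lf (nat_lit 0) (nat_lit 3694382681) (nat_lit 380) (nat_lit 4371253340) (nat_lit 456) (nat_lit 11591454751) (nat_lit 141) (nat_lit 5) (nat_lit 146) (nat_lit 5) (nat_lit 147) (nat_lit 5) (nat_lit 637) (nat_lit 548) (nat_lit 375)) (XT.lf (nat_lit 0) (nat_lit 12790196158) (nat_lit 456) (nat_lit 4262105792) (nat_lit 76) (nat_lit 2848568601) (nat_lit 141) (nat_lit 5) (nat_lit 147) (nat_lit 5) (nat_lit 142) (nat_lit 5) (nat_lit 638) (nat_lit 548) (nat_lit 374))) (XT.nd (nat_lit 78) (nat_lit 76) (nat_lit 0) (XT.lf (nat_lit 0) (nat_lit 7730893334) (nat_lit 304) (nat_lit 9948471156) (nat_lit 380) (nat_lit 2468759832) (nat_lit 137) (nat_lit 5) (nat_lit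 141) (nat_lit 5) (nat_lit 142) (nat_lit 5) (nat_lit 639) (nat_lit 548) (nat_lit 373)) (XT.lf (nat_lit 0) (nat_lit 2256065090) (nat_lit 380) (nat_lit 407212874) (nat_lit 76) (nat_lit 17736355848) (nat_lit 136) (nat_lit 5) (nat_lit 141) (nat_lit 5) (nat_lit 137) (nat_lit 5) (nat_lit 640) (nat_lit 548) (nat_lit 372)))) (XT.nd (nat_lit 156) (nat_lit 1368) (nat_lit 0) (XT.nd (nat_lit 78) (nat_lit 0) (nat_lit 0) (XT.lf (nat_lit 0) (nat_lit 2205391319) (nat_lit 1444) (nat_lit 909507260) (nat_lit 1444) (nat_lit 909507260) (nat_lit 574) (nat_lit 3) (nat_lit 593) (nat_lit 3) (nat_lit 593) (nat_lit 5) (nat_lit 549) (nat_lit 549) (nat_lit 462)) (XT.lf (nat_lit 76) (nat_lit 2161803897) (nat_lit 0) (nat_lit 3490690438) (nat_lit 1444) (nat_lit 2452637402) (nat_lit 575) (nat_lit 5) (nat_lit 574) (nat_lit 3) (nat_lit 593) (nat_lit 5) (nat_lit 550) (nat_lit 549) (nat_lit 461))) (XT.nd (nat_lit 78) (nat_lit 1368) (nat_lit 0) (XT.lf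 (nat_lit 76) (nat_lit 6230849457) (nat_lit 0) (nat_lit 669247754) (nat_lit 1444) (nat_lit 1262865512) (nat_lit 575) (nat_lit 5) (nat_lit 574) (nat_lit 3) (nat_lit 593) (nat_lit 5) (nat_lit 551) (nat_lit 549) (nat_lit 460)) (XT.nd (nat_lit 78) (nat_lit 1444) (nat_lit 0) (XT.lf (nat_lit 76) (nat_lit 2156828666) (nat_lit 0) (nat_lit 6013724207) (nat_lit 1444) (nat_lit 51444996) (nat_lit 576) (nat_lit 5) (nat_lit 575) (nat_lit 5) (nat_lit 594) (nat_lit 5) (nat_lit 552) (nat_lit 549) (nat_lit 459)) (XT.lf (nat_lit 0) (nat_lit 1156000783) (nat_lit 1444) (nat_lit 1957163453) (nat_lit 1520) (nat_lit 5169154489) (nat_lit 556) (nat_lit 5) (nat_lit 575) (nat_lit 5) (nat_lit 576) (nat_lit 5) (nat_lit 553) (nat_lit 549) (nat_lit 458)))))) (XT.nd (nat_lit 390) (nat_lit 1368) (nat_lit 0) (XT.nd (nat_lit 156) (nat_lit 0) (nat_lit 76) (XT.nd (nat_lit 78) (nat_lit 0) (nat_lit 76) (XT.lf (nat_lit 76) (nat_lit 2245700579) (nat_lit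 0) (nat_lit 126222992) (nat_lit 1520) (nat_lit 5972220521) (nat_lit 557) (nat_lit 5) (nat_lit 556) (nat_lit 5) (nat_lit 576) (nat_lit 5) (nat_lit 554) (nat_lit 549) (nat_lit 457)) (XT.lf (nat_lit 0) (nat_lit 3615339484) (nat_lit 1444) (nat_lit 1883815921) (nat_lit 1520) (nat_lit 2907992199) (nat_lit 557) (nat_lit 5) (nat_lit 576) (nat_lit 5) (nat_lit 577) (nat_lit 5) (nat_lit 555) (nat_lit 549) (nat_lit 456))) (XT.nd (nat_lit 78) (nat_lit 0) (nat_lit 76) (XT.lf (nat_lit 76) (nat_lit 2429488483) (nat_lit 0) (nat_lit 2442306319) (nat_lit 1520) (nat_lit 3599857994) (nat_lit 558) (nat_lit 5) (nat_lit 557) (nat_lit 5) (nat_lit 577) (nat_lit 5) (nat_lit 556) (nat_lit 549) (nat_lit 455)) (XT.nd (nat_lit 78) (nat_lit 0) (nat_lit 0) (XT.lf (nat_lit 0) (nat_lit 6142577272) (nat_lit 1444) (nat_lit 1704243928) (nat_lit 1520) (nat_lit 690847862) (nat_lit 558) (nat_lit 5) (nat_lit 577) (nat_lit 5) (nat_lit 578) (nat_lit 5) (nat_lit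 557) (nat_lit 549) (nat_lit 454)) (XT.lf (nat_lit 76) (nat_lit 2723139245) (nat_lit 0) (nat_lit 4722124090) (nat_lit 1520) (nat_lit 1159617395) (nat_lit 559) (nat_lit 5) (nat_lit 558) (nat_lit 5) (nat_lit 578) (nat_lit 5) (nat_lit 558) (nat_lit 549) (nat_lit 453))))) (XT.nd (nat_lit 156) (nat_lit 0) (nat_lit 76) (XT.nd (nat_lit 78) (nat_lit 0) (nat_lit 76) (XT.lf (nat_lit 0) (nat_lit 83637887) (nat_lit 1520) (nat_lit 1428855213) (nat_lit 1596) (nat_lit 7161247314) (nat_lit 538) (nat_lit 5) (nat_lit 558) (nat_lit 5) (nat_lit 559) (nat_lit 5) (nat_lit 559) (nat_lit 549) (nat_lit 452)) (XT.lf (nat_lit 0) (nat_lit 1341660649) (nat_lit 1520) (nat_lit 5625937957) (nat_lit 1596) (nat_lit 1776121345) (nat_lit 539) (nat_lit 5) (nat_lit 559) (nat_lit 5) (nat_lit 560) (nat_lit 5) (nat_lit 560) (nat_lit 549) (nat_lit 451))) (XT.nd (nat_lit 78) (nat_lit 0) (nat_lit 0) (XT.lf (nat_lit 0) (nat_lit 2618397470) (nat_lit 1520) (nat_lit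 1067501607) (nat_lit 1596) (nat_lit 5129333399) (nat_lit 539) (nat_lit 5) (nat_lit 559) (nat_lit 5) (nat_lit 560) (nat_lit 5) (nat_lit 561) (nat_lit 549) (nat_lit 450)) (XT.nd (nat_lit 78) (nat_lit 0) (nat_lit 76) (XT.lf (nat_lit 76) (nat_lit 3612586387) (nat_lit 0) (nat_lit 305935226) (nat_lit 1596) (nat_lit 4969700965) (nat_lit 540) (nat_lit 5) (nat_lit 539) (nat_lit 5) (nat_lit 560) (nat_lit 5) (nat_lit 562) (nat_lit 549) (nat_lit 449)) (XT.lf (nat_lit 0) (nat_lit 5247101714) (nat_lit 1520) (nat_lit 599576601) (nat_lit 1596) (nat_lit 3115949392) (nat_lit 540) (nat_lit 5) (nat_lit 560) (nat_lit 5) (nat_lit 561) (nat_lit 5) (nat_lit 563) (nat_lit 549) (nat_lit 448))))))) (XT.nd (nat_lit 702) (nat_lit 8512) (nat_lit 0) (XT.nd (nat_lit 312) (nat_lit 0) (nat_lit 76) (XT.nd (nat_lit 156) (nat_lit 1520) (nat_lit 0) (XT.nd (nat_lit 78) (nat_lit 0) (nat_lit 76) (XT.lf (nat_lit 76) (nat_lit 4206133670) (nat_lit 0) (nat_lit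 2400793054) (nat_lit 1596) (nat_lit 2431504957) (nat_lit 541) (nat_lit 5) (nat_lit 540) (nat_lit 5) (nat_lit 561) (nat_lit 5) (nat_lit 564) (nat_lit 549) (nat_lit 447)) (XT.lf (nat_lit 0) (nat_lit 7980991334) (nat_lit 1520) (nat_lit 24279859) (nat_lit 1596) (nat_lit 1110743807) (nat_lit 541) (nat_lit 5) (nat_lit 561) (nat_lit 5) (nat_lit 562) (nat_lit 5) (nat_lit 565) (nat_lit 549) (nat_lit 446))) (XT.nd (nat_lit 78) (nat_lit 0) (nat_lit 0) (XT.lf (nat_lit 0) (nat_lit 209106940) (nat_lit 1596) (nat_lit 4284729857) (nat_lit 1672) (nat_lit 4700809276) (nat_lit 520) (nat_lit 5) (nat_lit 541) (nat_lit 5) (nat_lit 542) (nat_lit 5) (nat_lit 566) (nat_lit 549) (nat_lit 445)) (XT.lf (nat_lit 76) (nat_lit 652014917) (nat_lit 0) (nat_lit 893750967) (nat_lit 1672) (nat_lit 7729320848) (nat_lit 521) (nat_lit 5) (nat_lit 520) (nat_lit 5) (nat_lit 542) (nat_lit 5) (nat_lit 567) (nat_lit 549) (nat_lit 444)))) (XT.nd (nat_lit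 156) (nat_lit 0) (nat_lit 76) (XT.nd (nat_lit 78) (nat_lit 0) (nat_lit 0) (XT.lf (nat_lit 0) (nat_lit 2932961907) (nat_lit 1596) (nat_lit 3646906082) (nat_lit 1672) (nat_lit 2776795950) (nat_lit 521) (nat_lit 5) (nat_lit 542) (nat_lit 5) (nat_lit 543) (nat_lit 5) (nat_lit 568) (nat_lit 549) (nat_lit 443)) (XT.lf (nat_lit 76) (nat_lit 1424198644) (nat_lit 0) (nat_lit 2916145285) (nat_lit 1672) (nat_lit 5099683656) (nat_lit 522) (nat_lit 5) (nat_lit 521) (nat_lit 5) (nat_lit 543) (nat_lit 5) (nat_lit 569) (nat_lit 549) (nat_lit 442))) (XT.nd (nat_lit 78) (nat_lit 0) (nat_lit 0) (XT.lf (nat_lit 0) (nat_lit 5783481392) (nat_lit 1596) (nat_lit 2901615321) (nat_lit 1672) (nat_lit 839813301) (nat_lit 522) (nat_lit 5) (nat_lit 543) (nat_lit 5) (nat_lit 544) (nat_lit 5) (nat_lit 570) (nat_lit 549) (nat_lit 441)) (XT.nd (nat_lit 78) (nat_lit 0) (nat_lit 0) (XT.lf (nat_lit 76) (nat_lit 2308478897) (nat_lit 0) (nat_lit 4959385018)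 (nat_lit 1672) (nat_lit 2343382123) (nat_lit 523) (nat_lit 5) (nat_lit 522) (nat_lit 5) (nat_lit 544) (nat_lit 5) (nat_lit 571) (nat_lit 549) (nat_lit 440)) (XT.lf (nat_lit 76) (nat_lit 7644853850) (nat_lit 0) (nat_lit 1134951266) (nat_lit 1672) (nat_lit 919549767) (nat_lit 523) (nat_lit 5) (nat_lit 522) (nat_lit 5) (nat_lit 544) (nat_lit 5) (nat_lit 572) (nat_lit 549) (nat_lit 439)))))) (XT.nd (nat_lit 390) (nat_lit 3648) (nat_lit 0) (XT.nd (nat_lit 156) (nat_lit 3420) (nat_lit 0) (XT.nd (nat_lit 78) (nat_lit 0) (nat_lit 0) (XT.lf (nat_lit 0) (nat_lit 544168786) (nat_lit 1672) (nat_lit 6485672730) (nat_lit 76) (nat_lit 2758950659) (nat_lit 501) (nat_lit 5) (nat_lit 523) (nat_lit 5) (nat_lit 502) (nat_lit 5) (nat_lit 573) (nat_lit 549) (nat_lit 438)) (XT.lf (nat_lit 0) (nat_lit 2025266897) (nat_lit 1672) (nat_lit 1115235742) (nat_lit 76) (nat_lit 6739388970) (nat_lit 501) (nat_lit 5) (nat_lit 523) (nat_lit 5) (nat_lit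 502) (nat_lit 5) (nat_lit 574) (nat_lit 549) (nat_lit 437))) (XT.nd (nat_lit 78) (nat_lit 1748) (nat_lit 0) (XT.lf (nat_lit 0) (nat_lit 3549577160) (nat_lit 1748) (nat_lit 5575069795) (nat_lit 76) (nat_lit 847897525) (nat_lit 479) (nat_lit 5) (nat_lit 502) (nat_lit 5) (nat_lit 480) (nat_lit 5) (nat_lit 575) (nat_lit 549) (nat_lit 436)) (XT.nd (nat_lit 78) (nat_lit 1748) (nat_lit 0) (XT.lf (nat_lit 0) (nat_lit 5112442050) (nat_lit 1748) (nat_lit 69701992) (nat_lit 76) (nat_lit 4884748190) (nat_lit 479) (nat_lit 5) (nat_lit 502) (nat_lit 5) (nat_lit 480) (nat_lit 5) (nat_lit 576) (nat_lit 549) (nat_lit 435)) (XT.lf (nat_lit 0) (nat_lit 5602078470) (nat_lit 1748) (nat_lit 1120992499) (nat_lit 1824) (nat_lit 3439728962) (nat_lit 456) (nat_lit 5) (nat_lit 479) (nat_lit 5) (nat_lit 480) (nat_lit 5) (nat_lit 577) (nat_lit 549) (nat_lit 434))))) (XT.nd (nat_lit 156) (nat_lit 1976) (nat_lit 0) (XT.nd (nat_lit 78) (nat_lit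 0) (nat_lit 0) (XT.lf (nat_lit 0) (nat_lit 1105030428) (nat_lit 1672) (nat_lit 7268573845) (nat_lit 1748) (nat_lit 1886870741) (nat_lit 434) (nat_lit 5) (nat_lit 456) (nat_lit 5) (nat_lit 457) (nat_lit 5) (nat_lit 578) (nat_lit 549) (nat_lit 433)) (XT.lf (nat_lit 0) (nat_lit 6921046317) (nat_lit 1672) (nat_lit 3154782366) (nat_lit 1748) (nat_lit 283904313) (nat_lit 434) (nat_lit 5) (nat_lit 456) (nat_lit 5) (nat_lit 457) (nat_lit 5) (nat_lit 579) (nat_lit 549) (nat_lit 432))) (XT.nd (nat_lit 78) (nat_lit 912) (nat_lit 0) (XT.lf (nat_lit 0) (nat_lit 1336853791) (nat_lit 1064) (nat_lit 8069991100) (nat_lit 76) (nat_lit 1053889638) (nat_lit 420) (nat_lit 5) (nat_lit 434) (nat_lit 5) (nat_lit 421) (nat_lit 5) (nat_lit 580) (nat_lit 549) (nat_lit 431)) (XT.nd (nat_lit 78) (nat_lit 912) (nat_lit 0) (XT.lf (nat_lit 0) (nat_lit 3011573558) (nat_lit 1064) (nat_lit 2220387516) (nat_lit 76) (nat_lit 5331253359) (nat_lit 420)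 (nat_lit 5) (nat_lit 434) (nat_lit 5) (nat_lit 421) (nat_lit 5) (nat_lit 581) (nat_lit 549) (nat_lit 430)) (XT.lf (nat_lit 0) (nat_lit 3778566881) (nat_lit 912) (nat_lit 947345579) (nat_lit 988) (nat_lit 5941711759) (nat_lit 408) (nat_lit 5) (nat_lit 420) (nat_lit 5) (nat_lit 421) (nat_lit 5) (nat_lit 582) (nat_lit 549) (nat_lit 429))))))))
noncomputable def xc143 : XT := (XT.nd (nat_lit 1482) (nat_lit 6536) (nat_lit 0) (XT.nd (nat_lit 702) (nat_lit 4484) (nat_lit 0) (XT.nd (nat_lit 312) (nat_lit 2432) (nat_lit 0) (XT.nd (nat_lit 156) (nat_lit 912) (nat_lit 0) (XT.nd (nat_lit 78) (nat_lit 912) (nat_lit 0) (XT.lf (nat_lit 0) (nat_lit 6493609694) (nat_lit 988) (nat_lit 886006267) (nat_lit 76) (nat_lit 3394127531) (nat_lit 408) (nat_lit 5) (nat_lit 421) (nat_lit 5) (nat_lit 409) (nat_lit 5) (nat_lit 583) (nat_lit 549) (nat_lit 428)) (XT.lf (nat_lit 0) (nat_lit 5283004315) (nat_lit 912) (nat_lit 3036435809) (nat_lit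 988) (nat_lit 2562092109) (nat_lit 396) (nat_lit 5) (nat_lit 408) (nat_lit 5) (nat_lit 409) (nat_lit 5) (nat_lit 584) (nat_lit 549) (nat_lit 427))) (XT.nd (nat_lit 78) (nat_lit 76) (nat_lit 0) (XT.lf (nat_lit 0) (nat_lit 577169396) (nat_lit 836) (nat_lit 9605845112) (nat_lit 912) (nat_lit 808440312) (nat_lit 385) (nat_lit 5) (nat_lit 396) (nat_lit 5) (nat_lit 397) (nat_lit 5) (nat_lit 585) (nat_lit 549) (nat_lit 426)) (XT.lf (nat_lit 0) (nat_lit 1007916405) (nat_lit 912) (nat_lit 4194756657) (nat_lit 76) (nat_lit 5899968251) (nat_lit 384) (nat_lit 5) (nat_lit 396) (nat_lit 5) (nat_lit 385) (nat_lit 5) (nat_lit 586) (nat_lit 549) (nat_lit 425)))) (XT.nd (nat_lit 156) (nat_lit 1596) (nat_lit 0) (XT.nd (nat_lit 78) (nat_lit 0) (nat_lit 0) (XT.lf (nat_lit 0) (nat_lit 2154933817) (nat_lit 836) (nat_lit 691746503) (nat_lit 912) (nat_lit 8369328702) (nat_lit 373) (nat_lit 5) (nat_lit 384) (nat_lit 5) (nat_lit 385) (nat_lit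 5) (nat_lit 587) (nat_lit 549) (nat_lit 424)) (XT.lf (nat_lit 0) (nat_lit 4759064763) (nat_lit 912) (nat_lit 2685534215) (nat_lit 76) (nat_lit 3886310622) (nat_lit 373) (nat_lit 5) (nat_lit 385) (nat_lit 5) (nat_lit 374) (nat_lit 5) (nat_lit 588) (nat_lit 549) (nat_lit 423))) (XT.nd (nat_lit 78) (nat_lit 836) (nat_lit 0) (XT.lf (nat_lit 0) (nat_lit 3846359228) (nat_lit 760) (nat_lit 2876350113) (nat_lit 836) (nat_lit 4725140968) (nat_lit 363) (nat_lit 5) (nat_lit 373) (nat_lit 5) (nat_lit 374) (nat_lit 5) (nat_lit 589) (nat_lit 549) (nat_lit 422)) (XT.nd (nat_lit 78) (nat_lit 836) (nat_lit 0) (XT.lf (nat_lit 0) (nat_lit 8739014631) (nat_lit 836) (nat_lit 1050409261) (nat_lit 76) (nat_lit 1777440510) (nat_lit 363) (nat_lit 5) (nat_lit 374) (nat_lit 5) (nat_lit 364) (nat_lit 5) (nat_lit 590) (nat_lit 549) (nat_lit 421)) (XT.lf (nat_lit 0) (nat_lit 5670111978) (nat_lit 836) (nat_lit 5165386059) (nat_lit 912) (nat_lit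 851965976) (nat_lit 352) (nat_lit 5) (nat_lit 363) (nat_lit 5) (nat_lit 364) (nat_lit 5) (nat_lit 591) (nat_lit 549) (nat_lit 420)))))) (XT.nd (nat_lit 390) (nat_lit 2204) (nat_lit 0) (XT.nd (nat_lit 156) (nat_lit 1444) (nat_lit 0) (XT.nd (nat_lit 78) (nat_lit 0) (nat_lit 0) (XT.lf (nat_lit 0) (nat_lit 713706924) (nat_lit 760) (nat_lit 430286517) (nat_lit 836) (nat_lit 10666416957) (nat_lit 341) (nat_lit 5) (nat_lit 351) (nat_lit 5) (nat_lit 352) (nat_lit 5) (nat_lit 592) (nat_lit 549) (nat_lit 419)) (XT.lf (nat_lit 0) (nat_lit 3221968455) (nat_lit 836) (nat_lit 4325725836) (nat_lit 76) (nat_lit 4386940852) (nat_lit 341) (nat_lit 5) (nat_lit 352) (nat_lit 5) (nat_lit 342) (nat_lit 5) (nat_lit 593) (nat_lit 549) (nat_lit 418))) (XT.nd (nat_lit 78) (nat_lit 684) (nat_lit 0) (XT.lf (nat_lit 0) (nat_lit 2594995383) (nat_lit 760) (nat_lit 2750795779) (nat_lit 836) (nat_lit 6715469563) (nat_lit 331) (nat_lit 5) (nat_lit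 341) (nat_lit 5) (nat_lit 342) (nat_lit 5) (nat_lit 594) (nat_lit 549) (nat_lit 417)) (XT.nd (nat_lit 78) (nat_lit 684) (nat_lit 0) (XT.lf (nat_lit 0) (nat_lit 7539991642) (nat_lit 836) (nat_lit 2508216407) (nat_lit 76) (nat_lit 2141654806) (nat_lit 331) (nat_lit 5) (nat_lit 342) (nat_lit 5) (nat_lit 332) (nat_lit 5) (nat_lit 595) (nat_lit 549) (nat_lit 416)) (XT.lf (nat_lit 0) (nat_lit 4614585930) (nat_lit 684) (nat_lit 5196740535) (nat_lit 760) (nat_lit 2509047580) (nat_lit 322) (nat_lit 5) (nat_lit 331) (nat_lit 5) (nat_lit 332) (nat_lit 5) (nat_lit 596) (nat_lit 549) (nat_lit 415))))) (XT.nd (nat_lit 156) (nat_lit 1368) (nat_lit 0) (XT.nd (nat_lit 78) (nat_lit 836) (nat_lit 0) (XT.lf (nat_lit 0) (nat_lit 11897242284) (nat_lit 684) (nat_lit 232934258) (nat_lit 760) (nat_lit 323279128) (nat_lit 322) (nat_lit 5) (nat_lit 331) (nat_lit 5) (nat_lit 332) (nat_lit 5) (nat_lit 597) (nat_lit 549) (nat_lit 414)) (XT.lf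 (nat_lit 0) (nat_lit 1942503603) (nat_lit 836) (nat_lit 5823439661) (nat_lit 76) (nat_lit 4821784060) (nat_lit 311) (nat_lit 5) (nat_lit 322) (nat_lit 5) (nat_lit 312) (nat_lit 5) (nat_lit 598) (nat_lit 549) (nat_lit 413))) (XT.nd (nat_lit 78) (nat_lit 684) (nat_lit 0) (XT.lf (nat_lit 0) (nat_lit 1513632543) (nat_lit 684) (nat_lit 2736386806) (nat_lit 760) (nat_lit 8474609273) (nat_lit 302) (nat_lit 5) (nat_lit 311) (nat_lit 5) (nat_lit 312) (nat_lit 5) (nat_lit 599) (nat_lit 549) (nat_lit 412)) (XT.nd (nat_lit 78) (nat_lit 684) (nat_lit 0) (XT.lf (nat_lit 0) (nat_lit 6644338819) (nat_lit 760) (nat_lit 3819703486) (nat_lit 76) (nat_lit 2399414405) (nat_lit 302) (nat_lit 5) (nat_lit 312) (nat_lit 5) (nat_lit 303) (nat_lit 5) (nat_lit 600) (nat_lit 549) (nat_lit 411)) (XT.lf (nat_lit 0) (nat_lit 3733791087) (nat_lit 684) (nat_lit 5381170923) (nat_lit 760) (nat_lit 3889532799) (nat_lit 293) (nat_lit 5) (nat_lit 302)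 (nat_lit 5) (nat_lit 303) (nat_lit 5) (nat_lit 601) (nat_lit 549) (nat_lit 410))))))) (XT.nd (nat_lit 702) (nat_lit 3344) (nat_lit 0) (XT.nd (nat_lit 312) (nat_lit 1824) (nat_lit 0) (XT.nd (nat_lit 156) (nat_lit 684) (nat_lit 0) (XT.nd (nat_lit 78) (nat_lit 684) (nat_lit 0) (XT.lf (nat_lit 0) (nat_lit 11473769556) (nat_lit 684) (nat_lit 173080872) (nat_lit 760) (nat_lit 1501267949) (nat_lit 293) (nat_lit 5) (nat_lit 302) (nat_lit 5) (nat_lit 303) (nat_lit 5) (nat_lit 602) (nat_lit 549) (nat_lit 409)) (XT.lf (nat_lit 0) (nat_lit 982369325) (nat_lit 684) (nat_lit 7195561681) (nat_lit 76) (nat_lit 5115366386) (nat_lit 284) (nat_lit 5) (nat_lit 293) (nat_lit 5) (nat_lit 285) (nat_lit 5) (nat_lit 603) (nat_lit 549) (nat_lit 408))) (XT.nd (nat_lit 78) (nat_lit 0) (nat_lit 0) (XT.lf (nat_lit 0) (nat_lit 586967308) (nat_lit 684) (nat_lit 2911440420) (nat_lit 760) (nat_lit 9942718845) (nat_lit 275) (nat_lit 5) (nat_lit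 284) (nat_lit 5) (nat_lit 285) (nat_lit 5) (nat_lit 604) (nat_lit 549) (nat_lit 407)) (XT.lf (nat_lit 0) (nat_lit 6116030279) (nat_lit 760) (nat_lit 5001067783) (nat_lit 76) (nat_lit 2473790635) (nat_lit 275) (nat_lit 5) (nat_lit 285) (nat_lit 5) (nat_lit 276) (nat_lit 5) (nat_lit 605) (nat_lit 549) (nat_lit 406)))) (XT.nd (nat_lit 156) (nat_lit 1216) (nat_lit 0) (XT.nd (nat_lit 78) (nat_lit 0) (nat_lit 0) (XT.lf (nat_lit 0) (nat_lit 3013134442) (nat_lit 608) (nat_lit 5798659463) (nat_lit 684) (nat_lit 4931337981) (nat_lit 267) (nat_lit 5) (nat_lit 275) (nat_lit 5) (nat_lit 276) (nat_lit 5) (nat_lit 606) (nat_lit 549) (nat_lit 405)) (XT.lf (nat_lit 0) (nat_lit 11239330175) (nat_lit 608) (nat_lit 342798302) (nat_lit 684) (nat_lit 2315879912) (nat_lit 267) (nat_lit 5) (nat_lit 275) (nat_lit 5) (nat_lit 276) (nat_lit 5) (nat_lit 607) (nat_lit 549) (nat_lit 404))) (XT.nd (nat_lit 78) (nat_lit 532) (nat_lit 0) (XT.lf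 (nat_lit 0) (nat_lit 405229748) (nat_lit 684) (nat_lit 8459923987) (nat_lit 76) (nat_lit 5189625347) (nat_lit 258) (nat_lit 5) (nat_lit 267) (nat_lit 5) (nat_lit 259) (nat_lit 5) (nat_lit 608) (nat_lit 549) (nat_lit 403)) (XT.nd (nat_lit 78) (nat_lit 532) (nat_lit 0) (XT.lf (nat_lit 0) (nat_lit 3157399921) (nat_lit 684) (nat_lit 198619637) (nat_lit 76) (nat_lit 10858207986) (nat_lit 258) (nat_lit 5) (nat_lit 267) (nat_lit 5) (nat_lit 259) (nat_lit 5) (nat_lit 609) (nat_lit 549) (nat_lit 402)) (XT.lf (nat_lit 0) (nat_lit 6021308277) (nat_lit 608) (nat_lit 6069766823) (nat_lit 76) (nat_lit 2284657425) (nat_lit 251) (nat_lit 5) (nat_lit 259) (nat_lit 5) (nat_lit 252) (nat_lit 5) (nat_lit 610) (nat_lit 549) (nat_lit 401)))))) (XT.nd (nat_lit 390) (nat_lit 1596) (nat_lit 0) (XT.nd (nat_lit 156) (nat_lit 1140) (nat_lit 0) (XT.nd (nat_lit 78) (nat_lit 0) (nat_lit 0) (XT.lf (nat_lit 0) (nat_lit 2436749248) (nat_lit 608)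 (nat_lit 6532888877) (nat_lit 684) (nat_lit 5570288030) (nat_lit 243) (nat_lit 5) (nat_lit 251) (nat_lit 5) (nat_lit 252) (nat_lit 5) (nat_lit 611) (nat_lit 549) (nat_lit 400)) (XT.lf (nat_lit 0) (nat_lit 11179908154) (nat_lit 608) (nat_lit 825650850) (nat_lit 684) (nat_lit 2701273553) (nat_lit 243) (nat_lit 5) (nat_lit 251) (nat_lit 5) (nat_lit 252) (nat_lit 5) (nat_lit 612) (nat_lit 549) (nat_lit 399))) (XT.nd (nat_lit 78) (nat_lit 532) (nat_lit 0) (XT.lf (nat_lit 0) (nat_lit 277102824) (nat_lit 608) (nat_lit 9636320521) (nat_lit 76) (nat_lit 4962527162) (nat_lit 235) (nat_lit 5) (nat_lit 243) (nat_lit 5) (nat_lit 236) (nat_lit 5) (nat_lit 613) (nat_lit 549) (nat_lit 398)) (XT.nd (nat_lit 78) (nat_lit 532) (nat_lit 0) (XT.lf (nat_lit 0) (nat_lit 3296362754) (nat_lit 608) (nat_lit 857894149) (nat_lit 76) (nat_lit 10893488393) (nat_lit 235) (nat_lit 5) (nat_lit 243) (nat_lit 5) (nat_lit 236) (nat_lit 5) (nat_lit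 614) (nat_lit 549) (nat_lit 397)) (XT.lf (nat_lit 0) (nat_lit 6429057855) (nat_lit 608) (nat_lit 7045571032) (nat_lit 76) (nat_lit 1747287376) (nat_lit 228) (nat_lit 5) (nat_lit 236) (nat_lit 5) (nat_lit 229) (nat_lit 5) (nat_lit 615) (nat_lit 549) (nat_lit 396))))) (XT.nd (nat_lit 156) (nat_lit 1064) (nat_lit 0) (XT.nd (nat_lit 78) (nat_lit 0) (nat_lit 0) (XT.lf (nat_lit 0) (nat_lit 1986422583) (nat_lit 532) (nat_lit 7672683647) (nat_lit 608) (nat_lit 5739771691) (nat_lit 221) (nat_lit 5) (nat_lit 228) (nat_lit 5) (nat_lit 229) (nat_lit 5) (nat_lit 616) (nat_lit 549) (nat_lit 395)) (XT.lf (nat_lit 0) (nat_lit 11279139949) (nat_lit 532) (nat_lit 1710516087) (nat_lit 608) (nat_lit 2589005998) (nat_lit 221) (nat_lit 5) (nat_lit 228) (nat_lit 5) (nat_lit 229) (nat_lit 5) (nat_lit 617) (nat_lit 549) (nat_lit 394))) (XT.nd (nat_lit 78) (nat_lit 456) (nat_lit 0) (XT.lf (nat_lit 0) (nat_lit 666685311) (nat_lit 608) (nat_lit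 10747650323) (nat_lit 76) (nat_lit 4346624166) (nat_lit 213) (nat_lit 5) (nat_lit 221) (nat_lit 5) (nat_lit 214) (nat_lit 5) (nat_lit 618) (nat_lit 549) (nat_lit 393)) (XT.nd (nat_lit 78) (nat_lit 456) (nat_lit 0) (XT.lf (nat_lit 0) (nat_lit 3982091510) (nat_lit 608) (nat_lit 1419677688) (nat_lit 76) (nat_lit 10544207862) (nat_lit 213) (nat_lit 5) (nat_lit 221) (nat_lit 5) (nat_lit 214) (nat_lit 5) (nat_lit 619) (nat_lit 549) (nat_lit 392)) (XT.lf (nat_lit 0) (nat_lit 7411116650) (nat_lit 532) (nat_lit 7951756040) (nat_lit 76) (nat_lit 770876897) (nat_lit 207) (nat_lit 5) (nat_lit 214) (nat_lit 5) (nat_lit 208) (nat_lit 5) (nat_lit 620) (nat_lit 549) (nat_lit 391))))))))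
noncomputable def xc144 : XT := (XT.nd (nat_lit 1404) (nat_lit 304) (nat_lit 0) (XT.nd (nat_lit 702) (nat_lit 2508) (nat_lit 0) (XT.nd (nat_lit 312) (nat_lit 1444) (nat_lit 0) (XT.nd (nat_lit 156) (nat_lit 532) (nat_lit 0) (XT.nd (nat_lit 78) (nat_lit 0) (nat_lit 0) (XT.lf (nat_lit 0) (nat_lit 1640377731) (nat_lit 532) (nat_lit 9313530769) (nat_lit 608) (nat_lit 5370466458) (nat_lit 200) (nat_lit 5) (nat_lit 207) (nat_lit 5) (nat_lit 208) (nat_lit 5) (nat_lit 621) (nat_lit 549) (nat_lit 390)) (XT.lf (nat_lit 0) (nat_lit 11517087024) (nat_lit 532) (nat_lit 3093116789) (nat_lit 608) (nat_lit 1907757165) (nat_lit 200) (nat_lit 5) (nat_lit 207) (nat_lit 5) (nat_lit 208) (nat_lit 5) (nat_lit 622) (nat_lit 549) (nat_lit 389))) (XT.nd (nat_lit 78) (nat_lit 0) (nat_lit 0) (XT.lf (nat_lit 0) (nat_lit 1645607401) (nat_lit 532) (nat_lit 11821222591) (nat_lit 76) (nat_lit 3247524814) (nat_lit 193) (nat_lit 5) (nat_lit 200)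 (nat_lit 5) (nat_lit 194) (nat_lit 5) (nat_lit 623) (nat_lit 549) (nat_lit 388)) (XT.lf (nat_lit 0) (nat_lit 5288292843) (nat_lit 532) (nat_lit 1909524997) (nat_lit 76) (nat_lit 9715731528) (nat_lit 193) (nat_lit 5) (nat_lit 200) (nat_lit 5) (nat_lit 194) (nat_lit 5) (nat_lit 624) (nat_lit 549) (nat_lit 387)))) (XT.nd (nat_lit 156) (nat_lit 532) (nat_lit 0) (XT.nd (nat_lit 78) (nat_lit 456) (nat_lit 0) (XT.lf (nat_lit 0) (nat_lit 8294498509) (nat_lit 456) (nat_lit 752902182) (nat_lit 532) (nat_lit 8068456767) (nat_lit 187) (nat_lit 5) (nat_lit 193) (nat_lit 5) (nat_lit 194) (nat_lit 5) (nat_lit 625) (nat_lit 549) (nat_lit 386)) (XT.lf (nat_lit 0) (nat_lit 1371874377) (nat_lit 456) (nat_lit 11559208968) (nat_lit 532) (nat_lit 4390141505) (nat_lit 181) (nat_lit 5) (nat_lit 187) (nat_lit 5) (nat_lit 188) (nat_lit 5) (nat_lit 626) (nat_lit 549) (nat_lit 385))) (XT.nd (nat_lit 78) (nat_lit 532) (nat_lit 0) (XT.lf (nat_lit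 0) (nat_lit 11868821935) (nat_lit 456) (nat_lit 5077665367) (nat_lit 532) (nat_lit 583132307) (nat_lit 181) (nat_lit 5) (nat_lit 187) (nat_lit 5) (nat_lit 188) (nat_lit 5) (nat_lit 627) (nat_lit 549) (nat_lit 384)) (XT.nd (nat_lit 78) (nat_lit 0) (nat_lit 0) (XT.lf (nat_lit 0) (nat_lit 3288607654) (nat_lit 532) (nat_lit 12890262776) (nat_lit 76) (nat_lit 1562246831) (nat_lit 174) (nat_lit 5) (nat_lit 181) (nat_lit 5) (nat_lit 175) (nat_lit 5) (nat_lit 628) (nat_lit 549) (nat_lit 383)) (XT.lf (nat_lit 0) (nat_lit 7291949186) (nat_lit 532) (nat_lit 2358944926) (nat_lit 76) (nat_lit 8304635082) (nat_lit 174) (nat_lit 5) (nat_lit 181) (nat_lit 5) (nat_lit 175) (nat_lit 5) (nat_lit 629) (nat_lit 549) (nat_lit 382)))))) (XT.nd (nat_lit 312) (nat_lit 1216) (nat_lit 0) (XT.nd (nat_lit 156) (nat_lit 456) (nat_lit 0) (XT.nd (nat_lit 78) (nat_lit 456) (nat_lit 0) (XT.lf (nat_lit 0) (nat_lit 8479908138) (nat_lit 380) (nat_lit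 2940802862) (nat_lit 456) (nat_lit 6752612195) (nat_lit 169) (nat_lit 5) (nat_lit 174) (nat_lit 5) (nat_lit 175) (nat_lit 5) (nat_lit 630) (nat_lit 549) (nat_lit 381)) (XT.lf (nat_lit 0) (nat_lit 1147584170) (nat_lit 456) (nat_lit 14523557747) (nat_lit 532) (nat_lit 2723550162) (nat_lit 163) (nat_lit 5) (nat_lit 169) (nat_lit 5) (nat_lit 170) (nat_lit 5) (nat_lit 631) (nat_lit 549) (nat_lit 380))) (XT.nd (nat_lit 78) (nat_lit 380) (nat_lit 0) (XT.lf (nat_lit 0) (nat_lit 1443264994) (nat_lit 532) (nat_lit 6325702460) (nat_lit 76) (nat_lit 10849834731) (nat_lit 162) (nat_lit 5) (nat_lit 169) (nat_lit 5) (nat_lit 163) (nat_lit 5) (nat_lit 632) (nat_lit 549) (nat_lit 379)) (XT.lf (nat_lit 0) (nat_lit 4845517192) (nat_lit 380) (nat_lit 833510160) (nat_lit 456) (nat_lit 13167566332) (nat_lit 157) (nat_lit 5) (nat_lit 162) (nat_lit 5) (nat_lit 163) (nat_lit 5) (nat_lit 633) (nat_lit 549) (nat_lit 378)))) (XT.nd (nat_lit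 156) (nat_lit 836) (nat_lit 0) (XT.nd (nat_lit 78) (nat_lit 380) (nat_lit 0) (XT.lf (nat_lit 0) (nat_lit 10073401080) (nat_lit 456) (nat_lit 2807174525) (nat_lit 76) (nat_lit 6196888299) (nat_lit 157) (nat_lit 5) (nat_lit 163) (nat_lit 5) (nat_lit 158) (nat_lit 5) (nat_lit 634) (nat_lit 549) (nat_lit 377)) (XT.lf (nat_lit 0) (nat_lit 8705345274) (nat_lit 380) (nat_lit 5903188928) (nat_lit 456) (nat_lit 4703360686) (nat_lit 152) (nat_lit 5) (nat_lit 157) (nat_lit 5) (nat_lit 158) (nat_lit 5) (nat_lit 635) (nat_lit 549) (nat_lit 376))) (XT.nd (nat_lit 78) (nat_lit 456) (nat_lit 0) (XT.lf (nat_lit 0) (nat_lit 925692669) (nat_lit 380) (nat_lit 18332420707) (nat_lit 456) (nat_lit 292427029) (nat_lit 147) (nat_lit 5) (nat_lit 152) (nat_lit 5) (nat_lit 153) (nat_lit 5) (nat_lit 636) (nat_lit 549) (nat_lit 375)) (XT.nd (nat_lit 78) (nat_lit 380) (nat_lit 0) (XT.lf (nat_lit 0) (nat_lit 4253212567) (nat_lit 456) (nat_lit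 7041061130) (nat_lit 76) (nat_lit 8497106446) (nat_lit 146) (nat_lit 5) (nat_lit 152) (nat_lit 5) (nat_lit 147) (nat_lit 5) (nat_lit 637) (nat_lit 549) (nat_lit 374)) (XT.lf (nat_lit 0) (nat_lit 4821978265) (nat_lit 380) (nat_lit 4086278671) (nat_lit 456) (nat_lit 11128293665) (nat_lit 141) (nat_lit 5) (nat_lit 146) (nat_lit 5) (nat_lit 147) (nat_lit 5) (nat_lit 638) (nat_lit 549) (nat_lit 373))))))) (XT.nd (nat_lit 74802) (nat_lit 0) (nat_lit 29108) (XT.nd (nat_lit 74412) (nat_lit 0) (nat_lit 31768) (XT.nd (nat_lit 74256) (nat_lit 0) (nat_lit 33212) (XT.nd (nat_lit 78) (nat_lit 304) (nat_lit 0) (XT.lf (nat_lit 0) (nat_lit 13716319749) (nat_lit 456) (nat_lit 3303257663) (nat_lit 76) (nat_lit 3265849430) (nat_lit 141) (nat_lit 5) (nat_lit 147) (nat_lit 5) (nat_lit 142) (nat_lit 5) (nat_lit 639) (nat_lit 549) (nat_lit 372)) (XT.lf (nat_lit 0) (nat_lit 8922732431) (nat_lit 304) (nat_lit 9774129822) (nat_lit 380) (nat_lit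 1840892692) (nat_lit 137) (nat_lit 5) (nat_lit 141) (nat_lit 5) (nat_lit 142) (nat_lit 5) (nat_lit 640) (nat_lit 549) (nat_lit 371))) (XT.nd (nat_lit 78) (nat_lit 0) (nat_lit 0) (XT.lf (nat_lit 0) (nat_lit 3425382642) (nat_lit 1444) (nat_lit 327889532) (nat_lit 1444) (nat_lit 327889532) (nat_lit 574) (nat_lit 3) (nat_lit 593) (nat_lit 3) (nat_lit 593) (nat_lit 5) (nat_lit 550) (nat_lit 550) (nat_lit 460)) (XT.lf (nat_lit 76) (nat_lit 3396763511) (nat_lit 0) (nat_lit 4682172085) (nat_lit 1444) (nat_lit 141610206) (nat_lit 575) (nat_lit 5) (nat_lit 574) (nat_lit 3) (nat_lit 593) (nat_lit 5) (nat_lit 551) (nat_lit 550) (nat_lit 459)))) (XT.nd (nat_lit 156) (nat_lit 0) (nat_lit 76) (XT.nd (nat_lit 78) (nat_lit 0) (nat_lit 76) (XT.lf (nat_lit 0) (nat_lit 1012229053) (nat_lit 1444) (nat_lit 763285418) (nat_lit 1520) (nat_lit 6504801211) (nat_lit 555) (nat_lit 5) (nat_lit 574) (nat_lit 3) (nat_lit 575) (nat_lit 5) (nat_lit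 552) (nat_lit 550) (nat_lit 458)) (XT.lf (nat_lit 0) (nat_lit 2187781652) (nat_lit 1444) (nat_lit 4942738082) (nat_lit 1520) (nat_lit 1210737085) (nat_lit 556) (nat_lit 5) (nat_lit 575) (nat_lit 5) (nat_lit 576) (nat_lit 5) (nat_lit 553) (nat_lit 550) (nat_lit 457))) (XT.nd (nat_lit 78) (nat_lit 0) (nat_lit 0) (XT.lf (nat_lit 0) (nat_lit 3374775057) (nat_lit 1444) (nat_lit 777293183) (nat_lit 1520) (nat_lit 4251595073) (nat_lit 556) (nat_lit 5) (nat_lit 575) (nat_lit 5) (nat_lit 576) (nat_lit 5) (nat_lit 554) (nat_lit 550) (nat_lit 456)) (XT.nd (nat_lit 78) (nat_lit 0) (nat_lit 76) (XT.lf (nat_lit 76) (nat_lit 3501608304) (nat_lit 0) (nat_lit 1078218527) (nat_lit 1520) (nat_lit 3887609768) (nat_lit 557) (nat_lit 5) (nat_lit 556) (nat_lit 5) (nat_lit 576) (nat_lit 5) (nat_lit 555) (nat_lit 550) (nat_lit 455)) (XT.lf (nat_lit 0) (nat_lit 5799705286) (nat_lit 1444) (nat_lit 685464118) (nat_lit 1520) (nat_lit 2047506365)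 (nat_lit 557) (nat_lit 5) (nat_lit 576) (nat_lit 5) (nat_lit 577) (nat_lit 5) (nat_lit 556) (nat_lit 550) (nat_lit 454)))))) (XT.nd (nat_lit 390) (nat_lit 1368) (nat_lit 0) (XT.nd (nat_lit 156) (nat_lit 1444) (nat_lit 0) (XT.nd (nat_lit 78) (nat_lit 0) (nat_lit 0) (XT.lf (nat_lit 76) (nat_lit 3705974610) (nat_lit 0) (nat_lit 3341874496) (nat_lit 1520) (nat_lit 1551298096) (nat_lit 558) (nat_lit 5) (nat_lit 557) (nat_lit 5) (nat_lit 577) (nat_lit 5) (nat_lit 557) (nat_lit 550) (nat_lit 453)) (XT.lf (nat_lit 76) (nat_lit 8178642267) (nat_lit 0) (nat_lit 120011782) (nat_lit 1520) (nat_lit 368744790) (nat_lit 558) (nat_lit 5) (nat_lit 557) (nat_lit 5) (nat_lit 577) (nat_lit 5) (nat_lit 558) (nat_lit 550) (nat_lit 452))) (XT.nd (nat_lit 78) (nat_lit 0) (nat_lit 0) (XT.lf (nat_lit 0) (nat_lit 846958711) (nat_lit 1520) (nat_lit 4722457742) (nat_lit 1596) (nat_lit 3167085214) (nat_lit 538) (nat_lit 5) (nat_lit 558) (nat_lit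 5) (nat_lit 559) (nat_lit 5) (nat_lit 559) (nat_lit 550) (nat_lit 451)) (XT.nd (nat_lit 78) (nat_lit 0) (nat_lit 76) (XT.lf (nat_lit 0) (nat_lit 2060071127) (nat_lit 1520) (nat_lit 213080369) (nat_lit 1596) (nat_lit 6534230129) (nat_lit 538) (nat_lit 5) (nat_lit 558) (nat_lit 5) (nat_lit 559) (nat_lit 5) (nat_lit 560) (nat_lit 550) (nat_lit 450)) (XT.lf (nat_lit 0) (nat_lit 3307963398) (nat_lit 1520) (nat_lit 4458482070) (nat_lit 1596) (nat_lit 1113027739) (nat_lit 539) (nat_lit 5) (nat_lit 559) (nat_lit 5) (nat_lit 560) (nat_lit 5) (nat_lit 561) (nat_lit 550) (nat_lit 449))))) (XT.nd (nat_lit 156) (nat_lit 1444) (nat_lit 0) (XT.nd (nat_lit 78) (nat_lit 0) (nat_lit 0) (XT.lf (nat_lit 76) (nat_lit 168231856) (nat_lit 0) (nat_lit 4405066559) (nat_lit 1596) (nat_lit 4379862804) (nat_lit 540) (nat_lit 5) (nat_lit 539) (nat_lit 5) (nat_lit 560) (nat_lit 5) (nat_lit 562) (nat_lit 550) (nat_lit 448)) (XT.lf (nat_lit 76)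 (nat_lit 4931459449) (nat_lit 0) (nat_lit 937684060) (nat_lit 1596) (nat_lit 3159079622) (nat_lit 540) (nat_lit 5) (nat_lit 539) (nat_lit 5) (nat_lit 560) (nat_lit 5) (nat_lit 563) (nat_lit 550) (nat_lit 447))) (XT.nd (nat_lit 78) (nat_lit 1520) (nat_lit 0) (XT.lf (nat_lit 76) (nat_lit 660275060) (nat_lit 0) (nat_lit 6527613923) (nat_lit 1596) (nat_lit 1916961756) (nat_lit 541) (nat_lit 5) (nat_lit 540) (nat_lit 5) (nat_lit 561) (nat_lit 5) (nat_lit 564) (nat_lit 550) (nat_lit 446)) (XT.nd (nat_lit 78) (nat_lit 1520) (nat_lit 0) (XT.lf (nat_lit 76) (nat_lit 5545129493) (nat_lit 0) (nat_lit 2997728619) (nat_lit 1596) (nat_lit 639959858) (nat_lit 541) (nat_lit 5) (nat_lit 540) (nat_lit 5) (nat_lit 561) (nat_lit 5) (nat_lit 565) (nat_lit 550) (nat_lit 445)) (XT.lf (nat_lit 0) (nat_lit 642617550) (nat_lit 1596) (nat_lit 8005593873) (nat_lit 1672) (nat_lit 614276466) (nat_lit 520) (nat_lit 5) (nat_lit 541) (nat_lit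 5) (nat_lit 542) (nat_lit 5) (nat_lit 566) (nat_lit 550) (nat_lit 444))))))))
noncomputable def xc145 : XT := (XT.nd (nat_lit 1482) (nat_lit 8512) (nat_lit 0) (XT.nd (nat_lit 702) (nat_lit 6308) (nat_lit 0) (XT.nd (nat_lit 312) (nat_lit 3116) (nat_lit 0) (XT.nd (nat_lit 156) (nat_lit 0) (nat_lit 76) (XT.nd (nat_lit 78) (nat_lit 0) (nat_lit 0) (XT.lf (nat_lit 0) (nat_lit 1963604706) (nat_lit 1596) (nat_lit 3085795561) (nat_lit 1672) (nat_lit 4293843605) (nat_lit 520) (nat_lit 5) (nat_lit 541) (nat_lit 5) (nat_lit 542) (nat_lit 5) (nat_lit 567) (nat_lit 550) (nat_lit 443)) (XT.lf (nat_lit 76) (nat_lit 1941232603) (nat_lit 0) (nat_lit 1359730102) (nat_lit 1672) (nat_lit 6124856984) (nat_lit 521) (nat_lit 5) (nat_lit 520) (nat_lit 5) (nat_lit 542) (nat_lit 5) (nat_lit 568) (nat_lit 550) (nat_lit 442))) (XT.nd (nat_lit 78) (nat_lit 0) (nat_lit 0) (XT.lf (nat_lit 0) (nat_lit 4679240865) (nat_lit 1596) (nat_lit 2431750523)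 (nat_lit 1672) (nat_lit 2398775840) (nat_lit 521) (nat_lit 5) (nat_lit 542) (nat_lit 5) (nat_lit 543) (nat_lit 5) (nat_lit 569) (nat_lit 550) (nat_lit 441)) (XT.lf (nat_lit 76) (nat_lit 2732301997) (nat_lit 0) (nat_lit 3357686086) (nat_lit 1672) (nat_lit 3505311156) (nat_lit 522) (nat_lit 5) (nat_lit 521) (nat_lit 5) (nat_lit 543) (nat_lit 5) (nat_lit 570) (nat_lit 550) (nat_lit 440)))) (XT.nd (nat_lit 156) (nat_lit 3268) (nat_lit 0) (XT.nd (nat_lit 78) (nat_lit 0) (nat_lit 0) (XT.lf (nat_lit 0) (nat_lit 7526944324) (nat_lit 1596) (nat_lit 1669808037) (nat_lit 1672) (nat_lit 485833171) (nat_lit 522) (nat_lit 5) (nat_lit 543) (nat_lit 5) (nat_lit 544) (nat_lit 5) (nat_lit 571) (nat_lit 550) (nat_lit 439)) (XT.lf (nat_lit 76) (nat_lit 3636002279) (nat_lit 0) (nat_lit 5381414102) (nat_lit 1672) (nat_lit 753709090) (nat_lit 523) (nat_lit 5) (nat_lit 522) (nat_lit 5) (nat_lit 544) (nat_lit 5) (nat_lit 572) (nat_lit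 550) (nat_lit 438))) (XT.nd (nat_lit 78) (nat_lit 1596) (nat_lit 0) (XT.lf (nat_lit 0) (nat_lit 657769469) (nat_lit 1672) (nat_lit 811978003) (nat_lit 1748) (nat_lit 8391796698) (nat_lit 500) (nat_lit 5) (nat_lit 522) (nat_lit 5) (nat_lit 523) (nat_lit 5) (nat_lit 573) (nat_lit 550) (nat_lit 437)) (XT.nd (nat_lit 78) (nat_lit 1672) (nat_lit 0) (XT.lf (nat_lit 0) (nat_lit 2113761356) (nat_lit 1672) (nat_lit 5312916593) (nat_lit 76) (nat_lit 2526469390) (nat_lit 501) (nat_lit 5) (nat_lit 523) (nat_lit 5) (nat_lit 502) (nat_lit 5) (nat_lit 574) (nat_lit 550) (nat_lit 436)) (XT.lf (nat_lit 0) (nat_lit 141242942) (nat_lit 1672) (nat_lit 3453592603) (nat_lit 1748) (nat_lit 6451830966) (nat_lit 479) (nat_lit 5) (nat_lit 501) (nat_lit 5) (nat_lit 502) (nat_lit 5) (nat_lit 575) (nat_lit 550) (nat_lit 435)))))) (XT.nd (nat_lit 390) (nat_lit 2812) (nat_lit 0) (XT.nd (nat_lit 156) (nat_lit 1748) (nat_lit 0) (XT.nd (nat_lit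 78) (nat_lit 1748) (nat_lit 0) (XT.lf (nat_lit 0) (nat_lit 5125442928) (nat_lit 1748) (nat_lit 4386131249) (nat_lit 76) (nat_lit 630086784) (nat_lit 479) (nat_lit 5) (nat_lit 502) (nat_lit 5) (nat_lit 480) (nat_lit 5) (nat_lit 576) (nat_lit 550) (nat_lit 434)) (XT.lf (nat_lit 0) (nat_lit 1219843555) (nat_lit 1748) (nat_lit 5478134255) (nat_lit 1824) (nat_lit 3540354248) (nat_lit 456) (nat_lit 5) (nat_lit 479) (nat_lit 5) (nat_lit 480) (nat_lit 5) (nat_lit 577) (nat_lit 550) (nat_lit 433))) (XT.nd (nat_lit 78) (nat_lit 1748) (nat_lit 0) (XT.lf (nat_lit 0) (nat_lit 6980673388) (nat_lit 1748) (nat_lit 1331520428) (nat_lit 1824) (nat_lit 2024541160) (nat_lit 456) (nat_lit 5) (nat_lit 479) (nat_lit 5) (nat_lit 480) (nat_lit 5) (nat_lit 578) (nat_lit 550) (nat_lit 432)) (XT.nd (nat_lit 78) (nat_lit 76) (nat_lit 0) (XT.lf (nat_lit 0) (nat_lit 2415693138) (nat_lit 1672) (nat_lit 7558690700) (nat_lit 1748) (nat_lit 462411267)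 (nat_lit 434) (nat_lit 5) (nat_lit 456) (nat_lit 5) (nat_lit 457) (nat_lit 5) (nat_lit 579) (nat_lit 550) (nat_lit 431)) (XT.lf (nat_lit 0) (nat_lit 1128940931) (nat_lit 1748) (nat_lit 2223268528) (nat_lit 76) (nat_lit 7186246702) (nat_lit 433) (nat_lit 5) (nat_lit 456) (nat_lit 5) (nat_lit 434) (nat_lit 5) (nat_lit 580) (nat_lit 550) (nat_lit 430))))) (XT.nd (nat_lit 156) (nat_lit 1824) (nat_lit 0) (XT.nd (nat_lit 78) (nat_lit 0) (nat_lit 0) (XT.lf (nat_lit 0) (nat_lit 2758059317) (nat_lit 1064) (nat_lit 6928611860) (nat_lit 76) (nat_lit 955178291) (nat_lit 420) (nat_lit 5) (nat_lit 434) (nat_lit 5) (nat_lit 421) (nat_lit 5) (nat_lit 581) (nat_lit 550) (nat_lit 429)) (XT.lf (nat_lit 0) (nat_lit 4438930961) (nat_lit 1064) (nat_lit 987560891) (nat_lit 76) (nat_lit 5320438094) (nat_lit 420) (nat_lit 5) (nat_lit 434) (nat_lit 5) (nat_lit 421) (nat_lit 5) (nat_lit 582) (nat_lit 550) (nat_lit 428))) (XT.nd (nat_lit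 78) (nat_lit 912) (nat_lit 0) (XT.lf (nat_lit 0) (nat_lit 5122969736) (nat_lit 912) (nat_lit 1046018609) (nat_lit 988) (nat_lit 4684814991) (nat_lit 408) (nat_lit 5) (nat_lit 420) (nat_lit 5) (nat_lit 421) (nat_lit 5) (nat_lit 583) (nat_lit 550) (nat_lit 427)) (XT.nd (nat_lit 78) (nat_lit 0) (nat_lit 0) (XT.lf (nat_lit 0) (nat_lit 372256324) (nat_lit 912) (nat_lit 7575250343) (nat_lit 988) (nat_lit 3015032950) (nat_lit 396) (nat_lit 5) (nat_lit 408) (nat_lit 5) (nat_lit 409) (nat_lit 5) (nat_lit 584) (nat_lit 550) (nat_lit 426)) (XT.lf (nat_lit 0) (nat_lit 6651402406) (nat_lit 912) (nat_lit 3138319019) (nat_lit 988) (nat_lit 1283169242) (nat_lit 396) (nat_lit 5) (nat_lit 408) (nat_lit 5) (nat_lit 409) (nat_lit 5) (nat_lit 585) (nat_lit 550) (nat_lit 425))))))) (XT.nd (nat_lit 702) (nat_lit 4332) (nat_lit 0) (XT.nd (nat_lit 312) (nat_lit 2432) (nat_lit 0) (XT.nd (nat_lit 156) (nat_lit 836) (nat_lit 0) (XT.nd (nat_lit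 78) (nat_lit 0) (nat_lit 0) (XT.lf (nat_lit 0) (nat_lit 481292688) (nat_lit 912) (nat_lit 9319024058) (nat_lit 76) (nat_lit 1384985698) (nat_lit 384) (nat_lit 5) (nat_lit 396) (nat_lit 5) (nat_lit 385) (nat_lit 5) (nat_lit 586) (nat_lit 550) (nat_lit 424)) (XT.lf (nat_lit 0) (nat_lit 2297767782) (nat_lit 912) (nat_lit 3005913391) (nat_lit 76) (nat_lit 5995435953) (nat_lit 384) (nat_lit 5) (nat_lit 396) (nat_lit 5) (nat_lit 385) (nat_lit 5) (nat_lit 587) (nat_lit 550) (nat_lit 423))) (XT.nd (nat_lit 78) (nat_lit 0) (nat_lit 0) (XT.lf (nat_lit 0) (nat_lit 3462397614) (nat_lit 836) (nat_lit 694222518) (nat_lit 912) (nat_lit 7258469387) (nat_lit 373) (nat_lit 5) (nat_lit 384) (nat_lit 5) (nat_lit 385) (nat_lit 5) (nat_lit 588) (nat_lit 550) (nat_lit 422)) (XT.lf (nat_lit 0) (nat_lit 6082755817) (nat_lit 912) (nat_lit 1474998768) (nat_lit 76) (nat_lit 3975026972) (nat_lit 373) (nat_lit 5) (nat_lit 385) (nat_lit 5) (nat_lit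 374) (nat_lit 5) (nat_lit 589) (nat_lit 550) (nat_lit 421)))) (XT.nd (nat_lit 156) (nat_lit 836) (nat_lit 0) (XT.nd (nat_lit 78) (nat_lit 836) (nat_lit 0) (XT.lf (nat_lit 0) (nat_lit 5179215136) (nat_lit 760) (nat_lit 2890524047) (nat_lit 836) (nat_lit 3582644032) (nat_lit 363) (nat_lit 5) (nat_lit 373) (nat_lit 5) (nat_lit 374) (nat_lit 5) (nat_lit 590) (nat_lit 550) (nat_lit 420)) (XT.lf (nat_lit 0) (nat_lit 185993803) (nat_lit 836) (nat_lit 9918084334) (nat_lit 912) (nat_lit 1670148685) (nat_lit 352) (nat_lit 5) (nat_lit 363) (nat_lit 5) (nat_lit 364) (nat_lit 5) (nat_lit 591) (nat_lit 550) (nat_lit 419))) (XT.nd (nat_lit 78) (nat_lit 760) (nat_lit 0) (XT.lf (nat_lit 0) (nat_lit 324184363) (nat_lit 912) (nat_lit 4869473371) (nat_lit 76) (nat_lit 6703869920) (nat_lit 351) (nat_lit 5) (nat_lit 363) (nat_lit 5) (nat_lit 352) (nat_lit 5) (nat_lit 592) (nat_lit 550) (nat_lit 418)) (XT.nd (nat_lit 78) (nat_lit 0)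 (nat_lit 0) (XT.lf (nat_lit 0) (nat_lit 1982258138) (nat_lit 760) (nat_lit 351378866) (nat_lit 836) (nat_lit 9689486884) (nat_lit 341) (nat_lit 5) (nat_lit 351) (nat_lit 5) (nat_lit 352) (nat_lit 5) (nat_lit 593) (nat_lit 550) (nat_lit 417)) (XT.lf (nat_lit 0) (nat_lit 4430850854) (nat_lit 836) (nat_lit 3160079962) (nat_lit 76) (nat_lit 4559351852) (nat_lit 341) (nat_lit 5) (nat_lit 352) (nat_lit 5) (nat_lit 342) (nat_lit 5) (nat_lit 594) (nat_lit 550) (nat_lit 416)))))) (XT.nd (nat_lit 390) (nat_lit 2052) (nat_lit 0) (XT.nd (nat_lit 156) (nat_lit 1520) (nat_lit 0) (XT.nd (nat_lit 78) (nat_lit 0) (nat_lit 0) (XT.lf (nat_lit 0) (nat_lit 3890817784) (nat_lit 760) (nat_lit 2691968541) (nat_lit 836) (nat_lit 5696944775) (nat_lit 331) (nat_lit 5) (nat_lit 341) (nat_lit 5) (nat_lit 342) (nat_lit 5) (nat_lit 595) (nat_lit 550) (nat_lit 415)) (XT.lf (nat_lit 0) (nat_lit 8799437048) (nat_lit 836) (nat_lit 1317264866) (nat_lit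 76) (nat_lit 2294635039) (nat_lit 331) (nat_lit 5) (nat_lit 342) (nat_lit 5) (nat_lit 332) (nat_lit 5) (nat_lit 596) (nat_lit 550) (nat_lit 414))) (XT.nd (nat_lit 78) (nat_lit 836) (nat_lit 0) (XT.lf (nat_lit 0) (nat_lit 5939828283) (nat_lit 684) (nat_lit 5162637270) (nat_lit 760) (nat_lit 1442270420) (nat_lit 322) (nat_lit 5) (nat_lit 331) (nat_lit 5) (nat_lit 332) (nat_lit 5) (nat_lit 597) (nat_lit 550) (nat_lit 413)) (XT.nd (nat_lit 78) (nat_lit 0) (nat_lit 0) (XT.lf (nat_lit 0) (nat_lit 666827410) (nat_lit 760) (nat_lit 92777128) (nat_lit 836) (nat_lit 11921120990) (nat_lit 311) (nat_lit 5) (nat_lit 321) (nat_lit 5) (nat_lit 322) (nat_lit 5) (nat_lit 598) (nat_lit 550) (nat_lit 412)) (XT.lf (nat_lit 0) (nat_lit 3049708608) (nat_lit 836) (nat_lit 4704150897) (nat_lit 76) (nat_lit 5064116461) (nat_lit 311) (nat_lit 5) (nat_lit 322) (nat_lit 5) (nat_lit 312) (nat_lit 5) (nat_lit 599) (nat_lit 550) (nat_lit 411)))))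 (XT.nd (nat_lit 156) (nat_lit 1368) (nat_lit 0) (XT.nd (nat_lit 78) (nat_lit 0) (nat_lit 0) (XT.lf (nat_lit 0) (nat_lit 2771532766) (nat_lit 684) (nat_lit 2618864339) (nat_lit 760) (nat_lit 7567480458) (nat_lit 302) (nat_lit 5) (nat_lit 311) (nat_lit 5) (nat_lit 312) (nat_lit 5) (nat_lit 600) (nat_lit 550) (nat_lit 410)) (XT.lf (nat_lit 0) (nat_lit 7813005725) (nat_lit 760) (nat_lit 2672810456) (nat_lit 76) (nat_lit 2614060645) (nat_lit 302) (nat_lit 5) (nat_lit 312) (nat_lit 5) (nat_lit 303) (nat_lit 5) (nat_lit 601) (nat_lit 550) (nat_lit 409))) (XT.nd (nat_lit 78) (nat_lit 684) (nat_lit 0) (XT.lf (nat_lit 0) (nat_lit 5023706067) (nat_lit 684) (nat_lit 5296916038) (nat_lit 760) (nat_lit 2923364585) (nat_lit 293) (nat_lit 5) (nat_lit 302) (nat_lit 5) (nat_lit 303) (nat_lit 5) (nat_lit 602) (nat_lit 550) (nat_lit 408)) (XT.nd (nat_lit 78) (nat_lit 684) (nat_lit 0) (XT.lf (nat_lit 0) (nat_lit 12883157535) (nat_lit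 760) (nat_lit 496305867) (nat_lit 76) (nat_lit 11421706) (nat_lit 293) (nat_lit 5) (nat_lit 303) (nat_lit 5) (nat_lit 294) (nat_lit 5) (nat_lit 603) (nat_lit 550) (nat_lit 407)) (XT.lf (nat_lit 0) (nat_lit 2001341313) (nat_lit 684) (nat_lit 6123648513) (nat_lit 76) (nat_lit 5414063767) (nat_lit 284) (nat_lit 5) (nat_lit 293) (nat_lit 5) (nat_lit 285) (nat_lit 5) (nat_lit 604) (nat_lit 550) (nat_lit 406))))))))
noncomputable def xc146 : XT := (XT.nd (nat_lit 1482) (nat_lit 4788) (nat_lit 0) (XT.nd (nat_lit 702) (nat_lit 3268) (nat_lit 0) (XT.nd (nat_lit 312) (nat_lit 1824) (nat_lit 0) (XT.nd (nat_lit 156) (nat_lit 608) (nat_lit 0) (XT.nd (nat_lit 78) (nat_lit 0) (nat_lit 0) (XT.lf (nat_lit 0) (nat_lit 1806532211) (nat_lit 684) (nat_lit 2749415677) (nat_lit 760) (nat_lit 9134128938) (nat_lit 275) (nat_lit 5) (nat_lit 284) (nat_lit 5) (nat_lit 285) (nat_lit 5) (nat_lit 605) (nat_lit 550) (nat_lit 405)) (XT.lf (nat_lit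 0) (nat_lit 7207960726) (nat_lit 760) (nat_lit 3898865802) (nat_lit 76) (nat_lit 2736369277) (nat_lit 275) (nat_lit 5) (nat_lit 285) (nat_lit 5) (nat_lit 276) (nat_lit 5) (nat_lit 606) (nat_lit 550) (nat_lit 404))) (XT.nd (nat_lit 78) (nat_lit 0) (nat_lit 0) (XT.lf (nat_lit 0) (nat_lit 4267711103) (nat_lit 608) (nat_lit 5678670842) (nat_lit 684) (nat_lit 4052329389) (nat_lit 267) (nat_lit 5) (nat_lit 275) (nat_lit 5) (nat_lit 276) (nat_lit 5) (nat_lit 607) (nat_lit 550) (nat_lit 403)) (XT.lf (nat_lit 0) (nat_lit 12635012830) (nat_lit 608) (nat_lit 118319160) (nat_lit 684) (nat_lit 1403731479) (nat_lit 267) (nat_lit 5) (nat_lit 275) (nat_lit 5) (nat_lit 276) (nat_lit 5) (nat_lit 608) (nat_lit 550) (nat_lit 402)))) (XT.nd (nat_lit 156) (nat_lit 608) (nat_lit 0) (XT.nd (nat_lit 78) (nat_lit 532) (nat_lit 0) (XT.lf (nat_lit 0) (nat_lit 1349880456) (nat_lit 684) (nat_lit 7436085414) (nat_lit 76) (nat_lit 5531068425)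 (nat_lit 258) (nat_lit 5) (nat_lit 267) (nat_lit 5) (nat_lit 259) (nat_lit 5) (nat_lit 609) (nat_lit 550) (nat_lit 401)) (XT.lf (nat_lit 0) (nat_lit 979903753) (nat_lit 532) (nat_lit 3165188815) (nat_lit 608) (nat_lit 10334821333) (nat_lit 251) (nat_lit 5) (nat_lit 258) (nat_lit 5) (nat_lit 259) (nat_lit 5) (nat_lit 610) (nat_lit 550) (nat_lit 400))) (XT.nd (nat_lit 78) (nat_lit 608) (nat_lit 0) (XT.lf (nat_lit 0) (nat_lit 7051108078) (nat_lit 608) (nat_lit 5012603964) (nat_lit 76) (nat_lit 2581242463) (nat_lit 251) (nat_lit 5) (nat_lit 259) (nat_lit 5) (nat_lit 252) (nat_lit 5) (nat_lit 611) (nat_lit 550) (nat_lit 399)) (XT.nd (nat_lit 78) (nat_lit 0) (nat_lit 0) (XT.lf (nat_lit 0) (nat_lit 3656288756) (nat_lit 608) (nat_lit 6391886551) (nat_lit 684) (nat_lit 4764463349) (nat_lit 243) (nat_lit 5) (nat_lit 251) (nat_lit 5) (nat_lit 252) (nat_lit 5) (nat_lit 612) (nat_lit 550) (nat_lit 398)) (XT.lf (nat_lit 0) (nat_lit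 12551353889) (nat_lit 608) (nat_lit 575830433) (nat_lit 684) (nat_lit 1856053492) (nat_lit 243) (nat_lit 5) (nat_lit 251) (nat_lit 5) (nat_lit 252) (nat_lit 5) (nat_lit 613) (nat_lit 550) (nat_lit 397)))))) (XT.nd (nat_lit 390) (nat_lit 1596) (nat_lit 0) (XT.nd (nat_lit 156) (nat_lit 532) (nat_lit 0) (XT.nd (nat_lit 78) (nat_lit 532) (nat_lit 0) (XT.lf (nat_lit 0) (nat_lit 1161958649) (nat_lit 608) (nat_lit 8661071282) (nat_lit 76) (nat_lit 5332756126) (nat_lit 235) (nat_lit 5) (nat_lit 243) (nat_lit 5) (nat_lit 236) (nat_lit 5) (nat_lit 614) (nat_lit 550) (nat_lit 396)) (XT.lf (nat_lit 0) (nat_lit 273610586) (nat_lit 532) (nat_lit 3952528206) (nat_lit 608) (nat_lit 11105189154) (nat_lit 228) (nat_lit 5) (nat_lit 235) (nat_lit 5) (nat_lit 236) (nat_lit 5) (nat_lit 615) (nat_lit 550) (nat_lit 395))) (XT.nd (nat_lit 78) (nat_lit 532) (nat_lit 0) (XT.lf (nat_lit 0) (nat_lit 7412043944) (nat_lit 608) (nat_lit 6033647484)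 (nat_lit 76) (nat_lit 2063481650) (nat_lit 228) (nat_lit 5) (nat_lit 236) (nat_lit 5) (nat_lit 229) (nat_lit 5) (nat_lit 616) (nat_lit 550) (nat_lit 394)) (XT.nd (nat_lit 78) (nat_lit 0) (nat_lit 0) (XT.lf (nat_lit 0) (nat_lit 3171401563) (nat_lit 532) (nat_lit 7525974412) (nat_lit 608) (nat_lit 4992486172) (nat_lit 221) (nat_lit 5) (nat_lit 228) (nat_lit 5) (nat_lit 229) (nat_lit 5) (nat_lit 617) (nat_lit 550) (nat_lit 393)) (XT.lf (nat_lit 0) (nat_lit 12627517384) (nat_lit 532) (nat_lit 1450449048) (nat_lit 608) (nat_lit 1795608713) (nat_lit 221) (nat_lit 5) (nat_lit 228) (nat_lit 5) (nat_lit 229) (nat_lit 5) (nat_lit 618) (nat_lit 550) (nat_lit 392))))) (XT.nd (nat_lit 156) (nat_lit 988) (nat_lit 0) (XT.nd (nat_lit 78) (nat_lit 0) (nat_lit 0) (XT.lf (nat_lit 0) (nat_lit 1507028285) (nat_lit 608) (nat_lit 9821466234) (nat_lit 76) (nat_lit 4731057994) (nat_lit 213) (nat_lit 5) (nat_lit 221) (nat_lit 5) (nat_lit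 214) (nat_lit 5) (nat_lit 619) (nat_lit 550) (nat_lit 391)) (XT.lf (nat_lit 0) (nat_lit 4872526740) (nat_lit 608) (nat_lit 329309383) (nat_lit 76) (nat_lit 11046760003) (nat_lit 213) (nat_lit 5) (nat_lit 221) (nat_lit 5) (nat_lit 214) (nat_lit 5) (nat_lit 620) (nat_lit 550) (nat_lit 390))) (XT.nd (nat_lit 78) (nat_lit 532) (nat_lit 0) (XT.lf (nat_lit 0) (nat_lit 8363458546) (nat_lit 532) (nat_lit 6985272519) (nat_lit 76) (nat_lit 1091528176) (nat_lit 207) (nat_lit 5) (nat_lit 214) (nat_lit 5) (nat_lit 208) (nat_lit 5) (nat_lit 621) (nat_lit 550) (nat_lit 389)) (XT.nd (nat_lit 78) (nat_lit 0) (nat_lit 0) (XT.lf (nat_lit 0) (nat_lit 2791299200) (nat_lit 532) (nat_lit 9177299520) (nat_lit 608) (nat_lit 4666270176) (nat_lit 200) (nat_lit 5) (nat_lit 207) (nat_lit 5) (nat_lit 208) (nat_lit 5) (nat_lit 622) (nat_lit 550) (nat_lit 388)) (XT.lf (nat_lit 0) (nat_lit 12843618877) (nat_lit 532) (nat_lit 2838800826) (nat_lit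 608) (nat_lit 1150220533) (nat_lit 200) (nat_lit 5) (nat_lit 207) (nat_lit 5) (nat_lit 208) (nat_lit 5) (nat_lit 623) (nat_lit 550) (nat_lit 387))))))) (XT.nd (nat_lit 702) (nat_lit 1976) (nat_lit 0) (XT.nd (nat_lit 312) (nat_lit 1368) (nat_lit 0) (XT.nd (nat_lit 156) (nat_lit 912) (nat_lit 0) (XT.nd (nat_lit 78) (nat_lit 0) (nat_lit 0) (XT.lf (nat_lit 0) (nat_lit 2457610090) (nat_lit 532) (nat_lit 10944700904) (nat_lit 76) (nat_lit 3630672467) (nat_lit 193) (nat_lit 5) (nat_lit 200) (nat_lit 5) (nat_lit 194) (nat_lit 5) (nat_lit 624) (nat_lit 550) (nat_lit 386)) (XT.lf (nat_lit 0) (nat_lit 6157872956) (nat_lit 532) (nat_lit 856591831) (nat_lit 76) (nat_lit 10222004156) (nat_lit 193) (nat_lit 5) (nat_lit 200) (nat_lit 5) (nat_lit 194) (nat_lit 5) (nat_lit 625) (nat_lit 550) (nat_lit 385))) (XT.nd (nat_lit 78) (nat_lit 456) (nat_lit 0) (XT.lf (nat_lit 0) (nat_lit 9544333701) (nat_lit 456) (nat_lit 439890202) (nat_lit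 532) (nat_lit 7458759546) (nat_lit 187) (nat_lit 5) (nat_lit 193) (nat_lit 5) (nat_lit 194) (nat_lit 5) (nat_lit 626) (nat_lit 550) (nat_lit 384)) (XT.lf (nat_lit 0) (nat_lit 2489101049) (nat_lit 456) (nat_lit 11450821995) (nat_lit 532) (nat_lit 3712649732) (nat_lit 181) (nat_lit 5) (nat_lit 187) (nat_lit 5) (nat_lit 188) (nat_lit 5) (nat_lit 627) (nat_lit 550) (nat_lit 383)))) (XT.nd (nat_lit 156) (nat_lit 836) (nat_lit 0) (XT.nd (nat_lit 78) (nat_lit 456) (nat_lit 0) (XT.lf (nat_lit 0) (nat_lit 153454542) (nat_lit 532) (nat_lit 4691821476) (nat_lit 76) (nat_lit 13020134839) (nat_lit 180) (nat_lit 5) (nat_lit 187) (nat_lit 5) (nat_lit 181) (nat_lit 5) (nat_lit 628) (nat_lit 550) (nat_lit 382)) (XT.lf (nat_lit 0) (nat_lit 4089461833) (nat_lit 532) (nat_lit 12064303009) (nat_lit 76) (nat_lit 1927405078) (nat_lit 174) (nat_lit 5) (nat_lit 181) (nat_lit 5) (nat_lit 175) (nat_lit 5) (nat_lit 629) (nat_lit 550) (nat_lit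 381))) (XT.nd (nat_lit 78) (nat_lit 836) (nat_lit 0) (XT.lf (nat_lit 0) (nat_lit 8158456823) (nat_lit 532) (nat_lit 1343609097) (nat_lit 76) (nat_lit 8798093774) (nat_lit 174) (nat_lit 5) (nat_lit 181) (nat_lit 5) (nat_lit 175) (nat_lit 5) (nat_lit 630) (nat_lit 550) (nat_lit 380)) (XT.nd (nat_lit 78) (nat_lit 456) (nat_lit 0) (XT.lf (nat_lit 0) (nat_lit 9705030800) (nat_lit 380) (nat_lit 2657485480) (nat_lit 456) (nat_lit 6159940154) (nat_lit 169) (nat_lit 5) (nat_lit 174) (nat_lit 5) (nat_lit 175) (nat_lit 5) (nat_lit 631) (nat_lit 550) (nat_lit 379)) (XT.lf (nat_lit 0) (nat_lit 2231148297) (nat_lit 456) (nat_lit 14461883460) (nat_lit 532) (nat_lit 2055320704) (nat_lit 163) (nat_lit 5) (nat_lit 169) (nat_lit 5) (nat_lit 170) (nat_lit 5) (nat_lit 632) (nat_lit 550) (nat_lit 378)))))) (XT.nd (nat_lit 390) (nat_lit 684) (nat_lit 0) (XT.nd (nat_lit 156) (nat_lit 836) (nat_lit 0) (XT.nd (nat_lit 78) (nat_lit 380)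 (nat_lit 0) (XT.lf (nat_lit 0) (nat_lit 2171367661) (nat_lit 532) (nat_lit 5403046261) (nat_lit 76) (nat_lit 11402717928) (nat_lit 162) (nat_lit 5) (nat_lit 169) (nat_lit 5) (nat_lit 163) (nat_lit 5) (nat_lit 633) (nat_lit 550) (nat_lit 377)) (XT.lf (nat_lit 0) (nat_lit 5984695348) (nat_lit 380) (nat_lit 500206476) (nat_lit 456) (nat_lit 12724717432) (nat_lit 157) (nat_lit 5) (nat_lit 162) (nat_lit 5) (nat_lit 163) (nat_lit 5) (nat_lit 634) (nat_lit 550) (nat_lit 376))) (XT.nd (nat_lit 78) (nat_lit 836) (nat_lit 0) (XT.lf (nat_lit 0) (nat_lit 10955816344) (nat_lit 456) (nat_lit 1830080907) (nat_lit 76) (nat_lit 6659437748) (nat_lit 157) (nat_lit 5) (nat_lit 163) (nat_lit 5) (nat_lit 158) (nat_lit 5) (nat_lit 635) (nat_lit 550) (nat_lit 375)) (XT.nd (nat_lit 78) (nat_lit 456) (nat_lit 0) (XT.lf (nat_lit 0) (nat_lit 9905891675) (nat_lit 380) (nat_lit 5669072872) (nat_lit 456) (nat_lit 4109624968) (nat_lit 152) (nat_lit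 5) (nat_lit 157) (nat_lit 5) (nat_lit 158) (nat_lit 5) (nat_lit 636) (nat_lit 550) (nat_lit 374)) (XT.lf (nat_lit 0) (nat_lit 380103191) (nat_lit 456) (nat_lit 17955519726) (nat_lit 76) (nat_lit 1592421870) (nat_lit 146) (nat_lit 5) (nat_lit 152) (nat_lit 5) (nat_lit 147) (nat_lit 5) (nat_lit 637) (nat_lit 550) (nat_lit 373))))) (XT.nd (nat_lit 156) (nat_lit 304) (nat_lit 0) (XT.nd (nat_lit 78) (nat_lit 380) (nat_lit 0) (XT.lf (nat_lit 0) (nat_lit 4999518803) (nat_lit 456) (nat_lit 6162383959) (nat_lit 76) (nat_lit 9012025418) (nat_lit 146) (nat_lit 5) (nat_lit 152) (nat_lit 5) (nat_lit 147) (nat_lit 5) (nat_lit 638) (nat_lit 550) (nat_lit 372)) (XT.lf (nat_lit 0) (nat_lit 5931208999) (nat_lit 380) (nat_lit 3810065244) (nat_lit 456) (nat_lit 10682856674) (nat_lit 141) (nat_lit 5) (nat_lit 146) (nat_lit 5) (nat_lit 147) (nat_lit 5) (nat_lit 639) (nat_lit 550) (nat_lit 371))) (XT.nd (nat_lit 78) (nat_lit 304) (nat_lit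 0) (XT.lf (nat_lit 0) (nat_lit 14634936482) (nat_lit 456) (nat_lit 2365775867) (nat_lit 76) (nat_lit 3677484621) (nat_lit 141) (nat_lit 5) (nat_lit 147) (nat_lit 5) (nat_lit 142) (nat_lit 5) (nat_lit 640) (nat_lit 550) (nat_lit 370)) (XT.nd (nat_lit 74178) (nat_lit 0) (nat_lit 31768) (XT.lf (nat_lit 0) (nat_lit 10098131746) (nat_lit 304) (nat_lit 9610797773) (nat_lit 380) (nat_lit 1226766355) (nat_lit 137) (nat_lit 5) (nat_lit 141) (nat_lit 5) (nat_lit 142) (nat_lit 5) (nat_lit 641) (nat_lit 550) (nat_lit 369)) (XT.lf (nat_lit 0) (nat_lit 240476717) (nat_lit 0) (nat_lit 240476717) (nat_lit 1444) (nat_lit 3658894655) (nat_lit 555) (nat_lit 5) (nat_lit 555) (nat_lit 3) (nat_lit 574) (nat_lit 3) (nat_lit 551) (nat_lit 551) (nat_lit 458))))))))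
noncomputable def xc147 : XT := (XT.nd (nat_lit 1482) (nat_lit 11096) (nat_lit 0) (XT.nd (nat_lit 702) (nat_lit 1368) (nat_lit 0) (XT.nd (nat_lit 312) (nat_lit 1368) (nat_lit 0) (XT.nd (nat_lit 156) (nat_lit 0) (nat_lit 76) (XT.nd (nat_lit 78) (nat_lit 0) (nat_lit 0) (XT.lf (nat_lit 0) (nat_lit 2096136206) (nat_lit 1444) (nat_lit 3743725253) (nat_lit 1520) (nat_lit 2499943857) (nat_lit 555) (nat_lit 5) (nat_lit 574) (nat_lit 3) (nat_lit 575) (nat_lit 5) (nat_lit 552) (nat_lit 551) (nat_lit 457)) (XT.lf (nat_lit 76) (nat_lit 378963030) (nat_lit 0) (nat_lit 2850759542) (nat_lit 1520) (nat_lit 5171865744) (nat_lit 556) (nat_lit 5) (nat_lit 555) (nat_lit 5) (nat_lit 575) (nat_lit 5) (nat_lit 553) (nat_lit 551) (nat_lit 456))) (XT.nd (nat_lit 78) (nat_lit 0) (nat_lit 0) (XT.lf (nat_lit 0) (nat_lit 4384139499) (nat_lit 1444) (nat_lit 3846481530) (nat_lit 1520) (nat_lit 234027802) (nat_lit 556) (nat_lit 5) (nat_lit 575)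 (nat_lit 5) (nat_lit 576) (nat_lit 5) (nat_lit 554) (nat_lit 551) (nat_lit 455)) (XT.lf (nat_lit 76) (nat_lit 383873278) (nat_lit 0) (nat_lit 5171283968) (nat_lit 1520) (nat_lit 2973947993) (nat_lit 557) (nat_lit 5) (nat_lit 556) (nat_lit 5) (nat_lit 576) (nat_lit 5) (nat_lit 555) (nat_lit 551) (nat_lit 454)))) (XT.nd (nat_lit 156) (nat_lit 1444) (nat_lit 0) (XT.nd (nat_lit 78) (nat_lit 0) (nat_lit 76) (XT.lf (nat_lit 76) (nat_lit 4735609822) (nat_lit 0) (nat_lit 2012384854) (nat_lit 1520) (nat_lit 1846892947) (nat_lit 557) (nat_lit 5) (nat_lit 556) (nat_lit 5) (nat_lit 576) (nat_lit 5) (nat_lit 556) (nat_lit 551) (nat_lit 453)) (XT.lf (nat_lit 76) (nat_lit 495354911) (nat_lit 0) (nat_lit 7453605840) (nat_lit 1520) (nat_lit 713344207) (nat_lit 558) (nat_lit 5) (nat_lit 557) (nat_lit 5) (nat_lit 577) (nat_lit 5) (nat_lit 557) (nat_lit 551) (nat_lit 452))) (XT.nd (nat_lit 78) (nat_lit 0) (nat_lit 0) (XT.lf (nat_lit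 0) (nat_lit 449910115) (nat_lit 1520) (nat_lit 3773470213) (nat_lit 1596) (nat_lit 4507380499) (nat_lit 537) (nat_lit 5) (nat_lit 557) (nat_lit 5) (nat_lit 558) (nat_lit 5) (nat_lit 558) (nat_lit 551) (nat_lit 451)) (XT.nd (nat_lit 78) (nat_lit 0) (nat_lit 76) (XT.lf (nat_lit 76) (nat_lit 696667164) (nat_lit 0) (nat_lit 908710143) (nat_lit 1596) (nat_lit 7195548680) (nat_lit 538) (nat_lit 5) (nat_lit 537) (nat_lit 5) (nat_lit 558) (nat_lit 5) (nat_lit 559) (nat_lit 551) (nat_lit 450)) (XT.lf (nat_lit 0) (nat_lit 2799937574) (nat_lit 1520) (nat_lit 3596954007) (nat_lit 1596) (nat_lit 2475287574) (nat_lit 538) (nat_lit 5) (nat_lit 558) (nat_lit 5) (nat_lit 559) (nat_lit 5) (nat_lit 560) (nat_lit 551) (nat_lit 449)))))) (XT.nd (nat_lit 390) (nat_lit 1444) (nat_lit 0) (XT.nd (nat_lit 156) (nat_lit 0) (nat_lit 76) (XT.nd (nat_lit 78) (nat_lit 0) (nat_lit 76) (XT.lf (nat_lit 76) (nat_lit 991696547) (nat_lit 0) (nat_lit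 3014092880) (nat_lit 1596) (nat_lit 4939324245) (nat_lit 539) (nat_lit 5) (nat_lit 538) (nat_lit 5) (nat_lit 559) (nat_lit 5) (nat_lit 561) (nat_lit 551) (nat_lit 448)) (XT.lf (nat_lit 0) (nat_lit 5238280237) (nat_lit 1520) (nat_lit 3317380040) (nat_lit 1596) (nat_lit 463800373) (nat_lit 539) (nat_lit 5) (nat_lit 559) (nat_lit 5) (nat_lit 560) (nat_lit 5) (nat_lit 562) (nat_lit 551) (nat_lit 447))) (XT.nd (nat_lit 78) (nat_lit 0) (nat_lit 0) (XT.lf (nat_lit 76) (nat_lit 1393774271) (nat_lit 0) (nat_lit 5106530762) (nat_lit 1596) (nat_lit 2594895979) (nat_lit 540) (nat_lit 5) (nat_lit 539) (nat_lit 5) (nat_lit 560) (nat_lit 5) (nat_lit 563) (nat_lit 551) (nat_lit 446)) (XT.nd (nat_lit 78) (nat_lit 0) (nat_lit 76) (XT.lf (nat_lit 76) (nat_lit 6228302146) (nat_lit 0) (nat_lit 1557773890) (nat_lit 1596) (nat_lit 1386414076) (nat_lit 540) (nat_lit 5) (nat_lit 539) (nat_lit 5) (nat_lit 560) (nat_lit 5) (nat_lit 564)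 (nat_lit 551) (nat_lit 445)) (XT.lf (nat_lit 76) (nat_lit 1903748354) (nat_lit 0) (nat_lit 7196322774) (nat_lit 1596) (nat_lit 151207660) (nat_lit 541) (nat_lit 5) (nat_lit 540) (nat_lit 5) (nat_lit 561) (nat_lit 5) (nat_lit 565) (nat_lit 551) (nat_lit 444))))) (XT.nd (nat_lit 156) (nat_lit 0) (nat_lit 76) (XT.nd (nat_lit 78) (nat_lit 0) (nat_lit 76) (XT.lf (nat_lit 0) (nat_lit 1101323881) (nat_lit 1596) (nat_lit 2476573329) (nat_lit 1672) (nat_lit 5753462635) (nat_lit 519) (nat_lit 5) (nat_lit 540) (nat_lit 5) (nat_lit 541) (nat_lit 5) (nat_lit 566) (nat_lit 551) (nat_lit 443)) (XT.lf (nat_lit 0) (nat_lit 2371465615) (nat_lit 1596) (nat_lit 6906265659) (nat_lit 1672) (nat_lit 135403312) (nat_lit 520) (nat_lit 5) (nat_lit 541) (nat_lit 5) (nat_lit 542) (nat_lit 5) (nat_lit 567) (nat_lit 551) (nat_lit 442))) (XT.nd (nat_lit 78) (nat_lit 0) (nat_lit 0) (XT.lf (nat_lit 0) (nat_lit 3685225539) (nat_lit 1596) (nat_lit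 1912766284) (nat_lit 1672) (nat_lit 3898192356) (nat_lit 520) (nat_lit 5) (nat_lit 541) (nat_lit 5) (nat_lit 542) (nat_lit 5) (nat_lit 568) (nat_lit 551) (nat_lit 441)) (XT.nd (nat_lit 78) (nat_lit 0) (nat_lit 76) (XT.lf (nat_lit 76) (nat_lit 3206679120) (nat_lit 0) (nat_lit 1817628391) (nat_lit 1672) (nat_lit 4556609909) (nat_lit 521) (nat_lit 5) (nat_lit 520) (nat_lit 5) (nat_lit 542) (nat_lit 5) (nat_lit 569) (nat_lit 551) (nat_lit 440)) (XT.lf (nat_lit 0) (nat_lit 6394913072) (nat_lit 1596) (nat_lit 1242310100) (nat_lit 1672) (nat_lit 2030030836) (nat_lit 521) (nat_lit 5) (nat_lit 542) (nat_lit 5) (nat_lit 543) (nat_lit 5) (nat_lit 570) (nat_lit 551) (nat_lit 439))))))) (XT.nd (nat_lit 702) (nat_lit 6308) (nat_lit 0) (XT.nd (nat_lit 312) (nat_lit 3344) (nat_lit 0) (XT.nd (nat_lit 156) (nat_lit 1596) (nat_lit 0) (XT.nd (nat_lit 78) (nat_lit 0) (nat_lit 76) (XT.lf (nat_lit 76) (nat_lit 4016878237) (nat_lit 0)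 (nat_lit 3793176885) (nat_lit 1672) (nat_lit 1944923173) (nat_lit 522) (nat_lit 5) (nat_lit 521) (nat_lit 5) (nat_lit 543) (nat_lit 5) (nat_lit 571) (nat_lit 551) (nat_lit 438)) (XT.lf (nat_lit 0) (nat_lit 9242067317) (nat_lit 1596) (nat_lit 463450650) (nat_lit 1672) (nat_lit 139171139) (nat_lit 522) (nat_lit 5) (nat_lit 543) (nat_lit 5) (nat_lit 544) (nat_lit 5) (nat_lit 572) (nat_lit 551) (nat_lit 437))) (XT.nd (nat_lit 78) (nat_lit 0) (nat_lit 0) (XT.lf (nat_lit 0) (nat_lit 793661194) (nat_lit 1672) (nat_lit 5000360364) (nat_lit 1748) (nat_lit 4141332520) (nat_lit 500) (nat_lit 5) (nat_lit 522) (nat_lit 5) (nat_lit 523) (nat_lit 5) (nat_lit 573) (nat_lit 551) (nat_lit 436)) (XT.lf (nat_lit 76) (nat_lit 405009743) (nat_lit 0) (nat_lit 1790467978) (nat_lit 1748) (nat_lit 7832564612) (nat_lit 501) (nat_lit 5) (nat_lit 500) (nat_lit 5) (nat_lit 523) (nat_lit 5) (nat_lit 574) (nat_lit 551) (nat_lit 435)))) (XT.nd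 (nat_lit 156) (nat_lit 1748) (nat_lit 0) (XT.nd (nat_lit 78) (nat_lit 1672) (nat_lit 0) (XT.lf (nat_lit 0) (nat_lit 3654219199) (nat_lit 1672) (nat_lit 4167281814) (nat_lit 76) (nat_lit 2300508695) (nat_lit 501) (nat_lit 5) (nat_lit 523) (nat_lit 5) (nat_lit 502) (nat_lit 5) (nat_lit 575) (nat_lit 551) (nat_lit 434)) (XT.lf (nat_lit 0) (nat_lit 1387724773) (nat_lit 1672) (nat_lit 3755888616) (nat_lit 1748) (nat_lit 5074216551) (nat_lit 479) (nat_lit 5) (nat_lit 501) (nat_lit 5) (nat_lit 502) (nat_lit 5) (nat_lit 576) (nat_lit 551) (nat_lit 433))) (XT.nd (nat_lit 78) (nat_lit 1748) (nat_lit 0) (XT.lf (nat_lit 0) (nat_lit 6674389910) (nat_lit 1748) (nat_lit 3223911600) (nat_lit 76) (nat_lit 417036183) (nat_lit 479) (nat_lit 5) (nat_lit 502) (nat_lit 5) (nat_lit 480) (nat_lit 5) (nat_lit 577) (nat_lit 551) (nat_lit 432)) (XT.nd (nat_lit 78) (nat_lit 0) (nat_lit 0) (XT.lf (nat_lit 0) (nat_lit 2485959395) (nat_lit 1748)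 (nat_lit 5772116626) (nat_lit 1824) (nat_lit 2156276645) (nat_lit 456) (nat_lit 5) (nat_lit 479) (nat_lit 5) (nat_lit 480) (nat_lit 5) (nat_lit 578) (nat_lit 551) (nat_lit 431)) (XT.lf (nat_lit 0) (nat_lit 8337658395) (nat_lit 1748) (nat_lit 1538954449) (nat_lit 1824) (nat_lit 638674446) (nat_lit 456) (nat_lit 5) (nat_lit 479) (nat_lit 5) (nat_lit 480) (nat_lit 5) (nat_lit 579) (nat_lit 551) (nat_lit 430)))))) (XT.nd (nat_lit 390) (nat_lit 2660) (nat_lit 0) (XT.nd (nat_lit 156) (nat_lit 1900) (nat_lit 0) (XT.nd (nat_lit 78) (nat_lit 0) (nat_lit 0) (XT.lf (nat_lit 0) (nat_lit 921512098) (nat_lit 1748) (nat_lit 6921293324) (nat_lit 76) (nat_lit 2774836735) (nat_lit 433) (nat_lit 5) (nat_lit 456) (nat_lit 5) (nat_lit 434) (nat_lit 5) (nat_lit 580) (nat_lit 551) (nat_lit 429)) (XT.lf (nat_lit 0) (nat_lit 2511309644) (nat_lit 1748) (nat_lit 1035215902) (nat_lit 76) (nat_lit 7175297683) (nat_lit 433) (nat_lit 5) (nat_lit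 456) (nat_lit 5) (nat_lit 434) (nat_lit 5) (nat_lit 581) (nat_lit 551) (nat_lit 428))) (XT.nd (nat_lit 78) (nat_lit 912) (nat_lit 0) (XT.lf (nat_lit 0) (nat_lit 4153540044) (nat_lit 1064) (nat_lit 5814993533) (nat_lit 76) (nat_lit 859144276) (nat_lit 420) (nat_lit 5) (nat_lit 434) (nat_lit 5) (nat_lit 421) (nat_lit 5) (nat_lit 582) (nat_lit 551) (nat_lit 427)) (XT.nd (nat_lit 78) (nat_lit 0) (nat_lit 0) (XT.lf (nat_lit 0) (nat_lit 223253710) (nat_lit 912) (nat_lit 5619944146) (nat_lit 988) (nat_lit 5092162675) (nat_lit 408) (nat_lit 5) (nat_lit 420) (nat_lit 5) (nat_lit 421) (nat_lit 5) (nat_lit 583) (nat_lit 551) (nat_lit 426)) (XT.lf (nat_lit 0) (nat_lit 6444990374) (nat_lit 912) (nat_lit 1143569238) (nat_lit 988) (nat_lit 3456201600) (nat_lit 408) (nat_lit 5) (nat_lit 420) (nat_lit 5) (nat_lit 421) (nat_lit 5) (nat_lit 584) (nat_lit 551) (nat_lit 425))))) (XT.nd (nat_lit 156) (nat_lit 1748) (nat_lit 0) (XT.nd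 (nat_lit 78) (nat_lit 0) (nat_lit 0) (XT.lf (nat_lit 0) (nat_lit 1617679886) (nat_lit 912) (nat_lit 7767102893) (nat_lit 988) (nat_lit 1771250561) (nat_lit 396) (nat_lit 5) (nat_lit 408) (nat_lit 5) (nat_lit 409) (nat_lit 5) (nat_lit 585) (nat_lit 551) (nat_lit 424)) (XT.lf (nat_lit 0) (nat_lit 7998134803) (nat_lit 912) (nat_lit 3240641814) (nat_lit 988) (nat_lit 30319834) (nat_lit 396) (nat_lit 5) (nat_lit 408) (nat_lit 5) (nat_lit 409) (nat_lit 5) (nat_lit 586) (nat_lit 551) (nat_lit 423))) (XT.nd (nat_lit 78) (nat_lit 836) (nat_lit 0) (XT.lf (nat_lit 0) (nat_lit 1735715650) (nat_lit 912) (nat_lit 8257621795) (nat_lit 76) (nat_lit 1390595546) (nat_lit 384) (nat_lit 5) (nat_lit 396) (nat_lit 5) (nat_lit 385) (nat_lit 5) (nat_lit 587) (nat_lit 551) (nat_lit 422)) (XT.nd (nat_lit 78) (nat_lit 836) (nat_lit 0) (XT.lf (nat_lit 0) (nat_lit 3564112459) (nat_lit 912) (nat_lit 1842715243) (nat_lit 76) (nat_lit 6093687941)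 (nat_lit 384) (nat_lit 5) (nat_lit 396) (nat_lit 5) (nat_lit 385) (nat_lit 5) (nat_lit 588) (nat_lit 551) (nat_lit 421)) (XT.lf (nat_lit 0) (nat_lit 4746913847) (nat_lit 836) (nat_lit 697189134) (nat_lit 912) (nat_lit 6175028733) (nat_lit 373) (nat_lit 5) (nat_lit 384) (nat_lit 5) (nat_lit 385) (nat_lit 5) (nat_lit 589) (nat_lit 551) (nat_lit 420))))))))
noncomputable def xc148 : XT := (XT.nd (nat_lit 1482) (nat_lit 6080) (nat_lit 0) (XT.nd (nat_lit 702) (nat_lit 4180) (nat_lit 0) (XT.nd (nat_lit 312) (nat_lit 2204) (nat_lit 0) (XT.nd (nat_lit 156) (nat_lit 912) (nat_lit 0) (XT.nd (nat_lit 78) (nat_lit 760) (nat_lit 0) (XT.lf (nat_lit 0) (nat_lit 7385216161) (nat_lit 912) (nat_lit 289344830) (nat_lit 76) (nat_lit 4065090890) (nat_lit 373) (nat_lit 5) (nat_lit 385) (nat_lit 5) (nat_lit 374) (nat_lit 5) (nat_lit 590) (nat_lit 551) (nat_lit 419)) (XT.lf (nat_lit 0) (nat_lit 6489958918) (nat_lit 760) (nat_lit 2906664913)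 (nat_lit 836) (nat_lit 2465331366) (nat_lit 363) (nat_lit 5) (nat_lit 373) (nat_lit 5) (nat_lit 374) (nat_lit 5) (nat_lit 591) (nat_lit 551) (nat_lit 418))) (XT.nd (nat_lit 78) (nat_lit 76) (nat_lit 0) (XT.lf (nat_lit 0) (nat_lit 1411983790) (nat_lit 836) (nat_lit 10045014062) (nat_lit 912) (nat_lit 529534111) (nat_lit 352) (nat_lit 5) (nat_lit 363) (nat_lit 5) (nat_lit 364) (nat_lit 5) (nat_lit 592) (nat_lit 551) (nat_lit 417)) (XT.lf (nat_lit 0) (nat_lit 1466570105) (nat_lit 912) (nat_lit 3753306950) (nat_lit 76) (nat_lit 6892726793) (nat_lit 351) (nat_lit 5) (nat_lit 363) (nat_lit 5) (nat_lit 352) (nat_lit 5) (nat_lit 593) (nat_lit 551) (nat_lit 416)))) (XT.nd (nat_lit 156) (nat_lit 1444) (nat_lit 0) (XT.nd (nat_lit 78) (nat_lit 0) (nat_lit 0) (XT.lf (nat_lit 0) (nat_lit 3227475269) (nat_lit 760) (nat_lit 274291314) (nat_lit 836) (nat_lit 8739237394) (nat_lit 341) (nat_lit 5) (nat_lit 351) (nat_lit 5) (nat_lit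 352) (nat_lit 5) (nat_lit 594) (nat_lit 551) (nat_lit 415)) (XT.lf (nat_lit 0) (nat_lit 5619470783) (nat_lit 836) (nat_lit 2019744085) (nat_lit 76) (nat_lit 4731923148) (nat_lit 341) (nat_lit 5) (nat_lit 352) (nat_lit 5) (nat_lit 342) (nat_lit 5) (nat_lit 595) (nat_lit 551) (nat_lit 414))) (XT.nd (nat_lit 78) (nat_lit 684) (nat_lit 0) (XT.lf (nat_lit 0) (nat_lit 5164253606) (nat_lit 760) (nat_lit 2636385427) (nat_lit 836) (nat_lit 4702815448) (nat_lit 331) (nat_lit 5) (nat_lit 341) (nat_lit 5) (nat_lit 342) (nat_lit 5) (nat_lit 596) (nat_lit 551) (nat_lit 413)) (XT.nd (nat_lit 78) (nat_lit 684) (nat_lit 0) (XT.lf (nat_lit 0) (nat_lit 10041021304) (nat_lit 836) (nat_lit 150688335) (nat_lit 76) (nat_lit 2446397730) (nat_lit 331) (nat_lit 5) (nat_lit 342) (nat_lit 5) (nat_lit 332) (nat_lit 5) (nat_lit 597) (nat_lit 551) (nat_lit 412)) (XT.lf (nat_lit 0) (nat_lit 7243698506) (nat_lit 684) (nat_lit 5133212127) (nat_lit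 760) (nat_lit 397530562) (nat_lit 322) (nat_lit 5) (nat_lit 331) (nat_lit 5) (nat_lit 332) (nat_lit 5) (nat_lit 598) (nat_lit 551) (nat_lit 411)))))) (XT.nd (nat_lit 390) (nat_lit 1976) (nat_lit 0) (XT.nd (nat_lit 156) (nat_lit 1368) (nat_lit 0) (XT.nd (nat_lit 78) (nat_lit 0) (nat_lit 0) (XT.lf (nat_lit 0) (nat_lit 1821589008) (nat_lit 836) (nat_lit 11042034646) (nat_lit 76) (nat_lit 49644453) (nat_lit 311) (nat_lit 5) (nat_lit 322) (nat_lit 5) (nat_lit 312) (nat_lit 5) (nat_lit 599) (nat_lit 551) (nat_lit 410)) (XT.lf (nat_lit 0) (nat_lit 4137572189) (nat_lit 836) (nat_lit 3610462331) (nat_lit 76) (nat_lit 5305630162) (nat_lit 311) (nat_lit 5) (nat_lit 322) (nat_lit 5) (nat_lit 312) (nat_lit 5) (nat_lit 600) (nat_lit 551) (nat_lit 409))) (XT.nd (nat_lit 78) (nat_lit 684) (nat_lit 0) (XT.lf (nat_lit 0) (nat_lit 4006920720) (nat_lit 684) (nat_lit 2505680108) (nat_lit 760) (nat_lit 6684015572) (nat_lit 302) (nat_lit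 5) (nat_lit 311) (nat_lit 5) (nat_lit 312) (nat_lit 5) (nat_lit 601) (nat_lit 551) (nat_lit 408)) (XT.nd (nat_lit 78) (nat_lit 684) (nat_lit 0) (XT.lf (nat_lit 0) (nat_lit 8964825364) (nat_lit 760) (nat_lit 1550481295) (nat_lit 76) (nat_lit 2826528278) (nat_lit 302) (nat_lit 5) (nat_lit 312) (nat_lit 5) (nat_lit 303) (nat_lit 5) (nat_lit 602) (nat_lit 551) (nat_lit 407)) (XT.lf (nat_lit 0) (nat_lit 6292230128) (nat_lit 684) (nat_lit 5218426923) (nat_lit 760) (nat_lit 1978411201) (nat_lit 293) (nat_lit 5) (nat_lit 302) (nat_lit 5) (nat_lit 303) (nat_lit 5) (nat_lit 603) (nat_lit 551) (nat_lit 406))))) (XT.nd (nat_lit 156) (nat_lit 1292) (nat_lit 0) (XT.nd (nat_lit 78) (nat_lit 0) (nat_lit 0) (XT.lf (nat_lit 0) (nat_lit 465287463) (nat_lit 684) (nat_lit 12976359764) (nat_lit 76) (nat_lit 197474443) (nat_lit 284) (nat_lit 5) (nat_lit 293) (nat_lit 5) (nat_lit 285) (nat_lit 5) (nat_lit 604) (nat_lit 551) (nat_lit 405))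 (XT.lf (nat_lit 0) (nat_lit 3001887749) (nat_lit 684) (nat_lit 5077509025) (nat_lit 76) (nat_lit 5711109030) (nat_lit 284) (nat_lit 5) (nat_lit 293) (nat_lit 5) (nat_lit 285) (nat_lit 5) (nat_lit 605) (nat_lit 551) (nat_lit 404))) (XT.nd (nat_lit 78) (nat_lit 608) (nat_lit 0) (XT.lf (nat_lit 0) (nat_lit 3003587074) (nat_lit 684) (nat_lit 2592703154) (nat_lit 760) (nat_lit 8348487521) (nat_lit 275) (nat_lit 5) (nat_lit 284) (nat_lit 5) (nat_lit 285) (nat_lit 5) (nat_lit 606) (nat_lit 551) (nat_lit 403)) (XT.nd (nat_lit 78) (nat_lit 608) (nat_lit 0) (XT.lf (nat_lit 0) (nat_lit 8284078650) (nat_lit 760) (nat_lit 2821303579) (nat_lit 76) (nat_lit 2995924449) (nat_lit 275) (nat_lit 5) (nat_lit 285) (nat_lit 5) (nat_lit 276) (nat_lit 5) (nat_lit 607) (nat_lit 551) (nat_lit 402)) (XT.lf (nat_lit 0) (nat_lit 5501002631) (nat_lit 608) (nat_lit 5565445133) (nat_lit 684) (nat_lit 3193703398) (nat_lit 267) (nat_lit 5) (nat_lit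 275) (nat_lit 5) (nat_lit 276) (nat_lit 5) (nat_lit 608) (nat_lit 551) (nat_lit 401))))))) (XT.nd (nat_lit 702) (nat_lit 3116) (nat_lit 0) (XT.nd (nat_lit 312) (nat_lit 1748) (nat_lit 0) (XT.nd (nat_lit 156) (nat_lit 532) (nat_lit 0) (XT.nd (nat_lit 78) (nat_lit 684) (nat_lit 0) (XT.lf (nat_lit 0) (nat_lit 13912135365) (nat_lit 684) (nat_lit 409552028) (nat_lit 76) (nat_lit 100333164) (nat_lit 267) (nat_lit 5) (nat_lit 276) (nat_lit 5) (nat_lit 268) (nat_lit 5) (nat_lit 609) (nat_lit 551) (nat_lit 400)) (XT.lf (nat_lit 0) (nat_lit 2277056951) (nat_lit 684) (nat_lit 6438097152) (nat_lit 76) (nat_lit 5870112102) (nat_lit 258) (nat_lit 5) (nat_lit 267) (nat_lit 5) (nat_lit 259) (nat_lit 5) (nat_lit 610) (nat_lit 551) (nat_lit 399))) (XT.nd (nat_lit 78) (nat_lit 0) (nat_lit 0) (XT.lf (nat_lit 0) (nat_lit 2138667653) (nat_lit 532) (nat_lit 2979251306) (nat_lit 608) (nat_lit 9633691595) (nat_lit 251) (nat_lit 5) (nat_lit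 258) (nat_lit 5) (nat_lit 259) (nat_lit 5) (nat_lit 611) (nat_lit 551) (nat_lit 398)) (XT.lf (nat_lit 0) (nat_lit 8066191788) (nat_lit 608) (nat_lit 3980062700) (nat_lit 76) (nat_lit 2874016765) (nat_lit 251) (nat_lit 5) (nat_lit 259) (nat_lit 5) (nat_lit 252) (nat_lit 5) (nat_lit 612) (nat_lit 551) (nat_lit 397)))) (XT.nd (nat_lit 156) (nat_lit 1140) (nat_lit 0) (XT.nd (nat_lit 78) (nat_lit 0) (nat_lit 0) (XT.lf (nat_lit 0) (nat_lit 4854755287) (nat_lit 608) (nat_lit 6258613071) (nat_lit 684) (nat_lit 3978139349) (nat_lit 243) (nat_lit 5) (nat_lit 251) (nat_lit 5) (nat_lit 252) (nat_lit 5) (nat_lit 613) (nat_lit 551) (nat_lit 396)) (XT.lf (nat_lit 0) (nat_lit 13905656218) (nat_lit 608) (nat_lit 331355658) (nat_lit 684) (nat_lit 1028847831) (nat_lit 243) (nat_lit 5) (nat_lit 251) (nat_lit 5) (nat_lit 252) (nat_lit 5) (nat_lit 614) (nat_lit 551) (nat_lit 395))) (XT.nd (nat_lit 78) (nat_lit 532) (nat_lit 0) (XT.lf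 (nat_lit 0) (nat_lit 2030366765) (nat_lit 608) (nat_lit 7711670976) (nat_lit 76) (nat_lit 5699867246) (nat_lit 235) (nat_lit 5) (nat_lit 243) (nat_lit 5) (nat_lit 236) (nat_lit 5) (nat_lit 615) (nat_lit 551) (nat_lit 394)) (XT.nd (nat_lit 78) (nat_lit 0) (nat_lit 0) (XT.lf (nat_lit 0) (nat_lit 1394318860) (nat_lit 532) (nat_lit 3752180563) (nat_lit 608) (nat_lit 10474646744) (nat_lit 228) (nat_lit 5) (nat_lit 235) (nat_lit 5) (nat_lit 236) (nat_lit 5) (nat_lit 616) (nat_lit 551) (nat_lit 393)) (XT.lf (nat_lit 0) (nat_lit 8381512170) (nat_lit 608) (nat_lit 5046251452) (nat_lit 76) (nat_lit 2375078587) (nat_lit 228) (nat_lit 5) (nat_lit 236) (nat_lit 5) (nat_lit 229) (nat_lit 5) (nat_lit 617) (nat_lit 551) (nat_lit 392)))))) (XT.nd (nat_lit 390) (nat_lit 1520) (nat_lit 0) (XT.nd (nat_lit 156) (nat_lit 1064) (nat_lit 0) (XT.nd (nat_lit 78) (nat_lit 0) (nat_lit 0) (XT.lf (nat_lit 0) (nat_lit 4335608648) (nat_lit 532)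 (nat_lit 7387986683) (nat_lit 608) (nat_lit 4263730597) (nat_lit 221) (nat_lit 5) (nat_lit 228) (nat_lit 5) (nat_lit 229) (nat_lit 5) (nat_lit 618) (nat_lit 551) (nat_lit 391)) (XT.lf (nat_lit 0) (nat_lit 13959262883) (nat_lit 532) (nat_lit 1196607817) (nat_lit 608) (nat_lit 1019162752) (nat_lit 221) (nat_lit 5) (nat_lit 228) (nat_lit 5) (nat_lit 229) (nat_lit 5) (nat_lit 619) (nat_lit 551) (nat_lit 390))) (XT.nd (nat_lit 78) (nat_lit 456) (nat_lit 0) (XT.lf (nat_lit 0) (nat_lit 2332064340) (nat_lit 608) (nat_lit 8921070208) (nat_lit 76) (nat_lit 5111628158) (nat_lit 213) (nat_lit 5) (nat_lit 221) (nat_lit 5) (nat_lit 214) (nat_lit 5) (nat_lit 620) (nat_lit 551) (nat_lit 389)) (XT.nd (nat_lit 78) (nat_lit 0) (nat_lit 0) (XT.lf (nat_lit 0) (nat_lit 749249947) (nat_lit 456) (nat_lit 5004901258) (nat_lit 532) (nat_lit 10803652044) (nat_lit 207) (nat_lit 5) (nat_lit 213) (nat_lit 5) (nat_lit 214) (nat_lit 5) (nat_lit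 621) (nat_lit 551) (nat_lit 388)) (XT.lf (nat_lit 0) (nat_lit 9303622337) (nat_lit 532) (nat_lit 6043164588) (nat_lit 76) (nat_lit 1406739882) (nat_lit 207) (nat_lit 5) (nat_lit 214) (nat_lit 5) (nat_lit 208) (nat_lit 5) (nat_lit 622) (nat_lit 551) (nat_lit 387))))) (XT.nd (nat_lit 156) (nat_lit 988) (nat_lit 0) (XT.nd (nat_lit 78) (nat_lit 0) (nat_lit 0) (XT.lf (nat_lit 0) (nat_lit 3921821372) (nat_lit 532) (nat_lit 9050866786) (nat_lit 608) (nat_lit 3979505603) (nat_lit 200) (nat_lit 5) (nat_lit 207) (nat_lit 5) (nat_lit 208) (nat_lit 5) (nat_lit 623) (nat_lit 551) (nat_lit 386)) (XT.lf (nat_lit 0) (nat_lit 14154114968) (nat_lit 532) (nat_lit 2591676133) (nat_lit 608) (nat_lit 408430849) (nat_lit 200) (nat_lit 5) (nat_lit 207) (nat_lit 5) (nat_lit 208) (nat_lit 5) (nat_lit 624) (nat_lit 551) (nat_lit 385))) (XT.nd (nat_lit 78) (nat_lit 456) (nat_lit 0) (XT.lf (nat_lit 0) (nat_lit 3255599798) (nat_lit 532) (nat_lit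 10093865837) (nat_lit 76) (nat_lit 4009127090) (nat_lit 193) (nat_lit 5) (nat_lit 200) (nat_lit 5) (nat_lit 194) (nat_lit 5) (nat_lit 625) (nat_lit 551) (nat_lit 384)) (XT.nd (nat_lit 78) (nat_lit 0) (nat_lit 0) (XT.lf (nat_lit 0) (nat_lit 177356397) (nat_lit 456) (nat_lit 6838979951) (nat_lit 532) (nat_lit 10550083644) (nat_lit 187) (nat_lit 5) (nat_lit 193) (nat_lit 5) (nat_lit 194) (nat_lit 5) (nat_lit 626) (nat_lit 551) (nat_lit 383)) (XT.lf (nat_lit 0) (nat_lit 10777074682) (nat_lit 456) (nat_lit 133357342) (nat_lit 532) (nat_lit 6866809827) (nat_lit 187) (nat_lit 5) (nat_lit 193) (nat_lit 5) (nat_lit 194) (nat_lit 5) (nat_lit 627) (nat_lit 551) (nat_lit 382))))))))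
noncomputable def xc149 : XT := (XT.nd (nat_lit 75660) (nat_lit 0) (nat_lit 27208) (XT.nd (nat_lit 702) (nat_lit 1216) (nat_lit 0) (XT.nd (nat_lit 312) (nat_lit 1292) (nat_lit 0) (XT.nd (nat_lit 156) (nat_lit 456) (nat_lit 0) (XT.nd (nat_lit 78) (nat_lit 76) (nat_lit 0) (XT.lf (nat_lit 0) (nat_lit 3586354413) (nat_lit 456) (nat_lit 11353453244) (nat_lit 532) (nat_lit 3051325445) (nat_lit 181) (nat_lit 5) (nat_lit 187) (nat_lit 5) (nat_lit 188) (nat_lit 5) (nat_lit 628) (nat_lit 551) (nat_lit 381)) (XT.lf (nat_lit 0) (nat_lit 868219763) (nat_lit 532) (nat_lit 3749200439) (nat_lit 76) (nat_lit 13590998239) (nat_lit 180) (nat_lit 5) (nat_lit 187) (nat_lit 5) (nat_lit 181) (nat_lit 5) (nat_lit 629) (nat_lit 551) (nat_lit 380))) (XT.nd (nat_lit 78) (nat_lit 0) (nat_lit 0) (XT.lf (nat_lit 0) (nat_lit 4877788965) (nat_lit 532) (nat_lit 11263907964) (nat_lit 76) (nat_lit 2286900229) (nat_lit 174) (nat_lit 5) (nat_lit 181)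 (nat_lit 5) (nat_lit 175) (nat_lit 5) (nat_lit 630) (nat_lit 551) (nat_lit 379)) (XT.lf (nat_lit 0) (nat_lit 9014310170) (nat_lit 532) (nat_lit 349225293) (nat_lit 76) (nat_lit 9288709619) (nat_lit 174) (nat_lit 5) (nat_lit 181) (nat_lit 5) (nat_lit 175) (nat_lit 5) (nat_lit 631) (nat_lit 551) (nat_lit 378)))) (XT.nd (nat_lit 156) (nat_lit 456) (nat_lit 0) (XT.nd (nat_lit 78) (nat_lit 456) (nat_lit 0) (XT.lf (nat_lit 0) (nat_lit 10913668613) (nat_lit 380) (nat_lit 2381787209) (nat_lit 456) (nat_lit 5583673093) (nat_lit 169) (nat_lit 5) (nat_lit 174) (nat_lit 5) (nat_lit 175) (nat_lit 5) (nat_lit 632) (nat_lit 551) (nat_lit 377)) (XT.lf (nat_lit 0) (nat_lit 3295198832) (nat_lit 456) (nat_lit 14412649924) (nat_lit 532) (nat_lit 1401789996) (nat_lit 163) (nat_lit 5) (nat_lit 169) (nat_lit 5) (nat_lit 170) (nat_lit 5) (nat_lit 633) (nat_lit 551) (nat_lit 376))) (XT.nd (nat_lit 78) (nat_lit 380) (nat_lit 0) (XT.lf (nat_lit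 0) (nat_lit 2886880143) (nat_lit 532) (nat_lit 4502677497) (nat_lit 76) (nat_lit 11953615906) (nat_lit 162) (nat_lit 5) (nat_lit 169) (nat_lit 5) (nat_lit 163) (nat_lit 5) (nat_lit 634) (nat_lit 551) (nat_lit 375)) (XT.nd (nat_lit 78) (nat_lit 0) (nat_lit 0) (XT.lf (nat_lit 0) (nat_lit 7106184538) (nat_lit 380) (nat_lit 173826630) (nat_lit 456) (nat_lit 12300434170) (nat_lit 157) (nat_lit 5) (nat_lit 162) (nat_lit 5) (nat_lit 163) (nat_lit 5) (nat_lit 635) (nat_lit 551) (nat_lit 374)) (XT.lf (nat_lit 0) (nat_lit 11829437903) (nat_lit 456) (nat_lit 873567272) (nat_lit 76) (nat_lit 7118089482) (nat_lit 157) (nat_lit 5) (nat_lit 163) (nat_lit 5) (nat_lit 158) (nat_lit 5) (nat_lit 636) (nat_lit 551) (nat_lit 373)))))) (XT.nd (nat_lit 74568) (nat_lit 0) (nat_lit 31464) (XT.nd (nat_lit 156) (nat_lit 380) (nat_lit 0) (XT.nd (nat_lit 78) (nat_lit 456) (nat_lit 0) (XT.lf (nat_lit 0) (nat_lit 11090591108) (nat_lit 380) (nat_lit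 5443950068) (nat_lit 456) (nat_lit 3530722762) (nat_lit 152) (nat_lit 5) (nat_lit 157) (nat_lit 5) (nat_lit 158) (nat_lit 5) (nat_lit 637) (nat_lit 551) (nat_lit 372)) (XT.lf (nat_lit 0) (nat_lit 1035981711) (nat_lit 456) (nat_lit 17315121891) (nat_lit 76) (nat_lit 1962482899) (nat_lit 146) (nat_lit 5) (nat_lit 152) (nat_lit 5) (nat_lit 147) (nat_lit 5) (nat_lit 638) (nat_lit 551) (nat_lit 371))) (XT.nd (nat_lit 78) (nat_lit 380) (nat_lit 0) (XT.lf (nat_lit 0) (nat_lit 5735074331) (nat_lit 456) (nat_lit 5305721609) (nat_lit 76) (nat_lit 9523846899) (nat_lit 146) (nat_lit 5) (nat_lit 152) (nat_lit 5) (nat_lit 147) (nat_lit 5) (nat_lit 639) (nat_lit 551) (nat_lit 370)) (XT.nd (nat_lit 78) (nat_lit 0) (nat_lit 0) (XT.lf (nat_lit 0) (nat_lit 7023296431) (nat_lit 380) (nat_lit 3542226756) (nat_lit 456) (nat_lit 10254450309) (nat_lit 141) (nat_lit 5) (nat_lit 146) (nat_lit 5) (nat_lit 147) (nat_lit 5) (nat_lit 640) (nat_lit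 551) (nat_lit 369)) (XT.lf (nat_lit 0) (nat_lit 15546906971) (nat_lit 456) (nat_lit 1448513387) (nat_lit 76) (nat_lit 4083904557) (nat_lit 141) (nat_lit 5) (nat_lit 147) (nat_lit 5) (nat_lit 142) (nat_lit 5) (nat_lit 641) (nat_lit 551) (nat_lit 368))))) (XT.nd (nat_lit 156) (nat_lit 0) (nat_lit 0) (XT.nd (nat_lit 78) (nat_lit 0) (nat_lit 0) (XT.lf (nat_lit 0) (nat_lit 795770420) (nat_lit 0) (nat_lit 795770420) (nat_lit 1444) (nat_lit 2608890493) (nat_lit 555) (nat_lit 5) (nat_lit 555) (nat_lit 3) (nat_lit 574) (nat_lit 3) (nat_lit 552) (nat_lit 552) (nat_lit 456)) (XT.lf (nat_lit 0) (nat_lit 4289812322) (nat_lit 1444) (nat_lit 2688654671) (nat_lit 1520) (nat_lit 1484718282) (nat_lit 555) (nat_lit 5) (nat_lit 574) (nat_lit 3) (nat_lit 575) (nat_lit 5) (nat_lit 553) (nat_lit 552) (nat_lit 455))) (XT.nd (nat_lit 78) (nat_lit 0) (nat_lit 0) (XT.lf (nat_lit 76) (nat_lit 1509053528) (nat_lit 0) (nat_lit 3902113731) (nat_lit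 1520) (nat_lit 3115742211) (nat_lit 556) (nat_lit 5) (nat_lit 555) (nat_lit 5) (nat_lit 575) (nat_lit 5) (nat_lit 554) (nat_lit 552) (nat_lit 454)) (XT.nd (nat_lit 78) (nat_lit 0) (nat_lit 76) (XT.lf (nat_lit 76) (nat_lit 5812633720) (nat_lit 0) (nat_lit 732961488) (nat_lit 1520) (nat_lit 2046504860) (nat_lit 556) (nat_lit 5) (nat_lit 555) (nat_lit 5) (nat_lit 575) (nat_lit 5) (nat_lit 555) (nat_lit 552) (nat_lit 453)) (XT.lf (nat_lit 76) (nat_lit 1532697166) (nat_lit 0) (nat_lit 6169417448) (nat_lit 1520) (nat_lit 956496546) (nat_lit 557) (nat_lit 5) (nat_lit 556) (nat_lit 5) (nat_lit 576) (nat_lit 5) (nat_lit 556) (nat_lit 552) (nat_lit 452))))))) (XT.nd (nat_lit 702) (nat_lit 1444) (nat_lit 0) (XT.nd (nat_lit 312) (nat_lit 1368) (nat_lit 0) (XT.nd (nat_lit 156) (nat_lit 0) (nat_lit 76) (XT.nd (nat_lit 78) (nat_lit 0) (nat_lit 76) (XT.lf (nat_lit 0) (nat_lit 150377043) (nat_lit 1520) (nat_lit 2778410909) (nat_lit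 1596) (nat_lit 5797706869) (nat_lit 536) (nat_lit 5) (nat_lit 556) (nat_lit 5) (nat_lit 557) (nat_lit 5) (nat_lit 557) (nat_lit 552) (nat_lit 451)) (XT.lf (nat_lit 0) (nat_lit 1253972550) (nat_lit 1520) (nat_lit 7141944979) (nat_lit 1596) (nat_lit 399948805) (nat_lit 537) (nat_lit 5) (nat_lit 557) (nat_lit 5) (nat_lit 558) (nat_lit 5) (nat_lit 558) (nat_lit 552) (nat_lit 450))) (XT.nd (nat_lit 78) (nat_lit 0) (nat_lit 0) (XT.lf (nat_lit 0) (nat_lit 2392281741) (nat_lit 1520) (nat_lit 2688527916) (nat_lit 1596) (nat_lit 3785567166) (nat_lit 537) (nat_lit 5) (nat_lit 557) (nat_lit 5) (nat_lit 558) (nat_lit 5) (nat_lit 559) (nat_lit 552) (nat_lit 449)) (XT.lf (nat_lit 76) (nat_lit 1863377921) (nat_lit 0) (nat_lit 1677055668) (nat_lit 1596) (nat_lit 5398126696) (nat_lit 538) (nat_lit 5) (nat_lit 537) (nat_lit 5) (nat_lit 558) (nat_lit 5) (nat_lit 560) (nat_lit 552) (nat_lit 448)))) (XT.nd (nat_lit 156) (nat_lit 1520)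 (nat_lit 0) (XT.nd (nat_lit 78) (nat_lit 0) (nat_lit 0) (XT.lf (nat_lit 0) (nat_lit 4716797234) (nat_lit 1520) (nat_lit 2496312454) (nat_lit 1596) (nat_lit 1798976962) (nat_lit 538) (nat_lit 5) (nat_lit 558) (nat_lit 5) (nat_lit 559) (nat_lit 5) (nat_lit 561) (nat_lit 552) (nat_lit 447)) (XT.lf (nat_lit 76) (nat_lit 2176396765) (nat_lit 0) (nat_lit 3741444975) (nat_lit 1596) (nat_lit 3169222858) (nat_lit 539) (nat_lit 5) (nat_lit 538) (nat_lit 5) (nat_lit 559) (nat_lit 5) (nat_lit 562) (nat_lit 552) (nat_lit 446))) (XT.nd (nat_lit 78) (nat_lit 1520) (nat_lit 0) (XT.lf (nat_lit 76) (nat_lit 6961322586) (nat_lit 0) (nat_lit 174627111) (nat_lit 1596) (nat_lit 2027735602) (nat_lit 539) (nat_lit 5) (nat_lit 538) (nat_lit 5) (nat_lit 559) (nat_lit 5) (nat_lit 563) (nat_lit 552) (nat_lit 445)) (XT.nd (nat_lit 78) (nat_lit 1596) (nat_lit 0) (XT.lf (nat_lit 76) (nat_lit 2596368882) (nat_lit 0) (nat_lit 5798206621) (nat_lit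 1596) (nat_lit 846943764) (nat_lit 540) (nat_lit 5) (nat_lit 539) (nat_lit 5) (nat_lit 560) (nat_lit 5) (nat_lit 564) (nat_lit 552) (nat_lit 444)) (XT.lf (nat_lit 0) (nat_lit 345820821) (nat_lit 1596) (nat_lit 1818773441) (nat_lit 1672) (nat_lit 7156412146) (nat_lit 518) (nat_lit 5) (nat_lit 539) (nat_lit 5) (nat_lit 540) (nat_lit 5) (nat_lit 565) (nat_lit 552) (nat_lit 443)))))) (XT.nd (nat_lit 390) (nat_lit 1520) (nat_lit 0) (XT.nd (nat_lit 156) (nat_lit 0) (nat_lit 0) (XT.nd (nat_lit 78) (nat_lit 0) (nat_lit 0) (XT.lf (nat_lit 0) (nat_lit 1559086929) (nat_lit 1596) (nat_lit 6287959302) (nat_lit 1672) (nat_lit 1554769094) (nat_lit 519) (nat_lit 5) (nat_lit 540) (nat_lit 5) (nat_lit 541) (nat_lit 5) (nat_lit 566) (nat_lit 552) (nat_lit 442)) (XT.lf (nat_lit 0) (nat_lit 2801091501) (nat_lit 1596) (nat_lit 1344222084) (nat_lit 1672) (nat_lit 5338841038) (nat_lit 519) (nat_lit 5) (nat_lit 540) (nat_lit 5) (nat_lit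 541) (nat_lit 5) (nat_lit 567) (nat_lit 552) (nat_lit 441))) (XT.nd (nat_lit 78) (nat_lit 0) (nat_lit 76) (XT.lf (nat_lit 76) (nat_lit 3732040273) (nat_lit 0) (nat_lit 338413365) (nat_lit 1672) (nat_lit 5497640312) (nat_lit 520) (nat_lit 5) (nat_lit 519) (nat_lit 5) (nat_lit 541) (nat_lit 5) (nat_lit 568) (nat_lit 552) (nat_lit 440)) (XT.nd (nat_lit 78) (nat_lit 0) (nat_lit 0) (XT.lf (nat_lit 0) (nat_lit 5375951136) (nat_lit 1596) (nat_lit 764223082) (nat_lit 1672) (nat_lit 3513326406) (nat_lit 520) (nat_lit 5) (nat_lit 541) (nat_lit 5) (nat_lit 542) (nat_lit 5) (nat_lit 569) (nat_lit 552) (nat_lit 439)) (XT.lf (nat_lit 76) (nat_lit 4449803345) (nat_lit 0) (nat_lit 2267959897) (nat_lit 1672) (nat_lit 3022651551) (nat_lit 521) (nat_lit 5) (nat_lit 520) (nat_lit 5) (nat_lit 542) (nat_lit 5) (nat_lit 570) (nat_lit 552) (nat_lit 438))))) (XT.nd (nat_lit 156) (nat_lit 1672) (nat_lit 0) (XT.nd (nat_lit 78) (nat_lit 0)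 (nat_lit 0) (XT.lf (nat_lit 0) (nat_lit 8081911092) (nat_lit 1596) (nat_lit 77156847) (nat_lit 1672) (nat_lit 1670092699) (nat_lit 521) (nat_lit 5) (nat_lit 542) (nat_lit 5) (nat_lit 543) (nat_lit 5) (nat_lit 571) (nat_lit 552) (nat_lit 437)) (XT.lf (nat_lit 76) (nat_lit 5279386314) (nat_lit 0) (nat_lit 4223074522) (nat_lit 1672) (nat_lit 416641506) (nat_lit 522) (nat_lit 5) (nat_lit 521) (nat_lit 5) (nat_lit 543) (nat_lit 5) (nat_lit 572) (nat_lit 552) (nat_lit 436))) (XT.nd (nat_lit 78) (nat_lit 0) (nat_lit 76) (XT.lf (nat_lit 76) (nat_lit 721051215) (nat_lit 0) (nat_lit 192377842) (nat_lit 1748) (nat_lit 9097591150) (nat_lit 500) (nat_lit 5) (nat_lit 499) (nat_lit 5) (nat_lit 522) (nat_lit 5) (nat_lit 573) (nat_lit 552) (nat_lit 435)) (XT.nd (nat_lit 78) (nat_lit 0) (nat_lit 0) (XT.lf (nat_lit 0) (nat_lit 2301616056) (nat_lit 1672) (nat_lit 3896528815) (nat_lit 1748) (nat_lit 3905837731) (nat_lit 500) (nat_lit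 5) (nat_lit 522) (nat_lit 5) (nat_lit 523) (nat_lit 5) (nat_lit 574) (nat_lit 552) (nat_lit 434)) (XT.lf (nat_lit 76) (nat_lit 1609028701) (nat_lit 0) (nat_lit 2100948406) (nat_lit 1748) (nat_lit 6488981996) (nat_lit 501) (nat_lit 5) (nat_lit 500) (nat_lit 5) (nat_lit 523) (nat_lit 5) (nat_lit 575) (nat_lit 552) (nat_lit 433))))))))
noncomputable def xc150 : XT := (XT.nd (nat_lit 1482) (nat_lit 7600) (nat_lit 0) (XT.nd (nat_lit 702) (nat_lit 4332) (nat_lit 0) (XT.nd (nat_lit 312) (nat_lit 3648) (nat_lit 0) (XT.nd (nat_lit 156) (nat_lit 1748) (nat_lit 0) (XT.nd (nat_lit 78) (nat_lit 1672) (nat_lit 0) (XT.lf (nat_lit 0) (nat_lit 5167309942) (nat_lit 1672) (nat_lit 3047346875) (nat_lit 76) (nat_lit 2080765233) (nat_lit 501) (nat_lit 5) (nat_lit 523) (nat_lit 5) (nat_lit 502) (nat_lit 5) (nat_lit 576) (nat_lit 552) (nat_lit 432)) (XT.lf (nat_lit 0) (nat_lit 2610843524) (nat_lit 1672) (nat_lit 4055174170) (nat_lit 1748)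 (nat_lit 3727554944) (nat_lit 479) (nat_lit 5) (nat_lit 501) (nat_lit 5) (nat_lit 502) (nat_lit 5) (nat_lit 577) (nat_lit 552) (nat_lit 431))) (XT.nd (nat_lit 78) (nat_lit 1748) (nat_lit 0) (XT.lf (nat_lit 0) (nat_lit 8198148876) (nat_lit 1748) (nat_lit 2086984339) (nat_lit 76) (nat_lit 208486925) (nat_lit 479) (nat_lit 5) (nat_lit 502) (nat_lit 5) (nat_lit 480) (nat_lit 5) (nat_lit 578) (nat_lit 552) (nat_lit 430)) (XT.lf (nat_lit 0) (nat_lit 3729180092) (nat_lit 1748) (nat_lit 6064817402) (nat_lit 1824) (nat_lit 801012436) (nat_lit 456) (nat_lit 5) (nat_lit 479) (nat_lit 5) (nat_lit 480) (nat_lit 5) (nat_lit 579) (nat_lit 552) (nat_lit 429)))) (XT.nd (nat_lit 156) (nat_lit 1900) (nat_lit 0) (XT.nd (nat_lit 78) (nat_lit 1672) (nat_lit 0) (XT.lf (nat_lit 0) (nat_lit 710085734) (nat_lit 1824) (nat_lit 1028665543) (nat_lit 76) (nat_lit 8959660298) (nat_lit 455) (nat_lit 5) (nat_lit 479) (nat_lit 5) (nat_lit 456)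 (nat_lit 5) (nat_lit 580) (nat_lit 552) (nat_lit 428)) (XT.lf (nat_lit 0) (nat_lit 2273069687) (nat_lit 1748) (nat_lit 5851368213) (nat_lit 76) (nat_lit 2678692340) (nat_lit 433) (nat_lit 5) (nat_lit 456) (nat_lit 5) (nat_lit 434) (nat_lit 5) (nat_lit 581) (nat_lit 552) (nat_lit 427))) (XT.nd (nat_lit 78) (nat_lit 912) (nat_lit 0) (XT.lf (nat_lit 0) (nat_lit 130448455) (nat_lit 988) (nat_lit 3738921934) (nat_lit 1064) (nat_lit 7040534364) (nat_lit 420) (nat_lit 5) (nat_lit 433) (nat_lit 5) (nat_lit 434) (nat_lit 5) (nat_lit 582) (nat_lit 552) (nat_lit 426)) (XT.nd (nat_lit 78) (nat_lit 912) (nat_lit 0) (XT.lf (nat_lit 0) (nat_lit 5524884144) (nat_lit 1064) (nat_lit 4727726926) (nat_lit 76) (nat_lit 765660513) (nat_lit 420) (nat_lit 5) (nat_lit 434) (nat_lit 5) (nat_lit 421) (nat_lit 5) (nat_lit 583) (nat_lit 552) (nat_lit 425)) (XT.lf (nat_lit 0) (nat_lit 1423367062) (nat_lit 912) (nat_lit 5807470732) (nat_lit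 988) (nat_lit 3897623878) (nat_lit 408) (nat_lit 5) (nat_lit 420) (nat_lit 5) (nat_lit 421) (nat_lit 5) (nat_lit 584) (nat_lit 552) (nat_lit 424)))))) (XT.nd (nat_lit 390) (nat_lit 2508) (nat_lit 0) (XT.nd (nat_lit 156) (nat_lit 912) (nat_lit 0) (XT.nd (nat_lit 78) (nat_lit 912) (nat_lit 0) (XT.lf (nat_lit 0) (nat_lit 7746094375) (nat_lit 912) (nat_lit 1240095234) (nat_lit 988) (nat_lit 2254362838) (nat_lit 408) (nat_lit 5) (nat_lit 420) (nat_lit 5) (nat_lit 421) (nat_lit 5) (nat_lit 585) (nat_lit 552) (nat_lit 423)) (XT.lf (nat_lit 0) (nat_lit 2839939708) (nat_lit 912) (nat_lit 7961225749) (nat_lit 988) (nat_lit 553231658) (nat_lit 396) (nat_lit 5) (nat_lit 408) (nat_lit 5) (nat_lit 409) (nat_lit 5) (nat_lit 586) (nat_lit 552) (nat_lit 422))) (XT.nd (nat_lit 78) (nat_lit 836) (nat_lit 0) (XT.lf (nat_lit 0) (nat_lit 1182229147) (nat_lit 988) (nat_lit 2153312513) (nat_lit 76) (nat_lit 8134509702) (nat_lit 395) (nat_lit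 5) (nat_lit 408) (nat_lit 5) (nat_lit 396) (nat_lit 5) (nat_lit 587) (nat_lit 552) (nat_lit 421)) (XT.nd (nat_lit 78) (nat_lit 0) (nat_lit 0) (XT.lf (nat_lit 0) (nat_lit 2966890081) (nat_lit 912) (nat_lit 7223444411) (nat_lit 76) (nat_lit 1397175368) (nat_lit 384) (nat_lit 5) (nat_lit 396) (nat_lit 5) (nat_lit 385) (nat_lit 5) (nat_lit 588) (nat_lit 552) (nat_lit 420)) (XT.lf (nat_lit 0) (nat_lit 4808394825) (nat_lit 912) (nat_lit 703756000) (nat_lit 76) (nat_lit 6194745927) (nat_lit 384) (nat_lit 5) (nat_lit 396) (nat_lit 5) (nat_lit 385) (nat_lit 5) (nat_lit 589) (nat_lit 552) (nat_lit 419))))) (XT.nd (nat_lit 156) (nat_lit 912) (nat_lit 0) (XT.nd (nat_lit 78) (nat_lit 760) (nat_lit 0) (XT.lf (nat_lit 0) (nat_lit 6009930057) (nat_lit 836) (nat_lit 700639034) (nat_lit 912) (nat_lit 5117627690) (nat_lit 373) (nat_lit 5) (nat_lit 384) (nat_lit 5) (nat_lit 385) (nat_lit 5) (nat_lit 590) (nat_lit 552) (nat_lit 418))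 (XT.lf (nat_lit 0) (nat_lit 884435813) (nat_lit 760) (nat_lit 7789180137) (nat_lit 836) (nat_lit 3277852427) (nat_lit 363) (nat_lit 5) (nat_lit 373) (nat_lit 5) (nat_lit 374) (nat_lit 5) (nat_lit 591) (nat_lit 552) (nat_lit 417))) (XT.nd (nat_lit 78) (nat_lit 912) (nat_lit 0) (XT.lf (nat_lit 0) (nat_lit 7780042102) (nat_lit 760) (nat_lit 2924746678) (nat_lit 836) (nat_lit 1371841428) (nat_lit 363) (nat_lit 5) (nat_lit 373) (nat_lit 5) (nat_lit 374) (nat_lit 5) (nat_lit 592) (nat_lit 552) (nat_lit 416)) (XT.nd (nat_lit 78) (nat_lit 0) (nat_lit 0) (XT.lf (nat_lit 0) (nat_lit 580588506) (nat_lit 912) (nat_lit 9592771613) (nat_lit 76) (nat_lit 2030546778) (nat_lit 351) (nat_lit 5) (nat_lit 363) (nat_lit 5) (nat_lit 352) (nat_lit 5) (nat_lit 593) (nat_lit 552) (nat_lit 415)) (XT.lf (nat_lit 0) (nat_lit 2587695101) (nat_lit 912) (nat_lit 2661941054) (nat_lit 76) (nat_lit 7083233650) (nat_lit 351) (nat_lit 5) (nat_lit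 363) (nat_lit 5) (nat_lit 352) (nat_lit 5) (nat_lit 594) (nat_lit 552) (nat_lit 414))))))) (XT.nd (nat_lit 702) (nat_lit 3876) (nat_lit 0) (XT.nd (nat_lit 312) (nat_lit 1520) (nat_lit 0) (XT.nd (nat_lit 156) (nat_lit 1444) (nat_lit 0) (XT.nd (nat_lit 78) (nat_lit 0) (nat_lit 0) (XT.lf (nat_lit 0) (nat_lit 4450782914) (nat_lit 760) (nat_lit 198928304) (nat_lit 836) (nat_lit 7814407351) (nat_lit 341) (nat_lit 5) (nat_lit 351) (nat_lit 5) (nat_lit 352) (nat_lit 5) (nat_lit 595) (nat_lit 552) (nat_lit 413)) (XT.lf (nat_lit 0) (nat_lit 6789148656) (nat_lit 836) (nat_lit 903336317) (nat_lit 76) (nat_lit 4904785621) (nat_lit 341) (nat_lit 5) (nat_lit 352) (nat_lit 5) (nat_lit 342) (nat_lit 5) (nat_lit 596) (nat_lit 552) (nat_lit 412))) (XT.nd (nat_lit 78) (nat_lit 684) (nat_lit 0) (XT.lf (nat_lit 0) (nat_lit 6416730784) (nat_lit 760) (nat_lit 2583939659) (nat_lit 836) (nat_lit 3731831174) (nat_lit 331) (nat_lit 5) (nat_lit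 341) (nat_lit 5) (nat_lit 342) (nat_lit 5) (nat_lit 597) (nat_lit 552) (nat_lit 411)) (XT.lf (nat_lit 0) (nat_lit 1006092197) (nat_lit 684) (nat_lit 10266498893) (nat_lit 760) (nat_lit 1597524634) (nat_lit 322) (nat_lit 5) (nat_lit 331) (nat_lit 5) (nat_lit 332) (nat_lit 5) (nat_lit 598) (nat_lit 552) (nat_lit 410)))) (XT.nd (nat_lit 156) (nat_lit 684) (nat_lit 0) (XT.nd (nat_lit 78) (nat_lit 760) (nat_lit 0) (XT.lf (nat_lit 0) (nat_lit 618199916) (nat_lit 760) (nat_lit 4486002161) (nat_lit 76) (nat_lit 7905279917) (nat_lit 321) (nat_lit 5) (nat_lit 331) (nat_lit 5) (nat_lit 322) (nat_lit 5) (nat_lit 599) (nat_lit 552) (nat_lit 409)) (XT.lf (nat_lit 0) (nat_lit 2864755503) (nat_lit 836) (nat_lit 10098393394) (nat_lit 76) (nat_lit 188119079) (nat_lit 311) (nat_lit 5) (nat_lit 322) (nat_lit 5) (nat_lit 312) (nat_lit 5) (nat_lit 600) (nat_lit 552) (nat_lit 408))) (XT.nd (nat_lit 78) (nat_lit 684) (nat_lit 0) (XT.lf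 (nat_lit 0) (nat_lit 5207318451) (nat_lit 836) (nat_lit 2541022611) (nat_lit 76) (nat_lit 5546528783) (nat_lit 311) (nat_lit 5) (nat_lit 322) (nat_lit 5) (nat_lit 312) (nat_lit 5) (nat_lit 601) (nat_lit 552) (nat_lit 407)) (XT.nd (nat_lit 78) (nat_lit 0) (nat_lit 0) (XT.lf (nat_lit 0) (nat_lit 5221197252) (nat_lit 684) (nat_lit 2396661148) (nat_lit 760) (nat_lit 5823064496) (nat_lit 302) (nat_lit 5) (nat_lit 311) (nat_lit 5) (nat_lit 312) (nat_lit 5) (nat_lit 602) (nat_lit 552) (nat_lit 406)) (XT.lf (nat_lit 0) (nat_lit 10101022606) (nat_lit 760) (nat_lit 451362730) (nat_lit 76) (nat_lit 3037025030) (nat_lit 302) (nat_lit 5) (nat_lit 312) (nat_lit 5) (nat_lit 303) (nat_lit 5) (nat_lit 603) (nat_lit 552) (nat_lit 405)))))) (XT.nd (nat_lit 390) (nat_lit 1824) (nat_lit 0) (XT.nd (nat_lit 156) (nat_lit 684) (nat_lit 0) (XT.nd (nat_lit 78) (nat_lit 684) (nat_lit 0) (XT.lf (nat_lit 0) (nat_lit 7540767868) (nat_lit 684)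 (nat_lit 5145529568) (nat_lit 760) (nat_lit 1053522798) (nat_lit 293) (nat_lit 5) (nat_lit 302) (nat_lit 5) (nat_lit 303) (nat_lit 5) (nat_lit 604) (nat_lit 552) (nat_lit 404)) (XT.lf (nat_lit 0) (nat_lit 1416279104) (nat_lit 684) (nat_lit 12090188471) (nat_lit 76) (nat_lit 386486665) (nat_lit 284) (nat_lit 5) (nat_lit 293) (nat_lit 5) (nat_lit 285) (nat_lit 5) (nat_lit 605) (nat_lit 552) (nat_lit 403))) (XT.nd (nat_lit 78) (nat_lit 684) (nat_lit 0) (XT.lf (nat_lit 0) (nat_lit 3985146966) (nat_lit 684) (nat_lit 4055825393) (nat_lit 76) (nat_lit 6006765263) (nat_lit 284) (nat_lit 5) (nat_lit 293) (nat_lit 5) (nat_lit 285) (nat_lit 5) (nat_lit 606) (nat_lit 552) (nat_lit 402)) (XT.nd (nat_lit 78) (nat_lit 0) (nat_lit 0) (XT.lf (nat_lit 0) (nat_lit 4179502932) (nat_lit 684) (nat_lit 2441076982) (nat_lit 760) (nat_lit 7584734477) (nat_lit 275) (nat_lit 5) (nat_lit 284) (nat_lit 5) (nat_lit 285) (nat_lit 5) (nat_lit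 607) (nat_lit 552) (nat_lit 401)) (XT.lf (nat_lit 0) (nat_lit 9345529841) (nat_lit 760) (nat_lit 1767061120) (nat_lit 76) (nat_lit 3252717012) (nat_lit 275) (nat_lit 5) (nat_lit 285) (nat_lit 5) (nat_lit 276) (nat_lit 5) (nat_lit 608) (nat_lit 552) (nat_lit 400))))) (XT.nd (nat_lit 156) (nat_lit 532) (nat_lit 0) (XT.nd (nat_lit 78) (nat_lit 684) (nat_lit 0) (XT.lf (nat_lit 0) (nat_lit 6714384184) (nat_lit 608) (nat_lit 5458761797) (nat_lit 684) (nat_lit 2354393518) (nat_lit 267) (nat_lit 5) (nat_lit 275) (nat_lit 5) (nat_lit 276) (nat_lit 5) (nat_lit 609) (nat_lit 552) (nat_lit 399)) (XT.lf (nat_lit 0) (nat_lit 366499892) (nat_lit 684) (nat_lit 14006190206) (nat_lit 76) (nat_lit 320140034) (nat_lit 258) (nat_lit 5) (nat_lit 267) (nat_lit 5) (nat_lit 259) (nat_lit 5) (nat_lit 610) (nat_lit 552) (nat_lit 398))) (XT.nd (nat_lit 78) (nat_lit 532) (nat_lit 0) (XT.lf (nat_lit 0) (nat_lit 3187821933) (nat_lit 684) (nat_lit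 5464677271) (nat_lit 76) (nat_lit 6207066736) (nat_lit 258) (nat_lit 5) (nat_lit 267) (nat_lit 5) (nat_lit 259) (nat_lit 5) (nat_lit 611) (nat_lit 552) (nat_lit 397)) (XT.nd (nat_lit 78) (nat_lit 0) (nat_lit 0) (XT.lf (nat_lit 0) (nat_lit 3276371634) (nat_lit 532) (nat_lit 2799273390) (nat_lit 608) (nat_lit 8953791258) (nat_lit 251) (nat_lit 5) (nat_lit 258) (nat_lit 5) (nat_lit 259) (nat_lit 5) (nat_lit 612) (nat_lit 552) (nat_lit 396)) (XT.lf (nat_lit 0) (nat_lit 9067636297) (nat_lit 608) (nat_lit 2970858356) (nat_lit 76) (nat_lit 3163282425) (nat_lit 251) (nat_lit 5) (nat_lit 259) (nat_lit 5) (nat_lit 252) (nat_lit 5) (nat_lit 613) (nat_lit 552) (nat_lit 395))))))))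
noncomputable def xc151 : XT := (XT.nd (nat_lit 1482) (nat_lit 2128) (nat_lit 0) (XT.nd (nat_lit 702) (nat_lit 2888) (nat_lit 0) (XT.nd (nat_lit 312) (nat_lit 1596) (nat_lit 0) (XT.nd (nat_lit 156) (nat_lit 1140) (nat_lit 0) (XT.nd (nat_lit 78) (nat_lit 0) (nat_lit 0) (XT.lf (nat_lit 0) (nat_lit 6033492796) (nat_lit 608) (nat_lit 6132813389) (nat_lit 684) (nat_lit 3210322988) (nat_lit 243) (nat_lit 5) (nat_lit 251) (nat_lit 5) (nat_lit 252) (nat_lit 5) (nat_lit 614) (nat_lit 552) (nat_lit 394)) (XT.lf (nat_lit 0) (nat_lit 15244203070) (nat_lit 608) (nat_lit 91931846) (nat_lit 684) (nat_lit 218660916) (nat_lit 243) (nat_lit 5) (nat_lit 251) (nat_lit 5) (nat_lit 252) (nat_lit 5) (nat_lit 615) (nat_lit 552) (nat_lit 393))) (XT.nd (nat_lit 78) (nat_lit 532) (nat_lit 0) (XT.lf (nat_lit 0) (nat_lit 2883324104) (nat_lit 608) (nat_lit 6786875434) (nat_lit 76) (nat_lit 6064206765) (nat_lit 235) (nat_lit 5) (nat_lit 243)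 (nat_lit 5) (nat_lit 236) (nat_lit 5) (nat_lit 616) (nat_lit 552) (nat_lit 392)) (XT.lf (nat_lit 0) (nat_lit 2494135324) (nat_lit 532) (nat_lit 3558675341) (nat_lit 608) (nat_lit 9864602777) (nat_lit 228) (nat_lit 5) (nat_lit 235) (nat_lit 5) (nat_lit 236) (nat_lit 5) (nat_lit 617) (nat_lit 552) (nat_lit 391)))) (XT.nd (nat_lit 156) (nat_lit 1064) (nat_lit 0) (XT.nd (nat_lit 78) (nat_lit 532) (nat_lit 0) (XT.lf (nat_lit 0) (nat_lit 9338480501) (nat_lit 608) (nat_lit 4082135168) (nat_lit 76) (nat_lit 2682410323) (nat_lit 228) (nat_lit 5) (nat_lit 236) (nat_lit 5) (nat_lit 229) (nat_lit 5) (nat_lit 618) (nat_lit 552) (nat_lit 390)) (XT.lf (nat_lit 0) (nat_lit 5480355283) (nat_lit 532) (nat_lit 7258442287) (nat_lit 608) (nat_lit 3552575663) (nat_lit 221) (nat_lit 5) (nat_lit 228) (nat_lit 5) (nat_lit 229) (nat_lit 5) (nat_lit 619) (nat_lit 552) (nat_lit 389))) (XT.nd (nat_lit 78) (nat_lit 1064) (nat_lit 0) (XT.lf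 (nat_lit 0) (nat_lit 15275736829) (nat_lit 532) (nat_lit 948673179) (nat_lit 608) (nat_lit 258732727) (nat_lit 221) (nat_lit 5) (nat_lit 228) (nat_lit 5) (nat_lit 229) (nat_lit 5) (nat_lit 620) (nat_lit 552) (nat_lit 388)) (XT.nd (nat_lit 78) (nat_lit 456) (nat_lit 0) (XT.lf (nat_lit 0) (nat_lit 3142734356) (nat_lit 608) (nat_lit 8045257327) (nat_lit 76) (nat_lit 5488705977) (nat_lit 213) (nat_lit 5) (nat_lit 221) (nat_lit 5) (nat_lit 214) (nat_lit 5) (nat_lit 621) (nat_lit 552) (nat_lit 387)) (XT.lf (nat_lit 0) (nat_lit 1811533480) (nat_lit 456) (nat_lit 4813548280) (nat_lit 532) (nat_lit 10248682441) (nat_lit 207) (nat_lit 5) (nat_lit 213) (nat_lit 5) (nat_lit 214) (nat_lit 5) (nat_lit 622) (nat_lit 552) (nat_lit 386)))))) (XT.nd (nat_lit 390) (nat_lit 1368) (nat_lit 0) (XT.nd (nat_lit 156) (nat_lit 988) (nat_lit 0) (XT.nd (nat_lit 78) (nat_lit 532) (nat_lit 0) (XT.lf (nat_lit 0) (nat_lit 10232576963) (nat_lit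 532) (nat_lit 5124222630) (nat_lit 76) (nat_lit 1716863475) (nat_lit 207) (nat_lit 5) (nat_lit 214) (nat_lit 5) (nat_lit 208) (nat_lit 5) (nat_lit 623) (nat_lit 552) (nat_lit 385)) (XT.lf (nat_lit 0) (nat_lit 5033222224) (nat_lit 532) (nat_lit 8933942249) (nat_lit 608) (nat_lit 3309297583) (nat_lit 200) (nat_lit 5) (nat_lit 207) (nat_lit 5) (nat_lit 208) (nat_lit 5) (nat_lit 624) (nat_lit 552) (nat_lit 384))) (XT.nd (nat_lit 78) (nat_lit 912) (nat_lit 0) (XT.lf (nat_lit 0) (nat_lit 314319599) (nat_lit 608) (nat_lit 2034980931) (nat_lit 76) (nat_lit 15133478639) (nat_lit 199) (nat_lit 5) (nat_lit 207) (nat_lit 5) (nat_lit 200) (nat_lit 5) (nat_lit 625) (nat_lit 552) (nat_lit 383)) (XT.nd (nat_lit 78) (nat_lit 456) (nat_lit 0) (XT.lf (nat_lit 0) (nat_lit 4040471027) (nat_lit 532) (nat_lit 9267552953) (nat_lit 76) (nat_lit 4383274620) (nat_lit 193) (nat_lit 5) (nat_lit 200) (nat_lit 5) (nat_lit 194) (nat_lit 5) (nat_lit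 626) (nat_lit 552) (nat_lit 382)) (XT.lf (nat_lit 0) (nat_lit 1202329316) (nat_lit 456) (nat_lit 6666611839) (nat_lit 532) (nat_lit 10034492268) (nat_lit 187) (nat_lit 5) (nat_lit 193) (nat_lit 5) (nat_lit 194) (nat_lit 5) (nat_lit 627) (nat_lit 552) (nat_lit 381))))) (XT.nd (nat_lit 156) (nat_lit 912) (nat_lit 0) (XT.nd (nat_lit 78) (nat_lit 456) (nat_lit 0) (XT.lf (nat_lit 0) (nat_lit 11828037183) (nat_lit 532) (nat_lit 6125823070) (nat_lit 76) (nat_lit 164870459) (nat_lit 187) (nat_lit 5) (nat_lit 194) (nat_lit 5) (nat_lit 188) (nat_lit 5) (nat_lit 628) (nat_lit 552) (nat_lit 380)) (XT.lf (nat_lit 0) (nat_lit 4664878255) (nat_lit 456) (nat_lit 11266811052) (nat_lit 532) (nat_lit 2405338036) (nat_lit 181) (nat_lit 5) (nat_lit 187) (nat_lit 5) (nat_lit 188) (nat_lit 5) (nat_lit 629) (nat_lit 552) (nat_lit 379))) (XT.nd (nat_lit 78) (nat_lit 836) (nat_lit 0) (XT.lf (nat_lit 0) (nat_lit 1569644260) (nat_lit 532)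 (nat_lit 2827973887) (nat_lit 76) (nat_lit 14161223339) (nat_lit 180) (nat_lit 5) (nat_lit 187) (nat_lit 5) (nat_lit 181) (nat_lit 5) (nat_lit 630) (nat_lit 552) (nat_lit 378)) (XT.nd (nat_lit 78) (nat_lit 380) (nat_lit 0) (XT.lf (nat_lit 0) (nat_lit 5654446911) (nat_lit 532) (nat_lit 10487954765) (nat_lit 76) (nat_lit 2641122517) (nat_lit 174) (nat_lit 5) (nat_lit 181) (nat_lit 5) (nat_lit 175) (nat_lit 5) (nat_lit 631) (nat_lit 552) (nat_lit 377)) (XT.lf (nat_lit 0) (nat_lit 633700669) (nat_lit 380) (nat_lit 9230796547) (nat_lit 456) (nat_lit 9147333120) (nat_lit 169) (nat_lit 5) (nat_lit 174) (nat_lit 5) (nat_lit 175) (nat_lit 5) (nat_lit 632) (nat_lit 552) (nat_lit 376))))))) (XT.nd (nat_lit 74958) (nat_lit 0) (nat_lit 30020) (XT.nd (nat_lit 312) (nat_lit 1216) (nat_lit 0) (XT.nd (nat_lit 156) (nat_lit 456) (nat_lit 0) (XT.nd (nat_lit 78) (nat_lit 456) (nat_lit 0) (XT.lf (nat_lit 0) (nat_lit 12107083466) (nat_lit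 380) (nat_lit 2113344541) (nat_lit 456) (nat_lit 5023041804) (nat_lit 169) (nat_lit 5) (nat_lit 174) (nat_lit 5) (nat_lit 175) (nat_lit 5) (nat_lit 633) (nat_lit 552) (nat_lit 375)) (XT.lf (nat_lit 0) (nat_lit 4340944763) (nat_lit 456) (nat_lit 14375574966) (nat_lit 532) (nat_lit 762162280) (nat_lit 163) (nat_lit 5) (nat_lit 169) (nat_lit 5) (nat_lit 170) (nat_lit 5) (nat_lit 634) (nat_lit 552) (nat_lit 374))) (XT.nd (nat_lit 78) (nat_lit 380) (nat_lit 0) (XT.lf (nat_lit 0) (nat_lit 3590604990) (nat_lit 532) (nat_lit 3623459912) (nat_lit 76) (nat_lit 12502995433) (nat_lit 162) (nat_lit 5) (nat_lit 169) (nat_lit 5) (nat_lit 163) (nat_lit 5) (nat_lit 635) (nat_lit 552) (nat_lit 373)) (XT.lf (nat_lit 0) (nat_lit 8066132019) (nat_lit 456) (nat_lit 11748952443) (nat_lit 76) (nat_lit 144103551) (nat_lit 157) (nat_lit 5) (nat_lit 163) (nat_lit 5) (nat_lit 158) (nat_lit 5) (nat_lit 636) (nat_lit 552) (nat_lit 372)))) (XT.nd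 (nat_lit 156) (nat_lit 836) (nat_lit 0) (XT.nd (nat_lit 78) (nat_lit 0) (nat_lit 0) (XT.lf (nat_lit 0) (nat_lit 64356809) (nat_lit 380) (nat_lit 12631177694) (nat_lit 456) (nat_lit 7509337163) (nat_lit 152) (nat_lit 5) (nat_lit 157) (nat_lit 5) (nat_lit 158) (nat_lit 5) (nat_lit 637) (nat_lit 552) (nat_lit 371)) (XT.lf (nat_lit 0) (nat_lit 12260674364) (nat_lit 380) (nat_lit 5227469341) (nat_lit 456) (nat_lit 2965913625) (nat_lit 152) (nat_lit 5) (nat_lit 157) (nat_lit 5) (nat_lit 158) (nat_lit 5) (nat_lit 638) (nat_lit 552) (nat_lit 370))) (XT.nd (nat_lit 78) (nat_lit 380) (nat_lit 0) (XT.lf (nat_lit 0) (nat_lit 1679804436) (nat_lit 456) (nat_lit 16700728222) (nat_lit 76) (nat_lit 2326811941) (nat_lit 146) (nat_lit 5) (nat_lit 152) (nat_lit 5) (nat_lit 147) (nat_lit 5) (nat_lit 639) (nat_lit 552) (nat_lit 369)) (XT.nd (nat_lit 78) (nat_lit 380) (nat_lit 0) (XT.lf (nat_lit 0) (nat_lit 6460661201) (nat_lit 456)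 (nat_lit 4469977112) (nat_lit 76) (nat_lit 10033029116) (nat_lit 146) (nat_lit 5) (nat_lit 152) (nat_lit 5) (nat_lit 147) (nat_lit 5) (nat_lit 640) (nat_lit 552) (nat_lit 368)) (XT.lf (nat_lit 0) (nat_lit 8099424848) (nat_lit 380) (nat_lit 3282390983) (nat_lit 456) (nat_lit 9842407924) (nat_lit 141) (nat_lit 5) (nat_lit 146) (nat_lit 5) (nat_lit 147) (nat_lit 5) (nat_lit 641) (nat_lit 552) (nat_lit 367)))))) (XT.nd (nat_lit 390) (nat_lit 0) (nat_lit 0) (XT.nd (nat_lit 156) (nat_lit 1444) (nat_lit 0) (XT.nd (nat_lit 78) (nat_lit 0) (nat_lit 0) (XT.lf (nat_lit 0) (nat_lit 1340794027) (nat_lit 0) (nat_lit 1340794027) (nat_lit 1444) (nat_lit 1581500776) (nat_lit 555) (nat_lit 5) (nat_lit 555) (nat_lit 3) (nat_lit 574) (nat_lit 3) (nat_lit 553) (nat_lit 553) (nat_lit 454)) (XT.lf (nat_lit 0) (nat_lit 6443806753) (nat_lit 1444) (nat_lit 1656359822) (nat_lit 1520) (nat_lit 490552160) (nat_lit 555) (nat_lit 5) (nat_lit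 574) (nat_lit 3) (nat_lit 575) (nat_lit 5) (nat_lit 554) (nat_lit 553) (nat_lit 453))) (XT.nd (nat_lit 78) (nat_lit 1444) (nat_lit 0) (XT.lf (nat_lit 76) (nat_lit 2618157357) (nat_lit 0) (nat_lit 4935883609) (nat_lit 1520) (nat_lit 1102354587) (nat_lit 556) (nat_lit 5) (nat_lit 555) (nat_lit 5) (nat_lit 575) (nat_lit 5) (nat_lit 555) (nat_lit 553) (nat_lit 452)) (XT.nd (nat_lit 78) (nat_lit 1444) (nat_lit 0) (XT.lf (nat_lit 76) (nat_lit 6986653805) (nat_lit 0) (nat_lit 1684608564) (nat_lit 1520) (nat_lit 52432538) (nat_lit 556) (nat_lit 5) (nat_lit 555) (nat_lit 5) (nat_lit 575) (nat_lit 5) (nat_lit 556) (nat_lit 553) (nat_lit 451)) (XT.lf (nat_lit 0) (nat_lit 1007268127) (nat_lit 1520) (nat_lit 6138743576) (nat_lit 1596) (nat_lit 1646157999) (nat_lit 536) (nat_lit 5) (nat_lit 556) (nat_lit 5) (nat_lit 557) (nat_lit 5) (nat_lit 557) (nat_lit 553) (nat_lit 450))))) (XT.nd (nat_lit 156) (nat_lit 0) (nat_lit 76) (XT.nd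 (nat_lit 78) (nat_lit 0) (nat_lit 0) (XT.lf (nat_lit 0) (nat_lit 2084854278) (nat_lit 1520) (nat_lit 1732651398) (nat_lit 1596) (nat_lit 5044557896) (nat_lit 536) (nat_lit 5) (nat_lit 556) (nat_lit 5) (nat_lit 557) (nat_lit 5) (nat_lit 558) (nat_lit 553) (nat_lit 449)) (XT.lf (nat_lit 76) (nat_lit 2783819480) (nat_lit 0) (nat_lit 393249901) (nat_lit 1596) (nat_lit 5756428686) (nat_lit 537) (nat_lit 5) (nat_lit 536) (nat_lit 5) (nat_lit 557) (nat_lit 5) (nat_lit 559) (nat_lit 553) (nat_lit 448))) (XT.nd (nat_lit 78) (nat_lit 0) (nat_lit 0) (XT.lf (nat_lit 0) (nat_lit 4298425553) (nat_lit 1520) (nat_lit 1626946973) (nat_lit 1596) (nat_lit 3080847000) (nat_lit 537) (nat_lit 5) (nat_lit 557) (nat_lit 5) (nat_lit 558) (nat_lit 5) (nat_lit 560) (nat_lit 553) (nat_lit 447)) (XT.nd (nat_lit 78) (nat_lit 0) (nat_lit 76) (XT.lf (nat_lit 76) (nat_lit 3008659141) (nat_lit 0) (nat_lit 2431638037) (nat_lit 1596) (nat_lit 3640140596)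 (nat_lit 538) (nat_lit 5) (nat_lit 537) (nat_lit 5) (nat_lit 558) (nat_lit 5) (nat_lit 561) (nat_lit 553) (nat_lit 446)) (XT.lf (nat_lit 0) (nat_lit 6599734589) (nat_lit 1520) (nat_lit 1419190805) (nat_lit 1596) (nat_lit 1137324472) (nat_lit 538) (nat_lit 5) (nat_lit 558) (nat_lit 5) (nat_lit 559) (nat_lit 5) (nat_lit 562) (nat_lit 553) (nat_lit 445))))))))
noncomputable def xc152 : XT := (XT.nd (nat_lit 1404) (nat_lit 10108) (nat_lit 0) (XT.nd (nat_lit 702) (nat_lit 4788) (nat_lit 0) (XT.nd (nat_lit 312) (nat_lit 0) (nat_lit 76) (XT.nd (nat_lit 156) (nat_lit 1520) (nat_lit 0) (XT.nd (nat_lit 78) (nat_lit 0) (nat_lit 0) (XT.lf (nat_lit 76) (nat_lit 3339557809) (nat_lit 0) (nat_lit 4457440962) (nat_lit 1596) (nat_lit 1436290637) (nat_lit 539) (nat_lit 5) (nat_lit 538) (nat_lit 5) (nat_lit 559) (nat_lit 5) (nat_lit 563) (nat_lit 553) (nat_lit 444)) (XT.lf (nat_lit 76) (nat_lit 8198228556) (nat_lit 0) (nat_lit 806714836)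 (nat_lit 1596) (nat_lit 307195532) (nat_lit 539) (nat_lit 5) (nat_lit 538) (nat_lit 5) (nat_lit 559) (nat_lit 5) (nat_lit 564) (nat_lit 553) (nat_lit 443))) (XT.nd (nat_lit 78) (nat_lit 0) (nat_lit 0) (XT.lf (nat_lit 0) (nat_lit 854718364) (nat_lit 1596) (nat_lit 5620369262) (nat_lit 1672) (nat_lit 2916945636) (nat_lit 518) (nat_lit 5) (nat_lit 539) (nat_lit 5) (nat_lit 540) (nat_lit 5) (nat_lit 565) (nat_lit 553) (nat_lit 442)) (XT.lf (nat_lit 0) (nat_lit 2026532362) (nat_lit 1596) (nat_lit 725663389) (nat_lit 1672) (nat_lit 6721477286) (nat_lit 518) (nat_lit 5) (nat_lit 539) (nat_lit 5) (nat_lit 540) (nat_lit 5) (nat_lit 566) (nat_lit 553) (nat_lit 441)))) (XT.nd (nat_lit 156) (nat_lit 0) (nat_lit 0) (XT.nd (nat_lit 78) (nat_lit 0) (nat_lit 0) (XT.lf (nat_lit 0) (nat_lit 3235112925) (nat_lit 1596) (nat_lit 5255009948) (nat_lit 1672) (nat_lit 1066559721) (nat_lit 519) (nat_lit 5) (nat_lit 540) (nat_lit 5) (nat_lit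 541) (nat_lit 5) (nat_lit 567) (nat_lit 553) (nat_lit 440)) (XT.lf (nat_lit 0) (nat_lit 4469705740) (nat_lit 1596) (nat_lit 235117761) (nat_lit 1672) (nat_lit 4936495550) (nat_lit 519) (nat_lit 5) (nat_lit 540) (nat_lit 5) (nat_lit 541) (nat_lit 5) (nat_lit 568) (nat_lit 553) (nat_lit 439))) (XT.nd (nat_lit 78) (nat_lit 0) (nat_lit 76) (XT.lf (nat_lit 76) (nat_lit 4935196234) (nat_lit 0) (nat_lit 804966497) (nat_lit 1672) (nat_lit 3987265514) (nat_lit 520) (nat_lit 5) (nat_lit 519) (nat_lit 5) (nat_lit 541) (nat_lit 5) (nat_lit 569) (nat_lit 553) (nat_lit 438)) (XT.nd (nat_lit 78) (nat_lit 0) (nat_lit 0) (XT.lf (nat_lit 76) (nat_lit 366006389) (nat_lit 0) (nat_lit 6674070313) (nat_lit 1672) (nat_lit 2775105349) (nat_lit 521) (nat_lit 5) (nat_lit 520) (nat_lit 5) (nat_lit 542) (nat_lit 5) (nat_lit 570) (nat_lit 553) (nat_lit 437)) (XT.lf (nat_lit 76) (nat_lit 5672008410) (nat_lit 0) (nat_lit 2711222726) (nat_lit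 1672) (nat_lit 1521118272) (nat_lit 521) (nat_lit 5) (nat_lit 520) (nat_lit 5) (nat_lit 542) (nat_lit 5) (nat_lit 571) (nat_lit 553) (nat_lit 436)))))) (XT.nd (nat_lit 312) (nat_lit 3344) (nat_lit 0) (XT.nd (nat_lit 156) (nat_lit 0) (nat_lit 0) (XT.nd (nat_lit 78) (nat_lit 1672) (nat_lit 0) (XT.lf (nat_lit 76) (nat_lit 1079244831) (nat_lit 0) (nat_lit 8669869672) (nat_lit 1672) (nat_lit 246271548) (nat_lit 522) (nat_lit 5) (nat_lit 521) (nat_lit 5) (nat_lit 543) (nat_lit 5) (nat_lit 572) (nat_lit 553) (nat_lit 435)) (XT.lf (nat_lit 0) (nat_lit 1067168174) (nat_lit 1672) (nat_lit 3573493101) (nat_lit 1748) (nat_lit 5446909995) (nat_lit 499) (nat_lit 5) (nat_lit 521) (nat_lit 5) (nat_lit 522) (nat_lit 5) (nat_lit 573) (nat_lit 553) (nat_lit 434))) (XT.nd (nat_lit 78) (nat_lit 0) (nat_lit 76) (XT.lf (nat_lit 76) (nat_lit 1884123312) (nat_lit 0) (nat_lit 512452619) (nat_lit 1748) (nat_lit 7785134836) (nat_lit 500)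 (nat_lit 5) (nat_lit 499) (nat_lit 5) (nat_lit 522) (nat_lit 5) (nat_lit 574) (nat_lit 553) (nat_lit 433)) (XT.lf (nat_lit 0) (nat_lit 3781790666) (nat_lit 1672) (nat_lit 2817367162) (nat_lit 1748) (nat_lit 3677993855) (nat_lit 500) (nat_lit 5) (nat_lit 522) (nat_lit 5) (nat_lit 523) (nat_lit 5) (nat_lit 575) (nat_lit 553) (nat_lit 432)))) (XT.nd (nat_lit 156) (nat_lit 3420) (nat_lit 0) (XT.nd (nat_lit 78) (nat_lit 0) (nat_lit 76) (XT.lf (nat_lit 76) (nat_lit 2790689056) (nat_lit 0) (nat_lit 2406972631) (nat_lit 1748) (nat_lit 5176783638) (nat_lit 501) (nat_lit 5) (nat_lit 500) (nat_lit 5) (nat_lit 523) (nat_lit 5) (nat_lit 576) (nat_lit 553) (nat_lit 431)) (XT.lf (nat_lit 0) (nat_lit 6654745297) (nat_lit 1672) (nat_lit 1951738088) (nat_lit 76) (nat_lit 1866946440) (nat_lit 501) (nat_lit 5) (nat_lit 523) (nat_lit 5) (nat_lit 502) (nat_lit 5) (nat_lit 577) (nat_lit 553) (nat_lit 430))) (XT.nd (nat_lit 78) (nat_lit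 1824) (nat_lit 0) (XT.lf (nat_lit 0) (nat_lit 3812007199) (nat_lit 1672) (nat_lit 4351740727) (nat_lit 1748) (nat_lit 2410193376) (nat_lit 479) (nat_lit 5) (nat_lit 501) (nat_lit 5) (nat_lit 502) (nat_lit 5) (nat_lit 578) (nat_lit 553) (nat_lit 429)) (XT.nd (nat_lit 78) (nat_lit 1824) (nat_lit 0) (XT.lf (nat_lit 0) (nat_lit 9698397099) (nat_lit 1748) (nat_lit 973970573) (nat_lit 76) (nat_lit 4188784) (nat_lit 479) (nat_lit 5) (nat_lit 502) (nat_lit 5) (nat_lit 480) (nat_lit 5) (nat_lit 579) (nat_lit 553) (nat_lit 428)) (XT.lf (nat_lit 0) (nat_lit 520143446) (nat_lit 1824) (nat_lit 5832855150) (nat_lit 76) (nat_lit 4427286202) (nat_lit 455) (nat_lit 5) (nat_lit 479) (nat_lit 5) (nat_lit 456) (nat_lit 5) (nat_lit 580) (nat_lit 553) (nat_lit 427))))))) (XT.nd (nat_lit 702) (nat_lit 4712) (nat_lit 0) (XT.nd (nat_lit 312) (nat_lit 2736) (nat_lit 0) (XT.nd (nat_lit 156) (nat_lit 988) (nat_lit 0) (XT.nd (nat_lit 78) (nat_lit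 0) (nat_lit 0) (XT.lf (nat_lit 0) (nat_lit 94139495) (nat_lit 1672) (nat_lit 1931210739) (nat_lit 1748) (nat_lit 8860810068) (nat_lit 433) (nat_lit 5) (nat_lit 455) (nat_lit 5) (nat_lit 456) (nat_lit 5) (nat_lit 581) (nat_lit 553) (nat_lit 426)) (XT.lf (nat_lit 0) (nat_lit 3599891469) (nat_lit 1748) (nat_lit 4806966341) (nat_lit 76) (nat_lit 2586513466) (nat_lit 433) (nat_lit 5) (nat_lit 456) (nat_lit 5) (nat_lit 434) (nat_lit 5) (nat_lit 582) (nat_lit 553) (nat_lit 425))) (XT.nd (nat_lit 78) (nat_lit 0) (nat_lit 0) (XT.lf (nat_lit 0) (nat_lit 1286845679) (nat_lit 988) (nat_lit 3923638951) (nat_lit 1064) (nat_lit 5892153132) (nat_lit 420) (nat_lit 5) (nat_lit 433) (nat_lit 5) (nat_lit 434) (nat_lit 5) (nat_lit 583) (nat_lit 553) (nat_lit 424)) (XT.lf (nat_lit 0) (nat_lit 6873629904) (nat_lit 1064) (nat_lit 3665450939) (nat_lit 76) (nat_lit 674604396) (nat_lit 420) (nat_lit 5) (nat_lit 434) (nat_lit 5) (nat_lit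 421) (nat_lit 5) (nat_lit 584) (nat_lit 553) (nat_lit 423)))) (XT.nd (nat_lit 156) (nat_lit 1824) (nat_lit 0) (XT.nd (nat_lit 78) (nat_lit 0) (nat_lit 0) (XT.lf (nat_lit 0) (nat_lit 2601054201) (nat_lit 912) (nat_lit 5995830549) (nat_lit 988) (nat_lit 2729534401) (nat_lit 408) (nat_lit 5) (nat_lit 420) (nat_lit 5) (nat_lit 421) (nat_lit 5) (nat_lit 585) (nat_lit 553) (nat_lit 422)) (XT.lf (nat_lit 0) (nat_lit 9027702339) (nat_lit 912) (nat_lit 1335691651) (nat_lit 988) (nat_lit 1077840335) (nat_lit 408) (nat_lit 5) (nat_lit 420) (nat_lit 5) (nat_lit 421) (nat_lit 5) (nat_lit 586) (nat_lit 553) (nat_lit 421))) (XT.nd (nat_lit 78) (nat_lit 836) (nat_lit 0) (XT.lf (nat_lit 0) (nat_lit 632074924) (nat_lit 988) (nat_lit 7521408677) (nat_lit 76) (nat_lit 3404122738) (nat_lit 395) (nat_lit 5) (nat_lit 408) (nat_lit 5) (nat_lit 396) (nat_lit 5) (nat_lit 587) (nat_lit 553) (nat_lit 420)) (XT.nd (nat_lit 78) (nat_lit 836)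 (nat_lit 0) (XT.lf (nat_lit 0) (nat_lit 2371530954) (nat_lit 988) (nat_lit 1059443378) (nat_lit 76) (nat_lit 8244995709) (nat_lit 395) (nat_lit 5) (nat_lit 408) (nat_lit 5) (nat_lit 396) (nat_lit 5) (nat_lit 588) (nat_lit 553) (nat_lit 419)) (XT.lf (nat_lit 0) (nat_lit 4176227997) (nat_lit 912) (nat_lit 6215154919) (nat_lit 76) (nat_lit 1404711254) (nat_lit 384) (nat_lit 5) (nat_lit 396) (nat_lit 5) (nat_lit 385) (nat_lit 5) (nat_lit 589) (nat_lit 553) (nat_lit 418)))))) (XT.nd (nat_lit 390) (nat_lit 2204) (nat_lit 0) (XT.nd (nat_lit 156) (nat_lit 1672) (nat_lit 0) (XT.nd (nat_lit 78) (nat_lit 0) (nat_lit 0) (XT.lf (nat_lit 0) (nat_lit 417803725) (nat_lit 836) (nat_lit 5616922747) (nat_lit 912) (nat_lit 5883542307) (nat_lit 373) (nat_lit 5) (nat_lit 384) (nat_lit 5) (nat_lit 385) (nat_lit 5) (nat_lit 590) (nat_lit 553) (nat_lit 417)) (XT.lf (nat_lit 0) (nat_lit 7252848701) (nat_lit 836) (nat_lit 704565423) (nat_lit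 912) (nat_lit 4084934476) (nat_lit 373) (nat_lit 5) (nat_lit 384) (nat_lit 5) (nat_lit 385) (nat_lit 5) (nat_lit 591) (nat_lit 553) (nat_lit 416))) (XT.nd (nat_lit 78) (nat_lit 912) (nat_lit 0) (XT.lf (nat_lit 0) (nat_lit 2039657868) (nat_lit 760) (nat_lit 7905697530) (nat_lit 836) (nat_lit 2223020686) (nat_lit 363) (nat_lit 5) (nat_lit 373) (nat_lit 5) (nat_lit 374) (nat_lit 5) (nat_lit 592) (nat_lit 553) (nat_lit 415)) (XT.nd (nat_lit 78) (nat_lit 912) (nat_lit 0) (XT.lf (nat_lit 0) (nat_lit 9050871708) (nat_lit 760) (nat_lit 2944745328) (nat_lit 836) (nat_lit 300857874) (nat_lit 363) (nat_lit 5) (nat_lit 373) (nat_lit 5) (nat_lit 374) (nat_lit 5) (nat_lit 593) (nat_lit 553) (nat_lit 414)) (XT.lf (nat_lit 0) (nat_lit 1662586153) (nat_lit 912) (nat_lit 8641066227) (nat_lit 76) (nat_lit 2122777636) (nat_lit 351) (nat_lit 5) (nat_lit 363) (nat_lit 5) (nat_lit 352) (nat_lit 5) (nat_lit 594) (nat_lit 553) (nat_lit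 413))))) (XT.nd (nat_lit 156) (nat_lit 1444) (nat_lit 0) (XT.nd (nat_lit 78) (nat_lit 760) (nat_lit 0) (XT.lf (nat_lit 0) (nat_lit 3688846922) (nat_lit 912) (nat_lit 1594041818) (nat_lit 76) (nat_lit 7275506090) (nat_lit 351) (nat_lit 5) (nat_lit 363) (nat_lit 5) (nat_lit 352) (nat_lit 5) (nat_lit 595) (nat_lit 553) (nat_lit 412)) (XT.lf (nat_lit 0) (nat_lit 5653560721) (nat_lit 760) (nat_lit 125197493) (nat_lit 836) (nat_lit 6913780090) (nat_lit 341) (nat_lit 5) (nat_lit 351) (nat_lit 5) (nat_lit 352) (nat_lit 5) (nat_lit 596) (nat_lit 553) (nat_lit 411))) (XT.nd (nat_lit 78) (nat_lit 684) (nat_lit 0) (XT.lf (nat_lit 0) (nat_lit 193010921) (nat_lit 760) (nat_lit 7749406521) (nat_lit 836) (nat_lit 4886310042) (nat_lit 331) (nat_lit 5) (nat_lit 341) (nat_lit 5) (nat_lit 342) (nat_lit 5) (nat_lit 597) (nat_lit 553) (nat_lit 410)) (XT.nd (nat_lit 78) (nat_lit 684) (nat_lit 0) (XT.lf (nat_lit 0) (nat_lit 7649632976)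 (nat_lit 760) (nat_lit 2534528990) (nat_lit 836) (nat_lit 2782784038) (nat_lit 331) (nat_lit 5) (nat_lit 341) (nat_lit 5) (nat_lit 342) (nat_lit 5) (nat_lit 598) (nat_lit 553) (nat_lit 409)) (XT.lf (nat_lit 0) (nat_lit 2142935417) (nat_lit 684) (nat_lit 10346803533) (nat_lit 760) (nat_lit 617811752) (nat_lit 322) (nat_lit 5) (nat_lit 331) (nat_lit 5) (nat_lit 332) (nat_lit 5) (nat_lit 599) (nat_lit 553) (nat_lit 408))))))))
noncomputable def xc153 : XT := (XT.nd (nat_lit 1482) (nat_lit 5396) (nat_lit 0) (XT.nd (nat_lit 702) (nat_lit 3572) (nat_lit 0) (XT.nd (nat_lit 312) (nat_lit 2052) (nat_lit 0) (XT.nd (nat_lit 156) (nat_lit 684) (nat_lit 0) (XT.nd (nat_lit 78) (nat_lit 760) (nat_lit 0) (XT.lf (nat_lit 0) (nat_lit 1609382765) (nat_lit 760) (nat_lit 3467761104) (nat_lit 76) (nat_lit 8172823153) (nat_lit 321) (nat_lit 5) (nat_lit 331) (nat_lit 5) (nat_lit 322) (nat_lit 5) (nat_lit 600) (nat_lit 553) (nat_lit 407))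 (XT.lf (nat_lit 0) (nat_lit 3889692592) (nat_lit 836) (nat_lit 9181097569) (nat_lit 76) (nat_lit 324024615) (nat_lit 311) (nat_lit 5) (nat_lit 322) (nat_lit 5) (nat_lit 312) (nat_lit 5) (nat_lit 601) (nat_lit 553) (nat_lit 406))) (XT.nd (nat_lit 78) (nat_lit 684) (nat_lit 0) (XT.lf (nat_lit 0) (nat_lit 6260133427) (nat_lit 836) (nat_lit 1494525717) (nat_lit 76) (nat_lit 5787011470) (nat_lit 311) (nat_lit 5) (nat_lit 322) (nat_lit 5) (nat_lit 312) (nat_lit 5) (nat_lit 602) (nat_lit 553) (nat_lit 405)) (XT.lf (nat_lit 0) (nat_lit 6415719350) (nat_lit 684) (nat_lit 2291641120) (nat_lit 760) (nat_lit 4983517148) (nat_lit 302) (nat_lit 5) (nat_lit 311) (nat_lit 5) (nat_lit 312) (nat_lit 5) (nat_lit 603) (nat_lit 553) (nat_lit 404)))) (XT.nd (nat_lit 156) (nat_lit 1368) (nat_lit 0) (XT.nd (nat_lit 78) (nat_lit 0) (nat_lit 0) (XT.lf (nat_lit 0) (nat_lit 634171221) (nat_lit 684) (nat_lit 10592732411) (nat_lit 760) (nat_lit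 2615699261) (nat_lit 293) (nat_lit 5) (nat_lit 302) (nat_lit 5) (nat_lit 303) (nat_lit 5) (nat_lit 604) (nat_lit 553) (nat_lit 403)) (XT.lf (nat_lit 0) (nat_lit 8770680820) (nat_lit 684) (nat_lit 5078057717) (nat_lit 760) (nat_lit 147587653) (nat_lit 293) (nat_lit 5) (nat_lit 302) (nat_lit 5) (nat_lit 303) (nat_lit 5) (nat_lit 605) (nat_lit 553) (nat_lit 402))) (XT.nd (nat_lit 78) (nat_lit 684) (nat_lit 0) (XT.lf (nat_lit 0) (nat_lit 2349723767) (nat_lit 684) (nat_lit 11230782620) (nat_lit 76) (nat_lit 572092920) (nat_lit 284) (nat_lit 5) (nat_lit 293) (nat_lit 5) (nat_lit 285) (nat_lit 5) (nat_lit 606) (nat_lit 553) (nat_lit 401)) (XT.nd (nat_lit 78) (nat_lit 684) (nat_lit 0) (XT.lf (nat_lit 0) (nat_lit 4952221553) (nat_lit 684) (nat_lit 3057324627) (nat_lit 76) (nat_lit 6301289315) (nat_lit 284) (nat_lit 5) (nat_lit 293) (nat_lit 5) (nat_lit 285) (nat_lit 5) (nat_lit 607) (nat_lit 553) (nat_lit 400)) (XT.lf (nat_lit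 0) (nat_lit 5335607519) (nat_lit 684) (nat_lit 2294319671) (nat_lit 760) (nat_lit 6841847473) (nat_lit 275) (nat_lit 5) (nat_lit 284) (nat_lit 5) (nat_lit 285) (nat_lit 5) (nat_lit 608) (nat_lit 553) (nat_lit 399)))))) (XT.nd (nat_lit 390) (nat_lit 1748) (nat_lit 0) (XT.nd (nat_lit 156) (nat_lit 1216) (nat_lit 0) (XT.nd (nat_lit 78) (nat_lit 608) (nat_lit 0) (XT.lf (nat_lit 0) (nat_lit 10393426229) (nat_lit 760) (nat_lit 734862424) (nat_lit 76) (nat_lit 3507000566) (nat_lit 275) (nat_lit 5) (nat_lit 285) (nat_lit 5) (nat_lit 276) (nat_lit 5) (nat_lit 609) (nat_lit 553) (nat_lit 398)) (XT.lf (nat_lit 0) (nat_lit 7909188497) (nat_lit 608) (nat_lit 5358409698) (nat_lit 684) (nat_lit 1533369174) (nat_lit 267) (nat_lit 5) (nat_lit 275) (nat_lit 5) (nat_lit 276) (nat_lit 5) (nat_lit 610) (nat_lit 553) (nat_lit 397))) (XT.nd (nat_lit 78) (nat_lit 532) (nat_lit 0) (XT.lf (nat_lit 0) (nat_lit 1222088560) (nat_lit 684) (nat_lit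 13205743594) (nat_lit 76) (nat_lit 541790278) (nat_lit 258) (nat_lit 5) (nat_lit 267) (nat_lit 5) (nat_lit 259) (nat_lit 5) (nat_lit 611) (nat_lit 553) (nat_lit 396)) (XT.nd (nat_lit 78) (nat_lit 532) (nat_lit 0) (XT.lf (nat_lit 0) (nat_lit 4083204518) (nat_lit 684) (nat_lit 4514588056) (nat_lit 76) (nat_lit 6542234976) (nat_lit 258) (nat_lit 5) (nat_lit 267) (nat_lit 5) (nat_lit 259) (nat_lit 5) (nat_lit 612) (nat_lit 553) (nat_lit 395)) (XT.lf (nat_lit 0) (nat_lit 4394312204) (nat_lit 532) (nat_lit 2624998436) (nat_lit 608) (nat_lit 8294176033) (nat_lit 251) (nat_lit 5) (nat_lit 258) (nat_lit 5) (nat_lit 259) (nat_lit 5) (nat_lit 613) (nat_lit 553) (nat_lit 394))))) (XT.nd (nat_lit 156) (nat_lit 1140) (nat_lit 0) (XT.nd (nat_lit 78) (nat_lit 608) (nat_lit 0) (XT.lf (nat_lit 0) (nat_lit 10056486787) (nat_lit 608) (nat_lit 1983749574) (nat_lit 76) (nat_lit 3449332892) (nat_lit 251) (nat_lit 5) (nat_lit 259) (nat_lit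 5) (nat_lit 252) (nat_lit 5) (nat_lit 614) (nat_lit 553) (nat_lit 393)) (XT.lf (nat_lit 0) (nat_lit 7193803562) (nat_lit 608) (nat_lit 6014243259) (nat_lit 684) (nat_lit 2460055064) (nat_lit 243) (nat_lit 5) (nat_lit 251) (nat_lit 5) (nat_lit 252) (nat_lit 5) (nat_lit 615) (nat_lit 553) (nat_lit 392))) (XT.nd (nat_lit 78) (nat_lit 532) (nat_lit 0) (XT.lf (nat_lit 0) (nat_lit 573605705) (nat_lit 608) (nat_lit 15127005981) (nat_lit 76) (nat_lit 149346707) (nat_lit 235) (nat_lit 5) (nat_lit 243) (nat_lit 5) (nat_lit 236) (nat_lit 5) (nat_lit 616) (nat_lit 553) (nat_lit 391)) (XT.nd (nat_lit 78) (nat_lit 532) (nat_lit 0) (XT.lf (nat_lit 0) (nat_lit 3721796048) (nat_lit 608) (nat_lit 5885483990) (nat_lit 76) (nat_lit 6426111982) (nat_lit 235) (nat_lit 5) (nat_lit 243) (nat_lit 5) (nat_lit 236) (nat_lit 5) (nat_lit 617) (nat_lit 553) (nat_lit 390)) (XT.lf (nat_lit 0) (nat_lit 3574323766) (nat_lit 532) (nat_lit 3371728092)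 (nat_lit 608) (nat_lit 9274181547) (nat_lit 228) (nat_lit 5) (nat_lit 235) (nat_lit 5) (nat_lit 236) (nat_lit 5) (nat_lit 618) (nat_lit 553) (nat_lit 389))))))) (XT.nd (nat_lit 702) (nat_lit 2736) (nat_lit 0) (XT.nd (nat_lit 312) (nat_lit 1520) (nat_lit 0) (XT.nd (nat_lit 156) (nat_lit 608) (nat_lit 0) (XT.nd (nat_lit 78) (nat_lit 532) (nat_lit 0) (XT.lf (nat_lit 0) (nat_lit 10283937239) (nat_lit 608) (nat_lit 3140093411) (nat_lit 76) (nat_lit 2985799172) (nat_lit 228) (nat_lit 5) (nat_lit 236) (nat_lit 5) (nat_lit 229) (nat_lit 5) (nat_lit 619) (nat_lit 553) (nat_lit 388)) (XT.lf (nat_lit 0) (nat_lit 6606912083) (nat_lit 532) (nat_lit 7137075060) (nat_lit 608) (nat_lit 2858123962) (nat_lit 221) (nat_lit 5) (nat_lit 228) (nat_lit 5) (nat_lit 229) (nat_lit 5) (nat_lit 620) (nat_lit 553) (nat_lit 387))) (XT.nd (nat_lit 78) (nat_lit 532) (nat_lit 0) (XT.lf (nat_lit 0) (nat_lit 480204303) (nat_lit 608) (nat_lit 222910041)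 (nat_lit 76) (nat_lit 16094834342) (nat_lit 220) (nat_lit 5) (nat_lit 228) (nat_lit 5) (nat_lit 221) (nat_lit 5) (nat_lit 621) (nat_lit 553) (nat_lit 386)) (XT.lf (nat_lit 0) (nat_lit 3939949605) (nat_lit 608) (nat_lit 7192865390) (nat_lit 76) (nat_lit 5862652776) (nat_lit 213) (nat_lit 5) (nat_lit 221) (nat_lit 5) (nat_lit 214) (nat_lit 5) (nat_lit 622) (nat_lit 553) (nat_lit 385)))) (XT.nd (nat_lit 156) (nat_lit 1064) (nat_lit 0) (XT.nd (nat_lit 78) (nat_lit 0) (nat_lit 0) (XT.lf (nat_lit 0) (nat_lit 2854394805) (nat_lit 456) (nat_lit 4629685639) (nat_lit 532) (nat_lit 9712553972) (nat_lit 207) (nat_lit 5) (nat_lit 213) (nat_lit 5) (nat_lit 214) (nat_lit 5) (nat_lit 623) (nat_lit 553) (nat_lit 384)) (XT.lf (nat_lit 0) (nat_lit 11151263662) (nat_lit 532) (nat_lit 4227278739) (nat_lit 76) (nat_lit 2022239571) (nat_lit 207) (nat_lit 5) (nat_lit 214) (nat_lit 5) (nat_lit 208) (nat_lit 5) (nat_lit 624) (nat_lit 553)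 (nat_lit 383))) (XT.nd (nat_lit 78) (nat_lit 532) (nat_lit 0) (XT.lf (nat_lit 0) (nat_lit 6126739827) (nat_lit 532) (nat_lit 8826248668) (nat_lit 608) (nat_lit 2654800978) (nat_lit 200) (nat_lit 5) (nat_lit 207) (nat_lit 5) (nat_lit 208) (nat_lit 5) (nat_lit 625) (nat_lit 553) (nat_lit 382)) (XT.nd (nat_lit 78) (nat_lit 456) (nat_lit 0) (XT.lf (nat_lit 0) (nat_lit 1017890966) (nat_lit 608) (nat_lit 1092959144) (nat_lit 76) (nat_lit 15707569536) (nat_lit 199) (nat_lit 5) (nat_lit 207) (nat_lit 5) (nat_lit 200) (nat_lit 5) (nat_lit 626) (nat_lit 553) (nat_lit 381)) (XT.lf (nat_lit 0) (nat_lit 4813090553) (nat_lit 532) (nat_lit 8464639691) (nat_lit 76) (nat_lit 4753490082) (nat_lit 193) (nat_lit 5) (nat_lit 200) (nat_lit 5) (nat_lit 194) (nat_lit 5) (nat_lit 627) (nat_lit 553) (nat_lit 380)))))) (XT.nd (nat_lit 390) (nat_lit 1292) (nat_lit 0) (XT.nd (nat_lit 156) (nat_lit 988) (nat_lit 0) (XT.nd (nat_lit 78) (nat_lit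 0) (nat_lit 0) (XT.lf (nat_lit 0) (nat_lit 2208138486) (nat_lit 456) (nat_lit 6502800948) (nat_lit 532) (nat_lit 9536803558) (nat_lit 187) (nat_lit 5) (nat_lit 193) (nat_lit 5) (nat_lit 194) (nat_lit 5) (nat_lit 628) (nat_lit 553) (nat_lit 379)) (XT.lf (nat_lit 0) (nat_lit 12737684892) (nat_lit 532) (nat_lit 5274229303) (nat_lit 76) (nat_lit 455663989) (nat_lit 187) (nat_lit 5) (nat_lit 194) (nat_lit 5) (nat_lit 188) (nat_lit 5) (nat_lit 629) (nat_lit 553) (nat_lit 378))) (XT.nd (nat_lit 78) (nat_lit 532) (nat_lit 0) (XT.lf (nat_lit 0) (nat_lit 5725877429) (nat_lit 456) (nat_lit 11190617808) (nat_lit 532) (nat_lit 1773885090) (nat_lit 181) (nat_lit 5) (nat_lit 187) (nat_lit 5) (nat_lit 188) (nat_lit 5) (nat_lit 630) (nat_lit 553) (nat_lit 377)) (XT.nd (nat_lit 78) (nat_lit 456) (nat_lit 0) (XT.lf (nat_lit 0) (nat_lit 2258534360) (nat_lit 532) (nat_lit 1927006874) (nat_lit 76) (nat_lit 14731265507) (nat_lit 180)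 (nat_lit 5) (nat_lit 187) (nat_lit 5) (nat_lit 181) (nat_lit 5) (nat_lit 631) (nat_lit 553) (nat_lit 376)) (XT.lf (nat_lit 0) (nat_lit 6420267652) (nat_lit 532) (nat_lit 9735361535) (nat_lit 76) (nat_lit 2990450431) (nat_lit 174) (nat_lit 5) (nat_lit 181) (nat_lit 5) (nat_lit 175) (nat_lit 5) (nat_lit 632) (nat_lit 553) (nat_lit 375))))) (XT.nd (nat_lit 156) (nat_lit 912) (nat_lit 0) (XT.nd (nat_lit 78) (nat_lit 0) (nat_lit 0) (XT.lf (nat_lit 0) (nat_lit 1602395742) (nat_lit 380) (nat_lit 9105531681) (nat_lit 456) (nat_lit 8671157476) (nat_lit 169) (nat_lit 5) (nat_lit 174) (nat_lit 5) (nat_lit 175) (nat_lit 5) (nat_lit 633) (nat_lit 553) (nat_lit 374)) (XT.lf (nat_lit 0) (nat_lit 13286500683) (nat_lit 380) (nat_lit 1851806729) (nat_lit 456) (nat_lit 4477304301) (nat_lit 169) (nat_lit 5) (nat_lit 174) (nat_lit 5) (nat_lit 175) (nat_lit 5) (nat_lit 634) (nat_lit 553) (nat_lit 373))) (XT.nd (nat_lit 78) (nat_lit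 456) (nat_lit 0) (XT.lf (nat_lit 0) (nat_lit 5369557155) (nat_lit 456) (nat_lit 14350391390) (nat_lit 532) (nat_lit 135668198) (nat_lit 163) (nat_lit 5) (nat_lit 169) (nat_lit 5) (nat_lit 170) (nat_lit 5) (nat_lit 635) (nat_lit 553) (nat_lit 372)) (XT.nd (nat_lit 78) (nat_lit 380) (nat_lit 0) (XT.lf (nat_lit 0) (nat_lit 4283319862) (nat_lit 532) (nat_lit 2764295955) (nat_lit 76) (nat_lit 13051312943) (nat_lit 162) (nat_lit 5) (nat_lit 169) (nat_lit 5) (nat_lit 163) (nat_lit 5) (nat_lit 636) (nat_lit 553) (nat_lit 371)) (XT.lf (nat_lit 0) (nat_lit 8844209557) (nat_lit 456) (nat_lit 11048096809) (nat_lit 76) (nat_lit 453676655) (nat_lit 157) (nat_lit 5) (nat_lit 163) (nat_lit 5) (nat_lit 158) (nat_lit 5) (nat_lit 637) (nat_lit 553) (nat_lit 370))))))))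
noncomputable def xc154 : XT := (XT.nd (nat_lit 75738) (nat_lit 0) (nat_lit 20292) (XT.nd (nat_lit 74958) (nat_lit 0) (nat_lit 28576) (XT.nd (nat_lit 312) (nat_lit 380) (nat_lit 0) (XT.nd (nat_lit 156) (nat_lit 456) (nat_lit 0) (XT.nd (nat_lit 78) (nat_lit 0) (nat_lit 0) (XT.lf (nat_lit 0) (nat_lit 995321821) (nat_lit 380) (nat_lit 12564821122) (nat_lit 456) (nat_lit 7036559600) (nat_lit 152) (nat_lit 5) (nat_lit 157) (nat_lit 5) (nat_lit 158) (nat_lit 5) (nat_lit 638) (nat_lit 553) (nat_lit 369)) (XT.lf (nat_lit 0) (nat_lit 13417336749) (nat_lit 380) (nat_lit 5019293114) (nat_lit 456) (nat_lit 2414482577) (nat_lit 152) (nat_lit 5) (nat_lit 157) (nat_lit 5) (nat_lit 158) (nat_lit 5) (nat_lit 639) (nat_lit 553) (nat_lit 368))) (XT.nd (nat_lit 78) (nat_lit 0) (nat_lit 0) (XT.lf (nat_lit 0) (nat_lit 2312307763) (nat_lit 456) (nat_lit 16111351680) (nat_lit 76) (nat_lit 2685804336) (nat_lit 146) (nat_lit 5) (nat_lit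 152) (nat_lit 5) (nat_lit 147) (nat_lit 5) (nat_lit 640) (nat_lit 553) (nat_lit 367)) (XT.lf (nat_lit 0) (nat_lit 7177038384) (nat_lit 456) (nat_lit 3654091256) (nat_lit 76) (nat_lit 10540019262) (nat_lit 146) (nat_lit 5) (nat_lit 152) (nat_lit 5) (nat_lit 147) (nat_lit 5) (nat_lit 641) (nat_lit 553) (nat_lit 366)))) (XT.nd (nat_lit 74412) (nat_lit 0) (nat_lit 29944) (XT.nd (nat_lit 74334) (nat_lit 0) (nat_lit 31464) (XT.lf (nat_lit 0) (nat_lit 9160742918) (nat_lit 380) (nat_lit 3030199213) (nat_lit 456) (nat_lit 9446088656) (nat_lit 141) (nat_lit 5) (nat_lit 146) (nat_lit 5) (nat_lit 147) (nat_lit 5) (nat_lit 642) (nat_lit 553) (nat_lit 365)) (XT.lf (nat_lit 0) (nat_lit 1876172189) (nat_lit 0) (nat_lit 1876172189) (nat_lit 1444) (nat_lit 575484187) (nat_lit 555) (nat_lit 5) (nat_lit 555) (nat_lit 3) (nat_lit 574) (nat_lit 3) (nat_lit 554) (nat_lit 554) (nat_lit 452))) (XT.nd (nat_lit 78) (nat_lit 1520) (nat_lit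 0) (XT.lf (nat_lit 0) (nat_lit 8073584737) (nat_lit 0) (nat_lit 490168176) (nat_lit 1444) (nat_lit 158606738) (nat_lit 555) (nat_lit 5) (nat_lit 555) (nat_lit 3) (nat_lit 574) (nat_lit 3) (nat_lit 555) (nat_lit 554) (nat_lit 451)) (XT.nd (nat_lit 78) (nat_lit 0) (nat_lit 0) (XT.lf (nat_lit 0) (nat_lit 859279361) (nat_lit 1520) (nat_lit 5088171239) (nat_lit 1596) (nat_lit 2842501799) (nat_lit 535) (nat_lit 5) (nat_lit 555) (nat_lit 5) (nat_lit 556) (nat_lit 5) (nat_lit 556) (nat_lit 554) (nat_lit 450)) (XT.lf (nat_lit 0) (nat_lit 1877547981) (nat_lit 1520) (nat_lit 728756884) (nat_lit 1596) (nat_lit 6252932576) (nat_lit 535) (nat_lit 5) (nat_lit 555) (nat_lit 5) (nat_lit 556) (nat_lit 5) (nat_lit 557) (nat_lit 554) (nat_lit 449)))))) (XT.nd (nat_lit 390) (nat_lit 1444) (nat_lit 0) (XT.nd (nat_lit 156) (nat_lit 0) (nat_lit 0) (XT.nd (nat_lit 78) (nat_lit 0) (nat_lit 0) (XT.lf (nat_lit 0) (nat_lit 2921011229) (nat_lit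 1520) (nat_lit 5181785379) (nat_lit 1596) (nat_lit 827019286) (nat_lit 536) (nat_lit 5) (nat_lit 556) (nat_lit 5) (nat_lit 557) (nat_lit 5) (nat_lit 558) (nat_lit 554) (nat_lit 448)) (XT.lf (nat_lit 0) (nat_lit 3983019736) (nat_lit 1520) (nat_lit 708742595) (nat_lit 1596) (nat_lit 4310094275) (nat_lit 536) (nat_lit 5) (nat_lit 556) (nat_lit 5) (nat_lit 557) (nat_lit 5) (nat_lit 559) (nat_lit 554) (nat_lit 447))) (XT.nd (nat_lit 78) (nat_lit 0) (nat_lit 76) (XT.lf (nat_lit 76) (nat_lit 3891093478) (nat_lit 0) (nat_lit 1176411991) (nat_lit 1596) (nat_lit 4007812048) (nat_lit 537) (nat_lit 5) (nat_lit 536) (nat_lit 5) (nat_lit 557) (nat_lit 5) (nat_lit 560) (nat_lit 554) (nat_lit 446)) (XT.nd (nat_lit 78) (nat_lit 0) (nat_lit 0) (XT.lf (nat_lit 0) (nat_lit 6170532258) (nat_lit 1520) (nat_lit 587444870) (nat_lit 1596) (nat_lit 2392337537) (nat_lit 537) (nat_lit 5) (nat_lit 557) (nat_lit 5) (nat_lit 558) (nat_lit 5)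 (nat_lit 561) (nat_lit 554) (nat_lit 445)) (XT.lf (nat_lit 76) (nat_lit 4133820465) (nat_lit 0) (nat_lit 3173313143) (nat_lit 1596) (nat_lit 1919451834) (nat_lit 538) (nat_lit 5) (nat_lit 537) (nat_lit 5) (nat_lit 558) (nat_lit 5) (nat_lit 562) (nat_lit 554) (nat_lit 444))))) (XT.nd (nat_lit 156) (nat_lit 0) (nat_lit 0) (XT.nd (nat_lit 78) (nat_lit 1596) (nat_lit 0) (XT.lf (nat_lit 0) (nat_lit 8450877120) (nat_lit 1520) (nat_lit 364291367) (nat_lit 1596) (nat_lit 489528834) (nat_lit 538) (nat_lit 5) (nat_lit 558) (nat_lit 5) (nat_lit 559) (nat_lit 5) (nat_lit 563) (nat_lit 554) (nat_lit 443)) (XT.lf (nat_lit 0) (nat_lit 258116825) (nat_lit 1596) (nat_lit 4903010643) (nat_lit 1672) (nat_lit 4222656431) (nat_lit 517) (nat_lit 5) (nat_lit 538) (nat_lit 5) (nat_lit 539) (nat_lit 5) (nat_lit 564) (nat_lit 554) (nat_lit 442))) (XT.nd (nat_lit 78) (nat_lit 0) (nat_lit 76) (XT.lf (nat_lit 0) (nat_lit 1361279198) (nat_lit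 1596) (nat_lit 56621101) (nat_lit 1672) (nat_lit 8046834314) (nat_lit 517) (nat_lit 5) (nat_lit 538) (nat_lit 5) (nat_lit 539) (nat_lit 5) (nat_lit 565) (nat_lit 554) (nat_lit 441)) (XT.nd (nat_lit 78) (nat_lit 0) (nat_lit 0) (XT.lf (nat_lit 0) (nat_lit 2512788344) (nat_lit 1596) (nat_lit 4625437902) (nat_lit 1672) (nat_lit 2408556017) (nat_lit 518) (nat_lit 5) (nat_lit 539) (nat_lit 5) (nat_lit 540) (nat_lit 5) (nat_lit 566) (nat_lit 554) (nat_lit 440)) (XT.lf (nat_lit 76) (nat_lit 350040407) (nat_lit 0) (nat_lit 3328094917) (nat_lit 1672) (nat_lit 5952522912) (nat_lit 519) (nat_lit 5) (nat_lit 518) (nat_lit 5) (nat_lit 540) (nat_lit 5) (nat_lit 567) (nat_lit 554) (nat_lit 439))))))) (XT.nd (nat_lit 702) (nat_lit 6916) (nat_lit 0) (XT.nd (nat_lit 312) (nat_lit 1520) (nat_lit 0) (XT.nd (nat_lit 156) (nat_lit 0) (nat_lit 0) (XT.nd (nat_lit 78) (nat_lit 0) (nat_lit 0) (XT.lf (nat_lit 0) (nat_lit 4880788134) (nat_lit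 1596) (nat_lit 4246395671) (nat_lit 1672) (nat_lit 588751398) (nat_lit 519) (nat_lit 5) (nat_lit 540) (nat_lit 5) (nat_lit 541) (nat_lit 5) (nat_lit 568) (nat_lit 554) (nat_lit 438)) (XT.lf (nat_lit 76) (nat_lit 863380207) (nat_lit 0) (nat_lit 5251298766) (nat_lit 1672) (nat_lit 3688098423) (nat_lit 520) (nat_lit 5) (nat_lit 519) (nat_lit 5) (nat_lit 541) (nat_lit 5) (nat_lit 569) (nat_lit 554) (nat_lit 437))) (XT.nd (nat_lit 78) (nat_lit 0) (nat_lit 76) (XT.lf (nat_lit 76) (nat_lit 6118593695) (nat_lit 0) (nat_lit 1262996684) (nat_lit 1672) (nat_lit 2509602516) (nat_lit 520) (nat_lit 5) (nat_lit 519) (nat_lit 5) (nat_lit 541) (nat_lit 5) (nat_lit 570) (nat_lit 554) (nat_lit 436)) (XT.lf (nat_lit 76) (nat_lit 1484315732) (nat_lit 0) (nat_lit 7197653318) (nat_lit 1672) (nat_lit 1299248329) (nat_lit 521) (nat_lit 5) (nat_lit 520) (nat_lit 5) (nat_lit 542) (nat_lit 5) (nat_lit 571) (nat_lit 554) (nat_lit 435)))) (XT.nd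 (nat_lit 156) (nat_lit 0) (nat_lit 0) (XT.nd (nat_lit 78) (nat_lit 1596) (nat_lit 0) (XT.lf (nat_lit 76) (nat_lit 6874653691) (nat_lit 0) (nat_lit 3147899729) (nat_lit 1672) (nat_lit 50208161) (nat_lit 521) (nat_lit 5) (nat_lit 520) (nat_lit 5) (nat_lit 542) (nat_lit 5) (nat_lit 572) (nat_lit 554) (nat_lit 434)) (XT.lf (nat_lit 0) (nat_lit 1209518001) (nat_lit 1672) (nat_lit 7959246800) (nat_lit 1748) (nat_lit 997180900) (nat_lit 499) (nat_lit 5) (nat_lit 521) (nat_lit 5) (nat_lit 522) (nat_lit 5) (nat_lit 573) (nat_lit 554) (nat_lit 433))) (XT.nd (nat_lit 78) (nat_lit 0) (nat_lit 0) (XT.lf (nat_lit 0) (nat_lit 2517355153) (nat_lit 1672) (nat_lit 2533603839) (nat_lit 1748) (nat_lit 5209559107) (nat_lit 499) (nat_lit 5) (nat_lit 521) (nat_lit 5) (nat_lit 522) (nat_lit 5) (nat_lit 574) (nat_lit 554) (nat_lit 432)) (XT.nd (nat_lit 78) (nat_lit 0) (nat_lit 76) (XT.lf (nat_lit 76) (nat_lit 3025853329) (nat_lit 0) (nat_lit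 826649403) (nat_lit 1748) (nat_lit 6504459084) (nat_lit 500) (nat_lit 5) (nat_lit 499) (nat_lit 5) (nat_lit 522) (nat_lit 5) (nat_lit 575) (nat_lit 554) (nat_lit 431)) (XT.lf (nat_lit 0) (nat_lit 5235879276) (nat_lit 1672) (nat_lit 1761553577) (nat_lit 1748) (nat_lit 3457473926) (nat_lit 500) (nat_lit 5) (nat_lit 522) (nat_lit 5) (nat_lit 523) (nat_lit 5) (nat_lit 576) (nat_lit 554) (nat_lit 430)))))) (XT.nd (nat_lit 390) (nat_lit 3572) (nat_lit 0) (XT.nd (nat_lit 156) (nat_lit 3420) (nat_lit 0) (XT.nd (nat_lit 78) (nat_lit 0) (nat_lit 76) (XT.lf (nat_lit 76) (nat_lit 3951346918) (nat_lit 0) (nat_lit 2708865694) (nat_lit 1748) (nat_lit 3894335076) (nat_lit 501) (nat_lit 5) (nat_lit 500) (nat_lit 5) (nat_lit 523) (nat_lit 5) (nat_lit 577) (nat_lit 554) (nat_lit 429)) (XT.lf (nat_lit 0) (nat_lit 8118183492) (nat_lit 1672) (nat_lit 879127594) (nat_lit 76) (nat_lit 1658770088) (nat_lit 501) (nat_lit 5) (nat_lit 523)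 (nat_lit 5) (nat_lit 502) (nat_lit 5) (nat_lit 578) (nat_lit 554) (nat_lit 428))) (XT.nd (nat_lit 78) (nat_lit 1824) (nat_lit 0) (XT.lf (nat_lit 0) (nat_lit 4992579143) (nat_lit 1672) (nat_lit 4645871922) (nat_lit 1748) (nat_lit 1120534242) (nat_lit 479) (nat_lit 5) (nat_lit 501) (nat_lit 5) (nat_lit 502) (nat_lit 5) (nat_lit 579) (nat_lit 554) (nat_lit 427)) (XT.nd (nat_lit 78) (nat_lit 0) (nat_lit 0) (XT.lf (nat_lit 0) (nat_lit 114638442) (nat_lit 1748) (nat_lit 195868461) (nat_lit 1824) (nat_lit 10553609109) (nat_lit 455) (nat_lit 5) (nat_lit 478) (nat_lit 5) (nat_lit 479) (nat_lit 5) (nat_lit 580) (nat_lit 554) (nat_lit 426)) (XT.lf (nat_lit 0) (nat_lit 1805498834) (nat_lit 1824) (nat_lit 4829763535) (nat_lit 76) (nat_lit 4334934714) (nat_lit 455) (nat_lit 5) (nat_lit 479) (nat_lit 5) (nat_lit 456) (nat_lit 5) (nat_lit 581) (nat_lit 554) (nat_lit 425))))) (XT.nd (nat_lit 156) (nat_lit 1900) (nat_lit 0) (XT.nd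 (nat_lit 78) (nat_lit 0) (nat_lit 0) (XT.lf (nat_lit 0) (nat_lit 1208404236) (nat_lit 1672) (nat_lit 2114628774) (nat_lit 1748) (nat_lit 7755516433) (nat_lit 433) (nat_lit 5) (nat_lit 455) (nat_lit 5) (nat_lit 456) (nat_lit 5) (nat_lit 582) (nat_lit 554) (nat_lit 424)) (XT.lf (nat_lit 0) (nat_lit 4903492900) (nat_lit 1748) (nat_lit 3786776144) (nat_lit 76) (nat_lit 2498150771) (nat_lit 433) (nat_lit 5) (nat_lit 456) (nat_lit 5) (nat_lit 434) (nat_lit 5) (nat_lit 583) (nat_lit 554) (nat_lit 423))) (XT.nd (nat_lit 78) (nat_lit 912) (nat_lit 0) (XT.lf (nat_lit 0) (nat_lit 2421567843) (nat_lit 988) (nat_lit 4107781260) (nat_lit 1064) (nat_lit 4770865168) (nat_lit 420) (nat_lit 5) (nat_lit 433) (nat_lit 5) (nat_lit 434) (nat_lit 5) (nat_lit 584) (nat_lit 554) (nat_lit 422)) (XT.nd (nat_lit 78) (nat_lit 912) (nat_lit 0) (XT.lf (nat_lit 0) (nat_lit 8201267898) (nat_lit 1064) (nat_lit 2626850573) (nat_lit 76) (nat_lit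 585857607) (nat_lit 420) (nat_lit 5) (nat_lit 434) (nat_lit 5) (nat_lit 421) (nat_lit 5) (nat_lit 585) (nat_lit 554) (nat_lit 421)) (XT.lf (nat_lit 0) (nat_lit 3757669477) (nat_lit 912) (nat_lit 6185153545) (nat_lit 988) (nat_lit 1586468462) (nat_lit 408) (nat_lit 5) (nat_lit 420) (nat_lit 5) (nat_lit 421) (nat_lit 5) (nat_lit 586) (nat_lit 554) (nat_lit 420))))))))
noncomputable def xc155 : XT := (XT.nd (nat_lit 1482) (nat_lit 6536) (nat_lit 0) (XT.nd (nat_lit 702) (nat_lit 4408) (nat_lit 0) (XT.nd (nat_lit 312) (nat_lit 2508) (nat_lit 0) (XT.nd (nat_lit 156) (nat_lit 836) (nat_lit 0) (XT.nd (nat_lit 78) (nat_lit 912) (nat_lit 0) (XT.lf (nat_lit 0) (nat_lit 73795320) (nat_lit 988) (nat_lit 1356160433) (nat_lit 76) (nat_lit 10216901342) (nat_lit 407) (nat_lit 5) (nat_lit 420) (nat_lit 5) (nat_lit 408) (nat_lit 5) (nat_lit 587) (nat_lit 554) (nat_lit 419)) (XT.lf (nat_lit 0) (nat_lit 1787517622) (nat_lit 988) (nat_lit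 6557194316) (nat_lit 76) (nat_lit 3421024618) (nat_lit 395) (nat_lit 5) (nat_lit 408) (nat_lit 5) (nat_lit 396) (nat_lit 5) (nat_lit 588) (nat_lit 554) (nat_lit 418))) (XT.nd (nat_lit 78) (nat_lit 0) (nat_lit 0) (XT.lf (nat_lit 0) (nat_lit 12316080) (nat_lit 836) (nat_lit 3527118791) (nat_lit 912) (nat_lit 8347482473) (nat_lit 384) (nat_lit 5) (nat_lit 395) (nat_lit 5) (nat_lit 396) (nat_lit 5) (nat_lit 589) (nat_lit 554) (nat_lit 417)) (XT.lf (nat_lit 0) (nat_lit 5365096765) (nat_lit 912) (nat_lit 5231462650) (nat_lit 76) (nat_lit 1413190311) (nat_lit 384) (nat_lit 5) (nat_lit 396) (nat_lit 5) (nat_lit 385) (nat_lit 5) (nat_lit 590) (nat_lit 554) (nat_lit 416)))) (XT.nd (nat_lit 156) (nat_lit 1672) (nat_lit 0) (XT.nd (nat_lit 78) (nat_lit 0) (nat_lit 0) (XT.lf (nat_lit 0) (nat_lit 1526865724) (nat_lit 836) (nat_lit 5719372583) (nat_lit 912) (nat_lit 4888423184) (nat_lit 373) (nat_lit 5) (nat_lit 384) (nat_lit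 5) (nat_lit 385) (nat_lit 5) (nat_lit 591) (nat_lit 554) (nat_lit 415)) (XT.lf (nat_lit 0) (nat_lit 8477029131) (nat_lit 836) (nat_lit 708962007) (nat_lit 912) (nat_lit 3075662607) (nat_lit 373) (nat_lit 5) (nat_lit 384) (nat_lit 5) (nat_lit 385) (nat_lit 5) (nat_lit 592) (nat_lit 554) (nat_lit 414))) (XT.nd (nat_lit 78) (nat_lit 912) (nat_lit 0) (XT.lf (nat_lit 0) (nat_lit 3173812558) (nat_lit 760) (nat_lit 8026070027) (nat_lit 836) (nat_lit 1190598372) (nat_lit 363) (nat_lit 5) (nat_lit 373) (nat_lit 5) (nat_lit 374) (nat_lit 5) (nat_lit 593) (nat_lit 554) (nat_lit 413)) (XT.nd (nat_lit 78) (nat_lit 836) (nat_lit 0) (XT.lf (nat_lit 0) (nat_lit 739070489) (nat_lit 836) (nat_lit 2222608767) (nat_lit 76) (nat_lit 9559782172) (nat_lit 362) (nat_lit 5) (nat_lit 373) (nat_lit 5) (nat_lit 363) (nat_lit 5) (nat_lit 594) (nat_lit 554) (nat_lit 412)) (XT.lf (nat_lit 0) (nat_lit 2724659364) (nat_lit 912) (nat_lit 7714732594)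 (nat_lit 76) (nat_lit 2214848647) (nat_lit 351) (nat_lit 5) (nat_lit 363) (nat_lit 5) (nat_lit 352) (nat_lit 5) (nat_lit 595) (nat_lit 554) (nat_lit 411)))))) (XT.nd (nat_lit 390) (nat_lit 2128) (nat_lit 0) (XT.nd (nat_lit 156) (nat_lit 1520) (nat_lit 0) (XT.nd (nat_lit 78) (nat_lit 760) (nat_lit 0) (XT.lf (nat_lit 0) (nat_lit 4771272378) (nat_lit 912) (nat_lit 548319755) (nat_lit 76) (nat_lit 7469658818) (nat_lit 351) (nat_lit 5) (nat_lit 363) (nat_lit 5) (nat_lit 352) (nat_lit 5) (nat_lit 596) (nat_lit 554) (nat_lit 410)) (XT.lf (nat_lit 0) (nat_lit 6837145342) (nat_lit 760) (nat_lit 53009615) (nat_lit 836) (nat_lit 6036181597) (nat_lit 341) (nat_lit 5) (nat_lit 351) (nat_lit 5) (nat_lit 352) (nat_lit 5) (nat_lit 597) (nat_lit 554) (nat_lit 409))) (XT.nd (nat_lit 78) (nat_lit 760) (nat_lit 0) (XT.lf (nat_lit 0) (nat_lit 1279780528) (nat_lit 760) (nat_lit 7805287336) (nat_lit 836) (nat_lit 3980424714) (nat_lit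 331) (nat_lit 5) (nat_lit 341) (nat_lit 5) (nat_lit 342) (nat_lit 5) (nat_lit 598) (nat_lit 554) (nat_lit 408)) (XT.nd (nat_lit 78) (nat_lit 760) (nat_lit 0) (XT.lf (nat_lit 0) (nat_lit 8864301506) (nat_lit 760) (nat_lit 2488055534) (nat_lit 836) (nat_lit 1854506847) (nat_lit 331) (nat_lit 5) (nat_lit 341) (nat_lit 5) (nat_lit 342) (nat_lit 5) (nat_lit 599) (nat_lit 554) (nat_lit 407)) (XT.lf (nat_lit 0) (nat_lit 337723103) (nat_lit 760) (nat_lit 10093579750) (nat_lit 76) (nat_lit 2919162447) (nat_lit 321) (nat_lit 5) (nat_lit 331) (nat_lit 5) (nat_lit 322) (nat_lit 5) (nat_lit 600) (nat_lit 554) (nat_lit 406))))) (XT.nd (nat_lit 156) (nat_lit 1368) (nat_lit 0) (XT.nd (nat_lit 78) (nat_lit 760) (nat_lit 0) (XT.lf (nat_lit 0) (nat_lit 2582380542) (nat_lit 760) (nat_lit 2472178705) (nat_lit 76) (nat_lit 8441467658) (nat_lit 321) (nat_lit 5) (nat_lit 331) (nat_lit 5) (nat_lit 322) (nat_lit 5) (nat_lit 601) (nat_lit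 554) (nat_lit 405)) (XT.lf (nat_lit 0) (nat_lit 4897553705) (nat_lit 836) (nat_lit 8288918201) (nat_lit 76) (nat_lit 457516981) (nat_lit 311) (nat_lit 5) (nat_lit 322) (nat_lit 5) (nat_lit 312) (nat_lit 5) (nat_lit 602) (nat_lit 554) (nat_lit 404))) (XT.nd (nat_lit 78) (nat_lit 1368) (nat_lit 0) (XT.lf (nat_lit 0) (nat_lit 7297166744) (nat_lit 836) (nat_lit 469709056) (nat_lit 76) (nat_lit 6027273145) (nat_lit 311) (nat_lit 5) (nat_lit 322) (nat_lit 5) (nat_lit 312) (nat_lit 5) (nat_lit 603) (nat_lit 554) (nat_lit 403)) (XT.nd (nat_lit 78) (nat_lit 684) (nat_lit 0) (XT.lf (nat_lit 0) (nat_lit 7591802049) (nat_lit 684) (nat_lit 2190460052) (nat_lit 760) (nat_lit 4164301834) (nat_lit 302) (nat_lit 5) (nat_lit 311) (nat_lit 5) (nat_lit 312) (nat_lit 5) (nat_lit 604) (nat_lit 554) (nat_lit 402)) (XT.lf (nat_lit 0) (nat_lit 1704793464) (nat_lit 684) (nat_lit 10637545448) (nat_lit 760) (nat_lit 1759184226) (nat_lit 293)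 (nat_lit 5) (nat_lit 302) (nat_lit 5) (nat_lit 303) (nat_lit 5) (nat_lit 605) (nat_lit 554) (nat_lit 401))))))) (XT.nd (nat_lit 702) (nat_lit 3344) (nat_lit 0) (XT.nd (nat_lit 312) (nat_lit 1824) (nat_lit 0) (XT.nd (nat_lit 156) (nat_lit 684) (nat_lit 0) (XT.nd (nat_lit 78) (nat_lit 608) (nat_lit 0) (XT.lf (nat_lit 0) (nat_lit 730758047) (nat_lit 760) (nat_lit 4280190767) (nat_lit 76) (nat_lit 9247627538) (nat_lit 292) (nat_lit 5) (nat_lit 302) (nat_lit 5) (nat_lit 293) (nat_lit 5) (nat_lit 606) (nat_lit 554) (nat_lit 400)) (XT.lf (nat_lit 0) (nat_lit 3266690446) (nat_lit 684) (nat_lit 10396949964) (nat_lit 76) (nat_lit 754504138) (nat_lit 284) (nat_lit 5) (nat_lit 293) (nat_lit 5) (nat_lit 285) (nat_lit 5) (nat_lit 607) (nat_lit 554) (nat_lit 399))) (XT.nd (nat_lit 78) (nat_lit 684) (nat_lit 0) (XT.lf (nat_lit 0) (nat_lit 5904179909) (nat_lit 684) (nat_lit 2080776699) (nat_lit 76) (nat_lit 6594932120) (nat_lit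 284) (nat_lit 5) (nat_lit 293) (nat_lit 5) (nat_lit 285) (nat_lit 5) (nat_lit 608) (nat_lit 554) (nat_lit 398)) (XT.lf (nat_lit 0) (nat_lit 6473187153) (nat_lit 684) (nat_lit 2152221780) (nat_lit 760) (nat_lit 6118840426) (nat_lit 275) (nat_lit 5) (nat_lit 284) (nat_lit 5) (nat_lit 285) (nat_lit 5) (nat_lit 609) (nat_lit 554) (nat_lit 397)))) (XT.nd (nat_lit 156) (nat_lit 1216) (nat_lit 0) (XT.nd (nat_lit 78) (nat_lit 0) (nat_lit 0) (XT.lf (nat_lit 0) (nat_lit 280201258) (nat_lit 608) (nat_lit 11150465410) (nat_lit 684) (nat_lit 3480639784) (nat_lit 267) (nat_lit 5) (nat_lit 275) (nat_lit 5) (nat_lit 276) (nat_lit 5) (nat_lit 610) (nat_lit 554) (nat_lit 396)) (XT.lf (nat_lit 0) (nat_lit 9086707742) (nat_lit 608) (nat_lit 5264186759) (nat_lit 684) (nat_lit 729634198) (nat_lit 267) (nat_lit 5) (nat_lit 275) (nat_lit 5) (nat_lit 276) (nat_lit 5) (nat_lit 611) (nat_lit 554) (nat_lit 395))) (XT.nd (nat_lit 78) (nat_lit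 532) (nat_lit 0) (XT.lf (nat_lit 0) (nat_lit 2061850082) (nat_lit 684) (nat_lit 12431247916) (nat_lit 76) (nat_lit 759515207) (nat_lit 258) (nat_lit 5) (nat_lit 267) (nat_lit 5) (nat_lit 259) (nat_lit 5) (nat_lit 612) (nat_lit 554) (nat_lit 394)) (XT.nd (nat_lit 78) (nat_lit 532) (nat_lit 0) (XT.lf (nat_lit 0) (nat_lit 4964201698) (nat_lit 684) (nat_lit 3586634180) (nat_lit 76) (nat_lit 6875912149) (nat_lit 258) (nat_lit 5) (nat_lit 267) (nat_lit 5) (nat_lit 259) (nat_lit 5) (nat_lit 613) (nat_lit 554) (nat_lit 393)) (XT.lf (nat_lit 0) (nat_lit 5493745100) (nat_lit 532) (nat_lit 2456179276) (nat_lit 608) (nat_lit 7653935899) (nat_lit 251) (nat_lit 5) (nat_lit 258) (nat_lit 5) (nat_lit 259) (nat_lit 5) (nat_lit 614) (nat_lit 554) (nat_lit 392)))))) (XT.nd (nat_lit 390) (nat_lit 1596) (nat_lit 0) (XT.nd (nat_lit 156) (nat_lit 1140) (nat_lit 0) (XT.nd (nat_lit 78) (nat_lit 608) (nat_lit 0) (XT.lf (nat_lit 0) (nat_lit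 11033758164) (nat_lit 608) (nat_lit 1017536494) (nat_lit 76) (nat_lit 3732453362) (nat_lit 251) (nat_lit 5) (nat_lit 259) (nat_lit 5) (nat_lit 252) (nat_lit 5) (nat_lit 615) (nat_lit 554) (nat_lit 391)) (XT.lf (nat_lit 0) (nat_lit 8336950020) (nat_lit 608) (nat_lit 5902668841) (nat_lit 684) (nat_lit 1726408815) (nat_lit 243) (nat_lit 5) (nat_lit 251) (nat_lit 5) (nat_lit 252) (nat_lit 5) (nat_lit 616) (nat_lit 554) (nat_lit 390))) (XT.nd (nat_lit 78) (nat_lit 532) (nat_lit 0) (XT.lf (nat_lit 0) (nat_lit 1350573370) (nat_lit 608) (nat_lit 14412753010) (nat_lit 76) (nat_lit 388236663) (nat_lit 235) (nat_lit 5) (nat_lit 243) (nat_lit 5) (nat_lit 236) (nat_lit 5) (nat_lit 617) (nat_lit 554) (nat_lit 389)) (XT.nd (nat_lit 78) (nat_lit 532) (nat_lit 0) (XT.lf (nat_lit 0) (nat_lit 4546717804) (nat_lit 608) (nat_lit 5006337699) (nat_lit 76) (nat_lit 6785911694) (nat_lit 235) (nat_lit 5) (nat_lit 243) (nat_lit 5) (nat_lit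 236) (nat_lit 5) (nat_lit 618) (nat_lit 554) (nat_lit 388)) (XT.lf (nat_lit 0) (nat_lit 4636107949) (nat_lit 532) (nat_lit 3191065041) (nat_lit 608) (nat_lit 8702539760) (nat_lit 228) (nat_lit 5) (nat_lit 235) (nat_lit 5) (nat_lit 236) (nat_lit 5) (nat_lit 619) (nat_lit 554) (nat_lit 387))))) (XT.nd (nat_lit 156) (nat_lit 1064) (nat_lit 0) (XT.nd (nat_lit 78) (nat_lit 532) (nat_lit 0) (XT.lf (nat_lit 0) (nat_lit 11218842366) (nat_lit 608) (nat_lit 2218961734) (nat_lit 76) (nat_lit 3285558065) (nat_lit 228) (nat_lit 5) (nat_lit 236) (nat_lit 5) (nat_lit 229) (nat_lit 5) (nat_lit 620) (nat_lit 554) (nat_lit 386)) (XT.lf (nat_lit 0) (nat_lit 7716510623) (nat_lit 532) (nat_lit 7023630409) (nat_lit 608) (nat_lit 2179508649) (nat_lit 221) (nat_lit 5) (nat_lit 228) (nat_lit 5) (nat_lit 229) (nat_lit 5) (nat_lit 621) (nat_lit 554) (nat_lit 385))) (XT.nd (nat_lit 78) (nat_lit 456) (nat_lit 0) (XT.lf (nat_lit 0) (nat_lit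 750302290) (nat_lit 532) (nat_lit 456267690) (nat_lit 608) (nat_lit 15912927320) (nat_lit 213) (nat_lit 5) (nat_lit 220) (nat_lit 5) (nat_lit 221) (nat_lit 5) (nat_lit 622) (nat_lit 554) (nat_lit 384)) (XT.nd (nat_lit 78) (nat_lit 456) (nat_lit 0) (XT.lf (nat_lit 0) (nat_lit 4724593044) (nat_lit 608) (nat_lit 6362773174) (nat_lit 76) (nat_lit 6233820364) (nat_lit 213) (nat_lit 5) (nat_lit 221) (nat_lit 5) (nat_lit 214) (nat_lit 5) (nat_lit 623) (nat_lit 554) (nat_lit 383)) (XT.lf (nat_lit 0) (nat_lit 3879024661) (nat_lit 456) (nat_lit 4453023676) (nat_lit 532) (nat_lit 9194480831) (nat_lit 207) (nat_lit 5) (nat_lit 213) (nat_lit 5) (nat_lit 214) (nat_lit 5) (nat_lit 624) (nat_lit 554) (nat_lit 382))))))))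
noncomputable def xc156 : XT := (XT.nd (nat_lit 75816) (nat_lit 0) (nat_lit 26752) (XT.nd (nat_lit 702) (nat_lit 2128) (nat_lit 0) (XT.nd (nat_lit 312) (nat_lit 1444) (nat_lit 0) (XT.nd (nat_lit 156) (nat_lit 532) (nat_lit 0) (XT.nd (nat_lit 78) (nat_lit 532) (nat_lit 0) (XT.lf (nat_lit 0) (nat_lit 12060597240) (nat_lit 532) (nat_lit 3351204990) (nat_lit 76) (nat_lit 2323198421) (nat_lit 207) (nat_lit 5) (nat_lit 214) (nat_lit 5) (nat_lit 208) (nat_lit 5) (nat_lit 625) (nat_lit 554) (nat_lit 381)) (XT.lf (nat_lit 0) (nat_lit 7203574083) (nat_lit 532) (nat_lit 8727521405) (nat_lit 608) (nat_lit 2015199424) (nat_lit 200) (nat_lit 5) (nat_lit 207) (nat_lit 5) (nat_lit 208) (nat_lit 5) (nat_lit 626) (nat_lit 554) (nat_lit 380))) (XT.nd (nat_lit 78) (nat_lit 456) (nat_lit 0) (XT.lf (nat_lit 0) (nat_lit 1708457336) (nat_lit 608) (nat_lit 170257192) (nat_lit 76) (nat_lit 16282602630) (nat_lit 199) (nat_lit 5) (nat_lit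 207) (nat_lit 5) (nat_lit 200) (nat_lit 5) (nat_lit 627) (nat_lit 554) (nat_lit 379)) (XT.lf (nat_lit 0) (nat_lit 5574298639) (nat_lit 532) (nat_lit 7684043670) (nat_lit 76) (nat_lit 5120138093) (nat_lit 193) (nat_lit 5) (nat_lit 200) (nat_lit 5) (nat_lit 194) (nat_lit 5) (nat_lit 628) (nat_lit 554) (nat_lit 378)))) (XT.nd (nat_lit 156) (nat_lit 988) (nat_lit 0) (XT.nd (nat_lit 78) (nat_lit 0) (nat_lit 0) (XT.lf (nat_lit 0) (nat_lit 3195940801) (nat_lit 456) (nat_lit 6347252269) (nat_lit 532) (nat_lit 9056279965) (nat_lit 187) (nat_lit 5) (nat_lit 193) (nat_lit 5) (nat_lit 194) (nat_lit 5) (nat_lit 629) (nat_lit 554) (nat_lit 377)) (XT.lf (nat_lit 0) (nat_lit 13639388769) (nat_lit 532) (nat_lit 4443429548) (nat_lit 76) (nat_lit 741109564) (nat_lit 187) (nat_lit 5) (nat_lit 194) (nat_lit 5) (nat_lit 188) (nat_lit 5) (nat_lit 630) (nat_lit 554) (nat_lit 376))) (XT.nd (nat_lit 78) (nat_lit 532) (nat_lit 0) (XT.lf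 (nat_lit 0) (nat_lit 6770519553) (nat_lit 456) (nat_lit 11124609455) (nat_lit 532) (nat_lit 1156191217) (nat_lit 181) (nat_lit 5) (nat_lit 187) (nat_lit 5) (nat_lit 188) (nat_lit 5) (nat_lit 631) (nat_lit 554) (nat_lit 375)) (XT.nd (nat_lit 78) (nat_lit 456) (nat_lit 0) (XT.lf (nat_lit 0) (nat_lit 2935670844) (nat_lit 532) (nat_lit 1045202442) (nat_lit 76) (nat_lit 15301571036) (nat_lit 180) (nat_lit 5) (nat_lit 187) (nat_lit 5) (nat_lit 181) (nat_lit 5) (nat_lit 632) (nat_lit 554) (nat_lit 374)) (XT.lf (nat_lit 0) (nat_lit 7176058437) (nat_lit 532) (nat_lit 9005085755) (nat_lit 76) (nat_lit 3335251235) (nat_lit 174) (nat_lit 5) (nat_lit 181) (nat_lit 5) (nat_lit 175) (nat_lit 5) (nat_lit 633) (nat_lit 554) (nat_lit 373)))))) (XT.nd (nat_lit 390) (nat_lit 836) (nat_lit 0) (XT.nd (nat_lit 156) (nat_lit 912) (nat_lit 0) (XT.nd (nat_lit 78) (nat_lit 0) (nat_lit 0) (XT.lf (nat_lit 0) (nat_lit 2553341254) (nat_lit 380)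 (nat_lit 8989794567) (nat_lit 456) (nat_lit 8211052843) (nat_lit 169) (nat_lit 5) (nat_lit 174) (nat_lit 5) (nat_lit 175) (nat_lit 5) (nat_lit 634) (nat_lit 554) (nat_lit 372)) (XT.lf (nat_lit 0) (nat_lit 14453110694) (nat_lit 380) (nat_lit 1596835268) (nat_lit 456) (nat_lit 3945744717) (nat_lit 169) (nat_lit 5) (nat_lit 174) (nat_lit 5) (nat_lit 175) (nat_lit 5) (nat_lit 635) (nat_lit 554) (nat_lit 371))) (XT.nd (nat_lit 78) (nat_lit 380) (nat_lit 0) (XT.lf (nat_lit 0) (nat_lit 472161544) (nat_lit 532) (nat_lit 13861516477) (nat_lit 76) (nat_lit 5906840808) (nat_lit 162) (nat_lit 5) (nat_lit 169) (nat_lit 5) (nat_lit 163) (nat_lit 5) (nat_lit 636) (nat_lit 554) (nat_lit 370)) (XT.nd (nat_lit 78) (nat_lit 380) (nat_lit 0) (XT.lf (nat_lit 0) (nat_lit 4965778620) (nat_lit 532) (nat_lit 1924125170) (nat_lit 76) (nat_lit 13599015097) (nat_lit 162) (nat_lit 5) (nat_lit 169) (nat_lit 5) (nat_lit 163) (nat_lit 5) (nat_lit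 637) (nat_lit 554) (nat_lit 369)) (XT.lf (nat_lit 0) (nat_lit 9613899301) (nat_lit 456) (nat_lit 10369563663) (nat_lit 76) (nat_lit 757532036) (nat_lit 157) (nat_lit 5) (nat_lit 163) (nat_lit 5) (nat_lit 158) (nat_lit 5) (nat_lit 638) (nat_lit 554) (nat_lit 368))))) (XT.nd (nat_lit 156) (nat_lit 456) (nat_lit 0) (XT.nd (nat_lit 78) (nat_lit 0) (nat_lit 0) (XT.lf (nat_lit 0) (nat_lit 1908805609) (nat_lit 380) (nat_lit 12509523805) (nat_lit 456) (nat_lit 6578516949) (nat_lit 152) (nat_lit 5) (nat_lit 157) (nat_lit 5) (nat_lit 158) (nat_lit 5) (nat_lit 639) (nat_lit 554) (nat_lit 367)) (XT.lf (nat_lit 0) (nat_lit 14561739711) (nat_lit 380) (nat_lit 4819096879) (nat_lit 456) (nat_lit 1875739049) (nat_lit 152) (nat_lit 5) (nat_lit 157) (nat_lit 5) (nat_lit 158) (nat_lit 5) (nat_lit 640) (nat_lit 554) (nat_lit 366))) (XT.nd (nat_lit 78) (nat_lit 0) (nat_lit 0) (XT.lf (nat_lit 0) (nat_lit 2934204858) (nat_lit 456) (nat_lit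 15546044009) (nat_lit 76) (nat_lit 3039843525) (nat_lit 146) (nat_lit 5) (nat_lit 152) (nat_lit 5) (nat_lit 147) (nat_lit 5) (nat_lit 641) (nat_lit 554) (nat_lit 365)) (XT.nd (nat_lit 74412) (nat_lit 0) (nat_lit 29488) (XT.lf (nat_lit 0) (nat_lit 7884942818) (nat_lit 456) (nat_lit 2857041019) (nat_lit 76) (nat_lit 11045254062) (nat_lit 146) (nat_lit 5) (nat_lit 152) (nat_lit 5) (nat_lit 147) (nat_lit 5) (nat_lit 642) (nat_lit 554) (nat_lit 364)) (XT.lf (nat_lit 0) (nat_lit 404977710) (nat_lit 1596) (nat_lit 1994814497) (nat_lit 1596) (nat_lit 1994814497) (nat_lit 534) (nat_lit 3) (nat_lit 555) (nat_lit 3) (nat_lit 555) (nat_lit 5) (nat_lit 555) (nat_lit 555) (nat_lit 450))))))) (XT.nd (nat_lit 702) (nat_lit 1368) (nat_lit 0) (XT.nd (nat_lit 312) (nat_lit 1368) (nat_lit 0) (XT.nd (nat_lit 156) (nat_lit 0) (nat_lit 76) (XT.nd (nat_lit 78) (nat_lit 0) (nat_lit 76) (XT.lf (nat_lit 76) (nat_lit 328041209) (nat_lit 0)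 (nat_lit 1444378697) (nat_lit 1596) (nat_lit 7085434654) (nat_lit 535) (nat_lit 5) (nat_lit 534) (nat_lit 3) (nat_lit 555) (nat_lit 5) (nat_lit 556) (nat_lit 555) (nat_lit 449)) (XT.lf (nat_lit 0) (nat_lit 2768943140) (nat_lit 1520) (nat_lit 4167701521) (nat_lit 1596) (nat_lit 1990931974) (nat_lit 535) (nat_lit 5) (nat_lit 555) (nat_lit 5) (nat_lit 556) (nat_lit 5) (nat_lit 557) (nat_lit 555) (nat_lit 448))) (XT.nd (nat_lit 78) (nat_lit 0) (nat_lit 76) (XT.lf (nat_lit 76) (nat_lit 262297410) (nat_lit 0) (nat_lit 3509875316) (nat_lit 1596) (nat_lit 5226789120) (nat_lit 536) (nat_lit 5) (nat_lit 535) (nat_lit 5) (nat_lit 556) (nat_lit 5) (nat_lit 558) (nat_lit 555) (nat_lit 447)) (XT.lf (nat_lit 0) (nat_lit 4799498486) (nat_lit 1520) (nat_lit 4247615370) (nat_lit 1596) (nat_lit 24584399) (nat_lit 536) (nat_lit 5) (nat_lit 556) (nat_lit 5) (nat_lit 557) (nat_lit 5) (nat_lit 559) (nat_lit 555) (nat_lit 446)))) (XT.nd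 (nat_lit 156) (nat_lit 1520) (nat_lit 0) (XT.nd (nat_lit 78) (nat_lit 0) (nat_lit 0) (XT.lf (nat_lit 76) (nat_lit 298453408) (nat_lit 0) (nat_lit 5550543922) (nat_lit 1596) (nat_lit 3296863576) (nat_lit 537) (nat_lit 5) (nat_lit 536) (nat_lit 5) (nat_lit 557) (nat_lit 5) (nat_lit 560) (nat_lit 555) (nat_lit 445)) (XT.lf (nat_lit 76) (nat_lit 4979678140) (nat_lit 0) (nat_lit 1945131592) (nat_lit 1596) (nat_lit 2296594574) (nat_lit 537) (nat_lit 5) (nat_lit 536) (nat_lit 5) (nat_lit 557) (nat_lit 5) (nat_lit 561) (nat_lit 555) (nat_lit 444))) (XT.nd (nat_lit 78) (nat_lit 1596) (nat_lit 0) (XT.lf (nat_lit 76) (nat_lit 436949282) (nat_lit 0) (nat_lit 7576610856) (nat_lit 1596) (nat_lit 1285073889) (nat_lit 538) (nat_lit 5) (nat_lit 537) (nat_lit 5) (nat_lit 558) (nat_lit 5) (nat_lit 562) (nat_lit 555) (nat_lit 443)) (XT.nd (nat_lit 78) (nat_lit 1596) (nat_lit 0) (XT.lf (nat_lit 76) (nat_lit 5240130228) (nat_lit 0)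 (nat_lit 3902910071) (nat_lit 1596) (nat_lit 233992761) (nat_lit 538) (nat_lit 5) (nat_lit 537) (nat_lit 5) (nat_lit 558) (nat_lit 5) (nat_lit 563) (nat_lit 555) (nat_lit 442)) (XT.lf (nat_lit 76) (nat_lit 672205064) (nat_lit 0) (nat_lit 137259839) (nat_lit 1672) (nat_lit 8647783067) (nat_lit 517) (nat_lit 5) (nat_lit 516) (nat_lit 5) (nat_lit 538) (nat_lit 5) (nat_lit 564) (nat_lit 555) (nat_lit 441)))))) (XT.nd (nat_lit 390) (nat_lit 1444) (nat_lit 0) (XT.nd (nat_lit 156) (nat_lit 0) (nat_lit 76) (XT.nd (nat_lit 78) (nat_lit 0) (nat_lit 0) (XT.lf (nat_lit 0) (nat_lit 1901033219) (nat_lit 1596) (nat_lit 3944665888) (nat_lit 1672) (nat_lit 3692733237) (nat_lit 517) (nat_lit 5) (nat_lit 538) (nat_lit 5) (nat_lit 539) (nat_lit 5) (nat_lit 565) (nat_lit 555) (nat_lit 440)) (XT.lf (nat_lit 76) (nat_lit 990933898) (nat_lit 0) (nat_lit 2009645916) (nat_lit 1672) (nat_lit 6620941174) (nat_lit 518) (nat_lit 5) (nat_lit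 517) (nat_lit 5) (nat_lit 539) (nat_lit 5) (nat_lit 566) (nat_lit 555) (nat_lit 439))) (XT.nd (nat_lit 78) (nat_lit 0) (nat_lit 0) (XT.lf (nat_lit 0) (nat_lit 4140298641) (nat_lit 1596) (nat_lit 3653607227) (nat_lit 1672) (nat_lit 1912005365) (nat_lit 518) (nat_lit 5) (nat_lit 539) (nat_lit 5) (nat_lit 540) (nat_lit 5) (nat_lit 567) (nat_lit 555) (nat_lit 438)) (XT.nd (nat_lit 78) (nat_lit 0) (nat_lit 76) (XT.lf (nat_lit 76) (nat_lit 1414378415) (nat_lit 0) (nat_lit 3890512520) (nat_lit 1672) (nat_lit 4487060152) (nat_lit 519) (nat_lit 5) (nat_lit 518) (nat_lit 5) (nat_lit 540) (nat_lit 5) (nat_lit 568) (nat_lit 555) (nat_lit 437)) (XT.lf (nat_lit 0) (nat_lit 6497985740) (nat_lit 1596) (nat_lit 3260855999) (nat_lit 1672) (nat_lit 120769104) (nat_lit 519) (nat_lit 5) (nat_lit 540) (nat_lit 5) (nat_lit 541) (nat_lit 5) (nat_lit 569) (nat_lit 555) (nat_lit 436))))) (XT.nd (nat_lit 156) (nat_lit 1596) (nat_lit 0) (XT.nd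 (nat_lit 78) (nat_lit 0) (nat_lit 0) (XT.lf (nat_lit 76) (nat_lit 1944072846) (nat_lit 0) (nat_lit 5789590288) (nat_lit 1672) (nat_lit 2234989501) (nat_lit 520) (nat_lit 5) (nat_lit 519) (nat_lit 5) (nat_lit 541) (nat_lit 5) (nat_lit 570) (nat_lit 555) (nat_lit 435)) (XT.lf (nat_lit 76) (nat_lit 7283539133) (nat_lit 0) (nat_lit 1713026762) (nat_lit 1672) (nat_lit 1062862321) (nat_lit 520) (nat_lit 5) (nat_lit 519) (nat_lit 5) (nat_lit 541) (nat_lit 5) (nat_lit 571) (nat_lit 555) (nat_lit 434))) (XT.nd (nat_lit 78) (nat_lit 0) (nat_lit 0) (XT.lf (nat_lit 0) (nat_lit 144737799) (nat_lit 1672) (nat_lit 7570850796) (nat_lit 1748) (nat_lit 2436141129) (nat_lit 498) (nat_lit 5) (nat_lit 520) (nat_lit 5) (nat_lit 521) (nat_lit 5) (nat_lit 572) (nat_lit 555) (nat_lit 433)) (XT.nd (nat_lit 78) (nat_lit 0) (nat_lit 76) (XT.lf (nat_lit 0) (nat_lit 1373567592) (nat_lit 1672) (nat_lit 2195674218) (nat_lit 1748) (nat_lit 6676271761)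 (nat_lit 498) (nat_lit 5) (nat_lit 520) (nat_lit 5) (nat_lit 521) (nat_lit 5) (nat_lit 573) (nat_lit 555) (nat_lit 432)) (XT.lf (nat_lit 0) (nat_lit 2634535434) (nat_lit 1672) (nat_lit 7028863967) (nat_lit 1748) (nat_lit 677625412) (nat_lit 499) (nat_lit 5) (nat_lit 521) (nat_lit 5) (nat_lit 522) (nat_lit 5) (nat_lit 574) (nat_lit 555) (nat_lit 431))))))))
noncomputable def xc157 : XT := (XT.nd (nat_lit 1482) (nat_lit 8132) (nat_lit 0) (XT.nd (nat_lit 702) (nat_lit 4560) (nat_lit 0) (XT.nd (nat_lit 312) (nat_lit 5016) (nat_lit 0) (XT.nd (nat_lit 156) (nat_lit 0) (nat_lit 76) (XT.nd (nat_lit 78) (nat_lit 0) (nat_lit 0) (XT.lf (nat_lit 0) (nat_lit 3941062132) (nat_lit 1672) (nat_lit 1516072220) (nat_lit 1748) (nat_lit 4980908028) (nat_lit 499) (nat_lit 5) (nat_lit 521) (nat_lit 5) (nat_lit 522) (nat_lit 5) (nat_lit 575) (nat_lit 555) (nat_lit 430)) (XT.lf (nat_lit 76) (nat_lit 4147546435) (nat_lit 0) (nat_lit 1135327461)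 (nat_lit 1748) (nat_lit 5253946144) (nat_lit 500) (nat_lit 5) (nat_lit 499) (nat_lit 5) (nat_lit 522) (nat_lit 5) (nat_lit 576) (nat_lit 555) (nat_lit 429))) (XT.nd (nat_lit 78) (nat_lit 0) (nat_lit 0) (XT.lf (nat_lit 0) (nat_lit 6665522655) (nat_lit 1672) (nat_lit 727810284) (nat_lit 1748) (nat_lit 3243963076) (nat_lit 500) (nat_lit 5) (nat_lit 522) (nat_lit 5) (nat_lit 523) (nat_lit 5) (nat_lit 577) (nat_lit 555) (nat_lit 428)) (XT.lf (nat_lit 76) (nat_lit 5092315494) (nat_lit 0) (nat_lit 3006943057) (nat_lit 1748) (nat_lit 2640056999) (nat_lit 501) (nat_lit 5) (nat_lit 500) (nat_lit 5) (nat_lit 523) (nat_lit 5) (nat_lit 578) (nat_lit 555) (nat_lit 427)))) (XT.nd (nat_lit 156) (nat_lit 3420) (nat_lit 0) (XT.nd (nat_lit 78) (nat_lit 76) (nat_lit 0) (XT.lf (nat_lit 0) (nat_lit 174051282) (nat_lit 1672) (nat_lit 9386310372) (nat_lit 1748) (nat_lit 1283042640) (nat_lit 479) (nat_lit 5) (nat_lit 501) (nat_lit 5) (nat_lit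 502) (nat_lit 5) (nat_lit 579) (nat_lit 555) (nat_lit 426)) (XT.lf (nat_lit 0) (nat_lit 141092182) (nat_lit 1748) (nat_lit 4795804951) (nat_lit 76) (nat_lit 6011840992) (nat_lit 478) (nat_lit 5) (nat_lit 501) (nat_lit 5) (nat_lit 479) (nat_lit 5) (nat_lit 580) (nat_lit 555) (nat_lit 425))) (XT.nd (nat_lit 78) (nat_lit 1672) (nat_lit 0) (XT.lf (nat_lit 0) (nat_lit 1188344340) (nat_lit 1748) (nat_lit 379492928) (nat_lit 1824) (nat_lit 9488348109) (nat_lit 455) (nat_lit 5) (nat_lit 478) (nat_lit 5) (nat_lit 479) (nat_lit 5) (nat_lit 581) (nat_lit 555) (nat_lit 424)) (XT.nd (nat_lit 78) (nat_lit 1672) (nat_lit 0) (XT.lf (nat_lit 0) (nat_lit 3067053370) (nat_lit 1824) (nat_lit 3850091294) (nat_lit 76) (nat_lit 4247760656) (nat_lit 455) (nat_lit 5) (nat_lit 479) (nat_lit 5) (nat_lit 456) (nat_lit 5) (nat_lit 582) (nat_lit 555) (nat_lit 423)) (XT.lf (nat_lit 0) (nat_lit 2301759125) (nat_lit 1672) (nat_lit 2296092650)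 (nat_lit 1748) (nat_lit 6677918344) (nat_lit 433) (nat_lit 5) (nat_lit 455) (nat_lit 5) (nat_lit 456) (nat_lit 5) (nat_lit 583) (nat_lit 555) (nat_lit 422)))))) (XT.nd (nat_lit 390) (nat_lit 2584) (nat_lit 0) (XT.nd (nat_lit 156) (nat_lit 988) (nat_lit 0) (XT.nd (nat_lit 78) (nat_lit 988) (nat_lit 0) (XT.lf (nat_lit 0) (nat_lit 6185341692) (nat_lit 1748) (nat_lit 2789530579) (nat_lit 76) (nat_lit 2413460803) (nat_lit 433) (nat_lit 5) (nat_lit 456) (nat_lit 5) (nat_lit 434) (nat_lit 5) (nat_lit 584) (nat_lit 555) (nat_lit 421)) (XT.lf (nat_lit 0) (nat_lit 3535921201) (nat_lit 988) (nat_lit 4291503138) (nat_lit 1064) (nat_lit 3675268414) (nat_lit 420) (nat_lit 5) (nat_lit 433) (nat_lit 5) (nat_lit 434) (nat_lit 5) (nat_lit 585) (nat_lit 555) (nat_lit 420))) (XT.nd (nat_lit 78) (nat_lit 988) (nat_lit 0) (XT.lf (nat_lit 0) (nat_lit 9509243078) (nat_lit 1064) (nat_lit 1610654995) (nat_lit 76) (nat_lit 499305942) (nat_lit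 420) (nat_lit 5) (nat_lit 434) (nat_lit 5) (nat_lit 421) (nat_lit 5) (nat_lit 586) (nat_lit 555) (nat_lit 419)) (XT.nd (nat_lit 78) (nat_lit 76) (nat_lit 0) (XT.lf (nat_lit 0) (nat_lit 4894524320) (nat_lit 912) (nat_lit 6375567866) (nat_lit 988) (nat_lit 467047670) (nat_lit 408) (nat_lit 5) (nat_lit 420) (nat_lit 5) (nat_lit 421) (nat_lit 5) (nat_lit 587) (nat_lit 555) (nat_lit 418)) (XT.lf (nat_lit 0) (nat_lit 1189048304) (nat_lit 988) (nat_lit 327435720) (nat_lit 76) (nat_lit 10340872039) (nat_lit 407) (nat_lit 5) (nat_lit 420) (nat_lit 5) (nat_lit 408) (nat_lit 5) (nat_lit 588) (nat_lit 555) (nat_lit 417))))) (XT.nd (nat_lit 156) (nat_lit 836) (nat_lit 0) (XT.nd (nat_lit 78) (nat_lit 836) (nat_lit 0) (XT.lf (nat_lit 0) (nat_lit 2921692812) (nat_lit 988) (nat_lit 5616978596) (nat_lit 76) (nat_lit 3440251940) (nat_lit 395) (nat_lit 5) (nat_lit 408) (nat_lit 5) (nat_lit 396) (nat_lit 5) (nat_lit 589) (nat_lit 555)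 (nat_lit 416)) (XT.lf (nat_lit 0) (nat_lit 1076873589) (nat_lit 836) (nat_lit 3617147288) (nat_lit 912) (nat_lit 7408802550) (nat_lit 384) (nat_lit 5) (nat_lit 395) (nat_lit 5) (nat_lit 396) (nat_lit 5) (nat_lit 590) (nat_lit 555) (nat_lit 415))) (XT.nd (nat_lit 78) (nat_lit 836) (nat_lit 0) (XT.lf (nat_lit 0) (nat_lit 6534821046) (nat_lit 912) (nat_lit 4271121345) (nat_lit 76) (nat_lit 1422600630) (nat_lit 384) (nat_lit 5) (nat_lit 396) (nat_lit 5) (nat_lit 385) (nat_lit 5) (nat_lit 591) (nat_lit 555) (nat_lit 414)) (XT.nd (nat_lit 78) (nat_lit 0) (nat_lit 0) (XT.lf (nat_lit 0) (nat_lit 2615367211) (nat_lit 836) (nat_lit 5824255402) (nat_lit 912) (nat_lit 3916612670) (nat_lit 373) (nat_lit 5) (nat_lit 384) (nat_lit 5) (nat_lit 385) (nat_lit 5) (nat_lit 592) (nat_lit 555) (nat_lit 413)) (XT.lf (nat_lit 0) (nat_lit 9683789490) (nat_lit 836) (nat_lit 713822981) (nat_lit 912) (nat_lit 2088569018) (nat_lit 373) (nat_lit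 5) (nat_lit 384) (nat_lit 5) (nat_lit 385) (nat_lit 5) (nat_lit 593) (nat_lit 555) (nat_lit 412))))))) (XT.nd (nat_lit 702) (nat_lit 4180) (nat_lit 0) (XT.nd (nat_lit 312) (nat_lit 1520) (nat_lit 0) (XT.nd (nat_lit 156) (nat_lit 1596) (nat_lit 0) (XT.nd (nat_lit 78) (nat_lit 76) (nat_lit 0) (XT.lf (nat_lit 0) (nat_lit 4288193782) (nat_lit 760) (nat_lit 8150315519) (nat_lit 836) (nat_lit 179344281) (nat_lit 363) (nat_lit 5) (nat_lit 373) (nat_lit 5) (nat_lit 374) (nat_lit 5) (nat_lit 594) (nat_lit 555) (nat_lit 411)) (XT.lf (nat_lit 0) (nat_lit 1755313645) (nat_lit 836) (nat_lit 1223314245) (nat_lit 76) (nat_lit 9773094726) (nat_lit 362) (nat_lit 5) (nat_lit 373) (nat_lit 5) (nat_lit 363) (nat_lit 5) (nat_lit 595) (nat_lit 555) (nat_lit 410))) (XT.nd (nat_lit 78) (nat_lit 760) (nat_lit 0) (XT.lf (nat_lit 0) (nat_lit 3768023647) (nat_lit 912) (nat_lit 6812553815) (nat_lit 76) (nat_lit 2306834450) (nat_lit 351) (nat_lit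 5) (nat_lit 363) (nat_lit 5) (nat_lit 352) (nat_lit 5) (nat_lit 596) (nat_lit 555) (nat_lit 409)) (XT.lf (nat_lit 0) (nat_lit 482804178) (nat_lit 760) (nat_lit 5356509799) (nat_lit 836) (nat_lit 7186136255) (nat_lit 341) (nat_lit 5) (nat_lit 351) (nat_lit 5) (nat_lit 352) (nat_lit 5) (nat_lit 597) (nat_lit 555) (nat_lit 408)))) (XT.nd (nat_lit 156) (nat_lit 760) (nat_lit 0) (XT.nd (nat_lit 78) (nat_lit 760) (nat_lit 0) (XT.lf (nat_lit 0) (nat_lit 7985225731) (nat_lit 836) (nat_lit 5162872179) (nat_lit 76) (nat_lit 17489222) (nat_lit 341) (nat_lit 5) (nat_lit 352) (nat_lit 5) (nat_lit 342) (nat_lit 5) (nat_lit 598) (nat_lit 555) (nat_lit 407)) (XT.lf (nat_lit 0) (nat_lit 2346234835) (nat_lit 760) (nat_lit 7866134224) (nat_lit 836) (nat_lit 3095393138) (nat_lit 331) (nat_lit 5) (nat_lit 341) (nat_lit 5) (nat_lit 342) (nat_lit 5) (nat_lit 599) (nat_lit 555) (nat_lit 406))) (XT.nd (nat_lit 78) (nat_lit 760) (nat_lit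 0) (XT.lf (nat_lit 0) (nat_lit 10062037239) (nat_lit 760) (nat_lit 2444425608) (nat_lit 836) (nat_lit 945871425) (nat_lit 331) (nat_lit 5) (nat_lit 341) (nat_lit 5) (nat_lit 342) (nat_lit 5) (nat_lit 600) (nat_lit 555) (nat_lit 405)) (XT.nd (nat_lit 78) (nat_lit 0) (nat_lit 0) (XT.lf (nat_lit 0) (nat_lit 1266840429) (nat_lit 760) (nat_lit 9251394854) (nat_lit 76) (nat_lit 3080671226) (nat_lit 321) (nat_lit 5) (nat_lit 331) (nat_lit 5) (nat_lit 322) (nat_lit 5) (nat_lit 601) (nat_lit 555) (nat_lit 404)) (XT.lf (nat_lit 0) (nat_lit 3538305470) (nat_lit 760) (nat_lit 1498037484) (nat_lit 76) (nat_lit 8711400473) (nat_lit 321) (nat_lit 5) (nat_lit 331) (nat_lit 5) (nat_lit 322) (nat_lit 5) (nat_lit 602) (nat_lit 555) (nat_lit 403)))))) (XT.nd (nat_lit 390) (nat_lit 1976) (nat_lit 0) (XT.nd (nat_lit 156) (nat_lit 760) (nat_lit 0) (XT.nd (nat_lit 78) (nat_lit 684) (nat_lit 0) (XT.lf (nat_lit 0) (nat_lit 5889456395) (nat_lit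 836) (nat_lit 7420669922) (nat_lit 76) (nat_lit 588747170) (nat_lit 311) (nat_lit 5) (nat_lit 322) (nat_lit 5) (nat_lit 312) (nat_lit 5) (nat_lit 603) (nat_lit 555) (nat_lit 402)) (XT.lf (nat_lit 0) (nat_lit 541753568) (nat_lit 684) (nat_lit 7781297087) (nat_lit 760) (nat_lit 5729268589) (nat_lit 302) (nat_lit 5) (nat_lit 311) (nat_lit 5) (nat_lit 312) (nat_lit 5) (nat_lit 604) (nat_lit 555) (nat_lit 401))) (XT.nd (nat_lit 78) (nat_lit 760) (nat_lit 0) (XT.lf (nat_lit 0) (nat_lit 8750720283) (nat_lit 684) (nat_lit 2092964092) (nat_lit 760) (nat_lit 3364383663) (nat_lit 302) (nat_lit 5) (nat_lit 311) (nat_lit 5) (nat_lit 312) (nat_lit 5) (nat_lit 605) (nat_lit 555) (nat_lit 400)) (XT.nd (nat_lit 78) (nat_lit 76) (nat_lit 0) (XT.lf (nat_lit 0) (nat_lit 2755747098) (nat_lit 684) (nat_lit 10689741176) (nat_lit 760) (nat_lit 920829828) (nat_lit 293) (nat_lit 5) (nat_lit 302) (nat_lit 5) (nat_lit 303) (nat_lit 5) (nat_lit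 606) (nat_lit 555) (nat_lit 399)) (XT.lf (nat_lit 0) (nat_lit 1590551123) (nat_lit 760) (nat_lit 3357538039) (nat_lit 76) (nat_lit 9578649962) (nat_lit 292) (nat_lit 5) (nat_lit 302) (nat_lit 5) (nat_lit 293) (nat_lit 5) (nat_lit 607) (nat_lit 555) (nat_lit 398))))) (XT.nd (nat_lit 156) (nat_lit 1368) (nat_lit 0) (XT.nd (nat_lit 78) (nat_lit 0) (nat_lit 0) (XT.lf (nat_lit 0) (nat_lit 4168214377) (nat_lit 684) (nat_lit 9587541493) (nat_lit 76) (nat_lit 933924632) (nat_lit 284) (nat_lit 5) (nat_lit 293) (nat_lit 5) (nat_lit 285) (nat_lit 5) (nat_lit 608) (nat_lit 555) (nat_lit 397)) (XT.lf (nat_lit 0) (nat_lit 6842057745) (nat_lit 684) (nat_lit 1124992752) (nat_lit 76) (nat_lit 6887939009) (nat_lit 284) (nat_lit 5) (nat_lit 293) (nat_lit 5) (nat_lit 285) (nat_lit 5) (nat_lit 609) (nat_lit 555) (nat_lit 396))) (XT.nd (nat_lit 78) (nat_lit 684) (nat_lit 0) (XT.lf (nat_lit 0) (nat_lit 7593488538) (nat_lit 684) (nat_lit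 2014581590) (nat_lit 760) (nat_lit 5414762028) (nat_lit 275) (nat_lit 5) (nat_lit 284) (nat_lit 5) (nat_lit 285) (nat_lit 5) (nat_lit 610) (nat_lit 555) (nat_lit 395)) (XT.nd (nat_lit 78) (nat_lit 76) (nat_lit 0) (XT.lf (nat_lit 0) (nat_lit 1285153789) (nat_lit 608) (nat_lit 11176032431) (nat_lit 684) (nat_lit 2732211051) (nat_lit 267) (nat_lit 5) (nat_lit 275) (nat_lit 5) (nat_lit 276) (nat_lit 5) (nat_lit 611) (nat_lit 555) (nat_lit 394)) (XT.lf (nat_lit 0) (nat_lit 57016891) (nat_lit 684) (nat_lit 5118500119) (nat_lit 76) (nat_lit 10190795829) (nat_lit 266) (nat_lit 5) (nat_lit 275) (nat_lit 5) (nat_lit 267) (nat_lit 5) (nat_lit 612) (nat_lit 555) (nat_lit 393))))))))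
noncomputable def xc158 : XT := (XT.nd (nat_lit 1482) (nat_lit 3116) (nat_lit 0) (XT.nd (nat_lit 702) (nat_lit 3116) (nat_lit 0) (XT.nd (nat_lit 312) (nat_lit 1748) (nat_lit 0) (XT.nd (nat_lit 156) (nat_lit 532) (nat_lit 0) (XT.nd (nat_lit 78) (nat_lit 0) (nat_lit 0) (XT.lf (nat_lit 0) (nat_lit 2886746976) (nat_lit 684) (nat_lit 11681592838) (nat_lit 76) (nat_lit 973560877) (nat_lit 258) (nat_lit 5) (nat_lit 267) (nat_lit 5) (nat_lit 259) (nat_lit 5) (nat_lit 613) (nat_lit 555) (nat_lit 392)) (XT.lf (nat_lit 0) (nat_lit 5831779744) (nat_lit 684) (nat_lit 2679660946) (nat_lit 76) (nat_lit 7208386633) (nat_lit 258) (nat_lit 5) (nat_lit 267) (nat_lit 5) (nat_lit 259) (nat_lit 5) (nat_lit 614) (nat_lit 555) (nat_lit 391))) (XT.nd (nat_lit 78) (nat_lit 0) (nat_lit 0) (XT.lf (nat_lit 0) (nat_lit 6575887066) (nat_lit 532) (nat_lit 2292577824) (nat_lit 608) (nat_lit 7032193726) (nat_lit 251) (nat_lit 5) (nat_lit 258) (nat_lit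 5) (nat_lit 259) (nat_lit 5) (nat_lit 615) (nat_lit 555) (nat_lit 390)) (XT.lf (nat_lit 0) (nat_lit 12000436443) (nat_lit 608) (nat_lit 71059012) (nat_lit 76) (nat_lit 4012921165) (nat_lit 251) (nat_lit 5) (nat_lit 259) (nat_lit 5) (nat_lit 252) (nat_lit 5) (nat_lit 616) (nat_lit 555) (nat_lit 389)))) (XT.nd (nat_lit 156) (nat_lit 532) (nat_lit 0) (XT.nd (nat_lit 78) (nat_lit 608) (nat_lit 0) (XT.lf (nat_lit 0) (nat_lit 9464156520) (nat_lit 608) (nat_lit 5797866314) (nat_lit 684) (nat_lit 1008488558) (nat_lit 243) (nat_lit 5) (nat_lit 251) (nat_lit 5) (nat_lit 252) (nat_lit 5) (nat_lit 617) (nat_lit 555) (nat_lit 388)) (XT.lf (nat_lit 0) (nat_lit 2113355264) (nat_lit 608) (nat_lit 13723698295) (nat_lit 76) (nat_lit 622744016) (nat_lit 235) (nat_lit 5) (nat_lit 243) (nat_lit 5) (nat_lit 236) (nat_lit 5) (nat_lit 618) (nat_lit 555) (nat_lit 387))) (XT.nd (nat_lit 78) (nat_lit 532) (nat_lit 0) (XT.lf (nat_lit 0) (nat_lit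 5358995715) (nat_lit 608) (nat_lit 4148317615) (nat_lit 76) (nat_lit 7143926614) (nat_lit 235) (nat_lit 5) (nat_lit 243) (nat_lit 5) (nat_lit 236) (nat_lit 5) (nat_lit 619) (nat_lit 555) (nat_lit 386)) (XT.nd (nat_lit 78) (nat_lit 0) (nat_lit 0) (XT.lf (nat_lit 0) (nat_lit 5680673349) (nat_lit 532) (nat_lit 3016422663) (nat_lit 608) (nat_lit 8148865240) (nat_lit 228) (nat_lit 5) (nat_lit 235) (nat_lit 5) (nat_lit 236) (nat_lit 5) (nat_lit 620) (nat_lit 555) (nat_lit 385)) (XT.lf (nat_lit 0) (nat_lit 12144128847) (nat_lit 608) (nat_lit 1317614762) (nat_lit 76) (nat_lit 3581990976) (nat_lit 228) (nat_lit 5) (nat_lit 236) (nat_lit 5) (nat_lit 229) (nat_lit 5) (nat_lit 621) (nat_lit 555) (nat_lit 384)))))) (XT.nd (nat_lit 390) (nat_lit 1520) (nat_lit 0) (XT.nd (nat_lit 156) (nat_lit 456) (nat_lit 0) (XT.nd (nat_lit 78) (nat_lit 608) (nat_lit 0) (XT.lf (nat_lit 0) (nat_lit 8810345160) (nat_lit 532) (nat_lit 6917864886)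 (nat_lit 608) (nat_lit 1515892178) (nat_lit 221) (nat_lit 5) (nat_lit 228) (nat_lit 5) (nat_lit 229) (nat_lit 5) (nat_lit 622) (nat_lit 555) (nat_lit 383)) (XT.lf (nat_lit 0) (nat_lit 1707919002) (nat_lit 532) (nat_lit 213149002) (nat_lit 608) (nat_lit 15526939699) (nat_lit 213) (nat_lit 5) (nat_lit 220) (nat_lit 5) (nat_lit 221) (nat_lit 5) (nat_lit 623) (nat_lit 555) (nat_lit 382))) (XT.nd (nat_lit 78) (nat_lit 456) (nat_lit 0) (XT.lf (nat_lit 0) (nat_lit 5497520552) (nat_lit 608) (nat_lit 5553898762) (nat_lit 76) (nat_lit 6602551493) (nat_lit 213) (nat_lit 5) (nat_lit 221) (nat_lit 5) (nat_lit 214) (nat_lit 5) (nat_lit 624) (nat_lit 555) (nat_lit 381)) (XT.nd (nat_lit 78) (nat_lit 0) (nat_lit 0) (XT.lf (nat_lit 0) (nat_lit 4886576281) (nat_lit 456) (nat_lit 4283283999) (nat_lit 532) (nat_lit 8693706646) (nat_lit 207) (nat_lit 5) (nat_lit 213) (nat_lit 5) (nat_lit 214) (nat_lit 5) (nat_lit 625) (nat_lit 555)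 (nat_lit 380)) (XT.lf (nat_lit 0) (nat_lit 12961467300) (nat_lit 532) (nat_lit 2494911785) (nat_lit 76) (nat_lit 2620060370) (nat_lit 207) (nat_lit 5) (nat_lit 214) (nat_lit 5) (nat_lit 208) (nat_lit 5) (nat_lit 626) (nat_lit 555) (nat_lit 379))))) (XT.nd (nat_lit 156) (nat_lit 456) (nat_lit 0) (XT.nd (nat_lit 78) (nat_lit 532) (nat_lit 0) (XT.lf (nat_lit 0) (nat_lit 8264888413) (nat_lit 532) (nat_lit 8637507977) (nat_lit 608) (nat_lit 1389704129) (nat_lit 200) (nat_lit 5) (nat_lit 207) (nat_lit 5) (nat_lit 208) (nat_lit 5) (nat_lit 627) (nat_lit 555) (nat_lit 378)) (XT.lf (nat_lit 0) (nat_lit 743977741) (nat_lit 456) (nat_lit 1647662673) (nat_lit 532) (nat_lit 16119858686) (nat_lit 193) (nat_lit 5) (nat_lit 199) (nat_lit 5) (nat_lit 200) (nat_lit 5) (nat_lit 628) (nat_lit 555) (nat_lit 377))) (XT.nd (nat_lit 78) (nat_lit 456) (nat_lit 0) (XT.lf (nat_lit 0) (nat_lit 6324910213) (nat_lit 532) (nat_lit 6924721070)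 (nat_lit 76) (nat_lit 5483573352) (nat_lit 193) (nat_lit 5) (nat_lit 200) (nat_lit 5) (nat_lit 194) (nat_lit 5) (nat_lit 629) (nat_lit 555) (nat_lit 376)) (XT.nd (nat_lit 78) (nat_lit 0) (nat_lit 0) (XT.lf (nat_lit 0) (nat_lit 4166856488) (nat_lit 456) (nat_lit 6199682994) (nat_lit 532) (nat_lit 8592211730) (nat_lit 187) (nat_lit 5) (nat_lit 193) (nat_lit 5) (nat_lit 194) (nat_lit 5) (nat_lit 630) (nat_lit 555) (nat_lit 375)) (XT.lf (nat_lit 0) (nat_lit 14534004859) (nat_lit 532) (nat_lit 3632370860) (nat_lit 76) (nat_lit 1021533731) (nat_lit 187) (nat_lit 5) (nat_lit 194) (nat_lit 5) (nat_lit 188) (nat_lit 5) (nat_lit 631) (nat_lit 555) (nat_lit 374))))))) (XT.nd (nat_lit 702) (nat_lit 456) (nat_lit 0) (XT.nd (nat_lit 312) (nat_lit 1292) (nat_lit 0) (XT.nd (nat_lit 156) (nat_lit 836) (nat_lit 0) (XT.nd (nat_lit 78) (nat_lit 76) (nat_lit 0) (XT.lf (nat_lit 0) (nat_lit 7799936649) (nat_lit 456) (nat_lit 11068535026)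 (nat_lit 532) (nat_lit 551506914) (nat_lit 181) (nat_lit 5) (nat_lit 187) (nat_lit 5) (nat_lit 188) (nat_lit 5) (nat_lit 632) (nat_lit 555) (nat_lit 373)) (XT.lf (nat_lit 0) (nat_lit 3601810055) (nat_lit 532) (nat_lit 181500023) (nat_lit 76) (nat_lit 15872577678) (nat_lit 180) (nat_lit 5) (nat_lit 187) (nat_lit 5) (nat_lit 181) (nat_lit 5) (nat_lit 633) (nat_lit 555) (nat_lit 372))) (XT.nd (nat_lit 78) (nat_lit 380) (nat_lit 0) (XT.lf (nat_lit 0) (nat_lit 7922602896) (nat_lit 532) (nat_lit 8296122677) (nat_lit 76) (nat_lit 3675881476) (nat_lit 174) (nat_lit 5) (nat_lit 181) (nat_lit 5) (nat_lit 175) (nat_lit 5) (nat_lit 634) (nat_lit 555) (nat_lit 371)) (XT.lf (nat_lit 0) (nat_lit 3487623762) (nat_lit 380) (nat_lit 8883308502) (nat_lit 456) (nat_lit 7766346772) (nat_lit 169) (nat_lit 5) (nat_lit 174) (nat_lit 5) (nat_lit 175) (nat_lit 5) (nat_lit 635) (nat_lit 555) (nat_lit 370)))) (XT.nd (nat_lit 156) (nat_lit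 760) (nat_lit 0) (XT.nd (nat_lit 78) (nat_lit 532) (nat_lit 0) (XT.lf (nat_lit 0) (nat_lit 15608070636) (nat_lit 380) (nat_lit 1348103388) (nat_lit 456) (nat_lit 3427672231) (nat_lit 169) (nat_lit 5) (nat_lit 174) (nat_lit 5) (nat_lit 175) (nat_lit 5) (nat_lit 636) (nat_lit 555) (nat_lit 369)) (XT.lf (nat_lit 0) (nat_lit 1066695325) (nat_lit 532) (nat_lit 13260848076) (nat_lit 76) (nat_lit 6306032424) (nat_lit 162) (nat_lit 5) (nat_lit 169) (nat_lit 5) (nat_lit 163) (nat_lit 5) (nat_lit 637) (nat_lit 555) (nat_lit 368))) (XT.nd (nat_lit 78) (nat_lit 760) (nat_lit 0) (XT.lf (nat_lit 0) (nat_lit 5638712378) (nat_lit 532) (nat_lit 1101922644) (nat_lit 76) (nat_lit 14146539320) (nat_lit 162) (nat_lit 5) (nat_lit 169) (nat_lit 5) (nat_lit 163) (nat_lit 5) (nat_lit 638) (nat_lit 555) (nat_lit 367)) (XT.nd (nat_lit 78) (nat_lit 380) (nat_lit 0) (XT.lf (nat_lit 0) (nat_lit 10375963479) (nat_lit 456) (nat_lit 9712388345)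 (nat_lit 76) (nat_lit 1056017785) (nat_lit 157) (nat_lit 5) (nat_lit 163) (nat_lit 5) (nat_lit 158) (nat_lit 5) (nat_lit 639) (nat_lit 555) (nat_lit 366)) (XT.lf (nat_lit 0) (nat_lit 2805860375) (nat_lit 380) (nat_lit 12465025951) (nat_lit 456) (nat_lit 6134564563) (nat_lit 152) (nat_lit 5) (nat_lit 157) (nat_lit 5) (nat_lit 158) (nat_lit 5) (nat_lit 640) (nat_lit 555) (nat_lit 365)))))) (XT.nd (nat_lit 74802) (nat_lit 0) (nat_lit 28120) (XT.nd (nat_lit 74568) (nat_lit 0) (nat_lit 29488) (XT.nd (nat_lit 78) (nat_lit 456) (nat_lit 0) (XT.lf (nat_lit 0) (nat_lit 15695012401) (nat_lit 380) (nat_lit 4626568689) (nat_lit 456) (nat_lit 1349015864) (nat_lit 152) (nat_lit 5) (nat_lit 157) (nat_lit 5) (nat_lit 158) (nat_lit 5) (nat_lit 641) (nat_lit 555) (nat_lit 364)) (XT.lf (nat_lit 0) (nat_lit 3546186668) (nat_lit 456) (nat_lit 15003894239) (nat_lit 76) (nat_lit 3389301586) (nat_lit 146) (nat_lit 5) (nat_lit 152) (nat_lit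 5) (nat_lit 147) (nat_lit 5) (nat_lit 642) (nat_lit 555) (nat_lit 363))) (XT.nd (nat_lit 78) (nat_lit 0) (nat_lit 0) (XT.lf (nat_lit 0) (nat_lit 1359129793) (nat_lit 1596) (nat_lit 1552142686) (nat_lit 1596) (nat_lit 1552142686) (nat_lit 534) (nat_lit 3) (nat_lit 555) (nat_lit 3) (nat_lit 555) (nat_lit 5) (nat_lit 556) (nat_lit 556) (nat_lit 448)) (XT.nd (nat_lit 78) (nat_lit 0) (nat_lit 76) (XT.lf (nat_lit 76) (nat_lit 1293388656) (nat_lit 0) (nat_lit 2375709685) (nat_lit 1596) (nat_lit 5328369839) (nat_lit 535) (nat_lit 5) (nat_lit 534) (nat_lit 3) (nat_lit 555) (nat_lit 5) (nat_lit 557) (nat_lit 556) (nat_lit 447)) (XT.lf (nat_lit 0) (nat_lit 4643312960) (nat_lit 1520) (nat_lit 3268516969) (nat_lit 1596) (nat_lit 1157605803) (nat_lit 535) (nat_lit 5) (nat_lit 555) (nat_lit 5) (nat_lit 556) (nat_lit 5) (nat_lit 558) (nat_lit 556) (nat_lit 446))))) (XT.nd (nat_lit 156) (nat_lit 1444) (nat_lit 0) (XT.nd (nat_lit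 78) (nat_lit 0) (nat_lit 0) (XT.lf (nat_lit 76) (nat_lit 1243617871) (nat_lit 0) (nat_lit 4393660100) (nat_lit 1596) (nat_lit 3505563387) (nat_lit 536) (nat_lit 5) (nat_lit 535) (nat_lit 5) (nat_lit 556) (nat_lit 5) (nat_lit 559) (nat_lit 556) (nat_lit 445)) (XT.lf (nat_lit 76) (nat_lit 5877668614) (nat_lit 0) (nat_lit 772225250) (nat_lit 1596) (nat_lit 2567849769) (nat_lit 536) (nat_lit 5) (nat_lit 535) (nat_lit 5) (nat_lit 556) (nat_lit 5) (nat_lit 560) (nat_lit 556) (nat_lit 444))) (XT.nd (nat_lit 78) (nat_lit 1520) (nat_lit 0) (XT.lf (nat_lit 76) (nat_lit 1295366390) (nat_lit 0) (nat_lit 6392134566) (nat_lit 1596) (nat_lit 1606552108) (nat_lit 537) (nat_lit 5) (nat_lit 536) (nat_lit 5) (nat_lit 557) (nat_lit 5) (nat_lit 561) (nat_lit 556) (nat_lit 443)) (XT.nd (nat_lit 78) (nat_lit 1520) (nat_lit 0) (XT.lf (nat_lit 76) (nat_lit 6050785343) (nat_lit 0) (nat_lit 2700288896) (nat_lit 1596) (nat_lit 620713976)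 (nat_lit 537) (nat_lit 5) (nat_lit 536) (nat_lit 5) (nat_lit 557) (nat_lit 5) (nat_lit 562) (nat_lit 556) (nat_lit 442)) (XT.lf (nat_lit 0) (nat_lit 374297581) (nat_lit 1596) (nat_lit 8004403038) (nat_lit 1672) (nat_lit 1072441063) (nat_lit 516) (nat_lit 5) (nat_lit 537) (nat_lit 5) (nat_lit 538) (nat_lit 5) (nat_lit 563) (nat_lit 556) (nat_lit 441))))))))
noncomputable def xc159 : XT := (XT.nd (nat_lit 1482) (nat_lit 9424) (nat_lit 0) (XT.nd (nat_lit 702) (nat_lit 3192) (nat_lit 0) (XT.nd (nat_lit 312) (nat_lit 1444) (nat_lit 0) (XT.nd (nat_lit 156) (nat_lit 0) (nat_lit 76) (XT.nd (nat_lit 78) (nat_lit 0) (nat_lit 0) (XT.lf (nat_lit 0) (nat_lit 1399635945) (nat_lit 1596) (nat_lit 3212204034) (nat_lit 1672) (nat_lit 4919789016) (nat_lit 516) (nat_lit 5) (nat_lit 537) (nat_lit 5) (nat_lit 538) (nat_lit 5) (nat_lit 564) (nat_lit 556) (nat_lit 440)) (XT.lf (nat_lit 76) (nat_lit 1684918720) (nat_lit 0) (nat_lit 750339409)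 (nat_lit 1672) (nat_lit 7178675906) (nat_lit 517) (nat_lit 5) (nat_lit 516) (nat_lit 5) (nat_lit 538) (nat_lit 5) (nat_lit 565) (nat_lit 556) (nat_lit 439))) (XT.nd (nat_lit 78) (nat_lit 0) (nat_lit 0) (XT.lf (nat_lit 0) (nat_lit 3513211954) (nat_lit 1596) (nat_lit 3008175729) (nat_lit 1672) (nat_lit 3176068561) (nat_lit 517) (nat_lit 5) (nat_lit 538) (nat_lit 5) (nat_lit 539) (nat_lit 5) (nat_lit 566) (nat_lit 556) (nat_lit 438)) (XT.lf (nat_lit 76) (nat_lit 2019455898) (nat_lit 0) (nat_lit 2590976911) (nat_lit 1672) (nat_lit 5172265316) (nat_lit 518) (nat_lit 5) (nat_lit 517) (nat_lit 5) (nat_lit 539) (nat_lit 5) (nat_lit 567) (nat_lit 556) (nat_lit 437)))) (XT.nd (nat_lit 156) (nat_lit 1596) (nat_lit 0) (XT.nd (nat_lit 78) (nat_lit 0) (nat_lit 0) (XT.lf (nat_lit 0) (nat_lit 5739112428) (nat_lit 1596) (nat_lit 2703669536) (nat_lit 1672) (nat_lit 1426675911) (nat_lit 518) (nat_lit 5) (nat_lit 539) (nat_lit 5)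 (nat_lit 540) (nat_lit 5) (nat_lit 568) (nat_lit 556) (nat_lit 436)) (XT.lf (nat_lit 76) (nat_lit 2458945490) (nat_lit 0) (nat_lit 4444923795) (nat_lit 1672) (nat_lit 3053816716) (nat_lit 519) (nat_lit 5) (nat_lit 518) (nat_lit 5) (nat_lit 540) (nat_lit 5) (nat_lit 569) (nat_lit 556) (nat_lit 435))) (XT.nd (nat_lit 78) (nat_lit 1596) (nat_lit 0) (XT.lf (nat_lit 76) (nat_lit 7748309033) (nat_lit 0) (nat_lit 342434362) (nat_lit 1672) (nat_lit 1956962043) (nat_lit 519) (nat_lit 5) (nat_lit 518) (nat_lit 5) (nat_lit 540) (nat_lit 5) (nat_lit 570) (nat_lit 556) (nat_lit 434)) (XT.nd (nat_lit 78) (nat_lit 1672) (nat_lit 0) (XT.lf (nat_lit 76) (nat_lit 3005085249) (nat_lit 0) (nat_lit 6321823411) (nat_lit 1672) (nat_lit 812108658) (nat_lit 520) (nat_lit 5) (nat_lit 519) (nat_lit 5) (nat_lit 541) (nat_lit 5) (nat_lit 571) (nat_lit 556) (nat_lit 433)) (XT.lf (nat_lit 0) (nat_lit 350033217) (nat_lit 1672) (nat_lit 1803180974)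 (nat_lit 1748) (nat_lit 8078916954) (nat_lit 497) (nat_lit 5) (nat_lit 519) (nat_lit 5) (nat_lit 520) (nat_lit 5) (nat_lit 572) (nat_lit 556) (nat_lit 432)))))) (XT.nd (nat_lit 390) (nat_lit 3268) (nat_lit 0) (XT.nd (nat_lit 156) (nat_lit 0) (nat_lit 76) (XT.nd (nat_lit 78) (nat_lit 0) (nat_lit 0) (XT.lf (nat_lit 0) (nat_lit 1543817122) (nat_lit 1672) (nat_lit 6677107690) (nat_lit 1748) (nat_lit 2105692556) (nat_lit 498) (nat_lit 5) (nat_lit 520) (nat_lit 5) (nat_lit 521) (nat_lit 5) (nat_lit 573) (nat_lit 556) (nat_lit 431)) (XT.lf (nat_lit 0) (nat_lit 2769847343) (nat_lit 1672) (nat_lit 1214920917) (nat_lit 1748) (nat_lit 6438060534) (nat_lit 498) (nat_lit 5) (nat_lit 520) (nat_lit 5) (nat_lit 521) (nat_lit 5) (nat_lit 574) (nat_lit 556) (nat_lit 430))) (XT.nd (nat_lit 78) (nat_lit 0) (nat_lit 0) (XT.lf (nat_lit 0) (nat_lit 4033657394) (nat_lit 1672) (nat_lit 6122182722) (nat_lit 1748) (nat_lit 364861979) (nat_lit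 499) (nat_lit 5) (nat_lit 521) (nat_lit 5) (nat_lit 522) (nat_lit 5) (nat_lit 575) (nat_lit 556) (nat_lit 429)) (XT.nd (nat_lit 78) (nat_lit 0) (nat_lit 0) (XT.lf (nat_lit 0) (nat_lit 5339914013) (nat_lit 1672) (nat_lit 519669621) (nat_lit 1748) (nat_lit 4760608599) (nat_lit 499) (nat_lit 5) (nat_lit 521) (nat_lit 5) (nat_lit 522) (nat_lit 5) (nat_lit 576) (nat_lit 556) (nat_lit 428)) (XT.lf (nat_lit 76) (nat_lit 5250466644) (nat_lit 0) (nat_lit 1438834732) (nat_lit 1748) (nat_lit 4032033408) (nat_lit 500) (nat_lit 5) (nat_lit 499) (nat_lit 5) (nat_lit 522) (nat_lit 5) (nat_lit 577) (nat_lit 556) (nat_lit 427))))) (XT.nd (nat_lit 156) (nat_lit 3420) (nat_lit 0) (XT.nd (nat_lit 78) (nat_lit 0) (nat_lit 0) (XT.lf (nat_lit 76) (nat_lit 288887102) (nat_lit 0) (nat_lit 7785298964) (nat_lit 1748) (nat_lit 2750146598) (nat_lit 501) (nat_lit 5) (nat_lit 500) (nat_lit 5) (nat_lit 523) (nat_lit 5) (nat_lit 578) (nat_lit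 556) (nat_lit 426)) (XT.lf (nat_lit 76) (nat_lit 6214866953) (nat_lit 0) (nat_lit 3301511030) (nat_lit 1748) (nat_lit 1412422943) (nat_lit 501) (nat_lit 5) (nat_lit 500) (nat_lit 5) (nat_lit 523) (nat_lit 5) (nat_lit 579) (nat_lit 556) (nat_lit 425))) (XT.nd (nat_lit 78) (nat_lit 1824) (nat_lit 0) (XT.lf (nat_lit 0) (nat_lit 1218168828) (nat_lit 1672) (nat_lit 9769188124) (nat_lit 1748) (nat_lit 48005306) (nat_lit 479) (nat_lit 5) (nat_lit 501) (nat_lit 5) (nat_lit 502) (nat_lit 5) (nat_lit 580) (nat_lit 556) (nat_lit 424)) (XT.nd (nat_lit 78) (nat_lit 1748) (nat_lit 0) (XT.lf (nat_lit 0) (nat_lit 1363682558) (nat_lit 1748) (nat_lit 3855092272) (nat_lit 76) (nat_lit 5924355872) (nat_lit 478) (nat_lit 5) (nat_lit 501) (nat_lit 5) (nat_lit 479) (nat_lit 5) (nat_lit 581) (nat_lit 556) (nat_lit 423)) (XT.lf (nat_lit 0) (nat_lit 2241920079) (nat_lit 1748) (nat_lit 559811640) (nat_lit 1824) (nat_lit 8451343461) (nat_lit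 455) (nat_lit 5) (nat_lit 478) (nat_lit 5) (nat_lit 479) (nat_lit 5) (nat_lit 582) (nat_lit 556) (nat_lit 422))))))) (XT.nd (nat_lit 702) (nat_lit 4028) (nat_lit 0) (XT.nd (nat_lit 312) (nat_lit 2736) (nat_lit 0) (XT.nd (nat_lit 156) (nat_lit 988) (nat_lit 0) (XT.nd (nat_lit 78) (nat_lit 1672) (nat_lit 0) (XT.lf (nat_lit 0) (nat_lit 4306253490) (nat_lit 1824) (nat_lit 2892618387) (nat_lit 76) (nat_lit 4165594808) (nat_lit 455) (nat_lit 5) (nat_lit 479) (nat_lit 5) (nat_lit 456) (nat_lit 5) (nat_lit 583) (nat_lit 556) (nat_lit 421)) (XT.lf (nat_lit 0) (nat_lit 3375463285) (nat_lit 1672) (nat_lit 2475781612) (nat_lit 1748) (nat_lit 5626635864) (nat_lit 433) (nat_lit 5) (nat_lit 455) (nat_lit 5) (nat_lit 456) (nat_lit 5) (nat_lit 584) (nat_lit 556) (nat_lit 420))) (XT.nd (nat_lit 78) (nat_lit 988) (nat_lit 0) (XT.lf (nat_lit 0) (nat_lit 7446859880) (nat_lit 1748) (nat_lit 1814005267) (nat_lit 76) (nat_lit 2332305775)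 (nat_lit 433) (nat_lit 5) (nat_lit 456) (nat_lit 5) (nat_lit 434) (nat_lit 5) (nat_lit 585) (nat_lit 556) (nat_lit 419)) (XT.lf (nat_lit 0) (nat_lit 4631170576) (nat_lit 988) (nat_lit 4474955512) (nat_lit 1064) (nat_lit 2604008251) (nat_lit 420) (nat_lit 5) (nat_lit 433) (nat_lit 5) (nat_lit 434) (nat_lit 5) (nat_lit 586) (nat_lit 556) (nat_lit 418)))) (XT.nd (nat_lit 156) (nat_lit 1748) (nat_lit 0) (XT.nd (nat_lit 78) (nat_lit 988) (nat_lit 0) (XT.lf (nat_lit 0) (nat_lit 10798956796) (nat_lit 1064) (nat_lit 615635695) (nat_lit 76) (nat_lit 414839142) (nat_lit 420) (nat_lit 5) (nat_lit 434) (nat_lit 5) (nat_lit 421) (nat_lit 5) (nat_lit 587) (nat_lit 556) (nat_lit 417)) (XT.lf (nat_lit 0) (nat_lit 621797609) (nat_lit 988) (nat_lit 5941229795) (nat_lit 76) (nat_lit 5386918900) (nat_lit 407) (nat_lit 5) (nat_lit 420) (nat_lit 5) (nat_lit 408) (nat_lit 5) (nat_lit 588) (nat_lit 556) (nat_lit 416))) (XT.nd (nat_lit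 78) (nat_lit 836) (nat_lit 0) (XT.lf (nat_lit 0) (nat_lit 689911945) (nat_lit 912) (nat_lit 1597924448) (nat_lit 988) (nat_lit 9785010332) (nat_lit 395) (nat_lit 5) (nat_lit 407) (nat_lit 5) (nat_lit 408) (nat_lit 5) (nat_lit 589) (nat_lit 556) (nat_lit 415)) (XT.nd (nat_lit 78) (nat_lit 836) (nat_lit 0) (XT.lf (nat_lit 0) (nat_lit 4035898330) (nat_lit 988) (nat_lit 4699560761) (nat_lit 76) (nat_lit 3461774038) (nat_lit 395) (nat_lit 5) (nat_lit 408) (nat_lit 5) (nat_lit 396) (nat_lit 5) (nat_lit 590) (nat_lit 556) (nat_lit 414)) (XT.lf (nat_lit 0) (nat_lit 2121393748) (nat_lit 836) (nat_lit 3708219685) (nat_lit 912) (nat_lit 6494281972) (nat_lit 384) (nat_lit 5) (nat_lit 395) (nat_lit 5) (nat_lit 396) (nat_lit 5) (nat_lit 591) (nat_lit 556) (nat_lit 413)))))) (XT.nd (nat_lit 390) (nat_lit 2356) (nat_lit 0) (XT.nd (nat_lit 156) (nat_lit 836) (nat_lit 0) (XT.nd (nat_lit 78) (nat_lit 836) (nat_lit 0) (XT.lf (nat_lit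 0) (nat_lit 7686684658) (nat_lit 912) (nat_lit 3332927320) (nat_lit 76) (nat_lit 1432931259) (nat_lit 384) (nat_lit 5) (nat_lit 396) (nat_lit 5) (nat_lit 385) (nat_lit 5) (nat_lit 592) (nat_lit 556) (nat_lit 412)) (XT.lf (nat_lit 0) (nat_lit 3684556689) (nat_lit 836) (nat_lit 5931604955) (nat_lit 912) (nat_lit 2966899000) (nat_lit 373) (nat_lit 5) (nat_lit 384) (nat_lit 5) (nat_lit 385) (nat_lit 5) (nat_lit 593) (nat_lit 556) (nat_lit 411))) (XT.nd (nat_lit 78) (nat_lit 836) (nat_lit 0) (XT.lf (nat_lit 0) (nat_lit 10874408548) (nat_lit 836) (nat_lit 719143013) (nat_lit 912) (nat_lit 1122452239) (nat_lit 373) (nat_lit 5) (nat_lit 384) (nat_lit 5) (nat_lit 385) (nat_lit 5) (nat_lit 594) (nat_lit 556) (nat_lit 410)) (XT.nd (nat_lit 78) (nat_lit 0) (nat_lit 0) (XT.lf (nat_lit 0) (nat_lit 801293249) (nat_lit 836) (nat_lit 7471784210) (nat_lit 76) (nat_lit 4577384359) (nat_lit 362) (nat_lit 5) (nat_lit 373) (nat_lit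 5) (nat_lit 363) (nat_lit 5) (nat_lit 595) (nat_lit 556) (nat_lit 409)) (XT.lf (nat_lit 0) (nat_lit 2752993684) (nat_lit 836) (nat_lit 244563789) (nat_lit 76) (nat_lit 9989814704) (nat_lit 362) (nat_lit 5) (nat_lit 373) (nat_lit 5) (nat_lit 363) (nat_lit 5) (nat_lit 596) (nat_lit 556) (nat_lit 408))))) (XT.nd (nat_lit 156) (nat_lit 760) (nat_lit 0) (XT.nd (nat_lit 78) (nat_lit 760) (nat_lit 0) (XT.lf (nat_lit 0) (nat_lit 4793856147) (nat_lit 912) (nat_lit 5933355611) (nat_lit 76) (nat_lit 2398808153) (nat_lit 351) (nat_lit 5) (nat_lit 363) (nat_lit 5) (nat_lit 352) (nat_lit 5) (nat_lit 597) (nat_lit 556) (nat_lit 407)) (XT.lf (nat_lit 0) (nat_lit 1501228955) (nat_lit 760) (nat_lit 5393256217) (nat_lit 836) (nat_lit 6372578132) (nat_lit 341) (nat_lit 5) (nat_lit 351) (nat_lit 5) (nat_lit 352) (nat_lit 5) (nat_lit 598) (nat_lit 556) (nat_lit 406))) (XT.nd (nat_lit 78) (nat_lit 760) (nat_lit 0) (XT.lf (nat_lit 0)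 (nat_lit 9065363475) (nat_lit 836) (nat_lit 4259063302) (nat_lit 76) (nat_lit 85937714) (nat_lit 341) (nat_lit 5) (nat_lit 352) (nat_lit 5) (nat_lit 342) (nat_lit 5) (nat_lit 599) (nat_lit 556) (nat_lit 405)) (XT.nd (nat_lit 78) (nat_lit 0) (nat_lit 0) (XT.lf (nat_lit 0) (nat_lit 3393600417) (nat_lit 760) (nat_lit 7931897068) (nat_lit 836) (nat_lit 2230119080) (nat_lit 331) (nat_lit 5) (nat_lit 341) (nat_lit 5) (nat_lit 342) (nat_lit 5) (nat_lit 600) (nat_lit 556) (nat_lit 404)) (XT.lf (nat_lit 0) (nat_lit 11244102380) (nat_lit 760) (nat_lit 2403549570) (nat_lit 836) (nat_lit 55786971) (nat_lit 331) (nat_lit 5) (nat_lit 341) (nat_lit 5) (nat_lit 342) (nat_lit 5) (nat_lit 601) (nat_lit 556) (nat_lit 403))))))))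
noncomputable def xc160 : XT := (XT.nd (nat_lit 1404) (nat_lit 5548) (nat_lit 0) (XT.nd (nat_lit 702) (nat_lit 3724) (nat_lit 0) (XT.nd (nat_lit 312) (nat_lit 1368) (nat_lit 0) (XT.nd (nat_lit 156) (nat_lit 1444) (nat_lit 0) (XT.nd (nat_lit 78) (nat_lit 0) (nat_lit 0) (XT.lf (nat_lit 0) (nat_lit 2178723627) (nat_lit 760) (nat_lit 8432908246) (nat_lit 76) (nat_lit 3241405692) (nat_lit 321) (nat_lit 5) (nat_lit 331) (nat_lit 5) (nat_lit 322) (nat_lit 5) (nat_lit 602) (nat_lit 556) (nat_lit 402)) (XT.lf (nat_lit 0) (nat_lit 4478234707) (nat_lit 760) (nat_lit 544160484) (nat_lit 76) (nat_lit 8982805974) (nat_lit 321) (nat_lit 5) (nat_lit 331) (nat_lit 5) (nat_lit 322) (nat_lit 5) (nat_lit 603) (nat_lit 556) (nat_lit 401))) (XT.nd (nat_lit 78) (nat_lit 684) (nat_lit 0) (XT.lf (nat_lit 0) (nat_lit 6866483908) (nat_lit 836) (nat_lit 6575209192) (nat_lit 76) (nat_lit 717861452) (nat_lit 311) (nat_lit 5) (nat_lit 322) (nat_lit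 5) (nat_lit 312) (nat_lit 5) (nat_lit 604) (nat_lit 556) (nat_lit 400)) (XT.lf (nat_lit 0) (nat_lit 1539924122) (nat_lit 684) (nat_lit 7798388556) (nat_lit 760) (nat_lit 4977967482) (nat_lit 302) (nat_lit 5) (nat_lit 311) (nat_lit 5) (nat_lit 312) (nat_lit 5) (nat_lit 605) (nat_lit 556) (nat_lit 399)))) (XT.nd (nat_lit 156) (nat_lit 684) (nat_lit 0) (XT.nd (nat_lit 78) (nat_lit 684) (nat_lit 0) (XT.lf (nat_lit 0) (nat_lit 9893710652) (nat_lit 684) (nat_lit 1999005264) (nat_lit 760) (nat_lit 2582763024) (nat_lit 302) (nat_lit 5) (nat_lit 311) (nat_lit 5) (nat_lit 312) (nat_lit 5) (nat_lit 606) (nat_lit 556) (nat_lit 398)) (XT.lf (nat_lit 0) (nat_lit 3788233978) (nat_lit 684) (nat_lit 10749215372) (nat_lit 760) (nat_lit 99628891) (nat_lit 293) (nat_lit 5) (nat_lit 302) (nat_lit 5) (nat_lit 303) (nat_lit 5) (nat_lit 607) (nat_lit 556) (nat_lit 397))) (XT.nd (nat_lit 78) (nat_lit 608) (nat_lit 0) (XT.lf (nat_lit 0)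 (nat_lit 2434720772) (nat_lit 760) (nat_lit 2455584086) (nat_lit 76) (nat_lit 9910620764) (nat_lit 292) (nat_lit 5) (nat_lit 302) (nat_lit 5) (nat_lit 293) (nat_lit 5) (nat_lit 608) (nat_lit 556) (nat_lit 396)) (XT.nd (nat_lit 78) (nat_lit 0) (nat_lit 0) (XT.lf (nat_lit 0) (nat_lit 5055298506) (nat_lit 684) (nat_lit 8801449694) (nat_lit 76) (nat_lit 1110552386) (nat_lit 284) (nat_lit 5) (nat_lit 293) (nat_lit 5) (nat_lit 285) (nat_lit 5) (nat_lit 609) (nat_lit 556) (nat_lit 395)) (XT.lf (nat_lit 0) (nat_lit 7766859529) (nat_lit 684) (nat_lit 188823364) (nat_lit 76) (nat_lit 7180550005) (nat_lit 284) (nat_lit 5) (nat_lit 293) (nat_lit 5) (nat_lit 285) (nat_lit 5) (nat_lit 610) (nat_lit 556) (nat_lit 394)))))) (XT.nd (nat_lit 312) (nat_lit 1748) (nat_lit 0) (XT.nd (nat_lit 156) (nat_lit 684) (nat_lit 0) (XT.nd (nat_lit 78) (nat_lit 608) (nat_lit 0) (XT.lf (nat_lit 0) (nat_lit 8697720518) (nat_lit 684) (nat_lit 1881204800)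 (nat_lit 760) (nat_lit 4728694325) (nat_lit 275) (nat_lit 5) (nat_lit 284) (nat_lit 5) (nat_lit 285) (nat_lit 5) (nat_lit 611) (nat_lit 556) (nat_lit 393)) (XT.lf (nat_lit 0) (nat_lit 2271399450) (nat_lit 608) (nat_lit 11209777717) (nat_lit 684) (nat_lit 2000579293) (nat_lit 267) (nat_lit 5) (nat_lit 275) (nat_lit 5) (nat_lit 276) (nat_lit 5) (nat_lit 612) (nat_lit 556) (nat_lit 392))) (XT.nd (nat_lit 78) (nat_lit 608) (nat_lit 0) (XT.lf (nat_lit 0) (nat_lit 818906080) (nat_lit 684) (nat_lit 4268961968) (nat_lit 76) (nat_lit 10570466286) (nat_lit 266) (nat_lit 5) (nat_lit 275) (nat_lit 5) (nat_lit 267) (nat_lit 5) (nat_lit 613) (nat_lit 556) (nat_lit 391)) (XT.lf (nat_lit 0) (nat_lit 3697711339) (nat_lit 684) (nat_lit 10955709089) (nat_lit 76) (nat_lit 1184165664) (nat_lit 258) (nat_lit 5) (nat_lit 267) (nat_lit 5) (nat_lit 259) (nat_lit 5) (nat_lit 614) (nat_lit 556) (nat_lit 390)))) (XT.nd (nat_lit 156) (nat_lit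 1216) (nat_lit 0) (XT.nd (nat_lit 78) (nat_lit 532) (nat_lit 0) (XT.lf (nat_lit 0) (nat_lit 6686875558) (nat_lit 684) (nat_lit 1792552591) (nat_lit 76) (nat_lit 7539940219) (nat_lit 258) (nat_lit 5) (nat_lit 267) (nat_lit 5) (nat_lit 259) (nat_lit 5) (nat_lit 615) (nat_lit 556) (nat_lit 389)) (XT.lf (nat_lit 0) (nat_lit 7641917555) (nat_lit 532) (nat_lit 2133964716) (nat_lit 608) (nat_lit 6428103950) (nat_lit 251) (nat_lit 5) (nat_lit 258) (nat_lit 5) (nat_lit 259) (nat_lit 5) (nat_lit 616) (nat_lit 556) (nat_lit 388))) (XT.nd (nat_lit 78) (nat_lit 608) (nat_lit 0) (XT.lf (nat_lit 0) (nat_lit 868191387) (nat_lit 608) (nat_lit 12094925564) (nat_lit 684) (nat_lit 3428451618) (nat_lit 243) (nat_lit 5) (nat_lit 251) (nat_lit 5) (nat_lit 252) (nat_lit 5) (nat_lit 617) (nat_lit 556) (nat_lit 387)) (XT.nd (nat_lit 78) (nat_lit 608) (nat_lit 0) (XT.lf (nat_lit 0) (nat_lit 10576611026) (nat_lit 608) (nat_lit 5699621503)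 (nat_lit 684) (nat_lit 305428385) (nat_lit 243) (nat_lit 5) (nat_lit 251) (nat_lit 5) (nat_lit 252) (nat_lit 5) (nat_lit 618) (nat_lit 556) (nat_lit 386)) (XT.lf (nat_lit 0) (nat_lit 2862821933) (nat_lit 608) (nat_lit 13058812616) (nat_lit 76) (nat_lit 853136824) (nat_lit 235) (nat_lit 5) (nat_lit 243) (nat_lit 5) (nat_lit 236) (nat_lit 5) (nat_lit 619) (nat_lit 556) (nat_lit 385))))))) (XT.nd (nat_lit 702) (nat_lit 2888) (nat_lit 0) (XT.nd (nat_lit 312) (nat_lit 1596) (nat_lit 0) (XT.nd (nat_lit 156) (nat_lit 532) (nat_lit 0) (XT.nd (nat_lit 78) (nat_lit 532) (nat_lit 0) (XT.lf (nat_lit 0) (nat_lit 6159508535) (nat_lit 608) (nat_lit 3310343138) (nat_lit 76) (nat_lit 7500469781) (nat_lit 235) (nat_lit 5) (nat_lit 243) (nat_lit 5) (nat_lit 236) (nat_lit 5) (nat_lit 620) (nat_lit 556) (nat_lit 384)) (XT.lf (nat_lit 0) (nat_lit 6709168823) (nat_lit 532) (nat_lit 2847547272) (nat_lit 608) (nat_lit 7612375690) (nat_lit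 228) (nat_lit 5) (nat_lit 235) (nat_lit 5) (nat_lit 236) (nat_lit 5) (nat_lit 621) (nat_lit 556) (nat_lit 383))) (XT.nd (nat_lit 78) (nat_lit 532) (nat_lit 0) (XT.lf (nat_lit 0) (nat_lit 13060703882) (nat_lit 608) (nat_lit 434964552) (nat_lit 76) (nat_lit 3875393340) (nat_lit 228) (nat_lit 5) (nat_lit 236) (nat_lit 5) (nat_lit 229) (nat_lit 5) (nat_lit 622) (nat_lit 556) (nat_lit 382)) (XT.lf (nat_lit 0) (nat_lit 9889574289) (nat_lit 532) (nat_lit 6819545779) (nat_lit 608) (nat_lit 866465073) (nat_lit 221) (nat_lit 5) (nat_lit 228) (nat_lit 5) (nat_lit 229) (nat_lit 5) (nat_lit 623) (nat_lit 556) (nat_lit 381)))) (XT.nd (nat_lit 156) (nat_lit 988) (nat_lit 0) (XT.nd (nat_lit 78) (nat_lit 0) (nat_lit 0) (XT.lf (nat_lit 0) (nat_lit 2623210768) (nat_lit 608) (nat_lit 15135704505) (nat_lit 76) (nat_lit 24708750) (nat_lit 213) (nat_lit 5) (nat_lit 221) (nat_lit 5) (nat_lit 214) (nat_lit 5) (nat_lit 624) (nat_lit 556)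 (nat_lit 380)) (XT.lf (nat_lit 0) (nat_lit 6259562126) (nat_lit 608) (nat_lit 4765197925) (nat_lit 76) (nat_lit 6969180302) (nat_lit 213) (nat_lit 5) (nat_lit 221) (nat_lit 5) (nat_lit 214) (nat_lit 5) (nat_lit 625) (nat_lit 556) (nat_lit 379))) (XT.nd (nat_lit 78) (nat_lit 532) (nat_lit 0) (XT.lf (nat_lit 0) (nat_lit 5878167022) (nat_lit 456) (nat_lit 4120199053) (nat_lit 532) (nat_lit 8209503306) (nat_lit 207) (nat_lit 5) (nat_lit 213) (nat_lit 5) (nat_lit 214) (nat_lit 5) (nat_lit 626) (nat_lit 556) (nat_lit 378)) (XT.nd (nat_lit 78) (nat_lit 532) (nat_lit 0) (XT.lf (nat_lit 0) (nat_lit 13854739434) (nat_lit 532) (nat_lit 1657346253) (nat_lit 76) (nat_lit 2913136299) (nat_lit 207) (nat_lit 5) (nat_lit 214) (nat_lit 5) (nat_lit 208) (nat_lit 5) (nat_lit 627) (nat_lit 556) (nat_lit 377)) (XT.lf (nat_lit 0) (nat_lit 9311811372) (nat_lit 532) (nat_lit 8555967618) (nat_lit 608) (nat_lit 777552725) (nat_lit 200) (nat_lit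 5) (nat_lit 207) (nat_lit 5) (nat_lit 208) (nat_lit 5) (nat_lit 628) (nat_lit 556) (nat_lit 376)))))) (XT.nd (nat_lit 390) (nat_lit 1368) (nat_lit 0) (XT.nd (nat_lit 156) (nat_lit 988) (nat_lit 0) (XT.nd (nat_lit 78) (nat_lit 0) (nat_lit 0) (XT.lf (nat_lit 0) (nat_lit 1643082554) (nat_lit 456) (nat_lit 1421300749) (nat_lit 532) (nat_lit 15804785947) (nat_lit 193) (nat_lit 5) (nat_lit 199) (nat_lit 5) (nat_lit 200) (nat_lit 5) (nat_lit 629) (nat_lit 556) (nat_lit 375)) (XT.lf (nat_lit 0) (nat_lit 7065715993) (nat_lit 532) (nat_lit 6185665056) (nat_lit 76) (nat_lit 5844141105) (nat_lit 193) (nat_lit 5) (nat_lit 200) (nat_lit 5) (nat_lit 194) (nat_lit 5) (nat_lit 630) (nat_lit 556) (nat_lit 374))) (XT.nd (nat_lit 78) (nat_lit 532) (nat_lit 0) (XT.lf (nat_lit 0) (nat_lit 5121970696) (nat_lit 456) (nat_lit 6059822060) (nat_lit 532) (nat_lit 8143915794) (nat_lit 187) (nat_lit 5) (nat_lit 193) (nat_lit 5) (nat_lit 194)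 (nat_lit 5) (nat_lit 631) (nat_lit 556) (nat_lit 373)) (XT.nd (nat_lit 78) (nat_lit 532) (nat_lit 0) (XT.lf (nat_lit 0) (nat_lit 15422366919) (nat_lit 532) (nat_lit 2840036271) (nat_lit 76) (nat_lit 1297252733) (nat_lit 187) (nat_lit 5) (nat_lit 194) (nat_lit 5) (nat_lit 188) (nat_lit 5) (nat_lit 632) (nat_lit 556) (nat_lit 372)) (XT.lf (nat_lit 0) (nat_lit 40356206) (nat_lit 532) (nat_lit 10981529172) (nat_lit 76) (nat_lit 8774599699) (nat_lit 180) (nat_lit 5) (nat_lit 187) (nat_lit 5) (nat_lit 181) (nat_lit 5) (nat_lit 633) (nat_lit 556) (nat_lit 371))))) (XT.nd (nat_lit 156) (nat_lit 912) (nat_lit 0) (XT.nd (nat_lit 78) (nat_lit 0) (nat_lit 0) (XT.lf (nat_lit 0) (nat_lit 673965272) (nat_lit 456) (nat_lit 3588095523) (nat_lit 532) (nat_lit 15775125698) (nat_lit 174) (nat_lit 5) (nat_lit 180) (nat_lit 5) (nat_lit 181) (nat_lit 5) (nat_lit 634) (nat_lit 556) (nat_lit 370)) (XT.lf (nat_lit 0) (nat_lit 8660662114)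 (nat_lit 532) (nat_lit 7607503806) (nat_lit 76) (nat_lit 4012687472) (nat_lit 174) (nat_lit 5) (nat_lit 181) (nat_lit 5) (nat_lit 175) (nat_lit 5) (nat_lit 635) (nat_lit 556) (nat_lit 369))) (XT.nd (nat_lit 78) (nat_lit 532) (nat_lit 0) (XT.lf (nat_lit 0) (nat_lit 4406295578) (nat_lit 380) (nat_lit 8785809392) (nat_lit 456) (nat_lit 7336391963) (nat_lit 169) (nat_lit 5) (nat_lit 174) (nat_lit 5) (nat_lit 175) (nat_lit 5) (nat_lit 636) (nat_lit 556) (nat_lit 368)) (XT.nd (nat_lit 78) (nat_lit 532) (nat_lit 0) (XT.lf (nat_lit 0) (nat_lit 16752505913) (nat_lit 380) (nat_lit 1105295574) (nat_lit 456) (nat_lit 2922420044) (nat_lit 169) (nat_lit 5) (nat_lit 174) (nat_lit 5) (nat_lit 175) (nat_lit 5) (nat_lit 637) (nat_lit 556) (nat_lit 367)) (XT.lf (nat_lit 0) (nat_lit 1650400002) (nat_lit 532) (nat_lit 12682256185) (nat_lit 76) (nat_lit 6702294171) (nat_lit 162) (nat_lit 5) (nat_lit 169) (nat_lit 5) (nat_lit 163) (nat_lit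 5) (nat_lit 638) (nat_lit 556) (nat_lit 366))))))))
noncomputable def xc161 : XT := (XT.nd (nat_lit 75894) (nat_lit 0) (nat_lit 19836) (XT.nd (nat_lit 75114) (nat_lit 0) (nat_lit 28044) (XT.nd (nat_lit 312) (nat_lit 456) (nat_lit 0) (XT.nd (nat_lit 156) (nat_lit 380) (nat_lit 0) (XT.nd (nat_lit 78) (nat_lit 380) (nat_lit 0) (XT.lf (nat_lit 0) (nat_lit 6302830518) (nat_lit 532) (nat_lit 296697516) (nat_lit 76) (nat_lit 14694314321) (nat_lit 162) (nat_lit 5) (nat_lit 169) (nat_lit 5) (nat_lit 163) (nat_lit 5) (nat_lit 639) (nat_lit 556) (nat_lit 365)) (XT.lf (nat_lit 0) (nat_lit 11131143447) (nat_lit 456) (nat_lit 9075641695) (nat_lit 76) (nat_lit 1349471002) (nat_lit 157) (nat_lit 5) (nat_lit 163) (nat_lit 5) (nat_lit 158) (nat_lit 5) (nat_lit 640) (nat_lit 556) (nat_lit 364))) (XT.nd (nat_lit 78) (nat_lit 0) (nat_lit 0) (XT.lf (nat_lit 0) (nat_lit 3687504931) (nat_lit 380) (nat_lit 12431081247) (nat_lit 456) (nat_lit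 5704081378) (nat_lit 152) (nat_lit 5) (nat_lit 157) (nat_lit 5) (nat_lit 158) (nat_lit 5) (nat_lit 641) (nat_lit 556) (nat_lit 363)) (XT.lf (nat_lit 0) (nat_lit 16818253186) (nat_lit 380) (nat_lit 4441408667) (nat_lit 456) (nat_lit 833668264) (nat_lit 152) (nat_lit 5) (nat_lit 157) (nat_lit 5) (nat_lit 158) (nat_lit 5) (nat_lit 642) (nat_lit 556) (nat_lit 362)))) (XT.nd (nat_lit 74568) (nat_lit 0) (nat_lit 29488) (XT.nd (nat_lit 74490) (nat_lit 0) (nat_lit 29488) (XT.lf (nat_lit 0) (nat_lit 4148922889) (nat_lit 456) (nat_lit 14484027247) (nat_lit 76) (nat_lit 3734539742) (nat_lit 146) (nat_lit 5) (nat_lit 152) (nat_lit 5) (nat_lit 147) (nat_lit 5) (nat_lit 643) (nat_lit 556) (nat_lit 361)) (XT.lf (nat_lit 0) (nat_lit 2295628545) (nat_lit 1596) (nat_lit 1119356145) (nat_lit 1596) (nat_lit 1119356145) (nat_lit 534) (nat_lit 3) (nat_lit 555) (nat_lit 3) (nat_lit 555) (nat_lit 5) (nat_lit 557) (nat_lit 557) (nat_lit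 446))) (XT.nd (nat_lit 78) (nat_lit 0) (nat_lit 76) (XT.lf (nat_lit 76) (nat_lit 2240812199) (nat_lit 0) (nat_lit 3290624316) (nat_lit 1596) (nat_lit 3609895417) (nat_lit 535) (nat_lit 5) (nat_lit 534) (nat_lit 3) (nat_lit 555) (nat_lit 5) (nat_lit 558) (nat_lit 557) (nat_lit 445)) (XT.nd (nat_lit 78) (nat_lit 0) (nat_lit 0) (XT.lf (nat_lit 0) (nat_lit 6484536540) (nat_lit 1520) (nat_lit 2389501896) (nat_lit 1596) (nat_lit 341518386) (nat_lit 535) (nat_lit 5) (nat_lit 555) (nat_lit 5) (nat_lit 556) (nat_lit 5) (nat_lit 559) (nat_lit 557) (nat_lit 444)) (XT.lf (nat_lit 76) (nat_lit 2206662579) (nat_lit 0) (nat_lit 5263527994) (nat_lit 1596) (nat_lit 1820809685) (nat_lit 536) (nat_lit 5) (nat_lit 535) (nat_lit 5) (nat_lit 556) (nat_lit 5) (nat_lit 560) (nat_lit 557) (nat_lit 443)))))) (XT.nd (nat_lit 390) (nat_lit 0) (nat_lit 76) (XT.nd (nat_lit 156) (nat_lit 0) (nat_lit 0) (XT.nd (nat_lit 78) (nat_lit 1520) (nat_lit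 0) (XT.lf (nat_lit 76) (nat_lit 6914998800) (nat_lit 0) (nat_lit 1554331218) (nat_lit 1596) (nat_lit 898750912) (nat_lit 536) (nat_lit 5) (nat_lit 535) (nat_lit 5) (nat_lit 556) (nat_lit 5) (nat_lit 561) (nat_lit 557) (nat_lit 442)) (XT.lf (nat_lit 0) (nat_lit 48720835) (nat_lit 1596) (nat_lit 7173139942) (nat_lit 1672) (nat_lit 2224690294) (nat_lit 515) (nat_lit 5) (nat_lit 536) (nat_lit 5) (nat_lit 537) (nat_lit 5) (nat_lit 562) (nat_lit 557) (nat_lit 441))) (XT.nd (nat_lit 78) (nat_lit 0) (nat_lit 76) (XT.lf (nat_lit 0) (nat_lit 1008422748) (nat_lit 1596) (nat_lit 2427546508) (nat_lit 1672) (nat_lit 6090399837) (nat_lit 515) (nat_lit 5) (nat_lit 536) (nat_lit 5) (nat_lit 537) (nat_lit 5) (nat_lit 563) (nat_lit 557) (nat_lit 440)) (XT.nd (nat_lit 78) (nat_lit 0) (nat_lit 0) (XT.lf (nat_lit 0) (nat_lit 1984899540) (nat_lit 1596) (nat_lit 7178327143) (nat_lit 1672) (nat_lit 444608696) (nat_lit 516) (nat_lit 5)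 (nat_lit 537) (nat_lit 5) (nat_lit 538) (nat_lit 5) (nat_lit 564) (nat_lit 557) (nat_lit 439)) (XT.lf (nat_lit 0) (nat_lit 2999311024) (nat_lit 1596) (nat_lit 2309620708) (nat_lit 1672) (nat_lit 4381634612) (nat_lit 516) (nat_lit 5) (nat_lit 537) (nat_lit 5) (nat_lit 538) (nat_lit 5) (nat_lit 565) (nat_lit 557) (nat_lit 438))))) (XT.nd (nat_lit 156) (nat_lit 0) (nat_lit 76) (XT.nd (nat_lit 78) (nat_lit 0) (nat_lit 76) (XT.lf (nat_lit 76) (nat_lit 2679083795) (nat_lit 0) (nat_lit 1351980542) (nat_lit 1672) (nat_lit 5743949902) (nat_lit 517) (nat_lit 5) (nat_lit 516) (nat_lit 5) (nat_lit 538) (nat_lit 5) (nat_lit 566) (nat_lit 557) (nat_lit 437)) (XT.lf (nat_lit 0) (nat_lit 5096507788) (nat_lit 1596) (nat_lit 2092384346) (nat_lit 1672) (nat_lit 2672001177) (nat_lit 517) (nat_lit 5) (nat_lit 538) (nat_lit 5) (nat_lit 539) (nat_lit 5) (nat_lit 567) (nat_lit 557) (nat_lit 436))) (XT.nd (nat_lit 78) (nat_lit 0) (nat_lit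 76) (XT.lf (nat_lit 76) (nat_lit 3029379158) (nat_lit 0) (nat_lit 3162921474) (nat_lit 1672) (nat_lit 3756011775) (nat_lit 518) (nat_lit 5) (nat_lit 517) (nat_lit 5) (nat_lit 539) (nat_lit 5) (nat_lit 568) (nat_lit 557) (nat_lit 435)) (XT.nd (nat_lit 78) (nat_lit 0) (nat_lit 0) (XT.lf (nat_lit 0) (nat_lit 7311034059) (nat_lit 1596) (nat_lit 1774457810) (nat_lit 1672) (nat_lit 951970711) (nat_lit 518) (nat_lit 5) (nat_lit 539) (nat_lit 5) (nat_lit 540) (nat_lit 5) (nat_lit 569) (nat_lit 557) (nat_lit 434)) (XT.lf (nat_lit 76) (nat_lit 3484940536) (nat_lit 0) (nat_lit 4991916296) (nat_lit 1672) (nat_lit 1651047761) (nat_lit 519) (nat_lit 5) (nat_lit 518) (nat_lit 5) (nat_lit 540) (nat_lit 5) (nat_lit 570) (nat_lit 557) (nat_lit 433))))))) (XT.nd (nat_lit 702) (nat_lit 6840) (nat_lit 0) (XT.nd (nat_lit 312) (nat_lit 0) (nat_lit 76) (XT.nd (nat_lit 156) (nat_lit 0) (nat_lit 0) (XT.nd (nat_lit 78) (nat_lit 1596) (nat_lit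 0) (XT.lf (nat_lit 76) (nat_lit 8860938092) (nat_lit 0) (nat_lit 798394838) (nat_lit 1672) (nat_lit 560958844) (nat_lit 519) (nat_lit 5) (nat_lit 518) (nat_lit 5) (nat_lit 540) (nat_lit 5) (nat_lit 571) (nat_lit 557) (nat_lit 432)) (XT.lf (nat_lit 0) (nat_lit 574605650) (nat_lit 1672) (nat_lit 6270068716) (nat_lit 1748) (nat_lit 3469165752) (nat_lit 497) (nat_lit 5) (nat_lit 519) (nat_lit 5) (nat_lit 520) (nat_lit 5) (nat_lit 572) (nat_lit 557) (nat_lit 431))) (XT.nd (nat_lit 78) (nat_lit 0) (nat_lit 76) (XT.lf (nat_lit 0) (nat_lit 1721830461) (nat_lit 1672) (nat_lit 857711465) (nat_lit 1748) (nat_lit 7829717028) (nat_lit 497) (nat_lit 5) (nat_lit 519) (nat_lit 5) (nat_lit 520) (nat_lit 5) (nat_lit 573) (nat_lit 557) (nat_lit 430)) (XT.lf (nat_lit 0) (nat_lit 2916662483) (nat_lit 1672) (nat_lit 5806074563) (nat_lit 1748) (nat_lit 1783358699) (nat_lit 498) (nat_lit 5) (nat_lit 520) (nat_lit 5) (nat_lit 521) (nat_lit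 5) (nat_lit 574) (nat_lit 557) (nat_lit 429)))) (XT.nd (nat_lit 156) (nat_lit 0) (nat_lit 76) (XT.nd (nat_lit 78) (nat_lit 0) (nat_lit 76) (XT.lf (nat_lit 0) (nat_lit 4140900190) (nat_lit 1672) (nat_lit 254341609) (nat_lit 1748) (nat_lit 6209520070) (nat_lit 498) (nat_lit 5) (nat_lit 520) (nat_lit 5) (nat_lit 521) (nat_lit 5) (nat_lit 575) (nat_lit 557) (nat_lit 428)) (XT.lf (nat_lit 0) (nat_lit 5408478226) (nat_lit 1672) (nat_lit 5238034177) (nat_lit 1748) (nat_lit 58514522) (nat_lit 499) (nat_lit 5) (nat_lit 521) (nat_lit 5) (nat_lit 522) (nat_lit 5) (nat_lit 576) (nat_lit 557) (nat_lit 427))) (XT.nd (nat_lit 78) (nat_lit 0) (nat_lit 0) (XT.lf (nat_lit 76) (nat_lit 462862610) (nat_lit 0) (nat_lit 6255627134) (nat_lit 1748) (nat_lit 4088468572) (nat_lit 500) (nat_lit 5) (nat_lit 499) (nat_lit 5) (nat_lit 522) (nat_lit 5) (nat_lit 577) (nat_lit 557) (nat_lit 426)) (XT.nd (nat_lit 78) (nat_lit 0) (nat_lit 76) (XT.lf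 (nat_lit 76) (nat_lit 6335838607) (nat_lit 0) (nat_lit 1737508314) (nat_lit 1748) (nat_lit 2837211120) (nat_lit 500) (nat_lit 5) (nat_lit 499) (nat_lit 5) (nat_lit 522) (nat_lit 5) (nat_lit 578) (nat_lit 557) (nat_lit 425)) (XT.lf (nat_lit 76) (nat_lit 1295356167) (nat_lit 0) (nat_lit 8170837406) (nat_lit 1748) (nat_lit 1549820907) (nat_lit 501) (nat_lit 5) (nat_lit 500) (nat_lit 5) (nat_lit 523) (nat_lit 5) (nat_lit 579) (nat_lit 557) (nat_lit 424)))))) (XT.nd (nat_lit 390) (nat_lit 3648) (nat_lit 0) (XT.nd (nat_lit 156) (nat_lit 1748) (nat_lit 0) (XT.nd (nat_lit 78) (nat_lit 1672) (nat_lit 0) (XT.lf (nat_lit 76) (nat_lit 7320234217) (nat_lit 0) (nat_lit 3592867195) (nat_lit 1748) (nat_lit 209957066) (nat_lit 501) (nat_lit 5) (nat_lit 500) (nat_lit 5) (nat_lit 523) (nat_lit 5) (nat_lit 580) (nat_lit 557) (nat_lit 423)) (XT.lf (nat_lit 0) (nat_lit 1147528280) (nat_lit 1748) (nat_lit 8996916659) (nat_lit 76) (nat_lit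 1087530741) (nat_lit 478) (nat_lit 5) (nat_lit 501) (nat_lit 5) (nat_lit 479) (nat_lit 5) (nat_lit 581) (nat_lit 557) (nat_lit 422))) (XT.nd (nat_lit 78) (nat_lit 1748) (nat_lit 0) (XT.lf (nat_lit 0) (nat_lit 2563359643) (nat_lit 1748) (nat_lit 2935818898) (nat_lit 76) (nat_lit 5843187147) (nat_lit 478) (nat_lit 5) (nat_lit 501) (nat_lit 5) (nat_lit 479) (nat_lit 5) (nat_lit 582) (nat_lit 557) (nat_lit 421)) (XT.nd (nat_lit 78) (nat_lit 0) (nat_lit 0) (XT.lf (nat_lit 0) (nat_lit 3276578599) (nat_lit 1748) (nat_lit 737029454) (nat_lit 1824) (nat_lit 7441235758) (nat_lit 455) (nat_lit 5) (nat_lit 478) (nat_lit 5) (nat_lit 479) (nat_lit 5) (nat_lit 583) (nat_lit 557) (nat_lit 420)) (XT.lf (nat_lit 0) (nat_lit 5524499911) (nat_lit 1824) (nat_lit 1956165938) (nat_lit 76) (nat_lit 4088275157) (nat_lit 455) (nat_lit 5) (nat_lit 479) (nat_lit 5) (nat_lit 456) (nat_lit 5) (nat_lit 584) (nat_lit 557) (nat_lit 419))))) (XT.nd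 (nat_lit 156) (nat_lit 1976) (nat_lit 0) (XT.nd (nat_lit 78) (nat_lit 0) (nat_lit 0) (XT.lf (nat_lit 0) (nat_lit 4430735889) (nat_lit 1672) (nat_lit 2653870013) (nat_lit 1748) (nat_lit 4600336549) (nat_lit 433) (nat_lit 5) (nat_lit 455) (nat_lit 5) (nat_lit 456) (nat_lit 5) (nat_lit 585) (nat_lit 557) (nat_lit 418)) (XT.lf (nat_lit 0) (nat_lit 8689425830) (nat_lit 1748) (nat_lit 859016702) (nat_lit 76) (nat_lit 2254553347) (nat_lit 433) (nat_lit 5) (nat_lit 456) (nat_lit 5) (nat_lit 434) (nat_lit 5) (nat_lit 586) (nat_lit 557) (nat_lit 417))) (XT.nd (nat_lit 78) (nat_lit 988) (nat_lit 0) (XT.lf (nat_lit 0) (nat_lit 5708541154) (nat_lit 988) (nat_lit 4658286140) (nat_lit 1064) (nat_lit 1555775526) (nat_lit 420) (nat_lit 5) (nat_lit 433) (nat_lit 5) (nat_lit 434) (nat_lit 5) (nat_lit 587) (nat_lit 557) (nat_lit 416)) (XT.nd (nat_lit 78) (nat_lit 0) (nat_lit 0) (XT.lf (nat_lit 0) (nat_lit 29069982) (nat_lit 988) (nat_lit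 11680696648) (nat_lit 76) (nat_lit 334906421) (nat_lit 407) (nat_lit 5) (nat_lit 420) (nat_lit 5) (nat_lit 408) (nat_lit 5) (nat_lit 588) (nat_lit 557) (nat_lit 415)) (XT.lf (nat_lit 0) (nat_lit 1683770578) (nat_lit 988) (nat_lit 5065105312) (nat_lit 76) (nat_lit 5418925348) (nat_lit 407) (nat_lit 5) (nat_lit 420) (nat_lit 5) (nat_lit 408) (nat_lit 5) (nat_lit 589) (nat_lit 557) (nat_lit 414))))))))
noncomputable def xc162 : XT := (XT.nd (nat_lit 1482) (nat_lit 6460) (nat_lit 0) (XT.nd (nat_lit 702) (nat_lit 4484) (nat_lit 0) (XT.nd (nat_lit 312) (nat_lit 2508) (nat_lit 0) (XT.nd (nat_lit 156) (nat_lit 836) (nat_lit 0) (XT.nd (nat_lit 78) (nat_lit 0) (nat_lit 0) (XT.lf (nat_lit 0) (nat_lit 1692113544) (nat_lit 912) (nat_lit 1676854805) (nat_lit 988) (nat_lit 8924477557) (nat_lit 395) (nat_lit 5) (nat_lit 407) (nat_lit 5) (nat_lit 408) (nat_lit 5) (nat_lit 590) (nat_lit 557) (nat_lit 413)) (XT.lf (nat_lit 0) (nat_lit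 5131391058) (nat_lit 988) (nat_lit 3803781304) (nat_lit 76) (nat_lit 3485562633) (nat_lit 395) (nat_lit 5) (nat_lit 408) (nat_lit 5) (nat_lit 396) (nat_lit 5) (nat_lit 591) (nat_lit 557) (nat_lit 412))) (XT.nd (nat_lit 78) (nat_lit 0) (nat_lit 0) (XT.lf (nat_lit 0) (nat_lit 3147080646) (nat_lit 836) (nat_lit 3800386243) (nat_lit 912) (nat_lit 5602736788) (nat_lit 384) (nat_lit 5) (nat_lit 395) (nat_lit 5) (nat_lit 396) (nat_lit 5) (nat_lit 592) (nat_lit 557) (nat_lit 411)) (XT.lf (nat_lit 0) (nat_lit 8821932376) (nat_lit 912) (nat_lit 2415717688) (nat_lit 76) (nat_lit 1444172176) (nat_lit 384) (nat_lit 5) (nat_lit 396) (nat_lit 5) (nat_lit 385) (nat_lit 5) (nat_lit 593) (nat_lit 557) (nat_lit 410)))) (XT.nd (nat_lit 156) (nat_lit 1672) (nat_lit 0) (XT.nd (nat_lit 78) (nat_lit 0) (nat_lit 0) (XT.lf (nat_lit 0) (nat_lit 4735643184) (nat_lit 836) (nat_lit 6041456243) (nat_lit 912) (nat_lit 2038111334) (nat_lit 373)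 (nat_lit 5) (nat_lit 384) (nat_lit 5) (nat_lit 385) (nat_lit 5) (nat_lit 594) (nat_lit 557) (nat_lit 409)) (XT.lf (nat_lit 0) (nat_lit 12050127466) (nat_lit 836) (nat_lit 724917235) (nat_lit 912) (nat_lit 176150650) (nat_lit 373) (nat_lit 5) (nat_lit 384) (nat_lit 5) (nat_lit 385) (nat_lit 5) (nat_lit 595) (nat_lit 557) (nat_lit 408))) (XT.nd (nat_lit 78) (nat_lit 836) (nat_lit 0) (XT.lf (nat_lit 0) (nat_lit 1761018885) (nat_lit 836) (nat_lit 6637674070) (nat_lit 76) (nat_lit 4689773305) (nat_lit 362) (nat_lit 5) (nat_lit 373) (nat_lit 5) (nat_lit 363) (nat_lit 5) (nat_lit 596) (nat_lit 557) (nat_lit 407)) (XT.nd (nat_lit 78) (nat_lit 0) (nat_lit 0) (XT.lf (nat_lit 0) (nat_lit 724304936) (nat_lit 836) (nat_lit 3013647144) (nat_lit 912) (nat_lit 9490441337) (nat_lit 351) (nat_lit 5) (nat_lit 362) (nat_lit 5) (nat_lit 363) (nat_lit 5) (nat_lit 597) (nat_lit 557) (nat_lit 406)) (XT.lf (nat_lit 0) (nat_lit 5803297309)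 (nat_lit 912) (nat_lit 5076004576) (nat_lit 76) (nat_lit 2490841422) (nat_lit 351) (nat_lit 5) (nat_lit 363) (nat_lit 5) (nat_lit 352) (nat_lit 5) (nat_lit 598) (nat_lit 557) (nat_lit 405)))))) (XT.nd (nat_lit 390) (nat_lit 2204) (nat_lit 0) (XT.nd (nat_lit 156) (nat_lit 1520) (nat_lit 0) (XT.nd (nat_lit 78) (nat_lit 0) (nat_lit 0) (XT.lf (nat_lit 0) (nat_lit 2500850509) (nat_lit 760) (nat_lit 5433470652) (nat_lit 836) (nat_lit 5579921228) (nat_lit 341) (nat_lit 5) (nat_lit 351) (nat_lit 5) (nat_lit 352) (nat_lit 5) (nat_lit 599) (nat_lit 557) (nat_lit 404)) (XT.lf (nat_lit 0) (nat_lit 10131362429) (nat_lit 836) (nat_lit 3376283859) (nat_lit 76) (nat_lit 153110820) (nat_lit 341) (nat_lit 5) (nat_lit 352) (nat_lit 5) (nat_lit 342) (nat_lit 5) (nat_lit 600) (nat_lit 557) (nat_lit 403))) (XT.nd (nat_lit 78) (nat_lit 760) (nat_lit 0) (XT.lf (nat_lit 0) (nat_lit 4423064971) (nat_lit 760) (nat_lit 8002530549) (nat_lit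 836) (nat_lit 1383543145) (nat_lit 331) (nat_lit 5) (nat_lit 341) (nat_lit 5) (nat_lit 342) (nat_lit 5) (nat_lit 601) (nat_lit 557) (nat_lit 402)) (XT.nd (nat_lit 78) (nat_lit 684) (nat_lit 0) (XT.lf (nat_lit 0) (nat_lit 806089022) (nat_lit 836) (nat_lit 1553843375) (nat_lit 76) (nat_lit 11600223914) (nat_lit 330) (nat_lit 5) (nat_lit 341) (nat_lit 5) (nat_lit 331) (nat_lit 5) (nat_lit 602) (nat_lit 557) (nat_lit 401)) (XT.lf (nat_lit 0) (nat_lit 3074418813) (nat_lit 760) (nat_lit 7637019597) (nat_lit 76) (nat_lit 3401505856) (nat_lit 321) (nat_lit 5) (nat_lit 331) (nat_lit 5) (nat_lit 322) (nat_lit 5) (nat_lit 603) (nat_lit 557) (nat_lit 400))))) (XT.nd (nat_lit 156) (nat_lit 1444) (nat_lit 0) (XT.nd (nat_lit 78) (nat_lit 0) (nat_lit 0) (XT.lf (nat_lit 0) (nat_lit 395781177) (nat_lit 760) (nat_lit 5010000361) (nat_lit 836) (nat_lit 8862654560) (nat_lit 311) (nat_lit 5) (nat_lit 321) (nat_lit 5) (nat_lit 322) (nat_lit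 5) (nat_lit 604) (nat_lit 557) (nat_lit 399)) (XT.lf (nat_lit 0) (nat_lit 7829686698) (nat_lit 836) (nat_lit 5751432592) (nat_lit 76) (nat_lit 845001591) (nat_lit 311) (nat_lit 5) (nat_lit 322) (nat_lit 5) (nat_lit 312) (nat_lit 5) (nat_lit 605) (nat_lit 557) (nat_lit 398))) (XT.nd (nat_lit 78) (nat_lit 760) (nat_lit 0) (XT.lf (nat_lit 0) (nat_lit 2519718647) (nat_lit 684) (nat_lit 7821201318) (nat_lit 760) (nat_lit 4245263781) (nat_lit 302) (nat_lit 5) (nat_lit 311) (nat_lit 5) (nat_lit 312) (nat_lit 5) (nat_lit 606) (nat_lit 557) (nat_lit 397)) (XT.nd (nat_lit 78) (nat_lit 760) (nat_lit 0) (XT.lf (nat_lit 0) (nat_lit 11021973142) (nat_lit 684) (nat_lit 1908441242) (nat_lit 760) (nat_lit 1818474117) (nat_lit 302) (nat_lit 5) (nat_lit 311) (nat_lit 5) (nat_lit 312) (nat_lit 5) (nat_lit 607) (nat_lit 557) (nat_lit 396)) (XT.lf (nat_lit 0) (nat_lit 696141340) (nat_lit 760) (nat_lit 10115058694) (nat_lit 76) (nat_lit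 4102605237) (nat_lit 292) (nat_lit 5) (nat_lit 302) (nat_lit 5) (nat_lit 293) (nat_lit 5) (nat_lit 608) (nat_lit 557) (nat_lit 395))))))) (XT.nd (nat_lit 702) (nat_lit 3344) (nat_lit 0) (XT.nd (nat_lit 312) (nat_lit 1824) (nat_lit 0) (XT.nd (nat_lit 156) (nat_lit 684) (nat_lit 0) (XT.nd (nat_lit 78) (nat_lit 608) (nat_lit 0) (XT.lf (nat_lit 0) (nat_lit 3264228938) (nat_lit 760) (nat_lit 1573222571) (nat_lit 76) (nat_lit 10243779164) (nat_lit 292) (nat_lit 5) (nat_lit 302) (nat_lit 5) (nat_lit 293) (nat_lit 5) (nat_lit 609) (nat_lit 557) (nat_lit 394)) (XT.lf (nat_lit 0) (nat_lit 5928914896) (nat_lit 684) (nat_lit 8037606881) (nat_lit 76) (nat_lit 1284579332) (nat_lit 284) (nat_lit 5) (nat_lit 293) (nat_lit 5) (nat_lit 285) (nat_lit 5) (nat_lit 610) (nat_lit 557) (nat_lit 393))) (XT.nd (nat_lit 78) (nat_lit 0) (nat_lit 0) (XT.lf (nat_lit 0) (nat_lit 738529058) (nat_lit 684) (nat_lit 7945825839) (nat_lit 760) (nat_lit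 6739266084) (nat_lit 275) (nat_lit 5) (nat_lit 284) (nat_lit 5) (nat_lit 285) (nat_lit 5) (nat_lit 611) (nat_lit 557) (nat_lit 392)) (XT.lf (nat_lit 0) (nat_lit 9787055752) (nat_lit 684) (nat_lit 1751904231) (nat_lit 760) (nat_lit 4059751350) (nat_lit 275) (nat_lit 5) (nat_lit 284) (nat_lit 5) (nat_lit 285) (nat_lit 5) (nat_lit 612) (nat_lit 557) (nat_lit 391)))) (XT.nd (nat_lit 156) (nat_lit 1140) (nat_lit 0) (XT.nd (nat_lit 78) (nat_lit 76) (nat_lit 0) (XT.lf (nat_lit 0) (nat_lit 3240070985) (nat_lit 608) (nat_lit 11251567118) (nat_lit 684) (nat_lit 1284846955) (nat_lit 267) (nat_lit 5) (nat_lit 275) (nat_lit 5) (nat_lit 276) (nat_lit 5) (nat_lit 613) (nat_lit 557) (nat_lit 390)) (XT.lf (nat_lit 0) (nat_lit 1566492248) (nat_lit 684) (nat_lit 3439396807) (nat_lit 76) (nat_lit 10950901506) (nat_lit 266) (nat_lit 5) (nat_lit 275) (nat_lit 5) (nat_lit 267) (nat_lit 5) (nat_lit 614) (nat_lit 557) (nat_lit 389))) (XT.nd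 (nat_lit 78) (nat_lit 532) (nat_lit 0) (XT.lf (nat_lit 0) (nat_lit 4495646172) (nat_lit 684) (nat_lit 10252566826) (nat_lit 76) (nat_lit 1391560598) (nat_lit 258) (nat_lit 5) (nat_lit 267) (nat_lit 5) (nat_lit 259) (nat_lit 5) (nat_lit 615) (nat_lit 557) (nat_lit 388)) (XT.nd (nat_lit 78) (nat_lit 532) (nat_lit 0) (XT.lf (nat_lit 0) (nat_lit 7530397977) (nat_lit 684) (nat_lit 924230657) (nat_lit 76) (nat_lit 7870848455) (nat_lit 258) (nat_lit 5) (nat_lit 267) (nat_lit 5) (nat_lit 259) (nat_lit 5) (nat_lit 616) (nat_lit 557) (nat_lit 387)) (XT.lf (nat_lit 0) (nat_lit 8692980385) (nat_lit 532) (nat_lit 1980118958) (nat_lit 608) (nat_lit 5840851293) (nat_lit 251) (nat_lit 5) (nat_lit 258) (nat_lit 5) (nat_lit 259) (nat_lit 5) (nat_lit 617) (nat_lit 557) (nat_lit 386)))))) (XT.nd (nat_lit 390) (nat_lit 1596) (nat_lit 0) (XT.nd (nat_lit 156) (nat_lit 1064) (nat_lit 0) (XT.nd (nat_lit 78) (nat_lit 76) (nat_lit 0) (XT.lf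 (nat_lit 0) (nat_lit 1790625191) (nat_lit 608) (nat_lit 12126821980) (nat_lit 684) (nat_lit 2787971686) (nat_lit 243) (nat_lit 5) (nat_lit 251) (nat_lit 5) (nat_lit 252) (nat_lit 5) (nat_lit 618) (nat_lit 557) (nat_lit 385)) (XT.lf (nat_lit 0) (nat_lit 378577988) (nat_lit 684) (nat_lit 5226611080) (nat_lit 76) (nat_lit 11294348308) (nat_lit 242) (nat_lit 5) (nat_lit 251) (nat_lit 5) (nat_lit 243) (nat_lit 5) (nat_lit 619) (nat_lit 557) (nat_lit 384))) (XT.nd (nat_lit 78) (nat_lit 532) (nat_lit 0) (XT.lf (nat_lit 0) (nat_lit 3599816514) (nat_lit 608) (nat_lit 12417105702) (nat_lit 76) (nat_lit 1079674693) (nat_lit 235) (nat_lit 5) (nat_lit 243) (nat_lit 5) (nat_lit 236) (nat_lit 5) (nat_lit 620) (nat_lit 557) (nat_lit 383)) (XT.nd (nat_lit 78) (nat_lit 532) (nat_lit 0) (XT.lf (nat_lit 0) (nat_lit 6949108649) (nat_lit 608) (nat_lit 2491370427) (nat_lit 76) (nat_lit 7855846953) (nat_lit 235) (nat_lit 5) (nat_lit 243)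 (nat_lit 5) (nat_lit 236) (nat_lit 5) (nat_lit 621) (nat_lit 557) (nat_lit 382)) (XT.lf (nat_lit 0) (nat_lit 7722708224) (nat_lit 532) (nat_lit 2684194638) (nat_lit 608) (nat_lit 7092317499) (nat_lit 228) (nat_lit 5) (nat_lit 235) (nat_lit 5) (nat_lit 236) (nat_lit 5) (nat_lit 622) (nat_lit 557) (nat_lit 381))))) (XT.nd (nat_lit 156) (nat_lit 1064) (nat_lit 0) (XT.nd (nat_lit 78) (nat_lit 0) (nat_lit 0) (XT.lf (nat_lit 0) (nat_lit 435756005) (nat_lit 532) (nat_lit 13536523329) (nat_lit 608) (nat_lit 3733125652) (nat_lit 221) (nat_lit 5) (nat_lit 228) (nat_lit 5) (nat_lit 229) (nat_lit 5) (nat_lit 623) (nat_lit 557) (nat_lit 380)) (XT.lf (nat_lit 0) (nat_lit 10955322547) (nat_lit 532) (nat_lit 6728450723) (nat_lit 608) (nat_lit 230444751) (nat_lit 221) (nat_lit 5) (nat_lit 228) (nat_lit 5) (nat_lit 229) (nat_lit 5) (nat_lit 624) (nat_lit 557) (nat_lit 379))) (XT.nd (nat_lit 78) (nat_lit 456) (nat_lit 0) (XT.lf (nat_lit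 0) (nat_lit 3314980046) (nat_lit 608) (nat_lit 14556282505) (nat_lit 76) (nat_lit 255181140) (nat_lit 213) (nat_lit 5) (nat_lit 221) (nat_lit 5) (nat_lit 214) (nat_lit 5) (nat_lit 625) (nat_lit 557) (nat_lit 378)) (XT.nd (nat_lit 78) (nat_lit 456) (nat_lit 0) (XT.lf (nat_lit 0) (nat_lit 7011523038) (nat_lit 608) (nat_lit 3995662580) (nat_lit 76) (nat_lit 7334032747) (nat_lit 213) (nat_lit 5) (nat_lit 221) (nat_lit 5) (nat_lit 214) (nat_lit 5) (nat_lit 626) (nat_lit 557) (nat_lit 377)) (XT.lf (nat_lit 0) (nat_lit 6854879934) (nat_lit 456) (nat_lit 3963511699) (nat_lit 532) (nat_lit 7741169850) (nat_lit 207) (nat_lit 5) (nat_lit 213) (nat_lit 5) (nat_lit 214) (nat_lit 5) (nat_lit 627) (nat_lit 557) (nat_lit 376))))))))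
noncomputable def xc163 : XT := (XT.nd (nat_lit 75972) (nat_lit 0) (nat_lit 26144) (XT.nd (nat_lit 702) (nat_lit 1672) (nat_lit 0) (XT.nd (nat_lit 312) (nat_lit 1444) (nat_lit 0) (XT.nd (nat_lit 156) (nat_lit 532) (nat_lit 0) (XT.nd (nat_lit 78) (nat_lit 532) (nat_lit 0) (XT.lf (nat_lit 0) (nat_lit 14741256356) (nat_lit 532) (nat_lit 837490709) (nat_lit 76) (nat_lit 3202728054) (nat_lit 207) (nat_lit 5) (nat_lit 214) (nat_lit 5) (nat_lit 208) (nat_lit 5) (nat_lit 628) (nat_lit 557) (nat_lit 375)) (XT.lf (nat_lit 0) (nat_lit 10345438209) (nat_lit 532) (nat_lit 8482670861) (nat_lit 608) (nat_lit 178008157) (nat_lit 200) (nat_lit 5) (nat_lit 207) (nat_lit 5) (nat_lit 208) (nat_lit 5) (nat_lit 629) (nat_lit 557) (nat_lit 374))) (XT.nd (nat_lit 78) (nat_lit 0) (nat_lit 0) (XT.lf (nat_lit 0) (nat_lit 2525833919) (nat_lit 456) (nat_lit 1200481111) (nat_lit 532) (nat_lit 15508165486) (nat_lit 193) (nat_lit 5) (nat_lit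 199) (nat_lit 5) (nat_lit 200) (nat_lit 5) (nat_lit 630) (nat_lit 557) (nat_lit 373)) (XT.lf (nat_lit 0) (nat_lit 7797483576) (nat_lit 532) (nat_lit 5465904274) (nat_lit 76) (nat_lit 6202177606) (nat_lit 193) (nat_lit 5) (nat_lit 200) (nat_lit 5) (nat_lit 194) (nat_lit 5) (nat_lit 631) (nat_lit 557) (nat_lit 372)))) (XT.nd (nat_lit 156) (nat_lit 988) (nat_lit 0) (XT.nd (nat_lit 78) (nat_lit 0) (nat_lit 0) (XT.lf (nat_lit 0) (nat_lit 6062335021) (nat_lit 456) (nat_lit 5927409703) (nat_lit 532) (nat_lit 7710734737) (nat_lit 187) (nat_lit 5) (nat_lit 193) (nat_lit 5) (nat_lit 194) (nat_lit 5) (nat_lit 632) (nat_lit 557) (nat_lit 371)) (XT.lf (nat_lit 0) (nat_lit 16305287502) (nat_lit 532) (nat_lit 2065443295) (nat_lit 76) (nat_lit 1568572958) (nat_lit 187) (nat_lit 5) (nat_lit 194) (nat_lit 5) (nat_lit 188) (nat_lit 5) (nat_lit 633) (nat_lit 557) (nat_lit 370))) (XT.nd (nat_lit 78) (nat_lit 456) (nat_lit 0) (XT.lf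 (nat_lit 0) (nat_lit 613554222) (nat_lit 532) (nat_lit 10367575324) (nat_lit 76) (nat_lit 9199783762) (nat_lit 180) (nat_lit 5) (nat_lit 187) (nat_lit 5) (nat_lit 181) (nat_lit 5) (nat_lit 634) (nat_lit 557) (nat_lit 369)) (XT.nd (nat_lit 78) (nat_lit 0) (nat_lit 0) (XT.lf (nat_lit 0) (nat_lit 1515544902) (nat_lit 456) (nat_lit 3398301227) (nat_lit 532) (nat_lit 15512700609) (nat_lit 174) (nat_lit 5) (nat_lit 180) (nat_lit 5) (nat_lit 181) (nat_lit 5) (nat_lit 635) (nat_lit 557) (nat_lit 368)) (XT.lf (nat_lit 0) (nat_lit 9390975665) (nat_lit 532) (nat_lit 6938295439) (nat_lit 76) (nat_lit 4346005779) (nat_lit 174) (nat_lit 5) (nat_lit 181) (nat_lit 5) (nat_lit 175) (nat_lit 5) (nat_lit 636) (nat_lit 557) (nat_lit 367)))))) (XT.nd (nat_lit 390) (nat_lit 380) (nat_lit 0) (XT.nd (nat_lit 156) (nat_lit 912) (nat_lit 0) (XT.nd (nat_lit 78) (nat_lit 0) (nat_lit 0) (XT.lf (nat_lit 0) (nat_lit 5310376259) (nat_lit 380)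 (nat_lit 8697045304) (nat_lit 456) (nat_lit 6920565261) (nat_lit 169) (nat_lit 5) (nat_lit 174) (nat_lit 5) (nat_lit 175) (nat_lit 5) (nat_lit 637) (nat_lit 557) (nat_lit 366)) (XT.lf (nat_lit 0) (nat_lit 17887511687) (nat_lit 380) (nat_lit 868107097) (nat_lit 456) (nat_lit 2429344385) (nat_lit 169) (nat_lit 5) (nat_lit 174) (nat_lit 5) (nat_lit 175) (nat_lit 5) (nat_lit 638) (nat_lit 557) (nat_lit 365))) (XT.nd (nat_lit 78) (nat_lit 380) (nat_lit 0) (XT.lf (nat_lit 0) (nat_lit 2223941230) (nat_lit 532) (nat_lit 12124858583) (nat_lit 76) (nat_lit 7095991246) (nat_lit 162) (nat_lit 5) (nat_lit 169) (nat_lit 5) (nat_lit 163) (nat_lit 5) (nat_lit 639) (nat_lit 557) (nat_lit 364)) (XT.nd (nat_lit 78) (nat_lit 0) (nat_lit 0) (XT.lf (nat_lit 0) (nat_lit 499053639) (nat_lit 380) (nat_lit 6463008214) (nat_lit 456) (nat_lit 14746947146) (nat_lit 157) (nat_lit 5) (nat_lit 162) (nat_lit 5) (nat_lit 163) (nat_lit 5) (nat_lit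 640) (nat_lit 557) (nat_lit 363)) (XT.lf (nat_lit 0) (nat_lit 11880160683) (nat_lit 456) (nat_lit 8458428637) (nat_lit 76) (nat_lit 1638218267) (nat_lit 157) (nat_lit 5) (nat_lit 163) (nat_lit 5) (nat_lit 158) (nat_lit 5) (nat_lit 641) (nat_lit 557) (nat_lit 362))))) (XT.nd (nat_lit 74646) (nat_lit 0) (nat_lit 29032) (XT.nd (nat_lit 78) (nat_lit 0) (nat_lit 0) (XT.lf (nat_lit 0) (nat_lit 4554726145) (nat_lit 380) (nat_lit 12407456405) (nat_lit 456) (nat_lit 5286468969) (nat_lit 152) (nat_lit 5) (nat_lit 157) (nat_lit 5) (nat_lit 158) (nat_lit 5) (nat_lit 642) (nat_lit 557) (nat_lit 361)) (XT.lf (nat_lit 0) (nat_lit 17932531108) (nat_lit 380) (nat_lit 4263328540) (nat_lit 456) (nat_lit 329072965) (nat_lit 152) (nat_lit 5) (nat_lit 157) (nat_lit 5) (nat_lit 158) (nat_lit 5) (nat_lit 643) (nat_lit 557) (nat_lit 360))) (XT.nd (nat_lit 78) (nat_lit 0) (nat_lit 0) (XT.lf (nat_lit 0) (nat_lit 3215547417) (nat_lit 1596)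 (nat_lit 695924935) (nat_lit 1596) (nat_lit 695924935) (nat_lit 534) (nat_lit 3) (nat_lit 555) (nat_lit 3) (nat_lit 555) (nat_lit 5) (nat_lit 558) (nat_lit 558) (nat_lit 444)) (XT.nd (nat_lit 78) (nat_lit 0) (nat_lit 0) (XT.lf (nat_lit 76) (nat_lit 3171399079) (nat_lit 0) (nat_lit 4190155023) (nat_lit 1596) (nat_lit 1927920105) (nat_lit 535) (nat_lit 5) (nat_lit 534) (nat_lit 3) (nat_lit 555) (nat_lit 5) (nat_lit 559) (nat_lit 558) (nat_lit 443)) (XT.lf (nat_lit 76) (nat_lit 7833316213) (nat_lit 0) (nat_lit 464392679) (nat_lit 1596) (nat_lit 1068200624) (nat_lit 535) (nat_lit 5) (nat_lit 534) (nat_lit 3) (nat_lit 555) (nat_lit 5) (nat_lit 560) (nat_lit 558) (nat_lit 442))))))) (XT.nd (nat_lit 702) (nat_lit 1368) (nat_lit 0) (XT.nd (nat_lit 312) (nat_lit 0) (nat_lit 76) (XT.nd (nat_lit 156) (nat_lit 0) (nat_lit 76) (XT.nd (nat_lit 78) (nat_lit 1596) (nat_lit 0) (XT.lf (nat_lit 76) (nat_lit 3152537806) (nat_lit 0)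 (nat_lit 6120427439) (nat_lit 1596) (nat_lit 170504455) (nat_lit 536) (nat_lit 5) (nat_lit 535) (nat_lit 5) (nat_lit 556) (nat_lit 5) (nat_lit 561) (nat_lit 558) (nat_lit 441)) (XT.lf (nat_lit 0) (nat_lit 727257653) (nat_lit 1596) (nat_lit 1590170971) (nat_lit 1672) (nat_lit 7205221601) (nat_lit 514) (nat_lit 5) (nat_lit 535) (nat_lit 5) (nat_lit 536) (nat_lit 5) (nat_lit 562) (nat_lit 558) (nat_lit 440))) (XT.nd (nat_lit 78) (nat_lit 0) (nat_lit 0) (XT.lf (nat_lit 0) (nat_lit 1650918206) (nat_lit 1596) (nat_lit 6379577512) (nat_lit 1672) (nat_lit 1572695098) (nat_lit 515) (nat_lit 5) (nat_lit 536) (nat_lit 5) (nat_lit 537) (nat_lit 5) (nat_lit 563) (nat_lit 558) (nat_lit 439)) (XT.lf (nat_lit 0) (nat_lit 2598417629) (nat_lit 1596) (nat_lit 1557445253) (nat_lit 1672) (nat_lit 5529375479) (nat_lit 515) (nat_lit 5) (nat_lit 536) (nat_lit 5) (nat_lit 537) (nat_lit 5) (nat_lit 564) (nat_lit 558) (nat_lit 438)))) (XT.nd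 (nat_lit 156) (nat_lit 0) (nat_lit 76) (XT.nd (nat_lit 78) (nat_lit 0) (nat_lit 76) (XT.lf (nat_lit 76) (nat_lit 3393750052) (nat_lit 0) (nat_lit 172834695) (nat_lit 1672) (nat_lit 6202311141) (nat_lit 516) (nat_lit 5) (nat_lit 515) (nat_lit 5) (nat_lit 537) (nat_lit 5) (nat_lit 565) (nat_lit 558) (nat_lit 437)) (XT.lf (nat_lit 0) (nat_lit 4569949263) (nat_lit 1596) (nat_lit 1426528801) (nat_lit 1672) (nat_lit 3857435139) (nat_lit 516) (nat_lit 5) (nat_lit 537) (nat_lit 5) (nat_lit 538) (nat_lit 5) (nat_lit 566) (nat_lit 558) (nat_lit 436))) (XT.nd (nat_lit 78) (nat_lit 0) (nat_lit 76) (XT.lf (nat_lit 76) (nat_lit 3655836079) (nat_lit 0) (nat_lit 1942874772) (nat_lit 1672) (nat_lit 4341816672) (nat_lit 517) (nat_lit 5) (nat_lit 516) (nat_lit 5) (nat_lit 538) (nat_lit 5) (nat_lit 567) (nat_lit 558) (nat_lit 435)) (XT.nd (nat_lit 78) (nat_lit 0) (nat_lit 0) (XT.lf (nat_lit 0) (nat_lit 6652716678) (nat_lit 1596) (nat_lit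 1196174653) (nat_lit 1672) (nat_lit 2179892608) (nat_lit 517) (nat_lit 5) (nat_lit 538) (nat_lit 5) (nat_lit 539) (nat_lit 5) (nat_lit 568) (nat_lit 558) (nat_lit 434)) (XT.lf (nat_lit 76) (nat_lit 4021852691) (nat_lit 0) (nat_lit 3726107840) (nat_lit 1672) (nat_lit 2370444921) (nat_lit 518) (nat_lit 5) (nat_lit 517) (nat_lit 5) (nat_lit 539) (nat_lit 5) (nat_lit 569) (nat_lit 558) (nat_lit 433)))))) (XT.nd (nat_lit 390) (nat_lit 0) (nat_lit 152) (XT.nd (nat_lit 156) (nat_lit 1672) (nat_lit 0) (XT.nd (nat_lit 78) (nat_lit 0) (nat_lit 0) (XT.lf (nat_lit 0) (nat_lit 8857811625) (nat_lit 1596) (nat_lit 864844009) (nat_lit 1672) (nat_lit 487312781) (nat_lit 518) (nat_lit 5) (nat_lit 539) (nat_lit 5) (nat_lit 540) (nat_lit 5) (nat_lit 570) (nat_lit 558) (nat_lit 432)) (XT.lf (nat_lit 76) (nat_lit 4493524521) (nat_lit 0) (nat_lit 5532060298) (nat_lit 1672) (nat_lit 277066324) (nat_lit 519) (nat_lit 5) (nat_lit 518) (nat_lit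 5) (nat_lit 540) (nat_lit 5) (nat_lit 571) (nat_lit 558) (nat_lit 431))) (XT.nd (nat_lit 78) (nat_lit 0) (nat_lit 76) (XT.lf (nat_lit 0) (nat_lit 796649042) (nat_lit 1672) (nat_lit 444039989) (nat_lit 1748) (nat_lit 9156637538) (nat_lit 496) (nat_lit 5) (nat_lit 518) (nat_lit 5) (nat_lit 519) (nat_lit 5) (nat_lit 572) (nat_lit 558) (nat_lit 430)) (XT.nd (nat_lit 78) (nat_lit 0) (nat_lit 0) (XT.lf (nat_lit 0) (nat_lit 1924133626) (nat_lit 1672) (nat_lit 5433182709) (nat_lit 1748) (nat_lit 3135825278) (nat_lit 497) (nat_lit 5) (nat_lit 519) (nat_lit 5) (nat_lit 520) (nat_lit 5) (nat_lit 573) (nat_lit 558) (nat_lit 429)) (XT.lf (nat_lit 76) (nat_lit 69464344) (nat_lit 0) (nat_lit 2999053600) (nat_lit 1748) (nat_lit 7522470789) (nat_lit 498) (nat_lit 5) (nat_lit 497) (nat_lit 5) (nat_lit 520) (nat_lit 5) (nat_lit 574) (nat_lit 558) (nat_lit 428))))) (XT.nd (nat_lit 156) (nat_lit 0) (nat_lit 0) (XT.nd (nat_lit 78) (nat_lit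 0) (nat_lit 0) (XT.lf (nat_lit 0) (nat_lit 4264854459) (nat_lit 1672) (nat_lit 4956629656) (nat_lit 1748) (nat_lit 1468730113) (nat_lit 498) (nat_lit 5) (nat_lit 520) (nat_lit 5) (nat_lit 521) (nat_lit 5) (nat_lit 575) (nat_lit 558) (nat_lit 427)) (XT.lf (nat_lit 76) (nat_lit 696337879) (nat_lit 0) (nat_lit 4796468781) (nat_lit 1748) (nat_lit 5298466464) (nat_lit 499) (nat_lit 5) (nat_lit 498) (nat_lit 5) (nat_lit 521) (nat_lit 5) (nat_lit 576) (nat_lit 558) (nat_lit 426))) (XT.nd (nat_lit 78) (nat_lit 0) (nat_lit 76) (XT.lf (nat_lit 76) (nat_lit 6517138991) (nat_lit 0) (nat_lit 244993814) (nat_lit 1748) (nat_lit 4131886710) (nat_lit 499) (nat_lit 5) (nat_lit 498) (nat_lit 5) (nat_lit 521) (nat_lit 5) (nat_lit 577) (nat_lit 558) (nat_lit 425)) (XT.nd (nat_lit 78) (nat_lit 0) (nat_lit 0) (XT.lf (nat_lit 76) (nat_lit 1433259695) (nat_lit 0) (nat_lit 6645344468) (nat_lit 1748) (nat_lit 2919784065) (nat_lit 500) (nat_lit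 5) (nat_lit 499) (nat_lit 5) (nat_lit 522) (nat_lit 5) (nat_lit 578) (nat_lit 558) (nat_lit 424)) (XT.lf (nat_lit 76) (nat_lit 7404849333) (nat_lit 0) (nat_lit 2031674942) (nat_lit 1748) (nat_lit 1668020168) (nat_lit 500) (nat_lit 5) (nat_lit 499) (nat_lit 5) (nat_lit 522) (nat_lit 5) (nat_lit 579) (nat_lit 558) (nat_lit 423))))))))
noncomputable def xc164 : XT := (XT.nd (nat_lit 1482) (nat_lit 7068) (nat_lit 0) (XT.nd (nat_lit 702) (nat_lit 5244) (nat_lit 0) (XT.nd (nat_lit 312) (nat_lit 4332) (nat_lit 0) (XT.nd (nat_lit 156) (nat_lit 0) (nat_lit 76) (XT.nd (nat_lit 78) (nat_lit 1748) (nat_lit 0) (XT.lf (nat_lit 76) (nat_lit 2283096550) (nat_lit 0) (nat_lit 8555161943) (nat_lit 1748) (nat_lit 374234642) (nat_lit 501) (nat_lit 5) (nat_lit 500) (nat_lit 5) (nat_lit 523) (nat_lit 5) (nat_lit 580) (nat_lit 558) (nat_lit 422)) (XT.lf (nat_lit 0) (nat_lit 956062425) (nat_lit 1748) (nat_lit 2918822695) (nat_lit 1824)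 (nat_lit 7447134579) (nat_lit 477) (nat_lit 5) (nat_lit 500) (nat_lit 5) (nat_lit 501) (nat_lit 5) (nat_lit 581) (nat_lit 558) (nat_lit 421))) (XT.nd (nat_lit 78) (nat_lit 0) (nat_lit 0) (XT.lf (nat_lit 0) (nat_lit 2319893976) (nat_lit 1748) (nat_lit 8200016543) (nat_lit 76) (nat_lit 913540334) (nat_lit 478) (nat_lit 5) (nat_lit 501) (nat_lit 5) (nat_lit 479) (nat_lit 5) (nat_lit 582) (nat_lit 558) (nat_lit 420)) (XT.lf (nat_lit 0) (nat_lit 3741504415) (nat_lit 1748) (nat_lit 2036850521) (nat_lit 76) (nat_lit 5768147927) (nat_lit 478) (nat_lit 5) (nat_lit 501) (nat_lit 5) (nat_lit 479) (nat_lit 5) (nat_lit 583) (nat_lit 558) (nat_lit 419)))) (XT.nd (nat_lit 156) (nat_lit 2660) (nat_lit 0) (XT.nd (nat_lit 78) (nat_lit 0) (nat_lit 0) (XT.lf (nat_lit 0) (nat_lit 4293494369) (nat_lit 1748) (nat_lit 911344804) (nat_lit 1824) (nat_lit 6456713133) (nat_lit 455) (nat_lit 5) (nat_lit 478) (nat_lit 5) (nat_lit 479) (nat_lit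 5) (nat_lit 584) (nat_lit 558) (nat_lit 418)) (XT.lf (nat_lit 0) (nat_lit 6723149608) (nat_lit 1824) (nat_lit 1039594507) (nat_lit 76) (nat_lit 4015646631) (nat_lit 455) (nat_lit 5) (nat_lit 479) (nat_lit 5) (nat_lit 456) (nat_lit 5) (nat_lit 585) (nat_lit 558) (nat_lit 417))) (XT.nd (nat_lit 78) (nat_lit 988) (nat_lit 0) (XT.lf (nat_lit 0) (nat_lit 5468757891) (nat_lit 1672) (nat_lit 2830527545) (nat_lit 1748) (nat_lit 3597733483) (nat_lit 433) (nat_lit 5) (nat_lit 455) (nat_lit 5) (nat_lit 456) (nat_lit 5) (nat_lit 586) (nat_lit 558) (nat_lit 416)) (XT.nd (nat_lit 78) (nat_lit 0) (nat_lit 0) (XT.lf (nat_lit 0) (nat_lit 77597163) (nat_lit 988) (nat_lit 9837282811) (nat_lit 1064) (nat_lit 2102983066) (nat_lit 420) (nat_lit 5) (nat_lit 433) (nat_lit 5) (nat_lit 434) (nat_lit 5) (nat_lit 587) (nat_lit 558) (nat_lit 415)) (XT.lf (nat_lit 0) (nat_lit 6769220210) (nat_lit 988) (nat_lit 4841639789) (nat_lit 1064) (nat_lit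 529304638) (nat_lit 420) (nat_lit 5) (nat_lit 433) (nat_lit 5) (nat_lit 434) (nat_lit 5) (nat_lit 588) (nat_lit 558) (nat_lit 414)))))) (XT.nd (nat_lit 390) (nat_lit 2508) (nat_lit 0) (XT.nd (nat_lit 156) (nat_lit 1748) (nat_lit 0) (XT.nd (nat_lit 78) (nat_lit 0) (nat_lit 0) (XT.lf (nat_lit 0) (nat_lit 1058609241) (nat_lit 988) (nat_lit 10938870308) (nat_lit 76) (nat_lit 267357559) (nat_lit 407) (nat_lit 5) (nat_lit 420) (nat_lit 5) (nat_lit 408) (nat_lit 5) (nat_lit 589) (nat_lit 558) (nat_lit 413)) (XT.lf (nat_lit 0) (nat_lit 2726228204) (nat_lit 988) (nat_lit 4210093425) (nat_lit 76) (nat_lit 5454512688) (nat_lit 407) (nat_lit 5) (nat_lit 420) (nat_lit 5) (nat_lit 408) (nat_lit 5) (nat_lit 590) (nat_lit 558) (nat_lit 412))) (XT.nd (nat_lit 78) (nat_lit 836) (nat_lit 0) (XT.lf (nat_lit 0) (nat_lit 2675978269) (nat_lit 912) (nat_lit 1755539794) (nat_lit 988) (nat_lit 8087748941) (nat_lit 395) (nat_lit 5) (nat_lit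 407) (nat_lit 5) (nat_lit 408) (nat_lit 5) (nat_lit 591) (nat_lit 558) (nat_lit 411)) (XT.nd (nat_lit 78) (nat_lit 836) (nat_lit 0) (XT.lf (nat_lit 0) (nat_lit 6209388700) (nat_lit 988) (nat_lit 2928520259) (nat_lit 76) (nat_lit 3511591758) (nat_lit 395) (nat_lit 5) (nat_lit 408) (nat_lit 5) (nat_lit 396) (nat_lit 5) (nat_lit 592) (nat_lit 558) (nat_lit 410)) (XT.lf (nat_lit 0) (nat_lit 4155100136) (nat_lit 836) (nat_lit 3893697086) (nat_lit 912) (nat_lit 4733024104) (nat_lit 384) (nat_lit 5) (nat_lit 395) (nat_lit 5) (nat_lit 396) (nat_lit 5) (nat_lit 593) (nat_lit 558) (nat_lit 409))))) (XT.nd (nat_lit 156) (nat_lit 1672) (nat_lit 0) (XT.nd (nat_lit 78) (nat_lit 836) (nat_lit 0) (XT.lf (nat_lit 0) (nat_lit 9941771662) (nat_lit 912) (nat_lit 1518368664) (nat_lit 76) (nat_lit 1456314262) (nat_lit 384) (nat_lit 5) (nat_lit 396) (nat_lit 5) (nat_lit 385) (nat_lit 5) (nat_lit 594) (nat_lit 558) (nat_lit 408)) (XT.lf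 (nat_lit 0) (nat_lit 5769797956) (nat_lit 836) (nat_lit 6153845526) (nat_lit 912) (nat_lit 1129118037) (nat_lit 373) (nat_lit 5) (nat_lit 384) (nat_lit 5) (nat_lit 385) (nat_lit 5) (nat_lit 595) (nat_lit 558) (nat_lit 407))) (XT.nd (nat_lit 78) (nat_lit 836) (nat_lit 0) (XT.lf (nat_lit 0) (nat_lit 15644181) (nat_lit 760) (nat_lit 726061071) (nat_lit 836) (nat_lit 12450028653) (nat_lit 362) (nat_lit 5) (nat_lit 372) (nat_lit 5) (nat_lit 373) (nat_lit 5) (nat_lit 596) (nat_lit 558) (nat_lit 406)) (XT.nd (nat_lit 78) (nat_lit 836) (nat_lit 0) (XT.lf (nat_lit 0) (nat_lit 2703294021) (nat_lit 836) (nat_lit 5825074010) (nat_lit 76) (nat_lit 4803600739) (nat_lit 362) (nat_lit 5) (nat_lit 373) (nat_lit 5) (nat_lit 363) (nat_lit 5) (nat_lit 597) (nat_lit 558) (nat_lit 405)) (XT.lf (nat_lit 0) (nat_lit 1677925145) (nat_lit 836) (nat_lit 3030152829) (nat_lit 912) (nat_lit 8766852719) (nat_lit 351) (nat_lit 5) (nat_lit 362)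 (nat_lit 5) (nat_lit 363) (nat_lit 5) (nat_lit 598) (nat_lit 558) (nat_lit 404))))))) (XT.nd (nat_lit 702) (nat_lit 3344) (nat_lit 0) (XT.nd (nat_lit 312) (nat_lit 2204) (nat_lit 0) (XT.nd (nat_lit 156) (nat_lit 760) (nat_lit 0) (XT.nd (nat_lit 78) (nat_lit 760) (nat_lit 0) (XT.lf (nat_lit 0) (nat_lit 6797452489) (nat_lit 912) (nat_lit 4239406495) (nat_lit 76) (nat_lit 2583004567) (nat_lit 351) (nat_lit 5) (nat_lit 363) (nat_lit 5) (nat_lit 352) (nat_lit 5) (nat_lit 599) (nat_lit 558) (nat_lit 403)) (XT.lf (nat_lit 0) (nat_lit 3482813862) (nat_lit 760) (nat_lit 5477116334) (nat_lit 836) (nat_lit 4807140119) (nat_lit 341) (nat_lit 5) (nat_lit 351) (nat_lit 5) (nat_lit 352) (nat_lit 5) (nat_lit 600) (nat_lit 558) (nat_lit 402))) (XT.nd (nat_lit 78) (nat_lit 760) (nat_lit 0) (XT.lf (nat_lit 0) (nat_lit 11184327706) (nat_lit 836) (nat_lit 2513435922) (nat_lit 76) (nat_lit 219085716) (nat_lit 341) (nat_lit 5) (nat_lit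 352) (nat_lit 5) (nat_lit 342) (nat_lit 5) (nat_lit 601) (nat_lit 558) (nat_lit 401)) (XT.lf (nat_lit 0) (nat_lit 5435779006) (nat_lit 760) (nat_lit 8077994021) (nat_lit 836) (nat_lit 554641232) (nat_lit 331) (nat_lit 5) (nat_lit 341) (nat_lit 5) (nat_lit 342) (nat_lit 5) (nat_lit 602) (nat_lit 558) (nat_lit 400)))) (XT.nd (nat_lit 156) (nat_lit 1444) (nat_lit 0) (XT.nd (nat_lit 78) (nat_lit 684) (nat_lit 0) (XT.lf (nat_lit 0) (nat_lit 1650974204) (nat_lit 836) (nat_lit 667666833) (nat_lit 76) (nat_lit 11904033685) (nat_lit 330) (nat_lit 5) (nat_lit 341) (nat_lit 5) (nat_lit 331) (nat_lit 5) (nat_lit 603) (nat_lit 558) (nat_lit 399)) (XT.lf (nat_lit 0) (nat_lit 3954939017) (nat_lit 760) (nat_lit 6862667704) (nat_lit 76) (nat_lit 3561108493) (nat_lit 321) (nat_lit 5) (nat_lit 331) (nat_lit 5) (nat_lit 322) (nat_lit 5) (nat_lit 604) (nat_lit 558) (nat_lit 398))) (XT.nd (nat_lit 78) (nat_lit 684) (nat_lit 0) (XT.lf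 (nat_lit 0) (nat_lit 1324689795) (nat_lit 760) (nat_lit 4998159452) (nat_lit 836) (nat_lit 8214671335) (nat_lit 311) (nat_lit 5) (nat_lit 321) (nat_lit 5) (nat_lit 322) (nat_lit 5) (nat_lit 605) (nat_lit 558) (nat_lit 397)) (XT.nd (nat_lit 78) (nat_lit 684) (nat_lit 0) (XT.lf (nat_lit 0) (nat_lit 8780083884) (nat_lit 836) (nat_lit 4948275176) (nat_lit 76) (nat_lit 970305034) (nat_lit 311) (nat_lit 5) (nat_lit 322) (nat_lit 5) (nat_lit 312) (nat_lit 5) (nat_lit 606) (nat_lit 558) (nat_lit 396)) (XT.lf (nat_lit 0) (nat_lit 3482258389) (nat_lit 684) (nat_lit 7849640906) (nat_lit 760) (nat_lit 3530223795) (nat_lit 302) (nat_lit 5) (nat_lit 311) (nat_lit 5) (nat_lit 312) (nat_lit 5) (nat_lit 607) (nat_lit 558) (nat_lit 395)))))) (XT.nd (nat_lit 390) (nat_lit 1292) (nat_lit 0) (XT.nd (nat_lit 156) (nat_lit 1292) (nat_lit 0) (XT.nd (nat_lit 78) (nat_lit 760) (nat_lit 0) (XT.lf (nat_lit 0) (nat_lit 12136672771) (nat_lit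 684) (nat_lit 1821135128) (nat_lit 760) (nat_lit 1070583539) (nat_lit 302) (nat_lit 5) (nat_lit 311) (nat_lit 5) (nat_lit 312) (nat_lit 5) (nat_lit 608) (nat_lit 558) (nat_lit 394)) (XT.lf (nat_lit 0) (nat_lit 1475567844) (nat_lit 760) (nat_lit 9404150852) (nat_lit 76) (nat_lit 4316957327) (nat_lit 292) (nat_lit 5) (nat_lit 302) (nat_lit 5) (nat_lit 293) (nat_lit 5) (nat_lit 609) (nat_lit 558) (nat_lit 393))) (XT.nd (nat_lit 78) (nat_lit 1292) (nat_lit 0) (XT.lf (nat_lit 0) (nat_lit 4080007318) (nat_lit 760) (nat_lit 709384066) (nat_lit 76) (nat_lit 10578360615) (nat_lit 292) (nat_lit 5) (nat_lit 302) (nat_lit 5) (nat_lit 293) (nat_lit 5) (nat_lit 610) (nat_lit 558) (nat_lit 392)) (XT.nd (nat_lit 78) (nat_lit 684) (nat_lit 0) (XT.lf (nat_lit 0) (nat_lit 6790006093) (nat_lit 684) (nat_lit 7294983579) (nat_lit 76) (nat_lit 1456191621) (nat_lit 284) (nat_lit 5) (nat_lit 293) (nat_lit 5) (nat_lit 285) (nat_lit 5) (nat_lit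 611) (nat_lit 558) (nat_lit 391)) (XT.lf (nat_lit 0) (nat_lit 1650731819) (nat_lit 684) (nat_lit 7941090723) (nat_lit 760) (nat_lit 6125505463) (nat_lit 275) (nat_lit 5) (nat_lit 284) (nat_lit 5) (nat_lit 285) (nat_lit 5) (nat_lit 612) (nat_lit 558) (nat_lit 390))))) (XT.nd (nat_lit 156) (nat_lit 684) (nat_lit 0) (XT.nd (nat_lit 78) (nat_lit 608) (nat_lit 0) (XT.lf (nat_lit 0) (nat_lit 10862632338) (nat_lit 684) (nat_lit 1626499538) (nat_lit 760) (nat_lit 3407077805) (nat_lit 275) (nat_lit 5) (nat_lit 284) (nat_lit 5) (nat_lit 285) (nat_lit 5) (nat_lit 613) (nat_lit 558) (nat_lit 389)) (XT.lf (nat_lit 0) (nat_lit 4192265279) (nat_lit 608) (nat_lit 11301275359) (nat_lit 684) (nat_lit 584146427) (nat_lit 267) (nat_lit 5) (nat_lit 275) (nat_lit 5) (nat_lit 276) (nat_lit 5) (nat_lit 614) (nat_lit 558) (nat_lit 388))) (XT.nd (nat_lit 78) (nat_lit 608) (nat_lit 0) (XT.lf (nat_lit 0) (nat_lit 2300636440) (nat_lit 684)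 (nat_lit 2628768750) (nat_lit 76) (nat_lit 11332381949) (nat_lit 266) (nat_lit 5) (nat_lit 275) (nat_lit 5) (nat_lit 267) (nat_lit 5) (nat_lit 615) (nat_lit 558) (nat_lit 387)) (XT.nd (nat_lit 78) (nat_lit 0) (nat_lit 0) (XT.lf (nat_lit 0) (nat_lit 5281426653) (nat_lit 684) (nat_lit 9571174059) (nat_lit 76) (nat_lit 1595969684) (nat_lit 258) (nat_lit 5) (nat_lit 267) (nat_lit 5) (nat_lit 259) (nat_lit 5) (nat_lit 616) (nat_lit 558) (nat_lit 386)) (XT.lf (nat_lit 0) (nat_lit 8363229032) (nat_lit 684) (nat_lit 73652424) (nat_lit 76) (nat_lit 8201380987) (nat_lit 258) (nat_lit 5) (nat_lit 267) (nat_lit 5) (nat_lit 259) (nat_lit 5) (nat_lit 617) (nat_lit 558) (nat_lit 385))))))))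
noncomputable def xc165 : XT := (XT.nd (nat_lit 1482) (nat_lit 1672) (nat_lit 0) (XT.nd (nat_lit 702) (nat_lit 2964) (nat_lit 0) (XT.nd (nat_lit 312) (nat_lit 1672) (nat_lit 0) (XT.nd (nat_lit 156) (nat_lit 608) (nat_lit 0) (XT.nd (nat_lit 78) (nat_lit 608) (nat_lit 0) (XT.lf (nat_lit 0) (nat_lit 9730185321) (nat_lit 532) (nat_lit 1830827592) (nat_lit 608) (nat_lit 5269649541) (nat_lit 251) (nat_lit 5) (nat_lit 258) (nat_lit 5) (nat_lit 259) (nat_lit 5) (nat_lit 618) (nat_lit 558) (nat_lit 384)) (XT.lf (nat_lit 0) (nat_lit 2696362701) (nat_lit 608) (nat_lit 12167510961) (nat_lit 684) (nat_lit 2162215391) (nat_lit 243) (nat_lit 5) (nat_lit 251) (nat_lit 5) (nat_lit 252) (nat_lit 5) (nat_lit 619) (nat_lit 558) (nat_lit 383))) (XT.nd (nat_lit 78) (nat_lit 532) (nat_lit 0) (XT.lf (nat_lit 0) (nat_lit 1045539281) (nat_lit 684) (nat_lit 4469439051) (nat_lit 76) (nat_lit 11709288342) (nat_lit 242) (nat_lit 5) (nat_lit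 251) (nat_lit 5) (nat_lit 243) (nat_lit 5) (nat_lit 620) (nat_lit 558) (nat_lit 382)) (XT.lf (nat_lit 0) (nat_lit 4325155926) (nat_lit 608) (nat_lit 11797624704) (nat_lit 76) (nat_lit 1302609144) (nat_lit 235) (nat_lit 5) (nat_lit 243) (nat_lit 5) (nat_lit 236) (nat_lit 5) (nat_lit 621) (nat_lit 558) (nat_lit 381)))) (XT.nd (nat_lit 156) (nat_lit 1140) (nat_lit 0) (XT.nd (nat_lit 78) (nat_lit 532) (nat_lit 0) (XT.lf (nat_lit 0) (nat_lit 7728623256) (nat_lit 608) (nat_lit 1690390863) (nat_lit 76) (nat_lit 8210356988) (nat_lit 235) (nat_lit 5) (nat_lit 243) (nat_lit 5) (nat_lit 236) (nat_lit 5) (nat_lit 622) (nat_lit 558) (nat_lit 380)) (XT.lf (nat_lit 0) (nat_lit 8722371947) (nat_lit 532) (nat_lit 2526129607) (nat_lit 608) (nat_lit 6587964595) (nat_lit 228) (nat_lit 5) (nat_lit 235) (nat_lit 5) (nat_lit 236) (nat_lit 5) (nat_lit 623) (nat_lit 558) (nat_lit 379))) (XT.nd (nat_lit 78) (nat_lit 608) (nat_lit 0) (XT.lf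 (nat_lit 0) (nat_lit 1295409137) (nat_lit 532) (nat_lit 13584228334) (nat_lit 608) (nat_lit 3167249318) (nat_lit 221) (nat_lit 5) (nat_lit 228) (nat_lit 5) (nat_lit 229) (nat_lit 5) (nat_lit 624) (nat_lit 558) (nat_lit 378)) (XT.nd (nat_lit 78) (nat_lit 532) (nat_lit 0) (XT.lf (nat_lit 0) (nat_lit 387772323) (nat_lit 608) (nat_lit 6253992843) (nat_lit 76) (nat_lit 11618307470) (nat_lit 220) (nat_lit 5) (nat_lit 228) (nat_lit 5) (nat_lit 221) (nat_lit 5) (nat_lit 625) (nat_lit 558) (nat_lit 377)) (XT.lf (nat_lit 0) (nat_lit 3995759714) (nat_lit 608) (nat_lit 13999526484) (nat_lit 76) (nat_lit 481332643) (nat_lit 213) (nat_lit 5) (nat_lit 221) (nat_lit 5) (nat_lit 214) (nat_lit 5) (nat_lit 626) (nat_lit 558) (nat_lit 376)))))) (XT.nd (nat_lit 390) (nat_lit 1444) (nat_lit 0) (XT.nd (nat_lit 156) (nat_lit 1064) (nat_lit 0) (XT.nd (nat_lit 78) (nat_lit 456) (nat_lit 0) (XT.lf (nat_lit 0) (nat_lit 7754184937) (nat_lit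 608) (nat_lit 3244319292) (nat_lit 76) (nat_lit 7697427010) (nat_lit 213) (nat_lit 5) (nat_lit 221) (nat_lit 5) (nat_lit 214) (nat_lit 5) (nat_lit 627) (nat_lit 558) (nat_lit 375)) (XT.lf (nat_lit 0) (nat_lit 7817765279) (nat_lit 456) (nat_lit 3812974806) (nat_lit 532) (nat_lit 7288031385) (nat_lit 207) (nat_lit 5) (nat_lit 213) (nat_lit 5) (nat_lit 214) (nat_lit 5) (nat_lit 628) (nat_lit 558) (nat_lit 374))) (XT.nd (nat_lit 78) (nat_lit 1064) (nat_lit 0) (XT.lf (nat_lit 0) (nat_lit 15621839012) (nat_lit 532) (nat_lit 34361181) (nat_lit 76) (nat_lit 3489128856) (nat_lit 207) (nat_lit 5) (nat_lit 214) (nat_lit 5) (nat_lit 208) (nat_lit 5) (nat_lit 629) (nat_lit 558) (nat_lit 373)) (XT.nd (nat_lit 78) (nat_lit 456) (nat_lit 0) (XT.lf (nat_lit 0) (nat_lit 404269855) (nat_lit 608) (nat_lit 8010416427) (nat_lit 76) (nat_lit 10959849655) (nat_lit 199) (nat_lit 5) (nat_lit 207) (nat_lit 5) (nat_lit 200) (nat_lit 5) (nat_lit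 630) (nat_lit 558) (nat_lit 372)) (XT.lf (nat_lit 0) (nat_lit 3393238058) (nat_lit 456) (nat_lit 984923592) (nat_lit 532) (nat_lit 15229405133) (nat_lit 193) (nat_lit 5) (nat_lit 199) (nat_lit 5) (nat_lit 200) (nat_lit 5) (nat_lit 631) (nat_lit 558) (nat_lit 371))))) (XT.nd (nat_lit 156) (nat_lit 988) (nat_lit 0) (XT.nd (nat_lit 78) (nat_lit 456) (nat_lit 0) (XT.lf (nat_lit 0) (nat_lit 8520958491) (nat_lit 532) (nat_lit 4764501403) (nat_lit 76) (nat_lit 6558010545) (nat_lit 193) (nat_lit 5) (nat_lit 200) (nat_lit 5) (nat_lit 194) (nat_lit 5) (nat_lit 632) (nat_lit 558) (nat_lit 370)) (XT.lf (nat_lit 0) (nat_lit 6988968987) (nat_lit 456) (nat_lit 5802197037) (nat_lit 532) (nat_lit 7292035771) (nat_lit 187) (nat_lit 5) (nat_lit 193) (nat_lit 5) (nat_lit 194) (nat_lit 5) (nat_lit 633) (nat_lit 558) (nat_lit 369))) (XT.nd (nat_lit 78) (nat_lit 988) (nat_lit 0) (XT.lf (nat_lit 0) (nat_lit 17183559000) (nat_lit 532)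 (nat_lit 1307642492) (nat_lit 76) (nat_lit 1835791370) (nat_lit 187) (nat_lit 5) (nat_lit 194) (nat_lit 5) (nat_lit 188) (nat_lit 5) (nat_lit 634) (nat_lit 558) (nat_lit 368)) (XT.nd (nat_lit 78) (nat_lit 456) (nat_lit 0) (XT.lf (nat_lit 0) (nat_lit 1175989563) (nat_lit 532) (nat_lit 9773711497) (nat_lit 76) (nat_lit 9623775658) (nat_lit 180) (nat_lit 5) (nat_lit 187) (nat_lit 5) (nat_lit 181) (nat_lit 5) (nat_lit 635) (nat_lit 558) (nat_lit 367)) (XT.lf (nat_lit 0) (nat_lit 2341799980) (nat_lit 456) (nat_lit 3214867592) (nat_lit 532) (nat_lit 15267468653) (nat_lit 174) (nat_lit 5) (nat_lit 180) (nat_lit 5) (nat_lit 181) (nat_lit 5) (nat_lit 636) (nat_lit 558) (nat_lit 366))))))) (XT.nd (nat_lit 75270) (nat_lit 0) (nat_lit 27436) (XT.nd (nat_lit 312) (nat_lit 760) (nat_lit 0) (XT.nd (nat_lit 156) (nat_lit 532) (nat_lit 0) (XT.nd (nat_lit 78) (nat_lit 380) (nat_lit 0) (XT.lf (nat_lit 0) (nat_lit 10114262603) (nat_lit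 532) (nat_lit 6287597255) (nat_lit 76) (nat_lit 4676163648) (nat_lit 174) (nat_lit 5) (nat_lit 181) (nat_lit 5) (nat_lit 175) (nat_lit 5) (nat_lit 637) (nat_lit 558) (nat_lit 365)) (XT.lf (nat_lit 0) (nat_lit 6200854035) (nat_lit 380) (nat_lit 8616776025) (nat_lit 456) (nat_lit 6518266703) (nat_lit 169) (nat_lit 5) (nat_lit 174) (nat_lit 5) (nat_lit 175) (nat_lit 5) (nat_lit 638) (nat_lit 558) (nat_lit 364))) (XT.nd (nat_lit 78) (nat_lit 532) (nat_lit 0) (XT.lf (nat_lit 0) (nat_lit 19014154324) (nat_lit 380) (nat_lit 636243567) (nat_lit 456) (nat_lit 1947823564) (nat_lit 169) (nat_lit 5) (nat_lit 174) (nat_lit 5) (nat_lit 175) (nat_lit 5) (nat_lit 639) (nat_lit 558) (nat_lit 363)) (XT.lf (nat_lit 0) (nat_lit 2787963719) (nat_lit 532) (nat_lit 11587806806) (nat_lit 76) (nat_lit 7487479689) (nat_lit 162) (nat_lit 5) (nat_lit 169) (nat_lit 5) (nat_lit 163) (nat_lit 5) (nat_lit 640) (nat_lit 558) (nat_lit 362)))) (XT.nd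 (nat_lit 156) (nat_lit 380) (nat_lit 0) (XT.nd (nat_lit 78) (nat_lit 0) (nat_lit 0) (XT.lf (nat_lit 0) (nat_lit 1283455049) (nat_lit 380) (nat_lit 6332232625) (nat_lit 456) (nat_lit 14517168919) (nat_lit 157) (nat_lit 5) (nat_lit 162) (nat_lit 5) (nat_lit 163) (nat_lit 5) (nat_lit 641) (nat_lit 558) (nat_lit 361)) (XT.lf (nat_lit 0) (nat_lit 12623717729) (nat_lit 456) (nat_lit 7859886819) (nat_lit 76) (nat_lit 1922576100) (nat_lit 157) (nat_lit 5) (nat_lit 163) (nat_lit 5) (nat_lit 158) (nat_lit 5) (nat_lit 642) (nat_lit 558) (nat_lit 360))) (XT.nd (nat_lit 74646) (nat_lit 0) (nat_lit 29032) (XT.lf (nat_lit 0) (nat_lit 5408480333) (nat_lit 380) (nat_lit 12393930729) (nat_lit 456) (nat_lit 4881150638) (nat_lit 152) (nat_lit 5) (nat_lit 157) (nat_lit 5) (nat_lit 158) (nat_lit 5) (nat_lit 643) (nat_lit 558) (nat_lit 359)) (XT.nd (nat_lit 78) (nat_lit 0) (nat_lit 0) (XT.lf (nat_lit 0) (nat_lit 4119925938) (nat_lit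 1596) (nat_lit 281336769) (nat_lit 1596) (nat_lit 281336769) (nat_lit 534) (nat_lit 3) (nat_lit 555) (nat_lit 3) (nat_lit 555) (nat_lit 5) (nat_lit 559) (nat_lit 559) (nat_lit 442)) (XT.lf (nat_lit 76) (nat_lit 4086202143) (nat_lit 0) (nat_lit 5075302050) (nat_lit 1596) (nat_lit 280421970) (nat_lit 535) (nat_lit 5) (nat_lit 534) (nat_lit 3) (nat_lit 555) (nat_lit 5) (nat_lit 560) (nat_lit 559) (nat_lit 441)))))) (XT.nd (nat_lit 390) (nat_lit 0) (nat_lit 152) (XT.nd (nat_lit 156) (nat_lit 0) (nat_lit 76) (XT.nd (nat_lit 78) (nat_lit 0) (nat_lit 76) (XT.lf (nat_lit 0) (nat_lit 556042456) (nat_lit 1596) (nat_lit 699538039) (nat_lit 1672) (nat_lit 8264890197) (nat_lit 513) (nat_lit 5) (nat_lit 534) (nat_lit 3) (nat_lit 535) (nat_lit 5) (nat_lit 561) (nat_lit 559) (nat_lit 440)) (XT.lf (nat_lit 0) (nat_lit 1428327707) (nat_lit 1596) (nat_lit 5527365668) (nat_lit 1672) (nat_lit 2644402258) (nat_lit 514) (nat_lit 5) (nat_lit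 535) (nat_lit 5) (nat_lit 536) (nat_lit 5) (nat_lit 562) (nat_lit 559) (nat_lit 439))) (XT.nd (nat_lit 78) (nat_lit 0) (nat_lit 76) (XT.lf (nat_lit 0) (nat_lit 2310392347) (nat_lit 1596) (nat_lit 751135474) (nat_lit 1672) (nat_lit 6619942034) (nat_lit 514) (nat_lit 5) (nat_lit 535) (nat_lit 5) (nat_lit 536) (nat_lit 5) (nat_lit 563) (nat_lit 559) (nat_lit 438)) (XT.nd (nat_lit 78) (nat_lit 0) (nat_lit 0) (XT.lf (nat_lit 0) (nat_lit 3222982086) (nat_lit 1596) (nat_lit 5606529666) (nat_lit 1672) (nat_lit 934705516) (nat_lit 515) (nat_lit 5) (nat_lit 536) (nat_lit 5) (nat_lit 537) (nat_lit 5) (nat_lit 564) (nat_lit 559) (nat_lit 437)) (XT.lf (nat_lit 0) (nat_lit 4159254134) (nat_lit 1596) (nat_lit 705614357) (nat_lit 1672) (nat_lit 4983645847) (nat_lit 515) (nat_lit 5) (nat_lit 536) (nat_lit 5) (nat_lit 537) (nat_lit 5) (nat_lit 565) (nat_lit 559) (nat_lit 436))))) (XT.nd (nat_lit 156) (nat_lit 0) (nat_lit 76) (XT.nd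 (nat_lit 78) (nat_lit 0) (nat_lit 76) (XT.lf (nat_lit 76) (nat_lit 4338795776) (nat_lit 0) (nat_lit 784098343) (nat_lit 1672) (nat_lit 4811433637) (nat_lit 516) (nat_lit 5) (nat_lit 515) (nat_lit 5) (nat_lit 537) (nat_lit 5) (nat_lit 566) (nat_lit 559) (nat_lit 435)) (XT.lf (nat_lit 0) (nat_lit 6113339808) (nat_lit 1596) (nat_lit 561860299) (nat_lit 1672) (nat_lit 3346509865) (nat_lit 516) (nat_lit 5) (nat_lit 537) (nat_lit 5) (nat_lit 538) (nat_lit 5) (nat_lit 567) (nat_lit 559) (nat_lit 434))) (XT.nd (nat_lit 78) (nat_lit 0) (nat_lit 76) (XT.lf (nat_lit 76) (nat_lit 4616275569) (nat_lit 0) (nat_lit 2523691724) (nat_lit 1672) (nat_lit 2970548211) (nat_lit 517) (nat_lit 5) (nat_lit 516) (nat_lit 5) (nat_lit 538) (nat_lit 5) (nat_lit 568) (nat_lit 559) (nat_lit 433)) (XT.nd (nat_lit 78) (nat_lit 0) (nat_lit 0) (XT.lf (nat_lit 0) (nat_lit 8183578330) (nat_lit 1596) (nat_lit 318466677) (nat_lit 1672) (nat_lit 1699126185)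 (nat_lit 517) (nat_lit 5) (nat_lit 538) (nat_lit 5) (nat_lit 539) (nat_lit 5) (nat_lit 569) (nat_lit 559) (nat_lit 432)) (XT.lf (nat_lit 76) (nat_lit 4997989427) (nat_lit 0) (nat_lit 4281145123) (nat_lit 1672) (nat_lit 1013886991) (nat_lit 518) (nat_lit 5) (nat_lit 517) (nat_lit 5) (nat_lit 539) (nat_lit 5) (nat_lit 570) (nat_lit 559) (nat_lit 431))))))))
noncomputable def xc166 : XT := (XT.nd (nat_lit 1482) (nat_lit 8892) (nat_lit 0) (XT.nd (nat_lit 702) (nat_lit 5852) (nat_lit 0) (XT.nd (nat_lit 312) (nat_lit 0) (nat_lit 76) (XT.nd (nat_lit 156) (nat_lit 0) (nat_lit 0) (XT.nd (nat_lit 78) (nat_lit 1672) (nat_lit 0) (XT.lf (nat_lit 76) (nat_lit 26611583) (nat_lit 0) (nat_lit 10354700609) (nat_lit 1672) (nat_lit 5705446) (nat_lit 519) (nat_lit 5) (nat_lit 518) (nat_lit 5) (nat_lit 540) (nat_lit 5) (nat_lit 571) (nat_lit 559) (nat_lit 430)) (XT.lf (nat_lit 0) (nat_lit 1055729040) (nat_lit 1672) (nat_lit 5003096035)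 (nat_lit 1748) (nat_lit 4423008592) (nat_lit 496) (nat_lit 5) (nat_lit 518) (nat_lit 5) (nat_lit 519) (nat_lit 5) (nat_lit 572) (nat_lit 559) (nat_lit 429))) (XT.nd (nat_lit 78) (nat_lit 0) (nat_lit 76) (XT.lf (nat_lit 76) (nat_lit 455383254) (nat_lit 0) (nat_lit 1668616440) (nat_lit 1748) (nat_lit 8454834671) (nat_lit 497) (nat_lit 5) (nat_lit 496) (nat_lit 5) (nat_lit 519) (nat_lit 5) (nat_lit 573) (nat_lit 559) (nat_lit 428)) (XT.lf (nat_lit 0) (nat_lit 3248694598) (nat_lit 1672) (nat_lit 4616925773) (nat_lit 1748) (nat_lit 2811456250) (nat_lit 497) (nat_lit 5) (nat_lit 519) (nat_lit 5) (nat_lit 520) (nat_lit 5) (nat_lit 574) (nat_lit 559) (nat_lit 427)))) (XT.nd (nat_lit 156) (nat_lit 0) (nat_lit 76) (XT.nd (nat_lit 78) (nat_lit 0) (nat_lit 76) (XT.lf (nat_lit 76) (nat_lit 989689216) (nat_lit 0) (nat_lit 3407025854) (nat_lit 1748) (nat_lit 6380554688) (nat_lit 498) (nat_lit 5) (nat_lit 497) (nat_lit 5) (nat_lit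 520) (nat_lit 5) (nat_lit 575) (nat_lit 559) (nat_lit 426)) (XT.lf (nat_lit 0) (nat_lit 5589923487) (nat_lit 1672) (nat_lit 4127689971) (nat_lit 1748) (nat_lit 1161411367) (nat_lit 498) (nat_lit 5) (nat_lit 520) (nat_lit 5) (nat_lit 521) (nat_lit 5) (nat_lit 576) (nat_lit 559) (nat_lit 425))) (XT.nd (nat_lit 78) (nat_lit 0) (nat_lit 0) (XT.lf (nat_lit 76) (nat_lit 1632231176) (nat_lit 0) (nat_lit 5191880321) (nat_lit 1748) (nat_lit 4158363754) (nat_lit 499) (nat_lit 5) (nat_lit 498) (nat_lit 5) (nat_lit 521) (nat_lit 5) (nat_lit 577) (nat_lit 559) (nat_lit 424)) (XT.nd (nat_lit 78) (nat_lit 0) (nat_lit 76) (XT.lf (nat_lit 76) (nat_lit 7551370535) (nat_lit 0) (nat_lit 543503656) (nat_lit 1748) (nat_lit 2992885190) (nat_lit 499) (nat_lit 5) (nat_lit 498) (nat_lit 5) (nat_lit 521) (nat_lit 5) (nat_lit 578) (nat_lit 559) (nat_lit 423)) (XT.lf (nat_lit 76) (nat_lit 2385742491) (nat_lit 0) (nat_lit 7032581222) (nat_lit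 1748) (nat_lit 1776282516) (nat_lit 500) (nat_lit 5) (nat_lit 499) (nat_lit 5) (nat_lit 522) (nat_lit 5) (nat_lit 579) (nat_lit 559) (nat_lit 422)))))) (XT.nd (nat_lit 390) (nat_lit 4408) (nat_lit 0) (XT.nd (nat_lit 156) (nat_lit 0) (nat_lit 0) (XT.nd (nat_lit 78) (nat_lit 1672) (nat_lit 0) (XT.lf (nat_lit 76) (nat_lit 8458649851) (nat_lit 0) (nat_lit 2321651446) (nat_lit 1748) (nat_lit 523049954) (nat_lit 500) (nat_lit 5) (nat_lit 499) (nat_lit 5) (nat_lit 522) (nat_lit 5) (nat_lit 580) (nat_lit 559) (nat_lit 421)) (XT.lf (nat_lit 0) (nat_lit 767806527) (nat_lit 1748) (nat_lit 8165635939) (nat_lit 1824) (nat_lit 2480283670) (nat_lit 477) (nat_lit 5) (nat_lit 500) (nat_lit 5) (nat_lit 501) (nat_lit 5) (nat_lit 581) (nat_lit 559) (nat_lit 420))) (XT.nd (nat_lit 78) (nat_lit 0) (nat_lit 76) (XT.lf (nat_lit 0) (nat_lit 2097261658) (nat_lit 1748) (nat_lit 2055757774) (nat_lit 1824) (nat_lit 7372826514) (nat_lit 477)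 (nat_lit 5) (nat_lit 500) (nat_lit 5) (nat_lit 501) (nat_lit 5) (nat_lit 582) (nat_lit 559) (nat_lit 419)) (XT.nd (nat_lit 78) (nat_lit 0) (nat_lit 0) (XT.lf (nat_lit 0) (nat_lit 3471073797) (nat_lit 1748) (nat_lit 7425110251) (nat_lit 76) (nat_lit 743670980) (nat_lit 478) (nat_lit 5) (nat_lit 501) (nat_lit 5) (nat_lit 479) (nat_lit 5) (nat_lit 583) (nat_lit 559) (nat_lit 418)) (XT.lf (nat_lit 0) (nat_lit 4899454053) (nat_lit 1748) (nat_lit 1157090843) (nat_lit 76) (nat_lit 5699059748) (nat_lit 478) (nat_lit 5) (nat_lit 501) (nat_lit 5) (nat_lit 479) (nat_lit 5) (nat_lit 584) (nat_lit 559) (nat_lit 417))))) (XT.nd (nat_lit 156) (nat_lit 2736) (nat_lit 0) (XT.nd (nat_lit 78) (nat_lit 0) (nat_lit 0) (XT.lf (nat_lit 0) (nat_lit 5293805046) (nat_lit 1748) (nat_lit 1082949978) (nat_lit 1824) (nat_lit 5496509314) (nat_lit 455) (nat_lit 5) (nat_lit 478) (nat_lit 5) (nat_lit 479) (nat_lit 5) (nat_lit 585) (nat_lit 559)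 (nat_lit 416)) (XT.lf (nat_lit 0) (nat_lit 7903517732) (nat_lit 1824) (nat_lit 141802439) (nat_lit 76) (nat_lit 3947560844) (nat_lit 455) (nat_lit 5) (nat_lit 479) (nat_lit 5) (nat_lit 456) (nat_lit 5) (nat_lit 586) (nat_lit 559) (nat_lit 415))) (XT.nd (nat_lit 78) (nat_lit 1064) (nat_lit 0) (XT.lf (nat_lit 0) (nat_lit 6490673691) (nat_lit 1672) (nat_lit 3005919461) (nat_lit 1748) (nat_lit 2617583388) (nat_lit 433) (nat_lit 5) (nat_lit 455) (nat_lit 5) (nat_lit 456) (nat_lit 5) (nat_lit 587) (nat_lit 559) (nat_lit 414)) (XT.nd (nat_lit 78) (nat_lit 76) (nat_lit 0) (XT.lf (nat_lit 0) (nat_lit 1007098354) (nat_lit 988) (nat_lit 10122448003) (nat_lit 1064) (nat_lit 1108193317) (nat_lit 420) (nat_lit 5) (nat_lit 433) (nat_lit 5) (nat_lit 434) (nat_lit 5) (nat_lit 588) (nat_lit 559) (nat_lit 413)) (XT.lf (nat_lit 0) (nat_lit 470377233) (nat_lit 1064) (nat_lit 4551624691) (nat_lit 76) (nat_lit 7340825066) (nat_lit 419)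 (nat_lit 5) (nat_lit 433) (nat_lit 5) (nat_lit 420) (nat_lit 5) (nat_lit 589) (nat_lit 559) (nat_lit 412))))))) (XT.nd (nat_lit 702) (nat_lit 4560) (nat_lit 0) (XT.nd (nat_lit 312) (nat_lit 2508) (nat_lit 0) (XT.nd (nat_lit 156) (nat_lit 912) (nat_lit 0) (XT.nd (nat_lit 78) (nat_lit 0) (nat_lit 0) (XT.lf (nat_lit 0) (nat_lit 2068783597) (nat_lit 988) (nat_lit 10220084976) (nat_lit 76) (nat_lit 201340821) (nat_lit 407) (nat_lit 5) (nat_lit 420) (nat_lit 5) (nat_lit 408) (nat_lit 5) (nat_lit 590) (nat_lit 559) (nat_lit 411)) (XT.lf (nat_lit 0) (nat_lit 3750362740) (nat_lit 988) (nat_lit 3375116138) (nat_lit 76) (nat_lit 5493638344) (nat_lit 407) (nat_lit 5) (nat_lit 420) (nat_lit 5) (nat_lit 408) (nat_lit 5) (nat_lit 591) (nat_lit 559) (nat_lit 410))) (XT.nd (nat_lit 78) (nat_lit 0) (nat_lit 0) (XT.lf (nat_lit 0) (nat_lit 3642629759) (nat_lit 912) (nat_lit 1834045336) (nat_lit 988) (nat_lit 7273707912) (nat_lit 395)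 (nat_lit 5) (nat_lit 407) (nat_lit 5) (nat_lit 408) (nat_lit 5) (nat_lit 592) (nat_lit 559) (nat_lit 409)) (XT.lf (nat_lit 0) (nat_lit 7271071495) (nat_lit 988) (nat_lit 2072695556) (nat_lit 76) (nat_lit 3539837695) (nat_lit 395) (nat_lit 5) (nat_lit 408) (nat_lit 5) (nat_lit 396) (nat_lit 5) (nat_lit 593) (nat_lit 559) (nat_lit 408)))) (XT.nd (nat_lit 156) (nat_lit 1672) (nat_lit 0) (XT.nd (nat_lit 78) (nat_lit 0) (nat_lit 0) (XT.lf (nat_lit 0) (nat_lit 5146581490) (nat_lit 836) (nat_lit 3988202244) (nat_lit 912) (nat_lit 3884040391) (nat_lit 384) (nat_lit 5) (nat_lit 395) (nat_lit 5) (nat_lit 396) (nat_lit 5) (nat_lit 594) (nat_lit 559) (nat_lit 407)) (XT.lf (nat_lit 0) (nat_lit 11047374337) (nat_lit 912) (nat_lit 639793921) (nat_lit 76) (nat_lit 1469349278) (nat_lit 384) (nat_lit 5) (nat_lit 396) (nat_lit 5) (nat_lit 385) (nat_lit 5) (nat_lit 595) (nat_lit 559) (nat_lit 406))) (XT.nd (nat_lit 78) (nat_lit 836)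 (nat_lit 0) (XT.lf (nat_lit 0) (nat_lit 6788156149) (nat_lit 836) (nat_lit 6268810325) (nat_lit 912) (nat_lit 238825038) (nat_lit 373) (nat_lit 5) (nat_lit 384) (nat_lit 5) (nat_lit 385) (nat_lit 5) (nat_lit 596) (nat_lit 559) (nat_lit 405)) (XT.nd (nat_lit 78) (nat_lit 0) (nat_lit 0) (XT.lf (nat_lit 0) (nat_lit 924997409) (nat_lit 760) (nat_lit 720682114) (nat_lit 836) (nat_lit 11791983002) (nat_lit 362) (nat_lit 5) (nat_lit 372) (nat_lit 5) (nat_lit 373) (nat_lit 5) (nat_lit 597) (nat_lit 559) (nat_lit 404)) (XT.lf (nat_lit 0) (nat_lit 3629192619) (nat_lit 836) (nat_lit 5032931179) (nat_lit 76) (nat_lit 4918926855) (nat_lit 362) (nat_lit 5) (nat_lit 373) (nat_lit 5) (nat_lit 363) (nat_lit 5) (nat_lit 598) (nat_lit 559) (nat_lit 403)))))) (XT.nd (nat_lit 390) (nat_lit 2128) (nat_lit 0) (XT.nd (nat_lit 156) (nat_lit 1596) (nat_lit 0) (XT.nd (nat_lit 78) (nat_lit 0) (nat_lit 0) (XT.lf (nat_lit 0) (nat_lit 2614150035)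 (nat_lit 836) (nat_lit 3048688164) (nat_lit 912) (nat_lit 8064260664) (nat_lit 351) (nat_lit 5) (nat_lit 362) (nat_lit 5) (nat_lit 363) (nat_lit 5) (nat_lit 599) (nat_lit 559) (nat_lit 402)) (XT.lf (nat_lit 0) (nat_lit 7777393498) (nat_lit 912) (nat_lit 3422504724) (nat_lit 76) (nat_lit 2675366615) (nat_lit 351) (nat_lit 5) (nat_lit 363) (nat_lit 5) (nat_lit 352) (nat_lit 5) (nat_lit 600) (nat_lit 559) (nat_lit 401))) (XT.nd (nat_lit 78) (nat_lit 836) (nat_lit 0) (XT.lf (nat_lit 0) (nat_lit 4448227869) (nat_lit 760) (nat_lit 5524159881) (nat_lit 836) (nat_lit 4053244924) (nat_lit 341) (nat_lit 5) (nat_lit 351) (nat_lit 5) (nat_lit 352) (nat_lit 5) (nat_lit 601) (nat_lit 559) (nat_lit 400)) (XT.nd (nat_lit 78) (nat_lit 836) (nat_lit 0) (XT.lf (nat_lit 0) (nat_lit 12225332627) (nat_lit 836) (nat_lit 1669458567) (nat_lit 76) (nat_lit 283937133) (nat_lit 341) (nat_lit 5) (nat_lit 352) (nat_lit 5) (nat_lit 342) (nat_lit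 5) (nat_lit 602) (nat_lit 559) (nat_lit 399)) (XT.lf (nat_lit 0) (nat_lit 254198786) (nat_lit 836) (nat_lit 7902346789) (nat_lit 76) (nat_lit 6176952868) (nat_lit 330) (nat_lit 5) (nat_lit 341) (nat_lit 5) (nat_lit 331) (nat_lit 5) (nat_lit 603) (nat_lit 559) (nat_lit 398))))) (XT.nd (nat_lit 156) (nat_lit 1444) (nat_lit 0) (XT.nd (nat_lit 78) (nat_lit 0) (nat_lit 0) (XT.lf (nat_lit 0) (nat_lit 203281241) (nat_lit 684) (nat_lit 2278613793) (nat_lit 760) (nat_lit 12009169959) (nat_lit 321) (nat_lit 5) (nat_lit 330) (nat_lit 5) (nat_lit 331) (nat_lit 5) (nat_lit 604) (nat_lit 559) (nat_lit 397)) (XT.lf (nat_lit 0) (nat_lit 4821265621) (nat_lit 760) (nat_lit 6108828896) (nat_lit 76) (nat_lit 3720347311) (nat_lit 321) (nat_lit 5) (nat_lit 331) (nat_lit 5) (nat_lit 322) (nat_lit 5) (nat_lit 605) (nat_lit 559) (nat_lit 396))) (XT.nd (nat_lit 78) (nat_lit 684) (nat_lit 0) (XT.lf (nat_lit 0) (nat_lit 2236413304) (nat_lit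 760) (nat_lit 4990432410) (nat_lit 836) (nat_lit 7585773378) (nat_lit 311) (nat_lit 5) (nat_lit 321) (nat_lit 5) (nat_lit 322) (nat_lit 5) (nat_lit 606) (nat_lit 559) (nat_lit 395)) (XT.nd (nat_lit 78) (nat_lit 684) (nat_lit 0) (XT.lf (nat_lit 0) (nat_lit 9718664658) (nat_lit 836) (nat_lit 4164708896) (nat_lit 76) (nat_lit 1093905110) (nat_lit 311) (nat_lit 5) (nat_lit 322) (nat_lit 5) (nat_lit 312) (nat_lit 5) (nat_lit 607) (nat_lit 559) (nat_lit 394)) (XT.lf (nat_lit 0) (nat_lit 4428629210) (nat_lit 684) (nat_lit 7883619078) (nat_lit 760) (nat_lit 2831945858) (nat_lit 302) (nat_lit 5) (nat_lit 311) (nat_lit 5) (nat_lit 312) (nat_lit 5) (nat_lit 608) (nat_lit 559) (nat_lit 393))))))))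
noncomputable def xc167 : XT := (XT.nd (nat_lit 1482) (nat_lit 4256) (nat_lit 0) (XT.nd (nat_lit 702) (nat_lit 3420) (nat_lit 0) (XT.nd (nat_lit 312) (nat_lit 1976) (nat_lit 0) (XT.nd (nat_lit 156) (nat_lit 608) (nat_lit 0) (XT.nd (nat_lit 78) (nat_lit 760) (nat_lit 0) (XT.lf (nat_lit 0) (nat_lit 13238941180) (nat_lit 684) (nat_lit 1736955236) (nat_lit 760) (nat_lit 338188923) (nat_lit 302) (nat_lit 5) (nat_lit 311) (nat_lit 5) (nat_lit 312) (nat_lit 5) (nat_lit 609) (nat_lit 559) (nat_lit 392)) (XT.lf (nat_lit 0) (nat_lit 2240857437) (nat_lit 760) (nat_lit 8714485872) (nat_lit 76) (nat_lit 4530459089) (nat_lit 292) (nat_lit 5) (nat_lit 302) (nat_lit 5) (nat_lit 293) (nat_lit 5) (nat_lit 610) (nat_lit 559) (nat_lit 391))) (XT.nd (nat_lit 78) (nat_lit 0) (nat_lit 0) (XT.lf (nat_lit 0) (nat_lit 138785703) (nat_lit 608) (nat_lit 4745074062) (nat_lit 684) (nat_lit 10776712443) (nat_lit 284) (nat_lit 5) (nat_lit 292)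 (nat_lit 5) (nat_lit 293) (nat_lit 5) (nat_lit 611) (nat_lit 559) (nat_lit 390)) (XT.lf (nat_lit 0) (nat_lit 7639486433) (nat_lit 684) (nat_lit 6572586980) (nat_lit 76) (nat_lit 1625569877) (nat_lit 284) (nat_lit 5) (nat_lit 293) (nat_lit 5) (nat_lit 285) (nat_lit 5) (nat_lit 612) (nat_lit 559) (nat_lit 389)))) (XT.nd (nat_lit 156) (nat_lit 1292) (nat_lit 0) (XT.nd (nat_lit 78) (nat_lit 0) (nat_lit 0) (XT.lf (nat_lit 0) (nat_lit 2546330250) (nat_lit 684) (nat_lit 7942615697) (nat_lit 760) (nat_lit 5528536580) (nat_lit 275) (nat_lit 5) (nat_lit 284) (nat_lit 5) (nat_lit 285) (nat_lit 5) (nat_lit 613) (nat_lit 559) (nat_lit 388)) (XT.lf (nat_lit 0) (nat_lit 11925555371) (nat_lit 684) (nat_lit 1504816940) (nat_lit 760) (nat_lit 2769847800) (nat_lit 275) (nat_lit 5) (nat_lit 284) (nat_lit 5) (nat_lit 285) (nat_lit 5) (nat_lit 614) (nat_lit 559) (nat_lit 387))) (XT.nd (nat_lit 78) (nat_lit 608) (nat_lit 0) (XT.lf (nat_lit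 0) (nat_lit 101018726) (nat_lit 684) (nat_lit 11257089160) (nat_lit 76) (nat_lit 5027348296) (nat_lit 266) (nat_lit 5) (nat_lit 275) (nat_lit 5) (nat_lit 267) (nat_lit 5) (nat_lit 615) (nat_lit 559) (nat_lit 386)) (XT.nd (nat_lit 78) (nat_lit 608) (nat_lit 0) (XT.lf (nat_lit 0) (nat_lit 3022172377) (nat_lit 684) (nat_lit 1836076926) (nat_lit 76) (nat_lit 11715183388) (nat_lit 266) (nat_lit 5) (nat_lit 275) (nat_lit 5) (nat_lit 267) (nat_lit 5) (nat_lit 616) (nat_lit 559) (nat_lit 385)) (XT.lf (nat_lit 0) (nat_lit 6055901358) (nat_lit 684) (nat_lit 8910575142) (nat_lit 76) (nat_lit 1797610218) (nat_lit 258) (nat_lit 5) (nat_lit 267) (nat_lit 5) (nat_lit 259) (nat_lit 5) (nat_lit 617) (nat_lit 559) (nat_lit 384)))))) (XT.nd (nat_lit 390) (nat_lit 1672) (nat_lit 0) (XT.nd (nat_lit 156) (nat_lit 1216) (nat_lit 0) (XT.nd (nat_lit 78) (nat_lit 0) (nat_lit 0) (XT.lf (nat_lit 0) (nat_lit 770293137) (nat_lit 532) (nat_lit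 8420933271) (nat_lit 608) (nat_lit 7766509998) (nat_lit 251) (nat_lit 5) (nat_lit 258) (nat_lit 5) (nat_lit 259) (nat_lit 5) (nat_lit 618) (nat_lit 559) (nat_lit 383)) (XT.lf (nat_lit 0) (nat_lit 10754609604) (nat_lit 532) (nat_lit 1685885372) (nat_lit 608) (nat_lit 4713740363) (nat_lit 251) (nat_lit 5) (nat_lit 258) (nat_lit 5) (nat_lit 259) (nat_lit 5) (nat_lit 619) (nat_lit 559) (nat_lit 382))) (XT.nd (nat_lit 78) (nat_lit 608) (nat_lit 0) (XT.lf (nat_lit 0) (nat_lit 3586434713) (nat_lit 608) (nat_lit 12216851705) (nat_lit 684) (nat_lit 1550408056) (nat_lit 243) (nat_lit 5) (nat_lit 251) (nat_lit 5) (nat_lit 252) (nat_lit 5) (nat_lit 620) (nat_lit 559) (nat_lit 381)) (XT.nd (nat_lit 78) (nat_lit 532) (nat_lit 0) (XT.lf (nat_lit 0) (nat_lit 1700234892) (nat_lit 684) (nat_lit 3730584607) (nat_lit 76) (nat_lit 12125186015) (nat_lit 242) (nat_lit 5) (nat_lit 251) (nat_lit 5) (nat_lit 243) (nat_lit 5) (nat_lit 621)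 (nat_lit 559) (nat_lit 380)) (XT.lf (nat_lit 0) (nat_lit 5039632019) (nat_lit 608) (nat_lit 11199452715) (nat_lit 76) (nat_lit 1522183970) (nat_lit 235) (nat_lit 5) (nat_lit 243) (nat_lit 5) (nat_lit 236) (nat_lit 5) (nat_lit 622) (nat_lit 559) (nat_lit 379))))) (XT.nd (nat_lit 156) (nat_lit 1140) (nat_lit 0) (XT.nd (nat_lit 78) (nat_lit 532) (nat_lit 0) (XT.lf (nat_lit 0) (nat_lit 8498855500) (nat_lit 608) (nat_lit 906429579) (nat_lit 76) (nat_lit 8564292209) (nat_lit 235) (nat_lit 5) (nat_lit 243) (nat_lit 5) (nat_lit 236) (nat_lit 5) (nat_lit 623) (nat_lit 559) (nat_lit 378)) (XT.lf (nat_lit 0) (nat_lit 9709208427) (nat_lit 532) (nat_lit 2373125745) (nat_lit 608) (nat_lit 6098617337) (nat_lit 228) (nat_lit 5) (nat_lit 235) (nat_lit 5) (nat_lit 236) (nat_lit 5) (nat_lit 624) (nat_lit 559) (nat_lit 377))) (XT.nd (nat_lit 78) (nat_lit 608) (nat_lit 0) (XT.lf (nat_lit 0) (nat_lit 2139212372) (nat_lit 532) (nat_lit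 13641547789) (nat_lit 608) (nat_lit 2614928363) (nat_lit 221) (nat_lit 5) (nat_lit 228) (nat_lit 5) (nat_lit 229) (nat_lit 5) (nat_lit 625) (nat_lit 559) (nat_lit 376)) (XT.nd (nat_lit 78) (nat_lit 532) (nat_lit 0) (XT.lf (nat_lit 0) (nat_lit 991205586) (nat_lit 608) (nat_lit 5569235698) (nat_lit 76) (nat_lit 12052856385) (nat_lit 220) (nat_lit 5) (nat_lit 228) (nat_lit 5) (nat_lit 221) (nat_lit 5) (nat_lit 626) (nat_lit 559) (nat_lit 375)) (XT.lf (nat_lit 0) (nat_lit 4666293966) (nat_lit 608) (nat_lit 13464559622) (nat_lit 76) (nat_lit 703423619) (nat_lit 213) (nat_lit 5) (nat_lit 221) (nat_lit 5) (nat_lit 214) (nat_lit 5) (nat_lit 627) (nat_lit 559) (nat_lit 374))))))) (XT.nd (nat_lit 702) (nat_lit 1748) (nat_lit 0) (XT.nd (nat_lit 312) (nat_lit 1444) (nat_lit 0) (XT.nd (nat_lit 156) (nat_lit 608) (nat_lit 0) (XT.nd (nat_lit 78) (nat_lit 456) (nat_lit 0) (XT.lf (nat_lit 0) (nat_lit 8488306928) (nat_lit 608) (nat_lit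 2510227842) (nat_lit 76) (nat_lit 8059673906) (nat_lit 213) (nat_lit 5) (nat_lit 221) (nat_lit 5) (nat_lit 214) (nat_lit 5) (nat_lit 628) (nat_lit 559) (nat_lit 373)) (XT.lf (nat_lit 0) (nat_lit 8767841987) (nat_lit 456) (nat_lit 3668350865) (nat_lit 532) (nat_lit 6849438050) (nat_lit 207) (nat_lit 5) (nat_lit 213) (nat_lit 5) (nat_lit 214) (nat_lit 5) (nat_lit 629) (nat_lit 559) (nat_lit 372))) (XT.nd (nat_lit 78) (nat_lit 76) (nat_lit 0) (XT.lf (nat_lit 0) (nat_lit 763000918) (nat_lit 532) (nat_lit 15739240632) (nat_lit 608) (nat_lit 3014576688) (nat_lit 200) (nat_lit 5) (nat_lit 207) (nat_lit 5) (nat_lit 208) (nat_lit 5) (nat_lit 630) (nat_lit 559) (nat_lit 371)) (XT.lf (nat_lit 0) (nat_lit 973155786) (nat_lit 608) (nat_lit 7380258251) (nat_lit 76) (nat_lit 11397340786) (nat_lit 199) (nat_lit 5) (nat_lit 207) (nat_lit 5) (nat_lit 200) (nat_lit 5) (nat_lit 631) (nat_lit 559) (nat_lit 370)))) (XT.nd (nat_lit 156)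 (nat_lit 988) (nat_lit 0) (XT.nd (nat_lit 78) (nat_lit 0) (nat_lit 0) (XT.lf (nat_lit 0) (nat_lit 4246269543) (nat_lit 456) (nat_lit 774357608) (nat_lit 532) (nat_lit 14967938196) (nat_lit 193) (nat_lit 5) (nat_lit 199) (nat_lit 5) (nat_lit 200) (nat_lit 5) (nat_lit 632) (nat_lit 559) (nat_lit 369)) (XT.lf (nat_lit 0) (nat_lit 9236865207) (nat_lit 532) (nat_lit 4080551758) (nat_lit 76) (nat_lit 6911959478) (nat_lit 193) (nat_lit 5) (nat_lit 200) (nat_lit 5) (nat_lit 194) (nat_lit 5) (nat_lit 633) (nat_lit 559) (nat_lit 368))) (XT.nd (nat_lit 78) (nat_lit 532) (nat_lit 0) (XT.lf (nat_lit 0) (nat_lit 7902861464) (nat_lit 456) (nat_lit 5683945649) (nat_lit 532) (nat_lit 6887209762) (nat_lit 187) (nat_lit 5) (nat_lit 193) (nat_lit 5) (nat_lit 194) (nat_lit 5) (nat_lit 634) (nat_lit 559) (nat_lit 367)) (XT.nd (nat_lit 78) (nat_lit 532) (nat_lit 0) (XT.lf (nat_lit 0) (nat_lit 18057954659) (nat_lit 532) (nat_lit 565716074)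 (nat_lit 76) (nat_lit 2099195926) (nat_lit 187) (nat_lit 5) (nat_lit 194) (nat_lit 5) (nat_lit 188) (nat_lit 5) (nat_lit 635) (nat_lit 559) (nat_lit 366)) (XT.lf (nat_lit 0) (nat_lit 1728310063) (nat_lit 532) (nat_lit 9199082562) (nat_lit 76) (nat_lit 10046928047) (nat_lit 180) (nat_lit 5) (nat_lit 187) (nat_lit 5) (nat_lit 181) (nat_lit 5) (nat_lit 636) (nat_lit 559) (nat_lit 365)))))) (XT.nd (nat_lit 390) (nat_lit 380) (nat_lit 0) (XT.nd (nat_lit 156) (nat_lit 912) (nat_lit 0) (XT.nd (nat_lit 78) (nat_lit 0) (nat_lit 0) (XT.lf (nat_lit 0) (nat_lit 3153672676) (nat_lit 456) (nat_lit 3037527440) (nat_lit 532) (nat_lit 15038902254) (nat_lit 174) (nat_lit 5) (nat_lit 180) (nat_lit 5) (nat_lit 181) (nat_lit 5) (nat_lit 637) (nat_lit 559) (nat_lit 364)) (XT.lf (nat_lit 0) (nat_lit 10831222427) (nat_lit 532) (nat_lit 5654540959) (nat_lit 76) (nat_lit 5003479455) (nat_lit 174) (nat_lit 5) (nat_lit 181) (nat_lit 5) (nat_lit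 175) (nat_lit 5) (nat_lit 638) (nat_lit 559) (nat_lit 363))) (XT.nd (nat_lit 78) (nat_lit 532) (nat_lit 0) (XT.lf (nat_lit 0) (nat_lit 7078687197) (nat_lit 380) (nat_lit 8544772652) (nat_lit 456) (nat_lit 6128918597) (nat_lit 169) (nat_lit 5) (nat_lit 174) (nat_lit 5) (nat_lit 175) (nat_lit 5) (nat_lit 639) (nat_lit 559) (nat_lit 362)) (XT.nd (nat_lit 78) (nat_lit 532) (nat_lit 0) (XT.lf (nat_lit 0) (nat_lit 20133472784) (nat_lit 380) (nat_lit 409420504) (nat_lit 456) (nat_lit 1477257055) (nat_lit 169) (nat_lit 5) (nat_lit 174) (nat_lit 5) (nat_lit 175) (nat_lit 5) (nat_lit 640) (nat_lit 559) (nat_lit 361)) (XT.lf (nat_lit 0) (nat_lit 3343092144) (nat_lit 532) (nat_lit 11070284829) (nat_lit 76) (nat_lit 7877106848) (nat_lit 162) (nat_lit 5) (nat_lit 169) (nat_lit 5) (nat_lit 163) (nat_lit 5) (nat_lit 641) (nat_lit 559) (nat_lit 360))))) (XT.nd (nat_lit 74802) (nat_lit 0) (nat_lit 27056) (XT.nd (nat_lit 78) (nat_lit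 0) (nat_lit 0) (XT.lf (nat_lit 0) (nat_lit 2053472801) (nat_lit 380) (nat_lit 6208939030) (nat_lit 456) (nat_lit 14303170534) (nat_lit 157) (nat_lit 5) (nat_lit 162) (nat_lit 5) (nat_lit 163) (nat_lit 5) (nat_lit 642) (nat_lit 559) (nat_lit 359)) (XT.lf (nat_lit 0) (nat_lit 13362499111) (nat_lit 456) (nat_lit 7279185294) (nat_lit 76) (nat_lit 2202851410) (nat_lit 157) (nat_lit 5) (nat_lit 163) (nat_lit 5) (nat_lit 158) (nat_lit 5) (nat_lit 643) (nat_lit 559) (nat_lit 358))) (XT.nd (nat_lit 78) (nat_lit 0) (nat_lit 0) (XT.lf (nat_lit 0) (nat_lit 124081987) (nat_lit 0) (nat_lit 124081987) (nat_lit 1596) (nat_lit 4511734665) (nat_lit 513) (nat_lit 5) (nat_lit 513) (nat_lit 3) (nat_lit 534) (nat_lit 3) (nat_lit 560) (nat_lit 560) (nat_lit 440)) (XT.nd (nat_lit 78) (nat_lit 0) (nat_lit 0) (XT.lf (nat_lit 0) (nat_lit 1317051573) (nat_lit 1596) (nat_lit 4621145172) (nat_lit 1672) (nat_lit 3660351654) (nat_lit 513) (nat_lit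 5) (nat_lit 534) (nat_lit 3) (nat_lit 535) (nat_lit 5) (nat_lit 561) (nat_lit 560) (nat_lit 439)) (XT.lf (nat_lit 76) (nat_lit 111299768) (nat_lit 0) (nat_lit 2024557387) (nat_lit 1672) (nat_lit 7543387489) (nat_lit 514) (nat_lit 5) (nat_lit 513) (nat_lit 5) (nat_lit 535) (nat_lit 5) (nat_lit 562) (nat_lit 560) (nat_lit 438))))))))
noncomputable def xc168 : XT := (XT.nd (nat_lit 1404) (nat_lit 10108) (nat_lit 0) (XT.nd (nat_lit 702) (nat_lit 0) (nat_lit 0) (XT.nd (nat_lit 312) (nat_lit 1444) (nat_lit 0) (XT.nd (nat_lit 156) (nat_lit 0) (nat_lit 76) (XT.nd (nat_lit 78) (nat_lit 0) (nat_lit 0) (XT.lf (nat_lit 0) (nat_lit 2994727144) (nat_lit 1596) (nat_lit 4784149338) (nat_lit 1672) (nat_lit 1982207951) (nat_lit 514) (nat_lit 5) (nat_lit 535) (nat_lit 5) (nat_lit 536) (nat_lit 5) (nat_lit 563) (nat_lit 560) (nat_lit 437)) (XT.lf (nat_lit 76) (nat_lit 71806754) (nat_lit 0) (nat_lit 3792938953) (nat_lit 1672) (nat_lit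 5979939207) (nat_lit 515) (nat_lit 5) (nat_lit 514) (nat_lit 5) (nat_lit 536) (nat_lit 5) (nat_lit 564) (nat_lit 560) (nat_lit 436))) (XT.nd (nat_lit 78) (nat_lit 0) (nat_lit 0) (XT.lf (nat_lit 0) (nat_lit 4766724231) (nat_lit 1596) (nat_lit 4852993788) (nat_lit 1672) (nat_lit 309951448) (nat_lit 515) (nat_lit 5) (nat_lit 536) (nat_lit 5) (nat_lit 537) (nat_lit 5) (nat_lit 565) (nat_lit 560) (nat_lit 435)) (XT.lf (nat_lit 76) (nat_lit 130679863) (nat_lit 0) (nat_lit 5562884777) (nat_lit 1672) (nat_lit 4322655814) (nat_lit 516) (nat_lit 5) (nat_lit 515) (nat_lit 5) (nat_lit 537) (nat_lit 5) (nat_lit 566) (nat_lit 560) (nat_lit 434)))) (XT.nd (nat_lit 156) (nat_lit 1520) (nat_lit 0) (XT.nd (nat_lit 78) (nat_lit 0) (nat_lit 76) (XT.lf (nat_lit 76) (nat_lit 5268680807) (nat_lit 0) (nat_lit 1383985378) (nat_lit 1672) (nat_lit 3451564917) (nat_lit 516) (nat_lit 5) (nat_lit 515) (nat_lit 5) (nat_lit 537) (nat_lit 5) (nat_lit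 567) (nat_lit 560) (nat_lit 433)) (XT.lf (nat_lit 76) (nat_lit 289210612) (nat_lit 0) (nat_lit 7343882697) (nat_lit 1672) (nat_lit 2560868850) (nat_lit 517) (nat_lit 5) (nat_lit 516) (nat_lit 5) (nat_lit 538) (nat_lit 5) (nat_lit 568) (nat_lit 560) (nat_lit 432))) (XT.nd (nat_lit 78) (nat_lit 1596) (nat_lit 0) (XT.lf (nat_lit 76) (nat_lit 5561468024) (nat_lit 0) (nat_lit 3095080069) (nat_lit 1672) (nat_lit 1628474367) (nat_lit 517) (nat_lit 5) (nat_lit 516) (nat_lit 5) (nat_lit 538) (nat_lit 5) (nat_lit 569) (nat_lit 560) (nat_lit 431)) (XT.nd (nat_lit 78) (nat_lit 1672) (nat_lit 0) (XT.lf (nat_lit 76) (nat_lit 548984032) (nat_lit 0) (nat_lit 9145358989) (nat_lit 1672) (nat_lit 683686472) (nat_lit 518) (nat_lit 5) (nat_lit 517) (nat_lit 5) (nat_lit 539) (nat_lit 5) (nat_lit 570) (nat_lit 560) (nat_lit 430)) (XT.lf (nat_lit 0) (nat_lit 311149344) (nat_lit 1672) (nat_lit 4515386843) (nat_lit 1748) (nat_lit 5645630468)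 (nat_lit 495) (nat_lit 5) (nat_lit 517) (nat_lit 5) (nat_lit 518) (nat_lit 5) (nat_lit 571) (nat_lit 560) (nat_lit 429)))))) (XT.nd (nat_lit 312) (nat_lit 0) (nat_lit 152) (XT.nd (nat_lit 156) (nat_lit 0) (nat_lit 76) (XT.nd (nat_lit 78) (nat_lit 0) (nat_lit 76) (XT.lf (nat_lit 76) (nat_lit 900452947) (nat_lit 0) (nat_lit 404893681) (nat_lit 1748) (nat_lit 9262979939) (nat_lit 496) (nat_lit 5) (nat_lit 495) (nat_lit 5) (nat_lit 518) (nat_lit 5) (nat_lit 572) (nat_lit 560) (nat_lit 428)) (XT.lf (nat_lit 0) (nat_lit 2359648543) (nat_lit 1672) (nat_lit 4218519122) (nat_lit 1748) (nat_lit 4087440320) (nat_lit 496) (nat_lit 5) (nat_lit 518) (nat_lit 5) (nat_lit 519) (nat_lit 5) (nat_lit 573) (nat_lit 560) (nat_lit 427))) (XT.nd (nat_lit 78) (nat_lit 0) (nat_lit 76) (XT.lf (nat_lit 76) (nat_lit 1343309760) (nat_lit 0) (nat_lit 2086527687) (nat_lit 1748) (nat_lit 7335104236) (nat_lit 497) (nat_lit 5) (nat_lit 496) (nat_lit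 5) (nat_lit 519) (nat_lit 5) (nat_lit 574) (nat_lit 560) (nat_lit 426)) (XT.lf (nat_lit 0) (nat_lit 4549806801) (nat_lit 1672) (nat_lit 3820259493) (nat_lit 1748) (nat_lit 2495630845) (nat_lit 497) (nat_lit 5) (nat_lit 519) (nat_lit 5) (nat_lit 520) (nat_lit 5) (nat_lit 575) (nat_lit 560) (nat_lit 425)))) (XT.nd (nat_lit 156) (nat_lit 0) (nat_lit 76) (XT.nd (nat_lit 78) (nat_lit 0) (nat_lit 76) (XT.lf (nat_lit 76) (nat_lit 1892639081) (nat_lit 0) (nat_lit 3809644632) (nat_lit 1748) (nat_lit 5265984393) (nat_lit 498) (nat_lit 5) (nat_lit 497) (nat_lit 5) (nat_lit 520) (nat_lit 5) (nat_lit 576) (nat_lit 560) (nat_lit 424)) (XT.lf (nat_lit 0) (nat_lit 6893352041) (nat_lit 1672) (nat_lit 3318209670) (nat_lit 1748) (nat_lit 861020459) (nat_lit 498) (nat_lit 5) (nat_lit 520) (nat_lit 5) (nat_lit 521) (nat_lit 5) (nat_lit 577) (nat_lit 560) (nat_lit 423))) (XT.nd (nat_lit 78) (nat_lit 0) (nat_lit 0) (XT.lf (nat_lit 76)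 (nat_lit 2551041254) (nat_lit 0) (nat_lit 5583570834) (nat_lit 1748) (nat_lit 3043845486) (nat_lit 499) (nat_lit 5) (nat_lit 498) (nat_lit 5) (nat_lit 521) (nat_lit 5) (nat_lit 578) (nat_lit 560) (nat_lit 422)) (XT.nd (nat_lit 78) (nat_lit 0) (nat_lit 76) (XT.lf (nat_lit 76) (nat_lit 8571187608) (nat_lit 0) (nat_lit 836582462) (nat_lit 1748) (nat_lit 1878541381) (nat_lit 499) (nat_lit 5) (nat_lit 498) (nat_lit 5) (nat_lit 521) (nat_lit 5) (nat_lit 579) (nat_lit 560) (nat_lit 421)) (XT.lf (nat_lit 76) (nat_lit 3321401980) (nat_lit 0) (nat_lit 7417686772) (nat_lit 1748) (nat_lit 656582071) (nat_lit 500) (nat_lit 5) (nat_lit 499) (nat_lit 5) (nat_lit 522) (nat_lit 5) (nat_lit 580) (nat_lit 560) (nat_lit 420))))))) (XT.nd (nat_lit 702) (nat_lit 4408) (nat_lit 0) (XT.nd (nat_lit 312) (nat_lit 4256) (nat_lit 0) (XT.nd (nat_lit 156) (nat_lit 0) (nat_lit 76) (XT.nd (nat_lit 78) (nat_lit 0) (nat_lit 76) (XT.lf (nat_lit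 0) (nat_lit 591206822) (nat_lit 1748) (nat_lit 2012571055) (nat_lit 1824) (nat_lit 8903182676) (nat_lit 476) (nat_lit 5) (nat_lit 499) (nat_lit 5) (nat_lit 500) (nat_lit 5) (nat_lit 581) (nat_lit 560) (nat_lit 419)) (XT.lf (nat_lit 0) (nat_lit 1883239113) (nat_lit 1748) (nat_lit 7425574760) (nat_lit 1824) (nat_lit 2311016053) (nat_lit 477) (nat_lit 5) (nat_lit 500) (nat_lit 5) (nat_lit 501) (nat_lit 5) (nat_lit 582) (nat_lit 560) (nat_lit 418))) (XT.nd (nat_lit 78) (nat_lit 0) (nat_lit 76) (XT.lf (nat_lit 0) (nat_lit 3217713220) (nat_lit 1748) (nat_lit 1211212245) (nat_lit 1824) (nat_lit 7305701387) (nat_lit 477) (nat_lit 5) (nat_lit 500) (nat_lit 5) (nat_lit 501) (nat_lit 5) (nat_lit 583) (nat_lit 560) (nat_lit 417)) (XT.lf (nat_lit 0) (nat_lit 4602377184) (nat_lit 1748) (nat_lit 6671164722) (nat_lit 76) (nat_lit 577709951) (nat_lit 478) (nat_lit 5) (nat_lit 501) (nat_lit 5) (nat_lit 479) (nat_lit 5) (nat_lit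 584) (nat_lit 560) (nat_lit 416)))) (XT.nd (nat_lit 156) (nat_lit 2660) (nat_lit 0) (XT.nd (nat_lit 78) (nat_lit 1748) (nat_lit 0) (XT.lf (nat_lit 0) (nat_lit 6038503832) (nat_lit 1748) (nat_lit 295479979) (nat_lit 76) (nat_lit 5635752268) (nat_lit 478) (nat_lit 5) (nat_lit 501) (nat_lit 5) (nat_lit 479) (nat_lit 5) (nat_lit 585) (nat_lit 560) (nat_lit 415)) (XT.lf (nat_lit 0) (nat_lit 6278613086) (nat_lit 1748) (nat_lit 1252031390) (nat_lit 1824) (nat_lit 4559401744) (nat_lit 455) (nat_lit 5) (nat_lit 478) (nat_lit 5) (nat_lit 479) (nat_lit 5) (nat_lit 586) (nat_lit 560) (nat_lit 414))) (XT.nd (nat_lit 78) (nat_lit 988) (nat_lit 0) (XT.lf (nat_lit 0) (nat_lit 748087030) (nat_lit 1672) (nat_lit 8323649493) (nat_lit 1748) (nat_lit 3140645890) (nat_lit 433) (nat_lit 5) (nat_lit 455) (nat_lit 5) (nat_lit 456) (nat_lit 5) (nat_lit 587) (nat_lit 560) (nat_lit 413)) (XT.nd (nat_lit 78) (nat_lit 988) (nat_lit 0) (XT.lf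 (nat_lit 0) (nat_lit 7497592742) (nat_lit 1672) (nat_lit 3180206790) (nat_lit 1748) (nat_lit 1658684801) (nat_lit 433) (nat_lit 5) (nat_lit 455) (nat_lit 5) (nat_lit 456) (nat_lit 5) (nat_lit 588) (nat_lit 560) (nat_lit 412)) (XT.lf (nat_lit 0) (nat_lit 1919156169) (nat_lit 988) (nat_lit 10409883059) (nat_lit 1064) (nat_lit 133769898) (nat_lit 420) (nat_lit 5) (nat_lit 433) (nat_lit 5) (nat_lit 434) (nat_lit 5) (nat_lit 589) (nat_lit 560) (nat_lit 411)))))) (XT.nd (nat_lit 390) (nat_lit 2508) (nat_lit 0) (XT.nd (nat_lit 156) (nat_lit 912) (nat_lit 0) (XT.nd (nat_lit 78) (nat_lit 912) (nat_lit 0) (XT.lf (nat_lit 0) (nat_lit 1444016997) (nat_lit 1064) (nat_lit 3755274163) (nat_lit 76) (nat_lit 7391366144) (nat_lit 419) (nat_lit 5) (nat_lit 433) (nat_lit 5) (nat_lit 420) (nat_lit 5) (nat_lit 590) (nat_lit 560) (nat_lit 410)) (XT.lf (nat_lit 0) (nat_lit 3060757281) (nat_lit 988) (nat_lit 9523330641) (nat_lit 76) (nat_lit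 136774895) (nat_lit 407) (nat_lit 5) (nat_lit 420) (nat_lit 5) (nat_lit 408) (nat_lit 5) (nat_lit 591) (nat_lit 560) (nat_lit 409))) (XT.nd (nat_lit 78) (nat_lit 912) (nat_lit 0) (XT.lf (nat_lit 0) (nat_lit 4757328829) (nat_lit 988) (nat_lit 2559132153) (nat_lit 76) (nat_lit 5536263324) (nat_lit 407) (nat_lit 5) (nat_lit 420) (nat_lit 5) (nat_lit 408) (nat_lit 5) (nat_lit 592) (nat_lit 560) (nat_lit 408)) (XT.nd (nat_lit 78) (nat_lit 0) (nat_lit 0) (XT.lf (nat_lit 0) (nat_lit 4593156253) (nat_lit 912) (nat_lit 1912435917) (nat_lit 988) (nat_lit 6481277410) (nat_lit 395) (nat_lit 5) (nat_lit 407) (nat_lit 5) (nat_lit 408) (nat_lit 5) (nat_lit 593) (nat_lit 560) (nat_lit 407)) (XT.lf (nat_lit 0) (nat_lit 8317583873) (nat_lit 988) (nat_lit 1235261436) (nat_lit 76) (nat_lit 3570278915) (nat_lit 395) (nat_lit 5) (nat_lit 408) (nat_lit 5) (nat_lit 396) (nat_lit 5) (nat_lit 594) (nat_lit 560) (nat_lit 406))))) (XT.nd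 (nat_lit 156) (nat_lit 836) (nat_lit 0) (XT.nd (nat_lit 78) (nat_lit 836) (nat_lit 0) (XT.lf (nat_lit 0) (nat_lit 6122618993) (nat_lit 836) (nat_lit 4083951696) (nat_lit 912) (nat_lit 3054719859) (nat_lit 384) (nat_lit 5) (nat_lit 395) (nat_lit 5) (nat_lit 396) (nat_lit 5) (nat_lit 595) (nat_lit 560) (nat_lit 405)) (XT.lf (nat_lit 0) (nat_lit 223994717) (nat_lit 836) (nat_lit 11917337794) (nat_lit 912) (nat_lit 1260729442) (nat_lit 373) (nat_lit 5) (nat_lit 384) (nat_lit 5) (nat_lit 385) (nat_lit 5) (nat_lit 596) (nat_lit 560) (nat_lit 404))) (XT.nd (nat_lit 78) (nat_lit 760) (nat_lit 0) (XT.lf (nat_lit 0) (nat_lit 625513017) (nat_lit 912) (nat_lit 5756678883) (nat_lit 76) (nat_lit 7162107842) (nat_lit 372) (nat_lit 5) (nat_lit 384) (nat_lit 5) (nat_lit 373) (nat_lit 5) (nat_lit 597) (nat_lit 560) (nat_lit 403)) (XT.nd (nat_lit 78) (nat_lit 0) (nat_lit 0) (XT.lf (nat_lit 0) (nat_lit 1817238556) (nat_lit 760) (nat_lit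 715968326) (nat_lit 836) (nat_lit 11155998148) (nat_lit 362) (nat_lit 5) (nat_lit 372) (nat_lit 5) (nat_lit 373) (nat_lit 5) (nat_lit 598) (nat_lit 560) (nat_lit 402)) (XT.lf (nat_lit 0) (nat_lit 4539754861) (nat_lit 836) (nat_lit 4260229258) (nat_lit 76) (nat_lit 5035811834) (nat_lit 362) (nat_lit 5) (nat_lit 373) (nat_lit 5) (nat_lit 363) (nat_lit 5) (nat_lit 599) (nat_lit 560) (nat_lit 401))))))))
noncomputable def xc169 : XT := (XT.nd (nat_lit 1482) (nat_lit 5928) (nat_lit 0) (XT.nd (nat_lit 702) (nat_lit 4028) (nat_lit 0) (XT.nd (nat_lit 312) (nat_lit 2280) (nat_lit 0) (XT.nd (nat_lit 156) (nat_lit 760) (nat_lit 0) (XT.nd (nat_lit 78) (nat_lit 0) (nat_lit 0) (XT.lf (nat_lit 0) (nat_lit 3534047788) (nat_lit 836) (nat_lit 3069227747) (nat_lit 912) (nat_lit 7381707826) (nat_lit 351) (nat_lit 5) (nat_lit 362) (nat_lit 5) (nat_lit 363) (nat_lit 5) (nat_lit 600) (nat_lit 560) (nat_lit 400)) (XT.lf (nat_lit 0) (nat_lit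 8744160090) (nat_lit 912) (nat_lit 2624278635) (nat_lit 76) (nat_lit 2767995397) (nat_lit 351) (nat_lit 5) (nat_lit 363) (nat_lit 5) (nat_lit 352) (nat_lit 5) (nat_lit 601) (nat_lit 560) (nat_lit 399))) (XT.nd (nat_lit 78) (nat_lit 0) (nat_lit 0) (XT.lf (nat_lit 0) (nat_lit 5398166793) (nat_lit 760) (nat_lit 5574571202) (nat_lit 836) (nat_lit 3317279836) (nat_lit 341) (nat_lit 5) (nat_lit 351) (nat_lit 5) (nat_lit 352) (nat_lit 5) (nat_lit 602) (nat_lit 560) (nat_lit 398)) (XT.lf (nat_lit 0) (nat_lit 13255420177) (nat_lit 836) (nat_lit 843326330) (nat_lit 76) (nat_lit 347737467) (nat_lit 341) (nat_lit 5) (nat_lit 352) (nat_lit 5) (nat_lit 342) (nat_lit 5) (nat_lit 603) (nat_lit 560) (nat_lit 397)))) (XT.nd (nat_lit 156) (nat_lit 760) (nat_lit 0) (XT.nd (nat_lit 78) (nat_lit 684) (nat_lit 0) (XT.lf (nat_lit 0) (nat_lit 1040245025) (nat_lit 836) (nat_lit 7196045351) (nat_lit 76) (nat_lit 6368155655) (nat_lit 330)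 (nat_lit 5) (nat_lit 341) (nat_lit 5) (nat_lit 331) (nat_lit 5) (nat_lit 604) (nat_lit 560) (nat_lit 396)) (XT.lf (nat_lit 0) (nat_lit 1066008737) (nat_lit 684) (nat_lit 2236748478) (nat_lit 760) (nat_lit 11462603479) (nat_lit 321) (nat_lit 5) (nat_lit 330) (nat_lit 5) (nat_lit 331) (nat_lit 5) (nat_lit 605) (nat_lit 560) (nat_lit 395))) (XT.nd (nat_lit 78) (nat_lit 760) (nat_lit 0) (XT.lf (nat_lit 0) (nat_lit 5674349741) (nat_lit 760) (nat_lit 5374515507) (nat_lit 76) (nat_lit 3879353111) (nat_lit 321) (nat_lit 5) (nat_lit 331) (nat_lit 5) (nat_lit 322) (nat_lit 5) (nat_lit 606) (nat_lit 560) (nat_lit 394)) (XT.nd (nat_lit 78) (nat_lit 0) (nat_lit 0) (XT.lf (nat_lit 0) (nat_lit 3131996735) (nat_lit 760) (nat_lit 4986732569) (nat_lit 836) (nat_lit 6975098049) (nat_lit 311) (nat_lit 5) (nat_lit 321) (nat_lit 5) (nat_lit 322) (nat_lit 5) (nat_lit 607) (nat_lit 560) (nat_lit 393)) (XT.lf (nat_lit 0) (nat_lit 10646389640)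 (nat_lit 836) (nat_lit 3399741076) (nat_lit 76) (nat_lit 1215931208) (nat_lit 311) (nat_lit 5) (nat_lit 322) (nat_lit 5) (nat_lit 312) (nat_lit 5) (nat_lit 608) (nat_lit 560) (nat_lit 392)))))) (XT.nd (nat_lit 390) (nat_lit 1976) (nat_lit 0) (XT.nd (nat_lit 156) (nat_lit 1292) (nat_lit 0) (XT.nd (nat_lit 78) (nat_lit 76) (nat_lit 0) (XT.lf (nat_lit 0) (nat_lit 5359883122) (nat_lit 684) (nat_lit 7923053621) (nat_lit 760) (nat_lit 2149559004) (nat_lit 302) (nat_lit 5) (nat_lit 311) (nat_lit 5) (nat_lit 312) (nat_lit 5) (nat_lit 609) (nat_lit 560) (nat_lit 391)) (XT.lf (nat_lit 0) (nat_lit 374604077) (nat_lit 760) (nat_lit 1278657024) (nat_lit 76) (nat_lit 13952760300) (nat_lit 301) (nat_lit 5) (nat_lit 311) (nat_lit 5) (nat_lit 302) (nat_lit 5) (nat_lit 610) (nat_lit 560) (nat_lit 390))) (XT.nd (nat_lit 78) (nat_lit 608) (nat_lit 0) (XT.lf (nat_lit 0) (nat_lit 2992881657) (nat_lit 760) (nat_lit 8045111617) (nat_lit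 76) (nat_lit 4743293006) (nat_lit 292) (nat_lit 5) (nat_lit 302) (nat_lit 5) (nat_lit 293) (nat_lit 5) (nat_lit 611) (nat_lit 560) (nat_lit 389)) (XT.nd (nat_lit 78) (nat_lit 0) (nat_lit 0) (XT.lf (nat_lit 0) (nat_lit 979674969) (nat_lit 608) (nat_lit 4700643846) (nat_lit 684) (nat_lit 10279402902) (nat_lit 284) (nat_lit 5) (nat_lit 292) (nat_lit 5) (nat_lit 293) (nat_lit 5) (nat_lit 612) (nat_lit 560) (nat_lit 388)) (XT.lf (nat_lit 0) (nat_lit 8478243308) (nat_lit 684) (nat_lit 5869459452) (nat_lit 76) (nat_lit 1792889447) (nat_lit 284) (nat_lit 5) (nat_lit 293) (nat_lit 5) (nat_lit 285) (nat_lit 5) (nat_lit 613) (nat_lit 560) (nat_lit 387))))) (XT.nd (nat_lit 156) (nat_lit 1292) (nat_lit 0) (XT.nd (nat_lit 78) (nat_lit 0) (nat_lit 0) (XT.lf (nat_lit 0) (nat_lit 3426345470) (nat_lit 684) (nat_lit 7950279199) (nat_lit 760) (nat_lit 4947566566) (nat_lit 275) (nat_lit 5) (nat_lit 284) (nat_lit 5) (nat_lit 285) (nat_lit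 5) (nat_lit 614) (nat_lit 560) (nat_lit 386)) (XT.lf (nat_lit 0) (nat_lit 12976898454) (nat_lit 684) (nat_lit 1386688954) (nat_lit 760) (nat_lit 2147263633) (nat_lit 275) (nat_lit 5) (nat_lit 284) (nat_lit 5) (nat_lit 285) (nat_lit 5) (nat_lit 615) (nat_lit 560) (nat_lit 385))) (XT.nd (nat_lit 78) (nat_lit 608) (nat_lit 0) (XT.lf (nat_lit 0) (nat_lit 765316756) (nat_lit 684) (nat_lit 10653537611) (nat_lit 76) (nat_lit 5280987222) (nat_lit 266) (nat_lit 5) (nat_lit 275) (nat_lit 5) (nat_lit 267) (nat_lit 5) (nat_lit 616) (nat_lit 560) (nat_lit 384)) (XT.nd (nat_lit 78) (nat_lit 608) (nat_lit 0) (XT.lf (nat_lit 0) (nat_lit 3731907644) (nat_lit 684) (nat_lit 1060354022) (nat_lit 76) (nat_lit 12099577213) (nat_lit 266) (nat_lit 5) (nat_lit 275) (nat_lit 5) (nat_lit 267) (nat_lit 5) (nat_lit 617) (nat_lit 560) (nat_lit 383)) (XT.lf (nat_lit 0) (nat_lit 6819893445) (nat_lit 684) (nat_lit 8269849314) (nat_lit 76) (nat_lit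 1996693084) (nat_lit 258) (nat_lit 5) (nat_lit 267) (nat_lit 5) (nat_lit 259) (nat_lit 5) (nat_lit 618) (nat_lit 560) (nat_lit 382))))))) (XT.nd (nat_lit 702) (nat_lit 3040) (nat_lit 0) (XT.nd (nat_lit 312) (nat_lit 1672) (nat_lit 0) (XT.nd (nat_lit 156) (nat_lit 684) (nat_lit 0) (XT.nd (nat_lit 78) (nat_lit 0) (nat_lit 0) (XT.lf (nat_lit 0) (nat_lit 1599248585) (nat_lit 532) (nat_lit 8411353141) (nat_lit 608) (nat_lit 7273504737) (nat_lit 251) (nat_lit 5) (nat_lit 258) (nat_lit 5) (nat_lit 259) (nat_lit 5) (nat_lit 619) (nat_lit 560) (nat_lit 381)) (XT.lf (nat_lit 0) (nat_lit 11767299428) (nat_lit 532) (nat_lit 1545094457) (nat_lit 608) (nat_lit 4172392170) (nat_lit 251) (nat_lit 5) (nat_lit 258) (nat_lit 5) (nat_lit 259) (nat_lit 5) (nat_lit 620) (nat_lit 560) (nat_lit 380))) (XT.nd (nat_lit 78) (nat_lit 76) (nat_lit 0) (XT.lf (nat_lit 0) (nat_lit 4461839645) (nat_lit 608) (nat_lit 12274712887) (nat_lit 684)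 (nat_lit 951801027) (nat_lit 243) (nat_lit 5) (nat_lit 251) (nat_lit 5) (nat_lit 252) (nat_lit 5) (nat_lit 621) (nat_lit 560) (nat_lit 379)) (XT.lf (nat_lit 0) (nat_lit 2343413779) (nat_lit 684) (nat_lit 3009114769) (nat_lit 76) (nat_lit 12542345548) (nat_lit 242) (nat_lit 5) (nat_lit 251) (nat_lit 5) (nat_lit 243) (nat_lit 5) (nat_lit 622) (nat_lit 560) (nat_lit 378)))) (XT.nd (nat_lit 156) (nat_lit 1140) (nat_lit 0) (XT.nd (nat_lit 78) (nat_lit 0) (nat_lit 0) (XT.lf (nat_lit 0) (nat_lit 5744012678) (nat_lit 608) (nat_lit 10621707357) (nat_lit 76) (nat_lit 1738635572) (nat_lit 235) (nat_lit 5) (nat_lit 243) (nat_lit 5) (nat_lit 236) (nat_lit 5) (nat_lit 623) (nat_lit 560) (nat_lit 377)) (XT.lf (nat_lit 0) (nat_lit 9260585569) (nat_lit 608) (nat_lit 138544041) (nat_lit 76) (nat_lit 8917938762) (nat_lit 235) (nat_lit 5) (nat_lit 243) (nat_lit 5) (nat_lit 236) (nat_lit 5) (nat_lit 624) (nat_lit 560) (nat_lit 376)))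 (XT.nd (nat_lit 78) (nat_lit 608) (nat_lit 0) (XT.lf (nat_lit 0) (nat_lit 10684235580) (nat_lit 532) (nat_lit 2224964986) (nat_lit 608) (nat_lit 5623601458) (nat_lit 228) (nat_lit 5) (nat_lit 235) (nat_lit 5) (nat_lit 236) (nat_lit 5) (nat_lit 625) (nat_lit 560) (nat_lit 375)) (XT.nd (nat_lit 78) (nat_lit 76) (nat_lit 0) (XT.lf (nat_lit 0) (nat_lit 2968131809) (nat_lit 532) (nat_lit 13708337691) (nat_lit 608) (nat_lit 2075468047) (nat_lit 221) (nat_lit 5) (nat_lit 228) (nat_lit 5) (nat_lit 229) (nat_lit 5) (nat_lit 626) (nat_lit 560) (nat_lit 374)) (XT.lf (nat_lit 0) (nat_lit 1583576619) (nat_lit 608) (nat_lit 4902230368) (nat_lit 76) (nat_lit 12488245276) (nat_lit 220) (nat_lit 5) (nat_lit 228) (nat_lit 5) (nat_lit 221) (nat_lit 5) (nat_lit 627) (nat_lit 560) (nat_lit 373)))))) (XT.nd (nat_lit 390) (nat_lit 1444) (nat_lit 0) (XT.nd (nat_lit 156) (nat_lit 1064) (nat_lit 0) (XT.nd (nat_lit 78) (nat_lit 0) (nat_lit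 0) (XT.lf (nat_lit 0) (nat_lit 5327304446) (nat_lit 608) (nat_lit 12950539211) (nat_lit 76) (nat_lit 921706164) (nat_lit 213) (nat_lit 5) (nat_lit 221) (nat_lit 5) (nat_lit 214) (nat_lit 5) (nat_lit 628) (nat_lit 560) (nat_lit 372)) (XT.lf (nat_lit 0) (nat_lit 9214626596) (nat_lit 608) (nat_lit 1792479847) (nat_lit 76) (nat_lit 8421077260) (nat_lit 213) (nat_lit 5) (nat_lit 221) (nat_lit 5) (nat_lit 214) (nat_lit 5) (nat_lit 629) (nat_lit 560) (nat_lit 371))) (XT.nd (nat_lit 78) (nat_lit 608) (nat_lit 0) (XT.lf (nat_lit 0) (nat_lit 9706099059) (nat_lit 456) (nat_lit 3529411619) (nat_lit 532) (nat_lit 6424764024) (nat_lit 207) (nat_lit 5) (nat_lit 213) (nat_lit 5) (nat_lit 214) (nat_lit 5) (nat_lit 630) (nat_lit 560) (nat_lit 370)) (XT.nd (nat_lit 78) (nat_lit 76) (nat_lit 0) (XT.lf (nat_lit 0) (nat_lit 1545768720) (nat_lit 532) (nat_lit 15832650245) (nat_lit 608) (nat_lit 2517757165) (nat_lit 200) (nat_lit 5) (nat_lit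 207) (nat_lit 5) (nat_lit 208) (nat_lit 5) (nat_lit 631) (nat_lit 560) (nat_lit 369)) (XT.lf (nat_lit 0) (nat_lit 1531642867) (nat_lit 608) (nat_lit 6768187806) (nat_lit 76) (nat_lit 11835105114) (nat_lit 199) (nat_lit 5) (nat_lit 207) (nat_lit 5) (nat_lit 200) (nat_lit 5) (nat_lit 632) (nat_lit 560) (nat_lit 368))))) (XT.nd (nat_lit 156) (nat_lit 988) (nat_lit 0) (XT.nd (nat_lit 78) (nat_lit 0) (nat_lit 0) (XT.lf (nat_lit 0) (nat_lit 5085872678) (nat_lit 456) (nat_lit 568521752) (nat_lit 532) (nat_lit 14723222527) (nat_lit 193) (nat_lit 5) (nat_lit 199) (nat_lit 5) (nat_lit 200) (nat_lit 5) (nat_lit 633) (nat_lit 560) (nat_lit 367)) (XT.lf (nat_lit 0) (nat_lit 9945908112) (nat_lit 532) (nat_lit 3413181946) (nat_lit 76) (nat_lit 7264336232) (nat_lit 193) (nat_lit 5) (nat_lit 200) (nat_lit 5) (nat_lit 194) (nat_lit 5) (nat_lit 634) (nat_lit 560) (nat_lit 366))) (XT.nd (nat_lit 78) (nat_lit 532) (nat_lit 0) (XT.lf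 (nat_lit 0) (nat_lit 8804972035) (nat_lit 456) (nat_lit 5572427206) (nat_lit 532) (nat_lit 6495670292) (nat_lit 187) (nat_lit 5) (nat_lit 193) (nat_lit 5) (nat_lit 194) (nat_lit 5) (nat_lit 635) (nat_lit 560) (nat_lit 365)) (XT.nd (nat_lit 78) (nat_lit 76) (nat_lit 0) (XT.lf (nat_lit 0) (nat_lit 163365991) (nat_lit 456) (nat_lit 18766924241) (nat_lit 532) (nat_lit 2196760662) (nat_lit 181) (nat_lit 5) (nat_lit 187) (nat_lit 5) (nat_lit 188) (nat_lit 5) (nat_lit 636) (nat_lit 560) (nat_lit 364)) (XT.lf (nat_lit 0) (nat_lit 2271142996) (nat_lit 532) (nat_lit 8642865093) (nat_lit 76) (nat_lit 10469586019) (nat_lit 180) (nat_lit 5) (nat_lit 187) (nat_lit 5) (nat_lit 181) (nat_lit 5) (nat_lit 637) (nat_lit 560) (nat_lit 363))))))))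
noncomputable def xc170 : XT := (XT.nd (nat_lit 76128) (nat_lit 0) (nat_lit 19912) (XT.nd (nat_lit 75348) (nat_lit 0) (nat_lit 25688) (XT.nd (nat_lit 312) (nat_lit 912) (nat_lit 0) (XT.nd (nat_lit 156) (nat_lit 380) (nat_lit 0) (XT.nd (nat_lit 78) (nat_lit 0) (nat_lit 0) (XT.lf (nat_lit 0) (nat_lit 3952075519) (nat_lit 456) (nat_lit 2866023563) (nat_lit 532) (nat_lit 14826497127) (nat_lit 174) (nat_lit 5) (nat_lit 180) (nat_lit 5) (nat_lit 181) (nat_lit 5) (nat_lit 638) (nat_lit 560) (nat_lit 362)) (XT.lf (nat_lit 0) (nat_lit 11542536007) (nat_lit 532) (nat_lit 5038288987) (nat_lit 76) (nat_lit 5328263130) (nat_lit 174) (nat_lit 5) (nat_lit 181) (nat_lit 5) (nat_lit 175) (nat_lit 5) (nat_lit 639) (nat_lit 560) (nat_lit 361))) (XT.nd (nat_lit 78) (nat_lit 0) (nat_lit 0) (XT.lf (nat_lit 0) (nat_lit 7944805425) (nat_lit 380) (nat_lit 8480817189) (nat_lit 456) (nat_lit 5751964636) (nat_lit 169) (nat_lit 5) (nat_lit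 174) (nat_lit 5) (nat_lit 175) (nat_lit 5) (nat_lit 640) (nat_lit 560) (nat_lit 360)) (XT.lf (nat_lit 0) (nat_lit 21246479969) (nat_lit 380) (nat_lit 187362917) (nat_lit 456) (nat_lit 1017064614) (nat_lit 169) (nat_lit 5) (nat_lit 174) (nat_lit 5) (nat_lit 175) (nat_lit 5) (nat_lit 641) (nat_lit 560) (nat_lit 359)))) (XT.nd (nat_lit 156) (nat_lit 0) (nat_lit 0) (XT.nd (nat_lit 78) (nat_lit 380) (nat_lit 0) (XT.lf (nat_lit 0) (nat_lit 3889932024) (nat_lit 532) (nat_lit 10571507795) (nat_lit 76) (nat_lit 8265211812) (nat_lit 162) (nat_lit 5) (nat_lit 169) (nat_lit 5) (nat_lit 163) (nat_lit 5) (nat_lit 642) (nat_lit 560) (nat_lit 358)) (XT.lf (nat_lit 0) (nat_lit 2809986944) (nat_lit 380) (nat_lit 6092884969) (nat_lit 456) (nat_lit 14104476387) (nat_lit 157) (nat_lit 5) (nat_lit 162) (nat_lit 5) (nat_lit 163) (nat_lit 5) (nat_lit 643) (nat_lit 560) (nat_lit 357))) (XT.nd (nat_lit 74724) (nat_lit 0) (nat_lit 27056)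 (XT.lf (nat_lit 0) (nat_lit 14097172227) (nat_lit 456) (nat_lit 6715523266) (nat_lit 76) (nat_lit 2479341913) (nat_lit 157) (nat_lit 5) (nat_lit 163) (nat_lit 5) (nat_lit 158) (nat_lit 5) (nat_lit 644) (nat_lit 560) (nat_lit 356)) (XT.nd (nat_lit 78) (nat_lit 0) (nat_lit 0) (XT.lf (nat_lit 0) (nat_lit 519833115) (nat_lit 0) (nat_lit 519833115) (nat_lit 1596) (nat_lit 3799568810) (nat_lit 513) (nat_lit 5) (nat_lit 513) (nat_lit 3) (nat_lit 534) (nat_lit 3) (nat_lit 561) (nat_lit 561) (nat_lit 438)) (XT.lf (nat_lit 0) (nat_lit 2880619290) (nat_lit 1596) (nat_lit 3906343711) (nat_lit 1672) (nat_lit 2972555377) (nat_lit 513) (nat_lit 5) (nat_lit 534) (nat_lit 3) (nat_lit 535) (nat_lit 5) (nat_lit 562) (nat_lit 561) (nat_lit 437)))))) (XT.nd (nat_lit 390) (nat_lit 1368) (nat_lit 0) (XT.nd (nat_lit 156) (nat_lit 0) (nat_lit 76) (XT.nd (nat_lit 78) (nat_lit 0) (nat_lit 76) (XT.lf (nat_lit 76) (nat_lit 915439442) (nat_lit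 0) (nat_lit 2775426398) (nat_lit 1672) (nat_lit 6151466439) (nat_lit 514) (nat_lit 5) (nat_lit 513) (nat_lit 5) (nat_lit 535) (nat_lit 5) (nat_lit 563) (nat_lit 561) (nat_lit 436)) (XT.lf (nat_lit 0) (nat_lit 4532738645) (nat_lit 1596) (nat_lit 4059221364) (nat_lit 1672) (nat_lit 1334537277) (nat_lit 514) (nat_lit 5) (nat_lit 535) (nat_lit 5) (nat_lit 536) (nat_lit 5) (nat_lit 564) (nat_lit 561) (nat_lit 435))) (XT.nd (nat_lit 78) (nat_lit 0) (nat_lit 0) (XT.lf (nat_lit 76) (nat_lit 888455094) (nat_lit 0) (nat_lit 4508012698) (nat_lit 1672) (nat_lit 4615780613) (nat_lit 515) (nat_lit 5) (nat_lit 514) (nat_lit 5) (nat_lit 536) (nat_lit 5) (nat_lit 565) (nat_lit 561) (nat_lit 434)) (XT.nd (nat_lit 78) (nat_lit 0) (nat_lit 76) (XT.lf (nat_lit 76) (nat_lit 5979558381) (nat_lit 0) (nat_lit 306329388) (nat_lit 1672) (nat_lit 3813661581) (nat_lit 515) (nat_lit 5) (nat_lit 514) (nat_lit 5) (nat_lit 536) (nat_lit 5) (nat_lit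 566) (nat_lit 561) (nat_lit 433)) (XT.lf (nat_lit 76) (nat_lit 959871024) (nat_lit 0) (nat_lit 6246892540) (nat_lit 1672) (nat_lit 2981562467) (nat_lit 516) (nat_lit 5) (nat_lit 515) (nat_lit 5) (nat_lit 537) (nat_lit 5) (nat_lit 567) (nat_lit 561) (nat_lit 432))))) (XT.nd (nat_lit 156) (nat_lit 1520) (nat_lit 0) (XT.nd (nat_lit 78) (nat_lit 0) (nat_lit 76) (XT.lf (nat_lit 76) (nat_lit 6184424583) (nat_lit 0) (nat_lit 1973184760) (nat_lit 1672) (nat_lit 2121040859) (nat_lit 516) (nat_lit 5) (nat_lit 515) (nat_lit 5) (nat_lit 537) (nat_lit 5) (nat_lit 568) (nat_lit 561) (nat_lit 431)) (XT.lf (nat_lit 76) (nat_lit 1131138887) (nat_lit 0) (nat_lit 8001460851) (nat_lit 1672) (nat_lit 1238081513) (nat_lit 517) (nat_lit 5) (nat_lit 516) (nat_lit 5) (nat_lit 538) (nat_lit 5) (nat_lit 569) (nat_lit 561) (nat_lit 430))) (XT.nd (nat_lit 78) (nat_lit 1596) (nat_lit 0) (XT.lf (nat_lit 76) (nat_lit 6492446465) (nat_lit 0) (nat_lit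 3657668436) (nat_lit 1672) (nat_lit 313980409) (nat_lit 517) (nat_lit 5) (nat_lit 516) (nat_lit 5) (nat_lit 538) (nat_lit 5) (nat_lit 570) (nat_lit 561) (nat_lit 429)) (XT.nd (nat_lit 78) (nat_lit 0) (nat_lit 0) (XT.lf (nat_lit 0) (nat_lit 617423859) (nat_lit 1672) (nat_lit 9159499205) (nat_lit 1748) (nat_lit 782434430) (nat_lit 495) (nat_lit 5) (nat_lit 517) (nat_lit 5) (nat_lit 518) (nat_lit 5) (nat_lit 571) (nat_lit 561) (nat_lit 428)) (XT.lf (nat_lit 0) (nat_lit 1597409642) (nat_lit 1672) (nat_lit 3760989245) (nat_lit 1748) (nat_lit 5297404097) (nat_lit 495) (nat_lit 5) (nat_lit 517) (nat_lit 5) (nat_lit 518) (nat_lit 5) (nat_lit 572) (nat_lit 561) (nat_lit 427))))))) (XT.nd (nat_lit 702) (nat_lit 4332) (nat_lit 0) (XT.nd (nat_lit 312) (nat_lit 1444) (nat_lit 0) (XT.nd (nat_lit 156) (nat_lit 0) (nat_lit 76) (XT.nd (nat_lit 78) (nat_lit 0) (nat_lit 76) (XT.lf (nat_lit 76) (nat_lit 1757610068) (nat_lit 0) (nat_lit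 834230338) (nat_lit 1748) (nat_lit 8162442741) (nat_lit 496) (nat_lit 5) (nat_lit 495) (nat_lit 5) (nat_lit 518) (nat_lit 5) (nat_lit 573) (nat_lit 561) (nat_lit 426)) (XT.lf (nat_lit 0) (nat_lit 3639833558) (nat_lit 1672) (nat_lit 3452602275) (nat_lit 1748) (nat_lit 3761626223) (nat_lit 496) (nat_lit 5) (nat_lit 518) (nat_lit 5) (nat_lit 519) (nat_lit 5) (nat_lit 574) (nat_lit 561) (nat_lit 425))) (XT.nd (nat_lit 78) (nat_lit 0) (nat_lit 76) (XT.lf (nat_lit 76) (nat_lit 2214869190) (nat_lit 0) (nat_lit 2497865044) (nat_lit 1748) (nat_lit 6243025921) (nat_lit 497) (nat_lit 5) (nat_lit 496) (nat_lit 5) (nat_lit 519) (nat_lit 5) (nat_lit 575) (nat_lit 561) (nat_lit 424)) (XT.lf (nat_lit 0) (nat_lit 5828940492) (nat_lit 1672) (nat_lit 3042181027) (nat_lit 1748) (nat_lit 2187936262) (nat_lit 497) (nat_lit 5) (nat_lit 519) (nat_lit 5) (nat_lit 520) (nat_lit 5) (nat_lit 576) (nat_lit 561) (nat_lit 423)))) (XT.nd (nat_lit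 156) (nat_lit 1596) (nat_lit 0) (XT.nd (nat_lit 78) (nat_lit 0) (nat_lit 76) (XT.lf (nat_lit 76) (nat_lit 2779353915) (nat_lit 0) (nat_lit 4207327587) (nat_lit 1748) (nat_lit 4177358110) (nat_lit 498) (nat_lit 5) (nat_lit 497) (nat_lit 5) (nat_lit 520) (nat_lit 5) (nat_lit 577) (nat_lit 561) (nat_lit 422)) (XT.lf (nat_lit 0) (nat_lit 8176576718) (nat_lit 1672) (nat_lit 2527178534) (nat_lit 1748) (nat_lit 567188258) (nat_lit 498) (nat_lit 5) (nat_lit 520) (nat_lit 5) (nat_lit 521) (nat_lit 5) (nat_lit 578) (nat_lit 561) (nat_lit 421))) (XT.nd (nat_lit 78) (nat_lit 1672) (nat_lit 0) (XT.lf (nat_lit 76) (nat_lit 3453816650) (nat_lit 0) (nat_lit 5971917479) (nat_lit 1748) (nat_lit 1953544442) (nat_lit 499) (nat_lit 5) (nat_lit 498) (nat_lit 5) (nat_lit 521) (nat_lit 5) (nat_lit 579) (nat_lit 561) (nat_lit 420)) (XT.nd (nat_lit 78) (nat_lit 1672) (nat_lit 0) (XT.lf (nat_lit 76) (nat_lit 9577664860) (nat_lit 0) (nat_lit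 1124564334) (nat_lit 1748) (nat_lit 787506371) (nat_lit 499) (nat_lit 5) (nat_lit 498) (nat_lit 5) (nat_lit 521) (nat_lit 5) (nat_lit 580) (nat_lit 561) (nat_lit 419)) (XT.lf (nat_lit 0) (nat_lit 434874295) (nat_lit 1748) (nat_lit 7363209459) (nat_lit 1824) (nat_lit 3803502155) (nat_lit 476) (nat_lit 5) (nat_lit 499) (nat_lit 5) (nat_lit 500) (nat_lit 5) (nat_lit 581) (nat_lit 561) (nat_lit 418)))))) (XT.nd (nat_lit 390) (nat_lit 2736) (nat_lit 0) (XT.nd (nat_lit 156) (nat_lit 1596) (nat_lit 0) (XT.nd (nat_lit 78) (nat_lit 0) (nat_lit 76) (XT.lf (nat_lit 0) (nat_lit 1677349187) (nat_lit 1748) (nat_lit 1201649402) (nat_lit 1824) (nat_lit 8836448926) (nat_lit 476) (nat_lit 5) (nat_lit 499) (nat_lit 5) (nat_lit 500) (nat_lit 5) (nat_lit 582) (nat_lit 561) (nat_lit 417)) (XT.lf (nat_lit 0) (nat_lit 2978263041) (nat_lit 1748) (nat_lit 6705791467) (nat_lit 1824) (nat_lit 2146862201) (nat_lit 477) (nat_lit 5) (nat_lit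 500) (nat_lit 5) (nat_lit 501) (nat_lit 5) (nat_lit 583) (nat_lit 561) (nat_lit 416))) (XT.nd (nat_lit 78) (nat_lit 1672) (nat_lit 0) (XT.lf (nat_lit 0) (nat_lit 4318694098) (nat_lit 1748) (nat_lit 384167090) (nat_lit 1824) (nat_lit 7245566225) (nat_lit 477) (nat_lit 5) (nat_lit 500) (nat_lit 5) (nat_lit 501) (nat_lit 5) (nat_lit 584) (nat_lit 561) (nat_lit 415)) (XT.nd (nat_lit 78) (nat_lit 1748) (nat_lit 0) (XT.lf (nat_lit 0) (nat_lit 5715072471) (nat_lit 1748) (nat_lit 5937183428) (nat_lit 76) (nat_lit 415451724) (nat_lit 478) (nat_lit 5) (nat_lit 501) (nat_lit 5) (nat_lit 479) (nat_lit 5) (nat_lit 585) (nat_lit 561) (nat_lit 414)) (XT.lf (nat_lit 0) (nat_lit 556303091) (nat_lit 1748) (nat_lit 6607217748) (nat_lit 1824) (nat_lit 5025371771) (nat_lit 455) (nat_lit 5) (nat_lit 478) (nat_lit 5) (nat_lit 479) (nat_lit 5) (nat_lit 586) (nat_lit 561) (nat_lit 413))))) (XT.nd (nat_lit 156) (nat_lit 1064) (nat_lit 0)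 (XT.nd (nat_lit 78) (nat_lit 1672) (nat_lit 0) (XT.lf (nat_lit 0) (nat_lit 7248987288) (nat_lit 1748) (nat_lit 1418769839) (nat_lit 1824) (nat_lit 3644209774) (nat_lit 455) (nat_lit 5) (nat_lit 478) (nat_lit 5) (nat_lit 479) (nat_lit 5) (nat_lit 587) (nat_lit 561) (nat_lit 412)) (XT.lf (nat_lit 0) (nat_lit 1622956200) (nat_lit 1672) (nat_lit 8602052816) (nat_lit 1748) (nat_lit 2212036990) (nat_lit 433) (nat_lit 5) (nat_lit 455) (nat_lit 5) (nat_lit 456) (nat_lit 5) (nat_lit 588) (nat_lit 561) (nat_lit 411))) (XT.nd (nat_lit 78) (nat_lit 1064) (nat_lit 0) (XT.lf (nat_lit 0) (nat_lit 8490591096) (nat_lit 1672) (nat_lit 3353546546) (nat_lit 1748) (nat_lit 719876323) (nat_lit 433) (nat_lit 5) (nat_lit 455) (nat_lit 5) (nat_lit 456) (nat_lit 5) (nat_lit 589) (nat_lit 561) (nat_lit 410)) (XT.nd (nat_lit 78) (nat_lit 0) (nat_lit 0) (XT.lf (nat_lit 0) (nat_lit 810669912) (nat_lit 1064) (nat_lit 9883656769) (nat_lit 76)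 (nat_lit 1998711026) (nat_lit 419) (nat_lit 5) (nat_lit 433) (nat_lit 5) (nat_lit 420) (nat_lit 5) (nat_lit 590) (nat_lit 561) (nat_lit 409)) (XT.lf (nat_lit 0) (nat_lit 2399687244) (nat_lit 1064) (nat_lit 2977454788) (nat_lit 76) (nat_lit 7446656536) (nat_lit 419) (nat_lit 5) (nat_lit 433) (nat_lit 5) (nat_lit 420) (nat_lit 5) (nat_lit 591) (nat_lit 561) (nat_lit 408))))))))
noncomputable def xc171 : XT := (XT.nd (nat_lit 1482) (nat_lit 6764) (nat_lit 0) (XT.nd (nat_lit 702) (nat_lit 4560) (nat_lit 0) (XT.nd (nat_lit 312) (nat_lit 2508) (nat_lit 0) (XT.nd (nat_lit 156) (nat_lit 912) (nat_lit 0) (XT.nd (nat_lit 78) (nat_lit 0) (nat_lit 0) (XT.lf (nat_lit 0) (nat_lit 4035657558) (nat_lit 988) (nat_lit 8847634206) (nat_lit 76) (nat_lit 73581190) (nat_lit 407) (nat_lit 5) (nat_lit 420) (nat_lit 5) (nat_lit 408) (nat_lit 5) (nat_lit 592) (nat_lit 561) (nat_lit 407)) (XT.lf (nat_lit 0) (nat_lit 5748245144) (nat_lit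 988) (nat_lit 1761135337) (nat_lit 76) (nat_lit 5582352117) (nat_lit 407) (nat_lit 5) (nat_lit 420) (nat_lit 5) (nat_lit 408) (nat_lit 5) (nat_lit 593) (nat_lit 561) (nat_lit 406))) (XT.nd (nat_lit 78) (nat_lit 0) (nat_lit 0) (XT.lf (nat_lit 0) (nat_lit 5528612129) (nat_lit 912) (nat_lit 1990774673) (nat_lit 988) (nat_lit 5709418279) (nat_lit 395) (nat_lit 5) (nat_lit 407) (nat_lit 5) (nat_lit 408) (nat_lit 5) (nat_lit 594) (nat_lit 561) (nat_lit 405)) (XT.lf (nat_lit 0) (nat_lit 9350036038) (nat_lit 988) (nat_lit 415206926) (nat_lit 76) (nat_lit 3602896014) (nat_lit 395) (nat_lit 5) (nat_lit 408) (nat_lit 5) (nat_lit 396) (nat_lit 5) (nat_lit 595) (nat_lit 561) (nat_lit 404)))) (XT.nd (nat_lit 156) (nat_lit 836) (nat_lit 0) (XT.nd (nat_lit 78) (nat_lit 836) (nat_lit 0) (XT.lf (nat_lit 0) (nat_lit 7084273481) (nat_lit 836) (nat_lit 4180995403) (nat_lit 912) (nat_lit 2244032883) (nat_lit 384) (nat_lit 5) (nat_lit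 395) (nat_lit 5) (nat_lit 396) (nat_lit 5) (nat_lit 596) (nat_lit 561) (nat_lit 403)) (XT.lf (nat_lit 0) (nat_lit 1079356091) (nat_lit 836) (nat_lit 12148040325) (nat_lit 912) (nat_lit 425721191) (nat_lit 373) (nat_lit 5) (nat_lit 384) (nat_lit 5) (nat_lit 385) (nat_lit 5) (nat_lit 597) (nat_lit 561) (nat_lit 402))) (XT.nd (nat_lit 78) (nat_lit 760) (nat_lit 0) (XT.lf (nat_lit 0) (nat_lit 1470318241) (nat_lit 912) (nat_lit 5026438023) (nat_lit 76) (nat_lit 7301667429) (nat_lit 372) (nat_lit 5) (nat_lit 384) (nat_lit 5) (nat_lit 373) (nat_lit 5) (nat_lit 598) (nat_lit 561) (nat_lit 401)) (XT.nd (nat_lit 78) (nat_lit 0) (nat_lit 0) (XT.lf (nat_lit 0) (nat_lit 2693396091) (nat_lit 760) (nat_lit 711903005) (nat_lit 836) (nat_lit 10541147605) (nat_lit 362) (nat_lit 5) (nat_lit 372) (nat_lit 5) (nat_lit 373) (nat_lit 5) (nat_lit 599) (nat_lit 561) (nat_lit 400)) (XT.lf (nat_lit 0) (nat_lit 5435988626) (nat_lit 836) (nat_lit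 3505986952) (nat_lit 76) (nat_lit 5154315884) (nat_lit 362) (nat_lit 5) (nat_lit 373) (nat_lit 5) (nat_lit 363) (nat_lit 5) (nat_lit 600) (nat_lit 561) (nat_lit 399)))))) (XT.nd (nat_lit 390) (nat_lit 2128) (nat_lit 0) (XT.nd (nat_lit 156) (nat_lit 1596) (nat_lit 0) (XT.nd (nat_lit 78) (nat_lit 0) (nat_lit 0) (XT.lf (nat_lit 0) (nat_lit 4438652958) (nat_lit 836) (nat_lit 3091748230) (nat_lit 912) (nat_lit 6718271191) (nat_lit 351) (nat_lit 5) (nat_lit 362) (nat_lit 5) (nat_lit 363) (nat_lit 5) (nat_lit 601) (nat_lit 561) (nat_lit 398)) (XT.lf (nat_lit 0) (nat_lit 9698761403) (nat_lit 912) (nat_lit 1843742117) (nat_lit 76) (nat_lit 2860957621) (nat_lit 351) (nat_lit 5) (nat_lit 363) (nat_lit 5) (nat_lit 352) (nat_lit 5) (nat_lit 602) (nat_lit 561) (nat_lit 397))) (XT.nd (nat_lit 78) (nat_lit 836) (nat_lit 0) (XT.lf (nat_lit 0) (nat_lit 6333671811) (nat_lit 760) (nat_lit 5628323414) (nat_lit 836) (nat_lit 2598321716)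 (nat_lit 341) (nat_lit 5) (nat_lit 351) (nat_lit 5) (nat_lit 352) (nat_lit 5) (nat_lit 603) (nat_lit 561) (nat_lit 396)) (XT.nd (nat_lit 78) (nat_lit 836) (nat_lit 0) (XT.lf (nat_lit 0) (nat_lit 14275604415) (nat_lit 836) (nat_lit 34047712) (nat_lit 76) (nat_lit 410556875) (nat_lit 341) (nat_lit 5) (nat_lit 352) (nat_lit 5) (nat_lit 342) (nat_lit 5) (nat_lit 604) (nat_lit 561) (nat_lit 395)) (XT.lf (nat_lit 0) (nat_lit 1811686473) (nat_lit 836) (nat_lit 6509181584) (nat_lit 76) (nat_lit 6560555034) (nat_lit 330) (nat_lit 5) (nat_lit 341) (nat_lit 5) (nat_lit 331) (nat_lit 5) (nat_lit 605) (nat_lit 561) (nat_lit 394))))) (XT.nd (nat_lit 156) (nat_lit 1444) (nat_lit 0) (XT.nd (nat_lit 78) (nat_lit 0) (nat_lit 0) (XT.lf (nat_lit 0) (nat_lit 1912647897) (nat_lit 684) (nat_lit 2197441165) (nat_lit 760) (nat_lit 10935656127) (nat_lit 321) (nat_lit 5) (nat_lit 330) (nat_lit 5) (nat_lit 331) (nat_lit 5) (nat_lit 606) (nat_lit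 561) (nat_lit 393)) (XT.lf (nat_lit 0) (nat_lit 6515113559) (nat_lit 760) (nat_lit 4658774399) (nat_lit 76) (nat_lit 4038253951) (nat_lit 321) (nat_lit 5) (nat_lit 331) (nat_lit 5) (nat_lit 322) (nat_lit 5) (nat_lit 607) (nat_lit 561) (nat_lit 392))) (XT.nd (nat_lit 78) (nat_lit 684) (nat_lit 0) (XT.lf (nat_lit 0) (nat_lit 4012452092) (nat_lit 760) (nat_lit 4986978093) (nat_lit 836) (nat_lit 6381813778) (nat_lit 311) (nat_lit 5) (nat_lit 321) (nat_lit 5) (nat_lit 322) (nat_lit 5) (nat_lit 608) (nat_lit 561) (nat_lit 391)) (XT.nd (nat_lit 78) (nat_lit 684) (nat_lit 0) (XT.lf (nat_lit 0) (nat_lit 11564192181) (nat_lit 836) (nat_lit 2652412946) (nat_lit 76) (nat_lit 1336508960) (nat_lit 311) (nat_lit 5) (nat_lit 322) (nat_lit 5) (nat_lit 312) (nat_lit 5) (nat_lit 609) (nat_lit 561) (nat_lit 390)) (XT.lf (nat_lit 0) (nat_lit 6277039769) (nat_lit 684) (nat_lit 7967868175) (nat_lit 760) (nat_lit 1482221684) (nat_lit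 302) (nat_lit 5) (nat_lit 311) (nat_lit 5) (nat_lit 312) (nat_lit 5) (nat_lit 610) (nat_lit 561) (nat_lit 389))))))) (XT.nd (nat_lit 702) (nat_lit 3420) (nat_lit 0) (XT.nd (nat_lit 312) (nat_lit 1976) (nat_lit 0) (XT.nd (nat_lit 156) (nat_lit 608) (nat_lit 0) (XT.nd (nat_lit 78) (nat_lit 684) (nat_lit 0) (XT.lf (nat_lit 0) (nat_lit 1069363231) (nat_lit 760) (nat_lit 500933012) (nat_lit 76) (nat_lit 14334013946) (nat_lit 301) (nat_lit 5) (nat_lit 311) (nat_lit 5) (nat_lit 302) (nat_lit 5) (nat_lit 611) (nat_lit 561) (nat_lit 388)) (XT.lf (nat_lit 0) (nat_lit 3732484648) (nat_lit 760) (nat_lit 7395110377) (nat_lit 76) (nat_lit 4955637467) (nat_lit 292) (nat_lit 5) (nat_lit 302) (nat_lit 5) (nat_lit 293) (nat_lit 5) (nat_lit 612) (nat_lit 561) (nat_lit 387))) (XT.nd (nat_lit 78) (nat_lit 0) (nat_lit 0) (XT.lf (nat_lit 0) (nat_lit 1804837049) (nat_lit 608) (nat_lit 4660735446) (nat_lit 684) (nat_lit 9799827763) (nat_lit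 284) (nat_lit 5) (nat_lit 292) (nat_lit 5) (nat_lit 293) (nat_lit 5) (nat_lit 613) (nat_lit 561) (nat_lit 386)) (XT.lf (nat_lit 0) (nat_lit 9307138379) (nat_lit 684) (nat_lit 5184677104) (nat_lit 76) (nat_lit 1958320644) (nat_lit 284) (nat_lit 5) (nat_lit 293) (nat_lit 5) (nat_lit 285) (nat_lit 5) (nat_lit 614) (nat_lit 561) (nat_lit 385)))) (XT.nd (nat_lit 156) (nat_lit 1292) (nat_lit 0) (XT.nd (nat_lit 78) (nat_lit 0) (nat_lit 0) (XT.lf (nat_lit 0) (nat_lit 4291766473) (nat_lit 684) (nat_lit 7963966816) (nat_lit 760) (nat_lit 4381830521) (nat_lit 275) (nat_lit 5) (nat_lit 284) (nat_lit 5) (nat_lit 285) (nat_lit 5) (nat_lit 615) (nat_lit 561) (nat_lit 384)) (XT.lf (nat_lit 0) (nat_lit 14017705142) (nat_lit 684) (nat_lit 1271954138) (nat_lit 760) (nat_lit 1538554616) (nat_lit 275) (nat_lit 5) (nat_lit 284) (nat_lit 5) (nat_lit 285) (nat_lit 5) (nat_lit 616) (nat_lit 561) (nat_lit 383))) (XT.nd (nat_lit 78) (nat_lit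 608) (nat_lit 0) (XT.lf (nat_lit 0) (nat_lit 1417183698) (nat_lit 684) (nat_lit 10070094204) (nat_lit 76) (nat_lit 5533754180) (nat_lit 266) (nat_lit 5) (nat_lit 275) (nat_lit 5) (nat_lit 267) (nat_lit 5) (nat_lit 617) (nat_lit 561) (nat_lit 382)) (XT.nd (nat_lit 78) (nat_lit 608) (nat_lit 0) (XT.lf (nat_lit 0) (nat_lit 4430624824) (nat_lit 684) (nat_lit 300664867) (nat_lit 76) (nat_lit 12485830730) (nat_lit 266) (nat_lit 5) (nat_lit 275) (nat_lit 5) (nat_lit 267) (nat_lit 5) (nat_lit 618) (nat_lit 561) (nat_lit 381)) (XT.lf (nat_lit 0) (nat_lit 7574201791) (nat_lit 684) (nat_lit 7648109304) (nat_lit 76) (nat_lit 2193423044) (nat_lit 258) (nat_lit 5) (nat_lit 267) (nat_lit 5) (nat_lit 259) (nat_lit 5) (nat_lit 619) (nat_lit 561) (nat_lit 380)))))) (XT.nd (nat_lit 390) (nat_lit 1672) (nat_lit 0) (XT.nd (nat_lit 156) (nat_lit 1216) (nat_lit 0) (XT.nd (nat_lit 78) (nat_lit 0) (nat_lit 0) (XT.lf (nat_lit 0) (nat_lit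 2413192019) (nat_lit 532) (nat_lit 8408493319) (nat_lit 608) (nat_lit 6795815028) (nat_lit 251) (nat_lit 5) (nat_lit 258) (nat_lit 5) (nat_lit 259) (nat_lit 5) (nat_lit 620) (nat_lit 561) (nat_lit 379)) (XT.lf (nat_lit 0) (nat_lit 12769271361) (nat_lit 532) (nat_lit 1408264106) (nat_lit 608) (nat_lit 3644899028) (nat_lit 251) (nat_lit 5) (nat_lit 258) (nat_lit 5) (nat_lit 259) (nat_lit 5) (nat_lit 621) (nat_lit 561) (nat_lit 378))) (XT.nd (nat_lit 78) (nat_lit 608) (nat_lit 0) (XT.lf (nat_lit 0) (nat_lit 5323544949) (nat_lit 608) (nat_lit 12340972379) (nat_lit 684) (nat_lit 365670584) (nat_lit 243) (nat_lit 5) (nat_lit 251) (nat_lit 5) (nat_lit 252) (nat_lit 5) (nat_lit 622) (nat_lit 561) (nat_lit 377)) (XT.nd (nat_lit 78) (nat_lit 532) (nat_lit 0) (XT.lf (nat_lit 0) (nat_lit 2975801268) (nat_lit 684) (nat_lit 2304128350) (nat_lit 76) (nat_lit 12961066173) (nat_lit 242) (nat_lit 5) (nat_lit 251) (nat_lit 5) (nat_lit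 243) (nat_lit 5) (nat_lit 623) (nat_lit 561) (nat_lit 376)) (XT.lf (nat_lit 0) (nat_lit 6439042891) (nat_lit 608) (nat_lit 10063539416) (nat_lit 76) (nat_lit 1952193292) (nat_lit 235) (nat_lit 5) (nat_lit 243) (nat_lit 5) (nat_lit 236) (nat_lit 5) (nat_lit 624) (nat_lit 561) (nat_lit 375))))) (XT.nd (nat_lit 156) (nat_lit 1140) (nat_lit 0) (XT.nd (nat_lit 78) (nat_lit 0) (nat_lit 0) (XT.lf (nat_lit 0) (nat_lit 622339414) (nat_lit 532) (nat_lit 9396272976) (nat_lit 608) (nat_lit 8653278183) (nat_lit 228) (nat_lit 5) (nat_lit 235) (nat_lit 5) (nat_lit 236) (nat_lit 5) (nat_lit 625) (nat_lit 561) (nat_lit 374)) (XT.lf (nat_lit 0) (nat_lit 11648442191) (nat_lit 532) (nat_lit 2081437302) (nat_lit 608) (nat_lit 5162267042) (nat_lit 228) (nat_lit 5) (nat_lit 235) (nat_lit 5) (nat_lit 236) (nat_lit 5) (nat_lit 626) (nat_lit 561) (nat_lit 373))) (XT.nd (nat_lit 78) (nat_lit 608) (nat_lit 0) (XT.lf (nat_lit 0) (nat_lit 3783103048)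 (nat_lit 532) (nat_lit 13784464217) (nat_lit 608) (nat_lit 1548197243) (nat_lit 221) (nat_lit 5) (nat_lit 228) (nat_lit 5) (nat_lit 229) (nat_lit 5) (nat_lit 627) (nat_lit 561) (nat_lit 372)) (XT.nd (nat_lit 78) (nat_lit 532) (nat_lit 0) (XT.lf (nat_lit 0) (nat_lit 2165562377) (nat_lit 608) (nat_lit 4252110765) (nat_lit 76) (nat_lit 12924795805) (nat_lit 220) (nat_lit 5) (nat_lit 228) (nat_lit 5) (nat_lit 221) (nat_lit 5) (nat_lit 628) (nat_lit 561) (nat_lit 371)) (XT.lf (nat_lit 0) (nat_lit 5979491249) (nat_lit 608) (nat_lit 12456655336) (nat_lit 76) (nat_lit 1136424480) (nat_lit 213) (nat_lit 5) (nat_lit 221) (nat_lit 5) (nat_lit 214) (nat_lit 5) (nat_lit 629) (nat_lit 561) (nat_lit 370))))))))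
noncomputable def xc172 : XT := (XT.nd (nat_lit 76206) (nat_lit 0) (nat_lit 24168) (XT.nd (nat_lit 702) (nat_lit 1748) (nat_lit 0) (XT.nd (nat_lit 312) (nat_lit 1444) (nat_lit 0) (XT.nd (nat_lit 156) (nat_lit 608) (nat_lit 0) (XT.nd (nat_lit 78) (nat_lit 456) (nat_lit 0) (XT.lf (nat_lit 0) (nat_lit 9933861005) (nat_lit 608) (nat_lit 1090197425) (nat_lit 76) (nat_lit 8781934288) (nat_lit 213) (nat_lit 5) (nat_lit 221) (nat_lit 5) (nat_lit 214) (nat_lit 5) (nat_lit 630) (nat_lit 561) (nat_lit 369)) (XT.lf (nat_lit 0) (nat_lit 10633496927) (nat_lit 456) (nat_lit 3395937699) (nat_lit 532) (nat_lit 6013406569) (nat_lit 207) (nat_lit 5) (nat_lit 213) (nat_lit 5) (nat_lit 214) (nat_lit 5) (nat_lit 631) (nat_lit 561) (nat_lit 368))) (XT.nd (nat_lit 78) (nat_lit 76) (nat_lit 0) (XT.lf (nat_lit 0) (nat_lit 2314388615) (nat_lit 532) (nat_lit 15936524319) (nat_lit 608) (nat_lit 2032634553) (nat_lit 200) (nat_lit 5) (nat_lit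 207) (nat_lit 5) (nat_lit 208) (nat_lit 5) (nat_lit 632) (nat_lit 561) (nat_lit 367)) (XT.lf (nat_lit 0) (nat_lit 2080368732) (nat_lit 608) (nat_lit 6173375082) (nat_lit 76) (nat_lit 12273477258) (nat_lit 199) (nat_lit 5) (nat_lit 207) (nat_lit 5) (nat_lit 200) (nat_lit 5) (nat_lit 633) (nat_lit 561) (nat_lit 366)))) (XT.nd (nat_lit 156) (nat_lit 988) (nat_lit 0) (XT.nd (nat_lit 78) (nat_lit 0) (nat_lit 0) (XT.lf (nat_lit 0) (nat_lit 5912962819) (nat_lit 456) (nat_lit 367163422) (nat_lit 532) (nat_lit 14494739618) (nat_lit 193) (nat_lit 5) (nat_lit 199) (nat_lit 5) (nat_lit 200) (nat_lit 5) (nat_lit 634) (nat_lit 561) (nat_lit 365)) (XT.lf (nat_lit 0) (nat_lit 10648772449) (nat_lit 532) (nat_lit 2761548577) (nat_lit 76) (nat_lit 7615445299) (nat_lit 193) (nat_lit 5) (nat_lit 200) (nat_lit 5) (nat_lit 194) (nat_lit 5) (nat_lit 635) (nat_lit 561) (nat_lit 364))) (XT.nd (nat_lit 78) (nat_lit 532) (nat_lit 0) (XT.lf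 (nat_lit 0) (nat_lit 9696232319) (nat_lit 456) (nat_lit 5467423083) (nat_lit 532) (nat_lit 6116852763) (nat_lit 187) (nat_lit 5) (nat_lit 193) (nat_lit 5) (nat_lit 194) (nat_lit 5) (nat_lit 636) (nat_lit 561) (nat_lit 363)) (XT.nd (nat_lit 78) (nat_lit 76) (nat_lit 0) (XT.lf (nat_lit 0) (nat_lit 885649861) (nat_lit 456) (nat_lit 18918221892) (nat_lit 532) (nat_lit 1735773004) (nat_lit 181) (nat_lit 5) (nat_lit 187) (nat_lit 5) (nat_lit 188) (nat_lit 5) (nat_lit 637) (nat_lit 561) (nat_lit 362)) (XT.lf (nat_lit 0) (nat_lit 2805095971) (nat_lit 532) (nat_lit 8104266108) (nat_lit 76) (nat_lit 10892087515) (nat_lit 180) (nat_lit 5) (nat_lit 187) (nat_lit 5) (nat_lit 181) (nat_lit 5) (nat_lit 638) (nat_lit 561) (nat_lit 361)))))) (XT.nd (nat_lit 390) (nat_lit 380) (nat_lit 0) (XT.nd (nat_lit 156) (nat_lit 912) (nat_lit 0) (XT.nd (nat_lit 78) (nat_lit 0) (nat_lit 0) (XT.lf (nat_lit 0) (nat_lit 4737892683) (nat_lit 456)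 (nat_lit 2700108331) (nat_lit 532) (nat_lit 14629771426) (nat_lit 174) (nat_lit 5) (nat_lit 180) (nat_lit 5) (nat_lit 181) (nat_lit 5) (nat_lit 639) (nat_lit 561) (nat_lit 360)) (XT.lf (nat_lit 0) (nat_lit 12248866476) (nat_lit 532) (nat_lit 4438033244) (nat_lit 76) (nat_lit 5650816556) (nat_lit 174) (nat_lit 5) (nat_lit 181) (nat_lit 5) (nat_lit 175) (nat_lit 5) (nat_lit 640) (nat_lit 561) (nat_lit 359))) (XT.nd (nat_lit 78) (nat_lit 532) (nat_lit 0) (XT.lf (nat_lit 0) (nat_lit 8800111072) (nat_lit 380) (nat_lit 8424702163) (nat_lit 456) (nat_lit 5386869044) (nat_lit 169) (nat_lit 5) (nat_lit 174) (nat_lit 5) (nat_lit 175) (nat_lit 5) (nat_lit 641) (nat_lit 561) (nat_lit 358)) (XT.nd (nat_lit 78) (nat_lit 532) (nat_lit 0) (XT.lf (nat_lit 0) (nat_lit 22324164977) (nat_lit 456) (nat_lit 536686390) (nat_lit 76) (nat_lit 29799073) (nat_lit 169) (nat_lit 5) (nat_lit 175) (nat_lit 5) (nat_lit 170) (nat_lit 5) (nat_lit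 642) (nat_lit 561) (nat_lit 357)) (XT.lf (nat_lit 0) (nat_lit 4429070570) (nat_lit 532) (nat_lit 10090720794) (nat_lit 76) (nat_lit 8652125839) (nat_lit 162) (nat_lit 5) (nat_lit 169) (nat_lit 5) (nat_lit 163) (nat_lit 5) (nat_lit 643) (nat_lit 561) (nat_lit 356))))) (XT.nd (nat_lit 74880) (nat_lit 0) (nat_lit 27056) (XT.nd (nat_lit 74802) (nat_lit 0) (nat_lit 27056) (XT.lf (nat_lit 0) (nat_lit 3553849780) (nat_lit 380) (nat_lit 5983838361) (nat_lit 456) (nat_lit 13920632084) (nat_lit 157) (nat_lit 5) (nat_lit 162) (nat_lit 5) (nat_lit 163) (nat_lit 5) (nat_lit 644) (nat_lit 561) (nat_lit 355)) (XT.lf (nat_lit 0) (nat_lit 908228132) (nat_lit 0) (nat_lit 908228132) (nat_lit 1596) (nat_lit 3104317830) (nat_lit 513) (nat_lit 5) (nat_lit 513) (nat_lit 3) (nat_lit 534) (nat_lit 3) (nat_lit 562) (nat_lit 562) (nat_lit 436))) (XT.nd (nat_lit 78) (nat_lit 0) (nat_lit 0) (XT.lf (nat_lit 0) (nat_lit 4415765976) (nat_lit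 1596) (nat_lit 3208591726) (nat_lit 1672) (nat_lit 2300553861) (nat_lit 513) (nat_lit 5) (nat_lit 534) (nat_lit 3) (nat_lit 535) (nat_lit 5) (nat_lit 563) (nat_lit 562) (nat_lit 435)) (XT.nd (nat_lit 78) (nat_lit 0) (nat_lit 76) (XT.lf (nat_lit 76) (nat_lit 1704522624) (nat_lit 0) (nat_lit 3513727951) (nat_lit 1672) (nat_lit 4791615339) (nat_lit 514) (nat_lit 5) (nat_lit 513) (nat_lit 5) (nat_lit 535) (nat_lit 5) (nat_lit 564) (nat_lit 562) (nat_lit 434)) (XT.lf (nat_lit 0) (nat_lit 6044113293) (nat_lit 1596) (nat_lit 3351660154) (nat_lit 1672) (nat_lit 700602462) (nat_lit 514) (nat_lit 5) (nat_lit 535) (nat_lit 5) (nat_lit 536) (nat_lit 5) (nat_lit 565) (nat_lit 562) (nat_lit 433))))))) (XT.nd (nat_lit 702) (nat_lit 1444) (nat_lit 0) (XT.nd (nat_lit 312) (nat_lit 1520) (nat_lit 0) (XT.nd (nat_lit 156) (nat_lit 0) (nat_lit 76) (XT.nd (nat_lit 78) (nat_lit 0) (nat_lit 0) (XT.lf (nat_lit 76) (nat_lit 1689780717)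 (nat_lit 0) (nat_lit 5212566422) (nat_lit 1672) (nat_lit 3281954955) (nat_lit 515) (nat_lit 5) (nat_lit 514) (nat_lit 5) (nat_lit 536) (nat_lit 5) (nat_lit 566) (nat_lit 562) (nat_lit 432)) (XT.lf (nat_lit 76) (nat_lit 6867342216) (nat_lit 0) (nat_lit 914802515) (nat_lit 1672) (nat_lit 2491757096) (nat_lit 515) (nat_lit 5) (nat_lit 514) (nat_lit 5) (nat_lit 536) (nat_lit 5) (nat_lit 567) (nat_lit 562) (nat_lit 431))) (XT.nd (nat_lit 78) (nat_lit 0) (nat_lit 0) (XT.lf (nat_lit 76) (nat_lit 1773548994) (nat_lit 0) (nat_lit 6922339875) (nat_lit 1672) (nat_lit 1669080622) (nat_lit 516) (nat_lit 5) (nat_lit 515) (nat_lit 5) (nat_lit 537) (nat_lit 5) (nat_lit 568) (nat_lit 562) (nat_lit 430)) (XT.lf (nat_lit 76) (nat_lit 7087015575) (nat_lit 0) (nat_lit 2552363636) (nat_lit 1672) (nat_lit 818252760) (nat_lit 516) (nat_lit 5) (nat_lit 515) (nat_lit 5) (nat_lit 537) (nat_lit 5) (nat_lit 569) (nat_lit 562) (nat_lit 429))))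 (XT.nd (nat_lit 156) (nat_lit 0) (nat_lit 76) (XT.nd (nat_lit 78) (nat_lit 0) (nat_lit 0) (XT.lf (nat_lit 0) (nat_lit 57049139) (nat_lit 1672) (nat_lit 8594927476) (nat_lit 1748) (nat_lit 1900005265) (nat_lit 494) (nat_lit 5) (nat_lit 516) (nat_lit 5) (nat_lit 517) (nat_lit 5) (nat_lit 570) (nat_lit 562) (nat_lit 428)) (XT.lf (nat_lit 0) (nat_lit 961714630) (nat_lit 1672) (nat_lit 3243898050) (nat_lit 1748) (nat_lit 6442044378) (nat_lit 494) (nat_lit 5) (nat_lit 516) (nat_lit 5) (nat_lit 517) (nat_lit 5) (nat_lit 571) (nat_lit 562) (nat_lit 427))) (XT.nd (nat_lit 78) (nat_lit 0) (nat_lit 0) (XT.lf (nat_lit 0) (nat_lit 1884710877) (nat_lit 1672) (nat_lit 8514546704) (nat_lit 1748) (nat_lit 345986079) (nat_lit 495) (nat_lit 5) (nat_lit 517) (nat_lit 5) (nat_lit 518) (nat_lit 5) (nat_lit 572) (nat_lit 562) (nat_lit 426)) (XT.nd (nat_lit 78) (nat_lit 0) (nat_lit 0) (XT.lf (nat_lit 0) (nat_lit 2859689737) (nat_lit 1672)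 (nat_lit 3024304633) (nat_lit 1748) (nat_lit 4960119787) (nat_lit 495) (nat_lit 5) (nat_lit 517) (nat_lit 5) (nat_lit 518) (nat_lit 5) (nat_lit 573) (nat_lit 562) (nat_lit 425)) (XT.lf (nat_lit 76) (nat_lit 2599325190) (nat_lit 0) (nat_lit 1255796513) (nat_lit 1748) (nat_lit 7089823856) (nat_lit 496) (nat_lit 5) (nat_lit 495) (nat_lit 5) (nat_lit 518) (nat_lit 5) (nat_lit 574) (nat_lit 562) (nat_lit 424)))))) (XT.nd (nat_lit 390) (nat_lit 1596) (nat_lit 0) (XT.nd (nat_lit 156) (nat_lit 0) (nat_lit 76) (XT.nd (nat_lit 78) (nat_lit 0) (nat_lit 0) (XT.lf (nat_lit 0) (nat_lit 4897743689) (nat_lit 1672) (nat_lit 2704384780) (nat_lit 1748) (nat_lit 3445122009) (nat_lit 496) (nat_lit 5) (nat_lit 518) (nat_lit 5) (nat_lit 519) (nat_lit 5) (nat_lit 575) (nat_lit 562) (nat_lit 423)) (XT.lf (nat_lit 76) (nat_lit 3071059341) (nat_lit 0) (nat_lit 2903076865) (nat_lit 1748) (nat_lit 5177209392) (nat_lit 497) (nat_lit 5) (nat_lit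 496) (nat_lit 5) (nat_lit 519) (nat_lit 5) (nat_lit 576) (nat_lit 562) (nat_lit 422))) (XT.nd (nat_lit 78) (nat_lit 0) (nat_lit 0) (XT.lf (nat_lit 0) (nat_lit 7087520027) (nat_lit 1672) (nat_lit 2281721633) (nat_lit 1748) (nat_lit 1887974111) (nat_lit 497) (nat_lit 5) (nat_lit 519) (nat_lit 5) (nat_lit 520) (nat_lit 5) (nat_lit 577) (nat_lit 562) (nat_lit 421)) (XT.nd (nat_lit 78) (nat_lit 0) (nat_lit 76) (XT.lf (nat_lit 76) (nat_lit 3650840699) (nat_lit 0) (nat_lit 4600480350) (nat_lit 1748) (nat_lit 3113321678) (nat_lit 498) (nat_lit 5) (nat_lit 497) (nat_lit 5) (nat_lit 520) (nat_lit 5) (nat_lit 578) (nat_lit 562) (nat_lit 420)) (XT.lf (nat_lit 0) (nat_lit 9440990255) (nat_lit 1672) (nat_lit 1753620481) (nat_lit 1748) (nat_lit 279557965) (nat_lit 498) (nat_lit 5) (nat_lit 520) (nat_lit 5) (nat_lit 521) (nat_lit 5) (nat_lit 579) (nat_lit 562) (nat_lit 419))))) (XT.nd (nat_lit 156) (nat_lit 0) (nat_lit 76) (XT.nd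 (nat_lit 78) (nat_lit 1748) (nat_lit 0) (XT.lf (nat_lit 76) (nat_lit 4341572885) (nat_lit 0) (nat_lit 6357287420) (nat_lit 1748) (nat_lit 886139019) (nat_lit 499) (nat_lit 5) (nat_lit 498) (nat_lit 5) (nat_lit 521) (nat_lit 5) (nat_lit 580) (nat_lit 562) (nat_lit 418)) (XT.lf (nat_lit 0) (nat_lit 277831957) (nat_lit 1748) (nat_lit 1128076512) (nat_lit 1824) (nat_lit 10292149157) (nat_lit 475) (nat_lit 5) (nat_lit 498) (nat_lit 5) (nat_lit 499) (nat_lit 5) (nat_lit 581) (nat_lit 562) (nat_lit 417))) (XT.nd (nat_lit 78) (nat_lit 0) (nat_lit 0) (XT.lf (nat_lit 0) (nat_lit 1496824945) (nat_lit 1748) (nat_lit 6675990243) (nat_lit 1824) (nat_lit 3639574744) (nat_lit 476) (nat_lit 5) (nat_lit 499) (nat_lit 5) (nat_lit 500) (nat_lit 5) (nat_lit 582) (nat_lit 562) (nat_lit 416)) (XT.nd (nat_lit 78) (nat_lit 0) (nat_lit 76) (XT.lf (nat_lit 0) (nat_lit 2743497312) (nat_lit 1748) (nat_lit 407561403) (nat_lit 1824) (nat_lit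 8777886283) (nat_lit 476) (nat_lit 5) (nat_lit 499) (nat_lit 5) (nat_lit 500) (nat_lit 5) (nat_lit 583) (nat_lit 562) (nat_lit 415)) (XT.lf (nat_lit 0) (nat_lit 4054128904) (nat_lit 1748) (nat_lit 6005329453) (nat_lit 1824) (nat_lit 1987594357) (nat_lit 477) (nat_lit 5) (nat_lit 500) (nat_lit 5) (nat_lit 501) (nat_lit 5) (nat_lit 584) (nat_lit 562) (nat_lit 414))))))))
noncomputable def xc173 : XT := (XT.nd (nat_lit 1482) (nat_lit 7600) (nat_lit 0) (XT.nd (nat_lit 702) (nat_lit 4256) (nat_lit 0) (XT.nd (nat_lit 312) (nat_lit 3648) (nat_lit 0) (XT.nd (nat_lit 156) (nat_lit 1672) (nat_lit 0) (XT.nd (nat_lit 78) (nat_lit 0) (nat_lit 76) (XT.lf (nat_lit 76) (nat_lit 432029281) (nat_lit 0) (nat_lit 4972216859) (nat_lit 1824) (nat_lit 6763013007) (nat_lit 478) (nat_lit 5) (nat_lit 477) (nat_lit 5) (nat_lit 501) (nat_lit 5) (nat_lit 585) (nat_lit 562) (nat_lit 413)) (XT.lf (nat_lit 0) (nat_lit 6810388667) (nat_lit 1748)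 (nat_lit 5222204885) (nat_lit 76) (nat_lit 256697681) (nat_lit 478) (nat_lit 5) (nat_lit 501) (nat_lit 5) (nat_lit 479) (nat_lit 5) (nat_lit 586) (nat_lit 562) (nat_lit 412))) (XT.nd (nat_lit 78) (nat_lit 0) (nat_lit 0) (XT.lf (nat_lit 0) (nat_lit 1395666350) (nat_lit 1748) (nat_lit 6878281535) (nat_lit 1824) (nat_lit 4139232144) (nat_lit 455) (nat_lit 5) (nat_lit 478) (nat_lit 5) (nat_lit 479) (nat_lit 5) (nat_lit 587) (nat_lit 562) (nat_lit 411)) (XT.lf (nat_lit 0) (nat_lit 8205964286) (nat_lit 1748) (nat_lit 1583340757) (nat_lit 1824) (nat_lit 2749792928) (nat_lit 455) (nat_lit 5) (nat_lit 478) (nat_lit 5) (nat_lit 479) (nat_lit 5) (nat_lit 588) (nat_lit 562) (nat_lit 410)))) (XT.nd (nat_lit 156) (nat_lit 1900) (nat_lit 0) (XT.nd (nat_lit 78) (nat_lit 76) (nat_lit 0) (XT.lf (nat_lit 0) (nat_lit 2481931498) (nat_lit 1672) (nat_lit 8881677814) (nat_lit 1748) (nat_lit 1303354029) (nat_lit 433) (nat_lit 5) (nat_lit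 455) (nat_lit 5) (nat_lit 456) (nat_lit 5) (nat_lit 589) (nat_lit 562) (nat_lit 409)) (XT.lf (nat_lit 0) (nat_lit 197342494) (nat_lit 1748) (nat_lit 3327425163) (nat_lit 76) (nat_lit 9272046127) (nat_lit 432) (nat_lit 5) (nat_lit 455) (nat_lit 5) (nat_lit 433) (nat_lit 5) (nat_lit 590) (nat_lit 562) (nat_lit 408))) (XT.nd (nat_lit 78) (nat_lit 912) (nat_lit 0) (XT.lf (nat_lit 0) (nat_lit 1735500866) (nat_lit 1064) (nat_lit 9245129064) (nat_lit 76) (nat_lit 1947962765) (nat_lit 419) (nat_lit 5) (nat_lit 433) (nat_lit 5) (nat_lit 420) (nat_lit 5) (nat_lit 591) (nat_lit 562) (nat_lit 407)) (XT.nd (nat_lit 78) (nat_lit 912) (nat_lit 0) (XT.lf (nat_lit 0) (nat_lit 3338482514) (nat_lit 1064) (nat_lit 2217199138) (nat_lit 76) (nat_lit 7506646058) (nat_lit 419) (nat_lit 5) (nat_lit 433) (nat_lit 5) (nat_lit 420) (nat_lit 5) (nat_lit 592) (nat_lit 562) (nat_lit 406)) (XT.lf (nat_lit 0) (nat_lit 4994576335) (nat_lit 988)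 (nat_lit 8192058009) (nat_lit 76) (nat_lit 11683723) (nat_lit 407) (nat_lit 5) (nat_lit 420) (nat_lit 5) (nat_lit 408) (nat_lit 5) (nat_lit 593) (nat_lit 562) (nat_lit 405)))))) (XT.nd (nat_lit 390) (nat_lit 1596) (nat_lit 0) (XT.nd (nat_lit 156) (nat_lit 1748) (nat_lit 0) (XT.nd (nat_lit 78) (nat_lit 912) (nat_lit 0) (XT.lf (nat_lit 0) (nat_lit 6724195953) (nat_lit 988) (nat_lit 980153259) (nat_lit 76) (nat_lit 5631872600) (nat_lit 407) (nat_lit 5) (nat_lit 420) (nat_lit 5) (nat_lit 408) (nat_lit 5) (nat_lit 594) (nat_lit 562) (nat_lit 404)) (XT.lf (nat_lit 0) (nat_lit 6450019389) (nat_lit 912) (nat_lit 2069123459) (nat_lit 988) (nat_lit 4957127714) (nat_lit 395) (nat_lit 5) (nat_lit 407) (nat_lit 5) (nat_lit 408) (nat_lit 5) (nat_lit 595) (nat_lit 562) (nat_lit 403))) (XT.nd (nat_lit 78) (nat_lit 912) (nat_lit 0) (XT.lf (nat_lit 0) (nat_lit 393607860) (nat_lit 836) (nat_lit 9978453211) (nat_lit 912) (nat_lit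 3246619361) (nat_lit 384) (nat_lit 5) (nat_lit 395) (nat_lit 5) (nat_lit 396) (nat_lit 5) (nat_lit 596) (nat_lit 562) (nat_lit 402)) (XT.nd (nat_lit 78) (nat_lit 912) (nat_lit 0) (XT.lf (nat_lit 0) (nat_lit 8032573819) (nat_lit 836) (nat_lit 4279383356) (nat_lit 912) (nat_lit 1450984501) (nat_lit 384) (nat_lit 5) (nat_lit 395) (nat_lit 5) (nat_lit 396) (nat_lit 5) (nat_lit 597) (nat_lit 562) (nat_lit 401)) (XT.lf (nat_lit 0) (nat_lit 387434916) (nat_lit 912) (nat_lit 11993618933) (nat_lit 76) (nat_lit 1528749120) (nat_lit 372) (nat_lit 5) (nat_lit 384) (nat_lit 5) (nat_lit 373) (nat_lit 5) (nat_lit 598) (nat_lit 562) (nat_lit 400))))) (XT.nd (nat_lit 156) (nat_lit 836) (nat_lit 0) (XT.nd (nat_lit 78) (nat_lit 760) (nat_lit 0) (XT.lf (nat_lit 0) (nat_lit 2299700541) (nat_lit 912) (nat_lit 4314419266) (nat_lit 76) (nat_lit 7444161205) (nat_lit 372) (nat_lit 5) (nat_lit 384) (nat_lit 5) (nat_lit 373) (nat_lit 5) (nat_lit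 599) (nat_lit 562) (nat_lit 399)) (XT.lf (nat_lit 0) (nat_lit 3554465824) (nat_lit 760) (nat_lit 708470276) (nat_lit 836) (nat_lit 9946539467) (nat_lit 362) (nat_lit 5) (nat_lit 372) (nat_lit 5) (nat_lit 373) (nat_lit 5) (nat_lit 600) (nat_lit 562) (nat_lit 398))) (XT.nd (nat_lit 78) (nat_lit 836) (nat_lit 0) (XT.lf (nat_lit 0) (nat_lit 6318870901) (nat_lit 836) (nat_lit 2769256547) (nat_lit 76) (nat_lit 5274499293) (nat_lit 362) (nat_lit 5) (nat_lit 373) (nat_lit 5) (nat_lit 363) (nat_lit 5) (nat_lit 601) (nat_lit 562) (nat_lit 397)) (XT.nd (nat_lit 78) (nat_lit 0) (nat_lit 0) (XT.lf (nat_lit 0) (nat_lit 5328967937) (nat_lit 836) (nat_lit 3116228262) (nat_lit 912) (nat_lit 6073060690) (nat_lit 351) (nat_lit 5) (nat_lit 362) (nat_lit 5) (nat_lit 363) (nat_lit 5) (nat_lit 602) (nat_lit 562) (nat_lit 396)) (XT.lf (nat_lit 0) (nat_lit 10642177337) (nat_lit 912) (nat_lit 1079942132) (nat_lit 76) (nat_lit 2954318946)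 (nat_lit 351) (nat_lit 5) (nat_lit 363) (nat_lit 5) (nat_lit 352) (nat_lit 5) (nat_lit 603) (nat_lit 562) (nat_lit 395))))))) (XT.nd (nat_lit 702) (nat_lit 3116) (nat_lit 0) (XT.nd (nat_lit 312) (nat_lit 2204) (nat_lit 0) (XT.nd (nat_lit 156) (nat_lit 684) (nat_lit 0) (XT.nd (nat_lit 78) (nat_lit 836) (nat_lit 0) (XT.lf (nat_lit 0) (nat_lit 7255752477) (nat_lit 760) (nat_lit 5685392754) (nat_lit 836) (nat_lit 1895478734) (nat_lit 341) (nat_lit 5) (nat_lit 351) (nat_lit 5) (nat_lit 352) (nat_lit 5) (nat_lit 604) (nat_lit 562) (nat_lit 394)) (XT.lf (nat_lit 0) (nat_lit 288139202) (nat_lit 836) (nat_lit 14232367254) (nat_lit 76) (nat_lit 479354665) (nat_lit 330) (nat_lit 5) (nat_lit 341) (nat_lit 5) (nat_lit 331) (nat_lit 5) (nat_lit 605) (nat_lit 562) (nat_lit 393))) (XT.nd (nat_lit 78) (nat_lit 684) (nat_lit 0) (XT.lf (nat_lit 0) (nat_lit 2569408618) (nat_lit 836) (nat_lit 5840840924) (nat_lit 76) (nat_lit 6754276962)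 (nat_lit 330) (nat_lit 5) (nat_lit 341) (nat_lit 5) (nat_lit 331) (nat_lit 5) (nat_lit 606) (nat_lit 562) (nat_lit 392)) (XT.lf (nat_lit 0) (nat_lit 2744171697) (nat_lit 684) (nat_lit 2160611170) (nat_lit 760) (nat_lit 10427533973) (nat_lit 321) (nat_lit 5) (nat_lit 330) (nat_lit 5) (nat_lit 331) (nat_lit 5) (nat_lit 607) (nat_lit 562) (nat_lit 391)))) (XT.nd (nat_lit 156) (nat_lit 1444) (nat_lit 0) (XT.nd (nat_lit 78) (nat_lit 760) (nat_lit 0) (XT.lf (nat_lit 0) (nat_lit 7344451609) (nat_lit 760) (nat_lit 3960685548) (nat_lit 76) (nat_lit 4197175294) (nat_lit 321) (nat_lit 5) (nat_lit 331) (nat_lit 5) (nat_lit 322) (nat_lit 5) (nat_lit 608) (nat_lit 562) (nat_lit 390)) (XT.lf (nat_lit 0) (nat_lit 4878759786) (nat_lit 760) (nat_lit 4991091811) (nat_lit 836) (nat_lit 5805118804) (nat_lit 311) (nat_lit 5) (nat_lit 321) (nat_lit 5) (nat_lit 322) (nat_lit 5) (nat_lit 609) (nat_lit 562) (nat_lit 389))) (XT.nd (nat_lit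 78) (nat_lit 1444) (nat_lit 0) (XT.lf (nat_lit 0) (nat_lit 12472979628) (nat_lit 836) (nat_lit 1921798238) (nat_lit 76) (nat_lit 1455760407) (nat_lit 311) (nat_lit 5) (nat_lit 322) (nat_lit 5) (nat_lit 312) (nat_lit 5) (nat_lit 610) (nat_lit 562) (nat_lit 388)) (XT.nd (nat_lit 78) (nat_lit 760) (nat_lit 0) (XT.lf (nat_lit 0) (nat_lit 7181087854) (nat_lit 684) (nat_lit 8017992053) (nat_lit 760) (nat_lit 829120539) (nat_lit 302) (nat_lit 5) (nat_lit 311) (nat_lit 5) (nat_lit 312) (nat_lit 5) (nat_lit 611) (nat_lit 562) (nat_lit 387)) (XT.lf (nat_lit 0) (nat_lit 264623050) (nat_lit 684) (nat_lit 1488425208) (nat_lit 760) (nat_lit 14456019232) (nat_lit 292) (nat_lit 5) (nat_lit 301) (nat_lit 5) (nat_lit 302) (nat_lit 5) (nat_lit 612) (nat_lit 562) (nat_lit 386)))))) (XT.nd (nat_lit 390) (nat_lit 1824) (nat_lit 0) (XT.nd (nat_lit 156) (nat_lit 684) (nat_lit 0) (XT.nd (nat_lit 78) (nat_lit 608) (nat_lit 0) (XT.lf (nat_lit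 0) (nat_lit 4460484359) (nat_lit 760) (nat_lit 6763597483) (nat_lit 76) (nat_lit 5167666980) (nat_lit 292) (nat_lit 5) (nat_lit 302) (nat_lit 5) (nat_lit 293) (nat_lit 5) (nat_lit 613) (nat_lit 562) (nat_lit 385)) (XT.lf (nat_lit 0) (nat_lit 2615221161) (nat_lit 608) (nat_lit 4625229204) (nat_lit 684) (nat_lit 9337266844) (nat_lit 284) (nat_lit 5) (nat_lit 292) (nat_lit 5) (nat_lit 293) (nat_lit 5) (nat_lit 614) (nat_lit 562) (nat_lit 384))) (XT.nd (nat_lit 78) (nat_lit 684) (nat_lit 0) (XT.lf (nat_lit 0) (nat_lit 10127008756) (nat_lit 684) (nat_lit 4517348406) (nat_lit 76) (nat_lit 2122028971) (nat_lit 284) (nat_lit 5) (nat_lit 293) (nat_lit 5) (nat_lit 285) (nat_lit 5) (nat_lit 615) (nat_lit 562) (nat_lit 383)) (XT.nd (nat_lit 78) (nat_lit 0) (nat_lit 0) (XT.lf (nat_lit 0) (nat_lit 5143551526) (nat_lit 684) (nat_lit 7983571060) (nat_lit 760) (nat_lit 3830590377) (nat_lit 275) (nat_lit 5) (nat_lit 284) (nat_lit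 5) (nat_lit 285) (nat_lit 5) (nat_lit 616) (nat_lit 562) (nat_lit 382)) (XT.lf (nat_lit 0) (nat_lit 15048990347) (nat_lit 684) (nat_lit 1160456856) (nat_lit 760) (nat_lit 942975948) (nat_lit 275) (nat_lit 5) (nat_lit 284) (nat_lit 5) (nat_lit 285) (nat_lit 5) (nat_lit 617) (nat_lit 562) (nat_lit 381))))) (XT.nd (nat_lit 156) (nat_lit 532) (nat_lit 0) (XT.nd (nat_lit 78) (nat_lit 608) (nat_lit 0) (XT.lf (nat_lit 0) (nat_lit 2057369555) (nat_lit 684) (nat_lit 9505911543) (nat_lit 76) (nat_lit 5785862570) (nat_lit 266) (nat_lit 5) (nat_lit 275) (nat_lit 5) (nat_lit 267) (nat_lit 5) (nat_lit 618) (nat_lit 562) (nat_lit 380)) (XT.lf (nat_lit 0) (nat_lit 449794048) (nat_lit 608) (nat_lit 4672208911) (nat_lit 684) (nat_lit 12427333763) (nat_lit 258) (nat_lit 5) (nat_lit 266) (nat_lit 5) (nat_lit 267) (nat_lit 5) (nat_lit 619) (nat_lit 562) (nat_lit 379))) (XT.nd (nat_lit 78) (nat_lit 532) (nat_lit 0) (XT.lf (nat_lit 0)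 (nat_lit 8319602086) (nat_lit 684) (nat_lit 7044499984) (nat_lit 76) (nat_lit 2387999021) (nat_lit 258) (nat_lit 5) (nat_lit 267) (nat_lit 5) (nat_lit 259) (nat_lit 5) (nat_lit 620) (nat_lit 562) (nat_lit 378)) (XT.nd (nat_lit 78) (nat_lit 0) (nat_lit 0) (XT.lf (nat_lit 0) (nat_lit 3213049922) (nat_lit 532) (nat_lit 8412219813) (nat_lit 608) (nat_lit 6332769579) (nat_lit 251) (nat_lit 5) (nat_lit 258) (nat_lit 5) (nat_lit 259) (nat_lit 5) (nat_lit 621) (nat_lit 562) (nat_lit 377)) (XT.lf (nat_lit 0) (nat_lit 13761513712) (nat_lit 532) (nat_lit 1275210396) (nat_lit 608) (nat_lit 3130579607) (nat_lit 251) (nat_lit 5) (nat_lit 258) (nat_lit 5) (nat_lit 259) (nat_lit 5) (nat_lit 622) (nat_lit 562) (nat_lit 376))))))))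
noncomputable def xc174 : XT := (XT.nd (nat_lit 1482) (nat_lit 912) (nat_lit 0) (XT.nd (nat_lit 702) (nat_lit 2964) (nat_lit 0) (XT.nd (nat_lit 312) (nat_lit 1140) (nat_lit 0) (XT.nd (nat_lit 156) (nat_lit 1064) (nat_lit 0) (XT.nd (nat_lit 78) (nat_lit 0) (nat_lit 0) (XT.lf (nat_lit 0) (nat_lit 205946199) (nat_lit 684) (nat_lit 12208188757) (nat_lit 76) (nat_lit 5965160257) (nat_lit 242) (nat_lit 5) (nat_lit 251) (nat_lit 5) (nat_lit 243) (nat_lit 5) (nat_lit 623) (nat_lit 562) (nat_lit 375)) (XT.lf (nat_lit 0) (nat_lit 3598100081) (nat_lit 684) (nat_lit 1614754637) (nat_lit 76) (nat_lit 13381642469) (nat_lit 242) (nat_lit 5) (nat_lit 251) (nat_lit 5) (nat_lit 243) (nat_lit 5) (nat_lit 624) (nat_lit 562) (nat_lit 374))) (XT.nd (nat_lit 78) (nat_lit 532) (nat_lit 0) (XT.lf (nat_lit 0) (nat_lit 7125445779) (nat_lit 608) (nat_lit 9524131534) (nat_lit 76) (nat_lit 2163079726) (nat_lit 235) (nat_lit 5) (nat_lit 243)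 (nat_lit 5) (nat_lit 236) (nat_lit 5) (nat_lit 625) (nat_lit 562) (nat_lit 373)) (XT.lf (nat_lit 0) (nat_lit 1370591986) (nat_lit 532) (nat_lit 9399858255) (nat_lit 608) (nat_lit 8263788408) (nat_lit 228) (nat_lit 5) (nat_lit 235) (nat_lit 5) (nat_lit 236) (nat_lit 5) (nat_lit 626) (nat_lit 562) (nat_lit 372)))) (XT.nd (nat_lit 156) (nat_lit 608) (nat_lit 0) (XT.nd (nat_lit 78) (nat_lit 532) (nat_lit 0) (XT.lf (nat_lit 0) (nat_lit 12602789254) (nat_lit 532) (nat_lit 1942340381) (nat_lit 608) (nat_lit 4713987542) (nat_lit 228) (nat_lit 5) (nat_lit 235) (nat_lit 5) (nat_lit 236) (nat_lit 5) (nat_lit 627) (nat_lit 562) (nat_lit 371)) (XT.lf (nat_lit 0) (nat_lit 4585032509) (nat_lit 532) (nat_lit 13869803417) (nat_lit 608) (nat_lit 1032467450) (nat_lit 221) (nat_lit 5) (nat_lit 228) (nat_lit 5) (nat_lit 229) (nat_lit 5) (nat_lit 628) (nat_lit 562) (nat_lit 370))) (XT.nd (nat_lit 78) (nat_lit 532) (nat_lit 0) (XT.lf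 (nat_lit 0) (nat_lit 2737818479) (nat_lit 608) (nat_lit 3618040898) (nat_lit 76) (nat_lit 13362824231) (nat_lit 220) (nat_lit 5) (nat_lit 228) (nat_lit 5) (nat_lit 221) (nat_lit 5) (nat_lit 629) (nat_lit 562) (nat_lit 369)) (XT.nd (nat_lit 78) (nat_lit 0) (nat_lit 0) (XT.lf (nat_lit 0) (nat_lit 6623533895) (nat_lit 608) (nat_lit 11982129601) (nat_lit 76) (nat_lit 1347815207) (nat_lit 213) (nat_lit 5) (nat_lit 221) (nat_lit 5) (nat_lit 214) (nat_lit 5) (nat_lit 630) (nat_lit 562) (nat_lit 368)) (XT.lf (nat_lit 0) (nat_lit 10646707657) (nat_lit 608) (nat_lit 402531921) (nat_lit 76) (nat_lit 9142535952) (nat_lit 213) (nat_lit 5) (nat_lit 221) (nat_lit 5) (nat_lit 214) (nat_lit 5) (nat_lit 631) (nat_lit 562) (nat_lit 367)))))) (XT.nd (nat_lit 390) (nat_lit 1444) (nat_lit 0) (XT.nd (nat_lit 156) (nat_lit 532) (nat_lit 0) (XT.nd (nat_lit 78) (nat_lit 532) (nat_lit 0) (XT.lf (nat_lit 0) (nat_lit 11550968757) (nat_lit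 456) (nat_lit 3267718283) (nat_lit 532) (nat_lit 5614785105) (nat_lit 207) (nat_lit 5) (nat_lit 213) (nat_lit 5) (nat_lit 214) (nat_lit 5) (nat_lit 632) (nat_lit 562) (nat_lit 366)) (XT.lf (nat_lit 0) (nat_lit 3069734943) (nat_lit 532) (nat_lit 16050738340) (nat_lit 608) (nat_lit 1558602743) (nat_lit 200) (nat_lit 5) (nat_lit 207) (nat_lit 5) (nat_lit 208) (nat_lit 5) (nat_lit 633) (nat_lit 562) (nat_lit 365))) (XT.nd (nat_lit 78) (nat_lit 456) (nat_lit 0) (XT.lf (nat_lit 0) (nat_lit 2619950932) (nat_lit 608) (nat_lit 5595019747) (nat_lit 76) (nat_lit 12712785751) (nat_lit 199) (nat_lit 5) (nat_lit 207) (nat_lit 5) (nat_lit 200) (nat_lit 5) (nat_lit 634) (nat_lit 562) (nat_lit 364)) (XT.nd (nat_lit 78) (nat_lit 0) (nat_lit 0) (XT.lf (nat_lit 0) (nat_lit 6728427657) (nat_lit 456) (nat_lit 170038443) (nat_lit 532) (nat_lit 14281993734) (nat_lit 193) (nat_lit 5) (nat_lit 199) (nat_lit 5) (nat_lit 200) (nat_lit 5)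 (nat_lit 635) (nat_lit 562) (nat_lit 363)) (XT.lf (nat_lit 0) (nat_lit 11346125229) (nat_lit 532) (nat_lit 2124837018) (nat_lit 76) (nat_lit 7965584215) (nat_lit 193) (nat_lit 5) (nat_lit 200) (nat_lit 5) (nat_lit 194) (nat_lit 5) (nat_lit 636) (nat_lit 562) (nat_lit 362))))) (XT.nd (nat_lit 156) (nat_lit 532) (nat_lit 0) (XT.nd (nat_lit 78) (nat_lit 456) (nat_lit 0) (XT.lf (nat_lit 0) (nat_lit 10577547242) (nat_lit 456) (nat_lit 5368723997) (nat_lit 532) (nat_lit 5750213526) (nat_lit 187) (nat_lit 5) (nat_lit 193) (nat_lit 5) (nat_lit 194) (nat_lit 5) (nat_lit 637) (nat_lit 562) (nat_lit 361)) (XT.lf (nat_lit 0) (nat_lit 1594459119) (nat_lit 456) (nat_lit 19081245274) (nat_lit 532) (nat_lit 1285172362) (nat_lit 181) (nat_lit 5) (nat_lit 187) (nat_lit 5) (nat_lit 188) (nat_lit 5) (nat_lit 638) (nat_lit 562) (nat_lit 360))) (XT.nd (nat_lit 78) (nat_lit 456) (nat_lit 0) (XT.lf (nat_lit 0) (nat_lit 3330757786) (nat_lit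 532) (nat_lit 7582521858) (nat_lit 76) (nat_lit 11314763730) (nat_lit 180) (nat_lit 5) (nat_lit 187) (nat_lit 5) (nat_lit 181) (nat_lit 5) (nat_lit 639) (nat_lit 562) (nat_lit 359)) (XT.nd (nat_lit 78) (nat_lit 0) (nat_lit 0) (XT.lf (nat_lit 0) (nat_lit 5511981230) (nat_lit 456) (nat_lit 2539543308) (nat_lit 532) (nat_lit 14448264929) (nat_lit 174) (nat_lit 5) (nat_lit 180) (nat_lit 5) (nat_lit 181) (nat_lit 5) (nat_lit 640) (nat_lit 562) (nat_lit 358)) (XT.lf (nat_lit 0) (nat_lit 12950860096) (nat_lit 532) (nat_lit 3852993907) (nat_lit 76) (nat_lit 5971433967) (nat_lit 174) (nat_lit 5) (nat_lit 181) (nat_lit 5) (nat_lit 175) (nat_lit 5) (nat_lit 641) (nat_lit 562) (nat_lit 357))))))) (XT.nd (nat_lit 75504) (nat_lit 0) (nat_lit 25156) (XT.nd (nat_lit 75114) (nat_lit 0) (nat_lit 26676) (XT.nd (nat_lit 156) (nat_lit 76) (nat_lit 0) (XT.nd (nat_lit 78) (nat_lit 456) (nat_lit 0) (XT.lf (nat_lit 0) (nat_lit 9645480401)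 (nat_lit 380) (nat_lit 8376230262) (nat_lit 456) (nat_lit 5033115763) (nat_lit 169) (nat_lit 5) (nat_lit 174) (nat_lit 5) (nat_lit 175) (nat_lit 5) (nat_lit 642) (nat_lit 562) (nat_lit 356)) (XT.lf (nat_lit 0) (nat_lit 117898613) (nat_lit 456) (nat_lit 23098426756) (nat_lit 532) (nat_lit 123183876) (nat_lit 163) (nat_lit 5) (nat_lit 169) (nat_lit 5) (nat_lit 170) (nat_lit 5) (nat_lit 643) (nat_lit 562) (nat_lit 355))) (XT.nd (nat_lit 74880) (nat_lit 0) (nat_lit 26676) (XT.lf (nat_lit 0) (nat_lit 4961077496) (nat_lit 532) (nat_lit 9627197688) (nat_lit 76) (nat_lit 9038172769) (nat_lit 162) (nat_lit 5) (nat_lit 169) (nat_lit 5) (nat_lit 163) (nat_lit 5) (nat_lit 644) (nat_lit 562) (nat_lit 354)) (XT.lf (nat_lit 0) (nat_lit 1289712912) (nat_lit 0) (nat_lit 1289712912) (nat_lit 1596) (nat_lit 2425110111) (nat_lit 513) (nat_lit 5) (nat_lit 513) (nat_lit 3) (nat_lit 534) (nat_lit 3) (nat_lit 563) (nat_lit 563) (nat_lit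 434)))) (XT.nd (nat_lit 156) (nat_lit 0) (nat_lit 76) (XT.nd (nat_lit 78) (nat_lit 0) (nat_lit 0) (XT.lf (nat_lit 0) (nat_lit 5924241138) (nat_lit 1596) (nat_lit 2527013023) (nat_lit 1672) (nat_lit 1643515511) (nat_lit 513) (nat_lit 5) (nat_lit 534) (nat_lit 3) (nat_lit 535) (nat_lit 5) (nat_lit 564) (nat_lit 563) (nat_lit 433)) (XT.lf (nat_lit 76) (nat_lit 2479457360) (nat_lit 0) (nat_lit 4240281850) (nat_lit 1672) (nat_lit 3462149270) (nat_lit 514) (nat_lit 5) (nat_lit 513) (nat_lit 5) (nat_lit 535) (nat_lit 5) (nat_lit 565) (nat_lit 563) (nat_lit 432))) (XT.nd (nat_lit 78) (nat_lit 0) (nat_lit 0) (XT.lf (nat_lit 0) (nat_lit 7530547150) (nat_lit 1596) (nat_lit 2660575674) (nat_lit 1672) (nat_lit 79641847) (nat_lit 514) (nat_lit 5) (nat_lit 535) (nat_lit 5) (nat_lit 536) (nat_lit 5) (nat_lit 566) (nat_lit 563) (nat_lit 431)) (XT.nd (nat_lit 78) (nat_lit 0) (nat_lit 0) (XT.lf (nat_lit 76) (nat_lit 2476706398) (nat_lit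 0) (nat_lit 5907353574) (nat_lit 1672) (nat_lit 1976831587) (nat_lit 515) (nat_lit 5) (nat_lit 514) (nat_lit 5) (nat_lit 536) (nat_lit 5) (nat_lit 567) (nat_lit 563) (nat_lit 430)) (XT.lf (nat_lit 76) (nat_lit 7743051871) (nat_lit 0) (nat_lit 1512055255) (nat_lit 1672) (nat_lit 1197707467) (nat_lit 515) (nat_lit 5) (nat_lit 514) (nat_lit 5) (nat_lit 536) (nat_lit 5) (nat_lit 568) (nat_lit 563) (nat_lit 429)))))) (XT.nd (nat_lit 390) (nat_lit 0) (nat_lit 152) (XT.nd (nat_lit 156) (nat_lit 0) (nat_lit 76) (XT.nd (nat_lit 78) (nat_lit 1672) (nat_lit 0) (XT.lf (nat_lit 76) (nat_lit 2572649876) (nat_lit 0) (nat_lit 7589919202) (nat_lit 1672) (nat_lit 383629964) (nat_lit 516) (nat_lit 5) (nat_lit 515) (nat_lit 5) (nat_lit 537) (nat_lit 5) (nat_lit 569) (nat_lit 563) (nat_lit 428)) (XT.lf (nat_lit 0) (nat_lit 452343589) (nat_lit 1672) (nat_lit 2666789237) (nat_lit 1748) (nat_lit 7522033599) (nat_lit 493) (nat_lit 5) (nat_lit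 515) (nat_lit 5) (nat_lit 516) (nat_lit 5) (nat_lit 570) (nat_lit 563) (nat_lit 427))) (XT.nd (nat_lit 78) (nat_lit 0) (nat_lit 0) (XT.lf (nat_lit 0) (nat_lit 1310910103) (nat_lit 1672) (nat_lit 7977507956) (nat_lit 1748) (nat_lit 1449346846) (nat_lit 494) (nat_lit 5) (nat_lit 516) (nat_lit 5) (nat_lit 517) (nat_lit 5) (nat_lit 571) (nat_lit 563) (nat_lit 426)) (XT.nd (nat_lit 78) (nat_lit 0) (nat_lit 0) (XT.lf (nat_lit 0) (nat_lit 2209105767) (nat_lit 1672) (nat_lit 2534934766) (nat_lit 1748) (nat_lit 6091808281) (nat_lit 494) (nat_lit 5) (nat_lit 516) (nat_lit 5) (nat_lit 517) (nat_lit 5) (nat_lit 572) (nat_lit 563) (nat_lit 425)) (XT.lf (nat_lit 76) (nat_lit 3046429264) (nat_lit 0) (nat_lit 82720655) (nat_lit 1748) (nat_lit 7806669357) (nat_lit 495) (nat_lit 5) (nat_lit 494) (nat_lit 5) (nat_lit 517) (nat_lit 5) (nat_lit 573) (nat_lit 563) (nat_lit 424))))) (XT.nd (nat_lit 156) (nat_lit 0) (nat_lit 76) (XT.nd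 (nat_lit 78) (nat_lit 0) (nat_lit 0) (XT.lf (nat_lit 0) (nat_lit 4099440147) (nat_lit 1672) (nat_lit 2304413566) (nat_lit 1748) (nat_lit 4633301045) (nat_lit 495) (nat_lit 5) (nat_lit 517) (nat_lit 5) (nat_lit 518) (nat_lit 5) (nat_lit 574) (nat_lit 563) (nat_lit 423)) (XT.lf (nat_lit 76) (nat_lit 3426554794) (nat_lit 0) (nat_lit 1670071967) (nat_lit 1748) (nat_lit 6043742844) (nat_lit 496) (nat_lit 5) (nat_lit 495) (nat_lit 5) (nat_lit 518) (nat_lit 5) (nat_lit 575) (nat_lit 563) (nat_lit 422))) (XT.nd (nat_lit 78) (nat_lit 0) (nat_lit 0) (XT.lf (nat_lit 0) (nat_lit 6134792623) (nat_lit 1672) (nat_lit 1972938508) (nat_lit 1748) (nat_lit 3137499325) (nat_lit 496) (nat_lit 5) (nat_lit 518) (nat_lit 5) (nat_lit 519) (nat_lit 5) (nat_lit 576) (nat_lit 563) (nat_lit 421)) (XT.nd (nat_lit 78) (nat_lit 0) (nat_lit 76) (XT.lf (nat_lit 76) (nat_lit 3912846510) (nat_lit 0) (nat_lit 3302597957) (nat_lit 1748) (nat_lit 4136311974)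 (nat_lit 497) (nat_lit 5) (nat_lit 496) (nat_lit 5) (nat_lit 519) (nat_lit 5) (nat_lit 577) (nat_lit 563) (nat_lit 420)) (XT.lf (nat_lit 0) (nat_lit 8326925872) (nat_lit 1672) (nat_lit 1537945248) (nat_lit 1748) (nat_lit 1595359818) (nat_lit 497) (nat_lit 5) (nat_lit 519) (nat_lit 5) (nat_lit 520) (nat_lit 5) (nat_lit 578) (nat_lit 563) (nat_lit 419))))))))
noncomputable def xc175 : XT := (XT.nd (nat_lit 1482) (nat_lit 7600) (nat_lit 0) (XT.nd (nat_lit 702) (nat_lit 6916) (nat_lit 0) (XT.nd (nat_lit 312) (nat_lit 0) (nat_lit 76) (XT.nd (nat_lit 156) (nat_lit 1672) (nat_lit 0) (XT.nd (nat_lit 78) (nat_lit 0) (nat_lit 0) (XT.lf (nat_lit 76) (nat_lit 4508074838) (nat_lit 0) (nat_lit 4989497080) (nat_lit 1748) (nat_lit 2072566588) (nat_lit 498) (nat_lit 5) (nat_lit 497) (nat_lit 5) (nat_lit 520) (nat_lit 5) (nat_lit 579) (nat_lit 563) (nat_lit 418)) (XT.lf (nat_lit 76) (nat_lit 10685713201) (nat_lit 0) (nat_lit 2244847)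 (nat_lit 1748) (nat_lit 994361865) (nat_lit 498) (nat_lit 5) (nat_lit 497) (nat_lit 5) (nat_lit 520) (nat_lit 5) (nat_lit 580) (nat_lit 563) (nat_lit 417))) (XT.nd (nat_lit 78) (nat_lit 0) (nat_lit 0) (XT.lf (nat_lit 0) (nat_lit 157554865) (nat_lit 1748) (nat_lit 6581426171) (nat_lit 1824) (nat_lit 5056681765) (nat_lit 475) (nat_lit 5) (nat_lit 498) (nat_lit 5) (nat_lit 499) (nat_lit 5) (nat_lit 581) (nat_lit 563) (nat_lit 416)) (XT.lf (nat_lit 0) (nat_lit 1312371298) (nat_lit 1748) (nat_lit 365343603) (nat_lit 1824) (nat_lit 10233564780) (nat_lit 475) (nat_lit 5) (nat_lit 498) (nat_lit 5) (nat_lit 499) (nat_lit 5) (nat_lit 582) (nat_lit 563) (nat_lit 415)))) (XT.nd (nat_lit 156) (nat_lit 0) (nat_lit 76) (XT.nd (nat_lit 78) (nat_lit 0) (nat_lit 0) (XT.lf (nat_lit 0) (nat_lit 2539115504) (nat_lit 1748) (nat_lit 6007430649) (nat_lit 1824) (nat_lit 3481688178) (nat_lit 476) (nat_lit 5) (nat_lit 499) (nat_lit 5) (nat_lit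 500) (nat_lit 5) (nat_lit 583) (nat_lit 563) (nat_lit 414)) (XT.lf (nat_lit 76) (nat_lit 375565325) (nat_lit 0) (nat_lit 3417744332) (nat_lit 1824) (nat_lit 8354162140) (nat_lit 477) (nat_lit 5) (nat_lit 476) (nat_lit 5) (nat_lit 500) (nat_lit 5) (nat_lit 584) (nat_lit 563) (nat_lit 413))) (XT.nd (nat_lit 78) (nat_lit 0) (nat_lit 0) (XT.lf (nat_lit 0) (nat_lit 5112047893) (nat_lit 1748) (nat_lit 5323265874) (nat_lit 1824) (nat_lit 1832993026) (nat_lit 477) (nat_lit 5) (nat_lit 500) (nat_lit 5) (nat_lit 501) (nat_lit 5) (nat_lit 585) (nat_lit 563) (nat_lit 412)) (XT.nd (nat_lit 78) (nat_lit 0) (nat_lit 76) (XT.lf (nat_lit 76) (nat_lit 1237562599) (nat_lit 0) (nat_lit 5237625175) (nat_lit 1824) (nat_lit 5916012120) (nat_lit 478) (nat_lit 5) (nat_lit 477) (nat_lit 5) (nat_lit 501) (nat_lit 5) (nat_lit 586) (nat_lit 563) (nat_lit 411)) (XT.lf (nat_lit 0) (nat_lit 7889517189) (nat_lit 1748) (nat_lit 4525301221) (nat_lit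 76) (nat_lit 101255819) (nat_lit 478) (nat_lit 5) (nat_lit 501) (nat_lit 5) (nat_lit 479) (nat_lit 5) (nat_lit 587) (nat_lit 563) (nat_lit 410)))))) (XT.nd (nat_lit 390) (nat_lit 2660) (nat_lit 0) (XT.nd (nat_lit 156) (nat_lit 2736) (nat_lit 0) (XT.nd (nat_lit 78) (nat_lit 0) (nat_lit 0) (XT.lf (nat_lit 0) (nat_lit 2219655414) (nat_lit 1748) (nat_lit 7149372187) (nat_lit 1824) (nat_lit 3273682431) (nat_lit 455) (nat_lit 5) (nat_lit 478) (nat_lit 5) (nat_lit 479) (nat_lit 5) (nat_lit 588) (nat_lit 563) (nat_lit 409)) (XT.lf (nat_lit 0) (nat_lit 9150549980) (nat_lit 1748) (nat_lit 1745914456) (nat_lit 1824) (nat_lit 1875049223) (nat_lit 455) (nat_lit 5) (nat_lit 478) (nat_lit 5) (nat_lit 479) (nat_lit 5) (nat_lit 589) (nat_lit 563) (nat_lit 408))) (XT.nd (nat_lit 78) (nat_lit 1064) (nat_lit 0) (XT.lf (nat_lit 0) (nat_lit 3325991673) (nat_lit 1672) (nat_lit 9162717696) (nat_lit 1748) (nat_lit 413500598) (nat_lit 433)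 (nat_lit 5) (nat_lit 455) (nat_lit 5) (nat_lit 456) (nat_lit 5) (nat_lit 590) (nat_lit 563) (nat_lit 407)) (XT.nd (nat_lit 78) (nat_lit 988) (nat_lit 0) (XT.lf (nat_lit 0) (nat_lit 1087473706) (nat_lit 1748) (nat_lit 2603221292) (nat_lit 76) (nat_lit 9344200575) (nat_lit 432) (nat_lit 5) (nat_lit 455) (nat_lit 5) (nat_lit 433) (nat_lit 5) (nat_lit 591) (nat_lit 563) (nat_lit 406)) (XT.lf (nat_lit 0) (nat_lit 2643545712) (nat_lit 1064) (nat_lit 8626301502) (nat_lit 76) (nat_lit 1899722404) (nat_lit 419) (nat_lit 5) (nat_lit 433) (nat_lit 5) (nat_lit 420) (nat_lit 5) (nat_lit 592) (nat_lit 563) (nat_lit 405))))) (XT.nd (nat_lit 156) (nat_lit 1748) (nat_lit 0) (XT.nd (nat_lit 78) (nat_lit 912) (nat_lit 0) (XT.lf (nat_lit 0) (nat_lit 4261462780) (nat_lit 1064) (nat_lit 1473572392) (nat_lit 76) (nat_lit 7571289159) (nat_lit 419) (nat_lit 5) (nat_lit 433) (nat_lit 5) (nat_lit 420) (nat_lit 5) (nat_lit 593) (nat_lit 563)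 (nat_lit 404)) (XT.lf (nat_lit 0) (nat_lit 5889251942) (nat_lit 912) (nat_lit 49642059) (nat_lit 988) (nat_lit 7506378650) (nat_lit 407) (nat_lit 5) (nat_lit 419) (nat_lit 5) (nat_lit 420) (nat_lit 5) (nat_lit 594) (nat_lit 563) (nat_lit 403))) (XT.nd (nat_lit 78) (nat_lit 1748) (nat_lit 0) (XT.lf (nat_lit 0) (nat_lit 7686232647) (nat_lit 988) (nat_lit 215245765) (nat_lit 76) (nat_lit 5684795942) (nat_lit 407) (nat_lit 5) (nat_lit 420) (nat_lit 5) (nat_lit 408) (nat_lit 5) (nat_lit 595) (nat_lit 563) (nat_lit 402)) (XT.nd (nat_lit 78) (nat_lit 836) (nat_lit 0) (XT.lf (nat_lit 0) (nat_lit 7358369081) (nat_lit 912) (nat_lit 2147542925) (nat_lit 988) (nat_lit 4223437771) (nat_lit 395) (nat_lit 5) (nat_lit 407) (nat_lit 5) (nat_lit 408) (nat_lit 5) (nat_lit 596) (nat_lit 563) (nat_lit 401)) (XT.lf (nat_lit 0) (nat_lit 1192278908) (nat_lit 836) (nat_lit 10192500751) (nat_lit 912) (nat_lit 2490052690) (nat_lit 384) (nat_lit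 5) (nat_lit 395) (nat_lit 5) (nat_lit 396) (nat_lit 5) (nat_lit 597) (nat_lit 563) (nat_lit 400))))))) (XT.nd (nat_lit 702) (nat_lit 3496) (nat_lit 0) (XT.nd (nat_lit 312) (nat_lit 2432) (nat_lit 0) (XT.nd (nat_lit 156) (nat_lit 760) (nat_lit 0) (XT.nd (nat_lit 78) (nat_lit 912) (nat_lit 0) (XT.lf (nat_lit 0) (nat_lit 8968518325) (nat_lit 836) (nat_lit 4379165606) (nat_lit 912) (nat_lit 674612957) (nat_lit 384) (nat_lit 5) (nat_lit 395) (nat_lit 5) (nat_lit 396) (nat_lit 5) (nat_lit 598) (nat_lit 563) (nat_lit 399)) (XT.lf (nat_lit 0) (nat_lit 1179473747) (nat_lit 912) (nat_lit 11436876098) (nat_lit 76) (nat_lit 1555853934) (nat_lit 372) (nat_lit 5) (nat_lit 384) (nat_lit 5) (nat_lit 373) (nat_lit 5) (nat_lit 599) (nat_lit 563) (nat_lit 398))) (XT.nd (nat_lit 78) (nat_lit 760) (nat_lit 0) (XT.lf (nat_lit 0) (nat_lit 3114606446) (nat_lit 912) (nat_lit 3619712343) (nat_lit 76) (nat_lit 7589642304) (nat_lit 372) (nat_lit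 5) (nat_lit 384) (nat_lit 5) (nat_lit 373) (nat_lit 5) (nat_lit 600) (nat_lit 563) (nat_lit 397)) (XT.lf (nat_lit 0) (nat_lit 4401412321) (nat_lit 760) (nat_lit 705655071) (nat_lit 836) (nat_lit 9371315038) (nat_lit 362) (nat_lit 5) (nat_lit 372) (nat_lit 5) (nat_lit 373) (nat_lit 5) (nat_lit 601) (nat_lit 563) (nat_lit 396)))) (XT.nd (nat_lit 156) (nat_lit 1596) (nat_lit 0) (XT.nd (nat_lit 78) (nat_lit 836) (nat_lit 0) (XT.lf (nat_lit 0) (nat_lit 7189349148) (nat_lit 836) (nat_lit 2049122507) (nat_lit 76) (nat_lit 5396422469) (nat_lit 362) (nat_lit 5) (nat_lit 373) (nat_lit 5) (nat_lit 363) (nat_lit 5) (nat_lit 602) (nat_lit 563) (nat_lit 395)) (XT.lf (nat_lit 0) (nat_lit 6205964367) (nat_lit 836) (nat_lit 3142648432) (nat_lit 912) (nat_lit 5445217863) (nat_lit 351) (nat_lit 5) (nat_lit 362) (nat_lit 5) (nat_lit 363) (nat_lit 5) (nat_lit 603) (nat_lit 563) (nat_lit 394))) (XT.nd (nat_lit 78) (nat_lit 1596) (nat_lit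 0) (XT.lf (nat_lit 0) (nat_lit 11575359894) (nat_lit 912) (nat_lit 331957326) (nat_lit 76) (nat_lit 3048144054) (nat_lit 351) (nat_lit 5) (nat_lit 363) (nat_lit 5) (nat_lit 352) (nat_lit 5) (nat_lit 604) (nat_lit 563) (nat_lit 393)) (XT.nd (nat_lit 78) (nat_lit 836) (nat_lit 0) (XT.lf (nat_lit 0) (nat_lit 8165388125) (nat_lit 760) (nat_lit 5745758502) (nat_lit 836) (nat_lit 1207889062) (nat_lit 341) (nat_lit 5) (nat_lit 351) (nat_lit 5) (nat_lit 352) (nat_lit 5) (nat_lit 605) (nat_lit 563) (nat_lit 392)) (XT.lf (nat_lit 0) (nat_lit 1001243570) (nat_lit 836) (nat_lit 13734147646) (nat_lit 76) (nat_lit 550226884) (nat_lit 330) (nat_lit 5) (nat_lit 341) (nat_lit 5) (nat_lit 331) (nat_lit 5) (nat_lit 606) (nat_lit 563) (nat_lit 391)))))) (XT.nd (nat_lit 390) (nat_lit 2052) (nat_lit 0) (XT.nd (nat_lit 156) (nat_lit 760) (nat_lit 0) (XT.nd (nat_lit 78) (nat_lit 684) (nat_lit 0) (XT.lf (nat_lit 0) (nat_lit 3314268932)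 (nat_lit 836) (nat_lit 5190141122) (nat_lit 76) (nat_lit 6949445958) (nat_lit 330) (nat_lit 5) (nat_lit 341) (nat_lit 5) (nat_lit 331) (nat_lit 5) (nat_lit 607) (nat_lit 563) (nat_lit 390)) (XT.lf (nat_lit 0) (nat_lit 3561522300) (nat_lit 684) (nat_lit 2126181315) (nat_lit 760) (nat_lit 9937473275) (nat_lit 321) (nat_lit 5) (nat_lit 330) (nat_lit 5) (nat_lit 331) (nat_lit 5) (nat_lit 608) (nat_lit 563) (nat_lit 389))) (XT.nd (nat_lit 78) (nat_lit 760) (nat_lit 0) (XT.lf (nat_lit 0) (nat_lit 8163232008) (nat_lit 760) (nat_lit 3279360679) (nat_lit 76) (nat_lit 4356240161) (nat_lit 321) (nat_lit 5) (nat_lit 331) (nat_lit 5) (nat_lit 322) (nat_lit 5) (nat_lit 609) (nat_lit 563) (nat_lit 388)) (XT.nd (nat_lit 78) (nat_lit 0) (nat_lit 0) (XT.lf (nat_lit 0) (nat_lit 5731870019) (nat_lit 760) (nat_lit 4999001072) (nat_lit 836) (nat_lit 5244239972) (nat_lit 311) (nat_lit 5) (nat_lit 321) (nat_lit 5) (nat_lit 322) (nat_lit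 5) (nat_lit 610) (nat_lit 563) (nat_lit 387)) (XT.lf (nat_lit 0) (nat_lit 13373634533) (nat_lit 836) (nat_lit 1207001823) (nat_lit 76) (nat_lit 1573804170) (nat_lit 311) (nat_lit 5) (nat_lit 322) (nat_lit 5) (nat_lit 312) (nat_lit 5) (nat_lit 611) (nat_lit 563) (nat_lit 386))))) (XT.nd (nat_lit 156) (nat_lit 608) (nat_lit 0) (XT.nd (nat_lit 78) (nat_lit 760) (nat_lit 0) (XT.lf (nat_lit 0) (nat_lit 8072986515) (nat_lit 684) (nat_lit 8073360078) (nat_lit 760) (nat_lit 189469214) (nat_lit 302) (nat_lit 5) (nat_lit 311) (nat_lit 5) (nat_lit 312) (nat_lit 5) (nat_lit 612) (nat_lit 563) (nat_lit 385)) (XT.lf (nat_lit 0) (nat_lit 1021900326) (nat_lit 684) (nat_lit 1406019823) (nat_lit 760) (nat_lit 14092452746) (nat_lit 292) (nat_lit 5) (nat_lit 301) (nat_lit 5) (nat_lit 302) (nat_lit 5) (nat_lit 613) (nat_lit 563) (nat_lit 384))) (XT.nd (nat_lit 78) (nat_lit 608) (nat_lit 0) (XT.lf (nat_lit 0) (nat_lit 5177673686) (nat_lit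 760) (nat_lit 6149719969) (nat_lit 76) (nat_lit 5379552387) (nat_lit 292) (nat_lit 5) (nat_lit 302) (nat_lit 5) (nat_lit 293) (nat_lit 5) (nat_lit 614) (nat_lit 563) (nat_lit 383)) (XT.nd (nat_lit 78) (nat_lit 0) (nat_lit 0) (XT.lf (nat_lit 0) (nat_lit 3411746433) (nat_lit 608) (nat_lit 4594011228) (nat_lit 684) (nat_lit 8891027295) (nat_lit 284) (nat_lit 5) (nat_lit 292) (nat_lit 5) (nat_lit 293) (nat_lit 5) (nat_lit 615) (nat_lit 563) (nat_lit 382)) (XT.lf (nat_lit 0) (nat_lit 10938668126) (nat_lit 684) (nat_lit 3866612869) (nat_lit 76) (nat_lit 2284175350) (nat_lit 284) (nat_lit 5) (nat_lit 293) (nat_lit 5) (nat_lit 285) (nat_lit 5) (nat_lit 616) (nat_lit 563) (nat_lit 381))))))))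
noncomputable def xc176 : XT := (XT.nd (nat_lit 1404) (nat_lit 2888) (nat_lit 0) (XT.nd (nat_lit 702) (nat_lit 3192) (nat_lit 0) (XT.nd (nat_lit 312) (nat_lit 1216) (nat_lit 0) (XT.nd (nat_lit 156) (nat_lit 1292) (nat_lit 0) (XT.nd (nat_lit 78) (nat_lit 0) (nat_lit 0) (XT.lf (nat_lit 0) (nat_lit 5982629520) (nat_lit 684) (nat_lit 8008991143) (nat_lit 760) (nat_lit 3293133792) (nat_lit 275) (nat_lit 5) (nat_lit 284) (nat_lit 5) (nat_lit 285) (nat_lit 5) (nat_lit 617) (nat_lit 563) (nat_lit 380)) (XT.lf (nat_lit 0) (nat_lit 16071741687) (nat_lit 684) (nat_lit 1052047033) (nat_lit 760) (nat_lit 359807632) (nat_lit 275) (nat_lit 5) (nat_lit 284) (nat_lit 5) (nat_lit 285) (nat_lit 5) (nat_lit 618) (nat_lit 563) (nat_lit 379))) (XT.nd (nat_lit 78) (nat_lit 608) (nat_lit 0) (XT.lf (nat_lit 0) (nat_lit 2686600552) (nat_lit 684) (nat_lit 8960173810) (nat_lit 76) (nat_lit 6037521101) (nat_lit 266) (nat_lit 5) (nat_lit 275)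 (nat_lit 5) (nat_lit 267) (nat_lit 5) (nat_lit 619) (nat_lit 563) (nat_lit 378)) (XT.lf (nat_lit 0) (nat_lit 1189804734) (nat_lit 608) (nat_lit 4615937071) (nat_lit 684) (nat_lit 12082887630) (nat_lit 258) (nat_lit 5) (nat_lit 266) (nat_lit 5) (nat_lit 267) (nat_lit 5) (nat_lit 620) (nat_lit 563) (nat_lit 377)))) (XT.nd (nat_lit 156) (nat_lit 684) (nat_lit 0) (XT.nd (nat_lit 78) (nat_lit 532) (nat_lit 0) (XT.lf (nat_lit 0) (nat_lit 9056847896) (nat_lit 684) (nat_lit 6458197070) (nat_lit 76) (nat_lit 2580614360) (nat_lit 258) (nat_lit 5) (nat_lit 267) (nat_lit 5) (nat_lit 259) (nat_lit 5) (nat_lit 621) (nat_lit 563) (nat_lit 376)) (XT.lf (nat_lit 0) (nat_lit 3999719670) (nat_lit 532) (nat_lit 8422406373) (nat_lit 608) (nat_lit 5883721635) (nat_lit 251) (nat_lit 5) (nat_lit 258) (nat_lit 5) (nat_lit 259) (nat_lit 5) (nat_lit 622) (nat_lit 563) (nat_lit 375))) (XT.nd (nat_lit 78) (nat_lit 684) (nat_lit 0) (XT.lf (nat_lit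 0) (nat_lit 14744987859) (nat_lit 532) (nat_lit 1145755941) (nat_lit 608) (nat_lit 2628776165) (nat_lit 251) (nat_lit 5) (nat_lit 258) (nat_lit 5) (nat_lit 259) (nat_lit 5) (nat_lit 623) (nat_lit 563) (nat_lit 374)) (XT.nd (nat_lit 78) (nat_lit 0) (nat_lit 0) (XT.lf (nat_lit 0) (nat_lit 761812955) (nat_lit 684) (nat_lit 11731316963) (nat_lit 76) (nat_lit 6242654612) (nat_lit 242) (nat_lit 5) (nat_lit 251) (nat_lit 5) (nat_lit 243) (nat_lit 5) (nat_lit 624) (nat_lit 563) (nat_lit 373)) (XT.lf (nat_lit 0) (nat_lit 4210991329) (nat_lit 684) (nat_lit 940152113) (nat_lit 76) (nat_lit 13804364681) (nat_lit 242) (nat_lit 5) (nat_lit 251) (nat_lit 5) (nat_lit 243) (nat_lit 5) (nat_lit 625) (nat_lit 563) (nat_lit 372)))))) (XT.nd (nat_lit 312) (nat_lit 1596) (nat_lit 0) (XT.nd (nat_lit 156) (nat_lit 532) (nat_lit 0) (XT.nd (nat_lit 78) (nat_lit 532) (nat_lit 0) (XT.lf (nat_lit 0) (nat_lit 7803923581) (nat_lit 608) (nat_lit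 9002696951) (nat_lit 76) (nat_lit 2371511033) (nat_lit 235) (nat_lit 5) (nat_lit 243) (nat_lit 5) (nat_lit 236) (nat_lit 5) (nat_lit 626) (nat_lit 563) (nat_lit 371)) (XT.lf (nat_lit 0) (nat_lit 2105237375) (nat_lit 532) (nat_lit 9410673394) (nat_lit 608) (nat_lit 7888353547) (nat_lit 228) (nat_lit 5) (nat_lit 235) (nat_lit 5) (nat_lit 236) (nat_lit 5) (nat_lit 627) (nat_lit 563) (nat_lit 370))) (XT.nd (nat_lit 78) (nat_lit 532) (nat_lit 0) (XT.lf (nat_lit 0) (nat_lit 13548211264) (nat_lit 532) (nat_lit 1807479320) (nat_lit 608) (nat_lit 4278158833) (nat_lit 228) (nat_lit 5) (nat_lit 235) (nat_lit 5) (nat_lit 236) (nat_lit 5) (nat_lit 628) (nat_lit 563) (nat_lit 369)) (XT.lf (nat_lit 0) (nat_lit 5374798710) (nat_lit 532) (nat_lit 13964240927) (nat_lit 608) (nat_lit 527651845) (nat_lit 221) (nat_lit 5) (nat_lit 228) (nat_lit 5) (nat_lit 229) (nat_lit 5) (nat_lit 629) (nat_lit 563) (nat_lit 368)))) (XT.nd (nat_lit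 156) (nat_lit 988) (nat_lit 0) (XT.nd (nat_lit 78) (nat_lit 532) (nat_lit 0) (XT.lf (nat_lit 0) (nat_lit 3300980129) (nat_lit 608) (nat_lit 2999213632) (nat_lit 76) (nat_lit 13802641760) (nat_lit 220) (nat_lit 5) (nat_lit 228) (nat_lit 5) (nat_lit 221) (nat_lit 5) (nat_lit 630) (nat_lit 563) (nat_lit 367)) (XT.lf (nat_lit 0) (nat_lit 7260092252) (nat_lit 608) (nat_lit 11526213906) (nat_lit 76) (nat_lit 1556107765) (nat_lit 213) (nat_lit 5) (nat_lit 221) (nat_lit 5) (nat_lit 214) (nat_lit 5) (nat_lit 631) (nat_lit 563) (nat_lit 366))) (XT.nd (nat_lit 78) (nat_lit 532) (nat_lit 0) (XT.lf (nat_lit 0) (nat_lit 274943259) (nat_lit 456) (nat_lit 11080687272) (nat_lit 532) (nat_lit 9230009166) (nat_lit 207) (nat_lit 5) (nat_lit 213) (nat_lit 5) (nat_lit 214) (nat_lit 5) (nat_lit 632) (nat_lit 563) (nat_lit 365)) (XT.nd (nat_lit 78) (nat_lit 532) (nat_lit 0) (XT.lf (nat_lit 0) (nat_lit 12459421706) (nat_lit 456) (nat_lit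 3144550762) (nat_lit 532) (nat_lit 5228340326) (nat_lit 207) (nat_lit 5) (nat_lit 213) (nat_lit 5) (nat_lit 214) (nat_lit 5) (nat_lit 633) (nat_lit 563) (nat_lit 364)) (XT.lf (nat_lit 0) (nat_lit 3812654589) (nat_lit 532) (nat_lit 16175178264) (nat_lit 608) (nat_lit 1095076123) (nat_lit 200) (nat_lit 5) (nat_lit 207) (nat_lit 5) (nat_lit 208) (nat_lit 5) (nat_lit 634) (nat_lit 563) (nat_lit 363))))))) (XT.nd (nat_lit 702) (nat_lit 532) (nat_lit 0) (XT.nd (nat_lit 312) (nat_lit 1368) (nat_lit 0) (XT.nd (nat_lit 156) (nat_lit 456) (nat_lit 0) (XT.nd (nat_lit 78) (nat_lit 456) (nat_lit 0) (XT.lf (nat_lit 0) (nat_lit 3150987806) (nat_lit 608) (nat_lit 5032349941) (nat_lit 76) (nat_lit 13153353412) (nat_lit 199) (nat_lit 5) (nat_lit 207) (nat_lit 5) (nat_lit 200) (nat_lit 5) (nat_lit 635) (nat_lit 563) (nat_lit 362)) (XT.lf (nat_lit 0) (nat_lit 7510189076) (nat_lit 532) (nat_lit 14061571709) (nat_lit 76) (nat_lit 22786464)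 (nat_lit 193) (nat_lit 5) (nat_lit 200) (nat_lit 5) (nat_lit 194) (nat_lit 5) (nat_lit 636) (nat_lit 563) (nat_lit 361))) (XT.nd (nat_lit 78) (nat_lit 456) (nat_lit 0) (XT.lf (nat_lit 0) (nat_lit 12038616102) (nat_lit 532) (nat_lit 1502260200) (nat_lit 76) (nat_lit 8315043929) (nat_lit 193) (nat_lit 5) (nat_lit 200) (nat_lit 5) (nat_lit 194) (nat_lit 5) (nat_lit 637) (nat_lit 563) (nat_lit 360)) (XT.lf (nat_lit 0) (nat_lit 11449796261) (nat_lit 456) (nat_lit 5276129670) (nat_lit 532) (nat_lit 5395229049) (nat_lit 187) (nat_lit 5) (nat_lit 193) (nat_lit 5) (nat_lit 194) (nat_lit 5) (nat_lit 638) (nat_lit 563) (nat_lit 359)))) (XT.nd (nat_lit 156) (nat_lit 836) (nat_lit 0) (XT.nd (nat_lit 78) (nat_lit 76) (nat_lit 0) (XT.lf (nat_lit 0) (nat_lit 2290608451) (nat_lit 456) (nat_lit 19255891079) (nat_lit 532) (nat_lit 844405124) (nat_lit 181) (nat_lit 5) (nat_lit 187) (nat_lit 5) (nat_lit 188) (nat_lit 5) (nat_lit 639)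 (nat_lit 563) (nat_lit 358)) (XT.lf (nat_lit 0) (nat_lit 3848699254) (nat_lit 532) (nat_lit 7076896659) (nat_lit 76) (nat_lit 11737939496) (nat_lit 180) (nat_lit 5) (nat_lit 187) (nat_lit 5) (nat_lit 181) (nat_lit 5) (nat_lit 640) (nat_lit 563) (nat_lit 357))) (XT.nd (nat_lit 78) (nat_lit 380) (nat_lit 0) (XT.lf (nat_lit 0) (nat_lit 6275172308) (nat_lit 456) (nat_lit 2384098891) (nat_lit 532) (nat_lit 14281538257) (nat_lit 174) (nat_lit 5) (nat_lit 180) (nat_lit 5) (nat_lit 181) (nat_lit 5) (nat_lit 641) (nat_lit 563) (nat_lit 356)) (XT.nd (nat_lit 78) (nat_lit 380) (nat_lit 0) (XT.lf (nat_lit 0) (nat_lit 13649147089) (nat_lit 532) (nat_lit 3282418258) (nat_lit 76) (nat_lit 6290402324) (nat_lit 174) (nat_lit 5) (nat_lit 181) (nat_lit 5) (nat_lit 175) (nat_lit 5) (nat_lit 642) (nat_lit 563) (nat_lit 355)) (XT.lf (nat_lit 0) (nat_lit 10481764775) (nat_lit 380) (nat_lit 8335213974) (nat_lit 456) (nat_lit 4690207662)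 (nat_lit 169) (nat_lit 5) (nat_lit 174) (nat_lit 5) (nat_lit 175) (nat_lit 5) (nat_lit 643) (nat_lit 563) (nat_lit 354)))))) (XT.nd (nat_lit 75270) (nat_lit 0) (nat_lit 25080) (XT.nd (nat_lit 75036) (nat_lit 0) (nat_lit 26676) (XT.nd (nat_lit 74958) (nat_lit 0) (nat_lit 26676) (XT.lf (nat_lit 0) (nat_lit 310731233) (nat_lit 532) (nat_lit 23032935369) (nat_lit 76) (nat_lit 453916207) (nat_lit 162) (nat_lit 5) (nat_lit 169) (nat_lit 5) (nat_lit 163) (nat_lit 5) (nat_lit 644) (nat_lit 563) (nat_lit 353)) (XT.lf (nat_lit 0) (nat_lit 1664719221) (nat_lit 0) (nat_lit 1664719221) (nat_lit 1596) (nat_lit 1761103589) (nat_lit 513) (nat_lit 5) (nat_lit 513) (nat_lit 3) (nat_lit 534) (nat_lit 3) (nat_lit 564) (nat_lit 564) (nat_lit 432))) (XT.nd (nat_lit 78) (nat_lit 0) (nat_lit 0) (XT.lf (nat_lit 0) (nat_lit 7407739266) (nat_lit 1596) (nat_lit 1860761149) (nat_lit 1672) (nat_lit 1000636661) (nat_lit 513) (nat_lit 5) (nat_lit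 534) (nat_lit 3) (nat_lit 535) (nat_lit 5) (nat_lit 565) (nat_lit 564) (nat_lit 431)) (XT.nd (nat_lit 78) (nat_lit 0) (nat_lit 0) (XT.lf (nat_lit 76) (nat_lit 3241122904) (nat_lit 0) (nat_lit 4955882700) (nat_lit 1672) (nat_lit 2161439953) (nat_lit 514) (nat_lit 5) (nat_lit 513) (nat_lit 5) (nat_lit 535) (nat_lit 5) (nat_lit 566) (nat_lit 564) (nat_lit 430)) (XT.lf (nat_lit 76) (nat_lit 8461052020) (nat_lit 0) (nat_lit 536112429) (nat_lit 1672) (nat_lit 1452476507) (nat_lit 514) (nat_lit 5) (nat_lit 513) (nat_lit 5) (nat_lit 535) (nat_lit 5) (nat_lit 567) (nat_lit 564) (nat_lit 429))))) (XT.nd (nat_lit 156) (nat_lit 0) (nat_lit 76) (XT.nd (nat_lit 78) (nat_lit 1672) (nat_lit 0) (XT.lf (nat_lit 76) (nat_lit 3250125634) (nat_lit 0) (nat_lit 6593105242) (nat_lit 1672) (nat_lit 698834129) (nat_lit 515) (nat_lit 5) (nat_lit 514) (nat_lit 5) (nat_lit 536) (nat_lit 5) (nat_lit 568) (nat_lit 564) (nat_lit 428)) (XT.lf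 (nat_lit 0) (nat_lit 69119903) (nat_lit 1672) (nat_lit 2029187720) (nat_lit 1748) (nat_lit 8538020456) (nat_lit 492) (nat_lit 5) (nat_lit 514) (nat_lit 5) (nat_lit 515) (nat_lit 5) (nat_lit 569) (nat_lit 564) (nat_lit 427))) (XT.nd (nat_lit 78) (nat_lit 0) (nat_lit 0) (XT.lf (nat_lit 0) (nat_lit 864824776) (nat_lit 1672) (nat_lit 7379675050) (nat_lit 1748) (nat_lit 2487451889) (nat_lit 493) (nat_lit 5) (nat_lit 515) (nat_lit 5) (nat_lit 516) (nat_lit 5) (nat_lit 570) (nat_lit 564) (nat_lit 426)) (XT.nd (nat_lit 78) (nat_lit 0) (nat_lit 76) (XT.lf (nat_lit 0) (nat_lit 1687856477) (nat_lit 1672) (nat_lit 1984042175) (nat_lit 1748) (nat_lit 7157363534) (nat_lit 493) (nat_lit 5) (nat_lit 515) (nat_lit 5) (nat_lit 516) (nat_lit 5) (nat_lit 571) (nat_lit 564) (nat_lit 425)) (XT.lf (nat_lit 0) (nat_lit 2541203643) (nat_lit 1672) (nat_lit 7378390227) (nat_lit 1748) (nat_lit 1008650465) (nat_lit 494) (nat_lit 5) (nat_lit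 516) (nat_lit 5) (nat_lit 517) (nat_lit 5) (nat_lit 572) (nat_lit 564) (nat_lit 424))))))))
noncomputable def xc177 : XT := (XT.nd (nat_lit 1482) (nat_lit 8436) (nat_lit 0) (XT.nd (nat_lit 702) (nat_lit 3192) (nat_lit 0) (XT.nd (nat_lit 312) (nat_lit 1520) (nat_lit 0) (XT.nd (nat_lit 156) (nat_lit 0) (nat_lit 76) (XT.nd (nat_lit 78) (nat_lit 0) (nat_lit 0) (XT.lf (nat_lit 0) (nat_lit 3433753900) (nat_lit 1672) (nat_lit 1841841415) (nat_lit 1748) (nat_lit 5753170605) (nat_lit 494) (nat_lit 5) (nat_lit 516) (nat_lit 5) (nat_lit 517) (nat_lit 5) (nat_lit 573) (nat_lit 564) (nat_lit 423)) (XT.lf (nat_lit 76) (nat_lit 3846256527) (nat_lit 0) (nat_lit 507593435) (nat_lit 1748) (nat_lit 6777256544) (nat_lit 495) (nat_lit 5) (nat_lit 494) (nat_lit 5) (nat_lit 517) (nat_lit 5) (nat_lit 574) (nat_lit 564) (nat_lit 422))) (XT.nd (nat_lit 78) (nat_lit 0) (nat_lit 0) (XT.lf (nat_lit 0) (nat_lit 5318065451) (nat_lit 1672) (nat_lit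 1600427674) (nat_lit 1748) (nat_lit 4316488848) (nat_lit 495) (nat_lit 5) (nat_lit 517) (nat_lit 5) (nat_lit 518) (nat_lit 5) (nat_lit 575) (nat_lit 564) (nat_lit 421)) (XT.lf (nat_lit 76) (nat_lit 4240225354) (nat_lit 0) (nat_lit 2077521391) (nat_lit 1748) (nat_lit 5022866943) (nat_lit 496) (nat_lit 5) (nat_lit 495) (nat_lit 5) (nat_lit 518) (nat_lit 5) (nat_lit 576) (nat_lit 564) (nat_lit 420)))) (XT.nd (nat_lit 156) (nat_lit 1672) (nat_lit 0) (XT.nd (nat_lit 78) (nat_lit 0) (nat_lit 0) (XT.lf (nat_lit 0) (nat_lit 7352350125) (nat_lit 1672) (nat_lit 1257366551) (nat_lit 1748) (nat_lit 2838345117) (nat_lit 496) (nat_lit 5) (nat_lit 518) (nat_lit 5) (nat_lit 519) (nat_lit 5) (nat_lit 577) (nat_lit 564) (nat_lit 419)) (XT.lf (nat_lit 76) (nat_lit 4741166859) (nat_lit 0) (nat_lit 3696850180) (nat_lit 1748) (nat_lit 3119036670) (nat_lit 497) (nat_lit 5) (nat_lit 496) (nat_lit 5) (nat_lit 519) (nat_lit 5) (nat_lit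 578) (nat_lit 564) (nat_lit 418))) (XT.nd (nat_lit 78) (nat_lit 1748) (nat_lit 0) (XT.lf (nat_lit 0) (nat_lit 9548496536) (nat_lit 1672) (nat_lit 809947120) (nat_lit 1748) (nat_lit 1309722055) (nat_lit 497) (nat_lit 5) (nat_lit 519) (nat_lit 5) (nat_lit 520) (nat_lit 5) (nat_lit 579) (nat_lit 564) (nat_lit 417)) (XT.nd (nat_lit 78) (nat_lit 1748) (nat_lit 0) (XT.lf (nat_lit 76) (nat_lit 5352001545) (nat_lit 0) (nat_lit 5374760996) (nat_lit 1748) (nat_lit 1053828065) (nat_lit 498) (nat_lit 5) (nat_lit 497) (nat_lit 5) (nat_lit 520) (nat_lit 5) (nat_lit 580) (nat_lit 564) (nat_lit 416)) (XT.lf (nat_lit 0) (nat_lit 24822832) (nat_lit 1748) (nat_lit 257176783) (nat_lit 1824) (nat_lit 11613423559) (nat_lit 474) (nat_lit 5) (nat_lit 497) (nat_lit 5) (nat_lit 498) (nat_lit 5) (nat_lit 581) (nat_lit 564) (nat_lit 415)))))) (XT.nd (nat_lit 390) (nat_lit 3268) (nat_lit 0) (XT.nd (nat_lit 156) (nat_lit 0) (nat_lit 76) (XT.nd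 (nat_lit 78) (nat_lit 0) (nat_lit 0) (XT.lf (nat_lit 0) (nat_lit 1169512533) (nat_lit 1748) (nat_lit 5943158185) (nat_lit 1824) (nat_lit 4898572890) (nat_lit 475) (nat_lit 5) (nat_lit 498) (nat_lit 5) (nat_lit 499) (nat_lit 5) (nat_lit 582) (nat_lit 564) (nat_lit 414)) (XT.lf (nat_lit 76) (nat_lit 387228596) (nat_lit 0) (nat_lit 1942930322) (nat_lit 1824) (nat_lit 9799362300) (nat_lit 476) (nat_lit 5) (nat_lit 475) (nat_lit 5) (nat_lit 499) (nat_lit 5) (nat_lit 583) (nat_lit 564) (nat_lit 413))) (XT.nd (nat_lit 78) (nat_lit 0) (nat_lit 0) (XT.lf (nat_lit 0) (nat_lit 3562940933) (nat_lit 1748) (nat_lit 5356645585) (nat_lit 1824) (nat_lit 3329601391) (nat_lit 476) (nat_lit 5) (nat_lit 499) (nat_lit 5) (nat_lit 500) (nat_lit 5) (nat_lit 584) (nat_lit 564) (nat_lit 412)) (XT.nd (nat_lit 78) (nat_lit 0) (nat_lit 76) (XT.lf (nat_lit 76) (nat_lit 1148938378) (nat_lit 0) (nat_lit 3679173797) (nat_lit 1824) (nat_lit 7542983031)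 (nat_lit 477) (nat_lit 5) (nat_lit 476) (nat_lit 5) (nat_lit 500) (nat_lit 5) (nat_lit 585) (nat_lit 564) (nat_lit 411)) (XT.lf (nat_lit 0) (nat_lit 6153193513) (nat_lit 1748) (nat_lit 4658710268) (nat_lit 1824) (nat_lit 1682846641) (nat_lit 477) (nat_lit 5) (nat_lit 500) (nat_lit 5) (nat_lit 501) (nat_lit 5) (nat_lit 586) (nat_lit 564) (nat_lit 410))))) (XT.nd (nat_lit 156) (nat_lit 3420) (nat_lit 0) (XT.nd (nat_lit 78) (nat_lit 0) (nat_lit 0) (XT.lf (nat_lit 76) (nat_lit 2028262269) (nat_lit 0) (nat_lit 5501897074) (nat_lit 1824) (nat_lit 5090213612) (nat_lit 478) (nat_lit 5) (nat_lit 477) (nat_lit 5) (nat_lit 501) (nat_lit 5) (nat_lit 587) (nat_lit 564) (nat_lit 409)) (XT.lf (nat_lit 76) (nat_lit 8902211359) (nat_lit 0) (nat_lit 51738078) (nat_lit 1824) (nat_lit 3794174633) (nat_lit 478) (nat_lit 5) (nat_lit 477) (nat_lit 5) (nat_lit 501) (nat_lit 5) (nat_lit 588) (nat_lit 564) (nat_lit 408))) (XT.nd (nat_lit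 78) (nat_lit 1748) (nat_lit 0) (XT.lf (nat_lit 0) (nat_lit 3029211668) (nat_lit 1748) (nat_lit 7420699713) (nat_lit 1824) (nat_lit 2427646704) (nat_lit 455) (nat_lit 5) (nat_lit 478) (nat_lit 5) (nat_lit 479) (nat_lit 5) (nat_lit 589) (nat_lit 564) (nat_lit 407)) (XT.nd (nat_lit 78) (nat_lit 1748) (nat_lit 0) (XT.lf (nat_lit 0) (nat_lit 10083720927) (nat_lit 1748) (nat_lit 1906656355) (nat_lit 1824) (nat_lit 1018913564) (nat_lit 455) (nat_lit 5) (nat_lit 478) (nat_lit 5) (nat_lit 479) (nat_lit 5) (nat_lit 590) (nat_lit 564) (nat_lit 406)) (XT.lf (nat_lit 0) (nat_lit 452569184) (nat_lit 1748) (nat_lit 8989756820) (nat_lit 76) (nat_lit 3700478532) (nat_lit 432) (nat_lit 5) (nat_lit 455) (nat_lit 5) (nat_lit 433) (nat_lit 5) (nat_lit 591) (nat_lit 564) (nat_lit 405))))))) (XT.nd (nat_lit 702) (nat_lit 3876) (nat_lit 0) (XT.nd (nat_lit 312) (nat_lit 2660) (nat_lit 0) (XT.nd (nat_lit 156) (nat_lit 912) (nat_lit 0) (XT.nd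 (nat_lit 78) (nat_lit 988) (nat_lit 0) (XT.lf (nat_lit 0) (nat_lit 1960995923) (nat_lit 1748) (nat_lit 1895239221) (nat_lit 76) (nat_lit 9422197164) (nat_lit 432) (nat_lit 5) (nat_lit 455) (nat_lit 5) (nat_lit 433) (nat_lit 5) (nat_lit 592) (nat_lit 564) (nat_lit 404)) (XT.lf (nat_lit 0) (nat_lit 3535838799) (nat_lit 1064) (nat_lit 8026307210) (nat_lit 76) (nat_lit 1853903303) (nat_lit 419) (nat_lit 5) (nat_lit 433) (nat_lit 5) (nat_lit 420) (nat_lit 5) (nat_lit 593) (nat_lit 564) (nat_lit 403))) (XT.nd (nat_lit 78) (nat_lit 912) (nat_lit 0) (XT.lf (nat_lit 0) (nat_lit 5169654950) (nat_lit 1064) (nat_lit 745670976) (nat_lit 76) (nat_lit 7640544795) (nat_lit 419) (nat_lit 5) (nat_lit 433) (nat_lit 5) (nat_lit 420) (nat_lit 5) (nat_lit 594) (nat_lit 564) (nat_lit 402)) (XT.lf (nat_lit 0) (nat_lit 6759427129) (nat_lit 912) (nat_lit 109956154) (nat_lit 988) (nat_lit 6828442123) (nat_lit 407) (nat_lit 5) (nat_lit 419)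 (nat_lit 5) (nat_lit 420) (nat_lit 5) (nat_lit 595) (nat_lit 564) (nat_lit 401)))) (XT.nd (nat_lit 156) (nat_lit 1748) (nat_lit 0) (XT.nd (nat_lit 78) (nat_lit 0) (nat_lit 0) (XT.lf (nat_lit 0) (nat_lit 541599551) (nat_lit 912) (nat_lit 8097292064) (nat_lit 988) (nat_lit 5203013394) (nat_lit 395) (nat_lit 5) (nat_lit 407) (nat_lit 5) (nat_lit 408) (nat_lit 5) (nat_lit 596) (nat_lit 564) (nat_lit 400)) (XT.lf (nat_lit 0) (nat_lit 8254622684) (nat_lit 912) (nat_lit 2226092589) (nat_lit 988) (nat_lit 3507413930) (nat_lit 395) (nat_lit 5) (nat_lit 407) (nat_lit 5) (nat_lit 408) (nat_lit 5) (nat_lit 597) (nat_lit 564) (nat_lit 399))) (XT.nd (nat_lit 78) (nat_lit 912) (nat_lit 0) (XT.lf (nat_lit 0) (nat_lit 1976215691) (nat_lit 836) (nat_lit 10410267024) (nat_lit 912) (nat_lit 1750254495) (nat_lit 384) (nat_lit 5) (nat_lit 395) (nat_lit 5) (nat_lit 396) (nat_lit 5) (nat_lit 598) (nat_lit 564) (nat_lit 398)) (XT.nd (nat_lit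 78) (nat_lit 836) (nat_lit 0) (XT.lf (nat_lit 0) (nat_lit 84883634) (nat_lit 912) (nat_lit 4394939060) (nat_lit 76) (nat_lit 9807622899) (nat_lit 383) (nat_lit 5) (nat_lit 395) (nat_lit 5) (nat_lit 384) (nat_lit 5) (nat_lit 599) (nat_lit 564) (nat_lit 397)) (XT.lf (nat_lit 0) (nat_lit 1956898413) (nat_lit 912) (nat_lit 10899931946) (nat_lit 76) (nat_lit 1583635595) (nat_lit 372) (nat_lit 5) (nat_lit 384) (nat_lit 5) (nat_lit 373) (nat_lit 5) (nat_lit 600) (nat_lit 564) (nat_lit 396)))))) (XT.nd (nat_lit 390) (nat_lit 1520) (nat_lit 0) (XT.nd (nat_lit 156) (nat_lit 1596) (nat_lit 0) (XT.nd (nat_lit 78) (nat_lit 760) (nat_lit 0) (XT.lf (nat_lit 0) (nat_lit 3915952684) (nat_lit 912) (nat_lit 2941438282) (nat_lit 76) (nat_lit 7738165132) (nat_lit 372) (nat_lit 5) (nat_lit 384) (nat_lit 5) (nat_lit 373) (nat_lit 5) (nat_lit 601) (nat_lit 564) (nat_lit 395)) (XT.lf (nat_lit 0) (nat_lit 5235170268) (nat_lit 760) (nat_lit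 703443095) (nat_lit 836) (nat_lit 8814647511) (nat_lit 362) (nat_lit 5) (nat_lit 372) (nat_lit 5) (nat_lit 373) (nat_lit 5) (nat_lit 602) (nat_lit 564) (nat_lit 394))) (XT.nd (nat_lit 78) (nat_lit 1596) (nat_lit 0) (XT.lf (nat_lit 0) (nat_lit 8048342618) (nat_lit 836) (nat_lit 1344700141) (nat_lit 76) (nat_lit 5520145988) (nat_lit 362) (nat_lit 5) (nat_lit 373) (nat_lit 5) (nat_lit 363) (nat_lit 5) (nat_lit 603) (nat_lit 564) (nat_lit 393)) (XT.nd (nat_lit 78) (nat_lit 760) (nat_lit 0) (XT.lf (nat_lit 0) (nat_lit 7070584491) (nat_lit 836) (nat_lit 3170991216) (nat_lit 912) (nat_lit 4833914568) (nat_lit 351) (nat_lit 5) (nat_lit 362) (nat_lit 5) (nat_lit 363) (nat_lit 5) (nat_lit 604) (nat_lit 564) (nat_lit 392)) (XT.lf (nat_lit 0) (nat_lit 406433755) (nat_lit 760) (nat_lit 12095439543) (nat_lit 836) (nat_lit 2738701798) (nat_lit 341) (nat_lit 5) (nat_lit 351) (nat_lit 5) (nat_lit 352) (nat_lit 5) (nat_lit 605)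 (nat_lit 564) (nat_lit 391))))) (XT.nd (nat_lit 156) (nat_lit 684) (nat_lit 0) (XT.nd (nat_lit 78) (nat_lit 836) (nat_lit 0) (XT.lf (nat_lit 0) (nat_lit 9063529218) (nat_lit 760) (nat_lit 5809402904) (nat_lit 836) (nat_lit 534719617) (nat_lit 341) (nat_lit 5) (nat_lit 351) (nat_lit 5) (nat_lit 352) (nat_lit 5) (nat_lit 606) (nat_lit 564) (nat_lit 390)) (XT.lf (nat_lit 0) (nat_lit 1701143090) (nat_lit 836) (nat_lit 13256363324) (nat_lit 76) (nat_lit 620136770) (nat_lit 330) (nat_lit 5) (nat_lit 341) (nat_lit 5) (nat_lit 331) (nat_lit 5) (nat_lit 607) (nat_lit 564) (nat_lit 389))) (XT.nd (nat_lit 78) (nat_lit 684) (nat_lit 0) (XT.lf (nat_lit 0) (nat_lit 4047098083) (nat_lit 836) (nat_lit 4556230930) (nat_lit 76) (nat_lit 7146185219) (nat_lit 330) (nat_lit 5) (nat_lit 341) (nat_lit 5) (nat_lit 331) (nat_lit 5) (nat_lit 608) (nat_lit 564) (nat_lit 388)) (XT.nd (nat_lit 78) (nat_lit 0) (nat_lit 0) (XT.lf (nat_lit 0)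 (nat_lit 4365612386) (nat_lit 684) (nat_lit 2094077800) (nat_lit 760) (nat_lit 9464739294) (nat_lit 321) (nat_lit 5) (nat_lit 330) (nat_lit 5) (nat_lit 331) (nat_lit 5) (nat_lit 609) (nat_lit 564) (nat_lit 387)) (XT.lf (nat_lit 0) (nat_lit 8972297655) (nat_lit 760) (nat_lit 2613941952) (nat_lit 76) (nat_lit 4515569272) (nat_lit 321) (nat_lit 5) (nat_lit 331) (nat_lit 5) (nat_lit 322) (nat_lit 5) (nat_lit 610) (nat_lit 564) (nat_lit 386))))))))
noncomputable def xc178 : XT := (XT.nd (nat_lit 1482) (nat_lit 4484) (nat_lit 0) (XT.nd (nat_lit 702) (nat_lit 3496) (nat_lit 0) (XT.nd (nat_lit 312) (nat_lit 1368) (nat_lit 0) (XT.nd (nat_lit 156) (nat_lit 1444) (nat_lit 0) (XT.nd (nat_lit 78) (nat_lit 0) (nat_lit 0) (XT.lf (nat_lit 0) (nat_lit 6572704109) (nat_lit 760) (nat_lit 5010637595) (nat_lit 836) (nat_lit 4698431568) (nat_lit 311) (nat_lit 5) (nat_lit 321) (nat_lit 5) (nat_lit 322) (nat_lit 5) (nat_lit 611) (nat_lit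 564) (nat_lit 385)) (XT.lf (nat_lit 0) (nat_lit 14267015828) (nat_lit 836) (nat_lit 507158411) (nat_lit 76) (nat_lit 1690755604) (nat_lit 311) (nat_lit 5) (nat_lit 322) (nat_lit 5) (nat_lit 312) (nat_lit 5) (nat_lit 612) (nat_lit 564) (nat_lit 384))) (XT.nd (nat_lit 78) (nat_lit 684) (nat_lit 0) (XT.lf (nat_lit 0) (nat_lit 431754984) (nat_lit 760) (nat_lit 7699260135) (nat_lit 76) (nat_lit 8519014356) (nat_lit 301) (nat_lit 5) (nat_lit 311) (nat_lit 5) (nat_lit 302) (nat_lit 5) (nat_lit 613) (nat_lit 564) (nat_lit 383)) (XT.lf (nat_lit 0) (nat_lit 1765122661) (nat_lit 684) (nat_lit 1326322178) (nat_lit 760) (nat_lit 13746959558) (nat_lit 292) (nat_lit 5) (nat_lit 301) (nat_lit 5) (nat_lit 302) (nat_lit 5) (nat_lit 614) (nat_lit 564) (nat_lit 382)))) (XT.nd (nat_lit 156) (nat_lit 760) (nat_lit 0) (XT.nd (nat_lit 78) (nat_lit 608) (nat_lit 0) (XT.lf (nat_lit 0) (nat_lit 5884821586) (nat_lit 760) (nat_lit 5552655291)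 (nat_lit 76) (nat_lit 5591461070) (nat_lit 292) (nat_lit 5) (nat_lit 302) (nat_lit 5) (nat_lit 293) (nat_lit 5) (nat_lit 615) (nat_lit 564) (nat_lit 381)) (XT.lf (nat_lit 0) (nat_lit 4195303208) (nat_lit 608) (nat_lit 4566973191) (nat_lit 684) (nat_lit 8460442530) (nat_lit 284) (nat_lit 5) (nat_lit 292) (nat_lit 5) (nat_lit 293) (nat_lit 5) (nat_lit 616) (nat_lit 564) (nat_lit 380))) (XT.nd (nat_lit 78) (nat_lit 760) (nat_lit 0) (XT.lf (nat_lit 0) (nat_lit 11742907842) (nat_lit 684) (nat_lit 3231639757) (nat_lit 76) (nat_lit 2444916335) (nat_lit 284) (nat_lit 5) (nat_lit 293) (nat_lit 5) (nat_lit 285) (nat_lit 5) (nat_lit 617) (nat_lit 564) (nat_lit 379)) (XT.nd (nat_lit 78) (nat_lit 76) (nat_lit 0) (XT.lf (nat_lit 0) (nat_lit 6809901260) (nat_lit 684) (nat_lit 8040132770) (nat_lit 760) (nat_lit 2768773100) (nat_lit 275) (nat_lit 5) (nat_lit 284) (nat_lit 5) (nat_lit 285) (nat_lit 5) (nat_lit 618) (nat_lit 564)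 (nat_lit 378)) (XT.lf (nat_lit 0) (nat_lit 208870792) (nat_lit 760) (nat_lit 736307514) (nat_lit 76) (nat_lit 16876648359) (nat_lit 274) (nat_lit 5) (nat_lit 284) (nat_lit 5) (nat_lit 275) (nat_lit 5) (nat_lit 619) (nat_lit 564) (nat_lit 377)))))) (XT.nd (nat_lit 390) (nat_lit 1748) (nat_lit 0) (XT.nd (nat_lit 156) (nat_lit 532) (nat_lit 0) (XT.nd (nat_lit 78) (nat_lit 608) (nat_lit 0) (XT.lf (nat_lit 0) (nat_lit 3305580165) (nat_lit 684) (nat_lit 8432095507) (nat_lit 76) (nat_lit 6288934037) (nat_lit 266) (nat_lit 5) (nat_lit 275) (nat_lit 5) (nat_lit 267) (nat_lit 5) (nat_lit 620) (nat_lit 564) (nat_lit 376)) (XT.lf (nat_lit 0) (nat_lit 1916229439) (nat_lit 608) (nat_lit 4564353449) (nat_lit 684) (nat_lit 11754579207) (nat_lit 258) (nat_lit 5) (nat_lit 266) (nat_lit 5) (nat_lit 267) (nat_lit 5) (nat_lit 621) (nat_lit 564) (nat_lit 375))) (XT.nd (nat_lit 78) (nat_lit 532) (nat_lit 0) (XT.lf (nat_lit 0) (nat_lit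 9786671674) (nat_lit 684) (nat_lit 5888405885) (nat_lit 76) (nat_lit 2771457096) (nat_lit 258) (nat_lit 5) (nat_lit 267) (nat_lit 5) (nat_lit 259) (nat_lit 5) (nat_lit 622) (nat_lit 564) (nat_lit 374)) (XT.nd (nat_lit 78) (nat_lit 0) (nat_lit 0) (XT.lf (nat_lit 0) (nat_lit 4774070801) (nat_lit 532) (nat_lit 8438934243) (nat_lit 608) (nat_lit 5448047995) (nat_lit 251) (nat_lit 5) (nat_lit 258) (nat_lit 5) (nat_lit 259) (nat_lit 5) (nat_lit 623) (nat_lit 564) (nat_lit 373)) (XT.lf (nat_lit 0) (nat_lit 15720629515) (nat_lit 532) (nat_lit 1019729630) (nat_lit 608) (nat_lit 2138853578) (nat_lit 251) (nat_lit 5) (nat_lit 258) (nat_lit 5) (nat_lit 259) (nat_lit 5) (nat_lit 624) (nat_lit 564) (nat_lit 372))))) (XT.nd (nat_lit 156) (nat_lit 1064) (nat_lit 0) (XT.nd (nat_lit 78) (nat_lit 0) (nat_lit 0) (XT.lf (nat_lit 0) (nat_lit 1307372005) (nat_lit 684) (nat_lit 11272906422) (nat_lit 76) (nat_lit 6519556099) (nat_lit 242)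 (nat_lit 5) (nat_lit 251) (nat_lit 5) (nat_lit 243) (nat_lit 5) (nat_lit 625) (nat_lit 564) (nat_lit 371)) (XT.lf (nat_lit 0) (nat_lit 4815135461) (nat_lit 684) (nat_lit 279507234) (nat_lit 76) (nat_lit 14229519029) (nat_lit 242) (nat_lit 5) (nat_lit 251) (nat_lit 5) (nat_lit 243) (nat_lit 5) (nat_lit 626) (nat_lit 564) (nat_lit 370))) (XT.nd (nat_lit 78) (nat_lit 532) (nat_lit 0) (XT.lf (nat_lit 0) (nat_lit 8475158614) (nat_lit 608) (nat_lit 8498478288) (nat_lit 76) (nat_lit 2577697225) (nat_lit 235) (nat_lit 5) (nat_lit 243) (nat_lit 5) (nat_lit 236) (nat_lit 5) (nat_lit 627) (nat_lit 564) (nat_lit 369)) (XT.nd (nat_lit 78) (nat_lit 0) (nat_lit 0) (XT.lf (nat_lit 0) (nat_lit 2827112930) (nat_lit 532) (nat_lit 9428585029) (nat_lit 608) (nat_lit 7526406442) (nat_lit 228) (nat_lit 5) (nat_lit 235) (nat_lit 5) (nat_lit 236) (nat_lit 5) (nat_lit 628) (nat_lit 564) (nat_lit 368)) (XT.lf (nat_lit 0) (nat_lit 14485617458)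 (nat_lit 532) (nat_lit 1676666325) (nat_lit 608) (nat_lit 3854198307) (nat_lit 228) (nat_lit 5) (nat_lit 235) (nat_lit 5) (nat_lit 236) (nat_lit 5) (nat_lit 629) (nat_lit 564) (nat_lit 367))))))) (XT.nd (nat_lit 702) (nat_lit 1824) (nat_lit 0) (XT.nd (nat_lit 312) (nat_lit 1064) (nat_lit 0) (XT.nd (nat_lit 156) (nat_lit 988) (nat_lit 0) (XT.nd (nat_lit 78) (nat_lit 76) (nat_lit 0) (XT.lf (nat_lit 0) (nat_lit 6153253500) (nat_lit 532) (nat_lit 14067671690) (nat_lit 608) (nat_lit 33144373) (nat_lit 221) (nat_lit 5) (nat_lit 228) (nat_lit 5) (nat_lit 229) (nat_lit 5) (nat_lit 630) (nat_lit 564) (nat_lit 366)) (XT.lf (nat_lit 0) (nat_lit 3855663015) (nat_lit 608) (nat_lit 2394849497) (nat_lit 76) (nat_lit 14244554883) (nat_lit 220) (nat_lit 5) (nat_lit 228) (nat_lit 5) (nat_lit 221) (nat_lit 5) (nat_lit 631) (nat_lit 564) (nat_lit 365))) (XT.nd (nat_lit 78) (nat_lit 456) (nat_lit 0) (XT.lf (nat_lit 0) (nat_lit 7889807437)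 (nat_lit 608) (nat_lit 11088189273) (nat_lit 76) (nat_lit 1761524666) (nat_lit 213) (nat_lit 5) (nat_lit 221) (nat_lit 5) (nat_lit 214) (nat_lit 5) (nat_lit 632) (nat_lit 564) (nat_lit 364)) (XT.lf (nat_lit 0) (nat_lit 944592687) (nat_lit 456) (nat_lit 11117475638) (nat_lit 532) (nat_lit 8925648094) (nat_lit 207) (nat_lit 5) (nat_lit 213) (nat_lit 5) (nat_lit 214) (nat_lit 5) (nat_lit 633) (nat_lit 564) (nat_lit 363)))) (XT.nd (nat_lit 156) (nat_lit 532) (nat_lit 0) (XT.nd (nat_lit 78) (nat_lit 532) (nat_lit 0) (XT.lf (nat_lit 0) (nat_lit 13359738143) (nat_lit 456) (nat_lit 3026240426) (nat_lit 532) (nat_lit 4853533353) (nat_lit 207) (nat_lit 5) (nat_lit 213) (nat_lit 5) (nat_lit 214) (nat_lit 5) (nat_lit 634) (nat_lit 564) (nat_lit 362)) (XT.lf (nat_lit 0) (nat_lit 4543968184) (nat_lit 532) (nat_lit 16309740228) (nat_lit 608) (nat_lit 641488723) (nat_lit 200) (nat_lit 5) (nat_lit 207) (nat_lit 5) (nat_lit 208)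 (nat_lit 5) (nat_lit 635) (nat_lit 564) (nat_lit 361))) (XT.nd (nat_lit 78) (nat_lit 456) (nat_lit 0) (XT.lf (nat_lit 0) (nat_lit 3674059327) (nat_lit 608) (nat_lit 4484621122) (nat_lit 76) (nat_lit 13595497705) (nat_lit 199) (nat_lit 5) (nat_lit 207) (nat_lit 5) (nat_lit 200) (nat_lit 5) (nat_lit 636) (nat_lit 564) (nat_lit 360)) (XT.nd (nat_lit 78) (nat_lit 0) (nat_lit 0) (XT.lf (nat_lit 0) (nat_lit 8116832434) (nat_lit 532) (nat_lit 13690770243) (nat_lit 76) (nat_lit 209661830) (nat_lit 193) (nat_lit 5) (nat_lit 200) (nat_lit 5) (nat_lit 194) (nat_lit 5) (nat_lit 637) (nat_lit 564) (nat_lit 359)) (XT.lf (nat_lit 0) (nat_lit 12726878205) (nat_lit 532) (nat_lit 893057463) (nat_lit 76) (nat_lit 8664109157) (nat_lit 193) (nat_lit 5) (nat_lit 200) (nat_lit 5) (nat_lit 194) (nat_lit 5) (nat_lit 638) (nat_lit 564) (nat_lit 358)))))) (XT.nd (nat_lit 390) (nat_lit 380) (nat_lit 0) (XT.nd (nat_lit 156) (nat_lit 532) (nat_lit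 0) (XT.nd (nat_lit 78) (nat_lit 456) (nat_lit 0) (XT.lf (nat_lit 0) (nat_lit 12313834549) (nat_lit 456) (nat_lit 5189448489) (nat_lit 532) (nat_lit 5051395118) (nat_lit 187) (nat_lit 5) (nat_lit 193) (nat_lit 5) (nat_lit 194) (nat_lit 5) (nat_lit 639) (nat_lit 564) (nat_lit 357)) (XT.lf (nat_lit 0) (nat_lit 2974886740) (nat_lit 456) (nat_lit 19442067051) (nat_lit 532) (nat_lit 412936166) (nat_lit 181) (nat_lit 5) (nat_lit 187) (nat_lit 5) (nat_lit 188) (nat_lit 5) (nat_lit 640) (nat_lit 564) (nat_lit 356))) (XT.nd (nat_lit 78) (nat_lit 456) (nat_lit 0) (XT.lf (nat_lit 0) (nat_lit 4359474001) (nat_lit 532) (nat_lit 6586681770) (nat_lit 76) (nat_lit 12161933669) (nat_lit 180) (nat_lit 5) (nat_lit 187) (nat_lit 5) (nat_lit 181) (nat_lit 5) (nat_lit 641) (nat_lit 564) (nat_lit 355)) (XT.nd (nat_lit 78) (nat_lit 0) (nat_lit 0) (XT.lf (nat_lit 0) (nat_lit 7028272308) (nat_lit 456) (nat_lit 2233553953) (nat_lit 532) (nat_lit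 14129172127) (nat_lit 174) (nat_lit 5) (nat_lit 180) (nat_lit 5) (nat_lit 181) (nat_lit 5) (nat_lit 642) (nat_lit 564) (nat_lit 354)) (XT.lf (nat_lit 0) (nat_lit 14344342441) (nat_lit 532) (nat_lit 2725579573) (nat_lit 76) (nat_lit 6608001678) (nat_lit 174) (nat_lit 5) (nat_lit 181) (nat_lit 5) (nat_lit 175) (nat_lit 5) (nat_lit 643) (nat_lit 564) (nat_lit 353))))) (XT.nd (nat_lit 75114) (nat_lit 0) (nat_lit 26144) (XT.nd (nat_lit 75036) (nat_lit 0) (nat_lit 26144) (XT.lf (nat_lit 0) (nat_lit 11309791811) (nat_lit 380) (nat_lit 8301475258) (nat_lit 456) (nat_lit 4357665778) (nat_lit 169) (nat_lit 5) (nat_lit 174) (nat_lit 5) (nat_lit 175) (nat_lit 5) (nat_lit 644) (nat_lit 564) (nat_lit 352)) (XT.lf (nat_lit 0) (nat_lit 2033665327) (nat_lit 0) (nat_lit 2033665327) (nat_lit 1596) (nat_lit 1111484520) (nat_lit 513) (nat_lit 5) (nat_lit 513) (nat_lit 3) (nat_lit 534) (nat_lit 3) (nat_lit 565) (nat_lit 565) (nat_lit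 430))) (XT.nd (nat_lit 78) (nat_lit 0) (nat_lit 0) (XT.lf (nat_lit 0) (nat_lit 8867902226) (nat_lit 1596) (nat_lit 1209018149) (nat_lit 1672) (nat_lit 371140397) (nat_lit 513) (nat_lit 5) (nat_lit 534) (nat_lit 3) (nat_lit 535) (nat_lit 5) (nat_lit 566) (nat_lit 565) (nat_lit 429)) (XT.nd (nat_lit 78) (nat_lit 0) (nat_lit 0) (XT.lf (nat_lit 76) (nat_lit 3990370965) (nat_lit 0) (nat_lit 5661301020) (nat_lit 1672) (nat_lit 887913367) (nat_lit 514) (nat_lit 5) (nat_lit 513) (nat_lit 5) (nat_lit 535) (nat_lit 5) (nat_lit 567) (nat_lit 565) (nat_lit 428)) (XT.lf (nat_lit 76) (nat_lit 9301278553) (nat_lit 0) (nat_lit 1141247095) (nat_lit 1672) (nat_lit 190589385) (nat_lit 514) (nat_lit 5) (nat_lit 513) (nat_lit 5) (nat_lit 535) (nat_lit 5) (nat_lit 568) (nat_lit 565) (nat_lit 427))))))))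
noncomputable def xc179 : XT := (XT.nd (nat_lit 1482) (nat_lit 10108) (nat_lit 0) (XT.nd (nat_lit 702) (nat_lit 1368) (nat_lit 0) (XT.nd (nat_lit 312) (nat_lit 0) (nat_lit 152) (XT.nd (nat_lit 156) (nat_lit 0) (nat_lit 76) (XT.nd (nat_lit 78) (nat_lit 0) (nat_lit 0) (XT.lf (nat_lit 0) (nat_lit 546301760) (nat_lit 1672) (nat_lit 6720563434) (nat_lit 1748) (nat_lit 3460936181) (nat_lit 492) (nat_lit 5) (nat_lit 514) (nat_lit 5) (nat_lit 515) (nat_lit 5) (nat_lit 569) (nat_lit 565) (nat_lit 426)) (XT.lf (nat_lit 0) (nat_lit 1295761057) (nat_lit 1672) (nat_lit 1371157077) (nat_lit 1748) (nat_lit 8157433083) (nat_lit 492) (nat_lit 5) (nat_lit 514) (nat_lit 5) (nat_lit 515) (nat_lit 5) (nat_lit 570) (nat_lit 565) (nat_lit 425))) (XT.nd (nat_lit 78) (nat_lit 0) (nat_lit 0) (XT.lf (nat_lit 0) (nat_lit 2084538934) (nat_lit 1672) (nat_lit 6805618700) (nat_lit 1748) (nat_lit 2032190401) (nat_lit 493) (nat_lit 5) (nat_lit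 515) (nat_lit 5) (nat_lit 516) (nat_lit 5) (nat_lit 571) (nat_lit 565) (nat_lit 424)) (XT.lf (nat_lit 0) (nat_lit 2900454453) (nat_lit 1672) (nat_lit 1316223165) (nat_lit 1748) (nat_lit 6805402445) (nat_lit 493) (nat_lit 5) (nat_lit 515) (nat_lit 5) (nat_lit 516) (nat_lit 5) (nat_lit 572) (nat_lit 565) (nat_lit 423)))) (XT.nd (nat_lit 156) (nat_lit 0) (nat_lit 0) (XT.nd (nat_lit 78) (nat_lit 0) (nat_lit 0) (XT.lf (nat_lit 0) (nat_lit 3749347340) (nat_lit 1672) (nat_lit 6796750143) (nat_lit 1748) (nat_lit 577378532) (nat_lit 494) (nat_lit 5) (nat_lit 516) (nat_lit 5) (nat_lit 517) (nat_lit 5) (nat_lit 573) (nat_lit 565) (nat_lit 422)) (XT.lf (nat_lit 0) (nat_lit 4637056061) (nat_lit 1672) (nat_lit 1163768548) (nat_lit 1748) (nat_lit 5425640937) (nat_lit 494) (nat_lit 5) (nat_lit 516) (nat_lit 5) (nat_lit 517) (nat_lit 5) (nat_lit 574) (nat_lit 565) (nat_lit 421))) (XT.nd (nat_lit 78) (nat_lit 0) (nat_lit 76) (XT.lf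 (nat_lit 76) (nat_lit 4633387999) (nat_lit 0) (nat_lit 924529586) (nat_lit 1748) (nat_lit 5773291680) (nat_lit 495) (nat_lit 5) (nat_lit 494) (nat_lit 5) (nat_lit 517) (nat_lit 5) (nat_lit 575) (nat_lit 565) (nat_lit 420)) (XT.nd (nat_lit 78) (nat_lit 0) (nat_lit 0) (XT.lf (nat_lit 0) (nat_lit 6516926280) (nat_lit 1672) (nat_lit 911488358) (nat_lit 1748) (nat_lit 4009240946) (nat_lit 495) (nat_lit 5) (nat_lit 517) (nat_lit 5) (nat_lit 518) (nat_lit 5) (nat_lit 576) (nat_lit 565) (nat_lit 419)) (XT.lf (nat_lit 76) (nat_lit 5041234653) (nat_lit 0) (nat_lit 2478595065) (nat_lit 1748) (nat_lit 4025909096) (nat_lit 496) (nat_lit 5) (nat_lit 495) (nat_lit 5) (nat_lit 518) (nat_lit 5) (nat_lit 577) (nat_lit 565) (nat_lit 418)))))) (XT.nd (nat_lit 390) (nat_lit 0) (nat_lit 76) (XT.nd (nat_lit 156) (nat_lit 1672) (nat_lit 0) (XT.nd (nat_lit 78) (nat_lit 0) (nat_lit 0) (XT.lf (nat_lit 0) (nat_lit 8551743965) (nat_lit 1672)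 (nat_lit 556801919) (nat_lit 1748) (nat_lit 2547261006) (nat_lit 496) (nat_lit 5) (nat_lit 518) (nat_lit 5) (nat_lit 519) (nat_lit 5) (nat_lit 578) (nat_lit 565) (nat_lit 417)) (XT.lf (nat_lit 76) (nat_lit 5556927739) (nat_lit 0) (nat_lit 4086243031) (nat_lit 1748) (nat_lit 2124130260) (nat_lit 497) (nat_lit 5) (nat_lit 496) (nat_lit 5) (nat_lit 519) (nat_lit 5) (nat_lit 579) (nat_lit 565) (nat_lit 416))) (XT.nd (nat_lit 78) (nat_lit 1748) (nat_lit 0) (XT.lf (nat_lit 0) (nat_lit 10753530429) (nat_lit 1672) (nat_lit 96852490) (nat_lit 1748) (nat_lit 1030702195) (nat_lit 497) (nat_lit 5) (nat_lit 519) (nat_lit 5) (nat_lit 520) (nat_lit 5) (nat_lit 580) (nat_lit 565) (nat_lit 415)) (XT.nd (nat_lit 78) (nat_lit 1748) (nat_lit 0) (XT.lf (nat_lit 76) (nat_lit 6183537164) (nat_lit 0) (nat_lit 5756644889) (nat_lit 1748) (nat_lit 55883236) (nat_lit 498) (nat_lit 5) (nat_lit 497) (nat_lit 5) (nat_lit 520) (nat_lit 5) (nat_lit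 581) (nat_lit 565) (nat_lit 414)) (XT.lf (nat_lit 76) (nat_lit 467354764) (nat_lit 0) (nat_lit 546936883) (nat_lit 1824) (nat_lit 11099107290) (nat_lit 475) (nat_lit 5) (nat_lit 474) (nat_lit 5) (nat_lit 498) (nat_lit 5) (nat_lit 582) (nat_lit 565) (nat_lit 413))))) (XT.nd (nat_lit 156) (nat_lit 0) (nat_lit 76) (XT.nd (nat_lit 78) (nat_lit 0) (nat_lit 0) (XT.lf (nat_lit 0) (nat_lit 2162536166) (nat_lit 1748) (nat_lit 5322020860) (nat_lit 1824) (nat_lit 4747368540) (nat_lit 475) (nat_lit 5) (nat_lit 498) (nat_lit 5) (nat_lit 499) (nat_lit 5) (nat_lit 583) (nat_lit 565) (nat_lit 412)) (XT.lf (nat_lit 76) (nat_lit 1130105233) (nat_lit 0) (nat_lit 2202050791) (nat_lit 1824) (nat_lit 9020700438) (nat_lit 476) (nat_lit 5) (nat_lit 475) (nat_lit 5) (nat_lit 499) (nat_lit 5) (nat_lit 584) (nat_lit 565) (nat_lit 411))) (XT.nd (nat_lit 78) (nat_lit 0) (nat_lit 0) (XT.lf (nat_lit 0) (nat_lit 4569458420) (nat_lit 1748) (nat_lit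 4722781113) (nat_lit 1824) (nat_lit 3183082548) (nat_lit 476) (nat_lit 5) (nat_lit 499) (nat_lit 5) (nat_lit 500) (nat_lit 5) (nat_lit 585) (nat_lit 565) (nat_lit 410)) (XT.nd (nat_lit 78) (nat_lit 0) (nat_lit 76) (XT.lf (nat_lit 76) (nat_lit 1908039546) (nat_lit 0) (nat_lit 3938334530) (nat_lit 1824) (nat_lit 6753567459) (nat_lit 477) (nat_lit 5) (nat_lit 476) (nat_lit 5) (nat_lit 500) (nat_lit 5) (nat_lit 586) (nat_lit 565) (nat_lit 409)) (XT.lf (nat_lit 0) (nat_lit 7178703234) (nat_lit 1748) (nat_lit 4010803232) (nat_lit 1824) (nat_lit 1536951242) (nat_lit 477) (nat_lit 5) (nat_lit 500) (nat_lit 5) (nat_lit 501) (nat_lit 5) (nat_lit 587) (nat_lit 565) (nat_lit 408))))))) (XT.nd (nat_lit 702) (nat_lit 5016) (nat_lit 0) (XT.nd (nat_lit 312) (nat_lit 3648) (nat_lit 0) (XT.nd (nat_lit 156) (nat_lit 1672) (nat_lit 0) (XT.nd (nat_lit 78) (nat_lit 0) (nat_lit 0) (XT.lf (nat_lit 76) (nat_lit 2805033221) (nat_lit 0)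 (nat_lit 5765260078) (nat_lit 1824) (nat_lit 4284560416) (nat_lit 478) (nat_lit 5) (nat_lit 477) (nat_lit 5) (nat_lit 501) (nat_lit 5) (nat_lit 588) (nat_lit 565) (nat_lit 407)) (XT.lf (nat_lit 76) (nat_lit 9802025887) (nat_lit 0) (nat_lit 203091528) (nat_lit 1824) (nat_lit 2980393941) (nat_lit 478) (nat_lit 5) (nat_lit 477) (nat_lit 5) (nat_lit 501) (nat_lit 5) (nat_lit 589) (nat_lit 565) (nat_lit 406))) (XT.nd (nat_lit 78) (nat_lit 0) (nat_lit 0) (XT.lf (nat_lit 0) (nat_lit 3825246830) (nat_lit 1748) (nat_lit 7692470187) (nat_lit 1824) (nat_lit 1600085282) (nat_lit 455) (nat_lit 5) (nat_lit 478) (nat_lit 5) (nat_lit 479) (nat_lit 5) (nat_lit 590) (nat_lit 565) (nat_lit 405)) (XT.lf (nat_lit 0) (nat_lit 11006425667) (nat_lit 1748) (nat_lit 2065727208) (nat_lit 1824) (nat_lit 180356192) (nat_lit 455) (nat_lit 5) (nat_lit 478) (nat_lit 5) (nat_lit 479) (nat_lit 5) (nat_lit 591) (nat_lit 565) (nat_lit 404)))) (XT.nd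 (nat_lit 156) (nat_lit 1900) (nat_lit 0) (XT.nd (nat_lit 78) (nat_lit 0) (nat_lit 0) (XT.lf (nat_lit 0) (nat_lit 1296691885) (nat_lit 1748) (nat_lit 8424408333) (nat_lit 76) (nat_lit 3667735728) (nat_lit 432) (nat_lit 5) (nat_lit 455) (nat_lit 5) (nat_lit 433) (nat_lit 5) (nat_lit 592) (nat_lit 565) (nat_lit 403)) (XT.lf (nat_lit 0) (nat_lit 2818913211) (nat_lit 1748) (nat_lit 1202611041) (nat_lit 76) (nat_lit 9505981917) (nat_lit 432) (nat_lit 5) (nat_lit 455) (nat_lit 5) (nat_lit 433) (nat_lit 5) (nat_lit 593) (nat_lit 565) (nat_lit 402))) (XT.nd (nat_lit 78) (nat_lit 912) (nat_lit 0) (XT.lf (nat_lit 0) (nat_lit 4413381962) (nat_lit 1064) (nat_lit 7444310938) (nat_lit 76) (nat_lit 1810422402) (nat_lit 419) (nat_lit 5) (nat_lit 433) (nat_lit 5) (nat_lit 420) (nat_lit 5) (nat_lit 594) (nat_lit 565) (nat_lit 401)) (XT.nd (nat_lit 78) (nat_lit 912) (nat_lit 0) (XT.lf (nat_lit 0) (nat_lit 6064054311) (nat_lit 1064)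 (nat_lit 32621242) (nat_lit 76) (nat_lit 7714376312) (nat_lit 419) (nat_lit 5) (nat_lit 433) (nat_lit 5) (nat_lit 420) (nat_lit 5) (nat_lit 595) (nat_lit 565) (nat_lit 400)) (XT.lf (nat_lit 0) (nat_lit 7617789594) (nat_lit 912) (nat_lit 169173015) (nat_lit 988) (nat_lit 6169101604) (nat_lit 407) (nat_lit 5) (nat_lit 419) (nat_lit 5) (nat_lit 420) (nat_lit 5) (nat_lit 596) (nat_lit 565) (nat_lit 399)))))) (XT.nd (nat_lit 390) (nat_lit 2356) (nat_lit 0) (XT.nd (nat_lit 156) (nat_lit 1748) (nat_lit 0) (XT.nd (nat_lit 78) (nat_lit 0) (nat_lit 0) (XT.lf (nat_lit 0) (nat_lit 1286829799) (nat_lit 912) (nat_lit 8294138695) (nat_lit 988) (nat_lit 4522276998) (nat_lit 395) (nat_lit 5) (nat_lit 407) (nat_lit 5) (nat_lit 408) (nat_lit 5) (nat_lit 597) (nat_lit 565) (nat_lit 398)) (XT.lf (nat_lit 0) (nat_lit 9139713429) (nat_lit 912) (nat_lit 2304830902) (nat_lit 988) (nat_lit 2808153715) (nat_lit 395) (nat_lit 5) (nat_lit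 407) (nat_lit 5) (nat_lit 408) (nat_lit 5) (nat_lit 598) (nat_lit 565) (nat_lit 397))) (XT.nd (nat_lit 78) (nat_lit 912) (nat_lit 0) (XT.lf (nat_lit 0) (nat_lit 2746315942) (nat_lit 836) (nat_lit 10631848237) (nat_lit 912) (nat_lit 1026321437) (nat_lit 384) (nat_lit 5) (nat_lit 395) (nat_lit 5) (nat_lit 396) (nat_lit 5) (nat_lit 599) (nat_lit 565) (nat_lit 396)) (XT.nd (nat_lit 78) (nat_lit 836) (nat_lit 0) (XT.lf (nat_lit 0) (nat_lit 820879873) (nat_lit 912) (nat_lit 3756725346) (nat_lit 76) (nat_lit 9980800180) (nat_lit 383) (nat_lit 5) (nat_lit 395) (nat_lit 5) (nat_lit 384) (nat_lit 5) (nat_lit 600) (nat_lit 565) (nat_lit 395)) (XT.lf (nat_lit 0) (nat_lit 2720599233) (nat_lit 912) (nat_lit 10381981263) (nat_lit 76) (nat_lit 1612102407) (nat_lit 372) (nat_lit 5) (nat_lit 384) (nat_lit 5) (nat_lit 373) (nat_lit 5) (nat_lit 601) (nat_lit 565) (nat_lit 394))))) (XT.nd (nat_lit 156) (nat_lit 1596) (nat_lit 0) (XT.nd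 (nat_lit 78) (nat_lit 760) (nat_lit 0) (XT.lf (nat_lit 0) (nat_lit 4704627474) (nat_lit 912) (nat_lit 2278748105) (nat_lit 76) (nat_lit 7889785397) (nat_lit 372) (nat_lit 5) (nat_lit 384) (nat_lit 5) (nat_lit 373) (nat_lit 5) (nat_lit 602) (nat_lit 565) (nat_lit 393)) (XT.lf (nat_lit 0) (nat_lit 6056645781) (nat_lit 760) (nat_lit 701820803) (nat_lit 836) (nat_lit 8275740703) (nat_lit 362) (nat_lit 5) (nat_lit 372) (nat_lit 5) (nat_lit 373) (nat_lit 5) (nat_lit 603) (nat_lit 565) (nat_lit 392))) (XT.nd (nat_lit 78) (nat_lit 1596) (nat_lit 0) (XT.lf (nat_lit 0) (nat_lit 8896743617) (nat_lit 836) (nat_lit 655134306) (nat_lit 76) (nat_lit 5645730636) (nat_lit 362) (nat_lit 5) (nat_lit 373) (nat_lit 5) (nat_lit 363) (nat_lit 5) (nat_lit 604) (nat_lit 565) (nat_lit 391)) (XT.nd (nat_lit 78) (nat_lit 760) (nat_lit 0) (XT.lf (nat_lit 0) (nat_lit 7923742467) (nat_lit 836) (nat_lit 3201240929) (nat_lit 912) (nat_lit 4238351749)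 (nat_lit 351) (nat_lit 5) (nat_lit 362) (nat_lit 5) (nat_lit 363) (nat_lit 5) (nat_lit 605) (nat_lit 565) (nat_lit 390)) (XT.lf (nat_lit 0) (nat_lit 1134987265) (nat_lit 760) (nat_lit 12287082875) (nat_lit 836) (nat_lit 2109821690) (nat_lit 341) (nat_lit 5) (nat_lit 351) (nat_lit 5) (nat_lit 352) (nat_lit 5) (nat_lit 606) (nat_lit 565) (nat_lit 389))))))))
noncomputable def xc180 : XT := (XT.nd (nat_lit 1482) (nat_lit 5852) (nat_lit 0) (XT.nd (nat_lit 702) (nat_lit 3116) (nat_lit 0) (XT.nd (nat_lit 312) (nat_lit 2204) (nat_lit 0) (XT.nd (nat_lit 156) (nat_lit 684) (nat_lit 0) (XT.nd (nat_lit 78) (nat_lit 760) (nat_lit 0) (XT.lf (nat_lit 0) (nat_lit 123197915) (nat_lit 836) (nat_lit 5752286462) (nat_lit 76) (nat_lit 9827074022) (nat_lit 340) (nat_lit 5) (nat_lit 351) (nat_lit 5) (nat_lit 341) (nat_lit 5) (nat_lit 607) (nat_lit 565) (nat_lit 388)) (XT.lf (nat_lit 0) (nat_lit 2388640238) (nat_lit 836) (nat_lit 12798242537)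 (nat_lit 76) (nat_lit 689157489) (nat_lit 330) (nat_lit 5) (nat_lit 341) (nat_lit 5) (nat_lit 331) (nat_lit 5) (nat_lit 608) (nat_lit 565) (nat_lit 387))) (XT.nd (nat_lit 78) (nat_lit 684) (nat_lit 0) (XT.lf (nat_lit 0) (nat_lit 4768701110) (nat_lit 836) (nat_lit 3938288829) (nat_lit 76) (nat_lit 7344616750) (nat_lit 330) (nat_lit 5) (nat_lit 341) (nat_lit 5) (nat_lit 331) (nat_lit 5) (nat_lit 609) (nat_lit 565) (nat_lit 386)) (XT.lf (nat_lit 0) (nat_lit 5157326440) (nat_lit 684) (nat_lit 2064230077) (nat_lit 760) (nat_lit 9008625155) (nat_lit 321) (nat_lit 5) (nat_lit 330) (nat_lit 5) (nat_lit 331) (nat_lit 5) (nat_lit 610) (nat_lit 565) (nat_lit 385)))) (XT.nd (nat_lit 156) (nat_lit 1444) (nat_lit 0) (XT.nd (nat_lit 78) (nat_lit 760) (nat_lit 0) (XT.lf (nat_lit 0) (nat_lit 9772467374) (nat_lit 760) (nat_lit 1963600703) (nat_lit 76) (nat_lit 4675281183) (nat_lit 321) (nat_lit 5) (nat_lit 331) (nat_lit 5) (nat_lit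 322) (nat_lit 5) (nat_lit 611) (nat_lit 565) (nat_lit 384)) (XT.lf (nat_lit 0) (nat_lit 7402155780) (nat_lit 760) (nat_lit 5025937335) (nat_lit 836) (nat_lit 4166974206) (nat_lit 311) (nat_lit 5) (nat_lit 321) (nat_lit 5) (nat_lit 322) (nat_lit 5) (nat_lit 612) (nat_lit 565) (nat_lit 383))) (XT.nd (nat_lit 78) (nat_lit 760) (nat_lit 0) (XT.lf (nat_lit 0) (nat_lit 180941792) (nat_lit 684) (nat_lit 14974192958) (nat_lit 760) (nat_lit 1626959956) (nat_lit 302) (nat_lit 5) (nat_lit 311) (nat_lit 5) (nat_lit 312) (nat_lit 5) (nat_lit 613) (nat_lit 565) (nat_lit 382)) (XT.nd (nat_lit 78) (nat_lit 684) (nat_lit 0) (XT.lf (nat_lit 0) (nat_lit 1038697430) (nat_lit 760) (nat_lit 7153926826) (nat_lit 76) (nat_lit 8778364535) (nat_lit 301) (nat_lit 5) (nat_lit 311) (nat_lit 5) (nat_lit 302) (nat_lit 5) (nat_lit 614) (nat_lit 565) (nat_lit 381)) (XT.lf (nat_lit 0) (nat_lit 2495142847) (nat_lit 684) (nat_lit 1249217287) (nat_lit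 760) (nat_lit 13418916969) (nat_lit 292) (nat_lit 5) (nat_lit 301) (nat_lit 5) (nat_lit 302) (nat_lit 5) (nat_lit 615) (nat_lit 565) (nat_lit 380)))))) (XT.nd (nat_lit 390) (nat_lit 1748) (nat_lit 0) (XT.nd (nat_lit 156) (nat_lit 760) (nat_lit 0) (XT.nd (nat_lit 78) (nat_lit 608) (nat_lit 0) (XT.lf (nat_lit 0) (nat_lit 6582674136) (nat_lit 760) (nat_lit 4971610092) (nat_lit 76) (nat_lit 5803557146) (nat_lit 292) (nat_lit 5) (nat_lit 302) (nat_lit 5) (nat_lit 293) (nat_lit 5) (nat_lit 616) (nat_lit 565) (nat_lit 379)) (XT.lf (nat_lit 0) (nat_lit 4966754300) (nat_lit 608) (nat_lit 4544012134) (nat_lit 684) (nat_lit 8044871189) (nat_lit 284) (nat_lit 5) (nat_lit 292) (nat_lit 5) (nat_lit 293) (nat_lit 5) (nat_lit 617) (nat_lit 565) (nat_lit 378))) (XT.nd (nat_lit 78) (nat_lit 760) (nat_lit 0) (XT.lf (nat_lit 0) (nat_lit 12540497980) (nat_lit 684) (nat_lit 2611626868) (nat_lit 76) (nat_lit 2604404318) (nat_lit 284)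 (nat_lit 5) (nat_lit 293) (nat_lit 5) (nat_lit 285) (nat_lit 5) (nat_lit 618) (nat_lit 565) (nat_lit 377)) (XT.nd (nat_lit 78) (nat_lit 76) (nat_lit 0) (XT.lf (nat_lit 0) (nat_lit 7626240721) (nat_lit 684) (nat_lit 8076907940) (nat_lit 760) (nat_lit 2256844287) (nat_lit 275) (nat_lit 5) (nat_lit 284) (nat_lit 5) (nat_lit 285) (nat_lit 5) (nat_lit 619) (nat_lit 565) (nat_lit 376)) (XT.lf (nat_lit 0) (nat_lit 761934461) (nat_lit 760) (nat_lit 76868522) (nat_lit 76) (nat_lit 17328417087) (nat_lit 274) (nat_lit 5) (nat_lit 284) (nat_lit 5) (nat_lit 275) (nat_lit 5) (nat_lit 620) (nat_lit 565) (nat_lit 375))))) (XT.nd (nat_lit 156) (nat_lit 532) (nat_lit 0) (XT.nd (nat_lit 78) (nat_lit 608) (nat_lit 0) (XT.lf (nat_lit 0) (nat_lit 3914990117) (nat_lit 684) (nat_lit 7920920251) (nat_lit 76) (nat_lit 6540301447) (nat_lit 266) (nat_lit 5) (nat_lit 275) (nat_lit 5) (nat_lit 267) (nat_lit 5) (nat_lit 621) (nat_lit 565) (nat_lit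 374)) (XT.lf (nat_lit 0) (nat_lit 2629898713) (nat_lit 608) (nat_lit 4517326059) (nat_lit 684) (nat_lit 11441837097) (nat_lit 258) (nat_lit 5) (nat_lit 266) (nat_lit 5) (nat_lit 267) (nat_lit 5) (nat_lit 622) (nat_lit 565) (nat_lit 373))) (XT.nd (nat_lit 78) (nat_lit 532) (nat_lit 0) (XT.lf (nat_lit 0) (nat_lit 10509785749) (nat_lit 684) (nat_lit 5334360156) (nat_lit 76) (nat_lit 2960710198) (nat_lit 258) (nat_lit 5) (nat_lit 267) (nat_lit 5) (nat_lit 259) (nat_lit 5) (nat_lit 623) (nat_lit 565) (nat_lit 372)) (XT.nd (nat_lit 78) (nat_lit 0) (nat_lit 0) (XT.lf (nat_lit 0) (nat_lit 5536946236) (nat_lit 532) (nat_lit 8461691919) (nat_lit 608) (nat_lit 5025148063) (nat_lit 251) (nat_lit 5) (nat_lit 258) (nat_lit 5) (nat_lit 259) (nat_lit 5) (nat_lit 624) (nat_lit 565) (nat_lit 371)) (XT.lf (nat_lit 0) (nat_lit 16689349967) (nat_lit 532) (nat_lit 896966371) (nat_lit 608) (nat_lit 1660198402) (nat_lit 251) (nat_lit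 5) (nat_lit 258) (nat_lit 5) (nat_lit 259) (nat_lit 5) (nat_lit 625) (nat_lit 565) (nat_lit 370))))))) (XT.nd (nat_lit 702) (nat_lit 2508) (nat_lit 0) (XT.nd (nat_lit 312) (nat_lit 1596) (nat_lit 0) (XT.nd (nat_lit 156) (nat_lit 532) (nat_lit 0) (XT.nd (nat_lit 78) (nat_lit 532) (nat_lit 0) (XT.lf (nat_lit 0) (nat_lit 1843249155) (nat_lit 684) (nat_lit 10832239138) (nat_lit 76) (nat_lit 6796091392) (nat_lit 242) (nat_lit 5) (nat_lit 251) (nat_lit 5) (nat_lit 243) (nat_lit 5) (nat_lit 626) (nat_lit 565) (nat_lit 369)) (XT.lf (nat_lit 0) (nat_lit 372856835) (nat_lit 532) (nat_lit 5040737179) (nat_lit 608) (nat_lit 14286952007) (nat_lit 235) (nat_lit 5) (nat_lit 242) (nat_lit 5) (nat_lit 243) (nat_lit 5) (nat_lit 627) (nat_lit 565) (nat_lit 368))) (XT.nd (nat_lit 78) (nat_lit 532) (nat_lit 0) (XT.lf (nat_lit 0) (nat_lit 9139814191) (nat_lit 608) (nat_lit 8010746392) (nat_lit 76) (nat_lit 2781842452) (nat_lit 235)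 (nat_lit 5) (nat_lit 243) (nat_lit 5) (nat_lit 236) (nat_lit 5) (nat_lit 628) (nat_lit 565) (nat_lit 367)) (XT.lf (nat_lit 0) (nat_lit 3537029668) (nat_lit 532) (nat_lit 9453467925) (nat_lit 608) (nat_lit 7177401530) (nat_lit 228) (nat_lit 5) (nat_lit 235) (nat_lit 5) (nat_lit 236) (nat_lit 5) (nat_lit 629) (nat_lit 565) (nat_lit 366)))) (XT.nd (nat_lit 156) (nat_lit 988) (nat_lit 0) (XT.nd (nat_lit 78) (nat_lit 608) (nat_lit 0) (XT.lf (nat_lit 0) (nat_lit 15415893022) (nat_lit 532) (nat_lit 1549720431) (nat_lit 608) (nat_lit 3441543998) (nat_lit 228) (nat_lit 5) (nat_lit 235) (nat_lit 5) (nat_lit 236) (nat_lit 5) (nat_lit 630) (nat_lit 565) (nat_lit 365)) (XT.lf (nat_lit 0) (nat_lit 445717777) (nat_lit 608) (nat_lit 13731290917) (nat_lit 76) (nat_lit 6472514458) (nat_lit 220) (nat_lit 5) (nat_lit 228) (nat_lit 5) (nat_lit 221) (nat_lit 5) (nat_lit 631) (nat_lit 565) (nat_lit 364))) (XT.nd (nat_lit 78) (nat_lit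 988) (nat_lit 0) (XT.lf (nat_lit 0) (nat_lit 4402464169) (nat_lit 608) (nat_lit 1804195537) (nat_lit 76) (nat_lit 14688865712) (nat_lit 220) (nat_lit 5) (nat_lit 228) (nat_lit 5) (nat_lit 221) (nat_lit 5) (nat_lit 632) (nat_lit 565) (nat_lit 363)) (XT.nd (nat_lit 78) (nat_lit 456) (nat_lit 0) (XT.lf (nat_lit 0) (nat_lit 8513302682) (nat_lit 608) (nat_lit 10667364717) (nat_lit 76) (nat_lit 1964281827) (nat_lit 213) (nat_lit 5) (nat_lit 221) (nat_lit 5) (nat_lit 214) (nat_lit 5) (nat_lit 633) (nat_lit 565) (nat_lit 362)) (XT.lf (nat_lit 0) (nat_lit 1601845328) (nat_lit 456) (nat_lit 11162176767) (nat_lit 532) (nat_lit 8634186761) (nat_lit 207) (nat_lit 5) (nat_lit 213) (nat_lit 5) (nat_lit 214) (nat_lit 5) (nat_lit 634) (nat_lit 565) (nat_lit 361)))))) (XT.nd (nat_lit 390) (nat_lit 1444) (nat_lit 0) (XT.nd (nat_lit 156) (nat_lit 532) (nat_lit 0) (XT.nd (nat_lit 78) (nat_lit 532) (nat_lit 0) (XT.lf (nat_lit 0) (nat_lit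 14252776815) (nat_lit 456) (nat_lit 2912600152) (nat_lit 532) (nat_lit 4489844908) (nat_lit 207) (nat_lit 5) (nat_lit 213) (nat_lit 5) (nat_lit 214) (nat_lit 5) (nat_lit 635) (nat_lit 565) (nat_lit 360)) (XT.lf (nat_lit 0) (nat_lit 5264471253) (nat_lit 532) (nat_lit 16454330264) (nat_lit 608) (nat_lit 197293390) (nat_lit 200) (nat_lit 5) (nat_lit 207) (nat_lit 5) (nat_lit 208) (nat_lit 5) (nat_lit 636) (nat_lit 565) (nat_lit 359))) (XT.nd (nat_lit 78) (nat_lit 456) (nat_lit 0) (XT.lf (nat_lit 0) (nat_lit 4189727907) (nat_lit 608) (nat_lit 3951114949) (nat_lit 76) (nat_lit 14039531098) (nat_lit 199) (nat_lit 5) (nat_lit 207) (nat_lit 5) (nat_lit 200) (nat_lit 5) (nat_lit 637) (nat_lit 565) (nat_lit 358)) (XT.nd (nat_lit 78) (nat_lit 0) (nat_lit 0) (XT.lf (nat_lit 0) (nat_lit 8717884555) (nat_lit 532) (nat_lit 13337871980) (nat_lit 76) (nat_lit 393035801) (nat_lit 193) (nat_lit 5) (nat_lit 200) (nat_lit 5) (nat_lit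 194) (nat_lit 5) (nat_lit 638) (nat_lit 565) (nat_lit 357)) (XT.lf (nat_lit 0) (nat_lit 13411528977) (nat_lit 532) (nat_lit 296493448) (nat_lit 76) (nat_lit 9013058728) (nat_lit 193) (nat_lit 5) (nat_lit 200) (nat_lit 5) (nat_lit 194) (nat_lit 5) (nat_lit 639) (nat_lit 565) (nat_lit 356))))) (XT.nd (nat_lit 156) (nat_lit 456) (nat_lit 0) (XT.nd (nat_lit 78) (nat_lit 532) (nat_lit 0) (XT.lf (nat_lit 0) (nat_lit 13170494134) (nat_lit 456) (nat_lit 5108497191) (nat_lit 532) (nat_lit 4718226066) (nat_lit 187) (nat_lit 5) (nat_lit 193) (nat_lit 5) (nat_lit 194) (nat_lit 5) (nat_lit 640) (nat_lit 565) (nat_lit 355)) (XT.lf (nat_lit 0) (nat_lit 9624021) (nat_lit 532) (nat_lit 19630003093) (nat_lit 76) (nat_lit 3638369572) (nat_lit 180) (nat_lit 5) (nat_lit 187) (nat_lit 5) (nat_lit 181) (nat_lit 5) (nat_lit 641) (nat_lit 565) (nat_lit 354))) (XT.nd (nat_lit 78) (nat_lit 456) (nat_lit 0) (XT.lf (nat_lit 0) (nat_lit 4863619231)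 (nat_lit 532) (nat_lit 6111194315) (nat_lit 76) (nat_lit 12587059484) (nat_lit 180) (nat_lit 5) (nat_lit 187) (nat_lit 5) (nat_lit 181) (nat_lit 5) (nat_lit 642) (nat_lit 565) (nat_lit 353)) (XT.nd (nat_lit 78) (nat_lit 0) (nat_lit 0) (XT.lf (nat_lit 0) (nat_lit 7772063969) (nat_lit 456) (nat_lit 2087695509) (nat_lit 532) (nat_lit 13990766627) (nat_lit 174) (nat_lit 5) (nat_lit 180) (nat_lit 5) (nat_lit 181) (nat_lit 5) (nat_lit 643) (nat_lit 565) (nat_lit 352)) (XT.lf (nat_lit 0) (nat_lit 15037046678) (nat_lit 532) (nat_lit 2181776045) (nat_lit 76) (nat_lit 6924505530) (nat_lit 174) (nat_lit 5) (nat_lit 181) (nat_lit 5) (nat_lit 175) (nat_lit 5) (nat_lit 644) (nat_lit 565) (nat_lit 351))))))))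
noncomputable def xc181 : XT := (XT.nd (nat_lit 1482) (nat_lit 7752) (nat_lit 0) (XT.nd (nat_lit 702) (nat_lit 1292) (nat_lit 0) (XT.nd (nat_lit 312) (nat_lit 0) (nat_lit 76) (XT.nd (nat_lit 156) (nat_lit 1672) (nat_lit 0) (XT.nd (nat_lit 78) (nat_lit 0) (nat_lit 0) (XT.lf (nat_lit 0) (nat_lit 2396956590) (nat_lit 0) (nat_lit 2396956590) (nat_lit 1596) (nat_lit 475466285) (nat_lit 513) (nat_lit 5) (nat_lit 513) (nat_lit 3) (nat_lit 534) (nat_lit 3) (nat_lit 566) (nat_lit 566) (nat_lit 428)) (XT.lf (nat_lit 0) (nat_lit 10058948061) (nat_lit 0) (nat_lit 248990116) (nat_lit 1596) (nat_lit 323619869) (nat_lit 513) (nat_lit 5) (nat_lit 513) (nat_lit 3) (nat_lit 534) (nat_lit 3) (nat_lit 567) (nat_lit 566) (nat_lit 427))) (XT.nd (nat_lit 78) (nat_lit 0) (nat_lit 0) (XT.lf (nat_lit 0) (nat_lit 355231690) (nat_lit 1672) (nat_lit 5999668830) (nat_lit 1748) (nat_lit 4370411425) (nat_lit 491) (nat_lit 5) (nat_lit 513) (nat_lit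 5) (nat_lit 514) (nat_lit 5) (nat_lit 568) (nat_lit 566) (nat_lit 426)) (XT.lf (nat_lit 0) (nat_lit 1032683020) (nat_lit 1672) (nat_lit 695789828) (nat_lit 1748) (nat_lit 9092640789) (nat_lit 491) (nat_lit 5) (nat_lit 513) (nat_lit 5) (nat_lit 514) (nat_lit 5) (nat_lit 569) (nat_lit 566) (nat_lit 425)))) (XT.nd (nat_lit 156) (nat_lit 0) (nat_lit 76) (XT.nd (nat_lit 78) (nat_lit 0) (nat_lit 0) (XT.lf (nat_lit 0) (nat_lit 1758461869) (nat_lit 1672) (nat_lit 6170058627) (nat_lit 1748) (nat_lit 2989617864) (nat_lit 492) (nat_lit 5) (nat_lit 514) (nat_lit 5) (nat_lit 515) (nat_lit 5) (nat_lit 570) (nat_lit 566) (nat_lit 424)) (XT.lf (nat_lit 0) (nat_lit 2499356742) (nat_lit 1672) (nat_lit 727093870) (nat_lit 1748) (nat_lit 7790643470) (nat_lit 492) (nat_lit 5) (nat_lit 514) (nat_lit 5) (nat_lit 515) (nat_lit 5) (nat_lit 571) (nat_lit 566) (nat_lit 423))) (XT.nd (nat_lit 78) (nat_lit 0) (nat_lit 0) (XT.lf (nat_lit 0)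 (nat_lit 3281956033) (nat_lit 1672) (nat_lit 6248103767) (nat_lit 1748) (nat_lit 1587433856) (nat_lit 493) (nat_lit 5) (nat_lit 515) (nat_lit 5) (nat_lit 516) (nat_lit 5) (nat_lit 572) (nat_lit 566) (nat_lit 422)) (XT.nd (nat_lit 78) (nat_lit 0) (nat_lit 76) (XT.lf (nat_lit 0) (nat_lit 4091528561) (nat_lit 1672) (nat_lit 662520856) (nat_lit 1748) (nat_lit 6465627796) (nat_lit 493) (nat_lit 5) (nat_lit 515) (nat_lit 5) (nat_lit 516) (nat_lit 5) (nat_lit 573) (nat_lit 566) (nat_lit 421)) (XT.lf (nat_lit 0) (nat_lit 4936713780) (nat_lit 1672) (nat_lit 6231793289) (nat_lit 1748) (nat_lit 155011318) (nat_lit 494) (nat_lit 5) (nat_lit 516) (nat_lit 5) (nat_lit 517) (nat_lit 5) (nat_lit 574) (nat_lit 566) (nat_lit 420)))))) (XT.nd (nat_lit 390) (nat_lit 1520) (nat_lit 0) (XT.nd (nat_lit 156) (nat_lit 0) (nat_lit 76) (XT.nd (nat_lit 78) (nat_lit 0) (nat_lit 0) (XT.lf (nat_lit 0) (nat_lit 5820365312) (nat_lit 1672) (nat_lit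 499895039) (nat_lit 1748) (nat_lit 5108747104) (nat_lit 494) (nat_lit 5) (nat_lit 516) (nat_lit 5) (nat_lit 517) (nat_lit 5) (nat_lit 575) (nat_lit 566) (nat_lit 419)) (XT.lf (nat_lit 76) (nat_lit 5408683923) (nat_lit 0) (nat_lit 1334008531) (nat_lit 1748) (nat_lit 4793496079) (nat_lit 495) (nat_lit 5) (nat_lit 494) (nat_lit 5) (nat_lit 517) (nat_lit 5) (nat_lit 576) (nat_lit 566) (nat_lit 418))) (XT.nd (nat_lit 78) (nat_lit 0) (nat_lit 0) (XT.lf (nat_lit 0) (nat_lit 7697341237) (nat_lit 1672) (nat_lit 236765540) (nat_lit 1748) (nat_lit 3711131186) (nat_lit 495) (nat_lit 5) (nat_lit 517) (nat_lit 5) (nat_lit 518) (nat_lit 5) (nat_lit 577) (nat_lit 566) (nat_lit 417)) (XT.nd (nat_lit 78) (nat_lit 0) (nat_lit 76) (XT.lf (nat_lit 76) (nat_lit 5830453033) (nat_lit 0) (nat_lit 2873729486) (nat_lit 1748) (nat_lit 3051626062) (nat_lit 496) (nat_lit 5) (nat_lit 495) (nat_lit 5) (nat_lit 518) (nat_lit 5) (nat_lit 578) (nat_lit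 566) (nat_lit 416)) (XT.lf (nat_lit 76) (nat_lit 131315957) (nat_lit 0) (nat_lit 9603798403) (nat_lit 1748) (nat_lit 2133399323) (nat_lit 497) (nat_lit 5) (nat_lit 496) (nat_lit 5) (nat_lit 519) (nat_lit 5) (nat_lit 579) (nat_lit 566) (nat_lit 415))))) (XT.nd (nat_lit 156) (nat_lit 1672) (nat_lit 0) (XT.nd (nat_lit 78) (nat_lit 0) (nat_lit 76) (XT.lf (nat_lit 76) (nat_lit 6361008953) (nat_lit 0) (nat_lit 4471174205) (nat_lit 1748) (nat_lit 1150381470) (nat_lit 497) (nat_lit 5) (nat_lit 496) (nat_lit 5) (nat_lit 519) (nat_lit 5) (nat_lit 580) (nat_lit 566) (nat_lit 414)) (XT.lf (nat_lit 76) (nat_lit 610187391) (nat_lit 0) (nat_lit 11337062010) (nat_lit 1748) (nat_lit 151728130) (nat_lit 498) (nat_lit 5) (nat_lit 497) (nat_lit 5) (nat_lit 520) (nat_lit 5) (nat_lit 581) (nat_lit 566) (nat_lit 413))) (XT.nd (nat_lit 78) (nat_lit 0) (nat_lit 0) (XT.lf (nat_lit 0) (nat_lit 910352540) (nat_lit 1748) (nat_lit 5219050128)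 (nat_lit 1824) (nat_lit 6087108965) (nat_lit 474) (nat_lit 5) (nat_lit 497) (nat_lit 5) (nat_lit 498) (nat_lit 5) (nat_lit 582) (nat_lit 566) (nat_lit 412)) (XT.nd (nat_lit 78) (nat_lit 0) (nat_lit 76) (XT.lf (nat_lit 76) (nat_lit 1181393500) (nat_lit 0) (nat_lit 805412113) (nat_lit 1824) (nat_lit 10349669438) (nat_lit 475) (nat_lit 5) (nat_lit 474) (nat_lit 5) (nat_lit 498) (nat_lit 5) (nat_lit 583) (nat_lit 566) (nat_lit 411)) (XT.lf (nat_lit 0) (nat_lit 3137768225) (nat_lit 1748) (nat_lit 4717195908) (nat_lit 1824) (nat_lit 4602815904) (nat_lit 475) (nat_lit 5) (nat_lit 498) (nat_lit 5) (nat_lit 499) (nat_lit 5) (nat_lit 584) (nat_lit 566) (nat_lit 410))))))) (XT.nd (nat_lit 702) (nat_lit 4560) (nat_lit 0) (XT.nd (nat_lit 312) (nat_lit 3268) (nat_lit 0) (XT.nd (nat_lit 156) (nat_lit 0) (nat_lit 76) (XT.nd (nat_lit 78) (nat_lit 0) (nat_lit 76) (XT.lf (nat_lit 76) (nat_lit 1859293328) (nat_lit 0) (nat_lit 2457800633)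 (nat_lit 1824) (nat_lit 8264312152) (nat_lit 476) (nat_lit 5) (nat_lit 475) (nat_lit 5) (nat_lit 499) (nat_lit 5) (nat_lit 585) (nat_lit 566) (nat_lit 409)) (XT.lf (nat_lit 0) (nat_lit 5559789022) (nat_lit 1748) (nat_lit 4105013183) (nat_lit 1824) (nat_lit 3041908682) (nat_lit 476) (nat_lit 5) (nat_lit 499) (nat_lit 5) (nat_lit 500) (nat_lit 5) (nat_lit 586) (nat_lit 566) (nat_lit 408))) (XT.nd (nat_lit 78) (nat_lit 0) (nat_lit 76) (XT.lf (nat_lit 76) (nat_lit 2653738207) (nat_lit 0) (nat_lit 4195472287) (nat_lit 1824) (nat_lit 5984875609) (nat_lit 477) (nat_lit 5) (nat_lit 476) (nat_lit 5) (nat_lit 500) (nat_lit 5) (nat_lit 587) (nat_lit 566) (nat_lit 407)) (XT.lf (nat_lit 0) (nat_lit 8189680077) (nat_lit 1748) (nat_lit 3378715144) (nat_lit 1824) (nat_lit 1395110171) (nat_lit 477) (nat_lit 5) (nat_lit 500) (nat_lit 5) (nat_lit 501) (nat_lit 5) (nat_lit 588) (nat_lit 566) (nat_lit 406)))) (XT.nd (nat_lit 156) (nat_lit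 3420) (nat_lit 0) (XT.nd (nat_lit 78) (nat_lit 0) (nat_lit 0) (XT.lf (nat_lit 76) (nat_lit 3568751827) (nat_lit 0) (nat_lit 6027936543) (nat_lit 1824) (nat_lit 3498031835) (nat_lit 478) (nat_lit 5) (nat_lit 477) (nat_lit 5) (nat_lit 501) (nat_lit 5) (nat_lit 589) (nat_lit 566) (nat_lit 405)) (XT.lf (nat_lit 76) (nat_lit 10691809485) (nat_lit 0) (nat_lit 351634990) (nat_lit 1824) (nat_lit 2184884380) (nat_lit 478) (nat_lit 5) (nat_lit 477) (nat_lit 5) (nat_lit 501) (nat_lit 5) (nat_lit 590) (nat_lit 566) (nat_lit 404))) (XT.nd (nat_lit 78) (nat_lit 1748) (nat_lit 0) (XT.lf (nat_lit 0) (nat_lit 4608644239) (nat_lit 1748) (nat_lit 7964885989) (nat_lit 1824) (nat_lit 789993219) (nat_lit 455) (nat_lit 5) (nat_lit 478) (nat_lit 5) (nat_lit 479) (nat_lit 5) (nat_lit 591) (nat_lit 566) (nat_lit 403)) (XT.nd (nat_lit 78) (nat_lit 1672) (nat_lit 0) (XT.lf (nat_lit 0) (nat_lit 633203863) (nat_lit 1824) (nat_lit 1585830324)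 (nat_lit 76) (nat_lit 11282133022) (nat_lit 454) (nat_lit 5) (nat_lit 478) (nat_lit 5) (nat_lit 455) (nat_lit 5) (nat_lit 592) (nat_lit 566) (nat_lit 402)) (XT.lf (nat_lit 0) (nat_lit 2125270203) (nat_lit 1748) (nat_lit 7876687711) (nat_lit 76) (nat_lit 3638483392) (nat_lit 432) (nat_lit 5) (nat_lit 455) (nat_lit 5) (nat_lit 433) (nat_lit 5) (nat_lit 593) (nat_lit 566) (nat_lit 401)))))) (XT.nd (nat_lit 390) (nat_lit 1748) (nat_lit 0) (XT.nd (nat_lit 156) (nat_lit 1824) (nat_lit 0) (XT.nd (nat_lit 78) (nat_lit 988) (nat_lit 0) (XT.lf (nat_lit 0) (nat_lit 3662197829) (nat_lit 1748) (nat_lit 524497783) (nat_lit 76) (nat_lit 9595506408) (nat_lit 432) (nat_lit 5) (nat_lit 455) (nat_lit 5) (nat_lit 433) (nat_lit 5) (nat_lit 594) (nat_lit 566) (nat_lit 400)) (XT.lf (nat_lit 0) (nat_lit 5277145936) (nat_lit 1064) (nat_lit 6879507790) (nat_lit 76) (nat_lit 1769200085) (nat_lit 419) (nat_lit 5) (nat_lit 433) (nat_lit 5)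 (nat_lit 420) (nat_lit 5) (nat_lit 595) (nat_lit 566) (nat_lit 399))) (XT.nd (nat_lit 78) (nat_lit 912) (nat_lit 0) (XT.lf (nat_lit 0) (nat_lit 675278184) (nat_lit 912) (nat_lit 6274732091) (nat_lit 988) (nat_lit 7121857493) (nat_lit 407) (nat_lit 5) (nat_lit 419) (nat_lit 5) (nat_lit 420) (nat_lit 5) (nat_lit 596) (nat_lit 566) (nat_lit 398)) (XT.nd (nat_lit 78) (nat_lit 912) (nat_lit 0) (XT.lf (nat_lit 0) (nat_lit 8465237583) (nat_lit 912) (nat_lit 227360144) (nat_lit 988) (nat_lit 5527480405) (nat_lit 407) (nat_lit 5) (nat_lit 419) (nat_lit 5) (nat_lit 420) (nat_lit 5) (nat_lit 597) (nat_lit 566) (nat_lit 397)) (XT.lf (nat_lit 0) (nat_lit 2018447072) (nat_lit 912) (nat_lit 8493567019) (nat_lit 988) (nat_lit 3858400486) (nat_lit 395) (nat_lit 5) (nat_lit 407) (nat_lit 5) (nat_lit 408) (nat_lit 5) (nat_lit 598) (nat_lit 566) (nat_lit 396))))) (XT.nd (nat_lit 156) (nat_lit 912) (nat_lit 0) (XT.nd (nat_lit 78) (nat_lit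 836) (nat_lit 0) (XT.lf (nat_lit 0) (nat_lit 10014547577) (nat_lit 912) (nat_lit 2383815314) (nat_lit 988) (nat_lit 2124785365) (nat_lit 395) (nat_lit 5) (nat_lit 407) (nat_lit 5) (nat_lit 408) (nat_lit 5) (nat_lit 599) (nat_lit 566) (nat_lit 395)) (XT.lf (nat_lit 0) (nat_lit 3503449045) (nat_lit 836) (nat_lit 10857341674) (nat_lit 912) (nat_lit 317380211) (nat_lit 384) (nat_lit 5) (nat_lit 395) (nat_lit 5) (nat_lit 396) (nat_lit 5) (nat_lit 600) (nat_lit 566) (nat_lit 394))) (XT.nd (nat_lit 78) (nat_lit 836) (nat_lit 0) (XT.lf (nat_lit 0) (nat_lit 1543082328) (nat_lit 912) (nat_lit 3133943192) (nat_lit 76) (nat_lit 10158333161) (nat_lit 383) (nat_lit 5) (nat_lit 395) (nat_lit 5) (nat_lit 384) (nat_lit 5) (nat_lit 601) (nat_lit 566) (nat_lit 393)) (XT.nd (nat_lit 78) (nat_lit 0) (nat_lit 0) (XT.lf (nat_lit 0) (nat_lit 3471438410) (nat_lit 912) (nat_lit 9882249376) (nat_lit 76) (nat_lit 1641263045) (nat_lit 372)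 (nat_lit 5) (nat_lit 384) (nat_lit 5) (nat_lit 373) (nat_lit 5) (nat_lit 602) (nat_lit 566) (nat_lit 392)) (XT.lf (nat_lit 0) (nat_lit 5481491782) (nat_lit 912) (nat_lit 1630821584) (nat_lit 76) (nat_lit 8044560114) (nat_lit 372) (nat_lit 5) (nat_lit 384) (nat_lit 5) (nat_lit 373) (nat_lit 5) (nat_lit 603) (nat_lit 566) (nat_lit 391))))))))
noncomputable def xc182 : XT := (XT.nd (nat_lit 1482) (nat_lit 6004) (nat_lit 0) (XT.nd (nat_lit 702) (nat_lit 4180) (nat_lit 0) (XT.nd (nat_lit 312) (nat_lit 1520) (nat_lit 0) (XT.nd (nat_lit 156) (nat_lit 760) (nat_lit 0) (XT.nd (nat_lit 78) (nat_lit 836) (nat_lit 0) (XT.lf (nat_lit 0) (nat_lit 6866717670) (nat_lit 760) (nat_lit 700775371) (nat_lit 836) (nat_lit 7753827837) (nat_lit 362) (nat_lit 5) (nat_lit 372) (nat_lit 5) (nat_lit 373) (nat_lit 5) (nat_lit 604) (nat_lit 566) (nat_lit 390)) (XT.lf (nat_lit 0) (nat_lit 20672966) (nat_lit 836) (nat_lit 9714879987) (nat_lit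 912) (nat_lit 5752698707) (nat_lit 351) (nat_lit 5) (nat_lit 362) (nat_lit 5) (nat_lit 363) (nat_lit 5) (nat_lit 605) (nat_lit 566) (nat_lit 389))) (XT.nd (nat_lit 78) (nat_lit 760) (nat_lit 0) (XT.lf (nat_lit 0) (nat_lit 8766325628) (nat_lit 836) (nat_lit 3233383672) (nat_lit 912) (nat_lit 3657758239) (nat_lit 351) (nat_lit 5) (nat_lit 362) (nat_lit 5) (nat_lit 363) (nat_lit 5) (nat_lit 606) (nat_lit 566) (nat_lit 388)) (XT.lf (nat_lit 0) (nat_lit 1850136870) (nat_lit 760) (nat_lit 12484510942) (nat_lit 836) (nat_lit 1494911104) (nat_lit 341) (nat_lit 5) (nat_lit 351) (nat_lit 5) (nat_lit 352) (nat_lit 5) (nat_lit 607) (nat_lit 566) (nat_lit 387)))) (XT.nd (nat_lit 156) (nat_lit 684) (nat_lit 0) (XT.nd (nat_lit 78) (nat_lit 760) (nat_lit 0) (XT.lf (nat_lit 0) (nat_lit 761435347) (nat_lit 836) (nat_lit 5179926079) (nat_lit 76) (nat_lit 10062448066) (nat_lit 340) (nat_lit 5) (nat_lit 351) (nat_lit 5) (nat_lit 341)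 (nat_lit 5) (nat_lit 608) (nat_lit 566) (nat_lit 386)) (XT.lf (nat_lit 0) (nat_lit 3064512127) (nat_lit 836) (nat_lit 12359043938) (nat_lit 76) (nat_lit 757360076) (nat_lit 330) (nat_lit 5) (nat_lit 341) (nat_lit 5) (nat_lit 331) (nat_lit 5) (nat_lit 609) (nat_lit 566) (nat_lit 385))) (XT.nd (nat_lit 78) (nat_lit 684) (nat_lit 0) (XT.lf (nat_lit 0) (nat_lit 5479858548) (nat_lit 836) (nat_lit 3335521812) (nat_lit 76) (nat_lit 7544861475) (nat_lit 330) (nat_lit 5) (nat_lit 341) (nat_lit 5) (nat_lit 331) (nat_lit 5) (nat_lit 610) (nat_lit 566) (nat_lit 384)) (XT.nd (nat_lit 78) (nat_lit 0) (nat_lit 0) (XT.lf (nat_lit 0) (nat_lit 5937521995) (nat_lit 684) (nat_lit 2036570735) (nat_lit 760) (nat_lit 8568450748) (nat_lit 321) (nat_lit 5) (nat_lit 330) (nat_lit 5) (nat_lit 331) (nat_lit 5) (nat_lit 611) (nat_lit 566) (nat_lit 383)) (XT.lf (nat_lit 0) (nat_lit 10564537028) (nat_lit 760) (nat_lit 1327536223) (nat_lit 76)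 (nat_lit 4835492426) (nat_lit 321) (nat_lit 5) (nat_lit 331) (nat_lit 5) (nat_lit 322) (nat_lit 5) (nat_lit 612) (nat_lit 566) (nat_lit 382)))))) (XT.nd (nat_lit 390) (nat_lit 1976) (nat_lit 0) (XT.nd (nat_lit 156) (nat_lit 760) (nat_lit 0) (XT.nd (nat_lit 78) (nat_lit 684) (nat_lit 0) (XT.lf (nat_lit 0) (nat_lit 8221092386) (nat_lit 760) (nat_lit 5044840345) (nat_lit 836) (nat_lit 3649173750) (nat_lit 311) (nat_lit 5) (nat_lit 321) (nat_lit 5) (nat_lit 322) (nat_lit 5) (nat_lit 613) (nat_lit 566) (nat_lit 381)) (XT.lf (nat_lit 0) (nat_lit 862298073) (nat_lit 684) (nat_lit 15178582494) (nat_lit 760) (nat_lit 1065128042) (nat_lit 302) (nat_lit 5) (nat_lit 311) (nat_lit 5) (nat_lit 312) (nat_lit 5) (nat_lit 614) (nat_lit 566) (nat_lit 380))) (XT.nd (nat_lit 78) (nat_lit 684) (nat_lit 0) (XT.lf (nat_lit 0) (nat_lit 1634545720) (nat_lit 760) (nat_lit 6624842241) (nat_lit 76) (nat_lit 9039446908) (nat_lit 301) (nat_lit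 5) (nat_lit 311) (nat_lit 5) (nat_lit 302) (nat_lit 5) (nat_lit 615) (nat_lit 566) (nat_lit 379)) (XT.nd (nat_lit 78) (nat_lit 0) (nat_lit 0) (XT.lf (nat_lit 0) (nat_lit 3212786700) (nat_lit 684) (nat_lit 1174594429) (nat_lit 760) (nat_lit 13107728046) (nat_lit 292) (nat_lit 5) (nat_lit 301) (nat_lit 5) (nat_lit 302) (nat_lit 5) (nat_lit 616) (nat_lit 566) (nat_lit 378)) (XT.lf (nat_lit 0) (nat_lit 7271955567) (nat_lit 760) (nat_lit 4405819009) (nat_lit 76) (nat_lit 6016001659) (nat_lit 292) (nat_lit 5) (nat_lit 302) (nat_lit 5) (nat_lit 293) (nat_lit 5) (nat_lit 617) (nat_lit 566) (nat_lit 377))))) (XT.nd (nat_lit 156) (nat_lit 1368) (nat_lit 0) (XT.nd (nat_lit 78) (nat_lit 0) (nat_lit 0) (XT.lf (nat_lit 0) (nat_lit 5726936201) (nat_lit 608) (nat_lit 4525030285) (nat_lit 684) (nat_lit 7643696149) (nat_lit 284) (nat_lit 5) (nat_lit 292) (nat_lit 5) (nat_lit 293) (nat_lit 5) (nat_lit 618) (nat_lit 566) (nat_lit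 376)) (XT.lf (nat_lit 0) (nat_lit 13332188353) (nat_lit 684) (nat_lit 2005799349) (nat_lit 76) (nat_lit 2762787729) (nat_lit 284) (nat_lit 5) (nat_lit 293) (nat_lit 5) (nat_lit 285) (nat_lit 5) (nat_lit 619) (nat_lit 566) (nat_lit 375))) (XT.nd (nat_lit 78) (nat_lit 684) (nat_lit 0) (XT.lf (nat_lit 0) (nat_lit 8432496250) (nat_lit 684) (nat_lit 8119234753) (nat_lit 760) (nat_lit 1756706014) (nat_lit 275) (nat_lit 5) (nat_lit 284) (nat_lit 5) (nat_lit 285) (nat_lit 5) (nat_lit 620) (nat_lit 566) (nat_lit 374)) (XT.nd (nat_lit 78) (nat_lit 0) (nat_lit 0) (XT.lf (nat_lit 0) (nat_lit 577150020) (nat_lit 608) (nat_lit 731342700) (nat_lit 684) (nat_lit 17211382496) (nat_lit 266) (nat_lit 5) (nat_lit 274) (nat_lit 5) (nat_lit 275) (nat_lit 5) (nat_lit 621) (nat_lit 566) (nat_lit 373)) (XT.lf (nat_lit 0) (nat_lit 4515491332) (nat_lit 684) (nat_lit 7425919619) (nat_lit 76) (nat_lit 6791819442) (nat_lit 266) (nat_lit 5)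 (nat_lit 275) (nat_lit 5) (nat_lit 267) (nat_lit 5) (nat_lit 622) (nat_lit 566) (nat_lit 372))))))) (XT.nd (nat_lit 702) (nat_lit 3116) (nat_lit 0) (XT.nd (nat_lit 312) (nat_lit 1748) (nat_lit 0) (XT.nd (nat_lit 156) (nat_lit 532) (nat_lit 0) (XT.nd (nat_lit 78) (nat_lit 0) (nat_lit 0) (XT.lf (nat_lit 0) (nat_lit 3331616915) (nat_lit 608) (nat_lit 4474729040) (nat_lit 684) (nat_lit 11144113195) (nat_lit 258) (nat_lit 5) (nat_lit 266) (nat_lit 5) (nat_lit 267) (nat_lit 5) (nat_lit 623) (nat_lit 566) (nat_lit 371)) (XT.lf (nat_lit 0) (nat_lit 11226883274) (nat_lit 684) (nat_lit 4795320863) (nat_lit 76) (nat_lit 3148551816) (nat_lit 258) (nat_lit 5) (nat_lit 267) (nat_lit 5) (nat_lit 259) (nat_lit 5) (nat_lit 624) (nat_lit 566) (nat_lit 370))) (XT.nd (nat_lit 78) (nat_lit 0) (nat_lit 0) (XT.lf (nat_lit 0) (nat_lit 6289163456) (nat_lit 532) (nat_lit 8490574922) (nat_lit 608) (nat_lit 4614442938) (nat_lit 251) (nat_lit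 5) (nat_lit 258) (nat_lit 5) (nat_lit 259) (nat_lit 5) (nat_lit 625) (nat_lit 566) (nat_lit 369)) (XT.lf (nat_lit 0) (nat_lit 17652037256) (nat_lit 532) (nat_lit 777306841) (nat_lit 608) (nat_lit 1192217972) (nat_lit 251) (nat_lit 5) (nat_lit 258) (nat_lit 5) (nat_lit 259) (nat_lit 5) (nat_lit 626) (nat_lit 566) (nat_lit 368)))) (XT.nd (nat_lit 156) (nat_lit 532) (nat_lit 0) (XT.nd (nat_lit 78) (nat_lit 532) (nat_lit 0) (XT.lf (nat_lit 0) (nat_lit 2370050423) (nat_lit 684) (nat_lit 10408624970) (nat_lit 76) (nat_lit 7072482434) (nat_lit 242) (nat_lit 5) (nat_lit 251) (nat_lit 5) (nat_lit 243) (nat_lit 5) (nat_lit 627) (nat_lit 566) (nat_lit 367)) (XT.lf (nat_lit 0) (nat_lit 1016360693) (nat_lit 532) (nat_lit 4989964529) (nat_lit 608) (nat_lit 14078488879) (nat_lit 235) (nat_lit 5) (nat_lit 242) (nat_lit 5) (nat_lit 243) (nat_lit 5) (nat_lit 628) (nat_lit 566) (nat_lit 366))) (XT.nd (nat_lit 78) (nat_lit 532) (nat_lit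 0) (XT.lf (nat_lit 0) (nat_lit 9798535508) (nat_lit 608) (nat_lit 7538799207) (nat_lit 76) (nat_lit 2984145279) (nat_lit 235) (nat_lit 5) (nat_lit 243) (nat_lit 5) (nat_lit 236) (nat_lit 5) (nat_lit 629) (nat_lit 566) (nat_lit 365)) (XT.nd (nat_lit 78) (nat_lit 0) (nat_lit 0) (XT.lf (nat_lit 0) (nat_lit 4235773413) (nat_lit 532) (nat_lit 9485204715) (nat_lit 608) (nat_lit 6840813996) (nat_lit 228) (nat_lit 5) (nat_lit 235) (nat_lit 5) (nat_lit 236) (nat_lit 5) (nat_lit 630) (nat_lit 566) (nat_lit 364)) (XT.lf (nat_lit 0) (nat_lit 16339900246) (nat_lit 532) (nat_lit 1426467223) (nat_lit 608) (nat_lit 3039653736) (nat_lit 228) (nat_lit 5) (nat_lit 235) (nat_lit 5) (nat_lit 236) (nat_lit 5) (nat_lit 631) (nat_lit 566) (nat_lit 363)))))) (XT.nd (nat_lit 390) (nat_lit 1520) (nat_lit 0) (XT.nd (nat_lit 156) (nat_lit 988) (nat_lit 0) (XT.nd (nat_lit 78) (nat_lit 0) (nat_lit 0) (XT.lf (nat_lit 0) (nat_lit 915110459) (nat_lit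 608) (nat_lit 13379886393) (nat_lit 76) (nat_lit 6758258601) (nat_lit 220) (nat_lit 5) (nat_lit 228) (nat_lit 5) (nat_lit 221) (nat_lit 5) (nat_lit 632) (nat_lit 566) (nat_lit 362)) (XT.lf (nat_lit 0) (nat_lit 4941962792) (nat_lit 608) (nat_lit 1226524210) (nat_lit 76) (nat_lit 15135872295) (nat_lit 220) (nat_lit 5) (nat_lit 228) (nat_lit 5) (nat_lit 221) (nat_lit 5) (nat_lit 633) (nat_lit 566) (nat_lit 361))) (XT.nd (nat_lit 78) (nat_lit 456) (nat_lit 0) (XT.lf (nat_lit 0) (nat_lit 9131184168) (nat_lit 608) (nat_lit 10263076158) (nat_lit 76) (nat_lit 2164588867) (nat_lit 213) (nat_lit 5) (nat_lit 221) (nat_lit 5) (nat_lit 214) (nat_lit 5) (nat_lit 634) (nat_lit 566) (nat_lit 360)) (XT.nd (nat_lit 78) (nat_lit 0) (nat_lit 0) (XT.lf (nat_lit 0) (nat_lit 2247454694) (nat_lit 456) (nat_lit 11214670222) (nat_lit 532) (nat_lit 8355145877) (nat_lit 207) (nat_lit 5) (nat_lit 213) (nat_lit 5) (nat_lit 214) (nat_lit 5)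 (nat_lit 635) (nat_lit 566) (nat_lit 359)) (XT.lf (nat_lit 0) (nat_lit 15139373978) (nat_lit 456) (nat_lit 2803450115) (nat_lit 532) (nat_lit 4136774533) (nat_lit 207) (nat_lit 5) (nat_lit 213) (nat_lit 5) (nat_lit 214) (nat_lit 5) (nat_lit 636) (nat_lit 566) (nat_lit 358))))) (XT.nd (nat_lit 156) (nat_lit 912) (nat_lit 0) (XT.nd (nat_lit 78) (nat_lit 0) (nat_lit 0) (XT.lf (nat_lit 0) (nat_lit 234917083) (nat_lit 608) (nat_lit 16372370534) (nat_lit 76) (nat_lit 5738441827) (nat_lit 199) (nat_lit 5) (nat_lit 207) (nat_lit 5) (nat_lit 200) (nat_lit 5) (nat_lit 637) (nat_lit 566) (nat_lit 357)) (XT.lf (nat_lit 0) (nat_lit 4698539183) (nat_lit 608) (nat_lit 3431138214) (nat_lit 76) (nat_lit 14485761396) (nat_lit 199) (nat_lit 5) (nat_lit 207) (nat_lit 5) (nat_lit 200) (nat_lit 5) (nat_lit 638) (nat_lit 566) (nat_lit 356))) (XT.nd (nat_lit 78) (nat_lit 456) (nat_lit 0) (XT.lf (nat_lit 0) (nat_lit 9313921862) (nat_lit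 532) (nat_lit 13002251807) (nat_lit 76) (nat_lit 573119446) (nat_lit 193) (nat_lit 5) (nat_lit 200) (nat_lit 5) (nat_lit 194) (nat_lit 5) (nat_lit 639) (nat_lit 566) (nat_lit 355)) (XT.nd (nat_lit 78) (nat_lit 0) (nat_lit 0) (XT.lf (nat_lit 0) (nat_lit 291972238) (nat_lit 456) (nat_lit 13803094384) (nat_lit 532) (nat_lit 9072089350) (nat_lit 187) (nat_lit 5) (nat_lit 193) (nat_lit 5) (nat_lit 194) (nat_lit 5) (nat_lit 640) (nat_lit 566) (nat_lit 354)) (XT.lf (nat_lit 0) (nat_lit 14020584999) (nat_lit 456) (nat_lit 5033100557) (nat_lit 532) (nat_lit 4395254030) (nat_lit 187) (nat_lit 5) (nat_lit 193) (nat_lit 5) (nat_lit 194) (nat_lit 5) (nat_lit 641) (nat_lit 566) (nat_lit 353))))))))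
noncomputable def xc183 : XT := (XT.nd (nat_lit 76596) (nat_lit 0) (nat_lit 15884) (XT.nd (nat_lit 75816) (nat_lit 0) (nat_lit 22800) (XT.nd (nat_lit 75426) (nat_lit 0) (nat_lit 24016) (XT.nd (nat_lit 156) (nat_lit 456) (nat_lit 0) (XT.nd (nat_lit 78) (nat_lit 0) (nat_lit 0) (XT.lf (nat_lit 0) (nat_lit 418596648) (nat_lit 532) (nat_lit 19427288361) (nat_lit 76) (nat_lit 3889457691) (nat_lit 180) (nat_lit 5) (nat_lit 187) (nat_lit 5) (nat_lit 181) (nat_lit 5) (nat_lit 642) (nat_lit 566) (nat_lit 352)) (XT.lf (nat_lit 0) (nat_lit 5361656465) (nat_lit 532) (nat_lit 5649776247) (nat_lit 76) (nat_lit 13013624916) (nat_lit 180) (nat_lit 5) (nat_lit 187) (nat_lit 5) (nat_lit 181) (nat_lit 5) (nat_lit 643) (nat_lit 566) (nat_lit 351))) (XT.nd (nat_lit 75192) (nat_lit 0) (nat_lit 24016) (XT.lf (nat_lit 0) (nat_lit 8507307454) (nat_lit 456) (nat_lit 1946318389) (nat_lit 532) (nat_lit 13865940531) (nat_lit 174) (nat_lit 5)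 (nat_lit 180) (nat_lit 5) (nat_lit 181) (nat_lit 5) (nat_lit 644) (nat_lit 566) (nat_lit 350)) (XT.lf (nat_lit 0) (nat_lit 145774478) (nat_lit 1748) (nat_lit 2608233327) (nat_lit 1748) (nat_lit 2608233327) (nat_lit 490) (nat_lit 3) (nat_lit 513) (nat_lit 3) (nat_lit 513) (nat_lit 5) (nat_lit 567) (nat_lit 567) (nat_lit 426)))) (XT.nd (nat_lit 156) (nat_lit 0) (nat_lit 76) (XT.nd (nat_lit 78) (nat_lit 0) (nat_lit 76) (XT.lf (nat_lit 76) (nat_lit 43135392) (nat_lit 0) (nat_lit 855674854) (nat_lit 1748) (nat_lit 9920732111) (nat_lit 491) (nat_lit 5) (nat_lit 490) (nat_lit 3) (nat_lit 513) (nat_lit 5) (nat_lit 568) (nat_lit 567) (nat_lit 425)) (XT.lf (nat_lit 0) (nat_lit 1562860430) (nat_lit 1672) (nat_lit 5471210050) (nat_lit 1748) (nat_lit 3881542862) (nat_lit 491) (nat_lit 5) (nat_lit 513) (nat_lit 5) (nat_lit 514) (nat_lit 5) (nat_lit 569) (nat_lit 567) (nat_lit 424))) (XT.nd (nat_lit 78) (nat_lit 0) (nat_lit 76)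 (XT.lf (nat_lit 0) (nat_lit 2230321098) (nat_lit 1672) (nat_lit 73968216) (nat_lit 1748) (nat_lit 8709516358) (nat_lit 491) (nat_lit 5) (nat_lit 513) (nat_lit 5) (nat_lit 514) (nat_lit 5) (nat_lit 570) (nat_lit 567) (nat_lit 423)) (XT.nd (nat_lit 78) (nat_lit 0) (nat_lit 0) (XT.lf (nat_lit 0) (nat_lit 2948219797) (nat_lit 1672) (nat_lit 5635139849) (nat_lit 1748) (nat_lit 2529862893) (nat_lit 492) (nat_lit 5) (nat_lit 514) (nat_lit 5) (nat_lit 515) (nat_lit 5) (nat_lit 571) (nat_lit 567) (nat_lit 422)) (XT.lf (nat_lit 0) (nat_lit 3681293574) (nat_lit 1672) (nat_lit 96224032) (nat_lit 1748) (nat_lit 7437096214) (nat_lit 492) (nat_lit 5) (nat_lit 514) (nat_lit 5) (nat_lit 515) (nat_lit 5) (nat_lit 572) (nat_lit 567) (nat_lit 421)))))) (XT.nd (nat_lit 390) (nat_lit 1444) (nat_lit 0) (XT.nd (nat_lit 156) (nat_lit 0) (nat_lit 0) (XT.nd (nat_lit 78) (nat_lit 0) (nat_lit 0) (XT.lf (nat_lit 0) (nat_lit 4458443211) (nat_lit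 1672) (nat_lit 5706372928) (nat_lit 1748) (nat_lit 1152630868) (nat_lit 493) (nat_lit 5) (nat_lit 515) (nat_lit 5) (nat_lit 516) (nat_lit 5) (nat_lit 573) (nat_lit 567) (nat_lit 420)) (XT.lf (nat_lit 0) (nat_lit 5262425856) (nat_lit 1672) (nat_lit 22150769) (nat_lit 1748) (nat_lit 6137536758) (nat_lit 493) (nat_lit 5) (nat_lit 515) (nat_lit 5) (nat_lit 516) (nat_lit 5) (nat_lit 574) (nat_lit 567) (nat_lit 419))) (XT.nd (nat_lit 78) (nat_lit 0) (nat_lit 76) (XT.lf (nat_lit 76) (nat_lit 5843940981) (nat_lit 0) (nat_lit 262395159) (nat_lit 1748) (nat_lit 5422062265) (nat_lit 494) (nat_lit 5) (nat_lit 493) (nat_lit 5) (nat_lit 516) (nat_lit 5) (nat_lit 575) (nat_lit 567) (nat_lit 418)) (XT.nd (nat_lit 78) (nat_lit 0) (nat_lit 0) (XT.lf (nat_lit 76) (nat_lit 152574148) (nat_lit 0) (nat_lit 6833409124) (nat_lit 1748) (nat_lit 4650450917) (nat_lit 495) (nat_lit 5) (nat_lit 494) (nat_lit 5) (nat_lit 517) (nat_lit 5) (nat_lit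 576) (nat_lit 567) (nat_lit 417)) (XT.lf (nat_lit 76) (nat_lit 6172978481) (nat_lit 0) (nat_lit 1736494500) (nat_lit 1748) (nat_lit 3836634903) (nat_lit 495) (nat_lit 5) (nat_lit 494) (nat_lit 5) (nat_lit 517) (nat_lit 5) (nat_lit 577) (nat_lit 567) (nat_lit 416))))) (XT.nd (nat_lit 156) (nat_lit 1596) (nat_lit 0) (XT.nd (nat_lit 78) (nat_lit 0) (nat_lit 0) (XT.lf (nat_lit 76) (nat_lit 430185500) (nat_lit 0) (nat_lit 8433196295) (nat_lit 1748) (nat_lit 2994356419) (nat_lit 496) (nat_lit 5) (nat_lit 495) (nat_lit 5) (nat_lit 518) (nat_lit 5) (nat_lit 578) (nat_lit 567) (nat_lit 415)) (XT.lf (nat_lit 76) (nat_lit 6608724614) (nat_lit 0) (nat_lit 3263347982) (nat_lit 1748) (nat_lit 2098816584) (nat_lit 496) (nat_lit 5) (nat_lit 495) (nat_lit 5) (nat_lit 518) (nat_lit 5) (nat_lit 579) (nat_lit 567) (nat_lit 414))) (XT.nd (nat_lit 78) (nat_lit 1672) (nat_lit 0) (XT.lf (nat_lit 76) (nat_lit 813297825) (nat_lit 0) (nat_lit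 10093135462) (nat_lit 1748) (nat_lit 1179762021) (nat_lit 497) (nat_lit 5) (nat_lit 496) (nat_lit 5) (nat_lit 519) (nat_lit 5) (nat_lit 580) (nat_lit 567) (nat_lit 413)) (XT.nd (nat_lit 78) (nat_lit 1672) (nat_lit 0) (XT.lf (nat_lit 76) (nat_lit 7154263983) (nat_lit 0) (nat_lit 4852030131) (nat_lit 1748) (nat_lit 196619208) (nat_lit 497) (nat_lit 5) (nat_lit 496) (nat_lit 5) (nat_lit 519) (nat_lit 5) (nat_lit 581) (nat_lit 567) (nat_lit 412)) (XT.lf (nat_lit 0) (nat_lit 794919855) (nat_lit 1748) (nat_lit 11022111639) (nat_lit 1824) (nat_lit 504845328) (nat_lit 474) (nat_lit 5) (nat_lit 497) (nat_lit 5) (nat_lit 498) (nat_lit 5) (nat_lit 582) (nat_lit 567) (nat_lit 411))))))) (XT.nd (nat_lit 702) (nat_lit 6916) (nat_lit 0) (XT.nd (nat_lit 312) (nat_lit 0) (nat_lit 152) (XT.nd (nat_lit 156) (nat_lit 0) (nat_lit 76) (XT.nd (nat_lit 78) (nat_lit 0) (nat_lit 0) (XT.lf (nat_lit 0) (nat_lit 1857630971) (nat_lit 1748)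 (nat_lit 4641617911) (nat_lit 1824) (nat_lit 5942867142) (nat_lit 474) (nat_lit 5) (nat_lit 497) (nat_lit 5) (nat_lit 498) (nat_lit 5) (nat_lit 583) (nat_lit 567) (nat_lit 410)) (XT.lf (nat_lit 76) (nat_lit 1882348976) (nat_lit 0) (nat_lit 1059444705) (nat_lit 1824) (nat_lit 9622964252) (nat_lit 475) (nat_lit 5) (nat_lit 474) (nat_lit 5) (nat_lit 498) (nat_lit 5) (nat_lit 584) (nat_lit 567) (nat_lit 409))) (XT.nd (nat_lit 78) (nat_lit 0) (nat_lit 0) (XT.lf (nat_lit 0) (nat_lit 4096314954) (nat_lit 1748) (nat_lit 4127893759) (nat_lit 1824) (nat_lit 4464672292) (nat_lit 475) (nat_lit 5) (nat_lit 498) (nat_lit 5) (nat_lit 499) (nat_lit 5) (nat_lit 585) (nat_lit 567) (nat_lit 408)) (XT.lf (nat_lit 76) (nat_lit 2575627591) (nat_lit 0) (nat_lit 2710444560) (nat_lit 1824) (nat_lit 7529173275) (nat_lit 476) (nat_lit 5) (nat_lit 475) (nat_lit 5) (nat_lit 499) (nat_lit 5) (nat_lit 586) (nat_lit 567) (nat_lit 407)))) (XT.nd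 (nat_lit 156) (nat_lit 0) (nat_lit 76) (XT.nd (nat_lit 78) (nat_lit 0) (nat_lit 0) (XT.lf (nat_lit 0) (nat_lit 6535019245) (nat_lit 1748) (nat_lit 3502546404) (nat_lit 1824) (nat_lit 2905865352) (nat_lit 476) (nat_lit 5) (nat_lit 499) (nat_lit 5) (nat_lit 500) (nat_lit 5) (nat_lit 587) (nat_lit 567) (nat_lit 406)) (XT.lf (nat_lit 76) (nat_lit 3386876284) (nat_lit 0) (nat_lit 4450826433) (nat_lit 1824) (nat_lit 5235904149) (nat_lit 477) (nat_lit 5) (nat_lit 476) (nat_lit 5) (nat_lit 500) (nat_lit 5) (nat_lit 588) (nat_lit 567) (nat_lit 405))) (XT.nd (nat_lit 78) (nat_lit 0) (nat_lit 0) (XT.lf (nat_lit 0) (nat_lit 9187194149) (nat_lit 1748) (nat_lit 2761644932) (nat_lit 1824) (nat_lit 1257133774) (nat_lit 477) (nat_lit 5) (nat_lit 500) (nat_lit 5) (nat_lit 501) (nat_lit 5) (nat_lit 589) (nat_lit 567) (nat_lit 404)) (XT.nd (nat_lit 78) (nat_lit 0) (nat_lit 0) (XT.lf (nat_lit 76) (nat_lit 4320267138) (nat_lit 0) (nat_lit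 6290143932) (nat_lit 1824) (nat_lit 2729642040) (nat_lit 478) (nat_lit 5) (nat_lit 477) (nat_lit 5) (nat_lit 501) (nat_lit 5) (nat_lit 590) (nat_lit 567) (nat_lit 403)) (XT.lf (nat_lit 76) (nat_lit 11572449866) (nat_lit 0) (nat_lit 497538923) (nat_lit 1824) (nat_lit 1406669880) (nat_lit 478) (nat_lit 5) (nat_lit 477) (nat_lit 5) (nat_lit 501) (nat_lit 5) (nat_lit 591) (nat_lit 567) (nat_lit 402)))))) (XT.nd (nat_lit 390) (nat_lit 2736) (nat_lit 0) (XT.nd (nat_lit 156) (nat_lit 2660) (nat_lit 0) (XT.nd (nat_lit 78) (nat_lit 0) (nat_lit 0) (XT.lf (nat_lit 0) (nat_lit 3553926) (nat_lit 1824) (nat_lit 8234568253) (nat_lit 76) (nat_lit 5376682325) (nat_lit 454) (nat_lit 5) (nat_lit 478) (nat_lit 5) (nat_lit 455) (nat_lit 5) (nat_lit 592) (nat_lit 567) (nat_lit 401)) (XT.lf (nat_lit 0) (nat_lit 1428984498) (nat_lit 1824) (nat_lit 940903012) (nat_lit 76) (nat_lit 11385524565) (nat_lit 454) (nat_lit 5) (nat_lit 478) (nat_lit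 5) (nat_lit 455) (nat_lit 5) (nat_lit 593) (nat_lit 567) (nat_lit 400))) (XT.nd (nat_lit 78) (nat_lit 988) (nat_lit 0) (XT.lf (nat_lit 0) (nat_lit 2939252424) (nat_lit 1748) (nat_lit 7345823936) (nat_lit 76) (nat_lit 3612630367) (nat_lit 432) (nat_lit 5) (nat_lit 455) (nat_lit 5) (nat_lit 433) (nat_lit 5) (nat_lit 594) (nat_lit 567) (nat_lit 399)) (XT.nd (nat_lit 78) (nat_lit 0) (nat_lit 0) (XT.lf (nat_lit 0) (nat_lit 141771153) (nat_lit 988) (nat_lit 4350940925) (nat_lit 1064) (nat_lit 9549876941) (nat_lit 419) (nat_lit 5) (nat_lit 432) (nat_lit 5) (nat_lit 433) (nat_lit 5) (nat_lit 595) (nat_lit 567) (nat_lit 398)) (XT.lf (nat_lit 0) (nat_lit 6128071722) (nat_lit 1064) (nat_lit 6331122008) (nat_lit 76) (nat_lit 1730160054) (nat_lit 419) (nat_lit 5) (nat_lit 433) (nat_lit 5) (nat_lit 420) (nat_lit 5) (nat_lit 596) (nat_lit 567) (nat_lit 397))))) (XT.nd (nat_lit 156) (nat_lit 1824) (nat_lit 0) (XT.nd (nat_lit 78)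 (nat_lit 0) (nat_lit 0) (XT.lf (nat_lit 0) (nat_lit 1370246686) (nat_lit 912) (nat_lit 6453955820) (nat_lit 988) (nat_lit 6514291475) (nat_lit 407) (nat_lit 5) (nat_lit 419) (nat_lit 5) (nat_lit 420) (nat_lit 5) (nat_lit 597) (nat_lit 567) (nat_lit 396)) (XT.lf (nat_lit 0) (nat_lit 9302643255) (nat_lit 912) (nat_lit 284582923) (nat_lit 988) (nat_lit 4902732790) (nat_lit 407) (nat_lit 5) (nat_lit 419) (nat_lit 5) (nat_lit 420) (nat_lit 5) (nat_lit 598) (nat_lit 567) (nat_lit 395))) (XT.nd (nat_lit 78) (nat_lit 912) (nat_lit 0) (XT.lf (nat_lit 0) (nat_lit 2737286483) (nat_lit 912) (nat_lit 8695681294) (nat_lit 988) (nat_lit 3210537688) (nat_lit 395) (nat_lit 5) (nat_lit 407) (nat_lit 5) (nat_lit 408) (nat_lit 5) (nat_lit 599) (nat_lit 567) (nat_lit 394)) (XT.nd (nat_lit 78) (nat_lit 912) (nat_lit 0) (XT.lf (nat_lit 0) (nat_lit 10880005656) (nat_lit 912) (nat_lit 2463102341) (nat_lit 988) (nat_lit 1456466555) (nat_lit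 395) (nat_lit 5) (nat_lit 407) (nat_lit 5) (nat_lit 408) (nat_lit 5) (nat_lit 600) (nat_lit 567) (nat_lit 393)) (XT.lf (nat_lit 0) (nat_lit 372463871) (nat_lit 912) (nat_lit 10711882446) (nat_lit 76) (nat_lit 3873493964) (nat_lit 383) (nat_lit 5) (nat_lit 395) (nat_lit 5) (nat_lit 384) (nat_lit 5) (nat_lit 601) (nat_lit 567) (nat_lit 392))))))))
noncomputable def xc184 : XT := (XT.nd (nat_lit 1482) (nat_lit 6460) (nat_lit 0) (XT.nd (nat_lit 702) (nat_lit 3496) (nat_lit 0) (XT.nd (nat_lit 312) (nat_lit 2432) (nat_lit 0) (XT.nd (nat_lit 156) (nat_lit 760) (nat_lit 0) (XT.nd (nat_lit 78) (nat_lit 836) (nat_lit 0) (XT.lf (nat_lit 0) (nat_lit 2252322346) (nat_lit 912) (nat_lit 2525806348) (nat_lit 76) (nat_lit 10340274312) (nat_lit 383) (nat_lit 5) (nat_lit 395) (nat_lit 5) (nat_lit 384) (nat_lit 5) (nat_lit 602) (nat_lit 567) (nat_lit 391)) (XT.lf (nat_lit 0) (nat_lit 4210251255) (nat_lit 912) (nat_lit 9399990949)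 (nat_lit 76) (nat_lit 1671126551) (nat_lit 372) (nat_lit 5) (nat_lit 384) (nat_lit 5) (nat_lit 373) (nat_lit 5) (nat_lit 603) (nat_lit 567) (nat_lit 390))) (XT.nd (nat_lit 78) (nat_lit 760) (nat_lit 0) (XT.lf (nat_lit 0) (nat_lit 6247380516) (nat_lit 912) (nat_lit 996866041) (nat_lit 76) (nat_lit 8202547635) (nat_lit 372) (nat_lit 5) (nat_lit 384) (nat_lit 5) (nat_lit 373) (nat_lit 5) (nat_lit 604) (nat_lit 567) (nat_lit 389)) (XT.lf (nat_lit 0) (nat_lit 7666238656) (nat_lit 760) (nat_lit 700294677) (nat_lit 836) (nat_lit 7248170369) (nat_lit 362) (nat_lit 5) (nat_lit 372) (nat_lit 5) (nat_lit 373) (nat_lit 5) (nat_lit 605) (nat_lit 567) (nat_lit 388)))) (XT.nd (nat_lit 156) (nat_lit 1596) (nat_lit 0) (XT.nd (nat_lit 78) (nat_lit 0) (nat_lit 0) (XT.lf (nat_lit 0) (nat_lit 691780848) (nat_lit 836) (nat_lit 9877920650) (nat_lit 912) (nat_lit 5215438421) (nat_lit 351) (nat_lit 5) (nat_lit 362) (nat_lit 5) (nat_lit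 363) (nat_lit 5) (nat_lit 606) (nat_lit 567) (nat_lit 387)) (XT.lf (nat_lit 0) (nat_lit 9599195692) (nat_lit 836) (nat_lit 3267407290) (nat_lit 912) (nat_lit 3091389619) (nat_lit 351) (nat_lit 5) (nat_lit 362) (nat_lit 5) (nat_lit 363) (nat_lit 5) (nat_lit 607) (nat_lit 567) (nat_lit 386))) (XT.nd (nat_lit 78) (nat_lit 836) (nat_lit 0) (XT.lf (nat_lit 0) (nat_lit 2552700796) (nat_lit 760) (nat_lit 12687763647) (nat_lit 836) (nat_lit 893218572) (nat_lit 341) (nat_lit 5) (nat_lit 351) (nat_lit 5) (nat_lit 352) (nat_lit 5) (nat_lit 608) (nat_lit 567) (nat_lit 385)) (XT.nd (nat_lit 78) (nat_lit 760) (nat_lit 0) (XT.lf (nat_lit 0) (nat_lit 1387749669) (nat_lit 836) (nat_lit 4622811304) (nat_lit 76) (nat_lit 10301021675) (nat_lit 340) (nat_lit 5) (nat_lit 351) (nat_lit 5) (nat_lit 341) (nat_lit 5) (nat_lit 609) (nat_lit 567) (nat_lit 384)) (XT.lf (nat_lit 0) (nat_lit 3729511600) (nat_lit 836) (nat_lit 11938055410) (nat_lit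 76) (nat_lit 824813542) (nat_lit 330) (nat_lit 5) (nat_lit 341) (nat_lit 5) (nat_lit 331) (nat_lit 5) (nat_lit 610) (nat_lit 567) (nat_lit 383)))))) (XT.nd (nat_lit 390) (nat_lit 1368) (nat_lit 0) (XT.nd (nat_lit 156) (nat_lit 1444) (nat_lit 0) (XT.nd (nat_lit 78) (nat_lit 684) (nat_lit 0) (XT.lf (nat_lit 0) (nat_lit 6181327514) (nat_lit 836) (nat_lit 2747164203) (nat_lit 76) (nat_lit 7747039355) (nat_lit 330) (nat_lit 5) (nat_lit 341) (nat_lit 5) (nat_lit 331) (nat_lit 5) (nat_lit 611) (nat_lit 567) (nat_lit 382)) (XT.lf (nat_lit 0) (nat_lit 6707030822) (nat_lit 684) (nat_lit 2011035383) (nat_lit 760) (nat_lit 8143561679) (nat_lit 321) (nat_lit 5) (nat_lit 330) (nat_lit 5) (nat_lit 331) (nat_lit 5) (nat_lit 612) (nat_lit 567) (nat_lit 381))) (XT.nd (nat_lit 78) (nat_lit 1444) (nat_lit 0) (XT.lf (nat_lit 0) (nat_lit 11349280581) (nat_lit 760) (nat_lit 704974592) (nat_lit 76) (nat_lit 4996317633) (nat_lit 321) (nat_lit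 5) (nat_lit 331) (nat_lit 5) (nat_lit 322) (nat_lit 5) (nat_lit 613) (nat_lit 567) (nat_lit 380)) (XT.nd (nat_lit 78) (nat_lit 684) (nat_lit 0) (XT.lf (nat_lit 0) (nat_lit 9030356113) (nat_lit 760) (nat_lit 5067290653) (nat_lit 836) (nat_lit 3144360282) (nat_lit 311) (nat_lit 5) (nat_lit 321) (nat_lit 5) (nat_lit 322) (nat_lit 5) (nat_lit 614) (nat_lit 567) (nat_lit 379)) (XT.lf (nat_lit 0) (nat_lit 1530964109) (nat_lit 684) (nat_lit 15390752449) (nat_lit 760) (nat_lit 515139645) (nat_lit 302) (nat_lit 5) (nat_lit 311) (nat_lit 5) (nat_lit 312) (nat_lit 5) (nat_lit 615) (nat_lit 567) (nat_lit 378))))) (XT.nd (nat_lit 156) (nat_lit 608) (nat_lit 0) (XT.nd (nat_lit 78) (nat_lit 684) (nat_lit 0) (XT.lf (nat_lit 0) (nat_lit 2219980139) (nat_lit 760) (nat_lit 6111276877) (nat_lit 76) (nat_lit 9302430273) (nat_lit 301) (nat_lit 5) (nat_lit 311) (nat_lit 5) (nat_lit 302) (nat_lit 5) (nat_lit 616) (nat_lit 567) (nat_lit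 377)) (XT.lf (nat_lit 0) (nat_lit 3918854233) (nat_lit 684) (nat_lit 1102346982) (nat_lit 760) (nat_lit 12812820647) (nat_lit 292) (nat_lit 5) (nat_lit 301) (nat_lit 5) (nat_lit 302) (nat_lit 5) (nat_lit 617) (nat_lit 567) (nat_lit 376))) (XT.nd (nat_lit 78) (nat_lit 608) (nat_lit 0) (XT.lf (nat_lit 0) (nat_lit 7953369255) (nat_lit 760) (nat_lit 3854543535) (nat_lit 76) (nat_lit 6228952767) (nat_lit 292) (nat_lit 5) (nat_lit 302) (nat_lit 5) (nat_lit 293) (nat_lit 5) (nat_lit 618) (nat_lit 567) (nat_lit 375)) (XT.nd (nat_lit 78) (nat_lit 0) (nat_lit 0) (XT.lf (nat_lit 0) (nat_lit 6476660254) (nat_lit 608) (nat_lit 4509934877) (nat_lit 684) (nat_lit 7256323568) (nat_lit 284) (nat_lit 5) (nat_lit 292) (nat_lit 5) (nat_lit 293) (nat_lit 5) (nat_lit 619) (nat_lit 567) (nat_lit 374)) (XT.lf (nat_lit 0) (nat_lit 14118709487) (nat_lit 684) (nat_lit 1413408553) (nat_lit 76) (nat_lit 2920211231) (nat_lit 284) (nat_lit 5)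 (nat_lit 293) (nat_lit 5) (nat_lit 285) (nat_lit 5) (nat_lit 620) (nat_lit 567) (nat_lit 373))))))) (XT.nd (nat_lit 702) (nat_lit 2736) (nat_lit 0) (XT.nd (nat_lit 312) (nat_lit 1748) (nat_lit 0) (XT.nd (nat_lit 156) (nat_lit 608) (nat_lit 0) (XT.nd (nat_lit 78) (nat_lit 684) (nat_lit 0) (XT.lf (nat_lit 0) (nat_lit 9229491729) (nat_lit 684) (nat_lit 8167037223) (nat_lit 760) (nat_lit 1267738675) (nat_lit 275) (nat_lit 5) (nat_lit 284) (nat_lit 5) (nat_lit 285) (nat_lit 5) (nat_lit 621) (nat_lit 567) (nat_lit 372)) (XT.lf (nat_lit 0) (nat_lit 1219794411) (nat_lit 608) (nat_lit 626051746) (nat_lit 684) (nat_lit 17034142469) (nat_lit 266) (nat_lit 5) (nat_lit 274) (nat_lit 5) (nat_lit 275) (nat_lit 5) (nat_lit 622) (nat_lit 567) (nat_lit 371))) (XT.nd (nat_lit 78) (nat_lit 608) (nat_lit 0) (XT.lf (nat_lit 0) (nat_lit 5107724853) (nat_lit 684) (nat_lit 6946392032) (nat_lit 76) (nat_lit 7043680404) (nat_lit 266) (nat_lit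 5) (nat_lit 275) (nat_lit 5) (nat_lit 267) (nat_lit 5) (nat_lit 623) (nat_lit 567) (nat_lit 370)) (XT.lf (nat_lit 0) (nat_lit 4022163351) (nat_lit 608) (nat_lit 4436442441) (nat_lit 684) (nat_lit 10860881807) (nat_lit 258) (nat_lit 5) (nat_lit 266) (nat_lit 5) (nat_lit 267) (nat_lit 5) (nat_lit 624) (nat_lit 567) (nat_lit 369)))) (XT.nd (nat_lit 156) (nat_lit 1216) (nat_lit 0) (XT.nd (nat_lit 78) (nat_lit 532) (nat_lit 0) (XT.lf (nat_lit 0) (nat_lit 11938639133) (nat_lit 684) (nat_lit 4270575131) (nat_lit 76) (nat_lit 3335155506) (nat_lit 258) (nat_lit 5) (nat_lit 267) (nat_lit 5) (nat_lit 259) (nat_lit 5) (nat_lit 625) (nat_lit 567) (nat_lit 368)) (XT.lf (nat_lit 0) (nat_lit 7031515637) (nat_lit 532) (nat_lit 8525485579) (nat_lit 608) (nat_lit 4215374544) (nat_lit 251) (nat_lit 5) (nat_lit 258) (nat_lit 5) (nat_lit 259) (nat_lit 5) (nat_lit 626) (nat_lit 567) (nat_lit 367))) (XT.nd (nat_lit 78) (nat_lit 1216)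 (nat_lit 0) (XT.lf (nat_lit 0) (nat_lit 18609557326) (nat_lit 532) (nat_lit 660597251) (nat_lit 608) (nat_lit 734339535) (nat_lit 251) (nat_lit 5) (nat_lit 258) (nat_lit 5) (nat_lit 259) (nat_lit 5) (nat_lit 627) (nat_lit 567) (nat_lit 366)) (XT.nd (nat_lit 78) (nat_lit 532) (nat_lit 0) (XT.lf (nat_lit 0) (nat_lit 2888362893) (nat_lit 684) (nat_lit 10001400554) (nat_lit 76) (nat_lit 7348946706) (nat_lit 242) (nat_lit 5) (nat_lit 251) (nat_lit 5) (nat_lit 243) (nat_lit 5) (nat_lit 628) (nat_lit 567) (nat_lit 365)) (XT.lf (nat_lit 0) (nat_lit 1648036158) (nat_lit 532) (nat_lit 4944062750) (nat_lit 608) (nat_lit 13885046961) (nat_lit 235) (nat_lit 5) (nat_lit 242) (nat_lit 5) (nat_lit 243) (nat_lit 5) (nat_lit 629) (nat_lit 567) (nat_lit 364)))))) (XT.nd (nat_lit 390) (nat_lit 1596) (nat_lit 0) (XT.nd (nat_lit 156) (nat_lit 608) (nat_lit 0) (XT.nd (nat_lit 78) (nat_lit 532) (nat_lit 0) (XT.lf (nat_lit 0) (nat_lit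 10451950502) (nat_lit 608) (nat_lit 7081960703) (nat_lit 76) (nat_lit 3184798944) (nat_lit 235) (nat_lit 5) (nat_lit 243) (nat_lit 5) (nat_lit 236) (nat_lit 5) (nat_lit 630) (nat_lit 567) (nat_lit 363)) (XT.lf (nat_lit 0) (nat_lit 4924105905) (nat_lit 532) (nat_lit 9523685656) (nat_lit 608) (nat_lit 6516138960) (nat_lit 228) (nat_lit 5) (nat_lit 235) (nat_lit 5) (nat_lit 236) (nat_lit 5) (nat_lit 631) (nat_lit 567) (nat_lit 362))) (XT.nd (nat_lit 78) (nat_lit 608) (nat_lit 0) (XT.lf (nat_lit 0) (nat_lit 17258479647) (nat_lit 532) (nat_lit 1306738574) (nat_lit 608) (nat_lit 2648004345) (nat_lit 228) (nat_lit 5) (nat_lit 235) (nat_lit 5) (nat_lit 236) (nat_lit 5) (nat_lit 632) (nat_lit 567) (nat_lit 361)) (XT.nd (nat_lit 78) (nat_lit 0) (nat_lit 0) (XT.lf (nat_lit 0) (nat_lit 1376010061) (nat_lit 608) (nat_lit 13045763299) (nat_lit 76) (nat_lit 7043648546) (nat_lit 220) (nat_lit 5) (nat_lit 228) (nat_lit 5) (nat_lit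 221) (nat_lit 5) (nat_lit 633) (nat_lit 567) (nat_lit 360)) (XT.lf (nat_lit 0) (nat_lit 5474721059) (nat_lit 608) (nat_lit 661132320) (nat_lit 76) (nat_lit 15585868930) (nat_lit 220) (nat_lit 5) (nat_lit 228) (nat_lit 5) (nat_lit 221) (nat_lit 5) (nat_lit 634) (nat_lit 567) (nat_lit 359))))) (XT.nd (nat_lit 156) (nat_lit 608) (nat_lit 0) (XT.nd (nat_lit 78) (nat_lit 456) (nat_lit 0) (XT.lf (nat_lit 0) (nat_lit 9744041832) (nat_lit 608) (nat_lit 9874685380) (nat_lit 76) (nat_lit 2362649390) (nat_lit 213) (nat_lit 5) (nat_lit 221) (nat_lit 5) (nat_lit 214) (nat_lit 5) (nat_lit 635) (nat_lit 567) (nat_lit 358)) (XT.lf (nat_lit 0) (nat_lit 2882150481) (nat_lit 456) (nat_lit 11274843979) (nat_lit 532) (nat_lit 8088065193) (nat_lit 207) (nat_lit 5) (nat_lit 213) (nat_lit 5) (nat_lit 214) (nat_lit 5) (nat_lit 636) (nat_lit 567) (nat_lit 357))) (XT.nd (nat_lit 78) (nat_lit 608) (nat_lit 0) (XT.lf (nat_lit 0) (nat_lit 16020344490)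 (nat_lit 456) (nat_lit 2698617503) (nat_lit 532) (nat_lit 3793839825) (nat_lit 207) (nat_lit 5) (nat_lit 213) (nat_lit 5) (nat_lit 214) (nat_lit 5) (nat_lit 637) (nat_lit 567) (nat_lit 356)) (XT.nd (nat_lit 78) (nat_lit 0) (nat_lit 0) (XT.lf (nat_lit 0) (nat_lit 656298482) (nat_lit 608) (nat_lit 16112563990) (nat_lit 76) (nat_lit 6015406424) (nat_lit 199) (nat_lit 5) (nat_lit 207) (nat_lit 5) (nat_lit 200) (nat_lit 5) (nat_lit 638) (nat_lit 567) (nat_lit 355)) (XT.lf (nat_lit 0) (nat_lit 5201022768) (nat_lit 608) (nat_lit 2924021807) (nat_lit 76) (nat_lit 14934492076) (nat_lit 199) (nat_lit 5) (nat_lit 207) (nat_lit 5) (nat_lit 200) (nat_lit 5) (nat_lit 639) (nat_lit 567) (nat_lit 354))))))))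
noncomputable def xc185 : XT := (XT.nd (nat_lit 76674) (nat_lit 0) (nat_lit 16340) (XT.nd (nat_lit 75894) (nat_lit 0) (nat_lit 23712) (XT.nd (nat_lit 312) (nat_lit 0) (nat_lit 0) (XT.nd (nat_lit 156) (nat_lit 532) (nat_lit 0) (XT.nd (nat_lit 78) (nat_lit 456) (nat_lit 0) (XT.lf (nat_lit 0) (nat_lit 9905505581) (nat_lit 532) (nat_lit 12683310288) (nat_lit 76) (nat_lit 750117137) (nat_lit 193) (nat_lit 5) (nat_lit 200) (nat_lit 5) (nat_lit 194) (nat_lit 5) (nat_lit 640) (nat_lit 567) (nat_lit 353)) (XT.lf (nat_lit 0) (nat_lit 872989116) (nat_lit 456) (nat_lit 13905071391) (nat_lit 532) (nat_lit 8844377649) (nat_lit 187) (nat_lit 5) (nat_lit 193) (nat_lit 5) (nat_lit 194) (nat_lit 5) (nat_lit 641) (nat_lit 567) (nat_lit 352))) (XT.nd (nat_lit 78) (nat_lit 532) (nat_lit 0) (XT.lf (nat_lit 0) (nat_lit 14864896144) (nat_lit 456) (nat_lit 4963091117) (nat_lit 532) (nat_lit 4082028240) (nat_lit 187) (nat_lit 5) (nat_lit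 193) (nat_lit 5) (nat_lit 194) (nat_lit 5) (nat_lit 642) (nat_lit 567) (nat_lit 351)) (XT.lf (nat_lit 0) (nat_lit 819875296) (nat_lit 532) (nat_lit 19243636133) (nat_lit 76) (nat_lit 4138643161) (nat_lit 180) (nat_lit 5) (nat_lit 187) (nat_lit 5) (nat_lit 181) (nat_lit 5) (nat_lit 643) (nat_lit 567) (nat_lit 350)))) (XT.nd (nat_lit 75348) (nat_lit 0) (nat_lit 23560) (XT.nd (nat_lit 75270) (nat_lit 0) (nat_lit 23560) (XT.lf (nat_lit 0) (nat_lit 5854092256) (nat_lit 532) (nat_lit 5201793345) (nat_lit 76) (nat_lit 13441933019) (nat_lit 180) (nat_lit 5) (nat_lit 187) (nat_lit 5) (nat_lit 181) (nat_lit 5) (nat_lit 644) (nat_lit 567) (nat_lit 349)) (XT.lf (nat_lit 0) (nat_lit 748833708) (nat_lit 1748) (nat_lit 2354276095) (nat_lit 1748) (nat_lit 2354276095) (nat_lit 490) (nat_lit 3) (nat_lit 513) (nat_lit 3) (nat_lit 513) (nat_lit 5) (nat_lit 568) (nat_lit 568) (nat_lit 424))) (XT.nd (nat_lit 78) (nat_lit 0) (nat_lit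 76) (XT.lf (nat_lit 76) (nat_lit 652213976) (nat_lit 0) (nat_lit 1445273848) (nat_lit 1748) (nat_lit 8914640802) (nat_lit 491) (nat_lit 5) (nat_lit 490) (nat_lit 3) (nat_lit 513) (nat_lit 5) (nat_lit 569) (nat_lit 568) (nat_lit 423)) (XT.nd (nat_lit 78) (nat_lit 0) (nat_lit 0) (XT.lf (nat_lit 0) (nat_lit 2748023930) (nat_lit 1672) (nat_lit 4957362281) (nat_lit 1748) (nat_lit 3405274457) (nat_lit 491) (nat_lit 5) (nat_lit 513) (nat_lit 5) (nat_lit 514) (nat_lit 5) (nat_lit 570) (nat_lit 568) (nat_lit 422)) (XT.lf (nat_lit 76) (nat_lit 542721256) (nat_lit 0) (nat_lit 2867010648) (nat_lit 1748) (nat_lit 7801470643) (nat_lit 492) (nat_lit 5) (nat_lit 491) (nat_lit 5) (nat_lit 514) (nat_lit 5) (nat_lit 571) (nat_lit 568) (nat_lit 421)))))) (XT.nd (nat_lit 390) (nat_lit 0) (nat_lit 152) (XT.nd (nat_lit 156) (nat_lit 0) (nat_lit 76) (XT.nd (nat_lit 78) (nat_lit 0) (nat_lit 0) (XT.lf (nat_lit 0) (nat_lit 4116938797) (nat_lit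 1672) (nat_lit 5115086063) (nat_lit 1748) (nat_lit 2081087479) (nat_lit 492) (nat_lit 5) (nat_lit 514) (nat_lit 5) (nat_lit 515) (nat_lit 5) (nat_lit 572) (nat_lit 568) (nat_lit 420)) (XT.lf (nat_lit 76) (nat_lit 529140856) (nat_lit 0) (nat_lit 4317208833) (nat_lit 1748) (nat_lit 6570551763) (nat_lit 493) (nat_lit 5) (nat_lit 492) (nat_lit 5) (nat_lit 515) (nat_lit 5) (nat_lit 573) (nat_lit 568) (nat_lit 419))) (XT.nd (nat_lit 78) (nat_lit 0) (nat_lit 0) (XT.lf (nat_lit 0) (nat_lit 5615324550) (nat_lit 1672) (nat_lit 5179695971) (nat_lit 1748) (nat_lit 727248590) (nat_lit 493) (nat_lit 5) (nat_lit 515) (nat_lit 5) (nat_lit 516) (nat_lit 5) (nat_lit 574) (nat_lit 568) (nat_lit 418)) (XT.nd (nat_lit 78) (nat_lit 0) (nat_lit 0) (XT.lf (nat_lit 76) (nat_lit 613694552) (nat_lit 0) (nat_lit 5804741268) (nat_lit 1748) (nat_lit 5210935399) (nat_lit 494) (nat_lit 5) (nat_lit 493) (nat_lit 5) (nat_lit 516) (nat_lit 5) (nat_lit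 575) (nat_lit 568) (nat_lit 417)) (XT.lf (nat_lit 76) (nat_lit 6584926268) (nat_lit 0) (nat_lit 673840606) (nat_lit 1748) (nat_lit 4479427534) (nat_lit 494) (nat_lit 5) (nat_lit 493) (nat_lit 5) (nat_lit 516) (nat_lit 5) (nat_lit 576) (nat_lit 568) (nat_lit 416))))) (XT.nd (nat_lit 156) (nat_lit 0) (nat_lit 76) (XT.nd (nat_lit 78) (nat_lit 0) (nat_lit 0) (XT.lf (nat_lit 76) (nat_lit 798881396) (nat_lit 0) (nat_lit 7338514363) (nat_lit 1748) (nat_lit 3711370624) (nat_lit 495) (nat_lit 5) (nat_lit 494) (nat_lit 5) (nat_lit 517) (nat_lit 5) (nat_lit 577) (nat_lit 568) (nat_lit 415)) (XT.lf (nat_lit 76) (nat_lit 6927080958) (nat_lit 0) (nat_lit 2132437191) (nat_lit 1748) (nat_lit 2901515335) (nat_lit 495) (nat_lit 5) (nat_lit 494) (nat_lit 5) (nat_lit 517) (nat_lit 5) (nat_lit 578) (nat_lit 568) (nat_lit 414))) (XT.nd (nat_lit 78) (nat_lit 0) (nat_lit 0) (XT.lf (nat_lit 76) (nat_lit 1087477956) (nat_lit 0) (nat_lit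 8927491502) (nat_lit 1748) (nat_lit 2060280803) (nat_lit 496) (nat_lit 5) (nat_lit 495) (nat_lit 5) (nat_lit 518) (nat_lit 5) (nat_lit 579) (nat_lit 568) (nat_lit 413)) (XT.nd (nat_lit 78) (nat_lit 0) (nat_lit 76) (XT.lf (nat_lit 76) (nat_lit 7376868465) (nat_lit 0) (nat_lit 3647861295) (nat_lit 1748) (nat_lit 1166319637) (nat_lit 496) (nat_lit 5) (nat_lit 495) (nat_lit 5) (nat_lit 518) (nat_lit 5) (nat_lit 580) (nat_lit 568) (nat_lit 412)) (XT.lf (nat_lit 76) (nat_lit 1482539126) (nat_lit 0) (nat_lit 10580716252) (nat_lit 1748) (nat_lit 245739721) (nat_lit 497) (nat_lit 5) (nat_lit 496) (nat_lit 5) (nat_lit 519) (nat_lit 5) (nat_lit 581) (nat_lit 568) (nat_lit 411))))))) (XT.nd (nat_lit 702) (nat_lit 5928) (nat_lit 0) (XT.nd (nat_lit 312) (nat_lit 0) (nat_lit 152) (XT.nd (nat_lit 156) (nat_lit 0) (nat_lit 76) (XT.nd (nat_lit 78) (nat_lit 0) (nat_lit 76) (XT.lf (nat_lit 0) (nat_lit 728606338) (nat_lit 1748) (nat_lit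 4495690828) (nat_lit 1824) (nat_lit 7204025498) (nat_lit 473) (nat_lit 5) (nat_lit 496) (nat_lit 5) (nat_lit 497) (nat_lit 5) (nat_lit 582) (nat_lit 568) (nat_lit 410)) (XT.lf (nat_lit 0) (nat_lit 1721672547) (nat_lit 1748) (nat_lit 10574109540) (nat_lit 1824) (nat_lit 254173604) (nat_lit 474) (nat_lit 5) (nat_lit 497) (nat_lit 5) (nat_lit 498) (nat_lit 5) (nat_lit 583) (nat_lit 568) (nat_lit 409))) (XT.nd (nat_lit 78) (nat_lit 0) (nat_lit 0) (XT.lf (nat_lit 0) (nat_lit 2787777997) (nat_lit 1748) (nat_lit 4079112689) (nat_lit 1824) (nat_lit 5806068965) (nat_lit 474) (nat_lit 5) (nat_lit 497) (nat_lit 5) (nat_lit 498) (nat_lit 5) (nat_lit 584) (nat_lit 568) (nat_lit 408)) (XT.lf (nat_lit 76) (nat_lit 2571022104) (nat_lit 0) (nat_lit 1309319056) (nat_lit 1824) (nat_lit 8917981615) (nat_lit 475) (nat_lit 5) (nat_lit 474) (nat_lit 5) (nat_lit 498) (nat_lit 5) (nat_lit 585) (nat_lit 568) (nat_lit 407)))) (XT.nd (nat_lit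 156) (nat_lit 0) (nat_lit 76) (XT.nd (nat_lit 78) (nat_lit 0) (nat_lit 0) (XT.lf (nat_lit 0) (nat_lit 5039247948) (nat_lit 1748) (nat_lit 3553352377) (nat_lit 1824) (nat_lit 4332704751) (nat_lit 475) (nat_lit 5) (nat_lit 498) (nat_lit 5) (nat_lit 499) (nat_lit 5) (nat_lit 586) (nat_lit 568) (nat_lit 406)) (XT.lf (nat_lit 76) (nat_lit 3279916378) (nat_lit 0) (nat_lit 2960239682) (nat_lit 1824) (nat_lit 6814296226) (nat_lit 476) (nat_lit 5) (nat_lit 475) (nat_lit 5) (nat_lit 499) (nat_lit 5) (nat_lit 587) (nat_lit 568) (nat_lit 405))) (XT.nd (nat_lit 78) (nat_lit 0) (nat_lit 0) (XT.lf (nat_lit 0) (nat_lit 7496202563) (nat_lit 1748) (nat_lit 2914612861) (nat_lit 1824) (nat_lit 2774746304) (nat_lit 476) (nat_lit 5) (nat_lit 499) (nat_lit 5) (nat_lit 500) (nat_lit 5) (nat_lit 588) (nat_lit 568) (nat_lit 404)) (XT.nd (nat_lit 78) (nat_lit 0) (nat_lit 76) (XT.lf (nat_lit 76) (nat_lit 4108269435) (nat_lit 0) (nat_lit 4704630255)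 (nat_lit 1824) (nat_lit 4505684734) (nat_lit 477) (nat_lit 5) (nat_lit 476) (nat_lit 5) (nat_lit 500) (nat_lit 5) (nat_lit 589) (nat_lit 568) (nat_lit 403)) (XT.lf (nat_lit 0) (nat_lit 10172284121) (nat_lit 1748) (nat_lit 2158818896) (nat_lit 1824) (nat_lit 1122839118) (nat_lit 477) (nat_lit 5) (nat_lit 500) (nat_lit 5) (nat_lit 501) (nat_lit 5) (nat_lit 590) (nat_lit 568) (nat_lit 402)))))) (XT.nd (nat_lit 390) (nat_lit 2812) (nat_lit 0) (XT.nd (nat_lit 156) (nat_lit 3420) (nat_lit 0) (XT.nd (nat_lit 78) (nat_lit 0) (nat_lit 0) (XT.lf (nat_lit 76) (nat_lit 5060402080) (nat_lit 0) (nat_lit 6552095078) (nat_lit 1824) (nat_lit 1978438619) (nat_lit 478) (nat_lit 5) (nat_lit 477) (nat_lit 5) (nat_lit 501) (nat_lit 5) (nat_lit 591) (nat_lit 568) (nat_lit 401)) (XT.lf (nat_lit 76) (nat_lit 12444810234) (nat_lit 0) (nat_lit 640968395) (nat_lit 1824) (nat_lit 644806942) (nat_lit 478) (nat_lit 5) (nat_lit 477) (nat_lit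 5) (nat_lit 501) (nat_lit 5) (nat_lit 592) (nat_lit 568) (nat_lit 400))) (XT.nd (nat_lit 78) (nat_lit 1672) (nat_lit 0) (XT.lf (nat_lit 0) (nat_lit 771386336) (nat_lit 1824) (nat_lit 7735883228) (nat_lit 76) (nat_lit 5364361934) (nat_lit 454) (nat_lit 5) (nat_lit 478) (nat_lit 5) (nat_lit 455) (nat_lit 5) (nat_lit 593) (nat_lit 568) (nat_lit 399)) (XT.nd (nat_lit 78) (nat_lit 1672) (nat_lit 0) (XT.lf (nat_lit 0) (nat_lit 2210271376) (nat_lit 1824) (nat_lit 309352063) (nat_lit 76) (nat_lit 11495731098) (nat_lit 454) (nat_lit 5) (nat_lit 478) (nat_lit 5) (nat_lit 455) (nat_lit 5) (nat_lit 594) (nat_lit 568) (nat_lit 398)) (XT.lf (nat_lit 0) (nat_lit 3739556904) (nat_lit 1748) (nat_lit 6831074202) (nat_lit 76) (nat_lit 3590089921) (nat_lit 432) (nat_lit 5) (nat_lit 455) (nat_lit 5) (nat_lit 433) (nat_lit 5) (nat_lit 595) (nat_lit 568) (nat_lit 397))))) (XT.nd (nat_lit 156) (nat_lit 1824) (nat_lit 0) (XT.nd (nat_lit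 78) (nat_lit 0) (nat_lit 0) (XT.lf (nat_lit 0) (nat_lit 801919722) (nat_lit 988) (nat_lit 4511894145) (nat_lit 1064) (nat_lit 8994894680) (nat_lit 419) (nat_lit 5) (nat_lit 432) (nat_lit 5) (nat_lit 433) (nat_lit 5) (nat_lit 596) (nat_lit 568) (nat_lit 396)) (XT.lf (nat_lit 0) (nat_lit 6967071898) (nat_lit 1064) (nat_lit 5798405792) (nat_lit 76) (nat_lit 1693229197) (nat_lit 419) (nat_lit 5) (nat_lit 433) (nat_lit 5) (nat_lit 420) (nat_lit 5) (nat_lit 597) (nat_lit 568) (nat_lit 395))) (XT.nd (nat_lit 78) (nat_lit 912) (nat_lit 0) (XT.lf (nat_lit 0) (nat_lit 2052652522) (nat_lit 912) (nat_lit 6634677658) (nat_lit 988) (nat_lit 5923697674) (nat_lit 407) (nat_lit 5) (nat_lit 419) (nat_lit 5) (nat_lit 420) (nat_lit 5) (nat_lit 598) (nat_lit 568) (nat_lit 394)) (XT.nd (nat_lit 78) (nat_lit 912) (nat_lit 0) (XT.lf (nat_lit 0) (nat_lit 10130853867) (nat_lit 912) (nat_lit 340904701) (nat_lit 988) (nat_lit 4294042710)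 (nat_lit 407) (nat_lit 5) (nat_lit 419) (nat_lit 5) (nat_lit 420) (nat_lit 5) (nat_lit 599) (nat_lit 568) (nat_lit 393)) (XT.lf (nat_lit 0) (nat_lit 3444156848) (nat_lit 912) (nat_lit 8900585823) (nat_lit 988) (nat_lit 2577871464) (nat_lit 395) (nat_lit 5) (nat_lit 407) (nat_lit 5) (nat_lit 408) (nat_lit 5) (nat_lit 600) (nat_lit 568) (nat_lit 392))))))))
noncomputable def xc186 : XT := (XT.nd (nat_lit 1482) (nat_lit 6460) (nat_lit 0) (XT.nd (nat_lit 702) (nat_lit 3724) (nat_lit 0) (XT.nd (nat_lit 312) (nat_lit 2356) (nat_lit 0) (XT.nd (nat_lit 156) (nat_lit 836) (nat_lit 0) (XT.nd (nat_lit 78) (nat_lit 912) (nat_lit 0) (XT.lf (nat_lit 0) (nat_lit 11736943646) (nat_lit 912) (nat_lit 2542747626) (nat_lit 988) (nat_lit 802383163) (nat_lit 395) (nat_lit 5) (nat_lit 407) (nat_lit 5) (nat_lit 408) (nat_lit 5) (nat_lit 601) (nat_lit 568) (nat_lit 391)) (XT.lf (nat_lit 0) (nat_lit 1044989983) (nat_lit 912) (nat_lit 10268457637)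 (nat_lit 76) (nat_lit 3930154517) (nat_lit 383) (nat_lit 5) (nat_lit 395) (nat_lit 5) (nat_lit 384) (nat_lit 5) (nat_lit 602) (nat_lit 568) (nat_lit 390))) (XT.nd (nat_lit 78) (nat_lit 836) (nat_lit 0) (XT.lf (nat_lit 0) (nat_lit 2949404906) (nat_lit 912) (nat_lit 1931555359) (nat_lit 76) (nat_lit 10526678499) (nat_lit 383) (nat_lit 5) (nat_lit 395) (nat_lit 5) (nat_lit 384) (nat_lit 5) (nat_lit 603) (nat_lit 568) (nat_lit 389)) (XT.lf (nat_lit 0) (nat_lit 4937847357) (nat_lit 912) (nat_lit 8934488831) (nat_lit 76) (nat_lit 1701702335) (nat_lit 372) (nat_lit 5) (nat_lit 384) (nat_lit 5) (nat_lit 373) (nat_lit 5) (nat_lit 604) (nat_lit 568) (nat_lit 388)))) (XT.nd (nat_lit 156) (nat_lit 1596) (nat_lit 0) (XT.nd (nat_lit 78) (nat_lit 760) (nat_lit 0) (XT.lf (nat_lit 0) (nat_lit 7003103691) (nat_lit 912) (nat_lit 376115189) (nat_lit 76) (nat_lit 8363807659) (nat_lit 372) (nat_lit 5) (nat_lit 384) (nat_lit 5) (nat_lit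 373) (nat_lit 5) (nat_lit 605) (nat_lit 568) (nat_lit 387)) (XT.lf (nat_lit 0) (nat_lit 8456036549) (nat_lit 760) (nat_lit 700367274) (nat_lit 836) (nat_lit 6758056859) (nat_lit 362) (nat_lit 5) (nat_lit 372) (nat_lit 5) (nat_lit 373) (nat_lit 5) (nat_lit 606) (nat_lit 568) (nat_lit 386))) (XT.nd (nat_lit 78) (nat_lit 760) (nat_lit 0) (XT.lf (nat_lit 0) (nat_lit 1350267006) (nat_lit 836) (nat_lit 10045435871) (nat_lit 912) (nat_lit 4692763087) (nat_lit 351) (nat_lit 5) (nat_lit 362) (nat_lit 5) (nat_lit 363) (nat_lit 5) (nat_lit 607) (nat_lit 568) (nat_lit 385)) (XT.nd (nat_lit 78) (nat_lit 760) (nat_lit 0) (XT.lf (nat_lit 0) (nat_lit 10423189940) (nat_lit 836) (nat_lit 3303301326) (nat_lit 912) (nat_lit 2538527116) (nat_lit 351) (nat_lit 5) (nat_lit 362) (nat_lit 5) (nat_lit 363) (nat_lit 5) (nat_lit 608) (nat_lit 568) (nat_lit 384)) (XT.lf (nat_lit 0) (nat_lit 3243471448) (nat_lit 760) (nat_lit 12896884631) (nat_lit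 836) (nat_lit 304017629) (nat_lit 341) (nat_lit 5) (nat_lit 351) (nat_lit 5) (nat_lit 352) (nat_lit 5) (nat_lit 609) (nat_lit 568) (nat_lit 383)))))) (XT.nd (nat_lit 390) (nat_lit 2204) (nat_lit 0) (XT.nd (nat_lit 156) (nat_lit 684) (nat_lit 0) (XT.nd (nat_lit 78) (nat_lit 760) (nat_lit 0) (XT.lf (nat_lit 0) (nat_lit 2002861078) (nat_lit 836) (nat_lit 4080210537) (nat_lit 76) (nat_lit 10542917395) (nat_lit 340) (nat_lit 5) (nat_lit 351) (nat_lit 5) (nat_lit 341) (nat_lit 5) (nat_lit 610) (nat_lit 568) (nat_lit 382)) (XT.lf (nat_lit 0) (nat_lit 4384368298) (nat_lit 836) (nat_lit 11534592945) (nat_lit 76) (nat_lit 891584961) (nat_lit 330) (nat_lit 5) (nat_lit 341) (nat_lit 5) (nat_lit 331) (nat_lit 5) (nat_lit 611) (nat_lit 568) (nat_lit 381))) (XT.nd (nat_lit 78) (nat_lit 684) (nat_lit 0) (XT.lf (nat_lit 0) (nat_lit 6873842756) (nat_lit 836) (nat_lit 2172476532) (nat_lit 76) (nat_lit 7951269504) (nat_lit 330) (nat_lit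 5) (nat_lit 341) (nat_lit 5) (nat_lit 331) (nat_lit 5) (nat_lit 612) (nat_lit 568) (nat_lit 380)) (XT.nd (nat_lit 78) (nat_lit 0) (nat_lit 0) (XT.lf (nat_lit 0) (nat_lit 7466660084) (nat_lit 684) (nat_lit 1987562544) (nat_lit 760) (nat_lit 7733328257) (nat_lit 321) (nat_lit 5) (nat_lit 330) (nat_lit 5) (nat_lit 331) (nat_lit 5) (nat_lit 613) (nat_lit 568) (nat_lit 379)) (XT.lf (nat_lit 0) (nat_lit 12127451133) (nat_lit 760) (nat_lit 95167553) (nat_lit 76) (nat_lit 5157869667) (nat_lit 321) (nat_lit 5) (nat_lit 331) (nat_lit 5) (nat_lit 322) (nat_lit 5) (nat_lit 614) (nat_lit 568) (nat_lit 378))))) (XT.nd (nat_lit 156) (nat_lit 684) (nat_lit 0) (XT.nd (nat_lit 78) (nat_lit 760) (nat_lit 0) (XT.lf (nat_lit 0) (nat_lit 9830765118) (nat_lit 760) (nat_lit 5093236141) (nat_lit 836) (nat_lit 2651887104) (nat_lit 311) (nat_lit 5) (nat_lit 321) (nat_lit 5) (nat_lit 322) (nat_lit 5) (nat_lit 615) (nat_lit 568) (nat_lit 377))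 (XT.lf (nat_lit 0) (nat_lit 23354230) (nat_lit 760) (nat_lit 15587204094) (nat_lit 76) (nat_lit 2164197080) (nat_lit 301) (nat_lit 5) (nat_lit 311) (nat_lit 5) (nat_lit 302) (nat_lit 5) (nat_lit 616) (nat_lit 568) (nat_lit 376))) (XT.nd (nat_lit 78) (nat_lit 684) (nat_lit 0) (XT.lf (nat_lit 0) (nat_lit 2795659543) (nat_lit 760) (nat_lit 5612527589) (nat_lit 76) (nat_lit 9567481597) (nat_lit 301) (nat_lit 5) (nat_lit 311) (nat_lit 5) (nat_lit 302) (nat_lit 5) (nat_lit 617) (nat_lit 568) (nat_lit 375)) (XT.nd (nat_lit 78) (nat_lit 0) (nat_lit 0) (XT.lf (nat_lit 0) (nat_lit 4614120783) (nat_lit 684) (nat_lit 1032372262) (nat_lit 760) (nat_lit 12533646496) (nat_lit 292) (nat_lit 5) (nat_lit 301) (nat_lit 5) (nat_lit 302) (nat_lit 5) (nat_lit 618) (nat_lit 568) (nat_lit 374)) (XT.lf (nat_lit 0) (nat_lit 8627598670) (nat_lit 760) (nat_lit 3317070917) (nat_lit 76) (nat_lit 6442565919) (nat_lit 292) (nat_lit 5) (nat_lit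 302) (nat_lit 5) (nat_lit 293) (nat_lit 5) (nat_lit 619) (nat_lit 568) (nat_lit 373))))))) (XT.nd (nat_lit 702) (nat_lit 3344) (nat_lit 0) (XT.nd (nat_lit 312) (nat_lit 1140) (nat_lit 0) (XT.nd (nat_lit 156) (nat_lit 1368) (nat_lit 0) (XT.nd (nat_lit 78) (nat_lit 0) (nat_lit 0) (XT.lf (nat_lit 0) (nat_lit 7216713767) (nat_lit 608) (nat_lit 4498637983) (nat_lit 684) (nat_lit 6882181964) (nat_lit 284) (nat_lit 5) (nat_lit 292) (nat_lit 5) (nat_lit 293) (nat_lit 5) (nat_lit 620) (nat_lit 568) (nat_lit 372)) (XT.lf (nat_lit 0) (nat_lit 14900773572) (nat_lit 684) (nat_lit 833730950) (nat_lit 76) (nat_lit 3076815905) (nat_lit 284) (nat_lit 5) (nat_lit 293) (nat_lit 5) (nat_lit 285) (nat_lit 5) (nat_lit 621) (nat_lit 568) (nat_lit 371))) (XT.nd (nat_lit 78) (nat_lit 684) (nat_lit 0) (XT.lf (nat_lit 0) (nat_lit 10018027695) (nat_lit 684) (nat_lit 8220245110) (nat_lit 760) (nat_lit 789343487) (nat_lit 275) (nat_lit 5) (nat_lit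 284) (nat_lit 5) (nat_lit 285) (nat_lit 5) (nat_lit 622) (nat_lit 568) (nat_lit 370)) (XT.lf (nat_lit 0) (nat_lit 1850785254) (nat_lit 608) (nat_lit 523311527) (nat_lit 684) (nat_lit 16873606867) (nat_lit 266) (nat_lit 5) (nat_lit 274) (nat_lit 5) (nat_lit 275) (nat_lit 5) (nat_lit 623) (nat_lit 568) (nat_lit 369)))) (XT.nd (nat_lit 156) (nat_lit 532) (nat_lit 0) (XT.nd (nat_lit 78) (nat_lit 608) (nat_lit 0) (XT.lf (nat_lit 0) (nat_lit 5692312736) (nat_lit 684) (nat_lit 6481661684) (nat_lit 76) (nat_lit 7296073210) (nat_lit 266) (nat_lit 5) (nat_lit 275) (nat_lit 5) (nat_lit 267) (nat_lit 5) (nat_lit 624) (nat_lit 568) (nat_lit 368)) (XT.lf (nat_lit 0) (nat_lit 4702293371) (nat_lit 608) (nat_lit 4402352008) (nat_lit 684) (nat_lit 10591638801) (nat_lit 258) (nat_lit 5) (nat_lit 266) (nat_lit 5) (nat_lit 267) (nat_lit 5) (nat_lit 625) (nat_lit 568) (nat_lit 367))) (XT.nd (nat_lit 78) (nat_lit 532) (nat_lit 0) (XT.lf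 (nat_lit 0) (nat_lit 12645710833) (nat_lit 684) (nat_lit 3759435163) (nat_lit 76) (nat_lit 3520690464) (nat_lit 258) (nat_lit 5) (nat_lit 267) (nat_lit 5) (nat_lit 259) (nat_lit 5) (nat_lit 626) (nat_lit 568) (nat_lit 366)) (XT.nd (nat_lit 78) (nat_lit 0) (nat_lit 0) (XT.lf (nat_lit 0) (nat_lit 7764772739) (nat_lit 532) (nat_lit 8566332814) (nat_lit 608) (nat_lit 3827404783) (nat_lit 251) (nat_lit 5) (nat_lit 258) (nat_lit 5) (nat_lit 259) (nat_lit 5) (nat_lit 627) (nat_lit 568) (nat_lit 365)) (XT.lf (nat_lit 0) (nat_lit 19562755129) (nat_lit 532) (nat_lit 546689120) (nat_lit 608) (nat_lit 286009412) (nat_lit 251) (nat_lit 5) (nat_lit 258) (nat_lit 5) (nat_lit 259) (nat_lit 5) (nat_lit 628) (nat_lit 568) (nat_lit 364)))))) (XT.nd (nat_lit 390) (nat_lit 1596) (nat_lit 0) (XT.nd (nat_lit 156) (nat_lit 532) (nat_lit 0) (XT.nd (nat_lit 78) (nat_lit 532) (nat_lit 0) (XT.lf (nat_lit 0) (nat_lit 3398755546) (nat_lit 684)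 (nat_lit 9609928262) (nat_lit 76) (nat_lit 7625697481) (nat_lit 242) (nat_lit 5) (nat_lit 251) (nat_lit 5) (nat_lit 243) (nat_lit 5) (nat_lit 629) (nat_lit 568) (nat_lit 363)) (XT.lf (nat_lit 0) (nat_lit 2268605735) (nat_lit 532) (nat_lit 4902900685) (nat_lit 608) (nat_lit 13706181488) (nat_lit 235) (nat_lit 5) (nat_lit 242) (nat_lit 5) (nat_lit 243) (nat_lit 5) (nat_lit 630) (nat_lit 568) (nat_lit 362))) (XT.nd (nat_lit 78) (nat_lit 532) (nat_lit 0) (XT.lf (nat_lit 0) (nat_lit 11100670677) (nat_lit 608) (nat_lit 6639579841) (nat_lit 76) (nat_lit 3383991615) (nat_lit 235) (nat_lit 5) (nat_lit 243) (nat_lit 5) (nat_lit 236) (nat_lit 5) (nat_lit 631) (nat_lit 568) (nat_lit 361)) (XT.nd (nat_lit 78) (nat_lit 0) (nat_lit 0) (XT.lf (nat_lit 0) (nat_lit 5602765863) (nat_lit 532) (nat_lit 9568808395) (nat_lit 608) (nat_lit 6202890694) (nat_lit 228) (nat_lit 5) (nat_lit 235) (nat_lit 5) (nat_lit 236) (nat_lit 5) (nat_lit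 632) (nat_lit 568) (nat_lit 360)) (XT.lf (nat_lit 0) (nat_lit 18172451043) (nat_lit 532) (nat_lit 1190372391) (nat_lit 608) (nat_lit 2266090858) (nat_lit 228) (nat_lit 5) (nat_lit 235) (nat_lit 5) (nat_lit 236) (nat_lit 5) (nat_lit 633) (nat_lit 568) (nat_lit 359))))) (XT.nd (nat_lit 156) (nat_lit 988) (nat_lit 0) (XT.nd (nat_lit 78) (nat_lit 0) (nat_lit 0) (XT.lf (nat_lit 0) (nat_lit 1828941058) (nat_lit 608) (nat_lit 12728323297) (nat_lit 76) (nat_lit 7328912879) (nat_lit 220) (nat_lit 5) (nat_lit 228) (nat_lit 5) (nat_lit 221) (nat_lit 5) (nat_lit 634) (nat_lit 568) (nat_lit 358)) (XT.lf (nat_lit 0) (nat_lit 6001284888) (nat_lit 608) (nat_lit 107339997) (nat_lit 76) (nat_lit 16039146468) (nat_lit 220) (nat_lit 5) (nat_lit 228) (nat_lit 5) (nat_lit 221) (nat_lit 5) (nat_lit 635) (nat_lit 568) (nat_lit 357))) (XT.nd (nat_lit 78) (nat_lit 456) (nat_lit 0) (XT.lf (nat_lit 0) (nat_lit 10352450139) (nat_lit 608) (nat_lit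 9501579030) (nat_lit 76) (nat_lit 2558661265) (nat_lit 213) (nat_lit 5) (nat_lit 221) (nat_lit 5) (nat_lit 214) (nat_lit 5) (nat_lit 636) (nat_lit 568) (nat_lit 356)) (XT.nd (nat_lit 78) (nat_lit 0) (nat_lit 0) (XT.lf (nat_lit 0) (nat_lit 3506639601) (nat_lit 456) (nat_lit 11342594178) (nat_lit 532) (nat_lit 7832502774) (nat_lit 207) (nat_lit 5) (nat_lit 213) (nat_lit 5) (nat_lit 214) (nat_lit 5) (nat_lit 637) (nat_lit 568) (nat_lit 355)) (XT.lf (nat_lit 0) (nat_lit 16896482861) (nat_lit 456) (nat_lit 2597936244) (nat_lit 532) (nat_lit 3460575717) (nat_lit 207) (nat_lit 5) (nat_lit 213) (nat_lit 5) (nat_lit 214) (nat_lit 5) (nat_lit 638) (nat_lit 568) (nat_lit 354))))))))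
noncomputable def xc187 : XT := (XT.nd (nat_lit 76752) (nat_lit 0) (nat_lit 17252) (XT.nd (nat_lit 75972) (nat_lit 0) (nat_lit 23636) (XT.nd (nat_lit 312) (nat_lit 532) (nat_lit 0) (XT.nd (nat_lit 156) (nat_lit 912) (nat_lit 0) (XT.nd (nat_lit 78) (nat_lit 0) (nat_lit 0) (XT.lf (nat_lit 0) (nat_lit 1069927197) (nat_lit 608) (nat_lit 15870365102) (nat_lit 76) (nat_lit 6291612054) (nat_lit 199) (nat_lit 5) (nat_lit 207) (nat_lit 5) (nat_lit 200) (nat_lit 5) (nat_lit 639) (nat_lit 568) (nat_lit 353)) (XT.lf (nat_lit 0) (nat_lit 5697692974) (nat_lit 608) (nat_lit 2429119726) (nat_lit 76) (nat_lit 15386022605) (nat_lit 199) (nat_lit 5) (nat_lit 207) (nat_lit 5) (nat_lit 200) (nat_lit 5) (nat_lit 640) (nat_lit 568) (nat_lit 352))) (XT.nd (nat_lit 78) (nat_lit 456) (nat_lit 0) (XT.lf (nat_lit 0) (nat_lit 10493182477) (nat_lit 532) (nat_lit 12380472692) (nat_lit 76) (nat_lit 924226845) (nat_lit 193) (nat_lit 5) (nat_lit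 200) (nat_lit 5) (nat_lit 194) (nat_lit 5) (nat_lit 641) (nat_lit 568) (nat_lit 351)) (XT.lf (nat_lit 0) (nat_lit 1443291491) (nat_lit 456) (nat_lit 14015847867) (nat_lit 532) (nat_lit 8627999643) (nat_lit 187) (nat_lit 5) (nat_lit 193) (nat_lit 5) (nat_lit 194) (nat_lit 5) (nat_lit 642) (nat_lit 568) (nat_lit 350)))) (XT.nd (nat_lit 75426) (nat_lit 0) (nat_lit 23560) (XT.nd (nat_lit 78) (nat_lit 532) (nat_lit 0) (XT.lf (nat_lit 0) (nat_lit 15704196608) (nat_lit 456) (nat_lit 4898308868) (nat_lit 532) (nat_lit 3778114335) (nat_lit 187) (nat_lit 5) (nat_lit 193) (nat_lit 5) (nat_lit 194) (nat_lit 5) (nat_lit 643) (nat_lit 568) (nat_lit 349)) (XT.lf (nat_lit 0) (nat_lit 1213922471) (nat_lit 532) (nat_lit 19078530006) (nat_lit 76) (nat_lit 4386156813) (nat_lit 180) (nat_lit 5) (nat_lit 187) (nat_lit 5) (nat_lit 181) (nat_lit 5) (nat_lit 644) (nat_lit 568) (nat_lit 348))) (XT.nd (nat_lit 78) (nat_lit 0) (nat_lit 0)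 (XT.lf (nat_lit 0) (nat_lit 1340649810) (nat_lit 1748) (nat_lit 2107126806) (nat_lit 1748) (nat_lit 2107126806) (nat_lit 490) (nat_lit 3) (nat_lit 513) (nat_lit 3) (nat_lit 513) (nat_lit 5) (nat_lit 569) (nat_lit 569) (nat_lit 422)) (XT.nd (nat_lit 78) (nat_lit 0) (nat_lit 76) (XT.lf (nat_lit 76) (nat_lit 1249856367) (nat_lit 0) (nat_lit 2024434512) (nat_lit 1748) (nat_lit 7935200102) (nat_lit 491) (nat_lit 5) (nat_lit 490) (nat_lit 3) (nat_lit 513) (nat_lit 5) (nat_lit 570) (nat_lit 569) (nat_lit 421)) (XT.lf (nat_lit 0) (nat_lit 3912083113) (nat_lit 1672) (nat_lit 4457439967) (nat_lit 1748) (nat_lit 2940989268) (nat_lit 491) (nat_lit 5) (nat_lit 513) (nat_lit 5) (nat_lit 514) (nat_lit 5) (nat_lit 571) (nat_lit 569) (nat_lit 420)))))) (XT.nd (nat_lit 390) (nat_lit 0) (nat_lit 152) (XT.nd (nat_lit 156) (nat_lit 0) (nat_lit 76) (XT.nd (nat_lit 78) (nat_lit 0) (nat_lit 76) (XT.lf (nat_lit 76) (nat_lit 1148703994)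 (nat_lit 0) (nat_lit 3420438187) (nat_lit 1748) (nat_lit 6844284066) (nat_lit 492) (nat_lit 5) (nat_lit 491) (nat_lit 5) (nat_lit 514) (nat_lit 5) (nat_lit 572) (nat_lit 569) (nat_lit 419)) (XT.lf (nat_lit 0) (nat_lit 5265939054) (nat_lit 1672) (nat_lit 4609201909) (nat_lit 1748) (nat_lit 1642727805) (nat_lit 492) (nat_lit 5) (nat_lit 514) (nat_lit 5) (nat_lit 515) (nat_lit 5) (nat_lit 573) (nat_lit 569) (nat_lit 418))) (XT.nd (nat_lit 78) (nat_lit 0) (nat_lit 76) (XT.lf (nat_lit 76) (nat_lit 1143908325) (nat_lit 0) (nat_lit 4849037675) (nat_lit 1748) (nat_lit 5631130892) (nat_lit 493) (nat_lit 5) (nat_lit 492) (nat_lit 5) (nat_lit 515) (nat_lit 5) (nat_lit 574) (nat_lit 569) (nat_lit 417)) (XT.nd (nat_lit 78) (nat_lit 0) (nat_lit 0) (XT.lf (nat_lit 0) (nat_lit 6753882938) (nat_lit 1672) (nat_lit 4667368692) (nat_lit 1748) (nat_lit 310771940) (nat_lit 493) (nat_lit 5) (nat_lit 515) (nat_lit 5) (nat_lit 516) (nat_lit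 5) (nat_lit 575) (nat_lit 569) (nat_lit 416)) (XT.lf (nat_lit 76) (nat_lit 1237837528) (nat_lit 0) (nat_lit 6319068979) (nat_lit 1748) (nat_lit 4284687464) (nat_lit 494) (nat_lit 5) (nat_lit 493) (nat_lit 5) (nat_lit 516) (nat_lit 5) (nat_lit 576) (nat_lit 569) (nat_lit 415))))) (XT.nd (nat_lit 156) (nat_lit 0) (nat_lit 76) (XT.nd (nat_lit 78) (nat_lit 0) (nat_lit 76) (XT.lf (nat_lit 76) (nat_lit 7316496446) (nat_lit 0) (nat_lit 1077741815) (nat_lit 1748) (nat_lit 3558754670) (nat_lit 494) (nat_lit 5) (nat_lit 493) (nat_lit 5) (nat_lit 516) (nat_lit 5) (nat_lit 577) (nat_lit 569) (nat_lit 414)) (XT.lf (nat_lit 76) (nat_lit 1433136383) (nat_lit 0) (nat_lit 7839414848) (nat_lit 1748) (nat_lit 2793586011) (nat_lit 495) (nat_lit 5) (nat_lit 494) (nat_lit 5) (nat_lit 517) (nat_lit 5) (nat_lit 578) (nat_lit 569) (nat_lit 413))) (XT.nd (nat_lit 78) (nat_lit 0) (nat_lit 76) (XT.lf (nat_lit 76) (nat_lit 7671776851) (nat_lit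 0) (nat_lit 2522272403) (nat_lit 1748) (nat_lit 1986984833) (nat_lit 495) (nat_lit 5) (nat_lit 494) (nat_lit 5) (nat_lit 517) (nat_lit 5) (nat_lit 579) (nat_lit 569) (nat_lit 412)) (XT.nd (nat_lit 78) (nat_lit 0) (nat_lit 0) (XT.lf (nat_lit 76) (nat_lit 1732726887) (nat_lit 0) (nat_lit 9419027953) (nat_lit 1748) (nat_lit 1146120460) (nat_lit 496) (nat_lit 5) (nat_lit 495) (nat_lit 5) (nat_lit 518) (nat_lit 5) (nat_lit 580) (nat_lit 569) (nat_lit 411)) (XT.lf (nat_lit 76) (nat_lit 8135679728) (nat_lit 0) (nat_lit 4027668150) (nat_lit 1748) (nat_lit 253012736) (nat_lit 496) (nat_lit 5) (nat_lit 495) (nat_lit 5) (nat_lit 518) (nat_lit 5) (nat_lit 581) (nat_lit 569) (nat_lit 410))))))) (XT.nd (nat_lit 702) (nat_lit 5016) (nat_lit 0) (XT.nd (nat_lit 312) (nat_lit 0) (nat_lit 76) (XT.nd (nat_lit 156) (nat_lit 0) (nat_lit 76) (XT.nd (nat_lit 78) (nat_lit 0) (nat_lit 0) (XT.lf (nat_lit 0) (nat_lit 660993315) (nat_lit 1748)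 (nat_lit 10401524947) (nat_lit 1824) (nat_lit 1474380495) (nat_lit 473) (nat_lit 5) (nat_lit 496) (nat_lit 5) (nat_lit 497) (nat_lit 5) (nat_lit 582) (nat_lit 569) (nat_lit 409)) (XT.lf (nat_lit 0) (nat_lit 1633727927) (nat_lit 1748) (nat_lit 3958317655) (nat_lit 1824) (nat_lit 7066893741) (nat_lit 473) (nat_lit 5) (nat_lit 496) (nat_lit 5) (nat_lit 497) (nat_lit 5) (nat_lit 583) (nat_lit 569) (nat_lit 408))) (XT.nd (nat_lit 78) (nat_lit 0) (nat_lit 0) (XT.lf (nat_lit 0) (nat_lit 2631590710) (nat_lit 1748) (nat_lit 10143103907) (nat_lit 1824) (nat_lit 8614410) (nat_lit 474) (nat_lit 5) (nat_lit 497) (nat_lit 5) (nat_lit 498) (nat_lit 5) (nat_lit 584) (nat_lit 569) (nat_lit 407)) (XT.lf (nat_lit 0) (nat_lit 3701851902) (nat_lit 1748) (nat_lit 3530804920) (nat_lit 1824) (nat_lit 5676462240) (nat_lit 474) (nat_lit 5) (nat_lit 497) (nat_lit 5) (nat_lit 498) (nat_lit 5) (nat_lit 585) (nat_lit 569) (nat_lit 406)))) (XT.nd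 (nat_lit 156) (nat_lit 0) (nat_lit 76) (XT.nd (nat_lit 78) (nat_lit 0) (nat_lit 76) (XT.lf (nat_lit 76) (nat_lit 3248188556) (nat_lit 0) (nat_lit 1555310759) (nat_lit 1824) (nat_lit 8233748089) (nat_lit 475) (nat_lit 5) (nat_lit 474) (nat_lit 5) (nat_lit 498) (nat_lit 5) (nat_lit 586) (nat_lit 569) (nat_lit 405)) (XT.lf (nat_lit 0) (nat_lit 5967605662) (nat_lit 1748) (nat_lit 2992836132) (nat_lit 1824) (nat_lit 4206689694) (nat_lit 475) (nat_lit 5) (nat_lit 498) (nat_lit 5) (nat_lit 499) (nat_lit 5) (nat_lit 587) (nat_lit 569) (nat_lit 404))) (XT.nd (nat_lit 78) (nat_lit 0) (nat_lit 76) (XT.lf (nat_lit 76) (nat_lit 3972942845) (nat_lit 0) (nat_lit 3207435854) (nat_lit 1824) (nat_lit 6118728522) (nat_lit 476) (nat_lit 5) (nat_lit 475) (nat_lit 5) (nat_lit 499) (nat_lit 5) (nat_lit 588) (nat_lit 569) (nat_lit 403)) (XT.nd (nat_lit 78) (nat_lit 0) (nat_lit 0) (XT.lf (nat_lit 0) (nat_lit 8444360882) (nat_lit 1748)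 (nat_lit 2340470987) (nat_lit 1824) (nat_lit 2648353154) (nat_lit 476) (nat_lit 5) (nat_lit 499) (nat_lit 5) (nat_lit 500) (nat_lit 5) (nat_lit 589) (nat_lit 569) (nat_lit 402)) (XT.lf (nat_lit 76) (nat_lit 4818708205) (nat_lit 0) (nat_lit 4957111263) (nat_lit 1824) (nat_lit 3793282571) (nat_lit 477) (nat_lit 5) (nat_lit 476) (nat_lit 5) (nat_lit 500) (nat_lit 5) (nat_lit 590) (nat_lit 569) (nat_lit 401)))))) (XT.nd (nat_lit 390) (nat_lit 1900) (nat_lit 0) (XT.nd (nat_lit 156) (nat_lit 3420) (nat_lit 0) (XT.nd (nat_lit 78) (nat_lit 0) (nat_lit 0) (XT.lf (nat_lit 0) (nat_lit 11145958647) (nat_lit 1748) (nat_lit 1569489571) (nat_lit 1824) (nat_lit 992049714) (nat_lit 477) (nat_lit 5) (nat_lit 500) (nat_lit 5) (nat_lit 501) (nat_lit 5) (nat_lit 591) (nat_lit 569) (nat_lit 400)) (XT.lf (nat_lit 76) (nat_lit 5789954603) (nat_lit 0) (nat_lit 6813998445) (nat_lit 1824) (nat_lit 1243501180) (nat_lit 478) (nat_lit 5) (nat_lit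 477) (nat_lit 5) (nat_lit 501) (nat_lit 5) (nat_lit 592) (nat_lit 569) (nat_lit 399))) (XT.nd (nat_lit 78) (nat_lit 1596) (nat_lit 0) (XT.lf (nat_lit 0) (nat_lit 100284012) (nat_lit 1824) (nat_lit 681126346) (nat_lit 1900) (nat_lit 13208773470) (nat_lit 453) (nat_lit 5) (nat_lit 477) (nat_lit 5) (nat_lit 478) (nat_lit 5) (nat_lit 593) (nat_lit 569) (nat_lit 398)) (XT.nd (nat_lit 78) (nat_lit 1672) (nat_lit 0) (XT.lf (nat_lit 0) (nat_lit 1524762287) (nat_lit 1824) (nat_lit 7252984216) (nat_lit 76) (nat_lit 5356449214) (nat_lit 454) (nat_lit 5) (nat_lit 478) (nat_lit 5) (nat_lit 455) (nat_lit 5) (nat_lit 594) (nat_lit 569) (nat_lit 397)) (XT.lf (nat_lit 0) (nat_lit 313689376) (nat_lit 1672) (nat_lit 2666302757) (nat_lit 1748) (nat_lit 11301051887) (nat_lit 432) (nat_lit 5) (nat_lit 454) (nat_lit 5) (nat_lit 455) (nat_lit 5) (nat_lit 595) (nat_lit 569) (nat_lit 396))))) (XT.nd (nat_lit 156) (nat_lit 912) (nat_lit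 0) (XT.nd (nat_lit 78) (nat_lit 988) (nat_lit 0) (XT.lf (nat_lit 0) (nat_lit 4527073370) (nat_lit 1748) (nat_lit 6331722778) (nat_lit 76) (nat_lit 3570779595) (nat_lit 432) (nat_lit 5) (nat_lit 455) (nat_lit 5) (nat_lit 433) (nat_lit 5) (nat_lit 596) (nat_lit 569) (nat_lit 395)) (XT.lf (nat_lit 0) (nat_lit 1449746992) (nat_lit 988) (nat_lit 4673195466) (nat_lit 1064) (nat_lit 8457780078) (nat_lit 419) (nat_lit 5) (nat_lit 432) (nat_lit 5) (nat_lit 433) (nat_lit 5) (nat_lit 597) (nat_lit 569) (nat_lit 394))) (XT.nd (nat_lit 78) (nat_lit 912) (nat_lit 0) (XT.lf (nat_lit 0) (nat_lit 7795031889) (nat_lit 1064) (nat_lit 5280638175) (nat_lit 76) (nat_lit 1658337479) (nat_lit 419) (nat_lit 5) (nat_lit 433) (nat_lit 5) (nat_lit 420) (nat_lit 5) (nat_lit 598) (nat_lit 569) (nat_lit 393)) (XT.nd (nat_lit 78) (nat_lit 0) (nat_lit 0) (XT.lf (nat_lit 0) (nat_lit 2723271992) (nat_lit 912) (nat_lit 6817008583) (nat_lit 988) (nat_lit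 5349284632) (nat_lit 407) (nat_lit 5) (nat_lit 419) (nat_lit 5) (nat_lit 420) (nat_lit 5) (nat_lit 599) (nat_lit 569) (nat_lit 392)) (XT.lf (nat_lit 0) (nat_lit 10950692924) (nat_lit 912) (nat_lit 396386885) (nat_lit 988) (nat_lit 3700622588) (nat_lit 407) (nat_lit 5) (nat_lit 419) (nat_lit 5) (nat_lit 420) (nat_lit 5) (nat_lit 600) (nat_lit 569) (nat_lit 391))))))))
noncomputable def xc188 : XT := (XT.nd (nat_lit 1482) (nat_lit 6460) (nat_lit 0) (XT.nd (nat_lit 702) (nat_lit 4484) (nat_lit 0) (XT.nd (nat_lit 312) (nat_lit 2432) (nat_lit 0) (XT.nd (nat_lit 156) (nat_lit 912) (nat_lit 0) (XT.nd (nat_lit 78) (nat_lit 0) (nat_lit 0) (XT.lf (nat_lit 0) (nat_lit 4139841825) (nat_lit 912) (nat_lit 9108385027) (nat_lit 988) (nat_lit 1959612498) (nat_lit 395) (nat_lit 5) (nat_lit 407) (nat_lit 5) (nat_lit 408) (nat_lit 5) (nat_lit 601) (nat_lit 569) (nat_lit 390)) (XT.lf (nat_lit 0) (nat_lit 12586194127) (nat_lit 912)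 (nat_lit 2622805998) (nat_lit 988) (nat_lit 161748086) (nat_lit 395) (nat_lit 5) (nat_lit 407) (nat_lit 5) (nat_lit 408) (nat_lit 5) (nat_lit 602) (nat_lit 569) (nat_lit 389))) (XT.nd (nat_lit 78) (nat_lit 0) (nat_lit 0) (XT.lf (nat_lit 0) (nat_lit 1705140874) (nat_lit 912) (nat_lit 9841702166) (nat_lit 76) (nat_lit 3988756334) (nat_lit 383) (nat_lit 5) (nat_lit 395) (nat_lit 5) (nat_lit 384) (nat_lit 5) (nat_lit 603) (nat_lit 569) (nat_lit 388)) (XT.lf (nat_lit 0) (nat_lit 3635109760) (nat_lit 912) (nat_lit 1350456444) (nat_lit 76) (nat_lit 10717602976) (nat_lit 383) (nat_lit 5) (nat_lit 395) (nat_lit 5) (nat_lit 384) (nat_lit 5) (nat_lit 604) (nat_lit 569) (nat_lit 387)))) (XT.nd (nat_lit 156) (nat_lit 836) (nat_lit 0) (XT.nd (nat_lit 78) (nat_lit 760) (nat_lit 0) (XT.lf (nat_lit 0) (nat_lit 5655011721) (nat_lit 912) (nat_lit 8485052948) (nat_lit 76) (nat_lit 1733000178) (nat_lit 372) (nat_lit 5) (nat_lit 384)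 (nat_lit 5) (nat_lit 373) (nat_lit 5) (nat_lit 605) (nat_lit 569) (nat_lit 386)) (XT.lf (nat_lit 0) (nat_lit 235257420) (nat_lit 760) (nat_lit 7515717574) (nat_lit 836) (nat_lit 8294671286) (nat_lit 362) (nat_lit 5) (nat_lit 372) (nat_lit 5) (nat_lit 373) (nat_lit 5) (nat_lit 606) (nat_lit 569) (nat_lit 385))) (XT.nd (nat_lit 78) (nat_lit 836) (nat_lit 0) (XT.lf (nat_lit 0) (nat_lit 9236915372) (nat_lit 760) (nat_lit 700982370) (nat_lit 836) (nat_lit 6282801889) (nat_lit 362) (nat_lit 5) (nat_lit 372) (nat_lit 5) (nat_lit 373) (nat_lit 5) (nat_lit 607) (nat_lit 569) (nat_lit 384)) (XT.nd (nat_lit 78) (nat_lit 0) (nat_lit 0) (XT.lf (nat_lit 0) (nat_lit 1996890321) (nat_lit 836) (nat_lit 10217468011) (nat_lit 912) (nat_lit 4183980804) (nat_lit 351) (nat_lit 5) (nat_lit 362) (nat_lit 5) (nat_lit 363) (nat_lit 5) (nat_lit 608) (nat_lit 569) (nat_lit 383)) (XT.lf (nat_lit 0) (nat_lit 11239122341) (nat_lit 836) (nat_lit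 3341056982) (nat_lit 912) (nat_lit 1998476535) (nat_lit 351) (nat_lit 5) (nat_lit 362) (nat_lit 5) (nat_lit 363) (nat_lit 5) (nat_lit 609) (nat_lit 569) (nat_lit 382)))))) (XT.nd (nat_lit 390) (nat_lit 2204) (nat_lit 0) (XT.nd (nat_lit 156) (nat_lit 1444) (nat_lit 0) (XT.nd (nat_lit 78) (nat_lit 0) (nat_lit 0) (XT.lf (nat_lit 0) (nat_lit 269808632) (nat_lit 836) (nat_lit 12840302048) (nat_lit 76) (nat_lit 3651597346) (nat_lit 340) (nat_lit 5) (nat_lit 351) (nat_lit 5) (nat_lit 341) (nat_lit 5) (nat_lit 610) (nat_lit 569) (nat_lit 381)) (XT.lf (nat_lit 0) (nat_lit 2607466950) (nat_lit 836) (nat_lit 3551417791) (nat_lit 76) (nat_lit 10788257948) (nat_lit 340) (nat_lit 5) (nat_lit 351) (nat_lit 5) (nat_lit 341) (nat_lit 5) (nat_lit 611) (nat_lit 569) (nat_lit 380))) (XT.nd (nat_lit 78) (nat_lit 684) (nat_lit 0) (XT.lf (nat_lit 0) (nat_lit 5029789676) (nat_lit 836) (nat_lit 11147999554) (nat_lit 76) (nat_lit 957739563)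 (nat_lit 330) (nat_lit 5) (nat_lit 341) (nat_lit 5) (nat_lit 331) (nat_lit 5) (nat_lit 612) (nat_lit 569) (nat_lit 379)) (XT.nd (nat_lit 78) (nat_lit 684) (nat_lit 0) (XT.lf (nat_lit 0) (nat_lit 7558117662) (nat_lit 836) (nat_lit 1610744445) (nat_lit 76) (nat_lit 8157670289) (nat_lit 330) (nat_lit 5) (nat_lit 341) (nat_lit 5) (nat_lit 331) (nat_lit 5) (nat_lit 613) (nat_lit 569) (nat_lit 378)) (XT.lf (nat_lit 0) (nat_lit 8217193445) (nat_lit 684) (nat_lit 1966093546) (nat_lit 760) (nat_lit 7337144519) (nat_lit 321) (nat_lit 5) (nat_lit 330) (nat_lit 5) (nat_lit 331) (nat_lit 5) (nat_lit 614) (nat_lit 569) (nat_lit 377))))) (XT.nd (nat_lit 156) (nat_lit 1444) (nat_lit 0) (XT.nd (nat_lit 78) (nat_lit 0) (nat_lit 0) (XT.lf (nat_lit 0) (nat_lit 509287979) (nat_lit 760) (nat_lit 12393800570) (nat_lit 836) (nat_lit 4814278397) (nat_lit 311) (nat_lit 5) (nat_lit 321) (nat_lit 5) (nat_lit 322) (nat_lit 5) (nat_lit 615)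 (nat_lit 569) (nat_lit 376)) (XT.lf (nat_lit 0) (nat_lit 10623114641) (nat_lit 760) (nat_lit 5122628425) (nat_lit 836) (nat_lit 2171129783) (nat_lit 311) (nat_lit 5) (nat_lit 321) (nat_lit 5) (nat_lit 322) (nat_lit 5) (nat_lit 616) (nat_lit 569) (nat_lit 375))) (XT.nd (nat_lit 78) (nat_lit 684) (nat_lit 0) (XT.lf (nat_lit 0) (nat_lit 544683864) (nat_lit 760) (nat_lit 15290149327) (nat_lit 76) (nat_lit 2284934667) (nat_lit 301) (nat_lit 5) (nat_lit 311) (nat_lit 5) (nat_lit 302) (nat_lit 5) (nat_lit 617) (nat_lit 569) (nat_lit 374)) (XT.nd (nat_lit 78) (nat_lit 684) (nat_lit 0) (XT.lf (nat_lit 0) (nat_lit 3362222292) (nat_lit 760) (nat_lit 5127916524) (nat_lit 76) (nat_lit 9834766174) (nat_lit 301) (nat_lit 5) (nat_lit 311) (nat_lit 5) (nat_lit 302) (nat_lit 5) (nat_lit 618) (nat_lit 569) (nat_lit 373)) (XT.lf (nat_lit 0) (nat_lit 5299338093) (nat_lit 684) (nat_lit 964571361) (nat_lit 760) (nat_lit 12269680282)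 (nat_lit 292) (nat_lit 5) (nat_lit 301) (nat_lit 5) (nat_lit 302) (nat_lit 5) (nat_lit 619) (nat_lit 569) (nat_lit 372))))))) (XT.nd (nat_lit 702) (nat_lit 3344) (nat_lit 0) (XT.nd (nat_lit 312) (nat_lit 1824) (nat_lit 0) (XT.nd (nat_lit 156) (nat_lit 684) (nat_lit 0) (XT.nd (nat_lit 78) (nat_lit 608) (nat_lit 0) (XT.lf (nat_lit 0) (nat_lit 9295308304) (nat_lit 760) (nat_lit 2792713095) (nat_lit 76) (nat_lit 6656994033) (nat_lit 292) (nat_lit 5) (nat_lit 302) (nat_lit 5) (nat_lit 293) (nat_lit 5) (nat_lit 620) (nat_lit 569) (nat_lit 371)) (XT.lf (nat_lit 0) (nat_lit 7947861103) (nat_lit 608) (nat_lit 4491056349) (nat_lit 684) (nat_lit 6520721341) (nat_lit 284) (nat_lit 5) (nat_lit 292) (nat_lit 5) (nat_lit 293) (nat_lit 5) (nat_lit 621) (nat_lit 569) (nat_lit 370))) (XT.nd (nat_lit 78) (nat_lit 684) (nat_lit 0) (XT.lf (nat_lit 0) (nat_lit 15679075372) (nat_lit 684) (nat_lit 266067070) (nat_lit 76) (nat_lit 3232739429)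 (nat_lit 284) (nat_lit 5) (nat_lit 293) (nat_lit 5) (nat_lit 285) (nat_lit 5) (nat_lit 622) (nat_lit 569) (nat_lit 369)) (XT.lf (nat_lit 0) (nat_lit 10798882415) (nat_lit 684) (nat_lit 8278793748) (nat_lit 760) (nat_lit 320941621) (nat_lit 275) (nat_lit 5) (nat_lit 284) (nat_lit 5) (nat_lit 285) (nat_lit 5) (nat_lit 623) (nat_lit 569) (nat_lit 368)))) (XT.nd (nat_lit 156) (nat_lit 1140) (nat_lit 0) (XT.nd (nat_lit 78) (nat_lit 0) (nat_lit 0) (XT.lf (nat_lit 0) (nat_lit 2470841093) (nat_lit 608) (nat_lit 422992239) (nat_lit 684) (nat_lit 16729323477) (nat_lit 266) (nat_lit 5) (nat_lit 274) (nat_lit 5) (nat_lit 275) (nat_lit 5) (nat_lit 624) (nat_lit 569) (nat_lit 367)) (XT.lf (nat_lit 0) (nat_lit 6269858900) (nat_lit 684) (nat_lit 6031077512) (nat_lit 76) (nat_lit 7549183445) (nat_lit 266) (nat_lit 5) (nat_lit 275) (nat_lit 5) (nat_lit 267) (nat_lit 5) (nat_lit 625) (nat_lit 569) (nat_lit 366))) (XT.nd (nat_lit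 78) (nat_lit 532) (nat_lit 0) (XT.lf (nat_lit 0) (nat_lit 5372739424) (nat_lit 608) (nat_lit 4372348989) (nat_lit 684) (nat_lit 10335900794) (nat_lit 258) (nat_lit 5) (nat_lit 266) (nat_lit 5) (nat_lit 267) (nat_lit 5) (nat_lit 626) (nat_lit 569) (nat_lit 365)) (XT.nd (nat_lit 78) (nat_lit 532) (nat_lit 0) (XT.lf (nat_lit 0) (nat_lit 13348739350) (nat_lit 684) (nat_lit 3261237217) (nat_lit 76) (nat_lit 3705321735) (nat_lit 258) (nat_lit 5) (nat_lit 267) (nat_lit 5) (nat_lit 259) (nat_lit 5) (nat_lit 627) (nat_lit 569) (nat_lit 364)) (XT.lf (nat_lit 0) (nat_lit 8489682563) (nat_lit 532) (nat_lit 8613031945) (nat_lit 608) (nat_lit 3450014728) (nat_lit 251) (nat_lit 5) (nat_lit 258) (nat_lit 5) (nat_lit 259) (nat_lit 5) (nat_lit 628) (nat_lit 569) (nat_lit 363)))))) (XT.nd (nat_lit 390) (nat_lit 1596) (nat_lit 0) (XT.nd (nat_lit 156) (nat_lit 1064) (nat_lit 0) (XT.nd (nat_lit 78) (nat_lit 608) (nat_lit 0) (XT.lf (nat_lit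 0) (nat_lit 151297142) (nat_lit 608) (nat_lit 283126628) (nat_lit 76) (nat_lit 20360143265) (nat_lit 250) (nat_lit 5) (nat_lit 258) (nat_lit 5) (nat_lit 251) (nat_lit 5) (nat_lit 629) (nat_lit 569) (nat_lit 362)) (XT.lf (nat_lit 0) (nat_lit 3901780057) (nat_lit 684) (nat_lit 9233595201) (nat_lit 76) (nat_lit 7902944073) (nat_lit 242) (nat_lit 5) (nat_lit 251) (nat_lit 5) (nat_lit 243) (nat_lit 5) (nat_lit 630) (nat_lit 569) (nat_lit 361))) (XT.nd (nat_lit 78) (nat_lit 532) (nat_lit 0) (XT.lf (nat_lit 0) (nat_lit 2878769136) (nat_lit 532) (nat_lit 4866353432) (nat_lit 608) (nat_lit 13541467735) (nat_lit 235) (nat_lit 5) (nat_lit 242) (nat_lit 5) (nat_lit 243) (nat_lit 5) (nat_lit 631) (nat_lit 569) (nat_lit 360)) (XT.nd (nat_lit 78) (nat_lit 532) (nat_lit 0) (XT.lf (nat_lit 0) (nat_lit 11745291900) (nat_lit 608) (nat_lit 6211029572) (nat_lit 76) (nat_lit 3581906639) (nat_lit 235) (nat_lit 5) (nat_lit 243) (nat_lit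 5) (nat_lit 236) (nat_lit 5) (nat_lit 632) (nat_lit 569) (nat_lit 359)) (XT.lf (nat_lit 0) (nat_lit 6272470006) (nat_lit 532) (nat_lit 9620477744) (nat_lit 608) (nat_lit 5900601867) (nat_lit 228) (nat_lit 5) (nat_lit 235) (nat_lit 5) (nat_lit 236) (nat_lit 5) (nat_lit 633) (nat_lit 569) (nat_lit 358))))) (XT.nd (nat_lit 156) (nat_lit 988) (nat_lit 0) (XT.nd (nat_lit 78) (nat_lit 608) (nat_lit 0) (XT.lf (nat_lit 0) (nat_lit 19082614600) (nat_lit 532) (nat_lit 1077212369) (nat_lit 608) (nat_lit 1893425772) (nat_lit 228) (nat_lit 5) (nat_lit 235) (nat_lit 5) (nat_lit 236) (nat_lit 5) (nat_lit 634) (nat_lit 569) (nat_lit 357)) (XT.lf (nat_lit 0) (nat_lit 2274411455) (nat_lit 608) (nat_lit 12426992734) (nat_lit 76) (nat_lit 7614275607) (nat_lit 220) (nat_lit 5) (nat_lit 228) (nat_lit 5) (nat_lit 221) (nat_lit 5) (nat_lit 635) (nat_lit 569) (nat_lit 356))) (XT.nd (nat_lit 78) (nat_lit 456) (nat_lit 0) (XT.lf (nat_lit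 0) (nat_lit 441297992) (nat_lit 532) (nat_lit 6083751887) (nat_lit 608) (nat_lit 16057559810) (nat_lit 213) (nat_lit 5) (nat_lit 220) (nat_lit 5) (nat_lit 221) (nat_lit 5) (nat_lit 636) (nat_lit 569) (nat_lit 355)) (XT.nd (nat_lit 78) (nat_lit 456) (nat_lit 0) (XT.lf (nat_lit 0) (nat_lit 10956968836) (nat_lit 608) (nat_lit 9143167648) (nat_lit 76) (nat_lit 2752816889) (nat_lit 213) (nat_lit 5) (nat_lit 221) (nat_lit 5) (nat_lit 214) (nat_lit 5) (nat_lit 637) (nat_lit 569) (nat_lit 354)) (XT.lf (nat_lit 0) (nat_lit 4121607178) (nat_lit 456) (nat_lit 11417824876) (nat_lit 532) (nat_lit 7588034294) (nat_lit 207) (nat_lit 5) (nat_lit 213) (nat_lit 5) (nat_lit 214) (nat_lit 5) (nat_lit 638) (nat_lit 569) (nat_lit 353))))))))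
noncomputable def xc189 : XT := (XT.nd (nat_lit 76752) (nat_lit 0) (nat_lit 17252) (XT.nd (nat_lit 75972) (nat_lit 0) (nat_lit 23636) (XT.nd (nat_lit 312) (nat_lit 988) (nat_lit 0) (XT.nd (nat_lit 156) (nat_lit 456) (nat_lit 0) (XT.nd (nat_lit 78) (nat_lit 608) (nat_lit 0) (XT.lf (nat_lit 0) (nat_lit 17768564268) (nat_lit 456) (nat_lit 2501246748) (nat_lit 532) (nat_lit 3136533766) (nat_lit 207) (nat_lit 5) (nat_lit 213) (nat_lit 5) (nat_lit 214) (nat_lit 5) (nat_lit 639) (nat_lit 569) (nat_lit 352)) (XT.lf (nat_lit 0) (nat_lit 1476276478) (nat_lit 608) (nat_lit 15645240524) (nat_lit 76) (nat_lit 6567288107) (nat_lit 199) (nat_lit 5) (nat_lit 207) (nat_lit 5) (nat_lit 200) (nat_lit 5) (nat_lit 640) (nat_lit 569) (nat_lit 351))) (XT.nd (nat_lit 78) (nat_lit 456) (nat_lit 0) (XT.lf (nat_lit 0) (nat_lit 6189049517) (nat_lit 608) (nat_lit 1945808120) (nat_lit 76) (nat_lit 15840648755) (nat_lit 199) (nat_lit 5) (nat_lit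 207) (nat_lit 5) (nat_lit 200) (nat_lit 5) (nat_lit 641) (nat_lit 569) (nat_lit 350)) (XT.lf (nat_lit 0) (nat_lit 11077485557) (nat_lit 532) (nat_lit 12093188065) (nat_lit 76) (nat_lit 1095640414) (nat_lit 193) (nat_lit 5) (nat_lit 200) (nat_lit 5) (nat_lit 194) (nat_lit 5) (nat_lit 642) (nat_lit 569) (nat_lit 349)))) (XT.nd (nat_lit 156) (nat_lit 532) (nat_lit 0) (XT.nd (nat_lit 78) (nat_lit 0) (nat_lit 0) (XT.lf (nat_lit 0) (nat_lit 2003532362) (nat_lit 456) (nat_lit 14135337304) (nat_lit 532) (nat_lit 8422565058) (nat_lit 187) (nat_lit 5) (nat_lit 193) (nat_lit 5) (nat_lit 194) (nat_lit 5) (nat_lit 643) (nat_lit 569) (nat_lit 348)) (XT.lf (nat_lit 0) (nat_lit 16539236463) (nat_lit 456) (nat_lit 4838601006) (nat_lit 532) (nat_lit 3483093702) (nat_lit 187) (nat_lit 5) (nat_lit 193) (nat_lit 5) (nat_lit 194) (nat_lit 5) (nat_lit 644) (nat_lit 569) (nat_lit 347))) (XT.nd (nat_lit 75348) (nat_lit 0) (nat_lit 23560)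 (XT.lf (nat_lit 0) (nat_lit 1601185992) (nat_lit 532) (nat_lit 18931478105) (nat_lit 76) (nat_lit 4632223652) (nat_lit 180) (nat_lit 5) (nat_lit 187) (nat_lit 5) (nat_lit 181) (nat_lit 5) (nat_lit 645) (nat_lit 569) (nat_lit 346)) (XT.nd (nat_lit 78) (nat_lit 0) (nat_lit 0) (XT.lf (nat_lit 0) (nat_lit 1921902856) (nat_lit 1748) (nat_lit 1866460027) (nat_lit 1748) (nat_lit 1866460027) (nat_lit 490) (nat_lit 3) (nat_lit 513) (nat_lit 3) (nat_lit 513) (nat_lit 5) (nat_lit 570) (nat_lit 570) (nat_lit 420)) (XT.lf (nat_lit 76) (nat_lit 1836750950) (nat_lit 0) (nat_lit 2593811311) (nat_lit 1748) (nat_lit 6981126791) (nat_lit 491) (nat_lit 5) (nat_lit 490) (nat_lit 3) (nat_lit 513) (nat_lit 5) (nat_lit 571) (nat_lit 570) (nat_lit 419)))))) (XT.nd (nat_lit 390) (nat_lit 0) (nat_lit 152) (XT.nd (nat_lit 156) (nat_lit 0) (nat_lit 76) (XT.nd (nat_lit 78) (nat_lit 0) (nat_lit 0) (XT.lf (nat_lit 0) (nat_lit 5056355825) (nat_lit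 1672) (nat_lit 3970781808) (nat_lit 1748) (nat_lit 2488091754) (nat_lit 491) (nat_lit 5) (nat_lit 513) (nat_lit 5) (nat_lit 514) (nat_lit 5) (nat_lit 572) (nat_lit 570) (nat_lit 418)) (XT.lf (nat_lit 76) (nat_lit 1743696829) (nat_lit 0) (nat_lit 3965670601) (nat_lit 1748) (nat_lit 5911181291) (nat_lit 492) (nat_lit 5) (nat_lit 491) (nat_lit 5) (nat_lit 514) (nat_lit 5) (nat_lit 573) (nat_lit 570) (nat_lit 417))) (XT.nd (nat_lit 78) (nat_lit 0) (nat_lit 0) (XT.lf (nat_lit 0) (nat_lit 6396499551) (nat_lit 1672) (nat_lit 4116816672) (nat_lit 1748) (nat_lit 1214239202) (nat_lit 492) (nat_lit 5) (nat_lit 514) (nat_lit 5) (nat_lit 515) (nat_lit 5) (nat_lit 574) (nat_lit 570) (nat_lit 416)) (XT.nd (nat_lit 78) (nat_lit 0) (nat_lit 0) (XT.lf (nat_lit 76) (nat_lit 1747509916) (nat_lit 0) (nat_lit 5374204382) (nat_lit 1748) (nat_lit 4714503311) (nat_lit 493) (nat_lit 5) (nat_lit 492) (nat_lit 5) (nat_lit 515) (nat_lit 5)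 (nat_lit 575) (nat_lit 570) (nat_lit 415)) (XT.lf (nat_lit 76) (nat_lit 7777411820) (nat_lit 0) (nat_lit 98590175) (nat_lit 1748) (nat_lit 4070761776) (nat_lit 493) (nat_lit 5) (nat_lit 492) (nat_lit 5) (nat_lit 515) (nat_lit 5) (nat_lit 576) (nat_lit 570) (nat_lit 414))))) (XT.nd (nat_lit 156) (nat_lit 0) (nat_lit 76) (XT.nd (nat_lit 78) (nat_lit 0) (nat_lit 0) (XT.lf (nat_lit 76) (nat_lit 1850703742) (nat_lit 0) (nat_lit 6828219376) (nat_lit 1748) (nat_lit 3379928846) (nat_lit 494) (nat_lit 5) (nat_lit 493) (nat_lit 5) (nat_lit 516) (nat_lit 5) (nat_lit 577) (nat_lit 570) (nat_lit 413)) (XT.lf (nat_lit 76) (nat_lit 8039404280) (nat_lit 0) (nat_lit 1474560394) (nat_lit 1748) (nat_lit 2658898031) (nat_lit 494) (nat_lit 5) (nat_lit 493) (nat_lit 5) (nat_lit 516) (nat_lit 5) (nat_lit 578) (nat_lit 570) (nat_lit 412))) (XT.nd (nat_lit 78) (nat_lit 0) (nat_lit 0) (XT.lf (nat_lit 76) (nat_lit 2056068007) (nat_lit 0)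 (nat_lit 8336582035) (nat_lit 1748) (nat_lit 1895966742) (nat_lit 495) (nat_lit 5) (nat_lit 494) (nat_lit 5) (nat_lit 517) (nat_lit 5) (nat_lit 579) (nat_lit 570) (nat_lit 411)) (XT.nd (nat_lit 78) (nat_lit 0) (nat_lit 76) (XT.lf (nat_lit 76) (nat_lit 8407828953) (nat_lit 0) (nat_lit 2906422645) (nat_lit 1748) (nat_lit 1091929442) (nat_lit 495) (nat_lit 5) (nat_lit 494) (nat_lit 5) (nat_lit 517) (nat_lit 5) (nat_lit 580) (nat_lit 570) (nat_lit 410)) (XT.lf (nat_lit 76) (nat_lit 2366669555) (nat_lit 0) (nat_lit 9908241481) (nat_lit 1748) (nat_lit 250774934) (nat_lit 496) (nat_lit 5) (nat_lit 495) (nat_lit 5) (nat_lit 518) (nat_lit 5) (nat_lit 581) (nat_lit 570) (nat_lit 409))))))) (XT.nd (nat_lit 702) (nat_lit 4940) (nat_lit 0) (XT.nd (nat_lit 312) (nat_lit 0) (nat_lit 152) (XT.nd (nat_lit 156) (nat_lit 0) (nat_lit 76) (XT.nd (nat_lit 78) (nat_lit 0) (nat_lit 76) (XT.lf (nat_lit 0) (nat_lit 633767256) (nat_lit 1748)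 (nat_lit 3765135628) (nat_lit 1824) (nat_lit 8247910537) (nat_lit 472) (nat_lit 5) (nat_lit 495) (nat_lit 5) (nat_lit 496) (nat_lit 5) (nat_lit 582) (nat_lit 570) (nat_lit 408)) (XT.lf (nat_lit 0) (nat_lit 1547300890) (nat_lit 1748) (nat_lit 9994568201) (nat_lit 1824) (nat_lit 1228169804) (nat_lit 473) (nat_lit 5) (nat_lit 496) (nat_lit 5) (nat_lit 497) (nat_lit 5) (nat_lit 583) (nat_lit 570) (nat_lit 407))) (XT.nd (nat_lit 78) (nat_lit 0) (nat_lit 0) (XT.lf (nat_lit 0) (nat_lit 2522370828) (nat_lit 1748) (nat_lit 3434555336) (nat_lit 1824) (nat_lit 6937939163) (nat_lit 473) (nat_lit 5) (nat_lit 496) (nat_lit 5) (nat_lit 497) (nat_lit 5) (nat_lit 584) (nat_lit 570) (nat_lit 406)) (XT.lf (nat_lit 76) (nat_lit 3292030221) (nat_lit 0) (nat_lit 235208003) (nat_lit 1824) (nat_lit 9494745869) (nat_lit 474) (nat_lit 5) (nat_lit 473) (nat_lit 5) (nat_lit 497) (nat_lit 5) (nat_lit 585) (nat_lit 570) (nat_lit 405)))) (XT.nd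 (nat_lit 156) (nat_lit 0) (nat_lit 76) (XT.nd (nat_lit 78) (nat_lit 0) (nat_lit 0) (XT.lf (nat_lit 0) (nat_lit 4600877738) (nat_lit 1748) (nat_lit 2995990392) (nat_lit 1824) (nat_lit 5553805302) (nat_lit 474) (nat_lit 5) (nat_lit 497) (nat_lit 5) (nat_lit 498) (nat_lit 5) (nat_lit 586) (nat_lit 570) (nat_lit 404)) (XT.lf (nat_lit 76) (nat_lit 3914599857) (nat_lit 0) (nat_lit 1797686988) (nat_lit 1824) (nat_lit 7569325436) (nat_lit 475) (nat_lit 5) (nat_lit 474) (nat_lit 5) (nat_lit 498) (nat_lit 5) (nat_lit 587) (nat_lit 570) (nat_lit 403))) (XT.nd (nat_lit 78) (nat_lit 0) (nat_lit 0) (XT.lf (nat_lit 0) (nat_lit 6882394872) (nat_lit 1748) (nat_lit 2445634712) (nat_lit 1824) (nat_lit 4086412537) (nat_lit 475) (nat_lit 5) (nat_lit 498) (nat_lit 5) (nat_lit 499) (nat_lit 5) (nat_lit 588) (nat_lit 570) (nat_lit 402)) (XT.nd (nat_lit 78) (nat_lit 0) (nat_lit 76) (XT.lf (nat_lit 76) (nat_lit 4655466042) (nat_lit 0) (nat_lit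 3452276016) (nat_lit 1824) (nat_lit 5441551354) (nat_lit 476) (nat_lit 5) (nat_lit 475) (nat_lit 5) (nat_lit 499) (nat_lit 5) (nat_lit 589) (nat_lit 570) (nat_lit 401)) (XT.lf (nat_lit 0) (nat_lit 9380485958) (nat_lit 1748) (nat_lit 1779404463) (nat_lit 1824) (nat_lit 2526495076) (nat_lit 476) (nat_lit 5) (nat_lit 499) (nat_lit 5) (nat_lit 500) (nat_lit 5) (nat_lit 590) (nat_lit 570) (nat_lit 400)))))) (XT.nd (nat_lit 390) (nat_lit 3496) (nat_lit 0) (XT.nd (nat_lit 156) (nat_lit 1748) (nat_lit 0) (XT.nd (nat_lit 78) (nat_lit 0) (nat_lit 76) (XT.lf (nat_lit 76) (nat_lit 5518959129) (nat_lit 0) (nat_lit 5208491475) (nat_lit 1824) (nat_lit 3097795034) (nat_lit 477) (nat_lit 5) (nat_lit 476) (nat_lit 5) (nat_lit 500) (nat_lit 5) (nat_lit 591) (nat_lit 570) (nat_lit 399)) (XT.lf (nat_lit 0) (nat_lit 12109197739) (nat_lit 1748) (nat_lit 992934626) (nat_lit 1824) (nat_lit 864595259) (nat_lit 477) (nat_lit 5) (nat_lit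 500) (nat_lit 5) (nat_lit 501) (nat_lit 5) (nat_lit 592) (nat_lit 570) (nat_lit 398))) (XT.nd (nat_lit 78) (nat_lit 1824) (nat_lit 0) (XT.lf (nat_lit 76) (nat_lit 6509698795) (nat_lit 0) (nat_lit 7076058368) (nat_lit 1824) (nat_lit 523940012) (nat_lit 478) (nat_lit 5) (nat_lit 477) (nat_lit 5) (nat_lit 501) (nat_lit 5) (nat_lit 593) (nat_lit 570) (nat_lit 397)) (XT.nd (nat_lit 78) (nat_lit 0) (nat_lit 76) (XT.lf (nat_lit 0) (nat_lit 822552283) (nat_lit 1824) (nat_lit 92966622) (nat_lit 1900) (nat_lit 13339956046) (nat_lit 453) (nat_lit 5) (nat_lit 477) (nat_lit 5) (nat_lit 478) (nat_lit 5) (nat_lit 594) (nat_lit 570) (nat_lit 396)) (XT.lf (nat_lit 0) (nat_lit 2264550327) (nat_lit 1824) (nat_lit 6785186657) (nat_lit 76) (nat_lit 5352851595) (nat_lit 454) (nat_lit 5) (nat_lit 478) (nat_lit 5) (nat_lit 455) (nat_lit 5) (nat_lit 595) (nat_lit 570) (nat_lit 395))))) (XT.nd (nat_lit 156) (nat_lit 1900) (nat_lit 0) (XT.nd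 (nat_lit 78) (nat_lit 0) (nat_lit 0) (XT.lf (nat_lit 0) (nat_lit 928788452) (nat_lit 1672) (nat_lit 2810141514) (nat_lit 1748) (nat_lit 10813645040) (nat_lit 432) (nat_lit 5) (nat_lit 454) (nat_lit 5) (nat_lit 455) (nat_lit 5) (nat_lit 596) (nat_lit 570) (nat_lit 394)) (XT.lf (nat_lit 0) (nat_lit 5302664173) (nat_lit 1748) (nat_lit 5847079928) (nat_lit 76) (nat_lit 3554621058) (nat_lit 432) (nat_lit 5) (nat_lit 455) (nat_lit 5) (nat_lit 433) (nat_lit 5) (nat_lit 597) (nat_lit 570) (nat_lit 393))) (XT.nd (nat_lit 78) (nat_lit 912) (nat_lit 0) (XT.lf (nat_lit 0) (nat_lit 2085997676) (nat_lit 988) (nat_lit 4834963334) (nat_lit 1064) (nat_lit 7937765654) (nat_lit 419) (nat_lit 5) (nat_lit 432) (nat_lit 5) (nat_lit 433) (nat_lit 5) (nat_lit 598) (nat_lit 570) (nat_lit 392)) (XT.nd (nat_lit 78) (nat_lit 912) (nat_lit 0) (XT.lf (nat_lit 0) (nat_lit 8612811181) (nat_lit 1064) (nat_lit 4777123936) (nat_lit 76) (nat_lit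 1625417816) (nat_lit 419) (nat_lit 5) (nat_lit 433) (nat_lit 5) (nat_lit 420) (nat_lit 5) (nat_lit 599) (nat_lit 570) (nat_lit 391)) (XT.lf (nat_lit 0) (nat_lit 3382857019) (nat_lit 912) (nat_lit 7001058647) (nat_lit 988) (nat_lit 4790288975) (nat_lit 407) (nat_lit 5) (nat_lit 419) (nat_lit 5) (nat_lit 420) (nat_lit 5) (nat_lit 600) (nat_lit 570) (nat_lit 390))))))))
noncomputable def xc190 : XT := (XT.nd (nat_lit 1482) (nat_lit 6688) (nat_lit 0) (XT.nd (nat_lit 702) (nat_lit 3800) (nat_lit 0) (XT.nd (nat_lit 312) (nat_lit 2432) (nat_lit 0) (XT.nd (nat_lit 156) (nat_lit 912) (nat_lit 0) (XT.nd (nat_lit 78) (nat_lit 912) (nat_lit 0) (XT.lf (nat_lit 0) (nat_lit 11762961280) (nat_lit 912) (nat_lit 451089026) (nat_lit 988) (nat_lit 3121712148) (nat_lit 407) (nat_lit 5) (nat_lit 419) (nat_lit 5) (nat_lit 420) (nat_lit 5) (nat_lit 601) (nat_lit 570) (nat_lit 389)) (XT.lf (nat_lit 0) (nat_lit 4825101023) (nat_lit 912)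 (nat_lit 9319183532) (nat_lit 988) (nat_lit 1354998139) (nat_lit 395) (nat_lit 5) (nat_lit 407) (nat_lit 5) (nat_lit 408) (nat_lit 5) (nat_lit 602) (nat_lit 570) (nat_lit 388))) (XT.nd (nat_lit 78) (nat_lit 836) (nat_lit 0) (XT.lf (nat_lit 0) (nat_lit 460085606) (nat_lit 988) (nat_lit 2240158511) (nat_lit 76) (nat_lit 12965394361) (nat_lit 394) (nat_lit 5) (nat_lit 407) (nat_lit 5) (nat_lit 395) (nat_lit 5) (nat_lit 603) (nat_lit 570) (nat_lit 387)) (XT.lf (nat_lit 0) (nat_lit 2353671883) (nat_lit 912) (nat_lit 9430957756) (nat_lit 76) (nat_lit 4049306860) (nat_lit 383) (nat_lit 5) (nat_lit 395) (nat_lit 5) (nat_lit 384) (nat_lit 5) (nat_lit 604) (nat_lit 570) (nat_lit 386)))) (XT.nd (nat_lit 156) (nat_lit 1596) (nat_lit 0) (XT.nd (nat_lit 78) (nat_lit 836) (nat_lit 0) (XT.lf (nat_lit 0) (nat_lit 4310192535) (nat_lit 912) (nat_lit 781800422) (nat_lit 76) (nat_lit 10913107389) (nat_lit 383) (nat_lit 5) (nat_lit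 395) (nat_lit 5) (nat_lit 384) (nat_lit 5) (nat_lit 605) (nat_lit 570) (nat_lit 385)) (XT.lf (nat_lit 0) (nat_lit 6362505859) (nat_lit 912) (nat_lit 8051019233) (nat_lit 76) (nat_lit 1765030227) (nat_lit 372) (nat_lit 5) (nat_lit 384) (nat_lit 5) (nat_lit 373) (nat_lit 5) (nat_lit 606) (nat_lit 570) (nat_lit 384))) (XT.nd (nat_lit 78) (nat_lit 836) (nat_lit 0) (XT.lf (nat_lit 0) (nat_lit 839725404) (nat_lit 760) (nat_lit 7652902269) (nat_lit 836) (nat_lit 7862117548) (nat_lit 362) (nat_lit 5) (nat_lit 372) (nat_lit 5) (nat_lit 373) (nat_lit 5) (nat_lit 607) (nat_lit 570) (nat_lit 383)) (XT.nd (nat_lit 78) (nat_lit 836) (nat_lit 0) (XT.lf (nat_lit 0) (nat_lit 10009656459) (nat_lit 760) (nat_lit 702129806) (nat_lit 836) (nat_lit 5821745021) (nat_lit 362) (nat_lit 5) (nat_lit 372) (nat_lit 5) (nat_lit 373) (nat_lit 5) (nat_lit 608) (nat_lit 570) (nat_lit 382)) (XT.lf (nat_lit 0) (nat_lit 2632385580) (nat_lit 836)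 (nat_lit 10394062106) (nat_lit 912) (nat_lit 3688424025) (nat_lit 351) (nat_lit 5) (nat_lit 362) (nat_lit 5) (nat_lit 363) (nat_lit 5) (nat_lit 609) (nat_lit 570) (nat_lit 381)))))) (XT.nd (nat_lit 390) (nat_lit 2204) (nat_lit 0) (XT.nd (nat_lit 156) (nat_lit 760) (nat_lit 0) (XT.nd (nat_lit 78) (nat_lit 836) (nat_lit 0) (XT.lf (nat_lit 0) (nat_lit 12047784644) (nat_lit 836) (nat_lit 3380667078) (nat_lit 912) (nat_lit 1470567247) (nat_lit 351) (nat_lit 5) (nat_lit 362) (nat_lit 5) (nat_lit 363) (nat_lit 5) (nat_lit 610) (nat_lit 570) (nat_lit 380)) (XT.lf (nat_lit 0) (nat_lit 828683873) (nat_lit 836) (nat_lit 12498679701) (nat_lit 76) (nat_lit 3758435376) (nat_lit 340) (nat_lit 5) (nat_lit 351) (nat_lit 5) (nat_lit 341) (nat_lit 5) (nat_lit 611) (nat_lit 570) (nat_lit 379))) (XT.nd (nat_lit 78) (nat_lit 760) (nat_lit 0) (XT.lf (nat_lit 0) (nat_lit 3202242827) (nat_lit 836) (nat_lit 3035751649) (nat_lit 76) (nat_lit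 11037166326) (nat_lit 340) (nat_lit 5) (nat_lit 351) (nat_lit 5) (nat_lit 341) (nat_lit 5) (nat_lit 612) (nat_lit 570) (nat_lit 378)) (XT.nd (nat_lit 78) (nat_lit 0) (nat_lit 0) (XT.lf (nat_lit 0) (nat_lit 5666461990) (nat_lit 836) (nat_lit 10777644234) (nat_lit 76) (nat_lit 1023340820) (nat_lit 330) (nat_lit 5) (nat_lit 341) (nat_lit 5) (nat_lit 331) (nat_lit 5) (nat_lit 613) (nat_lit 570) (nat_lit 377)) (XT.lf (nat_lit 0) (nat_lit 8234845231) (nat_lit 836) (nat_lit 1061277657) (nat_lit 76) (nat_lit 8366359446) (nat_lit 330) (nat_lit 5) (nat_lit 341) (nat_lit 5) (nat_lit 331) (nat_lit 5) (nat_lit 614) (nat_lit 570) (nat_lit 376))))) (XT.nd (nat_lit 156) (nat_lit 760) (nat_lit 0) (XT.nd (nat_lit 78) (nat_lit 760) (nat_lit 0) (XT.lf (nat_lit 0) (nat_lit 8959392138) (nat_lit 684) (nat_lit 1946572425) (nat_lit 760) (nat_lit 6954427295) (nat_lit 321) (nat_lit 5) (nat_lit 330) (nat_lit 5) (nat_lit 331) (nat_lit 5) (nat_lit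 615) (nat_lit 570) (nat_lit 375)) (XT.lf (nat_lit 0) (nat_lit 1103526895) (nat_lit 760) (nat_lit 12570625171) (nat_lit 836) (nat_lit 4387235472) (nat_lit 311) (nat_lit 5) (nat_lit 321) (nat_lit 5) (nat_lit 322) (nat_lit 5) (nat_lit 616) (nat_lit 570) (nat_lit 374))) (XT.nd (nat_lit 78) (nat_lit 760) (nat_lit 0) (XT.lf (nat_lit 0) (nat_lit 11408178068) (nat_lit 760) (nat_lit 5155422748) (nat_lit 836) (nat_lit 1701485229) (nat_lit 311) (nat_lit 5) (nat_lit 321) (nat_lit 5) (nat_lit 322) (nat_lit 5) (nat_lit 617) (nat_lit 570) (nat_lit 373)) (XT.nd (nat_lit 78) (nat_lit 0) (nat_lit 0) (XT.lf (nat_lit 0) (nat_lit 1056214363) (nat_lit 760) (nat_lit 15010793866) (nat_lit 76) (nat_lit 2405079386) (nat_lit 301) (nat_lit 5) (nat_lit 311) (nat_lit 5) (nat_lit 302) (nat_lit 5) (nat_lit 618) (nat_lit 570) (nat_lit 372)) (XT.lf (nat_lit 0) (nat_lit 3920287151) (nat_lit 760) (nat_lit 4656790103) (nat_lit 76) (nat_lit 10104447797)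 (nat_lit 301) (nat_lit 5) (nat_lit 311) (nat_lit 5) (nat_lit 302) (nat_lit 5) (nat_lit 619) (nat_lit 570) (nat_lit 371))))))) (XT.nd (nat_lit 702) (nat_lit 3420) (nat_lit 0) (XT.nd (nat_lit 312) (nat_lit 1292) (nat_lit 0) (XT.nd (nat_lit 156) (nat_lit 1292) (nat_lit 0) (XT.nd (nat_lit 78) (nat_lit 0) (nat_lit 0) (XT.lf (nat_lit 0) (nat_lit 5975235366) (nat_lit 684) (nat_lit 898848999) (nat_lit 760) (nat_lit 12020418810) (nat_lit 292) (nat_lit 5) (nat_lit 301) (nat_lit 5) (nat_lit 302) (nat_lit 5) (nat_lit 620) (nat_lit 570) (nat_lit 370)) (XT.lf (nat_lit 0) (nat_lit 9957144556) (nat_lit 760) (nat_lit 2280805689) (nat_lit 76) (nat_lit 6872387657) (nat_lit 292) (nat_lit 5) (nat_lit 302) (nat_lit 5) (nat_lit 293) (nat_lit 5) (nat_lit 621) (nat_lit 570) (nat_lit 369))) (XT.nd (nat_lit 78) (nat_lit 684) (nat_lit 0) (XT.lf (nat_lit 0) (nat_lit 8670844719) (nat_lit 608) (nat_lit 4487111238) (nat_lit 684) (nat_lit 6171412332)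 (nat_lit 284) (nat_lit 5) (nat_lit 292) (nat_lit 5) (nat_lit 293) (nat_lit 5) (nat_lit 622) (nat_lit 570) (nat_lit 368)) (XT.lf (nat_lit 0) (nat_lit 294116906) (nat_lit 684) (nat_lit 16162085799) (nat_lit 760) (nat_lit 3095908950) (nat_lit 275) (nat_lit 5) (nat_lit 284) (nat_lit 5) (nat_lit 285) (nat_lit 5) (nat_lit 623) (nat_lit 570) (nat_lit 367)))) (XT.nd (nat_lit 156) (nat_lit 608) (nat_lit 0) (XT.nd (nat_lit 78) (nat_lit 608) (nat_lit 0) (XT.lf (nat_lit 0) (nat_lit 136216399) (nat_lit 760) (nat_lit 8205493403) (nat_lit 76) (nat_lit 11435682450) (nat_lit 274) (nat_lit 5) (nat_lit 284) (nat_lit 5) (nat_lit 275) (nat_lit 5) (nat_lit 624) (nat_lit 570) (nat_lit 366)) (XT.lf (nat_lit 0) (nat_lit 3080657889) (nat_lit 608) (nat_lit 324968502) (nat_lit 684) (nat_lit 16600861573) (nat_lit 266) (nat_lit 5) (nat_lit 274) (nat_lit 5) (nat_lit 275) (nat_lit 5) (nat_lit 625) (nat_lit 570) (nat_lit 365))) (XT.nd (nat_lit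 78) (nat_lit 608) (nat_lit 0) (XT.lf (nat_lit 0) (nat_lit 6840949955) (nat_lit 684) (nat_lit 5594012206) (nat_lit 76) (nat_lit 7803193615) (nat_lit 266) (nat_lit 5) (nat_lit 275) (nat_lit 5) (nat_lit 267) (nat_lit 5) (nat_lit 626) (nat_lit 570) (nat_lit 364)) (XT.nd (nat_lit 78) (nat_lit 0) (nat_lit 0) (XT.lf (nat_lit 0) (nat_lit 6034212077) (nat_lit 608) (nat_lit 4346329938) (nat_lit 684) (nat_lit 10093204370) (nat_lit 258) (nat_lit 5) (nat_lit 266) (nat_lit 5) (nat_lit 267) (nat_lit 5) (nat_lit 627) (nat_lit 570) (nat_lit 363)) (XT.lf (nat_lit 0) (nat_lit 14048349950) (nat_lit 684) (nat_lit 2775340614) (nat_lit 76) (nat_lit 3889210428) (nat_lit 258) (nat_lit 5) (nat_lit 267) (nat_lit 5) (nat_lit 259) (nat_lit 5) (nat_lit 628) (nat_lit 570) (nat_lit 362)))))) (XT.nd (nat_lit 390) (nat_lit 1672) (nat_lit 0) (XT.nd (nat_lit 156) (nat_lit 532) (nat_lit 0) (XT.nd (nat_lit 78) (nat_lit 684) (nat_lit 0) (XT.lf (nat_lit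 0) (nat_lit 9206971763) (nat_lit 532) (nat_lit 8665504497) (nat_lit 608) (nat_lit 3082703843) (nat_lit 251) (nat_lit 5) (nat_lit 258) (nat_lit 5) (nat_lit 259) (nat_lit 5) (nat_lit 629) (nat_lit 570) (nat_lit 361)) (XT.lf (nat_lit 0) (nat_lit 256999515) (nat_lit 608) (nat_lit 321138141) (nat_lit 684) (nat_lit 20623796786) (nat_lit 242) (nat_lit 5) (nat_lit 250) (nat_lit 5) (nat_lit 251) (nat_lit 5) (nat_lit 630) (nat_lit 570) (nat_lit 360))) (XT.nd (nat_lit 78) (nat_lit 532) (nat_lit 0) (XT.lf (nat_lit 0) (nat_lit 4397971560) (nat_lit 684) (nat_lit 8871812255) (nat_lit 76) (nat_lit 8180892076) (nat_lit 242) (nat_lit 5) (nat_lit 251) (nat_lit 5) (nat_lit 243) (nat_lit 5) (nat_lit 631) (nat_lit 570) (nat_lit 359)) (XT.nd (nat_lit 78) (nat_lit 0) (nat_lit 0) (XT.lf (nat_lit 0) (nat_lit 3479204271) (nat_lit 532) (nat_lit 4834302120) (nat_lit 608) (nat_lit 13390500298) (nat_lit 235) (nat_lit 5) (nat_lit 242) (nat_lit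 5) (nat_lit 243) (nat_lit 5) (nat_lit 632) (nat_lit 570) (nat_lit 358)) (XT.lf (nat_lit 0) (nat_lit 12386395172) (nat_lit 608) (nat_lit 5795705887) (nat_lit 76) (nat_lit 3778722771) (nat_lit 235) (nat_lit 5) (nat_lit 243) (nat_lit 5) (nat_lit 236) (nat_lit 5) (nat_lit 633) (nat_lit 570) (nat_lit 357))))) (XT.nd (nat_lit 156) (nat_lit 1140) (nat_lit 0) (XT.nd (nat_lit 78) (nat_lit 0) (nat_lit 0) (XT.lf (nat_lit 0) (nat_lit 6933914050) (nat_lit 532) (nat_lit 9678605466) (nat_lit 608) (nat_lit 5608822824) (nat_lit 228) (nat_lit 5) (nat_lit 235) (nat_lit 5) (nat_lit 236) (nat_lit 5) (nat_lit 634) (nat_lit 570) (nat_lit 356)) (XT.lf (nat_lit 0) (nat_lit 19989751836) (nat_lit 532) (nat_lit 967107761) (nat_lit 608) (nat_lit 1529538326) (nat_lit 228) (nat_lit 5) (nat_lit 235) (nat_lit 5) (nat_lit 236) (nat_lit 5) (nat_lit 635) (nat_lit 570) (nat_lit 355))) (XT.nd (nat_lit 78) (nat_lit 532) (nat_lit 0) (XT.lf (nat_lit 0)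 (nat_lit 2712913502) (nat_lit 608) (nat_lit 12141221719) (nat_lit 76) (nat_lit 7899956418) (nat_lit 220) (nat_lit 5) (nat_lit 228) (nat_lit 5) (nat_lit 221) (nat_lit 5) (nat_lit 636) (nat_lit 570) (nat_lit 354)) (XT.nd (nat_lit 78) (nat_lit 0) (nat_lit 0) (XT.lf (nat_lit 0) (nat_lit 980919618) (nat_lit 532) (nat_lit 6063385200) (nat_lit 608) (nat_lit 15982141323) (nat_lit 213) (nat_lit 5) (nat_lit 220) (nat_lit 5) (nat_lit 221) (nat_lit 5) (nat_lit 637) (nat_lit 570) (nat_lit 353)) (XT.lf (nat_lit 0) (nat_lit 11558143675) (nat_lit 608) (nat_lit 8798884747) (nat_lit 76) (nat_lit 2945303444) (nat_lit 213) (nat_lit 5) (nat_lit 221) (nat_lit 5) (nat_lit 214) (nat_lit 5) (nat_lit 638) (nat_lit 570) (nat_lit 352))))))))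
noncomputable def xc191 : XT := (XT.nd (nat_lit 76830) (nat_lit 0) (nat_lit 16720) (XT.nd (nat_lit 76050) (nat_lit 0) (nat_lit 21660) (XT.nd (nat_lit 312) (nat_lit 912) (nat_lit 0) (XT.nd (nat_lit 156) (nat_lit 608) (nat_lit 0) (XT.nd (nat_lit 78) (nat_lit 0) (nat_lit 0) (XT.lf (nat_lit 0) (nat_lit 4727717508) (nat_lit 456) (nat_lit 11500447824) (nat_lit 532) (nat_lit 7354252367) (nat_lit 207) (nat_lit 5) (nat_lit 213) (nat_lit 5) (nat_lit 214) (nat_lit 5) (nat_lit 639) (nat_lit 570) (nat_lit 351)) (XT.lf (nat_lit 0) (nat_lit 18637345540) (nat_lit 456) (nat_lit 2408395654) (nat_lit 532) (nat_lit 2821281487) (nat_lit 207) (nat_lit 5) (nat_lit 213) (nat_lit 5) (nat_lit 214) (nat_lit 5) (nat_lit 640) (nat_lit 570) (nat_lit 350))) (XT.nd (nat_lit 78) (nat_lit 0) (nat_lit 0) (XT.lf (nat_lit 0) (nat_lit 1875804637) (nat_lit 608) (nat_lit 15436680628) (nat_lit 76) (nat_lit 6842659063) (nat_lit 199) (nat_lit 5) (nat_lit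 207) (nat_lit 5) (nat_lit 200) (nat_lit 5) (nat_lit 641) (nat_lit 570) (nat_lit 349)) (XT.lf (nat_lit 0) (nat_lit 6675578183) (nat_lit 608) (nat_lit 1473484375) (nat_lit 76) (nat_lit 16298662900) (nat_lit 199) (nat_lit 5) (nat_lit 207) (nat_lit 5) (nat_lit 200) (nat_lit 5) (nat_lit 642) (nat_lit 570) (nat_lit 348)))) (XT.nd (nat_lit 156) (nat_lit 0) (nat_lit 0) (XT.nd (nat_lit 78) (nat_lit 456) (nat_lit 0) (XT.lf (nat_lit 0) (nat_lit 11658934760) (nat_lit 532) (nat_lit 11820928334) (nat_lit 76) (nat_lit 1264543834) (nat_lit 193) (nat_lit 5) (nat_lit 200) (nat_lit 5) (nat_lit 194) (nat_lit 5) (nat_lit 643) (nat_lit 570) (nat_lit 347)) (XT.lf (nat_lit 0) (nat_lit 2554344110) (nat_lit 456) (nat_lit 14263461658) (nat_lit 532) (nat_lit 8227699771) (nat_lit 187) (nat_lit 5) (nat_lit 193) (nat_lit 5) (nat_lit 194) (nat_lit 5) (nat_lit 644) (nat_lit 570) (nat_lit 346))) (XT.nd (nat_lit 75426) (nat_lit 0) (nat_lit 23028)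 (XT.lf (nat_lit 0) (nat_lit 17370747762) (nat_lit 456) (nat_lit 4783821661) (nat_lit 532) (nat_lit 3196562842) (nat_lit 187) (nat_lit 5) (nat_lit 193) (nat_lit 5) (nat_lit 194) (nat_lit 5) (nat_lit 645) (nat_lit 570) (nat_lit 345)) (XT.nd (nat_lit 78) (nat_lit 0) (nat_lit 0) (XT.lf (nat_lit 0) (nat_lit 2493251380) (nat_lit 1748) (nat_lit 1631961743) (nat_lit 1748) (nat_lit 1631961743) (nat_lit 490) (nat_lit 3) (nat_lit 513) (nat_lit 3) (nat_lit 513) (nat_lit 5) (nat_lit 571) (nat_lit 571) (nat_lit 418)) (XT.lf (nat_lit 76) (nat_lit 2413564261) (nat_lit 0) (nat_lit 3154038275) (nat_lit 1748) (nat_lit 6051182513) (nat_lit 491) (nat_lit 5) (nat_lit 490) (nat_lit 3) (nat_lit 513) (nat_lit 5) (nat_lit 572) (nat_lit 571) (nat_lit 417)))))) (XT.nd (nat_lit 390) (nat_lit 1444) (nat_lit 0) (XT.nd (nat_lit 156) (nat_lit 0) (nat_lit 76) (XT.nd (nat_lit 78) (nat_lit 0) (nat_lit 0) (XT.lf (nat_lit 0) (nat_lit 6182118706) (nat_lit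 1672) (nat_lit 3496749772) (nat_lit 1748) (nat_lit 2046006897) (nat_lit 491) (nat_lit 5) (nat_lit 513) (nat_lit 5) (nat_lit 514) (nat_lit 5) (nat_lit 573) (nat_lit 571) (nat_lit 416)) (XT.lf (nat_lit 76) (nat_lit 2328377335) (nat_lit 0) (nat_lit 4503292020) (nat_lit 1748) (nat_lit 5000965416) (nat_lit 492) (nat_lit 5) (nat_lit 491) (nat_lit 5) (nat_lit 514) (nat_lit 5) (nat_lit 574) (nat_lit 571) (nat_lit 415))) (XT.nd (nat_lit 78) (nat_lit 0) (nat_lit 0) (XT.lf (nat_lit 0) (nat_lit 7509859872) (nat_lit 1672) (nat_lit 3637283267) (nat_lit 1748) (nat_lit 795095344) (nat_lit 492) (nat_lit 5) (nat_lit 514) (nat_lit 5) (nat_lit 515) (nat_lit 5) (nat_lit 575) (nat_lit 571) (nat_lit 414)) (XT.nd (nat_lit 78) (nat_lit 0) (nat_lit 0) (XT.lf (nat_lit 76) (nat_lit 2340633342) (nat_lit 0) (nat_lit 5893247440) (nat_lit 1748) (nat_lit 3819510219) (nat_lit 493) (nat_lit 5) (nat_lit 492) (nat_lit 5) (nat_lit 515) (nat_lit 5)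 (nat_lit 576) (nat_lit 571) (nat_lit 413)) (XT.lf (nat_lit 76) (nat_lit 8480188710) (nat_lit 0) (nat_lit 504051165) (nat_lit 1748) (nat_lit 3182291561) (nat_lit 493) (nat_lit 5) (nat_lit 492) (nat_lit 5) (nat_lit 515) (nat_lit 5) (nat_lit 577) (nat_lit 571) (nat_lit 412))))) (XT.nd (nat_lit 156) (nat_lit 1596) (nat_lit 0) (XT.nd (nat_lit 78) (nat_lit 0) (nat_lit 0) (XT.lf (nat_lit 76) (nat_lit 2452990273) (nat_lit 0) (nat_lit 7332689393) (nat_lit 1748) (nat_lit 2495535528) (nat_lit 494) (nat_lit 5) (nat_lit 493) (nat_lit 5) (nat_lit 516) (nat_lit 5) (nat_lit 578) (nat_lit 571) (nat_lit 411)) (XT.lf (nat_lit 76) (nat_lit 8754381048) (nat_lit 0) (nat_lit 1864743396) (nat_lit 1748) (nat_lit 1778750604) (nat_lit 494) (nat_lit 5) (nat_lit 493) (nat_lit 5) (nat_lit 516) (nat_lit 5) (nat_lit 579) (nat_lit 571) (nat_lit 410))) (XT.nd (nat_lit 78) (nat_lit 1672) (nat_lit 0) (XT.lf (nat_lit 76) (nat_lit 2668382078) (nat_lit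 0) (nat_lit 8830475239) (nat_lit 1748) (nat_lit 1017420305) (nat_lit 495) (nat_lit 5) (nat_lit 494) (nat_lit 5) (nat_lit 517) (nat_lit 5) (nat_lit 580) (nat_lit 571) (nat_lit 409)) (XT.nd (nat_lit 78) (nat_lit 1672) (nat_lit 0) (XT.lf (nat_lit 76) (nat_lit 9135978385) (nat_lit 0) (nat_lit 3285297729) (nat_lit 1748) (nat_lit 215272176) (nat_lit 495) (nat_lit 5) (nat_lit 494) (nat_lit 5) (nat_lit 517) (nat_lit 5) (nat_lit 581) (nat_lit 571) (nat_lit 408)) (XT.lf (nat_lit 0) (nat_lit 618599181) (nat_lit 1748) (nat_lit 9772807262) (nat_lit 1824) (nat_lit 2367269681) (nat_lit 472) (nat_lit 5) (nat_lit 495) (nat_lit 5) (nat_lit 496) (nat_lit 5) (nat_lit 582) (nat_lit 571) (nat_lit 407))))))) (XT.nd (nat_lit 702) (nat_lit 4940) (nat_lit 0) (XT.nd (nat_lit 312) (nat_lit 0) (nat_lit 152) (XT.nd (nat_lit 156) (nat_lit 0) (nat_lit 76) (XT.nd (nat_lit 78) (nat_lit 0) (nat_lit 76) (XT.lf (nat_lit 0) (nat_lit 1500398363) (nat_lit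 1748) (nat_lit 3264233712) (nat_lit 1824) (nat_lit 8117905084) (nat_lit 472) (nat_lit 5) (nat_lit 495) (nat_lit 5) (nat_lit 496) (nat_lit 5) (nat_lit 583) (nat_lit 571) (nat_lit 406)) (XT.lf (nat_lit 0) (nat_lit 2417431557) (nat_lit 1748) (nat_lit 9603353025) (nat_lit 1824) (nat_lit 987740599) (nat_lit 473) (nat_lit 5) (nat_lit 496) (nat_lit 5) (nat_lit 497) (nat_lit 5) (nat_lit 584) (nat_lit 571) (nat_lit 405))) (XT.nd (nat_lit 78) (nat_lit 0) (nat_lit 0) (XT.lf (nat_lit 0) (nat_lit 3395548292) (nat_lit 1748) (nat_lit 2923730227) (nat_lit 1824) (nat_lit 6816901279) (nat_lit 473) (nat_lit 5) (nat_lit 496) (nat_lit 5) (nat_lit 497) (nat_lit 5) (nat_lit 585) (nat_lit 571) (nat_lit 404)) (XT.lf (nat_lit 76) (nat_lit 3933574436) (nat_lit 0) (nat_lit 474544489) (nat_lit 1824) (nat_lit 8857972412) (nat_lit 474) (nat_lit 5) (nat_lit 473) (nat_lit 5) (nat_lit 497) (nat_lit 5) (nat_lit 586) (nat_lit 571) (nat_lit 403))))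 (XT.nd (nat_lit 156) (nat_lit 0) (nat_lit 76) (XT.nd (nat_lit 78) (nat_lit 0) (nat_lit 0) (XT.lf (nat_lit 0) (nat_lit 5485848771) (nat_lit 1748) (nat_lit 2473989183) (nat_lit 1824) (nat_lit 5437866623) (nat_lit 474) (nat_lit 5) (nat_lit 497) (nat_lit 5) (nat_lit 498) (nat_lit 5) (nat_lit 587) (nat_lit 571) (nat_lit 402)) (XT.lf (nat_lit 76) (nat_lit 4570984444) (nat_lit 0) (nat_lit 2036706869) (nat_lit 1824) (nat_lit 6923809202) (nat_lit 475) (nat_lit 5) (nat_lit 474) (nat_lit 5) (nat_lit 498) (nat_lit 5) (nat_lit 588) (nat_lit 571) (nat_lit 401))) (XT.nd (nat_lit 78) (nat_lit 0) (nat_lit 0) (XT.lf (nat_lit 0) (nat_lit 7784592073) (nat_lit 1748) (nat_lit 1911062070) (nat_lit 1824) (nat_lit 3971667364) (nat_lit 475) (nat_lit 5) (nat_lit 498) (nat_lit 5) (nat_lit 499) (nat_lit 5) (nat_lit 589) (nat_lit 571) (nat_lit 400)) (XT.nd (nat_lit 78) (nat_lit 0) (nat_lit 76) (XT.lf (nat_lit 76) (nat_lit 5328221979) (nat_lit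 0) (nat_lit 3694996512) (nat_lit 1824) (nat_lit 4781878211) (nat_lit 476) (nat_lit 5) (nat_lit 475) (nat_lit 5) (nat_lit 499) (nat_lit 5) (nat_lit 590) (nat_lit 571) (nat_lit 399)) (XT.lf (nat_lit 0) (nat_lit 10305540754) (nat_lit 1748) (nat_lit 1230721172) (nat_lit 1824) (nat_lit 2408988510) (nat_lit 476) (nat_lit 5) (nat_lit 499) (nat_lit 5) (nat_lit 500) (nat_lit 5) (nat_lit 591) (nat_lit 571) (nat_lit 398)))))) (XT.nd (nat_lit 390) (nat_lit 3496) (nat_lit 0) (XT.nd (nat_lit 156) (nat_lit 1748) (nat_lit 0) (XT.nd (nat_lit 78) (nat_lit 0) (nat_lit 76) (XT.lf (nat_lit 76) (nat_lit 6209765801) (nat_lit 0) (nat_lit 5458987706) (nat_lit 1824) (nat_lit 2418350331) (nat_lit 477) (nat_lit 5) (nat_lit 476) (nat_lit 5) (nat_lit 500) (nat_lit 5) (nat_lit 592) (nat_lit 571) (nat_lit 397)) (XT.lf (nat_lit 0) (nat_lit 13062954088) (nat_lit 1748) (nat_lit 428455817) (nat_lit 1824) (nat_lit 740311376) (nat_lit 477) (nat_lit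 5) (nat_lit 500) (nat_lit 5) (nat_lit 501) (nat_lit 5) (nat_lit 593) (nat_lit 571) (nat_lit 396))) (XT.nd (nat_lit 78) (nat_lit 0) (nat_lit 0) (XT.lf (nat_lit 0) (nat_lit 178729980) (nat_lit 1824) (nat_lit 7158545948) (nat_lit 1900) (nat_lit 7040456593) (nat_lit 453) (nat_lit 5) (nat_lit 477) (nat_lit 5) (nat_lit 478) (nat_lit 5) (nat_lit 594) (nat_lit 571) (nat_lit 395)) (XT.nd (nat_lit 78) (nat_lit 0) (nat_lit 76) (XT.lf (nat_lit 76) (nat_lit 490014992) (nat_lit 0) (nat_lit 1044463755) (nat_lit 1900) (nat_lit 12992093061) (nat_lit 454) (nat_lit 5) (nat_lit 453) (nat_lit 5) (nat_lit 478) (nat_lit 5) (nat_lit 595) (nat_lit 571) (nat_lit 394)) (XT.lf (nat_lit 0) (nat_lit 2991591425) (nat_lit 1824) (nat_lit 6331831140) (nat_lit 76) (nat_lit 5353481672) (nat_lit 454) (nat_lit 5) (nat_lit 478) (nat_lit 5) (nat_lit 455) (nat_lit 5) (nat_lit 596) (nat_lit 571) (nat_lit 393))))) (XT.nd (nat_lit 156) (nat_lit 1900) (nat_lit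 0) (XT.nd (nat_lit 78) (nat_lit 0) (nat_lit 0) (XT.lf (nat_lit 0) (nat_lit 1532548082) (nat_lit 1672) (nat_lit 2953342328) (nat_lit 1748) (nat_lit 10344193330) (nat_lit 432) (nat_lit 5) (nat_lit 454) (nat_lit 5) (nat_lit 455) (nat_lit 5) (nat_lit 597) (nat_lit 571) (nat_lit 392)) (XT.lf (nat_lit 0) (nat_lit 6067165491) (nat_lit 1748) (nat_lit 5376480865) (nat_lit 76) (nat_lit 3541539960) (nat_lit 432) (nat_lit 5) (nat_lit 455) (nat_lit 5) (nat_lit 433) (nat_lit 5) (nat_lit 598) (nat_lit 571) (nat_lit 391))) (XT.nd (nat_lit 78) (nat_lit 912) (nat_lit 0) (XT.lf (nat_lit 0) (nat_lit 2711392892) (nat_lit 988) (nat_lit 4997314234) (nat_lit 1064) (nat_lit 7434112253) (nat_lit 419) (nat_lit 5) (nat_lit 432) (nat_lit 5) (nat_lit 433) (nat_lit 5) (nat_lit 599) (nat_lit 571) (nat_lit 390)) (XT.nd (nat_lit 78) (nat_lit 912) (nat_lit 0) (XT.lf (nat_lit 0) (nat_lit 9421244505) (nat_lit 1064) (nat_lit 4287192557) (nat_lit 76)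 (nat_lit 1594405977) (nat_lit 419) (nat_lit 5) (nat_lit 433) (nat_lit 5) (nat_lit 420) (nat_lit 5) (nat_lit 600) (nat_lit 571) (nat_lit 389)) (XT.lf (nat_lit 0) (nat_lit 4032136216) (nat_lit 912) (nat_lit 7186937079) (nat_lit 988) (nat_lit 4245974273) (nat_lit 407) (nat_lit 5) (nat_lit 419) (nat_lit 5) (nat_lit 420) (nat_lit 5) (nat_lit 601) (nat_lit 571) (nat_lit 388))))))))
noncomputable def xc192 : XT := (XT.nd (nat_lit 1404) (nat_lit 6688) (nat_lit 0) (XT.nd (nat_lit 702) (nat_lit 3800) (nat_lit 0) (XT.nd (nat_lit 312) (nat_lit 2432) (nat_lit 0) (XT.nd (nat_lit 156) (nat_lit 912) (nat_lit 0) (XT.nd (nat_lit 78) (nat_lit 912) (nat_lit 0) (XT.lf (nat_lit 0) (nat_lit 12568438207) (nat_lit 912) (nat_lit 505068904) (nat_lit 988) (nat_lit 2556577291) (nat_lit 407) (nat_lit 5) (nat_lit 419) (nat_lit 5) (nat_lit 420) (nat_lit 5) (nat_lit 602) (nat_lit 571) (nat_lit 387)) (XT.lf (nat_lit 0) (nat_lit 5500671056) (nat_lit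 912) (nat_lit 9533086237) (nat_lit 988) (nat_lit 763291289) (nat_lit 395) (nat_lit 5) (nat_lit 407) (nat_lit 5) (nat_lit 408) (nat_lit 5) (nat_lit 603) (nat_lit 571) (nat_lit 386))) (XT.nd (nat_lit 78) (nat_lit 836) (nat_lit 0) (XT.lf (nat_lit 0) (nat_lit 1068004034) (nat_lit 988) (nat_lit 1709206706) (nat_lit 76) (nat_lit 13189681566) (nat_lit 394) (nat_lit 5) (nat_lit 407) (nat_lit 5) (nat_lit 395) (nat_lit 5) (nat_lit 604) (nat_lit 571) (nat_lit 385)) (XT.lf (nat_lit 0) (nat_lit 2991314517) (nat_lit 912) (nat_lit 9035591469) (nat_lit 76) (nat_lit 4111814912) (nat_lit 383) (nat_lit 5) (nat_lit 395) (nat_lit 5) (nat_lit 384) (nat_lit 5) (nat_lit 605) (nat_lit 571) (nat_lit 384)))) (XT.nd (nat_lit 156) (nat_lit 1596) (nat_lit 0) (XT.nd (nat_lit 78) (nat_lit 836) (nat_lit 0) (XT.lf (nat_lit 0) (nat_lit 4975385794) (nat_lit 912) (nat_lit 224901683) (nat_lit 76) (nat_lit 11113253766) (nat_lit 383) (nat_lit 5) (nat_lit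 395) (nat_lit 5) (nat_lit 384) (nat_lit 5) (nat_lit 606) (nat_lit 571) (nat_lit 383)) (XT.lf (nat_lit 0) (nat_lit 7061068840) (nat_lit 912) (nat_lit 7631748600) (nat_lit 76) (nat_lit 1797803002) (nat_lit 372) (nat_lit 5) (nat_lit 384) (nat_lit 5) (nat_lit 373) (nat_lit 5) (nat_lit 607) (nat_lit 571) (nat_lit 382))) (XT.nd (nat_lit 78) (nat_lit 836) (nat_lit 0) (XT.lf (nat_lit 0) (nat_lit 1432993225) (nat_lit 760) (nat_lit 7793340499) (nat_lit 836) (nat_lit 7444151168) (nat_lit 362) (nat_lit 5) (nat_lit 372) (nat_lit 5) (nat_lit 373) (nat_lit 5) (nat_lit 608) (nat_lit 571) (nat_lit 381)) (XT.nd (nat_lit 78) (nat_lit 836) (nat_lit 0) (XT.lf (nat_lit 0) (nat_lit 10775019503) (nat_lit 760) (nat_lit 703800034) (nat_lit 836) (nat_lit 5374249793) (nat_lit 362) (nat_lit 5) (nat_lit 372) (nat_lit 5) (nat_lit 373) (nat_lit 5) (nat_lit 609) (nat_lit 571) (nat_lit 380)) (XT.lf (nat_lit 0) (nat_lit 3257464524) (nat_lit 836)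 (nat_lit 10575265853) (nat_lit 912) (nat_lit 3205448566) (nat_lit 351) (nat_lit 5) (nat_lit 362) (nat_lit 5) (nat_lit 363) (nat_lit 5) (nat_lit 610) (nat_lit 571) (nat_lit 379)))))) (XT.nd (nat_lit 312) (nat_lit 2204) (nat_lit 0) (XT.nd (nat_lit 156) (nat_lit 760) (nat_lit 0) (XT.nd (nat_lit 78) (nat_lit 836) (nat_lit 0) (XT.lf (nat_lit 0) (nat_lit 12849947427) (nat_lit 836) (nat_lit 3422126013) (nat_lit 912) (nat_lit 954151200) (nat_lit 351) (nat_lit 5) (nat_lit 362) (nat_lit 5) (nat_lit 363) (nat_lit 5) (nat_lit 611) (nat_lit 571) (nat_lit 378)) (XT.lf (nat_lit 0) (nat_lit 1377244353) (nat_lit 836) (nat_lit 12173462610) (nat_lit 76) (nat_lit 3866097436) (nat_lit 340) (nat_lit 5) (nat_lit 351) (nat_lit 5) (nat_lit 341) (nat_lit 5) (nat_lit 612) (nat_lit 571) (nat_lit 377))) (XT.nd (nat_lit 78) (nat_lit 760) (nat_lit 0) (XT.lf (nat_lit 0) (nat_lit 3787843372) (nat_lit 836) (nat_lit 2532554246) (nat_lit 76) (nat_lit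 11289765880) (nat_lit 340) (nat_lit 5) (nat_lit 351) (nat_lit 5) (nat_lit 341) (nat_lit 5) (nat_lit 613) (nat_lit 571) (nat_lit 376)) (XT.lf (nat_lit 0) (nat_lit 6295051245) (nat_lit 836) (nat_lit 10422920964) (nat_lit 76) (nat_lit 1088450530) (nat_lit 330) (nat_lit 5) (nat_lit 341) (nat_lit 5) (nat_lit 331) (nat_lit 5) (nat_lit 614) (nat_lit 571) (nat_lit 375)))) (XT.nd (nat_lit 156) (nat_lit 1520) (nat_lit 0) (XT.nd (nat_lit 78) (nat_lit 684) (nat_lit 0) (XT.lf (nat_lit 0) (nat_lit 8904699014) (nat_lit 836) (nat_lit 523408941) (nat_lit 76) (nat_lit 8577454177) (nat_lit 330) (nat_lit 5) (nat_lit 341) (nat_lit 5) (nat_lit 331) (nat_lit 5) (nat_lit 615) (nat_lit 571) (nat_lit 374)) (XT.lf (nat_lit 0) (nat_lit 9693995999) (nat_lit 684) (nat_lit 1928945826) (nat_lit 760) (nat_lit 6584615308) (nat_lit 321) (nat_lit 5) (nat_lit 330) (nat_lit 5) (nat_lit 331) (nat_lit 5) (nat_lit 616) (nat_lit 571) (nat_lit 373))) (XT.nd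 (nat_lit 78) (nat_lit 760) (nat_lit 0) (XT.lf (nat_lit 0) (nat_lit 1686971095) (nat_lit 760) (nat_lit 12753745277) (nat_lit 836) (nat_lit 3971973171) (nat_lit 311) (nat_lit 5) (nat_lit 321) (nat_lit 5) (nat_lit 322) (nat_lit 5) (nat_lit 617) (nat_lit 571) (nat_lit 372)) (XT.nd (nat_lit 78) (nat_lit 760) (nat_lit 0) (XT.lf (nat_lit 0) (nat_lit 12186707964) (nat_lit 760) (nat_lit 5191577873) (nat_lit 836) (nat_lit 1242370806) (nat_lit 311) (nat_lit 5) (nat_lit 321) (nat_lit 5) (nat_lit 322) (nat_lit 5) (nat_lit 618) (nat_lit 571) (nat_lit 371)) (XT.lf (nat_lit 0) (nat_lit 1558535135) (nat_lit 760) (nat_lit 14748573712) (nat_lit 76) (nat_lit 2524736169) (nat_lit 301) (nat_lit 5) (nat_lit 311) (nat_lit 5) (nat_lit 302) (nat_lit 5) (nat_lit 619) (nat_lit 571) (nat_lit 370))))))) (XT.nd (nat_lit 702) (nat_lit 3420) (nat_lit 0) (XT.nd (nat_lit 312) (nat_lit 1976) (nat_lit 0) (XT.nd (nat_lit 156) (nat_lit 608) (nat_lit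 0) (XT.nd (nat_lit 78) (nat_lit 684) (nat_lit 0) (XT.lf (nat_lit 0) (nat_lit 4470454153) (nat_lit 760) (nat_lit 4198518030) (nat_lit 76) (nat_lit 10376688906) (nat_lit 301) (nat_lit 5) (nat_lit 311) (nat_lit 5) (nat_lit 302) (nat_lit 5) (nat_lit 620) (nat_lit 571) (nat_lit 369)) (XT.lf (nat_lit 0) (nat_lit 6642520264) (nat_lit 684) (nat_lit 835113378) (nat_lit 760) (nat_lit 11785380168) (nat_lit 292) (nat_lit 5) (nat_lit 301) (nat_lit 5) (nat_lit 302) (nat_lit 5) (nat_lit 621) (nat_lit 571) (nat_lit 368))) (XT.nd (nat_lit 78) (nat_lit 608) (nat_lit 0) (XT.lf (nat_lit 0) (nat_lit 10613736587) (nat_lit 760) (nat_lit 1780707012) (nat_lit 76) (nat_lit 7088895140) (nat_lit 292) (nat_lit 5) (nat_lit 302) (nat_lit 5) (nat_lit 293) (nat_lit 5) (nat_lit 622) (nat_lit 571) (nat_lit 367)) (XT.lf (nat_lit 0) (nat_lit 9386386175) (nat_lit 608) (nat_lit 4486728282) (nat_lit 684) (nat_lit 5833745389) (nat_lit 284) (nat_lit 5)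 (nat_lit 292) (nat_lit 5) (nat_lit 293) (nat_lit 5) (nat_lit 623) (nat_lit 571) (nat_lit 366)))) (XT.nd (nat_lit 156) (nat_lit 1216) (nat_lit 0) (XT.nd (nat_lit 78) (nat_lit 76) (nat_lit 0) (XT.lf (nat_lit 0) (nat_lit 847011862) (nat_lit 684) (nat_lit 16385576793) (nat_lit 760) (nat_lit 2701565268) (nat_lit 275) (nat_lit 5) (nat_lit 284) (nat_lit 5) (nat_lit 285) (nat_lit 5) (nat_lit 624) (nat_lit 571) (nat_lit 365)) (XT.lf (nat_lit 0) (nat_lit 580389653) (nat_lit 760) (nat_lit 7827397165) (nat_lit 76) (nat_lit 11756271699) (nat_lit 274) (nat_lit 5) (nat_lit 284) (nat_lit 5) (nat_lit 275) (nat_lit 5) (nat_lit 625) (nat_lit 571) (nat_lit 364))) (XT.nd (nat_lit 78) (nat_lit 608) (nat_lit 0) (XT.lf (nat_lit 0) (nat_lit 3680910007) (nat_lit 608) (nat_lit 229119178) (nat_lit 684) (nat_lit 16487811163) (nat_lit 266) (nat_lit 5) (nat_lit 274) (nat_lit 5) (nat_lit 275) (nat_lit 5) (nat_lit 626) (nat_lit 571) (nat_lit 363))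 (XT.nd (nat_lit 78) (nat_lit 608) (nat_lit 0) (XT.lf (nat_lit 0) (nat_lit 7406155995) (nat_lit 684) (nat_lit 5169861254) (nat_lit 76) (nat_lit 8058283343) (nat_lit 266) (nat_lit 5) (nat_lit 275) (nat_lit 5) (nat_lit 267) (nat_lit 5) (nat_lit 627) (nat_lit 571) (nat_lit 362)) (XT.lf (nat_lit 0) (nat_lit 6687400993) (nat_lit 608) (nat_lit 4324196530) (nat_lit 684) (nat_lit 9863105329) (nat_lit 258) (nat_lit 5) (nat_lit 266) (nat_lit 5) (nat_lit 267) (nat_lit 5) (nat_lit 628) (nat_lit 571) (nat_lit 361)))))) (XT.nd (nat_lit 390) (nat_lit 1672) (nat_lit 0) (XT.nd (nat_lit 156) (nat_lit 1216) (nat_lit 0) (XT.nd (nat_lit 78) (nat_lit 532) (nat_lit 0) (XT.lf (nat_lit 0) (nat_lit 14745152987) (nat_lit 684) (nat_lit 2301126793) (nat_lit 76) (nat_lit 4072513917) (nat_lit 258) (nat_lit 5) (nat_lit 267) (nat_lit 5) (nat_lit 259) (nat_lit 5) (nat_lit 629) (nat_lit 571) (nat_lit 360)) (XT.lf (nat_lit 0) (nat_lit 9917346827)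 (nat_lit 532) (nat_lit 8723678018) (nat_lit 608) (nat_lit 2724989236) (nat_lit 251) (nat_lit 5) (nat_lit 258) (nat_lit 5) (nat_lit 259) (nat_lit 5) (nat_lit 630) (nat_lit 571) (nat_lit 359))) (XT.nd (nat_lit 78) (nat_lit 532) (nat_lit 0) (XT.lf (nat_lit 0) (nat_lit 790423371) (nat_lit 608) (nat_lit 208460526) (nat_lit 684) (nat_lit 20618859772) (nat_lit 242) (nat_lit 5) (nat_lit 250) (nat_lit 5) (nat_lit 251) (nat_lit 5) (nat_lit 631) (nat_lit 571) (nat_lit 358)) (XT.nd (nat_lit 78) (nat_lit 532) (nat_lit 0) (XT.lf (nat_lit 0) (nat_lit 4887849389) (nat_lit 684) (nat_lit 8524013159) (nat_lit 76) (nat_lit 8459743599) (nat_lit 242) (nat_lit 5) (nat_lit 251) (nat_lit 5) (nat_lit 243) (nat_lit 5) (nat_lit 632) (nat_lit 571) (nat_lit 357)) (XT.lf (nat_lit 0) (nat_lit 4070568203) (nat_lit 532) (nat_lit 4806633702) (nat_lit 608) (nat_lit 13252892396) (nat_lit 235) (nat_lit 5) (nat_lit 242) (nat_lit 5) (nat_lit 243) (nat_lit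 5) (nat_lit 633) (nat_lit 571) (nat_lit 356))))) (XT.nd (nat_lit 156) (nat_lit 1140) (nat_lit 0) (XT.nd (nat_lit 78) (nat_lit 532) (nat_lit 0) (XT.lf (nat_lit 0) (nat_lit 13024547367) (nat_lit 608) (nat_lit 5393026890) (nat_lit 76) (nat_lit 3974614412) (nat_lit 235) (nat_lit 5) (nat_lit 243) (nat_lit 5) (nat_lit 236) (nat_lit 5) (nat_lit 634) (nat_lit 571) (nat_lit 355)) (XT.lf (nat_lit 0) (nat_lit 7587773648) (nat_lit 532) (nat_lit 9743110070) (nat_lit 608) (nat_lit 5327120886) (nat_lit 228) (nat_lit 5) (nat_lit 235) (nat_lit 5) (nat_lit 236) (nat_lit 5) (nat_lit 635) (nat_lit 571) (nat_lit 354))) (XT.nd (nat_lit 78) (nat_lit 1140) (nat_lit 0) (XT.lf (nat_lit 0) (nat_lit 20894626596) (nat_lit 532) (nat_lit 859913146) (nat_lit 608) (nat_lit 1173973804) (nat_lit 228) (nat_lit 5) (nat_lit 235) (nat_lit 5) (nat_lit 236) (nat_lit 5) (nat_lit 636) (nat_lit 571) (nat_lit 353)) (XT.nd (nat_lit 78) (nat_lit 532) (nat_lit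 0) (XT.lf (nat_lit 0) (nat_lit 3144924384) (nat_lit 608) (nat_lit 11870483226) (nat_lit 76) (nat_lit 8186170944) (nat_lit 220) (nat_lit 5) (nat_lit 228) (nat_lit 5) (nat_lit 221) (nat_lit 5) (nat_lit 637) (nat_lit 571) (nat_lit 352)) (XT.lf (nat_lit 0) (nat_lit 1510722234) (nat_lit 532) (nat_lit 6048126833) (nat_lit 608) (nat_lit 15920613750) (nat_lit 213) (nat_lit 5) (nat_lit 220) (nat_lit 5) (nat_lit 221) (nat_lit 5) (nat_lit 638) (nat_lit 571) (nat_lit 351))))))))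
noncomputable def xc193 : XT := (XT.nd (nat_lit 76908) (nat_lit 0) (nat_lit 16720) (XT.nd (nat_lit 76128) (nat_lit 0) (nat_lit 21584) (XT.nd (nat_lit 312) (nat_lit 912) (nat_lit 0) (XT.nd (nat_lit 156) (nat_lit 608) (nat_lit 0) (XT.nd (nat_lit 78) (nat_lit 456) (nat_lit 0) (XT.lf (nat_lit 0) (nat_lit 12156507107) (nat_lit 608) (nat_lit 8468185920) (nat_lit 76) (nat_lit 3136303147) (nat_lit 213) (nat_lit 5) (nat_lit 221) (nat_lit 5) (nat_lit 214) (nat_lit 5) (nat_lit 639) (nat_lit 571) (nat_lit 350)) (XT.lf (nat_lit 0) (nat_lit 5325614983) (nat_lit 456) (nat_lit 11590382242) (nat_lit 532) (nat_lit 7130765891) (nat_lit 207) (nat_lit 5) (nat_lit 213) (nat_lit 5) (nat_lit 214) (nat_lit 5) (nat_lit 640) (nat_lit 571) (nat_lit 349))) (XT.nd (nat_lit 78) (nat_lit 608) (nat_lit 0) (XT.lf (nat_lit 0) (nat_lit 19503566102) (nat_lit 456) (nat_lit 2319235588) (nat_lit 532) (nat_lit 2514401702) (nat_lit 207) (nat_lit 5) (nat_lit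 213) (nat_lit 5) (nat_lit 214) (nat_lit 5) (nat_lit 641) (nat_lit 571) (nat_lit 348)) (XT.lf (nat_lit 0) (nat_lit 2268955707) (nat_lit 608) (nat_lit 15244198645) (nat_lit 76) (nat_lit 7117944764) (nat_lit 199) (nat_lit 5) (nat_lit 207) (nat_lit 5) (nat_lit 200) (nat_lit 5) (nat_lit 642) (nat_lit 571) (nat_lit 347)))) (XT.nd (nat_lit 156) (nat_lit 456) (nat_lit 0) (XT.nd (nat_lit 78) (nat_lit 456) (nat_lit 0) (XT.lf (nat_lit 0) (nat_lit 7157751489) (nat_lit 608) (nat_lit 1011566224) (nat_lit 76) (nat_lit 16760354315) (nat_lit 199) (nat_lit 5) (nat_lit 207) (nat_lit 5) (nat_lit 200) (nat_lit 5) (nat_lit 643) (nat_lit 571) (nat_lit 346)) (XT.lf (nat_lit 0) (nat_lit 12238037611) (nat_lit 532) (nat_lit 11563187450) (nat_lit 76) (nat_lit 1431117497) (nat_lit 193) (nat_lit 5) (nat_lit 200) (nat_lit 5) (nat_lit 194) (nat_lit 5) (nat_lit 644) (nat_lit 571) (nat_lit 345))) (XT.nd (nat_lit 75504) (nat_lit 0) (nat_lit 23028)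 (XT.lf (nat_lit 0) (nat_lit 3096339393) (nat_lit 456) (nat_lit 14400151122) (nat_lit 532) (nat_lit 8043045204) (nat_lit 187) (nat_lit 5) (nat_lit 193) (nat_lit 5) (nat_lit 194) (nat_lit 5) (nat_lit 645) (nat_lit 571) (nat_lit 344)) (XT.nd (nat_lit 78) (nat_lit 0) (nat_lit 0) (XT.lf (nat_lit 0) (nat_lit 3055333311) (nat_lit 1748) (nat_lit 1403328885) (nat_lit 1748) (nat_lit 1403328885) (nat_lit 490) (nat_lit 3) (nat_lit 513) (nat_lit 3) (nat_lit 513) (nat_lit 5) (nat_lit 572) (nat_lit 572) (nat_lit 416)) (XT.lf (nat_lit 76) (nat_lit 2980941940) (nat_lit 0) (nat_lit 3705729900) (nat_lit 1748) (nat_lit 5144171932) (nat_lit 491) (nat_lit 5) (nat_lit 490) (nat_lit 3) (nat_lit 513) (nat_lit 5) (nat_lit 573) (nat_lit 572) (nat_lit 415)))))) (XT.nd (nat_lit 390) (nat_lit 1520) (nat_lit 0) (XT.nd (nat_lit 156) (nat_lit 0) (nat_lit 76) (XT.nd (nat_lit 78) (nat_lit 0) (nat_lit 0) (XT.lf (nat_lit 0) (nat_lit 7290608990) (nat_lit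 1672) (nat_lit 3034728142) (nat_lit 1748) (nat_lit 1614179348) (nat_lit 491) (nat_lit 5) (nat_lit 513) (nat_lit 5) (nat_lit 514) (nat_lit 5) (nat_lit 574) (nat_lit 572) (nat_lit 414)) (XT.lf (nat_lit 76) (nat_lit 2903401791) (nat_lit 0) (nat_lit 5033869209) (nat_lit 1748) (nat_lit 4112480783) (nat_lit 492) (nat_lit 5) (nat_lit 491) (nat_lit 5) (nat_lit 514) (nat_lit 5) (nat_lit 575) (nat_lit 572) (nat_lit 413))) (XT.nd (nat_lit 78) (nat_lit 0) (nat_lit 0) (XT.lf (nat_lit 0) (nat_lit 8607221939) (nat_lit 1672) (nat_lit 3169977281) (nat_lit 1748) (nat_lit 384787483) (nat_lit 492) (nat_lit 5) (nat_lit 514) (nat_lit 5) (nat_lit 515) (nat_lit 5) (nat_lit 576) (nat_lit 572) (nat_lit 412)) (XT.nd (nat_lit 78) (nat_lit 0) (nat_lit 0) (XT.lf (nat_lit 76) (nat_lit 2923944689) (nat_lit 0) (nat_lit 6406690024) (nat_lit 1748) (nat_lit 2945032335) (nat_lit 493) (nat_lit 5) (nat_lit 492) (nat_lit 5) (nat_lit 515) (nat_lit 5)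 (nat_lit 577) (nat_lit 572) (nat_lit 411)) (XT.lf (nat_lit 76) (nat_lit 9175771583) (nat_lit 0) (nat_lit 901953399) (nat_lit 1748) (nat_lit 2313713776) (nat_lit 493) (nat_lit 5) (nat_lit 492) (nat_lit 5) (nat_lit 515) (nat_lit 5) (nat_lit 578) (nat_lit 572) (nat_lit 410))))) (XT.nd (nat_lit 156) (nat_lit 1672) (nat_lit 0) (XT.nd (nat_lit 78) (nat_lit 0) (nat_lit 0) (XT.lf (nat_lit 76) (nat_lit 3045372317) (nat_lit 0) (nat_lit 7832962587) (nat_lit 1748) (nat_lit 1630421349) (nat_lit 494) (nat_lit 5) (nat_lit 493) (nat_lit 5) (nat_lit 516) (nat_lit 5) (nat_lit 579) (nat_lit 572) (nat_lit 409)) (XT.lf (nat_lit 76) (nat_lit 9462137530) (nat_lit 0) (nat_lit 2248723955) (nat_lit 1748) (nat_lit 917242391) (nat_lit 494) (nat_lit 5) (nat_lit 493) (nat_lit 5) (nat_lit 516) (nat_lit 5) (nat_lit 580) (nat_lit 572) (nat_lit 408))) (XT.nd (nat_lit 78) (nat_lit 1748) (nat_lit 0) (XT.lf (nat_lit 76) (nat_lit 3270762321) (nat_lit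 0) (nat_lit 9321542225) (nat_lit 1748) (nat_lit 156890421) (nat_lit 495) (nat_lit 5) (nat_lit 494) (nat_lit 5) (nat_lit 517) (nat_lit 5) (nat_lit 581) (nat_lit 572) (nat_lit 407)) (XT.nd (nat_lit 78) (nat_lit 0) (nat_lit 76) (XT.lf (nat_lit 0) (nat_lit 635581996) (nat_lit 1748) (nat_lit 3019448245) (nat_lit 1824) (nat_lit 9217098516) (nat_lit 471) (nat_lit 5) (nat_lit 494) (nat_lit 5) (nat_lit 495) (nat_lit 5) (nat_lit 582) (nat_lit 572) (nat_lit 406)) (XT.lf (nat_lit 0) (nat_lit 1468182695) (nat_lit 1748) (nat_lit 9403356909) (nat_lit 1824) (nat_lit 2125435012) (nat_lit 472) (nat_lit 5) (nat_lit 495) (nat_lit 5) (nat_lit 496) (nat_lit 5) (nat_lit 583) (nat_lit 572) (nat_lit 405))))))) (XT.nd (nat_lit 702) (nat_lit 4940) (nat_lit 0) (XT.nd (nat_lit 312) (nat_lit 0) (nat_lit 152) (XT.nd (nat_lit 156) (nat_lit 0) (nat_lit 76) (XT.nd (nat_lit 78) (nat_lit 0) (nat_lit 76) (XT.lf (nat_lit 0) (nat_lit 2351201948) (nat_lit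 1748) (nat_lit 2775688486) (nat_lit 1824) (nat_lit 7996753320) (nat_lit 472) (nat_lit 5) (nat_lit 495) (nat_lit 5) (nat_lit 496) (nat_lit 5) (nat_lit 584) (nat_lit 572) (nat_lit 404)) (XT.lf (nat_lit 0) (nat_lit 3272378274) (nat_lit 1748) (nat_lit 9227266932) (nat_lit 1824) (nat_lit 752792797) (nat_lit 473) (nat_lit 5) (nat_lit 496) (nat_lit 5) (nat_lit 497) (nat_lit 5) (nat_lit 585) (nat_lit 572) (nat_lit 403))) (XT.nd (nat_lit 78) (nat_lit 0) (nat_lit 0) (XT.lf (nat_lit 0) (nat_lit 4254241695) (nat_lit 1748) (nat_lit 2425191936) (nat_lit 1824) (nat_lit 6703530859) (nat_lit 473) (nat_lit 5) (nat_lit 496) (nat_lit 5) (nat_lit 497) (nat_lit 5) (nat_lit 586) (nat_lit 572) (nat_lit 402)) (XT.lf (nat_lit 76) (nat_lit 4565594261) (nat_lit 0) (nat_lit 709556645) (nat_lit 1824) (nat_lit 8240564026) (nat_lit 474) (nat_lit 5) (nat_lit 473) (nat_lit 5) (nat_lit 497) (nat_lit 5) (nat_lit 587) (nat_lit 572) (nat_lit 401))))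 (XT.nd (nat_lit 156) (nat_lit 0) (nat_lit 76) (XT.nd (nat_lit 78) (nat_lit 0) (nat_lit 0) (XT.lf (nat_lit 0) (nat_lit 6357727874) (nat_lit 1748) (nat_lit 1964144652) (nat_lit 1824) (nat_lit 5328424431) (nat_lit 474) (nat_lit 5) (nat_lit 497) (nat_lit 5) (nat_lit 498) (nat_lit 5) (nat_lit 588) (nat_lit 572) (nat_lit 400)) (XT.lf (nat_lit 76) (nat_lit 5218048682) (nat_lit 0) (nat_lit 2272621842) (nat_lit 1824) (nat_lit 6296327347) (nat_lit 475) (nat_lit 5) (nat_lit 474) (nat_lit 5) (nat_lit 498) (nat_lit 5) (nat_lit 589) (nat_lit 572) (nat_lit 399))) (XT.nd (nat_lit 78) (nat_lit 0) (nat_lit 0) (XT.lf (nat_lit 0) (nat_lit 8675144838) (nat_lit 1748) (nat_lit 1388455423) (nat_lit 1824) (nat_lit 3862256590) (nat_lit 475) (nat_lit 5) (nat_lit 498) (nat_lit 5) (nat_lit 499) (nat_lit 5) (nat_lit 590) (nat_lit 572) (nat_lit 398)) (XT.nd (nat_lit 78) (nat_lit 0) (nat_lit 76) (XT.lf (nat_lit 76) (nat_lit 5991924650) (nat_lit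 0) (nat_lit 3935827407) (nat_lit 1824) (nat_lit 4138853559) (nat_lit 476) (nat_lit 5) (nat_lit 475) (nat_lit 5) (nat_lit 499) (nat_lit 5) (nat_lit 591) (nat_lit 572) (nat_lit 397)) (XT.lf (nat_lit 0) (nat_lit 11220460756) (nat_lit 1748) (nat_lit 693752185) (nat_lit 1824) (nat_lit 2295656873) (nat_lit 476) (nat_lit 5) (nat_lit 499) (nat_lit 5) (nat_lit 500) (nat_lit 5) (nat_lit 592) (nat_lit 572) (nat_lit 396)))))) (XT.nd (nat_lit 390) (nat_lit 3496) (nat_lit 0) (XT.nd (nat_lit 156) (nat_lit 1748) (nat_lit 0) (XT.nd (nat_lit 78) (nat_lit 0) (nat_lit 76) (XT.lf (nat_lit 76) (nat_lit 6891849899) (nat_lit 0) (nat_lit 5708811828) (nat_lit 1824) (nat_lit 1754106223) (nat_lit 477) (nat_lit 5) (nat_lit 476) (nat_lit 5) (nat_lit 500) (nat_lit 5) (nat_lit 593) (nat_lit 572) (nat_lit 395)) (XT.lf (nat_lit 76) (nat_lit 126278190) (nat_lit 0) (nat_lit 13882696031) (nat_lit 1824) (nat_lit 493581067) (nat_lit 478) (nat_lit 5)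 (nat_lit 477) (nat_lit 5) (nat_lit 501) (nat_lit 5) (nat_lit 594) (nat_lit 572) (nat_lit 394))) (XT.nd (nat_lit 78) (nat_lit 0) (nat_lit 0) (XT.lf (nat_lit 0) (nat_lit 861024106) (nat_lit 1824) (nat_lit 6734644011) (nat_lit 1900) (nat_lit 7055943552) (nat_lit 453) (nat_lit 5) (nat_lit 477) (nat_lit 5) (nat_lit 478) (nat_lit 5) (nat_lit 595) (nat_lit 572) (nat_lit 393)) (XT.nd (nat_lit 78) (nat_lit 0) (nat_lit 76) (XT.lf (nat_lit 76) (nat_lit 1063157405) (nat_lit 0) (nat_lit 1171079808) (nat_lit 1900) (nat_lit 12569385524) (nat_lit 454) (nat_lit 5) (nat_lit 453) (nat_lit 5) (nat_lit 478) (nat_lit 5) (nat_lit 596) (nat_lit 572) (nat_lit 392)) (XT.lf (nat_lit 0) (nat_lit 3706700157) (nat_lit 1824) (nat_lit 5892282401) (nat_lit 76) (nat_lit 5358257039) (nat_lit 454) (nat_lit 5) (nat_lit 478) (nat_lit 5) (nat_lit 455) (nat_lit 5) (nat_lit 597) (nat_lit 572) (nat_lit 391))))) (XT.nd (nat_lit 156) (nat_lit 1900) (nat_lit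 0) (XT.nd (nat_lit 78) (nat_lit 0) (nat_lit 0) (XT.lf (nat_lit 0) (nat_lit 2125659501) (nat_lit 1672) (nat_lit 3096028921) (nat_lit 1748) (nat_lit 9891980109) (nat_lit 432) (nat_lit 5) (nat_lit 454) (nat_lit 5) (nat_lit 455) (nat_lit 5) (nat_lit 598) (nat_lit 572) (nat_lit 390)) (XT.lf (nat_lit 0) (nat_lit 6821388496) (nat_lit 1748) (nat_lit 4919284740) (nat_lit 76) (nat_lit 3531465800) (nat_lit 432) (nat_lit 5) (nat_lit 455) (nat_lit 5) (nat_lit 433) (nat_lit 5) (nat_lit 599) (nat_lit 572) (nat_lit 389))) (XT.nd (nat_lit 78) (nat_lit 912) (nat_lit 0) (XT.lf (nat_lit 0) (nat_lit 3326631191) (nat_lit 988) (nat_lit 5160362818) (nat_lit 1064) (nat_lit 6946107922) (nat_lit 419) (nat_lit 5) (nat_lit 432) (nat_lit 5) (nat_lit 433) (nat_lit 5) (nat_lit 600) (nat_lit 572) (nat_lit 388)) (XT.nd (nat_lit 78) (nat_lit 912) (nat_lit 0) (XT.lf (nat_lit 0) (nat_lit 10221142962) (nat_lit 1064) (nat_lit 3810197213) (nat_lit 76)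 (nat_lit 1565240467) (nat_lit 419) (nat_lit 5) (nat_lit 433) (nat_lit 5) (nat_lit 420) (nat_lit 5) (nat_lit 601) (nat_lit 572) (nat_lit 387)) (XT.lf (nat_lit 0) (nat_lit 4671815903) (nat_lit 912) (nat_lit 7374752386) (nat_lit 988) (nat_lit 3715629935) (nat_lit 407) (nat_lit 5) (nat_lit 419) (nat_lit 5) (nat_lit 420) (nat_lit 5) (nat_lit 602) (nat_lit 572) (nat_lit 386))))))))
noncomputable def xc194 : XT := (XT.nd (nat_lit 1482) (nat_lit 6688) (nat_lit 0) (XT.nd (nat_lit 702) (nat_lit 3800) (nat_lit 0) (XT.nd (nat_lit 312) (nat_lit 2432) (nat_lit 0) (XT.nd (nat_lit 156) (nat_lit 912) (nat_lit 0) (XT.nd (nat_lit 78) (nat_lit 912) (nat_lit 0) (XT.lf (nat_lit 0) (nat_lit 13367882426) (nat_lit 912) (nat_lit 558382601) (nat_lit 988) (nat_lit 2004509009) (nat_lit 407) (nat_lit 5) (nat_lit 419) (nat_lit 5) (nat_lit 420) (nat_lit 5) (nat_lit 603) (nat_lit 572) (nat_lit 385)) (XT.lf (nat_lit 0) (nat_lit 6167266574) (nat_lit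 912) (nat_lit 9750198399) (nat_lit 988) (nat_lit 183779324) (nat_lit 395) (nat_lit 5) (nat_lit 407) (nat_lit 5) (nat_lit 408) (nat_lit 5) (nat_lit 604) (nat_lit 572) (nat_lit 384))) (XT.nd (nat_lit 78) (nat_lit 836) (nat_lit 0) (XT.lf (nat_lit 0) (nat_lit 1664831931) (nat_lit 988) (nat_lit 1189993133) (nat_lit 76) (nat_lit 13419814411) (nat_lit 394) (nat_lit 5) (nat_lit 407) (nat_lit 5) (nat_lit 395) (nat_lit 5) (nat_lit 605) (nat_lit 572) (nat_lit 383)) (XT.lf (nat_lit 0) (nat_lit 3618777482) (nat_lit 912) (nat_lit 8654994723) (nat_lit 76) (nat_lit 4176290651) (nat_lit 383) (nat_lit 5) (nat_lit 395) (nat_lit 5) (nat_lit 384) (nat_lit 5) (nat_lit 606) (nat_lit 572) (nat_lit 382)))) (XT.nd (nat_lit 156) (nat_lit 1596) (nat_lit 0) (XT.nd (nat_lit 78) (nat_lit 0) (nat_lit 0) (XT.lf (nat_lit 0) (nat_lit 325167436) (nat_lit 836) (nat_lit 5308343820) (nat_lit 912) (nat_lit 10995050295) (nat_lit 372) (nat_lit 5) (nat_lit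 383) (nat_lit 5) (nat_lit 384) (nat_lit 5) (nat_lit 607) (nat_lit 572) (nat_lit 381)) (XT.lf (nat_lit 0) (nat_lit 7751418306) (nat_lit 912) (nat_lit 7226625962) (nat_lit 76) (nat_lit 1831329391) (nat_lit 372) (nat_lit 5) (nat_lit 384) (nat_lit 5) (nat_lit 373) (nat_lit 5) (nat_lit 608) (nat_lit 572) (nat_lit 380))) (XT.nd (nat_lit 78) (nat_lit 836) (nat_lit 0) (XT.lf (nat_lit 0) (nat_lit 2015741242) (nat_lit 760) (nat_lit 7937077536) (nat_lit 836) (nat_lit 7040161517) (nat_lit 362) (nat_lit 5) (nat_lit 372) (nat_lit 5) (nat_lit 373) (nat_lit 5) (nat_lit 609) (nat_lit 572) (nat_lit 379)) (XT.nd (nat_lit 78) (nat_lit 836) (nat_lit 0) (XT.lf (nat_lit 0) (nat_lit 11533743572) (nat_lit 760) (nat_lit 705984100) (nat_lit 836) (nat_lit 4939702755) (nat_lit 362) (nat_lit 5) (nat_lit 372) (nat_lit 5) (nat_lit 373) (nat_lit 5) (nat_lit 610) (nat_lit 572) (nat_lit 378)) (XT.lf (nat_lit 0) (nat_lit 3872816844) (nat_lit 836)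 (nat_lit 10761129596) (nat_lit 912) (nat_lit 2734432643) (nat_lit 351) (nat_lit 5) (nat_lit 362) (nat_lit 5) (nat_lit 363) (nat_lit 5) (nat_lit 611) (nat_lit 572) (nat_lit 377)))))) (XT.nd (nat_lit 390) (nat_lit 1520) (nat_lit 0) (XT.nd (nat_lit 156) (nat_lit 1444) (nat_lit 0) (XT.nd (nat_lit 78) (nat_lit 836) (nat_lit 0) (XT.lf (nat_lit 0) (nat_lit 13646361110) (nat_lit 836) (nat_lit 3465429734) (nat_lit 912) (nat_lit 448601975) (nat_lit 351) (nat_lit 5) (nat_lit 362) (nat_lit 5) (nat_lit 363) (nat_lit 5) (nat_lit 612) (nat_lit 572) (nat_lit 376)) (XT.lf (nat_lit 0) (nat_lit 1916118346) (nat_lit 836) (nat_lit 11864076532) (nat_lit 76) (nat_lit 3974650980) (nat_lit 340) (nat_lit 5) (nat_lit 351) (nat_lit 5) (nat_lit 341) (nat_lit 5) (nat_lit 613) (nat_lit 572) (nat_lit 375))) (XT.nd (nat_lit 78) (nat_lit 1444) (nat_lit 0) (XT.lf (nat_lit 0) (nat_lit 4364903285) (nat_lit 836) (nat_lit 2041190302) (nat_lit 76) (nat_lit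 11546180409) (nat_lit 340) (nat_lit 5) (nat_lit 351) (nat_lit 5) (nat_lit 341) (nat_lit 5) (nat_lit 614) (nat_lit 572) (nat_lit 374)) (XT.nd (nat_lit 78) (nat_lit 684) (nat_lit 0) (XT.lf (nat_lit 0) (nat_lit 6916204111) (nat_lit 836) (nat_lit 10083247747) (nat_lit 76) (nat_lit 1153128895) (nat_lit 330) (nat_lit 5) (nat_lit 341) (nat_lit 5) (nat_lit 331) (nat_lit 5) (nat_lit 615) (nat_lit 572) (nat_lit 373)) (XT.lf (nat_lit 0) (nat_lit 3553441) (nat_lit 684) (nat_lit 9564803645) (nat_lit 760) (nat_lit 8787540885) (nat_lit 321) (nat_lit 5) (nat_lit 330) (nat_lit 5) (nat_lit 331) (nat_lit 5) (nat_lit 616) (nat_lit 572) (nat_lit 372))))) (XT.nd (nat_lit 156) (nat_lit 760) (nat_lit 0) (XT.nd (nat_lit 78) (nat_lit 760) (nat_lit 0) (XT.lf (nat_lit 0) (nat_lit 10421724455) (nat_lit 684) (nat_lit 1913162914) (nat_lit 760) (nat_lit 6227168309) (nat_lit 321) (nat_lit 5) (nat_lit 330) (nat_lit 5) (nat_lit 331) (nat_lit 5)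 (nat_lit 617) (nat_lit 572) (nat_lit 371)) (XT.lf (nat_lit 0) (nat_lit 2260285354) (nat_lit 760) (nat_lit 12943179662) (nat_lit 836) (nat_lit 3567938000) (nat_lit 311) (nat_lit 5) (nat_lit 321) (nat_lit 5) (nat_lit 322) (nat_lit 5) (nat_lit 618) (nat_lit 572) (nat_lit 370))) (XT.nd (nat_lit 78) (nat_lit 760) (nat_lit 0) (XT.lf (nat_lit 0) (nat_lit 12959437063) (nat_lit 760) (nat_lit 5231055979) (nat_lit 836) (nat_lit 793223482) (nat_lit 311) (nat_lit 5) (nat_lit 321) (nat_lit 5) (nat_lit 322) (nat_lit 5) (nat_lit 619) (nat_lit 572) (nat_lit 369)) (XT.nd (nat_lit 78) (nat_lit 0) (nat_lit 0) (XT.lf (nat_lit 0) (nat_lit 2052216876) (nat_lit 760) (nat_lit 14502949231) (nat_lit 76) (nat_lit 2644007512) (nat_lit 301) (nat_lit 5) (nat_lit 311) (nat_lit 5) (nat_lit 302) (nat_lit 5) (nat_lit 620) (nat_lit 572) (nat_lit 368)) (XT.lf (nat_lit 0) (nat_lit 5013305430) (nat_lit 760) (nat_lit 3752492357) (nat_lit 76) (nat_lit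 10651650743) (nat_lit 301) (nat_lit 5) (nat_lit 311) (nat_lit 5) (nat_lit 302) (nat_lit 5) (nat_lit 621) (nat_lit 572) (nat_lit 367))))))) (XT.nd (nat_lit 702) (nat_lit 3420) (nat_lit 0) (XT.nd (nat_lit 312) (nat_lit 1292) (nat_lit 0) (XT.nd (nat_lit 156) (nat_lit 1292) (nat_lit 0) (XT.nd (nat_lit 78) (nat_lit 0) (nat_lit 0) (XT.lf (nat_lit 0) (nat_lit 7301879888) (nat_lit 684) (nat_lit 773276045) (nat_lit 760) (nat_lit 11564102940) (nat_lit 292) (nat_lit 5) (nat_lit 301) (nat_lit 5) (nat_lit 302) (nat_lit 5) (nat_lit 622) (nat_lit 572) (nat_lit 366)) (XT.lf (nat_lit 0) (nat_lit 11265697151) (nat_lit 760) (nat_lit 1291797132) (nat_lit 76) (nat_lit 7306662788) (nat_lit 292) (nat_lit 5) (nat_lit 302) (nat_lit 5) (nat_lit 293) (nat_lit 5) (nat_lit 623) (nat_lit 572) (nat_lit 365))) (XT.nd (nat_lit 78) (nat_lit 684) (nat_lit 0) (XT.lf (nat_lit 0) (nat_lit 10095187103) (nat_lit 608) (nat_lit 4489837338) (nat_lit 684)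 (nat_lit 5507229995) (nat_lit 284) (nat_lit 5) (nat_lit 292) (nat_lit 5) (nat_lit 293) (nat_lit 5) (nat_lit 624) (nat_lit 572) (nat_lit 364)) (XT.lf (nat_lit 0) (nat_lit 1389723551) (nat_lit 684) (nat_lit 16617411049) (nat_lit 760) (nat_lit 2317051917) (nat_lit 275) (nat_lit 5) (nat_lit 284) (nat_lit 5) (nat_lit 285) (nat_lit 5) (nat_lit 625) (nat_lit 572) (nat_lit 363)))) (XT.nd (nat_lit 156) (nat_lit 608) (nat_lit 0) (XT.nd (nat_lit 78) (nat_lit 608) (nat_lit 0) (XT.lf (nat_lit 0) (nat_lit 1016304372) (nat_lit 760) (nat_lit 7462793527) (nat_lit 76) (nat_lit 12079705092) (nat_lit 274) (nat_lit 5) (nat_lit 284) (nat_lit 5) (nat_lit 275) (nat_lit 5) (nat_lit 626) (nat_lit 572) (nat_lit 362)) (XT.lf (nat_lit 0) (nat_lit 4272251160) (nat_lit 608) (nat_lit 135327191) (nat_lit 684) (nat_lit 16389782264) (nat_lit 266) (nat_lit 5) (nat_lit 274) (nat_lit 5) (nat_lit 275) (nat_lit 5) (nat_lit 627) (nat_lit 572) (nat_lit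 361))) (XT.nd (nat_lit 78) (nat_lit 608) (nat_lit 0) (XT.lf (nat_lit 0) (nat_lit 7966031364) (nat_lit 684) (nat_lit 4758042028) (nat_lit 76) (nat_lit 8314629571) (nat_lit 266) (nat_lit 5) (nat_lit 275) (nat_lit 5) (nat_lit 267) (nat_lit 5) (nat_lit 628) (nat_lit 572) (nat_lit 360)) (XT.nd (nat_lit 78) (nat_lit 0) (nat_lit 0) (XT.lf (nat_lit 0) (nat_lit 7332975883) (nat_lit 608) (nat_lit 4305855386) (nat_lit 684) (nat_lit 9645177961) (nat_lit 258) (nat_lit 5) (nat_lit 266) (nat_lit 5) (nat_lit 267) (nat_lit 5) (nat_lit 629) (nat_lit 572) (nat_lit 359)) (XT.lf (nat_lit 0) (nat_lit 15439744664) (nat_lit 684) (nat_lit 1837998394) (nat_lit 76) (nat_lit 4255386032) (nat_lit 258) (nat_lit 5) (nat_lit 267) (nat_lit 5) (nat_lit 259) (nat_lit 5) (nat_lit 630) (nat_lit 572) (nat_lit 358)))))) (XT.nd (nat_lit 390) (nat_lit 1672) (nat_lit 0) (XT.nd (nat_lit 156) (nat_lit 532) (nat_lit 0) (XT.nd (nat_lit 78) (nat_lit 684) (nat_lit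 0) (XT.lf (nat_lit 0) (nat_lit 10621495022) (nat_lit 532) (nat_lit 8787485903) (nat_lit 608) (nat_lit 2376404934) (nat_lit 251) (nat_lit 5) (nat_lit 258) (nat_lit 5) (nat_lit 259) (nat_lit 5) (nat_lit 631) (nat_lit 572) (nat_lit 357)) (XT.lf (nat_lit 0) (nat_lit 1314001797) (nat_lit 608) (nat_lit 98154172) (nat_lit 684) (nat_lit 20630032671) (nat_lit 242) (nat_lit 5) (nat_lit 250) (nat_lit 5) (nat_lit 251) (nat_lit 5) (nat_lit 632) (nat_lit 572) (nat_lit 356))) (XT.nd (nat_lit 78) (nat_lit 532) (nat_lit 0) (XT.lf (nat_lit 0) (nat_lit 5371917793) (nat_lit 684) (nat_lit 8189653608) (nat_lit 76) (nat_lit 8739697487) (nat_lit 242) (nat_lit 5) (nat_lit 251) (nat_lit 5) (nat_lit 243) (nat_lit 5) (nat_lit 633) (nat_lit 572) (nat_lit 355)) (XT.nd (nat_lit 78) (nat_lit 0) (nat_lit 0) (XT.lf (nat_lit 0) (nat_lit 4653498066) (nat_lit 532) (nat_lit 4783240751) (nat_lit 608) (nat_lit 13128275207) (nat_lit 235) (nat_lit 5) (nat_lit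 242) (nat_lit 5) (nat_lit 243) (nat_lit 5) (nat_lit 634) (nat_lit 572) (nat_lit 354)) (XT.lf (nat_lit 0) (nat_lit 13660301955) (nat_lit 608) (nat_lit 5002431916) (nat_lit 76) (nat_lit 4169751823) (nat_lit 235) (nat_lit 5) (nat_lit 243) (nat_lit 5) (nat_lit 236) (nat_lit 5) (nat_lit 635) (nat_lit 572) (nat_lit 353))))) (XT.nd (nat_lit 156) (nat_lit 1140) (nat_lit 0) (XT.nd (nat_lit 78) (nat_lit 0) (nat_lit 0) (XT.lf (nat_lit 0) (nat_lit 8234705321) (nat_lit 532) (nat_lit 9813916614) (nat_lit 608) (nat_lit 5055079688) (nat_lit 228) (nat_lit 5) (nat_lit 235) (nat_lit 5) (nat_lit 236) (nat_lit 5) (nat_lit 636) (nat_lit 572) (nat_lit 352)) (XT.lf (nat_lit 0) (nat_lit 21797985991) (nat_lit 532) (nat_lit 755488216) (nat_lit 608) (nat_lit 826292872) (nat_lit 228) (nat_lit 5) (nat_lit 235) (nat_lit 5) (nat_lit 236) (nat_lit 5) (nat_lit 637) (nat_lit 572) (nat_lit 351))) (XT.nd (nat_lit 78) (nat_lit 532) (nat_lit 0) (XT.lf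 (nat_lit 0) (nat_lit 3570906890) (nat_lit 608) (nat_lit 11614272238) (nat_lit 76) (nat_lit 8473131000) (nat_lit 220) (nat_lit 5) (nat_lit 228) (nat_lit 5) (nat_lit 221) (nat_lit 5) (nat_lit 638) (nat_lit 572) (nat_lit 350)) (XT.nd (nat_lit 78) (nat_lit 0) (nat_lit 0) (XT.lf (nat_lit 0) (nat_lit 2031309828) (nat_lit 532) (nat_lit 6037864773) (nat_lit 608) (nat_lit 15872656937) (nat_lit 213) (nat_lit 5) (nat_lit 220) (nat_lit 5) (nat_lit 221) (nat_lit 5) (nat_lit 639) (nat_lit 572) (nat_lit 349)) (XT.lf (nat_lit 0) (nat_lit 12752578964) (nat_lit 608) (nat_lit 8150547983) (nat_lit 76) (nat_lit 3325993488) (nat_lit 213) (nat_lit 5) (nat_lit 221) (nat_lit 5) (nat_lit 214) (nat_lit 5) (nat_lit 640) (nat_lit 572) (nat_lit 348))))))))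
noncomputable def xc195 : XT := (XT.nd (nat_lit 76908) (nat_lit 0) (nat_lit 16720) (XT.nd (nat_lit 76128) (nat_lit 0) (nat_lit 21584) (XT.nd (nat_lit 312) (nat_lit 912) (nat_lit 0) (XT.nd (nat_lit 156) (nat_lit 608) (nat_lit 0) (XT.nd (nat_lit 78) (nat_lit 0) (nat_lit 0) (XT.lf (nat_lit 0) (nat_lit 5915924980) (nat_lit 456) (nat_lit 11687554614) (nat_lit 532) (nat_lit 6917199429) (nat_lit 207) (nat_lit 5) (nat_lit 213) (nat_lit 5) (nat_lit 214) (nat_lit 5) (nat_lit 641) (nat_lit 572) (nat_lit 347)) (XT.lf (nat_lit 0) (nat_lit 20367948892) (nat_lit 456) (nat_lit 2233624934) (nat_lit 532) (nat_lit 2215491913) (nat_lit 207) (nat_lit 5) (nat_lit 213) (nat_lit 5) (nat_lit 214) (nat_lit 5) (nat_lit 642) (nat_lit 572) (nat_lit 346))) (XT.nd (nat_lit 78) (nat_lit 0) (nat_lit 0) (XT.lf (nat_lit 0) (nat_lit 2656160059) (nat_lit 608) (nat_lit 15067329835) (nat_lit 76) (nat_lit 7393360676) (nat_lit 199) (nat_lit 5) (nat_lit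 207) (nat_lit 5) (nat_lit 200) (nat_lit 5) (nat_lit 643) (nat_lit 572) (nat_lit 345)) (XT.lf (nat_lit 0) (nat_lit 7636029301) (nat_lit 608) (nat_lit 559490898) (nat_lit 76) (nat_lit 17226009457) (nat_lit 199) (nat_lit 5) (nat_lit 207) (nat_lit 5) (nat_lit 200) (nat_lit 5) (nat_lit 644) (nat_lit 572) (nat_lit 344)))) (XT.nd (nat_lit 75582) (nat_lit 0) (nat_lit 23028) (XT.nd (nat_lit 78) (nat_lit 456) (nat_lit 0) (XT.lf (nat_lit 0) (nat_lit 12815289862) (nat_lit 532) (nat_lit 11319480563) (nat_lit 76) (nat_lit 1595536451) (nat_lit 193) (nat_lit 5) (nat_lit 200) (nat_lit 5) (nat_lit 194) (nat_lit 5) (nat_lit 645) (nat_lit 572) (nat_lit 343)) (XT.lf (nat_lit 0) (nat_lit 3630112011) (nat_lit 456) (nat_lit 14545343909) (nat_lit 532) (nat_lit 7868257740) (nat_lit 187) (nat_lit 5) (nat_lit 193) (nat_lit 5) (nat_lit 194) (nat_lit 5) (nat_lit 646) (nat_lit 572) (nat_lit 342))) (XT.nd (nat_lit 78) (nat_lit 0) (nat_lit 0)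 (XT.lf (nat_lit 0) (nat_lit 3608766874) (nat_lit 1748) (nat_lit 1180268884) (nat_lit 1748) (nat_lit 1180268884) (nat_lit 490) (nat_lit 3) (nat_lit 513) (nat_lit 3) (nat_lit 513) (nat_lit 5) (nat_lit 573) (nat_lit 573) (nat_lit 414)) (XT.nd (nat_lit 78) (nat_lit 0) (nat_lit 76) (XT.lf (nat_lit 76) (nat_lit 3539509639) (nat_lit 0) (nat_lit 4249482002) (nat_lit 1748) (nat_lit 4258940962) (nat_lit 491) (nat_lit 5) (nat_lit 490) (nat_lit 3) (nat_lit 513) (nat_lit 5) (nat_lit 574) (nat_lit 573) (nat_lit 413)) (XT.lf (nat_lit 0) (nat_lit 8383026234) (nat_lit 1672) (nat_lit 2584122605) (nat_lit 1748) (nat_lit 1192072618) (nat_lit 491) (nat_lit 5) (nat_lit 513) (nat_lit 5) (nat_lit 514) (nat_lit 5) (nat_lit 575) (nat_lit 573) (nat_lit 412)))))) (XT.nd (nat_lit 390) (nat_lit 1520) (nat_lit 0) (XT.nd (nat_lit 156) (nat_lit 0) (nat_lit 76) (XT.nd (nat_lit 78) (nat_lit 0) (nat_lit 0) (XT.lf (nat_lit 76) (nat_lit 3469406112)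 (nat_lit 0) (nat_lit 5557952349) (nat_lit 1748) (nat_lit 3244611270) (nat_lit 492) (nat_lit 5) (nat_lit 491) (nat_lit 5) (nat_lit 514) (nat_lit 5) (nat_lit 576) (nat_lit 573) (nat_lit 411)) (XT.lf (nat_lit 76) (nat_lit 9672460129) (nat_lit 0) (nat_lit 17404553) (nat_lit 1748) (nat_lit 2697004487) (nat_lit 492) (nat_lit 5) (nat_lit 491) (nat_lit 5) (nat_lit 514) (nat_lit 5) (nat_lit 577) (nat_lit 573) (nat_lit 410))) (XT.nd (nat_lit 78) (nat_lit 0) (nat_lit 0) (XT.lf (nat_lit 76) (nat_lit 3498089365) (nat_lit 0) (nat_lit 6915040697) (nat_lit 1748) (nat_lit 2089988260) (nat_lit 493) (nat_lit 5) (nat_lit 492) (nat_lit 5) (nat_lit 515) (nat_lit 5) (nat_lit 578) (nat_lit 573) (nat_lit 409)) (XT.nd (nat_lit 78) (nat_lit 0) (nat_lit 76) (XT.lf (nat_lit 76) (nat_lit 9864841703) (nat_lit 0) (nat_lit 1292754106) (nat_lit 1748) (nat_lit 1463963815) (nat_lit 493) (nat_lit 5) (nat_lit 492) (nat_lit 5) (nat_lit 515) (nat_lit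 5) (nat_lit 579) (nat_lit 573) (nat_lit 408)) (XT.lf (nat_lit 76) (nat_lit 3628504136) (nat_lit 0) (nat_lit 8329509772) (nat_lit 1748) (nat_lit 783536418) (nat_lit 494) (nat_lit 5) (nat_lit 493) (nat_lit 5) (nat_lit 516) (nat_lit 5) (nat_lit 580) (nat_lit 573) (nat_lit 407))))) (XT.nd (nat_lit 156) (nat_lit 0) (nat_lit 0) (XT.nd (nat_lit 78) (nat_lit 1672) (nat_lit 0) (XT.lf (nat_lit 76) (nat_lit 10163364960) (nat_lit 0) (nat_lit 2626921899) (nat_lit 1748) (nat_lit 73338849) (nat_lit 494) (nat_lit 5) (nat_lit 493) (nat_lit 5) (nat_lit 516) (nat_lit 5) (nat_lit 581) (nat_lit 573) (nat_lit 406)) (XT.lf (nat_lit 0) (nat_lit 677639015) (nat_lit 1748) (nat_lit 9128033453) (nat_lit 1824) (nat_lit 3181685010) (nat_lit 471) (nat_lit 5) (nat_lit 494) (nat_lit 5) (nat_lit 495) (nat_lit 5) (nat_lit 582) (nat_lit 573) (nat_lit 405))) (XT.nd (nat_lit 78) (nat_lit 0) (nat_lit 76) (XT.lf (nat_lit 0) (nat_lit 1467478388) (nat_lit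 1748) (nat_lit 2551475605) (nat_lit 1824) (nat_lit 9094105409) (nat_lit 471) (nat_lit 5) (nat_lit 494) (nat_lit 5) (nat_lit 495) (nat_lit 5) (nat_lit 583) (nat_lit 573) (nat_lit 404)) (XT.nd (nat_lit 78) (nat_lit 0) (nat_lit 0) (XT.lf (nat_lit 0) (nat_lit 2302247936) (nat_lit 1748) (nat_lit 9048453556) (nat_lit 1824) (nat_lit 1889992864) (nat_lit 472) (nat_lit 5) (nat_lit 495) (nat_lit 5) (nat_lit 496) (nat_lit 5) (nat_lit 584) (nat_lit 573) (nat_lit 403)) (XT.lf (nat_lit 0) (nat_lit 3187149112) (nat_lit 1748) (nat_lit 2298878245) (nat_lit 1824) (nat_lit 7884187555) (nat_lit 472) (nat_lit 5) (nat_lit 495) (nat_lit 5) (nat_lit 496) (nat_lit 5) (nat_lit 585) (nat_lit 573) (nat_lit 402))))))) (XT.nd (nat_lit 702) (nat_lit 5016) (nat_lit 0) (XT.nd (nat_lit 312) (nat_lit 0) (nat_lit 76) (XT.nd (nat_lit 156) (nat_lit 0) (nat_lit 0) (XT.nd (nat_lit 78) (nat_lit 0) (nat_lit 0) (XT.lf (nat_lit 0) (nat_lit 4113102739) (nat_lit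 1748) (nat_lit 8865721197) (nat_lit 1824) (nat_lit 523036451) (nat_lit 473) (nat_lit 5) (nat_lit 496) (nat_lit 5) (nat_lit 497) (nat_lit 5) (nat_lit 586) (nat_lit 573) (nat_lit 401)) (XT.lf (nat_lit 0) (nat_lit 5099401920) (nat_lit 1748) (nat_lit 1938312369) (nat_lit 1824) (nat_lit 6597589514) (nat_lit 473) (nat_lit 5) (nat_lit 496) (nat_lit 5) (nat_lit 497) (nat_lit 5) (nat_lit 587) (nat_lit 573) (nat_lit 400))) (XT.nd (nat_lit 78) (nat_lit 0) (nat_lit 76) (XT.lf (nat_lit 76) (nat_lit 5188767293) (nat_lit 0) (nat_lit 940511780) (nat_lit 1824) (nat_lit 7641661510) (nat_lit 474) (nat_lit 5) (nat_lit 473) (nat_lit 5) (nat_lit 497) (nat_lit 5) (nat_lit 588) (nat_lit 573) (nat_lit 399)) (XT.lf (nat_lit 0) (nat_lit 7217448874) (nat_lit 1748) (nat_lit 1465822475) (nat_lit 1824) (nat_lit 5225266349) (nat_lit 474) (nat_lit 5) (nat_lit 497) (nat_lit 5) (nat_lit 498) (nat_lit 5) (nat_lit 589) (nat_lit 573) (nat_lit 398))))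 (XT.nd (nat_lit 156) (nat_lit 0) (nat_lit 76) (XT.nd (nat_lit 78) (nat_lit 0) (nat_lit 76) (XT.lf (nat_lit 76) (nat_lit 5856477850) (nat_lit 0) (nat_lit 2505676005) (nat_lit 1824) (nat_lit 5686038939) (nat_lit 475) (nat_lit 5) (nat_lit 474) (nat_lit 5) (nat_lit 498) (nat_lit 5) (nat_lit 590) (nat_lit 573) (nat_lit 397)) (XT.lf (nat_lit 0) (nat_lit 9554973113) (nat_lit 1748) (nat_lit 877174273) (nat_lit 1824) (nat_lit 3757990648) (nat_lit 475) (nat_lit 5) (nat_lit 498) (nat_lit 5) (nat_lit 499) (nat_lit 5) (nat_lit 591) (nat_lit 573) (nat_lit 396))) (XT.nd (nat_lit 78) (nat_lit 0) (nat_lit 76) (XT.lf (nat_lit 76) (nat_lit 6647267019) (nat_lit 0) (nat_lit 4174992787) (nat_lit 1824) (nat_lit 3511651568) (nat_lit 476) (nat_lit 5) (nat_lit 475) (nat_lit 5) (nat_lit 499) (nat_lit 5) (nat_lit 592) (nat_lit 573) (nat_lit 395)) (XT.nd (nat_lit 78) (nat_lit 0) (nat_lit 0) (XT.lf (nat_lit 0) (nat_lit 12126155232) (nat_lit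 1748) (nat_lit 167850787) (nat_lit 1824) (nat_lit 2186330288) (nat_lit 476) (nat_lit 5) (nat_lit 499) (nat_lit 5) (nat_lit 500) (nat_lit 5) (nat_lit 593) (nat_lit 573) (nat_lit 394)) (XT.lf (nat_lit 76) (nat_lit 7565912178) (nat_lit 0) (nat_lit 5958171041) (nat_lit 1824) (nat_lit 1104248791) (nat_lit 477) (nat_lit 5) (nat_lit 476) (nat_lit 5) (nat_lit 500) (nat_lit 5) (nat_lit 594) (nat_lit 573) (nat_lit 393)))))) (XT.nd (nat_lit 390) (nat_lit 1900) (nat_lit 0) (XT.nd (nat_lit 156) (nat_lit 1596) (nat_lit 0) (XT.nd (nat_lit 78) (nat_lit 0) (nat_lit 0) (XT.lf (nat_lit 0) (nat_lit 168561483) (nat_lit 1824) (nat_lit 14104580112) (nat_lit 1900) (nat_lit 506122818) (nat_lit 453) (nat_lit 5) (nat_lit 477) (nat_lit 5) (nat_lit 478) (nat_lit 5) (nat_lit 595) (nat_lit 573) (nat_lit 392)) (XT.lf (nat_lit 0) (nat_lit 1530608607) (nat_lit 1824) (nat_lit 6324284166) (nat_lit 1900) (nat_lit 7076606662) (nat_lit 453) (nat_lit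 5) (nat_lit 477) (nat_lit 5) (nat_lit 478) (nat_lit 5) (nat_lit 596) (nat_lit 573) (nat_lit 391))) (XT.nd (nat_lit 78) (nat_lit 1596) (nat_lit 0) (XT.lf (nat_lit 76) (nat_lit 1625887405) (nat_lit 0) (nat_lit 1296122682) (nat_lit 1900) (nat_lit 12164728062) (nat_lit 454) (nat_lit 5) (nat_lit 453) (nat_lit 5) (nat_lit 478) (nat_lit 5) (nat_lit 597) (nat_lit 573) (nat_lit 390)) (XT.nd (nat_lit 78) (nat_lit 1672) (nat_lit 0) (XT.lf (nat_lit 0) (nat_lit 4410665864) (nat_lit 1824) (nat_lit 5465928355) (nat_lit 76) (nat_lit 5367100124) (nat_lit 454) (nat_lit 5) (nat_lit 478) (nat_lit 5) (nat_lit 455) (nat_lit 5) (nat_lit 598) (nat_lit 573) (nat_lit 389)) (XT.lf (nat_lit 0) (nat_lit 2708792124) (nat_lit 1672) (nat_lit 3238322188) (nat_lit 1748) (nat_lit 9456316166) (nat_lit 432) (nat_lit 5) (nat_lit 454) (nat_lit 5) (nat_lit 455) (nat_lit 5) (nat_lit 599) (nat_lit 573) (nat_lit 388))))) (XT.nd (nat_lit 156) (nat_lit 912)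 (nat_lit 0) (XT.nd (nat_lit 78) (nat_lit 988) (nat_lit 0) (XT.lf (nat_lit 0) (nat_lit 7566120471) (nat_lit 1748) (nat_lit 4474873681) (nat_lit 76) (nat_lit 3524331796) (nat_lit 432) (nat_lit 5) (nat_lit 455) (nat_lit 5) (nat_lit 433) (nat_lit 5) (nat_lit 600) (nat_lit 573) (nat_lit 387)) (XT.lf (nat_lit 0) (nat_lit 3932389537) (nat_lit 988) (nat_lit 5324222035) (nat_lit 1064) (nat_lit 6473066819) (nat_lit 419) (nat_lit 5) (nat_lit 432) (nat_lit 5) (nat_lit 433) (nat_lit 5) (nat_lit 601) (nat_lit 573) (nat_lit 386))) (XT.nd (nat_lit 78) (nat_lit 912) (nat_lit 0) (XT.lf (nat_lit 0) (nat_lit 11013295125) (nat_lit 1064) (nat_lit 3345513812) (nat_lit 76) (nat_lit 1537862434) (nat_lit 419) (nat_lit 5) (nat_lit 433) (nat_lit 5) (nat_lit 420) (nat_lit 5) (nat_lit 602) (nat_lit 573) (nat_lit 385)) (XT.nd (nat_lit 78) (nat_lit 0) (nat_lit 0) (XT.lf (nat_lit 0) (nat_lit 5302581098) (nat_lit 912) (nat_lit 7564612452) (nat_lit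 988) (nat_lit 3198570154) (nat_lit 407) (nat_lit 5) (nat_lit 419) (nat_lit 5) (nat_lit 420) (nat_lit 5) (nat_lit 603) (nat_lit 573) (nat_lit 384)) (XT.lf (nat_lit 0) (nat_lit 14162033090) (nat_lit 912) (nat_lit 611084585) (nat_lit 988) (nat_lit 1464822347) (nat_lit 407) (nat_lit 5) (nat_lit 419) (nat_lit 5) (nat_lit 420) (nat_lit 5) (nat_lit 604) (nat_lit 573) (nat_lit 383))))))))
noncomputable def xc196 : XT := (XT.nd (nat_lit 1482) (nat_lit 6460) (nat_lit 0) (XT.nd (nat_lit 702) (nat_lit 4408) (nat_lit 0) (XT.nd (nat_lit 312) (nat_lit 1672) (nat_lit 0) (XT.nd (nat_lit 156) (nat_lit 1672) (nat_lit 0) (XT.nd (nat_lit 78) (nat_lit 0) (nat_lit 0) (XT.lf (nat_lit 0) (nat_lit 379187727) (nat_lit 988) (nat_lit 9588893424) (nat_lit 76) (nat_lit 6443848964) (nat_lit 394) (nat_lit 5) (nat_lit 407) (nat_lit 5) (nat_lit 395) (nat_lit 5) (nat_lit 605) (nat_lit 573) (nat_lit 382)) (XT.lf (nat_lit 0) (nat_lit 2251250269) (nat_lit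 988) (nat_lit 681884396) (nat_lit 76) (nat_lit 13655857003) (nat_lit 394) (nat_lit 5) (nat_lit 407) (nat_lit 5) (nat_lit 395) (nat_lit 5) (nat_lit 606) (nat_lit 573) (nat_lit 381))) (XT.nd (nat_lit 78) (nat_lit 836) (nat_lit 0) (XT.lf (nat_lit 0) (nat_lit 4236747683) (nat_lit 912) (nat_lit 8288582338) (nat_lit 76) (nat_lit 4242745569) (nat_lit 383) (nat_lit 5) (nat_lit 395) (nat_lit 5) (nat_lit 384) (nat_lit 5) (nat_lit 607) (nat_lit 573) (nat_lit 380)) (XT.lf (nat_lit 0) (nat_lit 867633642) (nat_lit 836) (nat_lit 5416924382) (nat_lit 912) (nat_lit 10665732099) (nat_lit 372) (nat_lit 5) (nat_lit 383) (nat_lit 5) (nat_lit 384) (nat_lit 5) (nat_lit 608) (nat_lit 573) (nat_lit 379)))) (XT.nd (nat_lit 156) (nat_lit 912) (nat_lit 0) (XT.nd (nat_lit 78) (nat_lit 760) (nat_lit 0) (XT.lf (nat_lit 0) (nat_lit 8434251448) (nat_lit 912) (nat_lit 6835059278) (nat_lit 76) (nat_lit 1865620655) (nat_lit 372) (nat_lit 5) (nat_lit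 384) (nat_lit 5) (nat_lit 373) (nat_lit 5) (nat_lit 609) (nat_lit 573) (nat_lit 378)) (XT.lf (nat_lit 0) (nat_lit 2588628301) (nat_lit 760) (nat_lit 8084160328) (nat_lit 836) (nat_lit 6649560792) (nat_lit 362) (nat_lit 5) (nat_lit 372) (nat_lit 5) (nat_lit 373) (nat_lit 5) (nat_lit 610) (nat_lit 573) (nat_lit 377))) (XT.nd (nat_lit 78) (nat_lit 912) (nat_lit 0) (XT.lf (nat_lit 0) (nat_lit 12286548085) (nat_lit 760) (nat_lit 708673626) (nat_lit 836) (nat_lit 4517512541) (nat_lit 362) (nat_lit 5) (nat_lit 372) (nat_lit 5) (nat_lit 373) (nat_lit 5) (nat_lit 611) (nat_lit 573) (nat_lit 376)) (XT.nd (nat_lit 78) (nat_lit 76) (nat_lit 0) (XT.lf (nat_lit 0) (nat_lit 4479111156) (nat_lit 836) (nat_lit 10951706306) (nat_lit 912) (nat_lit 2274775954) (nat_lit 351) (nat_lit 5) (nat_lit 362) (nat_lit 5) (nat_lit 363) (nat_lit 5) (nat_lit 612) (nat_lit 573) (nat_lit 375)) (XT.lf (nat_lit 0) (nat_lit 46073827) (nat_lit 912)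 (nat_lit 3464192693) (nat_lit 76) (nat_lit 14391373929) (nat_lit 350) (nat_lit 5) (nat_lit 362) (nat_lit 5) (nat_lit 351) (nat_lit 5) (nat_lit 613) (nat_lit 573) (nat_lit 374)))))) (XT.nd (nat_lit 390) (nat_lit 2204) (nat_lit 0) (XT.nd (nat_lit 156) (nat_lit 1444) (nat_lit 0) (XT.nd (nat_lit 78) (nat_lit 0) (nat_lit 0) (XT.lf (nat_lit 0) (nat_lit 2445914287) (nat_lit 836) (nat_lit 11569970780) (nat_lit 76) (nat_lit 4084162835) (nat_lit 340) (nat_lit 5) (nat_lit 351) (nat_lit 5) (nat_lit 341) (nat_lit 5) (nat_lit 614) (nat_lit 573) (nat_lit 373)) (XT.lf (nat_lit 0) (nat_lit 4934038187) (nat_lit 836) (nat_lit 1561046183) (nat_lit 76) (nat_lit 11806534247) (nat_lit 340) (nat_lit 5) (nat_lit 351) (nat_lit 5) (nat_lit 341) (nat_lit 5) (nat_lit 615) (nat_lit 573) (nat_lit 372))) (XT.nd (nat_lit 78) (nat_lit 684) (nat_lit 0) (XT.lf (nat_lit 0) (nat_lit 7530548802) (nat_lit 836) (nat_lit 9758065685) (nat_lit 76) (nat_lit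 1217434606) (nat_lit 330) (nat_lit 5) (nat_lit 341) (nat_lit 5) (nat_lit 331) (nat_lit 5) (nat_lit 616) (nat_lit 573) (nat_lit 371)) (XT.nd (nat_lit 78) (nat_lit 0) (nat_lit 0) (XT.lf (nat_lit 0) (nat_lit 527005428) (nat_lit 684) (nat_lit 9702803807) (nat_lit 760) (nat_lit 8483743364) (nat_lit 321) (nat_lit 5) (nat_lit 330) (nat_lit 5) (nat_lit 331) (nat_lit 5) (nat_lit 617) (nat_lit 573) (nat_lit 370)) (XT.lf (nat_lit 0) (nat_lit 11143277491) (nat_lit 684) (nat_lit 1899175279) (nat_lit 760) (nat_lit 5881566245) (nat_lit 321) (nat_lit 5) (nat_lit 330) (nat_lit 5) (nat_lit 331) (nat_lit 5) (nat_lit 618) (nat_lit 573) (nat_lit 369))))) (XT.nd (nat_lit 156) (nat_lit 1444) (nat_lit 0) (XT.nd (nat_lit 78) (nat_lit 0) (nat_lit 0) (XT.lf (nat_lit 0) (nat_lit 2824113551) (nat_lit 760) (nat_lit 13138951636) (nat_lit 836) (nat_lit 3174596035) (nat_lit 311) (nat_lit 5) (nat_lit 321) (nat_lit 5) (nat_lit 322) (nat_lit 5) (nat_lit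 619) (nat_lit 573) (nat_lit 368)) (XT.lf (nat_lit 0) (nat_lit 13727079225) (nat_lit 760) (nat_lit 5273822570) (nat_lit 836) (nat_lit 353499005) (nat_lit 311) (nat_lit 5) (nat_lit 321) (nat_lit 5) (nat_lit 322) (nat_lit 5) (nat_lit 620) (nat_lit 573) (nat_lit 367))) (XT.nd (nat_lit 78) (nat_lit 684) (nat_lit 0) (XT.lf (nat_lit 0) (nat_lit 2537812384) (nat_lit 760) (nat_lit 14273404260) (nat_lit 76) (nat_lit 2762993602) (nat_lit 301) (nat_lit 5) (nat_lit 311) (nat_lit 5) (nat_lit 302) (nat_lit 5) (nat_lit 621) (nat_lit 573) (nat_lit 366)) (XT.nd (nat_lit 78) (nat_lit 684) (nat_lit 0) (XT.lf (nat_lit 0) (nat_lit 5549406020) (nat_lit 760) (nat_lit 3318126561) (nat_lit 76) (nat_lit 10929493503) (nat_lit 301) (nat_lit 5) (nat_lit 311) (nat_lit 5) (nat_lit 302) (nat_lit 5) (nat_lit 622) (nat_lit 573) (nat_lit 365)) (XT.lf (nat_lit 0) (nat_lit 7953981709) (nat_lit 684) (nat_lit 713251754) (nat_lit 760) (nat_lit 11356145445)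 (nat_lit 292) (nat_lit 5) (nat_lit 301) (nat_lit 5) (nat_lit 302) (nat_lit 5) (nat_lit 623) (nat_lit 573) (nat_lit 364))))))) (XT.nd (nat_lit 702) (nat_lit 3344) (nat_lit 0) (XT.nd (nat_lit 312) (nat_lit 1748) (nat_lit 0) (XT.nd (nat_lit 156) (nat_lit 760) (nat_lit 0) (XT.nd (nat_lit 78) (nat_lit 608) (nat_lit 0) (XT.lf (nat_lit 0) (nat_lit 11913623390) (nat_lit 760) (nat_lit 813476962) (nat_lit 76) (nat_lit 7525835014) (nat_lit 292) (nat_lit 5) (nat_lit 302) (nat_lit 5) (nat_lit 293) (nat_lit 5) (nat_lit 624) (nat_lit 573) (nat_lit 363)) (XT.lf (nat_lit 0) (nat_lit 10797930142) (nat_lit 608) (nat_lit 4496372349) (nat_lit 684) (nat_lit 5191393913) (nat_lit 284) (nat_lit 5) (nat_lit 292) (nat_lit 5) (nat_lit 293) (nat_lit 5) (nat_lit 625) (nat_lit 573) (nat_lit 362))) (XT.nd (nat_lit 78) (nat_lit 76) (nat_lit 0) (XT.lf (nat_lit 0) (nat_lit 1922873127) (nat_lit 684) (nat_lit 16857605022) (nat_lit 760) (nat_lit 1941877523)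 (nat_lit 275) (nat_lit 5) (nat_lit 284) (nat_lit 5) (nat_lit 285) (nat_lit 5) (nat_lit 626) (nat_lit 573) (nat_lit 361)) (XT.lf (nat_lit 0) (nat_lit 1444461030) (nat_lit 760) (nat_lit 7111134767) (nat_lit 76) (nat_lit 12406178047) (nat_lit 274) (nat_lit 5) (nat_lit 284) (nat_lit 5) (nat_lit 275) (nat_lit 5) (nat_lit 627) (nat_lit 573) (nat_lit 360)))) (XT.nd (nat_lit 156) (nat_lit 1140) (nat_lit 0) (XT.nd (nat_lit 78) (nat_lit 0) (nat_lit 0) (XT.lf (nat_lit 0) (nat_lit 4855315323) (nat_lit 608) (nat_lit 43479361) (nat_lit 684) (nat_lit 16306404205) (nat_lit 266) (nat_lit 5) (nat_lit 274) (nat_lit 5) (nat_lit 275) (nat_lit 5) (nat_lit 628) (nat_lit 573) (nat_lit 359)) (XT.lf (nat_lit 0) (nat_lit 8521115399) (nat_lit 684) (nat_lit 4357992900) (nat_lit 76) (nat_lit 8572406747) (nat_lit 266) (nat_lit 5) (nat_lit 275) (nat_lit 5) (nat_lit 267) (nat_lit 5) (nat_lit 629) (nat_lit 573) (nat_lit 358))) (XT.nd (nat_lit 78)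 (nat_lit 532) (nat_lit 0) (XT.lf (nat_lit 0) (nat_lit 7971587409) (nat_lit 608) (nat_lit 4291217906) (nat_lit 684) (nat_lit 9439014359) (nat_lit 258) (nat_lit 5) (nat_lit 266) (nat_lit 5) (nat_lit 267) (nat_lit 5) (nat_lit 630) (nat_lit 573) (nat_lit 357)) (XT.nd (nat_lit 78) (nat_lit 532) (nat_lit 0) (XT.lf (nat_lit 0) (nat_lit 16132707778) (nat_lit 684) (nat_lit 1385378377) (nat_lit 76) (nat_lit 4437977257) (nat_lit 258) (nat_lit 5) (nat_lit 267) (nat_lit 5) (nat_lit 259) (nat_lit 5) (nat_lit 631) (nat_lit 573) (nat_lit 356)) (XT.lf (nat_lit 0) (nat_lit 11320085302) (nat_lit 532) (nat_lit 8856867228) (nat_lit 608) (nat_lit 2036501191) (nat_lit 251) (nat_lit 5) (nat_lit 258) (nat_lit 5) (nat_lit 259) (nat_lit 5) (nat_lit 632) (nat_lit 573) (nat_lit 355)))))) (XT.nd (nat_lit 390) (nat_lit 1596) (nat_lit 0) (XT.nd (nat_lit 156) (nat_lit 1064) (nat_lit 0) (XT.nd (nat_lit 78) (nat_lit 0) (nat_lit 0) (XT.lf (nat_lit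 0) (nat_lit 1818485744) (nat_lit 684) (nat_lit 20647159559) (nat_lit 76) (nat_lit 9783071) (nat_lit 242) (nat_lit 5) (nat_lit 251) (nat_lit 5) (nat_lit 243) (nat_lit 5) (nat_lit 633) (nat_lit 573) (nat_lit 354)) (XT.lf (nat_lit 0) (nat_lit 5850666623) (nat_lit 684) (nat_lit 7868210412) (nat_lit 76) (nat_lit 9020949546) (nat_lit 242) (nat_lit 5) (nat_lit 251) (nat_lit 5) (nat_lit 243) (nat_lit 5) (nat_lit 634) (nat_lit 573) (nat_lit 353))) (XT.nd (nat_lit 78) (nat_lit 532) (nat_lit 0) (XT.lf (nat_lit 0) (nat_lit 5228611951) (nat_lit 532) (nat_lit 4764021267) (nat_lit 608) (nat_lit 13016297231) (nat_lit 235) (nat_lit 5) (nat_lit 242) (nat_lit 5) (nat_lit 243) (nat_lit 5) (nat_lit 635) (nat_lit 573) (nat_lit 352)) (XT.nd (nat_lit 78) (nat_lit 532) (nat_lit 0) (XT.lf (nat_lit 0) (nat_lit 14294199690) (nat_lit 608) (nat_lit 4623380678) (nat_lit 76) (nat_lit 4364301340) (nat_lit 235) (nat_lit 5) (nat_lit 243) (nat_lit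 5) (nat_lit 236) (nat_lit 5) (nat_lit 636) (nat_lit 573) (nat_lit 351)) (XT.lf (nat_lit 0) (nat_lit 8875347331) (nat_lit 532) (nat_lit 9890956522) (nat_lit 608) (nat_lit 4792298529) (nat_lit 228) (nat_lit 5) (nat_lit 235) (nat_lit 5) (nat_lit 236) (nat_lit 5) (nat_lit 637) (nat_lit 573) (nat_lit 350))))) (XT.nd (nat_lit 156) (nat_lit 988) (nat_lit 0) (XT.nd (nat_lit 78) (nat_lit 608) (nat_lit 0) (XT.lf (nat_lit 0) (nat_lit 22700561303) (nat_lit 532) (nat_lit 653697564) (nat_lit 608) (nat_lit 486070933) (nat_lit 228) (nat_lit 5) (nat_lit 235) (nat_lit 5) (nat_lit 236) (nat_lit 5) (nat_lit 638) (nat_lit 573) (nat_lit 349)) (XT.lf (nat_lit 0) (nat_lit 3991310050) (nat_lit 608) (nat_lit 11372104921) (nat_lit 76) (nat_lit 8761044829) (nat_lit 220) (nat_lit 5) (nat_lit 228) (nat_lit 5) (nat_lit 221) (nat_lit 5) (nat_lit 639) (nat_lit 573) (nat_lit 348))) (XT.nd (nat_lit 78) (nat_lit 456) (nat_lit 0) (XT.lf (nat_lit 0)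 (nat_lit 2543267386) (nat_lit 532) (nat_lit 6032493082) (nat_lit 608) (nat_lit 15837967545) (nat_lit 213) (nat_lit 5) (nat_lit 220) (nat_lit 5) (nat_lit 221) (nat_lit 5) (nat_lit 640) (nat_lit 573) (nat_lit 347)) (XT.nd (nat_lit 78) (nat_lit 456) (nat_lit 0) (XT.lf (nat_lit 0) (nat_lit 13346867100) (nat_lit 608) (nat_lit 7845468155) (nat_lit 76) (nat_lit 3514547458) (nat_lit 213) (nat_lit 5) (nat_lit 221) (nat_lit 5) (nat_lit 214) (nat_lit 5) (nat_lit 641) (nat_lit 573) (nat_lit 346)) (XT.lf (nat_lit 0) (nat_lit 6499254722) (nat_lit 456) (nat_lit 11791898484) (nat_lit 532) (nat_lit 6713192611) (nat_lit 207) (nat_lit 5) (nat_lit 213) (nat_lit 5) (nat_lit 214) (nat_lit 5) (nat_lit 642) (nat_lit 573) (nat_lit 345))))))))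
noncomputable def xc197 : XT := (XT.nd (nat_lit 76986) (nat_lit 0) (nat_lit 15276) (XT.nd (nat_lit 76206) (nat_lit 0) (nat_lit 21052) (XT.nd (nat_lit 75816) (nat_lit 0) (nat_lit 22572) (XT.nd (nat_lit 156) (nat_lit 456) (nat_lit 0) (XT.nd (nat_lit 78) (nat_lit 608) (nat_lit 0) (XT.lf (nat_lit 0) (nat_lit 21231201245) (nat_lit 456) (nat_lit 2151427608) (nat_lit 532) (nat_lit 1924163705) (nat_lit 207) (nat_lit 5) (nat_lit 213) (nat_lit 5) (nat_lit 214) (nat_lit 5) (nat_lit 643) (nat_lit 573) (nat_lit 344)) (XT.lf (nat_lit 0) (nat_lit 3037835007) (nat_lit 608) (nat_lit 14905630696) (nat_lit 76) (nat_lit 7669118140) (nat_lit 199) (nat_lit 5) (nat_lit 207) (nat_lit 5) (nat_lit 200) (nat_lit 5) (nat_lit 644) (nat_lit 573) (nat_lit 343))) (XT.nd (nat_lit 78) (nat_lit 456) (nat_lit 0) (XT.lf (nat_lit 0) (nat_lit 8110859443) (nat_lit 608) (nat_lit 116714308) (nat_lit 76) (nat_lit 17695912244) (nat_lit 199) (nat_lit 5) (nat_lit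 207) (nat_lit 5) (nat_lit 200) (nat_lit 5) (nat_lit 645) (nat_lit 573) (nat_lit 342)) (XT.lf (nat_lit 0) (nat_lit 13391176109) (nat_lit 532) (nat_lit 11089343226) (nat_lit 76) (nat_lit 1757970637) (nat_lit 193) (nat_lit 5) (nat_lit 200) (nat_lit 5) (nat_lit 194) (nat_lit 5) (nat_lit 646) (nat_lit 573) (nat_lit 341)))) (XT.nd (nat_lit 156) (nat_lit 0) (nat_lit 76) (XT.nd (nat_lit 78) (nat_lit 0) (nat_lit 0) (XT.lf (nat_lit 0) (nat_lit 4154151456) (nat_lit 1748) (nat_lit 962499235) (nat_lit 1748) (nat_lit 962499235) (nat_lit 490) (nat_lit 3) (nat_lit 513) (nat_lit 3) (nat_lit 513) (nat_lit 5) (nat_lit 574) (nat_lit 574) (nat_lit 412)) (XT.lf (nat_lit 76) (nat_lit 4089873899) (nat_lit 0) (nat_lit 4785872550) (nat_lit 1748) (nat_lit 3394375059) (nat_lit 491) (nat_lit 5) (nat_lit 490) (nat_lit 3) (nat_lit 513) (nat_lit 5) (nat_lit 575) (nat_lit 574) (nat_lit 411))) (XT.nd (nat_lit 78) (nat_lit 0) (nat_lit 0) (XT.lf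 (nat_lit 0) (nat_lit 9460533995) (nat_lit 1672) (nat_lit 2144359362) (nat_lit 1748) (nat_lit 779168282) (nat_lit 491) (nat_lit 5) (nat_lit 513) (nat_lit 5) (nat_lit 514) (nat_lit 5) (nat_lit 576) (nat_lit 574) (nat_lit 410)) (XT.nd (nat_lit 78) (nat_lit 0) (nat_lit 0) (XT.lf (nat_lit 76) (nat_lit 4027006733) (nat_lit 0) (nat_lit 6076075791) (nat_lit 1748) (nat_lit 2396278651) (nat_lit 492) (nat_lit 5) (nat_lit 491) (nat_lit 5) (nat_lit 514) (nat_lit 5) (nat_lit 577) (nat_lit 574) (nat_lit 409)) (XT.lf (nat_lit 76) (nat_lit 10344549037) (nat_lit 0) (nat_lit 416737344) (nat_lit 1748) (nat_lit 1855626102) (nat_lit 492) (nat_lit 5) (nat_lit 491) (nat_lit 5) (nat_lit 514) (nat_lit 5) (nat_lit 578) (nat_lit 574) (nat_lit 408)))))) (XT.nd (nat_lit 390) (nat_lit 0) (nat_lit 76) (XT.nd (nat_lit 156) (nat_lit 1672) (nat_lit 0) (XT.nd (nat_lit 78) (nat_lit 0) (nat_lit 0) (XT.lf (nat_lit 76) (nat_lit 4063693004) (nat_lit 0)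 (nat_lit 7418794099) (nat_lit 1748) (nat_lit 1253332891) (nat_lit 493) (nat_lit 5) (nat_lit 492) (nat_lit 5) (nat_lit 515) (nat_lit 5) (nat_lit 579) (nat_lit 574) (nat_lit 407)) (XT.lf (nat_lit 76) (nat_lit 10548061921) (nat_lit 0) (nat_lit 1676896040) (nat_lit 1748) (nat_lit 632012568) (nat_lit 493) (nat_lit 5) (nat_lit 492) (nat_lit 5) (nat_lit 515) (nat_lit 5) (nat_lit 580) (nat_lit 574) (nat_lit 406))) (XT.nd (nat_lit 78) (nat_lit 0) (nat_lit 0) (XT.lf (nat_lit 0) (nat_lit 45529350) (nat_lit 1748) (nat_lit 8776954761) (nat_lit 1824) (nat_lit 4157185106) (nat_lit 470) (nat_lit 5) (nat_lit 493) (nat_lit 5) (nat_lit 494) (nat_lit 5) (nat_lit 581) (nat_lit 574) (nat_lit 405)) (XT.nd (nat_lit 78) (nat_lit 0) (nat_lit 76) (XT.lf (nat_lit 0) (nat_lit 744072278) (nat_lit 1748) (nat_lit 2250678932) (nat_lit 1824) (nat_lit 10109670554) (nat_lit 470) (nat_lit 5) (nat_lit 493) (nat_lit 5) (nat_lit 494) (nat_lit 5) (nat_lit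 582) (nat_lit 574) (nat_lit 404)) (XT.lf (nat_lit 0) (nat_lit 1494314101) (nat_lit 1748) (nat_lit 8792592548) (nat_lit 1824) (nat_lit 2944009812) (nat_lit 471) (nat_lit 5) (nat_lit 494) (nat_lit 5) (nat_lit 495) (nat_lit 5) (nat_lit 583) (nat_lit 574) (nat_lit 403))))) (XT.nd (nat_lit 156) (nat_lit 0) (nat_lit 76) (XT.nd (nat_lit 78) (nat_lit 0) (nat_lit 76) (XT.lf (nat_lit 0) (nat_lit 2284202765) (nat_lit 1748) (nat_lit 2094660437) (nat_lit 1824) (nat_lit 8980586637) (nat_lit 471) (nat_lit 5) (nat_lit 494) (nat_lit 5) (nat_lit 495) (nat_lit 5) (nat_lit 584) (nat_lit 574) (nat_lit 402)) (XT.lf (nat_lit 0) (nat_lit 3121746938) (nat_lit 1748) (nat_lit 8707536343) (nat_lit 1824) (nat_lit 1660635043) (nat_lit 472) (nat_lit 5) (nat_lit 495) (nat_lit 5) (nat_lit 496) (nat_lit 5) (nat_lit 585) (nat_lit 574) (nat_lit 401))) (XT.nd (nat_lit 78) (nat_lit 0) (nat_lit 76) (XT.lf (nat_lit 0) (nat_lit 4009180372) (nat_lit 1748)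 (nat_lit 1833202590) (nat_lit 1824) (nat_lit 7779952014) (nat_lit 472) (nat_lit 5) (nat_lit 495) (nat_lit 5) (nat_lit 496) (nat_lit 5) (nat_lit 586) (nat_lit 574) (nat_lit 400)) (XT.nd (nat_lit 78) (nat_lit 0) (nat_lit 0) (XT.lf (nat_lit 0) (nat_lit 4940536746) (nat_lit 1748) (nat_lit 8518149929) (nat_lit 1824) (nat_lit 298191334) (nat_lit 473) (nat_lit 5) (nat_lit 496) (nat_lit 5) (nat_lit 497) (nat_lit 5) (nat_lit 587) (nat_lit 574) (nat_lit 399)) (XT.lf (nat_lit 0) (nat_lit 5931950697) (nat_lit 1748) (nat_lit 1462484801) (nat_lit 1824) (nat_lit 6498849298) (nat_lit 473) (nat_lit 5) (nat_lit 496) (nat_lit 5) (nat_lit 497) (nat_lit 5) (nat_lit 588) (nat_lit 574) (nat_lit 398))))))) (XT.nd (nat_lit 702) (nat_lit 4484) (nat_lit 0) (XT.nd (nat_lit 312) (nat_lit 1520) (nat_lit 0) (XT.nd (nat_lit 156) (nat_lit 0) (nat_lit 76) (XT.nd (nat_lit 78) (nat_lit 0) (nat_lit 76) (XT.lf (nat_lit 76) (nat_lit 5803750969) (nat_lit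 0) (nat_lit 1167668806) (nat_lit 1824) (nat_lit 7060436881) (nat_lit 474) (nat_lit 5) (nat_lit 473) (nat_lit 5) (nat_lit 497) (nat_lit 5) (nat_lit 589) (nat_lit 574) (nat_lit 397)) (XT.lf (nat_lit 0) (nat_lit 8065917847) (nat_lit 1748) (nat_lit 978409715) (nat_lit 1824) (nat_lit 5128189043) (nat_lit 474) (nat_lit 5) (nat_lit 497) (nat_lit 5) (nat_lit 498) (nat_lit 5) (nat_lit 590) (nat_lit 574) (nat_lit 396))) (XT.nd (nat_lit 78) (nat_lit 0) (nat_lit 76) (XT.lf (nat_lit 76) (nat_lit 6486937083) (nat_lit 0) (nat_lit 2736106447) (nat_lit 1824) (nat_lit 5092132887) (nat_lit 475) (nat_lit 5) (nat_lit 474) (nat_lit 5) (nat_lit 498) (nat_lit 5) (nat_lit 591) (nat_lit 574) (nat_lit 395)) (XT.lf (nat_lit 0) (nat_lit 10424970478) (nat_lit 1748) (nat_lit 376599478) (nat_lit 1824) (nat_lit 3658687683) (nat_lit 475) (nat_lit 5) (nat_lit 498) (nat_lit 5) (nat_lit 499) (nat_lit 5) (nat_lit 592) (nat_lit 574) (nat_lit 394))))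 (XT.nd (nat_lit 156) (nat_lit 1672) (nat_lit 0) (XT.nd (nat_lit 78) (nat_lit 0) (nat_lit 76) (XT.lf (nat_lit 76) (nat_lit 7294921966) (nat_lit 0) (nat_lit 4412711050) (nat_lit 1824) (nat_lit 2899474889) (nat_lit 476) (nat_lit 5) (nat_lit 475) (nat_lit 5) (nat_lit 499) (nat_lit 5) (nat_lit 593) (nat_lit 574) (nat_lit 393)) (XT.lf (nat_lit 76) (nat_lit 352227994) (nat_lit 0) (nat_lit 12673567364) (nat_lit 1824) (nat_lit 1730904223) (nat_lit 477) (nat_lit 5) (nat_lit 476) (nat_lit 5) (nat_lit 500) (nat_lit 5) (nat_lit 594) (nat_lit 574) (nat_lit 392))) (XT.nd (nat_lit 78) (nat_lit 1748) (nat_lit 0) (XT.lf (nat_lit 76) (nat_lit 8232633422) (nat_lit 0) (nat_lit 6207268118) (nat_lit 1824) (nat_lit 467991247) (nat_lit 477) (nat_lit 5) (nat_lit 476) (nat_lit 5) (nat_lit 500) (nat_lit 5) (nat_lit 595) (nat_lit 574) (nat_lit 391)) (XT.nd (nat_lit 78) (nat_lit 0) (nat_lit 0) (XT.lf (nat_lit 0) (nat_lit 811505281) (nat_lit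 1824) (nat_lit 13852306297) (nat_lit 1900) (nat_lit 398151392) (nat_lit 453) (nat_lit 5) (nat_lit 477) (nat_lit 5) (nat_lit 478) (nat_lit 5) (nat_lit 596) (nat_lit 574) (nat_lit 390)) (XT.lf (nat_lit 0) (nat_lit 2188252709) (nat_lit 1824) (nat_lit 5926882186) (nat_lit 1900) (nat_lit 7102360479) (nat_lit 453) (nat_lit 5) (nat_lit 477) (nat_lit 5) (nat_lit 478) (nat_lit 5) (nat_lit 597) (nat_lit 574) (nat_lit 389)))))) (XT.nd (nat_lit 390) (nat_lit 1900) (nat_lit 0) (XT.nd (nat_lit 156) (nat_lit 2584) (nat_lit 0) (XT.nd (nat_lit 78) (nat_lit 0) (nat_lit 76) (XT.lf (nat_lit 76) (nat_lit 2178846187) (nat_lit 0) (nat_lit 1419720335) (nat_lit 1900) (nat_lit 11777452484) (nat_lit 454) (nat_lit 5) (nat_lit 453) (nat_lit 5) (nat_lit 478) (nat_lit 5) (nat_lit 598) (nat_lit 574) (nat_lit 388)) (XT.lf (nat_lit 0) (nat_lit 5104253752) (nat_lit 1824) (nat_lit 5052179166) (nat_lit 76) (nat_lit 5379938036) (nat_lit 454) (nat_lit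 5) (nat_lit 478) (nat_lit 5) (nat_lit 455) (nat_lit 5) (nat_lit 599) (nat_lit 574) (nat_lit 387))) (XT.nd (nat_lit 78) (nat_lit 988) (nat_lit 0) (XT.lf (nat_lit 0) (nat_lit 3282594488) (nat_lit 1672) (nat_lit 3380340352) (nat_lit 1748) (nat_lit 9036538660) (nat_lit 432) (nat_lit 5) (nat_lit 454) (nat_lit 5) (nat_lit 455) (nat_lit 5) (nat_lit 600) (nat_lit 574) (nat_lit 386)) (XT.nd (nat_lit 78) (nat_lit 988) (nat_lit 0) (XT.lf (nat_lit 0) (nat_lit 8302125891) (nat_lit 1748) (nat_lit 4042651861) (nat_lit 76) (nat_lit 3520074756) (nat_lit 432) (nat_lit 5) (nat_lit 455) (nat_lit 5) (nat_lit 433) (nat_lit 5) (nat_lit 601) (nat_lit 574) (nat_lit 385)) (XT.lf (nat_lit 0) (nat_lit 4529324258) (nat_lit 988) (nat_lit 5489003247) (nat_lit 1064) (nat_lit 6014328174) (nat_lit 419) (nat_lit 5) (nat_lit 432) (nat_lit 5) (nat_lit 433) (nat_lit 5) (nat_lit 602) (nat_lit 574) (nat_lit 384))))) (XT.nd (nat_lit 156) (nat_lit 988)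 (nat_lit 0) (XT.nd (nat_lit 78) (nat_lit 912) (nat_lit 0) (XT.lf (nat_lit 0) (nat_lit 11798468087) (nat_lit 1064) (nat_lit 2892540057) (nat_lit 76) (nat_lit 1512215567) (nat_lit 419) (nat_lit 5) (nat_lit 433) (nat_lit 5) (nat_lit 420) (nat_lit 5) (nat_lit 603) (nat_lit 574) (nat_lit 383)) (XT.lf (nat_lit 0) (nat_lit 5925096461) (nat_lit 912) (nat_lit 7756624635) (nat_lit 988) (nat_lit 2694132888) (nat_lit 407) (nat_lit 5) (nat_lit 419) (nat_lit 5) (nat_lit 420) (nat_lit 5) (nat_lit 604) (nat_lit 574) (nat_lit 382))) (XT.nd (nat_lit 78) (nat_lit 988) (nat_lit 0) (XT.lf (nat_lit 0) (nat_lit 14951610753) (nat_lit 912) (nat_lit 663227781) (nat_lit 988) (nat_lit 936855393) (nat_lit 407) (nat_lit 5) (nat_lit 419) (nat_lit 5) (nat_lit 420) (nat_lit 5) (nat_lit 605) (nat_lit 574) (nat_lit 381)) (XT.nd (nat_lit 78) (nat_lit 0) (nat_lit 0) (XT.lf (nat_lit 0) (nat_lit 929047658) (nat_lit 988) (nat_lit 9259192273) (nat_lit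 76) (nat_lit 6541006633) (nat_lit 394) (nat_lit 5) (nat_lit 407) (nat_lit 5) (nat_lit 395) (nat_lit 5) (nat_lit 606) (nat_lit 574) (nat_lit 380)) (XT.lf (nat_lit 0) (nat_lit 2827918585) (nat_lit 988) (nat_lit 184268143) (nat_lit 76) (nat_lit 13897876779) (nat_lit 394) (nat_lit 5) (nat_lit 407) (nat_lit 5) (nat_lit 395) (nat_lit 5) (nat_lit 607) (nat_lit 574) (nat_lit 379))))))))
noncomputable def xc198 : XT := (XT.nd (nat_lit 1482) (nat_lit 6460) (nat_lit 0) (XT.nd (nat_lit 702) (nat_lit 4256) (nat_lit 0) (XT.nd (nat_lit 312) (nat_lit 1672) (nat_lit 0) (XT.nd (nat_lit 156) (nat_lit 760) (nat_lit 0) (XT.nd (nat_lit 78) (nat_lit 836) (nat_lit 0) (XT.lf (nat_lit 0) (nat_lit 4845891182) (nat_lit 912) (nat_lit 7935791625) (nat_lit 76) (nat_lit 4311192469) (nat_lit 383) (nat_lit 5) (nat_lit 395) (nat_lit 5) (nat_lit 384) (nat_lit 5) (nat_lit 608) (nat_lit 574) (nat_lit 378)) (XT.lf (nat_lit 0) (nat_lit 1400137080) (nat_lit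 836) (nat_lit 5527582830) (nat_lit 912) (nat_lit 10351154391) (nat_lit 372) (nat_lit 5) (nat_lit 383) (nat_lit 5) (nat_lit 384) (nat_lit 5) (nat_lit 609) (nat_lit 574) (nat_lit 377))) (XT.nd (nat_lit 78) (nat_lit 760) (nat_lit 0) (XT.lf (nat_lit 0) (nat_lit 9110245950) (nat_lit 912) (nat_lit 6456478647) (nat_lit 76) (nat_lit 1900688428) (nat_lit 372) (nat_lit 5) (nat_lit 384) (nat_lit 5) (nat_lit 373) (nat_lit 5) (nat_lit 610) (nat_lit 574) (nat_lit 376)) (XT.lf (nat_lit 0) (nat_lit 3152292672) (nat_lit 760) (nat_lit 8234637499) (nat_lit 836) (nat_lit 6271783116) (nat_lit 362) (nat_lit 5) (nat_lit 372) (nat_lit 5) (nat_lit 373) (nat_lit 5) (nat_lit 611) (nat_lit 574) (nat_lit 375)))) (XT.nd (nat_lit 156) (nat_lit 836) (nat_lit 0) (XT.nd (nat_lit 78) (nat_lit 836) (nat_lit 0) (XT.lf (nat_lit 0) (nat_lit 13034133757) (nat_lit 760) (nat_lit 711860790) (nat_lit 836) (nat_lit 4107108976) (nat_lit 362) (nat_lit 5) (nat_lit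 372) (nat_lit 5) (nat_lit 373) (nat_lit 5) (nat_lit 612) (nat_lit 574) (nat_lit 374)) (XT.lf (nat_lit 0) (nat_lit 5076995931) (nat_lit 836) (nat_lit 11147051581) (nat_lit 912) (nat_lit 1825898787) (nat_lit 351) (nat_lit 5) (nat_lit 362) (nat_lit 5) (nat_lit 363) (nat_lit 5) (nat_lit 613) (nat_lit 574) (nat_lit 373))) (XT.nd (nat_lit 78) (nat_lit 760) (nat_lit 0) (XT.lf (nat_lit 0) (nat_lit 525317753) (nat_lit 912) (nat_lit 3028719937) (nat_lit 76) (nat_lit 14696004997) (nat_lit 350) (nat_lit 5) (nat_lit 362) (nat_lit 5) (nat_lit 351) (nat_lit 5) (nat_lit 614) (nat_lit 574) (nat_lit 372)) (XT.nd (nat_lit 78) (nat_lit 0) (nat_lit 0) (XT.lf (nat_lit 0) (nat_lit 2967221629) (nat_lit 836) (nat_lit 11290617328) (nat_lit 76) (nat_lit 4194699258) (nat_lit 340) (nat_lit 5) (nat_lit 351) (nat_lit 5) (nat_lit 341) (nat_lit 5) (nat_lit 615) (nat_lit 574) (nat_lit 371)) (XT.lf (nat_lit 0) (nat_lit 5495845477) (nat_lit 836)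 (nat_lit 1091529001) (nat_lit 76) (nat_lit 12070952351) (nat_lit 340) (nat_lit 5) (nat_lit 351) (nat_lit 5) (nat_lit 341) (nat_lit 5) (nat_lit 616) (nat_lit 574) (nat_lit 370)))))) (XT.nd (nat_lit 390) (nat_lit 1976) (nat_lit 0) (XT.nd (nat_lit 156) (nat_lit 836) (nat_lit 0) (XT.nd (nat_lit 78) (nat_lit 684) (nat_lit 0) (XT.lf (nat_lit 0) (nat_lit 8138695926) (nat_lit 836) (nat_lit 9446838094) (nat_lit 76) (nat_lit 1281424909) (nat_lit 330) (nat_lit 5) (nat_lit 341) (nat_lit 5) (nat_lit 331) (nat_lit 5) (nat_lit 617) (nat_lit 574) (nat_lit 369)) (XT.lf (nat_lit 0) (nat_lit 1040602936) (nat_lit 684) (nat_lit 9845633517) (nat_lit 760) (nat_lit 8192491340) (nat_lit 321) (nat_lit 5) (nat_lit 330) (nat_lit 5) (nat_lit 331) (nat_lit 5) (nat_lit 618) (nat_lit 574) (nat_lit 368))) (XT.nd (nat_lit 78) (nat_lit 836) (nat_lit 0) (XT.lf (nat_lit 0) (nat_lit 11859336570) (nat_lit 684) (nat_lit 1886936857) (nat_lit 760) (nat_lit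 5547308460) (nat_lit 321) (nat_lit 5) (nat_lit 330) (nat_lit 5) (nat_lit 331) (nat_lit 5) (nat_lit 619) (nat_lit 574) (nat_lit 367)) (XT.nd (nat_lit 78) (nat_lit 76) (nat_lit 0) (XT.lf (nat_lit 0) (nat_lit 3379079568) (nat_lit 760) (nat_lit 13341088974) (nat_lit 836) (nat_lit 2791432125) (nat_lit 311) (nat_lit 5) (nat_lit 321) (nat_lit 5) (nat_lit 322) (nat_lit 5) (nat_lit 620) (nat_lit 574) (nat_lit 366)) (XT.lf (nat_lit 0) (nat_lit 76314704) (nat_lit 836) (nat_lit 5243019563) (nat_lit 76) (nat_lit 14413503548) (nat_lit 310) (nat_lit 5) (nat_lit 321) (nat_lit 5) (nat_lit 311) (nat_lit 5) (nat_lit 621) (nat_lit 574) (nat_lit 365))))) (XT.nd (nat_lit 156) (nat_lit 1292) (nat_lit 0) (XT.nd (nat_lit 78) (nat_lit 0) (nat_lit 0) (XT.lf (nat_lit 0) (nat_lit 3015857338) (nat_lit 760) (nat_lit 14059445245) (nat_lit 76) (nat_lit 2881792440) (nat_lit 301) (nat_lit 5) (nat_lit 311) (nat_lit 5) (nat_lit 302) (nat_lit 5) (nat_lit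 622) (nat_lit 574) (nat_lit 364)) (XT.lf (nat_lit 0) (nat_lit 6079304638) (nat_lit 760) (nat_lit 2894854680) (nat_lit 76) (nat_lit 11210376476) (nat_lit 301) (nat_lit 5) (nat_lit 311) (nat_lit 5) (nat_lit 302) (nat_lit 5) (nat_lit 623) (nat_lit 574) (nat_lit 363))) (XT.nd (nat_lit 78) (nat_lit 608) (nat_lit 0) (XT.lf (nat_lit 0) (nat_lit 8599474477) (nat_lit 684) (nat_lit 654958338) (nat_lit 760) (nat_lit 11161085008) (nat_lit 292) (nat_lit 5) (nat_lit 301) (nat_lit 5) (nat_lit 302) (nat_lit 5) (nat_lit 624) (nat_lit 574) (nat_lit 362)) (XT.nd (nat_lit 78) (nat_lit 608) (nat_lit 0) (XT.lf (nat_lit 0) (nat_lit 12558097602) (nat_lit 760) (nat_lit 345167384) (nat_lit 76) (nat_lit 7746554492) (nat_lit 292) (nat_lit 5) (nat_lit 302) (nat_lit 5) (nat_lit 293) (nat_lit 5) (nat_lit 625) (nat_lit 574) (nat_lit 361)) (XT.lf (nat_lit 0) (nat_lit 11495279841) (nat_lit 608) (nat_lit 4506271215) (nat_lit 684) (nat_lit 4885782458)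 (nat_lit 284) (nat_lit 5) (nat_lit 292) (nat_lit 5) (nat_lit 293) (nat_lit 5) (nat_lit 626) (nat_lit 574) (nat_lit 360))))))) (XT.nd (nat_lit 702) (nat_lit 3268) (nat_lit 0) (XT.nd (nat_lit 312) (nat_lit 1824) (nat_lit 0) (XT.nd (nat_lit 156) (nat_lit 608) (nat_lit 0) (XT.nd (nat_lit 78) (nat_lit 76) (nat_lit 0) (XT.lf (nat_lit 0) (nat_lit 2447062140) (nat_lit 684) (nat_lit 17106181336) (nat_lit 760) (nat_lit 1575567598) (nat_lit 275) (nat_lit 5) (nat_lit 284) (nat_lit 5) (nat_lit 285) (nat_lit 5) (nat_lit 627) (nat_lit 574) (nat_lit 359)) (XT.lf (nat_lit 0) (nat_lit 1865344263) (nat_lit 760) (nat_lit 6771893957) (nat_lit 76) (nat_lit 12735884511) (nat_lit 274) (nat_lit 5) (nat_lit 284) (nat_lit 5) (nat_lit 275) (nat_lit 5) (nat_lit 628) (nat_lit 574) (nat_lit 358))) (XT.nd (nat_lit 78) (nat_lit 0) (nat_lit 0) (XT.lf (nat_lit 0) (nat_lit 5384485977) (nat_lit 684) (nat_lit 16191093326) (nat_lit 76) (nat_lit 45923463)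 (nat_lit 266) (nat_lit 5) (nat_lit 275) (nat_lit 5) (nat_lit 267) (nat_lit 5) (nat_lit 629) (nat_lit 574) (nat_lit 357)) (XT.lf (nat_lit 0) (nat_lit 9071933140) (nat_lit 684) (nat_lit 3969172395) (nat_lit 76) (nat_lit 8831787008) (nat_lit 266) (nat_lit 5) (nat_lit 275) (nat_lit 5) (nat_lit 267) (nat_lit 5) (nat_lit 630) (nat_lit 574) (nat_lit 356)))) (XT.nd (nat_lit 156) (nat_lit 1216) (nat_lit 0) (XT.nd (nat_lit 78) (nat_lit 0) (nat_lit 0) (XT.lf (nat_lit 0) (nat_lit 8603868069) (nat_lit 608) (nat_lit 4280200098) (nat_lit 684) (nat_lit 9244223750) (nat_lit 258) (nat_lit 5) (nat_lit 266) (nat_lit 5) (nat_lit 267) (nat_lit 5) (nat_lit 631) (nat_lit 574) (nat_lit 355)) (XT.lf (nat_lit 0) (nat_lit 16824612434) (nat_lit 684) (nat_lit 942709182) (nat_lit 76) (nat_lit 4620434903) (nat_lit 258) (nat_lit 5) (nat_lit 267) (nat_lit 5) (nat_lit 259) (nat_lit 5) (nat_lit 632) (nat_lit 574) (nat_lit 354))) (XT.nd (nat_lit 78)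 (nat_lit 684) (nat_lit 0) (XT.lf (nat_lit 0) (nat_lit 12013769187) (nat_lit 532) (nat_lit 8931766595) (nat_lit 608) (nat_lit 1704843825) (nat_lit 251) (nat_lit 5) (nat_lit 258) (nat_lit 5) (nat_lit 259) (nat_lit 5) (nat_lit 633) (nat_lit 574) (nat_lit 353)) (XT.nd (nat_lit 78) (nat_lit 0) (nat_lit 0) (XT.lf (nat_lit 0) (nat_lit 2218885335) (nat_lit 684) (nat_lit 20584380918) (nat_lit 76) (nat_lit 114349427) (nat_lit 242) (nat_lit 5) (nat_lit 251) (nat_lit 5) (nat_lit 243) (nat_lit 5) (nat_lit 634) (nat_lit 574) (nat_lit 352)) (XT.lf (nat_lit 0) (nat_lit 6324571991) (nat_lit 684) (nat_lit 7559180668) (nat_lit 76) (nat_lit 9303692748) (nat_lit 242) (nat_lit 5) (nat_lit 251) (nat_lit 5) (nat_lit 243) (nat_lit 5) (nat_lit 635) (nat_lit 574) (nat_lit 351)))))) (XT.nd (nat_lit 390) (nat_lit 1596) (nat_lit 0) (XT.nd (nat_lit 156) (nat_lit 1140) (nat_lit 0) (XT.nd (nat_lit 78) (nat_lit 0) (nat_lit 0) (XT.lf (nat_lit 0)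 (nat_lit 5796509762) (nat_lit 532) (nat_lit 4748878490) (nat_lit 608) (nat_lit 12916623675) (nat_lit 235) (nat_lit 5) (nat_lit 242) (nat_lit 5) (nat_lit 243) (nat_lit 5) (nat_lit 636) (nat_lit 574) (nat_lit 350)) (XT.lf (nat_lit 0) (nat_lit 14926769282) (nat_lit 608) (nat_lit 4255352446) (nat_lit 76) (nat_lit 4558425585) (nat_lit 235) (nat_lit 5) (nat_lit 243) (nat_lit 5) (nat_lit 236) (nat_lit 5) (nat_lit 637) (nat_lit 574) (nat_lit 349))) (XT.nd (nat_lit 78) (nat_lit 608) (nat_lit 0) (XT.lf (nat_lit 0) (nat_lit 9510320545) (nat_lit 532) (nat_lit 9974167402) (nat_lit 608) (nat_lit 4538391757) (nat_lit 228) (nat_lit 5) (nat_lit 235) (nat_lit 5) (nat_lit 236) (nat_lit 5) (nat_lit 638) (nat_lit 574) (nat_lit 348)) (XT.nd (nat_lit 78) (nat_lit 608) (nat_lit 0) (XT.lf (nat_lit 0) (nat_lit 23603068869) (nat_lit 532) (nat_lit 554410485) (nat_lit 608) (nat_lit 152897506) (nat_lit 228) (nat_lit 5) (nat_lit 235) (nat_lit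 5) (nat_lit 236) (nat_lit 5) (nat_lit 639) (nat_lit 574) (nat_lit 347)) (XT.lf (nat_lit 0) (nat_lit 4406569761) (nat_lit 608) (nat_lit 11143517837) (nat_lit 76) (nat_lit 9050117329) (nat_lit 220) (nat_lit 5) (nat_lit 228) (nat_lit 5) (nat_lit 221) (nat_lit 5) (nat_lit 640) (nat_lit 574) (nat_lit 346))))) (XT.nd (nat_lit 156) (nat_lit 1064) (nat_lit 0) (XT.nd (nat_lit 78) (nat_lit 0) (nat_lit 0) (XT.lf (nat_lit 0) (nat_lit 3047161724) (nat_lit 532) (nat_lit 6031911699) (nat_lit 608) (nat_lit 15816258490) (nat_lit 213) (nat_lit 5) (nat_lit 220) (nat_lit 5) (nat_lit 221) (nat_lit 5) (nat_lit 641) (nat_lit 574) (nat_lit 345)) (XT.lf (nat_lit 0) (nat_lit 13939868030) (nat_lit 608) (nat_lit 7552463266) (nat_lit 76) (nat_lit 3702133774) (nat_lit 213) (nat_lit 5) (nat_lit 221) (nat_lit 5) (nat_lit 214) (nat_lit 5) (nat_lit 642) (nat_lit 574) (nat_lit 344))) (XT.nd (nat_lit 78) (nat_lit 608) (nat_lit 0) (XT.lf (nat_lit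 0) (nat_lit 7076194106) (nat_lit 456) (nat_lit 11903354273) (nat_lit 532) (nat_lit 6518399555) (nat_lit 207) (nat_lit 5) (nat_lit 213) (nat_lit 5) (nat_lit 214) (nat_lit 5) (nat_lit 643) (nat_lit 574) (nat_lit 343)) (XT.nd (nat_lit 78) (nat_lit 608) (nat_lit 0) (XT.lf (nat_lit 0) (nat_lit 22094015750) (nat_lit 456) (nat_lit 2072512845) (nat_lit 532) (nat_lit 1640042167) (nat_lit 207) (nat_lit 5) (nat_lit 213) (nat_lit 5) (nat_lit 214) (nat_lit 5) (nat_lit 644) (nat_lit 574) (nat_lit 342)) (XT.lf (nat_lit 0) (nat_lit 3414385389) (nat_lit 608) (nat_lit 14758678204) (nat_lit 76) (nat_lit 7945424619) (nat_lit 199) (nat_lit 5) (nat_lit 207) (nat_lit 5) (nat_lit 200) (nat_lit 5) (nat_lit 645) (nat_lit 574) (nat_lit 341))))))))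
noncomputable def xc199 : XT := (XT.nd (nat_lit 77064) (nat_lit 0) (nat_lit 13604) (XT.nd (nat_lit 76284) (nat_lit 0) (nat_lit 21052) (XT.nd (nat_lit 75894) (nat_lit 0) (nat_lit 20976) (XT.nd (nat_lit 75738) (nat_lit 0) (nat_lit 22572) (XT.nd (nat_lit 75660) (nat_lit 0) (nat_lit 22572) (XT.lf (nat_lit 0) (nat_lit 321506357) (nat_lit 456) (nat_lit 8263259356) (nat_lit 532) (nat_lit 17850925403) (nat_lit 193) (nat_lit 5) (nat_lit 199) (nat_lit 5) (nat_lit 200) (nat_lit 5) (nat_lit 646) (nat_lit 574) (nat_lit 340)) (XT.lf (nat_lit 0) (nat_lit 4692068437) (nat_lit 1748) (nat_lit 749747079) (nat_lit 1748) (nat_lit 749747079) (nat_lit 490) (nat_lit 3) (nat_lit 513) (nat_lit 3) (nat_lit 513) (nat_lit 5) (nat_lit 575) (nat_lit 575) (nat_lit 410))) (XT.nd (nat_lit 78) (nat_lit 0) (nat_lit 76) (XT.lf (nat_lit 76) (nat_lit 4632622999) (nat_lit 0) (nat_lit 5315462461) (nat_lit 1748) (nat_lit 2549397583) (nat_lit 491) (nat_lit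 5) (nat_lit 490) (nat_lit 3) (nat_lit 513) (nat_lit 5) (nat_lit 576) (nat_lit 575) (nat_lit 409)) (XT.lf (nat_lit 0) (nat_lit 10524261434) (nat_lit 1672) (nat_lit 1714884290) (nat_lit 1748) (nat_lit 374965231) (nat_lit 491) (nat_lit 5) (nat_lit 513) (nat_lit 5) (nat_lit 514) (nat_lit 5) (nat_lit 577) (nat_lit 575) (nat_lit 408)))) (XT.nd (nat_lit 156) (nat_lit 1672) (nat_lit 0) (XT.nd (nat_lit 78) (nat_lit 0) (nat_lit 0) (XT.lf (nat_lit 76) (nat_lit 4576801481) (nat_lit 0) (nat_lit 6588758778) (nat_lit 1748) (nat_lit 1566441013) (nat_lit 492) (nat_lit 5) (nat_lit 491) (nat_lit 5) (nat_lit 514) (nat_lit 5) (nat_lit 578) (nat_lit 575) (nat_lit 407)) (XT.lf (nat_lit 76) (nat_lit 11011493560) (nat_lit 0) (nat_lit 808563730) (nat_lit 1748) (nat_lit 1032186456) (nat_lit 492) (nat_lit 5) (nat_lit 491) (nat_lit 5) (nat_lit 514) (nat_lit 5) (nat_lit 579) (nat_lit 575) (nat_lit 406))) (XT.nd (nat_lit 78) (nat_lit 1748) (nat_lit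 0) (XT.lf (nat_lit 76) (nat_lit 4621362339) (nat_lit 0) (nat_lit 7918431600) (nat_lit 1748) (nat_lit 434055898) (nat_lit 493) (nat_lit 5) (nat_lit 492) (nat_lit 5) (nat_lit 515) (nat_lit 5) (nat_lit 580) (nat_lit 575) (nat_lit 405)) (XT.nd (nat_lit 78) (nat_lit 0) (nat_lit 76) (XT.lf (nat_lit 0) (nat_lit 180733223) (nat_lit 1748) (nat_lit 1872862058) (nat_lit 1824) (nat_lit 11044131508) (nat_lit 469) (nat_lit 5) (nat_lit 492) (nat_lit 5) (nat_lit 493) (nat_lit 5) (nat_lit 581) (nat_lit 575) (nat_lit 404)) (XT.lf (nat_lit 0) (nat_lit 848299561) (nat_lit 1748) (nat_lit 8459257245) (nat_lit 1824) (nat_lit 3915542883) (nat_lit 470) (nat_lit 5) (nat_lit 493) (nat_lit 5) (nat_lit 494) (nat_lit 5) (nat_lit 582) (nat_lit 575) (nat_lit 403)))))) (XT.nd (nat_lit 390) (nat_lit 0) (nat_lit 228) (XT.nd (nat_lit 156) (nat_lit 0) (nat_lit 76) (XT.nd (nat_lit 78) (nat_lit 0) (nat_lit 76) (XT.lf (nat_lit 0) (nat_lit 1545090609)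 (nat_lit 1748) (nat_lit 1812127206) (nat_lit 1824) (nat_lit 9993446392) (nat_lit 470) (nat_lit 5) (nat_lit 493) (nat_lit 5) (nat_lit 494) (nat_lit 5) (nat_lit 583) (nat_lit 575) (nat_lit 402)) (XT.lf (nat_lit 0) (nat_lit 2296136471) (nat_lit 1748) (nat_lit 8470557457) (nat_lit 1824) (nat_lit 2713281301) (nat_lit 471) (nat_lit 5) (nat_lit 494) (nat_lit 5) (nat_lit 495) (nat_lit 5) (nat_lit 584) (nat_lit 575) (nat_lit 401))) (XT.nd (nat_lit 78) (nat_lit 0) (nat_lit 76) (XT.lf (nat_lit 0) (nat_lit 3086686906) (nat_lit 1748) (nat_lit 1648429193) (nat_lit 1824) (nat_lit 8876268265) (nat_lit 471) (nat_lit 5) (nat_lit 494) (nat_lit 5) (nat_lit 495) (nat_lit 5) (nat_lit 585) (nat_lit 575) (nat_lit 400)) (XT.nd (nat_lit 78) (nat_lit 0) (nat_lit 0) (XT.lf (nat_lit 0) (nat_lit 3927601758) (nat_lit 1748) (nat_lit 8380066265) (nat_lit 1824) (nat_lit 1437064124) (nat_lit 472) (nat_lit 5) (nat_lit 495) (nat_lit 5) (nat_lit 496)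 (nat_lit 5) (nat_lit 586) (nat_lit 575) (nat_lit 399)) (XT.lf (nat_lit 0) (nat_lit 4818206999) (nat_lit 1748) (nat_lit 1378081540) (nat_lit 1824) (nat_lit 7683802407) (nat_lit 472) (nat_lit 5) (nat_lit 495) (nat_lit 5) (nat_lit 496) (nat_lit 5) (nat_lit 587) (nat_lit 575) (nat_lit 398))))) (XT.nd (nat_lit 156) (nat_lit 0) (nat_lit 0) (XT.nd (nat_lit 78) (nat_lit 0) (nat_lit 0) (XT.lf (nat_lit 0) (nat_lit 5755583498) (nat_lit 1748) (nat_lit 8184009186) (nat_lit 1824) (nat_lit 77986528) (nat_lit 473) (nat_lit 5) (nat_lit 496) (nat_lit 5) (nat_lit 497) (nat_lit 5) (nat_lit 588) (nat_lit 575) (nat_lit 397)) (XT.lf (nat_lit 0) (nat_lit 6752781884) (nat_lit 1748) (nat_lit 997122986) (nat_lit 1824) (nat_lit 6407092330) (nat_lit 473) (nat_lit 5) (nat_lit 496) (nat_lit 5) (nat_lit 497) (nat_lit 5) (nat_lit 589) (nat_lit 575) (nat_lit 396))) (XT.nd (nat_lit 78) (nat_lit 0) (nat_lit 76) (XT.lf (nat_lit 76) (nat_lit 6411183476)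 (nat_lit 0) (nat_lit 1391278613) (nat_lit 1824) (nat_lit 6496092120) (nat_lit 474) (nat_lit 5) (nat_lit 473) (nat_lit 5) (nat_lit 497) (nat_lit 5) (nat_lit 590) (nat_lit 575) (nat_lit 395)) (XT.nd (nat_lit 78) (nat_lit 0) (nat_lit 0) (XT.lf (nat_lit 0) (nat_lit 8904014362) (nat_lit 1748) (nat_lit 501313924) (nat_lit 1824) (nat_lit 5036997891) (nat_lit 474) (nat_lit 5) (nat_lit 497) (nat_lit 5) (nat_lit 498) (nat_lit 5) (nat_lit 591) (nat_lit 575) (nat_lit 394)) (XT.lf (nat_lit 76) (nat_lit 7110072283) (nat_lit 0) (nat_lit 2964143573) (nat_lit 1824) (nat_lit 4513826726) (nat_lit 475) (nat_lit 5) (nat_lit 474) (nat_lit 5) (nat_lit 498) (nat_lit 5) (nat_lit 592) (nat_lit 575) (nat_lit 393))))))) (XT.nd (nat_lit 702) (nat_lit 4560) (nat_lit 0) (XT.nd (nat_lit 312) (nat_lit 1520) (nat_lit 0) (XT.nd (nat_lit 156) (nat_lit 1748) (nat_lit 0) (XT.nd (nat_lit 78) (nat_lit 0) (nat_lit 0) (XT.lf (nat_lit 76) (nat_lit 115380888)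 (nat_lit 0) (nat_lit 11171373598) (nat_lit 1824) (nat_lit 3449541502) (nat_lit 476) (nat_lit 5) (nat_lit 475) (nat_lit 5) (nat_lit 499) (nat_lit 5) (nat_lit 593) (nat_lit 575) (nat_lit 392)) (XT.lf (nat_lit 76) (nat_lit 7935543211) (nat_lit 0) (nat_lit 4649195191) (nat_lit 1824) (nat_lit 2301553477) (nat_lit 476) (nat_lit 5) (nat_lit 475) (nat_lit 5) (nat_lit 499) (nat_lit 5) (nat_lit 594) (nat_lit 575) (nat_lit 391))) (XT.nd (nat_lit 78) (nat_lit 1824) (nat_lit 0) (XT.lf (nat_lit 76) (nat_lit 864569613) (nat_lit 0) (nat_lit 13054424649) (nat_lit 1824) (nat_lit 1120088465) (nat_lit 477) (nat_lit 5) (nat_lit 476) (nat_lit 5) (nat_lit 500) (nat_lit 5) (nat_lit 595) (nat_lit 575) (nat_lit 390)) (XT.lf (nat_lit 0) (nat_lit 153388748) (nat_lit 1824) (nat_lit 6301883587) (nat_lit 1900) (nat_lit 8738257296) (nat_lit 452) (nat_lit 5) (nat_lit 476) (nat_lit 5) (nat_lit 477) (nat_lit 5) (nat_lit 596) (nat_lit 575) (nat_lit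 389)))) (XT.nd (nat_lit 156) (nat_lit 1596) (nat_lit 0) (XT.nd (nat_lit 78) (nat_lit 0) (nat_lit 0) (XT.lf (nat_lit 0) (nat_lit 1442472573) (nat_lit 1824) (nat_lit 13615737067) (nat_lit 1900) (nat_lit 292606266) (nat_lit 453) (nat_lit 5) (nat_lit 477) (nat_lit 5) (nat_lit 478) (nat_lit 5) (nat_lit 597) (nat_lit 575) (nat_lit 388)) (XT.lf (nat_lit 0) (nat_lit 2834701279) (nat_lit 1824) (nat_lit 5541875362) (nat_lit 1900) (nat_lit 7133125185) (nat_lit 453) (nat_lit 5) (nat_lit 477) (nat_lit 5) (nat_lit 478) (nat_lit 5) (nat_lit 598) (nat_lit 575) (nat_lit 387))) (XT.nd (nat_lit 78) (nat_lit 1596) (nat_lit 0) (XT.lf (nat_lit 76) (nat_lit 2722654786) (nat_lit 0) (nat_lit 1541997095) (nat_lit 1900) (nat_lit 11406917201) (nat_lit 454) (nat_lit 5) (nat_lit 453) (nat_lit 5) (nat_lit 478) (nat_lit 5) (nat_lit 599) (nat_lit 575) (nat_lit 386)) (XT.nd (nat_lit 78) (nat_lit 1672) (nat_lit 0) (XT.lf (nat_lit 0) (nat_lit 5788205965)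 (nat_lit 1824) (nat_lit 4650466351) (nat_lit 76) (nat_lit 5396702416) (nat_lit 454) (nat_lit 5) (nat_lit 478) (nat_lit 5) (nat_lit 455) (nat_lit 5) (nat_lit 600) (nat_lit 575) (nat_lit 385)) (XT.lf (nat_lit 0) (nat_lit 3847695168) (nat_lit 1672) (nat_lit 3522199100) (nat_lit 1748) (nat_lit 8632010081) (nat_lit 432) (nat_lit 5) (nat_lit 454) (nat_lit 5) (nat_lit 455) (nat_lit 5) (nat_lit 601) (nat_lit 575) (nat_lit 384)))))) (XT.nd (nat_lit 390) (nat_lit 2660) (nat_lit 0) (XT.nd (nat_lit 156) (nat_lit 912) (nat_lit 0) (XT.nd (nat_lit 78) (nat_lit 988) (nat_lit 0) (XT.lf (nat_lit 0) (nat_lit 9030147467) (nat_lit 1748) (nat_lit 3622044600) (nat_lit 76) (nat_lit 3518634963) (nat_lit 432) (nat_lit 5) (nat_lit 455) (nat_lit 5) (nat_lit 433) (nat_lit 5) (nat_lit 602) (nat_lit 575) (nat_lit 383)) (XT.lf (nat_lit 0) (nat_lit 5118071960) (nat_lit 988) (nat_lit 5654816348) (nat_lit 1064) (nat_lit 5569255279) (nat_lit 419)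 (nat_lit 5) (nat_lit 432) (nat_lit 5) (nat_lit 433) (nat_lit 5) (nat_lit 603) (nat_lit 575) (nat_lit 382))) (XT.nd (nat_lit 78) (nat_lit 912) (nat_lit 0) (XT.lf (nat_lit 0) (nat_lit 12577408478) (nat_lit 1064) (nat_lit 2450694558) (nat_lit 76) (nat_lit 1488246003) (nat_lit 419) (nat_lit 5) (nat_lit 433) (nat_lit 5) (nat_lit 420) (nat_lit 5) (nat_lit 604) (nat_lit 575) (nat_lit 381)) (XT.nd (nat_lit 78) (nat_lit 0) (nat_lit 0) (XT.lf (nat_lit 0) (nat_lit 6540007215) (nat_lit 912) (nat_lit 7950895857) (nat_lit 988) (nat_lit 2201678878) (nat_lit 407) (nat_lit 5) (nat_lit 419) (nat_lit 5) (nat_lit 420) (nat_lit 5) (nat_lit 605) (nat_lit 575) (nat_lit 380)) (XT.lf (nat_lit 0) (nat_lit 15737318287) (nat_lit 912) (nat_lit 714863639) (nat_lit 988) (nat_lit 419968317) (nat_lit 407) (nat_lit 5) (nat_lit 419) (nat_lit 5) (nat_lit 420) (nat_lit 5) (nat_lit 606) (nat_lit 575) (nat_lit 379))))) (XT.nd (nat_lit 156) (nat_lit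 836) (nat_lit 0) (XT.nd (nat_lit 78) (nat_lit 836) (nat_lit 0) (XT.lf (nat_lit 0) (nat_lit 1468847543) (nat_lit 988) (nat_lit 8943146765) (nat_lit 76) (nat_lit 6641339155) (nat_lit 394) (nat_lit 5) (nat_lit 407) (nat_lit 5) (nat_lit 395) (nat_lit 5) (nat_lit 607) (nat_lit 575) (nat_lit 378)) (XT.lf (nat_lit 0) (nat_lit 307480482) (nat_lit 836) (nat_lit 3089991793) (nat_lit 912) (nat_lit 13840460384) (nat_lit 383) (nat_lit 5) (nat_lit 394) (nat_lit 5) (nat_lit 395) (nat_lit 5) (nat_lit 608) (nat_lit 575) (nat_lit 377))) (XT.nd (nat_lit 78) (nat_lit 836) (nat_lit 0) (XT.lf (nat_lit 0) (nat_lit 5446854128) (nat_lit 912) (nat_lit 7596081506) (nat_lit 76) (nat_lit 4381645451) (nat_lit 383) (nat_lit 5) (nat_lit 395) (nat_lit 5) (nat_lit 384) (nat_lit 5) (nat_lit 609) (nat_lit 575) (nat_lit 376)) (XT.nd (nat_lit 78) (nat_lit 0) (nat_lit 0) (XT.lf (nat_lit 0) (nat_lit 1923286655) (nat_lit 836) (nat_lit 5640364360) (nat_lit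 912) (nat_lit 10050783831) (nat_lit 372) (nat_lit 5) (nat_lit 383) (nat_lit 5) (nat_lit 384) (nat_lit 5) (nat_lit 610) (nat_lit 575) (nat_lit 375)) (XT.lf (nat_lit 0) (nat_lit 9780060898) (nat_lit 912) (nat_lit 6090335424) (nat_lit 76) (nat_lit 1936544718) (nat_lit 372) (nat_lit 5) (nat_lit 384) (nat_lit 5) (nat_lit 373) (nat_lit 5) (nat_lit 611) (nat_lit 575) (nat_lit 374))))))))
noncomputable def xc200 : XT := (XT.nd (nat_lit 1404) (nat_lit 5700) (nat_lit 0) (XT.nd (nat_lit 702) (nat_lit 3572) (nat_lit 0) (XT.nd (nat_lit 312) (nat_lit 2204) (nat_lit 0) (XT.nd (nat_lit 156) (nat_lit 912) (nat_lit 0) (XT.nd (nat_lit 78) (nat_lit 0) (nat_lit 0) (XT.lf (nat_lit 0) (nat_lit 3707352948) (nat_lit 760) (nat_lit 8388559358) (nat_lit 836) (nat_lit 5906283665) (nat_lit 362) (nat_lit 5) (nat_lit 372) (nat_lit 5) (nat_lit 373) (nat_lit 5) (nat_lit 612) (nat_lit 575) (nat_lit 373)) (XT.lf (nat_lit 0) (nat_lit 13777183513)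 (nat_lit 760) (nat_lit 715538308) (nat_lit 836) (nat_lit 3707942221) (nat_lit 362) (nat_lit 5) (nat_lit 372) (nat_lit 5) (nat_lit 373) (nat_lit 5) (nat_lit 613) (nat_lit 575) (nat_lit 372))) (XT.nd (nat_lit 78) (nat_lit 76) (nat_lit 0) (XT.lf (nat_lit 0) (nat_lit 5667100394) (nat_lit 836) (nat_lit 11347223627) (nat_lit 912) (nat_lit 1387241171) (nat_lit 351) (nat_lit 5) (nat_lit 362) (nat_lit 5) (nat_lit 363) (nat_lit 5) (nat_lit 614) (nat_lit 575) (nat_lit 371)) (XT.lf (nat_lit 0) (nat_lit 995572715) (nat_lit 912) (nat_lit 2604138041) (nat_lit 76) (nat_lit 15006076183) (nat_lit 350) (nat_lit 5) (nat_lit 362) (nat_lit 5) (nat_lit 351) (nat_lit 5) (nat_lit 615) (nat_lit 575) (nat_lit 370)))) (XT.nd (nat_lit 156) (nat_lit 1444) (nat_lit 0) (XT.nd (nat_lit 78) (nat_lit 0) (nat_lit 0) (XT.lf (nat_lit 0) (nat_lit 3480611675) (nat_lit 836) (nat_lit 11025509963) (nat_lit 76) (nat_lit 4306326006) (nat_lit 340) (nat_lit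 5) (nat_lit 351) (nat_lit 5) (nat_lit 341) (nat_lit 5) (nat_lit 616) (nat_lit 575) (nat_lit 369)) (XT.lf (nat_lit 0) (nat_lit 6050905144) (nat_lit 836) (nat_lit 632065747) (nat_lit 76) (nat_lit 12339560381) (nat_lit 340) (nat_lit 5) (nat_lit 351) (nat_lit 5) (nat_lit 341) (nat_lit 5) (nat_lit 617) (nat_lit 575) (nat_lit 368))) (XT.nd (nat_lit 78) (nat_lit 684) (nat_lit 0) (XT.lf (nat_lit 0) (nat_lit 8741239307) (nat_lit 836) (nat_lit 9149049649) (nat_lit 76) (nat_lit 1345155687) (nat_lit 330) (nat_lit 5) (nat_lit 341) (nat_lit 5) (nat_lit 331) (nat_lit 5) (nat_lit 618) (nat_lit 575) (nat_lit 367)) (XT.nd (nat_lit 78) (nat_lit 0) (nat_lit 0) (XT.lf (nat_lit 0) (nat_lit 1544938062) (nat_lit 684) (nat_lit 9993309004) (nat_lit 760) (nat_lit 7913312628) (nat_lit 321) (nat_lit 5) (nat_lit 330) (nat_lit 5) (nat_lit 331) (nat_lit 5) (nat_lit 619) (nat_lit 575) (nat_lit 366)) (XT.lf (nat_lit 0) (nat_lit 12570565524) (nat_lit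 684) (nat_lit 1876403846) (nat_lit 760) (nat_lit 5223912924) (nat_lit 321) (nat_lit 5) (nat_lit 330) (nat_lit 5) (nat_lit 331) (nat_lit 5) (nat_lit 620) (nat_lit 575) (nat_lit 365)))))) (XT.nd (nat_lit 312) (nat_lit 2052) (nat_lit 0) (XT.nd (nat_lit 156) (nat_lit 684) (nat_lit 0) (XT.nd (nat_lit 78) (nat_lit 76) (nat_lit 0) (XT.lf (nat_lit 0) (nat_lit 3925788174) (nat_lit 760) (nat_lit 13549623850) (nat_lit 836) (nat_lit 2417949128) (nat_lit 311) (nat_lit 5) (nat_lit 321) (nat_lit 5) (nat_lit 322) (nat_lit 5) (nat_lit 621) (nat_lit 575) (nat_lit 364)) (XT.lf (nat_lit 0) (nat_lit 493214665) (nat_lit 836) (nat_lit 4872574888) (nat_lit 76) (nat_lit 14753344943) (nat_lit 310) (nat_lit 5) (nat_lit 321) (nat_lit 5) (nat_lit 311) (nat_lit 5) (nat_lit 622) (nat_lit 575) (nat_lit 363))) (XT.nd (nat_lit 78) (nat_lit 0) (nat_lit 0) (XT.lf (nat_lit 0) (nat_lit 3486871051) (nat_lit 760) (nat_lit 13860600412) (nat_lit 76) (nat_lit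 3000499960) (nat_lit 301) (nat_lit 5) (nat_lit 311) (nat_lit 5) (nat_lit 302) (nat_lit 5) (nat_lit 623) (nat_lit 575) (nat_lit 362)) (XT.lf (nat_lit 0) (nat_lit 6603534422) (nat_lit 760) (nat_lit 2482130463) (nat_lit 76) (nat_lit 11494458193) (nat_lit 301) (nat_lit 5) (nat_lit 311) (nat_lit 5) (nat_lit 302) (nat_lit 5) (nat_lit 624) (nat_lit 575) (nat_lit 361)))) (XT.nd (nat_lit 156) (nat_lit 760) (nat_lit 0) (XT.nd (nat_lit 78) (nat_lit 608) (nat_lit 0) (XT.lf (nat_lit 0) (nat_lit 9238989085) (nat_lit 684) (nat_lit 598316587) (nat_lit 760) (nat_lit 10978517256) (nat_lit 292) (nat_lit 5) (nat_lit 301) (nat_lit 5) (nat_lit 302) (nat_lit 5) (nat_lit 625) (nat_lit 575) (nat_lit 360)) (XT.lf (nat_lit 0) (nat_lit 115202488) (nat_lit 608) (nat_lit 13085233473) (nat_lit 684) (nat_lit 7854507783) (nat_lit 284) (nat_lit 5) (nat_lit 292) (nat_lit 5) (nat_lit 293) (nat_lit 5) (nat_lit 626) (nat_lit 575) (nat_lit 359))) (XT.nd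 (nat_lit 78) (nat_lit 760) (nat_lit 0) (XT.lf (nat_lit 0) (nat_lit 12187883532) (nat_lit 608) (nat_lit 4519475665) (nat_lit 684) (nat_lit 4589957802) (nat_lit 284) (nat_lit 5) (nat_lit 292) (nat_lit 5) (nat_lit 293) (nat_lit 5) (nat_lit 627) (nat_lit 575) (nat_lit 358)) (XT.nd (nat_lit 78) (nat_lit 76) (nat_lit 0) (XT.lf (nat_lit 0) (nat_lit 2962873385) (nat_lit 684) (nat_lit 17363168682) (nat_lit 760) (nat_lit 1217663846) (nat_lit 275) (nat_lit 5) (nat_lit 284) (nat_lit 5) (nat_lit 285) (nat_lit 5) (nat_lit 628) (nat_lit 575) (nat_lit 357)) (XT.lf (nat_lit 0) (nat_lit 2279423556) (nat_lit 760) (nat_lit 6444564146) (nat_lit 76) (nat_lit 13069017142) (nat_lit 274) (nat_lit 5) (nat_lit 284) (nat_lit 5) (nat_lit 275) (nat_lit 5) (nat_lit 629) (nat_lit 575) (nat_lit 356))))))) (XT.nd (nat_lit 702) (nat_lit 2736) (nat_lit 0) (XT.nd (nat_lit 312) (nat_lit 1748) (nat_lit 0) (XT.nd (nat_lit 156) (nat_lit 608) (nat_lit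 0) (XT.nd (nat_lit 78) (nat_lit 0) (nat_lit 0) (XT.lf (nat_lit 0) (nat_lit 5865112395) (nat_lit 684) (nat_lit 16048267779) (nat_lit 76) (nat_lit 133049900) (nat_lit 266) (nat_lit 5) (nat_lit 275) (nat_lit 5) (nat_lit 267) (nat_lit 5) (nat_lit 630) (nat_lit 575) (nat_lit 355)) (XT.lf (nat_lit 0) (nat_lit 9618996017) (nat_lit 684) (nat_lit 3591058379) (nat_lit 76) (nat_lit 9092940363) (nat_lit 266) (nat_lit 5) (nat_lit 275) (nat_lit 5) (nat_lit 267) (nat_lit 5) (nat_lit 631) (nat_lit 575) (nat_lit 354))) (XT.nd (nat_lit 78) (nat_lit 0) (nat_lit 0) (XT.lf (nat_lit 0) (nat_lit 9230433044) (nat_lit 608) (nat_lit 4272722435) (nat_lit 684) (nat_lit 9060431854) (nat_lit 258) (nat_lit 5) (nat_lit 266) (nat_lit 5) (nat_lit 267) (nat_lit 5) (nat_lit 632) (nat_lit 575) (nat_lit 353)) (XT.lf (nat_lit 0) (nat_lit 17516016737) (nat_lit 684) (nat_lit 509451905) (nat_lit 76) (nat_lit 4802903290) (nat_lit 258) (nat_lit 5) (nat_lit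 267) (nat_lit 5) (nat_lit 259) (nat_lit 5) (nat_lit 633) (nat_lit 575) (nat_lit 352)))) (XT.nd (nat_lit 156) (nat_lit 532) (nat_lit 0) (XT.nd (nat_lit 78) (nat_lit 684) (nat_lit 0) (XT.lf (nat_lit 0) (nat_lit 12703181613) (nat_lit 532) (nat_lit 9012133974) (nat_lit 608) (nat_lit 1381013568) (nat_lit 251) (nat_lit 5) (nat_lit 258) (nat_lit 5) (nat_lit 259) (nat_lit 5) (nat_lit 634) (nat_lit 575) (nat_lit 351)) (XT.lf (nat_lit 0) (nat_lit 2613157194) (nat_lit 684) (nat_lit 20538819564) (nat_lit 76) (nat_lit 216954270) (nat_lit 242) (nat_lit 5) (nat_lit 251) (nat_lit 5) (nat_lit 243) (nat_lit 5) (nat_lit 635) (nat_lit 575) (nat_lit 350))) (XT.nd (nat_lit 78) (nat_lit 532) (nat_lit 0) (XT.lf (nat_lit 0) (nat_lit 6794096914) (nat_lit 684) (nat_lit 7262080974) (nat_lit 76) (nat_lit 9588117441) (nat_lit 242) (nat_lit 5) (nat_lit 251) (nat_lit 5) (nat_lit 243) (nat_lit 5) (nat_lit 636) (nat_lit 575) (nat_lit 349)) (XT.nd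 (nat_lit 78) (nat_lit 0) (nat_lit 0) (XT.lf (nat_lit 0) (nat_lit 6357774032) (nat_lit 532) (nat_lit 4737720726) (nat_lit 608) (nat_lit 12828935867) (nat_lit 235) (nat_lit 5) (nat_lit 242) (nat_lit 5) (nat_lit 243) (nat_lit 5) (nat_lit 637) (nat_lit 575) (nat_lit 348)) (XT.lf (nat_lit 0) (nat_lit 15558528042) (nat_lit 608) (nat_lit 3897845266) (nat_lit 76) (nat_lit 4752283656) (nat_lit 235) (nat_lit 5) (nat_lit 243) (nat_lit 5) (nat_lit 236) (nat_lit 5) (nat_lit 638) (nat_lit 575) (nat_lit 347)))))) (XT.nd (nat_lit 390) (nat_lit 1064) (nat_lit 0) (XT.nd (nat_lit 156) (nat_lit 1064) (nat_lit 0) (XT.nd (nat_lit 78) (nat_lit 76) (nat_lit 0) (XT.lf (nat_lit 0) (nat_lit 10140229250) (nat_lit 532) (nat_lit 10063492876) (nat_lit 608) (nat_lit 4292988176) (nat_lit 228) (nat_lit 5) (nat_lit 235) (nat_lit 5) (nat_lit 236) (nat_lit 5) (nat_lit 639) (nat_lit 575) (nat_lit 346)) (XT.lf (nat_lit 0) (nat_lit 171347248) (nat_lit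 608) (nat_lit 285003701) (nat_lit 76) (nat_lit 24333713848) (nat_lit 227) (nat_lit 5) (nat_lit 235) (nat_lit 5) (nat_lit 228) (nat_lit 5) (nat_lit 640) (nat_lit 575) (nat_lit 345))) (XT.nd (nat_lit 78) (nat_lit 532) (nat_lit 0) (XT.lf (nat_lit 0) (nat_lit 4817109373) (nat_lit 608) (nat_lit 10928067180) (nat_lit 76) (nat_lit 9340550283) (nat_lit 220) (nat_lit 5) (nat_lit 228) (nat_lit 5) (nat_lit 221) (nat_lit 5) (nat_lit 641) (nat_lit 575) (nat_lit 344)) (XT.nd (nat_lit 78) (nat_lit 0) (nat_lit 0) (XT.lf (nat_lit 0) (nat_lit 3543542281) (nat_lit 532) (nat_lit 6036026246) (nat_lit 608) (nat_lit 15807258394) (nat_lit 213) (nat_lit 5) (nat_lit 220) (nat_lit 5) (nat_lit 221) (nat_lit 5) (nat_lit 642) (nat_lit 575) (nat_lit 343)) (XT.lf (nat_lit 0) (nat_lit 14532067533) (nat_lit 608) (nat_lit 7271068998) (nat_lit 76) (nat_lit 3888917095) (nat_lit 213) (nat_lit 5) (nat_lit 221) (nat_lit 5) (nat_lit 214) (nat_lit 5) (nat_lit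 643) (nat_lit 575) (nat_lit 342))))) (XT.nd (nat_lit 156) (nat_lit 608) (nat_lit 0) (XT.nd (nat_lit 78) (nat_lit 0) (nat_lit 0) (XT.lf (nat_lit 0) (nat_lit 7647316498) (nat_lit 456) (nat_lit 12021869088) (nat_lit 532) (nat_lit 6332488319) (nat_lit 207) (nat_lit 5) (nat_lit 213) (nat_lit 5) (nat_lit 214) (nat_lit 5) (nat_lit 644) (nat_lit 575) (nat_lit 341)) (XT.lf (nat_lit 0) (nat_lit 22957071075) (nat_lit 456) (nat_lit 1996754994) (nat_lit 532) (nat_lit 1362765337) (nat_lit 207) (nat_lit 5) (nat_lit 213) (nat_lit 5) (nat_lit 214) (nat_lit 5) (nat_lit 645) (nat_lit 575) (nat_lit 340))) (XT.nd (nat_lit 75738) (nat_lit 0) (nat_lit 22116) (XT.lf (nat_lit 0) (nat_lit 3786204126) (nat_lit 608) (nat_lit 14626069083) (nat_lit 76) (nat_lit 8222483934) (nat_lit 199) (nat_lit 5) (nat_lit 207) (nat_lit 5) (nat_lit 200) (nat_lit 5) (nat_lit 646) (nat_lit 575) (nat_lit 339)) (XT.nd (nat_lit 78) (nat_lit 0) (nat_lit 0) (XT.lf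 (nat_lit 0) (nat_lit 5223082001) (nat_lit 1748) (nat_lit 541748805) (nat_lit 1748) (nat_lit 541748805) (nat_lit 490) (nat_lit 3) (nat_lit 513) (nat_lit 3) (nat_lit 513) (nat_lit 5) (nat_lit 576) (nat_lit 576) (nat_lit 408)) (XT.lf (nat_lit 76) (nat_lit 5168327768) (nat_lit 0) (nat_lit 5838796374) (nat_lit 1748) (nat_lit 1722968218) (nat_lit 491) (nat_lit 5) (nat_lit 490) (nat_lit 3) (nat_lit 513) (nat_lit 5) (nat_lit 577) (nat_lit 576) (nat_lit 407))))))))
noncomputable def xc201 : XT := (XT.nd (nat_lit 1482) (nat_lit 8968) (nat_lit 0) (XT.nd (nat_lit 702) (nat_lit 0) (nat_lit 228) (XT.nd (nat_lit 312) (nat_lit 0) (nat_lit 0) (XT.nd (nat_lit 156) (nat_lit 1596) (nat_lit 0) (XT.nd (nat_lit 78) (nat_lit 0) (nat_lit 76) (XT.lf (nat_lit 76) (nat_lit 11554142746) (nat_lit 0) (nat_lit 21300420) (nat_lit 1748) (nat_lit 1273999994) (nat_lit 491) (nat_lit 5) (nat_lit 490) (nat_lit 3) (nat_lit 513) (nat_lit 5) (nat_lit 578)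 (nat_lit 576) (nat_lit 406)) (XT.lf (nat_lit 76) (nat_lit 5119370395) (nat_lit 0) (nat_lit 7096506148) (nat_lit 1748) (nat_lit 754091238) (nat_lit 492) (nat_lit 5) (nat_lit 491) (nat_lit 5) (nat_lit 514) (nat_lit 5) (nat_lit 579) (nat_lit 576) (nat_lit 405))) (XT.nd (nat_lit 78) (nat_lit 1672) (nat_lit 0) (XT.lf (nat_lit 76) (nat_lit 11673912533) (nat_lit 0) (nat_lit 1193335195) (nat_lit 1748) (nat_lit 225694307) (nat_lit 492) (nat_lit 5) (nat_lit 491) (nat_lit 5) (nat_lit 514) (nat_lit 5) (nat_lit 580) (nat_lit 576) (nat_lit 404)) (XT.lf (nat_lit 0) (nat_lit 363982603) (nat_lit 1748) (nat_lit 8047996815) (nat_lit 1824) (nat_lit 4805260925) (nat_lit 469) (nat_lit 5) (nat_lit 492) (nat_lit 5) (nat_lit 493) (nat_lit 5) (nat_lit 581) (nat_lit 576) (nat_lit 403)))) (XT.nd (nat_lit 156) (nat_lit 0) (nat_lit 76) (XT.nd (nat_lit 78) (nat_lit 0) (nat_lit 76) (XT.lf (nat_lit 0) (nat_lit 969556755) (nat_lit 1748) (nat_lit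 1450842936) (nat_lit 1824) (nat_lit 10923454202) (nat_lit 469) (nat_lit 5) (nat_lit 492) (nat_lit 5) (nat_lit 493) (nat_lit 5) (nat_lit 582) (nat_lit 576) (nat_lit 402)) (XT.lf (nat_lit 0) (nat_lit 1635987989) (nat_lit 1748) (nat_lit 8154358758) (nat_lit 1824) (nat_lit 3681679649) (nat_lit 470) (nat_lit 5) (nat_lit 493) (nat_lit 5) (nat_lit 494) (nat_lit 5) (nat_lit 583) (nat_lit 576) (nat_lit 401))) (XT.nd (nat_lit 78) (nat_lit 0) (nat_lit 76) (XT.lf (nat_lit 0) (nat_lit 2331602654) (nat_lit 1748) (nat_lit 1383581875) (nat_lit 1824) (nat_lit 9887262289) (nat_lit 470) (nat_lit 5) (nat_lit 493) (nat_lit 5) (nat_lit 494) (nat_lit 5) (nat_lit 584) (nat_lit 576) (nat_lit 400)) (XT.nd (nat_lit 78) (nat_lit 0) (nat_lit 0) (XT.lf (nat_lit 0) (nat_lit 3084020069) (nat_lit 1748) (nat_lit 8161415222) (nat_lit 1824) (nat_lit 2489184080) (nat_lit 471) (nat_lit 5) (nat_lit 494) (nat_lit 5) (nat_lit 495) (nat_lit 5) (nat_lit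 585) (nat_lit 576) (nat_lit 399)) (XT.lf (nat_lit 0) (nat_lit 3875833261) (nat_lit 1748) (nat_lit 1212227792) (nat_lit 1824) (nat_lit 8780888878) (nat_lit 471) (nat_lit 5) (nat_lit 494) (nat_lit 5) (nat_lit 495) (nat_lit 5) (nat_lit 586) (nat_lit 576) (nat_lit 398)))))) (XT.nd (nat_lit 390) (nat_lit 0) (nat_lit 152) (XT.nd (nat_lit 156) (nat_lit 0) (nat_lit 0) (XT.nd (nat_lit 78) (nat_lit 0) (nat_lit 0) (XT.lf (nat_lit 0) (nat_lit 4720705773) (nat_lit 1748) (nat_lit 8065525334) (nat_lit 1824) (nat_lit 1218993008) (nat_lit 472) (nat_lit 5) (nat_lit 495) (nat_lit 5) (nat_lit 496) (nat_lit 5) (nat_lit 587) (nat_lit 576) (nat_lit 397)) (XT.lf (nat_lit 0) (nat_lit 5615112297) (nat_lit 1748) (nat_lit 932954683) (nat_lit 1824) (nat_lit 7595505515) (nat_lit 472) (nat_lit 5) (nat_lit 495) (nat_lit 5) (nat_lit 496) (nat_lit 5) (nat_lit 588) (nat_lit 576) (nat_lit 396))) (XT.nd (nat_lit 78) (nat_lit 0) (nat_lit 76) (XT.lf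 (nat_lit 76) (nat_lit 6420353919) (nat_lit 0) (nat_lit 139671791) (nat_lit 1824) (nat_lit 7724011175) (nat_lit 473) (nat_lit 5) (nat_lit 472) (nat_lit 5) (nat_lit 496) (nat_lit 5) (nat_lit 589) (nat_lit 576) (nat_lit 395)) (XT.nd (nat_lit 78) (nat_lit 0) (nat_lit 0) (XT.lf (nat_lit 0) (nat_lit 7562762718) (nat_lit 1748) (nat_lit 541660303) (nat_lit 1824) (nat_lit 6322110423) (nat_lit 473) (nat_lit 5) (nat_lit 496) (nat_lit 5) (nat_lit 497) (nat_lit 5) (nat_lit 590) (nat_lit 576) (nat_lit 394)) (XT.lf (nat_lit 76) (nat_lit 7011684623) (nat_lit 0) (nat_lit 1611584415) (nat_lit 1824) (nat_lit 5947857967) (nat_lit 474) (nat_lit 5) (nat_lit 473) (nat_lit 5) (nat_lit 497) (nat_lit 5) (nat_lit 591) (nat_lit 576) (nat_lit 393))))) (XT.nd (nat_lit 156) (nat_lit 0) (nat_lit 76) (XT.nd (nat_lit 78) (nat_lit 0) (nat_lit 0) (XT.lf (nat_lit 0) (nat_lit 9732592687) (nat_lit 1748) (nat_lit 33962285) (nat_lit 1824) (nat_lit 4951506655)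 (nat_lit 474) (nat_lit 5) (nat_lit 497) (nat_lit 5) (nat_lit 498) (nat_lit 5) (nat_lit 592) (nat_lit 576) (nat_lit 392)) (XT.lf (nat_lit 76) (nat_lit 7726511002) (nat_lit 0) (nat_lit 3190011408) (nat_lit 1824) (nat_lit 3950365450) (nat_lit 475) (nat_lit 5) (nat_lit 474) (nat_lit 5) (nat_lit 498) (nat_lit 5) (nat_lit 593) (nat_lit 576) (nat_lit 391))) (XT.nd (nat_lit 78) (nat_lit 0) (nat_lit 0) (XT.lf (nat_lit 76) (nat_lit 602710865) (nat_lit 0) (nat_lit 11540124520) (nat_lit 1824) (nat_lit 2875482421) (nat_lit 476) (nat_lit 5) (nat_lit 475) (nat_lit 5) (nat_lit 499) (nat_lit 5) (nat_lit 594) (nat_lit 576) (nat_lit 390)) (XT.nd (nat_lit 78) (nat_lit 0) (nat_lit 76) (XT.lf (nat_lit 76) (nat_lit 8569766192) (nat_lit 0) (nat_lit 4884653066) (nat_lit 1824) (nat_lit 1717143458) (nat_lit 476) (nat_lit 5) (nat_lit 475) (nat_lit 5) (nat_lit 499) (nat_lit 5) (nat_lit 595) (nat_lit 576) (nat_lit 389)) (XT.lf (nat_lit 76)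 (nat_lit 1367536763) (nat_lit 0) (nat_lit 13437952529) (nat_lit 1824) (nat_lit 522119375) (nat_lit 477) (nat_lit 5) (nat_lit 476) (nat_lit 5) (nat_lit 500) (nat_lit 5) (nat_lit 596) (nat_lit 576) (nat_lit 388))))))) (XT.nd (nat_lit 702) (nat_lit 5168) (nat_lit 0) (XT.nd (nat_lit 312) (nat_lit 2508) (nat_lit 0) (XT.nd (nat_lit 156) (nat_lit 0) (nat_lit 76) (XT.nd (nat_lit 78) (nat_lit 0) (nat_lit 76) (XT.lf (nat_lit 0) (nat_lit 756686507) (nat_lit 1824) (nat_lit 5943702030) (nat_lit 1900) (nat_lit 8784917303) (nat_lit 452) (nat_lit 5) (nat_lit 476) (nat_lit 5) (nat_lit 477) (nat_lit 5) (nat_lit 597) (nat_lit 576) (nat_lit 387)) (XT.lf (nat_lit 0) (nat_lit 2062188216) (nat_lit 1824) (nat_lit 13394380762) (nat_lit 1900) (nat_lit 189357898) (nat_lit 453) (nat_lit 5) (nat_lit 477) (nat_lit 5) (nat_lit 478) (nat_lit 5) (nat_lit 598) (nat_lit 576) (nat_lit 386))) (XT.nd (nat_lit 78) (nat_lit 0) (nat_lit 0) (XT.lf (nat_lit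 0) (nat_lit 3470675884) (nat_lit 1824) (nat_lit 5168721648) (nat_lit 1900) (nat_lit 7168826421) (nat_lit 453) (nat_lit 5) (nat_lit 477) (nat_lit 5) (nat_lit 478) (nat_lit 5) (nat_lit 599) (nat_lit 576) (nat_lit 385)) (XT.lf (nat_lit 76) (nat_lit 3257914951) (nat_lit 0) (nat_lit 1663073823) (nat_lit 1900) (nat_lit 11052506206) (nat_lit 454) (nat_lit 5) (nat_lit 453) (nat_lit 5) (nat_lit 478) (nat_lit 5) (nat_lit 600) (nat_lit 576) (nat_lit 384)))) (XT.nd (nat_lit 156) (nat_lit 988) (nat_lit 0) (XT.nd (nat_lit 78) (nat_lit 1672) (nat_lit 0) (XT.lf (nat_lit 0) (nat_lit 6463242612) (nat_lit 1824) (nat_lit 4260241924) (nat_lit 76) (nat_lit 5417329292) (nat_lit 454) (nat_lit 5) (nat_lit 478) (nat_lit 5) (nat_lit 455) (nat_lit 5) (nat_lit 601) (nat_lit 576) (nat_lit 383)) (XT.lf (nat_lit 0) (nat_lit 4404703656) (nat_lit 1672) (nat_lit 3664011730) (nat_lit 1748) (nat_lit 8242117264) (nat_lit 432) (nat_lit 5) (nat_lit 454)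 (nat_lit 5) (nat_lit 455) (nat_lit 5) (nat_lit 602) (nat_lit 576) (nat_lit 382))) (XT.nd (nat_lit 78) (nat_lit 988) (nat_lit 0) (XT.lf (nat_lit 0) (nat_lit 9750907142) (nat_lit 1748) (nat_lit 3212497509) (nat_lit 76) (nat_lit 3519956059) (nat_lit 432) (nat_lit 5) (nat_lit 455) (nat_lit 5) (nat_lit 433) (nat_lit 5) (nat_lit 603) (nat_lit 576) (nat_lit 381)) (XT.nd (nat_lit 78) (nat_lit 0) (nat_lit 0) (XT.lf (nat_lit 0) (nat_lit 5699250409) (nat_lit 988) (nat_lit 5821769880) (nat_lit 1064) (nat_lit 5137234522) (nat_lit 419) (nat_lit 5) (nat_lit 432) (nat_lit 5) (nat_lit 433) (nat_lit 5) (nat_lit 604) (nat_lit 576) (nat_lit 380)) (XT.lf (nat_lit 0) (nat_lit 13350843449) (nat_lit 1064) (nat_lit 2019415965) (nat_lit 76) (nat_lit 1465902238) (nat_lit 419) (nat_lit 5) (nat_lit 433) (nat_lit 5) (nat_lit 420) (nat_lit 5) (nat_lit 605) (nat_lit 576) (nat_lit 379)))))) (XT.nd (nat_lit 390) (nat_lit 2432) (nat_lit 0) (XT.nd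 (nat_lit 156) (nat_lit 1748) (nat_lit 0) (XT.nd (nat_lit 78) (nat_lit 76) (nat_lit 0) (XT.lf (nat_lit 0) (nat_lit 7147940024) (nat_lit 912) (nat_lit 8147532698) (nat_lit 988) (nat_lit 1720590706) (nat_lit 407) (nat_lit 5) (nat_lit 419) (nat_lit 5) (nat_lit 420) (nat_lit 5) (nat_lit 606) (nat_lit 576) (nat_lit 378)) (XT.lf (nat_lit 0) (nat_lit 85323654) (nat_lit 988) (nat_lit 680145989) (nat_lit 76) (nat_lit 16433945554) (nat_lit 406) (nat_lit 5) (nat_lit 419) (nat_lit 5) (nat_lit 407) (nat_lit 5) (nat_lit 607) (nat_lit 576) (nat_lit 377))) (XT.nd (nat_lit 78) (nat_lit 836) (nat_lit 0) (XT.lf (nat_lit 0) (nat_lit 1999203858) (nat_lit 988) (nat_lit 8640243693) (nat_lit 76) (nat_lit 6744862198) (nat_lit 394) (nat_lit 5) (nat_lit 407) (nat_lit 5) (nat_lit 395) (nat_lit 5) (nat_lit 608) (nat_lit 576) (nat_lit 376)) (XT.nd (nat_lit 78) (nat_lit 0) (nat_lit 0) (XT.lf (nat_lit 0) (nat_lit 792226586) (nat_lit 836) (nat_lit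 3167458742) (nat_lit 912) (nat_lit 13613051307) (nat_lit 383) (nat_lit 5) (nat_lit 394) (nat_lit 5) (nat_lit 395) (nat_lit 5) (nat_lit 609) (nat_lit 576) (nat_lit 375)) (XT.lf (nat_lit 0) (nat_lit 6040263647) (nat_lit 912) (nat_lit 7268931672) (nat_lit 76) (nat_lit 4454119894) (nat_lit 383) (nat_lit 5) (nat_lit 395) (nat_lit 5) (nat_lit 384) (nat_lit 5) (nat_lit 610) (nat_lit 576) (nat_lit 374))))) (XT.nd (nat_lit 156) (nat_lit 1596) (nat_lit 0) (XT.nd (nat_lit 78) (nat_lit 0) (nat_lit 0) (XT.lf (nat_lit 0) (nat_lit 2437672067) (nat_lit 836) (nat_lit 5755314931) (nat_lit 912) (nat_lit 9764108574) (nat_lit 372) (nat_lit 5) (nat_lit 383) (nat_lit 5) (nat_lit 384) (nat_lit 5) (nat_lit 611) (nat_lit 576) (nat_lit 373)) (XT.lf (nat_lit 0) (nat_lit 10444337652) (nat_lit 912) (nat_lit 5736101383) (nat_lit 76) (nat_lit 1973201911) (nat_lit 372) (nat_lit 5) (nat_lit 384) (nat_lit 5) (nat_lit 373) (nat_lit 5) (nat_lit 612)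 (nat_lit 576) (nat_lit 372))) (XT.nd (nat_lit 78) (nat_lit 836) (nat_lit 0) (XT.lf (nat_lit 0) (nat_lit 4254408910) (nat_lit 760) (nat_lit 8545977901) (nat_lit 836) (nat_lit 5552537834) (nat_lit 362) (nat_lit 5) (nat_lit 372) (nat_lit 5) (nat_lit 373) (nat_lit 5) (nat_lit 613) (nat_lit 576) (nat_lit 371)) (XT.nd (nat_lit 78) (nat_lit 836) (nat_lit 0) (XT.lf (nat_lit 0) (nat_lit 14516363363) (nat_lit 760) (nat_lit 719699423) (nat_lit 836) (nat_lit 3319481943) (nat_lit 362) (nat_lit 5) (nat_lit 372) (nat_lit 5) (nat_lit 373) (nat_lit 5) (nat_lit 614) (nat_lit 576) (nat_lit 370)) (XT.lf (nat_lit 0) (nat_lit 6250035389) (nat_lit 836) (nat_lit 11552283263) (nat_lit 912) (nat_lit 958262050) (nat_lit 351) (nat_lit 5) (nat_lit 362) (nat_lit 5) (nat_lit 363) (nat_lit 5) (nat_lit 615) (nat_lit 576) (nat_lit 369))))))))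
noncomputable def xc202 : XT := (XT.nd (nat_lit 1482) (nat_lit 3876) (nat_lit 0) (XT.nd (nat_lit 702) (nat_lit 3268) (nat_lit 0) (XT.nd (nat_lit 312) (nat_lit 2204) (nat_lit 0) (XT.nd (nat_lit 156) (nat_lit 760) (nat_lit 0) (XT.nd (nat_lit 78) (nat_lit 760) (nat_lit 0) (XT.lf (nat_lit 0) (nat_lit 1457380177) (nat_lit 912) (nat_lit 2189903716) (nat_lit 76) (nat_lit 15321721626) (nat_lit 350) (nat_lit 5) (nat_lit 362) (nat_lit 5) (nat_lit 351) (nat_lit 5) (nat_lit 616) (nat_lit 576) (nat_lit 368)) (XT.lf (nat_lit 0) (nat_lit 3986638377) (nat_lit 836) (nat_lit 10774163462) (nat_lit 76) (nat_lit 4419108392) (nat_lit 340) (nat_lit 5) (nat_lit 351) (nat_lit 5) (nat_lit 341) (nat_lit 5) (nat_lit 617) (nat_lit 576) (nat_lit 367))) (XT.nd (nat_lit 78) (nat_lit 760) (nat_lit 0) (XT.lf (nat_lit 0) (nat_lit 6599780569) (nat_lit 836) (nat_lit 182102453) (nat_lit 76) (nat_lit 12612484791) (nat_lit 340) (nat_lit 5) (nat_lit 351)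 (nat_lit 5) (nat_lit 341) (nat_lit 5) (nat_lit 618) (nat_lit 576) (nat_lit 366)) (XT.lf (nat_lit 0) (nat_lit 9338756771) (nat_lit 836) (nat_lit 8864205568) (nat_lit 76) (nat_lit 1408681522) (nat_lit 330) (nat_lit 5) (nat_lit 341) (nat_lit 5) (nat_lit 331) (nat_lit 5) (nat_lit 619) (nat_lit 576) (nat_lit 365)))) (XT.nd (nat_lit 156) (nat_lit 1520) (nat_lit 0) (XT.nd (nat_lit 78) (nat_lit 0) (nat_lit 0) (XT.lf (nat_lit 0) (nat_lit 2040584100) (nat_lit 684) (nat_lit 10145849941) (nat_lit 760) (nat_lit 7645753679) (nat_lit 321) (nat_lit 5) (nat_lit 330) (nat_lit 5) (nat_lit 331) (nat_lit 5) (nat_lit 620) (nat_lit 576) (nat_lit 364)) (XT.lf (nat_lit 0) (nat_lit 13277611420) (nat_lit 684) (nat_lit 1867534625) (nat_lit 760) (nat_lit 4910915496) (nat_lit 321) (nat_lit 5) (nat_lit 330) (nat_lit 5) (nat_lit 331) (nat_lit 5) (nat_lit 621) (nat_lit 576) (nat_lit 363))) (XT.nd (nat_lit 78) (nat_lit 760) (nat_lit 0) (XT.lf (nat_lit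 0) (nat_lit 4464825866) (nat_lit 760) (nat_lit 13764592775) (nat_lit 836) (nat_lit 2053667165) (nat_lit 311) (nat_lit 5) (nat_lit 321) (nat_lit 5) (nat_lit 322) (nat_lit 5) (nat_lit 622) (nat_lit 576) (nat_lit 362)) (XT.nd (nat_lit 78) (nat_lit 684) (nat_lit 0) (XT.lf (nat_lit 0) (nat_lit 902323160) (nat_lit 836) (nat_lit 4513177995) (nat_lit 76) (nat_lit 15097980589) (nat_lit 310) (nat_lit 5) (nat_lit 321) (nat_lit 5) (nat_lit 311) (nat_lit 5) (nat_lit 623) (nat_lit 576) (nat_lit 361)) (XT.lf (nat_lit 0) (nat_lit 3951357190) (nat_lit 760) (nat_lit 13676418978) (nat_lit 76) (nat_lit 3119210142) (nat_lit 301) (nat_lit 5) (nat_lit 311) (nat_lit 5) (nat_lit 302) (nat_lit 5) (nat_lit 624) (nat_lit 576) (nat_lit 360)))))) (XT.nd (nat_lit 390) (nat_lit 1292) (nat_lit 0) (XT.nd (nat_lit 156) (nat_lit 1292) (nat_lit 0) (XT.nd (nat_lit 78) (nat_lit 684) (nat_lit 0) (XT.lf (nat_lit 0) (nat_lit 7122613657) (nat_lit 760) (nat_lit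 2079426560) (nat_lit 76) (nat_lit 11781896555) (nat_lit 301) (nat_lit 5) (nat_lit 311) (nat_lit 5) (nat_lit 302) (nat_lit 5) (nat_lit 625) (nat_lit 576) (nat_lit 359)) (XT.lf (nat_lit 0) (nat_lit 9873139415) (nat_lit 684) (nat_lit 543250126) (nat_lit 760) (nat_lit 10808055448) (nat_lit 292) (nat_lit 5) (nat_lit 301) (nat_lit 5) (nat_lit 302) (nat_lit 5) (nat_lit 626) (nat_lit 576) (nat_lit 358))) (XT.nd (nat_lit 78) (nat_lit 684) (nat_lit 0) (XT.lf (nat_lit 0) (nat_lit 571132120) (nat_lit 608) (nat_lit 13271525423) (nat_lit 684) (nat_lit 7625774110) (nat_lit 284) (nat_lit 5) (nat_lit 292) (nat_lit 5) (nat_lit 293) (nat_lit 5) (nat_lit 627) (nat_lit 576) (nat_lit 357)) (XT.nd (nat_lit 78) (nat_lit 684) (nat_lit 0) (XT.lf (nat_lit 0) (nat_lit 12876372165) (nat_lit 608) (nat_lit 4535931140) (nat_lit 684) (nat_lit 4303498303) (nat_lit 284) (nat_lit 5) (nat_lit 292) (nat_lit 5) (nat_lit 293) (nat_lit 5) (nat_lit 628)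 (nat_lit 576) (nat_lit 356)) (XT.lf (nat_lit 0) (nat_lit 3470871724) (nat_lit 684) (nat_lit 17628601720) (nat_lit 760) (nat_lit 867723481) (nat_lit 275) (nat_lit 5) (nat_lit 284) (nat_lit 5) (nat_lit 285) (nat_lit 5) (nat_lit 629) (nat_lit 576) (nat_lit 355))))) (XT.nd (nat_lit 156) (nat_lit 608) (nat_lit 0) (XT.nd (nat_lit 78) (nat_lit 608) (nat_lit 0) (XT.lf (nat_lit 0) (nat_lit 2687153902) (nat_lit 760) (nat_lit 6128657571) (nat_lit 76) (nat_lit 13405767477) (nat_lit 274) (nat_lit 5) (nat_lit 284) (nat_lit 5) (nat_lit 275) (nat_lit 5) (nat_lit 630) (nat_lit 576) (nat_lit 354)) (XT.lf (nat_lit 0) (nat_lit 6340869755) (nat_lit 684) (nat_lit 15920706208) (nat_lit 76) (nat_lit 218571304) (nat_lit 266) (nat_lit 5) (nat_lit 275) (nat_lit 5) (nat_lit 267) (nat_lit 5) (nat_lit 631) (nat_lit 576) (nat_lit 353))) (XT.nd (nat_lit 78) (nat_lit 608) (nat_lit 0) (XT.lf (nat_lit 0) (nat_lit 10162802517) (nat_lit 684) (nat_lit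 3223147266) (nat_lit 76) (nat_lit 9356034862) (nat_lit 266) (nat_lit 5) (nat_lit 275) (nat_lit 5) (nat_lit 267) (nat_lit 5) (nat_lit 632) (nat_lit 576) (nat_lit 352)) (XT.nd (nat_lit 78) (nat_lit 0) (nat_lit 0) (XT.lf (nat_lit 0) (nat_lit 9851881009) (nat_lit 608) (nat_lit 4268709692) (nat_lit 684) (nat_lit 8887280272) (nat_lit 258) (nat_lit 5) (nat_lit 266) (nat_lit 5) (nat_lit 267) (nat_lit 5) (nat_lit 633) (nat_lit 576) (nat_lit 351)) (XT.lf (nat_lit 0) (nat_lit 18207467458) (nat_lit 684) (nat_lit 85085522) (nat_lit 76) (nat_lit 4985523918) (nat_lit 258) (nat_lit 5) (nat_lit 267) (nat_lit 5) (nat_lit 259) (nat_lit 5) (nat_lit 634) (nat_lit 576) (nat_lit 350))))))) (XT.nd (nat_lit 702) (nat_lit 456) (nat_lit 0) (XT.nd (nat_lit 312) (nat_lit 1672) (nat_lit 0) (XT.nd (nat_lit 156) (nat_lit 532) (nat_lit 0) (XT.nd (nat_lit 78) (nat_lit 684) (nat_lit 0) (XT.lf (nat_lit 0) (nat_lit 13388941749) (nat_lit 532) (nat_lit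 9097924564) (nat_lit 608) (nat_lit 1064605452) (nat_lit 251) (nat_lit 5) (nat_lit 258) (nat_lit 5) (nat_lit 259) (nat_lit 5) (nat_lit 635) (nat_lit 576) (nat_lit 349)) (XT.lf (nat_lit 0) (nat_lit 3001727674) (nat_lit 684) (nat_lit 20510102517) (nat_lit 76) (nat_lit 317715745) (nat_lit 242) (nat_lit 5) (nat_lit 251) (nat_lit 5) (nat_lit 243) (nat_lit 5) (nat_lit 636) (nat_lit 576) (nat_lit 348))) (XT.nd (nat_lit 78) (nat_lit 532) (nat_lit 0) (XT.lf (nat_lit 0) (nat_lit 7259691926) (nat_lit 684) (nat_lit 6976446674) (nat_lit 76) (nat_lit 9874411544) (nat_lit 242) (nat_lit 5) (nat_lit 251) (nat_lit 5) (nat_lit 243) (nat_lit 5) (nat_lit 637) (nat_lit 576) (nat_lit 347)) (XT.lf (nat_lit 0) (nat_lit 6912970722) (nat_lit 532) (nat_lit 4730461170) (nat_lit 608) (nat_lit 12752930693) (nat_lit 235) (nat_lit 5) (nat_lit 242) (nat_lit 5) (nat_lit 243) (nat_lit 5) (nat_lit 638) (nat_lit 576) (nat_lit 346)))) (XT.nd (nat_lit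 156) (nat_lit 1140) (nat_lit 0) (XT.nd (nat_lit 78) (nat_lit 532) (nat_lit 0) (XT.lf (nat_lit 0) (nat_lit 16189982507) (nat_lit 608) (nat_lit 3550375191) (nat_lit 76) (nat_lit 4946031327) (nat_lit 235) (nat_lit 5) (nat_lit 243) (nat_lit 5) (nat_lit 236) (nat_lit 5) (nat_lit 639) (nat_lit 576) (nat_lit 345)) (XT.lf (nat_lit 0) (nat_lit 10765661953) (nat_lit 532) (nat_lit 10158882425) (nat_lit 608) (nat_lit 4055730468) (nat_lit 228) (nat_lit 5) (nat_lit 235) (nat_lit 5) (nat_lit 236) (nat_lit 5) (nat_lit 640) (nat_lit 576) (nat_lit 344))) (XT.nd (nat_lit 78) (nat_lit 532) (nat_lit 0) (XT.lf (nat_lit 0) (nat_lit 129524258) (nat_lit 532) (nat_lit 358718075) (nat_lit 608) (nat_lit 24791321039) (nat_lit 220) (nat_lit 5) (nat_lit 227) (nat_lit 5) (nat_lit 228) (nat_lit 5) (nat_lit 641) (nat_lit 576) (nat_lit 343)) (XT.nd (nat_lit 78) (nat_lit 532) (nat_lit 0) (XT.lf (nat_lit 0) (nat_lit 5223340274) (nat_lit 608) (nat_lit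 10725328049) (nat_lit 76) (nat_lit 9632542572) (nat_lit 220) (nat_lit 5) (nat_lit 228) (nat_lit 5) (nat_lit 221) (nat_lit 5) (nat_lit 642) (nat_lit 576) (nat_lit 342)) (XT.lf (nat_lit 0) (nat_lit 4032941887) (nat_lit 532) (nat_lit 6044747840) (nat_lit 608) (nat_lit 15810711073) (nat_lit 213) (nat_lit 5) (nat_lit 220) (nat_lit 5) (nat_lit 221) (nat_lit 5) (nat_lit 643) (nat_lit 576) (nat_lit 341)))))) (XT.nd (nat_lit 76128) (nat_lit 0) (nat_lit 19836) (XT.nd (nat_lit 156) (nat_lit 0) (nat_lit 0) (XT.nd (nat_lit 78) (nat_lit 456) (nat_lit 0) (XT.lf (nat_lit 0) (nat_lit 15123941238) (nat_lit 608) (nat_lit 7000839155) (nat_lit 76) (nat_lit 4075058225) (nat_lit 213) (nat_lit 5) (nat_lit 221) (nat_lit 5) (nat_lit 214) (nat_lit 5) (nat_lit 644) (nat_lit 576) (nat_lit 340)) (XT.lf (nat_lit 0) (nat_lit 8213179504) (nat_lit 456) (nat_lit 12147396561) (nat_lit 532) (nat_lit 6155140366) (nat_lit 207) (nat_lit 5) (nat_lit 213)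 (nat_lit 5) (nat_lit 214) (nat_lit 5) (nat_lit 645) (nat_lit 576) (nat_lit 339))) (XT.nd (nat_lit 75816) (nat_lit 0) (nat_lit 21508) (XT.lf (nat_lit 0) (nat_lit 23821032767) (nat_lit 456) (nat_lit 1924033320) (nat_lit 532) (nat_lit 1091983664) (nat_lit 207) (nat_lit 5) (nat_lit 213) (nat_lit 5) (nat_lit 214) (nat_lit 5) (nat_lit 646) (nat_lit 576) (nat_lit 338)) (XT.nd (nat_lit 78) (nat_lit 0) (nat_lit 0) (XT.lf (nat_lit 0) (nat_lit 5747739907) (nat_lit 1748) (nat_lit 338249665) (nat_lit 1748) (nat_lit 338249665) (nat_lit 490) (nat_lit 3) (nat_lit 513) (nat_lit 3) (nat_lit 513) (nat_lit 5) (nat_lit 577) (nat_lit 577) (nat_lit 406)) (XT.lf (nat_lit 76) (nat_lit 5697542371) (nat_lit 0) (nat_lit 6356403389) (nat_lit 1748) (nat_lit 914081449) (nat_lit 491) (nat_lit 5) (nat_lit 490) (nat_lit 3) (nat_lit 513) (nat_lit 5) (nat_lit 578) (nat_lit 577) (nat_lit 405))))) (XT.nd (nat_lit 156) (nat_lit 0) (nat_lit 0) (XT.nd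 (nat_lit 78) (nat_lit 1672) (nat_lit 0) (XT.lf (nat_lit 76) (nat_lit 12202723687) (nat_lit 0) (nat_lit 414698083) (nat_lit 1748) (nat_lit 472670059) (nat_lit 491) (nat_lit 5) (nat_lit 490) (nat_lit 3) (nat_lit 513) (nat_lit 5) (nat_lit 579) (nat_lit 577) (nat_lit 404)) (XT.lf (nat_lit 0) (nat_lit 41196978) (nat_lit 1748) (nat_lit 7558335574) (nat_lit 1824) (nat_lit 5613803098) (nat_lit 468) (nat_lit 5) (nat_lit 491) (nat_lit 5) (nat_lit 492) (nat_lit 5) (nat_lit 580) (nat_lit 577) (nat_lit 403))) (XT.nd (nat_lit 78) (nat_lit 0) (nat_lit 76) (XT.lf (nat_lit 0) (nat_lit 557401418) (nat_lit 1748) (nat_lit 1010347019) (nat_lit 1824) (nat_lit 11771267269) (nat_lit 468) (nat_lit 5) (nat_lit 491) (nat_lit 5) (nat_lit 492) (nat_lit 5) (nat_lit 581) (nat_lit 577) (nat_lit 402)) (XT.nd (nat_lit 78) (nat_lit 0) (nat_lit 0) (XT.lf (nat_lit 0) (nat_lit 1141074870) (nat_lit 1748) (nat_lit 7758489728) (nat_lit 1824) (nat_lit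 4566503460) (nat_lit 469) (nat_lit 5) (nat_lit 492) (nat_lit 5) (nat_lit 493) (nat_lit 5) (nat_lit 582) (nat_lit 577) (nat_lit 401)) (XT.lf (nat_lit 0) (nat_lit 1743666140) (nat_lit 1748) (nat_lit 1038225458) (nat_lit 1824) (nat_lit 10813626538) (nat_lit 469) (nat_lit 5) (nat_lit 492) (nat_lit 5) (nat_lit 493) (nat_lit 5) (nat_lit 583) (nat_lit 577) (nat_lit 400))))))))
noncomputable def xc203 : XT := (XT.nd (nat_lit 1482) (nat_lit 9956) (nat_lit 0) (XT.nd (nat_lit 702) (nat_lit 1368) (nat_lit 0) (XT.nd (nat_lit 312) (nat_lit 0) (nat_lit 152) (XT.nd (nat_lit 156) (nat_lit 0) (nat_lit 76) (XT.nd (nat_lit 78) (nat_lit 0) (nat_lit 0) (XT.lf (nat_lit 0) (nat_lit 2409502094) (nat_lit 1748) (nat_lit 7861771546) (nat_lit 1824) (nat_lit 3455261251) (nat_lit 470) (nat_lit 5) (nat_lit 493) (nat_lit 5) (nat_lit 494) (nat_lit 5) (nat_lit 584) (nat_lit 577) (nat_lit 399)) (XT.lf (nat_lit 0) (nat_lit 3104503673) (nat_lit 1748)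 (nat_lit 964513917) (nat_lit 1824) (nat_lit 9790838915) (nat_lit 470) (nat_lit 5) (nat_lit 493) (nat_lit 5) (nat_lit 494) (nat_lit 5) (nat_lit 585) (nat_lit 577) (nat_lit 398))) (XT.nd (nat_lit 78) (nat_lit 0) (nat_lit 0) (XT.lf (nat_lit 0) (nat_lit 3858850095) (nat_lit 1748) (nat_lit 7864672953) (nat_lit 1824) (nat_lit 2271414082) (nat_lit 471) (nat_lit 5) (nat_lit 494) (nat_lit 5) (nat_lit 495) (nat_lit 5) (nat_lit 586) (nat_lit 577) (nat_lit 397)) (XT.lf (nat_lit 0) (nat_lit 4652516224) (nat_lit 1748) (nat_lit 785520805) (nat_lit 1824) (nat_lit 8694199127) (nat_lit 471) (nat_lit 5) (nat_lit 494) (nat_lit 5) (nat_lit 495) (nat_lit 5) (nat_lit 587) (nat_lit 577) (nat_lit 396)))) (XT.nd (nat_lit 156) (nat_lit 0) (nat_lit 0) (XT.nd (nat_lit 78) (nat_lit 0) (nat_lit 0) (XT.lf (nat_lit 0) (nat_lit 5501924945) (nat_lit 1748) (nat_lit 7763415755) (nat_lit 1824) (nat_lit 1006144495) (nat_lit 472) (nat_lit 5) (nat_lit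 495) (nat_lit 5) (nat_lit 496) (nat_lit 5) (nat_lit 588) (nat_lit 577) (nat_lit 395)) (XT.lf (nat_lit 0) (nat_lit 6400752833) (nat_lit 1748) (nat_lit 497280360) (nat_lit 1824) (nat_lit 7514838789) (nat_lit 472) (nat_lit 5) (nat_lit 495) (nat_lit 5) (nat_lit 496) (nat_lit 5) (nat_lit 589) (nat_lit 577) (nat_lit 394))) (XT.nd (nat_lit 78) (nat_lit 0) (nat_lit 76) (XT.lf (nat_lit 76) (nat_lit 7000105379) (nat_lit 0) (nat_lit 354186851) (nat_lit 1824) (nat_lit 7202060938) (nat_lit 473) (nat_lit 5) (nat_lit 472) (nat_lit 5) (nat_lit 496) (nat_lit 5) (nat_lit 590) (nat_lit 577) (nat_lit 393)) (XT.nd (nat_lit 78) (nat_lit 0) (nat_lit 0) (XT.lf (nat_lit 0) (nat_lit 8362735000) (nat_lit 1748) (nat_lit 95548927) (nat_lit 1824) (nat_lit 6243704732) (nat_lit 473) (nat_lit 5) (nat_lit 496) (nat_lit 5) (nat_lit 497) (nat_lit 5) (nat_lit 591) (nat_lit 577) (nat_lit 392)) (XT.lf (nat_lit 76) (nat_lit 7605856683) (nat_lit 0) (nat_lit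 1828822092) (nat_lit 1824) (nat_lit 5414992754) (nat_lit 474) (nat_lit 5) (nat_lit 473) (nat_lit 5) (nat_lit 497) (nat_lit 5) (nat_lit 592) (nat_lit 577) (nat_lit 391)))))) (XT.nd (nat_lit 390) (nat_lit 0) (nat_lit 0) (XT.nd (nat_lit 156) (nat_lit 1672) (nat_lit 0) (XT.nd (nat_lit 78) (nat_lit 0) (nat_lit 0) (XT.lf (nat_lit 76) (nat_lit 429836603) (nat_lit 0) (nat_lit 10125437127) (nat_lit 1824) (nat_lit 4444491360) (nat_lit 475) (nat_lit 5) (nat_lit 474) (nat_lit 5) (nat_lit 498) (nat_lit 5) (nat_lit 593) (nat_lit 577) (nat_lit 390)) (XT.lf (nat_lit 76) (nat_lit 8336863283) (nat_lit 0) (nat_lit 3413927903) (nat_lit 1824) (nat_lit 3401020384) (nat_lit 475) (nat_lit 5) (nat_lit 474) (nat_lit 5) (nat_lit 498) (nat_lit 5) (nat_lit 594) (nat_lit 577) (nat_lit 389))) (XT.nd (nat_lit 78) (nat_lit 1748) (nat_lit 0) (XT.lf (nat_lit 76) (nat_lit 1080953431) (nat_lit 0) (nat_lit 11910607374) (nat_lit 1824) (nat_lit 2314912570)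 (nat_lit 476) (nat_lit 5) (nat_lit 475) (nat_lit 5) (nat_lit 499) (nat_lit 5) (nat_lit 595) (nat_lit 577) (nat_lit 388)) (XT.nd (nat_lit 78) (nat_lit 1748) (nat_lit 0) (XT.lf (nat_lit 76) (nat_lit 9198208917) (nat_lit 0) (nat_lit 5119287660) (nat_lit 1824) (nat_lit 1145526034) (nat_lit 476) (nat_lit 5) (nat_lit 475) (nat_lit 5) (nat_lit 499) (nat_lit 5) (nat_lit 596) (nat_lit 577) (nat_lit 387)) (XT.lf (nat_lit 0) (nat_lit 62883649) (nat_lit 1824) (nat_lit 13761090863) (nat_lit 1900) (nat_lit 1798398243) (nat_lit 452) (nat_lit 5) (nat_lit 476) (nat_lit 5) (nat_lit 477) (nat_lit 5) (nat_lit 597) (nat_lit 577) (nat_lit 386))))) (XT.nd (nat_lit 156) (nat_lit 0) (nat_lit 76) (XT.nd (nat_lit 78) (nat_lit 0) (nat_lit 76) (XT.lf (nat_lit 0) (nat_lit 1348742560) (nat_lit 1824) (nat_lit 5597159664) (nat_lit 1900) (nat_lit 8837484988) (nat_lit 452) (nat_lit 5) (nat_lit 476) (nat_lit 5) (nat_lit 477) (nat_lit 5) (nat_lit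 598) (nat_lit 577) (nat_lit 385)) (XT.lf (nat_lit 0) (nat_lit 2671354117) (nat_lit 1824) (nat_lit 13187767179) (nat_lit 1900) (nat_lit 88281068) (nat_lit 453) (nat_lit 5) (nat_lit 477) (nat_lit 5) (nat_lit 478) (nat_lit 5) (nat_lit 599) (nat_lit 577) (nat_lit 384))) (XT.nd (nat_lit 78) (nat_lit 0) (nat_lit 0) (XT.lf (nat_lit 0) (nat_lit 4096875811) (nat_lit 1824) (nat_lit 4806898828) (nat_lit 1900) (nat_lit 7209395118) (nat_lit 453) (nat_lit 5) (nat_lit 477) (nat_lit 5) (nat_lit 478) (nat_lit 5) (nat_lit 600) (nat_lit 577) (nat_lit 383)) (XT.nd (nat_lit 78) (nat_lit 0) (nat_lit 76) (XT.lf (nat_lit 76) (nat_lit 3785209994) (nat_lit 0) (nat_lit 1783068082) (nat_lit 1900) (nat_lit 10713628092) (nat_lit 454) (nat_lit 5) (nat_lit 453) (nat_lit 5) (nat_lit 478) (nat_lit 5) (nat_lit 601) (nat_lit 577) (nat_lit 382)) (XT.lf (nat_lit 0) (nat_lit 7130062759) (nat_lit 1824) (nat_lit 3880977563) (nat_lit 76) (nat_lit 5441758951)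 (nat_lit 454) (nat_lit 5) (nat_lit 478) (nat_lit 5) (nat_lit 455) (nat_lit 5) (nat_lit 602) (nat_lit 577) (nat_lit 381))))))) (XT.nd (nat_lit 702) (nat_lit 4712) (nat_lit 0) (XT.nd (nat_lit 312) (nat_lit 2736) (nat_lit 0) (XT.nd (nat_lit 156) (nat_lit 988) (nat_lit 0) (XT.nd (nat_lit 78) (nat_lit 0) (nat_lit 0) (XT.lf (nat_lit 0) (nat_lit 4954211209) (nat_lit 1672) (nat_lit 3805889281) (nat_lit 1748) (nat_lit 7866270433) (nat_lit 432) (nat_lit 5) (nat_lit 454) (nat_lit 5) (nat_lit 455) (nat_lit 5) (nat_lit 603) (nat_lit 577) (nat_lit 380)) (XT.lf (nat_lit 0) (nat_lit 10465107066) (nat_lit 1748) (nat_lit 2813475657) (nat_lit 76) (nat_lit 3523984935) (nat_lit 432) (nat_lit 5) (nat_lit 455) (nat_lit 5) (nat_lit 433) (nat_lit 5) (nat_lit 604) (nat_lit 577) (nat_lit 379))) (XT.nd (nat_lit 78) (nat_lit 0) (nat_lit 0) (XT.lf (nat_lit 0) (nat_lit 6273459379) (nat_lit 988) (nat_lit 5989971142) (nat_lit 1064) (nat_lit 4717674462)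 (nat_lit 419) (nat_lit 5) (nat_lit 432) (nat_lit 5) (nat_lit 433) (nat_lit 5) (nat_lit 605) (nat_lit 577) (nat_lit 378)) (XT.lf (nat_lit 0) (nat_lit 14119481620) (nat_lit 1064) (nat_lit 1598162143) (nat_lit 76) (nat_lit 1445135042) (nat_lit 419) (nat_lit 5) (nat_lit 433) (nat_lit 5) (nat_lit 420) (nat_lit 5) (nat_lit 606) (nat_lit 577) (nat_lit 377)))) (XT.nd (nat_lit 156) (nat_lit 1748) (nat_lit 0) (XT.nd (nat_lit 78) (nat_lit 76) (nat_lit 0) (XT.lf (nat_lit 0) (nat_lit 7749503847) (nat_lit 912) (nat_lit 8346641488) (nat_lit 988) (nat_lit 1250271889) (nat_lit 407) (nat_lit 5) (nat_lit 419) (nat_lit 5) (nat_lit 420) (nat_lit 5) (nat_lit 607) (nat_lit 577) (nat_lit 376)) (XT.lf (nat_lit 0) (nat_lit 575374243) (nat_lit 988) (nat_lit 237576900) (nat_lit 76) (nat_lit 16720616070) (nat_lit 406) (nat_lit 5) (nat_lit 419) (nat_lit 5) (nat_lit 407) (nat_lit 5) (nat_lit 608) (nat_lit 577) (nat_lit 375))) (XT.nd (nat_lit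 78) (nat_lit 836) (nat_lit 0) (XT.lf (nat_lit 0) (nat_lit 2520713661) (nat_lit 988) (nat_lit 8349990121) (nat_lit 76) (nat_lit 6851593601) (nat_lit 394) (nat_lit 5) (nat_lit 407) (nat_lit 5) (nat_lit 395) (nat_lit 5) (nat_lit 609) (nat_lit 577) (nat_lit 374)) (XT.nd (nat_lit 78) (nat_lit 0) (nat_lit 0) (XT.lf (nat_lit 0) (nat_lit 1268083126) (nat_lit 836) (nat_lit 3245866656) (nat_lit 912) (nat_lit 13400673459) (nat_lit 383) (nat_lit 5) (nat_lit 394) (nat_lit 5) (nat_lit 395) (nat_lit 5) (nat_lit 610) (nat_lit 577) (nat_lit 373)) (XT.lf (nat_lit 0) (nat_lit 6626728701) (nat_lit 912) (nat_lit 6953841769) (nat_lit 76) (nat_lit 4528632447) (nat_lit 383) (nat_lit 5) (nat_lit 395) (nat_lit 5) (nat_lit 384) (nat_lit 5) (nat_lit 611) (nat_lit 577) (nat_lit 372)))))) (XT.nd (nat_lit 390) (nat_lit 2280) (nat_lit 0) (XT.nd (nat_lit 156) (nat_lit 1596) (nat_lit 0) (XT.nd (nat_lit 78) (nat_lit 0) (nat_lit 0) (XT.lf (nat_lit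 0) (nat_lit 2943864645) (nat_lit 836) (nat_lit 5872481288) (nat_lit 912) (nat_lit 9490637446) (nat_lit 372) (nat_lit 5) (nat_lit 383) (nat_lit 5) (nat_lit 384) (nat_lit 5) (nat_lit 612) (nat_lit 577) (nat_lit 371)) (XT.lf (nat_lit 0) (nat_lit 11103700699) (nat_lit 912) (nat_lit 5393267903) (nat_lit 76) (nat_lit 2010672773) (nat_lit 372) (nat_lit 5) (nat_lit 384) (nat_lit 5) (nat_lit 373) (nat_lit 5) (nat_lit 613) (nat_lit 577) (nat_lit 370))) (XT.nd (nat_lit 78) (nat_lit 836) (nat_lit 0) (XT.lf (nat_lit 0) (nat_lit 4794042361) (nat_lit 760) (nat_lit 8706946820) (nat_lit 836) (nat_lit 5210040432) (nat_lit 362) (nat_lit 5) (nat_lit 372) (nat_lit 5) (nat_lit 373) (nat_lit 5) (nat_lit 614) (nat_lit 577) (nat_lit 369)) (XT.nd (nat_lit 78) (nat_lit 836) (nat_lit 0) (XT.lf (nat_lit 0) (nat_lit 15252323251) (nat_lit 760) (nat_lit 724337884) (nat_lit 836) (nat_lit 2941216525) (nat_lit 362) (nat_lit 5) (nat_lit 372) (nat_lit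 5) (nat_lit 373) (nat_lit 5) (nat_lit 615) (nat_lit 577) (nat_lit 368)) (XT.lf (nat_lit 0) (nat_lit 6826394217) (nat_lit 836) (nat_lit 11762293906) (nat_lit 912) (nat_lit 538438494) (nat_lit 351) (nat_lit 5) (nat_lit 362) (nat_lit 5) (nat_lit 363) (nat_lit 5) (nat_lit 616) (nat_lit 577) (nat_lit 367))))) (XT.nd (nat_lit 156) (nat_lit 1444) (nat_lit 0) (XT.nd (nat_lit 78) (nat_lit 760) (nat_lit 0) (XT.lf (nat_lit 0) (nat_lit 1911264427) (nat_lit 912) (nat_lit 1785492366) (nat_lit 76) (nat_lit 15643077166) (nat_lit 350) (nat_lit 5) (nat_lit 362) (nat_lit 5) (nat_lit 351) (nat_lit 5) (nat_lit 617) (nat_lit 577) (nat_lit 366)) (XT.lf (nat_lit 0) (nat_lit 4485839107) (nat_lit 836) (nat_lit 10536112802) (nat_lit 76) (nat_lit 4533111347) (nat_lit 340) (nat_lit 5) (nat_lit 351) (nat_lit 5) (nat_lit 341) (nat_lit 5) (nat_lit 618) (nat_lit 577) (nat_lit 365))) (XT.nd (nat_lit 78) (nat_lit 684) (nat_lit 0) (XT.lf (nat_lit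 0) (nat_lit 262337204) (nat_lit 760) (nat_lit 6882385345) (nat_lit 836) (nat_lit 12629218967) (nat_lit 330) (nat_lit 5) (nat_lit 340) (nat_lit 5) (nat_lit 341) (nat_lit 5) (nat_lit 619) (nat_lit 577) (nat_lit 364)) (XT.nd (nat_lit 78) (nat_lit 684) (nat_lit 0) (XT.lf (nat_lit 0) (nat_lit 9931810912) (nat_lit 836) (nat_lit 8591830823) (nat_lit 76) (nat_lit 1472055769) (nat_lit 330) (nat_lit 5) (nat_lit 341) (nat_lit 5) (nat_lit 331) (nat_lit 5) (nat_lit 620) (nat_lit 577) (nat_lit 363)) (XT.lf (nat_lit 0) (nat_lit 2528096356) (nat_lit 684) (nat_lit 10303279393) (nat_lit 760) (nat_lit 7389378863) (nat_lit 321) (nat_lit 5) (nat_lit 330) (nat_lit 5) (nat_lit 331) (nat_lit 5) (nat_lit 621) (nat_lit 577) (nat_lit 362))))))))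
noncomputable def xc204 : XT := (XT.nd (nat_lit 1482) (nat_lit 2128) (nat_lit 0) (XT.nd (nat_lit 702) (nat_lit 3040) (nat_lit 0) (XT.nd (nat_lit 312) (nat_lit 1976) (nat_lit 0) (XT.nd (nat_lit 156) (nat_lit 760) (nat_lit 0) (XT.nd (nat_lit 78) (nat_lit 760) (nat_lit 0) (XT.lf (nat_lit 0) (nat_lit 13981105388) (nat_lit 684) (nat_lit 1860289684) (nat_lit 760) (nat_lit 4607869208) (nat_lit 321) (nat_lit 5) (nat_lit 330) (nat_lit 5) (nat_lit 331) (nat_lit 5) (nat_lit 622) (nat_lit 577) (nat_lit 361)) (XT.lf (nat_lit 0) (nat_lit 4996761684) (nat_lit 760) (nat_lit 13986036541) (nat_lit 836) (nat_lit 1698122914) (nat_lit 311) (nat_lit 5) (nat_lit 321) (nat_lit 5) (nat_lit 322) (nat_lit 5) (nat_lit 623) (nat_lit 577) (nat_lit 360))) (XT.nd (nat_lit 78) (nat_lit 684) (nat_lit 0) (XT.lf (nat_lit 0) (nat_lit 1304110685) (nat_lit 836) (nat_lit 4164333143) (nat_lit 76) (nat_lit 15447584133) (nat_lit 310) (nat_lit 5) (nat_lit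 321) (nat_lit 5) (nat_lit 311) (nat_lit 5) (nat_lit 624) (nat_lit 577) (nat_lit 359)) (XT.lf (nat_lit 0) (nat_lit 4409804477) (nat_lit 760) (nat_lit 13506470385) (nat_lit 76) (nat_lit 3238015128) (nat_lit 301) (nat_lit 5) (nat_lit 311) (nat_lit 5) (nat_lit 302) (nat_lit 5) (nat_lit 625) (nat_lit 577) (nat_lit 358)))) (XT.nd (nat_lit 156) (nat_lit 1292) (nat_lit 0) (XT.nd (nat_lit 78) (nat_lit 684) (nat_lit 0) (XT.lf (nat_lit 0) (nat_lit 7637046464) (nat_lit 760) (nat_lit 1686233745) (nat_lit 76) (nat_lit 12072848980) (nat_lit 301) (nat_lit 5) (nat_lit 311) (nat_lit 5) (nat_lit 302) (nat_lit 5) (nat_lit 626) (nat_lit 577) (nat_lit 357)) (XT.lf (nat_lit 0) (nat_lit 10502523145) (nat_lit 684) (nat_lit 489685301) (nat_lit 760) (nat_lit 10649329827) (nat_lit 292) (nat_lit 5) (nat_lit 301) (nat_lit 5) (nat_lit 302) (nat_lit 5) (nat_lit 627) (nat_lit 577) (nat_lit 356))) (XT.nd (nat_lit 78) (nat_lit 684) (nat_lit 0) (XT.lf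 (nat_lit 0) (nat_lit 1018565510) (nat_lit 608) (nat_lit 13464471580) (nat_lit 684) (nat_lit 7407447774) (nat_lit 284) (nat_lit 5) (nat_lit 292) (nat_lit 5) (nat_lit 293) (nat_lit 5) (nat_lit 628) (nat_lit 577) (nat_lit 355)) (XT.nd (nat_lit 78) (nat_lit 684) (nat_lit 0) (XT.lf (nat_lit 0) (nat_lit 13561361126) (nat_lit 608) (nat_lit 4555586673) (nat_lit 684) (nat_lit 4025997858) (nat_lit 284) (nat_lit 5) (nat_lit 292) (nat_lit 5) (nat_lit 293) (nat_lit 5) (nat_lit 629) (nat_lit 577) (nat_lit 354)) (XT.lf (nat_lit 0) (nat_lit 3971604874) (nat_lit 684) (nat_lit 17902520991) (nat_lit 760) (nat_lit 525318588) (nat_lit 275) (nat_lit 5) (nat_lit 284) (nat_lit 5) (nat_lit 285) (nat_lit 5) (nat_lit 630) (nat_lit 577) (nat_lit 353)))))) (XT.nd (nat_lit 390) (nat_lit 1216) (nat_lit 0) (XT.nd (nat_lit 156) (nat_lit 1140) (nat_lit 0) (XT.nd (nat_lit 78) (nat_lit 608) (nat_lit 0) (XT.lf (nat_lit 0) (nat_lit 3088976445) (nat_lit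 760) (nat_lit 5823704909) (nat_lit 76) (nat_lit 13746326110) (nat_lit 274) (nat_lit 5) (nat_lit 284) (nat_lit 5) (nat_lit 275) (nat_lit 5) (nat_lit 631) (nat_lit 577) (nat_lit 352)) (XT.lf (nat_lit 0) (nat_lit 6812223013) (nat_lit 684) (nat_lit 15808010254) (nat_lit 76) (nat_lit 302585566) (nat_lit 266) (nat_lit 5) (nat_lit 275) (nat_lit 5) (nat_lit 267) (nat_lit 5) (nat_lit 632) (nat_lit 577) (nat_lit 351))) (XT.nd (nat_lit 78) (nat_lit 1140) (nat_lit 0) (XT.lf (nat_lit 0) (nat_lit 10703838826) (nat_lit 684) (nat_lit 2864953271) (nat_lit 76) (nat_lit 9621236771) (nat_lit 266) (nat_lit 5) (nat_lit 275) (nat_lit 5) (nat_lit 267) (nat_lit 5) (nat_lit 633) (nat_lit 577) (nat_lit 350)) (XT.nd (nat_lit 78) (nat_lit 532) (nat_lit 0) (XT.lf (nat_lit 0) (nat_lit 10468794932) (nat_lit 608) (nat_lit 4268090815) (nat_lit 684) (nat_lit 8724425898) (nat_lit 258) (nat_lit 5) (nat_lit 266) (nat_lit 5) (nat_lit 267) (nat_lit 5)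 (nat_lit 634) (nat_lit 577) (nat_lit 349)) (XT.lf (nat_lit 0) (nat_lit 335291276) (nat_lit 532) (nat_lit 18566386341) (nat_lit 608) (nat_lit 4835321285) (nat_lit 251) (nat_lit 5) (nat_lit 258) (nat_lit 5) (nat_lit 259) (nat_lit 5) (nat_lit 635) (nat_lit 577) (nat_lit 348))))) (XT.nd (nat_lit 156) (nat_lit 532) (nat_lit 0) (XT.nd (nat_lit 78) (nat_lit 684) (nat_lit 0) (XT.lf (nat_lit 0) (nat_lit 14071653787) (nat_lit 532) (nat_lit 9189098657) (nat_lit 608) (nat_lit 755228215) (nat_lit 251) (nat_lit 5) (nat_lit 258) (nat_lit 5) (nat_lit 259) (nat_lit 5) (nat_lit 636) (nat_lit 577) (nat_lit 347)) (XT.lf (nat_lit 0) (nat_lit 3385010340) (nat_lit 684) (nat_lit 20497877195) (nat_lit 76) (nat_lit 416748250) (nat_lit 242) (nat_lit 5) (nat_lit 251) (nat_lit 5) (nat_lit 243) (nat_lit 5) (nat_lit 637) (nat_lit 577) (nat_lit 346))) (XT.nd (nat_lit 78) (nat_lit 532) (nat_lit 0) (XT.lf (nat_lit 0) (nat_lit 7721795679) (nat_lit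 684) (nat_lit 6701831125) (nat_lit 76) (nat_lit 10162760746) (nat_lit 242) (nat_lit 5) (nat_lit 251) (nat_lit 5) (nat_lit 243) (nat_lit 5) (nat_lit 638) (nat_lit 577) (nat_lit 345)) (XT.nd (nat_lit 78) (nat_lit 0) (nat_lit 0) (XT.lf (nat_lit 0) (nat_lit 7462649984) (nat_lit 532) (nat_lit 4727017750) (nat_lit 608) (nat_lit 12688320053) (nat_lit 235) (nat_lit 5) (nat_lit 242) (nat_lit 5) (nat_lit 243) (nat_lit 5) (nat_lit 639) (nat_lit 577) (nat_lit 344)) (XT.lf (nat_lit 0) (nat_lit 16821629046) (nat_lit 608) (nat_lit 3212475563) (nat_lit 76) (nat_lit 5139821233) (nat_lit 235) (nat_lit 5) (nat_lit 243) (nat_lit 5) (nat_lit 236) (nat_lit 5) (nat_lit 640) (nat_lit 577) (nat_lit 343))))))) (XT.nd (nat_lit 76518) (nat_lit 0) (nat_lit 19836) (XT.nd (nat_lit 312) (nat_lit 456) (nat_lit 0) (XT.nd (nat_lit 156) (nat_lit 532) (nat_lit 0) (XT.nd (nat_lit 78) (nat_lit 608) (nat_lit 0) (XT.lf (nat_lit 0) (nat_lit 11387192145)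 (nat_lit 532) (nat_lit 10260291227) (nat_lit 608) (nat_lit 3826274652) (nat_lit 228) (nat_lit 5) (nat_lit 235) (nat_lit 5) (nat_lit 236) (nat_lit 5) (nat_lit 641) (nat_lit 577) (nat_lit 342)) (XT.lf (nat_lit 0) (nat_lit 539738095) (nat_lit 532) (nat_lit 261403135) (nat_lit 608) (nat_lit 24977918667) (nat_lit 220) (nat_lit 5) (nat_lit 227) (nat_lit 5) (nat_lit 228) (nat_lit 5) (nat_lit 642) (nat_lit 577) (nat_lit 341))) (XT.nd (nat_lit 78) (nat_lit 532) (nat_lit 0) (XT.lf (nat_lit 0) (nat_lit 5625662436) (nat_lit 608) (nat_lit 10534893747) (nat_lit 76) (nat_lit 9926290389) (nat_lit 220) (nat_lit 5) (nat_lit 228) (nat_lit 5) (nat_lit 221) (nat_lit 5) (nat_lit 643) (nat_lit 577) (nat_lit 340)) (XT.lf (nat_lit 0) (nat_lit 4515877504) (nat_lit 532) (nat_lit 6057992922) (nat_lit 608) (nat_lit 15826375035) (nat_lit 213) (nat_lit 5) (nat_lit 220) (nat_lit 5) (nat_lit 221) (nat_lit 5) (nat_lit 644) (nat_lit 577) (nat_lit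 339)))) (XT.nd (nat_lit 75972) (nat_lit 0) (nat_lit 19760) (XT.nd (nat_lit 78) (nat_lit 456) (nat_lit 0) (XT.lf (nat_lit 0) (nat_lit 15715955198) (nat_lit 608) (nat_lit 6741344958) (nat_lit 76) (nat_lit 4260714319) (nat_lit 213) (nat_lit 5) (nat_lit 221) (nat_lit 5) (nat_lit 214) (nat_lit 5) (nat_lit 645) (nat_lit 577) (nat_lit 338)) (XT.lf (nat_lit 0) (nat_lit 8774325713) (nat_lit 456) (nat_lit 12279896674) (nat_lit 532) (nat_lit 5986050056) (nat_lit 207) (nat_lit 5) (nat_lit 213) (nat_lit 5) (nat_lit 214) (nat_lit 5) (nat_lit 646) (nat_lit 577) (nat_lit 337))) (XT.nd (nat_lit 78) (nat_lit 1748) (nat_lit 0) (XT.lf (nat_lit 0) (nat_lit 6266574238) (nat_lit 1748) (nat_lit 139003396) (nat_lit 1748) (nat_lit 139003396) (nat_lit 490) (nat_lit 3) (nat_lit 513) (nat_lit 3) (nat_lit 513) (nat_lit 5) (nat_lit 578) (nat_lit 578) (nat_lit 404)) (XT.nd (nat_lit 78) (nat_lit 1748) (nat_lit 0) (XT.lf (nat_lit 76) (nat_lit 6220805067)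 (nat_lit 0) (nat_lit 6868797785) (nat_lit 1748) (nat_lit 121765102) (nat_lit 491) (nat_lit 5) (nat_lit 490) (nat_lit 3) (nat_lit 513) (nat_lit 5) (nat_lit 579) (nat_lit 578) (nat_lit 403)) (XT.lf (nat_lit 0) (nat_lit 308480887) (nat_lit 1748) (nat_lit 490153175) (nat_lit 1824) (nat_lit 12537513330) (nat_lit 467) (nat_lit 5) (nat_lit 490) (nat_lit 3) (nat_lit 491) (nat_lit 5) (nat_lit 580) (nat_lit 578) (nat_lit 402)))))) (XT.nd (nat_lit 390) (nat_lit 0) (nat_lit 152) (XT.nd (nat_lit 156) (nat_lit 0) (nat_lit 76) (XT.nd (nat_lit 78) (nat_lit 0) (nat_lit 0) (XT.lf (nat_lit 0) (nat_lit 811227183) (nat_lit 1748) (nat_lit 7282474434) (nat_lit 1824) (nat_lit 5368395783) (nat_lit 468) (nat_lit 5) (nat_lit 491) (nat_lit 5) (nat_lit 492) (nat_lit 5) (nat_lit 581) (nat_lit 578) (nat_lit 401)) (XT.lf (nat_lit 0) (nat_lit 1322673236) (nat_lit 1748) (nat_lit 611899202) (nat_lit 1824) (nat_lit 11656022637) (nat_lit 468) (nat_lit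 5) (nat_lit 491) (nat_lit 5) (nat_lit 492) (nat_lit 5) (nat_lit 582) (nat_lit 578) (nat_lit 400))) (XT.nd (nat_lit 78) (nat_lit 0) (nat_lit 0) (XT.lf (nat_lit 0) (nat_lit 1903816221) (nat_lit 1748) (nat_lit 7480684683) (nat_lit 1824) (nat_lit 4335973973) (nat_lit 469) (nat_lit 5) (nat_lit 492) (nat_lit 5) (nat_lit 493) (nat_lit 5) (nat_lit 583) (nat_lit 578) (nat_lit 399)) (XT.nd (nat_lit 78) (nat_lit 0) (nat_lit 76) (XT.lf (nat_lit 0) (nat_lit 2503951084) (nat_lit 1748) (nat_lit 634504830) (nat_lit 1824) (nat_lit 10714350484) (nat_lit 469) (nat_lit 5) (nat_lit 492) (nat_lit 5) (nat_lit 493) (nat_lit 5) (nat_lit 584) (nat_lit 578) (nat_lit 398)) (XT.lf (nat_lit 0) (nat_lit 3169720534) (nat_lit 1748) (nat_lit 7581026981) (nat_lit 1824) (nat_lit 3235965869) (nat_lit 470) (nat_lit 5) (nat_lit 493) (nat_lit 5) (nat_lit 494) (nat_lit 5) (nat_lit 585) (nat_lit 578) (nat_lit 397))))) (XT.nd (nat_lit 156) (nat_lit 0) (nat_lit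 76) (XT.nd (nat_lit 78) (nat_lit 0) (nat_lit 76) (XT.lf (nat_lit 0) (nat_lit 3864660804) (nat_lit 1748) (nat_lit 554412043) (nat_lit 1824) (nat_lit 9703910001) (nat_lit 470) (nat_lit 5) (nat_lit 493) (nat_lit 5) (nat_lit 494) (nat_lit 5) (nat_lit 586) (nat_lit 578) (nat_lit 396)) (XT.lf (nat_lit 0) (nat_lit 4621484252) (nat_lit 1748) (nat_lit 7579857057) (nat_lit 1824) (nat_lit 2059678121) (nat_lit 471) (nat_lit 5) (nat_lit 494) (nat_lit 5) (nat_lit 495) (nat_lit 5) (nat_lit 587) (nat_lit 578) (nat_lit 395))) (XT.nd (nat_lit 78) (nat_lit 0) (nat_lit 76) (XT.lf (nat_lit 0) (nat_lit 5417583367) (nat_lit 1748) (nat_lit 367790677) (nat_lit 1824) (nat_lit 8615961302) (nat_lit 471) (nat_lit 5) (nat_lit 494) (nat_lit 5) (nat_lit 495) (nat_lit 5) (nat_lit 588) (nat_lit 578) (nat_lit 394)) (XT.nd (nat_lit 78) (nat_lit 0) (nat_lit 0) (XT.lf (nat_lit 0) (nat_lit 6272099022) (nat_lit 1748) (nat_lit 7473259151) (nat_lit 1824)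 (nat_lit 798250879) (nat_lit 472) (nat_lit 5) (nat_lit 495) (nat_lit 5) (nat_lit 496) (nat_lit 5) (nat_lit 589) (nat_lit 578) (nat_lit 393)) (XT.lf (nat_lit 0) (nat_lit 7175959633) (nat_lit 1748) (nat_lit 70534870) (nat_lit 1824) (nat_lit 7441589971) (nat_lit 472) (nat_lit 5) (nat_lit 495) (nat_lit 5) (nat_lit 496) (nat_lit 5) (nat_lit 590) (nat_lit 578) (nat_lit 392))))))))
noncomputable def xc205 : XT := (XT.nd (nat_lit 1482) (nat_lit 7752) (nat_lit 0) (XT.nd (nat_lit 702) (nat_lit 4408) (nat_lit 0) (XT.nd (nat_lit 312) (nat_lit 1520) (nat_lit 0) (XT.nd (nat_lit 156) (nat_lit 0) (nat_lit 76) (XT.nd (nat_lit 78) (nat_lit 0) (nat_lit 76) (XT.lf (nat_lit 76) (nat_lit 7573925615) (nat_lit 0) (nat_lit 564770803) (nat_lit 1824) (nat_lit 6695938316) (nat_lit 473) (nat_lit 5) (nat_lit 472) (nat_lit 5) (nat_lit 496) (nat_lit 5) (nat_lit 591) (nat_lit 578) (nat_lit 391)) (XT.lf (nat_lit 76) (nat_lit 346282517) (nat_lit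 0) (nat_lit 8809482034) (nat_lit 1824) (nat_lit 5827651199) (nat_lit 474) (nat_lit 5) (nat_lit 473) (nat_lit 5) (nat_lit 497) (nat_lit 5) (nat_lit 592) (nat_lit 578) (nat_lit 390))) (XT.nd (nat_lit 78) (nat_lit 0) (nat_lit 76) (XT.lf (nat_lit 76) (nat_lit 8194285203) (nat_lit 0) (nat_lit 2043220513) (nat_lit 1824) (nat_lit 4896781294) (nat_lit 474) (nat_lit 5) (nat_lit 473) (nat_lit 5) (nat_lit 497) (nat_lit 5) (nat_lit 593) (nat_lit 578) (nat_lit 389)) (XT.lf (nat_lit 76) (nat_lit 885317709) (nat_lit 0) (nat_lit 10484922602) (nat_lit 1824) (nat_lit 3917349447) (nat_lit 475) (nat_lit 5) (nat_lit 474) (nat_lit 5) (nat_lit 498) (nat_lit 5) (nat_lit 594) (nat_lit 578) (nat_lit 388)))) (XT.nd (nat_lit 156) (nat_lit 1672) (nat_lit 0) (XT.nd (nat_lit 78) (nat_lit 0) (nat_lit 76) (XT.lf (nat_lit 76) (nat_lit 8941722484) (nat_lit 0) (nat_lit 3636105218) (nat_lit 1824) (nat_lit 2865088105) (nat_lit 475) (nat_lit 5) (nat_lit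 474) (nat_lit 5) (nat_lit 498) (nat_lit 5) (nat_lit 595) (nat_lit 578) (nat_lit 387)) (XT.lf (nat_lit 76) (nat_lit 1550658187) (nat_lit 0) (nat_lit 12283075926) (nat_lit 1824) (nat_lit 1767132102) (nat_lit 476) (nat_lit 5) (nat_lit 475) (nat_lit 5) (nat_lit 499) (nat_lit 5) (nat_lit 596) (nat_lit 578) (nat_lit 386))) (XT.nd (nat_lit 78) (nat_lit 1748) (nat_lit 0) (XT.lf (nat_lit 76) (nat_lit 9821472789) (nat_lit 0) (nat_lit 5353297339) (nat_lit 1824) (nat_lit 586006438) (nat_lit 476) (nat_lit 5) (nat_lit 475) (nat_lit 5) (nat_lit 499) (nat_lit 5) (nat_lit 597) (nat_lit 578) (nat_lit 385)) (XT.nd (nat_lit 78) (nat_lit 0) (nat_lit 0) (XT.lf (nat_lit 0) (nat_lit 629751442) (nat_lit 1824) (nat_lit 13580022086) (nat_lit 1900) (nat_lit 1713649874) (nat_lit 452) (nat_lit 5) (nat_lit 476) (nat_lit 5) (nat_lit 477) (nat_lit 5) (nat_lit 598) (nat_lit 578) (nat_lit 384)) (XT.lf (nat_lit 0) (nat_lit 1930237137) (nat_lit 1824)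 (nat_lit 5261759137) (nat_lit 1900) (nat_lit 8895885340) (nat_lit 452) (nat_lit 5) (nat_lit 476) (nat_lit 5) (nat_lit 477) (nat_lit 5) (nat_lit 599) (nat_lit 578) (nat_lit 383)))))) (XT.nd (nat_lit 390) (nat_lit 2888) (nat_lit 0) (XT.nd (nat_lit 156) (nat_lit 1520) (nat_lit 0) (XT.nd (nat_lit 78) (nat_lit 0) (nat_lit 76) (XT.lf (nat_lit 76) (nat_lit 3259832820) (nat_lit 0) (nat_lit 10888101) (nat_lit 1900) (nat_lit 12984629376) (nat_lit 453) (nat_lit 5) (nat_lit 452) (nat_lit 5) (nat_lit 477) (nat_lit 5) (nat_lit 600) (nat_lit 578) (nat_lit 382)) (XT.lf (nat_lit 0) (nat_lit 4713979042) (nat_lit 1824) (nat_lit 4455903728) (nat_lit 1900) (nat_lit 7254767342) (nat_lit 453) (nat_lit 5) (nat_lit 477) (nat_lit 5) (nat_lit 478) (nat_lit 5) (nat_lit 601) (nat_lit 578) (nat_lit 381))) (XT.nd (nat_lit 78) (nat_lit 1596) (nat_lit 0) (XT.lf (nat_lit 76) (nat_lit 4305105606) (nat_lit 0) (nat_lit 1902094286) (nat_lit 1900) (nat_lit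 10389715112) (nat_lit 454) (nat_lit 5) (nat_lit 453) (nat_lit 5) (nat_lit 478) (nat_lit 5) (nat_lit 602) (nat_lit 578) (nat_lit 380)) (XT.nd (nat_lit 78) (nat_lit 1672) (nat_lit 0) (XT.lf (nat_lit 0) (nat_lit 7789345381) (nat_lit 1824) (nat_lit 3512163821) (nat_lit 76) (nat_lit 5469935799) (nat_lit 454) (nat_lit 5) (nat_lit 478) (nat_lit 5) (nat_lit 455) (nat_lit 5) (nat_lit 603) (nat_lit 578) (nat_lit 379)) (XT.lf (nat_lit 0) (nat_lit 5496791666) (nat_lit 1672) (nat_lit 3947940666) (nat_lit 1748) (nat_lit 7503902286) (nat_lit 432) (nat_lit 5) (nat_lit 454) (nat_lit 5) (nat_lit 455) (nat_lit 5) (nat_lit 604) (nat_lit 578) (nat_lit 378))))) (XT.nd (nat_lit 156) (nat_lit 1900) (nat_lit 0) (XT.nd (nat_lit 78) (nat_lit 988) (nat_lit 0) (XT.lf (nat_lit 0) (nat_lit 11173430528) (nat_lit 1748) (nat_lit 2424462776) (nat_lit 76) (nat_lit 3530671626) (nat_lit 432) (nat_lit 5) (nat_lit 455) (nat_lit 5) (nat_lit 433) (nat_lit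 5) (nat_lit 605) (nat_lit 578) (nat_lit 377)) (XT.lf (nat_lit 0) (nat_lit 6841281471) (nat_lit 988) (nat_lit 6159526298) (nat_lit 1064) (nat_lit 4310004931) (nat_lit 419) (nat_lit 5) (nat_lit 432) (nat_lit 5) (nat_lit 433) (nat_lit 5) (nat_lit 606) (nat_lit 578) (nat_lit 376))) (XT.nd (nat_lit 78) (nat_lit 1900) (nat_lit 0) (XT.lf (nat_lit 0) (nat_lit 14884013988) (nat_lit 1064) (nat_lit 1186409371) (nat_lit 76) (nat_lit 1425897373) (nat_lit 419) (nat_lit 5) (nat_lit 433) (nat_lit 5) (nat_lit 420) (nat_lit 5) (nat_lit 607) (nat_lit 578) (nat_lit 375)) (XT.nd (nat_lit 78) (nat_lit 988) (nat_lit 0) (XT.lf (nat_lit 0) (nat_lit 8345290754) (nat_lit 912) (nat_lit 8548328389) (nat_lit 988) (nat_lit 790146001) (nat_lit 407) (nat_lit 5) (nat_lit 419) (nat_lit 5) (nat_lit 420) (nat_lit 5) (nat_lit 608) (nat_lit 578) (nat_lit 374)) (XT.lf (nat_lit 0) (nat_lit 198736319) (nat_lit 912) (nat_lit 858816856) (nat_lit 988) (nat_lit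 16817205242) (nat_lit 394) (nat_lit 5) (nat_lit 406) (nat_lit 5) (nat_lit 407) (nat_lit 5) (nat_lit 609) (nat_lit 578) (nat_lit 373))))))) (XT.nd (nat_lit 702) (nat_lit 4408) (nat_lit 0) (XT.nd (nat_lit 312) (nat_lit 1672) (nat_lit 0) (XT.nd (nat_lit 156) (nat_lit 836) (nat_lit 0) (XT.nd (nat_lit 78) (nat_lit 836) (nat_lit 0) (XT.lf (nat_lit 0) (nat_lit 3033955430) (nat_lit 988) (nat_lit 8071912602) (nat_lit 76) (nat_lit 6961553347) (nat_lit 394) (nat_lit 5) (nat_lit 407) (nat_lit 5) (nat_lit 395) (nat_lit 5) (nat_lit 610) (nat_lit 578) (nat_lit 372)) (XT.lf (nat_lit 0) (nat_lit 1735593970) (nat_lit 836) (nat_lit 3325257979) (nat_lit 912) (nat_lit 13202867172) (nat_lit 383) (nat_lit 5) (nat_lit 394) (nat_lit 5) (nat_lit 395) (nat_lit 5) (nat_lit 611) (nat_lit 578) (nat_lit 371))) (XT.nd (nat_lit 78) (nat_lit 836) (nat_lit 0) (XT.lf (nat_lit 0) (nat_lit 7206840919) (nat_lit 912) (nat_lit 6650330624) (nat_lit 76)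 (nat_lit 4605201017) (nat_lit 383) (nat_lit 5) (nat_lit 395) (nat_lit 5) (nat_lit 384) (nat_lit 5) (nat_lit 612) (nat_lit 578) (nat_lit 370)) (XT.lf (nat_lit 0) (nat_lit 3442418156) (nat_lit 836) (nat_lit 5991910977) (nat_lit 912) (nat_lit 9229899156) (nat_lit 372) (nat_lit 5) (nat_lit 383) (nat_lit 5) (nat_lit 384) (nat_lit 5) (nat_lit 613) (nat_lit 578) (nat_lit 369)))) (XT.nd (nat_lit 156) (nat_lit 912) (nat_lit 0) (XT.nd (nat_lit 78) (nat_lit 760) (nat_lit 0) (XT.lf (nat_lit 0) (nat_lit 11758758464) (nat_lit 912) (nat_lit 5061345192) (nat_lit 76) (nat_lit 2048970450) (nat_lit 372) (nat_lit 5) (nat_lit 384) (nat_lit 5) (nat_lit 373) (nat_lit 5) (nat_lit 614) (nat_lit 578) (nat_lit 368)) (XT.lf (nat_lit 0) (nat_lit 5326817935) (nat_lit 760) (nat_lit 8871521513) (nat_lit 836) (nat_lit 4878304909) (nat_lit 362) (nat_lit 5) (nat_lit 372) (nat_lit 5) (nat_lit 373) (nat_lit 5) (nat_lit 615) (nat_lit 578) (nat_lit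 367))) (XT.nd (nat_lit 78) (nat_lit 912) (nat_lit 0) (XT.lf (nat_lit 0) (nat_lit 15985697880) (nat_lit 760) (nat_lit 729447932) (nat_lit 836) (nat_lit 2572652295) (nat_lit 362) (nat_lit 5) (nat_lit 372) (nat_lit 5) (nat_lit 373) (nat_lit 5) (nat_lit 616) (nat_lit 578) (nat_lit 366)) (XT.nd (nat_lit 78) (nat_lit 76) (nat_lit 0) (XT.lf (nat_lit 0) (nat_lit 7396753435) (nat_lit 836) (nat_lit 11977321577) (nat_lit 912) (nat_lit 127264937) (nat_lit 351) (nat_lit 5) (nat_lit 362) (nat_lit 5) (nat_lit 363) (nat_lit 5) (nat_lit 617) (nat_lit 578) (nat_lit 365)) (XT.lf (nat_lit 0) (nat_lit 2357733321) (nat_lit 912) (nat_lit 1390397307) (nat_lit 76) (nat_lit 15970280411) (nat_lit 350) (nat_lit 5) (nat_lit 362) (nat_lit 5) (nat_lit 351) (nat_lit 5) (nat_lit 618) (nat_lit 578) (nat_lit 364)))))) (XT.nd (nat_lit 390) (nat_lit 2204) (nat_lit 0) (XT.nd (nat_lit 156) (nat_lit 684) (nat_lit 0) (XT.nd (nat_lit 78) (nat_lit 760)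 (nat_lit 0) (XT.lf (nat_lit 0) (nat_lit 4978735400) (nat_lit 836) (nat_lit 10310912404) (nat_lit 76) (nat_lit 4648399474) (nat_lit 340) (nat_lit 5) (nat_lit 351) (nat_lit 5) (nat_lit 341) (nat_lit 5) (nat_lit 619) (nat_lit 578) (nat_lit 363)) (XT.lf (nat_lit 0) (nat_lit 700638690) (nat_lit 760) (nat_lit 6985064018) (nat_lit 836) (nat_lit 12475703322) (nat_lit 330) (nat_lit 5) (nat_lit 340) (nat_lit 5) (nat_lit 341) (nat_lit 5) (nat_lit 620) (nat_lit 578) (nat_lit 362))) (XT.nd (nat_lit 78) (nat_lit 684) (nat_lit 0) (XT.lf (nat_lit 0) (nat_lit 10520949827) (nat_lit 836) (nat_lit 8331469385) (nat_lit 76) (nat_lit 1535330618) (nat_lit 330) (nat_lit 5) (nat_lit 341) (nat_lit 5) (nat_lit 331) (nat_lit 5) (nat_lit 621) (nat_lit 578) (nat_lit 361)) (XT.nd (nat_lit 78) (nat_lit 0) (nat_lit 0) (XT.lf (nat_lit 0) (nat_lit 3008012930) (nat_lit 684) (nat_lit 10465623771) (nat_lit 760) (nat_lit 7143769777) (nat_lit 321) (nat_lit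 5) (nat_lit 330) (nat_lit 5) (nat_lit 331) (nat_lit 5) (nat_lit 622) (nat_lit 578) (nat_lit 360)) (XT.lf (nat_lit 0) (nat_lit 14681663423) (nat_lit 684) (nat_lit 1854631546) (nat_lit 760) (nat_lit 4314343588) (nat_lit 321) (nat_lit 5) (nat_lit 330) (nat_lit 5) (nat_lit 331) (nat_lit 5) (nat_lit 623) (nat_lit 578) (nat_lit 359))))) (XT.nd (nat_lit 156) (nat_lit 1368) (nat_lit 0) (XT.nd (nat_lit 78) (nat_lit 76) (nat_lit 0) (XT.lf (nat_lit 0) (nat_lit 5522147995) (nat_lit 760) (nat_lit 14214000169) (nat_lit 836) (nat_lit 1350868922) (nat_lit 311) (nat_lit 5) (nat_lit 321) (nat_lit 5) (nat_lit 322) (nat_lit 5) (nat_lit 624) (nat_lit 578) (nat_lit 358)) (XT.lf (nat_lit 0) (nat_lit 1699032828) (nat_lit 836) (nat_lit 3825562510) (nat_lit 76) (nat_lit 15802329676) (nat_lit 310) (nat_lit 5) (nat_lit 321) (nat_lit 5) (nat_lit 311) (nat_lit 5) (nat_lit 625) (nat_lit 578) (nat_lit 357))) (XT.nd (nat_lit 78) (nat_lit 684)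 (nat_lit 0) (XT.lf (nat_lit 0) (nat_lit 4862687364) (nat_lit 760) (nat_lit 13350343571) (nat_lit 76) (nat_lit 3357005326) (nat_lit 301) (nat_lit 5) (nat_lit 311) (nat_lit 5) (nat_lit 302) (nat_lit 5) (nat_lit 626) (nat_lit 578) (nat_lit 356)) (XT.nd (nat_lit 78) (nat_lit 684) (nat_lit 0) (XT.lf (nat_lit 0) (nat_lit 8147323469) (nat_lit 760) (nat_lit 1302060164) (nat_lit 76) (nat_lit 12367472524) (nat_lit 301) (nat_lit 5) (nat_lit 311) (nat_lit 5) (nat_lit 302) (nat_lit 5) (nat_lit 627) (nat_lit 578) (nat_lit 355)) (XT.lf (nat_lit 0) (nat_lit 11127722534) (nat_lit 684) (nat_lit 437551068) (nat_lit 760) (nat_lit 10501987003) (nat_lit 292) (nat_lit 5) (nat_lit 301) (nat_lit 5) (nat_lit 302) (nat_lit 5) (nat_lit 628) (nat_lit 578) (nat_lit 354))))))))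
noncomputable def xc206 : XT := (XT.nd (nat_lit 77376) (nat_lit 0) (nat_lit 19304) (XT.nd (nat_lit 702) (nat_lit 2888) (nat_lit 0) (XT.nd (nat_lit 312) (nat_lit 1748) (nat_lit 0) (XT.nd (nat_lit 156) (nat_lit 760) (nat_lit 0) (XT.nd (nat_lit 78) (nat_lit 0) (nat_lit 0) (XT.lf (nat_lit 0) (nat_lit 1458016739) (nat_lit 608) (nat_lit 13664091316) (nat_lit 684) (nat_lit 7199155150) (nat_lit 284) (nat_lit 5) (nat_lit 292) (nat_lit 5) (nat_lit 293) (nat_lit 5) (nat_lit 629) (nat_lit 578) (nat_lit 353)) (XT.lf (nat_lit 0) (nat_lit 14243451014) (nat_lit 608) (nat_lit 4578394783) (nat_lit 684) (nat_lit 3757065287) (nat_lit 284) (nat_lit 5) (nat_lit 292) (nat_lit 5) (nat_lit 293) (nat_lit 5) (nat_lit 630) (nat_lit 578) (nat_lit 352))) (XT.nd (nat_lit 78) (nat_lit 76) (nat_lit 0) (XT.lf (nat_lit 0) (nat_lit 4465604173) (nat_lit 684) (nat_lit 18184972830) (nat_lit 760) (nat_lit 190035491) (nat_lit 275) (nat_lit 5) (nat_lit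 284) (nat_lit 5) (nat_lit 285) (nat_lit 5) (nat_lit 631) (nat_lit 578) (nat_lit 351)) (XT.lf (nat_lit 0) (nat_lit 3485319090) (nat_lit 760) (nat_lit 5529254541) (nat_lit 76) (nat_lit 14090882855) (nat_lit 274) (nat_lit 5) (nat_lit 284) (nat_lit 5) (nat_lit 275) (nat_lit 5) (nat_lit 632) (nat_lit 578) (nat_lit 350)))) (XT.nd (nat_lit 156) (nat_lit 1140) (nat_lit 0) (XT.nd (nat_lit 78) (nat_lit 0) (nat_lit 0) (XT.lf (nat_lit 0) (nat_lit 7279624589) (nat_lit 684) (nat_lit 15709800910) (nat_lit 76) (nat_lit 385187485) (nat_lit 266) (nat_lit 5) (nat_lit 275) (nat_lit 5) (nat_lit 267) (nat_lit 5) (nat_lit 633) (nat_lit 578) (nat_lit 349)) (XT.lf (nat_lit 0) (nat_lit 11242579441) (nat_lit 684) (nat_lit 2516007681) (nat_lit 76) (nat_lit 9888710730) (nat_lit 266) (nat_lit 5) (nat_lit 275) (nat_lit 5) (nat_lit 267) (nat_lit 5) (nat_lit 634) (nat_lit 578) (nat_lit 348))) (XT.nd (nat_lit 78) (nat_lit 532) (nat_lit 0) (XT.lf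 (nat_lit 0) (nat_lit 11081742824) (nat_lit 608) (nat_lit 4270798775) (nat_lit 684) (nat_lit 8571540349) (nat_lit 258) (nat_lit 5) (nat_lit 266) (nat_lit 5) (nat_lit 267) (nat_lit 5) (nat_lit 635) (nat_lit 578) (nat_lit 347)) (XT.nd (nat_lit 78) (nat_lit 0) (nat_lit 0) (XT.lf (nat_lit 0) (nat_lit 748794359) (nat_lit 532) (nat_lit 18848709755) (nat_lit 608) (nat_lit 4607842078) (nat_lit 251) (nat_lit 5) (nat_lit 258) (nat_lit 5) (nat_lit 259) (nat_lit 5) (nat_lit 636) (nat_lit 578) (nat_lit 346)) (XT.lf (nat_lit 0) (nat_lit 14751907703) (nat_lit 532) (nat_lit 9285621500) (nat_lit 608) (nat_lit 452503728) (nat_lit 251) (nat_lit 5) (nat_lit 258) (nat_lit 5) (nat_lit 259) (nat_lit 5) (nat_lit 637) (nat_lit 578) (nat_lit 345)))))) (XT.nd (nat_lit 390) (nat_lit 1140) (nat_lit 0) (XT.nd (nat_lit 156) (nat_lit 1064) (nat_lit 0) (XT.nd (nat_lit 78) (nat_lit 0) (nat_lit 0) (XT.lf (nat_lit 0) (nat_lit 3763406541) (nat_lit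 684) (nat_lit 20501810736) (nat_lit 76) (nat_lit 514162599) (nat_lit 242) (nat_lit 5) (nat_lit 251) (nat_lit 5) (nat_lit 243) (nat_lit 5) (nat_lit 638) (nat_lit 578) (nat_lit 344)) (XT.lf (nat_lit 0) (nat_lit 8180835508) (nat_lit 684) (nat_lit 6437805000) (nat_lit 76) (nat_lit 10453348690) (nat_lit 242) (nat_lit 5) (nat_lit 251) (nat_lit 5) (nat_lit 243) (nat_lit 5) (nat_lit 639) (nat_lit 578) (nat_lit 343))) (XT.nd (nat_lit 78) (nat_lit 532) (nat_lit 0) (XT.lf (nat_lit 0) (nat_lit 8007346898) (nat_lit 532) (nat_lit 4727312966) (nat_lit 608) (nat_lit 12634830347) (nat_lit 235) (nat_lit 5) (nat_lit 242) (nat_lit 5) (nat_lit 243) (nat_lit 5) (nat_lit 640) (nat_lit 578) (nat_lit 342)) (XT.nd (nat_lit 78) (nat_lit 532) (nat_lit 0) (XT.lf (nat_lit 0) (nat_lit 17453954447) (nat_lit 608) (nat_lit 2883696305) (nat_lit 76) (nat_lit 5333803048) (nat_lit 235) (nat_lit 5) (nat_lit 243) (nat_lit 5) (nat_lit 236) (nat_lit 5)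 (nat_lit 641) (nat_lit 578) (nat_lit 341)) (XT.lf (nat_lit 0) (nat_lit 12005379042) (nat_lit 532) (nat_lit 10367680012) (nat_lit 608) (nat_lit 3604289547) (nat_lit 228) (nat_lit 5) (nat_lit 235) (nat_lit 5) (nat_lit 236) (nat_lit 5) (nat_lit 642) (nat_lit 578) (nat_lit 340))))) (XT.nd (nat_lit 156) (nat_lit 532) (nat_lit 0) (XT.nd (nat_lit 78) (nat_lit 0) (nat_lit 0) (XT.lf (nat_lit 0) (nat_lit 942327696) (nat_lit 532) (nat_lit 166199344) (nat_lit 608) (nat_lit 25180255978) (nat_lit 220) (nat_lit 5) (nat_lit 227) (nat_lit 5) (nat_lit 228) (nat_lit 5) (nat_lit 643) (nat_lit 578) (nat_lit 339)) (XT.lf (nat_lit 0) (nat_lit 6024464955) (nat_lit 608) (nat_lit 10356375106) (nat_lit 76) (nat_lit 10221987445) (nat_lit 220) (nat_lit 5) (nat_lit 228) (nat_lit 5) (nat_lit 221) (nat_lit 5) (nat_lit 644) (nat_lit 578) (nat_lit 338))) (XT.nd (nat_lit 78) (nat_lit 0) (nat_lit 0) (XT.lf (nat_lit 0) (nat_lit 4992850935) (nat_lit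 532) (nat_lit 6075683081) (nat_lit 608) (nat_lit 15854023010) (nat_lit 213) (nat_lit 5) (nat_lit 220) (nat_lit 5) (nat_lit 221) (nat_lit 5) (nat_lit 645) (nat_lit 578) (nat_lit 337)) (XT.nd (nat_lit 75972) (nat_lit 0) (nat_lit 19304) (XT.lf (nat_lit 0) (nat_lit 16308566435) (nat_lit 608) (nat_lit 6492174375) (nat_lit 76) (nat_lit 4446039072) (nat_lit 213) (nat_lit 5) (nat_lit 221) (nat_lit 5) (nat_lit 214) (nat_lit 5) (nat_lit 646) (nat_lit 578) (nat_lit 336)) (XT.lf (nat_lit 0) (nat_lit 55858206) (nat_lit 0) (nat_lit 55858206) (nat_lit 1748) (nat_lit 6555900147) (nat_lit 467) (nat_lit 5) (nat_lit 467) (nat_lit 3) (nat_lit 490) (nat_lit 3) (nat_lit 579) (nat_lit 579) (nat_lit 402))))))) (XT.nd (nat_lit 702) (nat_lit 0) (nat_lit 304) (XT.nd (nat_lit 312) (nat_lit 0) (nat_lit 152) (XT.nd (nat_lit 156) (nat_lit 0) (nat_lit 76) (XT.nd (nat_lit 78) (nat_lit 0) (nat_lit 0) (XT.lf (nat_lit 0) (nat_lit 646331655) (nat_lit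 1748) (nat_lit 6725810827) (nat_lit 1824) (nat_lit 6087970058) (nat_lit 467) (nat_lit 5) (nat_lit 490) (nat_lit 3) (nat_lit 491) (nat_lit 5) (nat_lit 580) (nat_lit 579) (nat_lit 401)) (XT.lf (nat_lit 0) (nat_lit 1068477122) (nat_lit 1748) (nat_lit 104116113) (nat_lit 1824) (nat_lit 12415082103) (nat_lit 467) (nat_lit 5) (nat_lit 490) (nat_lit 3) (nat_lit 491) (nat_lit 5) (nat_lit 581) (nat_lit 579) (nat_lit 400))) (XT.nd (nat_lit 78) (nat_lit 0) (nat_lit 0) (XT.lf (nat_lit 0) (nat_lit 1566788775) (nat_lit 1748) (nat_lit 7017678082) (nat_lit 1824) (nat_lit 5131969604) (nat_lit 468) (nat_lit 5) (nat_lit 491) (nat_lit 5) (nat_lit 492) (nat_lit 5) (nat_lit 582) (nat_lit 579) (nat_lit 399)) (XT.lf (nat_lit 0) (nat_lit 2073966945) (nat_lit 1748) (nat_lit 221739304) (nat_lit 1824) (nat_lit 11552090055) (nat_lit 468) (nat_lit 5) (nat_lit 491) (nat_lit 5) (nat_lit 492) (nat_lit 5) (nat_lit 583) (nat_lit 579) (nat_lit 398))))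 (XT.nd (nat_lit 156) (nat_lit 0) (nat_lit 76) (XT.nd (nat_lit 78) (nat_lit 0) (nat_lit 0) (XT.lf (nat_lit 0) (nat_lit 2653080409) (nat_lit 1748) (nat_lit 7214136478) (nat_lit 1824) (nat_lit 4113332095) (nat_lit 469) (nat_lit 5) (nat_lit 492) (nat_lit 5) (nat_lit 493) (nat_lit 5) (nat_lit 584) (nat_lit 579) (nat_lit 397)) (XT.lf (nat_lit 0) (nat_lit 3251273109) (nat_lit 1748) (nat_lit 239193065) (nat_lit 1824) (nat_lit 10625342045) (nat_lit 469) (nat_lit 5) (nat_lit 492) (nat_lit 5) (nat_lit 493) (nat_lit 5) (nat_lit 585) (nat_lit 579) (nat_lit 396))) (XT.nd (nat_lit 78) (nat_lit 0) (nat_lit 0) (XT.lf (nat_lit 0) (nat_lit 3917494413) (nat_lit 1748) (nat_lit 7311674823) (nat_lit 1824) (nat_lit 3023483527) (nat_lit 470) (nat_lit 5) (nat_lit 493) (nat_lit 5) (nat_lit 494) (nat_lit 5) (nat_lit 586) (nat_lit 579) (nat_lit 395)) (XT.nd (nat_lit 78) (nat_lit 0) (nat_lit 76) (XT.lf (nat_lit 0) (nat_lit 4612914282) (nat_lit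 1748) (nat_lit 152781952) (nat_lit 1824) (nat_lit 9626221868) (nat_lit 470) (nat_lit 5) (nat_lit 493) (nat_lit 5) (nat_lit 494) (nat_lit 5) (nat_lit 587) (nat_lit 579) (nat_lit 394)) (XT.lf (nat_lit 0) (nat_lit 5372753955) (nat_lit 1748) (nat_lit 7306512487) (nat_lit 1824) (nat_lit 1853693440) (nat_lit 471) (nat_lit 5) (nat_lit 494) (nat_lit 5) (nat_lit 495) (nat_lit 5) (nat_lit 588) (nat_lit 579) (nat_lit 393)))))) (XT.nd (nat_lit 390) (nat_lit 0) (nat_lit 152) (XT.nd (nat_lit 156) (nat_lit 0) (nat_lit 76) (XT.nd (nat_lit 78) (nat_lit 0) (nat_lit 76) (XT.lf (nat_lit 76) (nat_lit 42014050) (nat_lit 0) (nat_lit 6130115353) (nat_lit 1824) (nat_lit 8504207650) (nat_lit 472) (nat_lit 5) (nat_lit 471) (nat_lit 5) (nat_lit 495) (nat_lit 5) (nat_lit 589) (nat_lit 579) (nat_lit 392)) (XT.lf (nat_lit 0) (nat_lit 7032042712) (nat_lit 1748) (nat_lit 7194595808) (nat_lit 1824) (nat_lit 595053550) (nat_lit 472) (nat_lit 5)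 (nat_lit 495) (nat_lit 5) (nat_lit 496) (nat_lit 5) (nat_lit 590) (nat_lit 579) (nat_lit 391))) (XT.nd (nat_lit 78) (nat_lit 0) (nat_lit 0) (XT.lf (nat_lit 76) (nat_lit 352410204) (nat_lit 0) (nat_lit 7591417202) (nat_lit 1824) (nat_lit 7025434601) (nat_lit 473) (nat_lit 5) (nat_lit 472) (nat_lit 5) (nat_lit 496) (nat_lit 5) (nat_lit 591) (nat_lit 579) (nat_lit 390)) (XT.nd (nat_lit 78) (nat_lit 0) (nat_lit 76) (XT.lf (nat_lit 76) (nat_lit 8142376570) (nat_lit 0) (nat_lit 771664273) (nat_lit 1824) (nat_lit 6204939895) (nat_lit 473) (nat_lit 5) (nat_lit 472) (nat_lit 5) (nat_lit 496) (nat_lit 5) (nat_lit 592) (nat_lit 579) (nat_lit 389)) (XT.lf (nat_lit 76) (nat_lit 780964430) (nat_lit 0) (nat_lit 9160006949) (nat_lit 1824) (nat_lit 5329977444) (nat_lit 474) (nat_lit 5) (nat_lit 473) (nat_lit 5) (nat_lit 497) (nat_lit 5) (nat_lit 593) (nat_lit 579) (nat_lit 388))))) (XT.nd (nat_lit 156) (nat_lit 0) (nat_lit 76)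 (XT.nd (nat_lit 78) (nat_lit 0) (nat_lit 76) (XT.lf (nat_lit 76) (nat_lit 8777539792) (nat_lit 0) (nat_lit 2255001859) (nat_lit 1824) (nat_lit 4392533803) (nat_lit 474) (nat_lit 5) (nat_lit 473) (nat_lit 5) (nat_lit 497) (nat_lit 5) (nat_lit 594) (nat_lit 579) (nat_lit 387)) (XT.lf (nat_lit 76) (nat_lit 1332555372) (nat_lit 0) (nat_lit 10845502188) (nat_lit 1824) (nat_lit 3403585959) (nat_lit 475) (nat_lit 5) (nat_lit 474) (nat_lit 5) (nat_lit 498) (nat_lit 5) (nat_lit 595) (nat_lit 579) (nat_lit 386))) (XT.nd (nat_lit 78) (nat_lit 0) (nat_lit 76) (XT.lf (nat_lit 76) (nat_lit 9541666060) (nat_lit 0) (nat_lit 3856750002) (nat_lit 1824) (nat_lit 2341889399) (nat_lit 475) (nat_lit 5) (nat_lit 474) (nat_lit 5) (nat_lit 498) (nat_lit 5) (nat_lit 596) (nat_lit 579) (nat_lit 385)) (XT.nd (nat_lit 78) (nat_lit 0) (nat_lit 0) (XT.lf (nat_lit 76) (nat_lit 2012357325) (nat_lit 0) (nat_lit 12657780510) (nat_lit 1824) (nat_lit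 1231464826) (nat_lit 476) (nat_lit 5) (nat_lit 475) (nat_lit 5) (nat_lit 499) (nat_lit 5) (nat_lit 597) (nat_lit 579) (nat_lit 384)) (XT.lf (nat_lit 76) (nat_lit 10440143396) (nat_lit 0) (nat_lit 5586876095) (nat_lit 1824) (nat_lit 37912921) (nat_lit 476) (nat_lit 5) (nat_lit 475) (nat_lit 5) (nat_lit 499) (nat_lit 5) (nat_lit 598) (nat_lit 579) (nat_lit 383))))))))
noncomputable def xc207 : XT := (XT.nd (nat_lit 1482) (nat_lit 7904) (nat_lit 0) (XT.nd (nat_lit 702) (nat_lit 4332) (nat_lit 0) (XT.nd (nat_lit 312) (nat_lit 2508) (nat_lit 0) (XT.nd (nat_lit 156) (nat_lit 0) (nat_lit 0) (XT.nd (nat_lit 78) (nat_lit 0) (nat_lit 0) (XT.lf (nat_lit 0) (nat_lit 1185993261) (nat_lit 1824) (nat_lit 13413050253) (nat_lit 1900) (nat_lit 1631894100) (nat_lit 452) (nat_lit 5) (nat_lit 476) (nat_lit 5) (nat_lit 477) (nat_lit 5) (nat_lit 599) (nat_lit 579) (nat_lit 382)) (XT.lf (nat_lit 0) (nat_lit 2501828928) (nat_lit 1824)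 (nat_lit 4937021501) (nat_lit 1900) (nat_lit 8960049349) (nat_lit 452) (nat_lit 5) (nat_lit 476) (nat_lit 5) (nat_lit 477) (nat_lit 5) (nat_lit 600) (nat_lit 579) (nat_lit 381))) (XT.nd (nat_lit 78) (nat_lit 0) (nat_lit 76) (XT.lf (nat_lit 76) (nat_lit 3752173526) (nat_lit 0) (nat_lit 109271438) (nat_lit 1900) (nat_lit 12708427983) (nat_lit 453) (nat_lit 5) (nat_lit 452) (nat_lit 5) (nat_lit 477) (nat_lit 5) (nat_lit 601) (nat_lit 579) (nat_lit 380)) (XT.lf (nat_lit 0) (nat_lit 5322643200) (nat_lit 1824) (nat_lit 4115251448) (nat_lit 1900) (nat_lit 7304884144) (nat_lit 453) (nat_lit 5) (nat_lit 477) (nat_lit 5) (nat_lit 478) (nat_lit 5) (nat_lit 602) (nat_lit 579) (nat_lit 379)))) (XT.nd (nat_lit 156) (nat_lit 2584) (nat_lit 0) (XT.nd (nat_lit 78) (nat_lit 0) (nat_lit 76) (XT.lf (nat_lit 76) (nat_lit 4818150636) (nat_lit 0) (nat_lit 2020263856) (nat_lit 1900) (nat_lit 10080222272) (nat_lit 454) (nat_lit 5) (nat_lit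 453) (nat_lit 5) (nat_lit 478) (nat_lit 5) (nat_lit 603) (nat_lit 579) (nat_lit 378)) (XT.lf (nat_lit 0) (nat_lit 8441750288) (nat_lit 1824) (nat_lit 3153309353) (nat_lit 76) (nat_lit 5501808245) (nat_lit 454) (nat_lit 5) (nat_lit 478) (nat_lit 5) (nat_lit 455) (nat_lit 5) (nat_lit 604) (nat_lit 579) (nat_lit 377))) (XT.nd (nat_lit 78) (nat_lit 988) (nat_lit 0) (XT.lf (nat_lit 0) (nat_lit 6033002233) (nat_lit 1672) (nat_lit 4090272796) (nat_lit 1748) (nat_lit 7154467110) (nat_lit 432) (nat_lit 5) (nat_lit 454) (nat_lit 5) (nat_lit 455) (nat_lit 5) (nat_lit 605) (nat_lit 579) (nat_lit 376)) (XT.nd (nat_lit 78) (nat_lit 988) (nat_lit 0) (XT.lf (nat_lit 0) (nat_lit 11876542853) (nat_lit 1748) (nat_lit 2044960496) (nat_lit 76) (nat_lit 3539969211) (nat_lit 432) (nat_lit 5) (nat_lit 455) (nat_lit 5) (nat_lit 433) (nat_lit 5) (nat_lit 606) (nat_lit 579) (nat_lit 375)) (XT.lf (nat_lit 0) (nat_lit 7403282903) (nat_lit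 988) (nat_lit 6330540481) (nat_lit 1064) (nat_lit 3913676175) (nat_lit 419) (nat_lit 5) (nat_lit 432) (nat_lit 5) (nat_lit 433) (nat_lit 5) (nat_lit 607) (nat_lit 579) (nat_lit 374)))))) (XT.nd (nat_lit 390) (nat_lit 1596) (nat_lit 0) (XT.nd (nat_lit 156) (nat_lit 1824) (nat_lit 0) (XT.nd (nat_lit 78) (nat_lit 912) (nat_lit 0) (XT.lf (nat_lit 0) (nat_lit 15645114813) (nat_lit 1064) (nat_lit 783651577) (nat_lit 76) (nat_lit 1408144300) (nat_lit 419) (nat_lit 5) (nat_lit 433) (nat_lit 5) (nat_lit 420) (nat_lit 5) (nat_lit 608) (nat_lit 579) (nat_lit 373)) (XT.lf (nat_lit 0) (nat_lit 8935876721) (nat_lit 912) (nat_lit 8752699485) (nat_lit 988) (nat_lit 339655835) (nat_lit 407) (nat_lit 5) (nat_lit 419) (nat_lit 5) (nat_lit 420) (nat_lit 5) (nat_lit 609) (nat_lit 579) (nat_lit 372))) (XT.nd (nat_lit 78) (nat_lit 836) (nat_lit 0) (XT.lf (nat_lit 0) (nat_lit 629744085) (nat_lit 912) (nat_lit 902887213) (nat_lit 988)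 (nat_lit 16690479625) (nat_lit 394) (nat_lit 5) (nat_lit 406) (nat_lit 5) (nat_lit 407) (nat_lit 5) (nat_lit 610) (nat_lit 579) (nat_lit 371)) (XT.nd (nat_lit 78) (nat_lit 836) (nat_lit 0) (XT.lf (nat_lit 0) (nat_lit 3539489878) (nat_lit 988) (nat_lit 7805556427) (nat_lit 76) (nat_lit 7074763532) (nat_lit 394) (nat_lit 5) (nat_lit 407) (nat_lit 5) (nat_lit 395) (nat_lit 5) (nat_lit 611) (nat_lit 579) (nat_lit 370)) (XT.lf (nat_lit 0) (nat_lit 2195285840) (nat_lit 836) (nat_lit 3405675086) (nat_lit 912) (nat_lit 13019193108) (nat_lit 383) (nat_lit 5) (nat_lit 394) (nat_lit 5) (nat_lit 395) (nat_lit 5) (nat_lit 612) (nat_lit 579) (nat_lit 369))))) (XT.nd (nat_lit 156) (nat_lit 760) (nat_lit 0) (XT.nd (nat_lit 78) (nat_lit 836) (nat_lit 0) (XT.lf (nat_lit 0) (nat_lit 7781175396) (nat_lit 912) (nat_lit 6357935486) (nat_lit 76) (nat_lit 4683844753) (nat_lit 383) (nat_lit 5) (nat_lit 395) (nat_lit 5) (nat_lit 384) (nat_lit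 5) (nat_lit 613) (nat_lit 579) (nat_lit 368)) (XT.lf (nat_lit 0) (nat_lit 3933869574) (nat_lit 836) (nat_lit 6113652372) (nat_lit 912) (nat_lit 8981441547) (nat_lit 372) (nat_lit 5) (nat_lit 383) (nat_lit 5) (nat_lit 384) (nat_lit 5) (nat_lit 614) (nat_lit 579) (nat_lit 367))) (XT.nd (nat_lit 78) (nat_lit 760) (nat_lit 0) (XT.lf (nat_lit 0) (nat_lit 12410104097) (nat_lit 912) (nat_lit 4739861533) (nat_lit 76) (nat_lit 2088108472) (nat_lit 372) (nat_lit 5) (nat_lit 384) (nat_lit 5) (nat_lit 373) (nat_lit 5) (nat_lit 615) (nat_lit 579) (nat_lit 366)) (XT.nd (nat_lit 78) (nat_lit 0) (nat_lit 0) (XT.lf (nat_lit 0) (nat_lit 5853283866) (nat_lit 760) (nat_lit 9039759092) (nat_lit 836) (nat_lit 4556862616) (nat_lit 362) (nat_lit 5) (nat_lit 372) (nat_lit 5) (nat_lit 373) (nat_lit 5) (nat_lit 616) (nat_lit 579) (nat_lit 365)) (XT.lf (nat_lit 0) (nat_lit 16717107496) (nat_lit 760) (nat_lit 735024291) (nat_lit 836) (nat_lit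 2213312800) (nat_lit 362) (nat_lit 5) (nat_lit 372) (nat_lit 5) (nat_lit 373) (nat_lit 5) (nat_lit 617) (nat_lit 579) (nat_lit 364))))))) (XT.nd (nat_lit 702) (nat_lit 3952) (nat_lit 0) (XT.nd (nat_lit 312) (nat_lit 1520) (nat_lit 0) (XT.nd (nat_lit 156) (nat_lit 1520) (nat_lit 0) (XT.nd (nat_lit 78) (nat_lit 0) (nat_lit 0) (XT.lf (nat_lit 0) (nat_lit 272131077) (nat_lit 912) (nat_lit 11923477679) (nat_lit 76) (nat_lit 7687716418) (nat_lit 350) (nat_lit 5) (nat_lit 362) (nat_lit 5) (nat_lit 351) (nat_lit 5) (nat_lit 618) (nat_lit 579) (nat_lit 363)) (XT.lf (nat_lit 0) (nat_lit 2797278996) (nat_lit 912) (nat_lit 1004129027) (nat_lit 76) (nat_lit 16303470816) (nat_lit 350) (nat_lit 5) (nat_lit 362) (nat_lit 5) (nat_lit 351) (nat_lit 5) (nat_lit 619) (nat_lit 579) (nat_lit 362))) (XT.nd (nat_lit 78) (nat_lit 760) (nat_lit 0) (XT.lf (nat_lit 0) (nat_lit 5465833667) (nat_lit 836) (nat_lit 10098135405) (nat_lit 76) (nat_lit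 4765037109) (nat_lit 340) (nat_lit 5) (nat_lit 351) (nat_lit 5) (nat_lit 341) (nat_lit 5) (nat_lit 620) (nat_lit 579) (nat_lit 361)) (XT.lf (nat_lit 0) (nat_lit 1130890163) (nat_lit 760) (nat_lit 7091154155) (nat_lit 836) (nat_lit 12334886723) (nat_lit 330) (nat_lit 5) (nat_lit 340) (nat_lit 5) (nat_lit 341) (nat_lit 5) (nat_lit 621) (nat_lit 579) (nat_lit 360)))) (XT.nd (nat_lit 156) (nat_lit 836) (nat_lit 0) (XT.nd (nat_lit 78) (nat_lit 684) (nat_lit 0) (XT.lf (nat_lit 0) (nat_lit 11106707825) (nat_lit 836) (nat_lit 8082683495) (nat_lit 76) (nat_lit 1598557159) (nat_lit 330) (nat_lit 5) (nat_lit 341) (nat_lit 5) (nat_lit 331) (nat_lit 5) (nat_lit 622) (nat_lit 579) (nat_lit 359)) (XT.lf (nat_lit 0) (nat_lit 3480855470) (nat_lit 684) (nat_lit 10632912784) (nat_lit 760) (nat_lit 6908524580) (nat_lit 321) (nat_lit 5) (nat_lit 330) (nat_lit 5) (nat_lit 331) (nat_lit 5) (nat_lit 623) (nat_lit 579) (nat_lit 358)))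 (XT.nd (nat_lit 78) (nat_lit 836) (nat_lit 0) (XT.lf (nat_lit 0) (nat_lit 15379887165) (nat_lit 684) (nat_lit 1850524705) (nat_lit 760) (nat_lit 4029923997) (nat_lit 321) (nat_lit 5) (nat_lit 330) (nat_lit 5) (nat_lit 331) (nat_lit 5) (nat_lit 624) (nat_lit 579) (nat_lit 357)) (XT.nd (nat_lit 78) (nat_lit 76) (nat_lit 0) (XT.lf (nat_lit 0) (nat_lit 6041521249) (nat_lit 760) (nat_lit 14448532862) (nat_lit 836) (nat_lit 1011472950) (nat_lit 311) (nat_lit 5) (nat_lit 321) (nat_lit 5) (nat_lit 322) (nat_lit 5) (nat_lit 625) (nat_lit 579) (nat_lit 356)) (XT.lf (nat_lit 0) (nat_lit 2087530910) (nat_lit 836) (nat_lit 3496405463) (nat_lit 76) (nat_lit 16162391898) (nat_lit 310) (nat_lit 5) (nat_lit 321) (nat_lit 5) (nat_lit 311) (nat_lit 5) (nat_lit 626) (nat_lit 579) (nat_lit 355)))))) (XT.nd (nat_lit 390) (nat_lit 1976) (nat_lit 0) (XT.nd (nat_lit 156) (nat_lit 1292) (nat_lit 0) (XT.nd (nat_lit 78) (nat_lit 0) (nat_lit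 0) (XT.lf (nat_lit 0) (nat_lit 5310466675) (nat_lit 760) (nat_lit 13207646270) (nat_lit 76) (nat_lit 3476269515) (nat_lit 301) (nat_lit 5) (nat_lit 311) (nat_lit 5) (nat_lit 302) (nat_lit 5) (nat_lit 627) (nat_lit 579) (nat_lit 354)) (XT.lf (nat_lit 0) (nat_lit 8653922452) (nat_lit 760) (nat_lit 926430610) (nat_lit 76) (nat_lit 12665924016) (nat_lit 301) (nat_lit 5) (nat_lit 311) (nat_lit 5) (nat_lit 302) (nat_lit 5) (nat_lit 628) (nat_lit 579) (nat_lit 353))) (XT.nd (nat_lit 78) (nat_lit 608) (nat_lit 0) (XT.lf (nat_lit 0) (nat_lit 11749305171) (nat_lit 684) (nat_lit 386778888) (nat_lit 760) (nat_lit 10365689353) (nat_lit 292) (nat_lit 5) (nat_lit 301) (nat_lit 5) (nat_lit 302) (nat_lit 5) (nat_lit 629) (nat_lit 579) (nat_lit 352)) (XT.nd (nat_lit 78) (nat_lit 0) (nat_lit 0) (XT.lf (nat_lit 0) (nat_lit 1889983609) (nat_lit 608) (nat_lit 13870408805) (nat_lit 684) (nat_lit 7000537735) (nat_lit 284) (nat_lit 5)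 (nat_lit 292) (nat_lit 5) (nat_lit 293) (nat_lit 5) (nat_lit 630) (nat_lit 579) (nat_lit 351)) (XT.lf (nat_lit 0) (nat_lit 14923228402) (nat_lit 608) (nat_lit 4604311368) (nat_lit 684) (nat_lit 3496323732) (nat_lit 284) (nat_lit 5) (nat_lit 292) (nat_lit 5) (nat_lit 293) (nat_lit 5) (nat_lit 631) (nat_lit 579) (nat_lit 350))))) (XT.nd (nat_lit 156) (nat_lit 1216) (nat_lit 0) (XT.nd (nat_lit 78) (nat_lit 0) (nat_lit 0) (XT.lf (nat_lit 0) (nat_lit 136709049) (nat_lit 760) (nat_lit 18338382851) (nat_lit 76) (nat_lit 4815758869) (nat_lit 274) (nat_lit 5) (nat_lit 284) (nat_lit 5) (nat_lit 275) (nat_lit 5) (nat_lit 632) (nat_lit 579) (nat_lit 349)) (XT.lf (nat_lit 0) (nat_lit 3876597093) (nat_lit 760) (nat_lit 5244871864) (nat_lit 76) (nat_lit 14439626909) (nat_lit 274) (nat_lit 5) (nat_lit 284) (nat_lit 5) (nat_lit 275) (nat_lit 5) (nat_lit 633) (nat_lit 579) (nat_lit 348))) (XT.nd (nat_lit 78) (nat_lit 608) (nat_lit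 0) (XT.lf (nat_lit 0) (nat_lit 7743514962) (nat_lit 684) (nat_lit 15625717853) (nat_lit 76) (nat_lit 466468904) (nat_lit 266) (nat_lit 5) (nat_lit 275) (nat_lit 5) (nat_lit 267) (nat_lit 5) (nat_lit 634) (nat_lit 579) (nat_lit 347)) (XT.nd (nat_lit 78) (nat_lit 608) (nat_lit 0) (XT.lf (nat_lit 0) (nat_lit 11779487776) (nat_lit 684) (nat_lit 2175858154) (nat_lit 76) (nat_lit 10158619915) (nat_lit 266) (nat_lit 5) (nat_lit 275) (nat_lit 5) (nat_lit 267) (nat_lit 5) (nat_lit 635) (nat_lit 579) (nat_lit 346)) (XT.lf (nat_lit 0) (nat_lit 11691278482) (nat_lit 608) (nat_lit 4276770445) (nat_lit 684) (nat_lit 8428309423) (nat_lit 258) (nat_lit 5) (nat_lit 266) (nat_lit 5) (nat_lit 267) (nat_lit 5) (nat_lit 636) (nat_lit 579) (nat_lit 345))))))))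
noncomputable def xc208 : XT := (XT.nd (nat_lit 77376) (nat_lit 0) (nat_lit 16644) (XT.nd (nat_lit 702) (nat_lit 532) (nat_lit 0) (XT.nd (nat_lit 312) (nat_lit 1672) (nat_lit 0) (XT.nd (nat_lit 156) (nat_lit 684) (nat_lit 0) (XT.nd (nat_lit 78) (nat_lit 0) (nat_lit 0) (XT.lf (nat_lit 0) (nat_lit 1154771070) (nat_lit 532) (nat_lit 19140135784) (nat_lit 608) (nat_lit 4388401810) (nat_lit 251) (nat_lit 5) (nat_lit 258) (nat_lit 5) (nat_lit 259) (nat_lit 5) (nat_lit 637) (nat_lit 579) (nat_lit 344)) (XT.lf (nat_lit 0) (nat_lit 15430279998) (nat_lit 532) (nat_lit 9387463178) (nat_lit 608) (nat_lit 156066440) (nat_lit 251) (nat_lit 5) (nat_lit 258) (nat_lit 5) (nat_lit 259) (nat_lit 5) (nat_lit 638) (nat_lit 579) (nat_lit 343))) (XT.nd (nat_lit 78) (nat_lit 0) (nat_lit 0) (XT.lf (nat_lit 0) (nat_lit 4137305962) (nat_lit 684) (nat_lit 20521589355) (nat_lit 76) (nat_lit 610066173) (nat_lit 242) (nat_lit 5) (nat_lit 251)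 (nat_lit 5) (nat_lit 243) (nat_lit 5) (nat_lit 639) (nat_lit 579) (nat_lit 342)) (XT.lf (nat_lit 0) (nat_lit 8637227993) (nat_lit 684) (nat_lit 6183955614) (nat_lit 76) (nat_lit 10746357156) (nat_lit 242) (nat_lit 5) (nat_lit 251) (nat_lit 5) (nat_lit 243) (nat_lit 5) (nat_lit 640) (nat_lit 579) (nat_lit 341)))) (XT.nd (nat_lit 156) (nat_lit 1140) (nat_lit 0) (XT.nd (nat_lit 78) (nat_lit 0) (nat_lit 0) (XT.lf (nat_lit 0) (nat_lit 8547582181) (nat_lit 532) (nat_lit 4731273739) (nat_lit 608) (nat_lit 12592201976) (nat_lit 235) (nat_lit 5) (nat_lit 242) (nat_lit 5) (nat_lit 243) (nat_lit 5) (nat_lit 641) (nat_lit 579) (nat_lit 340)) (XT.lf (nat_lit 0) (nat_lit 18087436477) (nat_lit 608) (nat_lit 2563603247) (nat_lit 76) (nat_lit 5528123659) (nat_lit 235) (nat_lit 5) (nat_lit 243) (nat_lit 5) (nat_lit 236) (nat_lit 5) (nat_lit 642) (nat_lit 579) (nat_lit 339))) (XT.nd (nat_lit 78) (nat_lit 608) (nat_lit 0) (XT.lf (nat_lit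 0) (nat_lit 12620768297) (nat_lit 532) (nat_lit 10481014929) (nat_lit 608) (nat_lit 3389456271) (nat_lit 228) (nat_lit 5) (nat_lit 235) (nat_lit 5) (nat_lit 236) (nat_lit 5) (nat_lit 643) (nat_lit 579) (nat_lit 338)) (XT.nd (nat_lit 78) (nat_lit 0) (nat_lit 0) (XT.lf (nat_lit 0) (nat_lit 1337755219) (nat_lit 532) (nat_lit 72991368) (nat_lit 608) (nat_lit 25398181491) (nat_lit 220) (nat_lit 5) (nat_lit 227) (nat_lit 5) (nat_lit 228) (nat_lit 5) (nat_lit 644) (nat_lit 579) (nat_lit 337)) (XT.lf (nat_lit 0) (nat_lit 6420126563) (nat_lit 608) (nat_lit 10189399843) (nat_lit 76) (nat_lit 10519825163) (nat_lit 220) (nat_lit 5) (nat_lit 228) (nat_lit 5) (nat_lit 221) (nat_lit 5) (nat_lit 645) (nat_lit 579) (nat_lit 336)))))) (XT.nd (nat_lit 76284) (nat_lit 0) (nat_lit 19380) (XT.nd (nat_lit 76128) (nat_lit 0) (nat_lit 19304) (XT.nd (nat_lit 76050) (nat_lit 0) (nat_lit 19304) (XT.lf (nat_lit 0) (nat_lit 5464349516) (nat_lit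 532) (nat_lit 6097744897) (nat_lit 608) (nat_lit 15893441489) (nat_lit 213) (nat_lit 5) (nat_lit 220) (nat_lit 5) (nat_lit 221) (nat_lit 5) (nat_lit 646) (nat_lit 579) (nat_lit 335)) (XT.lf (nat_lit 0) (nat_lit 246045810) (nat_lit 0) (nat_lit 246045810) (nat_lit 1748) (nat_lit 6301255218) (nat_lit 467) (nat_lit 5) (nat_lit 467) (nat_lit 3) (nat_lit 490) (nat_lit 3) (nat_lit 580) (nat_lit 580) (nat_lit 400))) (XT.nd (nat_lit 78) (nat_lit 0) (nat_lit 0) (XT.lf (nat_lit 0) (nat_lit 1398303992) (nat_lit 1748) (nat_lit 6472248489) (nat_lit 1824) (nat_lit 5843865250) (nat_lit 467) (nat_lit 5) (nat_lit 490) (nat_lit 3) (nat_lit 491) (nat_lit 5) (nat_lit 581) (nat_lit 580) (nat_lit 399)) (XT.lf (nat_lit 76) (nat_lit 277915648) (nat_lit 0) (nat_lit 1538290040) (nat_lit 1824) (nat_lit 12028582108) (nat_lit 468) (nat_lit 5) (nat_lit 467) (nat_lit 5) (nat_lit 491) (nat_lit 5) (nat_lit 582) (nat_lit 580) (nat_lit 398)))) (XT.nd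 (nat_lit 156) (nat_lit 0) (nat_lit 76) (XT.nd (nat_lit 78) (nat_lit 0) (nat_lit 0) (XT.lf (nat_lit 0) (nat_lit 2308752241) (nat_lit 1748) (nat_lit 6763523916) (nat_lit 1824) (nat_lit 4904164844) (nat_lit 468) (nat_lit 5) (nat_lit 491) (nat_lit 5) (nat_lit 492) (nat_lit 5) (nat_lit 583) (nat_lit 580) (nat_lit 397)) (XT.lf (nat_lit 76) (nat_lit 162732457) (nat_lit 0) (nat_lit 2650464207) (nat_lit 1824) (nat_lit 11297491111) (nat_lit 469) (nat_lit 5) (nat_lit 468) (nat_lit 5) (nat_lit 492) (nat_lit 5) (nat_lit 584) (nat_lit 580) (nat_lit 396))) (XT.nd (nat_lit 78) (nat_lit 0) (nat_lit 0) (XT.lf (nat_lit 0) (nat_lit 3389713589) (nat_lit 1748) (nat_lit 6958417383) (nat_lit 1824) (nat_lit 3898250257) (nat_lit 469) (nat_lit 5) (nat_lit 492) (nat_lit 5) (nat_lit 493) (nat_lit 5) (nat_lit 585) (nat_lit 580) (nat_lit 395)) (XT.nd (nat_lit 78) (nat_lit 0) (nat_lit 76) (XT.lf (nat_lit 76) (nat_lit 150150982) (nat_lit 0) (nat_lit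 3837290676) (nat_lit 1824) (nat_lit 10397154666) (nat_lit 470) (nat_lit 5) (nat_lit 469) (nat_lit 5) (nat_lit 493) (nat_lit 5) (nat_lit 586) (nat_lit 580) (nat_lit 394)) (XT.lf (nat_lit 0) (nat_lit 4653648480) (nat_lit 1748) (nat_lit 7053282504) (nat_lit 1824) (nat_lit 2817515616) (nat_lit 470) (nat_lit 5) (nat_lit 493) (nat_lit 5) (nat_lit 494) (nat_lit 5) (nat_lit 587) (nat_lit 580) (nat_lit 393))))))) (XT.nd (nat_lit 702) (nat_lit 2888) (nat_lit 0) (XT.nd (nat_lit 312) (nat_lit 0) (nat_lit 152) (XT.nd (nat_lit 156) (nat_lit 0) (nat_lit 76) (XT.nd (nat_lit 78) (nat_lit 0) (nat_lit 76) (XT.lf (nat_lit 76) (nat_lit 244055211) (nat_lit 0) (nat_lit 5107607982) (nat_lit 1824) (nat_lit 9315062346) (nat_lit 471) (nat_lit 5) (nat_lit 470) (nat_lit 5) (nat_lit 494) (nat_lit 5) (nat_lit 588) (nat_lit 580) (nat_lit 392)) (XT.lf (nat_lit 0) (nat_lit 6113465491) (nat_lit 1748) (nat_lit 7044202031) (nat_lit 1824) (nat_lit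 1653187299) (nat_lit 471) (nat_lit 5) (nat_lit 494) (nat_lit 5) (nat_lit 495) (nat_lit 5) (nat_lit 589) (nat_lit 580) (nat_lit 391))) (XT.nd (nat_lit 78) (nat_lit 0) (nat_lit 76) (XT.lf (nat_lit 76) (nat_lit 448607927) (nat_lit 0) (nat_lit 6470438150) (nat_lit 1824) (nat_lit 8038251050) (nat_lit 472) (nat_lit 5) (nat_lit 471) (nat_lit 5) (nat_lit 495) (nat_lit 5) (nat_lit 590) (nat_lit 580) (nat_lit 390)) (XT.lf (nat_lit 0) (nat_lit 7782546802) (nat_lit 1748) (nat_lit 6926983950) (nat_lit 1824) (nat_lit 396302615) (nat_lit 472) (nat_lit 5) (nat_lit 495) (nat_lit 5) (nat_lit 496) (nat_lit 5) (nat_lit 591) (nat_lit 580) (nat_lit 389)))) (XT.nd (nat_lit 156) (nat_lit 0) (nat_lit 76) (XT.nd (nat_lit 78) (nat_lit 0) (nat_lit 0) (XT.lf (nat_lit 76) (nat_lit 768254921) (nat_lit 0) (nat_lit 7935008344) (nat_lit 1824) (nat_lit 6553279384) (nat_lit 473) (nat_lit 5) (nat_lit 472) (nat_lit 5) (nat_lit 496) (nat_lit 5) (nat_lit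 592) (nat_lit 580) (nat_lit 388)) (XT.lf (nat_lit 76) (nat_lit 8706004996) (nat_lit 0) (nat_lit 975100302) (nat_lit 1824) (nat_lit 5728387803) (nat_lit 473) (nat_lit 5) (nat_lit 472) (nat_lit 5) (nat_lit 496) (nat_lit 5) (nat_lit 593) (nat_lit 580) (nat_lit 387))) (XT.nd (nat_lit 78) (nat_lit 0) (nat_lit 0) (XT.lf (nat_lit 76) (nat_lit 1207729684) (nat_lit 0) (nat_lit 9510772711) (nat_lit 1824) (nat_lit 4846201388) (nat_lit 474) (nat_lit 5) (nat_lit 473) (nat_lit 5) (nat_lit 497) (nat_lit 5) (nat_lit 594) (nat_lit 580) (nat_lit 386)) (XT.nd (nat_lit 78) (nat_lit 0) (nat_lit 76) (XT.lf (nat_lit 76) (nat_lit 9356174867) (nat_lit 0) (nat_lit 2464381919) (nat_lit 1824) (nat_lit 3901584867) (nat_lit 474) (nat_lit 5) (nat_lit 473) (nat_lit 5) (nat_lit 497) (nat_lit 5) (nat_lit 595) (nat_lit 580) (nat_lit 385)) (XT.lf (nat_lit 76) (nat_lit 1772058565) (nat_lit 0) (nat_lit 11207434467) (nat_lit 1824) (nat_lit 2902539573)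 (nat_lit 475) (nat_lit 5) (nat_lit 474) (nat_lit 5) (nat_lit 498) (nat_lit 5) (nat_lit 596) (nat_lit 580) (nat_lit 384)))))) (XT.nd (nat_lit 390) (nat_lit 1444) (nat_lit 0) (XT.nd (nat_lit 156) (nat_lit 1748) (nat_lit 0) (XT.nd (nat_lit 78) (nat_lit 0) (nat_lit 76) (XT.lf (nat_lit 76) (nat_lit 10137256328) (nat_lit 0) (nat_lit 4076063665) (nat_lit 1824) (nat_lit 1830768260) (nat_lit 475) (nat_lit 5) (nat_lit 474) (nat_lit 5) (nat_lit 498) (nat_lit 5) (nat_lit 597) (nat_lit 580) (nat_lit 383)) (XT.lf (nat_lit 76) (nat_lit 2466566385) (nat_lit 0) (nat_lit 13034968286) (nat_lit 1824) (nat_lit 707257215) (nat_lit 476) (nat_lit 5) (nat_lit 475) (nat_lit 5) (nat_lit 499) (nat_lit 5) (nat_lit 598) (nat_lit 580) (nat_lit 382))) (XT.nd (nat_lit 78) (nat_lit 0) (nat_lit 76) (XT.lf (nat_lit 0) (nat_lit 492854443) (nat_lit 1824) (nat_lit 5324052023) (nat_lit 1900) (nat_lit 10558629520) (nat_lit 451) (nat_lit 5) (nat_lit 475)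 (nat_lit 5) (nat_lit 476) (nat_lit 5) (nat_lit 599) (nat_lit 580) (nat_lit 381)) (XT.nd (nat_lit 78) (nat_lit 0) (nat_lit 0) (XT.lf (nat_lit 0) (nat_lit 1732249449) (nat_lit 1824) (nat_lit 13259769279) (nat_lit 1900) (nat_lit 1553008749) (nat_lit 452) (nat_lit 5) (nat_lit 476) (nat_lit 5) (nat_lit 477) (nat_lit 5) (nat_lit 600) (nat_lit 580) (nat_lit 380)) (XT.lf (nat_lit 0) (nat_lit 3064156019) (nat_lit 1824) (nat_lit 4622485482) (nat_lit 1900) (nat_lit 9029913833) (nat_lit 452) (nat_lit 5) (nat_lit 476) (nat_lit 5) (nat_lit 477) (nat_lit 5) (nat_lit 601) (nat_lit 580) (nat_lit 379))))) (XT.nd (nat_lit 156) (nat_lit 1520) (nat_lit 0) (XT.nd (nat_lit 78) (nat_lit 0) (nat_lit 76) (XT.lf (nat_lit 76) (nat_lit 4237774522) (nat_lit 0) (nat_lit 205810553) (nat_lit 1900) (nat_lit 12447511979) (nat_lit 453) (nat_lit 5) (nat_lit 452) (nat_lit 5) (nat_lit 477) (nat_lit 5) (nat_lit 602) (nat_lit 580) (nat_lit 378)) (XT.lf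 (nat_lit 0) (nat_lit 5923506461) (nat_lit 1824) (nat_lit 3784474629) (nat_lit 1900) (nat_lit 7359691414) (nat_lit 453) (nat_lit 5) (nat_lit 477) (nat_lit 5) (nat_lit 478) (nat_lit 5) (nat_lit 603) (nat_lit 580) (nat_lit 377))) (XT.nd (nat_lit 78) (nat_lit 1596) (nat_lit 0) (XT.lf (nat_lit 76) (nat_lit 5324877852) (nat_lit 0) (nat_lit 2137685362) (nat_lit 1900) (nat_lit 9784626466) (nat_lit 454) (nat_lit 5) (nat_lit 453) (nat_lit 5) (nat_lit 478) (nat_lit 5) (nat_lit 604) (nat_lit 580) (nat_lit 376)) (XT.nd (nat_lit 78) (nat_lit 1672) (nat_lit 0) (XT.lf (nat_lit 0) (nat_lit 9087919012) (nat_lit 1824) (nat_lit 2803940183) (nat_lit 76) (nat_lit 5537328580) (nat_lit 454) (nat_lit 5) (nat_lit 478) (nat_lit 5) (nat_lit 455) (nat_lit 5) (nat_lit 605) (nat_lit 580) (nat_lit 375)) (XT.lf (nat_lit 0) (nat_lit 6563384243) (nat_lit 1672) (nat_lit 4232990706) (nat_lit 1748) (nat_lit 6817439938) (nat_lit 432) (nat_lit 5) (nat_lit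 454) (nat_lit 5) (nat_lit 455) (nat_lit 5) (nat_lit 606) (nat_lit 580) (nat_lit 374))))))))
noncomputable def xc209 : XT := (XT.nd (nat_lit 1482) (nat_lit 7068) (nat_lit 0) (XT.nd (nat_lit 702) (nat_lit 3876) (nat_lit 0) (XT.nd (nat_lit 312) (nat_lit 2584) (nat_lit 0) (XT.nd (nat_lit 156) (nat_lit 988) (nat_lit 0) (XT.nd (nat_lit 78) (nat_lit 988) (nat_lit 0) (XT.lf (nat_lit 0) (nat_lit 12575092275) (nat_lit 1748) (nat_lit 1674487603) (nat_lit 76) (nat_lit 3551833717) (nat_lit 432) (nat_lit 5) (nat_lit 455) (nat_lit 5) (nat_lit 433) (nat_lit 5) (nat_lit 607) (nat_lit 580) (nat_lit 373)) (XT.lf (nat_lit 0) (nat_lit 7960014268) (nat_lit 988) (nat_lit 6503117897) (nat_lit 1064) (nat_lit 3528158027) (nat_lit 419) (nat_lit 5) (nat_lit 432) (nat_lit 5) (nat_lit 433) (nat_lit 5) (nat_lit 608) (nat_lit 580) (nat_lit 372))) (XT.nd (nat_lit 78) (nat_lit 988) (nat_lit 0) (XT.lf (nat_lit 0) (nat_lit 16403442469) (nat_lit 1064)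 (nat_lit 389399598) (nat_lit 76) (nat_lit 1391832925) (nat_lit 419) (nat_lit 5) (nat_lit 433) (nat_lit 5) (nat_lit 420) (nat_lit 5) (nat_lit 609) (nat_lit 580) (nat_lit 371)) (XT.lf (nat_lit 0) (nat_lit 100403099) (nat_lit 988) (nat_lit 8858784007) (nat_lit 76) (nat_lit 9420745534) (nat_lit 406) (nat_lit 5) (nat_lit 419) (nat_lit 5) (nat_lit 407) (nat_lit 5) (nat_lit 610) (nat_lit 580) (nat_lit 370)))) (XT.nd (nat_lit 156) (nat_lit 1672) (nat_lit 0) (XT.nd (nat_lit 78) (nat_lit 0) (nat_lit 0) (XT.lf (nat_lit 0) (nat_lit 1052789793) (nat_lit 912) (nat_lit 946794650) (nat_lit 988) (nat_lit 16579201057) (nat_lit 394) (nat_lit 5) (nat_lit 406) (nat_lit 5) (nat_lit 407) (nat_lit 5) (nat_lit 611) (nat_lit 580) (nat_lit 369)) (XT.lf (nat_lit 0) (nat_lit 4037860739) (nat_lit 988) (nat_lit 7550484907) (nat_lit 76) (nat_lit 7191248342) (nat_lit 394) (nat_lit 5) (nat_lit 407) (nat_lit 5) (nat_lit 395) (nat_lit 5) (nat_lit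 612) (nat_lit 580) (nat_lit 368))) (XT.nd (nat_lit 78) (nat_lit 836) (nat_lit 0) (XT.lf (nat_lit 0) (nat_lit 2647669056) (nat_lit 836) (nat_lit 3487160317) (nat_lit 912) (nat_lit 12849231519) (nat_lit 383) (nat_lit 5) (nat_lit 394) (nat_lit 5) (nat_lit 395) (nat_lit 5) (nat_lit 613) (nat_lit 580) (nat_lit 367)) (XT.nd (nat_lit 78) (nat_lit 836) (nat_lit 0) (XT.lf (nat_lit 0) (nat_lit 8350291463) (nat_lit 912) (nat_lit 6076211313) (nat_lit 76) (nat_lit 4764584043) (nat_lit 383) (nat_lit 5) (nat_lit 395) (nat_lit 5) (nat_lit 384) (nat_lit 5) (nat_lit 614) (nat_lit 580) (nat_lit 366)) (XT.lf (nat_lit 0) (nat_lit 4418739829) (nat_lit 836) (nat_lit 6237754692) (nat_lit 912) (nat_lit 8744830862) (nat_lit 372) (nat_lit 5) (nat_lit 383) (nat_lit 5) (nat_lit 384) (nat_lit 5) (nat_lit 615) (nat_lit 580) (nat_lit 365)))))) (XT.nd (nat_lit 390) (nat_lit 2204) (nat_lit 0) (XT.nd (nat_lit 156) (nat_lit 912) (nat_lit 0) (XT.nd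 (nat_lit 78) (nat_lit 760) (nat_lit 0) (XT.lf (nat_lit 0) (nat_lit 13058316237) (nat_lit 912) (nat_lit 4428362568) (nat_lit 76) (nat_lit 2128100757) (nat_lit 372) (nat_lit 5) (nat_lit 384) (nat_lit 5) (nat_lit 373) (nat_lit 5) (nat_lit 616) (nat_lit 580) (nat_lit 364)) (XT.lf (nat_lit 0) (nat_lit 6373972738) (nat_lit 760) (nat_lit 9211718391) (nat_lit 836) (nat_lit 4245262083) (nat_lit 362) (nat_lit 5) (nat_lit 372) (nat_lit 5) (nat_lit 373) (nat_lit 5) (nat_lit 617) (nat_lit 580) (nat_lit 363))) (XT.nd (nat_lit 78) (nat_lit 912) (nat_lit 0) (XT.lf (nat_lit 0) (nat_lit 17447158661) (nat_lit 760) (nat_lit 741062147) (nat_lit 836) (nat_lit 1862738090) (nat_lit 362) (nat_lit 5) (nat_lit 372) (nat_lit 5) (nat_lit 373) (nat_lit 5) (nat_lit 618) (nat_lit 580) (nat_lit 362)) (XT.nd (nat_lit 78) (nat_lit 0) (nat_lit 0) (XT.lf (nat_lit 0) (nat_lit 662270765) (nat_lit 912) (nat_lit 11755990148) (nat_lit 76) (nat_lit 7854985253)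 (nat_lit 350) (nat_lit 5) (nat_lit 362) (nat_lit 5) (nat_lit 351) (nat_lit 5) (nat_lit 619) (nat_lit 580) (nat_lit 361)) (XT.lf (nat_lit 0) (nat_lit 3230378564) (nat_lit 912) (nat_lit 626214465) (nat_lit 76) (nat_lit 16642789748) (nat_lit 350) (nat_lit 5) (nat_lit 362) (nat_lit 5) (nat_lit 351) (nat_lit 5) (nat_lit 620) (nat_lit 580) (nat_lit 360))))) (XT.nd (nat_lit 156) (nat_lit 684) (nat_lit 0) (XT.nd (nat_lit 78) (nat_lit 760) (nat_lit 0) (XT.lf (nat_lit 0) (nat_lit 5947625888) (nat_lit 836) (nat_lit 9897372963) (nat_lit 76) (nat_lit 4883088377) (nat_lit 340) (nat_lit 5) (nat_lit 351) (nat_lit 5) (nat_lit 341) (nat_lit 5) (nat_lit 621) (nat_lit 580) (nat_lit 359)) (XT.lf (nat_lit 0) (nat_lit 1553583609) (nat_lit 760) (nat_lit 7200671257) (nat_lit 836) (nat_lit 12206410808) (nat_lit 330) (nat_lit 5) (nat_lit 340) (nat_lit 5) (nat_lit 341) (nat_lit 5) (nat_lit 622) (nat_lit 580) (nat_lit 358))) (XT.nd (nat_lit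 78) (nat_lit 684) (nat_lit 0) (XT.lf (nat_lit 0) (nat_lit 11689606112) (nat_lit 836) (nat_lit 7845052969) (nat_lit 76) (nat_lit 1661785442) (nat_lit 330) (nat_lit 5) (nat_lit 341) (nat_lit 5) (nat_lit 331) (nat_lit 5) (nat_lit 623) (nat_lit 580) (nat_lit 357)) (XT.nd (nat_lit 78) (nat_lit 0) (nat_lit 0) (XT.lf (nat_lit 0) (nat_lit 3947129906) (nat_lit 684) (nat_lit 10805179400) (nat_lit 760) (nat_lit 6683257363) (nat_lit 321) (nat_lit 5) (nat_lit 330) (nat_lit 5) (nat_lit 331) (nat_lit 5) (nat_lit 624) (nat_lit 580) (nat_lit 356)) (XT.lf (nat_lit 0) (nat_lit 16076364639) (nat_lit 684) (nat_lit 1847935552) (nat_lit 760) (nat_lit 3754210998) (nat_lit 321) (nat_lit 5) (nat_lit 330) (nat_lit 5) (nat_lit 331) (nat_lit 5) (nat_lit 625) (nat_lit 580) (nat_lit 355))))))) (XT.nd (nat_lit 702) (nat_lit 3496) (nat_lit 0) (XT.nd (nat_lit 312) (nat_lit 2052) (nat_lit 0) (XT.nd (nat_lit 156) (nat_lit 684) (nat_lit 0) (XT.nd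 (nat_lit 78) (nat_lit 76) (nat_lit 0) (XT.lf (nat_lit 0) (nat_lit 6555402706) (nat_lit 760) (nat_lit 14689687956) (nat_lit 836) (nat_lit 679517335) (nat_lit 311) (nat_lit 5) (nat_lit 321) (nat_lit 5) (nat_lit 322) (nat_lit 5) (nat_lit 626) (nat_lit 580) (nat_lit 354)) (XT.lf (nat_lit 0) (nat_lit 2470032610) (nat_lit 836) (nat_lit 3176417869) (nat_lit 76) (nat_lit 16527946185) (nat_lit 310) (nat_lit 5) (nat_lit 321) (nat_lit 5) (nat_lit 311) (nat_lit 5) (nat_lit 627) (nat_lit 580) (nat_lit 353))) (XT.nd (nat_lit 78) (nat_lit 0) (nat_lit 0) (XT.lf (nat_lit 0) (nat_lit 5753590238) (nat_lit 760) (nat_lit 13078004335) (nat_lit 76) (nat_lit 3595894946) (nat_lit 301) (nat_lit 5) (nat_lit 311) (nat_lit 5) (nat_lit 302) (nat_lit 5) (nat_lit 628) (nat_lit 580) (nat_lit 352)) (XT.lf (nat_lit 0) (nat_lit 9157308969) (nat_lit 760) (nat_lit 558885829) (nat_lit 76) (nat_lit 12968360184) (nat_lit 301) (nat_lit 5) (nat_lit 311)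 (nat_lit 5) (nat_lit 302) (nat_lit 5) (nat_lit 629) (nat_lit 580) (nat_lit 351)))) (XT.nd (nat_lit 156) (nat_lit 760) (nat_lit 0) (XT.nd (nat_lit 78) (nat_lit 608) (nat_lit 0) (XT.lf (nat_lit 0) (nat_lit 12367824711) (nat_lit 684) (nat_lit 337302622) (nat_lit 760) (nat_lit 10240114453) (nat_lit 292) (nat_lit 5) (nat_lit 301) (nat_lit 5) (nat_lit 302) (nat_lit 5) (nat_lit 630) (nat_lit 580) (nat_lit 350)) (XT.lf (nat_lit 0) (nat_lit 2314948347) (nat_lit 608) (nat_lit 14083452952) (nat_lit 684) (nat_lit 6811251567) (nat_lit 284) (nat_lit 5) (nat_lit 292) (nat_lit 5) (nat_lit 293) (nat_lit 5) (nat_lit 631) (nat_lit 580) (nat_lit 349))) (XT.nd (nat_lit 78) (nat_lit 760) (nat_lit 0) (XT.lf (nat_lit 0) (nat_lit 15601266564) (nat_lit 608) (nat_lit 4633295605) (nat_lit 684) (nat_lit 3243410087) (nat_lit 284) (nat_lit 5) (nat_lit 292) (nat_lit 5) (nat_lit 293) (nat_lit 5) (nat_lit 632) (nat_lit 580) (nat_lit 348)) (XT.nd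 (nat_lit 78) (nat_lit 0) (nat_lit 0) (XT.lf (nat_lit 0) (nat_lit 454709526) (nat_lit 760) (nat_lit 18317927206) (nat_lit 76) (nat_lit 4977688160) (nat_lit 274) (nat_lit 5) (nat_lit 284) (nat_lit 5) (nat_lit 275) (nat_lit 5) (nat_lit 633) (nat_lit 580) (nat_lit 347)) (XT.lf (nat_lit 0) (nat_lit 4263213639) (nat_lit 760) (nat_lit 4970138613) (nat_lit 76) (nat_lit 14792747010) (nat_lit 274) (nat_lit 5) (nat_lit 284) (nat_lit 5) (nat_lit 275) (nat_lit 5) (nat_lit 634) (nat_lit 580) (nat_lit 346)))))) (XT.nd (nat_lit 390) (nat_lit 1672) (nat_lit 0) (XT.nd (nat_lit 156) (nat_lit 1216) (nat_lit 0) (XT.nd (nat_lit 78) (nat_lit 0) (nat_lit 0) (XT.lf (nat_lit 0) (nat_lit 8204323247) (nat_lit 684) (nat_lit 15555418798) (nat_lit 76) (nat_lit 546518841) (nat_lit 266) (nat_lit 5) (nat_lit 275) (nat_lit 5) (nat_lit 267) (nat_lit 5) (nat_lit 635) (nat_lit 580) (nat_lit 345)) (XT.lf (nat_lit 0) (nat_lit 12315016734) (nat_lit 684)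 (nat_lit 1844068049) (nat_lit 76) (nat_lit 10431126194) (nat_lit 266) (nat_lit 5) (nat_lit 275) (nat_lit 5) (nat_lit 267) (nat_lit 5) (nat_lit 636) (nat_lit 580) (nat_lit 344))) (XT.nd (nat_lit 78) (nat_lit 608) (nat_lit 0) (XT.lf (nat_lit 0) (nat_lit 12297942192) (nat_lit 608) (nat_lit 4285946468) (nat_lit 684) (nat_lit 8294432577) (nat_lit 258) (nat_lit 5) (nat_lit 266) (nat_lit 5) (nat_lit 267) (nat_lit 5) (nat_lit 637) (nat_lit 580) (nat_lit 343)) (XT.nd (nat_lit 78) (nat_lit 76) (nat_lit 0) (XT.lf (nat_lit 0) (nat_lit 1553684277) (nat_lit 532) (nat_lit 19440712272) (nat_lit 608) (nat_lit 4176672432) (nat_lit 251) (nat_lit 5) (nat_lit 258) (nat_lit 5) (nat_lit 259) (nat_lit 5) (nat_lit 638) (nat_lit 580) (nat_lit 342)) (XT.lf (nat_lit 0) (nat_lit 132673979) (nat_lit 608) (nat_lit 9361034202) (nat_lit 76) (nat_lit 15973770116) (nat_lit 250) (nat_lit 5) (nat_lit 258) (nat_lit 5) (nat_lit 251) (nat_lit 5) (nat_lit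 639) (nat_lit 580) (nat_lit 341))))) (XT.nd (nat_lit 156) (nat_lit 1064) (nat_lit 0) (XT.nd (nat_lit 78) (nat_lit 0) (nat_lit 0) (XT.lf (nat_lit 0) (nat_lit 4507087154) (nat_lit 684) (nat_lit 20556917724) (nat_lit 76) (nat_lit 704563078) (nat_lit 242) (nat_lit 5) (nat_lit 251) (nat_lit 5) (nat_lit 243) (nat_lit 5) (nat_lit 640) (nat_lit 580) (nat_lit 340)) (XT.lf (nat_lit 0) (nat_lit 9091379487) (nat_lit 684) (nat_lit 5939886277) (nat_lit 76) (nat_lit 11041966241) (nat_lit 242) (nat_lit 5) (nat_lit 251) (nat_lit 5) (nat_lit 243) (nat_lit 5) (nat_lit 641) (nat_lit 580) (nat_lit 339))) (XT.nd (nat_lit 78) (nat_lit 532) (nat_lit 0) (XT.lf (nat_lit 0) (nat_lit 9083862875) (nat_lit 532) (nat_lit 4738831273) (nat_lit 608) (nat_lit 12560188866) (nat_lit 235) (nat_lit 5) (nat_lit 242) (nat_lit 5) (nat_lit 243) (nat_lit 5) (nat_lit 642) (nat_lit 580) (nat_lit 338)) (XT.nd (nat_lit 78) (nat_lit 532) (nat_lit 0) (XT.lf (nat_lit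 0) (nat_lit 18722544435) (nat_lit 608) (nat_lit 2251777481) (nat_lit 76) (nat_lit 5722927338) (nat_lit 235) (nat_lit 5) (nat_lit 243) (nat_lit 5) (nat_lit 236) (nat_lit 5) (nat_lit 643) (nat_lit 580) (nat_lit 337)) (XT.lf (nat_lit 0) (nat_lit 13233892693) (nat_lit 532) (nat_lit 10600267403) (nat_lit 608) (nat_lit 3181467746) (nat_lit 228) (nat_lit 5) (nat_lit 235) (nat_lit 5) (nat_lit 236) (nat_lit 5) (nat_lit 644) (nat_lit 580) (nat_lit 336))))))))
noncomputable def xc210 : XT := (XT.nd (nat_lit 77532) (nat_lit 0) (nat_lit 11552) (XT.nd (nat_lit 76752) (nat_lit 0) (nat_lit 19000) (XT.nd (nat_lit 76362) (nat_lit 0) (nat_lit 18772) (XT.nd (nat_lit 76206) (nat_lit 0) (nat_lit 18772) (XT.nd (nat_lit 78) (nat_lit 0) (nat_lit 0) (XT.lf (nat_lit 0) (nat_lit 1708254906) (nat_lit 608) (nat_lit 25613345514) (nat_lit 76) (nat_lit 18091882) (nat_lit 220) (nat_lit 5) (nat_lit 228) (nat_lit 5) (nat_lit 221) (nat_lit 5) (nat_lit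 645) (nat_lit 580) (nat_lit 335)) (XT.lf (nat_lit 0) (nat_lit 6813016128) (nat_lit 608) (nat_lit 10033611942) (nat_lit 76) (nat_lit 10819992879) (nat_lit 220) (nat_lit 5) (nat_lit 228) (nat_lit 5) (nat_lit 221) (nat_lit 5) (nat_lit 646) (nat_lit 580) (nat_lit 334))) (XT.nd (nat_lit 78) (nat_lit 0) (nat_lit 0) (XT.lf (nat_lit 0) (nat_lit 432695331) (nat_lit 0) (nat_lit 432695331) (nat_lit 1748) (nat_lit 6056497036) (nat_lit 467) (nat_lit 5) (nat_lit 467) (nat_lit 3) (nat_lit 490) (nat_lit 3) (nat_lit 581) (nat_lit 581) (nat_lit 398)) (XT.lf (nat_lit 0) (nat_lit 2136617729) (nat_lit 1748) (nat_lit 6228684468) (nat_lit 1824) (nat_lit 5609085299) (nat_lit 467) (nat_lit 5) (nat_lit 490) (nat_lit 3) (nat_lit 491) (nat_lit 5) (nat_lit 582) (nat_lit 581) (nat_lit 397)))) (XT.nd (nat_lit 156) (nat_lit 0) (nat_lit 76) (XT.nd (nat_lit 78) (nat_lit 0) (nat_lit 76) (XT.lf (nat_lit 76) (nat_lit 654028945) (nat_lit 0) (nat_lit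 1897326018) (nat_lit 1824) (nat_lit 11556242638) (nat_lit 468) (nat_lit 5) (nat_lit 467) (nat_lit 5) (nat_lit 491) (nat_lit 5) (nat_lit 583) (nat_lit 581) (nat_lit 396)) (XT.lf (nat_lit 0) (nat_lit 3037960436) (nat_lit 1748) (nat_lit 6519605882) (nat_lit 1824) (nat_lit 4684635538) (nat_lit 468) (nat_lit 5) (nat_lit 491) (nat_lit 5) (nat_lit 492) (nat_lit 5) (nat_lit 584) (nat_lit 581) (nat_lit 395))) (XT.nd (nat_lit 78) (nat_lit 0) (nat_lit 76) (XT.lf (nat_lit 76) (nat_lit 542680957) (nat_lit 0) (nat_lit 2998865730) (nat_lit 1824) (nat_lit 10837807924) (nat_lit 469) (nat_lit 5) (nat_lit 468) (nat_lit 5) (nat_lit 492) (nat_lit 5) (nat_lit 585) (nat_lit 581) (nat_lit 394)) (XT.nd (nat_lit 78) (nat_lit 0) (nat_lit 0) (XT.lf (nat_lit 0) (nat_lit 4114535515) (nat_lit 1748) (nat_lit 6713116464) (nat_lit 1824) (nat_lit 3690413187) (nat_lit 469) (nat_lit 5) (nat_lit 492) (nat_lit 5) (nat_lit 493) (nat_lit 5) (nat_lit 586)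 (nat_lit 581) (nat_lit 393)) (XT.lf (nat_lit 76) (nat_lit 535093865) (nat_lit 0) (nat_lit 4178721192) (nat_lit 1824) (nat_lit 9945439590) (nat_lit 470) (nat_lit 5) (nat_lit 469) (nat_lit 5) (nat_lit 493) (nat_lit 5) (nat_lit 587) (nat_lit 581) (nat_lit 392)))))) (XT.nd (nat_lit 390) (nat_lit 0) (nat_lit 152) (XT.nd (nat_lit 156) (nat_lit 0) (nat_lit 76) (XT.nd (nat_lit 78) (nat_lit 0) (nat_lit 0) (XT.lf (nat_lit 0) (nat_lit 5378982290) (nat_lit 1748) (nat_lit 6805434452) (nat_lit 1824) (nat_lit 2617774443) (nat_lit 470) (nat_lit 5) (nat_lit 493) (nat_lit 5) (nat_lit 494) (nat_lit 5) (nat_lit 588) (nat_lit 581) (nat_lit 391)) (XT.lf (nat_lit 76) (nat_lit 635291375) (nat_lit 0) (nat_lit 5445777125) (nat_lit 1824) (nat_lit 8866446923) (nat_lit 471) (nat_lit 5) (nat_lit 470) (nat_lit 5) (nat_lit 494) (nat_lit 5) (nat_lit 589) (nat_lit 581) (nat_lit 390))) (XT.nd (nat_lit 78) (nat_lit 0) (nat_lit 0) (XT.lf (nat_lit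 0) (nat_lit 6844401138) (nat_lit 1748) (nat_lit 6792505616) (nat_lit 1824) (nat_lit 1457896556) (nat_lit 471) (nat_lit 5) (nat_lit 494) (nat_lit 5) (nat_lit 495) (nat_lit 5) (nat_lit 590) (nat_lit 581) (nat_lit 389)) (XT.nd (nat_lit 78) (nat_lit 0) (nat_lit 76) (XT.lf (nat_lit 76) (nat_lit 847577775) (nat_lit 0) (nat_lit 6809113050) (nat_lit 1824) (nat_lit 7587673556) (nat_lit 472) (nat_lit 5) (nat_lit 471) (nat_lit 5) (nat_lit 495) (nat_lit 5) (nat_lit 591) (nat_lit 581) (nat_lit 388)) (XT.lf (nat_lit 0) (nat_lit 8524379240) (nat_lit 1748) (nat_lit 6669999048) (nat_lit 1824) (nat_lit 201756535) (nat_lit 472) (nat_lit 5) (nat_lit 495) (nat_lit 5) (nat_lit 496) (nat_lit 5) (nat_lit 592) (nat_lit 581) (nat_lit 387))))) (XT.nd (nat_lit 156) (nat_lit 0) (nat_lit 76) (XT.nd (nat_lit 78) (nat_lit 0) (nat_lit 0) (XT.lf (nat_lit 76) (nat_lit 1176542465) (nat_lit 0) (nat_lit 8278024926) (nat_lit 1824) (nat_lit 6095471549)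 (nat_lit 473) (nat_lit 5) (nat_lit 472) (nat_lit 5) (nat_lit 496) (nat_lit 5) (nat_lit 593) (nat_lit 581) (nat_lit 386)) (XT.lf (nat_lit 76) (nat_lit 9265343180) (nat_lit 0) (nat_lit 1175304676) (nat_lit 1824) (nat_lit 5265628674) (nat_lit 473) (nat_lit 5) (nat_lit 472) (nat_lit 5) (nat_lit 496) (nat_lit 5) (nat_lit 594) (nat_lit 581) (nat_lit 385))) (XT.nd (nat_lit 78) (nat_lit 0) (nat_lit 0) (XT.lf (nat_lit 76) (nat_lit 1627064943) (nat_lit 0) (nat_lit 9862047011) (nat_lit 1824) (nat_lit 4375674815) (nat_lit 474) (nat_lit 5) (nat_lit 473) (nat_lit 5) (nat_lit 497) (nat_lit 5) (nat_lit 595) (nat_lit 581) (nat_lit 384)) (XT.nd (nat_lit 78) (nat_lit 0) (nat_lit 76) (XT.lf (nat_lit 76) (nat_lit 9930730390) (nat_lit 0) (nat_lit 2671570387) (nat_lit 1824) (nat_lit 3423292446) (nat_lit 474) (nat_lit 5) (nat_lit 473) (nat_lit 5) (nat_lit 497) (nat_lit 5) (nat_lit 596) (nat_lit 581) (nat_lit 383)) (XT.lf (nat_lit 76)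 (nat_lit 2204320271) (nat_lit 0) (nat_lit 11570974002) (nat_lit 1824) (nat_lit 2413571809) (nat_lit 475) (nat_lit 5) (nat_lit 474) (nat_lit 5) (nat_lit 498) (nat_lit 5) (nat_lit 597) (nat_lit 581) (nat_lit 382))))))) (XT.nd (nat_lit 702) (nat_lit 6004) (nat_lit 0) (XT.nd (nat_lit 312) (nat_lit 0) (nat_lit 76) (XT.nd (nat_lit 156) (nat_lit 1748) (nat_lit 0) (XT.nd (nat_lit 78) (nat_lit 0) (nat_lit 76) (XT.lf (nat_lit 76) (nat_lit 10729041195) (nat_lit 0) (nat_lit 4294242630) (nat_lit 1824) (nat_lit 1331090924) (nat_lit 475) (nat_lit 5) (nat_lit 474) (nat_lit 5) (nat_lit 498) (nat_lit 5) (nat_lit 598) (nat_lit 581) (nat_lit 381)) (XT.lf (nat_lit 76) (nat_lit 2913784980) (nat_lit 0) (nat_lit 13414883497) (nat_lit 1824) (nat_lit 193877458) (nat_lit 476) (nat_lit 5) (nat_lit 475) (nat_lit 5) (nat_lit 499) (nat_lit 5) (nat_lit 599) (nat_lit 581) (nat_lit 380))) (XT.nd (nat_lit 78) (nat_lit 0) (nat_lit 76) (XT.lf (nat_lit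 0) (nat_lit 1013109882) (nat_lit 1824) (nat_lit 5033587952) (nat_lit 1900) (nat_lit 10646064275) (nat_lit 451) (nat_lit 5) (nat_lit 475) (nat_lit 5) (nat_lit 476) (nat_lit 5) (nat_lit 600) (nat_lit 581) (nat_lit 379)) (XT.lf (nat_lit 0) (nat_lit 2269140038) (nat_lit 1824) (nat_lit 13119791675) (nat_lit 1900) (nat_lit 1476876274) (nat_lit 452) (nat_lit 5) (nat_lit 476) (nat_lit 5) (nat_lit 477) (nat_lit 5) (nat_lit 601) (nat_lit 581) (nat_lit 378)))) (XT.nd (nat_lit 156) (nat_lit 0) (nat_lit 76) (XT.nd (nat_lit 78) (nat_lit 0) (nat_lit 0) (XT.lf (nat_lit 0) (nat_lit 3617836787) (nat_lit 1824) (nat_lit 4317706770) (nat_lit 1900) (nat_lit 9105421277) (nat_lit 452) (nat_lit 5) (nat_lit 476) (nat_lit 5) (nat_lit 477) (nat_lit 5) (nat_lit 602) (nat_lit 581) (nat_lit 377)) (XT.lf (nat_lit 76) (nat_lit 4717145089) (nat_lit 0) (nat_lit 300616582) (nat_lit 1900) (nat_lit 12201379015) (nat_lit 453) (nat_lit 5) (nat_lit 452)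 (nat_lit 5) (nat_lit 477) (nat_lit 5) (nat_lit 603) (nat_lit 581) (nat_lit 376))) (XT.nd (nat_lit 78) (nat_lit 0) (nat_lit 0) (XT.lf (nat_lit 0) (nat_lit 6517188430) (nat_lit 1824) (nat_lit 3463122746) (nat_lit 1900) (nat_lit 7419139748) (nat_lit 453) (nat_lit 5) (nat_lit 477) (nat_lit 5) (nat_lit 478) (nat_lit 5) (nat_lit 604) (nat_lit 581) (nat_lit 375)) (XT.nd (nat_lit 78) (nat_lit 0) (nat_lit 76) (XT.lf (nat_lit 76) (nat_lit 5825804671) (nat_lit 0) (nat_lit 2254464663) (nat_lit 1900) (nat_lit 9502425635) (nat_lit 454) (nat_lit 5) (nat_lit 453) (nat_lit 5) (nat_lit 478) (nat_lit 5) (nat_lit 605) (nat_lit 581) (nat_lit 374)) (XT.lf (nat_lit 0) (nat_lit 9728475659) (nat_lit 1824) (nat_lit 2463598998) (nat_lit 76) (nat_lit 5576452862) (nat_lit 454) (nat_lit 5) (nat_lit 478) (nat_lit 5) (nat_lit 455) (nat_lit 5) (nat_lit 606) (nat_lit 581) (nat_lit 373)))))) (XT.nd (nat_lit 390) (nat_lit 2584) (nat_lit 0) (XT.nd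 (nat_lit 156) (nat_lit 1976) (nat_lit 0) (XT.nd (nat_lit 78) (nat_lit 0) (nat_lit 0) (XT.lf (nat_lit 0) (nat_lit 7088463891) (nat_lit 1672) (nat_lit 4376197669) (nat_lit 1748) (nat_lit 6492315731) (nat_lit 432) (nat_lit 5) (nat_lit 454) (nat_lit 5) (nat_lit 455) (nat_lit 5) (nat_lit 607) (nat_lit 581) (nat_lit 372)) (XT.lf (nat_lit 0) (nat_lit 13269710772) (nat_lit 1748) (nat_lit 1312579332) (nat_lit 76) (nat_lit 3566224026) (nat_lit 432) (nat_lit 5) (nat_lit 455) (nat_lit 5) (nat_lit 433) (nat_lit 5) (nat_lit 608) (nat_lit 581) (nat_lit 371))) (XT.nd (nat_lit 78) (nat_lit 988) (nat_lit 0) (XT.lf (nat_lit 0) (nat_lit 8512011273) (nat_lit 988) (nat_lit 6677361921) (nat_lit 1064) (nat_lit 3152939112) (nat_lit 419) (nat_lit 5) (nat_lit 432) (nat_lit 5) (nat_lit 433) (nat_lit 5) (nat_lit 609) (nat_lit 581) (nat_lit 370)) (XT.nd (nat_lit 78) (nat_lit 988) (nat_lit 0) (XT.lf (nat_lit 0) (nat_lit 17159640270) (nat_lit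 1064) (nat_lit 3180468) (nat_lit 76) (nat_lit 1376922313) (nat_lit 419) (nat_lit 5) (nat_lit 433) (nat_lit 5) (nat_lit 420) (nat_lit 5) (nat_lit 610) (nat_lit 581) (nat_lit 369)) (XT.lf (nat_lit 0) (nat_lit 527544102) (nat_lit 988) (nat_lit 8638834501) (nat_lit 76) (nat_lit 9572589608) (nat_lit 406) (nat_lit 5) (nat_lit 419) (nat_lit 5) (nat_lit 407) (nat_lit 5) (nat_lit 611) (nat_lit 581) (nat_lit 368))))) (XT.nd (nat_lit 156) (nat_lit 1672) (nat_lit 0) (XT.nd (nat_lit 78) (nat_lit 0) (nat_lit 0) (XT.lf (nat_lit 0) (nat_lit 1468358109) (nat_lit 912) (nat_lit 990576460) (nat_lit 988) (nat_lit 16482980234) (nat_lit 394) (nat_lit 5) (nat_lit 406) (nat_lit 5) (nat_lit 407) (nat_lit 5) (nat_lit 612) (nat_lit 581) (nat_lit 367)) (XT.lf (nat_lit 0) (nat_lit 4529595525) (nat_lit 988) (nat_lit 7306278680) (nat_lit 76) (nat_lit 7311034036) (nat_lit 394) (nat_lit 5) (nat_lit 407) (nat_lit 5) (nat_lit 395) (nat_lit 5) (nat_lit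 613) (nat_lit 581) (nat_lit 366))) (XT.nd (nat_lit 78) (nat_lit 836) (nat_lit 0) (XT.lf (nat_lit 0) (nat_lit 3093238257) (nat_lit 836) (nat_lit 3569756013) (nat_lit 912) (nat_lit 12692581537) (nat_lit 383) (nat_lit 5) (nat_lit 394) (nat_lit 5) (nat_lit 395) (nat_lit 5) (nat_lit 614) (nat_lit 581) (nat_lit 365)) (XT.nd (nat_lit 78) (nat_lit 836) (nat_lit 0) (XT.lf (nat_lit 0) (nat_lit 8914733432) (nat_lit 912) (nat_lit 5804730078) (nat_lit 76) (nat_lit 4847440502) (nat_lit 383) (nat_lit 5) (nat_lit 395) (nat_lit 5) (nat_lit 384) (nat_lit 5) (nat_lit 615) (nat_lit 581) (nat_lit 364)) (XT.lf (nat_lit 0) (nat_lit 4897534525) (nat_lit 836) (nat_lit 6364268025) (nat_lit 912) (nat_lit 8519651051) (nat_lit 372) (nat_lit 5) (nat_lit 383) (nat_lit 5) (nat_lit 384) (nat_lit 5) (nat_lit 616) (nat_lit 581) (nat_lit 363))))))))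
noncomputable def xc211 : XT := (XT.nd (nat_lit 1482) (nat_lit 4104) (nat_lit 0) (XT.nd (nat_lit 702) (nat_lit 3572) (nat_lit 0) (XT.nd (nat_lit 312) (nat_lit 2204) (nat_lit 0) (XT.nd (nat_lit 156) (nat_lit 912) (nat_lit 0) (XT.nd (nat_lit 78) (nat_lit 760) (nat_lit 0) (XT.lf (nat_lit 0) (nat_lit 13703959741) (nat_lit 912) (nat_lit 4126410599) (nat_lit 76) (nat_lit 2168961616) (nat_lit 372) (nat_lit 5) (nat_lit 384) (nat_lit 5) (nat_lit 373) (nat_lit 5) (nat_lit 617) (nat_lit 581) (nat_lit 362)) (XT.lf (nat_lit 0) (nat_lit 6889402207) (nat_lit 760) (nat_lit 9387459985) (nat_lit 836) (nat_lit 3943068338) (nat_lit 362) (nat_lit 5) (nat_lit 372) (nat_lit 5) (nat_lit 373) (nat_lit 5) (nat_lit 618) (nat_lit 581) (nat_lit 361))) (XT.nd (nat_lit 78) (nat_lit 912) (nat_lit 0) (XT.lf (nat_lit 0) (nat_lit 18176444985) (nat_lit 760) (nat_lit 747557141) (nat_lit 836) (nat_lit 1520484041) (nat_lit 362) (nat_lit 5) (nat_lit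 372) (nat_lit 5) (nat_lit 373) (nat_lit 5) (nat_lit 619) (nat_lit 581) (nat_lit 360)) (XT.lf (nat_lit 0) (nat_lit 1045274992) (nat_lit 912) (nat_lit 11600916674) (nat_lit 76) (nat_lit 8025074679) (nat_lit 350) (nat_lit 5) (nat_lit 362) (nat_lit 5) (nat_lit 351) (nat_lit 5) (nat_lit 620) (nat_lit 581) (nat_lit 359)))) (XT.nd (nat_lit 156) (nat_lit 1444) (nat_lit 0) (XT.nd (nat_lit 78) (nat_lit 760) (nat_lit 0) (XT.lf (nat_lit 0) (nat_lit 3657494774) (nat_lit 912) (nat_lit 256196326) (nat_lit 76) (nat_lit 16988380565) (nat_lit 350) (nat_lit 5) (nat_lit 362) (nat_lit 5) (nat_lit 351) (nat_lit 5) (nat_lit 621) (nat_lit 581) (nat_lit 358)) (XT.lf (nat_lit 0) (nat_lit 6424590273) (nat_lit 836) (nat_lit 9708233580) (nat_lit 76) (nat_lit 5002617239) (nat_lit 340) (nat_lit 5) (nat_lit 351) (nat_lit 5) (nat_lit 341) (nat_lit 5) (nat_lit 622) (nat_lit 581) (nat_lit 357))) (XT.nd (nat_lit 78) (nat_lit 684) (nat_lit 0) (XT.lf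 (nat_lit 0) (nat_lit 1969195499) (nat_lit 760) (nat_lit 7313633181) (nat_lit 836) (nat_lit 12089933824) (nat_lit 330) (nat_lit 5) (nat_lit 340) (nat_lit 5) (nat_lit 341) (nat_lit 5) (nat_lit 623) (nat_lit 581) (nat_lit 356)) (XT.nd (nat_lit 78) (nat_lit 684) (nat_lit 0) (XT.lf (nat_lit 0) (nat_lit 12270153454) (nat_lit 836) (nat_lit 7618174525) (nat_lit 76) (nat_lit 1725064538) (nat_lit 330) (nat_lit 5) (nat_lit 341) (nat_lit 5) (nat_lit 331) (nat_lit 5) (nat_lit 624) (nat_lit 581) (nat_lit 355)) (XT.lf (nat_lit 0) (nat_lit 4407327143) (nat_lit 684) (nat_lit 10982459805) (nat_lit 760) (nat_lit 6467597530) (nat_lit 321) (nat_lit 5) (nat_lit 330) (nat_lit 5) (nat_lit 331) (nat_lit 5) (nat_lit 625) (nat_lit 581) (nat_lit 354)))))) (XT.nd (nat_lit 390) (nat_lit 2052) (nat_lit 0) (XT.nd (nat_lit 156) (nat_lit 760) (nat_lit 0) (XT.nd (nat_lit 78) (nat_lit 760) (nat_lit 0) (XT.lf (nat_lit 0) (nat_lit 16771670990) (nat_lit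 684) (nat_lit 1846832319) (nat_lit 760) (nat_lit 3486819748) (nat_lit 321) (nat_lit 5) (nat_lit 330) (nat_lit 5) (nat_lit 331) (nat_lit 5) (nat_lit 626) (nat_lit 581) (nat_lit 353)) (XT.lf (nat_lit 0) (nat_lit 7064299141) (nat_lit 760) (nat_lit 14937522890) (nat_lit 836) (nat_lit 354598384) (nat_lit 311) (nat_lit 5) (nat_lit 321) (nat_lit 5) (nat_lit 322) (nat_lit 5) (nat_lit 627) (nat_lit 581) (nat_lit 352))) (XT.nd (nat_lit 78) (nat_lit 684) (nat_lit 0) (XT.lf (nat_lit 0) (nat_lit 2846952563) (nat_lit 836) (nat_lit 2865171425) (nat_lit 76) (nat_lit 16899168746) (nat_lit 310) (nat_lit 5) (nat_lit 321) (nat_lit 5) (nat_lit 311) (nat_lit 5) (nat_lit 628) (nat_lit 581) (nat_lit 351)) (XT.nd (nat_lit 78) (nat_lit 0) (nat_lit 0) (XT.lf (nat_lit 0) (nat_lit 6192493483) (nat_lit 760) (nat_lit 12961061096) (nat_lit 76) (nat_lit 3715967441) (nat_lit 301) (nat_lit 5) (nat_lit 311) (nat_lit 5) (nat_lit 302) (nat_lit 5) (nat_lit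 629) (nat_lit 581) (nat_lit 350)) (XT.lf (nat_lit 0) (nat_lit 9657936952) (nat_lit 760) (nat_lit 198981854) (nat_lit 76) (nat_lit 13274937775) (nat_lit 301) (nat_lit 5) (nat_lit 311) (nat_lit 5) (nat_lit 302) (nat_lit 5) (nat_lit 630) (nat_lit 581) (nat_lit 349))))) (XT.nd (nat_lit 156) (nat_lit 760) (nat_lit 0) (XT.nd (nat_lit 78) (nat_lit 608) (nat_lit 0) (XT.lf (nat_lit 0) (nat_lit 12983821570) (nat_lit 684) (nat_lit 289058437) (nat_lit 760) (nat_lit 10124954528) (nat_lit 292) (nat_lit 5) (nat_lit 301) (nat_lit 5) (nat_lit 302) (nat_lit 5) (nat_lit 631) (nat_lit 581) (nat_lit 348)) (XT.lf (nat_lit 0) (nat_lit 2733378289) (nat_lit 608) (nat_lit 14303257314) (nat_lit 684) (nat_lit 6630966677) (nat_lit 284) (nat_lit 5) (nat_lit 292) (nat_lit 5) (nat_lit 293) (nat_lit 5) (nat_lit 632) (nat_lit 581) (nat_lit 347))) (XT.nd (nat_lit 78) (nat_lit 760) (nat_lit 0) (XT.lf (nat_lit 0) (nat_lit 16278126184) (nat_lit 608)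 (nat_lit 4665309855) (nat_lit 684) (nat_lit 2997974444) (nat_lit 284) (nat_lit 5) (nat_lit 292) (nat_lit 5) (nat_lit 293) (nat_lit 5) (nat_lit 633) (nat_lit 581) (nat_lit 346)) (XT.nd (nat_lit 78) (nat_lit 0) (nat_lit 0) (XT.lf (nat_lit 0) (nat_lit 766827838) (nat_lit 760) (nat_lit 18312098801) (nat_lit 76) (nat_lit 5140308162) (nat_lit 274) (nat_lit 5) (nat_lit 284) (nat_lit 5) (nat_lit 275) (nat_lit 5) (nat_lit 634) (nat_lit 581) (nat_lit 345)) (XT.lf (nat_lit 0) (nat_lit 4645560384) (nat_lit 760) (nat_lit 4704652220) (nat_lit 76) (nat_lit 15150431595) (nat_lit 274) (nat_lit 5) (nat_lit 284) (nat_lit 5) (nat_lit 275) (nat_lit 5) (nat_lit 635) (nat_lit 581) (nat_lit 344))))))) (XT.nd (nat_lit 702) (nat_lit 1140) (nat_lit 0) (XT.nd (nat_lit 312) (nat_lit 1216) (nat_lit 0) (XT.nd (nat_lit 156) (nat_lit 1140) (nat_lit 0) (XT.nd (nat_lit 78) (nat_lit 0) (nat_lit 0) (XT.lf (nat_lit 0) (nat_lit 8662467754) (nat_lit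 684) (nat_lit 15498578873) (nat_lit 76) (nat_lit 625423612) (nat_lit 266) (nat_lit 5) (nat_lit 275) (nat_lit 5) (nat_lit 267) (nat_lit 5) (nat_lit 636) (nat_lit 581) (nat_lit 343)) (XT.lf (nat_lit 0) (nat_lit 12849609266) (nat_lit 684) (nat_lit 1520215782) (nat_lit 76) (nat_lit 10706390281) (nat_lit 266) (nat_lit 5) (nat_lit 275) (nat_lit 5) (nat_lit 267) (nat_lit 5) (nat_lit 637) (nat_lit 581) (nat_lit 342))) (XT.nd (nat_lit 78) (nat_lit 532) (nat_lit 0) (XT.lf (nat_lit 0) (nat_lit 12902261417) (nat_lit 608) (nat_lit 4298271139) (nat_lit 684) (nat_lit 8169622426) (nat_lit 258) (nat_lit 5) (nat_lit 266) (nat_lit 5) (nat_lit 267) (nat_lit 5) (nat_lit 638) (nat_lit 581) (nat_lit 341)) (XT.lf (nat_lit 0) (nat_lit 1945982285) (nat_lit 532) (nat_lit 19750493235) (nat_lit 608) (nat_lit 3972338316) (nat_lit 251) (nat_lit 5) (nat_lit 258) (nat_lit 5) (nat_lit 259) (nat_lit 5) (nat_lit 639) (nat_lit 581) (nat_lit 340))))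 (XT.nd (nat_lit 156) (nat_lit 532) (nat_lit 0) (XT.nd (nat_lit 78) (nat_lit 608) (nat_lit 0) (XT.lf (nat_lit 0) (nat_lit 413849154) (nat_lit 608) (nat_lit 9190380553) (nat_lit 76) (nat_lit 16366996288) (nat_lit 250) (nat_lit 5) (nat_lit 258) (nat_lit 5) (nat_lit 251) (nat_lit 5) (nat_lit 640) (nat_lit 581) (nat_lit 339)) (XT.lf (nat_lit 0) (nat_lit 4873118049) (nat_lit 684) (nat_lit 20607518384) (nat_lit 76) (nat_lit 797754282) (nat_lit 242) (nat_lit 5) (nat_lit 251) (nat_lit 5) (nat_lit 243) (nat_lit 5) (nat_lit 641) (nat_lit 581) (nat_lit 338))) (XT.nd (nat_lit 78) (nat_lit 532) (nat_lit 0) (XT.lf (nat_lit 0) (nat_lit 9543686637) (nat_lit 684) (nat_lit 5705215674) (nat_lit 76) (nat_lit 11340354530) (nat_lit 242) (nat_lit 5) (nat_lit 251) (nat_lit 5) (nat_lit 243) (nat_lit 5) (nat_lit 642) (nat_lit 581) (nat_lit 337)) (XT.nd (nat_lit 78) (nat_lit 0) (nat_lit 0) (XT.lf (nat_lit 0) (nat_lit 9616683011) (nat_lit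 532) (nat_lit 4749920911) (nat_lit 608) (nat_lit 12538558013) (nat_lit 235) (nat_lit 5) (nat_lit 242) (nat_lit 5) (nat_lit 243) (nat_lit 5) (nat_lit 643) (nat_lit 581) (nat_lit 336)) (XT.lf (nat_lit 0) (nat_lit 19359739680) (nat_lit 608) (nat_lit 1947814731) (nat_lit 76) (nat_lit 5918355901) (nat_lit 235) (nat_lit 5) (nat_lit 243) (nat_lit 5) (nat_lit 236) (nat_lit 5) (nat_lit 644) (nat_lit 581) (nat_lit 335)))))) (XT.nd (nat_lit 76518) (nat_lit 0) (nat_lit 18848) (XT.nd (nat_lit 76284) (nat_lit 0) (nat_lit 18772) (XT.nd (nat_lit 78) (nat_lit 608) (nat_lit 0) (XT.lf (nat_lit 0) (nat_lit 13845272805) (nat_lit 532) (nat_lit 10725414020) (nat_lit 608) (nat_lit 2980028233) (nat_lit 228) (nat_lit 5) (nat_lit 235) (nat_lit 5) (nat_lit 236) (nat_lit 5) (nat_lit 645) (nat_lit 581) (nat_lit 334)) (XT.lf (nat_lit 0) (nat_lit 2001721017) (nat_lit 608) (nat_lit 25773087034) (nat_lit 76) (nat_lit 106464712) (nat_lit 220) (nat_lit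 5) (nat_lit 228) (nat_lit 5) (nat_lit 221) (nat_lit 5) (nat_lit 646) (nat_lit 581) (nat_lit 333))) (XT.nd (nat_lit 78) (nat_lit 0) (nat_lit 0) (XT.lf (nat_lit 0) (nat_lit 616021098) (nat_lit 0) (nat_lit 616021098) (nat_lit 1748) (nat_lit 5821241657) (nat_lit 467) (nat_lit 5) (nat_lit 467) (nat_lit 3) (nat_lit 490) (nat_lit 3) (nat_lit 582) (nat_lit 582) (nat_lit 396)) (XT.nd (nat_lit 78) (nat_lit 0) (nat_lit 0) (XT.lf (nat_lit 0) (nat_lit 2862114077) (nat_lit 1748) (nat_lit 5994733560) (nat_lit 1824) (nat_lit 5383265028) (nat_lit 467) (nat_lit 5) (nat_lit 490) (nat_lit 3) (nat_lit 491) (nat_lit 5) (nat_lit 583) (nat_lit 582) (nat_lit 395)) (XT.lf (nat_lit 76) (nat_lit 1023275407) (nat_lit 0) (nat_lit 2250795584) (nat_lit 1824) (nat_lit 11102139587) (nat_lit 468) (nat_lit 5) (nat_lit 467) (nat_lit 5) (nat_lit 491) (nat_lit 5) (nat_lit 584) (nat_lit 582) (nat_lit 394))))) (XT.nd (nat_lit 156) (nat_lit 0) (nat_lit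 76) (XT.nd (nat_lit 78) (nat_lit 0) (nat_lit 0) (XT.lf (nat_lit 0) (nat_lit 3755229786) (nat_lit 1748) (nat_lit 6285533840) (nat_lit 1824) (nat_lit 4473048931) (nat_lit 468) (nat_lit 5) (nat_lit 491) (nat_lit 5) (nat_lit 492) (nat_lit 5) (nat_lit 585) (nat_lit 582) (nat_lit 393)) (XT.lf (nat_lit 76) (nat_lit 915600946) (nat_lit 0) (nat_lit 3342764843) (nat_lit 1824) (nat_lit 10395555039) (nat_lit 469) (nat_lit 5) (nat_lit 468) (nat_lit 5) (nat_lit 492) (nat_lit 5) (nat_lit 586) (nat_lit 582) (nat_lit 392))) (XT.nd (nat_lit 78) (nat_lit 0) (nat_lit 0) (XT.lf (nat_lit 0) (nat_lit 4828340695) (nat_lit 1748) (nat_lit 6477838936) (nat_lit 1824) (nat_lit 3489517418) (nat_lit 469) (nat_lit 5) (nat_lit 492) (nat_lit 5) (nat_lit 493) (nat_lit 5) (nat_lit 587) (nat_lit 582) (nat_lit 391)) (XT.nd (nat_lit 78) (nat_lit 0) (nat_lit 76) (XT.lf (nat_lit 76) (nat_lit 912904416) (nat_lit 0) (nat_lit 4516702289) (nat_lit 1824) (nat_lit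 9510305543) (nat_lit 470) (nat_lit 5) (nat_lit 469) (nat_lit 5) (nat_lit 493) (nat_lit 5) (nat_lit 588) (nat_lit 582) (nat_lit 390)) (XT.lf (nat_lit 0) (nat_lit 6094271318) (nat_lit 1748) (nat_lit 6567731432) (nat_lit 1824) (nat_lit 2423982790) (nat_lit 470) (nat_lit 5) (nat_lit 493) (nat_lit 5) (nat_lit 494) (nat_lit 5) (nat_lit 589) (nat_lit 582) (nat_lit 389))))))))
noncomputable def xc212 : XT := (XT.nd (nat_lit 1482) (nat_lit 8436) (nat_lit 0) (XT.nd (nat_lit 702) (nat_lit 2888) (nat_lit 0) (XT.nd (nat_lit 312) (nat_lit 0) (nat_lit 152) (XT.nd (nat_lit 156) (nat_lit 0) (nat_lit 76) (XT.nd (nat_lit 78) (nat_lit 0) (nat_lit 76) (XT.lf (nat_lit 76) (nat_lit 1019349623) (nat_lit 0) (nat_lit 5781544825) (nat_lit 1824) (nat_lit 8433513780) (nat_lit 471) (nat_lit 5) (nat_lit 470) (nat_lit 5) (nat_lit 494) (nat_lit 5) (nat_lit 590) (nat_lit 582) (nat_lit 388)) (XT.lf (nat_lit 0) (nat_lit 7566320243) (nat_lit 1748)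 (nat_lit 6551019651) (nat_lit 1824) (nat_lit 1267567282) (nat_lit 471) (nat_lit 5) (nat_lit 494) (nat_lit 5) (nat_lit 495) (nat_lit 5) (nat_lit 591) (nat_lit 582) (nat_lit 387))) (XT.nd (nat_lit 78) (nat_lit 0) (nat_lit 76) (XT.lf (nat_lit 76) (nat_lit 1239382935) (nat_lit 0) (nat_lit 7146435390) (nat_lit 1824) (nat_lit 7151823686) (nat_lit 472) (nat_lit 5) (nat_lit 471) (nat_lit 5) (nat_lit 495) (nat_lit 5) (nat_lit 592) (nat_lit 582) (nat_lit 386)) (XT.lf (nat_lit 0) (nat_lit 9258286185) (nat_lit 1748) (nat_lit 6423233150) (nat_lit 1824) (nat_lit 11181774) (nat_lit 472) (nat_lit 5) (nat_lit 495) (nat_lit 5) (nat_lit 496) (nat_lit 5) (nat_lit 593) (nat_lit 582) (nat_lit 385)))) (XT.nd (nat_lit 156) (nat_lit 0) (nat_lit 76) (XT.nd (nat_lit 78) (nat_lit 0) (nat_lit 0) (XT.lf (nat_lit 76) (nat_lit 1577738102) (nat_lit 0) (nat_lit 8620744608) (nat_lit 1824) (nat_lit 5651374231) (nat_lit 473) (nat_lit 5) (nat_lit 472)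 (nat_lit 5) (nat_lit 496) (nat_lit 5) (nat_lit 594) (nat_lit 582) (nat_lit 384)) (XT.lf (nat_lit 76) (nat_lit 9820909639) (nat_lit 0) (nat_lit 1372496244) (nat_lit 1824) (nat_lit 4816032669) (nat_lit 473) (nat_lit 5) (nat_lit 472) (nat_lit 5) (nat_lit 496) (nat_lit 5) (nat_lit 595) (nat_lit 582) (nat_lit 383))) (XT.nd (nat_lit 78) (nat_lit 0) (nat_lit 0) (XT.lf (nat_lit 76) (nat_lit 2039441562) (nat_lit 0) (nat_lit 10214092686) (nat_lit 1824) (nat_lit 3917772510) (nat_lit 474) (nat_lit 5) (nat_lit 473) (nat_lit 5) (nat_lit 497) (nat_lit 5) (nat_lit 596) (nat_lit 582) (nat_lit 382)) (XT.nd (nat_lit 78) (nat_lit 0) (nat_lit 76) (XT.lf (nat_lit 76) (nat_lit 10501732566) (nat_lit 0) (nat_lit 2876771142) (nat_lit 1824) (nat_lit 2957036920) (nat_lit 474) (nat_lit 5) (nat_lit 473) (nat_lit 5) (nat_lit 497) (nat_lit 5) (nat_lit 597) (nat_lit 582) (nat_lit 381)) (XT.lf (nat_lit 76) (nat_lit 2629818187) (nat_lit 0) (nat_lit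 11936371612) (nat_lit 1824) (nat_lit 1936066086) (nat_lit 475) (nat_lit 5) (nat_lit 474) (nat_lit 5) (nat_lit 498) (nat_lit 5) (nat_lit 598) (nat_lit 582) (nat_lit 380)))))) (XT.nd (nat_lit 390) (nat_lit 1444) (nat_lit 0) (XT.nd (nat_lit 156) (nat_lit 0) (nat_lit 0) (XT.nd (nat_lit 78) (nat_lit 1748) (nat_lit 0) (XT.lf (nat_lit 76) (nat_lit 11317554872) (nat_lit 0) (nat_lit 4511478590) (nat_lit 1824) (nat_lit 842244940) (nat_lit 475) (nat_lit 5) (nat_lit 474) (nat_lit 5) (nat_lit 498) (nat_lit 5) (nat_lit 599) (nat_lit 582) (nat_lit 379)) (XT.lf (nat_lit 0) (nat_lit 305229123) (nat_lit 1824) (nat_lit 13490490344) (nat_lit 1900) (nat_lit 3047220127) (nat_lit 451) (nat_lit 5) (nat_lit 475) (nat_lit 5) (nat_lit 476) (nat_lit 5) (nat_lit 600) (nat_lit 582) (nat_lit 378))) (XT.nd (nat_lit 78) (nat_lit 0) (nat_lit 76) (XT.lf (nat_lit 0) (nat_lit 1523951040) (nat_lit 1824) (nat_lit 4752728461) (nat_lit 1900) (nat_lit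 10740052616) (nat_lit 451) (nat_lit 5) (nat_lit 475) (nat_lit 5) (nat_lit 476) (nat_lit 5) (nat_lit 601) (nat_lit 582) (nat_lit 377)) (XT.nd (nat_lit 78) (nat_lit 0) (nat_lit 0) (XT.lf (nat_lit 0) (nat_lit 2797265630) (nat_lit 1824) (nat_lit 12992747879) (nat_lit 1900) (nat_lit 1403383570) (nat_lit 452) (nat_lit 5) (nat_lit 476) (nat_lit 5) (nat_lit 477) (nat_lit 5) (nat_lit 602) (nat_lit 582) (nat_lit 376)) (XT.lf (nat_lit 0) (nat_lit 4163470769) (nat_lit 1824) (nat_lit 4022257347) (nat_lit 1900) (nat_lit 9186519674) (nat_lit 452) (nat_lit 5) (nat_lit 476) (nat_lit 5) (nat_lit 477) (nat_lit 5) (nat_lit 603) (nat_lit 582) (nat_lit 375))))) (XT.nd (nat_lit 156) (nat_lit 1520) (nat_lit 0) (XT.nd (nat_lit 78) (nat_lit 0) (nat_lit 76) (XT.lf (nat_lit 76) (nat_lit 5190779683) (nat_lit 0) (nat_lit 393797135) (nat_lit 1900) (nat_lit 11969548077) (nat_lit 453) (nat_lit 5) (nat_lit 452) (nat_lit 5) (nat_lit 477) (nat_lit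 5) (nat_lit 604) (nat_lit 582) (nat_lit 374)) (XT.lf (nat_lit 0) (nat_lit 7104290982) (nat_lit 1824) (nat_lit 3150761425) (nat_lit 1900) (nat_lit 7483184313) (nat_lit 453) (nat_lit 5) (nat_lit 477) (nat_lit 5) (nat_lit 478) (nat_lit 5) (nat_lit 605) (nat_lit 582) (nat_lit 373))) (XT.nd (nat_lit 78) (nat_lit 1596) (nat_lit 0) (XT.lf (nat_lit 76) (nat_lit 6321433857) (nat_lit 0) (nat_lit 2370705047) (nat_lit 1900) (nat_lit 9233137970) (nat_lit 454) (nat_lit 5) (nat_lit 453) (nat_lit 5) (nat_lit 478) (nat_lit 5) (nat_lit 606) (nat_lit 582) (nat_lit 372)) (XT.nd (nat_lit 78) (nat_lit 1672) (nat_lit 0) (XT.lf (nat_lit 0) (nat_lit 10364027744) (nat_lit 1824) (nat_lit 2131844461) (nat_lit 76) (nat_lit 5619140810) (nat_lit 454) (nat_lit 5) (nat_lit 478) (nat_lit 5) (nat_lit 455) (nat_lit 5) (nat_lit 607) (nat_lit 582) (nat_lit 371)) (XT.lf (nat_lit 0) (nat_lit 7608752933) (nat_lit 1672) (nat_lit 4519995314) (nat_lit 1748)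 (nat_lit 6178608600) (nat_lit 432) (nat_lit 5) (nat_lit 454) (nat_lit 5) (nat_lit 455) (nat_lit 5) (nat_lit 608) (nat_lit 582) (nat_lit 370))))))) (XT.nd (nat_lit 702) (nat_lit 3876) (nat_lit 0) (XT.nd (nat_lit 312) (nat_lit 2584) (nat_lit 0) (XT.nd (nat_lit 156) (nat_lit 988) (nat_lit 0) (XT.nd (nat_lit 78) (nat_lit 988) (nat_lit 0) (XT.lf (nat_lit 0) (nat_lit 13961014879) (nat_lit 1748) (nat_lit 958786683) (nat_lit 76) (nat_lit 3583101788) (nat_lit 432) (nat_lit 5) (nat_lit 455) (nat_lit 5) (nat_lit 433) (nat_lit 5) (nat_lit 609) (nat_lit 582) (nat_lit 369)) (XT.lf (nat_lit 0) (nat_lit 9059795443) (nat_lit 988) (nat_lit 6853375199) (nat_lit 1064) (nat_lit 2787526081) (nat_lit 419) (nat_lit 5) (nat_lit 432) (nat_lit 5) (nat_lit 433) (nat_lit 5) (nat_lit 610) (nat_lit 582) (nat_lit 368))) (XT.nd (nat_lit 78) (nat_lit 76) (nat_lit 0) (XT.lf (nat_lit 0) (nat_lit 380452977) (nat_lit 912) (nat_lit 17536354433) (nat_lit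 988) (nat_lit 985390592) (nat_lit 407) (nat_lit 5) (nat_lit 419) (nat_lit 5) (nat_lit 420) (nat_lit 5) (nat_lit 611) (nat_lit 582) (nat_lit 367)) (XT.lf (nat_lit 0) (nat_lit 946719495) (nat_lit 988) (nat_lit 8429906859) (nat_lit 76) (nat_lit 9728890654) (nat_lit 406) (nat_lit 5) (nat_lit 419) (nat_lit 5) (nat_lit 407) (nat_lit 5) (nat_lit 612) (nat_lit 582) (nat_lit 366)))) (XT.nd (nat_lit 156) (nat_lit 1672) (nat_lit 0) (XT.nd (nat_lit 78) (nat_lit 0) (nat_lit 0) (XT.lf (nat_lit 0) (nat_lit 1876918390) (nat_lit 912) (nat_lit 1034269110) (nat_lit 988) (nat_lit 16401447178) (nat_lit 394) (nat_lit 5) (nat_lit 406) (nat_lit 5) (nat_lit 407) (nat_lit 5) (nat_lit 613) (nat_lit 582) (nat_lit 365)) (XT.lf (nat_lit 0) (nat_lit 5015206246) (nat_lit 988) (nat_lit 7072535045) (nat_lit 76) (nat_lit 7434148917) (nat_lit 394) (nat_lit 5) (nat_lit 407) (nat_lit 5) (nat_lit 395) (nat_lit 5) (nat_lit 614) (nat_lit 582) (nat_lit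 364))) (XT.nd (nat_lit 78) (nat_lit 836) (nat_lit 0) (XT.lf (nat_lit 0) (nat_lit 3532473091) (nat_lit 836) (nat_lit 3653504544) (nat_lit 912) (nat_lit 12548860491) (nat_lit 383) (nat_lit 5) (nat_lit 394) (nat_lit 5) (nat_lit 395) (nat_lit 5) (nat_lit 615) (nat_lit 582) (nat_lit 363)) (XT.nd (nat_lit 78) (nat_lit 836) (nat_lit 0) (XT.lf (nat_lit 0) (nat_lit 9475031310) (nat_lit 912) (nat_lit 5543080100) (nat_lit 76) (nat_lit 4932436965) (nat_lit 383) (nat_lit 5) (nat_lit 395) (nat_lit 5) (nat_lit 384) (nat_lit 5) (nat_lit 616) (nat_lit 582) (nat_lit 362)) (XT.lf (nat_lit 0) (nat_lit 5370744634) (nat_lit 836) (nat_lit 6493243351) (nat_lit 912) (nat_lit 8305503099) (nat_lit 372) (nat_lit 5) (nat_lit 383) (nat_lit 5) (nat_lit 384) (nat_lit 5) (nat_lit 617) (nat_lit 582) (nat_lit 361)))))) (XT.nd (nat_lit 390) (nat_lit 1444) (nat_lit 0) (XT.nd (nat_lit 156) (nat_lit 1672) (nat_lit 0) (XT.nd (nat_lit 78) (nat_lit 760)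 (nat_lit 0) (XT.lf (nat_lit 0) (nat_lit 14347586398) (nat_lit 912) (nat_lit 3833583929) (nat_lit 76) (nat_lit 2210705749) (nat_lit 372) (nat_lit 5) (nat_lit 384) (nat_lit 5) (nat_lit 373) (nat_lit 5) (nat_lit 618) (nat_lit 582) (nat_lit 360)) (XT.lf (nat_lit 0) (nat_lit 7400075694) (nat_lit 760) (nat_lit 9567046195) (nat_lit 836) (nat_lit 3649862244) (nat_lit 362) (nat_lit 5) (nat_lit 372) (nat_lit 5) (nat_lit 373) (nat_lit 5) (nat_lit 619) (nat_lit 582) (nat_lit 359))) (XT.nd (nat_lit 78) (nat_lit 1672) (nat_lit 0) (XT.lf (nat_lit 0) (nat_lit 18905547848) (nat_lit 760) (nat_lit 754505353) (nat_lit 836) (nat_lit 1186121702) (nat_lit 362) (nat_lit 5) (nat_lit 372) (nat_lit 5) (nat_lit 373) (nat_lit 5) (nat_lit 620) (nat_lit 582) (nat_lit 358)) (XT.nd (nat_lit 78) (nat_lit 760) (nat_lit 0) (XT.lf (nat_lit 0) (nat_lit 1421581118) (nat_lit 912) (nat_lit 11457893412) (nat_lit 76) (nat_lit 8198061488) (nat_lit 350) (nat_lit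 5) (nat_lit 362) (nat_lit 5) (nat_lit 351) (nat_lit 5) (nat_lit 621) (nat_lit 582) (nat_lit 357)) (XT.lf (nat_lit 0) (nat_lit 107781155) (nat_lit 760) (nat_lit 3971995287) (nat_lit 836) (nat_lit 17233307312) (nat_lit 340) (nat_lit 5) (nat_lit 350) (nat_lit 5) (nat_lit 351) (nat_lit 5) (nat_lit 622) (nat_lit 582) (nat_lit 356))))) (XT.nd (nat_lit 156) (nat_lit 684) (nat_lit 0) (XT.nd (nat_lit 78) (nat_lit 760) (nat_lit 0) (XT.lf (nat_lit 0) (nat_lit 6897191908) (nat_lit 836) (nat_lit 9530342464) (nat_lit 76) (nat_lit 5123687552) (nat_lit 340) (nat_lit 5) (nat_lit 351) (nat_lit 5) (nat_lit 341) (nat_lit 5) (nat_lit 623) (nat_lit 582) (nat_lit 355)) (XT.lf (nat_lit 0) (nat_lit 2378187462) (nat_lit 760) (nat_lit 7430060111) (nat_lit 836) (nat_lit 11985130040) (nat_lit 330) (nat_lit 5) (nat_lit 340) (nat_lit 5) (nat_lit 341) (nat_lit 5) (nat_lit 624) (nat_lit 582) (nat_lit 354))) (XT.nd (nat_lit 78) (nat_lit 684) (nat_lit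 0) (XT.lf (nat_lit 0) (nat_lit 12848846815) (nat_lit 836) (nat_lit 7401661137) (nat_lit 76) (nat_lit 1788442595) (nat_lit 330) (nat_lit 5) (nat_lit 341) (nat_lit 5) (nat_lit 331) (nat_lit 5) (nat_lit 625) (nat_lit 582) (nat_lit 353)) (XT.nd (nat_lit 78) (nat_lit 0) (nat_lit 0) (XT.lf (nat_lit 0) (nat_lit 4861923742) (nat_lit 684) (nat_lit 11164793369) (nat_lit 760) (nat_lit 6261189216) (nat_lit 321) (nat_lit 5) (nat_lit 330) (nat_lit 5) (nat_lit 331) (nat_lit 5) (nat_lit 626) (nat_lit 582) (nat_lit 352)) (XT.lf (nat_lit 0) (nat_lit 17466369171) (nat_lit 684) (nat_lit 1847185013) (nat_lit 760) (nat_lit 3227379412) (nat_lit 321) (nat_lit 5) (nat_lit 330) (nat_lit 5) (nat_lit 331) (nat_lit 5) (nat_lit 627) (nat_lit 582) (nat_lit 351))))))))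
noncomputable def xc213 : XT := (XT.nd (nat_lit 77688) (nat_lit 0) (nat_lit 16948) (XT.nd (nat_lit 702) (nat_lit 3496) (nat_lit 0) (XT.nd (nat_lit 312) (nat_lit 1368) (nat_lit 0) (XT.nd (nat_lit 156) (nat_lit 1368) (nat_lit 0) (XT.nd (nat_lit 78) (nat_lit 76) (nat_lit 0) (XT.lf (nat_lit 0) (nat_lit 7568703522) (nat_lit 760) (nat_lit 15192099159) (nat_lit 836) (nat_lit 36325782) (nat_lit 311) (nat_lit 5) (nat_lit 321) (nat_lit 5) (nat_lit 322) (nat_lit 5) (nat_lit 628) (nat_lit 582) (nat_lit 350)) (XT.lf (nat_lit 0) (nat_lit 3218692943) (nat_lit 836) (nat_lit 2562253015) (nat_lit 76) (nat_lit 17276236739) (nat_lit 310) (nat_lit 5) (nat_lit 321) (nat_lit 5) (nat_lit 311) (nat_lit 5) (nat_lit 629) (nat_lit 582) (nat_lit 349))) (XT.nd (nat_lit 78) (nat_lit 684) (nat_lit 0) (XT.lf (nat_lit 0) (nat_lit 6627600022) (nat_lit 760) (nat_lit 12856476737) (nat_lit 76) (nat_lit 3836571483) (nat_lit 301) (nat_lit 5) (nat_lit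 311) (nat_lit 5) (nat_lit 302) (nat_lit 5) (nat_lit 630) (nat_lit 582) (nat_lit 348)) (XT.lf (nat_lit 0) (nat_lit 155753380) (nat_lit 684) (nat_lit 10001507163) (nat_lit 760) (nat_lit 13431071555) (nat_lit 292) (nat_lit 5) (nat_lit 301) (nat_lit 5) (nat_lit 302) (nat_lit 5) (nat_lit 631) (nat_lit 582) (nat_lit 347)))) (XT.nd (nat_lit 156) (nat_lit 760) (nat_lit 0) (XT.nd (nat_lit 78) (nat_lit 608) (nat_lit 0) (XT.lf (nat_lit 0) (nat_lit 13597823612) (nat_lit 684) (nat_lit 241984706) (nat_lit 760) (nat_lit 10019915927) (nat_lit 292) (nat_lit 5) (nat_lit 301) (nat_lit 5) (nat_lit 302) (nat_lit 5) (nat_lit 632) (nat_lit 582) (nat_lit 346)) (XT.lf (nat_lit 0) (nat_lit 3145726530) (nat_lit 608) (nat_lit 14529860046) (nat_lit 684) (nat_lit 6459366555) (nat_lit 284) (nat_lit 5) (nat_lit 292) (nat_lit 5) (nat_lit 293) (nat_lit 5) (nat_lit 633) (nat_lit 582) (nat_lit 345))) (XT.nd (nat_lit 78) (nat_lit 760) (nat_lit 0)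 (XT.lf (nat_lit 0) (nat_lit 16954356037) (nat_lit 608) (nat_lit 4700319567) (nat_lit 684) (nat_lit 2759679564) (nat_lit 284) (nat_lit 5) (nat_lit 292) (nat_lit 5) (nat_lit 293) (nat_lit 5) (nat_lit 634) (nat_lit 582) (nat_lit 344)) (XT.nd (nat_lit 78) (nat_lit 0) (nat_lit 0) (XT.lf (nat_lit 0) (nat_lit 1073421720) (nat_lit 760) (nat_lit 18320606301) (nat_lit 76) (nat_lit 5303731624) (nat_lit 274) (nat_lit 5) (nat_lit 284) (nat_lit 5) (nat_lit 275) (nat_lit 5) (nat_lit 635) (nat_lit 582) (nat_lit 343)) (XT.lf (nat_lit 0) (nat_lit 5024017989) (nat_lit 760) (nat_lit 4448025190) (nat_lit 76) (nat_lit 15512868951) (nat_lit 274) (nat_lit 5) (nat_lit 284) (nat_lit 5) (nat_lit 275) (nat_lit 5) (nat_lit 636) (nat_lit 582) (nat_lit 342)))))) (XT.nd (nat_lit 390) (nat_lit 1672) (nat_lit 0) (XT.nd (nat_lit 156) (nat_lit 1216) (nat_lit 0) (XT.nd (nat_lit 78) (nat_lit 0) (nat_lit 0) (XT.lf (nat_lit 0) (nat_lit 9118356519) (nat_lit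 684) (nat_lit 15454890030) (nat_lit 76) (nat_lit 703266949) (nat_lit 266) (nat_lit 5) (nat_lit 275) (nat_lit 5) (nat_lit 267) (nat_lit 5) (nat_lit 637) (nat_lit 582) (nat_lit 341)) (XT.lf (nat_lit 0) (nat_lit 13383698912) (nat_lit 684) (nat_lit 1203894195) (nat_lit 76) (nat_lit 10984571875) (nat_lit 266) (nat_lit 5) (nat_lit 275) (nat_lit 5) (nat_lit 267) (nat_lit 5) (nat_lit 638) (nat_lit 582) (nat_lit 340))) (XT.nd (nat_lit 78) (nat_lit 608) (nat_lit 0) (XT.lf (nat_lit 0) (nat_lit 13504751456) (nat_lit 608) (nat_lit 4313692292) (nat_lit 684) (nat_lit 8053604261) (nat_lit 258) (nat_lit 5) (nat_lit 266) (nat_lit 5) (nat_lit 267) (nat_lit 5) (nat_lit 639) (nat_lit 582) (nat_lit 339)) (XT.nd (nat_lit 78) (nat_lit 76) (nat_lit 0) (XT.lf (nat_lit 0) (nat_lit 2332099473) (nat_lit 532) (nat_lit 20069538776) (nat_lit 608) (nat_lit 3775095766) (nat_lit 251) (nat_lit 5) (nat_lit 258) (nat_lit 5) (nat_lit 259) (nat_lit 5)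 (nat_lit 640) (nat_lit 582) (nat_lit 338)) (XT.lf (nat_lit 0) (nat_lit 689832496) (nat_lit 608) (nat_lit 9030210527) (nat_lit 76) (nat_lit 16765223152) (nat_lit 250) (nat_lit 5) (nat_lit 258) (nat_lit 5) (nat_lit 251) (nat_lit 5) (nat_lit 641) (nat_lit 582) (nat_lit 337))))) (XT.nd (nat_lit 156) (nat_lit 1064) (nat_lit 0) (XT.nd (nat_lit 78) (nat_lit 0) (nat_lit 0) (XT.lf (nat_lit 0) (nat_lit 5235756449) (nat_lit 684) (nat_lit 20673131175) (nat_lit 76) (nat_lit 889737764) (nat_lit 242) (nat_lit 5) (nat_lit 251) (nat_lit 5) (nat_lit 243) (nat_lit 5) (nat_lit 642) (nat_lit 582) (nat_lit 336)) (XT.lf (nat_lit 0) (nat_lit 9994536879) (nat_lit 684) (nat_lit 5479577266) (nat_lit 76) (nat_lit 11641699264) (nat_lit 242) (nat_lit 5) (nat_lit 251) (nat_lit 5) (nat_lit 243) (nat_lit 5) (nat_lit 643) (nat_lit 582) (nat_lit 335))) (XT.nd (nat_lit 78) (nat_lit 532) (nat_lit 0) (XT.lf (nat_lit 0) (nat_lit 10146524244) (nat_lit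 532) (nat_lit 4764482010) (nat_lit 608) (nat_lit 12527089044) (nat_lit 235) (nat_lit 5) (nat_lit 242) (nat_lit 5) (nat_lit 243) (nat_lit 5) (nat_lit 644) (nat_lit 582) (nat_lit 334)) (XT.nd (nat_lit 78) (nat_lit 532) (nat_lit 0) (XT.lf (nat_lit 0) (nat_lit 19999476146) (nat_lit 608) (nat_lit 1651324756) (nat_lit 76) (nat_lit 6114548871) (nat_lit 235) (nat_lit 5) (nat_lit 243) (nat_lit 5) (nat_lit 236) (nat_lit 5) (nat_lit 645) (nat_lit 582) (nat_lit 333)) (XT.lf (nat_lit 0) (nat_lit 14455417648) (nat_lit 532) (nat_lit 10856436400) (nat_lit 608) (nat_lit 2784852877) (nat_lit 228) (nat_lit 5) (nat_lit 235) (nat_lit 5) (nat_lit 236) (nat_lit 5) (nat_lit 646) (nat_lit 582) (nat_lit 332))))))) (XT.nd (nat_lit 702) (nat_lit 1216) (nat_lit 0) (XT.nd (nat_lit 312) (nat_lit 0) (nat_lit 76) (XT.nd (nat_lit 156) (nat_lit 0) (nat_lit 0) (XT.nd (nat_lit 78) (nat_lit 0) (nat_lit 0) (XT.lf (nat_lit 0) (nat_lit 796230660) (nat_lit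 0) (nat_lit 796230660) (nat_lit 1748) (nat_lit 5595120046) (nat_lit 467) (nat_lit 5) (nat_lit 467) (nat_lit 3) (nat_lit 490) (nat_lit 3) (nat_lit 583) (nat_lit 583) (nat_lit 394)) (XT.lf (nat_lit 0) (nat_lit 3575607793) (nat_lit 1748) (nat_lit 5770025582) (nat_lit 1824) (nat_lit 5166053381) (nat_lit 467) (nat_lit 5) (nat_lit 490) (nat_lit 3) (nat_lit 491) (nat_lit 5) (nat_lit 584) (nat_lit 583) (nat_lit 393))) (XT.nd (nat_lit 78) (nat_lit 0) (nat_lit 76) (XT.lf (nat_lit 76) (nat_lit 1386076442) (nat_lit 0) (nat_lit 2599082398) (nat_lit 1824) (nat_lit 10665562709) (nat_lit 468) (nat_lit 5) (nat_lit 467) (nat_lit 5) (nat_lit 491) (nat_lit 5) (nat_lit 585) (nat_lit 583) (nat_lit 392)) (XT.lf (nat_lit 0) (nat_lit 4461351433) (nat_lit 1748) (nat_lit 6060932944) (nat_lit 1824) (nat_lit 4269084959) (nat_lit 468) (nat_lit 5) (nat_lit 491) (nat_lit 5) (nat_lit 492) (nat_lit 5) (nat_lit 586) (nat_lit 583) (nat_lit 391))))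 (XT.nd (nat_lit 156) (nat_lit 0) (nat_lit 76) (XT.nd (nat_lit 78) (nat_lit 0) (nat_lit 76) (XT.lf (nat_lit 76) (nat_lit 1281919856) (nat_lit 0) (nat_lit 3682516909) (nat_lit 1824) (nat_lit 9970047220) (nat_lit 469) (nat_lit 5) (nat_lit 468) (nat_lit 5) (nat_lit 492) (nat_lit 5) (nat_lit 587) (nat_lit 583) (nat_lit 390)) (XT.lf (nat_lit 0) (nat_lit 5531899503) (nat_lit 1748) (nat_lit 6252205542) (nat_lit 1824) (nat_lit 3295270827) (nat_lit 469) (nat_lit 5) (nat_lit 492) (nat_lit 5) (nat_lit 493) (nat_lit 5) (nat_lit 588) (nat_lit 583) (nat_lit 389))) (XT.nd (nat_lit 78) (nat_lit 0) (nat_lit 76) (XT.lf (nat_lit 76) (nat_lit 1284015900) (nat_lit 0) (nat_lit 4851564087) (nat_lit 1824) (nat_lit 9091089470) (nat_lit 470) (nat_lit 5) (nat_lit 469) (nat_lit 5) (nat_lit 493) (nat_lit 5) (nat_lit 589) (nat_lit 583) (nat_lit 388)) (XT.nd (nat_lit 78) (nat_lit 0) (nat_lit 0) (XT.lf (nat_lit 0) (nat_lit 6800268030) (nat_lit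 1748) (nat_lit 6339789916) (nat_lit 1824) (nat_lit 2235873499) (nat_lit 470) (nat_lit 5) (nat_lit 493) (nat_lit 5) (nat_lit 494) (nat_lit 5) (nat_lit 590) (nat_lit 583) (nat_lit 387)) (XT.lf (nat_lit 76) (nat_lit 1396668970) (nat_lit 0) (nat_lit 6115218932) (nat_lit 1824) (nat_lit 8015619195) (nat_lit 471) (nat_lit 5) (nat_lit 470) (nat_lit 5) (nat_lit 494) (nat_lit 5) (nat_lit 591) (nat_lit 583) (nat_lit 386)))))) (XT.nd (nat_lit 390) (nat_lit 1520) (nat_lit 0) (XT.nd (nat_lit 156) (nat_lit 0) (nat_lit 0) (XT.nd (nat_lit 78) (nat_lit 0) (nat_lit 0) (XT.lf (nat_lit 0) (nat_lit 8279960259) (nat_lit 1748) (nat_lit 6319356386) (nat_lit 1824) (nat_lit 1081954377) (nat_lit 471) (nat_lit 5) (nat_lit 494) (nat_lit 5) (nat_lit 495) (nat_lit 5) (nat_lit 592) (nat_lit 583) (nat_lit 385)) (XT.lf (nat_lit 76) (nat_lit 1624468175) (nat_lit 0) (nat_lit 7482693661) (nat_lit 1824) (nat_lit 6730074173) (nat_lit 472) (nat_lit 5)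 (nat_lit 471) (nat_lit 5) (nat_lit 495) (nat_lit 5) (nat_lit 593) (nat_lit 583) (nat_lit 384))) (XT.nd (nat_lit 78) (nat_lit 0) (nat_lit 76) (XT.lf (nat_lit 76) (nat_lit 9808166777) (nat_lit 0) (nat_lit 177981806) (nat_lit 1824) (nat_lit 6009468007) (nat_lit 472) (nat_lit 5) (nat_lit 471) (nat_lit 5) (nat_lit 495) (nat_lit 5) (nat_lit 594) (nat_lit 583) (nat_lit 383)) (XT.nd (nat_lit 78) (nat_lit 0) (nat_lit 0) (XT.lf (nat_lit 76) (nat_lit 1972292468) (nat_lit 0) (nat_lit 8963439377) (nat_lit 1824) (nat_lit 5220373697) (nat_lit 473) (nat_lit 5) (nat_lit 472) (nat_lit 5) (nat_lit 496) (nat_lit 5) (nat_lit 595) (nat_lit 583) (nat_lit 382)) (XT.lf (nat_lit 76) (nat_lit 10373209797) (nat_lit 0) (nat_lit 1566887224) (nat_lit 1824) (nat_lit 4378992521) (nat_lit 473) (nat_lit 5) (nat_lit 472) (nat_lit 5) (nat_lit 496) (nat_lit 5) (nat_lit 596) (nat_lit 583) (nat_lit 381))))) (XT.nd (nat_lit 156) (nat_lit 1672) (nat_lit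 0) (XT.nd (nat_lit 78) (nat_lit 0) (nat_lit 0) (XT.lf (nat_lit 76) (nat_lit 2445316244) (nat_lit 0) (nat_lit 10567168018) (nat_lit 1824) (nat_lit 3471891318) (nat_lit 474) (nat_lit 5) (nat_lit 473) (nat_lit 5) (nat_lit 497) (nat_lit 5) (nat_lit 597) (nat_lit 583) (nat_lit 380)) (XT.lf (nat_lit 76) (nat_lit 11069694522) (nat_lit 0) (nat_lit 3080182524) (nat_lit 1824) (nat_lit 2502220167) (nat_lit 474) (nat_lit 5) (nat_lit 473) (nat_lit 5) (nat_lit 497) (nat_lit 5) (nat_lit 598) (nat_lit 583) (nat_lit 379))) (XT.nd (nat_lit 78) (nat_lit 1748) (nat_lit 0) (XT.lf (nat_lit 76) (nat_lit 3049015387) (nat_lit 0) (nat_lit 12303874639) (nat_lit 1824) (nat_lit 1469426817) (nat_lit 475) (nat_lit 5) (nat_lit 474) (nat_lit 5) (nat_lit 498) (nat_lit 5) (nat_lit 599) (nat_lit 583) (nat_lit 378)) (XT.nd (nat_lit 78) (nat_lit 1748) (nat_lit 0) (XT.lf (nat_lit 76) (nat_lit 11903318554) (nat_lit 0) (nat_lit 4727958745) (nat_lit 1824)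 (nat_lit 363638279) (nat_lit 475) (nat_lit 5) (nat_lit 474) (nat_lit 5) (nat_lit 498) (nat_lit 5) (nat_lit 600) (nat_lit 583) (nat_lit 377)) (XT.lf (nat_lit 0) (nat_lit 792293471) (nat_lit 1824) (nat_lit 13386249906) (nat_lit 1900) (nat_lit 2991563603) (nat_lit 451) (nat_lit 5) (nat_lit 475) (nat_lit 5) (nat_lit 476) (nat_lit 5) (nat_lit 601) (nat_lit 583) (nat_lit 376))))))))
noncomputable def xc214 : XT := (XT.nd (nat_lit 1482) (nat_lit 7296) (nat_lit 0) (XT.nd (nat_lit 702) (nat_lit 5320) (nat_lit 0) (XT.nd (nat_lit 312) (nat_lit 1444) (nat_lit 0) (XT.nd (nat_lit 156) (nat_lit 0) (nat_lit 76) (XT.nd (nat_lit 78) (nat_lit 0) (nat_lit 76) (XT.lf (nat_lit 0) (nat_lit 2025959242) (nat_lit 1824) (nat_lit 4481067104) (nat_lit 1900) (nat_lit 10840539035) (nat_lit 451) (nat_lit 5) (nat_lit 475) (nat_lit 5) (nat_lit 476) (nat_lit 5) (nat_lit 602) (nat_lit 583) (nat_lit 375)) (XT.lf (nat_lit 0) (nat_lit 3317208243) (nat_lit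 1824) (nat_lit 12878285623) (nat_lit 1900) (nat_lit 1332421802) (nat_lit 452) (nat_lit 5) (nat_lit 476) (nat_lit 5) (nat_lit 477) (nat_lit 5) (nat_lit 603) (nat_lit 583) (nat_lit 374))) (XT.nd (nat_lit 78) (nat_lit 0) (nat_lit 0) (XT.lf (nat_lit 0) (nat_lit 4701639498) (nat_lit 1824) (nat_lit 3735724834) (nat_lit 1900) (nat_lit 9273162382) (nat_lit 452) (nat_lit 5) (nat_lit 476) (nat_lit 5) (nat_lit 477) (nat_lit 5) (nat_lit 604) (nat_lit 583) (nat_lit 373)) (XT.lf (nat_lit 76) (nat_lit 5659158611) (nat_lit 0) (nat_lit 485456451) (nat_lit 1900) (nat_lit 11751558686) (nat_lit 453) (nat_lit 5) (nat_lit 452) (nat_lit 5) (nat_lit 477) (nat_lit 5) (nat_lit 605) (nat_lit 583) (nat_lit 372)))) (XT.nd (nat_lit 156) (nat_lit 1596) (nat_lit 0) (XT.nd (nat_lit 78) (nat_lit 0) (nat_lit 0) (XT.lf (nat_lit 0) (nat_lit 7685399086) (nat_lit 1824) (nat_lit 2846971795) (nat_lit 1900) (nat_lit 7551784726) (nat_lit 453) (nat_lit 5)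 (nat_lit 477) (nat_lit 5) (nat_lit 478) (nat_lit 5) (nat_lit 606) (nat_lit 583) (nat_lit 371)) (XT.lf (nat_lit 76) (nat_lit 6812254204) (nat_lit 0) (nat_lit 2486507355) (nat_lit 1900) (nat_lit 8976301135) (nat_lit 454) (nat_lit 5) (nat_lit 453) (nat_lit 5) (nat_lit 478) (nat_lit 5) (nat_lit 607) (nat_lit 583) (nat_lit 370))) (XT.nd (nat_lit 78) (nat_lit 1672) (nat_lit 0) (XT.lf (nat_lit 0) (nat_lit 10995166980) (nat_lit 1824) (nat_lit 1808250556) (nat_lit 76) (nat_lit 5665355701) (nat_lit 454) (nat_lit 5) (nat_lit 478) (nat_lit 5) (nat_lit 455) (nat_lit 5) (nat_lit 608) (nat_lit 583) (nat_lit 369)) (XT.nd (nat_lit 78) (nat_lit 0) (nat_lit 0) (XT.lf (nat_lit 0) (nat_lit 8124749372) (nat_lit 1672) (nat_lit 4664483736) (nat_lit 1748) (nat_lit 5875851047) (nat_lit 432) (nat_lit 5) (nat_lit 454) (nat_lit 5) (nat_lit 455) (nat_lit 5) (nat_lit 609) (nat_lit 583) (nat_lit 368)) (XT.lf (nat_lit 0) (nat_lit 14649606469)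 (nat_lit 1748) (nat_lit 612675762) (nat_lit 76) (nat_lit 3602431339) (nat_lit 432) (nat_lit 5) (nat_lit 455) (nat_lit 5) (nat_lit 433) (nat_lit 5) (nat_lit 610) (nat_lit 583) (nat_lit 367)))))) (XT.nd (nat_lit 390) (nat_lit 2432) (nat_lit 0) (XT.nd (nat_lit 156) (nat_lit 988) (nat_lit 0) (XT.nd (nat_lit 78) (nat_lit 912) (nat_lit 0) (XT.lf (nat_lit 0) (nat_lit 9603874805) (nat_lit 988) (nat_lit 7031259733) (nat_lit 1064) (nat_lit 2431442871) (nat_lit 419) (nat_lit 5) (nat_lit 432) (nat_lit 5) (nat_lit 433) (nat_lit 5) (nat_lit 611) (nat_lit 583) (nat_lit 366)) (XT.lf (nat_lit 0) (nat_lit 756901106) (nat_lit 912) (nat_lit 17916162173) (nat_lit 988) (nat_lit 599162212) (nat_lit 407) (nat_lit 5) (nat_lit 419) (nat_lit 5) (nat_lit 420) (nat_lit 5) (nat_lit 612) (nat_lit 583) (nat_lit 365))) (XT.nd (nat_lit 78) (nat_lit 912) (nat_lit 0) (XT.lf (nat_lit 0) (nat_lit 1358411008) (nat_lit 988) (nat_lit 8231622710) (nat_lit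 76) (nat_lit 9889682668) (nat_lit 406) (nat_lit 5) (nat_lit 419) (nat_lit 5) (nat_lit 407) (nat_lit 5) (nat_lit 613) (nat_lit 583) (nat_lit 364)) (XT.nd (nat_lit 78) (nat_lit 0) (nat_lit 0) (XT.lf (nat_lit 0) (nat_lit 2278925345) (nat_lit 912) (nat_lit 1077908279) (nat_lit 988) (nat_lit 16334250572) (nat_lit 394) (nat_lit 5) (nat_lit 406) (nat_lit 5) (nat_lit 407) (nat_lit 5) (nat_lit 614) (nat_lit 583) (nat_lit 363)) (XT.lf (nat_lit 0) (nat_lit 5495190119) (nat_lit 988) (nat_lit 6848867322) (nat_lit 76) (nat_lit 7560623323) (nat_lit 394) (nat_lit 5) (nat_lit 407) (nat_lit 5) (nat_lit 395) (nat_lit 5) (nat_lit 615) (nat_lit 583) (nat_lit 362))))) (XT.nd (nat_lit 156) (nat_lit 1596) (nat_lit 0) (XT.nd (nat_lit 78) (nat_lit 0) (nat_lit 0) (XT.lf (nat_lit 0) (nat_lit 3965838883) (nat_lit 836) (nat_lit 3738448348) (nat_lit 912) (nat_lit 12417703256) (nat_lit 383) (nat_lit 5) (nat_lit 394) (nat_lit 5) (nat_lit 395)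 (nat_lit 5) (nat_lit 616) (nat_lit 583) (nat_lit 361)) (XT.lf (nat_lit 0) (nat_lit 10031701496) (nat_lit 912) (nat_lit 5290865404) (nat_lit 76) (nat_lit 5019597482) (nat_lit 383) (nat_lit 5) (nat_lit 395) (nat_lit 5) (nat_lit 384) (nat_lit 5) (nat_lit 617) (nat_lit 583) (nat_lit 360))) (XT.nd (nat_lit 78) (nat_lit 760) (nat_lit 0) (XT.lf (nat_lit 0) (nat_lit 5838847164) (nat_lit 836) (nat_lit 6624732560) (nat_lit 912) (nat_lit 8102004383) (nat_lit 372) (nat_lit 5) (nat_lit 383) (nat_lit 5) (nat_lit 384) (nat_lit 5) (nat_lit 618) (nat_lit 583) (nat_lit 359)) (XT.nd (nat_lit 78) (nat_lit 760) (nat_lit 0) (XT.lf (nat_lit 0) (nat_lit 14989735610) (nat_lit 912) (nat_lit 3549476212) (nat_lit 76) (nat_lit 2253348258) (nat_lit 372) (nat_lit 5) (nat_lit 384) (nat_lit 5) (nat_lit 373) (nat_lit 5) (nat_lit 619) (nat_lit 583) (nat_lit 358)) (XT.lf (nat_lit 0) (nat_lit 7906483054) (nat_lit 760) (nat_lit 9750541109) (nat_lit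 836) (nat_lit 3365239860) (nat_lit 362) (nat_lit 5) (nat_lit 372) (nat_lit 5) (nat_lit 373) (nat_lit 5) (nat_lit 620) (nat_lit 583) (nat_lit 357))))))) (XT.nd (nat_lit 702) (nat_lit 3344) (nat_lit 0) (XT.nd (nat_lit 312) (nat_lit 2280) (nat_lit 0) (XT.nd (nat_lit 156) (nat_lit 760) (nat_lit 0) (XT.nd (nat_lit 78) (nat_lit 912) (nat_lit 0) (XT.lf (nat_lit 0) (nat_lit 19635037086) (nat_lit 760) (nat_lit 761903293) (nat_lit 836) (nat_lit 859236657) (nat_lit 362) (nat_lit 5) (nat_lit 372) (nat_lit 5) (nat_lit 373) (nat_lit 5) (nat_lit 621) (nat_lit 583) (nat_lit 356)) (XT.lf (nat_lit 0) (nat_lit 1791612727) (nat_lit 912) (nat_lit 11326573006) (nat_lit 76) (nat_lit 8374023212) (nat_lit 350) (nat_lit 5) (nat_lit 362) (nat_lit 5) (nat_lit 351) (nat_lit 5) (nat_lit 622) (nat_lit 583) (nat_lit 355))) (XT.nd (nat_lit 78) (nat_lit 0) (nat_lit 0) (XT.lf (nat_lit 0) (nat_lit 468043484) (nat_lit 760) (nat_lit 4030555500) (nat_lit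 836) (nat_lit 17233957009) (nat_lit 340) (nat_lit 5) (nat_lit 350) (nat_lit 5) (nat_lit 351) (nat_lit 5) (nat_lit 623) (nat_lit 583) (nat_lit 354)) (XT.lf (nat_lit 0) (nat_lit 7365883373) (nat_lit 836) (nat_lit 9363340904) (nat_lit 76) (nat_lit 5246363118) (nat_lit 340) (nat_lit 5) (nat_lit 351) (nat_lit 5) (nat_lit 341) (nat_lit 5) (nat_lit 624) (nat_lit 583) (nat_lit 353)))) (XT.nd (nat_lit 156) (nat_lit 1520) (nat_lit 0) (XT.nd (nat_lit 78) (nat_lit 0) (nat_lit 0) (XT.lf (nat_lit 0) (nat_lit 2781006932) (nat_lit 760) (nat_lit 7549974526) (nat_lit 836) (nat_lit 11891689176) (nat_lit 330) (nat_lit 5) (nat_lit 340) (nat_lit 5) (nat_lit 341) (nat_lit 5) (nat_lit 625) (nat_lit 583) (nat_lit 352)) (XT.lf (nat_lit 0) (nat_lit 13426171975) (nat_lit 836) (nat_lit 7195141421) (nat_lit 76) (nat_lit 1851966892) (nat_lit 330) (nat_lit 5) (nat_lit 341) (nat_lit 5) (nat_lit 331) (nat_lit 5) (nat_lit 626) (nat_lit 583) (nat_lit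 351))) (XT.nd (nat_lit 78) (nat_lit 836) (nat_lit 0) (XT.lf (nat_lit 0) (nat_lit 5311382571) (nat_lit 684) (nat_lit 11352222617) (nat_lit 760) (nat_lit 6063690716) (nat_lit 321) (nat_lit 5) (nat_lit 330) (nat_lit 5) (nat_lit 331) (nat_lit 5) (nat_lit 627) (nat_lit 583) (nat_lit 350)) (XT.nd (nat_lit 78) (nat_lit 836) (nat_lit 0) (XT.lf (nat_lit 0) (nat_lit 18161010627) (nat_lit 684) (nat_lit 1848965360) (nat_lit 760) (nat_lit 2975532604) (nat_lit 321) (nat_lit 5) (nat_lit 330) (nat_lit 5) (nat_lit 331) (nat_lit 5) (nat_lit 628) (nat_lit 583) (nat_lit 349)) (XT.lf (nat_lit 0) (nat_lit 272062402) (nat_lit 836) (nat_lit 15179594207) (nat_lit 76) (nat_lit 7795207576) (nat_lit 310) (nat_lit 5) (nat_lit 321) (nat_lit 5) (nat_lit 311) (nat_lit 5) (nat_lit 629) (nat_lit 583) (nat_lit 348)))))) (XT.nd (nat_lit 390) (nat_lit 1368) (nat_lit 0) (XT.nd (nat_lit 156) (nat_lit 1292) (nat_lit 0) (XT.nd (nat_lit 78) (nat_lit 684)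 (nat_lit 0) (XT.lf (nat_lit 0) (nat_lit 3585644011) (nat_lit 836) (nat_lit 2267264090) (nat_lit 76) (nat_lit 17659328389) (nat_lit 310) (nat_lit 5) (nat_lit 321) (nat_lit 5) (nat_lit 311) (nat_lit 5) (nat_lit 630) (nat_lit 583) (nat_lit 347)) (XT.lf (nat_lit 0) (nat_lit 7059322217) (nat_lit 760) (nat_lit 12763927705) (nat_lit 76) (nat_lit 3957790315) (nat_lit 301) (nat_lit 5) (nat_lit 311) (nat_lit 5) (nat_lit 302) (nat_lit 5) (nat_lit 631) (nat_lit 583) (nat_lit 346))) (XT.nd (nat_lit 78) (nat_lit 608) (nat_lit 0) (XT.lf (nat_lit 0) (nat_lit 506246497) (nat_lit 684) (nat_lit 10149718777) (nat_lit 760) (nat_lit 13398185446) (nat_lit 292) (nat_lit 5) (nat_lit 301) (nat_lit 5) (nat_lit 302) (nat_lit 5) (nat_lit 632) (nat_lit 583) (nat_lit 345)) (XT.nd (nat_lit 78) (nat_lit 608) (nat_lit 0) (XT.lf (nat_lit 0) (nat_lit 14210346800) (nat_lit 684) (nat_lit 196021920) (nat_lit 760) (nat_lit 9924718618) (nat_lit 292) (nat_lit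 5) (nat_lit 301) (nat_lit 5) (nat_lit 302) (nat_lit 5) (nat_lit 633) (nat_lit 583) (nat_lit 344)) (XT.lf (nat_lit 0) (nat_lit 3552432560) (nat_lit 608) (nat_lit 14763303830) (nat_lit 684) (nat_lit 6296147643) (nat_lit 284) (nat_lit 5) (nat_lit 292) (nat_lit 5) (nat_lit 293) (nat_lit 5) (nat_lit 634) (nat_lit 583) (nat_lit 343))))) (XT.nd (nat_lit 156) (nat_lit 608) (nat_lit 0) (XT.nd (nat_lit 78) (nat_lit 760) (nat_lit 0) (XT.lf (nat_lit 0) (nat_lit 17630493647) (nat_lit 608) (nat_lit 4738293197) (nat_lit 684) (nat_lit 2528200368) (nat_lit 284) (nat_lit 5) (nat_lit 292) (nat_lit 5) (nat_lit 293) (nat_lit 5) (nat_lit 635) (nat_lit 583) (nat_lit 342)) (XT.lf (nat_lit 0) (nat_lit 1374837603) (nat_lit 760) (nat_lit 18343175216) (nat_lit 76) (nat_lit 5468069712) (nat_lit 274) (nat_lit 5) (nat_lit 284) (nat_lit 5) (nat_lit 275) (nat_lit 5) (nat_lit 636) (nat_lit 583) (nat_lit 341))) (XT.nd (nat_lit 78) (nat_lit 608)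 (nat_lit 0) (XT.lf (nat_lit 0) (nat_lit 5398956631) (nat_lit 760) (nat_lit 4199884507) (nat_lit 76) (nat_lit 15880247365) (nat_lit 274) (nat_lit 5) (nat_lit 284) (nat_lit 5) (nat_lit 275) (nat_lit 5) (nat_lit 637) (nat_lit 583) (nat_lit 340)) (XT.nd (nat_lit 78) (nat_lit 0) (nat_lit 0) (XT.lf (nat_lit 0) (nat_lit 9572387826) (nat_lit 684) (nat_lit 15424060475) (nat_lit 76) (nat_lit 780130121) (nat_lit 266) (nat_lit 5) (nat_lit 275) (nat_lit 5) (nat_lit 267) (nat_lit 5) (nat_lit 638) (nat_lit 583) (nat_lit 339)) (XT.lf (nat_lit 0) (nat_lit 13917710319) (nat_lit 684) (nat_lit 894709966) (nat_lit 76) (nat_lit 11265829816) (nat_lit 266) (nat_lit 5) (nat_lit 275) (nat_lit 5) (nat_lit 267) (nat_lit 5) (nat_lit 639) (nat_lit 583) (nat_lit 338))))))))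
noncomputable def xc215 : XT := (XT.nd (nat_lit 77766) (nat_lit 0) (nat_lit 12996) (XT.nd (nat_lit 76986) (nat_lit 0) (nat_lit 17632) (XT.nd (nat_lit 312) (nat_lit 532) (nat_lit 0) (XT.nd (nat_lit 156) (nat_lit 684) (nat_lit 0) (XT.nd (nat_lit 78) (nat_lit 532) (nat_lit 0) (XT.lf (nat_lit 0) (nat_lit 14105916084) (nat_lit 608) (nat_lit 4332161188) (nat_lit 684) (nat_lit 7946115586) (nat_lit 258) (nat_lit 5) (nat_lit 266) (nat_lit 5) (nat_lit 267) (nat_lit 5) (nat_lit 640) (nat_lit 583) (nat_lit 337)) (XT.lf (nat_lit 0) (nat_lit 2712456901) (nat_lit 532) (nat_lit 20397915015) (nat_lit 608) (nat_lit 3584652549) (nat_lit 251) (nat_lit 5) (nat_lit 258) (nat_lit 5) (nat_lit 259) (nat_lit 5) (nat_lit 641) (nat_lit 583) (nat_lit 336))) (XT.nd (nat_lit 78) (nat_lit 608) (nat_lit 0) (XT.lf (nat_lit 0) (nat_lit 960940140) (nat_lit 608) (nat_lit 8880194172) (nat_lit 76) (nat_lit 17168661926) (nat_lit 250) (nat_lit 5) (nat_lit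 258) (nat_lit 5) (nat_lit 251) (nat_lit 5) (nat_lit 642) (nat_lit 583) (nat_lit 335)) (XT.lf (nat_lit 0) (nat_lit 5595350509) (nat_lit 684) (nat_lit 20753512698) (nat_lit 76) (nat_lit 980608640) (nat_lit 242) (nat_lit 5) (nat_lit 251) (nat_lit 5) (nat_lit 243) (nat_lit 5) (nat_lit 643) (nat_lit 583) (nat_lit 334)))) (XT.nd (nat_lit 156) (nat_lit 0) (nat_lit 0) (XT.nd (nat_lit 78) (nat_lit 532) (nat_lit 0) (XT.lf (nat_lit 0) (nat_lit 10444308921) (nat_lit 684) (nat_lit 5262618713) (nat_lit 76) (nat_lit 11946176505) (nat_lit 242) (nat_lit 5) (nat_lit 251) (nat_lit 5) (nat_lit 243) (nat_lit 5) (nat_lit 644) (nat_lit 583) (nat_lit 333)) (XT.lf (nat_lit 0) (nat_lit 10673856472) (nat_lit 532) (nat_lit 4782457810) (nat_lit 608) (nat_lit 12525573800) (nat_lit 235) (nat_lit 5) (nat_lit 242) (nat_lit 5) (nat_lit 243) (nat_lit 5) (nat_lit 645) (nat_lit 583) (nat_lit 332))) (XT.nd (nat_lit 76362) (nat_lit 0) (nat_lit 17632)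 (XT.lf (nat_lit 0) (nat_lit 20642200840) (nat_lit 608) (nat_lit 1361930768) (nat_lit 76) (nat_lit 6311643628) (nat_lit 235) (nat_lit 5) (nat_lit 243) (nat_lit 5) (nat_lit 236) (nat_lit 5) (nat_lit 646) (nat_lit 583) (nat_lit 331)) (XT.nd (nat_lit 78) (nat_lit 0) (nat_lit 0) (XT.lf (nat_lit 0) (nat_lit 973525073) (nat_lit 0) (nat_lit 973525073) (nat_lit 1748) (nat_lit 5377777500) (nat_lit 467) (nat_lit 5) (nat_lit 467) (nat_lit 3) (nat_lit 490) (nat_lit 3) (nat_lit 584) (nat_lit 584) (nat_lit 392)) (XT.lf (nat_lit 0) (nat_lit 4277888341) (nat_lit 1748) (nat_lit 5554204784) (nat_lit 1824) (nat_lit 4957112868) (nat_lit 467) (nat_lit 5) (nat_lit 490) (nat_lit 3) (nat_lit 491) (nat_lit 5) (nat_lit 585) (nat_lit 584) (nat_lit 391)))))) (XT.nd (nat_lit 390) (nat_lit 0) (nat_lit 228) (XT.nd (nat_lit 156) (nat_lit 0) (nat_lit 76) (XT.nd (nat_lit 78) (nat_lit 0) (nat_lit 76) (XT.lf (nat_lit 76) (nat_lit 1742840193) (nat_lit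 0) (nat_lit 2942558569) (nat_lit 1824) (nat_lit 10245829298) (nat_lit 468) (nat_lit 5) (nat_lit 467) (nat_lit 5) (nat_lit 491) (nat_lit 5) (nat_lit 586) (nat_lit 584) (nat_lit 390)) (XT.lf (nat_lit 0) (nat_lit 5157092353) (nat_lit 1748) (nat_lit 5845443056) (nat_lit 1824) (nat_lit 4072435757) (nat_lit 468) (nat_lit 5) (nat_lit 491) (nat_lit 5) (nat_lit 492) (nat_lit 5) (nat_lit 587) (nat_lit 584) (nat_lit 389))) (XT.nd (nat_lit 78) (nat_lit 0) (nat_lit 76) (XT.lf (nat_lit 76) (nat_lit 1642051612) (nat_lit 0) (nat_lit 4018467103) (nat_lit 1824) (nat_lit 9560625674) (nat_lit 469) (nat_lit 5) (nat_lit 468) (nat_lit 5) (nat_lit 492) (nat_lit 5) (nat_lit 588) (nat_lit 584) (nat_lit 388)) (XT.nd (nat_lit 78) (nat_lit 0) (nat_lit 0) (XT.lf (nat_lit 0) (nat_lit 6225959247) (nat_lit 1748) (nat_lit 6035851946) (nat_lit 1824) (nat_lit 3107392179) (nat_lit 469) (nat_lit 5) (nat_lit 492) (nat_lit 5) (nat_lit 493) (nat_lit 5)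 (nat_lit 589) (nat_lit 584) (nat_lit 387)) (XT.lf (nat_lit 76) (nat_lit 1648847887) (nat_lit 0) (nat_lit 5183627810) (nat_lit 1824) (nat_lit 8687153683) (nat_lit 470) (nat_lit 5) (nat_lit 469) (nat_lit 5) (nat_lit 493) (nat_lit 5) (nat_lit 590) (nat_lit 584) (nat_lit 386))))) (XT.nd (nat_lit 156) (nat_lit 0) (nat_lit 76) (XT.nd (nat_lit 78) (nat_lit 0) (nat_lit 0) (XT.lf (nat_lit 0) (nat_lit 7497702924) (nat_lit 1748) (nat_lit 6121241477) (nat_lit 1824) (nat_lit 2053189058) (nat_lit 470) (nat_lit 5) (nat_lit 493) (nat_lit 5) (nat_lit 494) (nat_lit 5) (nat_lit 591) (nat_lit 584) (nat_lit 385)) (XT.lf (nat_lit 76) (nat_lit 1767674585) (nat_lit 0) (nat_lit 6447099638) (nat_lit 1824) (nat_lit 7612143746) (nat_lit 471) (nat_lit 5) (nat_lit 470) (nat_lit 5) (nat_lit 494) (nat_lit 5) (nat_lit 592) (nat_lit 584) (nat_lit 384))) (XT.nd (nat_lit 78) (nat_lit 0) (nat_lit 0) (XT.lf (nat_lit 0) (nat_lit 8986037753) (nat_lit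 1748) (nat_lit 6097143304) (nat_lit 1824) (nat_lit 900821214) (nat_lit 471) (nat_lit 5) (nat_lit 494) (nat_lit 5) (nat_lit 495) (nat_lit 5) (nat_lit 593) (nat_lit 584) (nat_lit 383)) (XT.nd (nat_lit 78) (nat_lit 0) (nat_lit 0) (XT.lf (nat_lit 76) (nat_lit 2003264325) (nat_lit 0) (nat_lit 7818169876) (nat_lit 1824) (nat_lit 6321820998) (nat_lit 472) (nat_lit 5) (nat_lit 471) (nat_lit 5) (nat_lit 495) (nat_lit 5) (nat_lit 594) (nat_lit 584) (nat_lit 382)) (XT.lf (nat_lit 76) (nat_lit 10343846571) (nat_lit 0) (nat_lit 363720208) (nat_lit 1824) (nat_lit 5597446918) (nat_lit 472) (nat_lit 5) (nat_lit 471) (nat_lit 5) (nat_lit 495) (nat_lit 5) (nat_lit 595) (nat_lit 584) (nat_lit 381))))))) (XT.nd (nat_lit 702) (nat_lit 3344) (nat_lit 0) (XT.nd (nat_lit 312) (nat_lit 1672) (nat_lit 0) (XT.nd (nat_lit 156) (nat_lit 0) (nat_lit 76) (XT.nd (nat_lit 78) (nat_lit 0) (nat_lit 0) (XT.lf (nat_lit 76) (nat_lit 2360642204) (nat_lit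 0) (nat_lit 9306375867) (nat_lit 1824) (nat_lit 4801878425) (nat_lit 473) (nat_lit 5) (nat_lit 472) (nat_lit 5) (nat_lit 496) (nat_lit 5) (nat_lit 596) (nat_lit 584) (nat_lit 380)) (XT.lf (nat_lit 76) (nat_lit 10922736627) (nat_lit 0) (nat_lit 1758683500) (nat_lit 1824) (nat_lit 3953922620) (nat_lit 473) (nat_lit 5) (nat_lit 472) (nat_lit 5) (nat_lit 496) (nat_lit 5) (nat_lit 597) (nat_lit 584) (nat_lit 379))) (XT.nd (nat_lit 78) (nat_lit 0) (nat_lit 0) (XT.lf (nat_lit 76) (nat_lit 2845131691) (nat_lit 0) (nat_lit 10921527024) (nat_lit 1824) (nat_lit 3037449250) (nat_lit 474) (nat_lit 5) (nat_lit 473) (nat_lit 5) (nat_lit 497) (nat_lit 5) (nat_lit 598) (nat_lit 584) (nat_lit 378)) (XT.lf (nat_lit 76) (nat_lit 11635116964) (nat_lit 0) (nat_lit 3281997592) (nat_lit 1824) (nat_lit 2058264674) (nat_lit 474) (nat_lit 5) (nat_lit 473) (nat_lit 5) (nat_lit 497) (nat_lit 5) (nat_lit 599) (nat_lit 584) (nat_lit 377))))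 (XT.nd (nat_lit 156) (nat_lit 0) (nat_lit 76) (XT.nd (nat_lit 78) (nat_lit 1824) (nat_lit 0) (XT.lf (nat_lit 76) (nat_lit 3462360974) (nat_lit 0) (nat_lit 12673727214) (nat_lit 1824) (nat_lit 1013078531) (nat_lit 475) (nat_lit 5) (nat_lit 474) (nat_lit 5) (nat_lit 498) (nat_lit 5) (nat_lit 600) (nat_lit 584) (nat_lit 376)) (XT.lf (nat_lit 0) (nat_lit 103920478) (nat_lit 1824) (nat_lit 4839248201) (nat_lit 1900) (nat_lit 12382223242) (nat_lit 450) (nat_lit 5) (nat_lit 474) (nat_lit 5) (nat_lit 475) (nat_lit 5) (nat_lit 601) (nat_lit 584) (nat_lit 375))) (XT.nd (nat_lit 78) (nat_lit 0) (nat_lit 0) (XT.lf (nat_lit 0) (nat_lit 1270422852) (nat_lit 1824) (nat_lit 13294449486) (nat_lit 1900) (nat_lit 2939321705) (nat_lit 451) (nat_lit 5) (nat_lit 475) (nat_lit 5) (nat_lit 476) (nat_lit 5) (nat_lit 602) (nat_lit 584) (nat_lit 374)) (XT.nd (nat_lit 78) (nat_lit 0) (nat_lit 76) (XT.lf (nat_lit 0) (nat_lit 2519697555) (nat_lit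 1824) (nat_lit 4218212547) (nat_lit 1900) (nat_lit 10947474159) (nat_lit 451) (nat_lit 5) (nat_lit 475) (nat_lit 5) (nat_lit 476) (nat_lit 5) (nat_lit 603) (nat_lit 584) (nat_lit 373)) (XT.lf (nat_lit 0) (nat_lit 3829532128) (nat_lit 1824) (nat_lit 12776069316) (nat_lit 1900) (nat_lit 1263886233) (nat_lit 452) (nat_lit 5) (nat_lit 476) (nat_lit 5) (nat_lit 477) (nat_lit 5) (nat_lit 604) (nat_lit 584) (nat_lit 372)))))) (XT.nd (nat_lit 390) (nat_lit 3496) (nat_lit 0) (XT.nd (nat_lit 156) (nat_lit 0) (nat_lit 76) (XT.nd (nat_lit 78) (nat_lit 0) (nat_lit 0) (XT.lf (nat_lit 0) (nat_lit 5232907308) (nat_lit 1824) (nat_lit 3457711860) (nat_lit 1900) (nat_lit 9365307977) (nat_lit 452) (nat_lit 5) (nat_lit 476) (nat_lit 5) (nat_lit 477) (nat_lit 5) (nat_lit 605) (nat_lit 584) (nat_lit 371)) (XT.lf (nat_lit 76) (nat_lit 6122748678) (nat_lit 0) (nat_lit 575695542) (nat_lit 1900) (nat_lit 11546970144) (nat_lit 453) (nat_lit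 5) (nat_lit 452) (nat_lit 5) (nat_lit 477) (nat_lit 5) (nat_lit 606) (nat_lit 584) (nat_lit 370))) (XT.nd (nat_lit 78) (nat_lit 0) (nat_lit 0) (XT.lf (nat_lit 0) (nat_lit 8261081581) (nat_lit 1824) (nat_lit 2551349851) (nat_lit 1900) (nat_lit 7624904932) (nat_lit 453) (nat_lit 5) (nat_lit 477) (nat_lit 5) (nat_lit 478) (nat_lit 5) (nat_lit 607) (nat_lit 584) (nat_lit 369)) (XT.nd (nat_lit 78) (nat_lit 0) (nat_lit 76) (XT.lf (nat_lit 76) (nat_lit 7298741184) (nat_lit 0) (nat_lit 2601970111) (nat_lit 1900) (nat_lit 8731471530) (nat_lit 454) (nat_lit 5) (nat_lit 453) (nat_lit 5) (nat_lit 478) (nat_lit 5) (nat_lit 608) (nat_lit 584) (nat_lit 368)) (XT.lf (nat_lit 0) (nat_lit 11622470052) (nat_lit 1824) (nat_lit 1492405962) (nat_lit 76) (nat_lit 5715064272) (nat_lit 454) (nat_lit 5) (nat_lit 478) (nat_lit 5) (nat_lit 455) (nat_lit 5) (nat_lit 609) (nat_lit 584) (nat_lit 367))))) (XT.nd (nat_lit 156) (nat_lit 1976) (nat_lit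 0) (XT.nd (nat_lit 78) (nat_lit 0) (nat_lit 0) (XT.lf (nat_lit 0) (nat_lit 8636938112) (nat_lit 1672) (nat_lit 4809761604) (nat_lit 1748) (nat_lit 5583593245) (nat_lit 432) (nat_lit 5) (nat_lit 454) (nat_lit 5) (nat_lit 455) (nat_lit 5) (nat_lit 610) (nat_lit 584) (nat_lit 366)) (XT.lf (nat_lit 0) (nat_lit 15336073504) (nat_lit 1748) (nat_lit 273827149) (nat_lit 76) (nat_lit 3624179614) (nat_lit 432) (nat_lit 5) (nat_lit 455) (nat_lit 5) (nat_lit 433) (nat_lit 5) (nat_lit 611) (nat_lit 584) (nat_lit 365))) (XT.nd (nat_lit 78) (nat_lit 988) (nat_lit 0) (XT.lf (nat_lit 0) (nat_lit 10144744548) (nat_lit 988) (nat_lit 7211116984) (nat_lit 1064) (nat_lit 2084230003) (nat_lit 419) (nat_lit 5) (nat_lit 432) (nat_lit 5) (nat_lit 433) (nat_lit 5) (nat_lit 612) (nat_lit 584) (nat_lit 364)) (XT.nd (nat_lit 78) (nat_lit 76) (nat_lit 0) (XT.lf (nat_lit 0) (nat_lit 1126555726) (nat_lit 912) (nat_lit 18302436832) (nat_lit 988)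 (nat_lit 220972262) (nat_lit 407) (nat_lit 5) (nat_lit 419) (nat_lit 5) (nat_lit 420) (nat_lit 5) (nat_lit 613) (nat_lit 584) (nat_lit 363)) (XT.lf (nat_lit 0) (nat_lit 1763085114) (nat_lit 988) (nat_lit 8043619363) (nat_lit 76) (nat_lit 10055002465) (nat_lit 406) (nat_lit 5) (nat_lit 419) (nat_lit 5) (nat_lit 407) (nat_lit 5) (nat_lit 614) (nat_lit 584) (nat_lit 362))))))))
noncomputable def xc216 : XT := (XT.nd (nat_lit 1404) (nat_lit 5016) (nat_lit 0) (XT.nd (nat_lit 702) (nat_lit 3724) (nat_lit 0) (XT.nd (nat_lit 312) (nat_lit 2508) (nat_lit 0) (XT.nd (nat_lit 156) (nat_lit 836) (nat_lit 0) (XT.nd (nat_lit 78) (nat_lit 0) (nat_lit 0) (XT.lf (nat_lit 0) (nat_lit 2674819680) (nat_lit 912) (nat_lit 1121528909) (nat_lit 988) (nat_lit 16281057125) (nat_lit 394) (nat_lit 5) (nat_lit 406) (nat_lit 5) (nat_lit 407) (nat_lit 5) (nat_lit 615) (nat_lit 584) (nat_lit 361)) (XT.lf (nat_lit 0) (nat_lit 5970030243) (nat_lit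 988) (nat_lit 6634904237) (nat_lit 76) (nat_lit 7690489603) (nat_lit 394) (nat_lit 5) (nat_lit 407) (nat_lit 5) (nat_lit 395) (nat_lit 5) (nat_lit 616) (nat_lit 584) (nat_lit 360))) (XT.nd (nat_lit 78) (nat_lit 0) (nat_lit 0) (XT.lf (nat_lit 0) (nat_lit 4393787273) (nat_lit 836) (nat_lit 3824629958) (nat_lit 912) (nat_lit 12298761622) (nat_lit 383) (nat_lit 5) (nat_lit 394) (nat_lit 5) (nat_lit 395) (nat_lit 5) (nat_lit 617) (nat_lit 584) (nat_lit 359)) (XT.lf (nat_lit 0) (nat_lit 10585247444) (nat_lit 912) (nat_lit 5047705109) (nat_lit 76) (nat_lit 5108947310) (nat_lit 383) (nat_lit 5) (nat_lit 395) (nat_lit 5) (nat_lit 384) (nat_lit 5) (nat_lit 618) (nat_lit 584) (nat_lit 358)))) (XT.nd (nat_lit 156) (nat_lit 1672) (nat_lit 0) (XT.nd (nat_lit 78) (nat_lit 0) (nat_lit 0) (XT.lf (nat_lit 0) (nat_lit 6302305805) (nat_lit 836) (nat_lit 6758788477) (nat_lit 912) (nat_lit 7908788052) (nat_lit 372) (nat_lit 5) (nat_lit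 383) (nat_lit 5) (nat_lit 384) (nat_lit 5) (nat_lit 619) (nat_lit 584) (nat_lit 357)) (XT.lf (nat_lit 0) (nat_lit 15630935055) (nat_lit 912) (nat_lit 3273695845) (nat_lit 76) (nat_lit 2296904645) (nat_lit 372) (nat_lit 5) (nat_lit 384) (nat_lit 5) (nat_lit 373) (nat_lit 5) (nat_lit 620) (nat_lit 584) (nat_lit 356))) (XT.nd (nat_lit 78) (nat_lit 912) (nat_lit 0) (XT.lf (nat_lit 0) (nat_lit 8409101226) (nat_lit 760) (nat_lit 9938010590) (nat_lit 836) (nat_lit 3088811836) (nat_lit 362) (nat_lit 5) (nat_lit 372) (nat_lit 5) (nat_lit 373) (nat_lit 5) (nat_lit 621) (nat_lit 584) (nat_lit 355)) (XT.nd (nat_lit 78) (nat_lit 912) (nat_lit 0) (XT.lf (nat_lit 0) (nat_lit 20365471661) (nat_lit 760) (nat_lit 769747888) (nat_lit 836) (nat_lit 539428428) (nat_lit 362) (nat_lit 5) (nat_lit 372) (nat_lit 5) (nat_lit 373) (nat_lit 5) (nat_lit 622) (nat_lit 584) (nat_lit 354)) (XT.lf (nat_lit 0) (nat_lit 2155780224) (nat_lit 912)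 (nat_lit 11206624003) (nat_lit 76) (nat_lit 8553038178) (nat_lit 350) (nat_lit 5) (nat_lit 362) (nat_lit 5) (nat_lit 351) (nat_lit 5) (nat_lit 623) (nat_lit 584) (nat_lit 353)))))) (XT.nd (nat_lit 312) (nat_lit 2204) (nat_lit 0) (XT.nd (nat_lit 156) (nat_lit 760) (nat_lit 0) (XT.nd (nat_lit 78) (nat_lit 0) (nat_lit 0) (XT.lf (nat_lit 0) (nat_lit 821605340) (nat_lit 760) (nat_lit 4091097702) (nat_lit 836) (nat_lit 17247978278) (nat_lit 340) (nat_lit 5) (nat_lit 350) (nat_lit 5) (nat_lit 351) (nat_lit 5) (nat_lit 624) (nat_lit 584) (nat_lit 352)) (XT.lf (nat_lit 0) (nat_lit 7831105333) (nat_lit 836) (nat_lit 9206885684) (nat_lit 76) (nat_lit 5370707734) (nat_lit 340) (nat_lit 5) (nat_lit 351) (nat_lit 5) (nat_lit 341) (nat_lit 5) (nat_lit 625) (nat_lit 584) (nat_lit 351))) (XT.nd (nat_lit 78) (nat_lit 0) (nat_lit 0) (XT.lf (nat_lit 0) (nat_lit 3178087780) (nat_lit 760) (nat_lit 7673401173) (nat_lit 836) (nat_lit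 11809315862) (nat_lit 330) (nat_lit 5) (nat_lit 340) (nat_lit 5) (nat_lit 341) (nat_lit 5) (nat_lit 626) (nat_lit 584) (nat_lit 350)) (XT.lf (nat_lit 0) (nat_lit 14002604126) (nat_lit 836) (nat_lit 6998259033) (nat_lit 76) (nat_lit 1915683898) (nat_lit 330) (nat_lit 5) (nat_lit 341) (nat_lit 5) (nat_lit 331) (nat_lit 5) (nat_lit 627) (nat_lit 584) (nat_lit 349)))) (XT.nd (nat_lit 156) (nat_lit 1520) (nat_lit 0) (XT.nd (nat_lit 78) (nat_lit 0) (nat_lit 0) (XT.lf (nat_lit 0) (nat_lit 5756153431) (nat_lit 684) (nat_lit 11544793193) (nat_lit 760) (nat_lit 5874773945) (nat_lit 321) (nat_lit 5) (nat_lit 330) (nat_lit 5) (nat_lit 331) (nat_lit 5) (nat_lit 628) (nat_lit 584) (nat_lit 348)) (XT.lf (nat_lit 0) (nat_lit 18856135946) (nat_lit 684) (nat_lit 1852146750) (nat_lit 760) (nat_lit 2730934839) (nat_lit 321) (nat_lit 5) (nat_lit 330) (nat_lit 5) (nat_lit 331) (nat_lit 5) (nat_lit 629) (nat_lit 584) (nat_lit 347)))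 (XT.nd (nat_lit 78) (nat_lit 684) (nat_lit 0) (XT.lf (nat_lit 0) (nat_lit 574147972) (nat_lit 836) (nat_lit 15143741007) (nat_lit 76) (nat_lit 7987942037) (nat_lit 310) (nat_lit 5) (nat_lit 321) (nat_lit 5) (nat_lit 311) (nat_lit 5) (nat_lit 630) (nat_lit 584) (nat_lit 346)) (XT.nd (nat_lit 78) (nat_lit 684) (nat_lit 0) (XT.lf (nat_lit 0) (nat_lit 3948184658) (nat_lit 836) (nat_lit 1979820073) (nat_lit 76) (nat_lit 18048623103) (nat_lit 310) (nat_lit 5) (nat_lit 321) (nat_lit 5) (nat_lit 311) (nat_lit 5) (nat_lit 631) (nat_lit 584) (nat_lit 345)) (XT.lf (nat_lit 0) (nat_lit 7488061712) (nat_lit 760) (nat_lit 12683106138) (nat_lit 76) (nat_lit 4079706024) (nat_lit 301) (nat_lit 5) (nat_lit 311) (nat_lit 5) (nat_lit 302) (nat_lit 5) (nat_lit 632) (nat_lit 584) (nat_lit 344))))))) (XT.nd (nat_lit 702) (nat_lit 1748) (nat_lit 0) (XT.nd (nat_lit 312) (nat_lit 1976) (nat_lit 0) (XT.nd (nat_lit 156) (nat_lit 608) (nat_lit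 0) (XT.nd (nat_lit 78) (nat_lit 0) (nat_lit 0) (XT.lf (nat_lit 0) (nat_lit 850260363) (nat_lit 684) (nat_lit 10302906800) (nat_lit 760) (nat_lit 13376349520) (nat_lit 292) (nat_lit 5) (nat_lit 301) (nat_lit 5) (nat_lit 302) (nat_lit 5) (nat_lit 633) (nat_lit 584) (nat_lit 343)) (XT.lf (nat_lit 0) (nat_lit 14821895830) (nat_lit 684) (nat_lit 151112602) (nat_lit 760) (nat_lit 9839095701) (nat_lit 292) (nat_lit 5) (nat_lit 301) (nat_lit 5) (nat_lit 302) (nat_lit 5) (nat_lit 634) (nat_lit 584) (nat_lit 342))) (XT.nd (nat_lit 78) (nat_lit 0) (nat_lit 0) (XT.lf (nat_lit 0) (nat_lit 3953922867) (nat_lit 608) (nat_lit 15003635827) (nat_lit 684) (nat_lit 6141018843) (nat_lit 284) (nat_lit 5) (nat_lit 292) (nat_lit 5) (nat_lit 293) (nat_lit 5) (nat_lit 635) (nat_lit 584) (nat_lit 341)) (XT.lf (nat_lit 0) (nat_lit 18307065928) (nat_lit 608) (nat_lit 4779202120) (nat_lit 684) (nat_lit 2303223442) (nat_lit 284) (nat_lit 5)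 (nat_lit 292) (nat_lit 5) (nat_lit 293) (nat_lit 5) (nat_lit 636) (nat_lit 584) (nat_lit 340)))) (XT.nd (nat_lit 156) (nat_lit 1216) (nat_lit 0) (XT.nd (nat_lit 78) (nat_lit 0) (nat_lit 0) (XT.lf (nat_lit 0) (nat_lit 1671411103) (nat_lit 760) (nat_lit 18379547361) (nat_lit 76) (nat_lit 5633432121) (nat_lit 274) (nat_lit 5) (nat_lit 284) (nat_lit 5) (nat_lit 275) (nat_lit 5) (nat_lit 637) (nat_lit 584) (nat_lit 339)) (XT.lf (nat_lit 0) (nat_lit 5770736497) (nat_lit 760) (nat_lit 3959871060) (nat_lit 76) (nat_lit 16252755268) (nat_lit 274) (nat_lit 5) (nat_lit 284) (nat_lit 5) (nat_lit 275) (nat_lit 5) (nat_lit 638) (nat_lit 584) (nat_lit 338))) (XT.nd (nat_lit 78) (nat_lit 608) (nat_lit 0) (XT.lf (nat_lit 0) (nat_lit 10024950708) (nat_lit 684) (nat_lit 15405814123) (nat_lit 76) (nat_lit 856092039) (nat_lit 266) (nat_lit 5) (nat_lit 275) (nat_lit 5) (nat_lit 267) (nat_lit 5) (nat_lit 639) (nat_lit 584) (nat_lit 337))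 (XT.nd (nat_lit 78) (nat_lit 608) (nat_lit 0) (XT.lf (nat_lit 0) (nat_lit 14452059746) (nat_lit 684) (nat_lit 592283027) (nat_lit 76) (nat_lit 11550322212) (nat_lit 266) (nat_lit 5) (nat_lit 275) (nat_lit 5) (nat_lit 267) (nat_lit 5) (nat_lit 640) (nat_lit 584) (nat_lit 336)) (XT.lf (nat_lit 0) (nat_lit 14706248169) (nat_lit 608) (nat_lit 4353632411) (nat_lit 684) (nat_lit 7846905680) (nat_lit 258) (nat_lit 5) (nat_lit 266) (nat_lit 5) (nat_lit 267) (nat_lit 5) (nat_lit 641) (nat_lit 584) (nat_lit 335)))))) (XT.nd (nat_lit 76752) (nat_lit 0) (nat_lit 17632) (XT.nd (nat_lit 156) (nat_lit 1140) (nat_lit 0) (XT.nd (nat_lit 78) (nat_lit 76) (nat_lit 0) (XT.lf (nat_lit 0) (nat_lit 3087462900) (nat_lit 532) (nat_lit 20735694022) (nat_lit 608) (nat_lit 3400727441) (nat_lit 251) (nat_lit 5) (nat_lit 258) (nat_lit 5) (nat_lit 259) (nat_lit 5) (nat_lit 642) (nat_lit 584) (nat_lit 334)) (XT.lf (nat_lit 0) (nat_lit 1227478238)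 (nat_lit 608) (nat_lit 8740015889) (nat_lit 76) (nat_lit 17577523738) (nat_lit 250) (nat_lit 5) (nat_lit 258) (nat_lit 5) (nat_lit 251) (nat_lit 5) (nat_lit 643) (nat_lit 584) (nat_lit 333))) (XT.nd (nat_lit 78) (nat_lit 532) (nat_lit 0) (XT.lf (nat_lit 0) (nat_lit 5952239190) (nat_lit 684) (nat_lit 20848435797) (nat_lit 76) (nat_lit 1070459299) (nat_lit 242) (nat_lit 5) (nat_lit 251) (nat_lit 5) (nat_lit 243) (nat_lit 5) (nat_lit 644) (nat_lit 584) (nat_lit 332)) (XT.nd (nat_lit 78) (nat_lit 532) (nat_lit 0) (XT.lf (nat_lit 0) (nat_lit 10893373209) (nat_lit 684) (nat_lit 5054001327) (nat_lit 76) (nat_lit 12253961295) (nat_lit 242) (nat_lit 5) (nat_lit 251) (nat_lit 5) (nat_lit 243) (nat_lit 5) (nat_lit 645) (nat_lit 584) (nat_lit 331)) (XT.lf (nat_lit 0) (nat_lit 11199138429) (nat_lit 532) (nat_lit 4803795317) (nat_lit 608) (nat_lit 12533815932) (nat_lit 235) (nat_lit 5) (nat_lit 242) (nat_lit 5) (nat_lit 243)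 (nat_lit 5) (nat_lit 646) (nat_lit 584) (nat_lit 330))))) (XT.nd (nat_lit 156) (nat_lit 0) (nat_lit 0) (XT.nd (nat_lit 78) (nat_lit 0) (nat_lit 0) (XT.lf (nat_lit 0) (nat_lit 1148099188) (nat_lit 0) (nat_lit 1148099188) (nat_lit 1748) (nat_lit 5168873085) (nat_lit 467) (nat_lit 5) (nat_lit 467) (nat_lit 3) (nat_lit 490) (nat_lit 3) (nat_lit 585) (nat_lit 585) (nat_lit 390)) (XT.lf (nat_lit 0) (nat_lit 4969720994) (nat_lit 1748) (nat_lit 5346929298) (nat_lit 1824) (nat_lit 4756119043) (nat_lit 467) (nat_lit 5) (nat_lit 490) (nat_lit 3) (nat_lit 491) (nat_lit 5) (nat_lit 586) (nat_lit 585) (nat_lit 389))) (XT.nd (nat_lit 78) (nat_lit 0) (nat_lit 76) (XT.lf (nat_lit 76) (nat_lit 2093962108) (nat_lit 0) (nat_lit 3281585175) (nat_lit 1824) (nat_lit 9842283115) (nat_lit 468) (nat_lit 5) (nat_lit 467) (nat_lit 5) (nat_lit 491) (nat_lit 5) (nat_lit 587) (nat_lit 585) (nat_lit 388)) (XT.nd (nat_lit 78) (nat_lit 0) (nat_lit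 0) (XT.lf (nat_lit 0) (nat_lit 5843196417) (nat_lit 1748) (nat_lit 5638718173) (nat_lit 1824) (nat_lit 3882805174) (nat_lit 468) (nat_lit 5) (nat_lit 491) (nat_lit 5) (nat_lit 492) (nat_lit 5) (nat_lit 588) (nat_lit 585) (nat_lit 387)) (XT.lf (nat_lit 76) (nat_lit 1996397219) (nat_lit 0) (nat_lit 4350950877) (nat_lit 1824) (nat_lit 9166657016) (nat_lit 469) (nat_lit 5) (nat_lit 468) (nat_lit 5) (nat_lit 492) (nat_lit 5) (nat_lit 589) (nat_lit 585) (nat_lit 386))))))))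
noncomputable def xc217 : XT := (XT.nd (nat_lit 1482) (nat_lit 9120) (nat_lit 0) (XT.nd (nat_lit 702) (nat_lit 1444) (nat_lit 0) (XT.nd (nat_lit 312) (nat_lit 0) (nat_lit 152) (XT.nd (nat_lit 156) (nat_lit 0) (nat_lit 76) (XT.nd (nat_lit 78) (nat_lit 0) (nat_lit 0) (XT.lf (nat_lit 0) (nat_lit 6911245209) (nat_lit 1748) (nat_lit 5828428168) (nat_lit 1824) (nat_lit 2925610703) (nat_lit 469) (nat_lit 5) (nat_lit 492) (nat_lit 5) (nat_lit 493) (nat_lit 5) (nat_lit 590) (nat_lit 585) (nat_lit 385)) (XT.lf (nat_lit 76) (nat_lit 2007806840) (nat_lit 0) (nat_lit 5513206211) (nat_lit 1824) (nat_lit 8297884860) (nat_lit 470) (nat_lit 5) (nat_lit 469) (nat_lit 5) (nat_lit 493) (nat_lit 5) (nat_lit 591) (nat_lit 585) (nat_lit 384))) (XT.nd (nat_lit 78) (nat_lit 0) (nat_lit 0) (XT.lf (nat_lit 0) (nat_lit 8187285522) (nat_lit 1748) (nat_lit 5911732207) (nat_lit 1824) (nat_lit 1875681223) (nat_lit 470) (nat_lit 5) (nat_lit 493)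 (nat_lit 5) (nat_lit 494) (nat_lit 5) (nat_lit 592) (nat_lit 585) (nat_lit 383)) (XT.lf (nat_lit 76) (nat_lit 2132778400) (nat_lit 0) (nat_lit 6777479854) (nat_lit 1824) (nat_lit 7222491357) (nat_lit 471) (nat_lit 5) (nat_lit 470) (nat_lit 5) (nat_lit 494) (nat_lit 5) (nat_lit 593) (nat_lit 585) (nat_lit 382)))) (XT.nd (nat_lit 156) (nat_lit 0) (nat_lit 0) (XT.nd (nat_lit 78) (nat_lit 0) (nat_lit 0) (XT.lf (nat_lit 0) (nat_lit 9685249366) (nat_lit 1748) (nat_lit 5884022531) (nat_lit 1824) (nat_lit 723939281) (nat_lit 471) (nat_lit 5) (nat_lit 494) (nat_lit 5) (nat_lit 495) (nat_lit 5) (nat_lit 594) (nat_lit 585) (nat_lit 381)) (XT.lf (nat_lit 76) (nat_lit 2376188885) (nat_lit 0) (nat_lit 8153139907) (nat_lit 1824) (nat_lit 5926482468) (nat_lit 472) (nat_lit 5) (nat_lit 471) (nat_lit 5) (nat_lit 495) (nat_lit 5) (nat_lit 595) (nat_lit 585) (nat_lit 380))) (XT.nd (nat_lit 78) (nat_lit 0) (nat_lit 76) (XT.lf (nat_lit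 76) (nat_lit 10877056123) (nat_lit 0) (nat_lit 546099155) (nat_lit 1824) (nat_lit 5197851787) (nat_lit 472) (nat_lit 5) (nat_lit 471) (nat_lit 5) (nat_lit 495) (nat_lit 5) (nat_lit 596) (nat_lit 585) (nat_lit 379)) (XT.nd (nat_lit 78) (nat_lit 0) (nat_lit 0) (XT.lf (nat_lit 76) (nat_lit 2743210572) (nat_lit 0) (nat_lit 9649815669) (nat_lit 1824) (nat_lit 4395318197) (nat_lit 473) (nat_lit 5) (nat_lit 472) (nat_lit 5) (nat_lit 496) (nat_lit 5) (nat_lit 597) (nat_lit 585) (nat_lit 378)) (XT.lf (nat_lit 76) (nat_lit 11469971285) (nat_lit 0) (nat_lit 1948084901) (nat_lit 1824) (nat_lit 3540258135) (nat_lit 473) (nat_lit 5) (nat_lit 472) (nat_lit 5) (nat_lit 496) (nat_lit 5) (nat_lit 598) (nat_lit 585) (nat_lit 377)))))) (XT.nd (nat_lit 390) (nat_lit 0) (nat_lit 76) (XT.nd (nat_lit 156) (nat_lit 1748) (nat_lit 0) (XT.nd (nat_lit 78) (nat_lit 0) (nat_lit 0) (XT.lf (nat_lit 76) (nat_lit 3239317218) (nat_lit 0) (nat_lit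 11277419739) (nat_lit 1824) (nat_lit 2613884612) (nat_lit 474) (nat_lit 5) (nat_lit 473) (nat_lit 5) (nat_lit 497) (nat_lit 5) (nat_lit 599) (nat_lit 585) (nat_lit 376)) (XT.lf (nat_lit 76) (nat_lit 12198488807) (nat_lit 0) (nat_lit 3482404381) (nat_lit 1824) (nat_lit 1624612689) (nat_lit 474) (nat_lit 5) (nat_lit 473) (nat_lit 5) (nat_lit 497) (nat_lit 5) (nat_lit 600) (nat_lit 585) (nat_lit 375))) (XT.nd (nat_lit 78) (nat_lit 1824) (nat_lit 0) (XT.lf (nat_lit 76) (nat_lit 3870290700) (nat_lit 0) (nat_lit 13046170503) (nat_lit 1824) (nat_lit 566465031) (nat_lit 475) (nat_lit 5) (nat_lit 474) (nat_lit 5) (nat_lit 498) (nat_lit 5) (nat_lit 601) (nat_lit 585) (nat_lit 374)) (XT.nd (nat_lit 78) (nat_lit 0) (nat_lit 76) (XT.lf (nat_lit 0) (nat_lit 557716455) (nat_lit 1824) (nat_lit 4597920358) (nat_lit 1900) (nat_lit 12507160548) (nat_lit 450) (nat_lit 5) (nat_lit 474) (nat_lit 5) (nat_lit 475) (nat_lit 5) (nat_lit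 602) (nat_lit 585) (nat_lit 373)) (XT.lf (nat_lit 0) (nat_lit 1740163788) (nat_lit 1824) (nat_lit 13214773868) (nat_lit 1900) (nat_lit 2890386907) (nat_lit 451) (nat_lit 5) (nat_lit 475) (nat_lit 5) (nat_lit 476) (nat_lit 5) (nat_lit 603) (nat_lit 585) (nat_lit 372))))) (XT.nd (nat_lit 156) (nat_lit 0) (nat_lit 76) (XT.nd (nat_lit 78) (nat_lit 0) (nat_lit 76) (XT.lf (nat_lit 0) (nat_lit 3005711584) (nat_lit 1824) (nat_lit 3963787967) (nat_lit 1900) (nat_lit 11060814590) (nat_lit 451) (nat_lit 5) (nat_lit 475) (nat_lit 5) (nat_lit 476) (nat_lit 5) (nat_lit 604) (nat_lit 585) (nat_lit 371)) (XT.lf (nat_lit 0) (nat_lit 4334784554) (nat_lit 1824) (nat_lit 12685779457) (nat_lit 1900) (nat_lit 1197676063) (nat_lit 452) (nat_lit 5) (nat_lit 476) (nat_lit 5) (nat_lit 477) (nat_lit 5) (nat_lit 605) (nat_lit 585) (nat_lit 370))) (XT.nd (nat_lit 78) (nat_lit 0) (nat_lit 0) (XT.lf (nat_lit 0) (nat_lit 5757822105) (nat_lit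 1824) (nat_lit 3187835464) (nat_lit 1900) (nat_lit 9462920122) (nat_lit 452) (nat_lit 5) (nat_lit 476) (nat_lit 5) (nat_lit 477) (nat_lit 5) (nat_lit 606) (nat_lit 585) (nat_lit 369)) (XT.nd (nat_lit 78) (nat_lit 0) (nat_lit 76) (XT.lf (nat_lit 76) (nat_lit 6582003820) (nat_lit 0) (nat_lit 664612339) (nat_lit 1900) (nat_lit 11355360801) (nat_lit 453) (nat_lit 5) (nat_lit 452) (nat_lit 5) (nat_lit 477) (nat_lit 5) (nat_lit 607) (nat_lit 585) (nat_lit 368)) (XT.lf (nat_lit 0) (nat_lit 8831891942) (nat_lit 1824) (nat_lit 2263505857) (nat_lit 1900) (nat_lit 7702513097) (nat_lit 453) (nat_lit 5) (nat_lit 477) (nat_lit 5) (nat_lit 478) (nat_lit 5) (nat_lit 608) (nat_lit 585) (nat_lit 367))))))) (XT.nd (nat_lit 702) (nat_lit 4864) (nat_lit 0) (XT.nd (nat_lit 312) (nat_lit 1900) (nat_lit 0) (XT.nd (nat_lit 156) (nat_lit 2584) (nat_lit 0) (XT.nd (nat_lit 78) (nat_lit 0) (nat_lit 76) (XT.lf (nat_lit 76) (nat_lit 7781357585)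 (nat_lit 0) (nat_lit 2717189646) (nat_lit 1900) (nat_lit 8498223580) (nat_lit 454) (nat_lit 5) (nat_lit 453) (nat_lit 5) (nat_lit 478) (nat_lit 5) (nat_lit 609) (nat_lit 585) (nat_lit 366)) (XT.lf (nat_lit 0) (nat_lit 12246499356) (nat_lit 1824) (nat_lit 1183913438) (nat_lit 76) (nat_lit 5768236623) (nat_lit 454) (nat_lit 5) (nat_lit 478) (nat_lit 5) (nat_lit 455) (nat_lit 5) (nat_lit 610) (nat_lit 585) (nat_lit 365))) (XT.nd (nat_lit 78) (nat_lit 988) (nat_lit 0) (XT.lf (nat_lit 0) (nat_lit 9145791592) (nat_lit 1672) (nat_lit 4955926264) (nat_lit 1748) (nat_lit 5301402344) (nat_lit 432) (nat_lit 5) (nat_lit 454) (nat_lit 5) (nat_lit 455) (nat_lit 5) (nat_lit 611) (nat_lit 585) (nat_lit 364)) (XT.lf (nat_lit 0) (nat_lit 58937691) (nat_lit 988) (nat_lit 15962435741) (nat_lit 1064) (nat_lit 3589761050) (nat_lit 419) (nat_lit 5) (nat_lit 432) (nat_lit 5) (nat_lit 433) (nat_lit 5) (nat_lit 612) (nat_lit 585) (nat_lit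 363)))) (XT.nd (nat_lit 156) (nat_lit 912) (nat_lit 0) (XT.nd (nat_lit 78) (nat_lit 988) (nat_lit 0) (XT.lf (nat_lit 0) (nat_lit 10682887657) (nat_lit 988) (nat_lit 7393047951) (nat_lit 1064) (nat_lit 1745443894) (nat_lit 419) (nat_lit 5) (nat_lit 432) (nat_lit 5) (nat_lit 433) (nat_lit 5) (nat_lit 613) (nat_lit 585) (nat_lit 362)) (XT.lf (nat_lit 0) (nat_lit 147668154) (nat_lit 988) (nat_lit 18546692511) (nat_lit 76) (nat_lit 1341178042) (nat_lit 406) (nat_lit 5) (nat_lit 419) (nat_lit 5) (nat_lit 407) (nat_lit 5) (nat_lit 614) (nat_lit 585) (nat_lit 361))) (XT.nd (nat_lit 78) (nat_lit 912) (nat_lit 0) (XT.lf (nat_lit 0) (nat_lit 2161193688) (nat_lit 988) (nat_lit 7865549228) (nat_lit 76) (nat_lit 10224889658) (nat_lit 406) (nat_lit 5) (nat_lit 419) (nat_lit 5) (nat_lit 407) (nat_lit 5) (nat_lit 615) (nat_lit 585) (nat_lit 360)) (XT.nd (nat_lit 78) (nat_lit 0) (nat_lit 0) (XT.lf (nat_lit 0) (nat_lit 3065028712)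 (nat_lit 912) (nat_lit 1165165238) (nat_lit 988) (nat_lit 16241550952) (nat_lit 394) (nat_lit 5) (nat_lit 406) (nat_lit 5) (nat_lit 407) (nat_lit 5) (nat_lit 616) (nat_lit 585) (nat_lit 359)) (XT.lf (nat_lit 0) (nat_lit 6440196247) (nat_lit 988) (nat_lit 6430289336) (nat_lit 76) (nat_lit 7823782107) (nat_lit 394) (nat_lit 5) (nat_lit 407) (nat_lit 5) (nat_lit 395) (nat_lit 5) (nat_lit 617) (nat_lit 585) (nat_lit 358)))))) (XT.nd (nat_lit 390) (nat_lit 2432) (nat_lit 0) (XT.nd (nat_lit 156) (nat_lit 1596) (nat_lit 0) (XT.nd (nat_lit 78) (nat_lit 0) (nat_lit 0) (XT.lf (nat_lit 0) (nat_lit 4816756840) (nat_lit 836) (nat_lit 3912092033) (nat_lit 912) (nat_lit 12191703696) (nat_lit 383) (nat_lit 5) (nat_lit 394) (nat_lit 5) (nat_lit 395) (nat_lit 5) (nat_lit 618) (nat_lit 585) (nat_lit 357)) (XT.lf (nat_lit 0) (nat_lit 11136160311) (nat_lit 912) (nat_lit 4813232834) (nat_lit 76) (nat_lit 5200512914) (nat_lit 383) (nat_lit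 5) (nat_lit 395) (nat_lit 5) (nat_lit 384) (nat_lit 5) (nat_lit 619) (nat_lit 585) (nat_lit 356))) (XT.nd (nat_lit 78) (nat_lit 760) (nat_lit 0) (XT.lf (nat_lit 0) (nat_lit 6761571546) (nat_lit 836) (nat_lit 6895464888) (nat_lit 912) (nat_lit 7725502434) (nat_lit 372) (nat_lit 5) (nat_lit 383) (nat_lit 5) (nat_lit 384) (nat_lit 5) (nat_lit 620) (nat_lit 585) (nat_lit 355)) (XT.nd (nat_lit 78) (nat_lit 760) (nat_lit 0) (XT.lf (nat_lit 0) (nat_lit 16271701326) (nat_lit 912) (nat_lit 3005865368) (nat_lit 76) (nat_lit 2341390816) (nat_lit 372) (nat_lit 5) (nat_lit 384) (nat_lit 5) (nat_lit 373) (nat_lit 5) (nat_lit 621) (nat_lit 585) (nat_lit 354)) (XT.lf (nat_lit 0) (nat_lit 8908394852) (nat_lit 760) (nat_lit 10129522301) (nat_lit 836) (nat_lit 2820202815) (nat_lit 362) (nat_lit 5) (nat_lit 372) (nat_lit 5) (nat_lit 373) (nat_lit 5) (nat_lit 622) (nat_lit 585) (nat_lit 353))))) (XT.nd (nat_lit 156) (nat_lit 1520)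 (nat_lit 0) (XT.nd (nat_lit 78) (nat_lit 912) (nat_lit 0) (XT.lf (nat_lit 0) (nat_lit 21097400312) (nat_lit 760) (nat_lit 778036472) (nat_lit 836) (nat_lit 226309881) (nat_lit 362) (nat_lit 5) (nat_lit 372) (nat_lit 5) (nat_lit 373) (nat_lit 5) (nat_lit 623) (nat_lit 585) (nat_lit 352)) (XT.lf (nat_lit 0) (nat_lit 2514481414) (nat_lit 912) (nat_lit 11097730279) (nat_lit 76) (nat_lit 8735185544) (nat_lit 350) (nat_lit 5) (nat_lit 362) (nat_lit 5) (nat_lit 351) (nat_lit 5) (nat_lit 624) (nat_lit 585) (nat_lit 351))) (XT.nd (nat_lit 78) (nat_lit 760) (nat_lit 0) (XT.lf (nat_lit 0) (nat_lit 1168872690) (nat_lit 760) (nat_lit 4153630047) (nat_lit 836) (nat_lit 17275119821) (nat_lit 340) (nat_lit 5) (nat_lit 350) (nat_lit 5) (nat_lit 351) (nat_lit 5) (nat_lit 625) (nat_lit 585) (nat_lit 350)) (XT.nd (nat_lit 78) (nat_lit 760) (nat_lit 0) (XT.lf (nat_lit 0) (nat_lit 8293287121) (nat_lit 836) (nat_lit 9060648506) (nat_lit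 76) (nat_lit 5496785244) (nat_lit 340) (nat_lit 5) (nat_lit 351) (nat_lit 5) (nat_lit 341) (nat_lit 5) (nat_lit 626) (nat_lit 585) (nat_lit 349)) (XT.lf (nat_lit 0) (nat_lit 3569850909) (nat_lit 760) (nat_lit 7800367039) (nat_lit 836) (nat_lit 11737729113) (nat_lit 330) (nat_lit 5) (nat_lit 340) (nat_lit 5) (nat_lit 341) (nat_lit 5) (nat_lit 627) (nat_lit 585) (nat_lit 348))))))))
noncomputable def xc218 : XT := (XT.nd (nat_lit 77922) (nat_lit 0) (nat_lit 15808) (XT.nd (nat_lit 702) (nat_lit 3192) (nat_lit 0) (XT.nd (nat_lit 312) (nat_lit 1976) (nat_lit 0) (XT.nd (nat_lit 156) (nat_lit 836) (nat_lit 0) (XT.nd (nat_lit 78) (nat_lit 684) (nat_lit 0) (XT.lf (nat_lit 0) (nat_lit 14578608450) (nat_lit 836) (nat_lit 6810672102) (nat_lit 76) (nat_lit 1979639318) (nat_lit 330) (nat_lit 5) (nat_lit 341) (nat_lit 5) (nat_lit 331) (nat_lit 5) (nat_lit 628) (nat_lit 585) (nat_lit 347)) (XT.lf (nat_lit 0) (nat_lit 6196673663)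 (nat_lit 684) (nat_lit 11742553844) (nat_lit 760) (nat_lit 5694123918) (nat_lit 321) (nat_lit 5) (nat_lit 330) (nat_lit 5) (nat_lit 331) (nat_lit 5) (nat_lit 629) (nat_lit 585) (nat_lit 346))) (XT.nd (nat_lit 78) (nat_lit 836) (nat_lit 0) (XT.lf (nat_lit 0) (nat_lit 19552275492) (nat_lit 684) (nat_lit 1856704182) (nat_lit 760) (nat_lit 2493254020) (nat_lit 321) (nat_lit 5) (nat_lit 330) (nat_lit 5) (nat_lit 331) (nat_lit 5) (nat_lit 630) (nat_lit 585) (nat_lit 345)) (XT.lf (nat_lit 0) (nat_lit 870756194) (nat_lit 836) (nat_lit 15120351809) (nat_lit 76) (nat_lit 8183101021) (nat_lit 310) (nat_lit 5) (nat_lit 321) (nat_lit 5) (nat_lit 311) (nat_lit 5) (nat_lit 631) (nat_lit 585) (nat_lit 344)))) (XT.nd (nat_lit 156) (nat_lit 1292) (nat_lit 0) (XT.nd (nat_lit 78) (nat_lit 684) (nat_lit 0) (XT.lf (nat_lit 0) (nat_lit 4306682921) (nat_lit 836) (nat_lit 1699549791) (nat_lit 76) (nat_lit 18444301588) (nat_lit 310) (nat_lit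 5) (nat_lit 321) (nat_lit 5) (nat_lit 311) (nat_lit 5) (nat_lit 632) (nat_lit 585) (nat_lit 343)) (XT.lf (nat_lit 0) (nat_lit 7914209961) (nat_lit 760) (nat_lit 12613719316) (nat_lit 76) (nat_lit 4202399628) (nat_lit 301) (nat_lit 5) (nat_lit 311) (nat_lit 5) (nat_lit 302) (nat_lit 5) (nat_lit 633) (nat_lit 585) (nat_lit 342))) (XT.nd (nat_lit 78) (nat_lit 608) (nat_lit 0) (XT.lf (nat_lit 0) (nat_lit 1188189193) (nat_lit 684) (nat_lit 10461092625) (nat_lit 760) (nat_lit 13365330148) (nat_lit 292) (nat_lit 5) (nat_lit 301) (nat_lit 5) (nat_lit 302) (nat_lit 5) (nat_lit 634) (nat_lit 585) (nat_lit 341)) (XT.nd (nat_lit 78) (nat_lit 608) (nat_lit 0) (XT.lf (nat_lit 0) (nat_lit 15432964749) (nat_lit 684) (nat_lit 107201215) (nat_lit 760) (nat_lit 9762792947) (nat_lit 292) (nat_lit 5) (nat_lit 301) (nat_lit 5) (nat_lit 302) (nat_lit 5) (nat_lit 635) (nat_lit 585) (nat_lit 340)) (XT.lf (nat_lit 0) (nat_lit 4350611528)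 (nat_lit 608) (nat_lit 15250907621) (nat_lit 684) (nat_lit 5993701050) (nat_lit 284) (nat_lit 5) (nat_lit 292) (nat_lit 5) (nat_lit 293) (nat_lit 5) (nat_lit 636) (nat_lit 585) (nat_lit 339)))))) (XT.nd (nat_lit 390) (nat_lit 1824) (nat_lit 0) (XT.nd (nat_lit 156) (nat_lit 608) (nat_lit 0) (XT.nd (nat_lit 78) (nat_lit 760) (nat_lit 0) (XT.lf (nat_lit 0) (nat_lit 18984589799) (nat_lit 608) (nat_lit 4823020552) (nat_lit 684) (nat_lit 2084446567) (nat_lit 284) (nat_lit 5) (nat_lit 292) (nat_lit 5) (nat_lit 293) (nat_lit 5) (nat_lit 637) (nat_lit 585) (nat_lit 338)) (XT.lf (nat_lit 0) (nat_lit 1963467495) (nat_lit 760) (nat_lit 18429480331) (nat_lit 76) (nat_lit 5799927190) (nat_lit 274) (nat_lit 5) (nat_lit 284) (nat_lit 5) (nat_lit 275) (nat_lit 5) (nat_lit 638) (nat_lit 585) (nat_lit 337))) (XT.nd (nat_lit 78) (nat_lit 608) (nat_lit 0) (XT.lf (nat_lit 0) (nat_lit 6139708256) (nat_lit 760) (nat_lit 3727639091) (nat_lit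 76) (nat_lit 16630581380) (nat_lit 274) (nat_lit 5) (nat_lit 284) (nat_lit 5) (nat_lit 275) (nat_lit 5) (nat_lit 639) (nat_lit 585) (nat_lit 336)) (XT.nd (nat_lit 78) (nat_lit 0) (nat_lit 0) (XT.lf (nat_lit 0) (nat_lit 10476425429) (nat_lit 684) (nat_lit 15399890074) (nat_lit 76) (nat_lit 931229370) (nat_lit 266) (nat_lit 5) (nat_lit 275) (nat_lit 5) (nat_lit 267) (nat_lit 5) (nat_lit 640) (nat_lit 585) (nat_lit 335)) (XT.lf (nat_lit 0) (nat_lit 14987155556) (nat_lit 684) (nat_lit 296246009) (nat_lit 76) (nat_lit 11838206588) (nat_lit 266) (nat_lit 5) (nat_lit 275) (nat_lit 5) (nat_lit 267) (nat_lit 5) (nat_lit 641) (nat_lit 585) (nat_lit 334))))) (XT.nd (nat_lit 156) (nat_lit 684) (nat_lit 0) (XT.nd (nat_lit 78) (nat_lit 532) (nat_lit 0) (XT.lf (nat_lit 0) (nat_lit 15306230267) (nat_lit 608) (nat_lit 4378063766) (nat_lit 684) (nat_lit 7755735165) (nat_lit 258) (nat_lit 5) (nat_lit 266) (nat_lit 5) (nat_lit 267)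 (nat_lit 5) (nat_lit 642) (nat_lit 585) (nat_lit 333)) (XT.lf (nat_lit 0) (nat_lit 3457513639) (nat_lit 532) (nat_lit 21082953757) (nat_lit 608) (nat_lit 3223049795) (nat_lit 251) (nat_lit 5) (nat_lit 258) (nat_lit 5) (nat_lit 259) (nat_lit 5) (nat_lit 643) (nat_lit 585) (nat_lit 332))) (XT.nd (nat_lit 78) (nat_lit 608) (nat_lit 0) (XT.lf (nat_lit 0) (nat_lit 1489743389) (nat_lit 608) (nat_lit 8609373909) (nat_lit 76) (nat_lit 17992019785) (nat_lit 250) (nat_lit 5) (nat_lit 258) (nat_lit 5) (nat_lit 251) (nat_lit 5) (nat_lit 644) (nat_lit 585) (nat_lit 331)) (XT.nd (nat_lit 78) (nat_lit 0) (nat_lit 0) (XT.lf (nat_lit 0) (nat_lit 6306752708) (nat_lit 684) (nat_lit 20957689062) (nat_lit 76) (nat_lit 1159379525) (nat_lit 242) (nat_lit 5) (nat_lit 251) (nat_lit 5) (nat_lit 243) (nat_lit 5) (nat_lit 645) (nat_lit 585) (nat_lit 330)) (XT.lf (nat_lit 0) (nat_lit 11342092373) (nat_lit 684) (nat_lit 4853399539) (nat_lit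 76) (nat_lit 12565227815) (nat_lit 242) (nat_lit 5) (nat_lit 251) (nat_lit 5) (nat_lit 243) (nat_lit 5) (nat_lit 646) (nat_lit 585) (nat_lit 329))))))) (XT.nd (nat_lit 702) (nat_lit 1292) (nat_lit 0) (XT.nd (nat_lit 312) (nat_lit 0) (nat_lit 76) (XT.nd (nat_lit 156) (nat_lit 0) (nat_lit 0) (XT.nd (nat_lit 78) (nat_lit 0) (nat_lit 0) (XT.lf (nat_lit 0) (nat_lit 1320141923) (nat_lit 0) (nat_lit 1320141923) (nat_lit 1748) (nat_lit 4968079107) (nat_lit 467) (nat_lit 5) (nat_lit 467) (nat_lit 3) (nat_lit 490) (nat_lit 3) (nat_lit 586) (nat_lit 586) (nat_lit 388)) (XT.lf (nat_lit 0) (nat_lit 5651847907) (nat_lit 1748) (nat_lit 5147870592) (nat_lit 1824) (nat_lit 4562759992) (nat_lit 467) (nat_lit 5) (nat_lit 490) (nat_lit 3) (nat_lit 491) (nat_lit 5) (nat_lit 587) (nat_lit 586) (nat_lit 387))) (XT.nd (nat_lit 78) (nat_lit 0) (nat_lit 76) (XT.lf (nat_lit 76) (nat_lit 2439825501) (nat_lit 0) (nat_lit 3616512760) (nat_lit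 1824) (nat_lit 9454293359) (nat_lit 468) (nat_lit 5) (nat_lit 467) (nat_lit 5) (nat_lit 491) (nat_lit 5) (nat_lit 588) (nat_lit 586) (nat_lit 386)) (XT.lf (nat_lit 0) (nat_lit 6520385429) (nat_lit 1748) (nat_lit 5440425885) (nat_lit 1824) (nat_lit 3699908319) (nat_lit 468) (nat_lit 5) (nat_lit 491) (nat_lit 5) (nat_lit 492) (nat_lit 5) (nat_lit 589) (nat_lit 586) (nat_lit 385)))) (XT.nd (nat_lit 156) (nat_lit 0) (nat_lit 76) (XT.nd (nat_lit 78) (nat_lit 0) (nat_lit 76) (XT.lf (nat_lit 76) (nat_lit 2345345323) (nat_lit 0) (nat_lit 4680294415) (nat_lit 1824) (nat_lit 8787532283) (nat_lit 469) (nat_lit 5) (nat_lit 468) (nat_lit 5) (nat_lit 492) (nat_lit 5) (nat_lit 590) (nat_lit 586) (nat_lit 384)) (XT.lf (nat_lit 0) (nat_lit 7588461633) (nat_lit 1748) (nat_lit 5629598022) (nat_lit 1824) (nat_lit 2749665671) (nat_lit 469) (nat_lit 5) (nat_lit 492) (nat_lit 5) (nat_lit 493) (nat_lit 5) (nat_lit 591) (nat_lit 586) (nat_lit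 383))) (XT.nd (nat_lit 78) (nat_lit 0) (nat_lit 76) (XT.lf (nat_lit 76) (nat_lit 2361286695) (nat_lit 0) (nat_lit 5840603981) (nat_lit 1824) (nat_lit 7922693099) (nat_lit 470) (nat_lit 5) (nat_lit 469) (nat_lit 5) (nat_lit 493) (nat_lit 5) (nat_lit 592) (nat_lit 586) (nat_lit 382)) (XT.nd (nat_lit 78) (nat_lit 0) (nat_lit 0) (XT.lf (nat_lit 0) (nat_lit 8869705338) (nat_lit 1748) (nat_lit 5710922157) (nat_lit 1824) (nat_lit 1703110632) (nat_lit 470) (nat_lit 5) (nat_lit 493) (nat_lit 5) (nat_lit 494) (nat_lit 5) (nat_lit 593) (nat_lit 586) (nat_lit 381)) (XT.lf (nat_lit 76) (nat_lit 2492379684) (nat_lit 0) (nat_lit 7106645582) (nat_lit 1824) (nat_lit 6846088374) (nat_lit 471) (nat_lit 5) (nat_lit 470) (nat_lit 5) (nat_lit 494) (nat_lit 5) (nat_lit 594) (nat_lit 586) (nat_lit 380)))))) (XT.nd (nat_lit 390) (nat_lit 1596) (nat_lit 0) (XT.nd (nat_lit 156) (nat_lit 0) (nat_lit 0) (XT.nd (nat_lit 78) (nat_lit 0) (nat_lit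 0) (XT.lf (nat_lit 0) (nat_lit 10378272749) (nat_lit 1748) (nat_lit 5679650272) (nat_lit 1824) (nat_lit 551087850) (nat_lit 471) (nat_lit 5) (nat_lit 494) (nat_lit 5) (nat_lit 495) (nat_lit 5) (nat_lit 595) (nat_lit 586) (nat_lit 379)) (XT.lf (nat_lit 76) (nat_lit 2743646604) (nat_lit 0) (nat_lit 8487873825) (nat_lit 1824) (nat_lit 5543498324) (nat_lit 472) (nat_lit 5) (nat_lit 471) (nat_lit 5) (nat_lit 495) (nat_lit 5) (nat_lit 596) (nat_lit 586) (nat_lit 378))) (XT.nd (nat_lit 78) (nat_lit 0) (nat_lit 76) (XT.lf (nat_lit 76) (nat_lit 11408257972) (nat_lit 0) (nat_lit 725326158) (nat_lit 1824) (nat_lit 4810128633) (nat_lit 472) (nat_lit 5) (nat_lit 471) (nat_lit 5) (nat_lit 495) (nat_lit 5) (nat_lit 597) (nat_lit 586) (nat_lit 377)) (XT.nd (nat_lit 78) (nat_lit 0) (nat_lit 0) (XT.lf (nat_lit 76) (nat_lit 3120408044) (nat_lit 0) (nat_lit 9994015640) (nat_lit 1824) (nat_lit 4000143250) (nat_lit 473) (nat_lit 5)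 (nat_lit 472) (nat_lit 5) (nat_lit 496) (nat_lit 5) (nat_lit 598) (nat_lit 586) (nat_lit 376)) (XT.lf (nat_lit 76) (nat_lit 12015383711) (nat_lit 0) (nat_lit 2135285479) (nat_lit 1824) (nat_lit 3137454169) (nat_lit 473) (nat_lit 5) (nat_lit 472) (nat_lit 5) (nat_lit 496) (nat_lit 5) (nat_lit 599) (nat_lit 586) (nat_lit 375))))) (XT.nd (nat_lit 156) (nat_lit 1748) (nat_lit 0) (XT.nd (nat_lit 78) (nat_lit 0) (nat_lit 0) (XT.lf (nat_lit 76) (nat_lit 3628289350) (nat_lit 0) (nat_lit 11635092484) (nat_lit 1824) (nat_lit 2200655168) (nat_lit 474) (nat_lit 5) (nat_lit 473) (nat_lit 5) (nat_lit 497) (nat_lit 5) (nat_lit 600) (nat_lit 586) (nat_lit 374)) (XT.lf (nat_lit 76) (nat_lit 12760287786) (nat_lit 0) (nat_lit 3681586146) (nat_lit 1824) (nat_lit 1200725398) (nat_lit 474) (nat_lit 5) (nat_lit 473) (nat_lit 5) (nat_lit 497) (nat_lit 5) (nat_lit 601) (nat_lit 586) (nat_lit 373))) (XT.nd (nat_lit 78) (nat_lit 1824) (nat_lit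 0) (XT.lf (nat_lit 76) (nat_lit 4273227565) (nat_lit 0) (nat_lit 13421442956) (nat_lit 1824) (nat_lit 129048589) (nat_lit 475) (nat_lit 5) (nat_lit 474) (nat_lit 5) (nat_lit 498) (nat_lit 5) (nat_lit 602) (nat_lit 586) (nat_lit 372)) (XT.nd (nat_lit 78) (nat_lit 0) (nat_lit 76) (XT.lf (nat_lit 0) (nat_lit 1003047609) (nat_lit 1824) (nat_lit 4364895290) (nat_lit 1900) (nat_lit 12639361469) (nat_lit 450) (nat_lit 5) (nat_lit 474) (nat_lit 5) (nat_lit 475) (nat_lit 5) (nat_lit 603) (nat_lit 586) (nat_lit 371)) (XT.lf (nat_lit 0) (nat_lit 2202045571) (nat_lit 1824) (nat_lit 13146923433) (nat_lit 1900) (nat_lit 2844656360) (nat_lit 451) (nat_lit 5) (nat_lit 475) (nat_lit 5) (nat_lit 476) (nat_lit 5) (nat_lit 604) (nat_lit 586) (nat_lit 370))))))))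
noncomputable def xc219 : XT := (XT.nd (nat_lit 1482) (nat_lit 7296) (nat_lit 0) (XT.nd (nat_lit 702) (nat_lit 4332) (nat_lit 0) (XT.nd (nat_lit 312) (nat_lit 2432) (nat_lit 0) (XT.nd (nat_lit 156) (nat_lit 0) (nat_lit 76) (XT.nd (nat_lit 78) (nat_lit 0) (nat_lit 76) (XT.lf (nat_lit 0) (nat_lit 3484530235) (nat_lit 1824) (nat_lit 3717430478) (nat_lit 1900) (nat_lit 11180522759) (nat_lit 451) (nat_lit 5) (nat_lit 475) (nat_lit 5) (nat_lit 476) (nat_lit 5) (nat_lit 605) (nat_lit 586) (nat_lit 369)) (XT.lf (nat_lit 0) (nat_lit 4833496569) (nat_lit 1824) (nat_lit 12607112072) (nat_lit 1900) (nat_lit 1133694276) (nat_lit 452) (nat_lit 5) (nat_lit 476) (nat_lit 5) (nat_lit 477) (nat_lit 5) (nat_lit 606) (nat_lit 586) (nat_lit 368))) (XT.nd (nat_lit 78) (nat_lit 0) (nat_lit 0) (XT.lf (nat_lit 0) (nat_lit 6276916120) (nat_lit 1824) (nat_lit 2925726513) (nat_lit 1900) (nat_lit 9565967438) (nat_lit 452) (nat_lit 5) (nat_lit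 476) (nat_lit 5) (nat_lit 477) (nat_lit 5) (nat_lit 607) (nat_lit 586) (nat_lit 367)) (XT.lf (nat_lit 76) (nat_lit 7037365703) (nat_lit 0) (nat_lit 752301824) (nat_lit 1900) (nat_lit 11176327353) (nat_lit 453) (nat_lit 5) (nat_lit 452) (nat_lit 5) (nat_lit 477) (nat_lit 5) (nat_lit 608) (nat_lit 586) (nat_lit 366)))) (XT.nd (nat_lit 156) (nat_lit 2584) (nat_lit 0) (XT.nd (nat_lit 78) (nat_lit 0) (nat_lit 0) (XT.lf (nat_lit 0) (nat_lit 9398369005) (nat_lit 1824) (nat_lit 1983063756) (nat_lit 1900) (nat_lit 7784581491) (nat_lit 453) (nat_lit 5) (nat_lit 477) (nat_lit 5) (nat_lit 478) (nat_lit 5) (nat_lit 609) (nat_lit 586) (nat_lit 365)) (XT.lf (nat_lit 76) (nat_lit 8260554111) (nat_lit 0) (nat_lit 2832260209) (nat_lit 1900) (nat_lit 8276149046) (nat_lit 454) (nat_lit 5) (nat_lit 453) (nat_lit 5) (nat_lit 478) (nat_lit 5) (nat_lit 610) (nat_lit 586) (nat_lit 364))) (XT.nd (nat_lit 78) (nat_lit 2660) (nat_lit 0) (XT.lf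 (nat_lit 0) (nat_lit 12867803722) (nat_lit 1824) (nat_lit 882389243) (nat_lit 76) (nat_lit 5824846131) (nat_lit 454) (nat_lit 5) (nat_lit 478) (nat_lit 5) (nat_lit 455) (nat_lit 5) (nat_lit 611) (nat_lit 586) (nat_lit 363)) (XT.nd (nat_lit 78) (nat_lit 988) (nat_lit 0) (XT.lf (nat_lit 0) (nat_lit 9651770398) (nat_lit 1672) (nat_lit 5103073843) (nat_lit 1748) (nat_lit 5028861796) (nat_lit 432) (nat_lit 5) (nat_lit 454) (nat_lit 5) (nat_lit 455) (nat_lit 5) (nat_lit 612) (nat_lit 586) (nat_lit 362)) (XT.lf (nat_lit 0) (nat_lit 388791168) (nat_lit 988) (nat_lit 16318653698) (nat_lit 1064) (nat_lit 3288545773) (nat_lit 419) (nat_lit 5) (nat_lit 432) (nat_lit 5) (nat_lit 433) (nat_lit 5) (nat_lit 613) (nat_lit 586) (nat_lit 361)))))) (XT.nd (nat_lit 390) (nat_lit 2432) (nat_lit 0) (XT.nd (nat_lit 156) (nat_lit 912) (nat_lit 0) (XT.nd (nat_lit 78) (nat_lit 988) (nat_lit 0) (XT.lf (nat_lit 0) (nat_lit 11218775531) (nat_lit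 988) (nat_lit 7577153265) (nat_lit 1064) (nat_lit 1414656204) (nat_lit 419) (nat_lit 5) (nat_lit 432) (nat_lit 5) (nat_lit 433) (nat_lit 5) (nat_lit 614) (nat_lit 586) (nat_lit 360)) (XT.lf (nat_lit 0) (nat_lit 506353744) (nat_lit 988) (nat_lit 18585329770) (nat_lit 76) (nat_lit 1337400763) (nat_lit 406) (nat_lit 5) (nat_lit 419) (nat_lit 5) (nat_lit 407) (nat_lit 5) (nat_lit 615) (nat_lit 586) (nat_lit 359))) (XT.nd (nat_lit 78) (nat_lit 912) (nat_lit 0) (XT.lf (nat_lit 0) (nat_lit 2553174647) (nat_lit 988) (nat_lit 7697079241) (nat_lit 76) (nat_lit 10399386628) (nat_lit 406) (nat_lit 5) (nat_lit 419) (nat_lit 5) (nat_lit 407) (nat_lit 5) (nat_lit 616) (nat_lit 586) (nat_lit 358)) (XT.nd (nat_lit 78) (nat_lit 0) (nat_lit 0) (XT.lf (nat_lit 0) (nat_lit 3449966961) (nat_lit 912) (nat_lit 1208850849) (nat_lit 988) (nat_lit 16215432994) (nat_lit 394) (nat_lit 5) (nat_lit 406) (nat_lit 5) (nat_lit 407) (nat_lit 5)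 (nat_lit 617) (nat_lit 586) (nat_lit 357)) (XT.lf (nat_lit 0) (nat_lit 6906144923) (nat_lit 988) (nat_lit 6234680410) (nat_lit 76) (nat_lit 7960537172) (nat_lit 394) (nat_lit 5) (nat_lit 407) (nat_lit 5) (nat_lit 395) (nat_lit 5) (nat_lit 618) (nat_lit 586) (nat_lit 356))))) (XT.nd (nat_lit 156) (nat_lit 1596) (nat_lit 0) (XT.nd (nat_lit 78) (nat_lit 0) (nat_lit 0) (XT.lf (nat_lit 0) (nat_lit 5235173697) (nat_lit 836) (nat_lit 4000877391) (nat_lit 912) (nat_lit 12096213318) (nat_lit 383) (nat_lit 5) (nat_lit 394) (nat_lit 5) (nat_lit 395) (nat_lit 5) (nat_lit 619) (nat_lit 586) (nat_lit 355)) (XT.lf (nat_lit 0) (nat_lit 11684919578) (nat_lit 912) (nat_lit 4587096129) (nat_lit 76) (nat_lit 5294321959) (nat_lit 383) (nat_lit 5) (nat_lit 395) (nat_lit 5) (nat_lit 384) (nat_lit 5) (nat_lit 620) (nat_lit 586) (nat_lit 354))) (XT.nd (nat_lit 78) (nat_lit 760) (nat_lit 0) (XT.lf (nat_lit 0) (nat_lit 7217083277) (nat_lit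 836) (nat_lit 7034816554) (nat_lit 912) (nat_lit 7551810465) (nat_lit 372) (nat_lit 5) (nat_lit 383) (nat_lit 5) (nat_lit 384) (nat_lit 5) (nat_lit 621) (nat_lit 586) (nat_lit 353)) (XT.nd (nat_lit 78) (nat_lit 760) (nat_lit 0) (XT.lf (nat_lit 0) (nat_lit 16912540554) (nat_lit 912) (nat_lit 2745620898) (nat_lit 76) (nat_lit 2386823092) (nat_lit 372) (nat_lit 5) (nat_lit 384) (nat_lit 5) (nat_lit 373) (nat_lit 5) (nat_lit 622) (nat_lit 586) (nat_lit 352)) (XT.lf (nat_lit 0) (nat_lit 9404816884) (nat_lit 760) (nat_lit 10325145714) (nat_lit 836) (nat_lit 2559050876) (nat_lit 362) (nat_lit 5) (nat_lit 372) (nat_lit 5) (nat_lit 373) (nat_lit 5) (nat_lit 623) (nat_lit 586) (nat_lit 351))))))) (XT.nd (nat_lit 702) (nat_lit 3344) (nat_lit 0) (XT.nd (nat_lit 312) (nat_lit 2280) (nat_lit 0) (XT.nd (nat_lit 156) (nat_lit 760) (nat_lit 0) (XT.nd (nat_lit 78) (nat_lit 836) (nat_lit 0) (XT.lf (nat_lit 0) (nat_lit 79437643) (nat_lit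 836) (nat_lit 706796065) (nat_lit 76) (nat_lit 21751391463) (nat_lit 361) (nat_lit 5) (nat_lit 372) (nat_lit 5) (nat_lit 362) (nat_lit 5) (nat_lit 624) (nat_lit 586) (nat_lit 350)) (XT.lf (nat_lit 0) (nat_lit 2868102054) (nat_lit 912) (nat_lit 10999590493) (nat_lit 76) (nat_lit 8920545350) (nat_lit 350) (nat_lit 5) (nat_lit 362) (nat_lit 5) (nat_lit 351) (nat_lit 5) (nat_lit 625) (nat_lit 586) (nat_lit 349))) (XT.nd (nat_lit 78) (nat_lit 0) (nat_lit 0) (XT.lf (nat_lit 0) (nat_lit 1510238651) (nat_lit 760) (nat_lit 4218162079) (nat_lit 836) (nat_lit 17315145456) (nat_lit 340) (nat_lit 5) (nat_lit 350) (nat_lit 5) (nat_lit 351) (nat_lit 5) (nat_lit 626) (nat_lit 586) (nat_lit 348)) (XT.lf (nat_lit 0) (nat_lit 8752847291) (nat_lit 836) (nat_lit 8924315443) (nat_lit 76) (nat_lit 5624659582) (nat_lit 340) (nat_lit 5) (nat_lit 351) (nat_lit 5) (nat_lit 341) (nat_lit 5) (nat_lit 627) (nat_lit 586) (nat_lit 347)))) (XT.nd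 (nat_lit 156) (nat_lit 1520) (nat_lit 0) (XT.nd (nat_lit 78) (nat_lit 0) (nat_lit 0) (XT.lf (nat_lit 0) (nat_lit 3956704841) (nat_lit 760) (nat_lit 7930901334) (nat_lit 836) (nat_lit 11676661832) (nat_lit 330) (nat_lit 5) (nat_lit 340) (nat_lit 5) (nat_lit 341) (nat_lit 5) (nat_lit 628) (nat_lit 586) (nat_lit 346)) (XT.lf (nat_lit 0) (nat_lit 15154640673) (nat_lit 836) (nat_lit 6632052680) (nat_lit 76) (nat_lit 2043878146) (nat_lit 330) (nat_lit 5) (nat_lit 341) (nat_lit 5) (nat_lit 331) (nat_lit 5) (nat_lit 629) (nat_lit 586) (nat_lit 345))) (XT.nd (nat_lit 78) (nat_lit 836) (nat_lit 0) (XT.lf (nat_lit 0) (nat_lit 6633368731) (nat_lit 684) (nat_lit 11945556389) (nat_lit 760) (nat_lit 5521438243) (nat_lit 321) (nat_lit 5) (nat_lit 330) (nat_lit 5) (nat_lit 331) (nat_lit 5) (nat_lit 630) (nat_lit 586) (nat_lit 344)) (XT.nd (nat_lit 78) (nat_lit 836) (nat_lit 0) (XT.lf (nat_lit 0) (nat_lit 20249950016) (nat_lit 684)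 (nat_lit 1862614214) (nat_lit 760) (nat_lit 2262169931) (nat_lit 321) (nat_lit 5) (nat_lit 330) (nat_lit 5) (nat_lit 331) (nat_lit 5) (nat_lit 631) (nat_lit 586) (nat_lit 343)) (XT.lf (nat_lit 0) (nat_lit 1162224818) (nat_lit 836) (nat_lit 15109164057) (nat_lit 76) (nat_lit 8380788554) (nat_lit 310) (nat_lit 5) (nat_lit 321) (nat_lit 5) (nat_lit 311) (nat_lit 5) (nat_lit 632) (nat_lit 586) (nat_lit 342)))))) (XT.nd (nat_lit 390) (nat_lit 1368) (nat_lit 0) (XT.nd (nat_lit 156) (nat_lit 1292) (nat_lit 0) (XT.nd (nat_lit 78) (nat_lit 684) (nat_lit 0) (XT.lf (nat_lit 0) (nat_lit 4661496482) (nat_lit 836) (nat_lit 1426094916) (nat_lit 76) (nat_lit 18846545966) (nat_lit 310) (nat_lit 5) (nat_lit 321) (nat_lit 5) (nat_lit 311) (nat_lit 5) (nat_lit 633) (nat_lit 586) (nat_lit 341)) (XT.lf (nat_lit 0) (nat_lit 8338148731) (nat_lit 760) (nat_lit 12555489142) (nat_lit 76) (nat_lit 4325951161) (nat_lit 301) (nat_lit 5) (nat_lit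 311) (nat_lit 5) (nat_lit 302) (nat_lit 5) (nat_lit 634) (nat_lit 586) (nat_lit 340))) (XT.nd (nat_lit 78) (nat_lit 608) (nat_lit 0) (XT.lf (nat_lit 0) (nat_lit 1520414744) (nat_lit 684) (nat_lit 10624301106) (nat_lit 760) (nat_lit 13364906684) (nat_lit 292) (nat_lit 5) (nat_lit 301) (nat_lit 5) (nat_lit 302) (nat_lit 5) (nat_lit 635) (nat_lit 586) (nat_lit 339)) (XT.nd (nat_lit 78) (nat_lit 608) (nat_lit 0) (XT.lf (nat_lit 0) (nat_lit 16044037541) (nat_lit 684) (nat_lit 64234092) (nat_lit 760) (nat_lit 9695568347) (nat_lit 292) (nat_lit 5) (nat_lit 301) (nat_lit 5) (nat_lit 302) (nat_lit 5) (nat_lit 636) (nat_lit 586) (nat_lit 338)) (XT.lf (nat_lit 0) (nat_lit 4742900772) (nat_lit 608) (nat_lit 15505175175) (nat_lit 684) (nat_lit 5853926695) (nat_lit 284) (nat_lit 5) (nat_lit 292) (nat_lit 5) (nat_lit 293) (nat_lit 5) (nat_lit 637) (nat_lit 586) (nat_lit 337))))) (XT.nd (nat_lit 156) (nat_lit 608) (nat_lit 0)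 (XT.nd (nat_lit 78) (nat_lit 760) (nat_lit 0) (XT.lf (nat_lit 0) (nat_lit 19663572784) (nat_lit 608) (nat_lit 4869725475) (nat_lit 684) (nat_lit 1871578267) (nat_lit 284) (nat_lit 5) (nat_lit 292) (nat_lit 5) (nat_lit 293) (nat_lit 5) (nat_lit 638) (nat_lit 586) (nat_lit 336)) (XT.lf (nat_lit 0) (nat_lit 2251322168) (nat_lit 760) (nat_lit 18492747007) (nat_lit 76) (nat_lit 5967662015) (nat_lit 274) (nat_lit 5) (nat_lit 284) (nat_lit 5) (nat_lit 275) (nat_lit 5) (nat_lit 639) (nat_lit 586) (nat_lit 335))) (XT.nd (nat_lit 78) (nat_lit 608) (nat_lit 0) (XT.lf (nat_lit 0) (nat_lit 6506213522) (nat_lit 760) (nat_lit 3502855667) (nat_lit 76) (nat_lit 17013914852) (nat_lit 274) (nat_lit 5) (nat_lit 284) (nat_lit 5) (nat_lit 275) (nat_lit 5) (nat_lit 640) (nat_lit 586) (nat_lit 334)) (XT.nd (nat_lit 78) (nat_lit 0) (nat_lit 0) (XT.lf (nat_lit 0) (nat_lit 10927183952) (nat_lit 684) (nat_lit 15406042112) (nat_lit 76) (nat_lit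 1005616636) (nat_lit 266) (nat_lit 5) (nat_lit 275) (nat_lit 5) (nat_lit 267) (nat_lit 5) (nat_lit 641) (nat_lit 586) (nat_lit 333)) (XT.lf (nat_lit 0) (nat_lit 15523398681) (nat_lit 684) (nat_lit 6243710) (nat_lit 76) (nat_lit 12129640012) (nat_lit 266) (nat_lit 5) (nat_lit 275) (nat_lit 5) (nat_lit 267) (nat_lit 5) (nat_lit 642) (nat_lit 586) (nat_lit 332))))))))
noncomputable def xc220 : XT := (XT.nd (nat_lit 78078) (nat_lit 0) (nat_lit 10108) (XT.nd (nat_lit 77298) (nat_lit 0) (nat_lit 16644) (XT.nd (nat_lit 76908) (nat_lit 0) (nat_lit 16492) (XT.nd (nat_lit 156) (nat_lit 76) (nat_lit 0) (XT.nd (nat_lit 78) (nat_lit 532) (nat_lit 0) (XT.lf (nat_lit 0) (nat_lit 15906335202) (nat_lit 608) (nat_lit 4405416187) (nat_lit 684) (nat_lit 7672375600) (nat_lit 258) (nat_lit 5) (nat_lit 266) (nat_lit 5) (nat_lit 267) (nat_lit 5) (nat_lit 643) (nat_lit 586) (nat_lit 331)) (XT.lf (nat_lit 0) (nat_lit 3822993671) (nat_lit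 532) (nat_lit 21439778013) (nat_lit 608) (nat_lit 3051359124) (nat_lit 251) (nat_lit 5) (nat_lit 258) (nat_lit 5) (nat_lit 259) (nat_lit 5) (nat_lit 644) (nat_lit 586) (nat_lit 330))) (XT.nd (nat_lit 76674) (nat_lit 0) (nat_lit 16492) (XT.lf (nat_lit 0) (nat_lit 1748023056) (nat_lit 608) (nat_lit 8487979787) (nat_lit 76) (nat_lit 18412361500) (nat_lit 250) (nat_lit 5) (nat_lit 258) (nat_lit 5) (nat_lit 251) (nat_lit 5) (nat_lit 645) (nat_lit 586) (nat_lit 329)) (XT.lf (nat_lit 0) (nat_lit 1489836526) (nat_lit 0) (nat_lit 1489836526) (nat_lit 1748) (nat_lit 4775080598) (nat_lit 467) (nat_lit 5) (nat_lit 467) (nat_lit 3) (nat_lit 490) (nat_lit 3) (nat_lit 587) (nat_lit 587) (nat_lit 386)))) (XT.nd (nat_lit 156) (nat_lit 0) (nat_lit 76) (XT.nd (nat_lit 78) (nat_lit 0) (nat_lit 0) (XT.lf (nat_lit 0) (nat_lit 6324989146) (nat_lit 1748) (nat_lit 4956712961) (nat_lit 1824) (nat_lit 4376735845) (nat_lit 467) (nat_lit 5)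 (nat_lit 490) (nat_lit 3) (nat_lit 491) (nat_lit 5) (nat_lit 588) (nat_lit 587) (nat_lit 385)) (XT.lf (nat_lit 76) (nat_lit 2780802087) (nat_lit 0) (nat_lit 3947681810) (nat_lit 1824) (nat_lit 9081253679) (nat_lit 468) (nat_lit 5) (nat_lit 467) (nat_lit 5) (nat_lit 491) (nat_lit 5) (nat_lit 589) (nat_lit 587) (nat_lit 384))) (XT.nd (nat_lit 78) (nat_lit 0) (nat_lit 0) (XT.lf (nat_lit 0) (nat_lit 7189360116) (nat_lit 1748) (nat_lit 5250246849) (nat_lit 1824) (nat_lit 3523471115) (nat_lit 468) (nat_lit 5) (nat_lit 491) (nat_lit 5) (nat_lit 492) (nat_lit 5) (nat_lit 590) (nat_lit 587) (nat_lit 383)) (XT.nd (nat_lit 78) (nat_lit 0) (nat_lit 76) (XT.lf (nat_lit 76) (nat_lit 2689272760) (nat_lit 0) (nat_lit 5006815068) (nat_lit 1824) (nat_lit 8422665981) (nat_lit 469) (nat_lit 5) (nat_lit 468) (nat_lit 5) (nat_lit 492) (nat_lit 5) (nat_lit 591) (nat_lit 587) (nat_lit 382)) (XT.lf (nat_lit 0) (nat_lit 8258292687) (nat_lit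 1748) (nat_lit 5439038589) (nat_lit 1824) (nat_lit 2579305998) (nat_lit 469) (nat_lit 5) (nat_lit 492) (nat_lit 5) (nat_lit 493) (nat_lit 5) (nat_lit 592) (nat_lit 587) (nat_lit 381)))))) (XT.nd (nat_lit 390) (nat_lit 0) (nat_lit 152) (XT.nd (nat_lit 156) (nat_lit 0) (nat_lit 76) (XT.nd (nat_lit 78) (nat_lit 0) (nat_lit 76) (XT.lf (nat_lit 76) (nat_lit 2709669405) (nat_lit 0) (nat_lit 6166118143) (nat_lit 1824) (nat_lit 7561010996) (nat_lit 470) (nat_lit 5) (nat_lit 469) (nat_lit 5) (nat_lit 493) (nat_lit 5) (nat_lit 593) (nat_lit 587) (nat_lit 380)) (XT.lf (nat_lit 0) (nat_lit 9545632803) (nat_lit 1748) (nat_lit 5518484801) (nat_lit 1824) (nat_lit 1535246456) (nat_lit 470) (nat_lit 5) (nat_lit 493) (nat_lit 5) (nat_lit 494) (nat_lit 5) (nat_lit 594) (nat_lit 587) (nat_lit 379))) (XT.nd (nat_lit 78) (nat_lit 0) (nat_lit 76) (XT.lf (nat_lit 76) (nat_lit 2846865605) (nat_lit 0) (nat_lit 7434876275) (nat_lit 1824)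 (nat_lit 6482382680) (nat_lit 471) (nat_lit 5) (nat_lit 470) (nat_lit 5) (nat_lit 494) (nat_lit 5) (nat_lit 595) (nat_lit 587) (nat_lit 378)) (XT.nd (nat_lit 78) (nat_lit 0) (nat_lit 0) (XT.lf (nat_lit 0) (nat_lit 11065767457) (nat_lit 1748) (nat_lit 5483696268) (nat_lit 1824) (nat_lit 382053651) (nat_lit 471) (nat_lit 5) (nat_lit 494) (nat_lit 5) (nat_lit 495) (nat_lit 5) (nat_lit 596) (nat_lit 587) (nat_lit 377)) (XT.lf (nat_lit 76) (nat_lit 3106030052) (nat_lit 0) (nat_lit 8822636223) (nat_lit 1824) (nat_lit 5172328889) (nat_lit 472) (nat_lit 5) (nat_lit 471) (nat_lit 5) (nat_lit 495) (nat_lit 5) (nat_lit 597) (nat_lit 587) (nat_lit 376))))) (XT.nd (nat_lit 156) (nat_lit 0) (nat_lit 76) (XT.nd (nat_lit 78) (nat_lit 0) (nat_lit 76) (XT.lf (nat_lit 76) (nat_lit 11937904030) (nat_lit 0) (nat_lit 901602212) (nat_lit 1824) (nat_lit 4433743558) (nat_lit 472) (nat_lit 5) (nat_lit 471) (nat_lit 5) (nat_lit 495) (nat_lit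 5) (nat_lit 598) (nat_lit 587) (nat_lit 375)) (XT.lf (nat_lit 76) (nat_lit 3492632872) (nat_lit 0) (nat_lit 10339228189) (nat_lit 1824) (nat_lit 3615823440) (nat_lit 473) (nat_lit 5) (nat_lit 472) (nat_lit 5) (nat_lit 496) (nat_lit 5) (nat_lit 599) (nat_lit 587) (nat_lit 374))) (XT.nd (nat_lit 78) (nat_lit 0) (nat_lit 76) (XT.lf (nat_lit 76) (nat_lit 12559433215) (nat_lit 0) (nat_lit 2320473772) (nat_lit 1824) (nat_lit 2744984944) (nat_lit 473) (nat_lit 5) (nat_lit 472) (nat_lit 5) (nat_lit 496) (nat_lit 5) (nat_lit 600) (nat_lit 587) (nat_lit 373)) (XT.nd (nat_lit 78) (nat_lit 0) (nat_lit 0) (XT.lf (nat_lit 76) (nat_lit 4012452396) (nat_lit 0) (nat_lit 11994788134) (nat_lit 1824) (nat_lit 1797237346) (nat_lit 474) (nat_lit 5) (nat_lit 473) (nat_lit 5) (nat_lit 497) (nat_lit 5) (nat_lit 601) (nat_lit 587) (nat_lit 372)) (XT.lf (nat_lit 76) (nat_lit 13320981050) (nat_lit 0) (nat_lit 3879721595) (nat_lit 1824) (nat_lit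 786082136) (nat_lit 474) (nat_lit 5) (nat_lit 473) (nat_lit 5) (nat_lit 497) (nat_lit 5) (nat_lit 602) (nat_lit 587) (nat_lit 371))))))) (XT.nd (nat_lit 702) (nat_lit 5092) (nat_lit 0) (XT.nd (nat_lit 312) (nat_lit 0) (nat_lit 152) (XT.nd (nat_lit 156) (nat_lit 0) (nat_lit 76) (XT.nd (nat_lit 78) (nat_lit 0) (nat_lit 0) (XT.lf (nat_lit 0) (nat_lit 295760337) (nat_lit 1824) (nat_lit 13502035501) (nat_lit 1900) (nat_lit 4373837356) (nat_lit 450) (nat_lit 5) (nat_lit 474) (nat_lit 5) (nat_lit 475) (nat_lit 5) (nat_lit 603) (nat_lit 587) (nat_lit 370)) (XT.lf (nat_lit 0) (nat_lit 1440425771) (nat_lit 1824) (nat_lit 4139829226) (nat_lit 1900) (nat_lit 12778786252) (nat_lit 450) (nat_lit 5) (nat_lit 474) (nat_lit 5) (nat_lit 475) (nat_lit 5) (nat_lit 604) (nat_lit 587) (nat_lit 369))) (XT.nd (nat_lit 78) (nat_lit 0) (nat_lit 0) (XT.lf (nat_lit 0) (nat_lit 2656581010) (nat_lit 1824) (nat_lit 13090613619) (nat_lit 1900)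 (nat_lit 2802031719) (nat_lit 451) (nat_lit 5) (nat_lit 475) (nat_lit 5) (nat_lit 476) (nat_lit 5) (nat_lit 605) (nat_lit 587) (nat_lit 368)) (XT.lf (nat_lit 0) (nat_lit 3956666455) (nat_lit 1824) (nat_lit 3478790576) (nat_lit 1900) (nat_lit 11306566775) (nat_lit 451) (nat_lit 5) (nat_lit 475) (nat_lit 5) (nat_lit 476) (nat_lit 5) (nat_lit 606) (nat_lit 587) (nat_lit 367)))) (XT.nd (nat_lit 156) (nat_lit 0) (nat_lit 0) (XT.nd (nat_lit 78) (nat_lit 0) (nat_lit 0) (XT.lf (nat_lit 0) (nat_lit 5326183729) (nat_lit 1824) (nat_lit 12539778176) (nat_lit 1900) (nat_lit 1071847488) (nat_lit 452) (nat_lit 5) (nat_lit 476) (nat_lit 5) (nat_lit 477) (nat_lit 5) (nat_lit 607) (nat_lit 587) (nat_lit 366)) (XT.lf (nat_lit 0) (nat_lit 6790706627) (nat_lit 1824) (nat_lit 2671029144) (nat_lit 1900) (nat_lit 9674423382) (nat_lit 452) (nat_lit 5) (nat_lit 476) (nat_lit 5) (nat_lit 477) (nat_lit 5) (nat_lit 608) (nat_lit 587) (nat_lit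 365))) (XT.nd (nat_lit 78) (nat_lit 0) (nat_lit 76) (XT.lf (nat_lit 76) (nat_lit 7489264312) (nat_lit 0) (nat_lit 838856162) (nat_lit 1900) (nat_lit 11009484174) (nat_lit 453) (nat_lit 5) (nat_lit 452) (nat_lit 5) (nat_lit 477) (nat_lit 5) (nat_lit 609) (nat_lit 587) (nat_lit 364)) (XT.nd (nat_lit 78) (nat_lit 0) (nat_lit 0) (XT.lf (nat_lit 0) (nat_lit 9961037677) (nat_lit 1824) (nat_lit 1709660616) (nat_lit 1900) (nat_lit 7871086398) (nat_lit 453) (nat_lit 5) (nat_lit 477) (nat_lit 5) (nat_lit 478) (nat_lit 5) (nat_lit 610) (nat_lit 587) (nat_lit 363)) (XT.lf (nat_lit 76) (nat_lit 8736769974) (nat_lit 0) (nat_lit 2947274090) (nat_lit 1900) (nat_lit 8064856374) (nat_lit 454) (nat_lit 5) (nat_lit 453) (nat_lit 5) (nat_lit 478) (nat_lit 5) (nat_lit 611) (nat_lit 587) (nat_lit 362)))))) (XT.nd (nat_lit 390) (nat_lit 1748) (nat_lit 0) (XT.nd (nat_lit 156) (nat_lit 1976) (nat_lit 0) (XT.nd (nat_lit 78) (nat_lit 1672)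 (nat_lit 0) (XT.lf (nat_lit 0) (nat_lit 13486919100) (nat_lit 1824) (nat_lit 587462572) (nat_lit 76) (nat_lit 5884869367) (nat_lit 454) (nat_lit 5) (nat_lit 478) (nat_lit 5) (nat_lit 455) (nat_lit 5) (nat_lit 612) (nat_lit 587) (nat_lit 361)) (XT.lf (nat_lit 0) (nat_lit 10155323851) (nat_lit 1672) (nat_lit 5251299347) (nat_lit 1748) (nat_lit 4765570716) (nat_lit 432) (nat_lit 5) (nat_lit 454) (nat_lit 5) (nat_lit 455) (nat_lit 5) (nat_lit 613) (nat_lit 587) (nat_lit 360))) (XT.nd (nat_lit 78) (nat_lit 988) (nat_lit 0) (XT.lf (nat_lit 0) (nat_lit 712478875) (nat_lit 988) (nat_lit 16680560453) (nat_lit 1064) (nat_lit 2995790641) (nat_lit 419) (nat_lit 5) (nat_lit 432) (nat_lit 5) (nat_lit 433) (nat_lit 5) (nat_lit 614) (nat_lit 587) (nat_lit 359)) (XT.nd (nat_lit 78) (nat_lit 988) (nat_lit 0) (XT.lf (nat_lit 0) (nat_lit 11752868575) (nat_lit 988) (nat_lit 7763533273) (nat_lit 1064) (nat_lit 1091453204) (nat_lit 419)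 (nat_lit 5) (nat_lit 432) (nat_lit 5) (nat_lit 433) (nat_lit 5) (nat_lit 615) (nat_lit 587) (nat_lit 358)) (XT.lf (nat_lit 0) (nat_lit 858399530) (nat_lit 988) (nat_lit 18637643256) (nat_lit 76) (nat_lit 1334736207) (nat_lit 406) (nat_lit 5) (nat_lit 419) (nat_lit 5) (nat_lit 407) (nat_lit 5) (nat_lit 616) (nat_lit 587) (nat_lit 357))))) (XT.nd (nat_lit 156) (nat_lit 836) (nat_lit 0) (XT.nd (nat_lit 78) (nat_lit 912) (nat_lit 0) (XT.lf (nat_lit 0) (nat_lit 2939452563) (nat_lit 988) (nat_lit 7537890327) (nat_lit 76) (nat_lit 10578538506) (nat_lit 406) (nat_lit 5) (nat_lit 419) (nat_lit 5) (nat_lit 407) (nat_lit 5) (nat_lit 617) (nat_lit 587) (nat_lit 356)) (XT.lf (nat_lit 0) (nat_lit 3830036731) (nat_lit 912) (nat_lit 1252618702) (nat_lit 988) (nat_lit 16202420453) (nat_lit 394) (nat_lit 5) (nat_lit 406) (nat_lit 5) (nat_lit 407) (nat_lit 5) (nat_lit 618) (nat_lit 587) (nat_lit 355))) (XT.nd (nat_lit 78) (nat_lit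 836) (nat_lit 0) (XT.lf (nat_lit 0) (nat_lit 7368320831) (nat_lit 988) (nat_lit 6047748959) (nat_lit 76) (nat_lit 8100793112) (nat_lit 394) (nat_lit 5) (nat_lit 407) (nat_lit 5) (nat_lit 395) (nat_lit 5) (nat_lit 619) (nat_lit 587) (nat_lit 354)) (XT.nd (nat_lit 78) (nat_lit 0) (nat_lit 0) (XT.lf (nat_lit 0) (nat_lit 5649452066) (nat_lit 836) (nat_lit 4091029038) (nat_lit 912) (nat_lit 12011989515) (nat_lit 383) (nat_lit 5) (nat_lit 394) (nat_lit 5) (nat_lit 395) (nat_lit 5) (nat_lit 620) (nat_lit 587) (nat_lit 353)) (XT.lf (nat_lit 0) (nat_lit 12231993654) (nat_lit 912) (nat_lit 4368955927) (nat_lit 76) (nat_lit 5390403311) (nat_lit 383) (nat_lit 5) (nat_lit 395) (nat_lit 5) (nat_lit 384) (nat_lit 5) (nat_lit 621) (nat_lit 587) (nat_lit 352))))))))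
noncomputable def xc221 : XT := (XT.nd (nat_lit 1482) (nat_lit 1748) (nat_lit 0) (XT.nd (nat_lit 702) (nat_lit 4256) (nat_lit 0) (XT.nd (nat_lit 312) (nat_lit 2356) (nat_lit 0) (XT.nd (nat_lit 156) (nat_lit 836) (nat_lit 0) (XT.nd (nat_lit 78) (nat_lit 0) (nat_lit 0) (XT.lf (nat_lit 0) (nat_lit 7669268369) (nat_lit 836) (nat_lit 7176899245) (nat_lit 912) (nat_lit 7387389141) (nat_lit 372) (nat_lit 5) (nat_lit 383) (nat_lit 5) (nat_lit 384) (nat_lit 5) (nat_lit 622) (nat_lit 587) (nat_lit 351)) (XT.lf (nat_lit 0) (nat_lit 17553948997) (nat_lit 912) (nat_lit 2492611576) (nat_lit 76) (nat_lit 2433218203) (nat_lit 372) (nat_lit 5) (nat_lit 384) (nat_lit 5) (nat_lit 373) (nat_lit 5) (nat_lit 623) (nat_lit 587) (nat_lit 350))) (XT.nd (nat_lit 78) (nat_lit 76) (nat_lit 0) (XT.lf (nat_lit 0) (nat_lit 9898809160) (nat_lit 760) (nat_lit 10524952134) (nat_lit 836) (nat_lit 2305006984) (nat_lit 362) (nat_lit 5) (nat_lit 372)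 (nat_lit 5) (nat_lit 373) (nat_lit 5) (nat_lit 624) (nat_lit 587) (nat_lit 349)) (XT.lf (nat_lit 0) (nat_lit 376341915) (nat_lit 836) (nat_lit 417069554) (nat_lit 76) (nat_lit 22189020030) (nat_lit 361) (nat_lit 5) (nat_lit 372) (nat_lit 5) (nat_lit 362) (nat_lit 5) (nat_lit 625) (nat_lit 587) (nat_lit 348)))) (XT.nd (nat_lit 156) (nat_lit 760) (nat_lit 0) (XT.nd (nat_lit 78) (nat_lit 760) (nat_lit 0) (XT.lf (nat_lit 0) (nat_lit 3217016395) (nat_lit 912) (nat_lit 10911917567) (nat_lit 76) (nat_lit 9109198564) (nat_lit 350) (nat_lit 5) (nat_lit 362) (nat_lit 5) (nat_lit 351) (nat_lit 5) (nat_lit 626) (nat_lit 587) (nat_lit 347)) (XT.lf (nat_lit 0) (nat_lit 1846084049) (nat_lit 760) (nat_lit 4284704704) (nat_lit 836) (nat_lit 17367833638) (nat_lit 340) (nat_lit 5) (nat_lit 350) (nat_lit 5) (nat_lit 351) (nat_lit 5) (nat_lit 627) (nat_lit 587) (nat_lit 346))) (XT.nd (nat_lit 78) (nat_lit 760) (nat_lit 0) (XT.lf (nat_lit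 0) (nat_lit 9210194151) (nat_lit 836) (nat_lit 8797586419) (nat_lit 76) (nat_lit 5754394829) (nat_lit 340) (nat_lit 5) (nat_lit 351) (nat_lit 5) (nat_lit 341) (nat_lit 5) (nat_lit 628) (nat_lit 587) (nat_lit 345)) (XT.nd (nat_lit 78) (nat_lit 0) (nat_lit 0) (XT.lf (nat_lit 0) (nat_lit 4339046276) (nat_lit 760) (nat_lit 8065035464) (nat_lit 836) (nat_lit 11625860330) (nat_lit 330) (nat_lit 5) (nat_lit 340) (nat_lit 5) (nat_lit 341) (nat_lit 5) (nat_lit 629) (nat_lit 587) (nat_lit 344)) (XT.lf (nat_lit 0) (nat_lit 15731147611) (nat_lit 836) (nat_lit 6462086214) (nat_lit 76) (nat_lit 2108444715) (nat_lit 330) (nat_lit 5) (nat_lit 341) (nat_lit 5) (nat_lit 331) (nat_lit 5) (nat_lit 630) (nat_lit 587) (nat_lit 343)))))) (XT.nd (nat_lit 390) (nat_lit 2052) (nat_lit 0) (XT.nd (nat_lit 156) (nat_lit 1520) (nat_lit 0) (XT.nd (nat_lit 78) (nat_lit 0) (nat_lit 0) (XT.lf (nat_lit 0) (nat_lit 7066652787) (nat_lit 684) (nat_lit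 12153855702) (nat_lit 760) (nat_lit 5356426645) (nat_lit 321) (nat_lit 5) (nat_lit 330) (nat_lit 5) (nat_lit 331) (nat_lit 5) (nat_lit 631) (nat_lit 587) (nat_lit 342)) (XT.lf (nat_lit 0) (nat_lit 20949671252) (nat_lit 684) (nat_lit 1869854915) (nat_lit 760) (nat_lit 2037373758) (nat_lit 321) (nat_lit 5) (nat_lit 330) (nat_lit 5) (nat_lit 331) (nat_lit 5) (nat_lit 632) (nat_lit 587) (nat_lit 341))) (XT.nd (nat_lit 78) (nat_lit 684) (nat_lit 0) (XT.lf (nat_lit 0) (nat_lit 1448880983) (nat_lit 836) (nat_lit 15109929818) (nat_lit 76) (nat_lit 8581108585) (nat_lit 310) (nat_lit 5) (nat_lit 321) (nat_lit 5) (nat_lit 311) (nat_lit 5) (nat_lit 633) (nat_lit 587) (nat_lit 340)) (XT.nd (nat_lit 78) (nat_lit 684) (nat_lit 0) (XT.lf (nat_lit 0) (nat_lit 5012973146) (nat_lit 836) (nat_lit 1159109441) (nat_lit 76) (nat_lit 19255539886) (nat_lit 310) (nat_lit 5) (nat_lit 321) (nat_lit 5) (nat_lit 311) (nat_lit 5) (nat_lit 634)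 (nat_lit 587) (nat_lit 339)) (XT.lf (nat_lit 0) (nat_lit 8760250586) (nat_lit 760) (nat_lit 12508151636) (nat_lit 76) (nat_lit 4450439754) (nat_lit 301) (nat_lit 5) (nat_lit 311) (nat_lit 5) (nat_lit 302) (nat_lit 5) (nat_lit 635) (nat_lit 587) (nat_lit 338))))) (XT.nd (nat_lit 156) (nat_lit 1368) (nat_lit 0) (XT.nd (nat_lit 78) (nat_lit 0) (nat_lit 0) (XT.lf (nat_lit 0) (nat_lit 1847306859) (nat_lit 684) (nat_lit 10792560513) (nat_lit 760) (nat_lit 13374871035) (nat_lit 292) (nat_lit 5) (nat_lit 301) (nat_lit 5) (nat_lit 302) (nat_lit 5) (nat_lit 636) (nat_lit 587) (nat_lit 337)) (XT.lf (nat_lit 0) (nat_lit 16655588704) (nat_lit 684) (nat_lit 22159346) (nat_lit 760) (nat_lit 9637191692) (nat_lit 292) (nat_lit 5) (nat_lit 301) (nat_lit 5) (nat_lit 302) (nat_lit 5) (nat_lit 637) (nat_lit 587) (nat_lit 336))) (XT.nd (nat_lit 78) (nat_lit 760) (nat_lit 0) (XT.lf (nat_lit 0) (nat_lit 5131181521) (nat_lit 608) (nat_lit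 15766498788) (nat_lit 684) (nat_lit 5721439315) (nat_lit 284) (nat_lit 5) (nat_lit 292) (nat_lit 5) (nat_lit 293) (nat_lit 5) (nat_lit 638) (nat_lit 587) (nat_lit 335)) (XT.nd (nat_lit 78) (nat_lit 760) (nat_lit 0) (XT.lf (nat_lit 0) (nat_lit 20344513587) (nat_lit 608) (nat_lit 4919296562) (nat_lit 684) (nat_lit 1664337368) (nat_lit 284) (nat_lit 5) (nat_lit 292) (nat_lit 5) (nat_lit 293) (nat_lit 5) (nat_lit 639) (nat_lit 587) (nat_lit 334)) (XT.lf (nat_lit 0) (nat_lit 2535281063) (nat_lit 760) (nat_lit 18569135077) (nat_lit 76) (nat_lit 6136742554) (nat_lit 274) (nat_lit 5) (nat_lit 284) (nat_lit 5) (nat_lit 275) (nat_lit 5) (nat_lit 640) (nat_lit 587) (nat_lit 333))))))) (XT.nd (nat_lit 77376) (nat_lit 0) (nat_lit 16492) (XT.nd (nat_lit 312) (nat_lit 532) (nat_lit 0) (XT.nd (nat_lit 156) (nat_lit 608) (nat_lit 0) (XT.nd (nat_lit 78) (nat_lit 608) (nat_lit 0) (XT.lf (nat_lit 0) (nat_lit 6870585294) (nat_lit 760)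 (nat_lit 3285200163) (nat_lit 76) (nat_lit 17402945402) (nat_lit 274) (nat_lit 5) (nat_lit 284) (nat_lit 5) (nat_lit 275) (nat_lit 5) (nat_lit 641) (nat_lit 587) (nat_lit 332)) (XT.lf (nat_lit 0) (nat_lit 11377590391) (nat_lit 684) (nat_lit 15424038230) (nat_lit 76) (nat_lit 1079326314) (nat_lit 266) (nat_lit 5) (nat_lit 275) (nat_lit 5) (nat_lit 267) (nat_lit 5) (nat_lit 642) (nat_lit 587) (nat_lit 331))) (XT.nd (nat_lit 78) (nat_lit 0) (nat_lit 0) (XT.lf (nat_lit 0) (nat_lit 281762789) (nat_lit 608) (nat_lit 15781249687) (nat_lit 684) (nat_lit 12144845831) (nat_lit 258) (nat_lit 5) (nat_lit 266) (nat_lit 5) (nat_lit 267) (nat_lit 5) (nat_lit 643) (nat_lit 587) (nat_lit 330)) (XT.lf (nat_lit 0) (nat_lit 16507026621) (nat_lit 608) (nat_lit 4435653639) (nat_lit 684) (nat_lit 7596609090) (nat_lit 258) (nat_lit 5) (nat_lit 266) (nat_lit 5) (nat_lit 267) (nat_lit 5) (nat_lit 644) (nat_lit 587) (nat_lit 329)))) (XT.nd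 (nat_lit 76830) (nat_lit 0) (nat_lit 16416) (XT.nd (nat_lit 76752) (nat_lit 0) (nat_lit 16416) (XT.lf (nat_lit 0) (nat_lit 4184276458) (nat_lit 532) (nat_lit 21806256369) (nat_lit 608) (nat_lit 2885404696) (nat_lit 251) (nat_lit 5) (nat_lit 258) (nat_lit 5) (nat_lit 259) (nat_lit 5) (nat_lit 645) (nat_lit 587) (nat_lit 328)) (XT.lf (nat_lit 0) (nat_lit 1657360827) (nat_lit 0) (nat_lit 1657360827) (nat_lit 1748) (nat_lit 4589574818) (nat_lit 467) (nat_lit 5) (nat_lit 467) (nat_lit 3) (nat_lit 490) (nat_lit 3) (nat_lit 588) (nat_lit 588) (nat_lit 384))) (XT.nd (nat_lit 78) (nat_lit 0) (nat_lit 0) (XT.lf (nat_lit 0) (nat_lit 6989843678) (nat_lit 1748) (nat_lit 4773153022) (nat_lit 1824) (nat_lit 4197758310) (nat_lit 467) (nat_lit 5) (nat_lit 490) (nat_lit 3) (nat_lit 491) (nat_lit 5) (nat_lit 589) (nat_lit 588) (nat_lit 383)) (XT.nd (nat_lit 78) (nat_lit 0) (nat_lit 76) (XT.lf (nat_lit 76) (nat_lit 3117252497) (nat_lit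 0) (nat_lit 4275423215) (nat_lit 1824) (nat_lit 8722581227) (nat_lit 468) (nat_lit 5) (nat_lit 467) (nat_lit 5) (nat_lit 491) (nat_lit 5) (nat_lit 590) (nat_lit 588) (nat_lit 382)) (XT.lf (nat_lit 0) (nat_lit 7850801084) (nat_lit 1748) (nat_lit 5067874283) (nat_lit 1824) (nat_lit 3353229879) (nat_lit 468) (nat_lit 5) (nat_lit 491) (nat_lit 5) (nat_lit 492) (nat_lit 5) (nat_lit 591) (nat_lit 588) (nat_lit 381)))))) (XT.nd (nat_lit 390) (nat_lit 0) (nat_lit 228) (XT.nd (nat_lit 156) (nat_lit 0) (nat_lit 76) (XT.nd (nat_lit 78) (nat_lit 0) (nat_lit 76) (XT.lf (nat_lit 76) (nat_lit 3028545077) (nat_lit 0) (nat_lit 5330821770) (nat_lit 1824) (nat_lit 8071495167) (nat_lit 469) (nat_lit 5) (nat_lit 468) (nat_lit 5) (nat_lit 492) (nat_lit 5) (nat_lit 592) (nat_lit 588) (nat_lit 380)) (XT.lf (nat_lit 0) (nat_lit 8921403391) (nat_lit 1748) (nat_lit 5256439706) (nat_lit 1824) (nat_lit 2414289863) (nat_lit 469) (nat_lit 5)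 (nat_lit 492) (nat_lit 5) (nat_lit 493) (nat_lit 5) (nat_lit 593) (nat_lit 588) (nat_lit 379))) (XT.nd (nat_lit 78) (nat_lit 0) (nat_lit 76) (XT.lf (nat_lit 76) (nat_lit 3053325477) (nat_lit 0) (nat_lit 6490038431) (nat_lit 1824) (nat_lit 7212292764) (nat_lit 470) (nat_lit 5) (nat_lit 469) (nat_lit 5) (nat_lit 493) (nat_lit 5) (nat_lit 594) (nat_lit 588) (nat_lit 378)) (XT.nd (nat_lit 78) (nat_lit 0) (nat_lit 0) (XT.lf (nat_lit 0) (nat_lit 10215720160) (nat_lit 1748) (nat_lit 5334106515) (nat_lit 1824) (nat_lit 1371866045) (nat_lit 470) (nat_lit 5) (nat_lit 493) (nat_lit 5) (nat_lit 494) (nat_lit 5) (nat_lit 595) (nat_lit 588) (nat_lit 377)) (XT.lf (nat_lit 76) (nat_lit 3196611767) (nat_lit 0) (nat_lit 7762445178) (nat_lit 1824) (nat_lit 6130842848) (nat_lit 471) (nat_lit 5) (nat_lit 470) (nat_lit 5) (nat_lit 494) (nat_lit 5) (nat_lit 596) (nat_lit 588) (nat_lit 376))))) (XT.nd (nat_lit 156) (nat_lit 0) (nat_lit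 0) (XT.nd (nat_lit 78) (nat_lit 0) (nat_lit 0) (XT.lf (nat_lit 0) (nat_lit 11748375821) (nat_lit 1748) (nat_lit 5295843271) (nat_lit 1824) (nat_lit 216630560) (nat_lit 471) (nat_lit 5) (nat_lit 494) (nat_lit 5) (nat_lit 495) (nat_lit 5) (nat_lit 597) (nat_lit 588) (nat_lit 375)) (XT.lf (nat_lit 76) (nat_lit 3463720162) (nat_lit 0) (nat_lit 9157686527) (nat_lit 1824) (nat_lit 4812454243) (nat_lit 472) (nat_lit 5) (nat_lit 471) (nat_lit 5) (nat_lit 495) (nat_lit 5) (nat_lit 598) (nat_lit 588) (nat_lit 374))) (XT.nd (nat_lit 78) (nat_lit 0) (nat_lit 76) (XT.lf (nat_lit 76) (nat_lit 12466436138) (nat_lit 0) (nat_lit 1075122079) (nat_lit 1824) (nat_lit 4068181935) (nat_lit 472) (nat_lit 5) (nat_lit 471) (nat_lit 5) (nat_lit 495) (nat_lit 5) (nat_lit 599) (nat_lit 588) (nat_lit 373)) (XT.nd (nat_lit 78) (nat_lit 0) (nat_lit 0) (XT.lf (nat_lit 76) (nat_lit 3860271637) (nat_lit 0) (nat_lit 10685701560) (nat_lit 1824) (nat_lit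 3241847450) (nat_lit 473) (nat_lit 5) (nat_lit 472) (nat_lit 5) (nat_lit 496) (nat_lit 5) (nat_lit 600) (nat_lit 588) (nat_lit 372)) (XT.lf (nat_lit 76) (nat_lit 13102569044) (nat_lit 0) (nat_lit 2503833059) (nat_lit 1824) (nat_lit 2362343016) (nat_lit 473) (nat_lit 5) (nat_lit 472) (nat_lit 5) (nat_lit 496) (nat_lit 5) (nat_lit 601) (nat_lit 588) (nat_lit 371))))))))
noncomputable def xc222 : XT := (XT.nd (nat_lit 1482) (nat_lit 8360) (nat_lit 0) (XT.nd (nat_lit 702) (nat_lit 4256) (nat_lit 0) (XT.nd (nat_lit 312) (nat_lit 0) (nat_lit 76) (XT.nd (nat_lit 156) (nat_lit 1748) (nat_lit 0) (XT.nd (nat_lit 78) (nat_lit 0) (nat_lit 0) (XT.lf (nat_lit 76) (nat_lit 4392199001) (nat_lit 0) (nat_lit 12356746374) (nat_lit 1824) (nat_lit 1403125455) (nat_lit 474) (nat_lit 5) (nat_lit 473) (nat_lit 5) (nat_lit 497) (nat_lit 5) (nat_lit 602) (nat_lit 588) (nat_lit 370)) (XT.lf (nat_lit 76) (nat_lit 13881025727) (nat_lit 0)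 (nat_lit 4076985122) (nat_lit 1824) (nat_lit 380179624) (nat_lit 474) (nat_lit 5) (nat_lit 473) (nat_lit 5) (nat_lit 497) (nat_lit 5) (nat_lit 603) (nat_lit 588) (nat_lit 369))) (XT.nd (nat_lit 78) (nat_lit 0) (nat_lit 0) (XT.lf (nat_lit 0) (nat_lit 710810062) (nat_lit 1824) (nat_lit 13465837025) (nat_lit 1900) (nat_lit 4350174449) (nat_lit 450) (nat_lit 5) (nat_lit 474) (nat_lit 5) (nat_lit 475) (nat_lit 5) (nat_lit 604) (nat_lit 588) (nat_lit 368)) (XT.lf (nat_lit 0) (nat_lit 1870346560) (nat_lit 1824) (nat_lit 3922391314) (nat_lit 1900) (nat_lit 12925401532) (nat_lit 450) (nat_lit 5) (nat_lit 474) (nat_lit 5) (nat_lit 475) (nat_lit 5) (nat_lit 605) (nat_lit 588) (nat_lit 367)))) (XT.nd (nat_lit 156) (nat_lit 0) (nat_lit 76) (XT.nd (nat_lit 78) (nat_lit 0) (nat_lit 0) (XT.lf (nat_lit 0) (nat_lit 3104267156) (nat_lit 1824) (nat_lit 13045574410) (nat_lit 1900) (nat_lit 2762418982) (nat_lit 451) (nat_lit 5) (nat_lit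 475) (nat_lit 5) (nat_lit 476) (nat_lit 5) (nat_lit 606) (nat_lit 588) (nat_lit 366)) (XT.lf (nat_lit 0) (nat_lit 4422617947) (nat_lit 1824) (nat_lit 3247531601) (nat_lit 1900) (nat_lit 11438920296) (nat_lit 451) (nat_lit 5) (nat_lit 475) (nat_lit 5) (nat_lit 476) (nat_lit 5) (nat_lit 607) (nat_lit 588) (nat_lit 365))) (XT.nd (nat_lit 78) (nat_lit 0) (nat_lit 0) (XT.lf (nat_lit 0) (nat_lit 5813346800) (nat_lit 1824) (nat_lit 12483503250) (nat_lit 1900) (nat_lit 1012045805) (nat_lit 452) (nat_lit 5) (nat_lit 476) (nat_lit 5) (nat_lit 477) (nat_lit 5) (nat_lit 608) (nat_lit 588) (nat_lit 364)) (XT.nd (nat_lit 78) (nat_lit 0) (nat_lit 0) (XT.lf (nat_lit 0) (nat_lit 7299696638) (nat_lit 1824) (nat_lit 2423400227) (nat_lit 1900) (nat_lit 9788266131) (nat_lit 452) (nat_lit 5) (nat_lit 476) (nat_lit 5) (nat_lit 477) (nat_lit 5) (nat_lit 609) (nat_lit 588) (nat_lit 363)) (XT.lf (nat_lit 76) (nat_lit 7938118510) (nat_lit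 0) (nat_lit 924364833) (nat_lit 1900) (nat_lit 10854462663) (nat_lit 453) (nat_lit 5) (nat_lit 452) (nat_lit 5) (nat_lit 477) (nat_lit 5) (nat_lit 610) (nat_lit 588) (nat_lit 362)))))) (XT.nd (nat_lit 390) (nat_lit 1900) (nat_lit 0) (XT.nd (nat_lit 156) (nat_lit 2584) (nat_lit 0) (XT.nd (nat_lit 78) (nat_lit 0) (nat_lit 0) (XT.lf (nat_lit 0) (nat_lit 10520409614) (nat_lit 1824) (nat_lit 1442946086) (nat_lit 1900) (nat_lit 7962008007) (nat_lit 453) (nat_lit 5) (nat_lit 477) (nat_lit 5) (nat_lit 478) (nat_lit 5) (nat_lit 611) (nat_lit 588) (nat_lit 361)) (XT.lf (nat_lit 76) (nat_lit 9210433460) (nat_lit 0) (nat_lit 3062321721) (nat_lit 1900) (nat_lit 7863970060) (nat_lit 454) (nat_lit 5) (nat_lit 453) (nat_lit 5) (nat_lit 478) (nat_lit 5) (nat_lit 612) (nat_lit 588) (nat_lit 360))) (XT.nd (nat_lit 78) (nat_lit 2660) (nat_lit 0) (XT.lf (nat_lit 0) (nat_lit 14104369230) (nat_lit 1824) (nat_lit 298775014) (nat_lit 76)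 (nat_lit 5948286010) (nat_lit 454) (nat_lit 5) (nat_lit 478) (nat_lit 5) (nat_lit 455) (nat_lit 5) (nat_lit 613) (nat_lit 588) (nat_lit 359)) (XT.nd (nat_lit 78) (nat_lit 988) (nat_lit 0) (XT.lf (nat_lit 0) (nat_lit 10656890579) (nat_lit 1672) (nat_lit 5400696756) (nat_lit 1748) (nat_lit 4511143265) (nat_lit 432) (nat_lit 5) (nat_lit 454) (nat_lit 5) (nat_lit 455) (nat_lit 5) (nat_lit 614) (nat_lit 588) (nat_lit 358)) (XT.lf (nat_lit 0) (nat_lit 1030373093) (nat_lit 988) (nat_lit 17048325528) (nat_lit 1064) (nat_lit 2711102411) (nat_lit 419) (nat_lit 5) (nat_lit 432) (nat_lit 5) (nat_lit 433) (nat_lit 5) (nat_lit 615) (nat_lit 588) (nat_lit 357))))) (XT.nd (nat_lit 156) (nat_lit 912) (nat_lit 0) (XT.nd (nat_lit 78) (nat_lit 988) (nat_lit 0) (XT.lf (nat_lit 0) (nat_lit 12285616770) (nat_lit 988) (nat_lit 7952288120) (nat_lit 1064) (nat_lit 775435167) (nat_lit 419) (nat_lit 5) (nat_lit 432) (nat_lit 5) (nat_lit 433)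 (nat_lit 5) (nat_lit 616) (nat_lit 588) (nat_lit 356)) (XT.lf (nat_lit 0) (nat_lit 1204209112) (nat_lit 988) (nat_lit 18703405436) (nat_lit 76) (nat_lit 1333160485) (nat_lit 406) (nat_lit 5) (nat_lit 419) (nat_lit 5) (nat_lit 407) (nat_lit 5) (nat_lit 617) (nat_lit 588) (nat_lit 355))) (XT.nd (nat_lit 78) (nat_lit 912) (nat_lit 0) (XT.lf (nat_lit 0) (nat_lit 3320439252) (nat_lit 988) (nat_lit 7387676873) (nat_lit 76) (nat_lit 10762393152) (nat_lit 406) (nat_lit 5) (nat_lit 419) (nat_lit 5) (nat_lit 407) (nat_lit 5) (nat_lit 618) (nat_lit 588) (nat_lit 354)) (XT.nd (nat_lit 78) (nat_lit 0) (nat_lit 0) (XT.lf (nat_lit 0) (nat_lit 4205628652) (nat_lit 912) (nat_lit 1296501177) (nat_lit 988) (nat_lit 16202246255) (nat_lit 394) (nat_lit 5) (nat_lit 406) (nat_lit 5) (nat_lit 407) (nat_lit 5) (nat_lit 619) (nat_lit 588) (nat_lit 353)) (XT.lf (nat_lit 0) (nat_lit 7827156884) (nat_lit 988) (nat_lit 5869179660) (nat_lit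 76) (nat_lit 8244590210) (nat_lit 394) (nat_lit 5) (nat_lit 407) (nat_lit 5) (nat_lit 395) (nat_lit 5) (nat_lit 620) (nat_lit 588) (nat_lit 352))))))) (XT.nd (nat_lit 702) (nat_lit 4256) (nat_lit 0) (XT.nd (nat_lit 312) (nat_lit 2432) (nat_lit 0) (XT.nd (nat_lit 156) (nat_lit 836) (nat_lit 0) (XT.nd (nat_lit 78) (nat_lit 0) (nat_lit 0) (XT.lf (nat_lit 0) (nat_lit 6059994832) (nat_lit 836) (nat_lit 4182590200) (nat_lit 912) (nat_lit 11938745964) (nat_lit 383) (nat_lit 5) (nat_lit 394) (nat_lit 5) (nat_lit 395) (nat_lit 5) (nat_lit 621) (nat_lit 588) (nat_lit 351)) (XT.lf (nat_lit 0) (nat_lit 12777840451) (nat_lit 912) (nat_lit 4158486022) (nat_lit 76) (nat_lit 5488787033) (nat_lit 383) (nat_lit 5) (nat_lit 395) (nat_lit 5) (nat_lit 384) (nat_lit 5) (nat_lit 622) (nat_lit 588) (nat_lit 350))) (XT.nd (nat_lit 78) (nat_lit 0) (nat_lit 0) (XT.lf (nat_lit 0) (nat_lit 8118543227) (nat_lit 836) (nat_lit 7321769756) (nat_lit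 912) (nat_lit 7231928991) (nat_lit 372) (nat_lit 5) (nat_lit 383) (nat_lit 5) (nat_lit 384) (nat_lit 5) (nat_lit 623) (nat_lit 588) (nat_lit 349)) (XT.lf (nat_lit 0) (nat_lit 18196413629) (nat_lit 912) (nat_lit 2246499044) (nat_lit 76) (nat_lit 2480593302) (nat_lit 372) (nat_lit 5) (nat_lit 384) (nat_lit 5) (nat_lit 373) (nat_lit 5) (nat_lit 624) (nat_lit 588) (nat_lit 348)))) (XT.nd (nat_lit 156) (nat_lit 1596) (nat_lit 0) (XT.nd (nat_lit 78) (nat_lit 76) (nat_lit 0) (XT.lf (nat_lit 0) (nat_lit 10390802970) (nat_lit 760) (nat_lit 10729014715) (nat_lit 836) (nat_lit 2057734470) (nat_lit 362) (nat_lit 5) (nat_lit 372) (nat_lit 5) (nat_lit 373) (nat_lit 5) (nat_lit 625) (nat_lit 588) (nat_lit 347)) (XT.lf (nat_lit 0) (nat_lit 667716811) (nat_lit 836) (nat_lit 133347861) (nat_lit 76) (nat_lit 22635300179) (nat_lit 361) (nat_lit 5) (nat_lit 372) (nat_lit 5) (nat_lit 362) (nat_lit 5) (nat_lit 626) (nat_lit 588) (nat_lit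 346))) (XT.nd (nat_lit 78) (nat_lit 760) (nat_lit 0) (XT.lf (nat_lit 0) (nat_lit 3561587691) (nat_lit 912) (nat_lit 10834438179) (nat_lit 76) (nat_lit 9301227121) (nat_lit 350) (nat_lit 5) (nat_lit 362) (nat_lit 5) (nat_lit 351) (nat_lit 5) (nat_lit 627) (nat_lit 588) (nat_lit 345)) (XT.nd (nat_lit 78) (nat_lit 0) (nat_lit 0) (XT.lf (nat_lit 0) (nat_lit 2176777958) (nat_lit 760) (nat_lit 4353270178) (nat_lit 836) (nat_lit 17432977002) (nat_lit 340) (nat_lit 5) (nat_lit 350) (nat_lit 5) (nat_lit 351) (nat_lit 5) (nat_lit 628) (nat_lit 588) (nat_lit 344)) (XT.lf (nat_lit 0) (nat_lit 9665726286) (nat_lit 836) (nat_lit 8680174697) (nat_lit 76) (nat_lit 5886055250) (nat_lit 340) (nat_lit 5) (nat_lit 351) (nat_lit 5) (nat_lit 341) (nat_lit 5) (nat_lit 629) (nat_lit 588) (nat_lit 343)))))) (XT.nd (nat_lit 390) (nat_lit 1976) (nat_lit 0) (XT.nd (nat_lit 156) (nat_lit 1520) (nat_lit 0) (XT.nd (nat_lit 78) (nat_lit 0) (nat_lit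 0) (XT.lf (nat_lit 0) (nat_lit 4717260628) (nat_lit 760) (nat_lit 8202803016) (nat_lit 836) (nat_lit 11585083862) (nat_lit 330) (nat_lit 5) (nat_lit 340) (nat_lit 5) (nat_lit 341) (nat_lit 5) (nat_lit 630) (nat_lit 588) (nat_lit 342)) (XT.lf (nat_lit 0) (nat_lit 16308567684) (nat_lit 836) (nat_lit 6300471038) (nat_lit 76) (nat_lit 2173382742) (nat_lit 330) (nat_lit 5) (nat_lit 341) (nat_lit 5) (nat_lit 331) (nat_lit 5) (nat_lit 631) (nat_lit 588) (nat_lit 341))) (XT.nd (nat_lit 78) (nat_lit 836) (nat_lit 0) (XT.lf (nat_lit 0) (nat_lit 7496929211) (nat_lit 684) (nat_lit 12367509695) (nat_lit 760) (nat_lit 5198810501) (nat_lit 321) (nat_lit 5) (nat_lit 330) (nat_lit 5) (nat_lit 331) (nat_lit 5) (nat_lit 632) (nat_lit 588) (nat_lit 340)) (XT.nd (nat_lit 78) (nat_lit 836) (nat_lit 0) (XT.lf (nat_lit 0) (nat_lit 21651942490) (nat_lit 684) (nat_lit 1878405817) (nat_lit 760) (nat_lit 1818567628) (nat_lit 321) (nat_lit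 5) (nat_lit 330) (nat_lit 5) (nat_lit 331) (nat_lit 5) (nat_lit 633) (nat_lit 588) (nat_lit 339)) (XT.lf (nat_lit 0) (nat_lit 1731041676) (nat_lit 836) (nat_lit 15122415304) (nat_lit 76) (nat_lit 8784165071) (nat_lit 310) (nat_lit 5) (nat_lit 321) (nat_lit 5) (nat_lit 311) (nat_lit 5) (nat_lit 634) (nat_lit 588) (nat_lit 338))))) (XT.nd (nat_lit 156) (nat_lit 1292) (nat_lit 0) (XT.nd (nat_lit 78) (nat_lit 684) (nat_lit 0) (XT.lf (nat_lit 0) (nat_lit 5361451308) (nat_lit 836) (nat_lit 898259169) (nat_lit 76) (nat_lit 19671468638) (nat_lit 310) (nat_lit 5) (nat_lit 321) (nat_lit 5) (nat_lit 311) (nat_lit 5) (nat_lit 635) (nat_lit 588) (nat_lit 337)) (XT.lf (nat_lit 0) (nat_lit 9180879357) (nat_lit 760) (nat_lit 12471456451) (nat_lit 76) (nat_lit 4575943714) (nat_lit 301) (nat_lit 5) (nat_lit 311) (nat_lit 5) (nat_lit 302) (nat_lit 5) (nat_lit 636) (nat_lit 588) (nat_lit 336))) (XT.nd (nat_lit 78) (nat_lit 608) (nat_lit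 0) (XT.lf (nat_lit 0) (nat_lit 2169223989) (nat_lit 684) (nat_lit 10965902481) (nat_lit 760) (nat_lit 13395027258) (nat_lit 292) (nat_lit 5) (nat_lit 301) (nat_lit 5) (nat_lit 302) (nat_lit 5) (nat_lit 637) (nat_lit 588) (nat_lit 335)) (XT.nd (nat_lit 78) (nat_lit 608) (nat_lit 0) (XT.lf (nat_lit 0) (nat_lit 17249134446) (nat_lit 760) (nat_lit 9568494797) (nat_lit 76) (nat_lit 18823045) (nat_lit 292) (nat_lit 5) (nat_lit 302) (nat_lit 5) (nat_lit 293) (nat_lit 5) (nat_lit 638) (nat_lit 588) (nat_lit 334)) (XT.lf (nat_lit 0) (nat_lit 5515833923) (nat_lit 608) (nat_lit 16034943056) (nat_lit 684) (nat_lit 5595993137) (nat_lit 284) (nat_lit 5) (nat_lit 292) (nat_lit 5) (nat_lit 293) (nat_lit 5) (nat_lit 639) (nat_lit 588) (nat_lit 333))))))))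
noncomputable def xc223 : XT := (XT.nd (nat_lit 78234) (nat_lit 0) (nat_lit 10336) (XT.nd (nat_lit 77454) (nat_lit 0) (nat_lit 15960) (XT.nd (nat_lit 312) (nat_lit 608) (nat_lit 0) (XT.nd (nat_lit 156) (nat_lit 608) (nat_lit 0) (XT.nd (nat_lit 78) (nat_lit 760) (nat_lit 0) (XT.lf (nat_lit 0) (nat_lit 21027902654) (nat_lit 608) (nat_lit 4971716112) (nat_lit 684) (nat_lit 1462452582) (nat_lit 284) (nat_lit 5) (nat_lit 292) (nat_lit 5) (nat_lit 293) (nat_lit 5) (nat_lit 640) (nat_lit 588) (nat_lit 332)) (XT.lf (nat_lit 0) (nat_lit 2815641097) (nat_lit 760) (nat_lit 18658446586) (nat_lit 76) (nat_lit 6307273732) (nat_lit 274) (nat_lit 5) (nat_lit 284) (nat_lit 5) (nat_lit 275) (nat_lit 5) (nat_lit 641) (nat_lit 588) (nat_lit 331))) (XT.nd (nat_lit 78) (nat_lit 608) (nat_lit 0) (XT.lf (nat_lit 0) (nat_lit 7233148386) (nat_lit 760) (nat_lit 3074363781) (nat_lit 76) (nat_lit 17797863454) (nat_lit 274) (nat_lit 5) (nat_lit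 284) (nat_lit 5) (nat_lit 275) (nat_lit 5) (nat_lit 642) (nat_lit 588) (nat_lit 330)) (XT.lf (nat_lit 0) (nat_lit 11828001444) (nat_lit 684) (nat_lit 15453660166) (nat_lit 76) (nat_lit 1152428936) (nat_lit 266) (nat_lit 5) (nat_lit 275) (nat_lit 5) (nat_lit 267) (nat_lit 5) (nat_lit 643) (nat_lit 588) (nat_lit 329)))) (XT.nd (nat_lit 76908) (nat_lit 0) (nat_lit 15884) (XT.nd (nat_lit 78) (nat_lit 0) (nat_lit 0) (XT.lf (nat_lit 0) (nat_lit 564422275) (nat_lit 608) (nat_lit 16040138532) (nat_lit 684) (nat_lit 12163023118) (nat_lit 258) (nat_lit 5) (nat_lit 266) (nat_lit 5) (nat_lit 267) (nat_lit 5) (nat_lit 644) (nat_lit 588) (nat_lit 328)) (XT.lf (nat_lit 0) (nat_lit 17108759536) (nat_lit 608) (nat_lit 4468743036) (nat_lit 684) (nat_lit 7528227909) (nat_lit 258) (nat_lit 5) (nat_lit 266) (nat_lit 5) (nat_lit 267) (nat_lit 5) (nat_lit 645) (nat_lit 588) (nat_lit 327))) (XT.nd (nat_lit 78) (nat_lit 0) (nat_lit 0)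 (XT.lf (nat_lit 0) (nat_lit 1822887484) (nat_lit 0) (nat_lit 1822887484) (nat_lit 1748) (nat_lit 4411270781) (nat_lit 467) (nat_lit 5) (nat_lit 467) (nat_lit 3) (nat_lit 490) (nat_lit 3) (nat_lit 589) (nat_lit 589) (nat_lit 382)) (XT.nd (nat_lit 78) (nat_lit 0) (nat_lit 0) (XT.lf (nat_lit 0) (nat_lit 7647090329) (nat_lit 1748) (nat_lit 4596899244) (nat_lit 1824) (nat_lit 4025550219) (nat_lit 467) (nat_lit 5) (nat_lit 490) (nat_lit 3) (nat_lit 491) (nat_lit 5) (nat_lit 590) (nat_lit 589) (nat_lit 381)) (XT.lf (nat_lit 76) (nat_lit 3449526774) (nat_lit 0) (nat_lit 4600058715) (nat_lit 1824) (nat_lit 8377715736) (nat_lit 468) (nat_lit 5) (nat_lit 467) (nat_lit 5) (nat_lit 491) (nat_lit 5) (nat_lit 591) (nat_lit 589) (nat_lit 380)))))) (XT.nd (nat_lit 390) (nat_lit 0) (nat_lit 152) (XT.nd (nat_lit 156) (nat_lit 0) (nat_lit 76) (XT.nd (nat_lit 78) (nat_lit 0) (nat_lit 0) (XT.lf (nat_lit 0) (nat_lit 8505369745) (nat_lit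 1748) (nat_lit 4893013484) (nat_lit 1824) (nat_lit 3188930906) (nat_lit 468) (nat_lit 5) (nat_lit 491) (nat_lit 5) (nat_lit 492) (nat_lit 5) (nat_lit 592) (nat_lit 589) (nat_lit 379)) (XT.lf (nat_lit 76) (nat_lit 3363517037) (nat_lit 0) (nat_lit 5652615446) (nat_lit 1824) (nat_lit 7733478575) (nat_lit 469) (nat_lit 5) (nat_lit 468) (nat_lit 5) (nat_lit 492) (nat_lit 5) (nat_lit 593) (nat_lit 589) (nat_lit 378))) (XT.nd (nat_lit 78) (nat_lit 0) (nat_lit 0) (XT.lf (nat_lit 0) (nat_lit 9578440503) (nat_lit 1748) (nat_lit 5081503472) (nat_lit 1824) (nat_lit 2254384335) (nat_lit 469) (nat_lit 5) (nat_lit 492) (nat_lit 5) (nat_lit 493) (nat_lit 5) (nat_lit 594) (nat_lit 589) (nat_lit 377)) (XT.nd (nat_lit 78) (nat_lit 0) (nat_lit 76) (XT.lf (nat_lit 76) (nat_lit 3392614481) (nat_lit 0) (nat_lit 6812647663) (nat_lit 1824) (nat_lit 6876013387) (nat_lit 470) (nat_lit 5) (nat_lit 469) (nat_lit 5) (nat_lit 493) (nat_lit 5)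 (nat_lit 595) (nat_lit 589) (nat_lit 376)) (XT.lf (nat_lit 0) (nat_lit 10880602325) (nat_lit 1748) (nat_lit 5157486088) (nat_lit 1824) (nat_lit 1212754595) (nat_lit 470) (nat_lit 5) (nat_lit 493) (nat_lit 5) (nat_lit 494) (nat_lit 5) (nat_lit 596) (nat_lit 589) (nat_lit 375))))) (XT.nd (nat_lit 156) (nat_lit 0) (nat_lit 76) (XT.nd (nat_lit 78) (nat_lit 0) (nat_lit 76) (XT.lf (nat_lit 76) (nat_lit 3541982727) (nat_lit 0) (nat_lit 8089619665) (nat_lit 1824) (nat_lit 5790957315) (nat_lit 471) (nat_lit 5) (nat_lit 470) (nat_lit 5) (nat_lit 494) (nat_lit 5) (nat_lit 597) (nat_lit 589) (nat_lit 374)) (XT.lf (nat_lit 0) (nat_lit 12426723783) (nat_lit 1748) (nat_lit 5115786547) (nat_lit 1824) (nat_lit 54619300) (nat_lit 471) (nat_lit 5) (nat_lit 494) (nat_lit 5) (nat_lit 495) (nat_lit 5) (nat_lit 598) (nat_lit 589) (nat_lit 373))) (XT.nd (nat_lit 78) (nat_lit 0) (nat_lit 0) (XT.lf (nat_lit 76) (nat_lit 3817086749) (nat_lit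 0) (nat_lit 9493279299) (nat_lit 1824) (nat_lit 4463373432) (nat_lit 472) (nat_lit 5) (nat_lit 471) (nat_lit 5) (nat_lit 495) (nat_lit 5) (nat_lit 599) (nat_lit 589) (nat_lit 372)) (XT.nd (nat_lit 78) (nat_lit 0) (nat_lit 76) (XT.lf (nat_lit 76) (nat_lit 12994286610) (nat_lit 0) (nat_lit 1246074561) (nat_lit 1824) (nat_lit 3712947636) (nat_lit 472) (nat_lit 5) (nat_lit 471) (nat_lit 5) (nat_lit 495) (nat_lit 5) (nat_lit 600) (nat_lit 589) (nat_lit 371)) (XT.lf (nat_lit 76) (nat_lit 4223699780) (nat_lit 0) (nat_lit 11033680112) (nat_lit 1824) (nat_lit 2877722019) (nat_lit 473) (nat_lit 5) (nat_lit 472) (nat_lit 5) (nat_lit 496) (nat_lit 5) (nat_lit 601) (nat_lit 589) (nat_lit 370))))))) (XT.nd (nat_lit 702) (nat_lit 4180) (nat_lit 0) (XT.nd (nat_lit 312) (nat_lit 0) (nat_lit 76) (XT.nd (nat_lit 156) (nat_lit 1748) (nat_lit 0) (XT.nd (nat_lit 78) (nat_lit 0) (nat_lit 76) (XT.lf (nat_lit 76) (nat_lit 13645230926)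 (nat_lit 0) (nat_lit 2685541604) (nat_lit 1824) (nat_lit 1989038524) (nat_lit 473) (nat_lit 5) (nat_lit 472) (nat_lit 5) (nat_lit 496) (nat_lit 5) (nat_lit 602) (nat_lit 589) (nat_lit 369)) (XT.lf (nat_lit 76) (nat_lit 4767910683) (nat_lit 0) (nat_lit 12721203943) (nat_lit 1824) (nat_lit 1017830949) (nat_lit 474) (nat_lit 5) (nat_lit 473) (nat_lit 5) (nat_lit 497) (nat_lit 5) (nat_lit 603) (nat_lit 589) (nat_lit 368))) (XT.nd (nat_lit 78) (nat_lit 0) (nat_lit 76) (XT.lf (nat_lit 0) (nat_lit 17239652) (nat_lit 1824) (nat_lit 4256191683) (nat_lit 1900) (nat_lit 14423514140) (nat_lit 449) (nat_lit 5) (nat_lit 473) (nat_lit 5) (nat_lit 474) (nat_lit 5) (nat_lit 604) (nat_lit 589) (nat_lit 367)) (XT.lf (nat_lit 0) (nat_lit 1118273591) (nat_lit 1824) (nat_lit 13440806220) (nat_lit 1900) (nat_lit 4330353972) (nat_lit 450) (nat_lit 5) (nat_lit 474) (nat_lit 5) (nat_lit 475) (nat_lit 5) (nat_lit 605) (nat_lit 589) (nat_lit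 366)))) (XT.nd (nat_lit 156) (nat_lit 0) (nat_lit 76) (XT.nd (nat_lit 78) (nat_lit 0) (nat_lit 76) (XT.lf (nat_lit 0) (nat_lit 2293290086) (nat_lit 1824) (nat_lit 3712263116) (nat_lit 1900) (nat_lit 13079180184) (nat_lit 450) (nat_lit 5) (nat_lit 474) (nat_lit 5) (nat_lit 475) (nat_lit 5) (nat_lit 606) (nat_lit 589) (nat_lit 365)) (XT.lf (nat_lit 0) (nat_lit 3545585992) (nat_lit 1824) (nat_lit 13011549833) (nat_lit 1900) (nat_lit 2725728327) (nat_lit 451) (nat_lit 5) (nat_lit 475) (nat_lit 5) (nat_lit 476) (nat_lit 5) (nat_lit 607) (nat_lit 589) (nat_lit 364))) (XT.nd (nat_lit 78) (nat_lit 0) (nat_lit 76) (XT.lf (nat_lit 0) (nat_lit 4882867847) (nat_lit 1824) (nat_lit 3023329228) (nat_lit 1900) (nat_lit 11577562393) (nat_lit 451) (nat_lit 5) (nat_lit 475) (nat_lit 5) (nat_lit 476) (nat_lit 5) (nat_lit 608) (nat_lit 589) (nat_lit 363)) (XT.nd (nat_lit 78) (nat_lit 0) (nat_lit 0) (XT.lf (nat_lit 0) (nat_lit 6295472441)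 (nat_lit 1824) (nat_lit 12438026747) (nat_lit 1900) (nat_lit 954202684) (nat_lit 452) (nat_lit 5) (nat_lit 476) (nat_lit 5) (nat_lit 477) (nat_lit 5) (nat_lit 609) (nat_lit 589) (nat_lit 362)) (XT.lf (nat_lit 0) (nat_lit 7804375576) (nat_lit 1824) (nat_lit 2182508851) (nat_lit 1900) (nat_lit 9907478476) (nat_lit 452) (nat_lit 5) (nat_lit 476) (nat_lit 5) (nat_lit 477) (nat_lit 5) (nat_lit 610) (nat_lit 589) (nat_lit 361)))))) (XT.nd (nat_lit 390) (nat_lit 2888) (nat_lit 0) (XT.nd (nat_lit 156) (nat_lit 1520) (nat_lit 0) (XT.nd (nat_lit 78) (nat_lit 0) (nat_lit 76) (XT.lf (nat_lit 76) (nat_lit 8384336580) (nat_lit 0) (nat_lit 1008914748) (nat_lit 1900) (nat_lit 10710910630) (nat_lit 453) (nat_lit 5) (nat_lit 452) (nat_lit 5) (nat_lit 477) (nat_lit 5) (nat_lit 611) (nat_lit 589) (nat_lit 360)) (XT.lf (nat_lit 0) (nat_lit 11076983881) (nat_lit 1824) (nat_lit 1182581879) (nat_lit 1900) (nat_lit 8057330329) (nat_lit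 453) (nat_lit 5) (nat_lit 477) (nat_lit 5) (nat_lit 478) (nat_lit 5) (nat_lit 612) (nat_lit 589) (nat_lit 359))) (XT.nd (nat_lit 78) (nat_lit 1596) (nat_lit 0) (XT.lf (nat_lit 76) (nat_lit 9681962474) (nat_lit 0) (nat_lit 3177491789) (nat_lit 1900) (nat_lit 7673130043) (nat_lit 454) (nat_lit 5) (nat_lit 453) (nat_lit 5) (nat_lit 478) (nat_lit 5) (nat_lit 613) (nat_lit 589) (nat_lit 358)) (XT.nd (nat_lit 78) (nat_lit 1672) (nat_lit 0) (XT.lf (nat_lit 0) (nat_lit 14720666292) (nat_lit 1824) (nat_lit 15980033) (nat_lit 76) (nat_lit 6015078773) (nat_lit 454) (nat_lit 5) (nat_lit 478) (nat_lit 5) (nat_lit 455) (nat_lit 5) (nat_lit 614) (nat_lit 589) (nat_lit 357)) (XT.lf (nat_lit 0) (nat_lit 11156899066) (nat_lit 1672) (nat_lit 5551359117) (nat_lit 1748) (nat_lit 4265208052) (nat_lit 432) (nat_lit 5) (nat_lit 454) (nat_lit 5) (nat_lit 455) (nat_lit 5) (nat_lit 615) (nat_lit 589) (nat_lit 356))))) (XT.nd (nat_lit 156)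 (nat_lit 1900) (nat_lit 0) (XT.nd (nat_lit 78) (nat_lit 0) (nat_lit 0) (XT.lf (nat_lit 0) (nat_lit 1342834304) (nat_lit 988) (nat_lit 17422119668) (nat_lit 1064) (nat_lit 2434101811) (nat_lit 419) (nat_lit 5) (nat_lit 432) (nat_lit 5) (nat_lit 433) (nat_lit 5) (nat_lit 616) (nat_lit 589) (nat_lit 355)) (XT.lf (nat_lit 0) (nat_lit 12817460232) (nat_lit 988) (nat_lit 8143517833) (nat_lit 1064) (nat_lit 466215784) (nat_lit 419) (nat_lit 5) (nat_lit 432) (nat_lit 5) (nat_lit 433) (nat_lit 5) (nat_lit 617) (nat_lit 589) (nat_lit 354))) (XT.nd (nat_lit 78) (nat_lit 912) (nat_lit 0) (XT.lf (nat_lit 0) (nat_lit 1544173331) (nat_lit 988) (nat_lit 18782403682) (nat_lit 76) (nat_lit 1332651025) (nat_lit 406) (nat_lit 5) (nat_lit 419) (nat_lit 5) (nat_lit 407) (nat_lit 5) (nat_lit 618) (nat_lit 589) (nat_lit 353)) (XT.nd (nat_lit 78) (nat_lit 912) (nat_lit 0) (XT.lf (nat_lit 0) (nat_lit 3696534348) (nat_lit 988) (nat_lit 7246146231)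 (nat_lit 76) (nat_lit 10951001143) (nat_lit 406) (nat_lit 5) (nat_lit 419) (nat_lit 5) (nat_lit 407) (nat_lit 5) (nat_lit 619) (nat_lit 589) (nat_lit 352)) (XT.lf (nat_lit 0) (nat_lit 4577122219) (nat_lit 912) (nat_lit 1340530105) (nat_lit 988) (nat_lit 16214658532) (nat_lit 394) (nat_lit 5) (nat_lit 406) (nat_lit 5) (nat_lit 407) (nat_lit 5) (nat_lit 620) (nat_lit 589) (nat_lit 351))))))))
noncomputable def xc224 : XT := (XT.nd (nat_lit 1404) (nat_lit 2584) (nat_lit 0) (XT.nd (nat_lit 702) (nat_lit 3648) (nat_lit 0) (XT.nd (nat_lit 312) (nat_lit 2432) (nat_lit 0) (XT.nd (nat_lit 156) (nat_lit 836) (nat_lit 0) (XT.nd (nat_lit 78) (nat_lit 836) (nat_lit 0) (XT.lf (nat_lit 0) (nat_lit 8283074912) (nat_lit 988) (nat_lit 5698669867) (nat_lit 76) (nat_lit 8391970706) (nat_lit 394) (nat_lit 5) (nat_lit 407) (nat_lit 5) (nat_lit 395) (nat_lit 5) (nat_lit 621) (nat_lit 589) (nat_lit 350)) (XT.lf (nat_lit 0) (nat_lit 6467194079)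 (nat_lit 836) (nat_lit 4275604345) (nat_lit 912) (nat_lit 11876210481) (nat_lit 383) (nat_lit 5) (nat_lit 394) (nat_lit 5) (nat_lit 395) (nat_lit 5) (nat_lit 622) (nat_lit 589) (nat_lit 349))) (XT.nd (nat_lit 78) (nat_lit 836) (nat_lit 0) (XT.lf (nat_lit 0) (nat_lit 13322907952) (nat_lit 912) (nat_lit 3955372559) (nat_lit 76) (nat_lit 5589504389) (nat_lit 383) (nat_lit 5) (nat_lit 395) (nat_lit 5) (nat_lit 384) (nat_lit 5) (nat_lit 623) (nat_lit 589) (nat_lit 348)) (XT.lf (nat_lit 0) (nat_lit 8565313833) (nat_lit 836) (nat_lit 7469485934) (nat_lit 912) (nat_lit 7085133571) (nat_lit 372) (nat_lit 5) (nat_lit 383) (nat_lit 5) (nat_lit 384) (nat_lit 5) (nat_lit 624) (nat_lit 589) (nat_lit 347)))) (XT.nd (nat_lit 156) (nat_lit 1672) (nat_lit 0) (XT.nd (nat_lit 78) (nat_lit 760) (nat_lit 0) (XT.lf (nat_lit 0) (nat_lit 18840412693) (nat_lit 912) (nat_lit 2006956935) (nat_lit 76) (nat_lit 2528965968) (nat_lit 372) (nat_lit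 5) (nat_lit 384) (nat_lit 5) (nat_lit 373) (nat_lit 5) (nat_lit 625) (nat_lit 589) (nat_lit 346)) (XT.lf (nat_lit 0) (nat_lit 10881219593) (nat_lit 760) (nat_lit 10937408484) (nat_lit 836) (nat_lit 1816908523) (nat_lit 362) (nat_lit 5) (nat_lit 372) (nat_lit 5) (nat_lit 373) (nat_lit 5) (nat_lit 626) (nat_lit 589) (nat_lit 345))) (XT.nd (nat_lit 78) (nat_lit 760) (nat_lit 0) (XT.lf (nat_lit 0) (nat_lit 146630180) (nat_lit 836) (nat_lit 808218879) (nat_lit 912) (nat_lit 22944730702) (nat_lit 350) (nat_lit 5) (nat_lit 361) (nat_lit 5) (nat_lit 362) (nat_lit 5) (nat_lit 627) (nat_lit 589) (nat_lit 344)) (XT.nd (nat_lit 78) (nat_lit 760) (nat_lit 0) (XT.lf (nat_lit 0) (nat_lit 3902168703) (nat_lit 912) (nat_lit 10766892284) (nat_lit 76) (nat_lit 9496713972) (nat_lit 350) (nat_lit 5) (nat_lit 362) (nat_lit 5) (nat_lit 351) (nat_lit 5) (nat_lit 628) (nat_lit 589) (nat_lit 343)) (XT.lf (nat_lit 0) (nat_lit 2502678211)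 (nat_lit 760) (nat_lit 4423872087) (nat_lit 836) (nat_lit 17510381919) (nat_lit 340) (nat_lit 5) (nat_lit 350) (nat_lit 5) (nat_lit 351) (nat_lit 5) (nat_lit 629) (nat_lit 589) (nat_lit 342)))))) (XT.nd (nat_lit 312) (nat_lit 2204) (nat_lit 0) (XT.nd (nat_lit 156) (nat_lit 684) (nat_lit 0) (XT.nd (nat_lit 78) (nat_lit 760) (nat_lit 0) (XT.lf (nat_lit 0) (nat_lit 10119833058) (nat_lit 836) (nat_lit 8571806402) (nat_lit 76) (nat_lit 6019705348) (nat_lit 340) (nat_lit 5) (nat_lit 351) (nat_lit 5) (nat_lit 341) (nat_lit 5) (nat_lit 630) (nat_lit 589) (nat_lit 341)) (XT.lf (nat_lit 0) (nat_lit 5091722553) (nat_lit 760) (nat_lit 8344239741) (nat_lit 836) (nat_lit 11554104191) (nat_lit 330) (nat_lit 5) (nat_lit 340) (nat_lit 5) (nat_lit 341) (nat_lit 5) (nat_lit 631) (nat_lit 589) (nat_lit 340))) (XT.nd (nat_lit 78) (nat_lit 684) (nat_lit 0) (XT.lf (nat_lit 0) (nat_lit 16887331426) (nat_lit 836) (nat_lit 6146917885) (nat_lit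 76) (nat_lit 2238735376) (nat_lit 330) (nat_lit 5) (nat_lit 341) (nat_lit 5) (nat_lit 331) (nat_lit 5) (nat_lit 632) (nat_lit 589) (nat_lit 339)) (XT.lf (nat_lit 0) (nat_lit 7924591141) (nat_lit 684) (nat_lit 12586579304) (nat_lit 760) (nat_lit 5048322392) (nat_lit 321) (nat_lit 5) (nat_lit 330) (nat_lit 5) (nat_lit 331) (nat_lit 5) (nat_lit 633) (nat_lit 589) (nat_lit 338)))) (XT.nd (nat_lit 156) (nat_lit 1368) (nat_lit 0) (XT.nd (nat_lit 78) (nat_lit 836) (nat_lit 0) (XT.lf (nat_lit 0) (nat_lit 22357259130) (nat_lit 684) (nat_lit 1888247869) (nat_lit 760) (nat_lit 1605464158) (nat_lit 321) (nat_lit 5) (nat_lit 330) (nat_lit 5) (nat_lit 331) (nat_lit 5) (nat_lit 634) (nat_lit 589) (nat_lit 337)) (XT.lf (nat_lit 0) (nat_lit 2009014175) (nat_lit 836) (nat_lit 15146400412) (nat_lit 76) (nat_lit 8990062054) (nat_lit 310) (nat_lit 5) (nat_lit 321) (nat_lit 5) (nat_lit 311) (nat_lit 5) (nat_lit 635) (nat_lit 589) (nat_lit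 336))) (XT.nd (nat_lit 78) (nat_lit 1368) (nat_lit 0) (XT.lf (nat_lit 0) (nat_lit 5707260398) (nat_lit 836) (nat_lit 643221217) (nat_lit 76) (nat_lit 20094519268) (nat_lit 310) (nat_lit 5) (nat_lit 321) (nat_lit 5) (nat_lit 311) (nat_lit 5) (nat_lit 636) (nat_lit 589) (nat_lit 335)) (XT.nd (nat_lit 78) (nat_lit 684) (nat_lit 0) (XT.lf (nat_lit 0) (nat_lit 9600390601) (nat_lit 760) (nat_lit 12445166417) (nat_lit 76) (nat_lit 4702540602) (nat_lit 301) (nat_lit 5) (nat_lit 311) (nat_lit 5) (nat_lit 302) (nat_lit 5) (nat_lit 637) (nat_lit 589) (nat_lit 334)) (XT.lf (nat_lit 0) (nat_lit 2486513690) (nat_lit 684) (nat_lit 11144361974) (nat_lit 760) (nat_lit 13425191165) (nat_lit 292) (nat_lit 5) (nat_lit 301) (nat_lit 5) (nat_lit 302) (nat_lit 5) (nat_lit 638) (nat_lit 589) (nat_lit 333))))))) (XT.nd (nat_lit 77532) (nat_lit 0) (nat_lit 15884) (XT.nd (nat_lit 312) (nat_lit 1216) (nat_lit 0) (XT.nd (nat_lit 156) (nat_lit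 760) (nat_lit 0) (XT.nd (nat_lit 78) (nat_lit 608) (nat_lit 0) (XT.lf (nat_lit 0) (nat_lit 17822854337) (nat_lit 760) (nat_lit 9486992229) (nat_lit 76) (nat_lit 58731554) (nat_lit 292) (nat_lit 5) (nat_lit 302) (nat_lit 5) (nat_lit 293) (nat_lit 5) (nat_lit 639) (nat_lit 589) (nat_lit 332)) (XT.lf (nat_lit 0) (nat_lit 5897227853) (nat_lit 608) (nat_lit 16310576838) (nat_lit 684) (nat_lit 5477352672) (nat_lit 284) (nat_lit 5) (nat_lit 292) (nat_lit 5) (nat_lit 293) (nat_lit 5) (nat_lit 640) (nat_lit 589) (nat_lit 331))) (XT.nd (nat_lit 78) (nat_lit 760) (nat_lit 0) (XT.lf (nat_lit 0) (nat_lit 21714222718) (nat_lit 608) (nat_lit 5026968985) (nat_lit 684) (nat_lit 1265662097) (nat_lit 284) (nat_lit 5) (nat_lit 292) (nat_lit 5) (nat_lit 293) (nat_lit 5) (nat_lit 641) (nat_lit 589) (nat_lit 330)) (XT.lf (nat_lit 0) (nat_lit 3092690572) (nat_lit 760) (nat_lit 18760497493) (nat_lit 76) (nat_lit 6479359543) (nat_lit 274)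 (nat_lit 5) (nat_lit 284) (nat_lit 5) (nat_lit 275) (nat_lit 5) (nat_lit 642) (nat_lit 589) (nat_lit 329)))) (XT.nd (nat_lit 156) (nat_lit 608) (nat_lit 0) (XT.nd (nat_lit 78) (nat_lit 608) (nat_lit 0) (XT.lf (nat_lit 0) (nat_lit 7594219837) (nat_lit 760) (nat_lit 2870049071) (nat_lit 76) (nat_lit 18198860270) (nat_lit 274) (nat_lit 5) (nat_lit 284) (nat_lit 5) (nat_lit 275) (nat_lit 5) (nat_lit 643) (nat_lit 589) (nat_lit 328)) (XT.lf (nat_lit 0) (nat_lit 12278766822) (nat_lit 684) (nat_lit 15494702970) (nat_lit 76) (nat_lit 1224993177) (nat_lit 266) (nat_lit 5) (nat_lit 275) (nat_lit 5) (nat_lit 267) (nat_lit 5) (nat_lit 644) (nat_lit 589) (nat_lit 327))) (XT.nd (nat_lit 76908) (nat_lit 0) (nat_lit 15884) (XT.lf (nat_lit 0) (nat_lit 841977762) (nat_lit 608) (nat_lit 16306408288) (nat_lit 684) (nat_lit 12190290088) (nat_lit 258) (nat_lit 5) (nat_lit 266) (nat_lit 5) (nat_lit 267) (nat_lit 5) (nat_lit 645) (nat_lit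 589) (nat_lit 326)) (XT.nd (nat_lit 78) (nat_lit 0) (nat_lit 0) (XT.lf (nat_lit 0) (nat_lit 1986584220) (nat_lit 0) (nat_lit 1986584220) (nat_lit 1748) (nat_lit 4239888802) (nat_lit 467) (nat_lit 5) (nat_lit 467) (nat_lit 3) (nat_lit 490) (nat_lit 3) (nat_lit 590) (nat_lit 590) (nat_lit 380)) (XT.lf (nat_lit 0) (nat_lit 8297388708) (nat_lit 1748) (nat_lit 4427671487) (nat_lit 1824) (nat_lit 3859845099) (nat_lit 467) (nat_lit 5) (nat_lit 490) (nat_lit 3) (nat_lit 491) (nat_lit 5) (nat_lit 591) (nat_lit 590) (nat_lit 379)))))) (XT.nd (nat_lit 390) (nat_lit 0) (nat_lit 228) (XT.nd (nat_lit 156) (nat_lit 0) (nat_lit 76) (XT.nd (nat_lit 78) (nat_lit 0) (nat_lit 76) (XT.lf (nat_lit 76) (nat_lit 3777964856) (nat_lit 0) (nat_lit 4921901332) (nat_lit 1824) (nat_lit 8046118653) (nat_lit 468) (nat_lit 5) (nat_lit 467) (nat_lit 5) (nat_lit 491) (nat_lit 5) (nat_lit 592) (nat_lit 590) (nat_lit 378)) (XT.lf (nat_lit 0) (nat_lit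 9153709204) (nat_lit 1748) (nat_lit 4725381363) (nat_lit 1824) (nat_lit 3030330082) (nat_lit 468) (nat_lit 5) (nat_lit 491) (nat_lit 5) (nat_lit 492) (nat_lit 5) (nat_lit 593) (nat_lit 590) (nat_lit 377))) (XT.nd (nat_lit 78) (nat_lit 0) (nat_lit 76) (XT.lf (nat_lit 76) (nat_lit 3694533109) (nat_lit 0) (nat_lit 5972489400) (nat_lit 1824) (nat_lit 7408095767) (nat_lit 469) (nat_lit 5) (nat_lit 468) (nat_lit 5) (nat_lit 492) (nat_lit 5) (nat_lit 594) (nat_lit 590) (nat_lit 376)) (XT.nd (nat_lit 78) (nat_lit 0) (nat_lit 0) (XT.lf (nat_lit 0) (nat_lit 10230033385) (nat_lit 1748) (nat_lit 4913943780) (nat_lit 1824) (nat_lit 2099365019) (nat_lit 469) (nat_lit 5) (nat_lit 492) (nat_lit 5) (nat_lit 493) (nat_lit 5) (nat_lit 595) (nat_lit 590) (nat_lit 375)) (XT.lf (nat_lit 76) (nat_lit 3727885547) (nat_lit 0) (nat_lit 7134222093) (nat_lit 1824) (nat_lit 6551667803) (nat_lit 470) (nat_lit 5) (nat_lit 469) (nat_lit 5) (nat_lit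 493) (nat_lit 5) (nat_lit 596) (nat_lit 590) (nat_lit 374))))) (XT.nd (nat_lit 156) (nat_lit 0) (nat_lit 0) (XT.nd (nat_lit 78) (nat_lit 0) (nat_lit 0) (XT.lf (nat_lit 0) (nat_lit 11540897727) (nat_lit 1748) (nat_lit 4988334235) (nat_lit 1824) (nat_lit 1057704832) (nat_lit 470) (nat_lit 5) (nat_lit 493) (nat_lit 5) (nat_lit 494) (nat_lit 5) (nat_lit 597) (nat_lit 590) (nat_lit 373)) (XT.lf (nat_lit 76) (nat_lit 3883332499) (nat_lit 0) (nat_lit 8416661562) (nat_lit 1824) (nat_lit 5462233602) (nat_lit 471) (nat_lit 5) (nat_lit 470) (nat_lit 5) (nat_lit 494) (nat_lit 5) (nat_lit 598) (nat_lit 590) (nat_lit 372))) (XT.nd (nat_lit 78) (nat_lit 0) (nat_lit 76) (XT.lf (nat_lit 76) (nat_lit 12996549796) (nat_lit 0) (nat_lit 105557252) (nat_lit 1824) (nat_lit 4838361487) (nat_lit 471) (nat_lit 5) (nat_lit 470) (nat_lit 5) (nat_lit 494) (nat_lit 5) (nat_lit 599) (nat_lit 590) (nat_lit 371)) (XT.nd (nat_lit 78) (nat_lit 0)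 (nat_lit 0) (XT.lf (nat_lit 76) (nat_lit 4166489023) (nat_lit 0) (nat_lit 9829664533) (nat_lit 1824) (nat_lit 4124603707) (nat_lit 472) (nat_lit 5) (nat_lit 471) (nat_lit 5) (nat_lit 495) (nat_lit 5) (nat_lit 600) (nat_lit 590) (nat_lit 370)) (XT.lf (nat_lit 76) (nat_lit 13521878753) (nat_lit 0) (nat_lit 1414642766) (nat_lit 1824) (nat_lit 3367562281) (nat_lit 472) (nat_lit 5) (nat_lit 471) (nat_lit 5) (nat_lit 495) (nat_lit 5) (nat_lit 601) (nat_lit 590) (nat_lit 369))))))))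
noncomputable def xc225 : XT := (XT.nd (nat_lit 1482) (nat_lit 8664) (nat_lit 0) (XT.nd (nat_lit 702) (nat_lit 3268) (nat_lit 0) (XT.nd (nat_lit 312) (nat_lit 0) (nat_lit 76) (XT.nd (nat_lit 156) (nat_lit 1748) (nat_lit 0) (XT.nd (nat_lit 78) (nat_lit 0) (nat_lit 0) (XT.lf (nat_lit 76) (nat_lit 4583282110) (nat_lit 0) (nat_lit 11383404580) (nat_lit 1824) (nat_lit 2522971212) (nat_lit 473) (nat_lit 5) (nat_lit 472) (nat_lit 5) (nat_lit 496) (nat_lit 5) (nat_lit 602) (nat_lit 590) (nat_lit 368)) (XT.lf (nat_lit 76) (nat_lit 14187849597) (nat_lit 0) (nat_lit 2865772892) (nat_lit 1824) (nat_lit 1624598464) (nat_lit 473) (nat_lit 5) (nat_lit 472) (nat_lit 5) (nat_lit 496) (nat_lit 5) (nat_lit 603) (nat_lit 590) (nat_lit 367))) (XT.nd (nat_lit 78) (nat_lit 1824) (nat_lit 0) (XT.lf (nat_lit 76) (nat_lit 5139958345) (nat_lit 0) (nat_lit 13088394883) (nat_lit 1824) (nat_lit 640881710) (nat_lit 474) (nat_lit 5) (nat_lit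 473) (nat_lit 5) (nat_lit 497) (nat_lit 5) (nat_lit 604) (nat_lit 590) (nat_lit 366)) (XT.lf (nat_lit 0) (nat_lit 401991426) (nat_lit 1824) (nat_lit 4064884709) (nat_lit 1900) (nat_lit 14596262034) (nat_lit 449) (nat_lit 5) (nat_lit 473) (nat_lit 5) (nat_lit 474) (nat_lit 5) (nat_lit 605) (nat_lit 590) (nat_lit 365)))) (XT.nd (nat_lit 156) (nat_lit 0) (nat_lit 76) (XT.nd (nat_lit 78) (nat_lit 0) (nat_lit 0) (XT.lf (nat_lit 0) (nat_lit 1518616117) (nat_lit 1824) (nat_lit 13426704673) (nat_lit 1900) (nat_lit 4314285190) (nat_lit 450) (nat_lit 5) (nat_lit 474) (nat_lit 5) (nat_lit 475) (nat_lit 5) (nat_lit 606) (nat_lit 590) (nat_lit 364)) (XT.lf (nat_lit 0) (nat_lit 2709721627) (nat_lit 1824) (nat_lit 3509138112) (nat_lit 1900) (nat_lit 13240101179) (nat_lit 450) (nat_lit 5) (nat_lit 474) (nat_lit 5) (nat_lit 475) (nat_lit 5) (nat_lit 607) (nat_lit 590) (nat_lit 363))) (XT.nd (nat_lit 78) (nat_lit 0) (nat_lit 0)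 (XT.lf (nat_lit 0) (nat_lit 3981005105) (nat_lit 1824) (nat_lit 12988297491) (nat_lit 1900) (nat_lit 2691873964) (nat_lit 451) (nat_lit 5) (nat_lit 475) (nat_lit 5) (nat_lit 476) (nat_lit 5) (nat_lit 608) (nat_lit 590) (nat_lit 362)) (XT.nd (nat_lit 78) (nat_lit 0) (nat_lit 76) (XT.lf (nat_lit 0) (nat_lit 5337885394) (nat_lit 1824) (nat_lit 2805870971) (nat_lit 1900) (nat_lit 11722477435) (nat_lit 451) (nat_lit 5) (nat_lit 475) (nat_lit 5) (nat_lit 476) (nat_lit 5) (nat_lit 609) (nat_lit 590) (nat_lit 361)) (XT.lf (nat_lit 0) (nat_lit 6773033855) (nat_lit 1824) (nat_lit 12403101614) (nat_lit 1900) (nat_lit 898234799) (nat_lit 452) (nat_lit 5) (nat_lit 476) (nat_lit 5) (nat_lit 477) (nat_lit 5) (nat_lit 610) (nat_lit 590) (nat_lit 360)))))) (XT.nd (nat_lit 390) (nat_lit 1976) (nat_lit 0) (XT.nd (nat_lit 156) (nat_lit 1520) (nat_lit 0) (XT.nd (nat_lit 78) (nat_lit 0) (nat_lit 0) (XT.lf (nat_lit 0) (nat_lit 8305219916)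 (nat_lit 1824) (nat_lit 1948035825) (nat_lit 1900) (nat_lit 10032047714) (nat_lit 452) (nat_lit 5) (nat_lit 476) (nat_lit 5) (nat_lit 477) (nat_lit 5) (nat_lit 611) (nat_lit 590) (nat_lit 359)) (XT.lf (nat_lit 76) (nat_lit 8828316758) (nat_lit 0) (nat_lit 1092590369) (nat_lit 1900) (nat_lit 10578491697) (nat_lit 453) (nat_lit 5) (nat_lit 452) (nat_lit 5) (nat_lit 477) (nat_lit 5) (nat_lit 612) (nat_lit 590) (nat_lit 358))) (XT.nd (nat_lit 78) (nat_lit 1596) (nat_lit 0) (XT.lf (nat_lit 0) (nat_lit 11631247583) (nat_lit 1824) (nat_lit 928241275) (nat_lit 1900) (nat_lit 8157041105) (nat_lit 453) (nat_lit 5) (nat_lit 477) (nat_lit 5) (nat_lit 478) (nat_lit 5) (nat_lit 613) (nat_lit 590) (nat_lit 357)) (XT.nd (nat_lit 78) (nat_lit 1596) (nat_lit 0) (XT.lf (nat_lit 76) (nat_lit 10151765069) (nat_lit 0) (nat_lit 3292871339) (nat_lit 1900) (nat_lit 7491991128) (nat_lit 454) (nat_lit 5) (nat_lit 453) (nat_lit 5) (nat_lit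 478) (nat_lit 5) (nat_lit 614) (nat_lit 590) (nat_lit 356)) (XT.lf (nat_lit 0) (nat_lit 264729512) (nat_lit 1672) (nat_lit 15073300813) (nat_lit 1748) (nat_lit 5822222619) (nat_lit 432) (nat_lit 5) (nat_lit 454) (nat_lit 5) (nat_lit 455) (nat_lit 5) (nat_lit 615) (nat_lit 590) (nat_lit 355))))) (XT.nd (nat_lit 156) (nat_lit 988) (nat_lit 0) (XT.nd (nat_lit 78) (nat_lit 988) (nat_lit 0) (XT.lf (nat_lit 0) (nat_lit 11655768185) (nat_lit 1672) (nat_lit 5703378635) (nat_lit 1748) (nat_lit 4027407562) (nat_lit 432) (nat_lit 5) (nat_lit 454) (nat_lit 5) (nat_lit 455) (nat_lit 5) (nat_lit 616) (nat_lit 590) (nat_lit 354)) (XT.lf (nat_lit 0) (nat_lit 1650211702) (nat_lit 988) (nat_lit 17802114953) (nat_lit 1064) (nat_lit 2164422978) (nat_lit 419) (nat_lit 5) (nat_lit 432) (nat_lit 5) (nat_lit 433) (nat_lit 5) (nat_lit 617) (nat_lit 590) (nat_lit 353))) (XT.nd (nat_lit 78) (nat_lit 988) (nat_lit 0) (XT.lf (nat_lit 0) (nat_lit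 13348829743) (nat_lit 988) (nat_lit 8337322398) (nat_lit 1064) (nat_lit 163421600) (nat_lit 419) (nat_lit 5) (nat_lit 432) (nat_lit 5) (nat_lit 433) (nat_lit 5) (nat_lit 618) (nat_lit 590) (nat_lit 352)) (XT.nd (nat_lit 78) (nat_lit 0) (nat_lit 0) (XT.lf (nat_lit 0) (nat_lit 1878670828) (nat_lit 988) (nat_lit 18874439815) (nat_lit 76) (nat_lit 1333186523) (nat_lit 406) (nat_lit 5) (nat_lit 419) (nat_lit 5) (nat_lit 407) (nat_lit 5) (nat_lit 619) (nat_lit 590) (nat_lit 351)) (XT.lf (nat_lit 0) (nat_lit 4068125850) (nat_lit 988) (nat_lit 7113018234) (nat_lit 76) (nat_lit 11144415752) (nat_lit 406) (nat_lit 5) (nat_lit 419) (nat_lit 5) (nat_lit 407) (nat_lit 5) (nat_lit 620) (nat_lit 590) (nat_lit 350))))))) (XT.nd (nat_lit 702) (nat_lit 4408) (nat_lit 0) (XT.nd (nat_lit 312) (nat_lit 2508) (nat_lit 0) (XT.nd (nat_lit 156) (nat_lit 836) (nat_lit 0) (XT.nd (nat_lit 78) (nat_lit 0) (nat_lit 0) (XT.lf (nat_lit 0) (nat_lit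 4944886303) (nat_lit 912) (nat_lit 1384736809) (nat_lit 988) (nat_lit 16239420130) (nat_lit 394) (nat_lit 5) (nat_lit 406) (nat_lit 5) (nat_lit 407) (nat_lit 5) (nat_lit 621) (nat_lit 590) (nat_lit 349)) (XT.lf (nat_lit 0) (nat_lit 8736486209) (nat_lit 988) (nat_lit 5535929129) (nat_lit 76) (nat_lit 8542978797) (nat_lit 394) (nat_lit 5) (nat_lit 407) (nat_lit 5) (nat_lit 395) (nat_lit 5) (nat_lit 622) (nat_lit 590) (nat_lit 348))) (XT.nd (nat_lit 78) (nat_lit 0) (nat_lit 0) (XT.lf (nat_lit 0) (nat_lit 6871431608) (nat_lit 836) (nat_lit 4370115223) (nat_lit 912) (nat_lit 11824124538) (nat_lit 383) (nat_lit 5) (nat_lit 394) (nat_lit 5) (nat_lit 395) (nat_lit 5) (nat_lit 623) (nat_lit 590) (nat_lit 347)) (XT.lf (nat_lit 0) (nat_lit 13867634749) (nat_lit 912) (nat_lit 3759313552) (nat_lit 76) (nat_lit 5692587839) (nat_lit 383) (nat_lit 5) (nat_lit 395) (nat_lit 5) (nat_lit 384) (nat_lit 5) (nat_lit 624) (nat_lit 590)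 (nat_lit 346)))) (XT.nd (nat_lit 156) (nat_lit 1672) (nat_lit 0) (XT.nd (nat_lit 78) (nat_lit 0) (nat_lit 0) (XT.lf (nat_lit 0) (nat_lit 9009976262) (nat_lit 836) (nat_lit 7620106700) (nat_lit 912) (nat_lit 6946718981) (nat_lit 372) (nat_lit 5) (nat_lit 383) (nat_lit 5) (nat_lit 384) (nat_lit 5) (nat_lit 625) (nat_lit 590) (nat_lit 345)) (XT.lf (nat_lit 0) (nat_lit 19486416249) (nat_lit 912) (nat_lit 1773670380) (nat_lit 76) (nat_lit 2578354206) (nat_lit 372) (nat_lit 5) (nat_lit 384) (nat_lit 5) (nat_lit 373) (nat_lit 5) (nat_lit 626) (nat_lit 590) (nat_lit 344))) (XT.nd (nat_lit 78) (nat_lit 912) (nat_lit 0) (XT.lf (nat_lit 0) (nat_lit 11370470825) (nat_lit 760) (nat_lit 11150210358) (nat_lit 836) (nat_lit 1582215709) (nat_lit 362) (nat_lit 5) (nat_lit 372) (nat_lit 5) (nat_lit 373) (nat_lit 5) (nat_lit 627) (nat_lit 590) (nat_lit 343)) (XT.nd (nat_lit 78) (nat_lit 0) (nat_lit 0) (XT.lf (nat_lit 0) (nat_lit 422969708)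 (nat_lit 836) (nat_lit 814983200) (nat_lit 912) (nat_lit 23134302910) (nat_lit 350) (nat_lit 5) (nat_lit 361) (nat_lit 5) (nat_lit 362) (nat_lit 5) (nat_lit 628) (nat_lit 590) (nat_lit 342)) (XT.lf (nat_lit 0) (nat_lit 4239102175) (nat_lit 912) (nat_lit 10709032649) (nat_lit 76) (nat_lit 9695743126) (nat_lit 350) (nat_lit 5) (nat_lit 362) (nat_lit 5) (nat_lit 351) (nat_lit 5) (nat_lit 629) (nat_lit 590) (nat_lit 341)))))) (XT.nd (nat_lit 390) (nat_lit 2204) (nat_lit 0) (XT.nd (nat_lit 156) (nat_lit 1444) (nat_lit 0) (XT.nd (nat_lit 78) (nat_lit 0) (nat_lit 0) (XT.lf (nat_lit 0) (nat_lit 2824131904) (nat_lit 760) (nat_lit 4496525331) (nat_lit 836) (nat_lit 17599868083) (nat_lit 340) (nat_lit 5) (nat_lit 350) (nat_lit 5) (nat_lit 351) (nat_lit 5) (nat_lit 630) (nat_lit 590) (nat_lit 340)) (XT.lf (nat_lit 0) (nat_lit 10572895085) (nat_lit 836) (nat_lit 8472220048) (nat_lit 76) (nat_lit 6155409907) (nat_lit 340) (nat_lit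 5) (nat_lit 351) (nat_lit 5) (nat_lit 341) (nat_lit 5) (nat_lit 631) (nat_lit 590) (nat_lit 339))) (XT.nd (nat_lit 78) (nat_lit 684) (nat_lit 0) (XT.lf (nat_lit 0) (nat_lit 5462796443) (nat_lit 760) (nat_lit 8489383536) (nat_lit 836) (nat_lit 11532705163) (nat_lit 330) (nat_lit 5) (nat_lit 340) (nat_lit 5) (nat_lit 341) (nat_lit 5) (nat_lit 632) (nat_lit 590) (nat_lit 338)) (XT.nd (nat_lit 78) (nat_lit 684) (nat_lit 0) (XT.lf (nat_lit 0) (nat_lit 17467861972) (nat_lit 836) (nat_lit 6001149425) (nat_lit 76) (nat_lit 2304545243) (nat_lit 330) (nat_lit 5) (nat_lit 341) (nat_lit 5) (nat_lit 331) (nat_lit 5) (nat_lit 633) (nat_lit 590) (nat_lit 337)) (XT.lf (nat_lit 0) (nat_lit 8350021973) (nat_lit 684) (nat_lit 12811128474) (nat_lit 760) (nat_lit 4904705680) (nat_lit 321) (nat_lit 5) (nat_lit 330) (nat_lit 5) (nat_lit 331) (nat_lit 5) (nat_lit 634) (nat_lit 590) (nat_lit 336))))) (XT.nd (nat_lit 156) (nat_lit 1368)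 (nat_lit 0) (XT.nd (nat_lit 78) (nat_lit 836) (nat_lit 0) (XT.lf (nat_lit 0) (nat_lit 23066109223) (nat_lit 684) (nat_lit 1899363399) (nat_lit 760) (nat_lit 1397786030) (nat_lit 321) (nat_lit 5) (nat_lit 330) (nat_lit 5) (nat_lit 331) (nat_lit 5) (nat_lit 635) (nat_lit 590) (nat_lit 335)) (XT.lf (nat_lit 0) (nat_lit 2283096482) (nat_lit 836) (nat_lit 15181678288) (nat_lit 76) (nat_lit 9198903743) (nat_lit 310) (nat_lit 5) (nat_lit 321) (nat_lit 5) (nat_lit 311) (nat_lit 5) (nat_lit 636) (nat_lit 590) (nat_lit 334))) (XT.nd (nat_lit 78) (nat_lit 1368) (nat_lit 0) (XT.lf (nat_lit 0) (nat_lit 6050721316) (nat_lit 836) (nat_lit 393683551) (nat_lit 76) (nat_lit 20524880680) (nat_lit 310) (nat_lit 5) (nat_lit 321) (nat_lit 5) (nat_lit 311) (nat_lit 5) (nat_lit 637) (nat_lit 590) (nat_lit 333)) (XT.nd (nat_lit 78) (nat_lit 684) (nat_lit 0) (XT.lf (nat_lit 0) (nat_lit 10019132031) (nat_lit 760) (nat_lit 12429057093) (nat_lit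 76) (nat_lit 4830307305) (nat_lit 301) (nat_lit 5) (nat_lit 311) (nat_lit 5) (nat_lit 302) (nat_lit 5) (nat_lit 638) (nat_lit 590) (nat_lit 332)) (XT.lf (nat_lit 0) (nat_lit 2799513112) (nat_lit 684) (nat_lit 11327977244) (nat_lit 760) (nat_lit 13465189954) (nat_lit 292) (nat_lit 5) (nat_lit 301) (nat_lit 5) (nat_lit 302) (nat_lit 5) (nat_lit 639) (nat_lit 590) (nat_lit 331))))))))
noncomputable def xc226 : XT := (XT.nd (nat_lit 78390) (nat_lit 0) (nat_lit 9728) (XT.nd (nat_lit 77610) (nat_lit 0) (nat_lit 15352) (XT.nd (nat_lit 312) (nat_lit 608) (nat_lit 0) (XT.nd (nat_lit 156) (nat_lit 760) (nat_lit 0) (XT.nd (nat_lit 78) (nat_lit 608) (nat_lit 0) (XT.lf (nat_lit 0) (nat_lit 18399166481) (nat_lit 760) (nat_lit 9414455579) (nat_lit 76) (nat_lit 97903156) (nat_lit 292) (nat_lit 5) (nat_lit 302) (nat_lit 5) (nat_lit 293) (nat_lit 5) (nat_lit 640) (nat_lit 590) (nat_lit 330)) (XT.lf (nat_lit 0) (nat_lit 6275723400)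 (nat_lit 608) (nat_lit 16593473228) (nat_lit 684) (nat_lit 5365292337) (nat_lit 284) (nat_lit 5) (nat_lit 292) (nat_lit 5) (nat_lit 293) (nat_lit 5) (nat_lit 641) (nat_lit 590) (nat_lit 329))) (XT.nd (nat_lit 78) (nat_lit 760) (nat_lit 0) (XT.lf (nat_lit 0) (nat_lit 22403949320) (nat_lit 608) (nat_lit 5085042534) (nat_lit 684) (nat_lit 1073713193) (nat_lit 284) (nat_lit 5) (nat_lit 292) (nat_lit 5) (nat_lit 293) (nat_lit 5) (nat_lit 642) (nat_lit 590) (nat_lit 328)) (XT.lf (nat_lit 0) (nat_lit 3366709563) (nat_lit 760) (nat_lit 18875117261) (nat_lit 76) (nat_lit 6653103152) (nat_lit 274) (nat_lit 5) (nat_lit 284) (nat_lit 5) (nat_lit 275) (nat_lit 5) (nat_lit 643) (nat_lit 590) (nat_lit 327)))) (XT.nd (nat_lit 77064) (nat_lit 0) (nat_lit 15276) (XT.nd (nat_lit 78) (nat_lit 608) (nat_lit 0) (XT.lf (nat_lit 0) (nat_lit 7954109311) (nat_lit 760) (nat_lit 2671969482) (nat_lit 76) (nat_lit 18606128081) (nat_lit 274)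 (nat_lit 5) (nat_lit 284) (nat_lit 5) (nat_lit 275) (nat_lit 5) (nat_lit 644) (nat_lit 590) (nat_lit 326)) (XT.lf (nat_lit 0) (nat_lit 12730229653) (nat_lit 684) (nat_lit 15546974577) (nat_lit 76) (nat_lit 1297085949) (nat_lit 266) (nat_lit 5) (nat_lit 275) (nat_lit 5) (nat_lit 267) (nat_lit 5) (nat_lit 645) (nat_lit 590) (nat_lit 325))) (XT.nd (nat_lit 78) (nat_lit 0) (nat_lit 0) (XT.lf (nat_lit 0) (nat_lit 2148614045) (nat_lit 0) (nat_lit 2148614045) (nat_lit 1748) (nat_lit 4075160055) (nat_lit 467) (nat_lit 5) (nat_lit 467) (nat_lit 3) (nat_lit 490) (nat_lit 3) (nat_lit 591) (nat_lit 591) (nat_lit 378)) (XT.nd (nat_lit 78) (nat_lit 0) (nat_lit 0) (XT.lf (nat_lit 0) (nat_lit 8941380093) (nat_lit 1748) (nat_lit 4265200559) (nat_lit 1824) (nat_lit 3700386748) (nat_lit 467) (nat_lit 5) (nat_lit 490) (nat_lit 3) (nat_lit 491) (nat_lit 5) (nat_lit 592) (nat_lit 591) (nat_lit 377)) (XT.lf (nat_lit 76) (nat_lit 4102897035)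 (nat_lit 0) (nat_lit 5241255777) (nat_lit 1824) (nat_lit 7727272285) (nat_lit 468) (nat_lit 5) (nat_lit 467) (nat_lit 5) (nat_lit 491) (nat_lit 5) (nat_lit 593) (nat_lit 591) (nat_lit 376)))))) (XT.nd (nat_lit 390) (nat_lit 0) (nat_lit 152) (XT.nd (nat_lit 156) (nat_lit 0) (nat_lit 76) (XT.nd (nat_lit 78) (nat_lit 0) (nat_lit 0) (XT.lf (nat_lit 0) (nat_lit 9796445118) (nat_lit 1748) (nat_lit 4564705991) (nat_lit 1824) (nat_lit 2877192507) (nat_lit 468) (nat_lit 5) (nat_lit 491) (nat_lit 5) (nat_lit 492) (nat_lit 5) (nat_lit 594) (nat_lit 591) (nat_lit 375)) (XT.lf (nat_lit 76) (nat_lit 4021927934) (nat_lit 0) (nat_lit 6290729698) (nat_lit 1824) (nat_lit 7094846323) (nat_lit 469) (nat_lit 5) (nat_lit 468) (nat_lit 5) (nat_lit 492) (nat_lit 5) (nat_lit 595) (nat_lit 591) (nat_lit 374))) (XT.nd (nat_lit 78) (nat_lit 0) (nat_lit 0) (XT.lf (nat_lit 0) (nat_lit 10876794830) (nat_lit 1748) (nat_lit 4753485861) (nat_lit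 1824) (nat_lit 1949015716) (nat_lit 469) (nat_lit 5) (nat_lit 492) (nat_lit 5) (nat_lit 493) (nat_lit 5) (nat_lit 596) (nat_lit 591) (nat_lit 373)) (XT.nd (nat_lit 78) (nat_lit 0) (nat_lit 76) (XT.lf (nat_lit 76) (nat_lit 4059477837) (nat_lit 0) (nat_lit 7455031752) (nat_lit 1824) (nat_lit 6238770121) (nat_lit 470) (nat_lit 5) (nat_lit 469) (nat_lit 5) (nat_lit 493) (nat_lit 5) (nat_lit 597) (nat_lit 591) (nat_lit 372)) (XT.lf (nat_lit 0) (nat_lit 12197209103) (nat_lit 1748) (nat_lit 4826373147) (nat_lit 1824) (nat_lit 906516701) (nat_lit 470) (nat_lit 5) (nat_lit 493) (nat_lit 5) (nat_lit 494) (nat_lit 5) (nat_lit 598) (nat_lit 591) (nat_lit 371))))) (XT.nd (nat_lit 156) (nat_lit 0) (nat_lit 76) (XT.nd (nat_lit 78) (nat_lit 0) (nat_lit 0) (XT.lf (nat_lit 76) (nat_lit 4221005028) (nat_lit 0) (nat_lit 8743827458) (nat_lit 1824) (nat_lit 5144197557) (nat_lit 471) (nat_lit 5) (nat_lit 470) (nat_lit 5) (nat_lit 494)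 (nat_lit 5) (nat_lit 599) (nat_lit 591) (nat_lit 370)) (XT.lf (nat_lit 76) (nat_lit 13511388517) (nat_lit 0) (nat_lit 263386695) (nat_lit 1824) (nat_lit 4516226053) (nat_lit 471) (nat_lit 5) (nat_lit 470) (nat_lit 5) (nat_lit 494) (nat_lit 5) (nat_lit 600) (nat_lit 591) (nat_lit 369))) (XT.nd (nat_lit 78) (nat_lit 0) (nat_lit 0) (XT.lf (nat_lit 76) (nat_lit 4512276068) (nat_lit 0) (nat_lit 10167087935) (nat_lit 1824) (nat_lit 3795679793) (nat_lit 472) (nat_lit 5) (nat_lit 471) (nat_lit 5) (nat_lit 495) (nat_lit 5) (nat_lit 601) (nat_lit 591) (nat_lit 368)) (XT.nd (nat_lit 78) (nat_lit 0) (nat_lit 76) (XT.lf (nat_lit 76) (nat_lit 14049627372) (nat_lit 0) (nat_lit 1581004359) (nat_lit 1824) (nat_lit 3031564520) (nat_lit 472) (nat_lit 5) (nat_lit 471) (nat_lit 5) (nat_lit 495) (nat_lit 5) (nat_lit 602) (nat_lit 591) (nat_lit 367)) (XT.lf (nat_lit 76) (nat_lit 4939373294) (nat_lit 0) (nat_lit 11735112335) (nat_lit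 1824) (nat_lit 2177135705) (nat_lit 473) (nat_lit 5) (nat_lit 472) (nat_lit 5) (nat_lit 496) (nat_lit 5) (nat_lit 603) (nat_lit 591) (nat_lit 366))))))) (XT.nd (nat_lit 702) (nat_lit 4180) (nat_lit 0) (XT.nd (nat_lit 312) (nat_lit 0) (nat_lit 76) (XT.nd (nat_lit 156) (nat_lit 1748) (nat_lit 0) (XT.nd (nat_lit 78) (nat_lit 0) (nat_lit 76) (XT.lf (nat_lit 76) (nat_lit 14730847316) (nat_lit 0) (nat_lit 3044695864) (nat_lit 1824) (nat_lit 1268565990) (nat_lit 473) (nat_lit 5) (nat_lit 472) (nat_lit 5) (nat_lit 496) (nat_lit 5) (nat_lit 604) (nat_lit 591) (nat_lit 365)) (XT.lf (nat_lit 76) (nat_lit 5508702771) (nat_lit 0) (nat_lit 13458550767) (nat_lit 1824) (nat_lit 271821358) (nat_lit 474) (nat_lit 5) (nat_lit 473) (nat_lit 5) (nat_lit 497) (nat_lit 5) (nat_lit 605) (nat_lit 591) (nat_lit 364))) (XT.nd (nat_lit 78) (nat_lit 0) (nat_lit 76) (XT.lf (nat_lit 0) (nat_lit 779511243) (nat_lit 1824) (nat_lit 3880485740)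 (nat_lit 1900) (nat_lit 14776958527) (nat_lit 449) (nat_lit 5) (nat_lit 473) (nat_lit 5) (nat_lit 474) (nat_lit 5) (nat_lit 606) (nat_lit 591) (nat_lit 363)) (XT.lf (nat_lit 0) (nat_lit 1912288183) (nat_lit 1824) (nat_lit 13423307132) (nat_lit 1900) (nat_lit 4301882062) (nat_lit 450) (nat_lit 5) (nat_lit 474) (nat_lit 5) (nat_lit 475) (nat_lit 5) (nat_lit 607) (nat_lit 591) (nat_lit 362)))) (XT.nd (nat_lit 156) (nat_lit 0) (nat_lit 76) (XT.nd (nat_lit 78) (nat_lit 0) (nat_lit 76) (XT.lf (nat_lit 0) (nat_lit 3120092280) (nat_lit 1824) (nat_lit 3312721233) (nat_lit 1900) (nat_lit 13408149445) (nat_lit 450) (nat_lit 5) (nat_lit 474) (nat_lit 5) (nat_lit 475) (nat_lit 5) (nat_lit 608) (nat_lit 591) (nat_lit 361)) (XT.lf (nat_lit 0) (nat_lit 4410978335) (nat_lit 1824) (nat_lit 12975588106) (nat_lit 1900) (nat_lit 2660773986) (nat_lit 451) (nat_lit 5) (nat_lit 475) (nat_lit 5) (nat_lit 476) (nat_lit 5) (nat_lit 609)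 (nat_lit 591) (nat_lit 360))) (XT.nd (nat_lit 78) (nat_lit 0) (nat_lit 76) (XT.lf (nat_lit 0) (nat_lit 5788126560) (nat_lit 1824) (nat_lit 2594855709) (nat_lit 1900) (nat_lit 11873654968) (nat_lit 451) (nat_lit 5) (nat_lit 475) (nat_lit 5) (nat_lit 476) (nat_lit 5) (nat_lit 610) (nat_lit 591) (nat_lit 359)) (XT.nd (nat_lit 78) (nat_lit 0) (nat_lit 0) (XT.lf (nat_lit 0) (nat_lit 7246491424) (nat_lit 1824) (nat_lit 12378493839) (nat_lit 1900) (nat_lit 844061915) (nat_lit 452) (nat_lit 5) (nat_lit 476) (nat_lit 5) (nat_lit 477) (nat_lit 5) (nat_lit 611) (nat_lit 591) (nat_lit 358)) (XT.lf (nat_lit 0) (nat_lit 8802693816) (nat_lit 1824) (nat_lit 1719673201) (nat_lit 1900) (nat_lit 10161965550) (nat_lit 452) (nat_lit 5) (nat_lit 476) (nat_lit 5) (nat_lit 477) (nat_lit 5) (nat_lit 612) (nat_lit 591) (nat_lit 357)))))) (XT.nd (nat_lit 390) (nat_lit 2888) (nat_lit 0) (XT.nd (nat_lit 156) (nat_lit 1520) (nat_lit 0) (XT.nd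 (nat_lit 78) (nat_lit 0) (nat_lit 76) (XT.lf (nat_lit 76) (nat_lit 9270447727) (nat_lit 0) (nat_lit 1175473824) (nat_lit 1900) (nat_lit 10456884728) (nat_lit 453) (nat_lit 5) (nat_lit 452) (nat_lit 5) (nat_lit 477) (nat_lit 5) (nat_lit 613) (nat_lit 591) (nat_lit 356)) (XT.lf (nat_lit 0) (nat_lit 12183676480) (nat_lit 1824) (nat_lit 679608636) (nat_lit 1900) (nat_lit 8261131725) (nat_lit 453) (nat_lit 5) (nat_lit 477) (nat_lit 5) (nat_lit 478) (nat_lit 5) (nat_lit 614) (nat_lit 591) (nat_lit 355))) (XT.nd (nat_lit 78) (nat_lit 1596) (nat_lit 0) (XT.lf (nat_lit 76) (nat_lit 10620239956) (nat_lit 0) (nat_lit 3408545869) (nat_lit 1900) (nat_lit 7320222419) (nat_lit 454) (nat_lit 5) (nat_lit 453) (nat_lit 5) (nat_lit 478) (nat_lit 5) (nat_lit 615) (nat_lit 591) (nat_lit 354)) (XT.nd (nat_lit 78) (nat_lit 0) (nat_lit 0) (XT.lf (nat_lit 0) (nat_lit 540348747) (nat_lit 1672) (nat_lit 15414955394) (nat_lit 1748) (nat_lit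 5621897805) (nat_lit 432) (nat_lit 5) (nat_lit 454) (nat_lit 5) (nat_lit 455) (nat_lit 5) (nat_lit 616) (nat_lit 591) (nat_lit 353)) (XT.lf (nat_lit 0) (nat_lit 12153907710) (nat_lit 1672) (nat_lit 5856846760) (nat_lit 1748) (nat_lit 3797397610) (nat_lit 432) (nat_lit 5) (nat_lit 454) (nat_lit 5) (nat_lit 455) (nat_lit 5) (nat_lit 617) (nat_lit 591) (nat_lit 352))))) (XT.nd (nat_lit 156) (nat_lit 1824) (nat_lit 0) (XT.nd (nat_lit 78) (nat_lit 76) (nat_lit 0) (XT.lf (nat_lit 0) (nat_lit 1952843687) (nat_lit 988) (nat_lit 18188484907) (nat_lit 1064) (nat_lit 1901712909) (nat_lit 419) (nat_lit 5) (nat_lit 432) (nat_lit 5) (nat_lit 433) (nat_lit 5) (nat_lit 618) (nat_lit 591) (nat_lit 351)) (XT.lf (nat_lit 0) (nat_lit 131560159) (nat_lit 1064) (nat_lit 8401358844) (nat_lit 76) (nat_lit 13747704272) (nat_lit 418) (nat_lit 5) (nat_lit 432) (nat_lit 5) (nat_lit 419) (nat_lit 5) (nat_lit 619) (nat_lit 591) (nat_lit 350)))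 (XT.nd (nat_lit 78) (nat_lit 912) (nat_lit 0) (XT.lf (nat_lit 0) (nat_lit 2208068573) (nat_lit 988) (nat_lit 18979329668) (nat_lit 76) (nat_lit 1334746907) (nat_lit 406) (nat_lit 5) (nat_lit 419) (nat_lit 5) (nat_lit 407) (nat_lit 5) (nat_lit 620) (nat_lit 591) (nat_lit 349)) (XT.nd (nat_lit 78) (nat_lit 912) (nat_lit 0) (XT.lf (nat_lit 0) (nat_lit 4435590649) (nat_lit 988) (nat_lit 6988024732) (nat_lit 76) (nat_lit 11342692942) (nat_lit 406) (nat_lit 5) (nat_lit 419) (nat_lit 5) (nat_lit 407) (nat_lit 5) (nat_lit 621) (nat_lit 591) (nat_lit 348)) (XT.lf (nat_lit 0) (nat_lit 5309279646) (nat_lit 912) (nat_lit 1429152135) (nat_lit 988) (nat_lit 16276308136) (nat_lit 394) (nat_lit 5) (nat_lit 406) (nat_lit 5) (nat_lit 407) (nat_lit 5) (nat_lit 622) (nat_lit 591) (nat_lit 347))))))))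
noncomputable def xc227 : XT := (XT.nd (nat_lit 1482) (nat_lit 1368) (nat_lit 0) (XT.nd (nat_lit 702) (nat_lit 3648) (nat_lit 0) (XT.nd (nat_lit 312) (nat_lit 2432) (nat_lit 0) (XT.nd (nat_lit 156) (nat_lit 836) (nat_lit 0) (XT.nd (nat_lit 78) (nat_lit 836) (nat_lit 0) (XT.lf (nat_lit 0) (nat_lit 9187792057) (nat_lit 988) (nat_lit 5380678724) (nat_lit 76) (nat_lit 8697660631) (nat_lit 394) (nat_lit 5) (nat_lit 407) (nat_lit 5) (nat_lit 395) (nat_lit 5) (nat_lit 623) (nat_lit 591) (nat_lit 346)) (XT.lf (nat_lit 0) (nat_lit 7273079431) (nat_lit 836) (nat_lit 4466166884) (nat_lit 912) (nat_lit 11782242793) (nat_lit 383) (nat_lit 5) (nat_lit 394) (nat_lit 5) (nat_lit 395) (nat_lit 5) (nat_lit 624) (nat_lit 591) (nat_lit 345))) (XT.nd (nat_lit 78) (nat_lit 836) (nat_lit 0) (XT.lf (nat_lit 0) (nat_lit 14412450573) (nat_lit 912) (nat_lit 3570018414) (nat_lit 76) (nat_lit 5798071048) (nat_lit 383) (nat_lit 5) (nat_lit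 395) (nat_lit 5) (nat_lit 384) (nat_lit 5) (nat_lit 625) (nat_lit 591) (nat_lit 344)) (XT.lf (nat_lit 0) (nat_lit 9452917187) (nat_lit 836) (nat_lit 7773692079) (nat_lit 912) (nat_lit 6816413393) (nat_lit 372) (nat_lit 5) (nat_lit 383) (nat_lit 5) (nat_lit 384) (nat_lit 5) (nat_lit 626) (nat_lit 591) (nat_lit 343)))) (XT.nd (nat_lit 156) (nat_lit 1672) (nat_lit 0) (XT.nd (nat_lit 78) (nat_lit 760) (nat_lit 0) (XT.lf (nat_lit 0) (nat_lit 20134886694) (nat_lit 912) (nat_lit 1546335548) (nat_lit 76) (nat_lit 2628776461) (nat_lit 372) (nat_lit 5) (nat_lit 384) (nat_lit 5) (nat_lit 373) (nat_lit 5) (nat_lit 627) (nat_lit 591) (nat_lit 342)) (XT.lf (nat_lit 0) (nat_lit 11858959480) (nat_lit 760) (nat_lit 11367499172) (nat_lit 836) (nat_lit 1353353502) (nat_lit 362) (nat_lit 5) (nat_lit 372) (nat_lit 5) (nat_lit 373) (nat_lit 5) (nat_lit 628) (nat_lit 591) (nat_lit 341))) (XT.nd (nat_lit 78) (nat_lit 760) (nat_lit 0)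 (XT.lf (nat_lit 0) (nat_lit 694219304) (nat_lit 836) (nat_lit 822247824) (nat_lit 912) (nat_lit 23338124680) (nat_lit 350) (nat_lit 5) (nat_lit 361) (nat_lit 5) (nat_lit 362) (nat_lit 5) (nat_lit 629) (nat_lit 591) (nat_lit 340)) (XT.nd (nat_lit 78) (nat_lit 760) (nat_lit 0) (XT.lf (nat_lit 0) (nat_lit 4572721299) (nat_lit 912) (nat_lit 10660624413) (nat_lit 76) (nat_lit 9898399699) (nat_lit 350) (nat_lit 5) (nat_lit 362) (nat_lit 5) (nat_lit 351) (nat_lit 5) (nat_lit 630) (nat_lit 591) (nat_lit 339)) (XT.lf (nat_lit 0) (nat_lit 3141475873) (nat_lit 760) (nat_lit 4571246113) (nat_lit 836) (nat_lit 17701268103) (nat_lit 340) (nat_lit 5) (nat_lit 350) (nat_lit 5) (nat_lit 351) (nat_lit 5) (nat_lit 631) (nat_lit 591) (nat_lit 338)))))) (XT.nd (nat_lit 390) (nat_lit 2204) (nat_lit 0) (XT.nd (nat_lit 156) (nat_lit 684) (nat_lit 0) (XT.nd (nat_lit 78) (nat_lit 760) (nat_lit 0) (XT.lf (nat_lit 0) (nat_lit 11025284710)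 (nat_lit 836) (nat_lit 8381166101) (nat_lit 76) (nat_lit 6293234032) (nat_lit 340) (nat_lit 5) (nat_lit 351) (nat_lit 5) (nat_lit 341) (nat_lit 5) (nat_lit 632) (nat_lit 591) (nat_lit 337)) (XT.lf (nat_lit 0) (nat_lit 5830836915) (nat_lit 760) (nat_lit 8638274437) (nat_lit 836) (nat_lit 11520682304) (nat_lit 330) (nat_lit 5) (nat_lit 340) (nat_lit 5) (nat_lit 341) (nat_lit 5) (nat_lit 633) (nat_lit 591) (nat_lit 336))) (XT.nd (nat_lit 78) (nat_lit 684) (nat_lit 0) (XT.lf (nat_lit 0) (nat_lit 18050575534) (nat_lit 836) (nat_lit 5862899810) (nat_lit 76) (nat_lit 2370854486) (nat_lit 330) (nat_lit 5) (nat_lit 341) (nat_lit 5) (nat_lit 331) (nat_lit 5) (nat_lit 634) (nat_lit 591) (nat_lit 335)) (XT.nd (nat_lit 78) (nat_lit 0) (nat_lit 0) (XT.lf (nat_lit 0) (nat_lit 8773595855) (nat_lit 684) (nat_lit 13041224154) (nat_lit 760) (nat_lit 4767714097) (nat_lit 321) (nat_lit 5) (nat_lit 330) (nat_lit 5) (nat_lit 331) (nat_lit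 5) (nat_lit 635) (nat_lit 591) (nat_lit 334)) (XT.lf (nat_lit 0) (nat_lit 23778973999) (nat_lit 684) (nat_lit 1911736070) (nat_lit 760) (nat_lit 1195265577) (nat_lit 321) (nat_lit 5) (nat_lit 330) (nat_lit 5) (nat_lit 331) (nat_lit 5) (nat_lit 636) (nat_lit 591) (nat_lit 333))))) (XT.nd (nat_lit 156) (nat_lit 1368) (nat_lit 0) (XT.nd (nat_lit 78) (nat_lit 0) (nat_lit 0) (XT.lf (nat_lit 0) (nat_lit 2553577735) (nat_lit 836) (nat_lit 15228054903) (nat_lit 76) (nat_lit 9410794589) (nat_lit 310) (nat_lit 5) (nat_lit 321) (nat_lit 5) (nat_lit 311) (nat_lit 5) (nat_lit 637) (nat_lit 591) (nat_lit 332)) (XT.lf (nat_lit 0) (nat_lit 6392146843) (nat_lit 836) (nat_lit 149344525) (nat_lit 76) (nat_lit 20962743756) (nat_lit 310) (nat_lit 5) (nat_lit 321) (nat_lit 5) (nat_lit 311) (nat_lit 5) (nat_lit 638) (nat_lit 591) (nat_lit 331))) (XT.nd (nat_lit 78) (nat_lit 684) (nat_lit 0) (XT.lf (nat_lit 0) (nat_lit 10437443947) (nat_lit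 760) (nat_lit 12422916347) (nat_lit 76) (nat_lit 4959320114) (nat_lit 301) (nat_lit 5) (nat_lit 311) (nat_lit 5) (nat_lit 302) (nat_lit 5) (nat_lit 639) (nat_lit 591) (nat_lit 330)) (XT.nd (nat_lit 78) (nat_lit 0) (nat_lit 0) (XT.lf (nat_lit 0) (nat_lit 3108549460) (nat_lit 684) (nat_lit 11516789799) (nat_lit 760) (nat_lit 13514861847) (nat_lit 292) (nat_lit 5) (nat_lit 301) (nat_lit 5) (nat_lit 302) (nat_lit 5) (nat_lit 640) (nat_lit 591) (nat_lit 329)) (XT.lf (nat_lit 0) (nat_lit 18978467628) (nat_lit 760) (nat_lit 9350652713) (nat_lit 76) (nat_lit 136382721) (nat_lit 292) (nat_lit 5) (nat_lit 302) (nat_lit 5) (nat_lit 293) (nat_lit 5) (nat_lit 641) (nat_lit 591) (nat_lit 328))))))) (XT.nd (nat_lit 77688) (nat_lit 0) (nat_lit 13300) (XT.nd (nat_lit 77298) (nat_lit 0) (nat_lit 14668) (XT.nd (nat_lit 156) (nat_lit 760) (nat_lit 0) (XT.nd (nat_lit 78) (nat_lit 0) (nat_lit 0) (XT.lf (nat_lit 0) (nat_lit 6651671347)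 (nat_lit 608) (nat_lit 16883709525) (nat_lit 684) (nat_lit 5259596080) (nat_lit 284) (nat_lit 5) (nat_lit 292) (nat_lit 5) (nat_lit 293) (nat_lit 5) (nat_lit 642) (nat_lit 591) (nat_lit 327)) (XT.lf (nat_lit 0) (nat_lit 23097551324) (nat_lit 608) (nat_lit 5145926554) (nat_lit 684) (nat_lit 886361864) (nat_lit 284) (nat_lit 5) (nat_lit 292) (nat_lit 5) (nat_lit 293) (nat_lit 5) (nat_lit 643) (nat_lit 591) (nat_lit 326))) (XT.nd (nat_lit 78) (nat_lit 0) (nat_lit 0) (XT.lf (nat_lit 0) (nat_lit 3637970301) (nat_lit 760) (nat_lit 19002148459) (nat_lit 76) (nat_lit 6828606986) (nat_lit 274) (nat_lit 5) (nat_lit 284) (nat_lit 5) (nat_lit 275) (nat_lit 5) (nat_lit 644) (nat_lit 591) (nat_lit 325)) (XT.lf (nat_lit 0) (nat_lit 8313119485) (nat_lit 760) (nat_lit 2479848923) (nat_lit 76) (nat_lit 19019860221) (nat_lit 274) (nat_lit 5) (nat_lit 284) (nat_lit 5) (nat_lit 275) (nat_lit 5) (nat_lit 645) (nat_lit 591) (nat_lit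 324)))) (XT.nd (nat_lit 156) (nat_lit 0) (nat_lit 0) (XT.nd (nat_lit 78) (nat_lit 0) (nat_lit 0) (XT.lf (nat_lit 0) (nat_lit 2309135481) (nat_lit 0) (nat_lit 2309135481) (nat_lit 1748) (nat_lit 3916826153) (nat_lit 467) (nat_lit 5) (nat_lit 467) (nat_lit 3) (nat_lit 490) (nat_lit 3) (nat_lit 592) (nat_lit 592) (nat_lit 376)) (XT.lf (nat_lit 0) (nat_lit 9579688289) (nat_lit 1748) (nat_lit 4109227795) (nat_lit 1824) (nat_lit 3546928842) (nat_lit 467) (nat_lit 5) (nat_lit 490) (nat_lit 3) (nat_lit 491) (nat_lit 5) (nat_lit 593) (nat_lit 592) (nat_lit 375))) (XT.nd (nat_lit 78) (nat_lit 0) (nat_lit 76) (XT.lf (nat_lit 76) (nat_lit 4424644404) (nat_lit 0) (nat_lit 5558418857) (nat_lit 1824) (nat_lit 7420678994) (nat_lit 468) (nat_lit 5) (nat_lit 467) (nat_lit 5) (nat_lit 491) (nat_lit 5) (nat_lit 594) (nat_lit 592) (nat_lit 374)) (XT.nd (nat_lit 78) (nat_lit 0) (nat_lit 0) (XT.lf (nat_lit 0) (nat_lit 10434186525) (nat_lit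 1748) (nat_lit 4410726180) (nat_lit 1824) (nat_lit 2729292128) (nat_lit 468) (nat_lit 5) (nat_lit 491) (nat_lit 5) (nat_lit 492) (nat_lit 5) (nat_lit 595) (nat_lit 592) (nat_lit 373)) (XT.lf (nat_lit 76) (nat_lit 4346026780) (nat_lit 0) (nat_lit 6607615523) (nat_lit 1824) (nat_lit 6793249054) (nat_lit 469) (nat_lit 5) (nat_lit 468) (nat_lit 5) (nat_lit 492) (nat_lit 5) (nat_lit 596) (nat_lit 592) (nat_lit 372)))))) (XT.nd (nat_lit 390) (nat_lit 1520) (nat_lit 0) (XT.nd (nat_lit 156) (nat_lit 0) (nat_lit 76) (XT.nd (nat_lit 78) (nat_lit 0) (nat_lit 0) (XT.lf (nat_lit 0) (nat_lit 11519321861) (nat_lit 1748) (nat_lit 4599865848) (nat_lit 1824) (nat_lit 1803128091) (nat_lit 469) (nat_lit 5) (nat_lit 492) (nat_lit 5) (nat_lit 493) (nat_lit 5) (nat_lit 597) (nat_lit 592) (nat_lit 371)) (XT.lf (nat_lit 76) (nat_lit 4387721007) (nat_lit 0) (nat_lit 7775340785) (nat_lit 1824) (nat_lit 5936852869) (nat_lit 470) (nat_lit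 5) (nat_lit 469) (nat_lit 5) (nat_lit 493) (nat_lit 5) (nat_lit 598) (nat_lit 592) (nat_lit 370))) (XT.nd (nat_lit 78) (nat_lit 0) (nat_lit 0) (XT.lf (nat_lit 0) (nat_lit 12850124278) (nat_lit 1748) (nat_lit 4671336046) (nat_lit 1824) (nat_lit 758997065) (nat_lit 470) (nat_lit 5) (nat_lit 493) (nat_lit 5) (nat_lit 494) (nat_lit 5) (nat_lit 599) (nat_lit 592) (nat_lit 369)) (XT.nd (nat_lit 78) (nat_lit 0) (nat_lit 0) (XT.lf (nat_lit 76) (nat_lit 4555334662) (nat_lit 0) (nat_lit 9071369005) (nat_lit 1824) (nat_lit 4836392622) (nat_lit 471) (nat_lit 5) (nat_lit 470) (nat_lit 5) (nat_lit 494) (nat_lit 5) (nat_lit 600) (nat_lit 592) (nat_lit 368)) (XT.lf (nat_lit 76) (nat_lit 14026625634) (nat_lit 0) (nat_lit 418325996) (nat_lit 1824) (nat_lit 4203914410) (nat_lit 471) (nat_lit 5) (nat_lit 470) (nat_lit 5) (nat_lit 494) (nat_lit 5) (nat_lit 601) (nat_lit 592) (nat_lit 367))))) (XT.nd (nat_lit 156) (nat_lit 1672) (nat_lit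 0) (XT.nd (nat_lit 78) (nat_lit 0) (nat_lit 0) (XT.lf (nat_lit 76) (nat_lit 4854787319) (nat_lit 0) (nat_lit 10505791201) (nat_lit 1824) (nat_lit 3476153186) (nat_lit 472) (nat_lit 5) (nat_lit 471) (nat_lit 5) (nat_lit 495) (nat_lit 5) (nat_lit 602) (nat_lit 592) (nat_lit 366)) (XT.lf (nat_lit 76) (nat_lit 14577939262) (nat_lit 0) (nat_lit 1745331805) (nat_lit 1824) (nat_lit 2704509336) (nat_lit 472) (nat_lit 5) (nat_lit 471) (nat_lit 5) (nat_lit 495) (nat_lit 5) (nat_lit 603) (nat_lit 592) (nat_lit 365))) (XT.nd (nat_lit 78) (nat_lit 1748) (nat_lit 0) (XT.lf (nat_lit 76) (nat_lit 5292318336) (nat_lit 0) (nat_lit 12089037634) (nat_lit 1824) (nat_lit 1839772102) (nat_lit 473) (nat_lit 5) (nat_lit 472) (nat_lit 5) (nat_lit 496) (nat_lit 5) (nat_lit 604) (nat_lit 592) (nat_lit 364)) (XT.nd (nat_lit 78) (nat_lit 1748) (nat_lit 0) (XT.lf (nat_lit 76) (nat_lit 15274638357) (nat_lit 0) (nat_lit 3222475126) (nat_lit 1824)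 (nat_lit 920499744) (nat_lit 473) (nat_lit 5) (nat_lit 472) (nat_lit 5) (nat_lit 496) (nat_lit 5) (nat_lit 605) (nat_lit 592) (nat_lit 363)) (XT.lf (nat_lit 0) (nat_lit 88613783) (nat_lit 1824) (nat_lit 13742692502) (nat_lit 1900) (nat_lit 5785286679) (nat_lit 449) (nat_lit 5) (nat_lit 473) (nat_lit 5) (nat_lit 474) (nat_lit 5) (nat_lit 606) (nat_lit 592) (nat_lit 362))))))))
noncomputable def xc228 : XT := (XT.nd (nat_lit 1482) (nat_lit 7524) (nat_lit 0) (XT.nd (nat_lit 702) (nat_lit 5016) (nat_lit 0) (XT.nd (nat_lit 312) (nat_lit 0) (nat_lit 152) (XT.nd (nat_lit 156) (nat_lit 0) (nat_lit 76) (XT.nd (nat_lit 78) (nat_lit 0) (nat_lit 76) (XT.lf (nat_lit 0) (nat_lit 1150234098) (nat_lit 1824) (nat_lit 3702716118) (nat_lit 1900) (nat_lit 14965588098) (nat_lit 449) (nat_lit 5) (nat_lit 473) (nat_lit 5) (nat_lit 474) (nat_lit 5) (nat_lit 607) (nat_lit 592) (nat_lit 361)) (XT.lf (nat_lit 0) (nat_lit 2299726319) (nat_lit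 1824) (nat_lit 13430401078) (nat_lit 1900) (nat_lit 4293063079) (nat_lit 450) (nat_lit 5) (nat_lit 474) (nat_lit 5) (nat_lit 475) (nat_lit 5) (nat_lit 608) (nat_lit 592) (nat_lit 360))) (XT.nd (nat_lit 78) (nat_lit 0) (nat_lit 76) (XT.lf (nat_lit 0) (nat_lit 3524839588) (nat_lit 1824) (nat_lit 3122728406) (nat_lit 1900) (nat_lit 13583315744) (nat_lit 450) (nat_lit 5) (nat_lit 474) (nat_lit 5) (nat_lit 475) (nat_lit 5) (nat_lit 609) (nat_lit 592) (nat_lit 359)) (XT.lf (nat_lit 0) (nat_lit 4835946390) (nat_lit 1824) (nat_lit 12973205082) (nat_lit 1900) (nat_lit 2632350235) (nat_lit 451) (nat_lit 5) (nat_lit 475) (nat_lit 5) (nat_lit 476) (nat_lit 5) (nat_lit 610) (nat_lit 592) (nat_lit 358)))) (XT.nd (nat_lit 156) (nat_lit 0) (nat_lit 76) (XT.nd (nat_lit 78) (nat_lit 0) (nat_lit 76) (XT.lf (nat_lit 0) (nat_lit 6234034668) (nat_lit 1824) (nat_lit 2389993230) (nat_lit 1900) (nat_lit 12031089605) (nat_lit 451) (nat_lit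 5) (nat_lit 475) (nat_lit 5) (nat_lit 476) (nat_lit 5) (nat_lit 611) (nat_lit 592) (nat_lit 357)) (XT.lf (nat_lit 0) (nat_lit 7716293312) (nat_lit 1824) (nat_lit 12363982010) (nat_lit 1900) (nat_lit 791606762) (nat_lit 452) (nat_lit 5) (nat_lit 476) (nat_lit 5) (nat_lit 477) (nat_lit 5) (nat_lit 612) (nat_lit 592) (nat_lit 356))) (XT.nd (nat_lit 78) (nat_lit 0) (nat_lit 0) (XT.lf (nat_lit 0) (nat_lit 9297249711) (nat_lit 1824) (nat_lit 1497123816) (nat_lit 1900) (nat_lit 10297228007) (nat_lit 452) (nat_lit 5) (nat_lit 476) (nat_lit 5) (nat_lit 477) (nat_lit 5) (nat_lit 613) (nat_lit 592) (nat_lit 355)) (XT.nd (nat_lit 78) (nat_lit 0) (nat_lit 76) (XT.lf (nat_lit 76) (nat_lit 9711109117) (nat_lit 0) (nat_lit 1257645014) (nat_lit 1900) (nat_lit 10345783281) (nat_lit 453) (nat_lit 5) (nat_lit 452) (nat_lit 5) (nat_lit 477) (nat_lit 5) (nat_lit 614) (nat_lit 592) (nat_lit 354)) (XT.lf (nat_lit 0) (nat_lit 12734735577)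 (nat_lit 1824) (nat_lit 436378948) (nat_lit 1900) (nat_lit 8369597148) (nat_lit 453) (nat_lit 5) (nat_lit 477) (nat_lit 5) (nat_lit 478) (nat_lit 5) (nat_lit 615) (nat_lit 592) (nat_lit 353)))))) (XT.nd (nat_lit 390) (nat_lit 2660) (nat_lit 0) (XT.nd (nat_lit 156) (nat_lit 1064) (nat_lit 0) (XT.nd (nat_lit 78) (nat_lit 1596) (nat_lit 0) (XT.lf (nat_lit 76) (nat_lit 11087776999) (nat_lit 0) (nat_lit 3524599431) (nat_lit 1900) (nat_lit 7157506787) (nat_lit 454) (nat_lit 5) (nat_lit 453) (nat_lit 5) (nat_lit 478) (nat_lit 5) (nat_lit 616) (nat_lit 592) (nat_lit 352)) (XT.lf (nat_lit 0) (nat_lit 810983331) (nat_lit 1672) (nat_lit 15761882495) (nat_lit 1748) (nat_lit 5429867033) (nat_lit 432) (nat_lit 5) (nat_lit 454) (nat_lit 5) (nat_lit 455) (nat_lit 5) (nat_lit 617) (nat_lit 592) (nat_lit 351))) (XT.nd (nat_lit 78) (nat_lit 1064) (nat_lit 0) (XT.lf (nat_lit 0) (nat_lit 12651718815) (nat_lit 1672) (nat_lit 6011854277)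 (nat_lit 1748) (nat_lit 3574846808) (nat_lit 432) (nat_lit 5) (nat_lit 454) (nat_lit 5) (nat_lit 455) (nat_lit 5) (nat_lit 618) (nat_lit 592) (nat_lit 350)) (XT.nd (nat_lit 78) (nat_lit 76) (nat_lit 0) (XT.lf (nat_lit 0) (nat_lit 2251058337) (nat_lit 988) (nat_lit 18581404601) (nat_lit 1064) (nat_lit 1645630934) (nat_lit 419) (nat_lit 5) (nat_lit 432) (nat_lit 5) (nat_lit 433) (nat_lit 5) (nat_lit 619) (nat_lit 592) (nat_lit 349)) (XT.lf (nat_lit 0) (nat_lit 418758858) (nat_lit 1064) (nat_lit 8311487354) (nat_lit 76) (nat_lit 13990257516) (nat_lit 418) (nat_lit 5) (nat_lit 432) (nat_lit 5) (nat_lit 419) (nat_lit 5) (nat_lit 620) (nat_lit 592) (nat_lit 348))))) (XT.nd (nat_lit 156) (nat_lit 1748) (nat_lit 0) (XT.nd (nat_lit 78) (nat_lit 0) (nat_lit 0) (XT.lf (nat_lit 0) (nat_lit 2532722378) (nat_lit 988) (nat_lit 19096902667) (nat_lit 76) (nat_lit 1337313292) (nat_lit 406) (nat_lit 5) (nat_lit 419) (nat_lit 5) (nat_lit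 407) (nat_lit 5) (nat_lit 621) (nat_lit 592) (nat_lit 347)) (XT.lf (nat_lit 0) (nat_lit 4799295043) (nat_lit 988) (nat_lit 6870909154) (nat_lit 76) (nat_lit 11545891357) (nat_lit 406) (nat_lit 5) (nat_lit 419) (nat_lit 5) (nat_lit 407) (nat_lit 5) (nat_lit 622) (nat_lit 592) (nat_lit 346))) (XT.nd (nat_lit 78) (nat_lit 836) (nat_lit 0) (XT.lf (nat_lit 0) (nat_lit 5670651337) (nat_lit 912) (nat_lit 1473806487) (nat_lit 988) (nat_lit 16325113426) (nat_lit 394) (nat_lit 5) (nat_lit 406) (nat_lit 5) (nat_lit 407) (nat_lit 5) (nat_lit 623) (nat_lit 592) (nat_lit 345)) (XT.nd (nat_lit 78) (nat_lit 836) (nat_lit 0) (XT.lf (nat_lit 0) (nat_lit 9637384234) (nat_lit 988) (nat_lit 5232651211) (nat_lit 76) (nat_lit 8856064304) (nat_lit 394) (nat_lit 5) (nat_lit 407) (nat_lit 5) (nat_lit 395) (nat_lit 5) (nat_lit 624) (nat_lit 592) (nat_lit 344)) (XT.lf (nat_lit 0) (nat_lit 7672500259) (nat_lit 836) (nat_lit 4563803713) (nat_lit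 912) (nat_lit 11750332634) (nat_lit 383) (nat_lit 5) (nat_lit 394) (nat_lit 5) (nat_lit 395) (nat_lit 5) (nat_lit 625) (nat_lit 592) (nat_lit 343))))))) (XT.nd (nat_lit 702) (nat_lit 3496) (nat_lit 0) (XT.nd (nat_lit 312) (nat_lit 2432) (nat_lit 0) (XT.nd (nat_lit 156) (nat_lit 760) (nat_lit 0) (XT.nd (nat_lit 78) (nat_lit 836) (nat_lit 0) (XT.lf (nat_lit 0) (nat_lit 14957776794) (nat_lit 912) (nat_lit 3387207509) (nat_lit 76) (nat_lit 5905988882) (nat_lit 383) (nat_lit 5) (nat_lit 395) (nat_lit 5) (nat_lit 384) (nat_lit 5) (nat_lit 626) (nat_lit 592) (nat_lit 342)) (XT.lf (nat_lit 0) (nat_lit 9894514362) (nat_lit 836) (nat_lit 7930303219) (nat_lit 912) (nat_lit 6693956610) (nat_lit 372) (nat_lit 5) (nat_lit 383) (nat_lit 5) (nat_lit 384) (nat_lit 5) (nat_lit 627) (nat_lit 592) (nat_lit 341))) (XT.nd (nat_lit 78) (nat_lit 760) (nat_lit 0) (XT.lf (nat_lit 0) (nat_lit 20786279276) (nat_lit 912) (nat_lit 1324659183)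 (nat_lit 76) (nat_lit 2680251615) (nat_lit 372) (nat_lit 5) (nat_lit 384) (nat_lit 5) (nat_lit 373) (nat_lit 5) (nat_lit 628) (nat_lit 592) (nat_lit 340)) (XT.lf (nat_lit 0) (nat_lit 12347079883) (nat_lit 760) (nat_lit 11589355697) (nat_lit 836) (nat_lit 1130029837) (nat_lit 362) (nat_lit 5) (nat_lit 372) (nat_lit 5) (nat_lit 373) (nat_lit 5) (nat_lit 629) (nat_lit 592) (nat_lit 339)))) (XT.nd (nat_lit 156) (nat_lit 1520) (nat_lit 0) (XT.nd (nat_lit 78) (nat_lit 0) (nat_lit 0) (XT.lf (nat_lit 0) (nat_lit 960689427) (nat_lit 836) (nat_lit 830008581) (nat_lit 912) (nat_lit 23556074901) (nat_lit 350) (nat_lit 5) (nat_lit 361) (nat_lit 5) (nat_lit 362) (nat_lit 5) (nat_lit 630) (nat_lit 592) (nat_lit 338)) (XT.lf (nat_lit 0) (nat_lit 4903350158) (nat_lit 912) (nat_lit 10621444658) (nat_lit 76) (nat_lit 10104769952) (nat_lit 350) (nat_lit 5) (nat_lit 362) (nat_lit 5) (nat_lit 351) (nat_lit 5) (nat_lit 631) (nat_lit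 592) (nat_lit 337))) (XT.nd (nat_lit 78) (nat_lit 760) (nat_lit 0) (XT.lf (nat_lit 0) (nat_lit 3455037159) (nat_lit 760) (nat_lit 4648051923) (nat_lit 836) (nat_lit 17814427123) (nat_lit 340) (nat_lit 5) (nat_lit 350) (nat_lit 5) (nat_lit 351) (nat_lit 5) (nat_lit 632) (nat_lit 592) (nat_lit 336)) (XT.nd (nat_lit 78) (nat_lit 760) (nat_lit 0) (XT.lf (nat_lit 0) (nat_lit 11477366456) (nat_lit 836) (nat_lit 8298406544) (nat_lit 76) (nat_lit 6433243203) (nat_lit 340) (nat_lit 5) (nat_lit 351) (nat_lit 5) (nat_lit 341) (nat_lit 5) (nat_lit 633) (nat_lit 592) (nat_lit 335)) (XT.lf (nat_lit 0) (nat_lit 6196189277) (nat_lit 760) (nat_lit 8790954602) (nat_lit 836) (nat_lit 11517842430) (nat_lit 330) (nat_lit 5) (nat_lit 340) (nat_lit 5) (nat_lit 341) (nat_lit 5) (nat_lit 634) (nat_lit 592) (nat_lit 334)))))) (XT.nd (nat_lit 390) (nat_lit 1292) (nat_lit 0) (XT.nd (nat_lit 156) (nat_lit 1520) (nat_lit 0) (XT.nd (nat_lit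 78) (nat_lit 684) (nat_lit 0) (XT.lf (nat_lit 0) (nat_lit 18635881857) (nat_lit 836) (nat_lit 5731914241) (nat_lit 76) (nat_lit 2437704812) (nat_lit 330) (nat_lit 5) (nat_lit 341) (nat_lit 5) (nat_lit 331) (nat_lit 5) (nat_lit 635) (nat_lit 592) (nat_lit 333)) (XT.lf (nat_lit 0) (nat_lit 9195678156) (nat_lit 684) (nat_lit 13276936287) (nat_lit 760) (nat_lit 4637111345) (nat_lit 321) (nat_lit 5) (nat_lit 330) (nat_lit 5) (nat_lit 331) (nat_lit 5) (nat_lit 636) (nat_lit 592) (nat_lit 332))) (XT.nd (nat_lit 78) (nat_lit 1520) (nat_lit 0) (XT.lf (nat_lit 0) (nat_lit 24496328364) (nat_lit 684) (nat_lit 1925350840) (nat_lit 760) (nat_lit 997644385) (nat_lit 321) (nat_lit 5) (nat_lit 330) (nat_lit 5) (nat_lit 331) (nat_lit 5) (nat_lit 637) (nat_lit 592) (nat_lit 331)) (XT.nd (nat_lit 78) (nat_lit 684) (nat_lit 0) (XT.lf (nat_lit 0) (nat_lit 2820738605) (nat_lit 836) (nat_lit 15285348650) (nat_lit 76) (nat_lit 9625839365)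 (nat_lit 310) (nat_lit 5) (nat_lit 321) (nat_lit 5) (nat_lit 311) (nat_lit 5) (nat_lit 638) (nat_lit 592) (nat_lit 330)) (XT.lf (nat_lit 0) (nat_lit 91284771) (nat_lit 684) (nat_lit 6641149959) (nat_lit 760) (nat_lit 21317609369) (nat_lit 301) (nat_lit 5) (nat_lit 310) (nat_lit 5) (nat_lit 311) (nat_lit 5) (nat_lit 639) (nat_lit 592) (nat_lit 329))))) (XT.nd (nat_lit 156) (nat_lit 608) (nat_lit 0) (XT.nd (nat_lit 78) (nat_lit 684) (nat_lit 0) (XT.lf (nat_lit 0) (nat_lit 10855659642) (nat_lit 760) (nat_lit 12426543947) (nat_lit 76) (nat_lit 5089654788) (nat_lit 301) (nat_lit 5) (nat_lit 311) (nat_lit 5) (nat_lit 302) (nat_lit 5) (nat_lit 640) (nat_lit 592) (nat_lit 328)) (XT.lf (nat_lit 0) (nat_lit 3413940447) (nat_lit 684) (nat_lit 11710844366) (nat_lit 760) (nat_lit 13574055753) (nat_lit 292) (nat_lit 5) (nat_lit 301) (nat_lit 5) (nat_lit 302) (nat_lit 5) (nat_lit 641) (nat_lit 592) (nat_lit 327))) (XT.nd (nat_lit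 78) (nat_lit 608) (nat_lit 0) (XT.lf (nat_lit 0) (nat_lit 19561149070) (nat_lit 760) (nat_lit 9295362828) (nat_lit 76) (nat_lit 174213703) (nat_lit 292) (nat_lit 5) (nat_lit 302) (nat_lit 5) (nat_lit 293) (nat_lit 5) (nat_lit 642) (nat_lit 592) (nat_lit 326)) (XT.nd (nat_lit 78) (nat_lit 0) (nat_lit 0) (XT.lf (nat_lit 0) (nat_lit 7025413615) (nat_lit 608) (nat_lit 17181367215) (nat_lit 684) (nat_lit 5160057029) (nat_lit 284) (nat_lit 5) (nat_lit 292) (nat_lit 5) (nat_lit 293) (nat_lit 5) (nat_lit 643) (nat_lit 592) (nat_lit 325)) (XT.lf (nat_lit 0) (nat_lit 23795491411) (nat_lit 608) (nat_lit 5209613222) (nat_lit 684) (nat_lit 703372462) (nat_lit 284) (nat_lit 5) (nat_lit 292) (nat_lit 5) (nat_lit 293) (nat_lit 5) (nat_lit 644) (nat_lit 592) (nat_lit 324))))))))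
noncomputable def xc229 : XT := (XT.nd (nat_lit 78546) (nat_lit 0) (nat_lit 7448) (XT.nd (nat_lit 77766) (nat_lit 0) (nat_lit 13300) (XT.nd (nat_lit 77376) (nat_lit 0) (nat_lit 14744) (XT.nd (nat_lit 77220) (nat_lit 0) (nat_lit 14668) (XT.nd (nat_lit 77142) (nat_lit 0) (nat_lit 14668) (XT.lf (nat_lit 0) (nat_lit 3906737537) (nat_lit 760) (nat_lit 19141446380) (nat_lit 76) (nat_lit 7005972830) (nat_lit 274) (nat_lit 5) (nat_lit 284) (nat_lit 5) (nat_lit 275) (nat_lit 5) (nat_lit 645) (nat_lit 592) (nat_lit 323)) (XT.lf (nat_lit 0) (nat_lit 2468302769) (nat_lit 0) (nat_lit 2468302769) (nat_lit 1748) (nat_lit 3764638739) (nat_lit 467) (nat_lit 5) (nat_lit 467) (nat_lit 3) (nat_lit 490) (nat_lit 3) (nat_lit 593) (nat_lit 593) (nat_lit 374))) (XT.nd (nat_lit 78) (nat_lit 0) (nat_lit 0) (XT.lf (nat_lit 0) (nat_lit 10212920458) (nat_lit 1748) (nat_lit 3959504646) (nat_lit 1824) (nat_lit 3399234547) (nat_lit 467) (nat_lit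 5) (nat_lit 490) (nat_lit 3) (nat_lit 491) (nat_lit 5) (nat_lit 594) (nat_lit 593) (nat_lit 373)) (XT.lf (nat_lit 76) (nat_lit 4743519288) (nat_lit 0) (nat_lit 5873679857) (nat_lit 1824) (nat_lit 7125860417) (nat_lit 468) (nat_lit 5) (nat_lit 467) (nat_lit 5) (nat_lit 491) (nat_lit 5) (nat_lit 595) (nat_lit 593) (nat_lit 372)))) (XT.nd (nat_lit 156) (nat_lit 0) (nat_lit 76) (XT.nd (nat_lit 78) (nat_lit 0) (nat_lit 0) (XT.lf (nat_lit 0) (nat_lit 11067526642) (nat_lit 1748) (nat_lit 4263191057) (nat_lit 1824) (nat_lit 2586411391) (nat_lit 468) (nat_lit 5) (nat_lit 491) (nat_lit 5) (nat_lit 492) (nat_lit 5) (nat_lit 596) (nat_lit 593) (nat_lit 371)) (XT.lf (nat_lit 76) (nat_lit 4667145977) (nat_lit 0) (nat_lit 6923419536) (nat_lit 1824) (nat_lit 6502841261) (nat_lit 469) (nat_lit 5) (nat_lit 468) (nat_lit 5) (nat_lit 492) (nat_lit 5) (nat_lit 597) (nat_lit 593) (nat_lit 370))) (XT.nd (nat_lit 78) (nat_lit 0) (nat_lit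 0) (XT.lf (nat_lit 0) (nat_lit 12158196509) (nat_lit 1748) (nat_lit 4452830361) (nat_lit 1824) (nat_lit 1661501362) (nat_lit 469) (nat_lit 5) (nat_lit 492) (nat_lit 5) (nat_lit 493) (nat_lit 5) (nat_lit 598) (nat_lit 593) (nat_lit 369)) (XT.nd (nat_lit 78) (nat_lit 0) (nat_lit 76) (XT.lf (nat_lit 76) (nat_lit 4712935648) (nat_lit 0) (nat_lit 8095407767) (nat_lit 1824) (nat_lit 5645466268) (nat_lit 470) (nat_lit 5) (nat_lit 469) (nat_lit 5) (nat_lit 493) (nat_lit 5) (nat_lit 599) (nat_lit 593) (nat_lit 368)) (XT.lf (nat_lit 0) (nat_lit 13500216914) (nat_lit 1748) (nat_lit 4522966762) (nat_lit 1824) (nat_lit 614959427) (nat_lit 470) (nat_lit 5) (nat_lit 493) (nat_lit 5) (nat_lit 494) (nat_lit 5) (nat_lit 600) (nat_lit 593) (nat_lit 367)))))) (XT.nd (nat_lit 390) (nat_lit 1596) (nat_lit 0) (XT.nd (nat_lit 156) (nat_lit 0) (nat_lit 76) (XT.nd (nat_lit 78) (nat_lit 0) (nat_lit 0) (XT.lf (nat_lit 76) (nat_lit 4886646598)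 (nat_lit 0) (nat_lit 9399533216) (nat_lit 1824) (nat_lit 4538379137) (nat_lit 471) (nat_lit 5) (nat_lit 470) (nat_lit 5) (nat_lit 494) (nat_lit 5) (nat_lit 601) (nat_lit 593) (nat_lit 366)) (XT.lf (nat_lit 76) (nat_lit 14542653482) (nat_lit 0) (nat_lit 570552153) (nat_lit 1824) (nat_lit 3900991388) (nat_lit 471) (nat_lit 5) (nat_lit 470) (nat_lit 5) (nat_lit 494) (nat_lit 5) (nat_lit 602) (nat_lit 593) (nat_lit 365))) (XT.nd (nat_lit 78) (nat_lit 0) (nat_lit 0) (XT.lf (nat_lit 76) (nat_lit 5194353009) (nat_lit 0) (nat_lit 10846012279) (nat_lit 1824) (nat_lit 3165591471) (nat_lit 472) (nat_lit 5) (nat_lit 471) (nat_lit 5) (nat_lit 495) (nat_lit 5) (nat_lit 603) (nat_lit 593) (nat_lit 364)) (XT.nd (nat_lit 78) (nat_lit 0) (nat_lit 76) (XT.lf (nat_lit 76) (nat_lit 15107213678) (nat_lit 0) (nat_lit 1907792612) (nat_lit 1824) (nat_lit 2385967387) (nat_lit 472) (nat_lit 5) (nat_lit 471) (nat_lit 5) (nat_lit 495) (nat_lit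 5) (nat_lit 604) (nat_lit 593) (nat_lit 363)) (XT.lf (nat_lit 76) (nat_lit 5642453030) (nat_lit 0) (nat_lit 12445411863) (nat_lit 1824) (nat_lit 1510452283) (nat_lit 473) (nat_lit 5) (nat_lit 472) (nat_lit 5) (nat_lit 496) (nat_lit 5) (nat_lit 605) (nat_lit 593) (nat_lit 362))))) (XT.nd (nat_lit 156) (nat_lit 0) (nat_lit 0) (XT.nd (nat_lit 78) (nat_lit 1748) (nat_lit 0) (XT.lf (nat_lit 76) (nat_lit 15819629484) (nat_lit 0) (nat_lit 3399271173) (nat_lit 1824) (nat_lit 579973209) (nat_lit 473) (nat_lit 5) (nat_lit 472) (nat_lit 5) (nat_lit 496) (nat_lit 5) (nat_lit 606) (nat_lit 593) (nat_lit 361)) (XT.lf (nat_lit 0) (nat_lit 438555305) (nat_lit 1824) (nat_lit 13767174453) (nat_lit 1900) (nat_lit 5796179080) (nat_lit 449) (nat_lit 5) (nat_lit 473) (nat_lit 5) (nat_lit 474) (nat_lit 5) (nat_lit 607) (nat_lit 593) (nat_lit 360))) (XT.nd (nat_lit 78) (nat_lit 0) (nat_lit 76) (XT.lf (nat_lit 0) (nat_lit 1514581178) (nat_lit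 1824) (nat_lit 3531307794) (nat_lit 1900) (nat_lit 15162141691) (nat_lit 449) (nat_lit 5) (nat_lit 473) (nat_lit 5) (nat_lit 474) (nat_lit 5) (nat_lit 608) (nat_lit 593) (nat_lit 359)) (XT.nd (nat_lit 78) (nat_lit 0) (nat_lit 0) (XT.lf (nat_lit 0) (nat_lit 2681353653) (nat_lit 1824) (nat_lit 13447786304) (nat_lit 1900) (nat_lit 4287751114) (nat_lit 450) (nat_lit 5) (nat_lit 474) (nat_lit 5) (nat_lit 475) (nat_lit 5) (nat_lit 609) (nat_lit 593) (nat_lit 358)) (XT.lf (nat_lit 0) (nat_lit 3924388152) (nat_lit 1824) (nat_lit 2938886115) (nat_lit 1900) (nat_lit 13765596543) (nat_lit 450) (nat_lit 5) (nat_lit 474) (nat_lit 5) (nat_lit 475) (nat_lit 5) (nat_lit 610) (nat_lit 593) (nat_lit 357))))))) (XT.nd (nat_lit 702) (nat_lit 4560) (nat_lit 0) (XT.nd (nat_lit 312) (nat_lit 1444) (nat_lit 0) (XT.nd (nat_lit 156) (nat_lit 0) (nat_lit 76) (XT.nd (nat_lit 78) (nat_lit 0) (nat_lit 0) (XT.lf (nat_lit 0) (nat_lit 5256337452)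 (nat_lit 1824) (nat_lit 12980944092) (nat_lit 1900) (nat_lit 2606528159) (nat_lit 451) (nat_lit 5) (nat_lit 475) (nat_lit 5) (nat_lit 476) (nat_lit 5) (nat_lit 611) (nat_lit 593) (nat_lit 356)) (XT.lf (nat_lit 0) (nat_lit 6676040984) (nat_lit 1824) (nat_lit 2191003789) (nat_lit 1900) (nat_lit 12194780926) (nat_lit 451) (nat_lit 5) (nat_lit 475) (nat_lit 5) (nat_lit 476) (nat_lit 5) (nat_lit 612) (nat_lit 593) (nat_lit 355))) (XT.nd (nat_lit 78) (nat_lit 0) (nat_lit 0) (XT.lf (nat_lit 0) (nat_lit 8182876060) (nat_lit 1824) (nat_lit 12359356896) (nat_lit 1900) (nat_lit 740794924) (nat_lit 452) (nat_lit 5) (nat_lit 476) (nat_lit 5) (nat_lit 477) (nat_lit 5) (nat_lit 613) (nat_lit 593) (nat_lit 354)) (XT.lf (nat_lit 0) (nat_lit 9789328904) (nat_lit 1824) (nat_lit 1280100847) (nat_lit 1900) (nat_lit 10437835338) (nat_lit 452) (nat_lit 5) (nat_lit 476) (nat_lit 5) (nat_lit 477) (nat_lit 5) (nat_lit 614) (nat_lit 593)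 (nat_lit 353)))) (XT.nd (nat_lit 156) (nat_lit 1520) (nat_lit 0) (XT.nd (nat_lit 78) (nat_lit 0) (nat_lit 76) (XT.lf (nat_lit 76) (nat_lit 10150671972) (nat_lit 0) (nat_lit 1339181723) (nat_lit 1900) (nat_lit 10244895081) (nat_lit 453) (nat_lit 5) (nat_lit 452) (nat_lit 5) (nat_lit 477) (nat_lit 5) (nat_lit 615) (nat_lit 593) (nat_lit 352)) (XT.lf (nat_lit 0) (nat_lit 13284879700) (nat_lit 1824) (nat_lit 198257372) (nat_lit 1900) (nat_lit 8482435832) (nat_lit 453) (nat_lit 5) (nat_lit 477) (nat_lit 5) (nat_lit 478) (nat_lit 5) (nat_lit 616) (nat_lit 593) (nat_lit 351))) (XT.nd (nat_lit 78) (nat_lit 1596) (nat_lit 0) (XT.lf (nat_lit 76) (nat_lit 11554757686) (nat_lit 0) (nat_lit 3641114722) (nat_lit 1900) (nat_lit 7003540353) (nat_lit 454) (nat_lit 5) (nat_lit 453) (nat_lit 5) (nat_lit 478) (nat_lit 5) (nat_lit 617) (nat_lit 593) (nat_lit 350)) (XT.nd (nat_lit 78) (nat_lit 0) (nat_lit 0) (XT.lf (nat_lit 0) (nat_lit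 1076941184) (nat_lit 1672) (nat_lit 16114248165) (nat_lit 1748) (nat_lit 5245818536) (nat_lit 432) (nat_lit 5) (nat_lit 454) (nat_lit 5) (nat_lit 455) (nat_lit 5) (nat_lit 618) (nat_lit 593) (nat_lit 349)) (XT.lf (nat_lit 0) (nat_lit 13149594551) (nat_lit 1672) (nat_lit 6168491383) (nat_lit 1748) (nat_lit 3359436061) (nat_lit 432) (nat_lit 5) (nat_lit 454) (nat_lit 5) (nat_lit 455) (nat_lit 5) (nat_lit 619) (nat_lit 593) (nat_lit 348)))))) (XT.nd (nat_lit 390) (nat_lit 1672) (nat_lit 0) (XT.nd (nat_lit 156) (nat_lit 1824) (nat_lit 0) (XT.nd (nat_lit 78) (nat_lit 76) (nat_lit 0) (XT.lf (nat_lit 0) (nat_lit 2545173868) (nat_lit 988) (nat_lit 18981050758) (nat_lit 1064) (nat_lit 1395848212) (nat_lit 419) (nat_lit 5) (nat_lit 432) (nat_lit 5) (nat_lit 433) (nat_lit 5) (nat_lit 620) (nat_lit 593) (nat_lit 347)) (XT.lf (nat_lit 0) (nat_lit 700651428) (nat_lit 1064) (nat_lit 8229832954) (nat_lit 76) (nat_lit 14238919989)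 (nat_lit 418) (nat_lit 5) (nat_lit 432) (nat_lit 5) (nat_lit 419) (nat_lit 5) (nat_lit 621) (nat_lit 593) (nat_lit 346))) (XT.nd (nat_lit 78) (nat_lit 912) (nat_lit 0) (XT.lf (nat_lit 0) (nat_lit 2852977396) (nat_lit 988) (nat_lit 19227001433) (nat_lit 76) (nat_lit 1340867945) (nat_lit 406) (nat_lit 5) (nat_lit 419) (nat_lit 5) (nat_lit 407) (nat_lit 5) (nat_lit 622) (nat_lit 593) (nat_lit 345)) (XT.nd (nat_lit 78) (nat_lit 912) (nat_lit 0) (XT.lf (nat_lit 0) (nat_lit 5159595229) (nat_lit 988) (nat_lit 6761426076) (nat_lit 76) (nat_lit 11754072309) (nat_lit 406) (nat_lit 5) (nat_lit 419) (nat_lit 5) (nat_lit 407) (nat_lit 5) (nat_lit 623) (nat_lit 593) (nat_lit 344)) (XT.lf (nat_lit 0) (nat_lit 6029341275) (nat_lit 912) (nat_lit 1518729858) (nat_lit 988) (nat_lit 16385640230) (nat_lit 394) (nat_lit 5) (nat_lit 406) (nat_lit 5) (nat_lit 407) (nat_lit 5) (nat_lit 624) (nat_lit 593) (nat_lit 343))))) (XT.nd (nat_lit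 156) (nat_lit 836) (nat_lit 0) (XT.nd (nat_lit 78) (nat_lit 836) (nat_lit 0) (XT.lf (nat_lit 0) (nat_lit 10085645505) (nat_lit 988) (nat_lit 5091590002) (nat_lit 76) (nat_lit 9018239857) (nat_lit 394) (nat_lit 5) (nat_lit 407) (nat_lit 5) (nat_lit 395) (nat_lit 5) (nat_lit 625) (nat_lit 593) (nat_lit 342)) (XT.lf (nat_lit 0) (nat_lit 8070047956) (nat_lit 836) (nat_lit 4663070456) (nat_lit 912) (nat_lit 11728173760) (nat_lit 383) (nat_lit 5) (nat_lit 394) (nat_lit 5) (nat_lit 395) (nat_lit 5) (nat_lit 626) (nat_lit 593) (nat_lit 341))) (XT.nd (nat_lit 78) (nat_lit 836) (nat_lit 0) (XT.lf (nat_lit 0) (nat_lit 15504026918) (nat_lit 912) (nat_lit 3210611719) (nat_lit 76) (nat_lit 6016377415) (nat_lit 383) (nat_lit 5) (nat_lit 395) (nat_lit 5) (nat_lit 384) (nat_lit 5) (nat_lit 627) (nat_lit 593) (nat_lit 340)) (XT.nd (nat_lit 78) (nat_lit 0) (nat_lit 0) (XT.lf (nat_lit 0) (nat_lit 10335137090) (nat_lit 836) (nat_lit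 8090002419) (nat_lit 912) (nat_lit 6579099630) (nat_lit 372) (nat_lit 5) (nat_lit 383) (nat_lit 5) (nat_lit 384) (nat_lit 5) (nat_lit 628) (nat_lit 593) (nat_lit 339)) (XT.lf (nat_lit 0) (nat_lit 21441042586) (nat_lit 912) (nat_lit 1108358177) (nat_lit 76) (nat_lit 2732799002) (nat_lit 372) (nat_lit 5) (nat_lit 384) (nat_lit 5) (nat_lit 373) (nat_lit 5) (nat_lit 629) (nat_lit 593) (nat_lit 338))))))))
noncomputable def xc230 : XT := (XT.nd (nat_lit 78702) (nat_lit 0) (nat_lit 12540) (XT.nd (nat_lit 702) (nat_lit 2812) (nat_lit 0) (XT.nd (nat_lit 312) (nat_lit 1444) (nat_lit 0) (XT.nd (nat_lit 156) (nat_lit 760) (nat_lit 0) (XT.nd (nat_lit 78) (nat_lit 912) (nat_lit 0) (XT.lf (nat_lit 0) (nat_lit 12835218340) (nat_lit 760) (nat_lit 11815862671) (nat_lit 836) (nat_lit 911962676) (nat_lit 362) (nat_lit 5) (nat_lit 372) (nat_lit 5) (nat_lit 373) (nat_lit 5) (nat_lit 630) (nat_lit 593) (nat_lit 337)) (XT.lf (nat_lit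 0) (nat_lit 1222680740) (nat_lit 836) (nat_lit 838261772) (nat_lit 912) (nat_lit 23788045811) (nat_lit 350) (nat_lit 5) (nat_lit 361) (nat_lit 5) (nat_lit 362) (nat_lit 5) (nat_lit 631) (nat_lit 593) (nat_lit 336))) (XT.nd (nat_lit 78) (nat_lit 760) (nat_lit 0) (XT.lf (nat_lit 0) (nat_lit 5231304160) (nat_lit 912) (nat_lit 10591282007) (nat_lit 76) (nat_lit 10314941340) (nat_lit 350) (nat_lit 5) (nat_lit 362) (nat_lit 5) (nat_lit 351) (nat_lit 5) (nat_lit 632) (nat_lit 593) (nat_lit 335)) (XT.lf (nat_lit 0) (nat_lit 3765133449) (nat_lit 760) (nat_lit 4726961527) (nat_lit 836) (nat_lit 17939202457) (nat_lit 340) (nat_lit 5) (nat_lit 350) (nat_lit 5) (nat_lit 351) (nat_lit 5) (nat_lit 633) (nat_lit 593) (nat_lit 334)))) (XT.nd (nat_lit 156) (nat_lit 684) (nat_lit 0) (XT.nd (nat_lit 78) (nat_lit 760) (nat_lit 0) (XT.lf (nat_lit 0) (nat_lit 11929497456) (nat_lit 836) (nat_lit 8223714467) (nat_lit 76) (nat_lit 6575503310)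 (nat_lit 340) (nat_lit 5) (nat_lit 351) (nat_lit 5) (nat_lit 341) (nat_lit 5) (nat_lit 634) (nat_lit 593) (nat_lit 333)) (XT.lf (nat_lit 0) (nat_lit 6559189979) (nat_lit 760) (nat_lit 8947468309) (nat_lit 836) (nat_lit 11524003277) (nat_lit 330) (nat_lit 5) (nat_lit 340) (nat_lit 5) (nat_lit 341) (nat_lit 5) (nat_lit 635) (nat_lit 593) (nat_lit 332))) (XT.nd (nat_lit 78) (nat_lit 684) (nat_lit 0) (XT.lf (nat_lit 0) (nat_lit 19224184665) (nat_lit 836) (nat_lit 5607948562) (nat_lit 76) (nat_lit 2505137527) (nat_lit 330) (nat_lit 5) (nat_lit 341) (nat_lit 5) (nat_lit 331) (nat_lit 5) (nat_lit 636) (nat_lit 593) (nat_lit 331)) (XT.nd (nat_lit 78) (nat_lit 0) (nat_lit 0) (XT.lf (nat_lit 0) (nat_lit 9616625920) (nat_lit 684) (nat_lit 13518337806) (nat_lit 760) (nat_lit 4512670726) (nat_lit 321) (nat_lit 5) (nat_lit 330) (nat_lit 5) (nat_lit 331) (nat_lit 5) (nat_lit 637) (nat_lit 593) (nat_lit 330)) (XT.lf (nat_lit 0)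 (nat_lit 25218641403) (nat_lit 684) (nat_lit 1940193928) (nat_lit 760) (nat_lit 804672914) (nat_lit 321) (nat_lit 5) (nat_lit 330) (nat_lit 5) (nat_lit 331) (nat_lit 5) (nat_lit 638) (nat_lit 593) (nat_lit 329)))))) (XT.nd (nat_lit 390) (nat_lit 608) (nat_lit 0) (XT.nd (nat_lit 156) (nat_lit 684) (nat_lit 0) (XT.nd (nat_lit 78) (nat_lit 684) (nat_lit 0) (XT.lf (nat_lit 0) (nat_lit 3084851680) (nat_lit 836) (nat_lit 15353389966) (nat_lit 76) (nat_lit 9844143239) (nat_lit 310) (nat_lit 5) (nat_lit 321) (nat_lit 5) (nat_lit 311) (nat_lit 5) (nat_lit 639) (nat_lit 593) (nat_lit 328)) (XT.lf (nat_lit 0) (nat_lit 329212534) (nat_lit 684) (nat_lit 6743029610) (nat_lit 760) (nat_lit 21534673876) (nat_lit 301) (nat_lit 5) (nat_lit 310) (nat_lit 5) (nat_lit 311) (nat_lit 5) (nat_lit 640) (nat_lit 593) (nat_lit 327))) (XT.nd (nat_lit 78) (nat_lit 684) (nat_lit 0) (XT.lf (nat_lit 0) (nat_lit 11274105799) (nat_lit 760) (nat_lit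 12439751175) (nat_lit 76) (nat_lit 5221386630) (nat_lit 301) (nat_lit 5) (nat_lit 311) (nat_lit 5) (nat_lit 302) (nat_lit 5) (nat_lit 641) (nat_lit 593) (nat_lit 326)) (XT.nd (nat_lit 78) (nat_lit 0) (nat_lit 0) (XT.lf (nat_lit 0) (nat_lit 3715994725) (nat_lit 684) (nat_lit 11910188868) (nat_lit 760) (nat_lit 13642630937) (nat_lit 292) (nat_lit 5) (nat_lit 301) (nat_lit 5) (nat_lit 302) (nat_lit 5) (nat_lit 642) (nat_lit 593) (nat_lit 325)) (XT.lf (nat_lit 0) (nat_lit 20147597050) (nat_lit 760) (nat_lit 9248376064) (nat_lit 76) (nat_lit 211438200) (nat_lit 292) (nat_lit 5) (nat_lit 302) (nat_lit 5) (nat_lit 293) (nat_lit 5) (nat_lit 643) (nat_lit 593) (nat_lit 324))))) (XT.nd (nat_lit 77376) (nat_lit 0) (nat_lit 13908) (XT.nd (nat_lit 77298) (nat_lit 0) (nat_lit 13908) (XT.lf (nat_lit 0) (nat_lit 7397283710) (nat_lit 608) (nat_lit 17486531949) (nat_lit 684) (nat_lit 5066477150) (nat_lit 284) (nat_lit 5) (nat_lit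 292) (nat_lit 5) (nat_lit 293) (nat_lit 5) (nat_lit 644) (nat_lit 593) (nat_lit 323)) (XT.lf (nat_lit 0) (nat_lit 2626266073) (nat_lit 0) (nat_lit 2626266073) (nat_lit 1748) (nat_lit 3618359103) (nat_lit 467) (nat_lit 5) (nat_lit 467) (nat_lit 3) (nat_lit 490) (nat_lit 3) (nat_lit 594) (nat_lit 594) (nat_lit 372))) (XT.nd (nat_lit 78) (nat_lit 0) (nat_lit 0) (XT.lf (nat_lit 0) (nat_lit 10841667912) (nat_lit 1748) (nat_lit 3815792293) (nat_lit 1824) (nat_lit 3257076146) (nat_lit 467) (nat_lit 5) (nat_lit 490) (nat_lit 3) (nat_lit 491) (nat_lit 5) (nat_lit 595) (nat_lit 594) (nat_lit 371)) (XT.nd (nat_lit 78) (nat_lit 0) (nat_lit 76) (XT.lf (nat_lit 76) (nat_lit 5059825657) (nat_lit 0) (nat_lit 6187320912) (nat_lit 1824) (nat_lit 6842356713) (nat_lit 468) (nat_lit 5) (nat_lit 467) (nat_lit 5) (nat_lit 491) (nat_lit 5) (nat_lit 596) (nat_lit 594) (nat_lit 370)) (XT.lf (nat_lit 0) (nat_lit 11697043636) (nat_lit 1748)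 (nat_lit 4121859679) (nat_lit 1824) (nat_lit 2448340907) (nat_lit 468) (nat_lit 5) (nat_lit 491) (nat_lit 5) (nat_lit 492) (nat_lit 5) (nat_lit 597) (nat_lit 594) (nat_lit 369))))))) (XT.nd (nat_lit 702) (nat_lit 1444) (nat_lit 0) (XT.nd (nat_lit 312) (nat_lit 0) (nat_lit 152) (XT.nd (nat_lit 156) (nat_lit 0) (nat_lit 76) (XT.nd (nat_lit 78) (nat_lit 0) (nat_lit 76) (XT.lf (nat_lit 76) (nat_lit 4985593339) (nat_lit 0) (nat_lit 7238408210) (nat_lit 1824) (nat_lit 6223178003) (nat_lit 469) (nat_lit 5) (nat_lit 468) (nat_lit 5) (nat_lit 492) (nat_lit 5) (nat_lit 598) (nat_lit 594) (nat_lit 368)) (XT.lf (nat_lit 0) (nat_lit 12793986555) (nat_lit 1748) (nat_lit 4312136099) (nat_lit 1824) (nat_lit 1523941989) (nat_lit 469) (nat_lit 5) (nat_lit 492) (nat_lit 5) (nat_lit 493) (nat_lit 5) (nat_lit 599) (nat_lit 594) (nat_lit 367))) (XT.nd (nat_lit 78) (nat_lit 0) (nat_lit 76) (XT.lf (nat_lit 76) (nat_lit 5035433711) (nat_lit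 0) (nat_lit 8415486018) (nat_lit 1824) (nat_lit 5364177536) (nat_lit 470) (nat_lit 5) (nat_lit 469) (nat_lit 5) (nat_lit 493) (nat_lit 5) (nat_lit 600) (nat_lit 594) (nat_lit 366)) (XT.lf (nat_lit 0) (nat_lit 14148047233) (nat_lit 1748) (nat_lit 4381019325) (nat_lit 1824) (nat_lit 474223649) (nat_lit 470) (nat_lit 5) (nat_lit 493) (nat_lit 5) (nat_lit 494) (nat_lit 5) (nat_lit 601) (nat_lit 594) (nat_lit 365)))) (XT.nd (nat_lit 156) (nat_lit 0) (nat_lit 76) (XT.nd (nat_lit 78) (nat_lit 0) (nat_lit 0) (XT.lf (nat_lit 76) (nat_lit 5215257309) (nat_lit 0) (nat_lit 9728562740) (nat_lit 1824) (nat_lit 4249733671) (nat_lit 471) (nat_lit 5) (nat_lit 470) (nat_lit 5) (nat_lit 494) (nat_lit 5) (nat_lit 602) (nat_lit 594) (nat_lit 364)) (XT.lf (nat_lit 76) (nat_lit 15059857317) (nat_lit 0) (nat_lit 720236589) (nat_lit 1824) (nat_lit 3607037638) (nat_lit 471) (nat_lit 5) (nat_lit 470) (nat_lit 5) (nat_lit 494) (nat_lit 5)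 (nat_lit 603) (nat_lit 594) (nat_lit 363))) (XT.nd (nat_lit 78) (nat_lit 0) (nat_lit 0) (XT.lf (nat_lit 76) (nat_lit 5531294609) (nat_lit 0) (nat_lit 11187985634) (nat_lit 1824) (nat_lit 2863577678) (nat_lit 472) (nat_lit 5) (nat_lit 471) (nat_lit 5) (nat_lit 495) (nat_lit 5) (nat_lit 604) (nat_lit 594) (nat_lit 362)) (XT.nd (nat_lit 78) (nat_lit 0) (nat_lit 76) (XT.lf (nat_lit 76) (nat_lit 15637842795) (nat_lit 0) (nat_lit 2068549552) (nat_lit 1824) (nat_lit 2075524359) (nat_lit 472) (nat_lit 5) (nat_lit 471) (nat_lit 5) (nat_lit 495) (nat_lit 5) (nat_lit 605) (nat_lit 594) (nat_lit 361)) (XT.lf (nat_lit 76) (nat_lit 5990104404) (nat_lit 0) (nat_lit 12804463771) (nat_lit 1824) (nat_lit 1188762771) (nat_lit 473) (nat_lit 5) (nat_lit 472) (nat_lit 5) (nat_lit 496) (nat_lit 5) (nat_lit 606) (nat_lit 594) (nat_lit 360)))))) (XT.nd (nat_lit 390) (nat_lit 0) (nat_lit 152) (XT.nd (nat_lit 156) (nat_lit 0) (nat_lit 0)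 (XT.nd (nat_lit 78) (nat_lit 1748) (nat_lit 0) (XT.lf (nat_lit 76) (nat_lit 16366220421) (nat_lit 0) (nat_lit 3575240589) (nat_lit 1824) (nat_lit 246574086) (nat_lit 473) (nat_lit 5) (nat_lit 472) (nat_lit 5) (nat_lit 496) (nat_lit 5) (nat_lit 607) (nat_lit 594) (nat_lit 359)) (XT.lf (nat_lit 0) (nat_lit 781975820) (nat_lit 1824) (nat_lit 13801868289) (nat_lit 1900) (nat_lit 5811359358) (nat_lit 449) (nat_lit 5) (nat_lit 473) (nat_lit 5) (nat_lit 474) (nat_lit 5) (nat_lit 608) (nat_lit 594) (nat_lit 358))) (XT.nd (nat_lit 78) (nat_lit 0) (nat_lit 76) (XT.lf (nat_lit 0) (nat_lit 1872960458) (nat_lit 1824) (nat_lit 3366002917) (nat_lit 1900) (nat_lit 15366616580) (nat_lit 449) (nat_lit 5) (nat_lit 473) (nat_lit 5) (nat_lit 474) (nat_lit 5) (nat_lit 609) (nat_lit 594) (nat_lit 357)) (XT.nd (nat_lit 78) (nat_lit 0) (nat_lit 0) (XT.lf (nat_lit 0) (nat_lit 3057580502) (nat_lit 1824) (nat_lit 13475274521) (nat_lit 1900)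 (nat_lit 4285873278) (nat_lit 450) (nat_lit 5) (nat_lit 474) (nat_lit 5) (nat_lit 475) (nat_lit 5) (nat_lit 610) (nat_lit 594) (nat_lit 356)) (XT.lf (nat_lit 0) (nat_lit 4319150205) (nat_lit 1824) (nat_lit 2760930986) (nat_lit 1900) (nat_lit 13954993906) (nat_lit 450) (nat_lit 5) (nat_lit 474) (nat_lit 5) (nat_lit 475) (nat_lit 5) (nat_lit 611) (nat_lit 594) (nat_lit 355))))) (XT.nd (nat_lit 156) (nat_lit 0) (nat_lit 76) (XT.nd (nat_lit 78) (nat_lit 0) (nat_lit 0) (XT.lf (nat_lit 0) (nat_lit 5672567752) (nat_lit 1824) (nat_lit 12998612674) (nat_lit 1900) (nat_lit 2583236691) (nat_lit 451) (nat_lit 5) (nat_lit 475) (nat_lit 5) (nat_lit 476) (nat_lit 5) (nat_lit 612) (nat_lit 594) (nat_lit 354)) (XT.lf (nat_lit 0) (nat_lit 7114565284) (nat_lit 1824) (nat_lit 1997617688) (nat_lit 1900) (nat_lit 12364733377) (nat_lit 451) (nat_lit 5) (nat_lit 475) (nat_lit 5) (nat_lit 476) (nat_lit 5) (nat_lit 613) (nat_lit 594) (nat_lit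 353))) (XT.nd (nat_lit 78) (nat_lit 0) (nat_lit 0) (XT.lf (nat_lit 0) (nat_lit 8646665148) (nat_lit 1824) (nat_lit 12364421048) (nat_lit 1900) (nat_lit 691554715) (nat_lit 452) (nat_lit 5) (nat_lit 476) (nat_lit 5) (nat_lit 477) (nat_lit 5) (nat_lit 614) (nat_lit 594) (nat_lit 352)) (XT.nd (nat_lit 78) (nat_lit 0) (nat_lit 0) (XT.lf (nat_lit 0) (nat_lit 10279362115) (nat_lit 1824) (nat_lit 1068327388) (nat_lit 1900) (nat_lit 10583791940) (nat_lit 452) (nat_lit 5) (nat_lit 476) (nat_lit 5) (nat_lit 477) (nat_lit 5) (nat_lit 615) (nat_lit 594) (nat_lit 351)) (XT.lf (nat_lit 76) (nat_lit 10589499207) (nat_lit 0) (nat_lit 1420159714) (nat_lit 1900) (nat_lit 10153941516) (nat_lit 453) (nat_lit 5) (nat_lit 452) (nat_lit 5) (nat_lit 477) (nat_lit 5) (nat_lit 616) (nat_lit 594) (nat_lit 350))))))))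
noncomputable def xc231 : XT := (XT.nd (nat_lit 1482) (nat_lit 3648) (nat_lit 0) (XT.nd (nat_lit 702) (nat_lit 4104) (nat_lit 0) (XT.nd (nat_lit 312) (nat_lit 2888) (nat_lit 0) (XT.nd (nat_lit 156) (nat_lit 1596) (nat_lit 0) (XT.nd (nat_lit 78) (nat_lit 0) (nat_lit 0) (XT.lf (nat_lit 76) (nat_lit 35506860) (nat_lit 0) (nat_lit 13799277719) (nat_lit 1900) (nat_lit 8564373332) (nat_lit 454) (nat_lit 5) (nat_lit 453) (nat_lit 5) (nat_lit 478) (nat_lit 5) (nat_lit 617) (nat_lit 594) (nat_lit 349)) (XT.lf (nat_lit 76) (nat_lit 12021555596) (nat_lit 0) (nat_lit 3758173178) (nat_lit 1900) (nat_lit 6858031987) (nat_lit 454) (nat_lit 5) (nat_lit 453) (nat_lit 5) (nat_lit 478) (nat_lit 5) (nat_lit 618) (nat_lit 594) (nat_lit 348))) (XT.nd (nat_lit 78) (nat_lit 0) (nat_lit 0) (XT.lf (nat_lit 0) (nat_lit 1338520556) (nat_lit 1672) (nat_lit 16472219423) (nat_lit 1748) (nat_lit 5069452864) (nat_lit 432) (nat_lit 5) (nat_lit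 454) (nat_lit 5) (nat_lit 455) (nat_lit 5) (nat_lit 619) (nat_lit 594) (nat_lit 347)) (XT.lf (nat_lit 0) (nat_lit 13647920313) (nat_lit 1672) (nat_lit 6326847774) (nat_lit 1748) (nat_lit 3150858074) (nat_lit 432) (nat_lit 5) (nat_lit 454) (nat_lit 5) (nat_lit 455) (nat_lit 5) (nat_lit 620) (nat_lit 594) (nat_lit 346)))) (XT.nd (nat_lit 156) (nat_lit 1824) (nat_lit 0) (XT.nd (nat_lit 78) (nat_lit 76) (nat_lit 0) (XT.lf (nat_lit 0) (nat_lit 2835499072) (nat_lit 988) (nat_lit 19387601863) (nat_lit 1064) (nat_lit 1152047239) (nat_lit 419) (nat_lit 5) (nat_lit 432) (nat_lit 5) (nat_lit 433) (nat_lit 5) (nat_lit 621) (nat_lit 594) (nat_lit 345)) (XT.lf (nat_lit 0) (nat_lit 977560836) (nat_lit 1064) (nat_lit 8156171110) (nat_lit 76) (nat_lit 14493765020) (nat_lit 418) (nat_lit 5) (nat_lit 432) (nat_lit 5) (nat_lit 419) (nat_lit 5) (nat_lit 622) (nat_lit 594) (nat_lit 344))) (XT.nd (nat_lit 78) (nat_lit 912) (nat_lit 0)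 (XT.lf (nat_lit 0) (nat_lit 3169168595) (nat_lit 988) (nat_lit 19369481401) (nat_lit 76) (nat_lit 1345394250) (nat_lit 406) (nat_lit 5) (nat_lit 419) (nat_lit 5) (nat_lit 407) (nat_lit 5) (nat_lit 623) (nat_lit 594) (nat_lit 343)) (XT.nd (nat_lit 78) (nat_lit 912) (nat_lit 0) (XT.lf (nat_lit 0) (nat_lit 5516837772) (nat_lit 988) (nat_lit 6659340812) (nat_lit 76) (nat_lit 11967299781) (nat_lit 406) (nat_lit 5) (nat_lit 419) (nat_lit 5) (nat_lit 407) (nat_lit 5) (nat_lit 624) (nat_lit 594) (nat_lit 342)) (XT.lf (nat_lit 0) (nat_lit 6385680611) (nat_lit 912) (nat_lit 1563951861) (nat_lit 988) (nat_lit 16457705721) (nat_lit 394) (nat_lit 5) (nat_lit 406) (nat_lit 5) (nat_lit 407) (nat_lit 5) (nat_lit 625) (nat_lit 594) (nat_lit 341)))))) (XT.nd (nat_lit 390) (nat_lit 2432) (nat_lit 0) (XT.nd (nat_lit 156) (nat_lit 836) (nat_lit 0) (XT.nd (nat_lit 78) (nat_lit 836) (nat_lit 0) (XT.lf (nat_lit 0) (nat_lit 10532950098)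 (nat_lit 988) (nat_lit 4957248953) (nat_lit 76) (nat_lit 9184239282) (nat_lit 394) (nat_lit 5) (nat_lit 407) (nat_lit 5) (nat_lit 395) (nat_lit 5) (nat_lit 626) (nat_lit 594) (nat_lit 340)) (XT.lf (nat_lit 0) (nat_lit 8466067996) (nat_lit 836) (nat_lit 4764012247) (nat_lit 912) (nat_lit 11715557759) (nat_lit 383) (nat_lit 5) (nat_lit 394) (nat_lit 5) (nat_lit 395) (nat_lit 5) (nat_lit 627) (nat_lit 594) (nat_lit 339))) (XT.nd (nat_lit 78) (nat_lit 836) (nat_lit 0) (XT.lf (nat_lit 0) (nat_lit 16051607060) (nat_lit 912) (nat_lit 3039972030) (nat_lit 76) (nat_lit 6129273932) (nat_lit 383) (nat_lit 5) (nat_lit 395) (nat_lit 5) (nat_lit 384) (nat_lit 5) (nat_lit 628) (nat_lit 594) (nat_lit 338)) (XT.nd (nat_lit 78) (nat_lit 0) (nat_lit 0) (XT.lf (nat_lit 0) (nat_lit 10775146676) (nat_lit 836) (nat_lit 8252853155) (nat_lit 912) (nat_lit 6471604237) (nat_lit 372) (nat_lit 5) (nat_lit 383) (nat_lit 5) (nat_lit 384) (nat_lit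 5) (nat_lit 629) (nat_lit 594) (nat_lit 337)) (XT.lf (nat_lit 0) (nat_lit 22099619035) (nat_lit 912) (nat_lit 897159144) (nat_lit 76) (nat_lit 2786438405) (nat_lit 372) (nat_lit 5) (nat_lit 384) (nat_lit 5) (nat_lit 373) (nat_lit 5) (nat_lit 630) (nat_lit 594) (nat_lit 336))))) (XT.nd (nat_lit 156) (nat_lit 760) (nat_lit 0) (XT.nd (nat_lit 78) (nat_lit 912) (nat_lit 0) (XT.lf (nat_lit 0) (nat_lit 13323753599) (nat_lit 760) (nat_lit 12047104819) (nat_lit 836) (nat_lit 698879594) (nat_lit 362) (nat_lit 5) (nat_lit 372) (nat_lit 5) (nat_lit 373) (nat_lit 5) (nat_lit 631) (nat_lit 594) (nat_lit 335)) (XT.lf (nat_lit 0) (nat_lit 1480484533) (nat_lit 836) (nat_lit 847004150) (nat_lit 912) (nat_lit 24033942647) (nat_lit 350) (nat_lit 5) (nat_lit 361) (nat_lit 5) (nat_lit 362) (nat_lit 5) (nat_lit 632) (nat_lit 594) (nat_lit 334))) (XT.nd (nat_lit 78) (nat_lit 760) (nat_lit 0) (XT.lf (nat_lit 0) (nat_lit 5556890449) (nat_lit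 912) (nat_lit 10569936228) (nat_lit 76) (nat_lit 10529002556) (nat_lit 350) (nat_lit 5) (nat_lit 362) (nat_lit 5) (nat_lit 351) (nat_lit 5) (nat_lit 633) (nat_lit 594) (nat_lit 333)) (XT.nd (nat_lit 78) (nat_lit 0) (nat_lit 0) (XT.lf (nat_lit 0) (nat_lit 4072073515) (nat_lit 760) (nat_lit 4807994957) (nat_lit 836) (nat_lit 18075463238) (nat_lit 340) (nat_lit 5) (nat_lit 350) (nat_lit 5) (nat_lit 351) (nat_lit 5) (nat_lit 634) (nat_lit 594) (nat_lit 332)) (XT.lf (nat_lit 0) (nat_lit 12382027881) (nat_lit 836) (nat_lit 8156873678) (nat_lit 76) (nat_lit 6720080699) (nat_lit 340) (nat_lit 5) (nat_lit 351) (nat_lit 5) (nat_lit 341) (nat_lit 5) (nat_lit 635) (nat_lit 594) (nat_lit 331))))))) (XT.nd (nat_lit 78000) (nat_lit 0) (nat_lit 13300) (XT.nd (nat_lit 312) (nat_lit 2204) (nat_lit 0) (XT.nd (nat_lit 156) (nat_lit 684) (nat_lit 0) (XT.nd (nat_lit 78) (nat_lit 0) (nat_lit 0) (XT.lf (nat_lit 0) (nat_lit 6920167047)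 (nat_lit 760) (nat_lit 9107861942) (nat_lit 836) (nat_lit 11538993145) (nat_lit 330) (nat_lit 5) (nat_lit 340) (nat_lit 5) (nat_lit 341) (nat_lit 5) (nat_lit 636) (nat_lit 594) (nat_lit 330)) (XT.lf (nat_lit 0) (nat_lit 19815882094) (nat_lit 836) (nat_lit 5490768852) (nat_lit 76) (nat_lit 2573193584) (nat_lit 330) (nat_lit 5) (nat_lit 341) (nat_lit 5) (nat_lit 331) (nat_lit 5) (nat_lit 637) (nat_lit 594) (nat_lit 329))) (XT.nd (nat_lit 78) (nat_lit 0) (nat_lit 0) (XT.lf (nat_lit 0) (nat_lit 10036788313) (nat_lit 684) (nat_lit 13765504632) (nat_lit 760) (nat_lit 4394174769) (nat_lit 321) (nat_lit 5) (nat_lit 330) (nat_lit 5) (nat_lit 331) (nat_lit 5) (nat_lit 638) (nat_lit 594) (nat_lit 328)) (XT.lf (nat_lit 0) (nat_lit 25946376853) (nat_lit 684) (nat_lit 1956252777) (nat_lit 760) (nat_lit 616110126) (nat_lit 321) (nat_lit 5) (nat_lit 330) (nat_lit 5) (nat_lit 331) (nat_lit 5) (nat_lit 639) (nat_lit 594) (nat_lit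 327)))) (XT.nd (nat_lit 156) (nat_lit 684) (nat_lit 0) (XT.nd (nat_lit 78) (nat_lit 684) (nat_lit 0) (XT.lf (nat_lit 0) (nat_lit 3346181839) (nat_lit 836) (nat_lit 15432020954) (nat_lit 76) (nat_lit 10065811846) (nat_lit 310) (nat_lit 5) (nat_lit 321) (nat_lit 5) (nat_lit 311) (nat_lit 5) (nat_lit 640) (nat_lit 594) (nat_lit 326)) (XT.lf (nat_lit 0) (nat_lit 562730722) (nat_lit 684) (nat_lit 6848148421) (nat_lit 760) (nat_lit 21764206570) (nat_lit 301) (nat_lit 5) (nat_lit 310) (nat_lit 5) (nat_lit 311) (nat_lit 5) (nat_lit 641) (nat_lit 594) (nat_lit 325))) (XT.nd (nat_lit 78) (nat_lit 684) (nat_lit 0) (XT.lf (nat_lit 0) (nat_lit 11693102875) (nat_lit 760) (nat_lit 12462360452) (nat_lit 76) (nat_lit 5354590551) (nat_lit 301) (nat_lit 5) (nat_lit 311) (nat_lit 5) (nat_lit 302) (nat_lit 5) (nat_lit 642) (nat_lit 594) (nat_lit 324)) (XT.nd (nat_lit 78) (nat_lit 0) (nat_lit 0) (XT.lf (nat_lit 0) (nat_lit 4015012303)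 (nat_lit 684) (nat_lit 12114874398) (nat_lit 760) (nat_lit 13720456709) (nat_lit 292) (nat_lit 5) (nat_lit 301) (nat_lit 5) (nat_lit 302) (nat_lit 5) (nat_lit 643) (nat_lit 594) (nat_lit 323)) (XT.lf (nat_lit 0) (nat_lit 20738193166) (nat_lit 760) (nat_lit 9209493123) (nat_lit 76) (nat_lit 248097012) (nat_lit 292) (nat_lit 5) (nat_lit 302) (nat_lit 5) (nat_lit 293) (nat_lit 5) (nat_lit 644) (nat_lit 594) (nat_lit 322)))))) (XT.nd (nat_lit 390) (nat_lit 0) (nat_lit 152) (XT.nd (nat_lit 156) (nat_lit 0) (nat_lit 0) (XT.nd (nat_lit 78) (nat_lit 0) (nat_lit 0) (XT.lf (nat_lit 0) (nat_lit 2783171681) (nat_lit 0) (nat_lit 2783171681) (nat_lit 1748) (nat_lit 3477757800) (nat_lit 467) (nat_lit 5) (nat_lit 467) (nat_lit 3) (nat_lit 490) (nat_lit 3) (nat_lit 595) (nat_lit 595) (nat_lit 370)) (XT.lf (nat_lit 0) (nat_lit 11466506889) (nat_lit 1748) (nat_lit 3677861266) (nat_lit 1824) (nat_lit 3120234689) (nat_lit 467) (nat_lit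 5) (nat_lit 490) (nat_lit 3) (nat_lit 491) (nat_lit 5) (nat_lit 596) (nat_lit 595) (nat_lit 369))) (XT.nd (nat_lit 78) (nat_lit 0) (nat_lit 76) (XT.lf (nat_lit 76) (nat_lit 5373859523) (nat_lit 0) (nat_lit 6499617367) (nat_lit 1824) (nat_lit 6569725846) (nat_lit 468) (nat_lit 5) (nat_lit 467) (nat_lit 5) (nat_lit 491) (nat_lit 5) (nat_lit 597) (nat_lit 595) (nat_lit 368)) (XT.nd (nat_lit 78) (nat_lit 0) (nat_lit 0) (XT.lf (nat_lit 0) (nat_lit 12323301370) (nat_lit 1748) (nat_lit 3986500640) (nat_lit 1824) (nat_lit 2314879128) (nat_lit 468) (nat_lit 5) (nat_lit 491) (nat_lit 5) (nat_lit 492) (nat_lit 5) (nat_lit 598) (nat_lit 595) (nat_lit 367)) (XT.lf (nat_lit 76) (nat_lit 5301668568) (nat_lit 0) (nat_lit 7552842159) (nat_lit 1824) (nat_lit 5953831410) (nat_lit 469) (nat_lit 5) (nat_lit 468) (nat_lit 5) (nat_lit 492) (nat_lit 5) (nat_lit 599) (nat_lit 595) (nat_lit 366))))) (XT.nd (nat_lit 156) (nat_lit 0) (nat_lit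 76) (XT.nd (nat_lit 78) (nat_lit 0) (nat_lit 0) (XT.lf (nat_lit 0) (nat_lit 13427246252) (nat_lit 1748) (nat_lit 4177549457) (nat_lit 1824) (nat_lit 1390263390) (nat_lit 469) (nat_lit 5) (nat_lit 492) (nat_lit 5) (nat_lit 493) (nat_lit 5) (nat_lit 600) (nat_lit 595) (nat_lit 365)) (XT.lf (nat_lit 76) (nat_lit 5355518924) (nat_lit 0) (nat_lit 8735823896) (nat_lit 1824) (nat_lit 5092570220) (nat_lit 470) (nat_lit 5) (nat_lit 469) (nat_lit 5) (nat_lit 493) (nat_lit 5) (nat_lit 601) (nat_lit 595) (nat_lit 364))) (XT.nd (nat_lit 78) (nat_lit 0) (nat_lit 0) (XT.lf (nat_lit 0) (nat_lit 14794162716) (nat_lit 1748) (nat_lit 4245257578) (nat_lit 1824) (nat_lit 336615689) (nat_lit 470) (nat_lit 5) (nat_lit 493) (nat_lit 5) (nat_lit 494) (nat_lit 5) (nat_lit 602) (nat_lit 595) (nat_lit 363)) (XT.nd (nat_lit 78) (nat_lit 0) (nat_lit 0) (XT.lf (nat_lit 76) (nat_lit 5541474970) (nat_lit 0) (nat_lit 10058696145) (nat_lit 1824)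 (nat_lit 3970048366) (nat_lit 471) (nat_lit 5) (nat_lit 470) (nat_lit 5) (nat_lit 494) (nat_lit 5) (nat_lit 603) (nat_lit 595) (nat_lit 362)) (XT.lf (nat_lit 76) (nat_lit 15578615752) (nat_lit 0) (nat_lit 867545389) (nat_lit 1824) (nat_lit 3321649001) (nat_lit 471) (nat_lit 5) (nat_lit 470) (nat_lit 5) (nat_lit 494) (nat_lit 5) (nat_lit 604) (nat_lit 595) (nat_lit 361))))))))
noncomputable def xc232 : XT := (XT.nd (nat_lit 1404) (nat_lit 8284) (nat_lit 0) (XT.nd (nat_lit 702) (nat_lit 2204) (nat_lit 0) (XT.nd (nat_lit 312) (nat_lit 0) (nat_lit 76) (XT.nd (nat_lit 156) (nat_lit 1748) (nat_lit 0) (XT.nd (nat_lit 78) (nat_lit 0) (nat_lit 0) (XT.lf (nat_lit 76) (nat_lit 5865925250) (nat_lit 0) (nat_lit 11531942491) (nat_lit 1824) (nat_lit 2569709647) (nat_lit 472) (nat_lit 5) (nat_lit 471) (nat_lit 5) (nat_lit 495) (nat_lit 5) (nat_lit 605) (nat_lit 595) (nat_lit 360)) (XT.lf (nat_lit 76) (nat_lit 16170212150) (nat_lit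 0) (nat_lit 2227760880) (nat_lit 1824) (nat_lit 1772780352) (nat_lit 472) (nat_lit 5) (nat_lit 471) (nat_lit 5) (nat_lit 495) (nat_lit 5) (nat_lit 606) (nat_lit 595) (nat_lit 359))) (XT.nd (nat_lit 78) (nat_lit 1824) (nat_lit 0) (XT.lf (nat_lit 76) (nat_lit 6335591146) (nat_lit 0) (nat_lit 13166419705) (nat_lit 1824) (nat_lit 874304117) (nat_lit 473) (nat_lit 5) (nat_lit 472) (nat_lit 5) (nat_lit 496) (nat_lit 5) (nat_lit 607) (nat_lit 595) (nat_lit 358)) (XT.lf (nat_lit 0) (nat_lit 79045825) (nat_lit 1824) (nat_lit 3670959978) (nat_lit 1900) (nat_lit 16835228029) (nat_lit 448) (nat_lit 5) (nat_lit 472) (nat_lit 5) (nat_lit 473) (nat_lit 5) (nat_lit 608) (nat_lit 595) (nat_lit 357)))) (XT.nd (nat_lit 156) (nat_lit 0) (nat_lit 76) (XT.nd (nat_lit 78) (nat_lit 0) (nat_lit 0) (XT.lf (nat_lit 0) (nat_lit 1119269902) (nat_lit 1824) (nat_lit 13846600720) (nat_lit 1900) (nat_lit 5830755227) (nat_lit 449) (nat_lit 5) (nat_lit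 473) (nat_lit 5) (nat_lit 474) (nat_lit 5) (nat_lit 609) (nat_lit 595) (nat_lit 356)) (XT.lf (nat_lit 0) (nat_lit 2225767280) (nat_lit 1824) (nat_lit 3206553432) (nat_lit 1900) (nat_lit 15579016247) (nat_lit 449) (nat_lit 5) (nat_lit 473) (nat_lit 5) (nat_lit 474) (nat_lit 5) (nat_lit 610) (nat_lit 595) (nat_lit 355))) (XT.nd (nat_lit 78) (nat_lit 0) (nat_lit 0) (XT.lf (nat_lit 0) (nat_lit 3428804946) (nat_lit 1824) (nat_lit 13512688981) (nat_lit 1900) (nat_lit 4287360775) (nat_lit 450) (nat_lit 5) (nat_lit 474) (nat_lit 5) (nat_lit 475) (nat_lit 5) (nat_lit 611) (nat_lit 595) (nat_lit 354)) (XT.nd (nat_lit 78) (nat_lit 0) (nat_lit 76) (XT.lf (nat_lit 0) (nat_lit 4709526184) (nat_lit 1824) (nat_lit 2588609379) (nat_lit 1900) (nat_lit 14151515384) (nat_lit 450) (nat_lit 5) (nat_lit 474) (nat_lit 5) (nat_lit 475) (nat_lit 5) (nat_lit 612) (nat_lit 595) (nat_lit 353)) (XT.lf (nat_lit 0) (nat_lit 6085042127) (nat_lit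 1824) (nat_lit 13026029853) (nat_lit 1900) (nat_lit 2562408124) (nat_lit 451) (nat_lit 5) (nat_lit 475) (nat_lit 5) (nat_lit 476) (nat_lit 5) (nat_lit 613) (nat_lit 595) (nat_lit 352)))))) (XT.nd (nat_lit 312) (nat_lit 2432) (nat_lit 0) (XT.nd (nat_lit 156) (nat_lit 0) (nat_lit 76) (XT.nd (nat_lit 78) (nat_lit 0) (nat_lit 76) (XT.lf (nat_lit 0) (nat_lit 7550016414) (nat_lit 1824) (nat_lit 1809574871) (nat_lit 1900) (nat_lit 12540956180) (nat_lit 451) (nat_lit 5) (nat_lit 475) (nat_lit 5) (nat_lit 476) (nat_lit 5) (nat_lit 614) (nat_lit 595) (nat_lit 351)) (XT.lf (nat_lit 0) (nat_lit 9108075543) (nat_lit 1824) (nat_lit 12378988414) (nat_lit 1900) (nat_lit 643817079) (nat_lit 452) (nat_lit 5) (nat_lit 476) (nat_lit 5) (nat_lit 477) (nat_lit 5) (nat_lit 615) (nat_lit 595) (nat_lit 350))) (XT.nd (nat_lit 78) (nat_lit 0) (nat_lit 0) (XT.lf (nat_lit 0) (nat_lit 10767770036) (nat_lit 1824) (nat_lit 861536038) (nat_lit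 1900) (nat_lit 10735106278) (nat_lit 452) (nat_lit 5) (nat_lit 476) (nat_lit 5) (nat_lit 477) (nat_lit 5) (nat_lit 616) (nat_lit 595) (nat_lit 349)) (XT.lf (nat_lit 76) (nat_lit 11027946049) (nat_lit 0) (nat_lit 1500652831) (nat_lit 1900) (nat_lit 10072657153) (nat_lit 453) (nat_lit 5) (nat_lit 452) (nat_lit 5) (nat_lit 477) (nat_lit 5) (nat_lit 617) (nat_lit 595) (nat_lit 348)))) (XT.nd (nat_lit 156) (nat_lit 2584) (nat_lit 0) (XT.nd (nat_lit 78) (nat_lit 0) (nat_lit 0) (XT.lf (nat_lit 76) (nat_lit 267298131) (nat_lit 0) (nat_lit 14118632059) (nat_lit 1900) (nat_lit 8455681218) (nat_lit 454) (nat_lit 5) (nat_lit 453) (nat_lit 5) (nat_lit 478) (nat_lit 5) (nat_lit 618) (nat_lit 595) (nat_lit 347)) (XT.lf (nat_lit 76) (nat_lit 12488536839) (nat_lit 0) (nat_lit 3875855060) (nat_lit 1900) (nat_lit 6720702842) (nat_lit 454) (nat_lit 5) (nat_lit 453) (nat_lit 5) (nat_lit 478) (nat_lit 5) (nat_lit 619) (nat_lit 595)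 (nat_lit 346))) (XT.nd (nat_lit 78) (nat_lit 988) (nat_lit 0) (XT.lf (nat_lit 0) (nat_lit 1596010449) (nat_lit 1672) (nat_lit 16835964364) (nat_lit 1748) (nat_lit 4900482403) (nat_lit 432) (nat_lit 5) (nat_lit 454) (nat_lit 5) (nat_lit 455) (nat_lit 5) (nat_lit 620) (nat_lit 595) (nat_lit 345)) (XT.nd (nat_lit 78) (nat_lit 988) (nat_lit 0) (XT.lf (nat_lit 0) (nat_lit 14147074289) (nat_lit 1672) (nat_lit 6487012722) (nat_lit 1748) (nat_lit 2948816884) (nat_lit 432) (nat_lit 5) (nat_lit 454) (nat_lit 5) (nat_lit 455) (nat_lit 5) (nat_lit 621) (nat_lit 595) (nat_lit 344)) (XT.lf (nat_lit 0) (nat_lit 3122333743) (nat_lit 988) (nat_lit 19801238262) (nat_lit 1064) (nat_lit 913921386) (nat_lit 419) (nat_lit 5) (nat_lit 432) (nat_lit 5) (nat_lit 433) (nat_lit 5) (nat_lit 622) (nat_lit 595) (nat_lit 343))))))) (XT.nd (nat_lit 702) (nat_lit 4712) (nat_lit 0) (XT.nd (nat_lit 312) (nat_lit 1672) (nat_lit 0) (XT.nd (nat_lit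 156) (nat_lit 912) (nat_lit 0) (XT.nd (nat_lit 78) (nat_lit 912) (nat_lit 0) (XT.lf (nat_lit 0) (nat_lit 1249799845) (nat_lit 1064) (nat_lit 8090287896) (nat_lit 76) (nat_lit 14754869300) (nat_lit 418) (nat_lit 5) (nat_lit 432) (nat_lit 5) (nat_lit 419) (nat_lit 5) (nat_lit 623) (nat_lit 595) (nat_lit 342)) (XT.lf (nat_lit 0) (nat_lit 3481621221) (nat_lit 988) (nat_lit 19524210456) (nat_lit 76) (nat_lit 1350876671) (nat_lit 406) (nat_lit 5) (nat_lit 419) (nat_lit 5) (nat_lit 407) (nat_lit 5) (nat_lit 624) (nat_lit 595) (nat_lit 341))) (XT.nd (nat_lit 78) (nat_lit 912) (nat_lit 0) (XT.lf (nat_lit 0) (nat_lit 5871360071) (nat_lit 988) (nat_lit 6564429027) (nat_lit 76) (nat_lit 12185640419) (nat_lit 406) (nat_lit 5) (nat_lit 419) (nat_lit 5) (nat_lit 407) (nat_lit 5) (nat_lit 625) (nat_lit 595) (nat_lit 340)) (XT.lf (nat_lit 0) (nat_lit 6739992175) (nat_lit 912) (nat_lit 1609501761) (nat_lit 988) (nat_lit 16541139619)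 (nat_lit 394) (nat_lit 5) (nat_lit 406) (nat_lit 5) (nat_lit 407) (nat_lit 5) (nat_lit 626) (nat_lit 595) (nat_lit 339)))) (XT.nd (nat_lit 156) (nat_lit 836) (nat_lit 0) (XT.nd (nat_lit 78) (nat_lit 836) (nat_lit 0) (XT.lf (nat_lit 0) (nat_lit 10979664158) (nat_lit 988) (nat_lit 4829391962) (nat_lit 76) (nat_lit 9354116521) (nat_lit 394) (nat_lit 5) (nat_lit 407) (nat_lit 5) (nat_lit 395) (nat_lit 5) (nat_lit 627) (nat_lit 595) (nat_lit 338)) (XT.lf (nat_lit 0) (nat_lit 8860897892) (nat_lit 836) (nat_lit 4866674634) (nat_lit 912) (nat_lit 11712287719) (nat_lit 383) (nat_lit 5) (nat_lit 394) (nat_lit 5) (nat_lit 395) (nat_lit 5) (nat_lit 628) (nat_lit 595) (nat_lit 337))) (XT.nd (nat_lit 78) (nat_lit 836) (nat_lit 0) (XT.lf (nat_lit 0) (nat_lit 16600916406) (nat_lit 912) (nat_lit 2875039135) (nat_lit 76) (nat_lit 6244716936) (nat_lit 383) (nat_lit 5) (nat_lit 395) (nat_lit 5) (nat_lit 384) (nat_lit 5) (nat_lit 629)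 (nat_lit 595) (nat_lit 336)) (XT.nd (nat_lit 78) (nat_lit 0) (nat_lit 0) (XT.lf (nat_lit 0) (nat_lit 11214896864) (nat_lit 836) (nat_lit 8418920106) (nat_lit 912) (nat_lit 6371242602) (nat_lit 372) (nat_lit 5) (nat_lit 383) (nat_lit 5) (nat_lit 384) (nat_lit 5) (nat_lit 630) (nat_lit 595) (nat_lit 335)) (XT.lf (nat_lit 0) (nat_lit 22762445324) (nat_lit 912) (nat_lit 690798025) (nat_lit 76) (nat_lit 2841190072) (nat_lit 372) (nat_lit 5) (nat_lit 384) (nat_lit 5) (nat_lit 373) (nat_lit 5) (nat_lit 631) (nat_lit 595) (nat_lit 334)))))) (XT.nd (nat_lit 390) (nat_lit 2280) (nat_lit 0) (XT.nd (nat_lit 156) (nat_lit 760) (nat_lit 0) (XT.nd (nat_lit 78) (nat_lit 912) (nat_lit 0) (XT.lf (nat_lit 0) (nat_lit 13813057287) (nat_lit 760) (nat_lit 12283168882) (nat_lit 836) (nat_lit 490517379) (nat_lit 362) (nat_lit 5) (nat_lit 372) (nat_lit 5) (nat_lit 373) (nat_lit 5) (nat_lit 632) (nat_lit 595) (nat_lit 333)) (XT.lf (nat_lit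 0) (nat_lit 1734383130) (nat_lit 836) (nat_lit 856232913) (nat_lit 912) (nat_lit 24293683323) (nat_lit 350) (nat_lit 5) (nat_lit 361) (nat_lit 5) (nat_lit 362) (nat_lit 5) (nat_lit 633) (nat_lit 595) (nat_lit 332))) (XT.nd (nat_lit 78) (nat_lit 760) (nat_lit 0) (XT.lf (nat_lit 0) (nat_lit 5880408310) (nat_lit 912) (nat_lit 10557217863) (nat_lit 76) (nat_lit 10747043572) (nat_lit 350) (nat_lit 5) (nat_lit 362) (nat_lit 5) (nat_lit 351) (nat_lit 5) (nat_lit 634) (nat_lit 595) (nat_lit 331)) (XT.nd (nat_lit 78) (nat_lit 0) (nat_lit 0) (XT.lf (nat_lit 0) (nat_lit 4376157620) (nat_lit 760) (nat_lit 4891173503) (nat_lit 836) (nat_lit 18223090084) (nat_lit 340) (nat_lit 5) (nat_lit 350) (nat_lit 5) (nat_lit 351) (nat_lit 5) (nat_lit 635) (nat_lit 595) (nat_lit 330)) (XT.lf (nat_lit 0) (nat_lit 12835301344) (nat_lit 836) (nat_lit 8097678320) (nat_lit 76) (nat_lit 6867042215) (nat_lit 340) (nat_lit 5) (nat_lit 351) (nat_lit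 5) (nat_lit 341) (nat_lit 5) (nat_lit 636) (nat_lit 595) (nat_lit 329))))) (XT.nd (nat_lit 156) (nat_lit 1520) (nat_lit 0) (XT.nd (nat_lit 78) (nat_lit 0) (nat_lit 0) (XT.lf (nat_lit 0) (nat_lit 7279440504) (nat_lit 760) (nat_lit 9272183988) (nat_lit 836) (nat_lit 11562650558) (nat_lit 330) (nat_lit 5) (nat_lit 340) (nat_lit 5) (nat_lit 341) (nat_lit 5) (nat_lit 637) (nat_lit 595) (nat_lit 328)) (XT.lf (nat_lit 0) (nat_lit 20411367110) (nat_lit 836) (nat_lit 5380151048) (nat_lit 76) (nat_lit 2641913613) (nat_lit 330) (nat_lit 5) (nat_lit 341) (nat_lit 5) (nat_lit 331) (nat_lit 5) (nat_lit 638) (nat_lit 595) (nat_lit 327))) (XT.nd (nat_lit 78) (nat_lit 836) (nat_lit 0) (XT.lf (nat_lit 0) (nat_lit 10456507042) (nat_lit 684) (nat_lit 14018515676) (nat_lit 760) (nat_lit 4281414886) (nat_lit 321) (nat_lit 5) (nat_lit 330) (nat_lit 5) (nat_lit 331) (nat_lit 5) (nat_lit 639) (nat_lit 595) (nat_lit 326)) (XT.nd (nat_lit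 78) (nat_lit 836) (nat_lit 0) (XT.lf (nat_lit 0) (nat_lit 26679993569) (nat_lit 684) (nat_lit 1973516021) (nat_lit 760) (nat_lit 431723133) (nat_lit 321) (nat_lit 5) (nat_lit 330) (nat_lit 5) (nat_lit 331) (nat_lit 5) (nat_lit 640) (nat_lit 595) (nat_lit 325)) (XT.lf (nat_lit 0) (nat_lit 3604986603) (nat_lit 836) (nat_lit 15521095042) (nat_lit 76) (nat_lit 10290951365) (nat_lit 310) (nat_lit 5) (nat_lit 321) (nat_lit 5) (nat_lit 311) (nat_lit 5) (nat_lit 641) (nat_lit 595) (nat_lit 324))))))))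
noncomputable def xc233 : XT := (XT.nd (nat_lit 78858) (nat_lit 0) (nat_lit 6916) (XT.nd (nat_lit 78078) (nat_lit 0) (nat_lit 11856) (XT.nd (nat_lit 77688) (nat_lit 0) (nat_lit 13300) (XT.nd (nat_lit 156) (nat_lit 684) (nat_lit 0) (XT.nd (nat_lit 78) (nat_lit 0) (nat_lit 0) (XT.lf (nat_lit 0) (nat_lit 792107152) (nat_lit 684) (nat_lit 6956524517) (nat_lit 760) (nat_lit 22006141236) (nat_lit 301) (nat_lit 5) (nat_lit 310) (nat_lit 5) (nat_lit 311) (nat_lit 5) (nat_lit 642) (nat_lit 595) (nat_lit 323)) (XT.lf (nat_lit 0) (nat_lit 12112965471) (nat_lit 760) (nat_lit 12494204982) (nat_lit 76) (nat_lit 5489341137) (nat_lit 301) (nat_lit 5) (nat_lit 311) (nat_lit 5) (nat_lit 302) (nat_lit 5) (nat_lit 643) (nat_lit 595) (nat_lit 322))) (XT.nd (nat_lit 77454) (nat_lit 0) (nat_lit 13300) (XT.lf (nat_lit 0) (nat_lit 4311284947) (nat_lit 684) (nat_lit 12324955193) (nat_lit 760) (nat_lit 13807412126) (nat_lit 292) (nat_lit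 5) (nat_lit 301) (nat_lit 5) (nat_lit 302) (nat_lit 5) (nat_lit 644) (nat_lit 595) (nat_lit 321)) (XT.lf (nat_lit 0) (nat_lit 2939162186) (nat_lit 0) (nat_lit 2939162186) (nat_lit 1748) (nat_lit 3342614297) (nat_lit 467) (nat_lit 5) (nat_lit 467) (nat_lit 3) (nat_lit 490) (nat_lit 3) (nat_lit 596) (nat_lit 596) (nat_lit 368)))) (XT.nd (nat_lit 156) (nat_lit 0) (nat_lit 76) (XT.nd (nat_lit 78) (nat_lit 0) (nat_lit 0) (XT.lf (nat_lit 0) (nat_lit 12087999290) (nat_lit 1748) (nat_lit 3545491086) (nat_lit 1824) (nat_lit 2988499649) (nat_lit 467) (nat_lit 5) (nat_lit 490) (nat_lit 3) (nat_lit 491) (nat_lit 5) (nat_lit 597) (nat_lit 596) (nat_lit 367)) (XT.lf (nat_lit 76) (nat_lit 5685909333) (nat_lit 0) (nat_lit 6810838122) (nat_lit 1824) (nat_lit 6307542892) (nat_lit 468) (nat_lit 5) (nat_lit 467) (nat_lit 5) (nat_lit 491) (nat_lit 5) (nat_lit 598) (nat_lit 596) (nat_lit 366))) (XT.nd (nat_lit 78) (nat_lit 0) (nat_lit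 0) (XT.lf (nat_lit 0) (nat_lit 12946850116) (nat_lit 1748) (nat_lit 3856891714) (nat_lit 1824) (nat_lit 2185832039) (nat_lit 468) (nat_lit 5) (nat_lit 491) (nat_lit 5) (nat_lit 492) (nat_lit 5) (nat_lit 599) (nat_lit 596) (nat_lit 365)) (XT.nd (nat_lit 78) (nat_lit 0) (nat_lit 76) (XT.lf (nat_lit 76) (nat_lit 5615663648) (nat_lit 0) (nat_lit 7866976458) (nat_lit 1824) (nat_lit 5694390014) (nat_lit 469) (nat_lit 5) (nat_lit 468) (nat_lit 5) (nat_lit 492) (nat_lit 5) (nat_lit 600) (nat_lit 596) (nat_lit 364)) (XT.lf (nat_lit 0) (nat_lit 14058517018) (nat_lit 1748) (nat_lit 4048846157) (nat_lit 1824) (nat_lit 1260285652) (nat_lit 469) (nat_lit 5) (nat_lit 492) (nat_lit 5) (nat_lit 493) (nat_lit 5) (nat_lit 601) (nat_lit 596) (nat_lit 363)))))) (XT.nd (nat_lit 390) (nat_lit 1596) (nat_lit 0) (XT.nd (nat_lit 156) (nat_lit 0) (nat_lit 76) (XT.nd (nat_lit 78) (nat_lit 0) (nat_lit 76) (XT.lf (nat_lit 76) (nat_lit 5673487182)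 (nat_lit 0) (nat_lit 9056665093) (nat_lit 1824) (nat_lit 4830243552) (nat_lit 470) (nat_lit 5) (nat_lit 469) (nat_lit 5) (nat_lit 493) (nat_lit 5) (nat_lit 602) (nat_lit 596) (nat_lit 362)) (XT.lf (nat_lit 0) (nat_lit 15439098775) (nat_lit 1748) (nat_lit 4115454797) (nat_lit 1824) (nat_lit 201967349) (nat_lit 470) (nat_lit 5) (nat_lit 493) (nat_lit 5) (nat_lit 494) (nat_lit 5) (nat_lit 603) (nat_lit 596) (nat_lit 361))) (XT.nd (nat_lit 78) (nat_lit 0) (nat_lit 0) (XT.lf (nat_lit 76) (nat_lit 5865599850) (nat_lit 0) (nat_lit 10390168174) (nat_lit 1824) (nat_lit 3698930323) (nat_lit 471) (nat_lit 5) (nat_lit 470) (nat_lit 5) (nat_lit 494) (nat_lit 5) (nat_lit 604) (nat_lit 596) (nat_lit 360)) (XT.nd (nat_lit 78) (nat_lit 0) (nat_lit 76) (XT.lf (nat_lit 76) (nat_lit 16099301185) (nat_lit 0) (nat_lit 1012639538) (nat_lit 1824) (nat_lit 3044435892) (nat_lit 471) (nat_lit 5) (nat_lit 470) (nat_lit 5) (nat_lit 494) (nat_lit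 5) (nat_lit 605) (nat_lit 596) (nat_lit 359)) (XT.lf (nat_lit 76) (nat_lit 6198550126) (nat_lit 0) (nat_lit 11878111083) (nat_lit 1824) (nat_lit 2283599434) (nat_lit 472) (nat_lit 5) (nat_lit 471) (nat_lit 5) (nat_lit 495) (nat_lit 5) (nat_lit 606) (nat_lit 596) (nat_lit 358))))) (XT.nd (nat_lit 156) (nat_lit 1748) (nat_lit 0) (XT.nd (nat_lit 78) (nat_lit 0) (nat_lit 76) (XT.lf (nat_lit 76) (nat_lit 16704701070) (nat_lit 0) (nat_lit 2385580551) (nat_lit 1824) (nat_lit 1477349287) (nat_lit 472) (nat_lit 5) (nat_lit 471) (nat_lit 5) (nat_lit 495) (nat_lit 5) (nat_lit 607) (nat_lit 596) (nat_lit 357)) (XT.lf (nat_lit 76) (nat_lit 6679224013) (nat_lit 0) (nat_lit 13531503827) (nat_lit 1824) (nat_lit 566690326) (nat_lit 473) (nat_lit 5) (nat_lit 472) (nat_lit 5) (nat_lit 496) (nat_lit 5) (nat_lit 608) (nat_lit 596) (nat_lit 356))) (XT.nd (nat_lit 78) (nat_lit 0) (nat_lit 76) (XT.lf (nat_lit 0) (nat_lit 395171967) (nat_lit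 1824) (nat_lit 3527483704) (nat_lit 1900) (nat_lit 17067944290) (nat_lit 448) (nat_lit 5) (nat_lit 472) (nat_lit 5) (nat_lit 473) (nat_lit 5) (nat_lit 609) (nat_lit 596) (nat_lit 355)) (XT.nd (nat_lit 78) (nat_lit 0) (nat_lit 0) (XT.lf (nat_lit 0) (nat_lit 1450819626) (nat_lit 1824) (nat_lit 13901209653) (nat_lit 1900) (nat_lit 5854299092) (nat_lit 449) (nat_lit 5) (nat_lit 473) (nat_lit 5) (nat_lit 474) (nat_lit 5) (nat_lit 610) (nat_lit 596) (nat_lit 354)) (XT.lf (nat_lit 0) (nat_lit 2573384906) (nat_lit 1824) (nat_lit 3052720696) (nat_lit 1900) (nat_lit 15799350258) (nat_lit 449) (nat_lit 5) (nat_lit 473) (nat_lit 5) (nat_lit 474) (nat_lit 5) (nat_lit 611) (nat_lit 596) (nat_lit 353))))))) (XT.nd (nat_lit 702) (nat_lit 5092) (nat_lit 0) (XT.nd (nat_lit 312) (nat_lit 0) (nat_lit 152) (XT.nd (nat_lit 156) (nat_lit 0) (nat_lit 76) (XT.nd (nat_lit 78) (nat_lit 0) (nat_lit 0) (XT.lf (nat_lit 0) (nat_lit 3795413372)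 (nat_lit 1824) (nat_lit 13559864107) (nat_lit 1900) (nat_lit 4292148775) (nat_lit 450) (nat_lit 5) (nat_lit 474) (nat_lit 5) (nat_lit 475) (nat_lit 5) (nat_lit 612) (nat_lit 596) (nat_lit 352)) (XT.lf (nat_lit 0) (nat_lit 5095905264) (nat_lit 1824) (nat_lit 2421677005) (nat_lit 1900) (nat_lit 14355173912) (nat_lit 450) (nat_lit 5) (nat_lit 474) (nat_lit 5) (nat_lit 475) (nat_lit 5) (nat_lit 613) (nat_lit 596) (nat_lit 351))) (XT.nd (nat_lit 78) (nat_lit 0) (nat_lit 0) (XT.lf (nat_lit 0) (nat_lit 6494154562) (nat_lit 1824) (nat_lit 13063025773) (nat_lit 1900) (nat_lit 2543977988) (nat_lit 451) (nat_lit 5) (nat_lit 475) (nat_lit 5) (nat_lit 476) (nat_lit 5) (nat_lit 614) (nat_lit 596) (nat_lit 350)) (XT.lf (nat_lit 0) (nat_lit 7982792814) (nat_lit 1824) (nat_lit 1626624527) (nat_lit 1900) (nat_lit 12723463247) (nat_lit 451) (nat_lit 5) (nat_lit 475) (nat_lit 5) (nat_lit 476) (nat_lit 5) (nat_lit 615) (nat_lit 596)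 (nat_lit 349)))) (XT.nd (nat_lit 156) (nat_lit 0) (nat_lit 0) (XT.nd (nat_lit 78) (nat_lit 0) (nat_lit 0) (XT.lf (nat_lit 0) (nat_lit 9567512229) (nat_lit 1824) (nat_lit 12402883970) (nat_lit 1900) (nat_lit 597515479) (nat_lit 452) (nat_lit 5) (nat_lit 476) (nat_lit 5) (nat_lit 477) (nat_lit 5) (nat_lit 616) (nat_lit 596) (nat_lit 348)) (XT.lf (nat_lit 0) (nat_lit 11254963844) (nat_lit 1824) (nat_lit 659468511) (nat_lit 1900) (nat_lit 10891790814) (nat_lit 452) (nat_lit 5) (nat_lit 476) (nat_lit 5) (nat_lit 477) (nat_lit 5) (nat_lit 617) (nat_lit 596) (nat_lit 347))) (XT.nd (nat_lit 78) (nat_lit 0) (nat_lit 76) (XT.lf (nat_lit 76) (nat_lit 11466360467) (nat_lit 0) (nat_lit 1580733096) (nat_lit 1900) (nat_lit 10000789273) (nat_lit 453) (nat_lit 5) (nat_lit 452) (nat_lit 5) (nat_lit 477) (nat_lit 5) (nat_lit 618) (nat_lit 596) (nat_lit 346)) (XT.nd (nat_lit 78) (nat_lit 0) (nat_lit 0) (XT.lf (nat_lit 76) (nat_lit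 494752065) (nat_lit 0) (nat_lit 14442689424) (nat_lit 1900) (nat_lit 8355687211) (nat_lit 454) (nat_lit 5) (nat_lit 453) (nat_lit 5) (nat_lit 478) (nat_lit 5) (nat_lit 619) (nat_lit 596) (nat_lit 345)) (XT.lf (nat_lit 76) (nat_lit 12956060489) (nat_lit 0) (nat_lit 3994239536) (nat_lit 1900) (nat_lit 6591285887) (nat_lit 454) (nat_lit 5) (nat_lit 453) (nat_lit 5) (nat_lit 478) (nat_lit 5) (nat_lit 620) (nat_lit 596) (nat_lit 344)))))) (XT.nd (nat_lit 390) (nat_lit 1748) (nat_lit 0) (XT.nd (nat_lit 156) (nat_lit 1976) (nat_lit 0) (XT.nd (nat_lit 78) (nat_lit 0) (nat_lit 0) (XT.lf (nat_lit 0) (nat_lit 1849691020) (nat_lit 1672) (nat_lit 17205652272) (nat_lit 1748) (nat_lit 4738630923) (nat_lit 432) (nat_lit 5) (nat_lit 454) (nat_lit 5) (nat_lit 455) (nat_lit 5) (nat_lit 621) (nat_lit 596) (nat_lit 343)) (XT.lf (nat_lit 0) (nat_lit 14647427895) (nat_lit 1672) (nat_lit 6649075153) (nat_lit 1748) (nat_lit 2753027409)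 (nat_lit 432) (nat_lit 5) (nat_lit 454) (nat_lit 5) (nat_lit 455) (nat_lit 5) (nat_lit 622) (nat_lit 596) (nat_lit 342))) (XT.nd (nat_lit 78) (nat_lit 988) (nat_lit 0) (XT.lf (nat_lit 0) (nat_lit 3405969085) (nat_lit 988) (nat_lit 20222142268) (nat_lit 1064) (nat_lit 681174441) (nat_lit 419) (nat_lit 5) (nat_lit 432) (nat_lit 5) (nat_lit 433) (nat_lit 5) (nat_lit 623) (nat_lit 596) (nat_lit 341)) (XT.nd (nat_lit 78) (nat_lit 912) (nat_lit 0) (XT.lf (nat_lit 0) (nat_lit 1517671459) (nat_lit 1064) (nat_lit 8031979626) (nat_lit 76) (nat_lit 15022312879) (nat_lit 418) (nat_lit 5) (nat_lit 432) (nat_lit 5) (nat_lit 419) (nat_lit 5) (nat_lit 624) (nat_lit 596) (nat_lit 340)) (XT.lf (nat_lit 0) (nat_lit 3790651236) (nat_lit 988) (nat_lit 19691068586) (nat_lit 76) (nat_lit 1357300716) (nat_lit 406) (nat_lit 5) (nat_lit 419) (nat_lit 5) (nat_lit 407) (nat_lit 5) (nat_lit 625) (nat_lit 596) (nat_lit 339))))) (XT.nd (nat_lit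 156) (nat_lit 836) (nat_lit 0) (XT.nd (nat_lit 78) (nat_lit 912) (nat_lit 0) (XT.lf (nat_lit 0) (nat_lit 6223490793) (nat_lit 988) (nat_lit 6476476353) (nat_lit 76) (nat_lit 12409163534) (nat_lit 406) (nat_lit 5) (nat_lit 419) (nat_lit 5) (nat_lit 407) (nat_lit 5) (nat_lit 626) (nat_lit 596) (nat_lit 338)) (XT.lf (nat_lit 0) (nat_lit 7092590897) (nat_lit 912) (nat_lit 1655408504) (nat_lit 988) (nat_lit 16635783811) (nat_lit 394) (nat_lit 5) (nat_lit 406) (nat_lit 5) (nat_lit 407) (nat_lit 5) (nat_lit 627) (nat_lit 596) (nat_lit 337))) (XT.nd (nat_lit 78) (nat_lit 836) (nat_lit 0) (XT.lf (nat_lit 0) (nat_lit 11426146194) (nat_lit 988) (nat_lit 4707792594) (nat_lit 76) (nat_lit 9527927469) (nat_lit 394) (nat_lit 5) (nat_lit 407) (nat_lit 5) (nat_lit 395) (nat_lit 5) (nat_lit 628) (nat_lit 596) (nat_lit 336)) (XT.nd (nat_lit 78) (nat_lit 0) (nat_lit 0) (XT.lf (nat_lit 0) (nat_lit 9254867614) (nat_lit 836) (nat_lit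 4971103612) (nat_lit 912) (nat_lit 11718177845) (nat_lit 383) (nat_lit 5) (nat_lit 394) (nat_lit 5) (nat_lit 395) (nat_lit 5) (nat_lit 629) (nat_lit 596) (nat_lit 335)) (XT.lf (nat_lit 0) (nat_lit 17152347657) (nat_lit 912) (nat_lit 2715573043) (nat_lit 76) (nat_lit 6362746151) (nat_lit 383) (nat_lit 5) (nat_lit 395) (nat_lit 5) (nat_lit 384) (nat_lit 5) (nat_lit 630) (nat_lit 596) (nat_lit 334))))))))
noncomputable def xc234 : XT := (XT.nd (nat_lit 78936) (nat_lit 0) (nat_lit 11172) (XT.nd (nat_lit 702) (nat_lit 2204) (nat_lit 0) (XT.nd (nat_lit 312) (nat_lit 1520) (nat_lit 0) (XT.nd (nat_lit 156) (nat_lit 1672) (nat_lit 0) (XT.nd (nat_lit 78) (nat_lit 0) (nat_lit 0) (XT.lf (nat_lit 0) (nat_lit 11654734262) (nat_lit 836) (nat_lit 8588269181) (nat_lit 912) (nat_lit 6277796905) (nat_lit 372) (nat_lit 5) (nat_lit 383) (nat_lit 5) (nat_lit 384) (nat_lit 5) (nat_lit 631) (nat_lit 596) (nat_lit 333)) (XT.lf (nat_lit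 0) (nat_lit 23429952889) (nat_lit 912) (nat_lit 489019693) (nat_lit 76) (nat_lit 2897074715) (nat_lit 372) (nat_lit 5) (nat_lit 384) (nat_lit 5) (nat_lit 373) (nat_lit 5) (nat_lit 632) (nat_lit 596) (nat_lit 332))) (XT.nd (nat_lit 78) (nat_lit 912) (nat_lit 0) (XT.lf (nat_lit 0) (nat_lit 14303494342) (nat_lit 760) (nat_lit 12524143646) (nat_lit 836) (nat_lit 286621645) (nat_lit 362) (nat_lit 5) (nat_lit 372) (nat_lit 5) (nat_lit 373) (nat_lit 5) (nat_lit 633) (nat_lit 596) (nat_lit 331)) (XT.lf (nat_lit 0) (nat_lit 1984650287) (nat_lit 836) (nat_lit 865945691) (nat_lit 912) (nat_lit 24567198111) (nat_lit 350) (nat_lit 5) (nat_lit 361) (nat_lit 5) (nat_lit 362) (nat_lit 5) (nat_lit 634) (nat_lit 596) (nat_lit 330)))) (XT.nd (nat_lit 156) (nat_lit 760) (nat_lit 0) (XT.nd (nat_lit 78) (nat_lit 760) (nat_lit 0) (XT.lf (nat_lit 0) (nat_lit 6202149552) (nat_lit 912) (nat_lit 10552947871) (nat_lit 76) (nat_lit 10969155691)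 (nat_lit 350) (nat_lit 5) (nat_lit 362) (nat_lit 5) (nat_lit 351) (nat_lit 5) (nat_lit 635) (nat_lit 596) (nat_lit 329)) (XT.lf (nat_lit 0) (nat_lit 4677677921) (nat_lit 760) (nat_lit 4976519702) (nat_lit 836) (nat_lit 18381974782) (nat_lit 340) (nat_lit 5) (nat_lit 350) (nat_lit 5) (nat_lit 351) (nat_lit 5) (nat_lit 636) (nat_lit 596) (nat_lit 328))) (XT.nd (nat_lit 78) (nat_lit 760) (nat_lit 0) (XT.lf (nat_lit 0) (nat_lit 13289655301) (nat_lit 836) (nat_lit 8045932509) (nat_lit 76) (nat_lit 7016455246) (nat_lit 340) (nat_lit 5) (nat_lit 351) (nat_lit 5) (nat_lit 341) (nat_lit 5) (nat_lit 637) (nat_lit 596) (nat_lit 327)) (XT.nd (nat_lit 78) (nat_lit 0) (nat_lit 0) (XT.lf (nat_lit 0) (nat_lit 7637322774) (nat_lit 760) (nat_lit 9440485038) (nat_lit 836) (nat_lit 11594823936) (nat_lit 330) (nat_lit 5) (nat_lit 340) (nat_lit 5) (nat_lit 341) (nat_lit 5) (nat_lit 638) (nat_lit 596) (nat_lit 326)) (XT.lf (nat_lit 0)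 (nat_lit 21011027915) (nat_lit 836) (nat_lit 5275880577) (nat_lit 76) (nat_lit 2711337964) (nat_lit 330) (nat_lit 5) (nat_lit 341) (nat_lit 5) (nat_lit 331) (nat_lit 5) (nat_lit 639) (nat_lit 596) (nat_lit 325)))))) (XT.nd (nat_lit 77844) (nat_lit 0) (nat_lit 12616) (XT.nd (nat_lit 156) (nat_lit 1520) (nat_lit 0) (XT.nd (nat_lit 78) (nat_lit 0) (nat_lit 0) (XT.lf (nat_lit 0) (nat_lit 10876116770) (nat_lit 684) (nat_lit 14277452840) (nat_lit 760) (nat_lit 4174191031) (nat_lit 321) (nat_lit 5) (nat_lit 330) (nat_lit 5) (nat_lit 331) (nat_lit 5) (nat_lit 640) (nat_lit 596) (nat_lit 324)) (XT.lf (nat_lit 0) (nat_lit 27419945977) (nat_lit 684) (nat_lit 1991973450) (nat_lit 760) (nat_lit 251286859) (nat_lit 321) (nat_lit 5) (nat_lit 330) (nat_lit 5) (nat_lit 331) (nat_lit 5) (nat_lit 641) (nat_lit 596) (nat_lit 323))) (XT.nd (nat_lit 78) (nat_lit 684) (nat_lit 0) (XT.lf (nat_lit 0) (nat_lit 3861516485) (nat_lit 836)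 (nat_lit 15620476641) (nat_lit 76) (nat_lit 10519668587) (nat_lit 310) (nat_lit 5) (nat_lit 321) (nat_lit 5) (nat_lit 311) (nat_lit 5) (nat_lit 642) (nat_lit 596) (nat_lit 322)) (XT.nd (nat_lit 78) (nat_lit 0) (nat_lit 0) (XT.lf (nat_lit 0) (nat_lit 1017601175) (nat_lit 684) (nat_lit 7068178199) (nat_lit 760) (nat_lit 22260422590) (nat_lit 301) (nat_lit 5) (nat_lit 310) (nat_lit 5) (nat_lit 311) (nat_lit 5) (nat_lit 643) (nat_lit 596) (nat_lit 321)) (XT.lf (nat_lit 0) (nat_lit 12534002691) (nat_lit 760) (nat_lit 12535128414) (nat_lit 76) (nat_lit 5625712710) (nat_lit 301) (nat_lit 5) (nat_lit 311) (nat_lit 5) (nat_lit 302) (nat_lit 5) (nat_lit 644) (nat_lit 596) (nat_lit 320))))) (XT.nd (nat_lit 156) (nat_lit 0) (nat_lit 0) (XT.nd (nat_lit 78) (nat_lit 0) (nat_lit 0) (XT.lf (nat_lit 0) (nat_lit 3094376680) (nat_lit 0) (nat_lit 3094376680) (nat_lit 1748) (nat_lit 3212716623) (nat_lit 467) (nat_lit 5) (nat_lit 467)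 (nat_lit 3) (nat_lit 490) (nat_lit 3) (nat_lit 597) (nat_lit 597) (nat_lit 366)) (XT.lf (nat_lit 0) (nat_lit 12706693400) (nat_lit 1748) (nat_lit 3418469915) (nat_lit 1824) (nat_lit 2861668590) (nat_lit 467) (nat_lit 5) (nat_lit 490) (nat_lit 3) (nat_lit 491) (nat_lit 5) (nat_lit 598) (nat_lit 597) (nat_lit 365))) (XT.nd (nat_lit 78) (nat_lit 0) (nat_lit 76) (XT.lf (nat_lit 76) (nat_lit 5996256335) (nat_lit 0) (nat_lit 7121245973) (nat_lit 1824) (nat_lit 6055399372) (nat_lit 468) (nat_lit 5) (nat_lit 467) (nat_lit 5) (nat_lit 491) (nat_lit 5) (nat_lit 599) (nat_lit 597) (nat_lit 364)) (XT.nd (nat_lit 78) (nat_lit 0) (nat_lit 0) (XT.lf (nat_lit 0) (nat_lit 13568227255) (nat_lit 1748) (nat_lit 3732819495) (nat_lit 1824) (nat_lit 2061012855) (nat_lit 468) (nat_lit 5) (nat_lit 491) (nat_lit 5) (nat_lit 492) (nat_lit 5) (nat_lit 600) (nat_lit 597) (nat_lit 363)) (XT.lf (nat_lit 76) (nat_lit 5927863224) (nat_lit 0) (nat_lit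 8181060947) (nat_lit 1824) (nat_lit 5444458105) (nat_lit 469) (nat_lit 5) (nat_lit 468) (nat_lit 5) (nat_lit 492) (nat_lit 5) (nat_lit 601) (nat_lit 597) (nat_lit 362))))))) (XT.nd (nat_lit 702) (nat_lit 0) (nat_lit 76) (XT.nd (nat_lit 312) (nat_lit 1596) (nat_lit 0) (XT.nd (nat_lit 156) (nat_lit 0) (nat_lit 76) (XT.nd (nat_lit 78) (nat_lit 0) (nat_lit 0) (XT.lf (nat_lit 0) (nat_lit 14688328113) (nat_lit 1748) (nat_lit 3925810883) (nat_lit 1824) (nat_lit 1133835265) (nat_lit 469) (nat_lit 5) (nat_lit 492) (nat_lit 5) (nat_lit 493) (nat_lit 5) (nat_lit 602) (nat_lit 597) (nat_lit 361)) (XT.lf (nat_lit 76) (nat_lit 5989626938) (nat_lit 0) (nat_lit 9378248913) (nat_lit 1824) (nat_lit 4576811829) (nat_lit 470) (nat_lit 5) (nat_lit 469) (nat_lit 5) (nat_lit 493) (nat_lit 5) (nat_lit 603) (nat_lit 597) (nat_lit 360))) (XT.nd (nat_lit 78) (nat_lit 0) (nat_lit 0) (XT.lf (nat_lit 0) (nat_lit 16083379409) (nat_lit 1748)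 (nat_lit 3991393330) (nat_lit 1824) (nat_lit 70116025) (nat_lit 470) (nat_lit 5) (nat_lit 493) (nat_lit 5) (nat_lit 494) (nat_lit 5) (nat_lit 604) (nat_lit 597) (nat_lit 359)) (XT.lf (nat_lit 76) (nat_lit 6187924709) (nat_lit 0) (nat_lit 10723210009) (nat_lit 1824) (nat_lit 3436001000) (nat_lit 471) (nat_lit 5) (nat_lit 470) (nat_lit 5) (nat_lit 494) (nat_lit 5) (nat_lit 605) (nat_lit 597) (nat_lit 358)))) (XT.nd (nat_lit 156) (nat_lit 1672) (nat_lit 0) (XT.nd (nat_lit 78) (nat_lit 0) (nat_lit 76) (XT.lf (nat_lit 76) (nat_lit 16622280210) (nat_lit 0) (nat_lit 1155675144) (nat_lit 1824) (nat_lit 2775022718) (nat_lit 471) (nat_lit 5) (nat_lit 470) (nat_lit 5) (nat_lit 494) (nat_lit 5) (nat_lit 606) (nat_lit 597) (nat_lit 357)) (XT.lf (nat_lit 76) (nat_lit 6529466891) (nat_lit 0) (nat_lit 12226716887) (nat_lit 1824) (nat_lit 2004872724) (nat_lit 472) (nat_lit 5) (nat_lit 471) (nat_lit 5) (nat_lit 495) (nat_lit 5)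 (nat_lit 607) (nat_lit 597) (nat_lit 356))) (XT.nd (nat_lit 78) (nat_lit 1748) (nat_lit 0) (XT.lf (nat_lit 76) (nat_lit 17241683094) (nat_lit 0) (nat_lit 2542158419) (nat_lit 1824) (nat_lit 1188858333) (nat_lit 472) (nat_lit 5) (nat_lit 471) (nat_lit 5) (nat_lit 495) (nat_lit 5) (nat_lit 608) (nat_lit 597) (nat_lit 355)) (XT.nd (nat_lit 78) (nat_lit 1824) (nat_lit 0) (XT.lf (nat_lit 76) (nat_lit 7021306229) (nat_lit 0) (nat_lit 13899938331) (nat_lit 1824) (nat_lit 265548283) (nat_lit 473) (nat_lit 5) (nat_lit 472) (nat_lit 5) (nat_lit 496) (nat_lit 5) (nat_lit 609) (nat_lit 597) (nat_lit 354)) (XT.lf (nat_lit 0) (nat_lit 705406458) (nat_lit 1824) (nat_lit 3389560220) (nat_lit 1900) (nat_lit 17309352868) (nat_lit 448) (nat_lit 5) (nat_lit 472) (nat_lit 5) (nat_lit 473) (nat_lit 5) (nat_lit 610) (nat_lit 597) (nat_lit 353)))))) (XT.nd (nat_lit 390) (nat_lit 0) (nat_lit 152) (XT.nd (nat_lit 156) (nat_lit 0) (nat_lit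 76) (XT.nd (nat_lit 78) (nat_lit 0) (nat_lit 0) (XT.lf (nat_lit 0) (nat_lit 1776995117) (nat_lit 1824) (nat_lit 13965543841) (nat_lit 1900) (nat_lit 5881927903) (nat_lit 449) (nat_lit 5) (nat_lit 473) (nat_lit 5) (nat_lit 474) (nat_lit 5) (nat_lit 611) (nat_lit 597) (nat_lit 352)) (XT.lf (nat_lit 0) (nat_lit 2916185054) (nat_lit 1824) (nat_lit 2904275104) (nat_lit 1900) (nat_lit 16027634155) (nat_lit 449) (nat_lit 5) (nat_lit 473) (nat_lit 5) (nat_lit 474) (nat_lit 5) (nat_lit 612) (nat_lit 597) (nat_lit 351))) (XT.nd (nat_lit 78) (nat_lit 0) (nat_lit 0) (XT.lf (nat_lit 0) (nat_lit 4157781009) (nat_lit 1824) (nat_lit 13616645152) (nat_lit 1900) (nat_lit 4300176280) (nat_lit 450) (nat_lit 5) (nat_lit 474) (nat_lit 5) (nat_lit 475) (nat_lit 5) (nat_lit 613) (nat_lit 597) (nat_lit 350)) (XT.nd (nat_lit 78) (nat_lit 0) (nat_lit 76) (XT.lf (nat_lit 0) (nat_lit 5478665888) (nat_lit 1824) (nat_lit 2259898548) (nat_lit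 1900) (nat_lit 14565987713) (nat_lit 450) (nat_lit 5) (nat_lit 474) (nat_lit 5) (nat_lit 475) (nat_lit 5) (nat_lit 614) (nat_lit 597) (nat_lit 349)) (XT.lf (nat_lit 0) (nat_lit 6900288704) (nat_lit 1824) (nat_lit 13109441346) (nat_lit 1900) (nat_lit 2527884943) (nat_lit 451) (nat_lit 5) (nat_lit 475) (nat_lit 5) (nat_lit 476) (nat_lit 5) (nat_lit 615) (nat_lit 597) (nat_lit 348))))) (XT.nd (nat_lit 156) (nat_lit 0) (nat_lit 76) (XT.nd (nat_lit 78) (nat_lit 0) (nat_lit 76) (XT.lf (nat_lit 0) (nat_lit 8413283033) (nat_lit 1824) (nat_lit 1448524722) (nat_lit 1900) (nat_lit 12912273095) (nat_lit 451) (nat_lit 5) (nat_lit 475) (nat_lit 5) (nat_lit 476) (nat_lit 5) (nat_lit 616) (nat_lit 597) (nat_lit 347)) (XT.lf (nat_lit 0) (nat_lit 10025370715) (nat_lit 1824) (nat_lit 12435943367) (nat_lit 1900) (nat_lit 552585799) (nat_lit 452) (nat_lit 5) (nat_lit 476) (nat_lit 5) (nat_lit 477) (nat_lit 5) (nat_lit 617) (nat_lit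 597) (nat_lit 346))) (XT.nd (nat_lit 78) (nat_lit 0) (nat_lit 0) (XT.lf (nat_lit 0) (nat_lit 11741345711) (nat_lit 1824) (nat_lit 461875252) (nat_lit 1900) (nat_lit 11053861934) (nat_lit 452) (nat_lit 5) (nat_lit 476) (nat_lit 5) (nat_lit 477) (nat_lit 5) (nat_lit 618) (nat_lit 597) (nat_lit 345)) (XT.nd (nat_lit 78) (nat_lit 0) (nat_lit 76) (XT.lf (nat_lit 76) (nat_lit 11905083578) (nat_lit 0) (nat_lit 1660470796) (nat_lit 1900) (nat_lit 9938097423) (nat_lit 453) (nat_lit 5) (nat_lit 452) (nat_lit 5) (nat_lit 477) (nat_lit 5) (nat_lit 619) (nat_lit 597) (nat_lit 344)) (XT.lf (nat_lit 76) (nat_lit 718130354) (nat_lit 0) (nat_lit 14771609267) (nat_lit 1900) (nat_lit 8264143100) (nat_lit 454) (nat_lit 5) (nat_lit 453) (nat_lit 5) (nat_lit 478) (nat_lit 5) (nat_lit 620) (nat_lit 597) (nat_lit 343))))))))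
noncomputable def xc235 : XT := (XT.nd (nat_lit 1482) (nat_lit 1520) (nat_lit 0) (XT.nd (nat_lit 702) (nat_lit 4864) (nat_lit 0) (XT.nd (nat_lit 312) (nat_lit 1900) (nat_lit 0) (XT.nd (nat_lit 156) (nat_lit 988) (nat_lit 0) (XT.nd (nat_lit 78) (nat_lit 1596) (nat_lit 0) (XT.lf (nat_lit 76) (nat_lit 13424479001) (nat_lit 0) (nat_lit 4113404773) (nat_lit 1900) (nat_lit 6469525473) (nat_lit 454) (nat_lit 5) (nat_lit 453) (nat_lit 5) (nat_lit 478) (nat_lit 5) (nat_lit 621) (nat_lit 597) (nat_lit 342)) (XT.lf (nat_lit 0) (nat_lit 2099833978) (nat_lit 1672) (nat_lit 17581453726) (nat_lit 1748) (nat_lit 4583633137) (nat_lit 432) (nat_lit 5) (nat_lit 454) (nat_lit 5) (nat_lit 455) (nat_lit 5) (nat_lit 622) (nat_lit 597) (nat_lit 341))) (XT.nd (nat_lit 78) (nat_lit 988) (nat_lit 0) (XT.lf (nat_lit 0) (nat_lit 15149346195) (nat_lit 1672) (nat_lit 6813123723) (nat_lit 1748) (nat_lit 2563215012) (nat_lit 432) (nat_lit 5) (nat_lit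 454) (nat_lit 5) (nat_lit 455) (nat_lit 5) (nat_lit 623) (nat_lit 597) (nat_lit 340)) (XT.lf (nat_lit 0) (nat_lit 3686688108) (nat_lit 988) (nat_lit 20650498262) (nat_lit 1064) (nat_lit 453520179) (nat_lit 419) (nat_lit 5) (nat_lit 432) (nat_lit 5) (nat_lit 433) (nat_lit 5) (nat_lit 624) (nat_lit 597) (nat_lit 339)))) (XT.nd (nat_lit 156) (nat_lit 912) (nat_lit 0) (XT.nd (nat_lit 78) (nat_lit 912) (nat_lit 0) (XT.lf (nat_lit 0) (nat_lit 1781469350) (nat_lit 1064) (nat_lit 7981052486) (nat_lit 76) (nat_lit 15296179162) (nat_lit 418) (nat_lit 5) (nat_lit 432) (nat_lit 5) (nat_lit 419) (nat_lit 5) (nat_lit 625) (nat_lit 597) (nat_lit 338)) (XT.lf (nat_lit 0) (nat_lit 4096565752) (nat_lit 988) (nat_lit 19869947551) (nat_lit 76) (nat_lit 1364652913) (nat_lit 406) (nat_lit 5) (nat_lit 419) (nat_lit 5) (nat_lit 407) (nat_lit 5) (nat_lit 626) (nat_lit 597) (nat_lit 337))) (XT.nd (nat_lit 78) (nat_lit 912) (nat_lit 0) (XT.lf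 (nat_lit 0) (nat_lit 6573550306) (nat_lit 988) (nat_lit 6395278031) (nat_lit 76) (nat_lit 12637941101) (nat_lit 406) (nat_lit 5) (nat_lit 419) (nat_lit 5) (nat_lit 407) (nat_lit 5) (nat_lit 627) (nat_lit 597) (nat_lit 336)) (XT.nd (nat_lit 78) (nat_lit 0) (nat_lit 0) (XT.lf (nat_lit 0) (nat_lit 7443784197) (nat_lit 912) (nat_lit 1701700745) (nat_lit 988) (nat_lit 16741491989) (nat_lit 394) (nat_lit 5) (nat_lit 406) (nat_lit 5) (nat_lit 407) (nat_lit 5) (nat_lit 628) (nat_lit 597) (nat_lit 335)) (XT.lf (nat_lit 0) (nat_lit 11872747504) (nat_lit 988) (nat_lit 4592233714) (nat_lit 76) (nat_lit 9705729979) (nat_lit 394) (nat_lit 5) (nat_lit 407) (nat_lit 5) (nat_lit 395) (nat_lit 5) (nat_lit 629) (nat_lit 597) (nat_lit 334)))))) (XT.nd (nat_lit 390) (nat_lit 2432) (nat_lit 0) (XT.nd (nat_lit 156) (nat_lit 1596) (nat_lit 0) (XT.nd (nat_lit 78) (nat_lit 0) (nat_lit 0) (XT.lf (nat_lit 0) (nat_lit 9648299996) (nat_lit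 836) (nat_lit 5077345643) (nat_lit 912) (nat_lit 11733053101) (nat_lit 383) (nat_lit 5) (nat_lit 394) (nat_lit 5) (nat_lit 395) (nat_lit 5) (nat_lit 630) (nat_lit 597) (nat_lit 333)) (XT.lf (nat_lit 0) (nat_lit 17706287461) (nat_lit 912) (nat_lit 2561342718) (nat_lit 76) (nat_lit 6483402531) (nat_lit 383) (nat_lit 5) (nat_lit 395) (nat_lit 5) (nat_lit 384) (nat_lit 5) (nat_lit 631) (nat_lit 597) (nat_lit 332))) (XT.nd (nat_lit 78) (nat_lit 760) (nat_lit 0) (XT.lf (nat_lit 0) (nat_lit 12094998748) (nat_lit 836) (nat_lit 8760967545) (nat_lit 912) (nat_lit 6191058966) (nat_lit 372) (nat_lit 5) (nat_lit 383) (nat_lit 5) (nat_lit 384) (nat_lit 5) (nat_lit 632) (nat_lit 597) (nat_lit 331)) (XT.nd (nat_lit 78) (nat_lit 760) (nat_lit 0) (XT.lf (nat_lit 0) (nat_lit 24102568343) (nat_lit 912) (nat_lit 291577583) (nat_lit 76) (nat_lit 2954113518) (nat_lit 372) (nat_lit 5) (nat_lit 384) (nat_lit 5) (nat_lit 373) (nat_lit 5)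 (nat_lit 633) (nat_lit 597) (nat_lit 330)) (XT.lf (nat_lit 0) (nat_lit 14795423427) (nat_lit 760) (nat_lit 12770119970) (nat_lit 836) (nat_lit 86946464) (nat_lit 362) (nat_lit 5) (nat_lit 372) (nat_lit 5) (nat_lit 373) (nat_lit 5) (nat_lit 634) (nat_lit 597) (nat_lit 329))))) (XT.nd (nat_lit 156) (nat_lit 1520) (nat_lit 0) (XT.nd (nat_lit 78) (nat_lit 0) (nat_lit 0) (XT.lf (nat_lit 0) (nat_lit 2231551573) (nat_lit 836) (nat_lit 876140537) (nat_lit 912) (nat_lit 24854429348) (nat_lit 350) (nat_lit 5) (nat_lit 361) (nat_lit 5) (nat_lit 362) (nat_lit 5) (nat_lit 635) (nat_lit 597) (nat_lit 328)) (XT.lf (nat_lit 0) (nat_lit 6522398882) (nat_lit 912) (nat_lit 10556957281) (nat_lit 76) (nat_lit 11195431583) (nat_lit 350) (nat_lit 5) (nat_lit 362) (nat_lit 5) (nat_lit 351) (nat_lit 5) (nat_lit 636) (nat_lit 597) (nat_lit 327))) (XT.nd (nat_lit 78) (nat_lit 760) (nat_lit 0) (XT.lf (nat_lit 0) (nat_lit 4976918859) (nat_lit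 760) (nat_lit 5064057332) (nat_lit 836) (nat_lit 18552019984) (nat_lit 340) (nat_lit 5) (nat_lit 350) (nat_lit 5) (nat_lit 351) (nat_lit 5) (nat_lit 637) (nat_lit 597) (nat_lit 326)) (XT.nd (nat_lit 78) (nat_lit 760) (nat_lit 0) (XT.lf (nat_lit 0) (nat_lit 13745421427) (nat_lit 836) (nat_lit 8001449990) (nat_lit 76) (nat_lit 7168387759) (nat_lit 340) (nat_lit 5) (nat_lit 351) (nat_lit 5) (nat_lit 341) (nat_lit 5) (nat_lit 638) (nat_lit 597) (nat_lit 325)) (XT.lf (nat_lit 0) (nat_lit 7994119076) (nat_lit 760) (nat_lit 9612817779) (nat_lit 836) (nat_lit 11635371286) (nat_lit 330) (nat_lit 5) (nat_lit 340) (nat_lit 5) (nat_lit 341) (nat_lit 5) (nat_lit 639) (nat_lit 597) (nat_lit 324))))))) (XT.nd (nat_lit 78312) (nat_lit 0) (nat_lit 10488) (XT.nd (nat_lit 77922) (nat_lit 0) (nat_lit 11932) (XT.nd (nat_lit 156) (nat_lit 836) (nat_lit 0) (XT.nd (nat_lit 78) (nat_lit 684) (nat_lit 0) (XT.lf (nat_lit 0) (nat_lit 21615248341)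 (nat_lit 836) (nat_lit 5177752002) (nat_lit 76) (nat_lit 2781506745) (nat_lit 330) (nat_lit 5) (nat_lit 341) (nat_lit 5) (nat_lit 331) (nat_lit 5) (nat_lit 640) (nat_lit 597) (nat_lit 323)) (XT.lf (nat_lit 0) (nat_lit 11295945514) (nat_lit 684) (nat_lit 14542401023) (nat_lit 760) (nat_lit 4072311384) (nat_lit 321) (nat_lit 5) (nat_lit 330) (nat_lit 5) (nat_lit 331) (nat_lit 5) (nat_lit 641) (nat_lit 597) (nat_lit 322))) (XT.nd (nat_lit 78) (nat_lit 836) (nat_lit 0) (XT.lf (nat_lit 0) (nat_lit 28166684513) (nat_lit 684) (nat_lit 2011615983) (nat_lit 760) (nat_lit 74583706) (nat_lit 321) (nat_lit 5) (nat_lit 330) (nat_lit 5) (nat_lit 331) (nat_lit 5) (nat_lit 642) (nat_lit 597) (nat_lit 321)) (XT.lf (nat_lit 0) (nat_lit 4116015316) (nat_lit 836) (nat_lit 15730040823) (nat_lit 76) (nat_lit 10752070988) (nat_lit 310) (nat_lit 5) (nat_lit 321) (nat_lit 5) (nat_lit 311) (nat_lit 5) (nat_lit 643) (nat_lit 597) (nat_lit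 320)))) (XT.nd (nat_lit 156) (nat_lit 0) (nat_lit 0) (XT.nd (nat_lit 78) (nat_lit 0) (nat_lit 0) (XT.lf (nat_lit 0) (nat_lit 3248950920) (nat_lit 0) (nat_lit 3248950920) (nat_lit 1748) (nat_lit 3087861036) (nat_lit 467) (nat_lit 5) (nat_lit 467) (nat_lit 3) (nat_lit 490) (nat_lit 3) (nat_lit 598) (nat_lit 598) (nat_lit 364)) (XT.lf (nat_lit 0) (nat_lit 13323124581) (nat_lit 1748) (nat_lit 3296594222) (nat_lit 1824) (nat_lit 2739546856) (nat_lit 467) (nat_lit 5) (nat_lit 490) (nat_lit 3) (nat_lit 491) (nat_lit 5) (nat_lit 599) (nat_lit 598) (nat_lit 363))) (XT.nd (nat_lit 78) (nat_lit 0) (nat_lit 76) (XT.lf (nat_lit 76) (nat_lit 6305174941) (nat_lit 0) (nat_lit 7431097929) (nat_lit 1824) (nat_lit 5812902613) (nat_lit 468) (nat_lit 5) (nat_lit 467) (nat_lit 5) (nat_lit 491) (nat_lit 5) (nat_lit 600) (nat_lit 598) (nat_lit 362)) (XT.nd (nat_lit 78) (nat_lit 0) (nat_lit 0) (XT.lf (nat_lit 0) (nat_lit 14187957945) (nat_lit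 1748) (nat_lit 3614079064) (nat_lit 1824) (nat_lit 1940241739) (nat_lit 468) (nat_lit 5) (nat_lit 491) (nat_lit 5) (nat_lit 492) (nat_lit 5) (nat_lit 601) (nat_lit 598) (nat_lit 361)) (XT.lf (nat_lit 76) (nat_lit 6238544962) (nat_lit 0) (nat_lit 8495340528) (nat_lit 1824) (nat_lit 5203655122) (nat_lit 469) (nat_lit 5) (nat_lit 468) (nat_lit 5) (nat_lit 492) (nat_lit 5) (nat_lit 602) (nat_lit 598) (nat_lit 360)))))) (XT.nd (nat_lit 390) (nat_lit 1596) (nat_lit 0) (XT.nd (nat_lit 156) (nat_lit 0) (nat_lit 0) (XT.nd (nat_lit 78) (nat_lit 0) (nat_lit 0) (XT.lf (nat_lit 0) (nat_lit 15317197285) (nat_lit 1748) (nat_lit 3808236945) (nat_lit 1824) (nat_lit 1010744862) (nat_lit 469) (nat_lit 5) (nat_lit 492) (nat_lit 5) (nat_lit 493) (nat_lit 5) (nat_lit 603) (nat_lit 598) (nat_lit 359)) (XT.lf (nat_lit 76) (nat_lit 6304219564) (nat_lit 0) (nat_lit 9700810545) (nat_lit 1824) (nat_lit 4331903819) (nat_lit 470) (nat_lit 5)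 (nat_lit 469) (nat_lit 5) (nat_lit 493) (nat_lit 5) (nat_lit 604) (nat_lit 598) (nat_lit 358))) (XT.nd (nat_lit 78) (nat_lit 0) (nat_lit 76) (XT.lf (nat_lit 76) (nat_lit 16668025747) (nat_lit 0) (nat_lit 59880872) (nat_lit 1824) (nat_lit 3813372169) (nat_lit 470) (nat_lit 5) (nat_lit 469) (nat_lit 5) (nat_lit 493) (nat_lit 5) (nat_lit 605) (nat_lit 598) (nat_lit 357)) (XT.nd (nat_lit 78) (nat_lit 0) (nat_lit 0) (XT.lf (nat_lit 76) (nat_lit 6508735165) (nat_lit 0) (nat_lit 11058049518) (nat_lit 1824) (nat_lit 3180895636) (nat_lit 471) (nat_lit 5) (nat_lit 470) (nat_lit 5) (nat_lit 494) (nat_lit 5) (nat_lit 606) (nat_lit 598) (nat_lit 356)) (XT.lf (nat_lit 76) (nat_lit 17147914012) (nat_lit 0) (nat_lit 1296803656) (nat_lit 1824) (nat_lit 2513047306) (nat_lit 471) (nat_lit 5) (nat_lit 470) (nat_lit 5) (nat_lit 494) (nat_lit 5) (nat_lit 607) (nat_lit 598) (nat_lit 355))))) (XT.nd (nat_lit 156) (nat_lit 1748) (nat_lit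 0) (XT.nd (nat_lit 78) (nat_lit 0) (nat_lit 0) (XT.lf (nat_lit 76) (nat_lit 6858966035) (nat_lit 0) (nat_lit 12577982849) (nat_lit 1824) (nat_lit 1733168277) (nat_lit 472) (nat_lit 5) (nat_lit 471) (nat_lit 5) (nat_lit 495) (nat_lit 5) (nat_lit 608) (nat_lit 598) (nat_lit 354)) (XT.lf (nat_lit 76) (nat_lit 17781526369) (nat_lit 0) (nat_lit 2697640435) (nat_lit 1824) (nat_lit 906947361) (nat_lit 472) (nat_lit 5) (nat_lit 471) (nat_lit 5) (nat_lit 495) (nat_lit 5) (nat_lit 609) (nat_lit 598) (nat_lit 353))) (XT.nd (nat_lit 78) (nat_lit 0) (nat_lit 0) (XT.lf (nat_lit 0) (nat_lit 29096110) (nat_lit 1824) (nat_lit 14242652300) (nat_lit 1900) (nat_lit 7332842507) (nat_lit 448) (nat_lit 5) (nat_lit 472) (nat_lit 5) (nat_lit 473) (nat_lit 5) (nat_lit 610) (nat_lit 598) (nat_lit 352)) (XT.nd (nat_lit 78) (nat_lit 0) (nat_lit 76) (XT.lf (nat_lit 0) (nat_lit 1010105756) (nat_lit 1824) (nat_lit 3256973534) (nat_lit 1900) (nat_lit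 17559470810) (nat_lit 448) (nat_lit 5) (nat_lit 472) (nat_lit 5) (nat_lit 473) (nat_lit 5) (nat_lit 611) (nat_lit 598) (nat_lit 351)) (XT.lf (nat_lit 0) (nat_lit 2098155069) (nat_lit 1824) (nat_lit 14039462556) (nat_lit 1900) (nat_lit 5913583022) (nat_lit 449) (nat_lit 5) (nat_lit 473) (nat_lit 5) (nat_lit 474) (nat_lit 5) (nat_lit 612) (nat_lit 598) (nat_lit 350))))))))
noncomputable def xc236 : XT := (XT.nd (nat_lit 1482) (nat_lit 4788) (nat_lit 0) (XT.nd (nat_lit 702) (nat_lit 5016) (nat_lit 0) (XT.nd (nat_lit 312) (nat_lit 0) (nat_lit 152) (XT.nd (nat_lit 156) (nat_lit 0) (nat_lit 76) (XT.nd (nat_lit 78) (nat_lit 0) (nat_lit 76) (XT.lf (nat_lit 0) (nat_lit 3254528411) (nat_lit 1824) (nat_lit 2760995742) (nat_lit 1900) (nat_lit 16263889349) (nat_lit 449) (nat_lit 5) (nat_lit 473) (nat_lit 5) (nat_lit 474) (nat_lit 5) (nat_lit 613) (nat_lit 598) (nat_lit 349)) (XT.lf (nat_lit 0) (nat_lit 4516272432) (nat_lit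 1824) (nat_lit 13682887862) (nat_lit 1900) (nat_lit 4311386004) (nat_lit 450) (nat_lit 5) (nat_lit 474) (nat_lit 5) (nat_lit 475) (nat_lit 5) (nat_lit 614) (nat_lit 598) (nat_lit 348))) (XT.nd (nat_lit 78) (nat_lit 0) (nat_lit 76) (XT.lf (nat_lit 0) (nat_lit 5858176267) (nat_lit 1824) (nat_lit 2103047309) (nat_lit 1900) (nat_lit 14783980211) (nat_lit 450) (nat_lit 5) (nat_lit 474) (nat_lit 5) (nat_lit 475) (nat_lit 5) (nat_lit 615) (nat_lit 598) (nat_lit 347)) (XT.lf (nat_lit 0) (nat_lit 7303818363) (nat_lit 1824) (nat_lit 13165127922) (nat_lit 1900) (nat_lit 2514070665) (nat_lit 451) (nat_lit 5) (nat_lit 475) (nat_lit 5) (nat_lit 476) (nat_lit 5) (nat_lit 616) (nat_lit 598) (nat_lit 346)))) (XT.nd (nat_lit 156) (nat_lit 0) (nat_lit 76) (XT.nd (nat_lit 78) (nat_lit 0) (nat_lit 76) (XT.lf (nat_lit 0) (nat_lit 8841866228) (nat_lit 1824) (nat_lit 1275042029) (nat_lit 1900) (nat_lit 13107408776) (nat_lit 451) (nat_lit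 5) (nat_lit 475) (nat_lit 5) (nat_lit 476) (nat_lit 5) (nat_lit 617) (nat_lit 598) (nat_lit 345)) (XT.lf (nat_lit 0) (nat_lit 10482037532) (nat_lit 1824) (nat_lit 12478012597) (nat_lit 1900) (nat_lit 508966244) (nat_lit 452) (nat_lit 5) (nat_lit 476) (nat_lit 5) (nat_lit 477) (nat_lit 5) (nat_lit 618) (nat_lit 598) (nat_lit 344))) (XT.nd (nat_lit 78) (nat_lit 0) (nat_lit 0) (XT.lf (nat_lit 0) (nat_lit 12227309294) (nat_lit 1824) (nat_lit 268515074) (nat_lit 1900) (nat_lit 11221339888) (nat_lit 452) (nat_lit 5) (nat_lit 476) (nat_lit 5) (nat_lit 477) (nat_lit 5) (nat_lit 619) (nat_lit 598) (nat_lit 343)) (XT.nd (nat_lit 78) (nat_lit 0) (nat_lit 76) (XT.lf (nat_lit 76) (nat_lit 12344450053) (nat_lit 0) (nat_lit 1739934573) (nat_lit 1900) (nat_lit 9884352994) (nat_lit 453) (nat_lit 5) (nat_lit 452) (nat_lit 5) (nat_lit 477) (nat_lit 5) (nat_lit 620) (nat_lit 598) (nat_lit 342)) (XT.lf (nat_lit 76) (nat_lit 937686395)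 (nat_lit 0) (nat_lit 15105551693) (nat_lit 1900) (nat_lit 8180812107) (nat_lit 454) (nat_lit 5) (nat_lit 453) (nat_lit 5) (nat_lit 478) (nat_lit 5) (nat_lit 621) (nat_lit 598) (nat_lit 341)))))) (XT.nd (nat_lit 390) (nat_lit 2660) (nat_lit 0) (XT.nd (nat_lit 156) (nat_lit 1064) (nat_lit 0) (XT.nd (nat_lit 78) (nat_lit 1596) (nat_lit 0) (XT.lf (nat_lit 76) (nat_lit 13894138614) (nat_lit 0) (nat_lit 4233428007) (nat_lit 1900) (nat_lit 6355176908) (nat_lit 454) (nat_lit 5) (nat_lit 453) (nat_lit 5) (nat_lit 478) (nat_lit 5) (nat_lit 622) (nat_lit 598) (nat_lit 340)) (XT.lf (nat_lit 0) (nat_lit 2346702955) (nat_lit 1672) (nat_lit 17963540709) (nat_lit 1748) (nat_lit 4435234285) (nat_lit 432) (nat_lit 5) (nat_lit 454) (nat_lit 5) (nat_lit 455) (nat_lit 5) (nat_lit 623) (nat_lit 598) (nat_lit 339))) (XT.nd (nat_lit 78) (nat_lit 1064) (nat_lit 0) (XT.lf (nat_lit 0) (nat_lit 15653188312) (nat_lit 1672) (nat_lit 6979246893)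 (nat_lit 1748) (nat_lit 2379115082) (nat_lit 432) (nat_lit 5) (nat_lit 454) (nat_lit 5) (nat_lit 455) (nat_lit 5) (nat_lit 624) (nat_lit 598) (nat_lit 338)) (XT.nd (nat_lit 78) (nat_lit 76) (nat_lit 0) (XT.lf (nat_lit 0) (nat_lit 3964766009) (nat_lit 988) (nat_lit 21086492800) (nat_lit 1064) (nat_lit 230681940) (nat_lit 419) (nat_lit 5) (nat_lit 432) (nat_lit 5) (nat_lit 433) (nat_lit 5) (nat_lit 625) (nat_lit 598) (nat_lit 337)) (XT.lf (nat_lit 0) (nat_lit 2041478265) (nat_lit 1064) (nat_lit 7937322197) (nat_lit 76) (nat_lit 15576554902) (nat_lit 418) (nat_lit 5) (nat_lit 432) (nat_lit 5) (nat_lit 419) (nat_lit 5) (nat_lit 626) (nat_lit 598) (nat_lit 336))))) (XT.nd (nat_lit 156) (nat_lit 1748) (nat_lit 0) (XT.nd (nat_lit 78) (nat_lit 0) (nat_lit 0) (XT.lf (nat_lit 0) (nat_lit 4399663437) (nat_lit 988) (nat_lit 20060750571) (nat_lit 76) (nat_lit 1372920771) (nat_lit 406) (nat_lit 5) (nat_lit 419) (nat_lit 5) (nat_lit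 407) (nat_lit 5) (nat_lit 627) (nat_lit 598) (nat_lit 335)) (XT.lf (nat_lit 0) (nat_lit 6921851086) (nat_lit 988) (nat_lit 6320638561) (nat_lit 76) (nat_lit 12872047766) (nat_lit 406) (nat_lit 5) (nat_lit 419) (nat_lit 5) (nat_lit 407) (nat_lit 5) (nat_lit 628) (nat_lit 598) (nat_lit 334))) (XT.nd (nat_lit 78) (nat_lit 836) (nat_lit 0) (XT.lf (nat_lit 0) (nat_lit 7793872378) (nat_lit 912) (nat_lit 1748406878) (nat_lit 988) (nat_lit 16858129309) (nat_lit 394) (nat_lit 5) (nat_lit 406) (nat_lit 5) (nat_lit 407) (nat_lit 5) (nat_lit 629) (nat_lit 598) (nat_lit 333)) (XT.nd (nat_lit 78) (nat_lit 836) (nat_lit 0) (XT.lf (nat_lit 0) (nat_lit 12319812590) (nat_lit 988) (nat_lit 4482507135) (nat_lit 76) (nat_lit 9887583872) (nat_lit 394) (nat_lit 5) (nat_lit 407) (nat_lit 5) (nat_lit 395) (nat_lit 5) (nat_lit 630) (nat_lit 598) (nat_lit 332)) (XT.lf (nat_lit 0) (nat_lit 10041511123) (nat_lit 836) (nat_lit 5185447687) (nat_lit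 912) (nat_lit 11756748860) (nat_lit 383) (nat_lit 5) (nat_lit 394) (nat_lit 5) (nat_lit 395) (nat_lit 5) (nat_lit 631) (nat_lit 598) (nat_lit 331))))))) (XT.nd (nat_lit 702) (nat_lit 760) (nat_lit 0) (XT.nd (nat_lit 312) (nat_lit 2356) (nat_lit 0) (XT.nd (nat_lit 156) (nat_lit 836) (nat_lit 0) (XT.nd (nat_lit 78) (nat_lit 836) (nat_lit 0) (XT.lf (nat_lit 0) (nat_lit 18263116836) (nat_lit 912) (nat_lit 2412125718) (nat_lit 76) (nat_lit 6606728268) (nat_lit 383) (nat_lit 5) (nat_lit 395) (nat_lit 5) (nat_lit 384) (nat_lit 5) (nat_lit 632) (nat_lit 598) (nat_lit 330)) (XT.lf (nat_lit 0) (nat_lit 12536023868) (nat_lit 836) (nat_lit 8937083648) (nat_lit 912) (nat_lit 6110829899) (nat_lit 372) (nat_lit 5) (nat_lit 383) (nat_lit 5) (nat_lit 384) (nat_lit 5) (nat_lit 633) (nat_lit 598) (nat_lit 329))) (XT.nd (nat_lit 78) (nat_lit 836) (nat_lit 0) (XT.lf (nat_lit 0) (nat_lit 24780713900) (nat_lit 912) (nat_lit 98233333)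 (nat_lit 76) (nat_lit 3012328151) (nat_lit 372) (nat_lit 5) (nat_lit 384) (nat_lit 5) (nat_lit 373) (nat_lit 5) (nat_lit 634) (nat_lit 598) (nat_lit 328)) (XT.lf (nat_lit 0) (nat_lit 107319769) (nat_lit 836) (nat_lit 12913150874) (nat_lit 76) (nat_lit 15181157388) (nat_lit 361) (nat_lit 5) (nat_lit 372) (nat_lit 5) (nat_lit 362) (nat_lit 5) (nat_lit 635) (nat_lit 598) (nat_lit 327)))) (XT.nd (nat_lit 156) (nat_lit 1520) (nat_lit 0) (XT.nd (nat_lit 78) (nat_lit 0) (nat_lit 0) (XT.lf (nat_lit 0) (nat_lit 2475344734) (nat_lit 836) (nat_lit 886815916) (nat_lit 912) (nat_lit 25155331156) (nat_lit 350) (nat_lit 5) (nat_lit 361) (nat_lit 5) (nat_lit 362) (nat_lit 5) (nat_lit 636) (nat_lit 598) (nat_lit 326)) (XT.lf (nat_lit 0) (nat_lit 6841434268) (nat_lit 912) (nat_lit 10569086866) (nat_lit 76) (nat_lit 11425965339) (nat_lit 350) (nat_lit 5) (nat_lit 362) (nat_lit 5) (nat_lit 351) (nat_lit 5) (nat_lit 637) (nat_lit 598)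 (nat_lit 325))) (XT.nd (nat_lit 78) (nat_lit 760) (nat_lit 0) (XT.lf (nat_lit 0) (nat_lit 5274157524) (nat_lit 760) (nat_lit 5153811408) (nat_lit 836) (nat_lit 18733138916) (nat_lit 340) (nat_lit 5) (nat_lit 350) (nat_lit 5) (nat_lit 351) (nat_lit 5) (nat_lit 638) (nat_lit 598) (nat_lit 324)) (XT.nd (nat_lit 78) (nat_lit 760) (nat_lit 0) (XT.lf (nat_lit 0) (nat_lit 14202925992) (nat_lit 836) (nat_lit 7964053798) (nat_lit 76) (nat_lit 7322908349) (nat_lit 340) (nat_lit 5) (nat_lit 351) (nat_lit 5) (nat_lit 341) (nat_lit 5) (nat_lit 639) (nat_lit 598) (nat_lit 323)) (XT.lf (nat_lit 0) (nat_lit 8350127799) (nat_lit 760) (nat_lit 9789236994) (nat_lit 836) (nat_lit 11684159903) (nat_lit 330) (nat_lit 5) (nat_lit 340) (nat_lit 5) (nat_lit 341) (nat_lit 5) (nat_lit 640) (nat_lit 598) (nat_lit 322)))))) (XT.nd (nat_lit 78078) (nat_lit 0) (nat_lit 11172) (XT.nd (nat_lit 156) (nat_lit 76) (nat_lit 0) (XT.nd (nat_lit 78)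 (nat_lit 684) (nat_lit 0) (XT.lf (nat_lit 0) (nat_lit 22224408236) (nat_lit 836) (nat_lit 5085568686) (nat_lit 76) (nat_lit 2852459854) (nat_lit 330) (nat_lit 5) (nat_lit 341) (nat_lit 5) (nat_lit 331) (nat_lit 5) (nat_lit 641) (nat_lit 598) (nat_lit 321)) (XT.lf (nat_lit 0) (nat_lit 11716315028) (nat_lit 684) (nat_lit 14813448127) (nat_lit 760) (nat_lit 3975592033) (nat_lit 321) (nat_lit 5) (nat_lit 330) (nat_lit 5) (nat_lit 331) (nat_lit 5) (nat_lit 642) (nat_lit 598) (nat_lit 320))) (XT.nd (nat_lit 77766) (nat_lit 0) (nat_lit 11172) (XT.lf (nat_lit 0) (nat_lit 97303641) (nat_lit 760) (nat_lit 1934479040) (nat_lit 76) (nat_lit 28822699451) (nat_lit 320) (nat_lit 5) (nat_lit 330) (nat_lit 5) (nat_lit 321) (nat_lit 5) (nat_lit 643) (nat_lit 598) (nat_lit 319)) (XT.nd (nat_lit 78) (nat_lit 0) (nat_lit 0) (XT.lf (nat_lit 0) (nat_lit 3403017507) (nat_lit 0) (nat_lit 3403017507) (nat_lit 1748) (nat_lit 2967851706)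 (nat_lit 467) (nat_lit 5) (nat_lit 467) (nat_lit 3) (nat_lit 490) (nat_lit 3) (nat_lit 599) (nat_lit 599) (nat_lit 362)) (XT.lf (nat_lit 0) (nat_lit 13937815939) (nat_lit 1748) (nat_lit 3179668464) (nat_lit 1824) (nat_lit 2621947265) (nat_lit 467) (nat_lit 5) (nat_lit 490) (nat_lit 3) (nat_lit 491) (nat_lit 5) (nat_lit 600) (nat_lit 599) (nat_lit 361))))) (XT.nd (nat_lit 156) (nat_lit 0) (nat_lit 76) (XT.nd (nat_lit 78) (nat_lit 0) (nat_lit 76) (XT.lf (nat_lit 76) (nat_lit 6612933071) (nat_lit 0) (nat_lit 7740645528) (nat_lit 1824) (nat_lit 5579675134) (nat_lit 468) (nat_lit 5) (nat_lit 467) (nat_lit 5) (nat_lit 491) (nat_lit 5) (nat_lit 601) (nat_lit 599) (nat_lit 360)) (XT.lf (nat_lit 0) (nat_lit 14806555767) (nat_lit 1748) (nat_lit 3500473658) (nat_lit 1824) (nat_lit 1823345523) (nat_lit 468) (nat_lit 5) (nat_lit 491) (nat_lit 5) (nat_lit 492) (nat_lit 5) (nat_lit 602) (nat_lit 599) (nat_lit 359))) (XT.nd (nat_lit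 78) (nat_lit 0) (nat_lit 76) (XT.lf (nat_lit 76) (nat_lit 6547979907) (nat_lit 0) (nat_lit 8810055453) (nat_lit 1824) (nat_lit 4971615050) (nat_lit 469) (nat_lit 5) (nat_lit 468) (nat_lit 5) (nat_lit 492) (nat_lit 5) (nat_lit 603) (nat_lit 599) (nat_lit 358)) (XT.nd (nat_lit 78) (nat_lit 0) (nat_lit 0) (XT.lf (nat_lit 0) (nat_lit 15945631398) (nat_lit 1748) (nat_lit 3695925949) (nat_lit 1824) (nat_lit 890852966) (nat_lit 469) (nat_lit 5) (nat_lit 492) (nat_lit 5) (nat_lit 493) (nat_lit 5) (nat_lit 604) (nat_lit 599) (nat_lit 357)) (XT.lf (nat_lit 76) (nat_lit 6617539719) (nat_lit 0) (nat_lit 10024581325) (nat_lit 1824) (nat_lit 4095162190) (nat_lit 470) (nat_lit 5) (nat_lit 469) (nat_lit 5) (nat_lit 493) (nat_lit 5) (nat_lit 605) (nat_lit 599) (nat_lit 356))))))))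
noncomputable def xc237 : XT := (XT.nd (nat_lit 1482) (nat_lit 8436) (nat_lit 0) (XT.nd (nat_lit 702) (nat_lit 1216) (nat_lit 0) (XT.nd (nat_lit 312) (nat_lit 1596) (nat_lit 0) (XT.nd (nat_lit 156) (nat_lit 0) (nat_lit 76) (XT.nd (nat_lit 78) (nat_lit 0) (nat_lit 76) (XT.lf (nat_lit 76) (nat_lit 17184950736) (nat_lit 0) (nat_lit 188288851) (nat_lit 1824) (nat_lit 3572600684) (nat_lit 470) (nat_lit 5) (nat_lit 469) (nat_lit 5) (nat_lit 493) (nat_lit 5) (nat_lit 606) (nat_lit 599) (nat_lit 355)) (XT.lf (nat_lit 76) (nat_lit 6828310062) (nat_lit 0) (nat_lit 11394911498) (nat_lit 1824) (nat_lit 2933262698) (nat_lit 471) (nat_lit 5) (nat_lit 470) (nat_lit 5) (nat_lit 494) (nat_lit 5) (nat_lit 607) (nat_lit 599) (nat_lit 354))) (XT.nd (nat_lit 78) (nat_lit 0) (nat_lit 76) (XT.lf (nat_lit 76) (nat_lit 17676558758) (nat_lit 0) (nat_lit 1436172072) (nat_lit 1824) (nat_lit 2258160360) (nat_lit 471) (nat_lit 5) (nat_lit 470)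 (nat_lit 5) (nat_lit 494) (nat_lit 5) (nat_lit 608) (nat_lit 599) (nat_lit 353)) (XT.lf (nat_lit 76) (nat_lit 7187331251) (nat_lit 0) (nat_lit 12932129611) (nat_lit 1824) (nat_lit 1468137389) (nat_lit 472) (nat_lit 5) (nat_lit 471) (nat_lit 5) (nat_lit 495) (nat_lit 5) (nat_lit 609) (nat_lit 599) (nat_lit 352)))) (XT.nd (nat_lit 156) (nat_lit 0) (nat_lit 0) (XT.nd (nat_lit 78) (nat_lit 1748) (nat_lit 0) (XT.lf (nat_lit 76) (nat_lit 18324594050) (nat_lit 0) (nat_lit 2852168837) (nat_lit 1824) (nat_lit 631268412) (nat_lit 472) (nat_lit 5) (nat_lit 471) (nat_lit 5) (nat_lit 495) (nat_lit 5) (nat_lit 610) (nat_lit 599) (nat_lit 351)) (XT.lf (nat_lit 0) (nat_lit 314571334) (nat_lit 1824) (nat_lit 14331056434) (nat_lit 1900) (nat_lit 7385313950) (nat_lit 448) (nat_lit 5) (nat_lit 472) (nat_lit 5) (nat_lit 473) (nat_lit 5) (nat_lit 611) (nat_lit 599) (nat_lit 350))) (XT.nd (nat_lit 78) (nat_lit 0) (nat_lit 76) (XT.lf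 (nat_lit 0) (nat_lit 1309615030) (nat_lit 1824) (nat_lit 3129516031) (nat_lit 1900) (nat_lit 17818321592) (nat_lit 448) (nat_lit 5) (nat_lit 472) (nat_lit 5) (nat_lit 473) (nat_lit 5) (nat_lit 612) (nat_lit 599) (nat_lit 349)) (XT.nd (nat_lit 78) (nat_lit 0) (nat_lit 0) (XT.lf (nat_lit 0) (nat_lit 2414647244) (nat_lit 1824) (nat_lit 14122835273) (nat_lit 1900) (nat_lit 5949210085) (nat_lit 449) (nat_lit 5) (nat_lit 473) (nat_lit 5) (nat_lit 474) (nat_lit 5) (nat_lit 613) (nat_lit 599) (nat_lit 348)) (XT.lf (nat_lit 0) (nat_lit 3588765131) (nat_lit 1824) (nat_lit 2622670035) (nat_lit 1900) (nat_lit 16508143020) (nat_lit 449) (nat_lit 5) (nat_lit 473) (nat_lit 5) (nat_lit 474) (nat_lit 5) (nat_lit 614) (nat_lit 599) (nat_lit 347)))))) (XT.nd (nat_lit 390) (nat_lit 1368) (nat_lit 0) (XT.nd (nat_lit 156) (nat_lit 0) (nat_lit 76) (XT.nd (nat_lit 78) (nat_lit 0) (nat_lit 0) (XT.lf (nat_lit 0) (nat_lit 4871242058) (nat_lit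 1824) (nat_lit 13758458159) (nat_lit 1900) (nat_lit 4325724258) (nat_lit 450) (nat_lit 5) (nat_lit 474) (nat_lit 5) (nat_lit 475) (nat_lit 5) (nat_lit 615) (nat_lit 599) (nat_lit 346)) (XT.lf (nat_lit 0) (nat_lit 6234794869) (nat_lit 1824) (nat_lit 1950904863) (nat_lit 1900) (nat_lit 15009179946) (nat_lit 450) (nat_lit 5) (nat_lit 474) (nat_lit 5) (nat_lit 475) (nat_lit 5) (nat_lit 616) (nat_lit 599) (nat_lit 345))) (XT.nd (nat_lit 78) (nat_lit 0) (nat_lit 0) (XT.lf (nat_lit 0) (nat_lit 7705107999) (nat_lit 1824) (nat_lit 13229946963) (nat_lit 1900) (nat_lit 2502479743) (nat_lit 451) (nat_lit 5) (nat_lit 475) (nat_lit 5) (nat_lit 476) (nat_lit 5) (nat_lit 617) (nat_lit 599) (nat_lit 344)) (XT.nd (nat_lit 78) (nat_lit 0) (nat_lit 76) (XT.lf (nat_lit 0) (nat_lit 9268912639) (nat_lit 1824) (nat_lit 1105951186) (nat_lit 1900) (nat_lit 13308897800) (nat_lit 451) (nat_lit 5) (nat_lit 475) (nat_lit 5) (nat_lit 476) (nat_lit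 5) (nat_lit 618) (nat_lit 599) (nat_lit 343)) (XT.lf (nat_lit 0) (nat_lit 10937890703) (nat_lit 1824) (nat_lit 12528947670) (nat_lit 1900) (nat_lit 466597250) (nat_lit 452) (nat_lit 5) (nat_lit 476) (nat_lit 5) (nat_lit 477) (nat_lit 5) (nat_lit 619) (nat_lit 599) (nat_lit 342))))) (XT.nd (nat_lit 156) (nat_lit 1520) (nat_lit 0) (XT.nd (nat_lit 78) (nat_lit 0) (nat_lit 0) (XT.lf (nat_lit 0) (nat_lit 12713240206) (nat_lit 1824) (nat_lit 79154807) (nat_lit 1900) (nat_lit 11394248726) (nat_lit 452) (nat_lit 5) (nat_lit 476) (nat_lit 5) (nat_lit 477) (nat_lit 5) (nat_lit 620) (nat_lit 599) (nat_lit 341)) (XT.lf (nat_lit 76) (nat_lit 12784788500) (nat_lit 0) (nat_lit 1819191512) (nat_lit 1900) (nat_lit 9839338806) (nat_lit 453) (nat_lit 5) (nat_lit 452) (nat_lit 5) (nat_lit 477) (nat_lit 5) (nat_lit 621) (nat_lit 599) (nat_lit 340))) (XT.nd (nat_lit 78) (nat_lit 1596) (nat_lit 0) (XT.lf (nat_lit 76) (nat_lit 1153665645)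 (nat_lit 0) (nat_lit 15444677568) (nat_lit 1900) (nat_lit 8105468473) (nat_lit 454) (nat_lit 5) (nat_lit 453) (nat_lit 5) (nat_lit 478) (nat_lit 5) (nat_lit 622) (nat_lit 599) (nat_lit 339)) (XT.nd (nat_lit 78) (nat_lit 1596) (nat_lit 0) (XT.lf (nat_lit 76) (nat_lit 14365379741) (nat_lit 0) (nat_lit 4354385627) (nat_lit 1900) (nat_lit 6248006058) (nat_lit 454) (nat_lit 5) (nat_lit 453) (nat_lit 5) (nat_lit 478) (nat_lit 5) (nat_lit 623) (nat_lit 599) (nat_lit 338)) (XT.lf (nat_lit 0) (nat_lit 2590553870) (nat_lit 1672) (nat_lit 18352086714) (nat_lit 1748) (nat_lit 4293189725) (nat_lit 432) (nat_lit 5) (nat_lit 454) (nat_lit 5) (nat_lit 455) (nat_lit 5) (nat_lit 624) (nat_lit 599) (nat_lit 337))))))) (XT.nd (nat_lit 702) (nat_lit 4712) (nat_lit 0) (XT.nd (nat_lit 312) (nat_lit 1748) (nat_lit 0) (XT.nd (nat_lit 156) (nat_lit 988) (nat_lit 0) (XT.nd (nat_lit 78) (nat_lit 988) (nat_lit 0) (XT.lf (nat_lit 0) (nat_lit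 16159307819) (nat_lit 1672) (nat_lit 7147532998) (nat_lit 1748) (nat_lit 2200472634) (nat_lit 432) (nat_lit 5) (nat_lit 454) (nat_lit 5) (nat_lit 455) (nat_lit 5) (nat_lit 625) (nat_lit 599) (nat_lit 336)) (XT.lf (nat_lit 0) (nat_lit 4240470535) (nat_lit 988) (nat_lit 21530314709) (nat_lit 1064) (nat_lit 12392231) (nat_lit 419) (nat_lit 5) (nat_lit 432) (nat_lit 5) (nat_lit 433) (nat_lit 5) (nat_lit 626) (nat_lit 599) (nat_lit 335))) (XT.nd (nat_lit 78) (nat_lit 912) (nat_lit 0) (XT.lf (nat_lit 0) (nat_lit 2297974428) (nat_lit 1064) (nat_lit 7900613682) (nat_lit 76) (nat_lit 15863530212) (nat_lit 418) (nat_lit 5) (nat_lit 432) (nat_lit 5) (nat_lit 419) (nat_lit 5) (nat_lit 627) (nat_lit 599) (nat_lit 334)) (XT.lf (nat_lit 0) (nat_lit 4700234915) (nat_lit 988) (nat_lit 20263392023) (nat_lit 76) (nat_lit 1382092759) (nat_lit 406) (nat_lit 5) (nat_lit 419) (nat_lit 5) (nat_lit 407) (nat_lit 5) (nat_lit 628) (nat_lit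 599) (nat_lit 333)))) (XT.nd (nat_lit 156) (nat_lit 836) (nat_lit 0) (XT.nd (nat_lit 78) (nat_lit 912) (nat_lit 0) (XT.lf (nat_lit 0) (nat_lit 7268698117) (nat_lit 988) (nat_lit 6252371373) (nat_lit 76) (nat_lit 13111560851) (nat_lit 406) (nat_lit 5) (nat_lit 419) (nat_lit 5) (nat_lit 407) (nat_lit 5) (nat_lit 629) (nat_lit 599) (nat_lit 332)) (XT.lf (nat_lit 0) (nat_lit 8143148996) (nat_lit 912) (nat_lit 1795555059) (nat_lit 988) (nat_lit 16985572056) (nat_lit 394) (nat_lit 5) (nat_lit 406) (nat_lit 5) (nat_lit 407) (nat_lit 5) (nat_lit 630) (nat_lit 599) (nat_lit 331))) (XT.nd (nat_lit 78) (nat_lit 836) (nat_lit 0) (XT.lf (nat_lit 0) (nat_lit 12767679561) (nat_lit 988) (nat_lit 4378413282) (nat_lit 76) (nat_lit 10073550941) (nat_lit 394) (nat_lit 5) (nat_lit 407) (nat_lit 5) (nat_lit 395) (nat_lit 5) (nat_lit 631) (nat_lit 599) (nat_lit 330)) (XT.nd (nat_lit 78) (nat_lit 0) (nat_lit 0) (XT.lf (nat_lit 0) (nat_lit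 10434810709) (nat_lit 836) (nat_lit 5295457229) (nat_lit 912) (nat_lit 11789110574) (nat_lit 383) (nat_lit 5) (nat_lit 394) (nat_lit 5) (nat_lit 395) (nat_lit 5) (nat_lit 632) (nat_lit 599) (nat_lit 329)) (XT.lf (nat_lit 0) (nat_lit 18823211569) (nat_lit 912) (nat_lit 2267707857) (nat_lit 76) (nat_lit 6732766800) (nat_lit 383) (nat_lit 5) (nat_lit 395) (nat_lit 5) (nat_lit 384) (nat_lit 5) (nat_lit 633) (nat_lit 599) (nat_lit 328)))))) (XT.nd (nat_lit 390) (nat_lit 2204) (nat_lit 0) (XT.nd (nat_lit 156) (nat_lit 912) (nat_lit 0) (XT.nd (nat_lit 78) (nat_lit 760) (nat_lit 0) (XT.lf (nat_lit 0) (nat_lit 12978137219) (nat_lit 836) (nat_lit 9116687251) (nat_lit 912) (nat_lit 6036919770) (nat_lit 372) (nat_lit 5) (nat_lit 383) (nat_lit 5) (nat_lit 384) (nat_lit 5) (nat_lit 634) (nat_lit 599) (nat_lit 327)) (XT.lf (nat_lit 0) (nat_lit 92456140) (nat_lit 760) (nat_lit 25372951938) (nat_lit 836) (nat_lit 2979884913) (nat_lit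 362) (nat_lit 5) (nat_lit 372) (nat_lit 5) (nat_lit 373) (nat_lit 5) (nat_lit 635) (nat_lit 599) (nat_lit 326))) (XT.nd (nat_lit 78) (nat_lit 836) (nat_lit 0) (XT.lf (nat_lit 0) (nat_lit 296742248) (nat_lit 836) (nat_lit 12978717732) (nat_lit 76) (nat_lit 15486429809) (nat_lit 361) (nat_lit 5) (nat_lit 372) (nat_lit 5) (nat_lit 362) (nat_lit 5) (nat_lit 636) (nat_lit 599) (nat_lit 325)) (XT.nd (nat_lit 78) (nat_lit 0) (nat_lit 0) (XT.lf (nat_lit 0) (nat_lit 2716280051) (nat_lit 836) (nat_lit 897970697) (nat_lit 912) (nat_lit 25469869172) (nat_lit 350) (nat_lit 5) (nat_lit 361) (nat_lit 5) (nat_lit 362) (nat_lit 5) (nat_lit 637) (nat_lit 599) (nat_lit 324)) (XT.lf (nat_lit 0) (nat_lit 7159527283) (nat_lit 912) (nat_lit 10589186826) (nat_lit 76) (nat_lit 11660852508) (nat_lit 350) (nat_lit 5) (nat_lit 362) (nat_lit 5) (nat_lit 351) (nat_lit 5) (nat_lit 638) (nat_lit 599) (nat_lit 323))))) (XT.nd (nat_lit 156) (nat_lit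 1444) (nat_lit 0) (XT.nd (nat_lit 78) (nat_lit 0) (nat_lit 0) (XT.lf (nat_lit 0) (nat_lit 5569664019) (nat_lit 760) (nat_lit 5245808176) (nat_lit 836) (nat_lit 18925255110) (nat_lit 340) (nat_lit 5) (nat_lit 350) (nat_lit 5) (nat_lit 351) (nat_lit 5) (nat_lit 639) (nat_lit 599) (nat_lit 322)) (XT.lf (nat_lit 0) (nat_lit 14662490217) (nat_lit 836) (nat_lit 7933575943) (nat_lit 76) (nat_lit 7480086272) (nat_lit 340) (nat_lit 5) (nat_lit 351) (nat_lit 5) (nat_lit 341) (nat_lit 5) (nat_lit 640) (nat_lit 599) (nat_lit 321))) (XT.nd (nat_lit 78) (nat_lit 684) (nat_lit 0) (XT.lf (nat_lit 0) (nat_lit 8705640872) (nat_lit 760) (nat_lit 9969799569) (nat_lit 836) (nat_lit 11741066084) (nat_lit 330) (nat_lit 5) (nat_lit 340) (nat_lit 5) (nat_lit 341) (nat_lit 5) (nat_lit 641) (nat_lit 599) (nat_lit 320)) (XT.nd (nat_lit 78) (nat_lit 684) (nat_lit 0) (XT.lf (nat_lit 0) (nat_lit 22838883837) (nat_lit 836) (nat_lit 4999142462)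 (nat_lit 76) (nat_lit 2924237015) (nat_lit 330) (nat_lit 5) (nat_lit 341) (nat_lit 5) (nat_lit 331) (nat_lit 5) (nat_lit 642) (nat_lit 599) (nat_lit 319)) (XT.lf (nat_lit 0) (nat_lit 12137541179) (nat_lit 684) (nat_lit 15090685066) (nat_lit 760) (nat_lit 3883856682) (nat_lit 321) (nat_lit 5) (nat_lit 330) (nat_lit 5) (nat_lit 331) (nat_lit 5) (nat_lit 643) (nat_lit 599) (nat_lit 318))))))))
noncomputable def xc238 : XT := (XT.nd (nat_lit 1482) (nat_lit 6612) (nat_lit 0) (XT.nd (nat_lit 702) (nat_lit 1444) (nat_lit 0) (XT.nd (nat_lit 312) (nat_lit 0) (nat_lit 76) (XT.nd (nat_lit 156) (nat_lit 0) (nat_lit 0) (XT.nd (nat_lit 78) (nat_lit 0) (nat_lit 0) (XT.lf (nat_lit 0) (nat_lit 3556706047) (nat_lit 0) (nat_lit 3556706047) (nat_lit 1748) (nat_lit 2852500405) (nat_lit 467) (nat_lit 5) (nat_lit 467) (nat_lit 3) (nat_lit 490) (nat_lit 3) (nat_lit 600) (nat_lit 600) (nat_lit 360)) (XT.lf (nat_lit 0) (nat_lit 14551278974)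 (nat_lit 1748) (nat_lit 3067504776) (nat_lit 1824) (nat_lit 2508689817) (nat_lit 467) (nat_lit 5) (nat_lit 490) (nat_lit 3) (nat_lit 491) (nat_lit 5) (nat_lit 601) (nat_lit 600) (nat_lit 359))) (XT.nd (nat_lit 78) (nat_lit 0) (nat_lit 76) (XT.lf (nat_lit 76) (nat_lit 6919792494) (nat_lit 0) (nat_lit 8050135140) (nat_lit 1824) (nat_lit 5355354055) (nat_lit 468) (nat_lit 5) (nat_lit 467) (nat_lit 5) (nat_lit 491) (nat_lit 5) (nat_lit 602) (nat_lit 600) (nat_lit 358)) (XT.lf (nat_lit 0) (nat_lit 15424523352) (nat_lit 1748) (nat_lit 3391814363) (nat_lit 1824) (nat_lit 1710157445) (nat_lit 468) (nat_lit 5) (nat_lit 491) (nat_lit 5) (nat_lit 492) (nat_lit 5) (nat_lit 603) (nat_lit 600) (nat_lit 357)))) (XT.nd (nat_lit 156) (nat_lit 0) (nat_lit 76) (XT.nd (nat_lit 78) (nat_lit 0) (nat_lit 76) (XT.lf (nat_lit 76) (nat_lit 6856432822) (nat_lit 0) (nat_lit 9125441601) (nat_lit 1824) (nat_lit 4747985862) (nat_lit 469) (nat_lit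 5) (nat_lit 468) (nat_lit 5) (nat_lit 492) (nat_lit 5) (nat_lit 604) (nat_lit 600) (nat_lit 356)) (XT.lf (nat_lit 0) (nat_lit 16574127039) (nat_lit 1748) (nat_lit 3588687476) (nat_lit 1824) (nat_lit 774003749) (nat_lit 469) (nat_lit 5) (nat_lit 492) (nat_lit 5) (nat_lit 493) (nat_lit 5) (nat_lit 605) (nat_lit 600) (nat_lit 355))) (XT.nd (nat_lit 78) (nat_lit 0) (nat_lit 0) (XT.lf (nat_lit 76) (nat_lit 6929855684) (nat_lit 0) (nat_lit 10349788992) (nat_lit 1824) (nat_lit 3866242955) (nat_lit 470) (nat_lit 5) (nat_lit 469) (nat_lit 5) (nat_lit 493) (nat_lit 5) (nat_lit 606) (nat_lit 600) (nat_lit 354)) (XT.nd (nat_lit 78) (nat_lit 0) (nat_lit 76) (XT.lf (nat_lit 76) (nat_lit 17705086192) (nat_lit 0) (nat_lit 314325257) (nat_lit 1824) (nat_lit 3339324778) (nat_lit 470) (nat_lit 5) (nat_lit 469) (nat_lit 5) (nat_lit 493) (nat_lit 5) (nat_lit 607) (nat_lit 600) (nat_lit 353)) (XT.lf (nat_lit 76) (nat_lit 7146921817)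 (nat_lit 0) (nat_lit 11734017907) (nat_lit 1824) (nat_lit 2692763352) (nat_lit 471) (nat_lit 5) (nat_lit 470) (nat_lit 5) (nat_lit 494) (nat_lit 5) (nat_lit 608) (nat_lit 600) (nat_lit 352)))))) (XT.nd (nat_lit 390) (nat_lit 0) (nat_lit 76) (XT.nd (nat_lit 156) (nat_lit 1672) (nat_lit 0) (XT.nd (nat_lit 78) (nat_lit 0) (nat_lit 76) (XT.lf (nat_lit 76) (nat_lit 18208565966) (nat_lit 0) (nat_lit 1573923139) (nat_lit 1824) (nat_lit 2010024939) (nat_lit 471) (nat_lit 5) (nat_lit 470) (nat_lit 5) (nat_lit 494) (nat_lit 5) (nat_lit 609) (nat_lit 600) (nat_lit 351)) (XT.lf (nat_lit 76) (nat_lit 7514839791) (nat_lit 0) (nat_lit 13289375726) (nat_lit 1824) (nat_lit 1209443376) (nat_lit 472) (nat_lit 5) (nat_lit 471) (nat_lit 5) (nat_lit 495) (nat_lit 5) (nat_lit 610) (nat_lit 600) (nat_lit 350))) (XT.nd (nat_lit 78) (nat_lit 1748) (nat_lit 0) (XT.lf (nat_lit 76) (nat_lit 18871244670) (nat_lit 0) (nat_lit 3005882334) (nat_lit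 1824) (nat_lit 361485191) (nat_lit 472) (nat_lit 5) (nat_lit 471) (nat_lit 5) (nat_lit 495) (nat_lit 5) (nat_lit 611) (nat_lit 600) (nat_lit 349)) (XT.nd (nat_lit 78) (nat_lit 0) (nat_lit 0) (XT.lf (nat_lit 0) (nat_lit 594693309) (nat_lit 1824) (nat_lit 14428857000) (nat_lit 1900) (nat_lit 7442492156) (nat_lit 448) (nat_lit 5) (nat_lit 472) (nat_lit 5) (nat_lit 473) (nat_lit 5) (nat_lit 612) (nat_lit 600) (nat_lit 348)) (XT.lf (nat_lit 0) (nat_lit 1604268652) (nat_lit 1824) (nat_lit 3006988154) (nat_lit 1900) (nat_lit 18085935011) (nat_lit 448) (nat_lit 5) (nat_lit 472) (nat_lit 5) (nat_lit 473) (nat_lit 5) (nat_lit 613) (nat_lit 600) (nat_lit 347))))) (XT.nd (nat_lit 156) (nat_lit 0) (nat_lit 76) (XT.nd (nat_lit 78) (nat_lit 0) (nat_lit 0) (XT.lf (nat_lit 0) (nat_lit 2726808965) (nat_lit 1824) (nat_lit 14215541369) (nat_lit 1900) (nat_lit 5988758879) (nat_lit 449) (nat_lit 5) (nat_lit 473) (nat_lit 5) (nat_lit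 474) (nat_lit 5) (nat_lit 614) (nat_lit 600) (nat_lit 346)) (XT.lf (nat_lit 0) (nat_lit 3919235311) (nat_lit 1824) (nat_lit 2489093427) (nat_lit 1900) (nat_lit 16760428031) (nat_lit 449) (nat_lit 5) (nat_lit 473) (nat_lit 5) (nat_lit 474) (nat_lit 5) (nat_lit 615) (nat_lit 600) (nat_lit 345))) (XT.nd (nat_lit 78) (nat_lit 0) (nat_lit 0) (XT.lf (nat_lit 0) (nat_lit 5223034622) (nat_lit 1824) (nat_lit 13843231839) (nat_lit 1900) (nat_lit 4343140832) (nat_lit 450) (nat_lit 5) (nat_lit 474) (nat_lit 5) (nat_lit 475) (nat_lit 5) (nat_lit 616) (nat_lit 600) (nat_lit 344)) (XT.nd (nat_lit 78) (nat_lit 0) (nat_lit 76) (XT.lf (nat_lit 0) (nat_lit 6608870886) (nat_lit 1824) (nat_lit 1803260723) (nat_lit 1900) (nat_lit 15241620495) (nat_lit 450) (nat_lit 5) (nat_lit 474) (nat_lit 5) (nat_lit 475) (nat_lit 5) (nat_lit 617) (nat_lit 600) (nat_lit 343)) (XT.lf (nat_lit 0) (nat_lit 8104513186) (nat_lit 1824) (nat_lit 13303769743)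 (nat_lit 1900) (nat_lit 2493059582) (nat_lit 451) (nat_lit 5) (nat_lit 475) (nat_lit 5) (nat_lit 476) (nat_lit 5) (nat_lit 618) (nat_lit 600) (nat_lit 342))))))) (XT.nd (nat_lit 702) (nat_lit 4332) (nat_lit 0) (XT.nd (nat_lit 312) (nat_lit 2508) (nat_lit 0) (XT.nd (nat_lit 156) (nat_lit 0) (nat_lit 76) (XT.nd (nat_lit 78) (nat_lit 0) (nat_lit 76) (XT.lf (nat_lit 0) (nat_lit 9694784056) (nat_lit 1824) (nat_lit 941034759) (nat_lit 1900) (nat_lit 13516772073) (nat_lit 451) (nat_lit 5) (nat_lit 475) (nat_lit 5) (nat_lit 476) (nat_lit 5) (nat_lit 619) (nat_lit 600) (nat_lit 341)) (XT.lf (nat_lit 0) (nat_lit 11393300209) (nat_lit 1824) (nat_lit 12588614301) (nat_lit 1900) (nat_lit 425421392) (nat_lit 452) (nat_lit 5) (nat_lit 476) (nat_lit 5) (nat_lit 477) (nat_lit 5) (nat_lit 620) (nat_lit 600) (nat_lit 340))) (XT.nd (nat_lit 78) (nat_lit 0) (nat_lit 0) (XT.lf (nat_lit 76) (nat_lit 107845451) (nat_lit 0) (nat_lit 13092371225)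 (nat_lit 1900) (nat_lit 11465470999) (nat_lit 453) (nat_lit 5) (nat_lit 452) (nat_lit 5) (nat_lit 477) (nat_lit 5) (nat_lit 621) (nat_lit 600) (nat_lit 339)) (XT.lf (nat_lit 76) (nat_lit 13226421838) (nat_lit 0) (nat_lit 1898307223) (nat_lit 1900) (nat_lit 9802848720) (nat_lit 453) (nat_lit 5) (nat_lit 452) (nat_lit 5) (nat_lit 477) (nat_lit 5) (nat_lit 622) (nat_lit 600) (nat_lit 338)))) (XT.nd (nat_lit 156) (nat_lit 2660) (nat_lit 0) (XT.nd (nat_lit 78) (nat_lit 0) (nat_lit 0) (XT.lf (nat_lit 76) (nat_lit 1366305973) (nat_lit 0) (nat_lit 15789148630) (nat_lit 1900) (nat_lit 8037897069) (nat_lit 454) (nat_lit 5) (nat_lit 453) (nat_lit 5) (nat_lit 478) (nat_lit 5) (nat_lit 623) (nat_lit 600) (nat_lit 337)) (XT.lf (nat_lit 76) (nat_lit 14838537351) (nat_lit 0) (nat_lit 4476353251) (nat_lit 1900) (nat_lit 6147788951) (nat_lit 454) (nat_lit 5) (nat_lit 453) (nat_lit 5) (nat_lit 478) (nat_lit 5) (nat_lit 624) (nat_lit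 600) (nat_lit 336))) (XT.nd (nat_lit 78) (nat_lit 1064) (nat_lit 0) (XT.lf (nat_lit 0) (nat_lit 2831635281) (nat_lit 1672) (nat_lit 18747266849) (nat_lit 1748) (nat_lit 4157264549) (nat_lit 432) (nat_lit 5) (nat_lit 454) (nat_lit 5) (nat_lit 455) (nat_lit 5) (nat_lit 625) (nat_lit 600) (nat_lit 335)) (XT.nd (nat_lit 78) (nat_lit 1064) (nat_lit 0) (XT.lf (nat_lit 0) (nat_lit 16668053127) (nat_lit 1672) (nat_lit 7318070325) (nat_lit 1748) (nat_lit 2027041919) (nat_lit 432) (nat_lit 5) (nat_lit 454) (nat_lit 5) (nat_lit 455) (nat_lit 5) (nat_lit 626) (nat_lit 600) (nat_lit 334)) (XT.lf (nat_lit 0) (nat_lit 198963541) (nat_lit 1064) (nat_lit 21781856504) (nat_lit 76) (nat_lit 4313763652) (nat_lit 418) (nat_lit 5) (nat_lit 432) (nat_lit 5) (nat_lit 419) (nat_lit 5) (nat_lit 627) (nat_lit 600) (nat_lit 333)))))) (XT.nd (nat_lit 390) (nat_lit 2508) (nat_lit 0) (XT.nd (nat_lit 156) (nat_lit 912) (nat_lit 0) (XT.nd (nat_lit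 78) (nat_lit 912) (nat_lit 0) (XT.lf (nat_lit 0) (nat_lit 2551225918) (nat_lit 1064) (nat_lit 7870760752) (nat_lit 76) (nat_lit 16157198559) (nat_lit 418) (nat_lit 5) (nat_lit 432) (nat_lit 5) (nat_lit 419) (nat_lit 5) (nat_lit 628) (nat_lit 600) (nat_lit 332)) (XT.lf (nat_lit 0) (nat_lit 4998563153) (nat_lit 988) (nat_lit 20477797158) (nat_lit 76) (nat_lit 1392158270) (nat_lit 406) (nat_lit 5) (nat_lit 419) (nat_lit 5) (nat_lit 407) (nat_lit 5) (nat_lit 629) (nat_lit 600) (nat_lit 331))) (XT.nd (nat_lit 78) (nat_lit 912) (nat_lit 0) (XT.lf (nat_lit 0) (nat_lit 7614389275) (nat_lit 988) (nat_lit 6190298500) (nat_lit 76) (nat_lit 13356560359) (nat_lit 406) (nat_lit 5) (nat_lit 419) (nat_lit 5) (nat_lit 407) (nat_lit 5) (nat_lit 630) (nat_lit 600) (nat_lit 330)) (XT.nd (nat_lit 78) (nat_lit 0) (nat_lit 0) (XT.lf (nat_lit 0) (nat_lit 8491901221) (nat_lit 912) (nat_lit 1843173238) (nat_lit 988) (nat_lit 17123707336)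 (nat_lit 394) (nat_lit 5) (nat_lit 406) (nat_lit 5) (nat_lit 407) (nat_lit 5) (nat_lit 631) (nat_lit 600) (nat_lit 329)) (XT.lf (nat_lit 0) (nat_lit 13216680518) (nat_lit 988) (nat_lit 4279760868) (nat_lit 76) (nat_lit 10263694962) (nat_lit 394) (nat_lit 5) (nat_lit 407) (nat_lit 5) (nat_lit 395) (nat_lit 5) (nat_lit 632) (nat_lit 600) (nat_lit 328))))) (XT.nd (nat_lit 156) (nat_lit 1672) (nat_lit 0) (XT.nd (nat_lit 78) (nat_lit 0) (nat_lit 0) (XT.lf (nat_lit 0) (nat_lit 10828502468) (nat_lit 836) (nat_lit 5407422301) (nat_lit 912) (nat_lit 11829993456) (nat_lit 383) (nat_lit 5) (nat_lit 394) (nat_lit 5) (nat_lit 395) (nat_lit 5) (nat_lit 633) (nat_lit 600) (nat_lit 327)) (XT.lf (nat_lit 0) (nat_lit 19386942617) (nat_lit 912) (nat_lit 2127882875) (nat_lit 76) (nat_lit 6861562819) (nat_lit 383) (nat_lit 5) (nat_lit 395) (nat_lit 5) (nat_lit 384) (nat_lit 5) (nat_lit 634) (nat_lit 600) (nat_lit 326))) (XT.nd (nat_lit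 78) (nat_lit 836) (nat_lit 0) (XT.lf (nat_lit 0) (nat_lit 13421660817) (nat_lit 836) (nat_lit 9299849456) (nat_lit 912) (nat_lit 5969147278) (nat_lit 372) (nat_lit 5) (nat_lit 383) (nat_lit 5) (nat_lit 384) (nat_lit 5) (nat_lit 635) (nat_lit 600) (nat_lit 325)) (XT.nd (nat_lit 78) (nat_lit 76) (nat_lit 0) (XT.lf (nat_lit 0) (nat_lit 280758281) (nat_lit 760) (nat_lit 25876329257) (nat_lit 836) (nat_lit 2853438607) (nat_lit 362) (nat_lit 5) (nat_lit 372) (nat_lit 5) (nat_lit 373) (nat_lit 5) (nat_lit 636) (nat_lit 600) (nat_lit 324)) (XT.lf (nat_lit 0) (nat_lit 482681018) (nat_lit 836) (nat_lit 13053078554) (nat_lit 76) (nat_lit 15797743635) (nat_lit 361) (nat_lit 5) (nat_lit 372) (nat_lit 5) (nat_lit 362) (nat_lit 5) (nat_lit 637) (nat_lit 600) (nat_lit 323))))))))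
noncomputable def xc239 : XT := (XT.nd (nat_lit 79326) (nat_lit 0) (nat_lit 4864) (XT.nd (nat_lit 78546) (nat_lit 0) (nat_lit 8968) (XT.nd (nat_lit 312) (nat_lit 760) (nat_lit 0) (XT.nd (nat_lit 156) (nat_lit 760) (nat_lit 0) (XT.nd (nat_lit 78) (nat_lit 0) (nat_lit 0) (XT.lf (nat_lit 0) (nat_lit 2954600675) (nat_lit 836) (nat_lit 909604142) (nat_lit 912) (nat_lit 25798020298) (nat_lit 350) (nat_lit 5) (nat_lit 361) (nat_lit 5) (nat_lit 362) (nat_lit 5) (nat_lit 638) (nat_lit 600) (nat_lit 322)) (XT.lf (nat_lit 0) (nat_lit 7476943443) (nat_lit 912) (nat_lit 10617116490) (nat_lit 76) (nat_lit 11900190148) (nat_lit 350) (nat_lit 5) (nat_lit 362) (nat_lit 5) (nat_lit 351) (nat_lit 5) (nat_lit 639) (nat_lit 600) (nat_lit 321))) (XT.nd (nat_lit 78) (nat_lit 0) (nat_lit 0) (XT.lf (nat_lit 0) (nat_lit 5863701806) (nat_lit 760) (nat_lit 5340075108) (nat_lit 836) (nat_lit 19128302134) (nat_lit 340) (nat_lit 5) (nat_lit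 350) (nat_lit 5) (nat_lit 351) (nat_lit 5) (nat_lit 640) (nat_lit 600) (nat_lit 320)) (XT.lf (nat_lit 0) (nat_lit 15124430627) (nat_lit 836) (nat_lit 7909857101) (nat_lit 76) (nat_lit 7639991492) (nat_lit 340) (nat_lit 5) (nat_lit 351) (nat_lit 5) (nat_lit 341) (nat_lit 5) (nat_lit 641) (nat_lit 600) (nat_lit 319)))) (XT.nd (nat_lit 78000) (nat_lit 0) (nat_lit 10412) (XT.nd (nat_lit 78) (nat_lit 0) (nat_lit 0) (XT.lf (nat_lit 0) (nat_lit 9060944114) (nat_lit 760) (nat_lit 10154564491) (nat_lit 836) (nat_lit 11805974855) (nat_lit 330) (nat_lit 5) (nat_lit 340) (nat_lit 5) (nat_lit 341) (nat_lit 5) (nat_lit 642) (nat_lit 600) (nat_lit 318)) (XT.lf (nat_lit 0) (nat_lit 23459048131) (nat_lit 836) (nat_lit 4918293326) (nat_lit 76) (nat_lit 2996877814) (nat_lit 330) (nat_lit 5) (nat_lit 341) (nat_lit 5) (nat_lit 331) (nat_lit 5) (nat_lit 643) (nat_lit 600) (nat_lit 317))) (XT.nd (nat_lit 78) (nat_lit 0) (nat_lit 0) (XT.lf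 (nat_lit 0) (nat_lit 3710143311) (nat_lit 0) (nat_lit 3710143311) (nat_lit 1748) (nat_lit 2741626217) (nat_lit 467) (nat_lit 5) (nat_lit 467) (nat_lit 3) (nat_lit 490) (nat_lit 3) (nat_lit 601) (nat_lit 601) (nat_lit 358)) (XT.nd (nat_lit 78) (nat_lit 0) (nat_lit 0) (XT.lf (nat_lit 0) (nat_lit 15164014199) (nat_lit 1748) (nat_lit 2959922675) (nat_lit 1824) (nat_lit 2399601412) (nat_lit 467) (nat_lit 5) (nat_lit 490) (nat_lit 3) (nat_lit 491) (nat_lit 5) (nat_lit 602) (nat_lit 601) (nat_lit 357)) (XT.lf (nat_lit 76) (nat_lit 7226009144) (nat_lit 0) (nat_lit 8359808260) (nat_lit 1824) (nat_lit 5139590526) (nat_lit 468) (nat_lit 5) (nat_lit 467) (nat_lit 5) (nat_lit 491) (nat_lit 5) (nat_lit 603) (nat_lit 601) (nat_lit 356)))))) (XT.nd (nat_lit 390) (nat_lit 1520) (nat_lit 0) (XT.nd (nat_lit 156) (nat_lit 0) (nat_lit 76) (XT.nd (nat_lit 78) (nat_lit 0) (nat_lit 0) (XT.lf (nat_lit 0) (nat_lit 16042352986) (nat_lit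 1748) (nat_lit 3287919807) (nat_lit 1824) (nat_lit 1600516890) (nat_lit 468) (nat_lit 5) (nat_lit 491) (nat_lit 5) (nat_lit 492) (nat_lit 5) (nat_lit 604) (nat_lit 601) (nat_lit 355)) (XT.lf (nat_lit 76) (nat_lit 7164162513) (nat_lit 0) (nat_lit 9441730746) (nat_lit 1824) (nat_lit 4532428961) (nat_lit 469) (nat_lit 5) (nat_lit 468) (nat_lit 5) (nat_lit 492) (nat_lit 5) (nat_lit 605) (nat_lit 601) (nat_lit 354))) (XT.nd (nat_lit 78) (nat_lit 0) (nat_lit 0) (XT.lf (nat_lit 0) (nat_lit 17203171107) (nat_lit 1748) (nat_lit 3486338779) (nat_lit 1824) (nat_lit 660046803) (nat_lit 469) (nat_lit 5) (nat_lit 492) (nat_lit 5) (nat_lit 493) (nat_lit 5) (nat_lit 606) (nat_lit 601) (nat_lit 353)) (XT.nd (nat_lit 78) (nat_lit 0) (nat_lit 0) (XT.lf (nat_lit 76) (nat_lit 7241429701) (nat_lit 0) (nat_lit 10676657937) (nat_lit 1824) (nat_lit 3644814952) (nat_lit 470) (nat_lit 5) (nat_lit 469) (nat_lit 5) (nat_lit 493) (nat_lit 5)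 (nat_lit 607) (nat_lit 601) (nat_lit 352)) (XT.lf (nat_lit 76) (nat_lit 18228773116) (nat_lit 0) (nat_lit 438134472) (nat_lit 1824) (nat_lit 3113216311) (nat_lit 470) (nat_lit 5) (nat_lit 469) (nat_lit 5) (nat_lit 493) (nat_lit 5) (nat_lit 608) (nat_lit 601) (nat_lit 351))))) (XT.nd (nat_lit 156) (nat_lit 1672) (nat_lit 0) (XT.nd (nat_lit 78) (nat_lit 0) (nat_lit 0) (XT.lf (nat_lit 76) (nat_lit 7464836757) (nat_lit 0) (nat_lit 12075588095) (nat_lit 1824) (nat_lit 2459070945) (nat_lit 471) (nat_lit 5) (nat_lit 470) (nat_lit 5) (nat_lit 494) (nat_lit 5) (nat_lit 609) (nat_lit 601) (nat_lit 350)) (XT.lf (nat_lit 76) (nat_lit 18744282877) (nat_lit 0) (nat_lit 1710195553) (nat_lit 1824) (nat_lit 1768315954) (nat_lit 471) (nat_lit 5) (nat_lit 470) (nat_lit 5) (nat_lit 494) (nat_lit 5) (nat_lit 610) (nat_lit 601) (nat_lit 349))) (XT.nd (nat_lit 78) (nat_lit 1748) (nat_lit 0) (XT.lf (nat_lit 76) (nat_lit 7841762802) (nat_lit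 0) (nat_lit 13649937868) (nat_lit 1824) (nat_lit 956761078) (nat_lit 472) (nat_lit 5) (nat_lit 471) (nat_lit 5) (nat_lit 495) (nat_lit 5) (nat_lit 611) (nat_lit 601) (nat_lit 348)) (XT.nd (nat_lit 78) (nat_lit 1748) (nat_lit 0) (XT.lf (nat_lit 76) (nat_lit 19421832520) (nat_lit 0) (nat_lit 3158916283) (nat_lit 1824) (nat_lit 97272576) (nat_lit 472) (nat_lit 5) (nat_lit 471) (nat_lit 5) (nat_lit 495) (nat_lit 5) (nat_lit 612) (nat_lit 601) (nat_lit 347)) (XT.lf (nat_lit 0) (nat_lit 869784550) (nat_lit 1824) (nat_lit 14535945711) (nat_lit 1900) (nat_lit 7504329241) (nat_lit 448) (nat_lit 5) (nat_lit 472) (nat_lit 5) (nat_lit 473) (nat_lit 5) (nat_lit 613) (nat_lit 601) (nat_lit 346))))))) (XT.nd (nat_lit 702) (nat_lit 4104) (nat_lit 0) (XT.nd (nat_lit 312) (nat_lit 0) (nat_lit 152) (XT.nd (nat_lit 156) (nat_lit 0) (nat_lit 76) (XT.nd (nat_lit 78) (nat_lit 0) (nat_lit 76) (XT.lf (nat_lit 0) (nat_lit 1894390666) (nat_lit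 1824) (nat_lit 2889198084) (nat_lit 1900) (nat_lit 18362347086) (nat_lit 448) (nat_lit 5) (nat_lit 472) (nat_lit 5) (nat_lit 473) (nat_lit 5) (nat_lit 614) (nat_lit 601) (nat_lit 345)) (XT.lf (nat_lit 0) (nat_lit 3034967573) (nat_lit 1824) (nat_lit 14317469835) (nat_lit 1900) (nat_lit 6032183223) (nat_lit 449) (nat_lit 5) (nat_lit 473) (nat_lit 5) (nat_lit 474) (nat_lit 5) (nat_lit 615) (nat_lit 601) (nat_lit 344))) (XT.nd (nat_lit 78) (nat_lit 0) (nat_lit 76) (XT.lf (nat_lit 0) (nat_lit 4246269458) (nat_lit 1824) (nat_lit 2360069058) (nat_lit 1900) (nat_lit 17020782833) (nat_lit 449) (nat_lit 5) (nat_lit 473) (nat_lit 5) (nat_lit 474) (nat_lit 5) (nat_lit 616) (nat_lit 601) (nat_lit 343)) (XT.lf (nat_lit 0) (nat_lit 5571985627) (nat_lit 1824) (nat_lit 13937094282) (nat_lit 1900) (nat_lit 4363588893) (nat_lit 450) (nat_lit 5) (nat_lit 474) (nat_lit 5) (nat_lit 475) (nat_lit 5) (nat_lit 617) (nat_lit 601) (nat_lit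 342)))) (XT.nd (nat_lit 156) (nat_lit 0) (nat_lit 76) (XT.nd (nat_lit 78) (nat_lit 0) (nat_lit 76) (XT.lf (nat_lit 0) (nat_lit 6980744689) (nat_lit 1824) (nat_lit 1659912022) (nat_lit 1900) (nat_lit 15481340400) (nat_lit 450) (nat_lit 5) (nat_lit 474) (nat_lit 5) (nat_lit 475) (nat_lit 5) (nat_lit 618) (nat_lit 601) (nat_lit 341)) (XT.lf (nat_lit 0) (nat_lit 8502381061) (nat_lit 1824) (nat_lit 13386477048) (nat_lit 1900) (nat_lit 2485760300) (nat_lit 451) (nat_lit 5) (nat_lit 475) (nat_lit 5) (nat_lit 476) (nat_lit 5) (nat_lit 619) (nat_lit 601) (nat_lit 340))) (XT.nd (nat_lit 78) (nat_lit 0) (nat_lit 76) (XT.lf (nat_lit 0) (nat_lit 10119834257) (nat_lit 1824) (nat_lit 780082817) (nat_lit 1900) (nat_lit 13731067835) (nat_lit 451) (nat_lit 5) (nat_lit 475) (nat_lit 5) (nat_lit 476) (nat_lit 5) (nat_lit 620) (nat_lit 601) (nat_lit 339)) (XT.nd (nat_lit 78) (nat_lit 0) (nat_lit 0) (XT.lf (nat_lit 0) (nat_lit 11848628431)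 (nat_lit 1824) (nat_lit 12656887624) (nat_lit 1900) (nat_lit 385383296) (nat_lit 452) (nat_lit 5) (nat_lit 476) (nat_lit 5) (nat_lit 477) (nat_lit 5) (nat_lit 621) (nat_lit 601) (nat_lit 338)) (XT.lf (nat_lit 76) (nat_lit 292294094) (nat_lit 0) (nat_lit 13396112650) (nat_lit 1900) (nat_lit 11466077613) (nat_lit 453) (nat_lit 5) (nat_lit 452) (nat_lit 5) (nat_lit 477) (nat_lit 5) (nat_lit 622) (nat_lit 601) (nat_lit 337)))))) (XT.nd (nat_lit 390) (nat_lit 2888) (nat_lit 0) (XT.nd (nat_lit 156) (nat_lit 1520) (nat_lit 0) (XT.nd (nat_lit 78) (nat_lit 0) (nat_lit 76) (XT.lf (nat_lit 76) (nat_lit 13669667661) (nat_lit 0) (nat_lit 1977345916) (nat_lit 1900) (nat_lit 9774687257) (nat_lit 453) (nat_lit 5) (nat_lit 452) (nat_lit 5) (nat_lit 477) (nat_lit 5) (nat_lit 623) (nat_lit 601) (nat_lit 336)) (XT.lf (nat_lit 76) (nat_lit 1575837989) (nat_lit 0) (nat_lit 16139127594) (nat_lit 1900) (nat_lit 7977893022) (nat_lit 454)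 (nat_lit 5) (nat_lit 453) (nat_lit 5) (nat_lit 478) (nat_lit 5) (nat_lit 624) (nat_lit 601) (nat_lit 335))) (XT.nd (nat_lit 78) (nat_lit 1596) (nat_lit 0) (XT.lf (nat_lit 76) (nat_lit 15313941330) (nat_lit 0) (nat_lit 4599405798) (nat_lit 1900) (nat_lit 6054311408) (nat_lit 454) (nat_lit 5) (nat_lit 453) (nat_lit 5) (nat_lit 478) (nat_lit 5) (nat_lit 625) (nat_lit 601) (nat_lit 334)) (XT.nd (nat_lit 78) (nat_lit 0) (nat_lit 0) (XT.lf (nat_lit 0) (nat_lit 3070188723) (nat_lit 1672) (nat_lit 19149257937) (nat_lit 1748) (nat_lit 4027233205) (nat_lit 432) (nat_lit 5) (nat_lit 454) (nat_lit 5) (nat_lit 455) (nat_lit 5) (nat_lit 626) (nat_lit 601) (nat_lit 333)) (XT.lf (nat_lit 0) (nat_lit 17179767853) (nat_lit 1672) (nat_lit 7490947174) (nat_lit 1748) (nat_lit 1858586056) (nat_lit 432) (nat_lit 5) (nat_lit 454) (nat_lit 5) (nat_lit 455) (nat_lit 5) (nat_lit 627) (nat_lit 601) (nat_lit 332))))) (XT.nd (nat_lit 156) (nat_lit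 1824) (nat_lit 0) (XT.nd (nat_lit 78) (nat_lit 0) (nat_lit 0) (XT.lf (nat_lit 0) (nat_lit 406170263) (nat_lit 1064) (nat_lit 22033312062) (nat_lit 76) (nat_lit 4376899457) (nat_lit 418) (nat_lit 5) (nat_lit 432) (nat_lit 5) (nat_lit 419) (nat_lit 5) (nat_lit 628) (nat_lit 601) (nat_lit 331)) (XT.lf (nat_lit 0) (nat_lit 2801493036) (nat_lit 1064) (nat_lit 7847605798) (nat_lit 76) (nat_lit 16457656777) (nat_lit 418) (nat_lit 5) (nat_lit 432) (nat_lit 5) (nat_lit 419) (nat_lit 5) (nat_lit 629) (nat_lit 601) (nat_lit 330))) (XT.nd (nat_lit 78) (nat_lit 912) (nat_lit 0) (XT.lf (nat_lit 0) (nat_lit 5294923823) (nat_lit 988) (nat_lit 20703901827) (nat_lit 76) (nat_lit 1403107603) (nat_lit 406) (nat_lit 5) (nat_lit 419) (nat_lit 5) (nat_lit 407) (nat_lit 5) (nat_lit 630) (nat_lit 601) (nat_lit 329)) (XT.nd (nat_lit 78) (nat_lit 912) (nat_lit 0) (XT.lf (nat_lit 0) (nat_lit 7959215695) (nat_lit 988) (nat_lit 6134250280)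 (nat_lit 76) (nat_lit 13607128985) (nat_lit 406) (nat_lit 5) (nat_lit 419) (nat_lit 5) (nat_lit 407) (nat_lit 5) (nat_lit 631) (nat_lit 601) (nat_lit 328)) (XT.lf (nat_lit 0) (nat_lit 8840410185) (nat_lit 912) (nat_lit 1891289181) (nat_lit 988) (nat_lit 17272432769) (nat_lit 394) (nat_lit 5) (nat_lit 406) (nat_lit 5) (nat_lit 407) (nat_lit 5) (nat_lit 632) (nat_lit 601) (nat_lit 327))))))))
noncomputable def xc240 : XT := (XT.nd (nat_lit 79404) (nat_lit 0) (nat_lit 6992) (XT.nd (nat_lit 702) (nat_lit 0) (nat_lit 0) (XT.nd (nat_lit 312) (nat_lit 2432) (nat_lit 0) (XT.nd (nat_lit 156) (nat_lit 836) (nat_lit 0) (XT.nd (nat_lit 78) (nat_lit 836) (nat_lit 0) (XT.lf (nat_lit 0) (nat_lit 13667141931) (nat_lit 988) (nat_lit 4186366581) (nat_lit 76) (nat_lit 10458081705) (nat_lit 394) (nat_lit 5) (nat_lit 407) (nat_lit 5) (nat_lit 395) (nat_lit 5) (nat_lit 633) (nat_lit 601) (nat_lit 326)) (XT.lf (nat_lit 0) (nat_lit 11222884459)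 (nat_lit 836) (nat_lit 5521391516) (nat_lit 912) (nat_lit 11879262173) (nat_lit 383) (nat_lit 5) (nat_lit 394) (nat_lit 5) (nat_lit 395) (nat_lit 5) (nat_lit 634) (nat_lit 601) (nat_lit 325))) (XT.nd (nat_lit 78) (nat_lit 836) (nat_lit 0) (XT.lf (nat_lit 0) (nat_lit 19954676488) (nat_lit 912) (nat_lit 1992452126) (nat_lit 76) (nat_lit 6993162282) (nat_lit 383) (nat_lit 5) (nat_lit 395) (nat_lit 5) (nat_lit 384) (nat_lit 5) (nat_lit 635) (nat_lit 601) (nat_lit 324)) (XT.lf (nat_lit 0) (nat_lit 13866911464) (nat_lit 836) (nat_lit 9486642735) (nat_lit 912) (nat_lit 5907339444) (nat_lit 372) (nat_lit 5) (nat_lit 383) (nat_lit 5) (nat_lit 384) (nat_lit 5) (nat_lit 636) (nat_lit 601) (nat_lit 323)))) (XT.nd (nat_lit 156) (nat_lit 1596) (nat_lit 0) (XT.nd (nat_lit 78) (nat_lit 76) (nat_lit 0) (XT.lf (nat_lit 0) (nat_lit 465586266) (nat_lit 760) (nat_lit 26389932620) (nat_lit 836) (nat_lit 2731687690) (nat_lit 362) (nat_lit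 5) (nat_lit 372) (nat_lit 5) (nat_lit 373) (nat_lit 5) (nat_lit 637) (nat_lit 601) (nat_lit 322)) (XT.lf (nat_lit 0) (nat_lit 665348792) (nat_lit 836) (nat_lit 13136118659) (nat_lit 76) (nat_lit 16115222181) (nat_lit 361) (nat_lit 5) (nat_lit 372) (nat_lit 5) (nat_lit 362) (nat_lit 5) (nat_lit 638) (nat_lit 601) (nat_lit 321))) (XT.nd (nat_lit 78) (nat_lit 760) (nat_lit 0) (XT.lf (nat_lit 0) (nat_lit 3190542960) (nat_lit 836) (nat_lit 921715902) (nat_lit 912) (nat_lit 26139772458) (nat_lit 350) (nat_lit 5) (nat_lit 361) (nat_lit 5) (nat_lit 362) (nat_lit 5) (nat_lit 639) (nat_lit 601) (nat_lit 320)) (XT.nd (nat_lit 78) (nat_lit 760) (nat_lit 0) (XT.lf (nat_lit 0) (nat_lit 7793942534) (nat_lit 912) (nat_lit 10652744025) (nat_lit 76) (nat_lit 12144076872) (nat_lit 350) (nat_lit 5) (nat_lit 362) (nat_lit 5) (nat_lit 351) (nat_lit 5) (nat_lit 640) (nat_lit 601) (nat_lit 319)) (XT.lf (nat_lit 0) (nat_lit 6156528040)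 (nat_lit 760) (nat_lit 5436640902) (nat_lit 836) (nat_lit 19342223349) (nat_lit 340) (nat_lit 5) (nat_lit 350) (nat_lit 5) (nat_lit 351) (nat_lit 5) (nat_lit 641) (nat_lit 601) (nat_lit 318)))))) (XT.nd (nat_lit 78312) (nat_lit 0) (nat_lit 9728) (XT.nd (nat_lit 78156) (nat_lit 0) (nat_lit 9652) (XT.nd (nat_lit 78078) (nat_lit 0) (nat_lit 9652) (XT.lf (nat_lit 0) (nat_lit 15589059382) (nat_lit 836) (nat_lit 7892746322) (nat_lit 76) (nat_lit 7802694719) (nat_lit 340) (nat_lit 5) (nat_lit 351) (nat_lit 5) (nat_lit 341) (nat_lit 5) (nat_lit 642) (nat_lit 601) (nat_lit 317)) (XT.lf (nat_lit 0) (nat_lit 3863453389) (nat_lit 0) (nat_lit 3863453389) (nat_lit 1748) (nat_lit 2635055246) (nat_lit 467) (nat_lit 5) (nat_lit 467) (nat_lit 3) (nat_lit 490) (nat_lit 3) (nat_lit 602) (nat_lit 602) (nat_lit 356))) (XT.nd (nat_lit 78) (nat_lit 0) (nat_lit 0) (XT.lf (nat_lit 0) (nat_lit 15776511751) (nat_lit 1748) (nat_lit 2856748775)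 (nat_lit 1824) (nat_lit 2294515585) (nat_lit 467) (nat_lit 5) (nat_lit 490) (nat_lit 3) (nat_lit 491) (nat_lit 5) (nat_lit 603) (nat_lit 602) (nat_lit 355)) (XT.lf (nat_lit 76) (nat_lit 7531833442) (nat_lit 0) (nat_lit 8669901788) (nat_lit 1824) (nat_lit 4932049187) (nat_lit 468) (nat_lit 5) (nat_lit 467) (nat_lit 5) (nat_lit 491) (nat_lit 5) (nat_lit 604) (nat_lit 602) (nat_lit 354)))) (XT.nd (nat_lit 156) (nat_lit 0) (nat_lit 76) (XT.nd (nat_lit 78) (nat_lit 0) (nat_lit 0) (XT.lf (nat_lit 0) (nat_lit 16660527196) (nat_lit 1748) (nat_lit 3188615879) (nat_lit 1824) (nat_lit 1494269151) (nat_lit 468) (nat_lit 5) (nat_lit 491) (nat_lit 5) (nat_lit 492) (nat_lit 5) (nat_lit 605) (nat_lit 602) (nat_lit 353)) (XT.lf (nat_lit 76) (nat_lit 7471422151) (nat_lit 0) (nat_lit 9759150823) (nat_lit 1824) (nat_lit 4324618661) (nat_lit 469) (nat_lit 5) (nat_lit 468) (nat_lit 5) (nat_lit 492) (nat_lit 5) (nat_lit 606) (nat_lit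 602) (nat_lit 352))) (XT.nd (nat_lit 78) (nat_lit 0) (nat_lit 0) (XT.lf (nat_lit 0) (nat_lit 17833241379) (nat_lit 1748) (nat_lit 3388704496) (nat_lit 1824) (nat_lit 548836916) (nat_lit 469) (nat_lit 5) (nat_lit 492) (nat_lit 5) (nat_lit 493) (nat_lit 5) (nat_lit 607) (nat_lit 602) (nat_lit 351)) (XT.nd (nat_lit 78) (nat_lit 0) (nat_lit 0) (XT.lf (nat_lit 76) (nat_lit 7552518294) (nat_lit 0) (nat_lit 11005409439) (nat_lit 1824) (nat_lit 3430559326) (nat_lit 470) (nat_lit 5) (nat_lit 469) (nat_lit 5) (nat_lit 493) (nat_lit 5) (nat_lit 608) (nat_lit 602) (nat_lit 350)) (XT.lf (nat_lit 76) (nat_lit 18756348577) (nat_lit 0) (nat_lit 559856322) (nat_lit 1824) (nat_lit 2893959142) (nat_lit 470) (nat_lit 5) (nat_lit 469) (nat_lit 5) (nat_lit 493) (nat_lit 5) (nat_lit 609) (nat_lit 602) (nat_lit 349))))))) (XT.nd (nat_lit 702) (nat_lit 1140) (nat_lit 0) (XT.nd (nat_lit 312) (nat_lit 0) (nat_lit 76) (XT.nd (nat_lit 156)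 (nat_lit 1748) (nat_lit 0) (XT.nd (nat_lit 78) (nat_lit 0) (nat_lit 0) (XT.lf (nat_lit 76) (nat_lit 7782315444) (nat_lit 0) (nat_lit 12419839024) (nat_lit 1824) (nat_lit 2231870517) (nat_lit 471) (nat_lit 5) (nat_lit 470) (nat_lit 5) (nat_lit 494) (nat_lit 5) (nat_lit 610) (nat_lit 602) (nat_lit 348)) (XT.lf (nat_lit 76) (nat_lit 19284052801) (nat_lit 0) (nat_lit 1845124138) (nat_lit 1824) (nat_lit 1532719677) (nat_lit 471) (nat_lit 5) (nat_lit 470) (nat_lit 5) (nat_lit 494) (nat_lit 5) (nat_lit 611) (nat_lit 602) (nat_lit 347))) (XT.nd (nat_lit 78) (nat_lit 1824) (nat_lit 0) (XT.lf (nat_lit 76) (nat_lit 8168365662) (nat_lit 0) (nat_lit 14014031039) (nat_lit 1824) (nat_lit 709776378) (nat_lit 472) (nat_lit 5) (nat_lit 471) (nat_lit 5) (nat_lit 495) (nat_lit 5) (nat_lit 612) (nat_lit 602) (nat_lit 346)) (XT.lf (nat_lit 0) (nat_lit 159563342) (nat_lit 1824) (nat_lit 3150768760) (nat_lit 1900) (nat_lit 19816073902)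 (nat_lit 447) (nat_lit 5) (nat_lit 471) (nat_lit 5) (nat_lit 472) (nat_lit 5) (nat_lit 613) (nat_lit 602) (nat_lit 345)))) (XT.nd (nat_lit 156) (nat_lit 0) (nat_lit 76) (XT.nd (nat_lit 78) (nat_lit 0) (nat_lit 0) (XT.lf (nat_lit 0) (nat_lit 1140157340) (nat_lit 1824) (nat_lit 14652223613) (nat_lit 1900) (nat_lit 7570781880) (nat_lit 448) (nat_lit 5) (nat_lit 472) (nat_lit 5) (nat_lit 473) (nat_lit 5) (nat_lit 614) (nat_lit 602) (nat_lit 344)) (XT.lf (nat_lit 0) (nat_lit 2180295244) (nat_lit 1824) (nat_lit 2775961446) (nat_lit 1900) (nat_lit 18647599963) (nat_lit 448) (nat_lit 5) (nat_lit 472) (nat_lit 5) (nat_lit 473) (nat_lit 5) (nat_lit 615) (nat_lit 602) (nat_lit 343))) (XT.nd (nat_lit 78) (nat_lit 0) (nat_lit 0) (XT.lf (nat_lit 0) (nat_lit 3339440886) (nat_lit 1824) (nat_lit 14428518999) (nat_lit 1900) (nat_lit 6079440850) (nat_lit 449) (nat_lit 5) (nat_lit 473) (nat_lit 5) (nat_lit 474) (nat_lit 5) (nat_lit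 616) (nat_lit 602) (nat_lit 342)) (XT.nd (nat_lit 78) (nat_lit 0) (nat_lit 76) (XT.lf (nat_lit 0) (nat_lit 4570188927) (nat_lit 1824) (nat_lit 2235407466) (nat_lit 1900) (nat_lit 17289251394) (nat_lit 449) (nat_lit 5) (nat_lit 473) (nat_lit 5) (nat_lit 474) (nat_lit 5) (nat_lit 617) (nat_lit 602) (nat_lit 341)) (XT.lf (nat_lit 0) (nat_lit 5918421796) (nat_lit 1824) (nat_lit 14039940172) (nat_lit 1900) (nat_lit 4387024882) (nat_lit 450) (nat_lit 5) (nat_lit 474) (nat_lit 5) (nat_lit 475) (nat_lit 5) (nat_lit 618) (nat_lit 602) (nat_lit 340)))))) (XT.nd (nat_lit 390) (nat_lit 1368) (nat_lit 0) (XT.nd (nat_lit 156) (nat_lit 0) (nat_lit 76) (XT.nd (nat_lit 78) (nat_lit 0) (nat_lit 76) (XT.lf (nat_lit 0) (nat_lit 7350748265) (nat_lit 1824) (nat_lit 1520663207) (nat_lit 1900) (nat_lit 15728383101) (nat_lit 450) (nat_lit 5) (nat_lit 474) (nat_lit 5) (nat_lit 475) (nat_lit 5) (nat_lit 619) (nat_lit 602) (nat_lit 339))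 (XT.lf (nat_lit 0) (nat_lit 8899050761) (nat_lit 1824) (nat_lit 13477958906) (nat_lit 1900) (nat_lit 2480534644) (nat_lit 451) (nat_lit 5) (nat_lit 475) (nat_lit 5) (nat_lit 476) (nat_lit 5) (nat_lit 620) (nat_lit 602) (nat_lit 338))) (XT.nd (nat_lit 78) (nat_lit 0) (nat_lit 76) (XT.lf (nat_lit 0) (nat_lit 10544409452) (nat_lit 1824) (nat_lit 622892628) (nat_lit 1900) (nat_lit 13951825601) (nat_lit 451) (nat_lit 5) (nat_lit 475) (nat_lit 5) (nat_lit 476) (nat_lit 5) (nat_lit 621) (nat_lit 602) (nat_lit 337)) (XT.nd (nat_lit 78) (nat_lit 0) (nat_lit 0) (XT.lf (nat_lit 0) (nat_lit 12304230583) (nat_lit 1824) (nat_lit 12733651901) (nat_lit 1900) (nat_lit 346429559) (nat_lit 452) (nat_lit 5) (nat_lit 476) (nat_lit 5) (nat_lit 477) (nat_lit 5) (nat_lit 622) (nat_lit 602) (nat_lit 336)) (XT.lf (nat_lit 76) (nat_lit 473353099) (nat_lit 0) (nat_lit 13704302108) (nat_lit 1900) (nat_lit 11475577168) (nat_lit 453) (nat_lit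 5) (nat_lit 452) (nat_lit 5) (nat_lit 477) (nat_lit 5) (nat_lit 623) (nat_lit 602) (nat_lit 335))))) (XT.nd (nat_lit 156) (nat_lit 1520) (nat_lit 0) (XT.nd (nat_lit 78) (nat_lit 0) (nat_lit 76) (XT.lf (nat_lit 76) (nat_lit 14114838586) (nat_lit 0) (nat_lit 2056370487) (nat_lit 1900) (nat_lit 9754669241) (nat_lit 453) (nat_lit 5) (nat_lit 452) (nat_lit 5) (nat_lit 477) (nat_lit 5) (nat_lit 624) (nat_lit 602) (nat_lit 334)) (XT.lf (nat_lit 76) (nat_lit 1782485369) (nat_lit 0) (nat_lit 16494778266) (nat_lit 1900) (nat_lit 7925261351) (nat_lit 454) (nat_lit 5) (nat_lit 453) (nat_lit 5) (nat_lit 478) (nat_lit 5) (nat_lit 625) (nat_lit 602) (nat_lit 333))) (XT.nd (nat_lit 78) (nat_lit 1596) (nat_lit 0) (XT.lf (nat_lit 76) (nat_lit 15791916843) (nat_lit 0) (nat_lit 4723617561) (nat_lit 1900) (nat_lit 5967368683) (nat_lit 454) (nat_lit 5) (nat_lit 453) (nat_lit 5) (nat_lit 478) (nat_lit 5) (nat_lit 626) (nat_lit 602) (nat_lit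 332)) (XT.nd (nat_lit 78) (nat_lit 0) (nat_lit 0) (XT.lf (nat_lit 0) (nat_lit 3306449030) (nat_lit 1672) (nat_lit 19558238628) (nat_lit 1748) (nat_lit 3902879143) (nat_lit 432) (nat_lit 5) (nat_lit 454) (nat_lit 5) (nat_lit 455) (nat_lit 5) (nat_lit 627) (nat_lit 602) (nat_lit 331)) (XT.lf (nat_lit 0) (nat_lit 17694791183) (nat_lit 1672) (nat_lit 7666251933) (nat_lit 1748) (nat_lit 1694876673) (nat_lit 432) (nat_lit 5) (nat_lit 454) (nat_lit 5) (nat_lit 455) (nat_lit 5) (nat_lit 628) (nat_lit 602) (nat_lit 330))))))))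
noncomputable def xc241 : XT := (XT.nd (nat_lit 79560) (nat_lit 0) (nat_lit 8132) (XT.nd (nat_lit 702) (nat_lit 2432) (nat_lit 0) (XT.nd (nat_lit 312) (nat_lit 2584) (nat_lit 0) (XT.nd (nat_lit 156) (nat_lit 912) (nat_lit 0) (XT.nd (nat_lit 78) (nat_lit 0) (nat_lit 0) (XT.lf (nat_lit 0) (nat_lit 609629551) (nat_lit 1064) (nat_lit 22296948725) (nat_lit 76) (nat_lit 4442196512) (nat_lit 418) (nat_lit 5) (nat_lit 432) (nat_lit 5) (nat_lit 419) (nat_lit 5) (nat_lit 629) (nat_lit 602) (nat_lit 329)) (XT.lf (nat_lit 0) (nat_lit 3049028663) (nat_lit 1064) (nat_lit 7830999504) (nat_lit 76) (nat_lit 16765005075) (nat_lit 418) (nat_lit 5) (nat_lit 432) (nat_lit 5) (nat_lit 419) (nat_lit 5) (nat_lit 630) (nat_lit 602) (nat_lit 328))) (XT.nd (nat_lit 78) (nat_lit 0) (nat_lit 0) (XT.lf (nat_lit 0) (nat_lit 5589585666) (nat_lit 988) (nat_lit 20941652226) (nat_lit 76) (nat_lit 1414931930) (nat_lit 406) (nat_lit 5) (nat_lit 419)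 (nat_lit 5) (nat_lit 407) (nat_lit 5) (nat_lit 631) (nat_lit 602) (nat_lit 327)) (XT.lf (nat_lit 0) (nat_lit 8303462133) (nat_lit 988) (nat_lit 6084065053) (nat_lit 76) (nat_lit 13863352128) (nat_lit 406) (nat_lit 5) (nat_lit 419) (nat_lit 5) (nat_lit 407) (nat_lit 5) (nat_lit 632) (nat_lit 602) (nat_lit 326)))) (XT.nd (nat_lit 156) (nat_lit 1672) (nat_lit 0) (XT.nd (nat_lit 78) (nat_lit 0) (nat_lit 0) (XT.lf (nat_lit 0) (nat_lit 9188951317) (nat_lit 912) (nat_lit 1939930495) (nat_lit 988) (nat_lit 17431656209) (nat_lit 394) (nat_lit 5) (nat_lit 406) (nat_lit 5) (nat_lit 407) (nat_lit 5) (nat_lit 633) (nat_lit 602) (nat_lit 325)) (XT.lf (nat_lit 0) (nat_lit 14119385003) (nat_lit 988) (nat_lit 4098054789) (nat_lit 76) (nat_lit 10656778944) (nat_lit 394) (nat_lit 5) (nat_lit 407) (nat_lit 5) (nat_lit 395) (nat_lit 5) (nat_lit 634) (nat_lit 602) (nat_lit 324))) (XT.nd (nat_lit 78) (nat_lit 836) (nat_lit 0) (XT.lf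 (nat_lit 0) (nat_lit 11618249435) (nat_lit 836) (nat_lit 5637414088) (nat_lit 912) (nat_lit 11936790562) (nat_lit 383) (nat_lit 5) (nat_lit 394) (nat_lit 5) (nat_lit 395) (nat_lit 5) (nat_lit 635) (nat_lit 602) (nat_lit 323)) (XT.nd (nat_lit 78) (nat_lit 836) (nat_lit 0) (XT.lf (nat_lit 0) (nat_lit 20526775610) (nat_lit 912) (nat_lit 1861224269) (nat_lit 76) (nat_lit 7127612425) (nat_lit 383) (nat_lit 5) (nat_lit 395) (nat_lit 5) (nat_lit 384) (nat_lit 5) (nat_lit 636) (nat_lit 602) (nat_lit 322)) (XT.lf (nat_lit 0) (nat_lit 14314201087) (nat_lit 836) (nat_lit 9677140959) (nat_lit 912) (nat_lit 5851331312) (nat_lit 372) (nat_lit 5) (nat_lit 383) (nat_lit 5) (nat_lit 384) (nat_lit 5) (nat_lit 637) (nat_lit 602) (nat_lit 321)))))) (XT.nd (nat_lit 78468) (nat_lit 0) (nat_lit 9652) (XT.nd (nat_lit 156) (nat_lit 1596) (nat_lit 0) (XT.nd (nat_lit 78) (nat_lit 76) (nat_lit 0) (XT.lf (nat_lit 0) (nat_lit 647151759) (nat_lit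 760) (nat_lit 26913960394) (nat_lit 836) (nat_lit 2614445541) (nat_lit 362) (nat_lit 5) (nat_lit 372) (nat_lit 5) (nat_lit 373) (nat_lit 5) (nat_lit 638) (nat_lit 602) (nat_lit 320)) (XT.lf (nat_lit 0) (nat_lit 844951571) (nat_lit 836) (nat_lit 13227732357) (nat_lit 76) (nat_lit 16438991132) (nat_lit 361) (nat_lit 5) (nat_lit 372) (nat_lit 5) (nat_lit 362) (nat_lit 5) (nat_lit 639) (nat_lit 602) (nat_lit 319))) (XT.nd (nat_lit 78) (nat_lit 760) (nat_lit 0) (XT.lf (nat_lit 0) (nat_lit 3424336780) (nat_lit 836) (nat_lit 934306003) (nat_lit 912) (nat_lit 26495124381) (nat_lit 350) (nat_lit 5) (nat_lit 361) (nat_lit 5) (nat_lit 362) (nat_lit 5) (nat_lit 640) (nat_lit 602) (nat_lit 318)) (XT.nd (nat_lit 78) (nat_lit 760) (nat_lit 0) (XT.lf (nat_lit 0) (nat_lit 8110778921) (nat_lit 912) (nat_lit 10695946161) (nat_lit 76) (nat_lit 12392612889) (nat_lit 350) (nat_lit 5) (nat_lit 362) (nat_lit 5) (nat_lit 351) (nat_lit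 5) (nat_lit 641) (nat_lit 602) (nat_lit 317)) (XT.lf (nat_lit 0) (nat_lit 6448393893) (nat_lit 760) (nat_lit 5535535476) (nat_lit 836) (nat_lit 19566971673) (nat_lit 340) (nat_lit 5) (nat_lit 350) (nat_lit 5) (nat_lit 351) (nat_lit 5) (nat_lit 642) (nat_lit 602) (nat_lit 316))))) (XT.nd (nat_lit 156) (nat_lit 0) (nat_lit 0) (XT.nd (nat_lit 78) (nat_lit 0) (nat_lit 0) (XT.lf (nat_lit 0) (nat_lit 4016757839) (nat_lit 0) (nat_lit 4016757839) (nat_lit 1748) (nat_lit 2532620350) (nat_lit 467) (nat_lit 5) (nat_lit 467) (nat_lit 3) (nat_lit 490) (nat_lit 3) (nat_lit 603) (nat_lit 603) (nat_lit 354)) (XT.lf (nat_lit 0) (nat_lit 16389251971) (nat_lit 1748) (nat_lit 2757816513) (nat_lit 1824) (nat_lit 2193272241) (nat_lit 467) (nat_lit 5) (nat_lit 490) (nat_lit 3) (nat_lit 491) (nat_lit 5) (nat_lit 604) (nat_lit 603) (nat_lit 353))) (XT.nd (nat_lit 78) (nat_lit 0) (nat_lit 76) (XT.lf (nat_lit 76) (nat_lit 7837510590) (nat_lit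 0) (nat_lit 8980648309) (nat_lit 1824) (nat_lit 4732407635) (nat_lit 468) (nat_lit 5) (nat_lit 467) (nat_lit 5) (nat_lit 491) (nat_lit 5) (nat_lit 605) (nat_lit 603) (nat_lit 352)) (XT.nd (nat_lit 78) (nat_lit 0) (nat_lit 0) (XT.lf (nat_lit 0) (nat_lit 17279519314) (nat_lit 1748) (nat_lit 3093735443) (nat_lit 1824) (nat_lit 1391265186) (nat_lit 468) (nat_lit 5) (nat_lit 491) (nat_lit 5) (nat_lit 492) (nat_lit 5) (nat_lit 606) (nat_lit 603) (nat_lit 351)) (XT.lf (nat_lit 76) (nat_lit 7778459580) (nat_lit 0) (nat_lit 10077926170) (nat_lit 1824) (nat_lit 4124241677) (nat_lit 469) (nat_lit 5) (nat_lit 468) (nat_lit 5) (nat_lit 492) (nat_lit 5) (nat_lit 607) (nat_lit 603) (nat_lit 350))))))) (XT.nd (nat_lit 702) (nat_lit 0) (nat_lit 152) (XT.nd (nat_lit 312) (nat_lit 1672) (nat_lit 0) (XT.nd (nat_lit 156) (nat_lit 0) (nat_lit 0) (XT.nd (nat_lit 78) (nat_lit 0) (nat_lit 0) (XT.lf (nat_lit 0) (nat_lit 18464807063) (nat_lit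 1748) (nat_lit 3295616361) (nat_lit 1824) (nat_lit 440233855) (nat_lit 469) (nat_lit 5) (nat_lit 492) (nat_lit 5) (nat_lit 493) (nat_lit 5) (nat_lit 608) (nat_lit 603) (nat_lit 349)) (XT.lf (nat_lit 76) (nat_lit 7863372581) (nat_lit 0) (nat_lit 11336261903) (nat_lit 1824) (nat_lit 3223169048) (nat_lit 470) (nat_lit 5) (nat_lit 469) (nat_lit 5) (nat_lit 493) (nat_lit 5) (nat_lit 609) (nat_lit 603) (nat_lit 348))) (XT.nd (nat_lit 78) (nat_lit 0) (nat_lit 76) (XT.lf (nat_lit 76) (nat_lit 19288146060) (nat_lit 0) (nat_lit 679626268) (nat_lit 1824) (nat_lit 2681248653) (nat_lit 470) (nat_lit 5) (nat_lit 469) (nat_lit 5) (nat_lit 493) (nat_lit 5) (nat_lit 610) (nat_lit 603) (nat_lit 347)) (XT.lf (nat_lit 76) (nat_lit 8099612995) (nat_lit 0) (nat_lit 12766985485) (nat_lit 1824) (nat_lit 2010858324) (nat_lit 471) (nat_lit 5) (nat_lit 470) (nat_lit 5) (nat_lit 494) (nat_lit 5) (nat_lit 611) (nat_lit 603) (nat_lit 346))))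 (XT.nd (nat_lit 156) (nat_lit 1748) (nat_lit 0) (XT.nd (nat_lit 78) (nat_lit 0) (nat_lit 76) (XT.lf (nat_lit 76) (nat_lit 19828215467) (nat_lit 0) (nat_lit 1978840033) (nat_lit 1824) (nat_lit 1302933283) (nat_lit 471) (nat_lit 5) (nat_lit 470) (nat_lit 5) (nat_lit 494) (nat_lit 5) (nat_lit 612) (nat_lit 603) (nat_lit 345)) (XT.lf (nat_lit 76) (nat_lit 8494908297) (nat_lit 0) (nat_lit 14381868767) (nat_lit 1824) (nat_lit 468185746) (nat_lit 472) (nat_lit 5) (nat_lit 471) (nat_lit 5) (nat_lit 495) (nat_lit 5) (nat_lit 613) (nat_lit 603) (nat_lit 344))) (XT.nd (nat_lit 78) (nat_lit 0) (nat_lit 76) (XT.lf (nat_lit 0) (nat_lit 410236451) (nat_lit 1824) (nat_lit 3050481861) (nat_lit 1900) (nat_lit 20123228610) (nat_lit 447) (nat_lit 5) (nat_lit 471) (nat_lit 5) (nat_lit 472) (nat_lit 5) (nat_lit 614) (nat_lit 603) (nat_lit 343)) (XT.nd (nat_lit 78) (nat_lit 0) (nat_lit 0) (XT.lf (nat_lit 0) (nat_lit 1406114177) (nat_lit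 1824) (nat_lit 14777600830) (nat_lit 1900) (nat_lit 7641811179) (nat_lit 448) (nat_lit 5) (nat_lit 472) (nat_lit 5) (nat_lit 473) (nat_lit 5) (nat_lit 615) (nat_lit 603) (nat_lit 342)) (XT.lf (nat_lit 0) (nat_lit 2462287120) (nat_lit 1824) (nat_lit 2667101013) (nat_lit 1900) (nat_lit 18941741827) (nat_lit 448) (nat_lit 5) (nat_lit 472) (nat_lit 5) (nat_lit 473) (nat_lit 5) (nat_lit 616) (nat_lit 603) (nat_lit 341)))))) (XT.nd (nat_lit 390) (nat_lit 0) (nat_lit 152) (XT.nd (nat_lit 156) (nat_lit 0) (nat_lit 76) (XT.nd (nat_lit 78) (nat_lit 0) (nat_lit 0) (XT.lf (nat_lit 0) (nat_lit 3640537626) (nat_lit 1824) (nat_lit 14548596268) (nat_lit 1900) (nat_lit 6130493299) (nat_lit 449) (nat_lit 5) (nat_lit 473) (nat_lit 5) (nat_lit 474) (nat_lit 5) (nat_lit 617) (nat_lit 603) (nat_lit 340)) (XT.lf (nat_lit 0) (nat_lit 4891306354) (nat_lit 1824) (nat_lit 2114926291) (nat_lit 1900) (nat_lit 17565883120) (nat_lit 449) (nat_lit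 5) (nat_lit 473) (nat_lit 5) (nat_lit 474) (nat_lit 5) (nat_lit 618) (nat_lit 603) (nat_lit 339))) (XT.nd (nat_lit 78) (nat_lit 0) (nat_lit 0) (XT.lf (nat_lit 0) (nat_lit 6262661490) (nat_lit 1824) (nat_lit 14151673236) (nat_lit 1900) (nat_lit 4413408412) (nat_lit 450) (nat_lit 5) (nat_lit 474) (nat_lit 5) (nat_lit 475) (nat_lit 5) (nat_lit 619) (nat_lit 603) (nat_lit 338)) (XT.nd (nat_lit 78) (nat_lit 0) (nat_lit 76) (XT.lf (nat_lit 0) (nat_lit 7719205640) (nat_lit 1824) (nat_lit 1385325746) (nat_lit 1900) (nat_lit 15982796873) (nat_lit 450) (nat_lit 5) (nat_lit 474) (nat_lit 5) (nat_lit 475) (nat_lit 5) (nat_lit 620) (nat_lit 603) (nat_lit 337)) (XT.lf (nat_lit 0) (nat_lit 9294853844) (nat_lit 1824) (nat_lit 13578114314) (nat_lit 1900) (nat_lit 2477337895) (nat_lit 451) (nat_lit 5) (nat_lit 475) (nat_lit 5) (nat_lit 476) (nat_lit 5) (nat_lit 621) (nat_lit 603) (nat_lit 336))))) (XT.nd (nat_lit 156) (nat_lit 0)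 (nat_lit 76) (XT.nd (nat_lit 78) (nat_lit 0) (nat_lit 76) (XT.lf (nat_lit 0) (nat_lit 10968848687) (nat_lit 1824) (nat_lit 469268352) (nat_lit 1900) (nat_lit 14179090111) (nat_lit 451) (nat_lit 5) (nat_lit 475) (nat_lit 5) (nat_lit 476) (nat_lit 5) (nat_lit 622) (nat_lit 603) (nat_lit 335)) (XT.lf (nat_lit 0) (nat_lit 12760455125) (nat_lit 1824) (nat_lit 12818800261) (nat_lit 1900) (nat_lit 308508666) (nat_lit 452) (nat_lit 5) (nat_lit 476) (nat_lit 5) (nat_lit 477) (nat_lit 5) (nat_lit 623) (nat_lit 603) (nat_lit 334))) (XT.nd (nat_lit 78) (nat_lit 0) (nat_lit 0) (XT.lf (nat_lit 76) (nat_lit 651229546) (nat_lit 0) (nat_lit 14017091730) (nat_lit 1900) (nat_lit 11493802670) (nat_lit 453) (nat_lit 5) (nat_lit 452) (nat_lit 5) (nat_lit 477) (nat_lit 5) (nat_lit 624) (nat_lit 603) (nat_lit 333)) (XT.nd (nat_lit 78) (nat_lit 0) (nat_lit 76) (XT.lf (nat_lit 76) (nat_lit 14562242598) (nat_lit 0) (nat_lit 2135442583) (nat_lit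 1900) (nat_lit 9742619448) (nat_lit 453) (nat_lit 5) (nat_lit 452) (nat_lit 5) (nat_lit 477) (nat_lit 5) (nat_lit 625) (nat_lit 603) (nat_lit 332)) (XT.lf (nat_lit 76) (nat_lit 1986465160) (nat_lit 0) (nat_lit 16856265642) (nat_lit 1900) (nat_lit 7879816625) (nat_lit 454) (nat_lit 5) (nat_lit 453) (nat_lit 5) (nat_lit 478) (nat_lit 5) (nat_lit 626) (nat_lit 603) (nat_lit 331))))))))
noncomputable def xc242 : XT := (XT.nd (nat_lit 79638) (nat_lit 0) (nat_lit 7372) (XT.nd (nat_lit 702) (nat_lit 3344) (nat_lit 0) (XT.nd (nat_lit 312) (nat_lit 1824) (nat_lit 0) (XT.nd (nat_lit 156) (nat_lit 1064) (nat_lit 0) (XT.nd (nat_lit 78) (nat_lit 1596) (nat_lit 0) (XT.lf (nat_lit 76) (nat_lit 16272784674) (nat_lit 0) (nat_lit 4849062276) (nat_lit 1900) (nat_lit 5886765122) (nat_lit 454) (nat_lit 5) (nat_lit 453) (nat_lit 5) (nat_lit 478) (nat_lit 5) (nat_lit 627) (nat_lit 603) (nat_lit 330)) (XT.lf (nat_lit 0) (nat_lit 3540644651)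 (nat_lit 1672) (nat_lit 19974389494) (nat_lit 1748) (nat_lit 3783994466) (nat_lit 432) (nat_lit 5) (nat_lit 454) (nat_lit 5) (nat_lit 455) (nat_lit 5) (nat_lit 628) (nat_lit 603) (nat_lit 329))) (XT.nd (nat_lit 78) (nat_lit 1064) (nat_lit 0) (XT.lf (nat_lit 0) (nat_lit 18213458223) (nat_lit 1672) (nat_lit 7844073142) (nat_lit 1748) (nat_lit 1535693560) (nat_lit 432) (nat_lit 5) (nat_lit 454) (nat_lit 5) (nat_lit 455) (nat_lit 5) (nat_lit 629) (nat_lit 603) (nat_lit 328)) (XT.lf (nat_lit 0) (nat_lit 809572894) (nat_lit 1064) (nat_lit 22572732396) (nat_lit 76) (nat_lit 4509663150) (nat_lit 418) (nat_lit 5) (nat_lit 432) (nat_lit 5) (nat_lit 419) (nat_lit 5) (nat_lit 630) (nat_lit 603) (nat_lit 327)))) (XT.nd (nat_lit 156) (nat_lit 912) (nat_lit 0) (XT.nd (nat_lit 78) (nat_lit 912) (nat_lit 0) (XT.lf (nat_lit 0) (nat_lit 3294078601) (nat_lit 1064) (nat_lit 7820800570) (nat_lit 76) (nat_lit 17079347047) (nat_lit 418)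 (nat_lit 5) (nat_lit 432) (nat_lit 5) (nat_lit 419) (nat_lit 5) (nat_lit 631) (nat_lit 603) (nat_lit 326)) (XT.lf (nat_lit 0) (nat_lit 5882810834) (nat_lit 988) (nat_lit 21191004650) (nat_lit 76) (nat_lit 1427623279) (nat_lit 406) (nat_lit 5) (nat_lit 419) (nat_lit 5) (nat_lit 407) (nat_lit 5) (nat_lit 632) (nat_lit 603) (nat_lit 325))) (XT.nd (nat_lit 78) (nat_lit 912) (nat_lit 0) (XT.lf (nat_lit 0) (nat_lit 8647407312) (nat_lit 988) (nat_lit 6039588882) (nat_lit 76) (nat_lit 14125317906) (nat_lit 406) (nat_lit 5) (nat_lit 419) (nat_lit 5) (nat_lit 407) (nat_lit 5) (nat_lit 633) (nat_lit 603) (nat_lit 324)) (XT.nd (nat_lit 78) (nat_lit 0) (nat_lit 0) (XT.lf (nat_lit 0) (nat_lit 9537794674) (nat_lit 912) (nat_lit 1989124655) (nat_lit 988) (nat_lit 17601295470) (nat_lit 394) (nat_lit 5) (nat_lit 406) (nat_lit 5) (nat_lit 407) (nat_lit 5) (nat_lit 634) (nat_lit 603) (nat_lit 323)) (XT.lf (nat_lit 0) (nat_lit 14573726022)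 (nat_lit 988) (nat_lit 4014657250) (nat_lit 76) (nat_lit 10859856473) (nat_lit 394) (nat_lit 5) (nat_lit 407) (nat_lit 5) (nat_lit 395) (nat_lit 5) (nat_lit 635) (nat_lit 603) (nat_lit 322)))))) (XT.nd (nat_lit 390) (nat_lit 836) (nat_lit 0) (XT.nd (nat_lit 156) (nat_lit 1672) (nat_lit 0) (XT.nd (nat_lit 78) (nat_lit 0) (nat_lit 0) (XT.lf (nat_lit 0) (nat_lit 12014885173) (nat_lit 836) (nat_lit 5755539861) (nat_lit 912) (nat_lit 12002461346) (nat_lit 383) (nat_lit 5) (nat_lit 394) (nat_lit 5) (nat_lit 395) (nat_lit 5) (nat_lit 636) (nat_lit 603) (nat_lit 321)) (XT.lf (nat_lit 0) (nat_lit 21103598696) (nat_lit 912) (nat_lit 1734014979) (nat_lit 76) (nat_lit 7264961767) (nat_lit 383) (nat_lit 5) (nat_lit 395) (nat_lit 5) (nat_lit 384) (nat_lit 5) (nat_lit 637) (nat_lit 603) (nat_lit 320))) (XT.nd (nat_lit 78) (nat_lit 836) (nat_lit 0) (XT.lf (nat_lit 0) (nat_lit 14763837083) (nat_lit 836) (nat_lit 9871419427) (nat_lit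 912) (nat_lit 5800965665) (nat_lit 372) (nat_lit 5) (nat_lit 383) (nat_lit 5) (nat_lit 384) (nat_lit 5) (nat_lit 638) (nat_lit 603) (nat_lit 319)) (XT.nd (nat_lit 78) (nat_lit 76) (nat_lit 0) (XT.lf (nat_lit 0) (nat_lit 825659739) (nat_lit 760) (nat_lit 27448615152) (nat_lit 836) (nat_lit 2501532700) (nat_lit 362) (nat_lit 5) (nat_lit 372) (nat_lit 5) (nat_lit 373) (nat_lit 5) (nat_lit 639) (nat_lit 603) (nat_lit 318)) (XT.lf (nat_lit 0) (nat_lit 1021688937) (nat_lit 836) (nat_lit 13327822687) (nat_lit 76) (nat_lit 16769178594) (nat_lit 361) (nat_lit 5) (nat_lit 372) (nat_lit 5) (nat_lit 362) (nat_lit 5) (nat_lit 640) (nat_lit 603) (nat_lit 317))))) (XT.nd (nat_lit 78312) (nat_lit 0) (nat_lit 8892) (XT.nd (nat_lit 78) (nat_lit 0) (nat_lit 0) (XT.lf (nat_lit 0) (nat_lit 3656205830) (nat_lit 836) (nat_lit 947374844) (nat_lit 912) (nat_lit 26864085378) (nat_lit 350) (nat_lit 5) (nat_lit 361) (nat_lit 5) (nat_lit 362)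 (nat_lit 5) (nat_lit 641) (nat_lit 603) (nat_lit 316)) (XT.lf (nat_lit 0) (nat_lit 8427701860) (nat_lit 912) (nat_lit 10746607929) (nat_lit 76) (nat_lit 12645900056) (nat_lit 350) (nat_lit 5) (nat_lit 362) (nat_lit 5) (nat_lit 351) (nat_lit 5) (nat_lit 642) (nat_lit 603) (nat_lit 315))) (XT.nd (nat_lit 78) (nat_lit 0) (nat_lit 0) (XT.lf (nat_lit 0) (nat_lit 4170175831) (nat_lit 0) (nat_lit 4170175831) (nat_lit 1748) (nat_lit 2434160876) (nat_lit 467) (nat_lit 5) (nat_lit 467) (nat_lit 3) (nat_lit 490) (nat_lit 3) (nat_lit 604) (nat_lit 604) (nat_lit 352)) (XT.nd (nat_lit 78) (nat_lit 0) (nat_lit 0) (XT.lf (nat_lit 0) (nat_lit 17002705969) (nat_lit 1748) (nat_lit 2662965887) (nat_lit 1824) (nat_lit 2095717409) (nat_lit 467) (nat_lit 5) (nat_lit 490) (nat_lit 3) (nat_lit 491) (nat_lit 5) (nat_lit 605) (nat_lit 604) (nat_lit 351)) (XT.lf (nat_lit 76) (nat_lit 8143280870) (nat_lit 0) (nat_lit 9292276350) (nat_lit 1824)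 (nat_lit 4540355926) (nat_lit 468) (nat_lit 5) (nat_lit 467) (nat_lit 5) (nat_lit 491) (nat_lit 5) (nat_lit 606) (nat_lit 604) (nat_lit 350))))))) (XT.nd (nat_lit 702) (nat_lit 0) (nat_lit 76) (XT.nd (nat_lit 312) (nat_lit 1596) (nat_lit 0) (XT.nd (nat_lit 156) (nat_lit 0) (nat_lit 76) (XT.nd (nat_lit 78) (nat_lit 0) (nat_lit 0) (XT.lf (nat_lit 0) (nat_lit 17899794029) (nat_lit 1748) (nat_lit 3003118078) (nat_lit 1824) (nat_lit 1291361398) (nat_lit 468) (nat_lit 5) (nat_lit 491) (nat_lit 5) (nat_lit 492) (nat_lit 5) (nat_lit 607) (nat_lit 604) (nat_lit 349)) (XT.lf (nat_lit 76) (nat_lit 8085517608) (nat_lit 0) (nat_lit 10398277784) (nat_lit 1824) (nat_lit 3930996640) (nat_lit 469) (nat_lit 5) (nat_lit 468) (nat_lit 5) (nat_lit 492) (nat_lit 5) (nat_lit 608) (nat_lit 604) (nat_lit 348))) (XT.nd (nat_lit 78) (nat_lit 0) (nat_lit 0) (XT.lf (nat_lit 0) (nat_lit 19098329325) (nat_lit 1748) (nat_lit 3206912939) (nat_lit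 1824) (nat_lit 334102162) (nat_lit 469) (nat_lit 5) (nat_lit 492) (nat_lit 5) (nat_lit 493) (nat_lit 5) (nat_lit 609) (nat_lit 604) (nat_lit 347)) (XT.lf (nat_lit 76) (nat_lit 8174238573) (nat_lit 0) (nat_lit 11669431081) (nat_lit 1824) (nat_lit 3022348436) (nat_lit 470) (nat_lit 5) (nat_lit 469) (nat_lit 5) (nat_lit 493) (nat_lit 5) (nat_lit 610) (nat_lit 604) (nat_lit 346)))) (XT.nd (nat_lit 156) (nat_lit 1672) (nat_lit 0) (XT.nd (nat_lit 78) (nat_lit 0) (nat_lit 76) (XT.lf (nat_lit 76) (nat_lit 19824495785) (nat_lit 0) (nat_lit 797575597) (nat_lit 1824) (nat_lit 2474791281) (nat_lit 470) (nat_lit 5) (nat_lit 469) (nat_lit 5) (nat_lit 493) (nat_lit 5) (nat_lit 611) (nat_lit 604) (nat_lit 345)) (XT.lf (nat_lit 76) (nat_lit 8416979382) (nat_lit 0) (nat_lit 13117240304) (nat_lit 1824) (nat_lit 1795741385) (nat_lit 471) (nat_lit 5) (nat_lit 470) (nat_lit 5) (nat_lit 494) (nat_lit 5) (nat_lit 612) (nat_lit 604) (nat_lit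 344))) (XT.nd (nat_lit 78) (nat_lit 1748) (nat_lit 0) (XT.lf (nat_lit 76) (nat_lit 20377107352) (nat_lit 0) (nat_lit 2111470863) (nat_lit 1824) (nat_lit 1078664394) (nat_lit 471) (nat_lit 5) (nat_lit 470) (nat_lit 5) (nat_lit 494) (nat_lit 5) (nat_lit 613) (nat_lit 604) (nat_lit 343)) (XT.nd (nat_lit 78) (nat_lit 1824) (nat_lit 0) (XT.lf (nat_lit 76) (nat_lit 8821645487) (nat_lit 0) (nat_lit 14753663299) (nat_lit 1824) (nat_lit 231695789) (nat_lit 472) (nat_lit 5) (nat_lit 471) (nat_lit 5) (nat_lit 495) (nat_lit 5) (nat_lit 614) (nat_lit 604) (nat_lit 342)) (XT.lf (nat_lit 0) (nat_lit 656313000) (nat_lit 1824) (nat_lit 2954530450) (nat_lit 1900) (nat_lit 20439988866) (nat_lit 447) (nat_lit 5) (nat_lit 471) (nat_lit 5) (nat_lit 472) (nat_lit 5) (nat_lit 615) (nat_lit 604) (nat_lit 341)))))) (XT.nd (nat_lit 390) (nat_lit 0) (nat_lit 152) (XT.nd (nat_lit 156) (nat_lit 0) (nat_lit 76) (XT.nd (nat_lit 78) (nat_lit 0)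 (nat_lit 0) (XT.lf (nat_lit 0) (nat_lit 1667948197) (nat_lit 1824) (nat_lit 14911996315) (nat_lit 1900) (nat_lit 7717382564) (nat_lit 448) (nat_lit 5) (nat_lit 472) (nat_lit 5) (nat_lit 473) (nat_lit 5) (nat_lit 616) (nat_lit 604) (nat_lit 340)) (XT.lf (nat_lit 0) (nat_lit 2740662015) (nat_lit 1824) (nat_lit 2562446433) (nat_lit 1900) (nat_lit 19244826822) (nat_lit 448) (nat_lit 5) (nat_lit 472) (nat_lit 5) (nat_lit 473) (nat_lit 5) (nat_lit 617) (nat_lit 604) (nat_lit 339))) (XT.nd (nat_lit 78) (nat_lit 0) (nat_lit 0) (XT.lf (nat_lit 0) (nat_lit 3938557837) (nat_lit 1824) (nat_lit 14677617876) (nat_lit 1900) (nat_lit 6185305810) (nat_lit 449) (nat_lit 5) (nat_lit 473) (nat_lit 5) (nat_lit 474) (nat_lit 5) (nat_lit 618) (nat_lit 604) (nat_lit 338)) (XT.nd (nat_lit 78) (nat_lit 0) (nat_lit 76) (XT.lf (nat_lit 0) (nat_lit 5209926069) (nat_lit 1824) (nat_lit 1998449996) (nat_lit 1900) (nat_lit 17850732787) (nat_lit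 449) (nat_lit 5) (nat_lit 473) (nat_lit 5) (nat_lit 474) (nat_lit 5) (nat_lit 619) (nat_lit 604) (nat_lit 337)) (XT.lf (nat_lit 0) (nat_lit 6605015121) (nat_lit 1824) (nat_lit 14272205989) (nat_lit 1900) (nat_lit 4442702179) (nat_lit 450) (nat_lit 5) (nat_lit 474) (nat_lit 5) (nat_lit 475) (nat_lit 5) (nat_lit 620) (nat_lit 604) (nat_lit 336))))) (XT.nd (nat_lit 156) (nat_lit 0) (nat_lit 76) (XT.nd (nat_lit 78) (nat_lit 0) (nat_lit 76) (XT.lf (nat_lit 0) (nat_lit 8086433284) (nat_lit 1824) (nat_lit 1253717838) (nat_lit 1900) (nat_lit 16244634770) (nat_lit 450) (nat_lit 5) (nat_lit 474) (nat_lit 5) (nat_lit 475) (nat_lit 5) (nat_lit 621) (nat_lit 604) (nat_lit 335)) (XT.lf (nat_lit 0) (nat_lit 9690114692) (nat_lit 1824) (nat_lit 13686850984) (nat_lit 1900) (nat_lit 2476127788) (nat_lit 451) (nat_lit 5) (nat_lit 475) (nat_lit 5) (nat_lit 476) (nat_lit 5) (nat_lit 622) (nat_lit 604) (nat_lit 334))) (XT.nd (nat_lit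 78) (nat_lit 0) (nat_lit 76) (XT.lf (nat_lit 0) (nat_lit 11393484260) (nat_lit 1824) (nat_lit 319020763) (nat_lit 1900) (nat_lit 14412910281) (nat_lit 451) (nat_lit 5) (nat_lit 475) (nat_lit 5) (nat_lit 476) (nat_lit 5) (nat_lit 623) (nat_lit 604) (nat_lit 333)) (XT.nd (nat_lit 78) (nat_lit 0) (nat_lit 0) (XT.lf (nat_lit 0) (nat_lit 13217644168) (nat_lit 1824) (nat_lit 12912234437) (nat_lit 1900) (nat_lit 271570915) (nat_lit 452) (nat_lit 5) (nat_lit 476) (nat_lit 5) (nat_lit 477) (nat_lit 5) (nat_lit 624) (nat_lit 604) (nat_lit 332)) (XT.lf (nat_lit 76) (nat_lit 826123979) (nat_lit 0) (nat_lit 14334634238) (nat_lit 1900) (nat_lit 11520597177) (nat_lit 453) (nat_lit 5) (nat_lit 452) (nat_lit 5) (nat_lit 477) (nat_lit 5) (nat_lit 625) (nat_lit 604) (nat_lit 331))))))))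
noncomputable def xc243 : XT := (XT.nd (nat_lit 79794) (nat_lit 0) (nat_lit 6536) (XT.nd (nat_lit 702) (nat_lit 3420) (nat_lit 0) (XT.nd (nat_lit 312) (nat_lit 1976) (nat_lit 0) (XT.nd (nat_lit 156) (nat_lit 1520) (nat_lit 0) (XT.nd (nat_lit 78) (nat_lit 0) (nat_lit 76) (XT.lf (nat_lit 76) (nat_lit 15012183374) (nat_lit 0) (nat_lit 2214622683) (nat_lit 1900) (nat_lit 9738372281) (nat_lit 453) (nat_lit 5) (nat_lit 452) (nat_lit 5) (nat_lit 477) (nat_lit 5) (nat_lit 626) (nat_lit 604) (nat_lit 330)) (XT.lf (nat_lit 76) (nat_lit 2187988086) (nat_lit 0) (nat_lit 17223756017) (nat_lit 1900) (nat_lit 7841382629) (nat_lit 454) (nat_lit 5) (nat_lit 453) (nat_lit 5) (nat_lit 478) (nat_lit 5) (nat_lit 627) (nat_lit 604) (nat_lit 329))) (XT.nd (nat_lit 78) (nat_lit 1596) (nat_lit 0) (XT.lf (nat_lit 76) (nat_lit 16756861565) (nat_lit 0) (nat_lit 4975813190) (nat_lit 1900) (nat_lit 5812313829) (nat_lit 454) (nat_lit 5) (nat_lit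 453) (nat_lit 5) (nat_lit 478) (nat_lit 5) (nat_lit 628) (nat_lit 604) (nat_lit 328)) (XT.lf (nat_lit 0) (nat_lit 3772997952) (nat_lit 1672) (nat_lit 20397893137) (nat_lit 1748) (nat_lit 3670379605) (nat_lit 432) (nat_lit 5) (nat_lit 454) (nat_lit 5) (nat_lit 455) (nat_lit 5) (nat_lit 629) (nat_lit 604) (nat_lit 327)))) (XT.nd (nat_lit 156) (nat_lit 912) (nat_lit 0) (XT.nd (nat_lit 78) (nat_lit 1064) (nat_lit 0) (XT.lf (nat_lit 0) (nat_lit 18736100336) (nat_lit 1672) (nat_lit 8024499559) (nat_lit 1748) (nat_lit 1380824342) (nat_lit 432) (nat_lit 5) (nat_lit 454) (nat_lit 5) (nat_lit 455) (nat_lit 5) (nat_lit 630) (nat_lit 604) (nat_lit 326)) (XT.lf (nat_lit 0) (nat_lit 1006224513) (nat_lit 1064) (nat_lit 22860639079) (nat_lit 76) (nat_lit 4579309228) (nat_lit 418) (nat_lit 5) (nat_lit 432) (nat_lit 5) (nat_lit 419) (nat_lit 5) (nat_lit 631) (nat_lit 604) (nat_lit 325))) (XT.nd (nat_lit 78) (nat_lit 912) (nat_lit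 0) (XT.lf (nat_lit 0) (nat_lit 3536881900) (nat_lit 1064) (nat_lit 7816875438) (nat_lit 76) (nat_lit 17400789688) (nat_lit 418) (nat_lit 5) (nat_lit 432) (nat_lit 5) (nat_lit 419) (nat_lit 5) (nat_lit 632) (nat_lit 604) (nat_lit 324)) (XT.nd (nat_lit 78) (nat_lit 0) (nat_lit 0) (XT.lf (nat_lit 0) (nat_lit 6174855224) (nat_lit 988) (nat_lit 21451925261) (nat_lit 76) (nat_lit 1441174504) (nat_lit 406) (nat_lit 5) (nat_lit 419) (nat_lit 5) (nat_lit 407) (nat_lit 5) (nat_lit 633) (nat_lit 604) (nat_lit 323)) (XT.lf (nat_lit 0) (nat_lit 8991324255) (nat_lit 988) (nat_lit 6000675286) (nat_lit 76) (nat_lit 14393117166) (nat_lit 406) (nat_lit 5) (nat_lit 419) (nat_lit 5) (nat_lit 407) (nat_lit 5) (nat_lit 634) (nat_lit 604) (nat_lit 322)))))) (XT.nd (nat_lit 390) (nat_lit 836) (nat_lit 0) (XT.nd (nat_lit 156) (nat_lit 1672) (nat_lit 0) (XT.nd (nat_lit 78) (nat_lit 0) (nat_lit 0) (XT.lf (nat_lit 0) (nat_lit 9887205248)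 (nat_lit 912) (nat_lit 2038899027) (nat_lit 988) (nat_lit 17781278067) (nat_lit 394) (nat_lit 5) (nat_lit 406) (nat_lit 5) (nat_lit 407) (nat_lit 5) (nat_lit 635) (nat_lit 604) (nat_lit 321)) (XT.lf (nat_lit 0) (nat_lit 15030476704) (nat_lit 988) (nat_lit 3936012837) (nat_lit 76) (nat_lit 11067386120) (nat_lit 394) (nat_lit 5) (nat_lit 407) (nat_lit 5) (nat_lit 395) (nat_lit 5) (nat_lit 636) (nat_lit 604) (nat_lit 320))) (XT.nd (nat_lit 78) (nat_lit 836) (nat_lit 0) (XT.lf (nat_lit 0) (nat_lit 12413074792) (nat_lit 836) (nat_lit 5875819335) (nat_lit 912) (nat_lit 12076165871) (nat_lit 383) (nat_lit 5) (nat_lit 394) (nat_lit 5) (nat_lit 395) (nat_lit 5) (nat_lit 637) (nat_lit 604) (nat_lit 319)) (XT.nd (nat_lit 78) (nat_lit 836) (nat_lit 0) (XT.lf (nat_lit 0) (nat_lit 21685501095) (nat_lit 912) (nat_lit 1610646667) (nat_lit 76) (nat_lit 7405260132) (nat_lit 383) (nat_lit 5) (nat_lit 395) (nat_lit 5) (nat_lit 384)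 (nat_lit 5) (nat_lit 638) (nat_lit 604) (nat_lit 318)) (XT.lf (nat_lit 0) (nat_lit 15216122643) (nat_lit 836) (nat_lit 10069554898) (nat_lit 912) (nat_lit 5756092752) (nat_lit 372) (nat_lit 5) (nat_lit 383) (nat_lit 5) (nat_lit 384) (nat_lit 5) (nat_lit 639) (nat_lit 604) (nat_lit 317))))) (XT.nd (nat_lit 78468) (nat_lit 0) (nat_lit 8056) (XT.nd (nat_lit 78) (nat_lit 76) (nat_lit 0) (XT.lf (nat_lit 0) (nat_lit 1001308789) (nat_lit 760) (nat_lit 27994103746) (nat_lit 836) (nat_lit 2392776588) (nat_lit 362) (nat_lit 5) (nat_lit 372) (nat_lit 5) (nat_lit 373) (nat_lit 5) (nat_lit 640) (nat_lit 604) (nat_lit 316)) (XT.lf (nat_lit 0) (nat_lit 1195754333) (nat_lit 836) (nat_lit 13436301174) (nat_lit 76) (nat_lit 17105915144) (nat_lit 361) (nat_lit 5) (nat_lit 372) (nat_lit 5) (nat_lit 362) (nat_lit 5) (nat_lit 641) (nat_lit 604) (nat_lit 315))) (XT.nd (nat_lit 78) (nat_lit 0) (nat_lit 0) (XT.lf (nat_lit 0) (nat_lit 4323824288)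 (nat_lit 0) (nat_lit 4323824288) (nat_lit 1748) (nat_lit 2339522408) (nat_lit 467) (nat_lit 5) (nat_lit 467) (nat_lit 3) (nat_lit 490) (nat_lit 3) (nat_lit 605) (nat_lit 605) (nat_lit 350)) (XT.nd (nat_lit 78) (nat_lit 0) (nat_lit 0) (XT.lf (nat_lit 0) (nat_lit 17617336174) (nat_lit 1748) (nat_lit 2572043201) (nat_lit 1824) (nat_lit 2001703003) (nat_lit 467) (nat_lit 5) (nat_lit 490) (nat_lit 3) (nat_lit 491) (nat_lit 5) (nat_lit 606) (nat_lit 605) (nat_lit 349)) (XT.lf (nat_lit 76) (nat_lit 8449379925) (nat_lit 0) (nat_lit 9605010647) (nat_lit 1824) (nat_lit 4355596089) (nat_lit 468) (nat_lit 5) (nat_lit 467) (nat_lit 5) (nat_lit 491) (nat_lit 5) (nat_lit 607) (nat_lit 605) (nat_lit 348))))))) (XT.nd (nat_lit 702) (nat_lit 0) (nat_lit 76) (XT.nd (nat_lit 312) (nat_lit 1596) (nat_lit 0) (XT.nd (nat_lit 156) (nat_lit 0) (nat_lit 76) (XT.nd (nat_lit 78) (nat_lit 0) (nat_lit 0) (XT.lf (nat_lit 0) (nat_lit 18521807910)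 (nat_lit 1748) (nat_lit 2916609819) (nat_lit 1824) (nat_lit 1194419410) (nat_lit 468) (nat_lit 5) (nat_lit 491) (nat_lit 5) (nat_lit 492) (nat_lit 5) (nat_lit 608) (nat_lit 605) (nat_lit 347)) (XT.lf (nat_lit 76) (nat_lit 8392834300) (nat_lit 0) (nat_lit 10720423549) (nat_lit 1824) (nat_lit 3744593629) (nat_lit 469) (nat_lit 5) (nat_lit 468) (nat_lit 5) (nat_lit 492) (nat_lit 5) (nat_lit 609) (nat_lit 605) (nat_lit 346))) (XT.nd (nat_lit 78) (nat_lit 0) (nat_lit 0) (XT.lf (nat_lit 0) (nat_lit 19734261810) (nat_lit 1748) (nat_lit 3122439367) (nat_lit 1824) (nat_lit 230310955) (nat_lit 469) (nat_lit 5) (nat_lit 492) (nat_lit 5) (nat_lit 493) (nat_lit 5) (nat_lit 610) (nat_lit 605) (nat_lit 345)) (XT.lf (nat_lit 76) (nat_lit 8485357466) (nat_lit 0) (nat_lit 12005130295) (nat_lit 1824) (nat_lit 2827812714) (nat_lit 470) (nat_lit 5) (nat_lit 469) (nat_lit 5) (nat_lit 493) (nat_lit 5) (nat_lit 611) (nat_lit 605) (nat_lit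 344)))) (XT.nd (nat_lit 156) (nat_lit 1672) (nat_lit 0) (XT.nd (nat_lit 78) (nat_lit 0) (nat_lit 76) (XT.lf (nat_lit 76) (nat_lit 20365725036) (nat_lit 0) (nat_lit 913831611) (nat_lit 1824) (nat_lit 2274304076) (nat_lit 470) (nat_lit 5) (nat_lit 469) (nat_lit 5) (nat_lit 493) (nat_lit 5) (nat_lit 612) (nat_lit 605) (nat_lit 343)) (XT.lf (nat_lit 76) (nat_lit 8734659731) (nat_lit 0) (nat_lit 13470814551) (nat_lit 1824) (nat_lit 1586237041) (nat_lit 471) (nat_lit 5) (nat_lit 470) (nat_lit 5) (nat_lit 494) (nat_lit 5) (nat_lit 613) (nat_lit 605) (nat_lit 342))) (XT.nd (nat_lit 78) (nat_lit 1748) (nat_lit 0) (XT.lf (nat_lit 76) (nat_lit 20931062009) (nat_lit 0) (nat_lit 2243140908) (nat_lit 1824) (nat_lit 859630652) (nat_lit 471) (nat_lit 5) (nat_lit 470) (nat_lit 5) (nat_lit 494) (nat_lit 5) (nat_lit 614) (nat_lit 605) (nat_lit 341)) (XT.nd (nat_lit 78) (nat_lit 1824) (nat_lit 0) (XT.lf (nat_lit 76) (nat_lit 9148827171)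 (nat_lit 0) (nat_lit 15129625798) (nat_lit 1824) (nat_lit 22831) (nat_lit 472) (nat_lit 5) (nat_lit 471) (nat_lit 5) (nat_lit 495) (nat_lit 5) (nat_lit 615) (nat_lit 605) (nat_lit 340)) (XT.lf (nat_lit 0) (nat_lit 898074227) (nat_lit 1824) (nat_lit 2862755000) (nat_lit 1900) (nat_lit 20766412331) (nat_lit 447) (nat_lit 5) (nat_lit 471) (nat_lit 5) (nat_lit 472) (nat_lit 5) (nat_lit 616) (nat_lit 605) (nat_lit 339)))))) (XT.nd (nat_lit 390) (nat_lit 0) (nat_lit 152) (XT.nd (nat_lit 156) (nat_lit 0) (nat_lit 76) (XT.nd (nat_lit 78) (nat_lit 0) (nat_lit 0) (XT.lf (nat_lit 0) (nat_lit 1925943585) (nat_lit 1824) (nat_lit 15055337614) (nat_lit 1900) (nat_lit 7797465665) (nat_lit 448) (nat_lit 5) (nat_lit 472) (nat_lit 5) (nat_lit 473) (nat_lit 5) (nat_lit 617) (nat_lit 605) (nat_lit 338)) (XT.lf (nat_lit 0) (nat_lit 3015707044) (nat_lit 1824) (nat_lit 2461833963) (nat_lit 1900) (nat_lit 19556914975) (nat_lit 448) (nat_lit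 5) (nat_lit 472) (nat_lit 5) (nat_lit 473) (nat_lit 5) (nat_lit 618) (nat_lit 605) (nat_lit 337))) (XT.nd (nat_lit 78) (nat_lit 0) (nat_lit 0) (XT.lf (nat_lit 0) (nat_lit 4233793296) (nat_lit 1824) (nat_lit 14815508643) (nat_lit 1900) (nat_lit 6243847225) (nat_lit 449) (nat_lit 5) (nat_lit 473) (nat_lit 5) (nat_lit 474) (nat_lit 5) (nat_lit 619) (nat_lit 605) (nat_lit 336)) (XT.nd (nat_lit 78) (nat_lit 0) (nat_lit 76) (XT.lf (nat_lit 0) (nat_lit 5526344494) (nat_lit 1824) (nat_lit 1885809594) (nat_lit 1900) (nat_lit 18143860481) (nat_lit 449) (nat_lit 5) (nat_lit 473) (nat_lit 5) (nat_lit 474) (nat_lit 5) (nat_lit 620) (nat_lit 605) (nat_lit 335)) (XT.lf (nat_lit 0) (nat_lit 6945785552) (nat_lit 1824) (nat_lit 14401459499) (nat_lit 1900) (nat_lit 4474871868) (nat_lit 450) (nat_lit 5) (nat_lit 474) (nat_lit 5) (nat_lit 475) (nat_lit 5) (nat_lit 621) (nat_lit 605) (nat_lit 334))))) (XT.nd (nat_lit 156) (nat_lit 0)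 (nat_lit 76) (XT.nd (nat_lit 78) (nat_lit 0) (nat_lit 76) (XT.lf (nat_lit 0) (nat_lit 8452740507) (nat_lit 1824) (nat_lit 1125664146) (nat_lit 1900) (nat_lit 16513954569) (nat_lit 450) (nat_lit 5) (nat_lit 474) (nat_lit 5) (nat_lit 475) (nat_lit 5) (nat_lit 622) (nat_lit 605) (nat_lit 333)) (XT.lf (nat_lit 0) (nat_lit 10085150907) (nat_lit 1824) (nat_lit 13804085105) (nat_lit 1900) (nat_lit 2476864430) (nat_lit 451) (nat_lit 5) (nat_lit 475) (nat_lit 5) (nat_lit 476) (nat_lit 5) (nat_lit 623) (nat_lit 605) (nat_lit 332))) (XT.nd (nat_lit 78) (nat_lit 0) (nat_lit 76) (XT.lf (nat_lit 0) (nat_lit 11818642103) (nat_lit 1824) (nat_lit 171966964) (nat_lit 1900) (nat_lit 14653339160) (nat_lit 451) (nat_lit 5) (nat_lit 475) (nat_lit 5) (nat_lit 476) (nat_lit 5) (nat_lit 624) (nat_lit 605) (nat_lit 331)) (XT.nd (nat_lit 78) (nat_lit 0) (nat_lit 0) (XT.lf (nat_lit 0) (nat_lit 13676133865) (nat_lit 1824) (nat_lit 13013864528)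 (nat_lit 1900) (nat_lit 235568343) (nat_lit 452) (nat_lit 5) (nat_lit 476) (nat_lit 5) (nat_lit 477) (nat_lit 5) (nat_lit 625) (nat_lit 605) (nat_lit 330)) (XT.lf (nat_lit 76) (nat_lit 998230698) (nat_lit 0) (nat_lit 14657083049) (nat_lit 1900) (nat_lit 11555813478) (nat_lit 453) (nat_lit 5) (nat_lit 452) (nat_lit 5) (nat_lit 477) (nat_lit 5) (nat_lit 626) (nat_lit 605) (nat_lit 329))))))))
noncomputable def xc244 : XT := (XT.nd (nat_lit 79872) (nat_lit 0) (nat_lit 6460) (XT.nd (nat_lit 702) (nat_lit 3344) (nat_lit 0) (XT.nd (nat_lit 312) (nat_lit 1976) (nat_lit 0) (XT.nd (nat_lit 156) (nat_lit 1520) (nat_lit 0) (XT.nd (nat_lit 78) (nat_lit 0) (nat_lit 76) (XT.lf (nat_lit 76) (nat_lit 15464960609) (nat_lit 0) (nat_lit 2293970162) (nat_lit 1900) (nat_lit 9741771450) (nat_lit 453) (nat_lit 5) (nat_lit 452) (nat_lit 5) (nat_lit 477) (nat_lit 5) (nat_lit 627) (nat_lit 605) (nat_lit 328)) (XT.lf (nat_lit 76) (nat_lit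 2387258826) (nat_lit 0) (nat_lit 17597417087) (nat_lit 1900) (nat_lit 7809792050) (nat_lit 454) (nat_lit 5) (nat_lit 453) (nat_lit 5) (nat_lit 478) (nat_lit 5) (nat_lit 628) (nat_lit 605) (nat_lit 327))) (XT.nd (nat_lit 78) (nat_lit 1596) (nat_lit 0) (XT.lf (nat_lit 76) (nat_lit 17244460540) (nat_lit 0) (nat_lit 5103943130) (nat_lit 1900) (nat_lit 5743836349) (nat_lit 454) (nat_lit 5) (nat_lit 453) (nat_lit 5) (nat_lit 478) (nat_lit 5) (nat_lit 629) (nat_lit 605) (nat_lit 326)) (XT.lf (nat_lit 0) (nat_lit 4003725508) (nat_lit 1672) (nat_lit 20828934288) (nat_lit 1748) (nat_lit 3561842991) (nat_lit 432) (nat_lit 5) (nat_lit 454) (nat_lit 5) (nat_lit 455) (nat_lit 5) (nat_lit 630) (nat_lit 605) (nat_lit 325)))) (XT.nd (nat_lit 156) (nat_lit 912) (nat_lit 0) (XT.nd (nat_lit 78) (nat_lit 1064) (nat_lit 0) (XT.lf (nat_lit 0) (nat_lit 19263045477) (nat_lit 1672) (nat_lit 8207620226) (nat_lit 1748) (nat_lit 1230064157)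 (nat_lit 432) (nat_lit 5) (nat_lit 454) (nat_lit 5) (nat_lit 455) (nat_lit 5) (nat_lit 631) (nat_lit 605) (nat_lit 324)) (XT.lf (nat_lit 0) (nat_lit 1199801677) (nat_lit 1064) (nat_lit 23160654662) (nat_lit 76) (nat_lit 4651146099) (nat_lit 418) (nat_lit 5) (nat_lit 432) (nat_lit 5) (nat_lit 419) (nat_lit 5) (nat_lit 632) (nat_lit 605) (nat_lit 323))) (XT.nd (nat_lit 78) (nat_lit 912) (nat_lit 0) (XT.lf (nat_lit 0) (nat_lit 3777671179) (nat_lit 1064) (nat_lit 7819098046) (nat_lit 76) (nat_lit 17729443410) (nat_lit 418) (nat_lit 5) (nat_lit 432) (nat_lit 5) (nat_lit 419) (nat_lit 5) (nat_lit 633) (nat_lit 605) (nat_lit 322)) (XT.nd (nat_lit 78) (nat_lit 0) (nat_lit 0) (XT.lf (nat_lit 0) (nat_lit 6465968797) (nat_lit 988) (nat_lit 21724389870) (nat_lit 76) (nat_lit 1455579271) (nat_lit 406) (nat_lit 5) (nat_lit 419) (nat_lit 5) (nat_lit 407) (nat_lit 5) (nat_lit 634) (nat_lit 605) (nat_lit 321)) (XT.lf (nat_lit 0)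 (nat_lit 9335480611) (nat_lit 988) (nat_lit 5967184972) (nat_lit 76) (nat_lit 14666843506) (nat_lit 406) (nat_lit 5) (nat_lit 419) (nat_lit 5) (nat_lit 407) (nat_lit 5) (nat_lit 635) (nat_lit 605) (nat_lit 320)))))) (XT.nd (nat_lit 390) (nat_lit 760) (nat_lit 0) (XT.nd (nat_lit 156) (nat_lit 1672) (nat_lit 0) (XT.nd (nat_lit 78) (nat_lit 0) (nat_lit 0) (XT.lf (nat_lit 0) (nat_lit 10237443279) (nat_lit 912) (nat_lit 2089280889) (nat_lit 988) (nat_lit 17971540967) (nat_lit 394) (nat_lit 5) (nat_lit 406) (nat_lit 5) (nat_lit 407) (nat_lit 5) (nat_lit 636) (nat_lit 605) (nat_lit 319)) (XT.lf (nat_lit 0) (nat_lit 15489944526) (nat_lit 988) (nat_lit 3861967275) (nat_lit 76) (nat_lit 11279441759) (nat_lit 394) (nat_lit 5) (nat_lit 407) (nat_lit 5) (nat_lit 395) (nat_lit 5) (nat_lit 637) (nat_lit 605) (nat_lit 318))) (XT.nd (nat_lit 78) (nat_lit 836) (nat_lit 0) (XT.lf (nat_lit 0) (nat_lit 12813097068) (nat_lit 836) (nat_lit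 5998303692) (nat_lit 912) (nat_lit 12157803855) (nat_lit 383) (nat_lit 5) (nat_lit 394) (nat_lit 5) (nat_lit 395) (nat_lit 5) (nat_lit 638) (nat_lit 605) (nat_lit 317)) (XT.nd (nat_lit 78) (nat_lit 836) (nat_lit 0) (XT.lf (nat_lit 0) (nat_lit 22272835132) (nat_lit 912) (nat_lit 1490948210) (nat_lit 76) (nat_lit 7548558653) (nat_lit 383) (nat_lit 5) (nat_lit 395) (nat_lit 5) (nat_lit 384) (nat_lit 5) (nat_lit 639) (nat_lit 605) (nat_lit 316)) (XT.lf (nat_lit 0) (nat_lit 15671357070) (nat_lit 836) (nat_lit 10271625621) (nat_lit 912) (nat_lit 5716570021) (nat_lit 372) (nat_lit 5) (nat_lit 383) (nat_lit 5) (nat_lit 384) (nat_lit 5) (nat_lit 640) (nat_lit 605) (nat_lit 315))))) (XT.nd (nat_lit 78546) (nat_lit 0) (nat_lit 7980) (XT.nd (nat_lit 78468) (nat_lit 0) (nat_lit 7980) (XT.lf (nat_lit 0) (nat_lit 1174291381) (nat_lit 760) (nat_lit 28550637389) (nat_lit 836) (nat_lit 2288011237) (nat_lit 362) (nat_lit 5) (nat_lit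 372) (nat_lit 5) (nat_lit 373) (nat_lit 5) (nat_lit 641) (nat_lit 605) (nat_lit 314)) (XT.lf (nat_lit 0) (nat_lit 4477818017) (nat_lit 0) (nat_lit 4477818017) (nat_lit 1748) (nat_lit 2248556527) (nat_lit 467) (nat_lit 5) (nat_lit 467) (nat_lit 3) (nat_lit 490) (nat_lit 3) (nat_lit 606) (nat_lit 606) (nat_lit 348))) (XT.nd (nat_lit 78) (nat_lit 0) (nat_lit 0) (XT.lf (nat_lit 0) (nat_lit 18233596858) (nat_lit 1748) (nat_lit 2484900825) (nat_lit 1824) (nat_lit 1911086587) (nat_lit 467) (nat_lit 5) (nat_lit 490) (nat_lit 3) (nat_lit 491) (nat_lit 5) (nat_lit 607) (nat_lit 606) (nat_lit 347)) (XT.nd (nat_lit 78) (nat_lit 0) (nat_lit 76) (XT.lf (nat_lit 76) (nat_lit 8756039032) (nat_lit 0) (nat_lit 9919072383) (nat_lit 1824) (nat_lit 4177841655) (nat_lit 468) (nat_lit 5) (nat_lit 467) (nat_lit 5) (nat_lit 491) (nat_lit 5) (nat_lit 608) (nat_lit 606) (nat_lit 346)) (XT.lf (nat_lit 0) (nat_lit 19146009928) (nat_lit 1748)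 (nat_lit 2834062911) (nat_lit 1824) (nat_lit 1100305860) (nat_lit 468) (nat_lit 5) (nat_lit 491) (nat_lit 5) (nat_lit 492) (nat_lit 5) (nat_lit 609) (nat_lit 606) (nat_lit 345))))))) (XT.nd (nat_lit 702) (nat_lit 0) (nat_lit 76) (XT.nd (nat_lit 312) (nat_lit 1596) (nat_lit 0) (XT.nd (nat_lit 156) (nat_lit 0) (nat_lit 76) (XT.nd (nat_lit 78) (nat_lit 0) (nat_lit 76) (XT.lf (nat_lit 76) (nat_lit 8700643255) (nat_lit 0) (nat_lit 11044578473) (nat_lit 1824) (nat_lit 3564753722) (nat_lit 469) (nat_lit 5) (nat_lit 468) (nat_lit 5) (nat_lit 492) (nat_lit 5) (nat_lit 610) (nat_lit 606) (nat_lit 344)) (XT.lf (nat_lit 0) (nat_lit 20373051139) (nat_lit 1748) (nat_lit 3042047102) (nat_lit 1824) (nat_lit 128733734) (nat_lit 469) (nat_lit 5) (nat_lit 492) (nat_lit 5) (nat_lit 493) (nat_lit 5) (nat_lit 611) (nat_lit 606) (nat_lit 343))) (XT.nd (nat_lit 78) (nat_lit 0) (nat_lit 0) (XT.lf (nat_lit 76) (nat_lit 8796965924) (nat_lit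 0) (nat_lit 12343570648) (nat_lit 1824) (nat_lit 2639287565) (nat_lit 470) (nat_lit 5) (nat_lit 469) (nat_lit 5) (nat_lit 493) (nat_lit 5) (nat_lit 612) (nat_lit 606) (nat_lit 342)) (XT.lf (nat_lit 76) (nat_lit 20912158466) (nat_lit 0) (nat_lit 1028517799) (nat_lit 1824) (nat_lit 2079514272) (nat_lit 470) (nat_lit 5) (nat_lit 469) (nat_lit 5) (nat_lit 493) (nat_lit 5) (nat_lit 613) (nat_lit 606) (nat_lit 341)))) (XT.nd (nat_lit 156) (nat_lit 1748) (nat_lit 0) (XT.nd (nat_lit 78) (nat_lit 0) (nat_lit 0) (XT.lf (nat_lit 76) (nat_lit 9052894602) (nat_lit 0) (nat_lit 13827917732) (nat_lit 1824) (nat_lit 1382072536) (nat_lit 471) (nat_lit 5) (nat_lit 470) (nat_lit 5) (nat_lit 494) (nat_lit 5) (nat_lit 614) (nat_lit 606) (nat_lit 340)) (XT.lf (nat_lit 76) (nat_lit 21490410384) (nat_lit 0) (nat_lit 2373971265) (nat_lit 1824) (nat_lit 645559299) (nat_lit 471) (nat_lit 5) (nat_lit 470) (nat_lit 5) (nat_lit 494) (nat_lit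 5) (nat_lit 615) (nat_lit 606) (nat_lit 339))) (XT.nd (nat_lit 78) (nat_lit 0) (nat_lit 0) (XT.lf (nat_lit 0) (nat_lit 224128945) (nat_lit 1824) (nat_lit 15284333549) (nat_lit 1900) (nat_lit 9251065761) (nat_lit 447) (nat_lit 5) (nat_lit 471) (nat_lit 5) (nat_lit 472) (nat_lit 5) (nat_lit 616) (nat_lit 606) (nat_lit 338)) (XT.nd (nat_lit 78) (nat_lit 0) (nat_lit 76) (XT.lf (nat_lit 0) (nat_lit 1135792505) (nat_lit 1824) (nat_lit 2775002353) (nat_lit 1900) (nat_lit 21102563038) (nat_lit 447) (nat_lit 5) (nat_lit 471) (nat_lit 5) (nat_lit 472) (nat_lit 5) (nat_lit 617) (nat_lit 606) (nat_lit 337)) (XT.lf (nat_lit 0) (nat_lit 2180375975) (nat_lit 1824) (nat_lit 15207560642) (nat_lit 1900) (nat_lit 7882034210) (nat_lit 448) (nat_lit 5) (nat_lit 472) (nat_lit 5) (nat_lit 473) (nat_lit 5) (nat_lit 618) (nat_lit 606) (nat_lit 336)))))) (XT.nd (nat_lit 390) (nat_lit 0) (nat_lit 228) (XT.nd (nat_lit 156) (nat_lit 0) (nat_lit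 76) (XT.nd (nat_lit 78) (nat_lit 0) (nat_lit 76) (XT.lf (nat_lit 0) (nat_lit 3287701105) (nat_lit 1824) (nat_lit 2365106206) (nat_lit 1900) (nat_lit 19878072130) (nat_lit 448) (nat_lit 5) (nat_lit 472) (nat_lit 5) (nat_lit 473) (nat_lit 5) (nat_lit 619) (nat_lit 606) (nat_lit 335)) (XT.lf (nat_lit 0) (nat_lit 4526527890) (nat_lit 1824) (nat_lit 14962201756) (nat_lit 1900) (nat_lit 6306089893) (nat_lit 449) (nat_lit 5) (nat_lit 473) (nat_lit 5) (nat_lit 474) (nat_lit 5) (nat_lit 620) (nat_lit 606) (nat_lit 334))) (XT.nd (nat_lit 78) (nat_lit 0) (nat_lit 76) (XT.lf (nat_lit 0) (nat_lit 5840850529) (nat_lit 1824) (nat_lit 1776842393) (nat_lit 1900) (nat_lit 18445331537) (nat_lit 449) (nat_lit 5) (nat_lit 473) (nat_lit 5) (nat_lit 474) (nat_lit 5) (nat_lit 621) (nat_lit 606) (nat_lit 333)) (XT.nd (nat_lit 78) (nat_lit 0) (nat_lit 0) (XT.lf (nat_lit 0) (nat_lit 7285268476) (nat_lit 1824) (nat_lit 14539363150) (nat_lit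 1900) (nat_lit 4509886074) (nat_lit 450) (nat_lit 5) (nat_lit 474) (nat_lit 5) (nat_lit 475) (nat_lit 5) (nat_lit 622) (nat_lit 606) (nat_lit 332)) (XT.lf (nat_lit 0) (nat_lit 8818429839) (nat_lit 1824) (nat_lit 1000995528) (nat_lit 1900) (nat_lit 16790818728) (nat_lit 450) (nat_lit 5) (nat_lit 474) (nat_lit 5) (nat_lit 475) (nat_lit 5) (nat_lit 623) (nat_lit 606) (nat_lit 331))))) (XT.nd (nat_lit 156) (nat_lit 0) (nat_lit 76) (XT.nd (nat_lit 78) (nat_lit 0) (nat_lit 0) (XT.lf (nat_lit 0) (nat_lit 10480273687) (nat_lit 1824) (nat_lit 13929741107) (nat_lit 1900) (nat_lit 2479510222) (nat_lit 451) (nat_lit 5) (nat_lit 475) (nat_lit 5) (nat_lit 476) (nat_lit 5) (nat_lit 624) (nat_lit 606) (nat_lit 330)) (XT.lf (nat_lit 0) (nat_lit 12244642164) (nat_lit 1824) (nat_lit 27930126) (nat_lit 1900) (nat_lit 14900433887) (nat_lit 451) (nat_lit 5) (nat_lit 475) (nat_lit 5) (nat_lit 476) (nat_lit 5) (nat_lit 625) (nat_lit 606)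 (nat_lit 329))) (XT.nd (nat_lit 78) (nat_lit 0) (nat_lit 0) (XT.lf (nat_lit 0) (nat_lit 14136254786) (nat_lit 1824) (nat_lit 13123608755) (nat_lit 1900) (nat_lit 200454652) (nat_lit 452) (nat_lit 5) (nat_lit 476) (nat_lit 5) (nat_lit 477) (nat_lit 5) (nat_lit 626) (nat_lit 606) (nat_lit 328)) (XT.nd (nat_lit 78) (nat_lit 0) (nat_lit 0) (XT.lf (nat_lit 76) (nat_lit 1167738026) (nat_lit 0) (nat_lit 14984592381) (nat_lit 1900) (nat_lit 11599313789) (nat_lit 453) (nat_lit 5) (nat_lit 452) (nat_lit 5) (nat_lit 477) (nat_lit 5) (nat_lit 627) (nat_lit 606) (nat_lit 327)) (XT.lf (nat_lit 76) (nat_lit 15920870325) (nat_lit 0) (nat_lit 2373543361) (nat_lit 1900) (nat_lit 9752669665) (nat_lit 453) (nat_lit 5) (nat_lit 452) (nat_lit 5) (nat_lit 477) (nat_lit 5) (nat_lit 628) (nat_lit 606) (nat_lit 326))))))))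
noncomputable def xc245 : XT := (XT.nd (nat_lit 79950) (nat_lit 0) (nat_lit 5700) (XT.nd (nat_lit 702) (nat_lit 1672) (nat_lit 0) (XT.nd (nat_lit 312) (nat_lit 2888) (nat_lit 0) (XT.nd (nat_lit 156) (nat_lit 1596) (nat_lit 0) (XT.nd (nat_lit 78) (nat_lit 0) (nat_lit 0) (XT.lf (nat_lit 76) (nat_lit 2584476300) (nat_lit 0) (nat_lit 17977418053) (nat_lit 1900) (nat_lit 7784886169) (nat_lit 454) (nat_lit 5) (nat_lit 453) (nat_lit 5) (nat_lit 478) (nat_lit 5) (nat_lit 629) (nat_lit 606) (nat_lit 325)) (XT.lf (nat_lit 76) (nat_lit 17735891219) (nat_lit 0) (nat_lit 5233524565) (nat_lit 1900) (nat_lit 5681162368) (nat_lit 454) (nat_lit 5) (nat_lit 453) (nat_lit 5) (nat_lit 478) (nat_lit 5) (nat_lit 630) (nat_lit 606) (nat_lit 324))) (XT.nd (nat_lit 78) (nat_lit 0) (nat_lit 0) (XT.lf (nat_lit 0) (nat_lit 4233038385) (nat_lit 1672) (nat_lit 21267699910) (nat_lit 1748) (nat_lit 3458200761) (nat_lit 432) (nat_lit 5) (nat_lit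 454) (nat_lit 5) (nat_lit 455) (nat_lit 5) (nat_lit 631) (nat_lit 606) (nat_lit 323)) (XT.lf (nat_lit 0) (nat_lit 19794618511) (nat_lit 1672) (nat_lit 8393524528) (nat_lit 1748) (nat_lit 1083215352) (nat_lit 432) (nat_lit 5) (nat_lit 454) (nat_lit 5) (nat_lit 455) (nat_lit 5) (nat_lit 632) (nat_lit 606) (nat_lit 322)))) (XT.nd (nat_lit 156) (nat_lit 1824) (nat_lit 0) (XT.nd (nat_lit 78) (nat_lit 0) (nat_lit 0) (XT.lf (nat_lit 0) (nat_lit 1390515005) (nat_lit 1064) (nat_lit 23472774715) (nat_lit 76) (nat_lit 4725186598) (nat_lit 418) (nat_lit 5) (nat_lit 432) (nat_lit 5) (nat_lit 419) (nat_lit 5) (nat_lit 633) (nat_lit 606) (nat_lit 321)) (XT.lf (nat_lit 0) (nat_lit 4016672930) (nat_lit 1064) (nat_lit 7827349576) (nat_lit 76) (nat_lit 18065422060) (nat_lit 418) (nat_lit 5) (nat_lit 432) (nat_lit 5) (nat_lit 419) (nat_lit 5) (nat_lit 634) (nat_lit 606) (nat_lit 320))) (XT.nd (nat_lit 78) (nat_lit 912) (nat_lit 0)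 (XT.lf (nat_lit 0) (nat_lit 6756395888) (nat_lit 988) (nat_lit 22008383727) (nat_lit 76) (nat_lit 1470832029) (nat_lit 406) (nat_lit 5) (nat_lit 419) (nat_lit 5) (nat_lit 407) (nat_lit 5) (nat_lit 635) (nat_lit 606) (nat_lit 319)) (XT.nd (nat_lit 78) (nat_lit 912) (nat_lit 0) (XT.lf (nat_lit 0) (nat_lit 9680138964) (nat_lit 988) (nat_lit 5938985592) (nat_lit 76) (nat_lit 14946593290) (nat_lit 406) (nat_lit 5) (nat_lit 419) (nat_lit 5) (nat_lit 407) (nat_lit 5) (nat_lit 636) (nat_lit 606) (nat_lit 318)) (XT.lf (nat_lit 0) (nat_lit 10588764546) (nat_lit 912) (nat_lit 2140297458) (nat_lit 988) (nat_lit 18172030358) (nat_lit 394) (nat_lit 5) (nat_lit 406) (nat_lit 5) (nat_lit 407) (nat_lit 5) (nat_lit 637) (nat_lit 606) (nat_lit 317)))))) (XT.nd (nat_lit 78858) (nat_lit 0) (nat_lit 7220) (XT.nd (nat_lit 156) (nat_lit 836) (nat_lit 0) (XT.nd (nat_lit 78) (nat_lit 836) (nat_lit 0) (XT.lf (nat_lit 0) (nat_lit 15952433042)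 (nat_lit 988) (nat_lit 3792372886) (nat_lit 76) (nat_lit 11496099334) (nat_lit 394) (nat_lit 5) (nat_lit 407) (nat_lit 5) (nat_lit 395) (nat_lit 5) (nat_lit 638) (nat_lit 606) (nat_lit 316)) (XT.lf (nat_lit 0) (nat_lit 13215226734) (nat_lit 836) (nat_lit 6123044823) (nat_lit 912) (nat_lit 12247283140) (nat_lit 383) (nat_lit 5) (nat_lit 394) (nat_lit 5) (nat_lit 395) (nat_lit 5) (nat_lit 639) (nat_lit 606) (nat_lit 315))) (XT.nd (nat_lit 78) (nat_lit 836) (nat_lit 0) (XT.lf (nat_lit 0) (nat_lit 22865950442) (nat_lit 912) (nat_lit 1374754687) (nat_lit 76) (nat_lit 7694909795) (nat_lit 383) (nat_lit 5) (nat_lit 395) (nat_lit 5) (nat_lit 384) (nat_lit 5) (nat_lit 640) (nat_lit 606) (nat_lit 314)) (XT.nd (nat_lit 78546) (nat_lit 0) (nat_lit 7220) (XT.lf (nat_lit 0) (nat_lit 16129836089) (nat_lit 836) (nat_lit 10477711369) (nat_lit 912) (nat_lit 5682261873) (nat_lit 372) (nat_lit 5) (nat_lit 383) (nat_lit 5) (nat_lit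 384) (nat_lit 5) (nat_lit 641) (nat_lit 606) (nat_lit 313)) (XT.lf (nat_lit 0) (nat_lit 4632269844) (nat_lit 0) (nat_lit 4632269844) (nat_lit 1748) (nat_lit 2161120574) (nat_lit 467) (nat_lit 5) (nat_lit 467) (nat_lit 3) (nat_lit 490) (nat_lit 3) (nat_lit 607) (nat_lit 607) (nat_lit 346))))) (XT.nd (nat_lit 156) (nat_lit 0) (nat_lit 76) (XT.nd (nat_lit 78) (nat_lit 0) (nat_lit 0) (XT.lf (nat_lit 0) (nat_lit 18851934655) (nat_lit 1748) (nat_lit 2401396957) (nat_lit 1824) (nat_lit 1823731160) (nat_lit 467) (nat_lit 5) (nat_lit 490) (nat_lit 3) (nat_lit 491) (nat_lit 5) (nat_lit 608) (nat_lit 607) (nat_lit 345)) (XT.lf (nat_lit 76) (nat_lit 9063485368) (nat_lit 0) (nat_lit 10234679440) (nat_lit 1824) (nat_lit 4006817216) (nat_lit 468) (nat_lit 5) (nat_lit 467) (nat_lit 5) (nat_lit 491) (nat_lit 5) (nat_lit 609) (nat_lit 607) (nat_lit 344))) (XT.nd (nat_lit 78) (nat_lit 0) (nat_lit 0) (XT.lf (nat_lit 0) (nat_lit 19772841949)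 (nat_lit 1748) (nat_lit 2755335571) (nat_lit 1824) (nat_lit 1008892199) (nat_lit 468) (nat_lit 5) (nat_lit 491) (nat_lit 5) (nat_lit 492) (nat_lit 5) (nat_lit 610) (nat_lit 607) (nat_lit 343)) (XT.nd (nat_lit 78) (nat_lit 0) (nat_lit 76) (XT.lf (nat_lit 76) (nat_lit 9009173871) (nat_lit 0) (nat_lit 11370954907) (nat_lit 1824) (nat_lit 3391208562) (nat_lit 469) (nat_lit 5) (nat_lit 468) (nat_lit 5) (nat_lit 492) (nat_lit 5) (nat_lit 611) (nat_lit 607) (nat_lit 342)) (XT.lf (nat_lit 0) (nat_lit 21015137395) (nat_lit 1748) (nat_lit 2965593683) (nat_lit 1824) (nat_lit 29248201) (nat_lit 469) (nat_lit 5) (nat_lit 492) (nat_lit 5) (nat_lit 493) (nat_lit 5) (nat_lit 612) (nat_lit 607) (nat_lit 341))))))) (XT.nd (nat_lit 702) (nat_lit 0) (nat_lit 152) (XT.nd (nat_lit 312) (nat_lit 1672) (nat_lit 0) (XT.nd (nat_lit 156) (nat_lit 0) (nat_lit 76) (XT.nd (nat_lit 78) (nat_lit 0) (nat_lit 0) (XT.lf (nat_lit 76) (nat_lit 9109296350)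 (nat_lit 0) (nat_lit 12684961233) (nat_lit 1824) (nat_lit 2456508723) (nat_lit 470) (nat_lit 5) (nat_lit 469) (nat_lit 5) (nat_lit 493) (nat_lit 5) (nat_lit 613) (nat_lit 607) (nat_lit 340)) (XT.lf (nat_lit 76) (nat_lit 21464118408) (nat_lit 0) (nat_lit 1141754010) (nat_lit 1824) (nat_lit 1890158878) (nat_lit 470) (nat_lit 5) (nat_lit 469) (nat_lit 5) (nat_lit 493) (nat_lit 5) (nat_lit 614) (nat_lit 607) (nat_lit 339))) (XT.nd (nat_lit 78) (nat_lit 0) (nat_lit 0) (XT.lf (nat_lit 76) (nat_lit 9371920273) (nat_lit 0) (nat_lit 14188757988) (nat_lit 1824) (nat_lit 1182984608) (nat_lit 471) (nat_lit 5) (nat_lit 470) (nat_lit 5) (nat_lit 494) (nat_lit 5) (nat_lit 615) (nat_lit 607) (nat_lit 338)) (XT.lf (nat_lit 76) (nat_lit 22055481119) (nat_lit 0) (nat_lit 2504080006) (nat_lit 1824) (nat_lit 436186780) (nat_lit 471) (nat_lit 5) (nat_lit 470) (nat_lit 5) (nat_lit 494) (nat_lit 5) (nat_lit 616) (nat_lit 607) (nat_lit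 337)))) (XT.nd (nat_lit 156) (nat_lit 0) (nat_lit 76) (XT.nd (nat_lit 78) (nat_lit 0) (nat_lit 0) (XT.lf (nat_lit 0) (nat_lit 444059361) (nat_lit 1824) (nat_lit 15447855763) (nat_lit 1900) (nat_lit 9358462037) (nat_lit 447) (nat_lit 5) (nat_lit 471) (nat_lit 5) (nat_lit 472) (nat_lit 5) (nat_lit 617) (nat_lit 607) (nat_lit 336)) (XT.lf (nat_lit 0) (nat_lit 1369731724) (nat_lit 1824) (nat_lit 2691125481) (nat_lit 1900) (nat_lit 21448511319) (nat_lit 447) (nat_lit 5) (nat_lit 471) (nat_lit 5) (nat_lit 472) (nat_lit 5) (nat_lit 618) (nat_lit 607) (nat_lit 335))) (XT.nd (nat_lit 78) (nat_lit 0) (nat_lit 0) (XT.lf (nat_lit 0) (nat_lit 2431512828) (nat_lit 1824) (nat_lit 15368609467) (nat_lit 1900) (nat_lit 7971065929) (nat_lit 448) (nat_lit 5) (nat_lit 472) (nat_lit 5) (nat_lit 473) (nat_lit 5) (nat_lit 619) (nat_lit 607) (nat_lit 334)) (XT.nd (nat_lit 78) (nat_lit 0) (nat_lit 76) (XT.lf (nat_lit 0) (nat_lit 3556915258)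 (nat_lit 1824) (nat_lit 2272111872) (nat_lit 1900) (nat_lit 20208369880) (nat_lit 448) (nat_lit 5) (nat_lit 472) (nat_lit 5) (nat_lit 473) (nat_lit 5) (nat_lit 620) (nat_lit 607) (nat_lit 333)) (XT.lf (nat_lit 0) (nat_lit 4817038003) (nat_lit 1824) (nat_lit 15117638543) (nat_lit 1900) (nat_lit 6372009580) (nat_lit 449) (nat_lit 5) (nat_lit 473) (nat_lit 5) (nat_lit 474) (nat_lit 5) (nat_lit 621) (nat_lit 607) (nat_lit 332)))))) (XT.nd (nat_lit 390) (nat_lit 0) (nat_lit 228) (XT.nd (nat_lit 156) (nat_lit 0) (nat_lit 76) (XT.nd (nat_lit 78) (nat_lit 0) (nat_lit 76) (XT.lf (nat_lit 0) (nat_lit 6153725927) (nat_lit 1824) (nat_lit 1671391743) (nat_lit 1900) (nat_lit 18755216490) (nat_lit 449) (nat_lit 5) (nat_lit 473) (nat_lit 5) (nat_lit 474) (nat_lit 5) (nat_lit 622) (nat_lit 607) (nat_lit 331)) (XT.lf (nat_lit 0) (nat_lit 7623752789) (nat_lit 1824) (nat_lit 14685854432) (nat_lit 1900) (nat_lit 4547716215) (nat_lit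 450) (nat_lit 5) (nat_lit 474) (nat_lit 5) (nat_lit 475) (nat_lit 5) (nat_lit 623) (nat_lit 607) (nat_lit 330))) (XT.nd (nat_lit 78) (nat_lit 0) (nat_lit 76) (XT.lf (nat_lit 0) (nat_lit 9183797400) (nat_lit 1824) (nat_lit 879548790) (nat_lit 1900) (nat_lit 17075294337) (nat_lit 450) (nat_lit 5) (nat_lit 474) (nat_lit 5) (nat_lit 475) (nat_lit 5) (nat_lit 624) (nat_lit 607) (nat_lit 329)) (XT.nd (nat_lit 78) (nat_lit 0) (nat_lit 0) (XT.lf (nat_lit 0) (nat_lit 10875788199) (nat_lit 1824) (nat_lit 14063751442) (nat_lit 1900) (nat_lit 2484029783) (nat_lit 451) (nat_lit 5) (nat_lit 475) (nat_lit 5) (nat_lit 476) (nat_lit 5) (nat_lit 625) (nat_lit 607) (nat_lit 328)) (XT.lf (nat_lit 76) (nat_lit 114765944) (nat_lit 0) (nat_lit 12557777962) (nat_lit 1900) (nat_lit 15040234852) (nat_lit 452) (nat_lit 5) (nat_lit 451) (nat_lit 5) (nat_lit 476) (nat_lit 5) (nat_lit 626) (nat_lit 607) (nat_lit 327))))) (XT.nd (nat_lit 156)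 (nat_lit 0) (nat_lit 0) (XT.nd (nat_lit 78) (nat_lit 0) (nat_lit 0) (XT.lf (nat_lit 0) (nat_lit 14598332289) (nat_lit 1824) (nat_lit 13241393250) (nat_lit 1900) (nat_lit 166185142) (nat_lit 452) (nat_lit 5) (nat_lit 476) (nat_lit 5) (nat_lit 477) (nat_lit 5) (nat_lit 627) (nat_lit 607) (nat_lit 326)) (XT.lf (nat_lit 76) (nat_lit 1334828574) (nat_lit 0) (nat_lit 15317317362) (nat_lit 1900) (nat_lit 11650969463) (nat_lit 453) (nat_lit 5) (nat_lit 452) (nat_lit 5) (nat_lit 477) (nat_lit 5) (nat_lit 628) (nat_lit 607) (nat_lit 325))) (XT.nd (nat_lit 78) (nat_lit 0) (nat_lit 76) (XT.lf (nat_lit 76) (nat_lit 16380205171) (nat_lit 0) (nat_lit 2453399653) (nat_lit 1900) (nat_lit 9770928351) (nat_lit 453) (nat_lit 5) (nat_lit 452) (nat_lit 5) (nat_lit 477) (nat_lit 5) (nat_lit 629) (nat_lit 607) (nat_lit 324)) (XT.nd (nat_lit 78) (nat_lit 0) (nat_lit 0) (XT.lf (nat_lit 76) (nat_lit 2779833932) (nat_lit 0) (nat_lit 18363929720)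 (nat_lit 1900) (nat_lit 7766514571) (nat_lit 454) (nat_lit 5) (nat_lit 453) (nat_lit 5) (nat_lit 478) (nat_lit 5) (nat_lit 630) (nat_lit 607) (nat_lit 323)) (XT.lf (nat_lit 76) (nat_lit 18231460128) (nat_lit 0) (nat_lit 5364629670) (nat_lit 1900) (nat_lit 5624129418) (nat_lit 454) (nat_lit 5) (nat_lit 453) (nat_lit 5) (nat_lit 478) (nat_lit 5) (nat_lit 631) (nat_lit 607) (nat_lit 322))))))))
noncomputable def xc246 : XT := (XT.nd (nat_lit 80106) (nat_lit 0) (nat_lit 2660) (XT.nd (nat_lit 79326) (nat_lit 0) (nat_lit 6384) (XT.nd (nat_lit 312) (nat_lit 2660) (nat_lit 0) (XT.nd (nat_lit 156) (nat_lit 1064) (nat_lit 0) (XT.nd (nat_lit 78) (nat_lit 0) (nat_lit 0) (XT.lf (nat_lit 0) (nat_lit 4461142412) (nat_lit 1672) (nat_lit 21714379299) (nat_lit 1748) (nat_lit 3359276455) (nat_lit 432) (nat_lit 5) (nat_lit 454) (nat_lit 5) (nat_lit 455) (nat_lit 5) (nat_lit 632) (nat_lit 607) (nat_lit 321)) (XT.lf (nat_lit 0) (nat_lit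 20331141528) (nat_lit 1672) (nat_lit 8582302264) (nat_lit 1748) (nat_lit 940087187) (nat_lit 432) (nat_lit 5) (nat_lit 454) (nat_lit 5) (nat_lit 455) (nat_lit 5) (nat_lit 633) (nat_lit 607) (nat_lit 320))) (XT.nd (nat_lit 78) (nat_lit 0) (nat_lit 0) (XT.lf (nat_lit 0) (nat_lit 1578568764) (nat_lit 1064) (nat_lit 23797004296) (nat_lit 76) (nat_lit 4801445017) (nat_lit 418) (nat_lit 5) (nat_lit 432) (nat_lit 5) (nat_lit 419) (nat_lit 5) (nat_lit 634) (nat_lit 607) (nat_lit 319)) (XT.lf (nat_lit 0) (nat_lit 4254107819) (nat_lit 1064) (nat_lit 7841518221) (nat_lit 76) (nat_lit 18408842940) (nat_lit 418) (nat_lit 5) (nat_lit 432) (nat_lit 5) (nat_lit 419) (nat_lit 5) (nat_lit 635) (nat_lit 607) (nat_lit 318)))) (XT.nd (nat_lit 156) (nat_lit 1748) (nat_lit 0) (XT.nd (nat_lit 78) (nat_lit 0) (nat_lit 0) (XT.lf (nat_lit 0) (nat_lit 7046375513) (nat_lit 988) (nat_lit 22303901323) (nat_lit 76) (nat_lit 1486927998) (nat_lit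 406) (nat_lit 5) (nat_lit 419) (nat_lit 5) (nat_lit 407) (nat_lit 5) (nat_lit 636) (nat_lit 607) (nat_lit 317)) (XT.lf (nat_lit 0) (nat_lit 10025557143) (nat_lit 988) (nat_lit 5915951502) (nat_lit 76) (nat_lit 15232465674) (nat_lit 406) (nat_lit 5) (nat_lit 419) (nat_lit 5) (nat_lit 407) (nat_lit 5) (nat_lit 637) (nat_lit 607) (nat_lit 316))) (XT.nd (nat_lit 78) (nat_lit 836) (nat_lit 0) (XT.lf (nat_lit 0) (nat_lit 10941420653) (nat_lit 912) (nat_lit 2191975909) (nat_lit 988) (nat_lit 18382701427) (nat_lit 394) (nat_lit 5) (nat_lit 406) (nat_lit 5) (nat_lit 407) (nat_lit 5) (nat_lit 638) (nat_lit 607) (nat_lit 315)) (XT.nd (nat_lit 78) (nat_lit 836) (nat_lit 0) (XT.lf (nat_lit 0) (nat_lit 16418242205) (nat_lit 988) (nat_lit 3727088341) (nat_lit 76) (nat_lit 11717436872) (nat_lit 394) (nat_lit 5) (nat_lit 407) (nat_lit 5) (nat_lit 395) (nat_lit 5) (nat_lit 639) (nat_lit 607) (nat_lit 314)) (XT.lf (nat_lit 0) (nat_lit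 13619734771) (nat_lit 836) (nat_lit 6250095357) (nat_lit 912) (nat_lit 12344519468) (nat_lit 383) (nat_lit 5) (nat_lit 394) (nat_lit 5) (nat_lit 395) (nat_lit 5) (nat_lit 640) (nat_lit 607) (nat_lit 313)))))) (XT.nd (nat_lit 390) (nat_lit 0) (nat_lit 76) (XT.nd (nat_lit 156) (nat_lit 0) (nat_lit 0) (XT.nd (nat_lit 78) (nat_lit 0) (nat_lit 0) (XT.lf (nat_lit 0) (nat_lit 4787290737) (nat_lit 0) (nat_lit 4787290737) (nat_lit 1748) (nat_lit 2077077431) (nat_lit 467) (nat_lit 5) (nat_lit 467) (nat_lit 3) (nat_lit 490) (nat_lit 3) (nat_lit 608) (nat_lit 608) (nat_lit 344)) (XT.lf (nat_lit 0) (nat_lit 19472789054) (nat_lit 1748) (nat_lit 2321395404) (nat_lit 1824) (nat_lit 1739504939) (nat_lit 467) (nat_lit 5) (nat_lit 490) (nat_lit 3) (nat_lit 491) (nat_lit 5) (nat_lit 609) (nat_lit 608) (nat_lit 343))) (XT.nd (nat_lit 78) (nat_lit 0) (nat_lit 76) (XT.lf (nat_lit 76) (nat_lit 9371942269) (nat_lit 0) (nat_lit 10552046625)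 (nat_lit 1824) (nat_lit 3842257989) (nat_lit 468) (nat_lit 5) (nat_lit 467) (nat_lit 5) (nat_lit 491) (nat_lit 5) (nat_lit 610) (nat_lit 608) (nat_lit 342)) (XT.nd (nat_lit 78) (nat_lit 0) (nat_lit 0) (XT.lf (nat_lit 0) (nat_lit 20402739217) (nat_lit 1748) (nat_lit 2680291766) (nat_lit 1824) (nat_lit 920054493) (nat_lit 468) (nat_lit 5) (nat_lit 491) (nat_lit 5) (nat_lit 492) (nat_lit 5) (nat_lit 611) (nat_lit 608) (nat_lit 341)) (XT.lf (nat_lit 76) (nat_lit 9318651612) (nat_lit 0) (nat_lit 11699762764) (nat_lit 1824) (nat_lit 3223699944) (nat_lit 469) (nat_lit 5) (nat_lit 468) (nat_lit 5) (nat_lit 492) (nat_lit 5) (nat_lit 612) (nat_lit 608) (nat_lit 340))))) (XT.nd (nat_lit 156) (nat_lit 0) (nat_lit 76) (XT.nd (nat_lit 78) (nat_lit 0) (nat_lit 76) (XT.lf (nat_lit 76) (nat_lit 21592232587) (nat_lit 0) (nat_lit 69171111) (nat_lit 1824) (nat_lit 2824220498) (nat_lit 469) (nat_lit 5) (nat_lit 468) (nat_lit 5) (nat_lit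 492) (nat_lit 5) (nat_lit 613) (nat_lit 608) (nat_lit 339)) (XT.lf (nat_lit 76) (nat_lit 9422577152) (nat_lit 0) (nat_lit 13029509336) (nat_lit 1824) (nat_lit 2279221565) (nat_lit 470) (nat_lit 5) (nat_lit 469) (nat_lit 5) (nat_lit 493) (nat_lit 5) (nat_lit 614) (nat_lit 608) (nat_lit 338))) (XT.nd (nat_lit 78) (nat_lit 0) (nat_lit 76) (XT.lf (nat_lit 76) (nat_lit 22021925163) (nat_lit 0) (nat_lit 1253656618) (nat_lit 1824) (nat_lit 1705984278) (nat_lit 470) (nat_lit 5) (nat_lit 469) (nat_lit 5) (nat_lit 493) (nat_lit 5) (nat_lit 615) (nat_lit 608) (nat_lit 337)) (XT.nd (nat_lit 78) (nat_lit 0) (nat_lit 0) (XT.lf (nat_lit 76) (nat_lit 9691969000) (nat_lit 0) (nat_lit 14553542280) (nat_lit 1824) (nat_lit 988719100) (nat_lit 471) (nat_lit 5) (nat_lit 470) (nat_lit 5) (nat_lit 494) (nat_lit 5) (nat_lit 616) (nat_lit 608) (nat_lit 336)) (XT.lf (nat_lit 76) (nat_lit 22626600861) (nat_lit 0) (nat_lit 2633582324) (nat_lit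 1824) (nat_lit 231258358) (nat_lit 471) (nat_lit 5) (nat_lit 470) (nat_lit 5) (nat_lit 494) (nat_lit 5) (nat_lit 617) (nat_lit 608) (nat_lit 335))))))) (XT.nd (nat_lit 702) (nat_lit 2204) (nat_lit 0) (XT.nd (nat_lit 312) (nat_lit 0) (nat_lit 152) (XT.nd (nat_lit 156) (nat_lit 0) (nat_lit 76) (XT.nd (nat_lit 78) (nat_lit 0) (nat_lit 0) (XT.lf (nat_lit 0) (nat_lit 660022282) (nat_lit 1824) (nat_lit 15620168840) (nat_lit 1900) (nat_lit 9471020514) (nat_lit 447) (nat_lit 5) (nat_lit 471) (nat_lit 5) (nat_lit 472) (nat_lit 5) (nat_lit 618) (nat_lit 608) (nat_lit 334)) (XT.lf (nat_lit 0) (nat_lit 1600147666) (nat_lit 1824) (nat_lit 2610983248) (nat_lit 1900) (nat_lit 21804333737) (nat_lit 447) (nat_lit 5) (nat_lit 471) (nat_lit 5) (nat_lit 472) (nat_lit 5) (nat_lit 619) (nat_lit 608) (nat_lit 333))) (XT.nd (nat_lit 78) (nat_lit 0) (nat_lit 0) (XT.lf (nat_lit 0) (nat_lit 2679613801) (nat_lit 1824) (nat_lit 15538436108)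 (nat_lit 1900) (nat_lit 8064542451) (nat_lit 448) (nat_lit 5) (nat_lit 472) (nat_lit 5) (nat_lit 473) (nat_lit 5) (nat_lit 620) (nat_lit 608) (nat_lit 332)) (XT.lf (nat_lit 0) (nat_lit 3823613089) (nat_lit 1824) (nat_lit 2182705533) (nat_lit 1900) (nat_lit 20547885517) (nat_lit 448) (nat_lit 5) (nat_lit 472) (nat_lit 5) (nat_lit 473) (nat_lit 5) (nat_lit 621) (nat_lit 608) (nat_lit 331)))) (XT.nd (nat_lit 156) (nat_lit 0) (nat_lit 76) (XT.nd (nat_lit 78) (nat_lit 0) (nat_lit 0) (XT.lf (nat_lit 0) (nat_lit 5105592868) (nat_lit 1824) (nat_lit 15281768277) (nat_lit 1900) (nat_lit 6441585382) (nat_lit 449) (nat_lit 5) (nat_lit 473) (nat_lit 5) (nat_lit 474) (nat_lit 5) (nat_lit 622) (nat_lit 608) (nat_lit 330)) (XT.lf (nat_lit 0) (nat_lit 6465245647) (nat_lit 1824) (nat_lit 1569306797) (nat_lit 1900) (nat_lit 19073591026) (nat_lit 449) (nat_lit 5) (nat_lit 473) (nat_lit 5) (nat_lit 474) (nat_lit 5) (nat_lit 623) (nat_lit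 608) (nat_lit 329))) (XT.nd (nat_lit 78) (nat_lit 0) (nat_lit 0) (XT.lf (nat_lit 0) (nat_lit 7961520947) (nat_lit 1824) (nat_lit 14840878728) (nat_lit 1900) (nat_lit 4588336455) (nat_lit 450) (nat_lit 5) (nat_lit 474) (nat_lit 5) (nat_lit 475) (nat_lit 5) (nat_lit 624) (nat_lit 608) (nat_lit 328)) (XT.nd (nat_lit 78) (nat_lit 0) (nat_lit 76) (XT.lf (nat_lit 0) (nat_lit 9549133252) (nat_lit 1824) (nat_lit 761166440) (nat_lit 1900) (nat_lit 17367453082) (nat_lit 450) (nat_lit 5) (nat_lit 474) (nat_lit 5) (nat_lit 475) (nat_lit 5) (nat_lit 625) (nat_lit 608) (nat_lit 327)) (XT.lf (nat_lit 0) (nat_lit 11271993925) (nat_lit 1824) (nat_lit 14206056376) (nat_lit 1900) (nat_lit 2490389883) (nat_lit 451) (nat_lit 5) (nat_lit 475) (nat_lit 5) (nat_lit 476) (nat_lit 5) (nat_lit 626) (nat_lit 608) (nat_lit 326)))))) (XT.nd (nat_lit 390) (nat_lit 2508) (nat_lit 0) (XT.nd (nat_lit 156) (nat_lit 0) (nat_lit 76) (XT.nd (nat_lit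 78) (nat_lit 0) (nat_lit 76) (XT.lf (nat_lit 76) (nat_lit 255117081) (nat_lit 0) (nat_lit 12846960291) (nat_lit 1900) (nat_lit 15161409007) (nat_lit 452) (nat_lit 5) (nat_lit 451) (nat_lit 5) (nat_lit 476) (nat_lit 5) (nat_lit 627) (nat_lit 608) (nat_lit 325)) (XT.lf (nat_lit 0) (nat_lit 15062686869) (nat_lit 1824) (nat_lit 13367151833) (nat_lit 1900) (nat_lit 132716647) (nat_lit 452) (nat_lit 5) (nat_lit 476) (nat_lit 5) (nat_lit 477) (nat_lit 5) (nat_lit 628) (nat_lit 608) (nat_lit 324))) (XT.nd (nat_lit 78) (nat_lit 0) (nat_lit 0) (XT.lf (nat_lit 76) (nat_lit 1499679498) (nat_lit 0) (nat_lit 15655414126) (nat_lit 1900) (nat_lit 11710660708) (nat_lit 453) (nat_lit 5) (nat_lit 452) (nat_lit 5) (nat_lit 477) (nat_lit 5) (nat_lit 629) (nat_lit 608) (nat_lit 323)) (XT.nd (nat_lit 78) (nat_lit 0) (nat_lit 76) (XT.lf (nat_lit 76) (nat_lit 16843254717) (nat_lit 0) (nat_lit 2533595505) (nat_lit 1900) (nat_lit 9796417364)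 (nat_lit 453) (nat_lit 5) (nat_lit 452) (nat_lit 5) (nat_lit 477) (nat_lit 5) (nat_lit 630) (nat_lit 608) (nat_lit 322)) (XT.lf (nat_lit 76) (nat_lit 2973519909) (nat_lit 0) (nat_lit 18757124603) (nat_lit 1900) (nat_lit 7754534865) (nat_lit 454) (nat_lit 5) (nat_lit 453) (nat_lit 5) (nat_lit 478) (nat_lit 5) (nat_lit 631) (nat_lit 608) (nat_lit 321))))) (XT.nd (nat_lit 156) (nat_lit 1064) (nat_lit 0) (XT.nd (nat_lit 78) (nat_lit 1596) (nat_lit 0) (XT.lf (nat_lit 76) (nat_lit 18731470996) (nat_lit 0) (nat_lit 5497330390) (nat_lit 1900) (nat_lit 5572582597) (nat_lit 454) (nat_lit 5) (nat_lit 453) (nat_lit 5) (nat_lit 478) (nat_lit 5) (nat_lit 632) (nat_lit 608) (nat_lit 320)) (XT.lf (nat_lit 0) (nat_lit 4688238443) (nat_lit 1672) (nat_lit 22169164185) (nat_lit 1748) (nat_lit 3264900736) (nat_lit 432) (nat_lit 5) (nat_lit 454) (nat_lit 5) (nat_lit 455) (nat_lit 5) (nat_lit 633) (nat_lit 608) (nat_lit 319))) (XT.nd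 (nat_lit 78) (nat_lit 1064) (nat_lit 0) (XT.lf (nat_lit 0) (nat_lit 20872934145) (nat_lit 1672) (nat_lit 8774043701) (nat_lit 1748) (nat_lit 800495550) (nat_lit 432) (nat_lit 5) (nat_lit 454) (nat_lit 5) (nat_lit 455) (nat_lit 5) (nat_lit 634) (nat_lit 608) (nat_lit 318)) (XT.nd (nat_lit 78) (nat_lit 0) (nat_lit 0) (XT.lf (nat_lit 0) (nat_lit 1764161149) (nat_lit 1064) (nat_lit 24133357768) (nat_lit 76) (nat_lit 4879937093) (nat_lit 418) (nat_lit 5) (nat_lit 432) (nat_lit 5) (nat_lit 419) (nat_lit 5) (nat_lit 635) (nat_lit 608) (nat_lit 317)) (XT.lf (nat_lit 0) (nat_lit 4490190966) (nat_lit 1064) (nat_lit 7861498964) (nat_lit 76) (nat_lit 18759826833) (nat_lit 418) (nat_lit 5) (nat_lit 432) (nat_lit 5) (nat_lit 419) (nat_lit 5) (nat_lit 636) (nat_lit 608) (nat_lit 316))))))))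
noncomputable def xc247 : XT := (XT.nd (nat_lit 80184) (nat_lit 0) (nat_lit 0) (XT.nd (nat_lit 79404) (nat_lit 0) (nat_lit 4028) (XT.nd (nat_lit 79014) (nat_lit 0) (nat_lit 5548) (XT.nd (nat_lit 156) (nat_lit 912) (nat_lit 0) (XT.nd (nat_lit 78) (nat_lit 0) (nat_lit 0) (XT.lf (nat_lit 0) (nat_lit 7336141650) (nat_lit 988) (nat_lit 22610946211) (nat_lit 76) (nat_lit 1503863144) (nat_lit 406) (nat_lit 5) (nat_lit 419) (nat_lit 5) (nat_lit 407) (nat_lit 5) (nat_lit 637) (nat_lit 608) (nat_lit 315)) (XT.lf (nat_lit 0) (nat_lit 10371988508) (nat_lit 988) (nat_lit 5897963533) (nat_lit 76) (nat_lit 15524562621) (nat_lit 406) (nat_lit 5) (nat_lit 419) (nat_lit 5) (nat_lit 407) (nat_lit 5) (nat_lit 638) (nat_lit 608) (nat_lit 314))) (XT.nd (nat_lit 78) (nat_lit 0) (nat_lit 0) (XT.lf (nat_lit 0) (nat_lit 11295659309) (nat_lit 912) (nat_lit 2244343399) (nat_lit 988) (nat_lit 18603518144) (nat_lit 394) (nat_lit 5) (nat_lit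 406) (nat_lit 5) (nat_lit 407) (nat_lit 5) (nat_lit 639) (nat_lit 608) (nat_lit 313)) (XT.lf (nat_lit 0) (nat_lit 16887668662) (nat_lit 988) (nat_lit 3665978432) (nat_lit 76) (nat_lit 11943534505) (nat_lit 394) (nat_lit 5) (nat_lit 407) (nat_lit 5) (nat_lit 395) (nat_lit 5) (nat_lit 640) (nat_lit 608) (nat_lit 312)))) (XT.nd (nat_lit 156) (nat_lit 0) (nat_lit 0) (XT.nd (nat_lit 78) (nat_lit 0) (nat_lit 0) (XT.lf (nat_lit 0) (nat_lit 4942989932) (nat_lit 0) (nat_lit 4942989932) (nat_lit 1748) (nat_lit 1996295302) (nat_lit 467) (nat_lit 5) (nat_lit 467) (nat_lit 3) (nat_lit 490) (nat_lit 3) (nat_lit 609) (nat_lit 609) (nat_lit 342)) (XT.lf (nat_lit 0) (nat_lit 20096592880) (nat_lit 1748) (nat_lit 2244765360) (nat_lit 1824) (nat_lit 1658281154) (nat_lit 467) (nat_lit 5) (nat_lit 490) (nat_lit 3) (nat_lit 491) (nat_lit 5) (nat_lit 610) (nat_lit 609) (nat_lit 341))) (XT.nd (nat_lit 78) (nat_lit 0) (nat_lit 76) (XT.lf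 (nat_lit 76) (nat_lit 9681629474) (nat_lit 0) (nat_lit 10871385900) (nat_lit 1824) (nat_lit 3683909405) (nat_lit 468) (nat_lit 5) (nat_lit 467) (nat_lit 5) (nat_lit 491) (nat_lit 5) (nat_lit 611) (nat_lit 609) (nat_lit 340)) (XT.nd (nat_lit 78) (nat_lit 0) (nat_lit 0) (XT.lf (nat_lit 0) (nat_lit 21036130822) (nat_lit 1748) (nat_lit 2608800988) (nat_lit 1824) (nat_lit 833673239) (nat_lit 468) (nat_lit 5) (nat_lit 491) (nat_lit 5) (nat_lit 492) (nat_lit 5) (nat_lit 612) (nat_lit 609) (nat_lit 339)) (XT.lf (nat_lit 76) (nat_lit 9629298254) (nat_lit 0) (nat_lit 12031209729) (nat_lit 1824) (nat_lit 3061979412) (nat_lit 469) (nat_lit 5) (nat_lit 468) (nat_lit 5) (nat_lit 492) (nat_lit 5) (nat_lit 613) (nat_lit 609) (nat_lit 338)))))) (XT.nd (nat_lit 390) (nat_lit 1596) (nat_lit 0) (XT.nd (nat_lit 156) (nat_lit 0) (nat_lit 76) (XT.nd (nat_lit 78) (nat_lit 0) (nat_lit 76) (XT.lf (nat_lit 76) (nat_lit 22145914110) (nat_lit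 0) (nat_lit 166095424) (nat_lit 1824) (nat_lit 2658945564) (nat_lit 469) (nat_lit 5) (nat_lit 468) (nat_lit 5) (nat_lit 492) (nat_lit 5) (nat_lit 614) (nat_lit 609) (nat_lit 337)) (XT.lf (nat_lit 76) (nat_lit 9737032996) (nat_lit 0) (nat_lit 13377420627) (nat_lit 1824) (nat_lit 2107180724) (nat_lit 470) (nat_lit 5) (nat_lit 469) (nat_lit 5) (nat_lit 493) (nat_lit 5) (nat_lit 615) (nat_lit 609) (nat_lit 336))) (XT.nd (nat_lit 78) (nat_lit 0) (nat_lit 76) (XT.lf (nat_lit 76) (nat_lit 22585897295) (nat_lit 0) (nat_lit 1364338677) (nat_lit 1824) (nat_lit 1526745854) (nat_lit 470) (nat_lit 5) (nat_lit 469) (nat_lit 5) (nat_lit 493) (nat_lit 5) (nat_lit 616) (nat_lit 609) (nat_lit 335)) (XT.nd (nat_lit 78) (nat_lit 0) (nat_lit 0) (XT.lf (nat_lit 76) (nat_lit 10013269281) (nat_lit 0) (nat_lit 14922476575) (nat_lit 1824) (nat_lit 799030583) (nat_lit 471) (nat_lit 5) (nat_lit 470) (nat_lit 5) (nat_lit 494) (nat_lit 5) (nat_lit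 617) (nat_lit 609) (nat_lit 334)) (XT.lf (nat_lit 76) (nat_lit 23204094546) (nat_lit 0) (nat_lit 2762590685) (nat_lit 1824) (nat_lit 30527742) (nat_lit 471) (nat_lit 5) (nat_lit 470) (nat_lit 5) (nat_lit 494) (nat_lit 5) (nat_lit 618) (nat_lit 609) (nat_lit 333))))) (XT.nd (nat_lit 156) (nat_lit 0) (nat_lit 76) (XT.nd (nat_lit 78) (nat_lit 0) (nat_lit 0) (XT.lf (nat_lit 0) (nat_lit 872263226) (nat_lit 1824) (nat_lit 15801234233) (nat_lit 1900) (nat_lit 9588727387) (nat_lit 447) (nat_lit 5) (nat_lit 471) (nat_lit 5) (nat_lit 472) (nat_lit 5) (nat_lit 619) (nat_lit 609) (nat_lit 332)) (XT.lf (nat_lit 0) (nat_lit 1827288363) (nat_lit 1824) (nat_lit 2534440184) (nat_lit 1900) (nat_lit 22170113023) (nat_lit 447) (nat_lit 5) (nat_lit 471) (nat_lit 5) (nat_lit 472) (nat_lit 5) (nat_lit 620) (nat_lit 609) (nat_lit 331))) (XT.nd (nat_lit 78) (nat_lit 0) (nat_lit 0) (XT.lf (nat_lit 0) (nat_lit 2924931103) (nat_lit 1824)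 (nat_lit 15717000344) (nat_lit 1900) (nat_lit 8162449221) (nat_lit 448) (nat_lit 5) (nat_lit 472) (nat_lit 5) (nat_lit 473) (nat_lit 5) (nat_lit 621) (nat_lit 609) (nat_lit 330)) (XT.nd (nat_lit 78) (nat_lit 0) (nat_lit 76) (XT.lf (nat_lit 0) (nat_lit 4088051062) (nat_lit 1824) (nat_lit 2096747402) (nat_lit 1900) (nat_lit 20896701974) (nat_lit 448) (nat_lit 5) (nat_lit 472) (nat_lit 5) (nat_lit 473) (nat_lit 5) (nat_lit 622) (nat_lit 609) (nat_lit 329)) (XT.lf (nat_lit 0) (nat_lit 5392454922) (nat_lit 1824) (nat_lit 15454547974) (nat_lit 1900) (nat_lit 6514799644) (nat_lit 449) (nat_lit 5) (nat_lit 473) (nat_lit 5) (nat_lit 474) (nat_lit 5) (nat_lit 623) (nat_lit 609) (nat_lit 328))))))) (XT.nd (nat_lit 702) (nat_lit 4180) (nat_lit 0) (XT.nd (nat_lit 312) (nat_lit 0) (nat_lit 152) (XT.nd (nat_lit 156) (nat_lit 0) (nat_lit 76) (XT.nd (nat_lit 78) (nat_lit 0) (nat_lit 76) (XT.lf (nat_lit 0) (nat_lit 6775678204) (nat_lit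 1824) (nat_lit 1470442278) (nat_lit 1900) (nat_lit 19400535940) (nat_lit 449) (nat_lit 5) (nat_lit 473) (nat_lit 5) (nat_lit 474) (nat_lit 5) (nat_lit 624) (nat_lit 609) (nat_lit 327)) (XT.lf (nat_lit 0) (nat_lit 8298849311) (nat_lit 1824) (nat_lit 15004389121) (nat_lit 1900) (nat_lit 4631723634) (nat_lit 450) (nat_lit 5) (nat_lit 474) (nat_lit 5) (nat_lit 475) (nat_lit 5) (nat_lit 625) (nat_lit 609) (nat_lit 326))) (XT.nd (nat_lit 78) (nat_lit 0) (nat_lit 76) (XT.lf (nat_lit 0) (nat_lit 9914721746) (nat_lit 1824) (nat_lit 645696454) (nat_lit 1900) (nat_lit 17667371212) (nat_lit 450) (nat_lit 5) (nat_lit 474) (nat_lit 5) (nat_lit 475) (nat_lit 5) (nat_lit 626) (nat_lit 609) (nat_lit 325)) (XT.lf (nat_lit 0) (nat_lit 11669185018) (nat_lit 1824) (nat_lit 14356603786) (nat_lit 1900) (nat_lit 2498559374) (nat_lit 451) (nat_lit 5) (nat_lit 475) (nat_lit 5) (nat_lit 476) (nat_lit 5) (nat_lit 627) (nat_lit 609) (nat_lit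 324)))) (XT.nd (nat_lit 156) (nat_lit 0) (nat_lit 76) (XT.nd (nat_lit 78) (nat_lit 0) (nat_lit 76) (XT.lf (nat_lit 76) (nat_lit 392914365) (nat_lit 0) (nat_lit 13140449640) (nat_lit 1900) (nat_lit 15291981918) (nat_lit 452) (nat_lit 5) (nat_lit 451) (nat_lit 5) (nat_lit 476) (nat_lit 5) (nat_lit 628) (nat_lit 609) (nat_lit 323)) (XT.lf (nat_lit 0) (nat_lit 15529634507) (nat_lit 1824) (nat_lit 13500825818) (nat_lit 1900) (nat_lit 100007468) (nat_lit 452) (nat_lit 5) (nat_lit 476) (nat_lit 5) (nat_lit 477) (nat_lit 5) (nat_lit 629) (nat_lit 609) (nat_lit 322))) (XT.nd (nat_lit 78) (nat_lit 0) (nat_lit 0) (XT.lf (nat_lit 76) (nat_lit 1662462738) (nat_lit 0) (nat_lit 15999039917) (nat_lit 1900) (nat_lit 11778276320) (nat_lit 453) (nat_lit 5) (nat_lit 452) (nat_lit 5) (nat_lit 477) (nat_lit 5) (nat_lit 630) (nat_lit 609) (nat_lit 321)) (XT.nd (nat_lit 78) (nat_lit 0) (nat_lit 76) (XT.lf (nat_lit 76) (nat_lit 17310305743)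 (nat_lit 0) (nat_lit 2614186542) (nat_lit 1900) (nat_lit 9829014729) (nat_lit 453) (nat_lit 5) (nat_lit 452) (nat_lit 5) (nat_lit 477) (nat_lit 5) (nat_lit 631) (nat_lit 609) (nat_lit 320)) (XT.lf (nat_lit 76) (nat_lit 3165717430) (nat_lit 0) (nat_lit 19157177022) (nat_lit 1900) (nat_lit 7748812416) (nat_lit 454) (nat_lit 5) (nat_lit 453) (nat_lit 5) (nat_lit 478) (nat_lit 5) (nat_lit 632) (nat_lit 609) (nat_lit 319)))))) (XT.nd (nat_lit 390) (nat_lit 1824) (nat_lit 0) (XT.nd (nat_lit 156) (nat_lit 1064) (nat_lit 0) (XT.nd (nat_lit 78) (nat_lit 1596) (nat_lit 0) (XT.lf (nat_lit 76) (nat_lit 19236225046) (nat_lit 0) (nat_lit 5631698495) (nat_lit 1900) (nat_lit 5526374301) (nat_lit 454) (nat_lit 5) (nat_lit 453) (nat_lit 5) (nat_lit 478) (nat_lit 5) (nat_lit 633) (nat_lit 609) (nat_lit 318)) (XT.lf (nat_lit 0) (nat_lit 4914522611) (nat_lit 1672) (nat_lit 22632248833) (nat_lit 1748) (nat_lit 3174911124) (nat_lit 432)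 (nat_lit 5) (nat_lit 454) (nat_lit 5) (nat_lit 455) (nat_lit 5) (nat_lit 634) (nat_lit 609) (nat_lit 317))) (XT.nd (nat_lit 78) (nat_lit 1064) (nat_lit 0) (XT.lf (nat_lit 0) (nat_lit 21420313807) (nat_lit 1672) (nat_lit 8968839639) (nat_lit 1748) (nat_lit 664262690) (nat_lit 432) (nat_lit 5) (nat_lit 454) (nat_lit 5) (nat_lit 455) (nat_lit 5) (nat_lit 635) (nat_lit 609) (nat_lit 316)) (XT.nd (nat_lit 78) (nat_lit 0) (nat_lit 0) (XT.lf (nat_lit 0) (nat_lit 1947484559) (nat_lit 1064) (nat_lit 24481858628) (nat_lit 76) (nat_lit 4960679986) (nat_lit 418) (nat_lit 5) (nat_lit 432) (nat_lit 5) (nat_lit 419) (nat_lit 5) (nat_lit 636) (nat_lit 609) (nat_lit 315)) (XT.lf (nat_lit 0) (nat_lit 4725132223) (nat_lit 1064) (nat_lit 7887193360) (nat_lit 76) (nat_lit 19118498028) (nat_lit 418) (nat_lit 5) (nat_lit 432) (nat_lit 5) (nat_lit 419) (nat_lit 5) (nat_lit 637) (nat_lit 609) (nat_lit 314))))) (XT.nd (nat_lit 156) (nat_lit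 912) (nat_lit 0) (XT.nd (nat_lit 78) (nat_lit 0) (nat_lit 0) (XT.lf (nat_lit 0) (nat_lit 7625923524) (nat_lit 988) (nat_lit 22929530822) (nat_lit 76) (nat_lit 1521634165) (nat_lit 406) (nat_lit 5) (nat_lit 419) (nat_lit 5) (nat_lit 407) (nat_lit 5) (nat_lit 638) (nat_lit 609) (nat_lit 313)) (XT.lf (nat_lit 0) (nat_lit 10719682240) (nat_lit 988) (nat_lit 5884908772) (nat_lit 76) (nat_lit 15822988930) (nat_lit 406) (nat_lit 5) (nat_lit 419) (nat_lit 5) (nat_lit 407) (nat_lit 5) (nat_lit 639) (nat_lit 609) (nat_lit 312))) (XT.nd (nat_lit 78858) (nat_lit 0) (nat_lit 5548) (XT.lf (nat_lit 0) (nat_lit 11651724593) (nat_lit 912) (nat_lit 2297427087) (nat_lit 988) (nat_lit 18834453068) (nat_lit 394) (nat_lit 5) (nat_lit 406) (nat_lit 5) (nat_lit 407) (nat_lit 5) (nat_lit 640) (nat_lit 609) (nat_lit 311)) (XT.nd (nat_lit 78) (nat_lit 0) (nat_lit 0) (XT.lf (nat_lit 0) (nat_lit 5099475048) (nat_lit 0) (nat_lit 5099475048)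 (nat_lit 1748) (nat_lit 1918647507) (nat_lit 467) (nat_lit 5) (nat_lit 467) (nat_lit 3) (nat_lit 490) (nat_lit 3) (nat_lit 610) (nat_lit 610) (nat_lit 340)) (XT.lf (nat_lit 0) (nat_lit 20723772762) (nat_lit 1748) (nat_lit 2171381206) (nat_lit 1824) (nat_lit 1579937854) (nat_lit 467) (nat_lit 5) (nat_lit 490) (nat_lit 3) (nat_lit 491) (nat_lit 5) (nat_lit 611) (nat_lit 610) (nat_lit 339))))))))
noncomputable def xc248 : XT := (XT.nd (nat_lit 1482) (nat_lit 3040) (nat_lit 0) (XT.nd (nat_lit 702) (nat_lit 0) (nat_lit 76) (XT.nd (nat_lit 312) (nat_lit 1596) (nat_lit 0) (XT.nd (nat_lit 156) (nat_lit 0) (nat_lit 76) (XT.nd (nat_lit 78) (nat_lit 0) (nat_lit 76) (XT.lf (nat_lit 76) (nat_lit 9992763371) (nat_lit 0) (nat_lit 11192906604) (nat_lit 1824) (nat_lit 3531526709) (nat_lit 468) (nat_lit 5) (nat_lit 467) (nat_lit 5) (nat_lit 491) (nat_lit 5) (nat_lit 612) (nat_lit 610) (nat_lit 338)) (XT.lf (nat_lit 0) (nat_lit 21673440157)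 (nat_lit 1748) (nat_lit 2540738048) (nat_lit 1824) (nat_lit 749633186) (nat_lit 468) (nat_lit 5) (nat_lit 491) (nat_lit 5) (nat_lit 492) (nat_lit 5) (nat_lit 613) (nat_lit 610) (nat_lit 337))) (XT.nd (nat_lit 78) (nat_lit 0) (nat_lit 0) (XT.lf (nat_lit 76) (nat_lit 9941332133) (nat_lit 0) (nat_lit 12365501464) (nat_lit 1824) (nat_lit 2905807879) (nat_lit 469) (nat_lit 5) (nat_lit 468) (nat_lit 5) (nat_lit 492) (nat_lit 5) (nat_lit 614) (nat_lit 610) (nat_lit 336)) (XT.lf (nat_lit 76) (nat_lit 22705938190) (nat_lit 0) (nat_lit 261248255) (nat_lit 1824) (nat_lit 2498976317) (nat_lit 469) (nat_lit 5) (nat_lit 468) (nat_lit 5) (nat_lit 492) (nat_lit 5) (nat_lit 615) (nat_lit 610) (nat_lit 335)))) (XT.nd (nat_lit 156) (nat_lit 1748) (nat_lit 0) (XT.nd (nat_lit 78) (nat_lit 0) (nat_lit 0) (XT.lf (nat_lit 76) (nat_lit 10052885057) (nat_lit 0) (nat_lit 13728899360) (nat_lit 1824) (nat_lit 1940149721) (nat_lit 470) (nat_lit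 5) (nat_lit 469) (nat_lit 5) (nat_lit 493) (nat_lit 5) (nat_lit 616) (nat_lit 610) (nat_lit 334)) (XT.lf (nat_lit 76) (nat_lit 23156351908) (nat_lit 0) (nat_lit 1473910078) (nat_lit 1824) (nat_lit 1352207617) (nat_lit 470) (nat_lit 5) (nat_lit 469) (nat_lit 5) (nat_lit 493) (nat_lit 5) (nat_lit 617) (nat_lit 610) (nat_lit 333))) (XT.nd (nat_lit 78) (nat_lit 1824) (nat_lit 0) (XT.lf (nat_lit 76) (nat_lit 10336046106) (nat_lit 0) (nat_lit 15295766023) (nat_lit 1824) (nat_lit 613681995) (nat_lit 471) (nat_lit 5) (nat_lit 470) (nat_lit 5) (nat_lit 494) (nat_lit 5) (nat_lit 618) (nat_lit 610) (nat_lit 332)) (XT.nd (nat_lit 78) (nat_lit 0) (nat_lit 76) (XT.lf (nat_lit 0) (nat_lit 164062961) (nat_lit 1824) (nat_lit 2726051056) (nat_lit 1900) (nat_lit 23623121781) (nat_lit 446) (nat_lit 5) (nat_lit 470) (nat_lit 5) (nat_lit 471) (nat_lit 5) (nat_lit 619) (nat_lit 610) (nat_lit 331)) (XT.lf (nat_lit 0) (nat_lit 1081020003)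 (nat_lit 1824) (nat_lit 15991020948) (nat_lit 1900) (nat_lit 9711573121) (nat_lit 447) (nat_lit 5) (nat_lit 471) (nat_lit 5) (nat_lit 472) (nat_lit 5) (nat_lit 620) (nat_lit 610) (nat_lit 330)))))) (XT.nd (nat_lit 390) (nat_lit 0) (nat_lit 228) (XT.nd (nat_lit 156) (nat_lit 0) (nat_lit 76) (XT.nd (nat_lit 78) (nat_lit 0) (nat_lit 76) (XT.lf (nat_lit 0) (nat_lit 2051394437) (nat_lit 1824) (nat_lit 2461366272) (nat_lit 1900) (nat_lit 22545938015) (nat_lit 447) (nat_lit 5) (nat_lit 471) (nat_lit 5) (nat_lit 472) (nat_lit 5) (nat_lit 621) (nat_lit 610) (nat_lit 329)) (XT.lf (nat_lit 0) (nat_lit 3167709834) (nat_lit 1824) (nat_lit 15904269526) (nat_lit 1900) (nat_lit 8264775408) (nat_lit 448) (nat_lit 5) (nat_lit 472) (nat_lit 5) (nat_lit 473) (nat_lit 5) (nat_lit 622) (nat_lit 610) (nat_lit 328))) (XT.nd (nat_lit 78) (nat_lit 0) (nat_lit 76) (XT.lf (nat_lit 0) (nat_lit 4350478857) (nat_lit 1824) (nat_lit 2014103109)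 (nat_lit 1900) (nat_lit 21254907780) (nat_lit 448) (nat_lit 5) (nat_lit 472) (nat_lit 5) (nat_lit 473) (nat_lit 5) (nat_lit 623) (nat_lit 610) (nat_lit 327)) (XT.nd (nat_lit 78) (nat_lit 0) (nat_lit 0) (XT.lf (nat_lit 0) (nat_lit 5677880143) (nat_lit 1824) (nat_lit 15635942213) (nat_lit 1900) (nat_lit 6591637885) (nat_lit 449) (nat_lit 5) (nat_lit 473) (nat_lit 5) (nat_lit 474) (nat_lit 5) (nat_lit 624) (nat_lit 610) (nat_lit 326)) (XT.lf (nat_lit 0) (nat_lit 7085286005) (nat_lit 1824) (nat_lit 1374658260) (nat_lit 1900) (nat_lit 19736137098) (nat_lit 449) (nat_lit 5) (nat_lit 473) (nat_lit 5) (nat_lit 474) (nat_lit 5) (nat_lit 625) (nat_lit 610) (nat_lit 325))))) (XT.nd (nat_lit 156) (nat_lit 0) (nat_lit 76) (XT.nd (nat_lit 78) (nat_lit 0) (nat_lit 0) (XT.lf (nat_lit 0) (nat_lit 8636008482) (nat_lit 1824) (nat_lit 15176346201) (nat_lit 1900) (nat_lit 4677857193) (nat_lit 450) (nat_lit 5) (nat_lit 474) (nat_lit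 5) (nat_lit 475) (nat_lit 5) (nat_lit 626) (nat_lit 610) (nat_lit 324)) (XT.lf (nat_lit 0) (nat_lit 10280841852) (nat_lit 1824) (nat_lit 532992048) (nat_lit 1900) (nat_lit 17975129506) (nat_lit 450) (nat_lit 5) (nat_lit 474) (nat_lit 5) (nat_lit 475) (nat_lit 5) (nat_lit 627) (nat_lit 610) (nat_lit 323))) (XT.nd (nat_lit 78) (nat_lit 0) (nat_lit 0) (XT.lf (nat_lit 0) (nat_lit 12067650623) (nat_lit 1824) (nat_lit 14515348975) (nat_lit 1900) (nat_lit 2508509120) (nat_lit 451) (nat_lit 5) (nat_lit 475) (nat_lit 5) (nat_lit 476) (nat_lit 5) (nat_lit 628) (nat_lit 610) (nat_lit 322)) (XT.nd (nat_lit 78) (nat_lit 0) (nat_lit 76) (XT.lf (nat_lit 76) (nat_lit 528314888) (nat_lit 0) (nat_lit 13438389491) (nat_lit 1900) (nat_lit 15431870702) (nat_lit 452) (nat_lit 5) (nat_lit 451) (nat_lit 5) (nat_lit 476) (nat_lit 5) (nat_lit 629) (nat_lit 610) (nat_lit 321)) (XT.lf (nat_lit 0) (nat_lit 15999487002) (nat_lit 1824) (nat_lit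 13642363815) (nat_lit 1900) (nat_lit 68017314) (nat_lit 452) (nat_lit 5) (nat_lit 476) (nat_lit 5) (nat_lit 477) (nat_lit 5) (nat_lit 630) (nat_lit 610) (nat_lit 320))))))) (XT.nd (nat_lit 79638) (nat_lit 0) (nat_lit 3040) (XT.nd (nat_lit 312) (nat_lit 3496) (nat_lit 0) (XT.nd (nat_lit 156) (nat_lit 0) (nat_lit 76) (XT.nd (nat_lit 78) (nat_lit 0) (nat_lit 0) (XT.lf (nat_lit 76) (nat_lit 1823345259) (nat_lit 0) (nat_lit 16348353192) (nat_lit 1900) (nat_lit 11853713433) (nat_lit 453) (nat_lit 5) (nat_lit 452) (nat_lit 5) (nat_lit 477) (nat_lit 5) (nat_lit 631) (nat_lit 610) (nat_lit 319)) (XT.lf (nat_lit 76) (nat_lit 17781642511) (nat_lit 0) (nat_lit 2695227603) (nat_lit 1900) (nat_lit 9868606383) (nat_lit 453) (nat_lit 5) (nat_lit 452) (nat_lit 5) (nat_lit 477) (nat_lit 5) (nat_lit 632) (nat_lit 610) (nat_lit 318))) (XT.nd (nat_lit 78) (nat_lit 0) (nat_lit 0) (XT.lf (nat_lit 76) (nat_lit 3356604945) (nat_lit 0)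 (nat_lit 19564263206) (nat_lit 1900) (nat_lit 7749220088) (nat_lit 454) (nat_lit 5) (nat_lit 453) (nat_lit 5) (nat_lit 478) (nat_lit 5) (nat_lit 633) (nat_lit 610) (nat_lit 317)) (XT.lf (nat_lit 76) (nat_lit 19746021279) (nat_lit 0) (nat_lit 5767805645) (nat_lit 1900) (nat_lit 5485363968) (nat_lit 454) (nat_lit 5) (nat_lit 453) (nat_lit 5) (nat_lit 478) (nat_lit 5) (nat_lit 634) (nat_lit 610) (nat_lit 316)))) (XT.nd (nat_lit 156) (nat_lit 1976) (nat_lit 0) (XT.nd (nat_lit 78) (nat_lit 0) (nat_lit 0) (XT.lf (nat_lit 0) (nat_lit 5140186572) (nat_lit 1672) (nat_lit 23103830146) (nat_lit 1748) (nat_lit 3089151727) (nat_lit 432) (nat_lit 5) (nat_lit 454) (nat_lit 5) (nat_lit 455) (nat_lit 5) (nat_lit 635) (nat_lit 610) (nat_lit 315)) (XT.lf (nat_lit 0) (nat_lit 21973596073) (nat_lit 1672) (nat_lit 9166781467) (nat_lit 1748) (nat_lit 531216944) (nat_lit 432) (nat_lit 5) (nat_lit 454) (nat_lit 5) (nat_lit 455) (nat_lit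 5) (nat_lit 636) (nat_lit 610) (nat_lit 314))) (XT.nd (nat_lit 78) (nat_lit 912) (nat_lit 0) (XT.lf (nat_lit 0) (nat_lit 2128725856) (nat_lit 1064) (nat_lit 24842539346) (nat_lit 76) (nat_lit 5043692270) (nat_lit 418) (nat_lit 5) (nat_lit 432) (nat_lit 5) (nat_lit 419) (nat_lit 5) (nat_lit 637) (nat_lit 610) (nat_lit 313)) (XT.nd (nat_lit 78) (nat_lit 912) (nat_lit 0) (XT.lf (nat_lit 0) (nat_lit 4959136442) (nat_lit 1064) (nat_lit 7918509330) (nat_lit 76) (nat_lit 19484984345) (nat_lit 418) (nat_lit 5) (nat_lit 432) (nat_lit 5) (nat_lit 419) (nat_lit 5) (nat_lit 638) (nat_lit 610) (nat_lit 312)) (XT.lf (nat_lit 0) (nat_lit 7915945879) (nat_lit 988) (nat_lit 23259676309) (nat_lit 76) (nat_lit 1540238473) (nat_lit 406) (nat_lit 5) (nat_lit 419) (nat_lit 5) (nat_lit 407) (nat_lit 5) (nat_lit 639) (nat_lit 610) (nat_lit 311)))))) (XT.nd (nat_lit 390) (nat_lit 1596) (nat_lit 0) (XT.nd (nat_lit 156) (nat_lit 0) (nat_lit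 0) (XT.nd (nat_lit 78) (nat_lit 0) (nat_lit 0) (XT.lf (nat_lit 0) (nat_lit 5256852205) (nat_lit 0) (nat_lit 5256852205) (nat_lit 1748) (nat_lit 1844012287) (nat_lit 467) (nat_lit 5) (nat_lit 467) (nat_lit 3) (nat_lit 490) (nat_lit 3) (nat_lit 611) (nat_lit 611) (nat_lit 338)) (XT.lf (nat_lit 0) (nat_lit 21354749587) (nat_lit 1748) (nat_lit 2101122305) (nat_lit 1824) (nat_lit 1504357716) (nat_lit 467) (nat_lit 5) (nat_lit 490) (nat_lit 3) (nat_lit 491) (nat_lit 5) (nat_lit 612) (nat_lit 611) (nat_lit 337))) (XT.nd (nat_lit 78) (nat_lit 0) (nat_lit 76) (XT.lf (nat_lit 76) (nat_lit 10305557226) (nat_lit 0) (nat_lit 11516815665) (nat_lit 1824) (nat_lit 3384874579) (nat_lit 468) (nat_lit 5) (nat_lit 467) (nat_lit 5) (nat_lit 491) (nat_lit 5) (nat_lit 613) (nat_lit 611) (nat_lit 336)) (XT.nd (nat_lit 78) (nat_lit 0) (nat_lit 0) (XT.lf (nat_lit 0) (nat_lit 22315085351) (nat_lit 1748) (nat_lit 2475982875) (nat_lit 1824)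 (nat_lit 667823161) (nat_lit 468) (nat_lit 5) (nat_lit 491) (nat_lit 5) (nat_lit 492) (nat_lit 5) (nat_lit 614) (nat_lit 611) (nat_lit 335)) (XT.lf (nat_lit 76) (nat_lit 10254968381) (nat_lit 0) (nat_lit 12702841810) (nat_lit 1824) (nat_lit 2754955254) (nat_lit 469) (nat_lit 5) (nat_lit 468) (nat_lit 5) (nat_lit 492) (nat_lit 5) (nat_lit 615) (nat_lit 611) (nat_lit 334))))) (XT.nd (nat_lit 156) (nat_lit 1672) (nat_lit 0) (XT.nd (nat_lit 78) (nat_lit 0) (nat_lit 76) (XT.lf (nat_lit 76) (nat_lit 23272615391) (nat_lit 0) (nat_lit 354738236) (nat_lit 1824) (nat_lit 2344084488) (nat_lit 469) (nat_lit 5) (nat_lit 468) (nat_lit 5) (nat_lit 492) (nat_lit 5) (nat_lit 616) (nat_lit 611) (nat_lit 333)) (XT.lf (nat_lit 76) (nat_lit 10370351255) (nat_lit 0) (nat_lit 14084148551) (nat_lit 1824) (nat_lit 1777900603) (nat_lit 470) (nat_lit 5) (nat_lit 469) (nat_lit 5) (nat_lit 493) (nat_lit 5) (nat_lit 617) (nat_lit 611) (nat_lit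 332))) (XT.nd (nat_lit 78) (nat_lit 1748) (nat_lit 0) (XT.lf (nat_lit 76) (nat_lit 23733604924) (nat_lit 0) (nat_lit 1582477695) (nat_lit 1824) (nat_lit 1182141855) (nat_lit 470) (nat_lit 5) (nat_lit 469) (nat_lit 5) (nat_lit 493) (nat_lit 5) (nat_lit 618) (nat_lit 611) (nat_lit 331)) (XT.nd (nat_lit 78) (nat_lit 1824) (nat_lit 0) (XT.lf (nat_lit 76) (nat_lit 10660521198) (nat_lit 0) (nat_lit 15673615134) (nat_lit 1824) (nat_lit 432444293) (nat_lit 471) (nat_lit 5) (nat_lit 470) (nat_lit 5) (nat_lit 494) (nat_lit 5) (nat_lit 619) (nat_lit 611) (nat_lit 330)) (XT.lf (nat_lit 0) (nat_lit 354573049) (nat_lit 1824) (nat_lit 2662610169) (nat_lit 1900) (nat_lit 24022544249) (nat_lit 446) (nat_lit 5) (nat_lit 470) (nat_lit 5) (nat_lit 471) (nat_lit 5) (nat_lit 620) (nat_lit 611) (nat_lit 329))))))))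
noncomputable def xc249 : XT := (XT.nd (nat_lit 80496) (nat_lit 0) (nat_lit 2128) (XT.nd (nat_lit 702) (nat_lit 2204) (nat_lit 0) (XT.nd (nat_lit 312) (nat_lit 0) (nat_lit 152) (XT.nd (nat_lit 156) (nat_lit 0) (nat_lit 76) (XT.nd (nat_lit 78) (nat_lit 0) (nat_lit 0) (XT.lf (nat_lit 0) (nat_lit 1286523057) (nat_lit 1824) (nat_lit 16189505372) (nat_lit 1900) (nat_lit 9839552360) (nat_lit 447) (nat_lit 5) (nat_lit 471) (nat_lit 5) (nat_lit 472) (nat_lit 5) (nat_lit 621) (nat_lit 611) (nat_lit 328)) (XT.lf (nat_lit 0) (nat_lit 2272699437) (nat_lit 1824) (nat_lit 2391636739) (nat_lit 1900) (nat_lit 22931903615) (nat_lit 447) (nat_lit 5) (nat_lit 471) (nat_lit 5) (nat_lit 472) (nat_lit 5) (nat_lit 622) (nat_lit 611) (nat_lit 327))) (XT.nd (nat_lit 78) (nat_lit 0) (nat_lit 0) (XT.lf (nat_lit 0) (nat_lit 3408188318) (nat_lit 1824) (nat_lit 16100218406) (nat_lit 1900) (nat_lit 8371513825) (nat_lit 448) (nat_lit 5) (nat_lit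 472) (nat_lit 5) (nat_lit 473) (nat_lit 5) (nat_lit 623) (nat_lit 611) (nat_lit 326)) (XT.lf (nat_lit 0) (nat_lit 4611139696) (nat_lit 1824) (nat_lit 1934643495) (nat_lit 1900) (nat_lit 21622597022) (nat_lit 448) (nat_lit 5) (nat_lit 472) (nat_lit 5) (nat_lit 473) (nat_lit 5) (nat_lit 624) (nat_lit 611) (nat_lit 325)))) (XT.nd (nat_lit 156) (nat_lit 0) (nat_lit 76) (XT.nd (nat_lit 78) (nat_lit 0) (nat_lit 0) (XT.lf (nat_lit 0) (nat_lit 5962118370) (nat_lit 1824) (nat_lit 15825922957) (nat_lit 1900) (nat_lit 6672088721) (nat_lit 449) (nat_lit 5) (nat_lit 473) (nat_lit 5) (nat_lit 474) (nat_lit 5) (nat_lit 625) (nat_lit 611) (nat_lit 324)) (XT.lf (nat_lit 0) (nat_lit 7394325670) (nat_lit 1824) (nat_lit 1281819953) (nat_lit 1900) (nat_lit 20080485406) (nat_lit 449) (nat_lit 5) (nat_lit 473) (nat_lit 5) (nat_lit 474) (nat_lit 5) (nat_lit 626) (nat_lit 611) (nat_lit 323))) (XT.nd (nat_lit 78) (nat_lit 0) (nat_lit 0)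 (XT.lf (nat_lit 0) (nat_lit 8973263624) (nat_lit 1824) (nat_lit 15356717895) (nat_lit 1900) (nat_lit 4726719111) (nat_lit 450) (nat_lit 5) (nat_lit 474) (nat_lit 5) (nat_lit 475) (nat_lit 5) (nat_lit 627) (nat_lit 611) (nat_lit 322)) (XT.nd (nat_lit 78) (nat_lit 0) (nat_lit 76) (XT.lf (nat_lit 0) (nat_lit 10647767486) (nat_lit 1824) (nat_lit 422911466) (nat_lit 1900) (nat_lit 18290813247) (nat_lit 450) (nat_lit 5) (nat_lit 474) (nat_lit 5) (nat_lit 475) (nat_lit 5) (nat_lit 628) (nat_lit 611) (nat_lit 321)) (XT.lf (nat_lit 0) (nat_lit 12467675209) (nat_lit 1824) (nat_lit 14682254487) (nat_lit 1900) (nat_lit 2520211942) (nat_lit 451) (nat_lit 5) (nat_lit 475) (nat_lit 5) (nat_lit 476) (nat_lit 5) (nat_lit 629) (nat_lit 611) (nat_lit 320)))))) (XT.nd (nat_lit 390) (nat_lit 2508) (nat_lit 0) (XT.nd (nat_lit 156) (nat_lit 0) (nat_lit 76) (XT.nd (nat_lit 78) (nat_lit 0) (nat_lit 76) (XT.lf (nat_lit 76) (nat_lit 661470802)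 (nat_lit 0) (nat_lit 13740923964) (nat_lit 1900) (nat_lit 15581001335) (nat_lit 452) (nat_lit 5) (nat_lit 451) (nat_lit 5) (nat_lit 476) (nat_lit 5) (nat_lit 630) (nat_lit 611) (nat_lit 319)) (XT.lf (nat_lit 0) (nat_lit 16472552294) (nat_lit 1824) (nat_lit 13791721549) (nat_lit 1900) (nat_lit 36707241) (nat_lit 452) (nat_lit 5) (nat_lit 476) (nat_lit 5) (nat_lit 477) (nat_lit 5) (nat_lit 631) (nat_lit 611) (nat_lit 318))) (XT.nd (nat_lit 78) (nat_lit 0) (nat_lit 0) (XT.lf (nat_lit 76) (nat_lit 1982489275) (nat_lit 0) (nat_lit 16703513717) (nat_lit 1900) (nat_lit 11936877270) (nat_lit 453) (nat_lit 5) (nat_lit 452) (nat_lit 5) (nat_lit 477) (nat_lit 5) (nat_lit 632) (nat_lit 611) (nat_lit 317)) (XT.nd (nat_lit 78) (nat_lit 0) (nat_lit 76) (XT.lf (nat_lit 76) (nat_lit 18257547039) (nat_lit 0) (nat_lit 2776772803) (nat_lit 1900) (nat_lit 9915085930) (nat_lit 453) (nat_lit 5) (nat_lit 452) (nat_lit 5) (nat_lit 477)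 (nat_lit 5) (nat_lit 633) (nat_lit 611) (nat_lit 316)) (XT.lf (nat_lit 76) (nat_lit 3546356390) (nat_lit 0) (nat_lit 19978561393) (nat_lit 1900) (nat_lit 7755638000) (nat_lit 454) (nat_lit 5) (nat_lit 453) (nat_lit 5) (nat_lit 478) (nat_lit 5) (nat_lit 634) (nat_lit 611) (nat_lit 315))))) (XT.nd (nat_lit 156) (nat_lit 1064) (nat_lit 0) (XT.nd (nat_lit 78) (nat_lit 1596) (nat_lit 0) (XT.lf (nat_lit 76) (nat_lit 20261156749) (nat_lit 0) (nat_lit 5905723446) (nat_lit 1900) (nat_lit 5449417826) (nat_lit 454) (nat_lit 5) (nat_lit 453) (nat_lit 5) (nat_lit 478) (nat_lit 5) (nat_lit 635) (nat_lit 611) (nat_lit 314)) (XT.lf (nat_lit 0) (nat_lit 5365417744) (nat_lit 1672) (nat_lit 23584107764) (nat_lit 1748) (nat_lit 3007472997) (nat_lit 432) (nat_lit 5) (nat_lit 454) (nat_lit 5) (nat_lit 455) (nat_lit 5) (nat_lit 636) (nat_lit 611) (nat_lit 313))) (XT.nd (nat_lit 78) (nat_lit 1064) (nat_lit 0) (XT.lf (nat_lit 0) (nat_lit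 22533094897) (nat_lit 1672) (nat_lit 9367961229) (nat_lit 1748) (nat_lit 401192494) (nat_lit 432) (nat_lit 5) (nat_lit 454) (nat_lit 5) (nat_lit 455) (nat_lit 5) (nat_lit 637) (nat_lit 611) (nat_lit 312)) (XT.nd (nat_lit 78) (nat_lit 0) (nat_lit 0) (XT.lf (nat_lit 0) (nat_lit 2308066622) (nat_lit 1064) (nat_lit 25215441215) (nat_lit 76) (nat_lit 5128993917) (nat_lit 418) (nat_lit 5) (nat_lit 432) (nat_lit 5) (nat_lit 419) (nat_lit 5) (nat_lit 638) (nat_lit 611) (nat_lit 311)) (XT.lf (nat_lit 0) (nat_lit 5192403729) (nat_lit 1064) (nat_lit 7955360969) (nat_lit 76) (nat_lit 19859417171) (nat_lit 418) (nat_lit 5) (nat_lit 432) (nat_lit 5) (nat_lit 419) (nat_lit 5) (nat_lit 639) (nat_lit 611) (nat_lit 310))))))) (XT.nd (nat_lit 702) (nat_lit 1596) (nat_lit 0) (XT.nd (nat_lit 312) (nat_lit 0) (nat_lit 76) (XT.nd (nat_lit 156) (nat_lit 0) (nat_lit 0) (XT.nd (nat_lit 78) (nat_lit 0) (nat_lit 0) (XT.lf (nat_lit 0) (nat_lit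 5415226135) (nat_lit 0) (nat_lit 5415226135) (nat_lit 1748) (nat_lit 1772272607) (nat_lit 467) (nat_lit 5) (nat_lit 467) (nat_lit 3) (nat_lit 490) (nat_lit 3) (nat_lit 612) (nat_lit 612) (nat_lit 336)) (XT.lf (nat_lit 0) (nat_lit 21989938935) (nat_lit 1748) (nat_lit 2033872812) (nat_lit 1824) (nat_lit 1431427862) (nat_lit 467) (nat_lit 5) (nat_lit 490) (nat_lit 3) (nat_lit 491) (nat_lit 5) (nat_lit 613) (nat_lit 612) (nat_lit 335))) (XT.nd (nat_lit 78) (nat_lit 0) (nat_lit 76) (XT.lf (nat_lit 76) (nat_lit 10620221416) (nat_lit 0) (nat_lit 11843317807) (nat_lit 1824) (nat_lit 3243726757) (nat_lit 468) (nat_lit 5) (nat_lit 467) (nat_lit 5) (nat_lit 491) (nat_lit 5) (nat_lit 614) (nat_lit 612) (nat_lit 334)) (XT.lf (nat_lit 0) (nat_lit 22961479707) (nat_lit 1748) (nat_lit 2414420320) (nat_lit 1824) (nat_lit 588135902) (nat_lit 468) (nat_lit 5) (nat_lit 491) (nat_lit 5) (nat_lit 492) (nat_lit 5) (nat_lit 615) (nat_lit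 612) (nat_lit 333)))) (XT.nd (nat_lit 156) (nat_lit 0) (nat_lit 76) (XT.nd (nat_lit 78) (nat_lit 0) (nat_lit 0) (XT.lf (nat_lit 76) (nat_lit 10570419157) (nat_lit 0) (nat_lit 13043432975) (nat_lit 1824) (nat_lit 2609200089) (nat_lit 469) (nat_lit 5) (nat_lit 468) (nat_lit 5) (nat_lit 492) (nat_lit 5) (nat_lit 616) (nat_lit 612) (nat_lit 332)) (XT.lf (nat_lit 76) (nat_lit 23846255354) (nat_lit 0) (nat_lit 446670579) (nat_lit 1824) (nat_lit 2194050227) (nat_lit 469) (nat_lit 5) (nat_lit 468) (nat_lit 5) (nat_lit 492) (nat_lit 5) (nat_lit 617) (nat_lit 612) (nat_lit 331))) (XT.nd (nat_lit 78) (nat_lit 0) (nat_lit 0) (XT.lf (nat_lit 76) (nat_lit 10689646494) (nat_lit 0) (nat_lit 14443370164) (nat_lit 1824) (nat_lit 1620213602) (nat_lit 470) (nat_lit 5) (nat_lit 469) (nat_lit 5) (nat_lit 493) (nat_lit 5) (nat_lit 618) (nat_lit 612) (nat_lit 330)) (XT.nd (nat_lit 78) (nat_lit 0) (nat_lit 76) (XT.lf (nat_lit 76) (nat_lit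 24317971350) (nat_lit 0) (nat_lit 1690145525) (nat_lit 1824) (nat_lit 1016328797) (nat_lit 470) (nat_lit 5) (nat_lit 469) (nat_lit 5) (nat_lit 493) (nat_lit 5) (nat_lit 619) (nat_lit 612) (nat_lit 329)) (XT.lf (nat_lit 76) (nat_lit 10986913255) (nat_lit 0) (nat_lit 16056227952) (nat_lit 1824) (nat_lit 255096118) (nat_lit 471) (nat_lit 5) (nat_lit 470) (nat_lit 5) (nat_lit 494) (nat_lit 5) (nat_lit 620) (nat_lit 612) (nat_lit 328)))))) (XT.nd (nat_lit 390) (nat_lit 0) (nat_lit 228) (XT.nd (nat_lit 156) (nat_lit 0) (nat_lit 76) (XT.nd (nat_lit 78) (nat_lit 0) (nat_lit 76) (XT.lf (nat_lit 0) (nat_lit 541623015) (nat_lit 1824) (nat_lit 2602481069) (nat_lit 1900) (nat_lit 24432791397) (nat_lit 446) (nat_lit 5) (nat_lit 470) (nat_lit 5) (nat_lit 471) (nat_lit 5) (nat_lit 621) (nat_lit 612) (nat_lit 327)) (XT.lf (nat_lit 0) (nat_lit 1488995785) (nat_lit 1824) (nat_lit 16396671108) (nat_lit 1900) (nat_lit 9972663838) (nat_lit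 447) (nat_lit 5) (nat_lit 471) (nat_lit 5) (nat_lit 472) (nat_lit 5) (nat_lit 622) (nat_lit 612) (nat_lit 326))) (XT.nd (nat_lit 78) (nat_lit 0) (nat_lit 76) (XT.lf (nat_lit 0) (nat_lit 2491430157) (nat_lit 1824) (nat_lit 2325131855) (nat_lit 1900) (nat_lit 23328110738) (nat_lit 447) (nat_lit 5) (nat_lit 471) (nat_lit 5) (nat_lit 472) (nat_lit 5) (nat_lit 623) (nat_lit 612) (nat_lit 325)) (XT.nd (nat_lit 78) (nat_lit 0) (nat_lit 0) (XT.lf (nat_lit 0) (nat_lit 3646598420) (nat_lit 1824) (nat_lit 16304828973) (nat_lit 1900) (nat_lit 8482660853) (nat_lit 448) (nat_lit 5) (nat_lit 472) (nat_lit 5) (nat_lit 473) (nat_lit 5) (nat_lit 624) (nat_lit 612) (nat_lit 324)) (XT.lf (nat_lit 0) (nat_lit 4870270663) (nat_lit 1824) (nat_lit 1858244403) (nat_lit 1900) (nat_lit 21999869308) (nat_lit 448) (nat_lit 5) (nat_lit 472) (nat_lit 5) (nat_lit 473) (nat_lit 5) (nat_lit 625) (nat_lit 612) (nat_lit 323))))) (XT.nd (nat_lit 156)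 (nat_lit 0) (nat_lit 76) (XT.nd (nat_lit 78) (nat_lit 0) (nat_lit 0) (XT.lf (nat_lit 0) (nat_lit 6245413625) (nat_lit 1824) (nat_lit 16024469385) (nat_lit 1900) (nat_lit 6756143796) (nat_lit 449) (nat_lit 5) (nat_lit 473) (nat_lit 5) (nat_lit 474) (nat_lit 5) (nat_lit 626) (nat_lit 612) (nat_lit 322)) (XT.lf (nat_lit 0) (nat_lit 7703048348) (nat_lit 1824) (nat_lit 1191797498) (nat_lit 1900) (nat_lit 20433676781) (nat_lit 449) (nat_lit 5) (nat_lit 473) (nat_lit 5) (nat_lit 474) (nat_lit 5) (nat_lit 627) (nat_lit 612) (nat_lit 321))) (XT.nd (nat_lit 78) (nat_lit 0) (nat_lit 0) (XT.lf (nat_lit 0) (nat_lit 9310874775) (nat_lit 1824) (nat_lit 15545479290) (nat_lit 1900) (nat_lit 4778293837) (nat_lit 450) (nat_lit 5) (nat_lit 474) (nat_lit 5) (nat_lit 475) (nat_lit 5) (nat_lit 628) (nat_lit 612) (nat_lit 320)) (XT.nd (nat_lit 78) (nat_lit 0) (nat_lit 76) (XT.lf (nat_lit 0) (nat_lit 11015767814) (nat_lit 1824) (nat_lit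 315317772) (nat_lit 1900) (nat_lit 18614512202) (nat_lit 450) (nat_lit 5) (nat_lit 474) (nat_lit 5) (nat_lit 475) (nat_lit 5) (nat_lit 629) (nat_lit 612) (nat_lit 319)) (XT.lf (nat_lit 0) (nat_lit 12869538876) (nat_lit 1824) (nat_lit 14857289939) (nat_lit 1900) (nat_lit 2533642555) (nat_lit 451) (nat_lit 5) (nat_lit 475) (nat_lit 5) (nat_lit 476) (nat_lit 5) (nat_lit 630) (nat_lit 612) (nat_lit 318))))))))
noncomputable def xc250 : XT := (XT.nd (nat_lit 80652) (nat_lit 0) (nat_lit 0) (XT.nd (nat_lit 79872) (nat_lit 0) (nat_lit 1064) (XT.nd (nat_lit 312) (nat_lit 1444) (nat_lit 0) (XT.nd (nat_lit 156) (nat_lit 0) (nat_lit 76) (XT.nd (nat_lit 78) (nat_lit 0) (nat_lit 76) (XT.lf (nat_lit 76) (nat_lit 792529530) (nat_lit 0) (nat_lit 14048197925) (nat_lit 1900) (nat_lit 15739308424) (nat_lit 452) (nat_lit 5) (nat_lit 451) (nat_lit 5) (nat_lit 476) (nat_lit 5) (nat_lit 631) (nat_lit 612) (nat_lit 317)) (XT.lf (nat_lit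 0) (nat_lit 16949134782) (nat_lit 1824) (nat_lit 13948861687) (nat_lit 1900) (nat_lit 6039599) (nat_lit 452) (nat_lit 5) (nat_lit 476) (nat_lit 5) (nat_lit 477) (nat_lit 5) (nat_lit 632) (nat_lit 612) (nat_lit 316))) (XT.nd (nat_lit 78) (nat_lit 0) (nat_lit 0) (XT.lf (nat_lit 76) (nat_lit 2140052470) (nat_lit 0) (nat_lit 17064682666) (nat_lit 1900) (nat_lit 12027680913) (nat_lit 453) (nat_lit 5) (nat_lit 452) (nat_lit 5) (nat_lit 477) (nat_lit 5) (nat_lit 633) (nat_lit 612) (nat_lit 315)) (XT.lf (nat_lit 76) (nat_lit 18738299362) (nat_lit 0) (nat_lit 2858875587) (nat_lit 1900) (nat_lit 9968354411) (nat_lit 453) (nat_lit 5) (nat_lit 452) (nat_lit 5) (nat_lit 477) (nat_lit 5) (nat_lit 634) (nat_lit 612) (nat_lit 314)))) (XT.nd (nat_lit 156) (nat_lit 1596) (nat_lit 0) (XT.nd (nat_lit 78) (nat_lit 0) (nat_lit 0) (XT.lf (nat_lit 76) (nat_lit 3735141404) (nat_lit 0) (nat_lit 20400251923) (nat_lit 1900) (nat_lit 7767953288)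 (nat_lit 454) (nat_lit 5) (nat_lit 453) (nat_lit 5) (nat_lit 478) (nat_lit 5) (nat_lit 635) (nat_lit 612) (nat_lit 313)) (XT.lf (nat_lit 76) (nat_lit 20781926832) (nat_lit 0) (nat_lit 6045523506) (nat_lit 1900) (nat_lit 5418408661) (nat_lit 454) (nat_lit 5) (nat_lit 453) (nat_lit 5) (nat_lit 478) (nat_lit 5) (nat_lit 636) (nat_lit 612) (nat_lit 312))) (XT.nd (nat_lit 78) (nat_lit 0) (nat_lit 0) (XT.lf (nat_lit 0) (nat_lit 5590399533) (nat_lit 1672) (nat_lit 24073284167) (nat_lit 1748) (nat_lit 2929731488) (nat_lit 432) (nat_lit 5) (nat_lit 454) (nat_lit 5) (nat_lit 455) (nat_lit 5) (nat_lit 637) (nat_lit 612) (nat_lit 311)) (XT.nd (nat_lit 79248) (nat_lit 0) (nat_lit 2660) (XT.lf (nat_lit 0) (nat_lit 23099122906) (nat_lit 1672) (nat_lit 9572471677) (nat_lit 1748) (nat_lit 274029120) (nat_lit 432) (nat_lit 5) (nat_lit 454) (nat_lit 5) (nat_lit 455) (nat_lit 5) (nat_lit 638) (nat_lit 612) (nat_lit 310)) (XT.lf (nat_lit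 0) (nat_lit 5574700290) (nat_lit 0) (nat_lit 5574700290) (nat_lit 1748) (nat_lit 1703315978) (nat_lit 467) (nat_lit 5) (nat_lit 467) (nat_lit 3) (nat_lit 490) (nat_lit 3) (nat_lit 613) (nat_lit 613) (nat_lit 334)))))) (XT.nd (nat_lit 390) (nat_lit 1596) (nat_lit 0) (XT.nd (nat_lit 156) (nat_lit 0) (nat_lit 76) (XT.nd (nat_lit 78) (nat_lit 0) (nat_lit 0) (XT.lf (nat_lit 0) (nat_lit 22629751514) (nat_lit 1748) (nat_lit 1969521491) (nat_lit 1824) (nat_lit 1361039686) (nat_lit 467) (nat_lit 5) (nat_lit 490) (nat_lit 3) (nat_lit 491) (nat_lit 5) (nat_lit 614) (nat_lit 613) (nat_lit 333)) (XT.lf (nat_lit 76) (nat_lit 10936963642) (nat_lit 0) (nat_lit 12172615756) (nat_lit 1824) (nat_lit 3107865697) (nat_lit 468) (nat_lit 5) (nat_lit 467) (nat_lit 5) (nat_lit 491) (nat_lit 5) (nat_lit 615) (nat_lit 613) (nat_lit 332))) (XT.nd (nat_lit 78) (nat_lit 0) (nat_lit 0) (XT.lf (nat_lit 0) (nat_lit 23613032109) (nat_lit 1748)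 (nat_lit 2355939971) (nat_lit 1824) (nat_lit 510467899) (nat_lit 468) (nat_lit 5) (nat_lit 491) (nat_lit 5) (nat_lit 492) (nat_lit 5) (nat_lit 616) (nat_lit 613) (nat_lit 331)) (XT.nd (nat_lit 78) (nat_lit 0) (nat_lit 0) (XT.lf (nat_lit 76) (nat_lit 10887893869) (nat_lit 0) (nat_lit 13387475731) (nat_lit 1824) (nat_lit 2468329237) (nat_lit 469) (nat_lit 5) (nat_lit 468) (nat_lit 5) (nat_lit 492) (nat_lit 5) (nat_lit 617) (nat_lit 613) (nat_lit 330)) (XT.lf (nat_lit 76) (nat_lit 24427167059) (nat_lit 0) (nat_lit 537147222) (nat_lit 1824) (nat_lit 2048661767) (nat_lit 469) (nat_lit 5) (nat_lit 468) (nat_lit 5) (nat_lit 492) (nat_lit 5) (nat_lit 618) (nat_lit 613) (nat_lit 329))))) (XT.nd (nat_lit 156) (nat_lit 1748) (nat_lit 0) (XT.nd (nat_lit 78) (nat_lit 0) (nat_lit 0) (XT.lf (nat_lit 76) (nat_lit 11010982882) (nat_lit 0) (nat_lit 14806765290) (nat_lit 1824) (nat_lit 1466876800) (nat_lit 470) (nat_lit 5) (nat_lit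 469) (nat_lit 5) (nat_lit 493) (nat_lit 5) (nat_lit 619) (nat_lit 613) (nat_lit 328)) (XT.lf (nat_lit 76) (nat_lit 24909765539) (nat_lit 0) (nat_lit 1797014830) (nat_lit 1824) (nat_lit 854556280) (nat_lit 470) (nat_lit 5) (nat_lit 469) (nat_lit 5) (nat_lit 493) (nat_lit 5) (nat_lit 620) (nat_lit 613) (nat_lit 327))) (XT.nd (nat_lit 78) (nat_lit 1824) (nat_lit 0) (XT.lf (nat_lit 76) (nat_lit 11315438172) (nat_lit 0) (nat_lit 16443808215) (nat_lit 1824) (nat_lit 81423473) (nat_lit 471) (nat_lit 5) (nat_lit 470) (nat_lit 5) (nat_lit 494) (nat_lit 5) (nat_lit 621) (nat_lit 613) (nat_lit 326)) (XT.nd (nat_lit 78) (nat_lit 0) (nat_lit 76) (XT.lf (nat_lit 0) (nat_lit 725425973) (nat_lit 1824) (nat_lit 2545552121) (nat_lit 1900) (nat_lit 24853969585) (nat_lit 446) (nat_lit 5) (nat_lit 470) (nat_lit 5) (nat_lit 471) (nat_lit 5) (nat_lit 622) (nat_lit 613) (nat_lit 325)) (XT.lf (nat_lit 0) (nat_lit 1688654849) (nat_lit 1824)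 (nat_lit 16612508826) (nat_lit 1900) (nat_lit 10110910302) (nat_lit 447) (nat_lit 5) (nat_lit 471) (nat_lit 5) (nat_lit 472) (nat_lit 5) (nat_lit 623) (nat_lit 613) (nat_lit 324))))))) (XT.nd (nat_lit 702) (nat_lit 1140) (nat_lit 0) (XT.nd (nat_lit 312) (nat_lit 0) (nat_lit 152) (XT.nd (nat_lit 156) (nat_lit 0) (nat_lit 76) (XT.nd (nat_lit 78) (nat_lit 0) (nat_lit 76) (XT.lf (nat_lit 0) (nat_lit 2707806945) (nat_lit 1824) (nat_lit 2261736743) (nat_lit 1900) (nat_lit 23734666272) (nat_lit 447) (nat_lit 5) (nat_lit 471) (nat_lit 5) (nat_lit 472) (nat_lit 5) (nat_lit 624) (nat_lit 613) (nat_lit 323)) (XT.lf (nat_lit 0) (nat_lit 3883165852) (nat_lit 1824) (nat_lit 16518090296) (nat_lit 1900) (nat_lit 8598216369) (nat_lit 448) (nat_lit 5) (nat_lit 472) (nat_lit 5) (nat_lit 473) (nat_lit 5) (nat_lit 625) (nat_lit 613) (nat_lit 322))) (XT.nd (nat_lit 78) (nat_lit 0) (nat_lit 76) (XT.lf (nat_lit 0) (nat_lit 5128103001)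 (nat_lit 1824) (nat_lit 1784786491) (nat_lit 1900) (nat_lit 22386829732) (nat_lit 448) (nat_lit 5) (nat_lit 472) (nat_lit 5) (nat_lit 473) (nat_lit 5) (nat_lit 626) (nat_lit 613) (nat_lit 321)) (XT.lf (nat_lit 0) (nat_lit 6528004412) (nat_lit 1824) (nat_lit 16231567739) (nat_lit 1900) (nat_lit 6843797718) (nat_lit 449) (nat_lit 5) (nat_lit 473) (nat_lit 5) (nat_lit 474) (nat_lit 5) (nat_lit 627) (nat_lit 613) (nat_lit 320)))) (XT.nd (nat_lit 156) (nat_lit 0) (nat_lit 76) (XT.nd (nat_lit 78) (nat_lit 0) (nat_lit 76) (XT.lf (nat_lit 0) (nat_lit 8011700016) (nat_lit 1824) (nat_lit 1104465769) (nat_lit 1900) (nat_lit 20795812127) (nat_lit 449) (nat_lit 5) (nat_lit 473) (nat_lit 5) (nat_lit 474) (nat_lit 5) (nat_lit 628) (nat_lit 613) (nat_lit 319)) (XT.lf (nat_lit 0) (nat_lit 9649097151) (nat_lit 1824) (nat_lit 15742612480) (nat_lit 1900) (nat_lit 4832568234) (nat_lit 450) (nat_lit 5) (nat_lit 474) (nat_lit 5) (nat_lit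 475) (nat_lit 5) (nat_lit 629) (nat_lit 613) (nat_lit 318))) (XT.nd (nat_lit 78) (nat_lit 0) (nat_lit 76) (XT.lf (nat_lit 0) (nat_lit 11385107564) (nat_lit 1824) (nat_lit 210078640) (nat_lit 1900) (nat_lit 18946320602) (nat_lit 450) (nat_lit 5) (nat_lit 474) (nat_lit 5) (nat_lit 475) (nat_lit 5) (nat_lit 630) (nat_lit 613) (nat_lit 317)) (XT.nd (nat_lit 78) (nat_lit 0) (nat_lit 0) (XT.lf (nat_lit 0) (nat_lit 13273517661) (nat_lit 1824) (nat_lit 15040431856) (nat_lit 1900) (nat_lit 2548777512) (nat_lit 451) (nat_lit 5) (nat_lit 475) (nat_lit 5) (nat_lit 476) (nat_lit 5) (nat_lit 631) (nat_lit 613) (nat_lit 316)) (XT.lf (nat_lit 76) (nat_lit 921633976) (nat_lit 0) (nat_lit 14360357079) (nat_lit 1900) (nat_lit 15906734983) (nat_lit 452) (nat_lit 5) (nat_lit 451) (nat_lit 5) (nat_lit 476) (nat_lit 5) (nat_lit 632) (nat_lit 613) (nat_lit 315)))))) (XT.nd (nat_lit 390) (nat_lit 1444) (nat_lit 0) (XT.nd (nat_lit 156)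 (nat_lit 0) (nat_lit 76) (XT.nd (nat_lit 78) (nat_lit 0) (nat_lit 76) (XT.lf (nat_lit 76) (nat_lit 17405352401) (nat_lit 0) (nat_lit 24341265) (nat_lit 1900) (nat_lit 14089570446) (nat_lit 452) (nat_lit 5) (nat_lit 451) (nat_lit 5) (nat_lit 476) (nat_lit 5) (nat_lit 633) (nat_lit 613) (nat_lit 314)) (XT.lf (nat_lit 76) (nat_lit 2296188207) (nat_lit 0) (nat_lit 17432022720) (nat_lit 1900) (nat_lit 12126045082) (nat_lit 453) (nat_lit 5) (nat_lit 452) (nat_lit 5) (nat_lit 477) (nat_lit 5) (nat_lit 634) (nat_lit 613) (nat_lit 313))) (XT.nd (nat_lit 78) (nat_lit 0) (nat_lit 76) (XT.lf (nat_lit 76) (nat_lit 19224177788) (nat_lit 0) (nat_lit 2941588785) (nat_lit 1900) (nat_lit 10028320079) (nat_lit 453) (nat_lit 5) (nat_lit 452) (nat_lit 5) (nat_lit 477) (nat_lit 5) (nat_lit 635) (nat_lit 613) (nat_lit 312)) (XT.nd (nat_lit 78) (nat_lit 0) (nat_lit 0) (XT.lf (nat_lit 76) (nat_lit 3923125553) (nat_lit 0) (nat_lit 20829517344)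 (nat_lit 1900) (nat_lit 7786059882) (nat_lit 454) (nat_lit 5) (nat_lit 453) (nat_lit 5) (nat_lit 478) (nat_lit 5) (nat_lit 636) (nat_lit 613) (nat_lit 311)) (XT.lf (nat_lit 76) (nat_lit 21308625487) (nat_lit 0) (nat_lit 6187277489) (nat_lit 1900) (nat_lit 5392215587) (nat_lit 454) (nat_lit 5) (nat_lit 453) (nat_lit 5) (nat_lit 478) (nat_lit 5) (nat_lit 637) (nat_lit 613) (nat_lit 310))))) (XT.nd (nat_lit 79404) (nat_lit 0) (nat_lit 2660) (XT.nd (nat_lit 79326) (nat_lit 0) (nat_lit 2660) (XT.lf (nat_lit 0) (nat_lit 5815311555) (nat_lit 1672) (nat_lit 24571564776) (nat_lit 1748) (nat_lit 2855789623) (nat_lit 432) (nat_lit 5) (nat_lit 454) (nat_lit 5) (nat_lit 455) (nat_lit 5) (nat_lit 638) (nat_lit 613) (nat_lit 309)) (XT.lf (nat_lit 0) (nat_lit 5735376949) (nat_lit 0) (nat_lit 5735376949) (nat_lit 1748) (nat_lit 1637034276) (nat_lit 467) (nat_lit 5) (nat_lit 467) (nat_lit 3) (nat_lit 490) (nat_lit 3) (nat_lit 614)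 (nat_lit 614) (nat_lit 332))) (XT.nd (nat_lit 78) (nat_lit 0) (nat_lit 0) (XT.lf (nat_lit 0) (nat_lit 23274593564) (nat_lit 1748) (nat_lit 1907961540) (nat_lit 1824) (nat_lit 1293088688) (nat_lit 467) (nat_lit 5) (nat_lit 490) (nat_lit 3) (nat_lit 491) (nat_lit 5) (nat_lit 615) (nat_lit 614) (nat_lit 331)) (XT.nd (nat_lit 78) (nat_lit 0) (nat_lit 76) (XT.lf (nat_lit 76) (nat_lit 11255989149) (nat_lit 0) (nat_lit 12504910432) (nat_lit 1824) (nat_lit 2977082223) (nat_lit 468) (nat_lit 5) (nat_lit 467) (nat_lit 5) (nat_lit 491) (nat_lit 5) (nat_lit 616) (nat_lit 614) (nat_lit 330)) (XT.lf (nat_lit 0) (nat_lit 24270147429) (nat_lit 1748) (nat_lit 2300435977) (nat_lit 1824) (nat_lit 434719239) (nat_lit 468) (nat_lit 5) (nat_lit 491) (nat_lit 5) (nat_lit 492) (nat_lit 5) (nat_lit 617) (nat_lit 614) (nat_lit 329))))))))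
noncomputable def xc251 : XT := (XT.nd (nat_lit 1482) (nat_lit 0) (nat_lit 0) (XT.nd (nat_lit 702) (nat_lit 0) (nat_lit 152) (XT.nd (nat_lit 312) (nat_lit 1672) (nat_lit 0) (XT.nd (nat_lit 156) (nat_lit 0) (nat_lit 76) (XT.nd (nat_lit 78) (nat_lit 0) (nat_lit 0) (XT.lf (nat_lit 76) (nat_lit 11207599391) (nat_lit 0) (nat_lit 13735169590) (nat_lit 1824) (nat_lit 2332137523) (nat_lit 469) (nat_lit 5) (nat_lit 468) (nat_lit 5) (nat_lit 492) (nat_lit 5) (nat_lit 618) (nat_lit 614) (nat_lit 328)) (XT.lf (nat_lit 76) (nat_lit 25015659071) (nat_lit 0) (nat_lit 626266974) (nat_lit 1824) (nat_lit 1907715102) (nat_lit 469) (nat_lit 5) (nat_lit 468) (nat_lit 5) (nat_lit 492) (nat_lit 5) (nat_lit 619) (nat_lit 614) (nat_lit 327))) (XT.nd (nat_lit 78) (nat_lit 0) (nat_lit 0) (XT.lf (nat_lit 76) (nat_lit 11334569954) (nat_lit 0) (nat_lit 15174534316) (nat_lit 1824) (nat_lit 1317685814) (nat_lit 470) (nat_lit 5) (nat_lit 469)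 (nat_lit 5) (nat_lit 493) (nat_lit 5) (nat_lit 620) (nat_lit 614) (nat_lit 326)) (XT.lf (nat_lit 76) (nat_lit 25509301452) (nat_lit 0) (nat_lit 1903184264) (nat_lit 1824) (nat_lit 696619443) (nat_lit 470) (nat_lit 5) (nat_lit 469) (nat_lit 5) (nat_lit 493) (nat_lit 5) (nat_lit 621) (nat_lit 614) (nat_lit 325)))) (XT.nd (nat_lit 156) (nat_lit 0) (nat_lit 76) (XT.nd (nat_lit 78) (nat_lit 0) (nat_lit 0) (XT.lf (nat_lit 0) (nat_lit 87616216) (nat_lit 1824) (nat_lit 16748355359) (nat_lit 1900) (nat_lit 11558105101) (nat_lit 446) (nat_lit 5) (nat_lit 470) (nat_lit 5) (nat_lit 471) (nat_lit 5) (nat_lit 622) (nat_lit 614) (nat_lit 324)) (XT.lf (nat_lit 0) (nat_lit 906188334) (nat_lit 1824) (nat_lit 2491716365) (nat_lit 1900) (nat_lit 25286191576) (nat_lit 446) (nat_lit 5) (nat_lit 470) (nat_lit 5) (nat_lit 471) (nat_lit 5) (nat_lit 623) (nat_lit 614) (nat_lit 323))) (XT.nd (nat_lit 78) (nat_lit 0) (nat_lit 0) (XT.lf (nat_lit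 0) (nat_lit 1885710480) (nat_lit 1824) (nat_lit 16837016111) (nat_lit 1900) (nat_lit 10254298429) (nat_lit 447) (nat_lit 5) (nat_lit 471) (nat_lit 5) (nat_lit 472) (nat_lit 5) (nat_lit 624) (nat_lit 614) (nat_lit 322)) (XT.nd (nat_lit 78) (nat_lit 0) (nat_lit 76) (XT.lf (nat_lit 0) (nat_lit 2922044000) (nat_lit 1824) (nat_lit 2201341192) (nat_lit 1900) (nat_lit 24151683050) (nat_lit 447) (nat_lit 5) (nat_lit 471) (nat_lit 5) (nat_lit 472) (nat_lit 5) (nat_lit 625) (nat_lit 614) (nat_lit 321)) (XT.lf (nat_lit 0) (nat_lit 4118110468) (nat_lit 1824) (nat_lit 16739998376) (nat_lit 1900) (nat_lit 8718183675) (nat_lit 448) (nat_lit 5) (nat_lit 472) (nat_lit 5) (nat_lit 473) (nat_lit 5) (nat_lit 626) (nat_lit 614) (nat_lit 320)))))) (XT.nd (nat_lit 390) (nat_lit 0) (nat_lit 228) (XT.nd (nat_lit 156) (nat_lit 0) (nat_lit 76) (XT.nd (nat_lit 78) (nat_lit 0) (nat_lit 76) (XT.lf (nat_lit 0) (nat_lit 5384862412) (nat_lit 1824)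 (nat_lit 1714155039) (nat_lit 1900) (nat_lit 22783588855) (nat_lit 448) (nat_lit 5) (nat_lit 472) (nat_lit 5) (nat_lit 473) (nat_lit 5) (nat_lit 627) (nat_lit 614) (nat_lit 319)) (XT.lf (nat_lit 0) (nat_lit 6810124010) (nat_lit 1824) (nat_lit 16447211172) (nat_lit 1900) (nat_lit 6935047996) (nat_lit 449) (nat_lit 5) (nat_lit 473) (nat_lit 5) (nat_lit 474) (nat_lit 5) (nat_lit 628) (nat_lit 614) (nat_lit 318))) (XT.nd (nat_lit 78) (nat_lit 0) (nat_lit 76) (XT.lf (nat_lit 0) (nat_lit 8320521771) (nat_lit 1824) (nat_lit 1019704181) (nat_lit 1900) (nat_lit 21166997314) (nat_lit 449) (nat_lit 5) (nat_lit 473) (nat_lit 5) (nat_lit 474) (nat_lit 5) (nat_lit 629) (nat_lit 614) (nat_lit 317)) (XT.nd (nat_lit 78) (nat_lit 0) (nat_lit 0) (XT.lf (nat_lit 0) (nat_lit 9988181441) (nat_lit 1824) (nat_lit 15948106409) (nat_lit 1900) (nat_lit 4889531516) (nat_lit 450) (nat_lit 5) (nat_lit 474) (nat_lit 5) (nat_lit 475) (nat_lit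 5) (nat_lit 630) (nat_lit 614) (nat_lit 316)) (XT.lf (nat_lit 0) (nat_lit 11756047310) (nat_lit 1824) (nat_lit 107066174) (nat_lit 1900) (nat_lit 19286337130) (nat_lit 450) (nat_lit 5) (nat_lit 474) (nat_lit 5) (nat_lit 475) (nat_lit 5) (nat_lit 631) (nat_lit 614) (nat_lit 315))))) (XT.nd (nat_lit 156) (nat_lit 0) (nat_lit 0) (XT.nd (nat_lit 78) (nat_lit 0) (nat_lit 0) (XT.lf (nat_lit 0) (nat_lit 13679883830) (nat_lit 1824) (nat_lit 15231663522) (nat_lit 1900) (nat_lit 2565595148) (nat_lit 451) (nat_lit 5) (nat_lit 475) (nat_lit 5) (nat_lit 476) (nat_lit 5) (nat_lit 632) (nat_lit 614) (nat_lit 314)) (XT.lf (nat_lit 76) (nat_lit 1048922726) (nat_lit 0) (nat_lit 14677548069) (nat_lit 1900) (nat_lit 16083232226) (nat_lit 452) (nat_lit 5) (nat_lit 451) (nat_lit 5) (nat_lit 476) (nat_lit 5) (nat_lit 633) (nat_lit 614) (nat_lit 313))) (XT.nd (nat_lit 78) (nat_lit 0) (nat_lit 76) (XT.lf (nat_lit 76) (nat_lit 17860181087)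 (nat_lit 0) (nat_lit 54224020) (nat_lit 1900) (nat_lit 14232501604) (nat_lit 452) (nat_lit 5) (nat_lit 451) (nat_lit 5) (nat_lit 476) (nat_lit 5) (nat_lit 634) (nat_lit 614) (nat_lit 312)) (XT.nd (nat_lit 78) (nat_lit 0) (nat_lit 0) (XT.lf (nat_lit 76) (nat_lit 2451045735) (nat_lit 0) (nat_lit 17805698161) (nat_lit 1900) (nat_lit 12231897924) (nat_lit 453) (nat_lit 5) (nat_lit 452) (nat_lit 5) (nat_lit 477) (nat_lit 5) (nat_lit 635) (nat_lit 614) (nat_lit 311)) (XT.lf (nat_lit 76) (nat_lit 19715459151) (nat_lit 0) (nat_lit 3024964666) (nat_lit 1900) (nat_lit 10094898187) (nat_lit 453) (nat_lit 5) (nat_lit 452) (nat_lit 5) (nat_lit 477) (nat_lit 5) (nat_lit 636) (nat_lit 614) (nat_lit 310))))))) (XT.nd (nat_lit 80106) (nat_lit 532) (nat_lit 0) (XT.nd (nat_lit 79716) (nat_lit 0) (nat_lit 1140) (XT.nd (nat_lit 79560) (nat_lit 0) (nat_lit 1064) (XT.nd (nat_lit 79482) (nat_lit 0) (nat_lit 1064) (XT.lf (nat_lit 76) (nat_lit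 4110470534) (nat_lit 0) (nat_lit 21266542508) (nat_lit 1900) (nat_lit 7809858288) (nat_lit 454) (nat_lit 5) (nat_lit 453) (nat_lit 5) (nat_lit 478) (nat_lit 5) (nat_lit 637) (nat_lit 614) (nat_lit 309)) (XT.lf (nat_lit 0) (nat_lit 5897357319) (nat_lit 0) (nat_lit 5897357319) (nat_lit 1748) (nat_lit 1573323576) (nat_lit 467) (nat_lit 5) (nat_lit 467) (nat_lit 3) (nat_lit 490) (nat_lit 3) (nat_lit 615) (nat_lit 615) (nat_lit 330))) (XT.nd (nat_lit 78) (nat_lit 0) (nat_lit 0) (XT.lf (nat_lit 0) (nat_lit 23924867269) (nat_lit 1748) (nat_lit 1849090416) (nat_lit 1824) (nat_lit 1227474306) (nat_lit 467) (nat_lit 5) (nat_lit 490) (nat_lit 3) (nat_lit 491) (nat_lit 5) (nat_lit 616) (nat_lit 615) (nat_lit 329)) (XT.lf (nat_lit 76) (nat_lit 11577500929) (nat_lit 0) (nat_lit 12840401145) (nat_lit 1824) (nat_lit 2851175205) (nat_lit 468) (nat_lit 5) (nat_lit 467) (nat_lit 5) (nat_lit 491) (nat_lit 5) (nat_lit 617) (nat_lit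 615) (nat_lit 328)))) (XT.nd (nat_lit 156) (nat_lit 0) (nat_lit 0) (XT.nd (nat_lit 78) (nat_lit 0) (nat_lit 0) (XT.lf (nat_lit 0) (nat_lit 24933226923) (nat_lit 1748) (nat_lit 2247806870) (nat_lit 1824) (nat_lit 360793461) (nat_lit 468) (nat_lit 5) (nat_lit 491) (nat_lit 5) (nat_lit 492) (nat_lit 5) (nat_lit 618) (nat_lit 615) (nat_lit 327)) (XT.lf (nat_lit 76) (nat_lit 11529740272) (nat_lit 0) (nat_lit 14086712989) (nat_lit 1824) (nat_lit 2200427430) (nat_lit 469) (nat_lit 5) (nat_lit 468) (nat_lit 5) (nat_lit 492) (nat_lit 5) (nat_lit 619) (nat_lit 615) (nat_lit 326))) (XT.nd (nat_lit 78) (nat_lit 0) (nat_lit 76) (XT.lf (nat_lit 76) (nat_lit 25612039794) (nat_lit 0) (nat_lit 714125655) (nat_lit 1824) (nat_lit 1771013675) (nat_lit 469) (nat_lit 5) (nat_lit 468) (nat_lit 5) (nat_lit 492) (nat_lit 5) (nat_lit 620) (nat_lit 615) (nat_lit 325)) (XT.nd (nat_lit 78) (nat_lit 0) (nat_lit 0) (XT.lf (nat_lit 76) (nat_lit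 11660614884) (nat_lit 0) (nat_lit 15546877098) (nat_lit 1824) (nat_lit 1172443488) (nat_lit 470) (nat_lit 5) (nat_lit 469) (nat_lit 5) (nat_lit 493) (nat_lit 5) (nat_lit 621) (nat_lit 615) (nat_lit 324)) (XT.lf (nat_lit 76) (nat_lit 26116892905) (nat_lit 0) (nat_lit 2008750004) (nat_lit 1824) (nat_lit 542320418) (nat_lit 470) (nat_lit 5) (nat_lit 469) (nat_lit 5) (nat_lit 493) (nat_lit 5) (nat_lit 622) (nat_lit 615) (nat_lit 323)))))) (XT.nd (nat_lit 390) (nat_lit 0) (nat_lit 152) (XT.nd (nat_lit 156) (nat_lit 0) (nat_lit 76) (XT.nd (nat_lit 78) (nat_lit 0) (nat_lit 0) (XT.lf (nat_lit 0) (nat_lit 252362504) (nat_lit 1824) (nat_lit 16980629526) (nat_lit 1900) (nat_lit 11725681516) (nat_lit 446) (nat_lit 5) (nat_lit 470) (nat_lit 5) (nat_lit 471) (nat_lit 5) (nat_lit 623) (nat_lit 615) (nat_lit 322)) (XT.lf (nat_lit 0) (nat_lit 1084110103) (nat_lit 1824) (nat_lit 2440871339) (nat_lit 1900) (nat_lit 25729576498) (nat_lit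 446) (nat_lit 5) (nat_lit 470) (nat_lit 5) (nat_lit 471) (nat_lit 5) (nat_lit 624) (nat_lit 615) (nat_lit 321))) (XT.nd (nat_lit 78) (nat_lit 0) (nat_lit 0) (XT.lf (nat_lit 0) (nat_lit 2080366764) (nat_lit 1824) (nat_lit 17070197329) (nat_lit 1900) (nat_lit 10402838763) (nat_lit 447) (nat_lit 5) (nat_lit 471) (nat_lit 5) (nat_lit 472) (nat_lit 5) (nat_lit 625) (nat_lit 615) (nat_lit 320)) (XT.nd (nat_lit 78) (nat_lit 0) (nat_lit 76) (XT.lf (nat_lit 0) (nat_lit 3134349659) (nat_lit 1824) (nat_lit 2143839483) (nat_lit 1900) (nat_lit 24579279815) (nat_lit 447) (nat_lit 5) (nat_lit 471) (nat_lit 5) (nat_lit 472) (nat_lit 5) (nat_lit 626) (nat_lit 615) (nat_lit 319)) (XT.lf (nat_lit 0) (nat_lit 4351646551) (nat_lit 1824) (nat_lit 16970556008) (nat_lit 1900) (nat_lit 8842569434) (nat_lit 448) (nat_lit 5) (nat_lit 472) (nat_lit 5) (nat_lit 473) (nat_lit 5) (nat_lit 627) (nat_lit 615) (nat_lit 318))))) (XT.nd (nat_lit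 156) (nat_lit 0) (nat_lit 76) (XT.nd (nat_lit 78) (nat_lit 0) (nat_lit 76) (XT.lf (nat_lit 0) (nat_lit 5640769341) (nat_lit 1824) (nat_lit 1646239771) (nat_lit 1900) (nat_lit 23190262677) (nat_lit 448) (nat_lit 5) (nat_lit 472) (nat_lit 5) (nat_lit 473) (nat_lit 5) (nat_lit 628) (nat_lit 615) (nat_lit 317)) (XT.lf (nat_lit 0) (nat_lit 7092000760) (nat_lit 1824) (nat_lit 16671399608) (nat_lit 1900) (nat_lit 7029894980) (nat_lit 449) (nat_lit 5) (nat_lit 473) (nat_lit 5) (nat_lit 474) (nat_lit 5) (nat_lit 629) (nat_lit 615) (nat_lit 316))) (XT.nd (nat_lit 78) (nat_lit 0) (nat_lit 76) (XT.lf (nat_lit 0) (nat_lit 8629750118) (nat_lit 1824) (nat_lit 937396512) (nat_lit 1900) (nat_lit 21547343166) (nat_lit 449) (nat_lit 5) (nat_lit 473) (nat_lit 5) (nat_lit 474) (nat_lit 5) (nat_lit 630) (nat_lit 615) (nat_lit 315)) (XT.nd (nat_lit 78) (nat_lit 0) (nat_lit 0) (XT.lf (nat_lit 0) (nat_lit 10328374084) (nat_lit 1824) (nat_lit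 16161956734) (nat_lit 1900) (nat_lit 4949175202) (nat_lit 450) (nat_lit 5) (nat_lit 474) (nat_lit 5) (nat_lit 475) (nat_lit 5) (nat_lit 631) (nat_lit 615) (nat_lit 314)) (XT.lf (nat_lit 0) (nat_lit 12128843761) (nat_lit 1824) (nat_lit 6156710) (nat_lit 1900) (nat_lit 19634664907) (nat_lit 450) (nat_lit 5) (nat_lit 474) (nat_lit 5) (nat_lit 475) (nat_lit 5) (nat_lit 632) (nat_lit 615) (nat_lit 313))))))))
noncomputable def xc252 : XT := (XT.nd (nat_lit 80964) (nat_lit 0) (nat_lit 0) (XT.nd (nat_lit 80184) (nat_lit 380) (nat_lit 0) (XT.nd (nat_lit 312) (nat_lit 0) (nat_lit 76) (XT.nd (nat_lit 156) (nat_lit 0) (nat_lit 0) (XT.nd (nat_lit 78) (nat_lit 0) (nat_lit 0) (XT.lf (nat_lit 0) (nat_lit 14088906167) (nat_lit 1824) (nat_lit 15430974828) (nat_lit 1900) (nat_lit 2584075529) (nat_lit 451) (nat_lit 5) (nat_lit 475) (nat_lit 5) (nat_lit 476) (nat_lit 5) (nat_lit 633) (nat_lit 615) (nat_lit 312)) (XT.lf (nat_lit 76)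 (nat_lit 1174530237) (nat_lit 0) (nat_lit 14999918570) (nat_lit 1900) (nat_lit 16268759369) (nat_lit 452) (nat_lit 5) (nat_lit 451) (nat_lit 5) (nat_lit 476) (nat_lit 5) (nat_lit 634) (nat_lit 615) (nat_lit 311))) (XT.nd (nat_lit 78) (nat_lit 0) (nat_lit 76) (XT.lf (nat_lit 76) (nat_lit 18319962215) (nat_lit 0) (nat_lit 83562951) (nat_lit 1900) (nat_lit 14383683497) (nat_lit 452) (nat_lit 5) (nat_lit 451) (nat_lit 5) (nat_lit 476) (nat_lit 5) (nat_lit 635) (nat_lit 615) (nat_lit 310)) (XT.lf (nat_lit 76) (nat_lit 2604770383) (nat_lit 0) (nat_lit 18185874972) (nat_lit 1900) (nat_lit 12345174811) (nat_lit 453) (nat_lit 5) (nat_lit 452) (nat_lit 5) (nat_lit 477) (nat_lit 5) (nat_lit 636) (nat_lit 615) (nat_lit 309)))) (XT.nd (nat_lit 79638) (nat_lit 0) (nat_lit 1140) (XT.nd (nat_lit 79560) (nat_lit 0) (nat_lit 1140) (XT.lf (nat_lit 76) (nat_lit 20212419053) (nat_lit 0) (nat_lit 3109054986) (nat_lit 1900) (nat_lit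 10168010786) (nat_lit 453) (nat_lit 5) (nat_lit 452) (nat_lit 5) (nat_lit 477) (nat_lit 5) (nat_lit 637) (nat_lit 615) (nat_lit 308)) (XT.lf (nat_lit 0) (nat_lit 6060741635) (nat_lit 0) (nat_lit 6060741635) (nat_lit 1748) (nat_lit 1512083987) (nat_lit 467) (nat_lit 5) (nat_lit 467) (nat_lit 3) (nat_lit 490) (nat_lit 3) (nat_lit 616) (nat_lit 616) (nat_lit 328))) (XT.nd (nat_lit 78) (nat_lit 0) (nat_lit 0) (XT.lf (nat_lit 0) (nat_lit 24580971145) (nat_lit 1748) (nat_lit 1792809676) (nat_lit 1824) (nat_lit 1164099768) (nat_lit 467) (nat_lit 5) (nat_lit 490) (nat_lit 3) (nat_lit 491) (nat_lit 5) (nat_lit 617) (nat_lit 616) (nat_lit 327)) (XT.nd (nat_lit 78) (nat_lit 0) (nat_lit 76) (XT.lf (nat_lit 76) (nat_lit 11901699926) (nat_lit 0) (nat_lit 13179285777) (nat_lit 1824) (nat_lit 2729951245) (nat_lit 468) (nat_lit 5) (nat_lit 467) (nat_lit 5) (nat_lit 491) (nat_lit 5) (nat_lit 618) (nat_lit 616) (nat_lit 326)) (XT.lf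 (nat_lit 0) (nat_lit 25602668611) (nat_lit 1748) (nat_lit 2197955409) (nat_lit 1824) (nat_lit 288597409) (nat_lit 468) (nat_lit 5) (nat_lit 491) (nat_lit 5) (nat_lit 492) (nat_lit 5) (nat_lit 619) (nat_lit 616) (nat_lit 325)))))) (XT.nd (nat_lit 390) (nat_lit 0) (nat_lit 0) (XT.nd (nat_lit 156) (nat_lit 1672) (nat_lit 0) (XT.nd (nat_lit 78) (nat_lit 0) (nat_lit 0) (XT.lf (nat_lit 76) (nat_lit 11854518942) (nat_lit 0) (nat_lit 14442303466) (nat_lit 1824) (nat_lit 2073008793) (nat_lit 469) (nat_lit 5) (nat_lit 468) (nat_lit 5) (nat_lit 492) (nat_lit 5) (nat_lit 620) (nat_lit 616) (nat_lit 324)) (XT.lf (nat_lit 76) (nat_lit 26216617712) (nat_lit 0) (nat_lit 800816224) (nat_lit 1824) (nat_lit 1638368081) (nat_lit 469) (nat_lit 5) (nat_lit 468) (nat_lit 5) (nat_lit 492) (nat_lit 5) (nat_lit 621) (nat_lit 616) (nat_lit 323))) (XT.nd (nat_lit 78) (nat_lit 1748) (nat_lit 0) (XT.lf (nat_lit 76) (nat_lit 11989322695) (nat_lit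 0) (nat_lit 15923993125) (nat_lit 1824) (nat_lit 1030959600) (nat_lit 470) (nat_lit 5) (nat_lit 469) (nat_lit 5) (nat_lit 493) (nat_lit 5) (nat_lit 622) (nat_lit 616) (nat_lit 322)) (XT.nd (nat_lit 78) (nat_lit 1748) (nat_lit 0) (XT.lf (nat_lit 76) (nat_lit 26732853814) (nat_lit 0) (nat_lit 2113805872) (nat_lit 1824) (nat_lit 391468044) (nat_lit 470) (nat_lit 5) (nat_lit 469) (nat_lit 5) (nat_lit 493) (nat_lit 5) (nat_lit 623) (nat_lit 616) (nat_lit 321)) (XT.lf (nat_lit 0) (nat_lit 414074462) (nat_lit 1824) (nat_lit 17221536869) (nat_lit 1900) (nat_lit 11899078569) (nat_lit 446) (nat_lit 5) (nat_lit 470) (nat_lit 5) (nat_lit 471) (nat_lit 5) (nat_lit 624) (nat_lit 616) (nat_lit 320))))) (XT.nd (nat_lit 156) (nat_lit 0) (nat_lit 76) (XT.nd (nat_lit 78) (nat_lit 0) (nat_lit 76) (XT.lf (nat_lit 0) (nat_lit 1259385157) (nat_lit 1824) (nat_lit 2392918915) (nat_lit 1900) (nat_lit 26184249815) (nat_lit 446) (nat_lit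 5) (nat_lit 470) (nat_lit 5) (nat_lit 471) (nat_lit 5) (nat_lit 625) (nat_lit 616) (nat_lit 319)) (XT.lf (nat_lit 0) (nat_lit 2272821922) (nat_lit 1824) (nat_lit 17312063498) (nat_lit 1900) (nat_lit 10556545639) (nat_lit 447) (nat_lit 5) (nat_lit 471) (nat_lit 5) (nat_lit 472) (nat_lit 5) (nat_lit 626) (nat_lit 616) (nat_lit 318))) (XT.nd (nat_lit 78) (nat_lit 0) (nat_lit 76) (XT.lf (nat_lit 0) (nat_lit 3344926674) (nat_lit 1824) (nat_lit 2089130216) (nat_lit 1900) (nat_lit 25017581196) (nat_lit 447) (nat_lit 5) (nat_lit 471) (nat_lit 5) (nat_lit 472) (nat_lit 5) (nat_lit 627) (nat_lit 616) (nat_lit 317)) (XT.nd (nat_lit 78) (nat_lit 0) (nat_lit 0) (XT.lf (nat_lit 0) (nat_lit 4583983090) (nat_lit 1824) (nat_lit 17209772650) (nat_lit 1900) (nat_lit 8971383613) (nat_lit 448) (nat_lit 5) (nat_lit 472) (nat_lit 5) (nat_lit 473) (nat_lit 5) (nat_lit 628) (nat_lit 616) (nat_lit 316)) (XT.lf (nat_lit 0) (nat_lit 5896039246)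 (nat_lit 1824) (nat_lit 1580934686) (nat_lit 1900) (nat_lit 23606972626) (nat_lit 448) (nat_lit 5) (nat_lit 472) (nat_lit 5) (nat_lit 473) (nat_lit 5) (nat_lit 629) (nat_lit 616) (nat_lit 315))))))) (XT.nd (nat_lit 80340) (nat_lit 228) (nat_lit 0) (XT.nd (nat_lit 312) (nat_lit 0) (nat_lit 152) (XT.nd (nat_lit 156) (nat_lit 0) (nat_lit 76) (XT.nd (nat_lit 78) (nat_lit 0) (nat_lit 0) (XT.lf (nat_lit 0) (nat_lit 7373858335) (nat_lit 1824) (nat_lit 16904139608) (nat_lit 1900) (nat_lit 7128341807) (nat_lit 449) (nat_lit 5) (nat_lit 473) (nat_lit 5) (nat_lit 474) (nat_lit 5) (nat_lit 630) (nat_lit 616) (nat_lit 314)) (XT.lf (nat_lit 0) (nat_lit 8939617238) (nat_lit 1824) (nat_lit 857430724) (nat_lit 1900) (nat_lit 21936965449) (nat_lit 449) (nat_lit 5) (nat_lit 473) (nat_lit 5) (nat_lit 474) (nat_lit 5) (nat_lit 631) (nat_lit 616) (nat_lit 313))) (XT.nd (nat_lit 78) (nat_lit 0) (nat_lit 0) (XT.lf (nat_lit 0) (nat_lit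 10669917551) (nat_lit 1824) (nat_lit 16384165685) (nat_lit 1900) (nat_lit 5011493053) (nat_lit 450) (nat_lit 5) (nat_lit 474) (nat_lit 5) (nat_lit 475) (nat_lit 5) (nat_lit 632) (nat_lit 616) (nat_lit 312)) (XT.lf (nat_lit 76) (nat_lit 94002211) (nat_lit 0) (nat_lit 12410358146) (nat_lit 1900) (nat_lit 19898019600) (nat_lit 451) (nat_lit 5) (nat_lit 450) (nat_lit 5) (nat_lit 475) (nat_lit 5) (nat_lit 633) (nat_lit 616) (nat_lit 311)))) (XT.nd (nat_lit 156) (nat_lit 0) (nat_lit 0) (XT.nd (nat_lit 78) (nat_lit 0) (nat_lit 0) (XT.lf (nat_lit 0) (nat_lit 14500850245) (nat_lit 1824) (nat_lit 15638362140) (nat_lit 1900) (nat_lit 2604200406) (nat_lit 451) (nat_lit 5) (nat_lit 475) (nat_lit 5) (nat_lit 476) (nat_lit 5) (nat_lit 634) (nat_lit 616) (nat_lit 310)) (XT.lf (nat_lit 76) (nat_lit 1298587025) (nat_lit 0) (nat_lit 15327617383) (nat_lit 1900) (nat_lit 16463283440) (nat_lit 452) (nat_lit 5) (nat_lit 451) (nat_lit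 5) (nat_lit 476) (nat_lit 5) (nat_lit 635) (nat_lit 616) (nat_lit 309))) (XT.nd (nat_lit 79716) (nat_lit 0) (nat_lit 1216) (XT.lf (nat_lit 76) (nat_lit 18784955756) (nat_lit 0) (nat_lit 112391505) (nat_lit 1900) (nat_lit 14543071759) (nat_lit 452) (nat_lit 5) (nat_lit 451) (nat_lit 5) (nat_lit 476) (nat_lit 5) (nat_lit 636) (nat_lit 616) (nat_lit 308)) (XT.nd (nat_lit 78) (nat_lit 0) (nat_lit 0) (XT.lf (nat_lit 0) (nat_lit 6225629256) (nat_lit 0) (nat_lit 6225629256) (nat_lit 1748) (nat_lit 1453219496) (nat_lit 467) (nat_lit 5) (nat_lit 467) (nat_lit 3) (nat_lit 490) (nat_lit 3) (nat_lit 617) (nat_lit 617) (nat_lit 326)) (XT.lf (nat_lit 0) (nat_lit 25243300420) (nat_lit 1748) (nat_lit 1739024820) (nat_lit 1824) (nat_lit 1102871935) (nat_lit 467) (nat_lit 5) (nat_lit 490) (nat_lit 3) (nat_lit 491) (nat_lit 5) (nat_lit 618) (nat_lit 617) (nat_lit 325)))))) (XT.nd (nat_lit 390) (nat_lit 1596) (nat_lit 0) (XT.nd (nat_lit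 156) (nat_lit 0) (nat_lit 76) (XT.nd (nat_lit 78) (nat_lit 0) (nat_lit 76) (XT.lf (nat_lit 76) (nat_lit 12228785231) (nat_lit 0) (nat_lit 13521760967) (nat_lit 1824) (nat_lit 2613224372) (nat_lit 468) (nat_lit 5) (nat_lit 467) (nat_lit 5) (nat_lit 491) (nat_lit 5) (nat_lit 619) (nat_lit 617) (nat_lit 324)) (XT.lf (nat_lit 0) (nat_lit 26278867647) (nat_lit 1748) (nat_lit 2150788413) (nat_lit 1824) (nat_lit 218041098) (nat_lit 468) (nat_lit 5) (nat_lit 491) (nat_lit 5) (nat_lit 492) (nat_lit 5) (nat_lit 620) (nat_lit 617) (nat_lit 323))) (XT.nd (nat_lit 78) (nat_lit 0) (nat_lit 0) (XT.lf (nat_lit 76) (nat_lit 12182135911) (nat_lit 0) (nat_lit 14802137825) (nat_lit 1824) (nat_lit 1949698510) (nat_lit 469) (nat_lit 5) (nat_lit 468) (nat_lit 5) (nat_lit 492) (nat_lit 5) (nat_lit 621) (nat_lit 617) (nat_lit 322)) (XT.nd (nat_lit 78) (nat_lit 0) (nat_lit 76) (XT.lf (nat_lit 76) (nat_lit 26829701626) (nat_lit 0) (nat_lit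 886428911) (nat_lit 1824) (nat_lit 1509595777) (nat_lit 469) (nat_lit 5) (nat_lit 468) (nat_lit 5) (nat_lit 492) (nat_lit 5) (nat_lit 622) (nat_lit 617) (nat_lit 321)) (XT.lf (nat_lit 76) (nat_lit 12320896454) (nat_lit 0) (nat_lit 16306081681) (nat_lit 1824) (nat_lit 893050574) (nat_lit 470) (nat_lit 5) (nat_lit 469) (nat_lit 5) (nat_lit 493) (nat_lit 5) (nat_lit 623) (nat_lit 617) (nat_lit 320))))) (XT.nd (nat_lit 156) (nat_lit 0) (nat_lit 0) (XT.nd (nat_lit 78) (nat_lit 1748) (nat_lit 0) (XT.lf (nat_lit 76) (nat_lit 27357498445) (nat_lit 0) (nat_lit 2218443453) (nat_lit 1824) (nat_lit 243877583) (nat_lit 470) (nat_lit 5) (nat_lit 469) (nat_lit 5) (nat_lit 493) (nat_lit 5) (nat_lit 624) (nat_lit 617) (nat_lit 319)) (XT.lf (nat_lit 0) (nat_lit 572937178) (nat_lit 1824) (nat_lit 17471095204) (nat_lit 1900) (nat_lit 12078316794) (nat_lit 446) (nat_lit 5) (nat_lit 470) (nat_lit 5) (nat_lit 471) (nat_lit 5) (nat_lit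 625) (nat_lit 617) (nat_lit 318))) (XT.nd (nat_lit 78) (nat_lit 0) (nat_lit 76) (XT.lf (nat_lit 0) (nat_lit 1432201514) (nat_lit 1824) (nat_lit 2347765134) (nat_lit 1900) (nat_lit 26650343295) (nat_lit 446) (nat_lit 5) (nat_lit 470) (nat_lit 5) (nat_lit 471) (nat_lit 5) (nat_lit 626) (nat_lit 617) (nat_lit 317)) (XT.nd (nat_lit 78) (nat_lit 0) (nat_lit 0) (XT.lf (nat_lit 0) (nat_lit 2463268578) (nat_lit 1824) (nat_lit 17562632164) (nat_lit 1900) (nat_lit 10715437126) (nat_lit 447) (nat_lit 5) (nat_lit 471) (nat_lit 5) (nat_lit 472) (nat_lit 5) (nat_lit 627) (nat_lit 617) (nat_lit 316)) (XT.lf (nat_lit 0) (nat_lit 3553972480) (nat_lit 1824) (nat_lit 2037116149) (nat_lit 1900) (nat_lit 25466717697) (nat_lit 447) (nat_lit 5) (nat_lit 471) (nat_lit 5) (nat_lit 472) (nat_lit 5) (nat_lit 628) (nat_lit 617) (nat_lit 315))))))))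
noncomputable def xc253 : XT := (XT.nd (nat_lit 81198) (nat_lit 76) (nat_lit 0) (XT.nd (nat_lit 80418) (nat_lit 152) (nat_lit 0) (XT.nd (nat_lit 312) (nat_lit 0) (nat_lit 152) (XT.nd (nat_lit 156) (nat_lit 0) (nat_lit 76) (XT.nd (nat_lit 78) (nat_lit 0) (nat_lit 0) (XT.lf (nat_lit 0) (nat_lit 4815324044) (nat_lit 1824) (nat_lit 17457664298) (nat_lit 1900) (nat_lit 9104639418) (nat_lit 448) (nat_lit 5) (nat_lit 472) (nat_lit 5) (nat_lit 473) (nat_lit 5) (nat_lit 629) (nat_lit 617) (nat_lit 314)) (XT.lf (nat_lit 0) (nat_lit 6150882866) (nat_lit 1824) (nat_lit 1518137885) (nat_lit 1900) (nat_lit 24033845542) (nat_lit 448) (nat_lit 5) (nat_lit 472) (nat_lit 5) (nat_lit 473) (nat_lit 5) (nat_lit 630) (nat_lit 617) (nat_lit 313))) (XT.nd (nat_lit 78) (nat_lit 0) (nat_lit 0) (XT.lf (nat_lit 0) (nat_lit 7655916010) (nat_lit 1824) (nat_lit 17145444245) (nat_lit 1900) (nat_lit 7230394348) (nat_lit 449) (nat_lit 5) (nat_lit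 473) (nat_lit 5) (nat_lit 474) (nat_lit 5) (nat_lit 631) (nat_lit 617) (nat_lit 312)) (XT.lf (nat_lit 0) (nat_lit 9250351257) (nat_lit 1824) (nat_lit 779698794) (nat_lit 1900) (nat_lit 22335984861) (nat_lit 449) (nat_lit 5) (nat_lit 473) (nat_lit 5) (nat_lit 474) (nat_lit 5) (nat_lit 632) (nat_lit 617) (nat_lit 311)))) (XT.nd (nat_lit 156) (nat_lit 0) (nat_lit 76) (XT.nd (nat_lit 78) (nat_lit 0) (nat_lit 0) (XT.lf (nat_lit 0) (nat_lit 11013050604) (nat_lit 1824) (nat_lit 16614741940) (nat_lit 1900) (nat_lit 5076481033) (nat_lit 450) (nat_lit 5) (nat_lit 474) (nat_lit 5) (nat_lit 475) (nat_lit 5) (nat_lit 633) (nat_lit 617) (nat_lit 310)) (XT.lf (nat_lit 76) (nat_lit 192350452) (nat_lit 0) (nat_lit 12689914333) (nat_lit 1900) (nat_lit 20165587267) (nat_lit 451) (nat_lit 5) (nat_lit 450) (nat_lit 5) (nat_lit 475) (nat_lit 5) (nat_lit 634) (nat_lit 617) (nat_lit 309))) (XT.nd (nat_lit 78) (nat_lit 0) (nat_lit 0) (XT.lf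 (nat_lit 0) (nat_lit 14915978703) (nat_lit 1824) (nat_lit 15853828168) (nat_lit 1900) (nat_lit 2625953164) (nat_lit 451) (nat_lit 5) (nat_lit 475) (nat_lit 5) (nat_lit 476) (nat_lit 5) (nat_lit 635) (nat_lit 617) (nat_lit 308)) (XT.nd (nat_lit 79794) (nat_lit 0) (nat_lit 1216) (XT.lf (nat_lit 76) (nat_lit 1421219841) (nat_lit 0) (nat_lit 15660794530) (nat_lit 1900) (nat_lit 16666779101) (nat_lit 452) (nat_lit 5) (nat_lit 451) (nat_lit 5) (nat_lit 476) (nat_lit 5) (nat_lit 636) (nat_lit 617) (nat_lit 307)) (XT.lf (nat_lit 0) (nat_lit 6392118762) (nat_lit 0) (nat_lit 6392118762) (nat_lit 1748) (nat_lit 1396637816) (nat_lit 467) (nat_lit 5) (nat_lit 467) (nat_lit 3) (nat_lit 490) (nat_lit 3) (nat_lit 618) (nat_lit 618) (nat_lit 324)))))) (XT.nd (nat_lit 390) (nat_lit 1596) (nat_lit 0) (XT.nd (nat_lit 156) (nat_lit 0) (nat_lit 76) (XT.nd (nat_lit 78) (nat_lit 0) (nat_lit 0) (XT.lf (nat_lit 0) (nat_lit 25912247409)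 (nat_lit 1748) (nat_lit 1687645138) (nat_lit 1824) (nat_lit 1043701166) (nat_lit 467) (nat_lit 5) (nat_lit 490) (nat_lit 3) (nat_lit 491) (nat_lit 5) (nat_lit 619) (nat_lit 618) (nat_lit 323)) (XT.lf (nat_lit 76) (nat_lit 12558954270) (nat_lit 0) (nat_lit 13868022286) (nat_lit 1824) (nat_lit 2500815755) (nat_lit 468) (nat_lit 5) (nat_lit 467) (nat_lit 5) (nat_lit 491) (nat_lit 5) (nat_lit 620) (nat_lit 618) (nat_lit 322))) (XT.nd (nat_lit 78) (nat_lit 0) (nat_lit 0) (XT.lf (nat_lit 0) (nat_lit 26962216688) (nat_lit 1748) (nat_lit 2106216614) (nat_lit 1824) (nat_lit 149037580) (nat_lit 468) (nat_lit 5) (nat_lit 491) (nat_lit 5) (nat_lit 492) (nat_lit 5) (nat_lit 621) (nat_lit 618) (nat_lit 321)) (XT.nd (nat_lit 78) (nat_lit 0) (nat_lit 0) (XT.lf (nat_lit 76) (nat_lit 12512789962) (nat_lit 0) (nat_lit 15166412310) (nat_lit 1824) (nat_lit 1830320260) (nat_lit 469) (nat_lit 5) (nat_lit 468) (nat_lit 5) (nat_lit 492)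 (nat_lit 5) (nat_lit 622) (nat_lit 618) (nat_lit 320)) (XT.lf (nat_lit 76) (nat_lit 27451600886) (nat_lit 0) (nat_lit 971051340) (nat_lit 1824) (nat_lit 1384520809) (nat_lit 469) (nat_lit 5) (nat_lit 468) (nat_lit 5) (nat_lit 492) (nat_lit 5) (nat_lit 623) (nat_lit 618) (nat_lit 319))))) (XT.nd (nat_lit 156) (nat_lit 1748) (nat_lit 0) (XT.nd (nat_lit 78) (nat_lit 0) (nat_lit 0) (XT.lf (nat_lit 76) (nat_lit 12655537476) (nat_lit 0) (nat_lit 16693342005) (nat_lit 1824) (nat_lit 758539211) (nat_lit 470) (nat_lit 5) (nat_lit 469) (nat_lit 5) (nat_lit 493) (nat_lit 5) (nat_lit 624) (nat_lit 618) (nat_lit 318)) (XT.lf (nat_lit 76) (nat_lit 27991141642) (nat_lit 0) (nat_lit 2322752215) (nat_lit 1824) (nat_lit 99370454) (nat_lit 470) (nat_lit 5) (nat_lit 469) (nat_lit 5) (nat_lit 493) (nat_lit 5) (nat_lit 625) (nat_lit 618) (nat_lit 317))) (XT.nd (nat_lit 78) (nat_lit 0) (nat_lit 0) (XT.lf (nat_lit 0) (nat_lit 729129896)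 (nat_lit 1824) (nat_lit 17729328716) (nat_lit 1900) (nat_lit 12263420859) (nat_lit 446) (nat_lit 5) (nat_lit 470) (nat_lit 5) (nat_lit 471) (nat_lit 5) (nat_lit 626) (nat_lit 618) (nat_lit 316)) (XT.nd (nat_lit 78) (nat_lit 0) (nat_lit 76) (XT.lf (nat_lit 0) (nat_lit 1602741598) (nat_lit 1824) (nat_lit 2305320052) (nat_lit 1900) (nat_lit 27127994994) (nat_lit 446) (nat_lit 5) (nat_lit 470) (nat_lit 5) (nat_lit 471) (nat_lit 5) (nat_lit 627) (nat_lit 618) (nat_lit 315)) (XT.lf (nat_lit 0) (nat_lit 2651894020) (nat_lit 1824) (nat_lit 17821927287) (nat_lit 1900) (nat_lit 10879534963) (nat_lit 447) (nat_lit 5) (nat_lit 471) (nat_lit 5) (nat_lit 472) (nat_lit 5) (nat_lit 628) (nat_lit 618) (nat_lit 314))))))) (XT.nd (nat_lit 80574) (nat_lit 152) (nat_lit 0) (XT.nd (nat_lit 312) (nat_lit 0) (nat_lit 152) (XT.nd (nat_lit 156) (nat_lit 0) (nat_lit 76) (XT.nd (nat_lit 78) (nat_lit 0) (nat_lit 76) (XT.lf (nat_lit 0) (nat_lit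 3761679450) (nat_lit 1824) (nat_lit 1987704040) (nat_lit 1900) (nat_lit 25926825673) (nat_lit 447) (nat_lit 5) (nat_lit 471) (nat_lit 5) (nat_lit 472) (nat_lit 5) (nat_lit 629) (nat_lit 618) (nat_lit 313)) (XT.lf (nat_lit 0) (nat_lit 5045868599) (nat_lit 1824) (nat_lit 17714253374) (nat_lit 1900) (nat_lit 9242353249) (nat_lit 448) (nat_lit 5) (nat_lit 472) (nat_lit 5) (nat_lit 473) (nat_lit 5) (nat_lit 630) (nat_lit 618) (nat_lit 312))) (XT.nd (nat_lit 78) (nat_lit 0) (nat_lit 76) (XT.lf (nat_lit 0) (nat_lit 6405506478) (nat_lit 1824) (nat_lit 1457751416) (nat_lit 1900) (nat_lit 24471013672) (nat_lit 448) (nat_lit 5) (nat_lit 472) (nat_lit 5) (nat_lit 473) (nat_lit 5) (nat_lit 631) (nat_lit 618) (nat_lit 311)) (XT.lf (nat_lit 0) (nat_lit 7938388912) (nat_lit 1824) (nat_lit 17395332988) (nat_lit 1900) (nat_lit 7336061159) (nat_lit 449) (nat_lit 5) (nat_lit 473) (nat_lit 5) (nat_lit 474) (nat_lit 5) (nat_lit 632)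 (nat_lit 618) (nat_lit 310)))) (XT.nd (nat_lit 156) (nat_lit 0) (nat_lit 76) (XT.nd (nat_lit 78) (nat_lit 0) (nat_lit 76) (XT.lf (nat_lit 0) (nat_lit 9562176500) (nat_lit 1824) (nat_lit 704096553) (nat_lit 1900) (nat_lit 22744527033) (nat_lit 449) (nat_lit 5) (nat_lit 473) (nat_lit 5) (nat_lit 474) (nat_lit 5) (nat_lit 633) (nat_lit 618) (nat_lit 309)) (XT.lf (nat_lit 0) (nat_lit 11358008562) (nat_lit 1824) (nat_lit 16853700505) (nat_lit 1900) (nat_lit 5144137258) (nat_lit 450) (nat_lit 5) (nat_lit 474) (nat_lit 5) (nat_lit 475) (nat_lit 5) (nat_lit 634) (nat_lit 618) (nat_lit 308))) (XT.nd (nat_lit 79950) (nat_lit 0) (nat_lit 1292) (XT.lf (nat_lit 76) (nat_lit 288919680) (nat_lit 0) (nat_lit 12973844322) (nat_lit 1900) (nat_lit 20443569597) (nat_lit 451) (nat_lit 5) (nat_lit 450) (nat_lit 5) (nat_lit 475) (nat_lit 5) (nat_lit 635) (nat_lit 618) (nat_lit 307)) (XT.nd (nat_lit 78) (nat_lit 0) (nat_lit 0) (XT.lf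 (nat_lit 0) (nat_lit 6560308043) (nat_lit 0) (nat_lit 6560308043) (nat_lit 1748) (nat_lit 1342250243) (nat_lit 467) (nat_lit 5) (nat_lit 467) (nat_lit 3) (nat_lit 490) (nat_lit 3) (nat_lit 619) (nat_lit 619) (nat_lit 322)) (XT.lf (nat_lit 0) (nat_lit 26588201873) (nat_lit 1748) (nat_lit 1638583567) (nat_lit 1824) (nat_lit 986501171) (nat_lit 467) (nat_lit 5) (nat_lit 490) (nat_lit 3) (nat_lit 491) (nat_lit 5) (nat_lit 620) (nat_lit 619) (nat_lit 321)))))) (XT.nd (nat_lit 390) (nat_lit 1672) (nat_lit 0) (XT.nd (nat_lit 156) (nat_lit 0) (nat_lit 76) (XT.nd (nat_lit 78) (nat_lit 0) (nat_lit 76) (XT.lf (nat_lit 76) (nat_lit 12892402997) (nat_lit 0) (nat_lit 14218264412) (nat_lit 1824) (nat_lit 2392553423) (nat_lit 468) (nat_lit 5) (nat_lit 467) (nat_lit 5) (nat_lit 491) (nat_lit 5) (nat_lit 621) (nat_lit 619) (nat_lit 320)) (XT.lf (nat_lit 0) (nat_lit 27653106243) (nat_lit 1748) (nat_lit 2064154512) (nat_lit 1824)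 (nat_lit 81502818) (nat_lit 468) (nat_lit 5) (nat_lit 491) (nat_lit 5) (nat_lit 492) (nat_lit 5) (nat_lit 622) (nat_lit 619) (nat_lit 319))) (XT.nd (nat_lit 78) (nat_lit 0) (nat_lit 0) (XT.lf (nat_lit 76) (nat_lit 12846678338) (nat_lit 0) (nat_lit 15535322763) (nat_lit 1824) (nat_lit 1714704230) (nat_lit 469) (nat_lit 5) (nat_lit 468) (nat_lit 5) (nat_lit 492) (nat_lit 5) (nat_lit 623) (nat_lit 619) (nat_lit 318)) (XT.nd (nat_lit 78) (nat_lit 0) (nat_lit 76) (XT.lf (nat_lit 76) (nat_lit 28082625626) (nat_lit 0) (nat_lit 1054768648) (nat_lit 1824) (nat_lit 1262973544) (nat_lit 469) (nat_lit 5) (nat_lit 468) (nat_lit 5) (nat_lit 492) (nat_lit 5) (nat_lit 624) (nat_lit 619) (nat_lit 317)) (XT.lf (nat_lit 76) (nat_lit 12993445508) (nat_lit 0) (nat_lit 17085973445) (nat_lit 1824) (nat_lit 627254425) (nat_lit 470) (nat_lit 5) (nat_lit 469) (nat_lit 5) (nat_lit 493) (nat_lit 5) (nat_lit 625) (nat_lit 619) (nat_lit 316)))))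 (XT.nd (nat_lit 156) (nat_lit 0) (nat_lit 76) (XT.nd (nat_lit 78) (nat_lit 0) (nat_lit 76) (XT.lf (nat_lit 0) (nat_lit 41672225) (nat_lit 1824) (nat_lit 2384867744) (nat_lit 1900) (nat_lit 28592147198) (nat_lit 445) (nat_lit 5) (nat_lit 469) (nat_lit 5) (nat_lit 470) (nat_lit 5) (nat_lit 626) (nat_lit 619) (nat_lit 315)) (XT.lf (nat_lit 0) (nat_lit 882826272) (nat_lit 1824) (nat_lit 17996267855) (nat_lit 1900) (nat_lit 12454419504) (nat_lit 446) (nat_lit 5) (nat_lit 470) (nat_lit 5) (nat_lit 471) (nat_lit 5) (nat_lit 627) (nat_lit 619) (nat_lit 314))) (XT.nd (nat_lit 78) (nat_lit 0) (nat_lit 76) (XT.lf (nat_lit 0) (nat_lit 1771182486) (nat_lit 1824) (nat_lit 2265497595) (nat_lit 1900) (nat_lit 27617349235) (nat_lit 446) (nat_lit 5) (nat_lit 470) (nat_lit 5) (nat_lit 471) (nat_lit 5) (nat_lit 628) (nat_lit 619) (nat_lit 313)) (XT.nd (nat_lit 78) (nat_lit 0) (nat_lit 0) (XT.lf (nat_lit 0) (nat_lit 2838880450) (nat_lit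 1824) (nat_lit 18089979135) (nat_lit 1900) (nat_lit 11048864508) (nat_lit 447) (nat_lit 5) (nat_lit 471) (nat_lit 5) (nat_lit 472) (nat_lit 5) (nat_lit 629) (nat_lit 619) (nat_lit 312)) (XT.lf (nat_lit 0) (nat_lit 3968235146) (nat_lit 1824) (nat_lit 1940804496) (nat_lit 1900) (nat_lit 26398047328) (nat_lit 447) (nat_lit 5) (nat_lit 471) (nat_lit 5) (nat_lit 472) (nat_lit 5) (nat_lit 630) (nat_lit 619) (nat_lit 311))))))))
noncomputable def xc254 : XT := (XT.nd (nat_lit 81432) (nat_lit 0) (nat_lit 0) (XT.nd (nat_lit 80652) (nat_lit 228) (nat_lit 0) (XT.nd (nat_lit 312) (nat_lit 0) (nat_lit 152) (XT.nd (nat_lit 156) (nat_lit 0) (nat_lit 76) (XT.nd (nat_lit 78) (nat_lit 0) (nat_lit 0) (XT.lf (nat_lit 0) (nat_lit 5275811417) (nat_lit 1824) (nat_lit 17979568611) (nat_lit 1900) (nat_lit 9384544646) (nat_lit 448) (nat_lit 5) (nat_lit 472) (nat_lit 5) (nat_lit 473) (nat_lit 5) (nat_lit 631) (nat_lit 619) (nat_lit 310))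 (XT.lf (nat_lit 0) (nat_lit 6660112143) (nat_lit 1824) (nat_lit 1399681121) (nat_lit 1900) (nat_lit 24918614663) (nat_lit 448) (nat_lit 5) (nat_lit 472) (nat_lit 5) (nat_lit 473) (nat_lit 5) (nat_lit 632) (nat_lit 619) (nat_lit 309))) (XT.nd (nat_lit 78) (nat_lit 0) (nat_lit 0) (XT.lf (nat_lit 0) (nat_lit 8221488277) (nat_lit 1824) (nat_lit 17653831592) (nat_lit 1900) (nat_lit 7445353436) (nat_lit 449) (nat_lit 5) (nat_lit 473) (nat_lit 5) (nat_lit 474) (nat_lit 5) (nat_lit 633) (nat_lit 619) (nat_lit 308)) (XT.lf (nat_lit 0) (nat_lit 9875313742) (nat_lit 1824) (nat_lit 630523527) (nat_lit 1900) (nat_lit 23162722528) (nat_lit 449) (nat_lit 5) (nat_lit 473) (nat_lit 5) (nat_lit 474) (nat_lit 5) (nat_lit 634) (nat_lit 619) (nat_lit 307)))) (XT.nd (nat_lit 80106) (nat_lit 0) (nat_lit 1292) (XT.nd (nat_lit 80028) (nat_lit 0) (nat_lit 1292) (XT.lf (nat_lit 0) (nat_lit 11705023545) (nat_lit 1824) (nat_lit 17101062603)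 (nat_lit 1900) (nat_lit 5214461953) (nat_lit 450) (nat_lit 5) (nat_lit 474) (nat_lit 5) (nat_lit 475) (nat_lit 5) (nat_lit 635) (nat_lit 619) (nat_lit 306)) (XT.lf (nat_lit 0) (nat_lit 6730294391) (nat_lit 0) (nat_lit 6730294391) (nat_lit 1748) (nat_lit 1289971518) (nat_lit 467) (nat_lit 5) (nat_lit 467) (nat_lit 3) (nat_lit 490) (nat_lit 3) (nat_lit 620) (nat_lit 620) (nat_lit 320))) (XT.nd (nat_lit 78) (nat_lit 0) (nat_lit 0) (XT.lf (nat_lit 0) (nat_lit 27271551374) (nat_lit 1748) (nat_lit 1591756552) (nat_lit 1824) (nat_lit 931188886) (nat_lit 467) (nat_lit 5) (nat_lit 490) (nat_lit 3) (nat_lit 491) (nat_lit 5) (nat_lit 621) (nat_lit 620) (nat_lit 319)) (XT.nd (nat_lit 78) (nat_lit 0) (nat_lit 76) (XT.lf (nat_lit 76) (nat_lit 13229326069) (nat_lit 0) (nat_lit 14572681296) (nat_lit 1824) (nat_lit 2288271997) (nat_lit 468) (nat_lit 5) (nat_lit 467) (nat_lit 5) (nat_lit 491) (nat_lit 5) (nat_lit 622) (nat_lit 620)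 (nat_lit 318)) (XT.lf (nat_lit 0) (nat_lit 28351925020) (nat_lit 1748) (nat_lit 2024520229) (nat_lit 1824) (nat_lit 15355564) (nat_lit 468) (nat_lit 5) (nat_lit 491) (nat_lit 5) (nat_lit 492) (nat_lit 5) (nat_lit 623) (nat_lit 620) (nat_lit 317)))))) (XT.nd (nat_lit 390) (nat_lit 0) (nat_lit 76) (XT.nd (nat_lit 156) (nat_lit 1748) (nat_lit 0) (XT.nd (nat_lit 78) (nat_lit 0) (nat_lit 0) (XT.lf (nat_lit 76) (nat_lit 13183996926) (nat_lit 0) (nat_lit 15909064788) (nat_lit 1824) (nat_lit 1602686863) (nat_lit 469) (nat_lit 5) (nat_lit 468) (nat_lit 5) (nat_lit 492) (nat_lit 5) (nat_lit 624) (nat_lit 620) (nat_lit 316)) (XT.lf (nat_lit 76) (nat_lit 28723086984) (nat_lit 0) (nat_lit 1137663600) (nat_lit 1824) (nat_lit 1144790415) (nat_lit 469) (nat_lit 5) (nat_lit 468) (nat_lit 5) (nat_lit 492) (nat_lit 5) (nat_lit 625) (nat_lit 620) (nat_lit 315))) (XT.nd (nat_lit 78) (nat_lit 1824) (nat_lit 0) (XT.lf (nat_lit 76) (nat_lit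 13334818919) (nat_lit 0) (nat_lit 17484175614) (nat_lit 1824) (nat_lit 499030993) (nat_lit 470) (nat_lit 5) (nat_lit 469) (nat_lit 5) (nat_lit 493) (nat_lit 5) (nat_lit 626) (nat_lit 620) (nat_lit 314)) (XT.nd (nat_lit 78) (nat_lit 0) (nat_lit 76) (XT.lf (nat_lit 0) (nat_lit 178704020) (nat_lit 1824) (nat_lit 2350827982) (nat_lit 1900) (nat_lit 29106784202) (nat_lit 445) (nat_lit 5) (nat_lit 469) (nat_lit 5) (nat_lit 470) (nat_lit 5) (nat_lit 627) (nat_lit 620) (nat_lit 313)) (XT.lf (nat_lit 0) (nat_lit 1034194618) (nat_lit 1824) (nat_lit 18271949234) (nat_lit 1900) (nat_lit 12651345484) (nat_lit 446) (nat_lit 5) (nat_lit 470) (nat_lit 5) (nat_lit 471) (nat_lit 5) (nat_lit 628) (nat_lit 620) (nat_lit 312))))) (XT.nd (nat_lit 156) (nat_lit 0) (nat_lit 76) (XT.nd (nat_lit 78) (nat_lit 0) (nat_lit 76) (XT.lf (nat_lit 0) (nat_lit 1937696156) (nat_lit 1824) (nat_lit 2228215411) (nat_lit 1900) (nat_lit 28118556602) (nat_lit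 446) (nat_lit 5) (nat_lit 470) (nat_lit 5) (nat_lit 471) (nat_lit 5) (nat_lit 629) (nat_lit 620) (nat_lit 311)) (XT.lf (nat_lit 0) (nat_lit 3024405223) (nat_lit 1824) (nat_lit 18366824183) (nat_lit 1900) (nat_lit 11223454682) (nat_lit 447) (nat_lit 5) (nat_lit 471) (nat_lit 5) (nat_lit 472) (nat_lit 5) (nat_lit 630) (nat_lit 620) (nat_lit 310))) (XT.nd (nat_lit 78) (nat_lit 0) (nat_lit 76) (XT.lf (nat_lit 0) (nat_lit 4173822559) (nat_lit 1824) (nat_lit 1896331826) (nat_lit 1900) (nat_lit 26880530711) (nat_lit 447) (nat_lit 5) (nat_lit 471) (nat_lit 5) (nat_lit 472) (nat_lit 5) (nat_lit 631) (nat_lit 620) (nat_lit 309)) (XT.nd (nat_lit 78) (nat_lit 0) (nat_lit 0) (XT.lf (nat_lit 0) (nat_lit 5505342876) (nat_lit 1824) (nat_lit 18253644961) (nat_lit 1900) (nat_lit 9531236242) (nat_lit 448) (nat_lit 5) (nat_lit 472) (nat_lit 5) (nat_lit 473) (nat_lit 5) (nat_lit 632) (nat_lit 620) (nat_lit 308)) (XT.lf (nat_lit 0)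 (nat_lit 6914897945) (nat_lit 1824) (nat_lit 1343836486) (nat_lit 1900) (nat_lit 25376791567) (nat_lit 448) (nat_lit 5) (nat_lit 472) (nat_lit 5) (nat_lit 473) (nat_lit 5) (nat_lit 633) (nat_lit 620) (nat_lit 307))))))) (XT.nd (nat_lit 80808) (nat_lit 0) (nat_lit 76) (XT.nd (nat_lit 80418) (nat_lit 304) (nat_lit 0) (XT.nd (nat_lit 80262) (nat_lit 0) (nat_lit 1368) (XT.nd (nat_lit 80184) (nat_lit 0) (nat_lit 1368) (XT.lf (nat_lit 0) (nat_lit 8505421682) (nat_lit 1824) (nat_lit 17920971991) (nat_lit 1900) (nat_lit 7558284971) (nat_lit 449) (nat_lit 5) (nat_lit 473) (nat_lit 5) (nat_lit 474) (nat_lit 5) (nat_lit 634) (nat_lit 620) (nat_lit 306)) (XT.lf (nat_lit 0) (nat_lit 6902174583) (nat_lit 0) (nat_lit 6902174583) (nat_lit 1748) (nat_lit 1239719689) (nat_lit 467) (nat_lit 5) (nat_lit 467) (nat_lit 3) (nat_lit 490) (nat_lit 3) (nat_lit 621) (nat_lit 621) (nat_lit 318))) (XT.nd (nat_lit 78) (nat_lit 0) (nat_lit 0)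 (XT.lf (nat_lit 0) (nat_lit 27962681616) (nat_lit 1748) (nat_lit 1547083910) (nat_lit 1824) (nat_lit 877684340) (nat_lit 467) (nat_lit 5) (nat_lit 490) (nat_lit 3) (nat_lit 491) (nat_lit 5) (nat_lit 622) (nat_lit 621) (nat_lit 317)) (XT.lf (nat_lit 76) (nat_lit 13569917022) (nat_lit 0) (nat_lit 14931466329) (nat_lit 1824) (nat_lit 2187812432) (nat_lit 468) (nat_lit 5) (nat_lit 467) (nat_lit 5) (nat_lit 491) (nat_lit 5) (nat_lit 623) (nat_lit 621) (nat_lit 316)))) (XT.nd (nat_lit 156) (nat_lit 1672) (nat_lit 0) (XT.nd (nat_lit 78) (nat_lit 0) (nat_lit 76) (XT.lf (nat_lit 76) (nat_lit 29009245450) (nat_lit 0) (nat_lit 50140358) (nat_lit 1824) (nat_lit 1937420567) (nat_lit 468) (nat_lit 5) (nat_lit 467) (nat_lit 5) (nat_lit 491) (nat_lit 5) (nat_lit 624) (nat_lit 621) (nat_lit 315)) (XT.lf (nat_lit 76) (nat_lit 13524940438) (nat_lit 0) (nat_lit 16287833906) (nat_lit 1824) (nat_lit 1494110600) (nat_lit 469) (nat_lit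 5) (nat_lit 468) (nat_lit 5) (nat_lit 492) (nat_lit 5) (nat_lit 625) (nat_lit 621) (nat_lit 314))) (XT.nd (nat_lit 78) (nat_lit 1748) (nat_lit 0) (XT.lf (nat_lit 76) (nat_lit 29373297325) (nat_lit 0) (nat_lit 1219816697) (nat_lit 1824) (nat_lit 1029813674) (nat_lit 469) (nat_lit 5) (nat_lit 468) (nat_lit 5) (nat_lit 492) (nat_lit 5) (nat_lit 626) (nat_lit 621) (nat_lit 313)) (XT.nd (nat_lit 78) (nat_lit 1824) (nat_lit 0) (XT.lf (nat_lit 76) (nat_lit 13679854879) (nat_lit 0) (nat_lit 17888148533) (nat_lit 1824) (nat_lit 373709305) (nat_lit 470) (nat_lit 5) (nat_lit 469) (nat_lit 5) (nat_lit 493) (nat_lit 5) (nat_lit 627) (nat_lit 621) (nat_lit 312)) (XT.lf (nat_lit 0) (nat_lit 313187702) (nat_lit 1824) (nat_lit 2319281377) (nat_lit 1900) (nat_lit 29633935324) (nat_lit 445) (nat_lit 5) (nat_lit 469) (nat_lit 5) (nat_lit 470) (nat_lit 5) (nat_lit 628) (nat_lit 621) (nat_lit 311)))))) (XT.nd (nat_lit 80652) (nat_lit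 0) (nat_lit 1596) (XT.nd (nat_lit 156) (nat_lit 0) (nat_lit 76) (XT.nd (nat_lit 78) (nat_lit 0) (nat_lit 0) (XT.lf (nat_lit 0) (nat_lit 1183398137) (nat_lit 1824) (nat_lit 18556415536) (nat_lit 1900) (nat_lit 12854235513) (nat_lit 446) (nat_lit 5) (nat_lit 470) (nat_lit 5) (nat_lit 471) (nat_lit 5) (nat_lit 629) (nat_lit 621) (nat_lit 310)) (XT.lf (nat_lit 0) (nat_lit 2102449714) (nat_lit 1824) (nat_lit 2193394737) (nat_lit 1900) (nat_lit 28631773929) (nat_lit 446) (nat_lit 5) (nat_lit 470) (nat_lit 5) (nat_lit 471) (nat_lit 5) (nat_lit 630) (nat_lit 621) (nat_lit 309))) (XT.nd (nat_lit 78) (nat_lit 0) (nat_lit 0) (XT.lf (nat_lit 0) (nat_lit 3208641082) (nat_lit 1824) (nat_lit 18652505020) (nat_lit 1900) (nat_lit 11403337929) (nat_lit 447) (nat_lit 5) (nat_lit 471) (nat_lit 5) (nat_lit 472) (nat_lit 5) (nat_lit 631) (nat_lit 621) (nat_lit 308)) (XT.nd (nat_lit 78) (nat_lit 0) (nat_lit 76) (XT.lf (nat_lit 0) (nat_lit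 4378620338) (nat_lit 1824) (nat_lit 1854203907) (nat_lit 1900) (nat_lit 27374429710) (nat_lit 447) (nat_lit 5) (nat_lit 471) (nat_lit 5) (nat_lit 472) (nat_lit 5) (nat_lit 632) (nat_lit 621) (nat_lit 307)) (XT.lf (nat_lit 0) (nat_lit 5734649302) (nat_lit 1824) (nat_lit 18536523490) (nat_lit 1900) (nat_lit 9682453723) (nat_lit 448) (nat_lit 5) (nat_lit 472) (nat_lit 5) (nat_lit 473) (nat_lit 5) (nat_lit 633) (nat_lit 621) (nat_lit 306))))) (XT.nd (nat_lit 156) (nat_lit 0) (nat_lit 0) (XT.nd (nat_lit 78) (nat_lit 0) (nat_lit 0) (XT.lf (nat_lit 0) (nat_lit 7076044973) (nat_lit 0) (nat_lit 7076044973) (nat_lit 1748) (nat_lit 1191415987) (nat_lit 467) (nat_lit 5) (nat_lit 467) (nat_lit 3) (nat_lit 490) (nat_lit 3) (nat_lit 622) (nat_lit 622) (nat_lit 316)) (XT.lf (nat_lit 0) (nat_lit 28661976786) (nat_lit 1748) (nat_lit 1504488706) (nat_lit 1824) (nat_lit 825910533) (nat_lit 467) (nat_lit 5) (nat_lit 490) (nat_lit 3)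 (nat_lit 491) (nat_lit 5) (nat_lit 623) (nat_lit 622) (nat_lit 315))) (XT.nd (nat_lit 78) (nat_lit 0) (nat_lit 0) (XT.lf (nat_lit 76) (nat_lit 13914368450) (nat_lit 0) (nat_lit 15294812502) (nat_lit 1824) (nat_lit 2091021772) (nat_lit 468) (nat_lit 5) (nat_lit 467) (nat_lit 5) (nat_lit 491) (nat_lit 5) (nat_lit 624) (nat_lit 622) (nat_lit 314)) (XT.nd (nat_lit 78) (nat_lit 0) (nat_lit 76) (XT.lf (nat_lit 76) (nat_lit 29661051033) (nat_lit 0) (nat_lit 114591054) (nat_lit 1824) (nat_lit 1838377891) (nat_lit 468) (nat_lit 5) (nat_lit 467) (nat_lit 5) (nat_lit 491) (nat_lit 5) (nat_lit 625) (nat_lit 622) (nat_lit 313)) (XT.lf (nat_lit 76) (nat_lit 13869702582) (nat_lit 0) (nat_lit 16671825707) (nat_lit 1824) (nat_lit 1388823646) (nat_lit 469) (nat_lit 5) (nat_lit 468) (nat_lit 5) (nat_lit 492) (nat_lit 5) (nat_lit 626) (nat_lit 622) (nat_lit 312))))))))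
noncomputable def xc255 : XT := (XT.nd (nat_lit 162318) (nat_lit 0) (nat_lit 0) (XT.nd (nat_lit 81042) (nat_lit 0) (nat_lit 0) (XT.nd (nat_lit 312) (nat_lit 0) (nat_lit 76) (XT.nd (nat_lit 156) (nat_lit 1748) (nat_lit 0) (XT.nd (nat_lit 78) (nat_lit 0) (nat_lit 76) (XT.lf (nat_lit 76) (nat_lit 30033570462) (nat_lit 0) (nat_lit 1301306289) (nat_lit 1824) (nat_lit 917891157) (nat_lit 469) (nat_lit 5) (nat_lit 468) (nat_lit 5) (nat_lit 492) (nat_lit 5) (nat_lit 627) (nat_lit 622) (nat_lit 311)) (XT.lf (nat_lit 76) (nat_lit 14028749537) (nat_lit 0) (nat_lit 18298092788) (nat_lit 1824) (nat_lit 251135136) (nat_lit 470) (nat_lit 5) (nat_lit 469) (nat_lit 5) (nat_lit 493) (nat_lit 5) (nat_lit 628) (nat_lit 622) (nat_lit 310))) (XT.nd (nat_lit 78) (nat_lit 0) (nat_lit 76) (XT.lf (nat_lit 0) (nat_lit 445277678) (nat_lit 1824) (nat_lit 2290154543) (nat_lit 1900) (nat_lit 30173764585) (nat_lit 445) (nat_lit 5) (nat_lit 469)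 (nat_lit 5) (nat_lit 470) (nat_lit 5) (nat_lit 629) (nat_lit 622) (nat_lit 309)) (XT.lf (nat_lit 0) (nat_lit 1330595154) (nat_lit 1824) (nat_lit 18849715432) (nat_lit 1900) (nat_lit 13063130219) (nat_lit 446) (nat_lit 5) (nat_lit 470) (nat_lit 5) (nat_lit 471) (nat_lit 5) (nat_lit 630) (nat_lit 622) (nat_lit 308)))) (XT.nd (nat_lit 156) (nat_lit 0) (nat_lit 76) (XT.nd (nat_lit 78) (nat_lit 0) (nat_lit 76) (XT.lf (nat_lit 0) (nat_lit 2265605623) (nat_lit 1824) (nat_lit 2160960265) (nat_lit 1900) (nat_lit 29157164306) (nat_lit 446) (nat_lit 5) (nat_lit 470) (nat_lit 5) (nat_lit 471) (nat_lit 5) (nat_lit 631) (nat_lit 622) (nat_lit 307)) (XT.lf (nat_lit 0) (nat_lit 3391756382) (nat_lit 1824) (nat_lit 18947070262) (nat_lit 1900) (nat_lit 11588550163) (nat_lit 447) (nat_lit 5) (nat_lit 471) (nat_lit 5) (nat_lit 472) (nat_lit 5) (nat_lit 632) (nat_lit 622) (nat_lit 306))) (XT.nd (nat_lit 80418) (nat_lit 0) (nat_lit 1520)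 (XT.lf (nat_lit 0) (nat_lit 4582803018) (nat_lit 1824) (nat_lit 1814342046) (nat_lit 1900) (nat_lit 27879904065) (nat_lit 447) (nat_lit 5) (nat_lit 471) (nat_lit 5) (nat_lit 472) (nat_lit 5) (nat_lit 633) (nat_lit 622) (nat_lit 305)) (XT.nd (nat_lit 78) (nat_lit 0) (nat_lit 0) (XT.lf (nat_lit 0) (nat_lit 7252001568) (nat_lit 0) (nat_lit 7252001568) (nat_lit 1748) (nat_lit 1144984699) (nat_lit 467) (nat_lit 5) (nat_lit 467) (nat_lit 3) (nat_lit 490) (nat_lit 3) (nat_lit 623) (nat_lit 623) (nat_lit 314)) (XT.lf (nat_lit 0) (nat_lit 29369819875) (nat_lit 1748) (nat_lit 1463897124) (nat_lit 1824) (nat_lit 775793321) (nat_lit 467) (nat_lit 5) (nat_lit 490) (nat_lit 3) (nat_lit 491) (nat_lit 5) (nat_lit 624) (nat_lit 623) (nat_lit 313)))))) (XT.nd (nat_lit 390) (nat_lit 1672) (nat_lit 0) (XT.nd (nat_lit 156) (nat_lit 0) (nat_lit 76) (XT.nd (nat_lit 78) (nat_lit 0) (nat_lit 0) (XT.lf (nat_lit 76) (nat_lit 14262872166)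 (nat_lit 0) (nat_lit 15662912564) (nat_lit 1824) (nat_lit 1997752906) (nat_lit 468) (nat_lit 5) (nat_lit 467) (nat_lit 5) (nat_lit 491) (nat_lit 5) (nat_lit 625) (nat_lit 623) (nat_lit 312)) (XT.lf (nat_lit 76) (nat_lit 30323111610) (nat_lit 0) (nat_lit 177867004) (nat_lit 1824) (nat_lit 1742704957) (nat_lit 468) (nat_lit 5) (nat_lit 467) (nat_lit 5) (nat_lit 491) (nat_lit 5) (nat_lit 626) (nat_lit 623) (nat_lit 311))) (XT.nd (nat_lit 78) (nat_lit 0) (nat_lit 0) (XT.lf (nat_lit 76) (nat_lit 14218476232) (nat_lit 0) (nat_lit 17061236003) (nat_lit 1824) (nat_lit 1286679736) (nat_lit 469) (nat_lit 5) (nat_lit 468) (nat_lit 5) (nat_lit 492) (nat_lit 5) (nat_lit 627) (nat_lit 623) (nat_lit 310)) (XT.nd (nat_lit 78) (nat_lit 0) (nat_lit 76) (XT.lf (nat_lit 76) (nat_lit 30704221870) (nat_lit 0) (nat_lit 1382208671) (nat_lit 1824) (nat_lit 808876056) (nat_lit 469) (nat_lit 5) (nat_lit 468) (nat_lit 5) (nat_lit 492) (nat_lit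 5) (nat_lit 628) (nat_lit 623) (nat_lit 309)) (XT.lf (nat_lit 76) (nat_lit 14381698192) (nat_lit 0) (nat_lit 18714209664) (nat_lit 1824) (nat_lit 131159421) (nat_lit 470) (nat_lit 5) (nat_lit 469) (nat_lit 5) (nat_lit 493) (nat_lit 5) (nat_lit 629) (nat_lit 623) (nat_lit 308))))) (XT.nd (nat_lit 156) (nat_lit 0) (nat_lit 76) (XT.nd (nat_lit 78) (nat_lit 0) (nat_lit 76) (XT.lf (nat_lit 0) (nat_lit 575123469) (nat_lit 1824) (nat_lit 2263377414) (nat_lit 1900) (nat_lit 30726442640) (nat_lit 445) (nat_lit 5) (nat_lit 469) (nat_lit 5) (nat_lit 470) (nat_lit 5) (nat_lit 630) (nat_lit 623) (nat_lit 307)) (XT.lf (nat_lit 0) (nat_lit 1475939327) (nat_lit 1824) (nat_lit 19151903499) (nat_lit 1900) (nat_lit 13278074096) (nat_lit 446) (nat_lit 5) (nat_lit 470) (nat_lit 5) (nat_lit 471) (nat_lit 5) (nat_lit 631) (nat_lit 623) (nat_lit 306))) (XT.nd (nat_lit 80574) (nat_lit 0) (nat_lit 1596) (XT.lf (nat_lit 0) (nat_lit 2427321922)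 (nat_lit 1824) (nat_lit 2130840017) (nat_lit 1900) (nat_lit 29694897075) (nat_lit 446) (nat_lit 5) (nat_lit 470) (nat_lit 5) (nat_lit 471) (nat_lit 5) (nat_lit 632) (nat_lit 623) (nat_lit 305)) (XT.nd (nat_lit 78) (nat_lit 0) (nat_lit 0) (XT.lf (nat_lit 0) (nat_lit 7430140115) (nat_lit 0) (nat_lit 7430140115) (nat_lit 1748) (nat_lit 1100353051) (nat_lit 467) (nat_lit 5) (nat_lit 467) (nat_lit 3) (nat_lit 490) (nat_lit 3) (nat_lit 624) (nat_lit 624) (nat_lit 312)) (XT.lf (nat_lit 0) (nat_lit 30086593006) (nat_lit 1748) (nat_lit 1425238354) (nat_lit 1824) (nat_lit 727261300) (nat_lit 467) (nat_lit 5) (nat_lit 490) (nat_lit 3) (nat_lit 491) (nat_lit 5) (nat_lit 625) (nat_lit 624) (nat_lit 311))))))) (XT.nd (nat_lit 81354) (nat_lit 0) (nat_lit 1672) (XT.nd (nat_lit 312) (nat_lit 1672) (nat_lit 0) (XT.nd (nat_lit 156) (nat_lit 0) (nat_lit 76) (XT.nd (nat_lit 78) (nat_lit 0) (nat_lit 0) (XT.lf (nat_lit 76) (nat_lit 14615619370)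 (nat_lit 0) (nat_lit 16035959177) (nat_lit 1824) (nat_lit 1907864345) (nat_lit 468) (nat_lit 5) (nat_lit 467) (nat_lit 5) (nat_lit 491) (nat_lit 5) (nat_lit 626) (nat_lit 624) (nat_lit 310)) (XT.lf (nat_lit 76) (nat_lit 30995740274) (nat_lit 0) (nat_lit 240040386) (nat_lit 1824) (nat_lit 1650261390) (nat_lit 468) (nat_lit 5) (nat_lit 467) (nat_lit 5) (nat_lit 491) (nat_lit 5) (nat_lit 627) (nat_lit 624) (nat_lit 309))) (XT.nd (nat_lit 78) (nat_lit 0) (nat_lit 0) (XT.lf (nat_lit 76) (nat_lit 14571453599) (nat_lit 0) (nat_lit 17456260975) (nat_lit 1824) (nat_lit 1187537916) (nat_lit 469) (nat_lit 5) (nat_lit 468) (nat_lit 5) (nat_lit 492) (nat_lit 5) (nat_lit 628) (nat_lit 624) (nat_lit 308)) (XT.lf (nat_lit 76) (nat_lit 31385568898) (nat_lit 0) (nat_lit 1462598190) (nat_lit 1824) (nat_lit 702626700) (nat_lit 469) (nat_lit 5) (nat_lit 468) (nat_lit 5) (nat_lit 492) (nat_lit 5) (nat_lit 629) (nat_lit 624) (nat_lit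 307)))) (XT.nd (nat_lit 80808) (nat_lit 0) (nat_lit 1672) (XT.nd (nat_lit 78) (nat_lit 1824) (nat_lit 0) (XT.lf (nat_lit 76) (nat_lit 14738895462) (nat_lit 0) (nat_lit 19136701298) (nat_lit 1824) (nat_lit 13638032) (nat_lit 470) (nat_lit 5) (nat_lit 469) (nat_lit 5) (nat_lit 493) (nat_lit 5) (nat_lit 630) (nat_lit 624) (nat_lit 306)) (XT.lf (nat_lit 0) (nat_lit 702869918) (nat_lit 1824) (nat_lit 2238883120) (nat_lit 1900) (nat_lit 31292146775) (nat_lit 445) (nat_lit 5) (nat_lit 469) (nat_lit 5) (nat_lit 470) (nat_lit 5) (nat_lit 631) (nat_lit 624) (nat_lit 305))) (XT.nd (nat_lit 78) (nat_lit 0) (nat_lit 0) (XT.lf (nat_lit 0) (nat_lit 7610556177) (nat_lit 0) (nat_lit 7610556177) (nat_lit 1748) (nat_lit 1057451095) (nat_lit 467) (nat_lit 5) (nat_lit 467) (nat_lit 3) (nat_lit 490) (nat_lit 3) (nat_lit 625) (nat_lit 625) (nat_lit 310)) (XT.nd (nat_lit 78) (nat_lit 0) (nat_lit 0) (XT.lf (nat_lit 0) (nat_lit 30812677743)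 (nat_lit 1748) (nat_lit 1388444473) (nat_lit 1824) (nat_lit 680245695) (nat_lit 467) (nat_lit 5) (nat_lit 490) (nat_lit 3) (nat_lit 491) (nat_lit 5) (nat_lit 626) (nat_lit 625) (nat_lit 309)) (XT.lf (nat_lit 76) (nat_lit 14972800808) (nat_lit 0) (nat_lit 16414145068) (nat_lit 1824) (nat_lit 1821219998) (nat_lit 468) (nat_lit 5) (nat_lit 467) (nat_lit 5) (nat_lit 491) (nat_lit 5) (nat_lit 627) (nat_lit 625) (nat_lit 308)))))) (XT.nd (nat_lit 81198) (nat_lit 0) (nat_lit 0) (XT.nd (nat_lit 156) (nat_lit 0) (nat_lit 0) (XT.nd (nat_lit 78) (nat_lit 0) (nat_lit 76) (XT.lf (nat_lit 76) (nat_lit 31679252188) (nat_lit 0) (nat_lit 301181103) (nat_lit 1824) (nat_lit 1560912076) (nat_lit 468) (nat_lit 5) (nat_lit 467) (nat_lit 5) (nat_lit 491) (nat_lit 5) (nat_lit 628) (nat_lit 625) (nat_lit 307)) (XT.lf (nat_lit 76) (nat_lit 14928826387) (nat_lit 0) (nat_lit 17857097317) (nat_lit 1824) (nat_lit 1091262323) (nat_lit 469) (nat_lit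 5) (nat_lit 468) (nat_lit 5) (nat_lit 492) (nat_lit 5) (nat_lit 629) (nat_lit 625) (nat_lit 306))) (XT.nd (nat_lit 80886) (nat_lit 76) (nat_lit 0) (XT.lf (nat_lit 76) (nat_lit 32077930978) (nat_lit 0) (nat_lit 1542547333) (nat_lit 1824) (nat_lit 599006340) (nat_lit 469) (nat_lit 5) (nat_lit 468) (nat_lit 5) (nat_lit 492) (nat_lit 5) (nat_lit 630) (nat_lit 625) (nat_lit 305)) (XT.nd (nat_lit 78) (nat_lit 0) (nat_lit 0) (XT.lf (nat_lit 0) (nat_lit 7793345213) (nat_lit 0) (nat_lit 7793345213) (nat_lit 1748) (nat_lit 1016211595) (nat_lit 467) (nat_lit 5) (nat_lit 467) (nat_lit 3) (nat_lit 490) (nat_lit 3) (nat_lit 626) (nat_lit 626) (nat_lit 308)) (XT.lf (nat_lit 0) (nat_lit 31548455401) (nat_lit 1748) (nat_lit 1353450342) (nat_lit 1824) (nat_lit 634680261) (nat_lit 467) (nat_lit 5) (nat_lit 490) (nat_lit 3) (nat_lit 491) (nat_lit 5) (nat_lit 627) (nat_lit 626) (nat_lit 307))))) (XT.nd (nat_lit 156) (nat_lit 0) (nat_lit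 0) (XT.nd (nat_lit 78) (nat_lit 0) (nat_lit 0) (XT.lf (nat_lit 76) (nat_lit 15334606931) (nat_lit 0) (nat_lit 16797663175) (nat_lit 1824) (nat_lit 1737688965) (nat_lit 468) (nat_lit 5) (nat_lit 467) (nat_lit 5) (nat_lit 491) (nat_lit 5) (nat_lit 628) (nat_lit 626) (nat_lit 306)) (XT.lf (nat_lit 76) (nat_lit 32373964787) (nat_lit 0) (nat_lit 361356887) (nat_lit 1824) (nat_lit 1474526951) (nat_lit 468) (nat_lit 5) (nat_lit 467) (nat_lit 5) (nat_lit 491) (nat_lit 5) (nat_lit 629) (nat_lit 626) (nat_lit 305))) (XT.nd (nat_lit 81042) (nat_lit 76) (nat_lit 0) (XT.lf (nat_lit 76) (nat_lit 15290785955) (nat_lit 0) (nat_lit 18263942380) (nat_lit 1824) (nat_lit 997721988) (nat_lit 469) (nat_lit 5) (nat_lit 468) (nat_lit 5) (nat_lit 492) (nat_lit 5) (nat_lit 630) (nat_lit 626) (nat_lit 304)) (XT.nd (nat_lit 78) (nat_lit 0) (nat_lit 0) (XT.lf (nat_lit 0) (nat_lit 32294307346) (nat_lit 1748) (nat_lit 1320193492) (nat_lit 1824)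 (nat_lit 590501175) (nat_lit 467) (nat_lit 5) (nat_lit 490) (nat_lit 3) (nat_lit 491) (nat_lit 5) (nat_lit 628) (nat_lit 627) (nat_lit 305)) (XT.lf (nat_lit 76) (nat_lit 15701228046) (nat_lit 0) (nat_lit 17186706793) (nat_lit 1824) (nat_lit 1657145326) (nat_lit 468) (nat_lit 5) (nat_lit 467) (nat_lit 5) (nat_lit 491) (nat_lit 5) (nat_lit 629) (nat_lit 627) (nat_lit 304))))))))

set_option maxRecDepth 10000000 in
noncomputable def Tp : PT := (PT.nd (nat_lit 21620274) (PT.nd (nat_lit 19914102) (PT.nd (nat_lit 18372744) (PT.nd (nat_lit 17155086) (PT.nd (nat_lit 16262298) (PT.nd (nat_lit 15613026) pc0 pc1) (PT.nd (nat_lit 486954) pc2 pc3)) (PT.nd (nat_lit 649740) (PT.nd (nat_lit 405210) pc4 pc5) (PT.nd (nat_lit 324090) pc6 pc7))) (PT.nd (nat_lit 892008) (PT.nd (nat_lit 486408) (PT.nd (nat_lit 243360) pc8 pc9) (PT.nd (nat_lit 163254) pc10 pc11)) (PT.nd (nat_lit 325260) (PT.nd (nat_lit 162786) pc12 pc13) (PT.nd (nat_lit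 162162) pc14 pc15)))) (PT.nd (nat_lit 974766) (PT.nd (nat_lit 567138) (PT.nd (nat_lit 244920) (PT.nd (nat_lit 161772) pc16 pc17) (PT.nd (nat_lit 161382) pc18 pc19)) (PT.nd (nat_lit 165126) (PT.nd (nat_lit 82602) pc20 pc21) (PT.nd (nat_lit 160134) pc22 pc23))) (PT.nd (nat_lit 405366) (PT.nd (nat_lit 241722) (PT.nd (nat_lit 82212) pc24 pc25) (PT.nd (nat_lit 81900) pc26 pc27)) (PT.nd (nat_lit 163254) (PT.nd (nat_lit 81666) pc28 pc29) (PT.nd (nat_lit 81432) pc30 pc31))))) (PT.nd (nat_lit 1134276) (PT.nd (nat_lit 646152) (PT.nd (nat_lit 324090) (PT.nd (nat_lit 162318) (PT.nd (nat_lit 81198) pc32 pc33) (PT.nd (nat_lit 80964) pc34 pc35)) (PT.nd (nat_lit 161304) (PT.nd (nat_lit 80730) pc36 pc37) (PT.nd (nat_lit 80418) pc38 pc39))) (PT.nd (nat_lit 244686) (PT.nd (nat_lit 84786) (PT.nd (nat_lit 80106) pc40 pc41) (PT.nd (nat_lit 80028) pc42 pc43)) (PT.nd (nat_lit 84396) (PT.nd (nat_lit 79716) pc44 pc45) (PT.nd (nat_lit 79560)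 pc46 pc47)))) (PT.nd (nat_lit 484926) (PT.nd (nat_lit 241956) (PT.nd (nat_lit 83928) (PT.nd (nat_lit 79248) pc48 pc49) (PT.nd (nat_lit 79092) pc50 pc51)) (PT.nd (nat_lit 83850) (PT.nd (nat_lit 4680) pc52 pc53) (PT.nd (nat_lit 78624) pc54 pc55))) (PT.nd (nat_lit 404898) (PT.nd (nat_lit 162552) (PT.nd (nat_lit 80964) pc56 pc57) (PT.nd (nat_lit 86424) pc58 pc59)) (PT.nd (nat_lit 251082) (PT.nd (nat_lit 88608) pc60 pc61) (PT.nd (nat_lit 243282) pc62 pc63))))))

set_option maxRecDepth 10000000 in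
noncomputable def Tx : XT := (XT.nd (nat_lit 38049414) (nat_lit 0) (nat_lit 4636) XT.nil (XT.nd (nat_lit 12910872) (nat_lit 0) (nat_lit 0) (XT.nd (nat_lit 6085638) (nat_lit 0) (nat_lit 5320) (XT.nd (nat_lit 3971682) (nat_lit 0) (nat_lit 4408) (XT.nd (nat_lit 2756988) (nat_lit 0) (nat_lit 1976) (XT.nd (nat_lit 1867398) (nat_lit 0) (nat_lit 912) (XT.nd (nat_lit 1298310) (nat_lit 0) (nat_lit 684) (XT.nd (nat_lit 892164) (nat_lit 0) (nat_lit 456) (XT.nd (nat_lit 568230) (nat_lit 0) (nat_lit 0) (XT.nd (nat_lit 405366) (nat_lit 0) (nat_lit 0) xc0 xc1) (XT.nd (nat_lit 162240) (nat_lit 0) (nat_lit 152) xc2 xc3)) (XT.nd (nat_lit 242970) (nat_lit 0) (nat_lit 0) (XT.nd (nat_lit 82134) (nat_lit 0) (nat_lit 0) xc4 xc5) (XT.nd (nat_lit 81666) (nat_lit 0) (nat_lit 0) xc6 xc7))) (XT.nd (nat_lit 324402) (nat_lit 0) (nat_lit 0) (XT.nd (nat_lit 162474) (nat_lit 0) (nat_lit 0) (XT.nd (nat_lit 81276) (nat_lit 0) (nat_lit 0) xc8 xc9)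 (XT.nd (nat_lit 81042) (nat_lit 0) (nat_lit 0) xc10 xc11)) (XT.nd (nat_lit 161304) (nat_lit 0) (nat_lit 228) (XT.nd (nat_lit 80730) (nat_lit 0) (nat_lit 228) xc12 xc13) (XT.nd (nat_lit 80418) (nat_lit 0) (nat_lit 532) xc14 xc15)))) (XT.nd (nat_lit 485316) (nat_lit 0) (nat_lit 532) (XT.nd (nat_lit 243204) (nat_lit 0) (nat_lit 532) (XT.nd (nat_lit 160290) (nat_lit 0) (nat_lit 228) (XT.nd (nat_lit 80184) (nat_lit 0) (nat_lit 0) xc16 xc17) (XT.nd (nat_lit 79950) (nat_lit 0) (nat_lit 1672) xc18 xc19)) (XT.nd (nat_lit 159588) (nat_lit 0) (nat_lit 0) (XT.nd (nat_lit 79872) (nat_lit 0) (nat_lit 0) xc20 xc21) (XT.nd (nat_lit 2964) (nat_lit 1140) (nat_lit 0) xc22 xc23))) (XT.nd (nat_lit 240630) (nat_lit 0) (nat_lit 228) (XT.nd (nat_lit 82290) (nat_lit 0) (nat_lit 228) (XT.nd (nat_lit 79326) (nat_lit 0) (nat_lit 2660) xc24 xc25) (XT.nd (nat_lit 79248) (nat_lit 0) (nat_lit 0) xc26 xc27)) (XT.nd (nat_lit 81900) (nat_lit 0)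 (nat_lit 304) (XT.nd (nat_lit 2964) (nat_lit 6764) (nat_lit 0) xc28 xc29) (XT.nd (nat_lit 2964) (nat_lit 3876) (nat_lit 0) xc30 xc31))))) (XT.nd (nat_lit 648726) (nat_lit 0) (nat_lit 1140) (XT.nd (nat_lit 325572) (nat_lit 0) (nat_lit 532) (XT.nd (nat_lit 163020) (nat_lit 0) (nat_lit 228) (XT.nd (nat_lit 81510) (nat_lit 0) (nat_lit 228) (XT.nd (nat_lit 2886) (nat_lit 2432) (nat_lit 0) xc32 xc33) (XT.nd (nat_lit 2964) (nat_lit 1216) (nat_lit 0) xc34 xc35)) (XT.nd (nat_lit 81354) (nat_lit 0) (nat_lit 304) (XT.nd (nat_lit 2964) (nat_lit 380) (nat_lit 0) xc36 xc37) (XT.nd (nat_lit 78234) (nat_lit 0) (nat_lit 11552) xc38 xc39))) (XT.nd (nat_lit 161850) (nat_lit 0) (nat_lit 304) (XT.nd (nat_lit 80964) (nat_lit 0) (nat_lit 76) (XT.nd (nat_lit 78000) (nat_lit 0) (nat_lit 12768) xc40 xc41) (XT.nd (nat_lit 2964) (nat_lit 532) (nat_lit 0) xc42 xc43)) (XT.nd (nat_lit 80730) (nat_lit 0) (nat_lit 0) (XT.nd (nat_lit 2964) (nat_lit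 1292) (nat_lit 0) xc44 xc45) (XT.nd (nat_lit 2964) (nat_lit 2660) (nat_lit 0) xc46 xc47)))) (XT.nd (nat_lit 246870) (nat_lit 0) (nat_lit 304) (XT.nd (nat_lit 160758) (nat_lit 0) (nat_lit 304) (XT.nd (nat_lit 80418) (nat_lit 0) (nat_lit 228) (XT.nd (nat_lit 2886) (nat_lit 5244) (nat_lit 0) xc48 xc49) (XT.nd (nat_lit 2964) (nat_lit 8436) (nat_lit 0) xc50 xc51)) (XT.nd (nat_lit 5928) (nat_lit 304) (nat_lit 0) (XT.nd (nat_lit 2964) (nat_lit 12768) (nat_lit 0) xc52 xc53) (XT.nd (nat_lit 77220) (nat_lit 0) (nat_lit 3952) xc54 xc55))) (XT.nd (nat_lit 159822) (nat_lit 0) (nat_lit 304) (XT.nd (nat_lit 79950) (nat_lit 0) (nat_lit 304) (XT.nd (nat_lit 76986) (nat_lit 0) (nat_lit 9424) xc56 xc57) (XT.nd (nat_lit 76908) (nat_lit 0) (nat_lit 17100) xc58 xc59)) (XT.nd (nat_lit 79716) (nat_lit 0) (nat_lit 304) (XT.nd (nat_lit 2964) (nat_lit 2432) (nat_lit 0) xc60 xc61) (XT.nd (nat_lit 2964) (nat_lit 8284) (nat_lit 0) xc62 xc63))))))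 (XT.nd (nat_lit 978042) (nat_lit 0) (nat_lit 912) (XT.nd (nat_lit 487734) (nat_lit 0) (nat_lit 988) (XT.nd (nat_lit 243828) (nat_lit 0) (nat_lit 304) (XT.nd (nat_lit 85332) (nat_lit 0) (nat_lit 0) (XT.nd (nat_lit 5850) (nat_lit 2964) (nat_lit 0) (XT.nd (nat_lit 2886) (nat_lit 15884) (nat_lit 0) xc64 xc65) (XT.nd (nat_lit 76518) (nat_lit 0) (nat_lit 10792) xc66 xc67)) (XT.nd (nat_lit 79326) (nat_lit 0) (nat_lit 304) (XT.nd (nat_lit 76362) (nat_lit 0) (nat_lit 23256) xc68 xc69) (XT.nd (nat_lit 2964) (nat_lit 5472) (nat_lit 0) xc70 xc71))) (XT.nd (nat_lit 85098) (nat_lit 0) (nat_lit 304) (XT.nd (nat_lit 5850) (nat_lit 2280) (nat_lit 0) (XT.nd (nat_lit 2886) (nat_lit 14592) (nat_lit 0) xc72 xc73) (XT.nd (nat_lit 76284) (nat_lit 0) (nat_lit 11096) xc74 xc75)) (XT.nd (nat_lit 79326) (nat_lit 0) (nat_lit 380) (XT.nd (nat_lit 76362) (nat_lit 0) (nat_lit 23636) xc76 xc77) (XT.nd (nat_lit 2964) (nat_lit 5244) (nat_lit 0)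 xc78 xc79)))) (XT.nd (nat_lit 244764) (nat_lit 0) (nat_lit 380) (XT.nd (nat_lit 85410) (nat_lit 0) (nat_lit 380) (XT.nd (nat_lit 5850) (nat_lit 1140) (nat_lit 0) (XT.nd (nat_lit 2886) (nat_lit 13528) (nat_lit 0) xc80 xc81) (XT.nd (nat_lit 76596) (nat_lit 0) (nat_lit 7980) xc82 xc83)) (XT.nd (nat_lit 79638) (nat_lit 0) (nat_lit 0) (XT.nd (nat_lit 76674) (nat_lit 0) (nat_lit 16492) xc84 xc85) (XT.nd (nat_lit 2964) (nat_lit 1596) (nat_lit 0) xc86 xc87))) (XT.nd (nat_lit 85644) (nat_lit 0) (nat_lit 304) (XT.nd (nat_lit 79716) (nat_lit 0) (nat_lit 1976) (XT.nd (nat_lit 2886) (nat_lit 8740) (nat_lit 0) xc88 xc89) (XT.nd (nat_lit 2964) (nat_lit 15352) (nat_lit 0) xc90 xc91)) (XT.nd (nat_lit 79872) (nat_lit 0) (nat_lit 456) (XT.nd (nat_lit 76908) (nat_lit 0) (nat_lit 7828) xc92 xc93) (XT.nd (nat_lit 77064) (nat_lit 0) (nat_lit 14136) xc94 xc95))))) (XT.nd (nat_lit 568152) (nat_lit 1596) (nat_lit 0) (XT.nd (nat_lit 246402)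 (nat_lit 0) (nat_lit 456) (XT.nd (nat_lit 160212) (nat_lit 0) (nat_lit 0) (XT.nd (nat_lit 80028) (nat_lit 0) (nat_lit 0) (XT.nd (nat_lit 2886) (nat_lit 0) (nat_lit 0) xc96 xc97) (XT.nd (nat_lit 2964) (nat_lit 4256) (nat_lit 0) xc98 xc99)) (XT.nd (nat_lit 80262) (nat_lit 0) (nat_lit 836) (XT.nd (nat_lit 2964) (nat_lit 9424) (nat_lit 0) xc100 xc101) (XT.nd (nat_lit 2964) (nat_lit 14440) (nat_lit 0) xc102 xc103))) (XT.nd (nat_lit 160680) (nat_lit 0) (nat_lit 380) (XT.nd (nat_lit 80262) (nat_lit 0) (nat_lit 0) (XT.nd (nat_lit 77298) (nat_lit 0) (nat_lit 4256) xc104 xc105) (XT.nd (nat_lit 77454) (nat_lit 0) (nat_lit 8360) xc106 xc107)) (XT.nd (nat_lit 80496) (nat_lit 0) (nat_lit 0) (XT.nd (nat_lit 77532) (nat_lit 0) (nat_lit 12160) xc108 xc109) (XT.nd (nat_lit 77610) (nat_lit 0) (nat_lit 16112) xc110 xc111)))) (XT.nd (nat_lit 322296) (nat_lit 456) (nat_lit 0) (XT.nd (nat_lit 161304) (nat_lit 2432) (nat_lit 0) (XT.nd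 (nat_lit 80574) (nat_lit 0) (nat_lit 0) (XT.nd (nat_lit 2886) (nat_lit 912) (nat_lit 0) xc112 xc113) (XT.nd (nat_lit 2964) (nat_lit 3420) (nat_lit 0) xc114 xc115)) (XT.nd (nat_lit 80730) (nat_lit 2432) (nat_lit 0) (XT.nd (nat_lit 2964) (nat_lit 5624) (nat_lit 0) xc116 xc117) (XT.nd (nat_lit 2964) (nat_lit 10564) (nat_lit 0) xc118 xc119))) (XT.nd (nat_lit 85800) (nat_lit 0) (nat_lit 0) (XT.nd (nat_lit 5928) (nat_lit 2888) (nat_lit 0) (XT.nd (nat_lit 2964) (nat_lit 13908) (nat_lit 0) xc120 xc121) (XT.nd (nat_lit 76908) (nat_lit 0) (nat_lit 8512) xc122 xc123)) (XT.nd (nat_lit 79872) (nat_lit 0) (nat_lit 0) (XT.nd (nat_lit 76908) (nat_lit 0) (nat_lit 16036) xc124 xc125) (XT.nd (nat_lit 2964) (nat_lit 2432) (nat_lit 0) xc126 xc127))))))) (XT.nd (nat_lit 2275962) (nat_lit 0) (nat_lit 4256) (XT.nd (nat_lit 1057992) (nat_lit 0) (nat_lit 1140) (XT.nd (nat_lit 491088) (nat_lit 0) (nat_lit 456) (XT.nd (nat_lit 245466) (nat_lit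 0) (nat_lit 0) (XT.nd (nat_lit 85722) (nat_lit 0) (nat_lit 0) (XT.nd (nat_lit 79794) (nat_lit 0) (nat_lit 2356) (XT.nd (nat_lit 2886) (nat_lit 8512) (nat_lit 0) xc128 xc129) (XT.nd (nat_lit 2964) (nat_lit 12844) (nat_lit 0) xc130 xc131)) (XT.nd (nat_lit 79872) (nat_lit 0) (nat_lit 0) (XT.nd (nat_lit 76908) (nat_lit 0) (nat_lit 7372) xc132 xc133) (XT.nd (nat_lit 76908) (nat_lit 0) (nat_lit 14516) xc134 xc135))) (XT.nd (nat_lit 159744) (nat_lit 0) (nat_lit 380) (XT.nd (nat_lit 79794) (nat_lit 0) (nat_lit 380) (XT.nd (nat_lit 2886) (nat_lit 1976) (nat_lit 0) xc136 xc137) (XT.nd (nat_lit 2964) (nat_lit 6992) (nat_lit 0) xc138 xc139)) (XT.nd (nat_lit 5928) (nat_lit 760) (nat_lit 0) (XT.nd (nat_lit 2964) (nat_lit 11856) (nat_lit 0) xc140 xc141) (XT.nd (nat_lit 76986) (nat_lit 0) (nat_lit 5396) xc142 xc143)))) (XT.nd (nat_lit 320268) (nat_lit 0) (nat_lit 304) (XT.nd (nat_lit 159978) (nat_lit 0) (nat_lit 304) (XT.nd (nat_lit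 79950) (nat_lit 0) (nat_lit 0) (XT.nd (nat_lit 76986) (nat_lit 0) (nat_lit 11172) xc144 xc145) (XT.nd (nat_lit 77064) (nat_lit 0) (nat_lit 17936) xc146 xc147)) (XT.nd (nat_lit 80106) (nat_lit 0) (nat_lit 0) (XT.nd (nat_lit 2964) (nat_lit 3496) (nat_lit 0) xc148 xc149) (XT.nd (nat_lit 2964) (nat_lit 8360) (nat_lit 0) xc150 xc151))) (XT.nd (nat_lit 86034) (nat_lit 0) (nat_lit 380) (XT.nd (nat_lit 5850) (nat_lit 1216) (nat_lit 0) (XT.nd (nat_lit 2886) (nat_lit 12540) (nat_lit 0) xc152 xc153) (XT.nd (nat_lit 77220) (nat_lit 0) (nat_lit 5016) xc154 xc155)) (XT.nd (nat_lit 80262) (nat_lit 0) (nat_lit 0) (XT.nd (nat_lit 77298) (nat_lit 0) (nat_lit 9120) xc156 xc157) (XT.nd (nat_lit 77376) (nat_lit 0) (nat_lit 14060) xc158 xc159))))) (XT.nd (nat_lit 569556) (nat_lit 0) (nat_lit 1216) (XT.nd (nat_lit 321750) (nat_lit 0) (nat_lit 836) (XT.nd (nat_lit 160680) (nat_lit 0) (nat_lit 456) (XT.nd (nat_lit 80262) (nat_lit 0) (nat_lit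 456) (XT.nd (nat_lit 2886) (nat_lit 1216) (nat_lit 0) xc160 xc161) (XT.nd (nat_lit 2964) (nat_lit 4180) (nat_lit 0) xc162 xc163)) (XT.nd (nat_lit 80496) (nat_lit 0) (nat_lit 380) (XT.nd (nat_lit 2964) (nat_lit 8056) (nat_lit 0) xc164 xc165) (XT.nd (nat_lit 2964) (nat_lit 11020) (nat_lit 0) xc166 xc167))) (XT.nd (nat_lit 86424) (nat_lit 0) (nat_lit 0) (XT.nd (nat_lit 5850) (nat_lit 1748) (nat_lit 0) (XT.nd (nat_lit 2886) (nat_lit 13832) (nat_lit 0) xc168 xc169) (XT.nd (nat_lit 77610) (nat_lit 0) (nat_lit 4256) xc170 xc171)) (XT.nd (nat_lit 80652) (nat_lit 0) (nat_lit 380) (XT.nd (nat_lit 77688) (nat_lit 0) (nat_lit 7144) xc172 xc173) (XT.nd (nat_lit 77766) (nat_lit 0) (nat_lit 9272) xc174 xc175)))) (XT.nd (nat_lit 323622) (nat_lit 0) (nat_lit 1368) (XT.nd (nat_lit 161616) (nat_lit 0) (nat_lit 912) (XT.nd (nat_lit 80730) (nat_lit 0) (nat_lit 532) (XT.nd (nat_lit 77766) (nat_lit 0) (nat_lit 12084) xc176 xc177) (XT.nd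 (nat_lit 77922) (nat_lit 0) (nat_lit 13072) xc178 xc179)) (XT.nd (nat_lit 80964) (nat_lit 0) (nat_lit 0) (XT.nd (nat_lit 78000) (nat_lit 0) (nat_lit 15048) xc180 xc181) (XT.nd (nat_lit 2964) (nat_lit 988) (nat_lit 0) xc182 xc183))) (XT.nd (nat_lit 162318) (nat_lit 0) (nat_lit 0) (XT.nd (nat_lit 81120) (nat_lit 0) (nat_lit 0) (XT.nd (nat_lit 2964) (nat_lit 1444) (nat_lit 0) xc184 xc185) (XT.nd (nat_lit 2964) (nat_lit 2052) (nat_lit 0) xc186 xc187)) (XT.nd (nat_lit 81198) (nat_lit 0) (nat_lit 532) (XT.nd (nat_lit 2964) (nat_lit 2052) (nat_lit 0) xc188 xc189) (XT.nd (nat_lit 2964) (nat_lit 1976) (nat_lit 0) xc190 xc191)))))) (XT.nd (nat_lit 1463046) (nat_lit 0) (nat_lit 5396) (XT.nd (nat_lit 652314) (nat_lit 0) (nat_lit 1976) (XT.nd (nat_lit 325572) (nat_lit 0) (nat_lit 912) (XT.nd (nat_lit 162630) (nat_lit 0) (nat_lit 456) (XT.nd (nat_lit 81276) (nat_lit 0) (nat_lit 0) (XT.nd (nat_lit 2886) (nat_lit 1976) (nat_lit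 0) xc192 xc193) (XT.nd (nat_lit 2964) (nat_lit 1976) (nat_lit 0) xc194 xc195)) (XT.nd (nat_lit 81432) (nat_lit 0) (nat_lit 0) (XT.nd (nat_lit 2964) (nat_lit 1064) (nat_lit 0) xc196 xc197) (XT.nd (nat_lit 2964) (nat_lit 456) (nat_lit 0) xc198 xc199))) (XT.nd (nat_lit 163176) (nat_lit 0) (nat_lit 608) (XT.nd (nat_lit 81510) (nat_lit 0) (nat_lit 608) (XT.nd (nat_lit 78546) (nat_lit 0) (nat_lit 11552) xc200 xc201) (XT.nd (nat_lit 78702) (nat_lit 0) (nat_lit 8664) xc202 xc203)) (XT.nd (nat_lit 81744) (nat_lit 0) (nat_lit 456) (XT.nd (nat_lit 78780) (nat_lit 0) (nat_lit 6460) xc204 xc205) (XT.nd (nat_lit 78858) (nat_lit 0) (nat_lit 3420) xc206 xc207)))) (XT.nd (nat_lit 404274) (nat_lit 0) (nat_lit 1672) (XT.nd (nat_lit 239928) (nat_lit 0) (nat_lit 1140) (XT.nd (nat_lit 81822) (nat_lit 0) (nat_lit 532) (XT.nd (nat_lit 78858) (nat_lit 0) (nat_lit 1140) xc208 xc209) (XT.nd (nat_lit 79014) (nat_lit 0) (nat_lit 0) xc210 xc211))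 (XT.nd (nat_lit 82134) (nat_lit 0) (nat_lit 532) (XT.nd (nat_lit 2964) (nat_lit 7068) (nat_lit 0) xc212 xc213) (XT.nd (nat_lit 2964) (nat_lit 2356) (nat_lit 0) xc214 xc215))) (XT.nd (nat_lit 164580) (nat_lit 0) (nat_lit 1140) (XT.nd (nat_lit 82212) (nat_lit 0) (nat_lit 532) (XT.nd (nat_lit 79248) (nat_lit 0) (nat_lit 7220) xc216 xc217) (XT.nd (nat_lit 79404) (nat_lit 0) (nat_lit 1824) xc218 xc219)) (XT.nd (nat_lit 159198) (nat_lit 0) (nat_lit 608) (XT.nd (nat_lit 79560) (nat_lit 0) (nat_lit 76) xc220 xc221) (XT.nd (nat_lit 2964) (nat_lit 1976) (nat_lit 0) xc222 xc223))))) (XT.nd (nat_lit 975312) (nat_lit 0) (nat_lit 6232) (XT.nd (nat_lit 485940) (nat_lit 0) (nat_lit 2584) (XT.nd (nat_lit 242502) (nat_lit 0) (nat_lit 1216) (XT.nd (nat_lit 82680) (nat_lit 0) (nat_lit 608) (XT.nd (nat_lit 79716) (nat_lit 0) (nat_lit 2584) xc224 xc225) (XT.nd (nat_lit 79872) (nat_lit 0) (nat_lit 608) xc226 xc227)) (XT.nd (nat_lit 82992)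 (nat_lit 0) (nat_lit 760) (XT.nd (nat_lit 2964) (nat_lit 760) (nat_lit 0) xc228 xc229) (XT.nd (nat_lit 80184) (nat_lit 0) (nat_lit 608) xc230 xc231))) (XT.nd (nat_lit 244218) (nat_lit 0) (nat_lit 2128) (XT.nd (nat_lit 83226) (nat_lit 0) (nat_lit 684) (XT.nd (nat_lit 2886) (nat_lit 1368) (nat_lit 0) xc232 xc233) (XT.nd (nat_lit 80418) (nat_lit 0) (nat_lit 684) xc234 xc235)) (XT.nd (nat_lit 161382) (nat_lit 0) (nat_lit 760) (XT.nd (nat_lit 80652) (nat_lit 0) (nat_lit 76) xc236 xc237) (XT.nd (nat_lit 2964) (nat_lit 2356) (nat_lit 0) xc238 xc239)))) (XT.nd (nat_lit 729144) (nat_lit 0) (nat_lit 5016) (XT.nd (nat_lit 324324) (nat_lit 0) (nat_lit 1672) (XT.nd (nat_lit 161928) (nat_lit 0) (nat_lit 760) (XT.nd (nat_lit 80886) (nat_lit 0) (nat_lit 0) xc240 xc241) (XT.nd (nat_lit 81120) (nat_lit 0) (nat_lit 836) xc242 xc243)) (XT.nd (nat_lit 162786) (nat_lit 0) (nat_lit 1596) (XT.nd (nat_lit 81354) (nat_lit 0) (nat_lit 760)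 xc244 xc245) (XT.nd (nat_lit 81588) (nat_lit 0) (nat_lit 836) xc246 xc247))) (XT.nd (nat_lit 407628) (nat_lit 0) (nat_lit 2964) (XT.nd (nat_lit 163878) (nat_lit 0) (nat_lit 1976) (XT.nd (nat_lit 81900) (nat_lit 0) (nat_lit 912) xc248 xc249) (XT.nd (nat_lit 161382) (nat_lit 0) (nat_lit 1064) xc250 xc251)) (XT.nd (nat_lit 324636) (nat_lit 0) (nat_lit 0) (XT.nd (nat_lit 162084) (nat_lit 76) (nat_lit 0) xc252 xc253) (XT.nd (nat_lit 243282) (nat_lit 0) (nat_lit 0) xc254 xc255)))))))) XT.nil))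

set_option maxRecDepth 10000000 in
noncomputable def Te : XT := XT.nil

set_option maxRecDepth 10000000 in
noncomputable def Tz : ZL := (ZL.cons (nat_lit 76) (nat_lit 6) (nat_lit 344098325419842268842) (ZL.cons (nat_lit 152) (nat_lit 3) (nat_lit 170371325626437467050) (ZL.cons (nat_lit 4636) (nat_lit 6) (nat_lit 171972652613557143018) (ZL.cons (nat_lit 4788) (nat_lit 6) (nat_lit 170523729636428340172) (ZL.cons (nat_lit 4864) (nat_lit 3) (nat_lit 85245891821124247377) (ZL.cons (nat_lit 5016) (nat_lit 6) (nat_lit 169109093796073910036) (ZL.cons (nat_lit 5092) (nat_lit 6) (nat_lit 169045828199756961270) (ZL.cons (nat_lit 5320) (nat_lit 6) (nat_lit 167634219244732545880) (ZL.cons (nat_lit 5396) (nat_lit 3) (nat_lit 83801449821297721266) (ZL.cons (nat_lit 5548) (nat_lit 6) (nat_lit 166256403205036023330) (ZL.cons (nat_lit 5624) (nat_lit 6) (nat_lit 166194378110607642186) (ZL.cons (nat_lit 5852) (nat_lit 6) (nat_lit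 164819711242408466978) (ZL.cons (nat_lit 5928) (nat_lit 3) (nat_lit 82394502875058594591) (ZL.cons (nat_lit 6080) (nat_lit 6) (nat_lit 163478359952951564286) (ZL.cons (nat_lit 6156) (nat_lit 6) (nat_lit 163417551036845308262) (ZL.cons (nat_lit 6308) (nat_lit 6) (nat_lit 162169798222123421606) (ZL.cons (nat_lit 6384) (nat_lit 6) (nat_lit 162079476145414245748) (ZL.cons (nat_lit 6460) (nat_lit 3) (nat_lit 81024686360799633760) (ZL.cons (nat_lit 6612) (nat_lit 6) (nat_lit 160774256340572460046) (ZL.cons (nat_lit 6688) (nat_lit 6) (nat_lit 160714639756154561984) (ZL.cons (nat_lit 6840) (nat_lit 6) (nat_lit 159501379771416091632) (ZL.cons (nat_lit 6916) (nat_lit 6) (nat_lit 159412828715818860402) (ZL.cons (nat_lit 6992) (nat_lit 3) (nat_lit 79691657777607970284) (ZL.cons (nat_lit 7144) (nat_lit 6) (nat_lit 158260347270663118404) (ZL.cons (nat_lit 7220) (nat_lit 6) (nat_lit 158143429086458697790) (ZL.cons (nat_lit 7296)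 (nat_lit 6) (nat_lit 158084981454676444788) (ZL.cons (nat_lit 7448) (nat_lit 6) (nat_lit 156905943064297854478) (ZL.cons (nat_lit 7524) (nat_lit 6) (nat_lit 156819128303908412092) (ZL.cons (nat_lit 7600) (nat_lit 3) (nat_lit 78395096916364539462) (ZL.cons (nat_lit 7752) (nat_lit 6) (nat_lit 155699885360700188954) (ZL.cons (nat_lit 7828) (nat_lit 6) (nat_lit 155585259689911541294) (ZL.cons (nat_lit 7904) (nat_lit 6) (nat_lit 155527958090125018742) (ZL.cons (nat_lit 8056) (nat_lit 6) (nat_lit 154382891742641127738) (ZL.cons (nat_lit 8132) (nat_lit 6) (nat_lit 154297779232455399912) (ZL.cons (nat_lit 8208) (nat_lit 3) (nat_lit 77134706051924105264) (ZL.cons (nat_lit 8360) (nat_lit 6) (nat_lit 153211552945255104596) (ZL.cons (nat_lit 8436) (nat_lit 6) (nat_lit 153099174836638783360) (ZL.cons (nat_lit 8512) (nat_lit 6) (nat_lit 153042996797632388702) (ZL.cons (nat_lit 8664) (nat_lit 6) (nat_lit 152070783949205477348)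 (ZL.cons (nat_lit 8740) (nat_lit 6) (nat_lit 151931674861735633164) (ZL.cons (nat_lit 8816) (nat_lit 6) (nat_lit 151848231224298645096) (ZL.cons (nat_lit 8892) (nat_lit 3) (nat_lit 75910210156949719911) (ZL.cons (nat_lit 9044) (nat_lit 6) (nat_lit 150794821464618536320) (ZL.cons (nat_lit 9120) (nat_lit 6) (nat_lit 150684646848328025304) (ZL.cons (nat_lit 9196) (nat_lit 6) (nat_lit 150629570339498226620) (ZL.cons (nat_lit 9348) (nat_lit 6) (nat_lit 149688168820425878282) (ZL.cons (nat_lit 9424) (nat_lit 6) (nat_lit 149551787362122109472) (ZL.cons (nat_lit 9500) (nat_lit 6) (nat_lit 149469979874438787840) (ZL.cons (nat_lit 9576) (nat_lit 3) (nat_lit 74721357138004097215) (ZL.cons (nat_lit 9652) (nat_lit 6) (nat_lit 148611282947728563890) (ZL.cons (nat_lit 9728) (nat_lit 6) (nat_lit 148449208507058856068) (ZL.cons (nat_lit 9804) (nat_lit 6) (nat_lit 148341194177362276642) (ZL.cons (nat_lit 9880) (nat_lit 6) (nat_lit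 148287197600078160284) (ZL.cons (nat_lit 9956) (nat_lit 6) (nat_lit 147563741538341221648) (ZL.cons (nat_lit 10032) (nat_lit 6) (nat_lit 147376477899273534400) (ZL.cons (nat_lit 10108) (nat_lit 6) (nat_lit 147242770587211015962) (ZL.cons (nat_lit 10184) (nat_lit 6) (nat_lit 147162567167913641810) (ZL.cons (nat_lit 10260) (nat_lit 3) (nat_lit 73567918094530059431) (ZL.cons (nat_lit 10336) (nat_lit 6) (nat_lit 146545133791711150636) (ZL.cons (nat_lit 10412) (nat_lit 6) (nat_lit 146333174860096424738) (ZL.cons (nat_lit 10488) (nat_lit 6) (nat_lit 146174278349635926874) (ZL.cons (nat_lit 10564) (nat_lit 6) (nat_lit 146068381947972613710) (ZL.cons (nat_lit 10640) (nat_lit 6) (nat_lit 146015444127105832968) (ZL.cons (nat_lit 10716) (nat_lit 6) (nat_lit 145318890251080790956) (ZL.cons (nat_lit 10792) (nat_lit 6) (nat_lit 145135298448073254442) (ZL.cons (nat_lit 10868) (nat_lit 6) (nat_lit 145004212848011961852) (ZL.cons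 (nat_lit 10944) (nat_lit 6) (nat_lit 144925582044779242098) (ZL.cons (nat_lit 11020) (nat_lit 3) (nat_lit 72449687601382992152) (ZL.cons (nat_lit 11096) (nat_lit 6) (nat_lit 144333226313556430850) (ZL.cons (nat_lit 11172) (nat_lit 6) (nat_lit 144125423439424346636) (ZL.cons (nat_lit 11248) (nat_lit 6) (nat_lit 143969642546816015396) (ZL.cons (nat_lit 11324) (nat_lit 6) (nat_lit 143865822545185316216) (ZL.cons (nat_lit 11400) (nat_lit 6) (nat_lit 143813922720806119410) (ZL.cons (nat_lit 11552) (nat_lit 6) (nat_lit 143144257294274047028) (ZL.cons (nat_lit 11628) (nat_lit 6) (nat_lit 142964265330541168088) (ZL.cons (nat_lit 11704) (nat_lit 6) (nat_lit 142835750036363430258) (ZL.cons (nat_lit 11780) (nat_lit 6) (nat_lit 142758661013586254026) (ZL.cons (nat_lit 11856) (nat_lit 3) (nat_lit 71366484015610157507) (ZL.cons (nat_lit 11932) (nat_lit 6) (nat_lit 142191415241585041764) (ZL.cons (nat_lit 12008) (nat_lit 6) (nat_lit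 141987686933612410182) (ZL.cons (nat_lit 12084) (nat_lit 6) (nat_lit 141834960568310124652) (ZL.cons (nat_lit 12160) (nat_lit 6) (nat_lit 141733176252985909770) (ZL.cons (nat_lit 12236) (nat_lit 6) (nat_lit 141682294072221991332) (ZL.cons (nat_lit 12312) (nat_lit 6) (nat_lit 141266523617807256734) (ZL.cons (nat_lit 12388) (nat_lit 6) (nat_lit 141039524384109377460) (ZL.cons (nat_lit 12464) (nat_lit 6) (nat_lit 140863061674567339288) (ZL.cons (nat_lit 12540) (nat_lit 6) (nat_lit 140737066288118576706) (ZL.cons (nat_lit 12616) (nat_lit 6) (nat_lit 140661488814807619618) (ZL.cons (nat_lit 12692) (nat_lit 3) (nat_lit 70318149808204820096) (ZL.cons (nat_lit 12844) (nat_lit 6) (nat_lit 140119405853581284420) (ZL.cons (nat_lit 12920) (nat_lit 6) (nat_lit 139919672218313998556) (ZL.cons (nat_lit 12996) (nat_lit 6) (nat_lit 139769940487625483332) (ZL.cons (nat_lit 13072) (nat_lit 6) (nat_lit 139670151943189978544) (ZL.cons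 (nat_lit 13148) (nat_lit 6) (nat_lit 139620267452244960468) (ZL.cons (nat_lit 13224) (nat_lit 6) (nat_lit 139226970511231845532) (ZL.cons (nat_lit 13300) (nat_lit 6) (nat_lit 139004422242900591344) (ZL.cons (nat_lit 13376) (nat_lit 6) (nat_lit 138831419586486828428) (ZL.cons (nat_lit 13452) (nat_lit 6) (nat_lit 138707894697811570998) (ZL.cons (nat_lit 13528) (nat_lit 6) (nat_lit 138633799135742005222) (ZL.cons (nat_lit 13604) (nat_lit 3) (nat_lit 69304551921597483286) (ZL.cons (nat_lit 13680) (nat_lit 6) (nat_lit 138361868382417002196) (ZL.cons (nat_lit 13756) (nat_lit 6) (nat_lit 138116952826768132004) (ZL.cons (nat_lit 13832) (nat_lit 6) (nat_lit 137921135537290400764) (ZL.cons (nat_lit 13908) (nat_lit 6) (nat_lit 137774339722889895642) (ZL.cons (nat_lit 13984) (nat_lit 6) (nat_lit 137676507816580577224) (ZL.cons (nat_lit 14060) (nat_lit 6) (nat_lit 137627601452908990874) (ZL.cons (nat_lit 14212) (nat_lit 6)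 (nat_lit 137256915942694607806) (ZL.cons (nat_lit 14288) (nat_lit 6) (nat_lit 137038731365899260562) (ZL.cons (nat_lit 14364) (nat_lit 6) (nat_lit 136869120918434787116) (ZL.cons (nat_lit 14440) (nat_lit 6) (nat_lit 136748018086400221006) (ZL.cons (nat_lit 14516) (nat_lit 6) (nat_lit 136675375378488882014) (ZL.cons (nat_lit 14592) (nat_lit 3) (nat_lit 68325582153682167157) (ZL.cons (nat_lit 14668) (nat_lit 6) (nat_lit 136423974321313715408) (ZL.cons (nat_lit 14744) (nat_lit 6) (nat_lit 136183861031461881884) (ZL.cons (nat_lit 14820) (nat_lit 6) (nat_lit 135991883296679792434) (ZL.cons (nat_lit 14896) (nat_lit 6) (nat_lit 135847965831581258000) (ZL.cons (nat_lit 14972) (nat_lit 6) (nat_lit 135752052197944671316) (ZL.cons (nat_lit 15048) (nat_lit 6) (nat_lit 135704104782580370974) (ZL.cons (nat_lit 15124) (nat_lit 6) (nat_lit 135617801318852364262) (ZL.cons (nat_lit 15200) (nat_lit 6) (nat_lit 135356189290709857916)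 (ZL.cons (nat_lit 15276) (nat_lit 6) (nat_lit 135142282842871282186) (ZL.cons (nat_lit 15352) (nat_lit 6) (nat_lit 134975998090455131748) (ZL.cons (nat_lit 15428) (nat_lit 6) (nat_lit 134857269823754576740) (ZL.cons (nat_lit 15504) (nat_lit 6) (nat_lit 134786051482665028706) (ZL.cons (nat_lit 15580) (nat_lit 3) (nat_lit 67381157569212638032) (ZL.cons (nat_lit 15732) (nat_lit 6) (nat_lit 134555391566489952570) (ZL.cons (nat_lit 15808) (nat_lit 6) (nat_lit 134319986380360704018) (ZL.cons (nat_lit 15884) (nat_lit 6) (nat_lit 134131772914888067300) (ZL.cons (nat_lit 15960) (nat_lit 6) (nat_lit 133990677360869896288) (ZL.cons (nat_lit 16036) (nat_lit 6) (nat_lit 133896644386716379930) (ZL.cons (nat_lit 16112) (nat_lit 6) (nat_lit 133849637116751379596) (ZL.cons (nat_lit 16188) (nat_lit 6) (nat_lit 133781153820478942352) (ZL.cons (nat_lit 16264) (nat_lit 6) (nat_lit 133524671439947073388) (ZL.cons (nat_lit 16340) (nat_lit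 6) (nat_lit 133314959236183763848) (ZL.cons (nat_lit 16416) (nat_lit 6) (nat_lit 133151934969109106556) (ZL.cons (nat_lit 16492) (nat_lit 6) (nat_lit 133035534707637974194) (ZL.cons (nat_lit 16568) (nat_lit 6) (nat_lit 132965712804609005536) (ZL.cons (nat_lit 16644) (nat_lit 3) (nat_lit 66471220939441878922) (ZL.cons (nat_lit 16720) (nat_lit 6) (nat_lit 133033172430031332750) (ZL.cons (nat_lit 16796) (nat_lit 6) (nat_lit 132756026133418463378) (ZL.cons (nat_lit 16872) (nat_lit 6) (nat_lit 132525236735252533426) (ZL.cons (nat_lit 16948) (nat_lit 6) (nat_lit 132340713729887203312) (ZL.cons (nat_lit 17024) (nat_lit 6) (nat_lit 132202384755359584670) (ZL.cons (nat_lit 17100) (nat_lit 6) (nat_lit 132110195565013000008) (ZL.cons (nat_lit 17176) (nat_lit 6) (nat_lit 132064110006223783992) (ZL.cons (nat_lit 17328) (nat_lit 6) (nat_lit 132013749031242901990) (ZL.cons (nat_lit 17404) (nat_lit 6) (nat_lit 131762295716995971630)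 (ZL.cons (nat_lit 17480) (nat_lit 6) (nat_lit 131556695517228021104) (ZL.cons (nat_lit 17556) (nat_lit 6) (nat_lit 131396867804409729640) (ZL.cons (nat_lit 17632) (nat_lit 6) (nat_lit 131282749901006658698) (ZL.cons (nat_lit 17708) (nat_lit 6) (nat_lit 131214297054899826678) (ZL.cons (nat_lit 17784) (nat_lit 3) (nat_lit 65595741210917929177) (ZL.cons (nat_lit 17860) (nat_lit 6) (nat_lit 131297549044360712532) (ZL.cons (nat_lit 17936) (nat_lit 6) (nat_lit 131025836988857899422) (ZL.cons (nat_lit 18012) (nat_lit 6) (nat_lit 130799572873008948488) (ZL.cons (nat_lit 18088) (nat_lit 6) (nat_lit 130618667965788036612) (ZL.cons (nat_lit 18164) (nat_lit 6) (nat_lit 130483051324094292848) (ZL.cons (nat_lit 18240) (nat_lit 6) (nat_lit 130392669764930974548) (ZL.cons (nat_lit 18316) (nat_lit 6) (nat_lit 130347487844549390220) (ZL.cons (nat_lit 18392) (nat_lit 6) (nat_lit 130607145310031941202) (ZL.cons (nat_lit 18468) (nat_lit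 6) (nat_lit 130315571743493948924) (ZL.cons (nat_lit 18544) (nat_lit 6) (nat_lit 130069048886389115240) (ZL.cons (nat_lit 18620) (nat_lit 6) (nat_lit 129867480063087202956) (ZL.cons (nat_lit 18696) (nat_lit 6) (nat_lit 129710786226990838780) (ZL.cons (nat_lit 18772) (nat_lit 6) (nat_lit 129598905929536847658) (ZL.cons (nat_lit 18848) (nat_lit 6) (nat_lit 129531795296098777050) (ZL.cons (nat_lit 18924) (nat_lit 3) (nat_lit 64754714004390580523) (ZL.cons (nat_lit 19000) (nat_lit 6) (nat_lit 129942267081694106128) (ZL.cons (nat_lit 19076) (nat_lit 6) (nat_lit 129631221445513781334) (ZL.cons (nat_lit 19152) (nat_lit 6) (nat_lit 129364837077373768482) (ZL.cons (nat_lit 19228) (nat_lit 6) (nat_lit 129143009512815973448) (ZL.cons (nat_lit 19304) (nat_lit 6) (nat_lit 128965651760638608864) (ZL.cons (nat_lit 19380) (nat_lit 6) (nat_lit 128832694268781997330) (ZL.cons (nat_lit 19456) (nat_lit 6) (nat_lit 128744084897053253900)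 (ZL.cons (nat_lit 19532) (nat_lit 6) (nat_lit 128699788896679151616) (ZL.cons (nat_lit 19608) (nat_lit 6) (nat_lit 128972517722251522078) (ZL.cons (nat_lit 19684) (nat_lit 6) (nat_lit 128686661284469176710) (ZL.cons (nat_lit 19760) (nat_lit 6) (nat_lit 128444972208876202508) (ZL.cons (nat_lit 19836) (nat_lit 6) (nat_lit 128247355715442955174) (ZL.cons (nat_lit 19912) (nat_lit 6) (nat_lit 128093734307505343232) (ZL.cons (nat_lit 19988) (nat_lit 6) (nat_lit 127984047741373979390) (ZL.cons (nat_lit 20064) (nat_lit 6) (nat_lit 127918253002709204284) (ZL.cons (nat_lit 20140) (nat_lit 3) (nat_lit 63948162144826359002) (ZL.cons (nat_lit 20216) (nat_lit 6) (nat_lit 128339202258521578110) (ZL.cons (nat_lit 20292) (nat_lit 6) (nat_lit 128034255556384004784) (ZL.cons (nat_lit 20368) (nat_lit 6) (nat_lit 127773094411148698066) (ZL.cons (nat_lit 20444) (nat_lit 6) (nat_lit 127555616406680271564) (ZL.cons (nat_lit 20520) (nat_lit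 6) (nat_lit 127381736257486776872) (ZL.cons (nat_lit 20596) (nat_lit 6) (nat_lit 127251385775274412622) (ZL.cons (nat_lit 20672) (nat_lit 6) (nat_lit 127164513842207017104) (ZL.cons (nat_lit 20748) (nat_lit 6) (nat_lit 127121086390859858002) (ZL.cons (nat_lit 20824) (nat_lit 6) (nat_lit 127731026695318565142) (ZL.cons (nat_lit 20900) (nat_lit 6) (nat_lit 127407364047734689896) (ZL.cons (nat_lit 20976) (nat_lit 6) (nat_lit 127127112638144155220) (ZL.cons (nat_lit 21052) (nat_lit 6) (nat_lit 126890162564033396202) (ZL.cons (nat_lit 21128) (nat_lit 6) (nat_lit 126696420903804722342) (ZL.cons (nat_lit 21204) (nat_lit 6) (nat_lit 126545811680336475342) (ZL.cons (nat_lit 21280) (nat_lit 6) (nat_lit 126438275831188079416) (ZL.cons (nat_lit 21356) (nat_lit 6) (nat_lit 126373771185438299902) (ZL.cons (nat_lit 21432) (nat_lit 3) (nat_lit 63176136223573813540) (ZL.cons (nat_lit 21584) (nat_lit 6) (nat_lit 126805740918713918588)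 (ZL.cons (nat_lit 21660) (nat_lit 6) (nat_lit 126506773563677081992) (ZL.cons (nat_lit 21736) (nat_lit 6) (nat_lit 126250733225211095016) (ZL.cons (nat_lit 21812) (nat_lit 6) (nat_lit 126037519495340088640) (ZL.cons (nat_lit 21888) (nat_lit 6) (nat_lit 125867048760836662472) (ZL.cons (nat_lit 21964) (nat_lit 6) (nat_lit 125739254170432383796) (ZL.cons (nat_lit 22040) (nat_lit 6) (nat_lit 125654085608601603874) (ZL.cons (nat_lit 22116) (nat_lit 6) (nat_lit 125611509675908310640) (ZL.cons (nat_lit 22192) (nat_lit 6) (nat_lit 126229150238682859186) (ZL.cons (nat_lit 22268) (nat_lit 6) (nat_lit 125911833917522197178) (ZL.cons (nat_lit 22344) (nat_lit 6) (nat_lit 125637077633609908282) (ZL.cons (nat_lit 22420) (nat_lit 6) (nat_lit 125404773639383673948) (ZL.cons (nat_lit 22496) (nat_lit 6) (nat_lit 125214830835237915264) (ZL.cons (nat_lit 22572) (nat_lit 6) (nat_lit 125067174733798457420) (ZL.cons (nat_lit 22648) (nat_lit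 6) (nat_lit 124961747430711794748) (ZL.cons (nat_lit 22724) (nat_lit 6) (nat_lit 124898507581937501106) (ZL.cons (nat_lit 22800) (nat_lit 3) (nat_lit 62438715193767440347) (ZL.cons (nat_lit 22876) (nat_lit 6) (nat_lit 125677365893649342644) (ZL.cons (nat_lit 22952) (nat_lit 6) (nat_lit 125342060390014341998) (ZL.cons (nat_lit 23028) (nat_lit 6) (nat_lit 125048955139978227690) (ZL.cons (nat_lit 23104) (nat_lit 6) (nat_lit 124797935200305691436) (ZL.cons (nat_lit 23180) (nat_lit 6) (nat_lit 124588902131804704794) (ZL.cons (nat_lit 23256) (nat_lit 6) (nat_lit 124421773960722914434) (ZL.cons (nat_lit 23332) (nat_lit 6) (nat_lit 124296485146601072594) (ZL.cons (nat_lit 23408) (nat_lit 6) (nat_lit 124212986556570896202) (ZL.cons (nat_lit 23484) (nat_lit 6) (nat_lit 124171245446087275382) (ZL.cons (nat_lit 23560) (nat_lit 6) (nat_lit 125150171497595708762) (ZL.cons (nat_lit 23636) (nat_lit 6) (nat_lit 124797229540554493764)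 (ZL.cons (nat_lit 23712) (nat_lit 6) (nat_lit 124486135108044040818) (ZL.cons (nat_lit 23788) (nat_lit 6) (nat_lit 124216766202247679152) (ZL.cons (nat_lit 23864) (nat_lit 6) (nat_lit 123989017188300390590) (ZL.cons (nat_lit 23940) (nat_lit 6) (nat_lit 123802798752863372272) (ZL.cons (nat_lit 24016) (nat_lit 6) (nat_lit 123658037869099197916) (ZL.cons (nat_lit 24092) (nat_lit 6) (nat_lit 123554677768033842356) (ZL.cons (nat_lit 24168) (nat_lit 6) (nat_lit 123492677916294338786) (ZL.cons (nat_lit 24244) (nat_lit 3) (nat_lit 61736007000106669189) (ZL.cons (nat_lit 24396) (nat_lit 6) (nat_lit 124277127709986001556) (ZL.cons (nat_lit 24472) (nat_lit 6) (nat_lit 123948396824069334258) (ZL.cons (nat_lit 24548) (nat_lit 6) (nat_lit 123661038735798633954) (ZL.cons (nat_lit 24624) (nat_lit 6) (nat_lit 123414940755727519980) (ZL.cons (nat_lit 24700) (nat_lit 6) (nat_lit 123210006374844199742) (ZL.cons (nat_lit 24776) (nat_lit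 6) (nat_lit 123046155226724797428) (ZL.cons (nat_lit 24852) (nat_lit 6) (nat_lit 122923323056017109352) (ZL.cons (nat_lit 24928) (nat_lit 6) (nat_lit 122841461693242426614) (ZL.cons (nat_lit 25004) (nat_lit 6) (nat_lit 122800539035905543456) (ZL.cons (nat_lit 25080) (nat_lit 6) (nat_lit 123781550936806681652) (ZL.cons (nat_lit 25156) (nat_lit 6) (nat_lit 123435529410295686558) (ZL.cons (nat_lit 25232) (nat_lit 6) (nat_lit 123130534868618771902) (ZL.cons (nat_lit 25308) (nat_lit 6) (nat_lit 122866447706073319290) (ZL.cons (nat_lit 25384) (nat_lit 6) (nat_lit 122643164359066173640) (ZL.cons (nat_lit 25460) (nat_lit 6) (nat_lit 122460597265500469406) (ZL.cons (nat_lit 25536) (nat_lit 6) (nat_lit 122318674830437553372) (ZL.cons (nat_lit 25612) (nat_lit 6) (nat_lit 122217341398020538118) (ZL.cons (nat_lit 25688) (nat_lit 6) (nat_lit 122156557229648475792) (ZL.cons (nat_lit 25764) (nat_lit 3) (nat_lit 61068149244196296521)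 (ZL.cons (nat_lit 25840) (nat_lit 6) (nat_lit 123310304877183914710) (ZL.cons (nat_lit 25916) (nat_lit 6) (nat_lit 122947331742247108052) (ZL.cons (nat_lit 25992) (nat_lit 6) (nat_lit 122625046559975865600) (ZL.cons (nat_lit 26068) (nat_lit 6) (nat_lit 122343322944024198636) (ZL.cons (nat_lit 26144) (nat_lit 6) (nat_lit 122102050414542714348) (ZL.cons (nat_lit 26220) (nat_lit 6) (nat_lit 121901134354853184702) (ZL.cons (nat_lit 26296) (nat_lit 6) (nat_lit 121740495974343966748) (ZL.cons (nat_lit 26372) (nat_lit 6) (nat_lit 121620072277571723536) (ZL.cons (nat_lit 26448) (nat_lit 6) (nat_lit 121539816039557328694) (ZL.cons (nat_lit 26524) (nat_lit 6) (nat_lit 121499695787266266776) (ZL.cons (nat_lit 26600) (nat_lit 6) (nat_lit 122863204728741378074) (ZL.cons (nat_lit 26676) (nat_lit 6) (nat_lit 122483612369857697334) (ZL.cons (nat_lit 26752) (nat_lit 6) (nat_lit 122144375579160643318) (ZL.cons (nat_lit 26828) (nat_lit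 6) (nat_lit 121845361322614648558) (ZL.cons (nat_lit 26904) (nat_lit 6) (nat_lit 121586452339726949918) (ZL.cons (nat_lit 26980) (nat_lit 6) (nat_lit 121367547097563081634) (ZL.cons (nat_lit 27056) (nat_lit 6) (nat_lit 121188559750930038268) (ZL.cons (nat_lit 27132) (nat_lit 6) (nat_lit 121049420108711493136) (ZL.cons (nat_lit 27208) (nat_lit 6) (nat_lit 120950073606341870336) (ZL.cons (nat_lit 27284) (nat_lit 6) (nat_lit 120890481284408475902) (ZL.cons (nat_lit 27360) (nat_lit 3) (nat_lit 60435309886686648367) (ZL.cons (nat_lit 27436) (nat_lit 6) (nat_lit 122440075158087525654) (ZL.cons (nat_lit 27512) (nat_lit 6) (nat_lit 122044189442393184048) (ZL.cons (nat_lit 27588) (nat_lit 6) (nat_lit 121688333427749255950) (ZL.cons (nat_lit 27664) (nat_lit 6) (nat_lit 121372367562777449626) (ZL.cons (nat_lit 27740) (nat_lit 6) (nat_lit 121096167939295423190) (ZL.cons (nat_lit 27816) (nat_lit 6) (nat_lit 120859626243725340554)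 (ZL.cons (nat_lit 27892) (nat_lit 6) (nat_lit 120662649714617958550) (ZL.cons (nat_lit 27968) (nat_lit 6) (nat_lit 120505161106275588006) (ZL.cons (nat_lit 28044) (nat_lit 6) (nat_lit 120387098658459663286) (ZL.cons (nat_lit 28120) (nat_lit 6) (nat_lit 120308416072171040894) (ZL.cons (nat_lit 28196) (nat_lit 6) (nat_lit 120269082491493529210) (ZL.cons (nat_lit 28272) (nat_lit 6) (nat_lit 121628890637136915446) (ZL.cons (nat_lit 28348) (nat_lit 6) (nat_lit 121256741265682326482) (ZL.cons (nat_lit 28424) (nat_lit 6) (nat_lit 120924156176763646076) (ZL.cons (nat_lit 28500) (nat_lit 6) (nat_lit 120631004944855808076) (ZL.cons (nat_lit 28576) (nat_lit 6) (nat_lit 120377172608691397644) (ZL.cons (nat_lit 28652) (nat_lit 6) (nat_lit 120162559626177801288) (ZL.cons (nat_lit 28728) (nat_lit 6) (nat_lit 119987081835361092106) (ZL.cons (nat_lit 28804) (nat_lit 6) (nat_lit 119850670421421341974) (ZL.cons (nat_lit 28880) (nat_lit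 6) (nat_lit 119753271889686417662) (ZL.cons (nat_lit 28956) (nat_lit 6) (nat_lit 119694848044653678020) (ZL.cons (nat_lit 29032) (nat_lit 3) (nat_lit 59837687987505672752) (ZL.cons (nat_lit 29108) (nat_lit 6) (nat_lit 121237553091812320442) (ZL.cons (nat_lit 29184) (nat_lit 6) (nat_lit 120849429841131593374) (ZL.cons (nat_lit 29260) (nat_lit 6) (nat_lit 120500551395402252102) (ZL.cons (nat_lit 29336) (nat_lit 6) (nat_lit 120190780939547540020) (ZL.cons (nat_lit 29412) (nat_lit 6) (nat_lit 119919996994957318024) (ZL.cons (nat_lit 29488) (nat_lit 6) (nat_lit 119688093371849393872) (ZL.cons (nat_lit 29564) (nat_lit 6) (nat_lit 119494979127626470338) (ZL.cons (nat_lit 29640) (nat_lit 6) (nat_lit 119340578531212381568) (ZL.cons (nat_lit 29716) (nat_lit 6) (nat_lit 119224831033353631844) (ZL.cons (nat_lit 29792) (nat_lit 6) (nat_lit 119147691242874590282) (ZL.cons (nat_lit 29868) (nat_lit 6) (nat_lit 119109128908877029808)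 (ZL.cons (nat_lit 29944) (nat_lit 6) (nat_lit 120870023340715350172) (ZL.cons (nat_lit 30020) (nat_lit 6) (nat_lit 120466239424126644572) (ZL.cons (nat_lit 30096) (nat_lit 6) (nat_lit 120101387099171165196) (ZL.cons (nat_lit 30172) (nat_lit 6) (nat_lit 119775323286505792248) (ZL.cons (nat_lit 30248) (nat_lit 6) (nat_lit 119487920117968696170) (ZL.cons (nat_lit 30324) (nat_lit 6) (nat_lit 119239064886434960454) (ZL.cons (nat_lit 30400) (nat_lit 6) (nat_lit 119028660001617709124) (ZL.cons (nat_lit 30476) (nat_lit 6) (nat_lit 118856622951797406002) (ZL.cons (nat_lit 30552) (nat_lit 6) (nat_lit 118722886271464317640) (ZL.cons (nat_lit 30628) (nat_lit 6) (nat_lit 118627397514861450666) (ZL.cons (nat_lit 30704) (nat_lit 6) (nat_lit 118570119235417588272) (ZL.cons (nat_lit 30780) (nat_lit 3) (nat_lit 59275514485531180157) (ZL.cons (nat_lit 30856) (nat_lit 6) (nat_lit 120526157254531848964) (ZL.cons (nat_lit 30932) (nat_lit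 6) (nat_lit 120107019743915713430) (ZL.cons (nat_lit 31008) (nat_lit 6) (nat_lit 119726506753052255522) (ZL.cons (nat_lit 31084) (nat_lit 6) (nat_lit 119384469061160744470) (ZL.cons (nat_lit 31160) (nat_lit 6) (nat_lit 119080772535812987526) (ZL.cons (nat_lit 31236) (nat_lit 6) (nat_lit 118815298080332377728) (ZL.cons (nat_lit 31312) (nat_lit 6) (nat_lit 118587941587089314834) (ZL.cons (nat_lit 31388) (nat_lit 6) (nat_lit 118398613896674683916) (ZL.cons (nat_lit 31464) (nat_lit 6) (nat_lit 118247240762935381202) (ZL.cons (nat_lit 31540) (nat_lit 6) (nat_lit 118133762823858175590) (ZL.cons (nat_lit 31616) (nat_lit 6) (nat_lit 118058135578290487784) (ZL.cons (nat_lit 31692) (nat_lit 6) (nat_lit 118020329368488957906) (ZL.cons (nat_lit 31768) (nat_lit 6) (nat_lit 120205819983816254658) (ZL.cons (nat_lit 31844) (nat_lit 6) (nat_lit 119771629930035972130) (ZL.cons (nat_lit 31920) (nat_lit 6) (nat_lit 119375763345145084288)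 (ZL.cons (nat_lit 31996) (nat_lit 6) (nat_lit 119018064987345594704) (ZL.cons (nat_lit 32072) (nat_lit 6) (nat_lit 118698394582771699656) (ZL.cons (nat_lit 32148) (nat_lit 6) (nat_lit 118416626770480428992) (ZL.cons (nat_lit 32224) (nat_lit 6) (nat_lit 118172651053290492016) (ZL.cons (nat_lit 32300) (nat_lit 6) (nat_lit 117966371754450049534) (ZL.cons (nat_lit 32376) (nat_lit 6) (nat_lit 117797707980116419024) (ZL.cons (nat_lit 32452) (nat_lit 6) (nat_lit 117666593587632999060) (ZL.cons (nat_lit 32528) (nat_lit 6) (nat_lit 117572977159590972616) (ZL.cons (nat_lit 32604) (nat_lit 6) (nat_lit 117516821983665617326) (ZL.cons (nat_lit 32680) (nat_lit 3) (nat_lit 58749053019109657703) (ZL.cons (nat_lit 32832) (nat_lit 6) (nat_lit 119459938457070212934) (ZL.cons (nat_lit 32908) (nat_lit 6) (nat_lit 119049019329015178098) (ZL.cons (nat_lit 32984) (nat_lit 6) (nat_lit 118675967377188258580) (ZL.cons (nat_lit 33060) (nat_lit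 6) (nat_lit 118340636306706385000) (ZL.cons (nat_lit 33136) (nat_lit 6) (nat_lit 118042894615188976232) (ZL.cons (nat_lit 33212) (nat_lit 6) (nat_lit 117782625541188378390) (ZL.cons (nat_lit 33288) (nat_lit 6) (nat_lit 117559727018401061826) (ZL.cons (nat_lit 33364) (nat_lit 6) (nat_lit 117374111635641619752) (ZL.cons (nat_lit 33440) (nat_lit 6) (nat_lit 117225706602563871992) (ZL.cons (nat_lit 33516) (nat_lit 6) (nat_lit 117114453721115631196) (ZL.cons (nat_lit 33592) (nat_lit 6) (nat_lit 117040309362715937268) (ZL.cons (nat_lit 33668) (nat_lit 6) (nat_lit 117003244451145809936) (ZL.cons (nat_lit 33820) (nat_lit 6) (nat_lit 117624086217334288282) (ZL.cons (nat_lit 33896) (nat_lit 6) (nat_lit 117704004487123493718) (ZL.cons (nat_lit 33972) (nat_lit 6) (nat_lit 117806810264319656754) (ZL.cons (nat_lit 34048) (nat_lit 6) (nat_lit 117932543864913834708) (ZL.cons (nat_lit 34124) (nat_lit 6) (nat_lit 118081254596200378242)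 (ZL.cons (nat_lit 34200) (nat_lit 6) (nat_lit 118253000776113125214) (ZL.cons (nat_lit 34276) (nat_lit 6) (nat_lit 118447849756095178660) (ZL.cons (nat_lit 34352) (nat_lit 6) (nat_lit 118665877947511237428) (ZL.cons (nat_lit 34428) (nat_lit 6) (nat_lit 118907170851612837224) (ZL.cons (nat_lit 34504) (nat_lit 6) (nat_lit 119171823093068253190) (ZL.cons (nat_lit 34580) (nat_lit 6) (nat_lit 118746146569754250712) (ZL.cons (nat_lit 34656) (nat_lit 6) (nat_lit 118358042074763184200) (ZL.cons (nat_lit 34732) (nat_lit 6) (nat_lit 118007357410253880686) (ZL.cons (nat_lit 34808) (nat_lit 6) (nat_lit 117693955052828493386) (ZL.cons (nat_lit 34884) (nat_lit 6) (nat_lit 117417712099601757440) (ZL.cons (nat_lit 34960) (nat_lit 6) (nat_lit 117178520220003780010) (ZL.cons (nat_lit 35036) (nat_lit 6) (nat_lit 116976285613297463854) (ZL.cons (nat_lit 35112) (nat_lit 6) (nat_lit 116810928971793904530) (ZL.cons (nat_lit 35188) (nat_lit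 6) (nat_lit 116682385449751335938) (ZL.cons (nat_lit 35264) (nat_lit 6) (nat_lit 116590604637945427658) (ZL.cons (nat_lit 35340) (nat_lit 6) (nat_lit 116535550543900961688) (ZL.cons (nat_lit 35416) (nat_lit 3) (nat_lit 58258600788888568138) (ZL.cons (nat_lit 35492) (nat_lit 6) (nat_lit 116939646840957458466) (ZL.cons (nat_lit 35568) (nat_lit 6) (nat_lit 116962690892929159732) (ZL.cons (nat_lit 35644) (nat_lit 6) (nat_lit 117008788033755688422) (ZL.cons (nat_lit 35720) (nat_lit 6) (nat_lit 117077956340747172590) (ZL.cons (nat_lit 35796) (nat_lit 6) (nat_lit 117170222938729883404) (ZL.cons (nat_lit 35872) (nat_lit 6) (nat_lit 117285624010683421922) (ZL.cons (nat_lit 35948) (nat_lit 6) (nat_lit 117424204811930122872) (ZL.cons (nat_lit 36024) (nat_lit 6) (nat_lit 117586019687882239860) (ZL.cons (nat_lit 36100) (nat_lit 6) (nat_lit 117771132095353871754) (ZL.cons (nat_lit 36176) (nat_lit 6) (nat_lit 117979614627445987822)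 (ZL.cons (nat_lit 36252) (nat_lit 6) (nat_lit 118211549042014310464) (ZL.cons (nat_lit 36328) (nat_lit 6) (nat_lit 118467026293731219414) (ZL.cons (nat_lit 36404) (nat_lit 6) (nat_lit 118064164403481185260) (ZL.cons (nat_lit 36480) (nat_lit 6) (nat_lit 117698427195807734752) (ZL.cons (nat_lit 36556) (nat_lit 6) (nat_lit 117369671244354917518) (ZL.cons (nat_lit 36632) (nat_lit 6) (nat_lit 117077767625220203040) (ZL.cons (nat_lit 36708) (nat_lit 6) (nat_lit 116822601866396087506) (ZL.cons (nat_lit 36784) (nat_lit 6) (nat_lit 116604073902879110484) (ZL.cons (nat_lit 36860) (nat_lit 6) (nat_lit 116422098037428677078) (ZL.cons (nat_lit 36936) (nat_lit 6) (nat_lit 116276602906960296922) (ZL.cons (nat_lit 37012) (nat_lit 6) (nat_lit 116167531454560060846) (ZL.cons (nat_lit 37088) (nat_lit 6) (nat_lit 116094840907109380524) (ZL.cons (nat_lit 37164) (nat_lit 6) (nat_lit 116058502758511216474) (ZL.cons (nat_lit 37240) (nat_lit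 3) (nat_lit 58190360230155948012) (ZL.cons (nat_lit 37316) (nat_lit 6) (nat_lit 116392356565762953098) (ZL.cons (nat_lit 37392) (nat_lit 6) (nat_lit 116427269445294732582) (ZL.cons (nat_lit 37468) (nat_lit 6) (nat_lit 116485472790232541054) (ZL.cons (nat_lit 37544) (nat_lit 6) (nat_lit 116566989425417530600) (ZL.cons (nat_lit 37620) (nat_lit 6) (nat_lit 116671851318157616896) (ZL.cons (nat_lit 37696) (nat_lit 6) (nat_lit 116800099590763678410) (ZL.cons (nat_lit 37772) (nat_lit 6) (nat_lit 116951784536675952814) (ZL.cons (nat_lit 37848) (nat_lit 6) (nat_lit 117126965640186954724) (ZL.cons (nat_lit 37924) (nat_lit 6) (nat_lit 117325711599768649240) (ZL.cons (nat_lit 38000) (nat_lit 6) (nat_lit 117548100355013029182) (ZL.cons (nat_lit 38076) (nat_lit 6) (nat_lit 117794219117196660978) (ZL.cons (nat_lit 38152) (nat_lit 6) (nat_lit 117413724514264242828) (ZL.cons (nat_lit 38228) (nat_lit 6) (nat_lit 117069916019647278600)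 (ZL.cons (nat_lit 38304) (nat_lit 6) (nat_lit 116762658806485134188) (ZL.cons (nat_lit 38380) (nat_lit 6) (nat_lit 116491832381753040122) (ZL.cons (nat_lit 38456) (nat_lit 6) (nat_lit 116257330539009924996) (ZL.cons (nat_lit 38532) (nat_lit 6) (nat_lit 116059061316748830724) (ZL.cons (nat_lit 38608) (nat_lit 6) (nat_lit 115896946962333576486) (ZL.cons (nat_lit 38684) (nat_lit 6) (nat_lit 115770923901507528846) (ZL.cons (nat_lit 38760) (nat_lit 6) (nat_lit 115680942713462520728) (ZL.cons (nat_lit 38836) (nat_lit 6) (nat_lit 115626968111458142326) (ZL.cons (nat_lit 38912) (nat_lit 3) (nat_lit 57804489464491901844) (ZL.cons (nat_lit 38988) (nat_lit 6) (nat_lit 115855797472435006660) (ZL.cons (nat_lit 39064) (nat_lit 6) (nat_lit 115879302405446141952) (ZL.cons (nat_lit 39140) (nat_lit 6) (nat_lit 115926321489089201218) (ZL.cons (nat_lit 39216) (nat_lit 6) (nat_lit 115996873162220515068) (ZL.cons (nat_lit 39292) (nat_lit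 6) (nat_lit 116090985092162880096) (ZL.cons (nat_lit 39368) (nat_lit 6) (nat_lit 116208694185555489388) (ZL.cons (nat_lit 39444) (nat_lit 6) (nat_lit 116350046602827124356) (ZL.cons (nat_lit 39520) (nat_lit 6) (nat_lit 116515097776298283682) (ZL.cons (nat_lit 39596) (nat_lit 6) (nat_lit 116703912431919348214) (ZL.cons (nat_lit 39672) (nat_lit 6) (nat_lit 116916564614653306604) (ZL.cons (nat_lit 39748) (nat_lit 6) (nat_lit 117153137717512995700) (ZL.cons (nat_lit 39824) (nat_lit 6) (nat_lit 116794571827637063830) (ZL.cons (nat_lit 39900) (nat_lit 6) (nat_lit 116472262071310772424) (ZL.cons (nat_lit 39976) (nat_lit 6) (nat_lit 116186082052551248424) (ZL.cons (nat_lit 40052) (nat_lit 6) (nat_lit 115935919543900154766) (ZL.cons (nat_lit 40128) (nat_lit 6) (nat_lit 115721676442412922390) (ZL.cons (nat_lit 40204) (nat_lit 6) (nat_lit 115543268731187007286) (ZL.cons (nat_lit 40280) (nat_lit 6) (nat_lit 115400626446414085564)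 (ZL.cons (nat_lit 40356) (nat_lit 6) (nat_lit 115293693649943265882) (ZL.cons (nat_lit 40432) (nat_lit 6) (nat_lit 115222428407344559684) (ZL.cons (nat_lit 40508) (nat_lit 6) (nat_lit 115186802771464006694) (ZL.cons (nat_lit 40584) (nat_lit 3) (nat_lit 57676401598807301788) (ZL.cons (nat_lit 40660) (nat_lit 6) (nat_lit 115364672025174681794) (ZL.cons (nat_lit 40736) (nat_lit 6) (nat_lit 115400283162297096868) (ZL.cons (nat_lit 40812) (nat_lit 6) (nat_lit 115459650574133661512) (ZL.cons (nat_lit 40888) (nat_lit 6) (nat_lit 115542797542022350844) (ZL.cons (nat_lit 40964) (nat_lit 6) (nat_lit 115649756672617238868) (ZL.cons (nat_lit 41040) (nat_lit 6) (nat_lit 115780569910675421614) (ZL.cons (nat_lit 41116) (nat_lit 6) (nat_lit 115935288555505941504) (ZL.cons (nat_lit 41192) (nat_lit 6) (nat_lit 116113973281087163452) (ZL.cons (nat_lit 41268) (nat_lit 6) (nat_lit 116316694159860491858) (ZL.cons (nat_lit 41344) (nat_lit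 6) (nat_lit 116543530690209759402) (ZL.cons (nat_lit 41420) (nat_lit 6) (nat_lit 116206463538624500354) (ZL.cons (nat_lit 41496) (nat_lit 6) (nat_lit 115905230976700829360) (ZL.cons (nat_lit 41572) (nat_lit 6) (nat_lit 115639714874022305768) (ZL.cons (nat_lit 41648) (nat_lit 6) (nat_lit 115409811106627094860) (ZL.cons (nat_lit 41724) (nat_lit 6) (nat_lit 115215429516175041652) (ZL.cons (nat_lit 41800) (nat_lit 6) (nat_lit 115056493874591459064) (ZL.cons (nat_lit 41876) (nat_lit 6) (nat_lit 114932941854173765300) (ZL.cons (nat_lit 41952) (nat_lit 6) (nat_lit 114844725003149247538) (ZL.cons (nat_lit 42028) (nat_lit 6) (nat_lit 114791808726674366752) (ZL.cons (nat_lit 42104) (nat_lit 3) (nat_lit 57387086136634076200) (ZL.cons (nat_lit 42180) (nat_lit 6) (nat_lit 114883176488644951532) (ZL.cons (nat_lit 42256) (nat_lit 6) (nat_lit 114907151520316309532) (ZL.cons (nat_lit 42332) (nat_lit 6) (nat_lit 114955110985632229984)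 (ZL.cons (nat_lit 42408) (nat_lit 6) (nat_lit 115027073692226170110) (ZL.cons (nat_lit 42484) (nat_lit 6) (nat_lit 115123067860767382438) (ZL.cons (nat_lit 42560) (nat_lit 6) (nat_lit 115243131136027843916) (ZL.cons (nat_lit 42636) (nat_lit 6) (nat_lit 115387310601644911584) (ZL.cons (nat_lit 42712) (nat_lit 6) (nat_lit 115555662798585494096) (ZL.cons (nat_lit 42788) (nat_lit 6) (nat_lit 115748253747318979918) (ZL.cons (nat_lit 42864) (nat_lit 6) (nat_lit 115965158973707617478) (ZL.cons (nat_lit 42940) (nat_lit 6) (nat_lit 115649169016524978842) (ZL.cons (nat_lit 43016) (nat_lit 6) (nat_lit 115368600370682308256) (ZL.cons (nat_lit 43092) (nat_lit 6) (nat_lit 115123343009259667414) (ZL.cons (nat_lit 43168) (nat_lit 6) (nat_lit 114913300752899635674) (ZL.cons (nat_lit 43244) (nat_lit 6) (nat_lit 114738391232089914982) (ZL.cons (nat_lit 43320) (nat_lit 6) (nat_lit 114598545854861560352) (ZL.cons (nat_lit 43396) (nat_lit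 6) (nat_lit 114493709779890168508) (ZL.cons (nat_lit 43472) (nat_lit 6) (nat_lit 114423841894989476158) (ZL.cons (nat_lit 43548) (nat_lit 6) (nat_lit 114388914800988934010) (ZL.cons (nat_lit 43624) (nat_lit 3) (nat_lit 57217313487038959950) (ZL.cons (nat_lit 43700) (nat_lit 6) (nat_lit 114446733178189199682) (ZL.cons (nat_lit 43776) (nat_lit 6) (nat_lit 114483056538054063060) (ZL.cons (nat_lit 43852) (nat_lit 6) (nat_lit 114543611298127358994) (ZL.cons (nat_lit 43928) (nat_lit 6) (nat_lit 114628421205373822116) (ZL.cons (nat_lit 44004) (nat_lit 6) (nat_lit 114737519518580607898) (ZL.cons (nat_lit 44080) (nat_lit 6) (nat_lit 114870949021399954298) (ZL.cons (nat_lit 44156) (nat_lit 6) (nat_lit 115028762039127084588) (ZL.cons (nat_lit 44232) (nat_lit 6) (nat_lit 115211020459219930974) (ZL.cons (nat_lit 44308) (nat_lit 6) (nat_lit 115417795755568725950) (ZL.cons (nat_lit 44384) (nat_lit 6) (nat_lit 115122469714467087722)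 (ZL.cons (nat_lit 44460) (nat_lit 6) (nat_lit 114862159809880299886) (ZL.cons (nat_lit 44536) (nat_lit 6) (nat_lit 114636763959492838212) (ZL.cons (nat_lit 44612) (nat_lit 6) (nat_lit 114446193772775138988) (ZL.cons (nat_lit 44688) (nat_lit 6) (nat_lit 114290374516320646254) (ZL.cons (nat_lit 44764) (nat_lit 6) (nat_lit 114169245084538593544) (ZL.cons (nat_lit 44840) (nat_lit 6) (nat_lit 114082757975691027112) (ZL.cons (nat_lit 44916) (nat_lit 6) (nat_lit 114030879273264673400) (ZL.cons (nat_lit 44992) (nat_lit 3) (nat_lit 57006794316335172802) (ZL.cons (nat_lit 45068) (nat_lit 6) (nat_lit 114018847579703168458) (ZL.cons (nat_lit 45144) (nat_lit 6) (nat_lit 114043302112007953618) (ZL.cons (nat_lit 45220) (nat_lit 6) (nat_lit 114092220766630192478) (ZL.cons (nat_lit 45296) (nat_lit 6) (nat_lit 114165622727356011408) (ZL.cons (nat_lit 45372) (nat_lit 6) (nat_lit 114263536779268047984) (ZL.cons (nat_lit 45448) (nat_lit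 6) (nat_lit 114386001320033718688) (ZL.cons (nat_lit 45524) (nat_lit 6) (nat_lit 114533064374963127710) (ZL.cons (nat_lit 45600) (nat_lit 6) (nat_lit 114704783615842521874) (ZL.cons (nat_lit 45676) (nat_lit 6) (nat_lit 114901226383550677414) (ZL.cons (nat_lit 45752) (nat_lit 6) (nat_lit 114626159083704921936) (ZL.cons (nat_lit 45828) (nat_lit 6) (nat_lit 114385710690153313268) (ZL.cons (nat_lit 45904) (nat_lit 6) (nat_lit 114179786909408184110) (ZL.cons (nat_lit 45980) (nat_lit 6) (nat_lit 114008306987045712844) (ZL.cons (nat_lit 46056) (nat_lit 6) (nat_lit 113871203676037522030) (ZL.cons (nat_lit 46132) (nat_lit 6) (nat_lit 113768423210379294732) (ZL.cons (nat_lit 46208) (nat_lit 6) (nat_lit 113699925284006066938) (ZL.cons (nat_lit 46284) (nat_lit 6) (nat_lit 113665683034985927578) (ZL.cons (nat_lit 46360) (nat_lit 3) (nat_lit 56811663463292149883) (ZL.cons (nat_lit 46436) (nat_lit 6) (nat_lit 113635675254777805144)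 (ZL.cons (nat_lit 46512) (nat_lit 6) (nat_lit 113672725081839965786) (ZL.cons (nat_lit 46588) (nat_lit 6) (nat_lit 113734490937114727642) (ZL.cons (nat_lit 46664) (nat_lit 6) (nat_lit 113820997042506120026) (ZL.cons (nat_lit 46740) (nat_lit 6) (nat_lit 113932277321977041524) (ZL.cons (nat_lit 46816) (nat_lit 6) (nat_lit 114068375414852774850) (ZL.cons (nat_lit 46892) (nat_lit 6) (nat_lit 114229344692934447746) (ZL.cons (nat_lit 46968) (nat_lit 6) (nat_lit 114415248281429151064) (ZL.cons (nat_lit 47044) (nat_lit 6) (nat_lit 114160042492618574754) (ZL.cons (nat_lit 47120) (nat_lit 6) (nat_lit 113939066168709298602) (ZL.cons (nat_lit 47196) (nat_lit 6) (nat_lit 113752232652319397402) (ZL.cons (nat_lit 47272) (nat_lit 6) (nat_lit 113599468675403228056) (ZL.cons (nat_lit 47348) (nat_lit 6) (nat_lit 113480714330518862654) (ZL.cons (nat_lit 47424) (nat_lit 6) (nat_lit 113395923047334973994) (ZL.cons (nat_lit 47500) (nat_lit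 6) (nat_lit 113345061574367960552) (ZL.cons (nat_lit 47576) (nat_lit 3) (nat_lit 56664054982971074494) (ZL.cons (nat_lit 47652) (nat_lit 6) (nat_lit 113260016112694115620) (ZL.cons (nat_lit 47728) (nat_lit 6) (nat_lit 113284959735644996480) (ZL.cons (nat_lit 47804) (nat_lit 6) (nat_lit 113334856763359680118) (ZL.cons (nat_lit 47880) (nat_lit 6) (nat_lit 113409726763300015428) (ZL.cons (nat_lit 47956) (nat_lit 6) (nat_lit 113509599096250292734) (ZL.cons (nat_lit 48032) (nat_lit 6) (nat_lit 113634512927831276854) (ZL.cons (nat_lit 48108) (nat_lit 6) (nat_lit 113784517243859274054) (ZL.cons (nat_lit 48184) (nat_lit 6) (nat_lit 113959670869556256104) (ZL.cons (nat_lit 48260) (nat_lit 6) (nat_lit 113723937150388012310) (ZL.cons (nat_lit 48336) (nat_lit 6) (nat_lit 113522051090833964116) (ZL.cons (nat_lit 48412) (nat_lit 6) (nat_lit 113353933519890364836) (ZL.cons (nat_lit 48488) (nat_lit 6) (nat_lit 113219518509098020902)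 (ZL.cons (nat_lit 48564) (nat_lit 6) (nat_lit 113118753346687994138) (ZL.cons (nat_lit 48640) (nat_lit 6) (nat_lit 113051598516910319830) (ZL.cons (nat_lit 48716) (nat_lit 6) (nat_lit 113018027684537634184) (ZL.cons (nat_lit 48792) (nat_lit 3) (nat_lit 56458088684223131995) (ZL.cons (nat_lit 48868) (nat_lit 6) (nat_lit 112928772663203639472) (ZL.cons (nat_lit 48944) (nat_lit 6) (nat_lit 112966563486807043328) (ZL.cons (nat_lit 49020) (nat_lit 6) (nat_lit 113029564659187300420) (ZL.cons (nat_lit 49096) (nat_lit 6) (nat_lit 113117800886686520652) (ZL.cons (nat_lit 49172) (nat_lit 6) (nat_lit 113231306771746860580) (ZL.cons (nat_lit 49248) (nat_lit 6) (nat_lit 113370126826480108574) (ZL.cons (nat_lit 49324) (nat_lit 6) (nat_lit 113534315490123414928) (ZL.cons (nat_lit 49400) (nat_lit 6) (nat_lit 113317672035310399092) (ZL.cons (nat_lit 49476) (nat_lit 6) (nat_lit 113134501921202652818) (ZL.cons (nat_lit 49552) (nat_lit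 6) (nat_lit 112984733316382878950) (ZL.cons (nat_lit 49628) (nat_lit 6) (nat_lit 112868307488064873654) (ZL.cons (nat_lit 49704) (nat_lit 6) (nat_lit 112785178779061061242) (ZL.cons (nat_lit 49780) (nat_lit 6) (nat_lit 112735314589877714730) (ZL.cons (nat_lit 49856) (nat_lit 3) (nat_lit 56359347682965420324) (ZL.cons (nat_lit 49932) (nat_lit 6) (nat_lit 112604024183311015800) (ZL.cons (nat_lit 50008) (nat_lit 6) (nat_lit 112629466678720914278) (ZL.cons (nat_lit 50084) (nat_lit 6) (nat_lit 112680361646989891588) (ZL.cons (nat_lit 50160) (nat_lit 6) (nat_lit 112756729046929033602) (ZL.cons (nat_lit 50236) (nat_lit 6) (nat_lit 112858598826538316456) (ZL.cons (nat_lit 50312) (nat_lit 6) (nat_lit 112986010934750920258) (ZL.cons (nat_lit 50388) (nat_lit 6) (nat_lit 113139015337099477406) (ZL.cons (nat_lit 50464) (nat_lit 6) (nat_lit 112941087827732763490) (ZL.cons (nat_lit 50540) (nat_lit 6) (nat_lit 112776266679748842628)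 (ZL.cons (nat_lit 50616) (nat_lit 6) (nat_lit 112644487257403407398) (ZL.cons (nat_lit 50692) (nat_lit 6) (nat_lit 112545697882491616454) (ZL.cons (nat_lit 50768) (nat_lit 6) (nat_lit 112479859814082131838) (ZL.cons (nat_lit 50844) (nat_lit 6) (nat_lit 112446947233324596890) (ZL.cons (nat_lit 50920) (nat_lit 3) (nat_lit 56155293471811034765) (ZL.cons (nat_lit 50996) (nat_lit 6) (nat_lit 112323434144274592526) (ZL.cons (nat_lit 51072) (nat_lit 6) (nat_lit 112361980784350064458) (ZL.cons (nat_lit 51148) (nat_lit 6) (nat_lit 112426241980177926690) (ZL.cons (nat_lit 51224) (nat_lit 6) (nat_lit 112516242932227131326) (ZL.cons (nat_lit 51300) (nat_lit 6) (nat_lit 112632018934988678054) (ZL.cons (nat_lit 51376) (nat_lit 6) (nat_lit 112773615390816591010) (ZL.cons (nat_lit 51452) (nat_lit 6) (nat_lit 112594036847573702506) (ZL.cons (nat_lit 51528) (nat_lit 6) (nat_lit 112447204882064120282) (ZL.cons (nat_lit 51604) (nat_lit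 6) (nat_lit 112333061913124899404) (ZL.cons (nat_lit 51680) (nat_lit 6) (nat_lit 112251563178807436256) (ZL.cons (nat_lit 51756) (nat_lit 6) (nat_lit 112202676718823763204) (ZL.cons (nat_lit 51832) (nat_lit 3) (nat_lit 56093191681006551169) (ZL.cons (nat_lit 51908) (nat_lit 6) (nat_lit 112048345870709471668) (ZL.cons (nat_lit 51984) (nat_lit 6) (nat_lit 112074297216027568118) (ZL.cons (nat_lit 52060) (nat_lit 6) (nat_lit 112126210083661924972) (ZL.cons (nat_lit 52136) (nat_lit 6) (nat_lit 112204104831599849826) (ZL.cons (nat_lit 52212) (nat_lit 6) (nat_lit 112308012006801318336) (ZL.cons (nat_lit 52288) (nat_lit 6) (nat_lit 112437972357178174218) (ZL.cons (nat_lit 52364) (nat_lit 6) (nat_lit 112276382996409624352) (ZL.cons (nat_lit 52440) (nat_lit 6) (nat_lit 112147187484306256480) (ZL.cons (nat_lit 52516) (nat_lit 6) (nat_lit 112050335155961363398) (ZL.cons (nat_lit 52592) (nat_lit 6) (nat_lit 111985788030069711814)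 (ZL.cons (nat_lit 52668) (nat_lit 6) (nat_lit 111953520794032912844) (ZL.cons (nat_lit 52744) (nat_lit 3) (nat_lit 55902046990135606222) (ZL.cons (nat_lit 52820) (nat_lit 6) (nat_lit 111817198124936785898) (ZL.cons (nat_lit 52896) (nat_lit 6) (nat_lit 111856515697813767270) (ZL.cons (nat_lit 52972) (nat_lit 6) (nat_lit 111922062117558186746) (ZL.cons (nat_lit 53048) (nat_lit 6) (nat_lit 112013863088648375474) (ZL.cons (nat_lit 53124) (nat_lit 6) (nat_lit 112131954611465153138) (ZL.cons (nat_lit 53200) (nat_lit 6) (nat_lit 111988001704102817624) (ZL.cons (nat_lit 53276) (nat_lit 6) (nat_lit 111876096832593777548) (ZL.cons (nat_lit 53352) (nat_lit 6) (nat_lit 111796196112674696030) (ZL.cons (nat_lit 53428) (nat_lit 6) (nat_lit 111748268210729918528) (ZL.cons (nat_lit 53504) (nat_lit 3) (nat_lit 55866147165751890212) (ZL.cons (nat_lit 53580) (nat_lit 6) (nat_lit 111590582687904741026) (ZL.cons (nat_lit 53656) (nat_lit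 6) (nat_lit 111617053060129199402) (ZL.cons (nat_lit 53732) (nat_lit 6) (nat_lit 111670004185116243396) (ZL.cons (nat_lit 53808) (nat_lit 6) (nat_lit 111749456828012926746) (ZL.cons (nat_lit 53884) (nat_lit 6) (nat_lit 111855442146718424628) (ZL.cons (nat_lit 53960) (nat_lit 6) (nat_lit 111728779879950416910) (ZL.cons (nat_lit 54036) (nat_lit 6) (nat_lit 111633826616867188398) (ZL.cons (nat_lit 54112) (nat_lit 6) (nat_lit 111570545120894980962) (ZL.cons (nat_lit 54188) (nat_lit 6) (nat_lit 111538910575760864326) (ZL.cons (nat_lit 54264) (nat_lit 3) (nat_lit 55697181018066298702) (ZL.cons (nat_lit 54340) (nat_lit 6) (nat_lit 111407728263691482326) (ZL.cons (nat_lit 54416) (nat_lit 6) (nat_lit 111447832188026003324) (ZL.cons (nat_lit 54492) (nat_lit 6) (nat_lit 111514689536165311192) (ZL.cons (nat_lit 54568) (nat_lit 6) (nat_lit 111608326526677303696) (ZL.cons (nat_lit 54644) (nat_lit 6) (nat_lit 111498615868335107542)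 (ZL.cons (nat_lit 54720) (nat_lit 6) (nat_lit 111420281829198753112) (ZL.cons (nat_lit 54796) (nat_lit 6) (nat_lit 111373293690037206542) (ZL.cons (nat_lit 54872) (nat_lit 3) (nat_lit 55678816512064614005) (ZL.cons (nat_lit 54948) (nat_lit 6) (nat_lit 111228459220345150268) (ZL.cons (nat_lit 55024) (nat_lit 6) (nat_lit 111255459000014097812) (ZL.cons (nat_lit 55100) (nat_lit 6) (nat_lit 111309469147500882684) (ZL.cons (nat_lit 55176) (nat_lit 6) (nat_lit 111390510843255499706) (ZL.cons (nat_lit 55252) (nat_lit 6) (nat_lit 111297419408860177634) (ZL.cons (nat_lit 55328) (nat_lit 6) (nat_lit 111235378726534484070) (ZL.cons (nat_lit 55404) (nat_lit 6) (nat_lit 111204364466599075604) (ZL.cons (nat_lit 55480) (nat_lit 3) (nat_lit 55539587814252288607) (ZL.cons (nat_lit 55556) (nat_lit 6) (nat_lit 111092809180614639836) (ZL.cons (nat_lit 55632) (nat_lit 6) (nat_lit 111133715183435851254) (ZL.cons (nat_lit 55708) (nat_lit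 6) (nat_lit 111201909678537945280) (ZL.cons (nat_lit 55784) (nat_lit 6) (nat_lit 111125111600953284074) (ZL.cons (nat_lit 55860) (nat_lit 6) (nat_lit 111079044797853728614) (ZL.cons (nat_lit 55936) (nat_lit 3) (nat_lit 55531845601913149340) (ZL.cons (nat_lit 56012) (nat_lit 6) (nat_lit 110959818945584727648) (ZL.cons (nat_lit 56088) (nat_lit 6) (nat_lit 110987358720847054144) (ZL.cons (nat_lit 56164) (nat_lit 6) (nat_lit 111042449071283574716) (ZL.cons (nat_lit 56240) (nat_lit 6) (nat_lit 110981624872925051614) (ZL.cons (nat_lit 56316) (nat_lit 6) (nat_lit 110951218735733474686) (ZL.cons (nat_lit 56392) (nat_lit 3) (nat_lit 55428218070945508093) (ZL.cons (nat_lit 56468) (nat_lit 6) (nat_lit 110870342365043280060) (ZL.cons (nat_lit 56544) (nat_lit 6) (nat_lit 110912066487920915710) (ZL.cons (nat_lit 56620) (nat_lit 6) (nat_lit 110866902955470371140) (ZL.cons (nat_lit 56696) (nat_lit 3) (nat_lit 55425925206153112073)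 (ZL.cons (nat_lit 56772) (nat_lit 6) (nat_lit 110782620227257547130) (ZL.cons (nat_lit 56848) (nat_lit 6) (nat_lit 110810710798025120158) (ZL.cons (nat_lit 56924) (nat_lit 6) (nat_lit 110780900859602005522) (ZL.cons (nat_lit 57000) (nat_lit 3) (nat_lit 55362078953325754004) (ZL.cons (nat_lit 57076) (nat_lit 6) (nat_lit 110738342254266817162) (ZL.cons (nat_lit 57152) (nat_lit 3) (nat_lit 55361792429503924760) (ZL.cons (nat_lit 57228) (nat_lit 6) (nat_lit 110694932476824925034) (ZL.cons (nat_lit 57304) (nat_lit 1) (nat_lit 18446744073709551617) ZL.nil))))))))))))))))))))))))))))))))))))))))))))))))))))))))))))))))))))))))))))))))))))))))))))))))))))))))))))))))))))))))))))))))))))))))))))))))))))))))))))))))))))))))))))))))))))))))))))))))))))))))))))))))))))))))))))))))))))))))))))))))))))))))))))))))))))))))))))))))))))))))))))))))))))))))))))))))))))))))))))))))))))))))))))))))))))))))))))))))))))))))))))))))))))))))))))))))))))))))))))))))))))))))))))))))))))))))))))))))))))))))))))))))))))))))))))))))))))))))))))))))))))))))))))))))))))))))))))))))))))))))))))))))))))))))))))))))))))))))))))))))))))))))))))))))))))))))))))))))))))))))))))))))))))))))))))))))))))))))))))))))))))))))))))))))))))))))))))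

noncomputable def vl : XL := ⟨(nat_lit 0), (nat_lit 76), (nat_lit 149752543), (nat_lit 152), (nat_lit 46319546), (nat_lit 76), (nat_lit 149752543), (nat_lit 1), (nat_lit 5), (nat_lit 2), (nat_lit 4), (nat_lit 1), (nat_lit 4), (nat_lit 0), (nat_lit 0), (nat_lit 0)⟩

noncomputable def cp0 : Nat := (nat_lit 1101604657373845742755896747248957129945978442972769077868764848755546493002032914216270828773041717706202880815543595091806279979311657053851246798610297132975071424385891539398145129992545812012844847753832872511821479686702504551623662192679922928086607471026733145950878503828042021662130933841558585571771082065945865827268808259806803276437863963306199445180096099181669756463342050717724423129749668256596339240279810765484450884510030223330594724451980940105989478746527432513527720332289630089040579960627252514777960875413506132147267573574815249679484936352341364654252277131741176440954328354541032757890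920159419481361436940004796957690452775481763270720050022726872851477305455910484743540151304789637060170710988907925826275843112905962356142888338637568295207549151518624878185811365738036865905762811907000265138501440485288447169368841320133303695059716616407131921251468533933447746983054049185618222692510131884541363767805878460329230509719546685702081614661316314223417731709184984480050581952900883399241625189976205834966490278366928969075449982448809790313890722718163375359696693861887265052645244036834197419234230676101384421335148208292958879029038699642877827150908248030176051697664483346771321042086804554583110415000201637538838092556510373587974925770927986163348439048229593819654701670745679297628535121991577229313180353556550393901534358751056960036354674512442729078678005402047370122830347382880577946097802027928206865425395343861548185305170949858231142942619294639709359785428266465409687506656657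418852729425110291988055399500684684113361161029337557861291273815827197659999775479274472274266748605235359939233975438714515802607620211115899091318197246853021702979383100377537385163333944847025047621094344187454214847613550390278079081442353452219298607473027479596763353530896845104194245036774648055144706009887748535827663080176115151928267054264265524242471792356852283658127217696523239921976823667858701683242387055278029409084990719957497447664912918132733813951357133726850271558860105949741055325597988837143784214460050438573647945003326094685219709152008408781111931864698546495328906577286146764193708258443335407820983921543057771254352714124472904879470480375577730185844673749212126973032263431642196954595546918229226460577087062945829766841323128350012214265639891630526611419323069286844321252093333024596359921897475242126673462609270996022334007413080686651345195209628008374541015871345815706251400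626620443429113862000833647346881959001372416771305108031609785824142465964969853582534892118602389544646763484898341409885685150957355678169153046931496156956663670998516446875699239343084533636248466440063919794865119588658684951611051025995424534011529516512459940138136257787956974040474627937532844674811990632427536147740784120663741492757323475309294847758808985958951987773374587305157513694256313841469541718063756705927305235288208730412367968045190693116936517778075440118927900254473498699318452515438019162043785344124781935854427272800013894741721700170517167612495561042382053561000422369193377203415935366081558240949060457695875241423967780739755694569568611247819513204866867785569601917034525897234992653019388768488573485306148967285234624097499374806361733821784281440605975800935421728308795335759822393728040042334083140358628598319485776178312043925981639968745098842074410378967203347889797748661709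227193503386688286772581430994582666468586480812915223276227876360908642973586145894585166848021370960474924219067522583521821180495237221000094005773334769769250388539074879005683013677128122224222694073022588800504679547373340595405775992940646946158188080165676248961357575846553876175661340678648953053456236203045563306297096227518915230889605797670807824631662168014961201990004570640602647936406252291055543656749781607630319697655025696480051749663412536771567921812824630926090546760537227937658797614478842821118729520374328504548812295446196006816520028957641291235353232400447600131858327989563443246079543621939243472168998885353673621229444243795550602420219911546004854941743765884134158840881947979618123379042904359506580763474416800141971538692545363562434643612913841118345190721395679567343036232181312384870395994813355403396206408774143368808345864683674555198420255887932111713722055609050681258556237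833374935399243903807510515658049318806330681454914483008524204032997982617727318297330641617268621020292340300138274249622418834798509206774127840708047122685686866602406805591112951878059456946172918630052563359845325452421052469569206974949165091672435871985167784092629887123709568656264857422513287010463369922181379934371756192212832068696036975805825104767154492318885373736359828604044358735362314290812051932669516731369312779606952434160935794104149609188301019007426570005525449815418605221440591389248434047551983963023492865521317206649430787099205880201559443255524630966359308413424050943045983328413665127344787516954750421312235573915475737922499573074682769861062980645829002058601952210895171852417606984738205905535364480035624945686843694651222338644868978036806339481666054948657283241253848835257404150683913115028821267748689086439211966490788389389772925682775014509478046341224916991015095078278314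618204102029353700617695987319586382846320364472278402514117137157314721870409300695985677779107790975725275616326682059808306955856661532430109287299762500142632232445542515496884831389429232662320545153656108387082399396992343076410698612959981207042419511429657602206093498660789981550359281936586751286120737804927234344963530317260314636149964734290630131972332796034315630495919942367369008197471561148604188189482167465296748186793332942002686979053069473332659318942711137992722544242979615407151263895332428622483935458880669444653364786651789229555614399849799597624077069151964069531206033918544972815628215364666354519653697916696471376040547232695909681407063539718899025958123188580930444406153059062369500826219947785762570725001030637341432711704694976718359349466829136701596317374258853468336703436849077197177148812241934401901424839840489949335124534477780080915891060156225874700759386504557426551181746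136305283414030205101557308543417146819017017657876061684766164502354891209634223995200248607945696181166908147852332281557799700523223368766611685249029762241505636085568900795822105945609404911900121438353398136915775288357769981215264185870664867649175691261402735238592637188434621550429314836575437419113797631290939697409267444995176652063369181942505855468583067792034756376044617077809161217262681131571400123544572245742241904125245957737726719567248721293181820317043879446119150999201734644002448106809578331941613067514706910189265314273861211613947886643637973552250701029445358422419956181887512552567996827132365447667489293346609254420849110008939237253847543371426821550372080922184456632560196824378646173770898997337511436836113505594878971521568683693707811679059747807303897506699388839614917262047605611977367151577119298685012235880405017190469592992009575721248400983195269807638127723555937207589262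807274648565336247490220175687332863622985656642964962513656634900098917315701321124372734920584313846789341631338457894760365236400817705337049192039996776127767810595411531216688425167201722468544889236691545688283545097913792512206202500301540670351015762052010352170025553347782414946758069620894317717115770343161489653388038190153216044795928816217573847231970046257840791378234494358085919359253122310675155835250074722312033739119180049107450194610534959055825127919075894335410173414424376121345549141045887395465035027362408678516368760385152137460421588540049558603568433948627319448865353279025630472340604219267597542632601395843014161708655216957431451528701260680730659136770957999542776701651698767019484580397527398168997606818983215221033652794149562385139499138729995831722279575672805395785605034159161429487172915994115858851220231186727423783363848165260782041444008738862869963496958267255407475455194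184758864225965232428641838647716180441767137017369779059721614847644425842657970218753557780196323604962868344029031401210623303215556173439273360012053522664013046146080755714490161426938888366175966873278689536892167520126958216915416182448769456464964135556503760178403923838468041030494698435426350847785722775748265250866671997402958767141881611438618969812688463673240160473610154608381307913973945941779682504260033627124357773607636024237302589413625282928136737097048711054415184448549997775828889403962442681912398071406932359551397458162689128354736187143106914510258761205371482729107991624252324779669931192031883302288410334176768033421067204503548523392123463783300901303560704831198422635432523962294671688998641944583368661389485772113135879110928696351048714857781848230413233001420504245305748121988808084600040391681835973305283441413571815751274865367428710001822242863098715457141853946128899455622237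628371514669472594581167958175971688620388569457781478542374518604734042417611836228254956700090999980350469294261838790026134595812149249670257569002983824965462643113183005370424040906484449256914279872267229372790882296293235328286735681459399487018543507291255452196732993167952206520560087110437469120926398071977107992722160935366160565432980179707912269075635908398042316909590381935554995500763184224598673361698291572565161195568321523535101063814392278214956640684528530140311749863162681139309310593939109906011394382474786106436097590074484458914350124064846275561943674735536520068600599112834782243729069675834904536039702560521891833720941135321880477031085505437737574839940563694505095936719856838919326608053427984995108134125512790228718465093190159276275662868096363473914566712669086002906731419105136733658403477291035898108669976247471581700720242679852447643503521229144699207002800453380985151861577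829274923892279339431020587108824331384181555311123114287625353295381528693223311656572796912151066870263232846372400515132288391880225761216464154476537292268710978162530388768387862440863614992860931926453405352470927869654287221162537488268631796240981062803693957319904915186873805968193368555834308261511465262381111731060690854626985941629666953022755374260594386323117246758354093891976808336322202869086186807907342966632528800405164478103849229564020943385034674945915708134395948157524649788690665041046439710112198160746855515636201080300518865535366360244398288961324032935395098302019523361053810594074248365107835078374201631777724746768542585002700105524244652781694465790133373889126541989761160844439863832558107052765738893032972407040899941386901884634025752773649226660907445461486037291303932204088461448367372612405587158205150010603711655214257215717674849709574934896365114654368888923674925059254932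716471196808522063844634001789136197821615483304582475148124924069109108655606101017830034905173170761843177946738007929851691371418102986512407122521246535577930201306841840206865988721356107388709556301099296873497008280707483211907446967127258751634833416748036916053945802172409047215685592644211488131153204696524963927183180772636543897272503666203030955450561182259304699581842622329196309701424871124353179188348148091543503266202372289821860044982435966101065824922070318316631152128174151120301728534958604690178320578336082091290373951064953344007737808577343906234978506630768582942847318505475699136136844141973170376770377223615809864612343844529415827168720189313987479035324269591562305454986491444942200107496563223124496674980903870304560534822864727738290918529270393203805761107997044127339255877468436588498898424206196103771613861084410378396003646954389732545676719270910299452016957050649824863058138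401518988672678559166879661464999182509958483161308420831643726349308221964107362906378468556021841129142378464878505002692570020771652071364801006368419969001779668158293685201372276139158853013654056014023703447166797507580803932498209319297972403594198597667098394024510329795476224057852467908317452582167224501844465373531467116962070849258577164318744831710122487122856902326470149200020086523035157249490161275381587273826299445125707835039991044551399441897173851782606294674173481327926603137893523740159385500419794323701739071312341703905658944950086854659084302246949913286304215305544632100255121051704561995475831342684715445284150144358215469050869366157156970965441023381217119588902616569467247444939213962407534820551478479796584309177914278762151270059659487664071251846917215761421123576099374442888807044565092467237021483726784768149469062294923909936559729890837717449522421979446661580978732766269407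155757088499634141209248020044876498547749257202939900432358406501959109656528091817544544944602596643552872918029131234420237445749055078051706175398204828484818145291316254271889080130444419086648871210880946060281400626707723387054030537457285569380776511826587522434053394078027894161818006976467010715076646884421323668147229296657339207949891063082650209614500766278986749776137849109519862399477206223691156525814726585570075146802762202732785712693869614205264031627096441556073076215961472957957939714538316383733898013465658007357205388960105886180181318838637759884179896972584021639481235779865987690283614237692826768380466077849679876557748710392325383747144919852156512055377640574766076131074373202549411431195410731388304817497732549275718008657186974339609877690297472441988399054860127970819449935454609561366043809742530388529264968594375184153222102100805661686435248010440999771548888700025800922527134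184854120037867356633130460510187306531544161797648580707401788519809934717608012768800342390964150000409491163470209496288709435709357419035304711514255362773215658094046904110862579375789663529823370434432359172536185904126567845063916950164638854041457541232764832826394145338107982172316257700718697664650885682662064945520860484898847237318233241974674273478218673506634686655743372465220324875923201245025726870036260932364690228214242522954386351032432584847303946401628236102876814672940394496270058914793364619498480986270695744979612849688549550291956146430079993757490079322195019532076166197152712766967935980299112982224305224834519236832506534268940638461531696607674253247994057713710679653551161614654635711407881384026222638081689223267475122084218061514159982181211082365655849678506736615218877303387629869675524499779532285409424191253977403750707961933337630568290046268112672838265691961231835447320041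517770429693384376388530726668397785402315195879440058527609940803716961243604026822230326358542901241656552228740793443228797916451956979637307343770142506826816516404596907568702402745578148786918531653424369940392816152153702547679211565124047448636622917469270542511104230580713326879423991045042150120294280032836401373057187153057957973829338073715010141039383062630479752514598337429701873386146669649819951186957629599510273593592570241255926565125324693104265912840060201129465368861275141432873322287869343080455080505978629908494310848237711624479246374222833754213111336386360110207559483869325398116942264110888932429625899759510164967896301504873347969497903423473229087330179578666709264158164387435761263551869741511362034185277017110229215995567297293809812162056957678251840395354830027093653832785837081337691650034011554946287773290062062032847961547637226426526926771873388999639477775698206662345551668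611093368703820951540538633102325457059877723004503654142104707128527798249409448001451438479507070063809454691582539143912744481641399974358003877066288819152917551139879162388504039934954718841407674405810818341252473818272455494141826679250049822642634464273832126532555107757460892876025624285009435184725206214522417987531116161525624328137794155272556893002765216529207743035638850124704384682524444065822257107001031542205336100557806616323486473518660053354050151129160615755802514580947712826030475407994150424838558289865637062643003334503852049453933840422301595226932536449898977241222466241619751583629609364144854150069054590757476151486163114578928508984545210910299874881963279910302123149621669798787899488059333993441829008178213070885855477732005266113256923190790324399358609365303062565659608887252693666349072841546809585628008774056185480021309356152397178840185593338206220021395331406274755433676995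4736045886962217173776240746014745980421616889986429683970987054017949355262721825677716696090155001037471994856845738236567190466398133903243081800888085623375517821822612329240329581035288368913431591631119726248553591813895025748776254359120108038644791403709751323364979460312429400921008376901252172365432938246994593985919329486044683979888435664389529033738298396771253586003988857339437490071868029169291699491390765115128202654871578310732215904757975762607145023452025801628427459565988649768147559146868152648329784146749111511852637631095640923414220487289142215106059082970405846449383798130190031839879620718040151145528390310636299711270771153730439100640644834399221635753459834695233235567990235443284868436251494270629958160612716740319899960893904479462262278856629572330785606110778851591902590277929678682162448093442692971482066245692466085702276600559760185420436468597032587698429447580319210783892831522710936221034479616)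

noncomputable def cp1 : Nat := (nat_lit 111575263449364575562243794966370206000937921254408085924296886580284533485529596319232758499613712213695445184428640493124912446218593544865720570599275742834010987653948435690830320536843197157172778966244042640740349092574614010957728145393638027164921546961322315393391430973311436816687490139464795651301585633535580918324142571492067064794366251307841359964486293150247762048845759632537359698596002003368350998202675564362782961217746212213574807927922395498396171909447212209856927771297412587488941145004455156755808416987794946241177187311486106688952682756637122825056346463586743347550425430201218964593332950145825998889958100888076701014889692333555972297331723558358211902012394320488879956873312146082750422061475370572718043850172347544273017207929936743103143901428265431160814203237516668677583704724206559470816460626263071863129220759770806266386898387429844799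537555958323246353012795070721851692038545965611578360265935841579099069741909151638935828826073833421260571403928958330783793316210122277916832776152437308492390564461898847150366310338802906504300159827539225993210585051296066722244031501940101816024765336087956577614123926028424677581046159881535402831821273465382424868726674683493189171632895195602974043574030104172910036745691619038093287946482799027071552097317672648674369579526062653231962897630297112920464512425991565007661132241756553911724999893912777818774230149240271239998003654365245727599151072719930450554081381923187807979910407487100120183024956044353328296096866987731494923850050814493437367534427856267259028178398260284528696159693048631568776600672815529478717900912669727691738481380895213628104859841845021778843588271444729297420820616900193075679818895257907283000524565249983814085485485348065415827375723428094747028572986105383032696474782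468403286796588048935298538958322906858130198000382473765217357399611831686469476071210857788087566220786066297277358343711059751483242847037189801864853790924381772196693267031158548301405931399149365583680802000762357940075135539870774889763501902080884485719246385656736983163143617976613059207327128345143105432469518135114435122120393225720755310693455333479837013322885232017988860673963213356725886185137780971151167443672079979373494620963601792202869100752737495817308365123862763895653003712239884738313299924255015959723984886749340282214715649737054607404260063042699752031258543614657397013126560027205779945991596959465000884484369759797541738694183340347637889001931045081124458650696088931079022182890137792169622633144013622452323013688587398607400601795886492684210433579762668718337765881804893649459425289666376523757036148910315857702405820607904256519455578881701376953389707402441146036354116911776829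238199280194379733263240341264206367459874576102017824300274994588222075344154230458882921603300423300332709885780659899282259599884821923747378860558510836290506946832984579000453435678615628372624922186249577891733645407944562679806867862412241015587396180772799518361841396867035079755347315347284179608547773691720704631867083196623153014042635461670000873267318217633458176818998553024458931604765432788247074433766832415377054635123826569628639605328489834387389233334789700987500730713117287637585727881402824452525395752864947204491117941799705060871019391449742657475595374018826625119754239140628211113508215417441077471131322219161394320097963189771142552958027567228215278123820465806339652376615703280259822832096571056103402124878435440081835575150030819588867221405403617637590561931826220244510314464512477092557459931810139976194501682667177978662479179619209182380938144392195569102743130868655999182879534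179137901120111102914169980631964545442166534079656635174457309929371448604540439647018796596307925341498261021391526152393517489586317456798340008884269410789746163550532240598897647840533446578812765122071137560391496440358106071659730900279050338093614271855094803090373876740829070177591443750801106636199995490420672368131144642812970228648159542607658741420831597470315375651639221674023788059774876686540316204287870818011299592739533397508079997276203841586971563898044799964008024803923163117656271199532393135814066606096250375856620102424138272976640641265022193504611139190252550760151941217643061622896739460599012602190880489540889813936671970258514230589533379108797633707731474361555158376309769374354781221776474491661560989665157295351197630118888670339669812458212983936269278564416380532631347940486485498562959166681047646705488958716366969695929420461529801400138758959737740274070178322925703440221955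935739952402148735564361606049853876644859851751450097057075614972323835126733392121303554513785982614871114738394161007515785702217578478818939040603341970264584686772126240863182884484951342841010857015569675675867960668570592191272264139435251210316560094297583393488845499415786668583214227672540423390943762302341167826587693076507816734864677013261084336695504144177056854085689667450380727825211359330200905585206306976825556032866820646330755457281311973046096310160026658692902934835490758103238261189038408331491693058990160530375835248328498095763095052692158491498994069941184100404190014244817763306898144454148861381620744850449175883495119664200334325855498501503904270140408809964185234288216357594104069050037189446090153762955405510658609350153671633038115397434766634091347916029201287967447816135662649961160062393067667280931479764245030363784134637775298165797851068771832747779386111097199778453204519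001581464930886728444234618400221245288598091437943912745510678944128040500082700871388825270023110041366234996991584542767774101813803418600808842592267404108771710421638677804938510851070074001746837896570373385444209585700498811350364266753641920341122300885616240203449355381185494577885531607499818980150698415097200267087462932345127872134810142325630218152400300140724166800651138687929835362429300860511531933183497364003711830403128577638763432157918954568187167434314369124377739788569239374174435328060411659893797864026994384551063236035647317972939232251350216938236047769503814910048965077468471393143419922738718860517420553106072890670470543000446539445504885761177522050607200322194880842504479976859783445313691640912208739877388744772226008933150455243868896685767237364994045324685459609255785424258795274797230365793774464797558683176275044271308555903527752302922377856138005036702799298183653401136340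802891466406289286830851432254102516908247617668393201979737775825782270846274185424771640618417537583184301751195058931972640419762178144473495055502749508976819432916598161964345782427626180625094160347868585677137936801859810591208296628242897074732510644170722266334914760261993939497467112759518828688916273631604852886908022081690990323940144145933163069735342546082763409456108202805947160448137181549718746844561010095126463300926068259071243413687026362403039750383996358799614863542794610489635069491708651574827025901324918367178752007829553704980695684001579148250340209218066857953845608938782659530855000605568328126376338346618628319534172267157863584532920086643548383386102296478801444077284337210487181206172009319053268892277273880553176899802885000776840585810591813777522434493371683536867372211700699579272924896172961339566031792446272964485113086698020890531630816116803079556424886182977320901928732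351048104327486348837093007818469880993767870198455448627224907533687725958161393689855986117690103028573427155612013153046325246892022338956467480443800738633721949022845102130988359823082968418665170817961517751400387897388146544961433926830614242865195940516067356373724906511595031247146933981332319108076593562836840935394034331127420797606020266460003035640827253135060210906004941671826453032288606007961094327080371510059401872149272741350528939103233540484302687236788250266745466991483458401370578240116960933182393329260433264110239912110472777061978762213263275331031471131909810051119086005413296094752561963990161734472729341746038454537934119032762018571601993258949259925862557398406094432510680519287360233914425796960686516380434775004325138445884441927633938907635851449725511641125480790550862282790265427898476627351352428277583321283462631377285523790822834403330429954664807973437672435296485026775158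795842778285623641433872434979780652480968763820518971124364892268542093255133730922963617229680964551214824515563761150721584154473073970524052456904445364481149828656455379497879384432940688370076650615428493807982889351617289556095659849989660045136139534792641138839622597813900111057016936275570188054689591337514442594900084763934313998677072180928268893526454494993828307115604682498790487494663086905504554584108724048510708382309947481538757983221178683330097995144734504972380331035253078151502730004379874728710605443143246494912832239361360128870664689371349312205730071158338010958878721520573314830302179957189260922034269807214389855787585345881186643325435010239787446427005122920160899581783680182498825341042152302776097431374196703483802197924149712455806779775313942967270147360676779012049416217649349131018259902269638268781000755380065003375360937652235032657422793125717575470212716029416661471705951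623402148910117882541512526157380139796152106644855214810485847149368794631248646875324435628394653356664089362036457938061982156735223190587360618438500865730475363465956789953018263626177040704262544233555938415430451823605132019832511470185265824996890796916181285691287550538161960285617219906135549049012699279032767978343624476292395391208339136069940412113148763292566651600356658517949930308020222727201900501455183500847877121418233814305287820986389124886416914129944991373295644769360643987640560097571168872085991451782778569330639148732243190040859088677644870043824100997150129936452405725382927531307969479042112516331502028947050161694311845440102688961619919245112060480252003809940666612426142352738067061036643118304405013688529718119317335378033993683790412858253058238820833320404865220457000248567247232214654759191346048721952483971928552323958475511594561931460353772442865848360054447792899519979816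211157202263520657020413678663008691861215813675004327168263978547409476165318621461822477112036194891924423247470706334225797909569416950508291248429340488608325497436316586785714981641886537861510747749535369917608756459616361261171059844114864088728488138669810527351984070340815074430691244038297952440650387181132838791869716324370337196297646300682321068242201922746658982942421834489845298566080460646900654233333084183795893968246589018447642898927077512202385064111966965186666103274367431605224474047260370256012810292448503247167702903138005220277350790048688123708905135740060253880206918349134843690316961581238881062714873029735610191093671080062395547536712259955476376665940638053632689881865825159777680557798615188231379150289905427498470577760584500345769963612066380108243525700389342736285818139856374548795266067327014924354727900524239977506588871443521899037291723028694822325309227716253971057018393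959154816957578790633979029231701428380635219790555113180707096598885035877760656930208904424659407229244937148746719022704589587429351977041989665015849141480131357478055008534566922477782601087162780078482684263012887757179461773132358984280812961843834816980711304680102131480966919358606533969636661029349168204179591846668910017417009741694732039778786864776303725839452218030331229701206164059899269659631717974332073596339607794187464580733689587162120149775301864193075113486620405326081388624266067831969620559387336562967676400940998797254581950163020510778280631446758467115185212929238042588756286859431983597808780945255079159557285770499143069740381837927537021605348376293978517006043227256278783462376867413894290262877935966739266572773548227562428090896701025193270586475128195000312331766423254273468223038520230766050870984579756430683352375731133672929721299603405921229688111638041697557092160201892678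547071544273375254190634372650697987127093906722170871603784531958090286163275416344868394280784488777282109519765023899724312672666149328254501548940145549997658033339098628087238814030198218085075377112172637575057699119495668235605974798212737381706527649732525595238445571049858141311077870265476844711870076630766510460103739256028826064907087585284617859472911134061655306466185595260104722486825288880283926919165900686458691834065235316179849841432652067681588943020056894763603199867979966606758494836591882554914916641685669646018898218450975929373652998989255545364132066530153151103697280792115250362644119253059922092956446756911913028937032381420194115623279109052736014161651930066652406394242363929621076499017709846027788234580762798144366796257639750371091452968051861708370679647821389205649726176989961820755476290226479398789385055091091017877290793376814543389549905553476623677801120145674604651746107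200807096176669085039506356956274776475999156072431416123349058680811160911794073529252277036957371323784187795876864026546889257007714758051210400833860342185231277528596713150922407202960153168574856519393798895663788388403013740420385517609611010162259293653316003201956128686603316763748986871256841119067437504786677179437177881580833530211133446987361987340822303756677312735662649288660121537092876535227094435648813371436218355547328849072214819954746935761077577335904536447715120547253595115512698215522020728699534854193395494523316628021840985593430122471174632645724145380448090424033617633037560564044662671338193852927406703695612708571083561702059805107332020076938108287687488460772717579996562089997760995241386653330945274945517523913512330205161575448887276335577441016778324025813234018926597211240938463637126679909562648366914878722257967037017776745268404508442069263352967878183044344748417865121625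932778550420833651219220239714160713798678866985746869771344883455027143127427233885379653989017582925328527361511485510316833762060146888177772090758453740581678476445534397020976319714902214999644478097013566484742067184281457261166360718452326369163101705954764476694849376204820728175817961015010553161203947957513435734639756262975118126949110083517253714676231191988338672952667654144658904362177506655585330152934410396058693824739722287836935829436033353269816103953628667966310040255882100965306395740696100998585855466403013648797002291036366432923191157261817451211888255694679982066357723406348634797326254242420334061819161035679061495696626003112544301516638753038596843506980291871997983858072920401515899014924200688144293765514015903953895938698543731871081776398060494159414007968975097985130006484197377500711030255805672574102519767430674714006713269069585523781351872931149279633664357255866331693872053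292257348817851074577184387339969470404182817102142755688370090993863710320959962293460976183297439029377399339406943929181008176061863685392185591967487810697422200189100753170165430359374436037620978156227635845529999275314939478598555510307273763929324874142360050331130267950869332031688592353798355232473708899174131328717270207174341641597522397925820075158369705835006102335312260707653917058666732882119863133575624266469882544024669105744364705415457701399081539393654195324798230419073048309085712015961342695614665187403593439616851426917469816158322318765180796208634943778789774851888051451121261539264795026222725555595230870348711406310344113765560771417461570179659147553400020596168659502998927072877822537604378581567773711104897183658542593738555606083466672425915840165390706385068626720750477919675816366160142144752274634547011380466188804068370559093957415913902311495447432979251214302627136031714147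104071477646685047440034079366867650689167585908820156827907386964074067852822746018455477063580408313099000692715685958484299925127543852210581166577717756884634136152428154856844733930177685921858090405888660688276540890746328974868624479614961835247189679149087824267366547800864827386545861915353905945900668578284206156983029636753151150411938604560807900708230906797004053921936778075922953830512984596900675382067984624643115697919298824732633262236924330394162288926973307971387988034920928483884411586186712087971068216935892616946417108605249416390685319163719537114017173472869822664558600587196437128032586966674625371759015679707146058813511744774791950062719067481424685816045104535237314033698448235423642812108332704634253494214548975867802823140107387538325704395753765264355186441897881576761311266343864839521548058871878933431396072747527631905455026895205415480292153598239505188460787478620130458047460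40545022897334037694067313038705030505563080334698589319212455036565970864804214538624165793662608259551729154959719326221141600728859871231298595662867918172764636108643729585594878198620014605262615558877886353066905451784555731184189172304394494132041816876650912738150109482963167147145410481951411990281324639018813436603844720600098870022458949812457465973618136483126642615703970622276578651568008198757171446476500625860239981050091896345188077744849011678481371302646573021854864241391685192070407641037338240461224323990402350387488856972038126233012303847663595182129177239530289113580410020846835493270350328662367447717944636881301410033641827621352890734498182856704)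

noncomputable def rc0 : Nat := (nat_lit 110344373312689362539589906150196977670798228335869344001340230804416077453571895079254863354955708520371303106007389003457158703952102092739378615745415962828440074011460663034142444308988782591655526577886430309674583298752165806892388029620307285773381374607746274182569201992534592864097742449861924679455026730186724455055222692160029885364086690253608014254901175074223756092685214081664054913157544067742038025497361937328317050473629100586265074282132184344928685654607054257849720718810259812978924273285226604520764483206277018277928735595290987761467246877556175012118644560485746404715544439845497117792753240027835007640756623865219143725769957260007202123259708875353367054323955846945834430118048533074796830689080769734100773572224221017331771003419464492212987538965939071158222546391623544804992519562858317951284023616119552717069497850387573243522221679985507690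793993701464650164592821359649576025781455646000217064922784473410188058060902556556857754712240652888353192810234168310149212938040263139859002729117328370517127331162238587660688140226726410020086132184253190671422627979983111865078035968996841560742879882299528774729415317117127481135019521888445368953653897768891758669706938961952199640470508649597801952521997945399445336450887729709162480312954396545191706425027734666064595946818849960129455980907098150644563840286426991447903956653296302441879566935507429729399628566395823425025286597492810728499781432284992674992212626558328278833472975610554473908808271330542242476352671708458820710790279977972346540658589919665702750773162320725287876917046519425457972038839762830779807979551643052386904594997987664048256105008874608825848611553557964131095426716642602050321179316437799395344729274522110444454722692908207663999716225938670071633818840471067200116267498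897033030366682989701407915527240195530301326542217759353211436553838266159336820849482613468998555363544137699992876047839409199482954809573089373127509870237186762440335262436451616201544907068718416383193728825292232260174610181020826596251420822129526779904691060703244455829584419464469848944677905104733330872988083499095411045663152375482790463925161095416351356258197977957747539207788555606199703685937161491054399171762699440902036323672717841274787707158634641835365650770537034479703064348796979032113855053562605465668921326116587529923486302876962408239250376004316282108366569798563391775536875427120986413171413815039904005884255017179273076960137992788108849863984896253955542676708116320274013706178428469256970794819127518224599627508016431680843476494363653859767483447983029172814911334808938234582454407821325330167021645688550699432568539544679099664793549011398955247396911826312537690699976177245449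189882108571952285802814111654924801080382648810744051927542791766263589459381329581258213915855093056436997620874505690952279820686802562663413473842587045625825069099885344470050304862267896662042160207798644894544600569298717677362547561042273945539774976161064848716775295333396964964721212823591990324236250951018453896417679458361669224525115172060264306243903713647725189605263151259928123834821925345628435753204240636335237906275493693662589860842868331404010046347150204737660976764067468334219889550215197516786683043985504973829551803767151959147292688100358650512449754924435597075982194774815383622754825175614899182165046989982667000528333619369760168051091226095403908233633142758501842865430150185221493489274179381203204154074267068215258734371739858355058967914982485043019155979663886537739033515749484506097798880595837899089324552309534066767563052989802921519891359710401716820403711931136700660193092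237800623427824574270117961839963593531959281833003941221065033800967467949447580150631088625123696996589973933976647560145721009336679597996105145453426083834578330817850606063845914354087002899652307529738643136157974042579242577033491893807210021782471840797076068283092895981616924100449676858843526502668501293871242668118196679085327156894212280859942228166467455422310189184175742457688675313027676283499799824162812573143559031114421156770679209351504879737655195847925773489439921626716243491760823629320051988092689750070278312906119813725595811596583362241019574316818367177943257364196330410052140717431461283056275266719751184745736784786540219230645067903644967232417990514060047029744281828367418392226506454268028944260266035037033692275090043379844924903946345390119396952270773540726891178829778647707024061993356129001034750592375247579274779409834758216468427433971686342428204746033076563806153242680395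017800394677285446033950342016783826987572148496308531274825150905450634321292814554552422370864403948797589755783039695966126997734447829524816391605138726114017969825939551712550304617156000291439080758033548517850683529453419192659057701383946073939313873211102945909571103211628945333193874923870632139531606229391853640944235299150478092245286326653386354984200053460062469345122322996466212269023127574623179649686324699813936027903486240119770514520010809575979547478435214206743619914893849285383699098578688382311453240828161821545875794147561027148264994762702650971631125489218650866010511422649989770369063246657551147912346966982660288035660101565679532912274648294449583289296648982404818266281719064203680349772310422951653020060933455196452198127911809421598605136895676716541215688972949829831971597625107378680020766320410597272499814344302832192709538302428202827234782911228279814022801973457805793627661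863016670190702760885902236697909158209417765994095948995810839533211729058554004125757301644008642679692649531695846685958292531533373510495403609983540260344216214269298019407076374546369553329991465804227586093037918767142058458060865886109630110904447466507306452787897188015491534962779243201578345572527964789447200212021771855541273519985384847252630368710822333281934791856913042110060519385717670569153475751141861267851525926001720493390525425120068337250113102829675073262927340705149866765783422943526303479827707065281259430362440988173495634541610316968036003043893610475374043399443720425673250075765234004721407845842991833342375755444541807591285744431428201599014806395188230251303551376817874245872451659062116260484086598257174554629186011708160419921366112708163243591783929334692514179962960724753754532472473014938704076567252445095879396734661603588344572414522624666136143843489682690044999869444619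591850987194773005566729888088903165519368655003646597681178807047116390824399342678629433138274606582527841935984104992750237381614053885181647723030926369127668395140242717217461646945543431112641704163499653291762322110250505618898392864086399488338850776063919245135774961873403936716898725743646121400392383280264474413013331561852622141104559609885183037842363321761013527193303815655462216180527550976474071331211712940985372956464990038466877943927096834410795481286395751859374490628858942773974755030074207542657520456645498857954530971792592255575435474778212168283279715094906163091750517640895556788466162889735329190221143067475294827130190300385311677540964863631505535072136035828898705120084890347358824253311505975404591964440343096413571768609239155481325405619412846805968618606418180544476302603038448047879186192196439693757156911307326283654051238888742715648913802719975033845638252075828443499884708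341961899985382420115464658368967739790029466573061822940715695481053254004906223855879964458863025770822776744171430921327152420338077571920981817385062020621777434344830192901079522546544212628577072679346233323871434844569147706235694589801116968293640555281366842417627899508002226543918934592735075681301586102362711578930759760714715734655598669460951554793117765103342084526184481688857590089007007271495502014734991489823628690148863786011879979352193518693194287271014065947434548877010400527511161714168801890508732625082763936970225543597218005818779978468026933693117716069652304285725720155176688756752434726998725410240963900130223749058236238162152084939149795684862070733204787851671989488633188224924920701531617455621703200364223972197166475934981181744120519836960673849872704294874432623781280689576253488971429147519551603354646329113196440822079005587843504555026132067135356345072898111206100492911923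664530258930374619341282966542182366939275992778277730734011369855490780289829077411497724935683261359583807655606172248121102344314859681370319133246553460836062644166306145818070641884082691015381168389968755219814759838984831805689239577654003528698248081712912367545509781341248826578344703409987448015841706294388118307162999966930505425583002174556749232435232784172469340390595956204016205733973665157992342580789756666078749665501064529814633459016360263505361900676777961944178388241914160194933622384277135807573595493465612825573947629767161820223277613691719295690033744939846534536019226145839934831273113740950601585642091317668884959213447549781550277395160019169581681843103411379238159460735870875890662772322426088434545307864218554981555235522760260014273589540403066761917072026118420872856511569924689549351293068121198272681733560583241393969728455453314597075390302078865746159052976380773951882683590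848986667845819596042908757455123943616746615402809296092225937144570595320472409523463852272317230735574389416950833080991074137702352718542782919761915916177732073042789093989889208794205346077597957477691056033317076305727532567671732422942479598727374871696297257356576865764504953013063744794864721596979751331660921947603907141236338443416790923385096305616426623078275216097855891151941282750073954968765178546816133751972833104218765220508693876153619968868417947406359555455370833431512282510618203705118312954256089667183873618869906591320364021103500543458046669767234196008600657676778361579868425953127729852390875969439454784813079558064234412517308269855691794112925146314210230218237639817533677846650916711389038231136178424761242763553427849405979417870581866214597189978976779851935826563715717095500403032182379283516455709377886839806183854798347427729735998879003125296466730722969454162149836345427076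413128047533102604322931426804694619506205938273280030466845943024513096225504289375066140285868505875503763367651795457598471155056923030078966448961590250075327950945070538720327977200785421791099898886381246330660764701539948127002925652511882608018645205600335031346821985474603565350399868163818661622254275335282987067938332734851261235374764587064286962488524243184943725649594484762204780087214569985871122599680455957180414630270678396654403090686377792895162527151512514299263521913508694342744089671706854064530757605344703801736094316212533893302794486111729599965948739415648891135906320330316236892495484887565555104181306909986673294000318301279063106578184783559972396066817578839778532248813919367414794145696888648214350217138765140050264971241246976351120615151215495846551129436228136624357962628928022636480748295801438243511281610853245717778150061576705056644887765384227315641634566478061413414582699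981561667492894350943612533036961772966670315923953184981659955859826060270437577818398425178536871940620778533663359843225788163239056788646497499087936884231532207513645800030644739597618255751542787434739438286662875535446244326376060107609885952122630329144541549209419843049707271897335020454930372408567798939123104715508594307101978566929602551264410760400755269590290639461629342874603629898747882679241557965508568770996402873806614804333362987432295480134018791658127809247033335777696060188370102187985922054877822362298071119383144711825521677656925373372374892623475742569821202541150889548875462345885871230931411061362912907135193697171208092946025057963029263179717304514567717042887950185386610610827505753090454698026426983076360280512387276045335256365537290154945341603819706397919452306925315114410758652325067681432017274149177000376009960001919895506218736584589856649332710838579958415206731661095396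896143057242302057927654209879814173577805316463892843425296244290276785330489099095668688299128867379208235582832016515556454229169145918986854269784142546487473180653361885169855947022602293407549698723092775845813476017106553810750904661843441014082175791617019022403144660330883817180021515745932431925581759238416227101643183441276684945676275635014888224055477399751954664908003521937638786185628934144047715395813119200280461980106163162591223462776179557982864679874350567215478695037225002893729468469520050063304675627984607557433811580787539491242037196262593155594348189486317990373233343197803879991788762177599845652475953785169162451673193437380144131487019589313798770654335834764432648486854806827227668546648695890525189264906602814428169640653331988738695421741529043304601384392932108064861632449905570419491887536008318722193256116037906161369625694860557514893339538138203195600176475553829045954950862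494795128521291219210930322196721693427420253149168008879932004237268062077803510761248632581061162086127477919826883763664795072991941494886439287093427545234150003539843053067454762944947863737440402327768042331276088614178617357869456122193218340418104123040171200308252430872485679733040801169215305514848065420026109066880462911667261937437114868605170047145692347222507639847054330304045046147054811790522831893266463594150794636139677058184599141044841140634101201172352769903076208332113559102902504386412113787503663672425222396712540514501903306009639387854852879193856994667382655685039130575927275028919182518685868743214857583352084084828499250428610573232414504584967569290047137152784905184712450367973556986920071722465813980738379768802581812506651979502096026145873936216788180056982604362611943791639943867759404624059672990677057595920556530567594215888755959063450165428031338177926543517329842147786258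660921657917541687189770522909500123719051318600098187945035680899319432519032144757643673414270215676950116665641252331850299903196441946221086814117906634887877413713639747330227576711643236041491258179586511414631045858369249668197674780291452561751191414051923031593604594450377936403604845790970766230160407032193498604869926935753657779770032020681740206239775259525412419402888770637703745278884519636999806554162446428859202370414875817721179051168233320274523689097259841380837707558294006831502610082442441254460110853303464132236779716240243289670175703787964031363879641596788048569179000680721439133461163679459295707982077236363464275706600199008806276643742126912136868547159541227667853897176323409329460495192069841523280850215074439610230774270701589848854877105962895354437623281945502638248521436909868333289781841990557013500004744746285380771044465547384204560923120953097887113050585361834005287733962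599616758863365091716627184560512986039450165292718061364736384132085176379841364390449770048921691256435261359701022627865383836368101724277047313310028287332604523349105782316305355382787555670826995023024024190238711160201873586282719788920799741020496129040258095098403449562745773779821530185153990733392516497016093676342701987910315929259974143605633186592302501719858985775633715479379223013567798873042933490982624338013947787173293207350810344516172849494344061581794001358007378297238933953611080724620772318307151822292475115960355374908145550939837855203994584222880976848515023125625963733768481149671995110721649868171951278123633470177716497228082681549689511500267720068740865733882373220480426589729496997945736827706236924453778467758011830272352863566598159706075824238973515612216050053369720113464800936099923077820794622360233508031652253243084592186420821791299412240738110683139172480213685541958576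871963295921426690427362866208702325790925242127212402534494133269120627768242797333129682063607876868848060969579050017030527016925392044958978539058713710772764638136879867932415475691045977787542243768893452736522345915861450470404955073726366145056110514799618360983695428550980558610681930651113236114951898716859688757350306564837943836279816150507317613504813374971699593586423251865532829974746232700860300256060476393206470849778577638425764388608059779651790344832761854153997680238220962440111416239624167664055373028394536555109976683798712399469332519700979955712819882218963442483863326756345204066102078817562825742949633863879969385817777827727551336478091516914821709850011154693104986117348974131355791175008613945254801055102533484353892986078118323344705423995756611100604653274248303273227141974202554760705948168215225616104117189966851960044960938032953727085004560449867097872094851912065697564522889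61055783478777180395334448325506398762305476324912958421679793096580017970831651141227625759303178149874328011044842650667572798062590593873742835943491212920908630675346766616507499645780396147393485336094899981442700345293511550317440598924087062400738055748348814127979300849604689598837372907001952232833830795804183683076872785972590737725650141633940261593336441854010460221990166183708725249810503316184430782623358073523242722975375466048986211164682546969180765328477031640473738632045712447586675725835489834871052140384527202047666981037091730768309649155497302965974326342051761265057294710243563434283216722879152398938784398678127149674643440870953000323107587620864)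

noncomputable def rc1 : Nat := (nat_lit 110526269583259541021773816423766429767374333168393252679603154007834388785501319081125611530408630164842456687268896252051055823114110309228565252651341698697445457498520112693328214754265951707752549153781668000465004559970472098601555358748889042245428228262421232122074941024346277090251009795689661814058964783950262496422135522616589912821382856216828991585089895597732968384472725222791772341294774795282762489207708133208984441951407316915023993070792161241420445819762199192800563024205670501411462614051115288468682375245978393945553252337731620033492966003603217784391514407334281316160234436085765624515725842463313306562375119289603847311007625744475483721729987508950117703741873802128738851292691822780408984904014408875543263800393159022160253111521938219656976509718002568002449204569609317620167525424210508636612570430668104062625022679605524511354443028793678613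383207116031112420738930963001161550364822497054410463425760523979102066519080885849605603525832071349156628003995161559685632406899468654531918372170031551572415958427237247226081056628916854756636325473302962334856888912347107141976956411224801526966356518828575958768314529587248447806766674569251007954419840782567985519655230405438847018468883646883871849666484535346753056268893614804864186472679122654854955571913595398030161906485006298125434500275846408842349885403448783193900105195698145415652176368985269350491944030152793699409106236768633310512983933704409770297024935382480998182940303954081795641414230212672294069620550799580063183150361938852679636406967595604944431827252839497143002777652502045248151708212953046458440451809164480598100260381917602479517786159296286415346724311064836696329793211166617394828826373147765268229391818095442499546167036966444941188732224049221245425954316856407805681940972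691158623677962222595301440012775776092339019362127211746263760498830817950623837297702711009524875467366432992790558510400232568539956030663525814890462252880724879351501862311158785488136734500833498009706900570329115771131115616815608498628871785962995090379841925028206939141003097336721900343540782337545620205059105985630498085309396962727704194276462409719865877049696182939481529946073888974312835065295756262082538968538254969300417040316127317217906723349041412050179070396755093864065584592886663609073295664091100793543979500473940081432045987920494704958422856751270050316899371287677860551402680118133450261216589929404554329443552358473963959488078082482940097207423270823561009670366399448509741531603647223884557198527437813763820423839060058853674513485739423501975696090280876249778441431653438569218873526823193613601099571870681725503522105659026871549946890084698670191214939200373626230543924170011027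348086922932218610447952375034451522537928451554133893367286011578098908746910403006851870276554797518101513479312895402656269782835947439575808041239637722712885188957526769652091903296019189732490188065124869039276927157113170160632262334623795272755805592065007747166412037802001046366787842362158627116629379695853955083334616728030986863072939981461674077509832094653058552895967065909627184788607827287466137122182075915497766689142297347405692847239663980929147040868181393100685429741824890674534582808156124011106815179258101009206831499621393773908171324904508047411384896968281431969711975307612840525351592642335800511394945480381134016943659869996494913030920010823241687845144137075633020957668394241128991199864977950124412385858693145481258626431380607382715807725422068772867931267017147705117797349336572824128486183071828662564514011775856525276656349989815871362822666246794419798313793966883966230431047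914904868664936105839933797931231336545236301666066172321185010198860136195642811971695936135546001565787764190284717975199229297030945019331570961444615892080942425970127003567013069842920005419049576239399330928444173636683286028338743471632540509707547938807683516289837922738906742628029924659279773751611412795911554454412984868362610126010416870898912558919117972593181910244131586414518439022951651755097273795927812448831762438449977028979764383032781673614022543669751596790792758764978014468759654451827786768978813694234241707736964360725965025347574556932672873797818764305023196151980922258034935428397036226093375768103226935653341411418109674150081592170437139266644560994543350030923463550389564728786109834069681342201142103924195244029021865218970207933949422391083392137114506644938154358327129608826060442042688922181633975209071572268470758995367791575633842448379418404146391195746296916923642881618823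733192861047388018639011964809813725605269086331265467387930908042930327474908728905654711202927818676795222743025499125705580186197943158290242021963737916327015476119017827766503030763270749905306629054390282122107599565059969164547135876193762718024627914762358708765928050664046222809141597673190353659112811064082907823289222502722739086574280863706805825761632381953890621055488223632560122614613036359951223060611605291330494382076992755408420141153167592826210329213091186179780451799250956852078464406792950645668830249331214564547263204214667458659272193576397609267344413471879273616175415902050235362167910429465956542739802429931293279463645851075509980105564559248786596522292074929496322589454212674707011162592703448479299246454337045102860840004109019145539481369559814275812944943752998228807472767201437195550024955644536099138939045061107029396613052773922475085943730905716013712359049258838303053011949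603149039515750223216694484631264658514805019899363072794608337862467318087972283239668661804213118317370050060721087332262276940554917409857427356430333608166818607030528820588572716381626102700231002320908673883792249370134569470572177982493416148051307868841757159268489610702110457187833288633806370047188304943575783531366166282436275114972374635232719863131329744367499989489473681045180133098512626158316054977705400355787519651121413460510712202465238662800162938608312683099905525619424054260084032790136127702135246045466295193645710368877451645471799937608530190638186908794212912056222497131591835872415194371162880402876032613272781341517961754030520914780801348407924312698788605369214880950284259956638725865767824363230170023979196792327738484913563316129369972864219421174822934145372748654112211281583798379738251273782550160326219453729931268574974825426085779266174172413346270146217717781853035800900333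552238856942782835130335836172323874765501734838582970056163992722309467452207990479290502034618759061958630070758191621276595346678831429609655876361004932486628397917324413862930009693038255803683786578258008427892446022109620988373720075171108603186108789444633504165139733385904316163033157896959845216005710295338272119144858859624700431616054958151578127990535832429808536838734604644345708351378860065373910028531498805670809528809427674021324369035654210691711446766157592738636931851057797084611188851200668332941903245794839058411150142722123475771265250429792852910831337973540189066780743515867846581408866799657936415541036433579449513914123477117497304612259252498029877920287218117574740499830080516686106117136280467829472724552453715686497438670320131739413082731139224517815119203716993014225964745876082478739103576605220053186895832179508420427026946523168831990668789970222870349230807512757703398279050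069830879014468143406223007711306002066335107664888729641898061668967789535766043278969276181767838306726274076284367514835210767159590818027723367216159399546570683691867271958465876940957623633179385379486779207090917783420272034458126751785282851479403651907661600475015014199463358525271452566439494957972050244069523900638623654711885721437434049641618297095629010781466471556650863021580271169388468432364850953768622609831480284962941291526511758098541751018145279318150701384071576780713033680122672780785296137303109151420968990722709445780754310073115155560845708951855484550127980065132660436788864343300449518144297501914860049893791663182340233448125122814519785373180739828704335835938104370024234525208448142102354335762019956633927475732781845770827437826062308389992499789282133862035248391648738035214313275062311798342256036684264473637866106205023388194556452507186904376800889025201265292079661760605006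493816484485031986586363343984466511265557201492808092213333491345069429320861578682801314236838866902310501980356460499374064172860154289110854912651776971263612660983253200960853327759885248024918573652347560113046417094604164665542990854421452998214090608891593519774930600101156592478645647419136709917517413433860465007907814806801642343227063847937554221132227738341704720273537997560434318899382562945896707090518951942218883139289634997777901081495685174155748601508243494106361837859710688595897903998818805464487627293707321912832893027075159843877169611783198361830558736202544273246291949989291049352160817466270819092049682918371958139952057273087807671050647830253395576827941907397655712639563549293814403360507578675781405745511617494635434464854972287897397084564140474090913868019803490015041639406114941885439251095622917706663887519397237308016389820917513990973111577856474370141606237720599178820110122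226721117411025855569667444365542045065052363379899634660480647864654987843612144044406216253682530127953837955226271422974820821047505002389497628113392094661855818074284374500636647321032031056620219029498662221569683714388950909802249820575383166574646112999611846884258033050657080819939302985322610390895282064199455741487313925239516858219465242667825062598023780320253817110239365382158400455136458958715205284410297719395310915599074126700928255543646567975549451851540911544324414834662680445022077494134120256602693751395491564231903931765204005404283983967886703012079811753614411137440791732522046913453285355114626712072666583236536874398080358390208878750387217747520747140115722836600220446377284499734557735086499575031389469310257845646557485035298982773038254974299687361805855540382934584871207493549484479909730103800126023291595509130070080315239650590057459758446001609451396612520329761774657201298680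687235074330228706799036308450360234470073068785188058710686512670413604161683096076978342423625700332869333609409519768939270104713301914312146014801993244509088635389303915590228895250193365984093147219822916581569066737651537082631529681713659858064685326545643448673576957982603542817775646886710348491944546855355908919228495711745658369876068433436096377792130076656066115886886994136119178336605214015819463947307008097280773921746563782855220363581879877518305574686991606704146579599664805113519973338951626677573514262914671546080671798652656555945738066521347811491009577257209983514566770313561201788961474137943375971528415733000317926305686450230452871059784037073371277658556781227456124662356519403896217960630189885847516817716272917233113343630711600562978211084303021469984731661921778328386574779727666348120911394007962049878740432942165194444367502773592457722134673724324265583466008702593403363409310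171316030373618066294344884103777389702224847067636101164420842688159737707130637162984502149566448647767724754502481673105129217058611893890764373398773484790988039457979017794179151660917699631729572011573988314129026408292476206976046049888537648156681716801644818866780580537369746699699424145082205128550136319719706061768056509059659815559472470303431108500075726303360279165331301656128904498782572645045740291055899726885733820660851010324504824990372213812721159999912829576770006823685886678532209527911950441014995155374855997883003967735295604678876622577562787649748084996318947720075603359848823864909830252821921003845584274074371567375170825391811889818043943895675417618565405844416514678417636675230041471145564699273879251649633830228030204665230045923516808306136920786033979418380376731111273728893714969624401200948147201636883524752836964007395641800441985517452699235671311906211568660091706275928010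840752796782185299199110511834813979757663990672894459174814078581830578241113243120069928219415004866093999242968310640959004582581092154306873182815325975005032349507778484015562522921963355582574695756435701595788253739323731947504022914381818946365176472504884074615091803358725191577032332526886670264227062311786101693103753866072548402028080569386588219068974184677230779228153967817485301027590011900024684945254631955526012591744823364930780889631302728170874275230999054900257803649764329531717804626807278849165332969989261560146029115524777278699173187475054222700800416085140723828296917817883531300535667053296995749261179031256622012889725342326424384590774542861867209394012167031370236515598841338650821358212537232771235316245399594359520604992889786747642081384912844358895456288884910222613405671466878618579841591283829016759067885163511265029305896322318510296032350905581409258881160663456710093194037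911312356448778785844396478836639923190685029618712389901537237089955235401578592435666241890286129752706068665216038213442577200060962297348552089255009714294354515687766968868179628292714291030990621773414702961481005377642632017329410606683558366387111482646247845199408390270614346886101742153181921091367641836373901428821211225917284776100976535692247624374735655551639858551434459352291111931273575334967388823780321127398840080678486937691874126121420627536177360160470647299284386132063862718118955505314356555677896743537651543676916560505194930468367526574508222995405942727942306035221994929724418840698218027506378076908255673384885141067611499658995941610934906888347821550049090032271478457925999281626317110221345093774919249344872777562033472259370593114136235592134385001140419542995620368937758087353663082705567296082070688269832629009618300482908970598395380955581628396463211291045265329457153634434298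138719252254358065732353627504691151200569323199747687105989289928994161370223885979747078730102666712933185098771382640714566845399677446821487597478043024410904977567190842000909725011761481869265172172843238520936236884107574927348184951823356413578378127588150723063989646260836472135116756488321795329040459809130555432570000144332995430361561645288587106252204288961503751033508357701581576484161517590408496537813539839431524549059602104979521224858762294907353784492850450721513416947689651975273728294601653703121985563169775842694789018641841954818593621328393626715980525309210262490747853142359683089616129704543709445254722276552607930368637021697859496956312466029008418480194082329855652700865138813915161627599741387451347114943856481231531011096512118623401190014785666954927041125898182828999273110257161967700975257502516188507797424670987095133038398239421234950000365237275415081587166541597344163230842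502868294099308109240711543978809200861755682291548033722720691517706542724241163195791074405845625827305672617567546193882944087556953755735846390474090332513209158275153958238925779036100091410075367556701286529852636488845634143212835783671742799291485709154284966054573623641504393473675910419115484553574220926562061102260063966419020346060555749995843337329244270227637013400646563186728031299001521050002386890588539227861458227863689116484045062937889840685406053126045467419932273357670306784155753947834465748242866130539859556812342859284329636376986605702367188418534221918141040139162851698008741164909482397947855521855430423124680961186521443065181718798054285560044372461254799878747407852875112557106221510111441189948970094859434369839575236162570515200429363182523963061273642536353395807514844692992207832881317650789743970959954089432762375116932640640944306937798043470541006741709545107601672401747633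574691697010270512320609168651358734737849018862883890725636449104260669139703704734765479125750339407771433053117992212065446194291554665276115439986039361089973855092918329075267516746790607063172162549357373524302133960636317299701524269454526003590147465052246661380306085498950745502362831250551345214202359583382071469704166872358608090721021577546562032793048438505098712369962714765583286124768665261692441993285909496324304605193929825567854822728329057380114181443424129378227778547267218956120934685351527493086396521118228700097380677589565600568824189139746263523626992143133799642511082380391170820267863935459202382169943847925011123577543205420716240612786613536978422433519716419998283800204597040119406149881329818588437931848851484095534512762970700427876110097358605735312647602389549569003282769044099345120899181921756793683068104419798568609992297033659211405911768419947698525577909279395140077215788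96517161810779836203803949016994533672068466783077903367260702770780730379402031397590863810968309452262334147213155872989759304264267035972521016279687128449457966376510905199013404708489627862622234017684328814882561329354324368577873070227707317600096422820867154289492794279488789346074199141385933441264667135254512937020066737685563912971463092057582593053689040383339040671707480247991950385452159069493519704758529563502799657613662900948596349999166154351283736261498603535298368258222013518649073649470531748003702658916526358682147340122766179576926222485027408340815402874693337750985232038765470208695776625018662131299195957287412566578854103593234707236004271489024)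

noncomputable def rc2 : Nat := (nat_lit 110706160735729702046965598859032174794824704666687275161942875655041703058763468678475925649987692961987267242134168837738600416139702399141169238507005883506457168983402410696965349229273524220555142847131559697015808651224682539101069735280156309771230959724418210131912352638120742191941251690583864441776225521059511884337553698997524840291403120978161674468975572683267554080281462483306365733730491150613172037165311087658976941008740352378380063367447885239915379266159185018334695481535884207788042796707644456329838377727009696870180116346322725218522778807701027510225228679867693031375508519063498250750358324641874608229009992601241082464079901195313322357714768755897362899397428000036254950706601458381891363130479875128288210946256487047746888459150332126806687452342309907138724436298528471334101408372185205567725745034331440200561910477740760998986240650305280748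767314514280642133855045556334448977967289908116269228326205687319150559800524804384786493576943292830821295006726403398066462220021993156284190426663170719924324597649229257291549599251232300631093333343215852470634958271039088272794489330591546634335005452669969889272141532403520394859227910112325791758247615440428394552931464384460239101883384066649222211158487369396623020710207576572793062358484272917612943803189784289856072406894477647155405401637642480751762972581190503372068584715493120208794656312003745648814549948859552910508457506874377316693542609690351557863717265597170411226731540621318721156944938453973252314676806282308354312041277678393062645363258440078897223533876535630297069486853962946023723903361320065953306108555872366481886588371019326919672823304185763026626960049201837859983230869303775116159687841036775679343657947909217390680413995071261705565657303802692725931327614539696903931230628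035254155262668437909189711270068964659903057625074174078171009976290802044639675367461466233353608858130194595239395262820895494682308439975406599857779628781097887154245332957031993712235616678491804214554624916450801537732036880946814093946249936625851894775182072233636747608115377988554134986129529413358067154433608376404340471694344154598165759220141790551531286996948682275734744741073807846395839894809626107353179624831669721176558315952521363281382361716802317820494787693915970392837896821111420035709574184513400063868597220577755041570384425533922930367826428963136114472649253735857589317135615404160026264801578405508423816669772947643578444353593253298636110689083651689897338749767531526168678614075461387331441521254728089807154820623154829899209316086000020290621291336650036096857704400942965455425744877779038022597188782974437426927635221963763601280136338342807906140777866706006099363268865350850058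840384687433042055974463282165153795121509623770195944121725293492046172084830969315586947641127077193061781586344017572706852382100728957711624835894148785003978868862993935451069977890931745467903197981774613045581959409705320080144909649515195320095485733941544675621489020308842118904540094296687877942193759194593013772609871172593876530412651854746507869385626552206310928388413032143216680750175666032800162139151346150498233427036638300692359368199483850879915279682188662941185648809016401624413056437914704142399479753408795687893260366320937607873013537491121026885791243973498622700217967666048297671164616694573996216618058432081046287102514716350930660574259780385323573315384558435137561294394176296027015438377654139162269837369050239555748401860060128448775092509341566885801241603598865799518086522387527697246922066747450114451441730597131485597691910383242287937591345513811687359578114388071458803238778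708841586083566176099826618897034483074180632237735601027863985156338874081739837925555975837226698065348540434361791589807863413870136106157581555346991548905895756233859038013096292852829267002557090246050247450569444349602953366345137227363083891564900657340567029864141075609739813999425231821445412313065575309282340273922910775992366810116792115684625416070701053026843141010484358502381396340831883939129511885531567556837845170921962094616393478804514281079085111749184080883885476457620512503058835776321579767118465812921694472869835108641968738041176199248464584025435815368831511655170621607562971547656138153647825839548918649444398757422892244482404690872889787792756094845878219644236256639204987658462903749289995522972705184153771645634631756468152447219318361810304474712926881905462563678335609968295761356520869240415963621734697604933458015333545657602306436490931370891939562406263759649662968834946426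444081718658087844154908668547450572939663714364623283599116610557999367365373859653242628980564527568633706533068545247591287273423351489367942836388923854605712863454168592448823855888825534910366008920644676690266612210530524430409446675611598136242405997999517693802400850439619412458785642504586893871790759568109335677373935197630903189636720697850063123803328230489968835425747030479292081884255453588275867203014154583473405329721010471911565665537630375107729071787499069929862703899640991693535346222959456143488849540832664659399180564808332871888047586477339277077666113347746094784507878028534132909110665497810649204070155147354605929349768870105454046214791342739046812835825351233071112757781119750635516755058164040753132612772635966895175283831250021220053970849217411084266165596312489207810872203380523695152678699908284511826971219221780922694582457892913469431310524332205990324980058231596008030496511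640026618496003184971778864052523218694959143032001351870054984771310473013717341496824634618023273127204395138262624751526068145872312903522819977798255694959022145720996389535805791174324243414852492895323735072090676921825452124932785745151429824424945475695153430266236925426184686640726700101245751467135698647747658280223546835443177610055791205048976524860226165665322534484025845998132856415333134117291227329754915708836524420424484022622909866005657983634061160557993698926327496284142509947106602930294957032625418876915366963391595405400663029336163584755930288680178159040171271768801911561910732913761438876249679869825545056912790656510833353032966661418188230594921904141756835936914882863032689562815170573046601094844548064085826646485249781729254192153497436236752813423224403218857842501941346606864012841988456407597608509431671811586877152671780876718086980368742631225184332259613545804308012928488152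632455447790026495308481267733002383224990783071996898580951933855039751592853087328669012221388083607728689423201929259190943360797046536795598178092511800852856843410575286112405592581090056735609192928340706212946371569760824267226890522316296039364101045688154321317577513910256219174999760806487871801357922056981552850778500707227524441475092614014283282337111296645771626851724987714118477869193378925864305750778840965237320953918113447509091892033444819340160436502575348922417089951561435025992561886583511134048038062794109870927746777989935664926973217410826714201321460740794934933219773144997995620025550264376429283308687877862593332832072239929555016380307596934168891249089216097415771645782813220507243203463594172585535850252153041015204577035589121467555745242887616791551974666051516473570934825288688403220925119913375175882041638608970490661606243893679066860971138371128986390580792082155571962639324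570644967606207354614061259327855737431337137173026389450022677598057271119076533643053453112116050645725161422316907539941971842692051980384545266896513362373332704078960622683066132098444746334596159711909017633917364373736259990934801369674959882622440830199013875886987173050948285530637399861039331277034821167316444626755967535346401737849091683983466019615676203104321435908485489728880970239987759553475641133472841603487891228235116840967678997935797674074303500176420274334272955717955388130394614504966106322739289272943521445084088171035206031910330544453876924244229880201229584950749326139169630768480376275279214816145870738245507781112050824407452574611372263655579693199017377987651865287939640467790322871231500587803531734719306537595510404304187962205956565680113504518719718257555036027824261242498028242423502596565177853938380677764098816240822221306661612197200022791813746840842708895599560582652808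880773276318032325962742212760379857142147204895600728148922058525514510680307642570769218802757290015108291323401306472412949250186246631788512124300575072597487684632096019660251468384959290124620597895412913488179358778411750048274422895807983657326823037795389260227875078203146364340929164752572783614528186314692757965012086738044973094431259506355846877049959049185461820704611980838076758987134161287951399413255954255480675946605400477759366979062481483532425117255373474119204487493512357410061967642940307799414658680170924195595528400110272913490518479403323535030234705537191798883245398346107579902375158195316798857449012384238843570731986368723401950218986887591901602669482920596927797617309530674447097889466793715834750611217068853821042436925836677967349202006595162932651844064428743070559126209835347879729728065855111056101335257369886541102865650648602162045185775614439415739468713762871917953459820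386957799775804715118675138943945267705093878434616208963221383851332035363199156130781075387436508531171472711662828213188273437915276357890736128989159965753322387408761496397892551860474946615170738960585172591900465075090327773308946905351889352359766899137767345078388991907431085990784118410475435706878504648100743671029662594755702395733871575896520389823856326174577622076552769764093494277743145591309197670164044934224159455646037215788394532783714722976634406347153783809196863810686284703292494995908328288751152553099902728571244526639613868846196224661966358053390398641788846897873247247126788892126375847188738134010549752824266897167624566676996731994136381441024321655608848052752352853899027380694798194296183025082722519317921006984296321723910206082634954500179181286988901096183133640464140841757918047700715721298775614083252922987479371723609248146207345106316510241115710161361841230251904780831046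540642919505053910767143784132720642240620614125813655555055615543025621932603599646426537344108052323273774988829938854079890404766482266687243093881855288183432024309147779933159082675962811204937246680975751376157493854797496808795588623826442334815059336881734450289538606908794693608385325339710818976732166192338232488271915643449767772170189845179195960156955741558483000979014117023379890326775515342391714099825796790542694058984620555550313839621062084202522939850978721722883268806352507926142829085932829103602208968441925197566776234699158311691957033187086227131389927677589443637573760194618200050805412602598845323549235450987024713939919271366480417869034232117901433601072979930779848246624640967249757472834368921867954155341354938849496340187870461747730858198407300114972799328952741130864721686388070422135173933832948636340189237128177232869987733093267328865941563489423961514057504715391370755189901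646689591915780458357778839422924624949023995599311214788258175076332601491836417640739133762627681321213260945316787412950898208687946942700262192240325561423310456674625669990240642523713153609091306723287638239410442402181557670255289470583430287466057104233993824639703217817652409576814127455564532093976829969421537429457817759623045896173810993350784888005821062343423249958025571172708544407142207618771299224885045081789286476996947361589223813661172642234973344086452270512459571069859235129868923818018998762240362547726513529594685420699652231767792820047557237029291322758549471871675194701436792163883837255929468828947583012527911728188311771546364645928940780621254398058407044346585685694379066523740556263707018127745378925852250575953656194319207029799265874971641836017242531151058136837478231525751125829562970515711704389414581495521925359563822323045564377089320309058090480593415264863293794501591878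899750137509200964670928993122854838586372708072437175960659089064744045593296640851160923519862886721511096506657164596999530547538052970056328027580127931676450732307980921880982131366209385371740611833883369769336080989560695363551223799281418802490385231760972343891638568002867586752292199758093152290561085355221420338235508182127814648215205409212355164038195206688375916663089328517418010050606175523003971262580724355657817080765962176776959731677778273176052282890822178033076112134693066553015635858387919606849773677068816038102006496664714466480139598152630437110014399812380587139790010405170654474690087201205948633243471720296648015903778689837311499854745362322302175776832761283020394952313821128311742262374634353636402754806454698870716282967723592968346779540251176403268312253500281273304084147623928816644175250346621181376035108295859472515924470071224946785824027759244296723331721991971558807809833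906702608249431870204026613017325540675565947264594231673954719098324909578394017646830583793918878115539560775551381136508799405107192652191211797149542581471207412200511746417467148468227545309578687554101191069887555986479806375826132719044612819632646120118140945586975879340767730712467828405805458347839096088856952496552602129051195176436727288303862050912643688394291934533284079824830080691904810235767167293657562923390581288892411895312024849286297662880758926854583959424270956226865931017634048923271788057456864124952033285820899248147481353851883205674170456006965799884106676246806949682333057363822514631985086843430314761942373090146613485785238537463972477834088205159329895452236279349279768755849346563175615207926176411647685418977125826030544013200318805507336951100850123016017564965202932064815034674936125802881027743022510753412337721470856818361078227695888782029063218592713964564825903577071649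962547433429191206425547681127698115643073020011632778636936414644481133164869368928250740173971464072693464849252776548653366232632159629792099331230259286600024501150099204118220065187936228255227009830555155529620814638925235147935197766891976716673206876768694363244293150537462838060701104934477103504247032541090622927974873401584792787616846492075656997672195958813153558691019508623680350377648539565544811344564459643302117621544950480811733655911222827632809164982127335862691460472000909161289395412440810127781773988424211545519899791816445459029606860784203781158770681212302870845595023346367398689953305060529320566489473878943300879947577486901537610166686585417701124867945807161974867689831822411278950207157173008568911519794223083250387135831643943227429857026508476888495514818511365777508058483467353137461724379282519823987031438991767310039704535381772578965932753563503686696848955002188297000846572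711045170239151511119592633429394320254449638309722251194636362637871684784069720362159427925167598337381473396533914297341782659852385759166565782104727264790233973520983741770979021683098492634632959850362732427319596666977715564031178586630750761482729395731533090918827673436376411112889436609253260910843319577255668616548214008528861436440741575238626590019120610491069730934102649582723590292265835679047632120531256711571577708719433403643193458421940204154273636257911850664531268582651145653513508190281090614062755135397966513938338499271158608145796176424650247515012806525025046564430605808967034847171145680304818941701930023170092351881662418109931325294307582714925761347834289779223976735326350219048559447387357634389842388180686186200471161244850295579603153313235286459064115562857334081106071824430448142346230708055564186352290063537108600296465636870673100411308053948513878978905261074621362545522780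125796169504821020886105180211562546615970127833951170184535404787213515729827053686335192194692276695067593775874621165068145515302506920927083142235198711445034883365983243516198360347361727344348065149977154868372256138974730520361820158653005547887904963557516861644736748772112782418449536172759183837846491431408514350451222843399066338927143557903788414276931756318744493527968044652852960024220851572945193201257114651948562421171986453954702615086891162385349232493723285222059498090726745591807462425617811455389744075819157100929194353765920614900661210123637662326030962463762841378495929500376153709178871090688628540755608427362288957709931008091289154253778581879339659072747942924187548264958538021705802904474462088482514296854605286725954448127154557122672896180003956016367209576620916929754337783759572752608148179947518669128453020280427837783072722473127380144042521931551889387080949920886128321139615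11120732390806820772344794450376052971728909182992219244746045214176225176878965121794296353744518348563730933082082191051838092043396432006461222334677637076271529408681374182320058640763047939612686248126178256931751897101618131483957107695055757943210227848093811552506372292660444459573593537448123195173230655012326510306070290685424848301273143578299302059244004814977717625569543617020424804371618446163314967055376752983383936076436190534729406696290048372473137876271372974969283407738578303301740997979526844714366577615055406863275665130935703681367622811142216976957852793289190393598610041366889780105289087903555812581587757506410831492151983972553730271395568418816)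

noncomputable def rc3 : Nat := (nat_lit 110884016621085864550882901857550923747256081922417751943716593952349919344105239784849279025791170554670095452492273456288040440361951325687471536817439554596051018740257234185875141807436921939953994044216059078093646637934156689019713480149240525201447258318050233483872549331222491550536049997144251488144423121302288158505447866095669452593209605155179177983024648502319458263700562992107286454783282494828759184586177449476347084103436700155863080691654435921673366304623962452412727075001345409651105200783658825841464068809666785552888707556899076555742644225037537454880426612649258502345235395275891805004623377990326812018110598041826434133320053327455812868653453539688068754998269245066545111425503211881186486178913125880074231573144593457333571852042166605564055957467850828119738285389741050406999153490546578872801728717752703956095268894190460119477663485360214948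438855051795564597567705736322778694595510959301452706132179802577500789342971513145211224987973712165277646718248050028979297727048922961910698316178367651262183210697858126910326059688082613053368700150043778699982931444522644335772638784753342332181136200738886492848832032506437728757717000873804170029180572987868581601818264527135666263838765046393955753694893507045823512081651968378042762223136137284030425328294521626082823494200612488021587887764586047345124856303699794851533169922847900443112145643192757697176654078915901959254322653597791963274515046017455492181756915948743479731147061121898823138781279570684925648695139834557424053583932465472629000143344300102684416332471685229363158826863199068686705193833353854318608901673253628715965068124867298196687822168577361324887178309019960187581705096286203041022338566449321675645255089286070436631454511359877204299072983153960344707310444100071226684581784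568732414165829164050763944748712303588939700920926483023226508696461871797175295719322046134144300017496044973164469543947035491907085971286333088484548600134496016718522028360982222604930585981397346957198138500205469495760960165143796833482818435693565111639935627667940555003432429340806606662366957219668439189371835484888958877860187220599719131637077235620426562696260113611387435755693180942156922587204307798770707604905381272761704266028519972384558527784920910442702942574671073917709036755521718148224110446130003231343671426236276887724306738573505365784128460179864797870041058515317795357888776262785422513064057113939873410252183404731282006010247375878227044677028748740033911334468331010619310941430397041929632719910374460603610549684390295200771940593887094410028163003874833686690343617260398071241803902887125974610348830309943689645040713900092573770431529469777424361999673350498040801120262371614567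111374536419242727236800995500375121620675212118873467254605270230997623898676437143187874932241498853304417395816043966369929407557569098616465936955135622957437607084694802303986744548703562388373969766670576796656979907106774142976127248911814803775203374281452042545091509482590496796792430890261372156836322649901931468362500644099270202177497549427334526126569103678473945994350546908495827004593757580383844496886451964804583652315761657583535982047800976396968628717445943993155865036935343771144749667983684457338114962128082600524131951035099795073351063202076087131245093289698394036655819791128787462341896531715733898574548668987829029996680620720899389489910737343362795290404321431636119611903562166435205150808224192827384480853621418299780855752131637518935190029482347845218171194107933452156377537333006341495172519672627199162279862327391847955072794265586486078879603250924395667326835393085316757197434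046696293450504843176115695319081732037269085405667779693609694753467156225636343628413465719671892075469895622926034252645172975949407898442524348358984441456564175840074579094288955409272750924566908447210085236760161298383659377322848952889459560374267158350500763003955345831234330745950467307255384004811241140030890580329812413788387814676235141375018762463194595390561976498108828195070028765566824616324958199900187377624217650600008575266546996350747443989425135415473853016695637863551732890866944854391198992721888428242334441066783555595355735308706228800848556682271189508378485075443715059514681097443501836363274134710356275015108212455623885326055972423212491630135840257741964478731679219748116263793410457816226875751595408069068323115276910159153957888488264808108641244527867085697427115122551668772878724408755756542377002092576699978463182185841371764975772316634004871196304018600622035109521805969198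863235843592477886443670818948886668092379831173074317785648970738771233808574780040310718622892494113813185804307821419171608619647093352384581148988893937610550550935265154601396229569188290244241881621937785839647158088103794090197970604736128504158930399722311536687264134539304530193732581260770103122932987973063451426629473232432686385432820027717918644764844136321587031735173712971459496469852667718992432000284235637218860608678918681370189956288395252763040690077197008563817491603362958174344424044752520697939384309606573600220885533328406016533785155115062181056714362964514744768357204082474633563378292670301409633629456932812334448239869930782374485962339547165211904511785546860513607358811671923035408246450417097110162828971590585971351028908289779368256300063162639707251999318570134423502213488076516371620664275091261728262136726910257666394311732056986585561873466391150677621305521554619729817819485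093248121314396993016674526211649753631323614188972200988845926259482442646982766731126469418972168494335337686554804561735812182063549013031080950759868057024428397169943953588163858750919765413898032513458171020553335109858563454447883217674680809218934098209958231466868644794878592245998328852902252918127979494726380474838798774179311751572590578499189455799622452827122163860826843404391977401357244266267869982925368432866039155043238601568826046151287736502488982959415284521993750476658031369274861096955058311298596557523167054045726349065449654538471763610240609927631012342202108859373466760830118387820673234360965407235973083353191318927936905150460455271945005519313160582850047703121866997466028521715569498996802379352152233137783055140111847178391870827287283581039610561174825925862982607701413882650444541997199314453079934102617866396411418145677989115324127698470298854316650046433111452643786893606191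394263892235530032202980761209085312527336998772929132102065603360652877034050599575291368137695365682751955660295111657339708810403242001246315746596489813929890907191289039817682078836736286697745968194249313545139602021523344296040133086641979475923345566818901148260411829115257317836150154054539997928802498921871456171665632946542838352496643790034273059681240485640801681913092147647751476608196009403678848201068871376124403318960503802191054147823243285227191302470875729958705130136371759992697514942282029652023895747663222441976276126001997679970507716276570021758563072423971172264581389281247577064918339382857415419304678230592245675774269559007710428300562219882728040090551115339853786398374088410348118448334901735998044691685660662291432691155737536712050636172625522079117741626213310090939723625005943002904405911321279384818028528046280178251704682172633850363589677522497258611924779109654494965473118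034953249874112039053150537108544282853001484422994126892141391388158053872899078720412921667431185521825971200864739176281388770112766686016989480130912979630201279243036624599972599672409221864886416265970868202295628007144248928255685076232253584302549040859531902646172010261101266951973024901002242344095784555113573160756743128863309940539223556855709714969904504864595644357089548642932896117061009281897529685966122987858595329046608158630879995480393552859482598563340101668401434803395497294101105373542300274893891840285022332651485184936197051217197316809871470593270219969150428079833783508807134582425262271047215113571293971101141366824533543562488831134881377194341002687174851390258432971822961829657575737244429059305188827671143300042222545958427322945567783026448485191437157549689098763162177904949765045311581244275201851335918218745268105604345252897243708175589190024072464426152344702571041288003330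433548418538301240664855124377376473220361515948380200020118931484145207148115210580530052384497226450366735026863847919781898807670274208250933352618236569845546687336348368793528782584462617096897751094258256017163809506979767693963885021643662919462579646503463467168729954588438260996162380799344284947755176641713659021205490529490863082894285730768963282797430373486203055930858643624919142390056774275444215702907487150448192499111387104772154242301455392470729363605382157751792005083123115093162134102676997042971380618982765330692257922531210049053857362930903391106526356561145147943685968854636017687912951524165722390892359617671113371447126755327838277640516160514833520878881891428802509466084005698077476039509440178584448309168574752343881263352792316105788906733410285633715686389260183682129394131547227320045846481200546621077900797627218724430496972154537332684150611661587362001294960609987508248032917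439867074250699550252843907511408878873985029519050388969242260432236903471480742481146490456663574639813378868403833280465562403258880356934302533199410818056156779040081811777832161072640192847746080766723228276935218440106773736165682038938602766112057379815426809797658185804132360180469038544945373663256472499247200270892095912604681331664715036162240084192042195187258857062393964599883664798995570435785779514626479163070499047056402886857083282819455748713363137425276020376936023406250004616977060434836504266455812493434424027119158946975261469921871620632589112290174135716406779120542162556021202846294610823258088822769201088080458164420734414972240281246479670501862418734928013687989272751965784643335019974931450042154105444182087259077298723378526498765299749281736750456555644715463041191454891407849563340168244713614133172872077483966860535101066801889984181216680381022744244687187085804825874795817222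479412785948713937275853739019044881762653680202173518545733505036530324744841134795905546317905435453194309620423720544484184320558439671451886809827423450963463999388111220271785582239350531834867088117212885335277440112017399533205019669748345986669696999581422537763448982186040734418660152023758611268197713628231484282468785118847559421987067833290918462922410089605987142814512061369684068513528143110782089750060848332033542794910335171647450940836157627731381804563921403299939780861455156801806007670208581403433523352722520193441959278356506413546861949194375765993651740629602816306250125399505530409245592057826562149494837487351844618317511557535428157476374504376416547344042200612398598132046534893676229126196539424231379872845338958904258406397204597775555292609189411603440660059070483015166240137349899365055875695077140010404724902760693507169326460048855852991438580835061682581200333711280658735118540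443998927681301573631558210636162734714688084141893766745540989452916836444207377331805830296011817816856254985681259750171963763353128842689626459198077940803069599096451520603253867050381281753795976504133666431749248417781549210673065374011535235641525371477325499601699382947654590333557003880402513774246261181093649136786663686103777619322739080750492127229106619582456131121375656904451604794942832490655160177043708708966177274955488886089219820727374908159227711127799607757937437746885217141120721057694128934800480489717238196459680657341289917315277758118170654821391052947989541540291488530244330988875644269193821958928570915287298843487460387177715693675316544313880537549994198507024752789697577751063025864595537444934324837392719483573702759923247043043560648071436796321726979565564936369857944917227243809868958593415812550696208360333237829774119568764593874217683013288921259889510521755412453359832566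560907715791223279911264356951124948773860153222657181297423447012057599841485903214987607025847462425827600349378111072812325692163592297665102813479405431336756267296545029158965401531085276263094553357827776146877875073024414267996574517659529940474847771789473267528720744517034218543898671238114462369467588430722862302765470735850249830739303598303290824507491354232209224247030926684783843927590833930758603123399969652850830644848980097014342741694963999382102277652676923903681526990734737695483101895605185203016932856088585201792187953330963727199476552665177656669013270614329550743122897283083531926493064586428583346401030639014886446056858611968591051251102946117674096071159383187835565839010140152335114278115325057831235904638295513709740431410037265263132854524150329578447202236382369096214981612493114082060408581681609396658184746213455507361035441932555067964123389680147169578852965319906530461332039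000674035086271948340226801199214034129292703057061653898540229407690405021460070388824146446441339118743127725626191328231742616906800871511858547639782299960774242679307366041628373720635813249283046527292688549776966076827324438951643235451646835300614404461149294807894441147399410350427579993603900411699706132248056400730306372549980313549509760883708477610435164319466899917760056338152647903231885976190801388094999948120946254677088840174675612545623561347322717341479112585385888707782114139136475540306855212156311328308566964071533653080658792725495692709001164322059021068041958051833707792732049259896189612693676305578706719604169974733265848152413569205772765767520581313975949665854777704783821269004373220575801092866332496218335795101165480474688663606226153846614919460651660307298676730898153177106127690726297763838031105587200823212042307340621986328564810041793019109413613788767673201402434297096867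859637290728078871035947445224851114753293572665025854300595812085283914676686958460736805147674148634020527482505092304132639328357025243738277336262945812608803801300748036305541520790163771347574161308690432984400139298520150653982257910612942911321169910298706816768890355202066180734031706318549224924452926177243506976436847414543986178904002441232266476278292410570129328662270422499252408851065290659333216937091454665350067473856604153197115827268453636128132559253006815555430383553477198517851041520948495193498136596051484885430928314152461414765535008238843151560723556617738354530706055763535927035790657755372098504762762559134642230332689779101067762657315455593465882572976717215952808065603116600846064063542314372631001424772724873094573080048048500039454689895880788349549748549410203757027077597980640594879996641154857688945554897613798256767068899867465521385889468773774839506571508786384893972360137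484376182894941824539582581281399088906265836728714177593125155055772859153409009535395829215838888404012003121869081218601783326532517256632953756464217199983815978269794578882411001176712507394323683069414432092306348820940582389977336126545783501024804288744253374483274017571715739339499847311152763379876279651140034496542523768329926887131081638426340658411103931614448910764037301540519201364769059356015394909372190717814994985683945876199298913304124871528133430877757314436836308736009809948356924614056842780272800845475614719781944427203964717095081471205921171291074168819814314845084371087973788214574165845404771260763646492972108020169168931775823955936844984910111340283886498021018567165754071676538890549013374183592750262494284990097735169626523774989870648606458265228157737359955055052953490693877902914083820109744615920411525604187066109474837236078810559793368782468587276585682180894494034066290064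997441154952170881975492974764702348074155249416783712814833773980880477339100954354210910784852914463509860035613098971732280896500761132445553840235942022405652428613311381409516013546866075207764805364849004562890741416027029856371701590102990411914492920882347198574628449996120720088701409635080923454209900540527036303641185227267127925889448240526956619028480752457598380431618329176604046223111898589684672165026128931161110717946148929898082743452677909303144988496543667835888715891120667706790562208194919285020952859841164261801213913548229358313021361367010643742347966760489168412297425319677129002814360141471200515091718605465636201685485819415964476167831706779173946025329376433815502219150566481466420677352576336146681639892051937499161782073347163690250458232880250086328609070602220841763638819321768830115919021818486209605773609370847462778961944937673508341856327578901565697453319069670570248572814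91630455437823530476799150195841265851621207222806822980658001050130940586194373084593998045618608753741193526016797379320769277221257667152480454794320449359394219484247357046776729377605281599716664985445079805801687934896648900392068547864418532384245765378954633682667256711116591785227558638943151419989733136580576396533476952122552346389240015431754663267647565567627341797598340355181059456522230294857336561873832440025865409119246523867642353347256141729105950981224858293544151401620534064231988634163120349281304997543925164276785236818294956705513894692181932789737038229509532242202273560690318726017064347768135882752535198574542297634646593665620835292555853692928)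

noncomputable def rc4 : Nat := (nat_lit 111059803332655930676559892458668477192985372590314522276361601022975967483933222131388982356180308254049787894251865919646284553376111285395474501758030682293399524189542541578952935323199148309603734618772987290091335169721024210393363964127650805902852727671598969312561604777434944329755101925358262539029924429477837627696016891946772542195249396256662783981923312718098076535861813039003826718546342478189329549805215686993815173323437087900860009599368618595099111148284898446006342330809143590785913449675060344625730717377227612903421951131572066245558384030129805105769857950919232173017112578608913456522359444141700222832698735366621273482059859971948131195253951246906000522367720381588634062707718727049197784933063841112290489885791196966077359055310614371869891542914479655732828507425626150259002660855234961463349410470890956272760944416249747829334796520738651958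240177794104824579373735229768656995630077302628232196187709407612060857769253183710462866727132413386277507098210720657736213408768210753530503689846538543125968664424906704407318927789182355389480064270841700713496583577482895242632866490306683222554348082880855391628986624204073861842571736260766221975014775339688853871562273245338563612415121840476848931622074262026809430507534142678261686418981363287931452672246474805359588921061508644657647292976104915006582946073757460658580161652870792960639909369399390399462470545241967024878631539475895327645268894537576597780714367686504604017491692157673182281876832158852630405330347874160599469275318339858111301345605796500988188937391864632695685544382422029475639762567189219490738269705554335049136680816544115697378656702420116949788552949937260326426227878752068289071512189019288374427737820669347217492243289312415123248631531017489025691393240206588619979755380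338012562625105817121164684278193580182421372606600493974697315795343631074699211419734571814171055377486369162301848371640254906804327912049167342036702257575276234939617386949351534034899817174644350353696074555179458464869117871948726053622651622316893941164903741956877652137421683052098165076834069391742420466029744164951919676894260665813673493268021745106834617457240659723045890422821747132913974798066489388865355320844866031085925272578370672677809134757112984821847496131960817248771000803190356461122963429024093652445470579394124399421363608863202802315786061684076829755981303901503005442143744055210056982346452251091007817787792170436117744335118646532200780473941652057157271543311632745146510551913391765429381177954202211143018351387894092789113176275431698377966780323645548539482013752181766050305927293198602495788436089931300444621083338138632738491945014928216644026819502034393279992753511286779019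435774981554014262364026937294548865820633635995812913352960739341168896226256739490979742432470396661342884217077669574543169060121554666638381781397555361320463496722202821493539339121505986363614548716442612702920565842839532455501812218829562538521365812306951643899452741568255091376651546513630556698971078413038602814675939127407499822212485233337602485947794794713715982798992031395055042111455000802160382757220307737431116440244380779380692521365297665553215126828143412344254699391935875035541228356117471588180723505925906944446013772362728761034459536088371618314597084719163462098519713127060751273915230726930698652528522698644931758618083015844763086010962108917527707002135633415036253640543805404768976897933406261880615266272814265718394683071916813520535976209961155099460883889111456873672654950564910608680664853317706723191387547992383319269188851564134636792474411391949567770485898636165768389122855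052744231593769313598645895495558444312276951987220108999464894212067930271787262363004446028805165926099692942635555537140247964318537915298150169870756903622978916636714540889383764530588101649728610662459064610578972911415034280196638681308576766440255276181218755064136551744964079405638126836885154061444339966586461066873948166462634960074021807260613979983588701927373922561581313230629362893358755182957358692556330003889111557062800454217199044238971663368854287346554393714623325867508383922217059281961885982939075592436269191465158541418006045739508711813863010901213525485487023906135548063792718235634671346289480860664999496329822736537632928839287196063596235410086333749860895713829134592237292333522040750378564900616561304265957218705255281787947901512460615910299471167417445277662158962097930358341210096657768552920118711601625587368152736823404144294691884504009062471638400136932808381889650429257903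173261052318905957621123555266940969162115258315597255780132754923457254019304782246949768605081661649612325180752492482373680268873586025581874616252840155439101268777848460863379577123760172243164392495068987001364655992733464804201581443500814762537197467365606761751933112695561006183413512461259755012721601226831834545175864879738993889807120531948051644687258221931455006669542821724718210834354161489191324790364059089443370276541338668064768898212575475244961874767897261438740297280509494898692588000497412924937263236062257606877061605898718906878973435148884628196306855942002928022559366908423044058936696206149732663086255705158965717816202528878652569181270944651195761978191026738209077933887743361266114200294349434353132204046041739197003034195474105299457096707989341065231216763415413498920248287060159097083195311434526100481238691003513755990572083478744737155866678015571050703136713433756526736565903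641875891760808097417267332725633166413126803112803792123550132088051576286352565960967088142539815953574759705382049764127502985596215972235625809800068637795747675682158289340618383678829677044983569710603216591899369039801813633105482661434221890252102062825954063179620110366854136495258284638222571517469873235883462484852879691939670829221074525488262250756690644841868636993580371119301270264146881729487236043127820993788897617185655530293499587806240488945342571407671620948401604815803749347961616115080297282578319868231134968162468424647299997282567852151503437030784278837039865610472904210391095519253323317219746683724212961954906135323701327777867201992072838991642605635231937064926594440963648291724329257412416630020205797354927207341929044676040403482601343603269750087995112764297510170835178570529783581285667628440207823235633093298389088930828254502225199692518627787878575164775240550814016890751018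412826451446661314720667088454234656994674053443638077592908574585003397559509923468825190414828334630478258305761808801033714665003964167880160983451783079021647712867362681893364520924485748431745584050224509762325083508071061403462146065874882988976002735184393566248786276006439754066114560743190688904221290046171624848701849568518674300936821696996638425467531616166554022039316640480982813203685983317939960606642677381124385498113424951243750611111508066535935478818165099279231938035859835013189612107467962041137646846027723821743289296011401431167170457321901346190210733016678062141269370683518548705857753357320651612315635318666028011248775519519271851445777129948389456855861934184544345257072815676649232630293049547578457890260804756493913311629766779757899065742039948036624333280140411071311226797417911430189761671824149280450719239412587929748711343197512637213943734832378627937731399136342256484365239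103417107902287019324104761080187522310285897707183050108323392744651387133233742106172007852626806135979975172329527060899161498695531338550699669548770287509105067799331963608397642248157231996109268274846161043336811590188717064232384847070936076621884671169872807858611269164590455345474885788970597409995347725502434073806209587223780564421405658616102660355983390968082282645056015776707123061754887746222905378406426844420086668758891132776164803986332585170285388518830493005523185024856106998896597438469800117013913996878605020863019952975362441746640409043790927849286087466134263656151221329582083898060853498941444890135194180908484097278632027721467337127259994906823905510966788347023290812216895196443747314073966612724700074164603749639482656045889370605284633527900357081111853791775656566211017512353775187208351680706688530331929321381074867943950898959401805657810412647578198611223476299947531701141169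496122371874880414479984629258597365188860041623080302848475673859569383738040751762168882925043097089224151270685464623841381919943493270642234567487787991398021815496245967609299293362770739107099141839204932250913612498221802829250326866441971679287196031767125074589467663506522507070287224900165177800070552270052026399892841214604076787630844741461490383957682357657984712728979339716708860407111642601415210928327355334176402780239457318116111291887009398901630486371407078276444765422842944071179221771262460872870237667779172247135856755677357508274963235240023475857959322393406683859101806266903605859829542264905927994821931155735609716365922541124528699761139284379944956605400629077181154436815455843316301911011418711275183117318403940882392017293097787320651545787143419924134331362006322843200981443651013040372088745610858880453088622852513573232179241257202528048192222435975825462828832311300719407903706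459564110972417690720546935620603310433123709928947102903068001380659935774958179676709376018897287956874213762323422795394548829385794231418846197507315974055454674754703011076034590725801812073699317687284391804491717990765016131146627174034640983470926799678364624391427798965455777952648056754507707435199976743566388124778357850641911497704980591565332287059412038521444195716796534075452492992464260650592425060064270789546044307472958347093926767777766042242220833288431115198155941057781237769303272463008162355362407311173815927538406894440353069065972407747509827628090647780657686829859380971692322084443005334760902615714743765389315086393821065158455227889252763933754616178965689941030354033545254087110491488728090657325340589023400792825406002046784268161148034248303411568765240352193027282735906610815088541898356660264956466425951847973876651342295972014633011780947440325508735950024657394731447750167761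664189534892517886009088956301780456688385448942878440071416551658462639236735259670109179394423734681254866887910454308899287704934343965008478853142499609203839946468602199386188272280483874962363789011656509904804852017366505270767868737716798946555158206543185788128972547115909123956254890094559058213344170591823149821489076723850091385488450544332243531927809981161149869093668910067696390912776430782935351194827131806614512700592717933062423806605332816202898154187485508604129298242998129817660353368984470731742294972104446025816953072045532966691166922246960639254171972144762101926152419751216509794681527727534618309128206365582788503257656530603591687516163935197288753540151712507657125712007312455075623331344963520524226982352055006981138251516475142347405954568565851122576769551881116687934387242222439880609419802423174584933183646302077428486716127285340552994544571677749524446753554156521515677328250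176310941355752536566814950079960093696756546489526956371923616565527344549888960748003269865686029767276631635893841455471711479101408657966228376561808766885283054859438230005663099551934442425326186364511045534096090325411615192740608643592018065568327450182660313992695217216728711344135358078561216199120107552575675678080410946058230509555016067404803495746616719211678287004404599169443372582731369862255455221725760556695845993227980934411732229388222227518134301001515522152094853147419398245017637745491422186652473517482594264909331710324438732226326869512373288983959089274497797646806538692485157727060917996275970855872226440116737581518657784694450143342057847392654362347988886137665156300923969512193182176782646277874276688467180389752224814314847178529602113696286937167646302923994995587029317442989036914723080294295344600541582360705450864645743901598884543833788371727814812171063144458048915867616796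255198875501815965304825406115614727777167884584592422282753221839664270544933246291070570309020640215323046895440153770928971144403130619256948901196375885521216126408264827678339339082931313574419663381138879617043882979318831545543670398720171821604468914851873021733670729185474119600615382380423182686854363026978810925759689020762654474651732347179475829063813565645942080810701621107386776414318967958017052828125035883636374955689089861221231978592826939457074848933137379308967753099309424611041679021490832696692746549999585920705902167280560987541420515442335154459251543966860538540885446394986627247649747575774317656479415640908274078157422956284382627017788882812758493357902373519893412292293081181057772840004075765999173919751289839656097547594358110679591199885014443548812177689295102356205024464249397662551687057007776117136147545556584779661581055348840909879004679505227597865015568856940448339093437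992573909998885178238422176146502250511588965529701579359384834033807214103537682122022088372744992947800941406311040249091323540574606376248787365975025596380023745712124430231863016989556356983557810568813837433762000247186934436234208582355143135547127335046963163945164092388890977177735358570648421078058037047492557003032190596677466577157122545963459026084015413670366553040983307794528235180799843071142683033107827767020794442233042819341212813665946843854548872396449713457669395905677808005683625459407085296972773775394377711262214638550870833470998073466001573670842438495165338745905856046214972966046154260386864009276636677495961568145503145827943411444891165195621524100335359234217695968254443781036166922387615731788536343424758857970664768576941835369684520252620017051311136976100157543215273084139259766501570126021929455493460392895473838245022513395933819954669261432077915997806013218356769840127544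009699707017435616997679602283738032562364969523503687761218541435388078129093176751015504161674905523151974601003562893908999117024963079936492218247382686975380621710293945761189567264423491277207208222092586072353978301895967219129586483694761124415397493015777276940453511647060322846661399317458209711869128530308198398019231799017717191384396816461441893441695315581750762570657514018038737266172607623676309668085949023066878861098135483840430627686439962278976579787498163284686551595542315190560114512118496129276257694083952962933306737452255708845688356376867886899580753192520644558418204976778736570879727642931897912331313108038390278646373036394320275825904544663745056279188502807391813159654666404125403338385371201974669356365117162812357476926726598973904958695623533117028788056572648589594667508237183552045997522149131867006063980695964036310541723935088148118776352284963867580806925457970252447762021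359399086677562683398619327601817156575777121130100637345848041770001735871733766745886035274330695935784445927739402249862531876130798593238064045013619262331900312825709147083340564422743934332041018314066719761215384706123932924091640105034361387482246027241516986344186241488827654791093913906428605564511414958746318117072146923894941181223516384531000145549908111186887697568550844627011151319607101986384156052473703806604358917520549212268816299376320627639086031995104499483385839915417123620827077030046546920472619296210075173573813623300756924483479158400019011381793841118933140841853301789893433230491639935686196933174608588577474713946269951893802245621375936920065715495603729137324160360768147504270645350294493215579554012145211202480321617450886153121424476815809099565948466169597342381045273247390614650498133893799570675664553177116567522445135561716368519573860971559115334768518934568043035972372512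040818901387691054194649747577698280824696711175575821620953510890118341935700813515861027255636981167624269497191452331634701986469052597733066383471161856102605474242034470153147579430103027847875572355407769057536524901113500077360275193807483469142562105904968354408196217626059382620119874463155293683237650188109460727779594359286740848948181477099845344701760341447940816879966017904353098221876778120766645925997040988932010395978035308868833537876067289341885708938893811084172775256048978430406597804999707703664545483662440796681745377823330373677730420628060422112290270903068870749450726438411880549073401775098582846848698375990991446238715850821646259123729017153587780069480755594227977232569714744753072148853442670604445537418248291409381486344836117375766155178631007984186482550830642234997386846900208479581588545687029068627626899262816620126173038465773579700595853365244463585703334485210733149189047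74456265226453161103339535962825942557052454837573459485717161211118085764946488952518056538306830286019184762873401430674542603587712859881081712258125375350305530742667207596543941303299121167959749634805614279513145411650169950959316150505475377529966477776519699118042826565514563325325625396083811886333474596175712675095597808212083262095222194997158608660062780990086669308537483838925023801135597261502223422545623517690404409620166290534288458967481779551791270623643757795604291134329068948955217943720184235628704078254570527621448238418877176907017342921926110629060088754377650295909716855379982679261965162209653436995243871129775704465490392862690803876188412444672)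

noncomputable def rc5 : Nat := (nat_lit 111233579134174550195969376175525371167577916068196348398954622499079782886361046183018956695983457407909843803018177878971525705582871016916937602822869038512240191781866734714077613777232411732153575918668728107318714762396403612331375567818417883618593259096861037673560255187272339871307424920263340629683610765024823720194071096257987940301548915501799142619545357396609794973374159219159105361354441077948160083869403406850781743435152149987089885595221408605819401533050630826893753302377688664543657761245831060620010281078398084627846017801806516270939445362704179104888532025335693260681645459298319254166753128454306452316591101974066946171045484111624322479581031298250526229320406122505621536284568464031442815967621110587104002023277806814427847746074726907290571102332947451150633732565412687783779447584760279224525656213233583637444876805936742900666525399401330947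817192215601723294790086995354711630594021975864215937698716071338408549427393228118659669298026484738103867521531942977981145130756389950398456188608923579450790631543356224872720031098573688372553490622217275151868346632386313140686505193126927387015578899042346873373774591021467078632522519173467488310284688955276869695670302708603804658650851902653973451998062528575919506516516502348266651794233401080166762860498504927408872474470377250308136208291568513172880892326452082475507606893305792354860972225735633141361034473294472341053854042135401813637469921483284672152326691131160404863752504648327178280043434202800111241393802409177190551623835541519553103017171334323886385114657051291714223301504337622890640654985937762858841964658937373690233821170722488748299259183111285886054807180678931566930693426716360121660995685616692790278873537640869258292774182379430935780989207152524750676341808099961746471465466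941359500426589876277126747017570742687782249158218132478160963160364866558947547695314820052796917190275462842863150537711667370630914841073677263850470591705116150338512221597207502462902128933544448952504161070762142616744200643566921703541995627175791304709985815560446521768515943961365325453471654347693360249343904527589181392436091081607533352883808799399769713516710297575497176321559107401246327191459258821899021271371635459806911703436340147154310812240320947598922684451611974803149120534553252339248441503135640873225247908091734182190744899885501932805569984927575545305336965491963521792539429860736513839948074868317578797762750651417207801174558981647036241323604604097134175688749620312193404593955466604633888233677724187469823399029071050071834175615350460413944507217037210987359679312754127641463072505292178530640211305545235183099756337216528786454337003508653043191740927859110188539035990349781819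618470119128191100319279917723308435923553832479199864719403634323396942008025558822473706603583593297077809553479514990909794938829118976660212427109855051514745188935442224525986743940801123591302809530519075974344520925514276573573305253702462362579558309362554477342227056204757875019054285117962665295525802956499333451630644449516766740230492757749790297104673772777149891027022486835523084486349051874753460838939652468432402401505100413014266358340360514396150161304535660480768018213498412443833661979405499036004895703530299053752933646465699163130905780067289104694776706621974001574821588763254857672825819910175754628239047641918547038371264161242685922103918600028542995104858232386139456876916678007182019218732928416260013727436673849578840017010045310341195063478533246199356085754555501992706834262599787425916678126682400010001328209200603499060027101415293429049229261428904049777989865899957662604168618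550461961606858003359298776647573442285311530400428720840603040185232509897888526545126648510322627044611364583702446186529567546270442055681668942699319140857810284665755581227840543739395477140116548565225420428416547120653021610914484657068130466643827322817705232448229946145119001894844044324145094802637851489906246466408762069500492579686912282917320387188733893131380901254540108021602209625030327082594231772116969172315822014531129492069440277930129502277220014955690535998073949478665265622250146706134476609154517688752938777964422141541605899371283412311317478864581681460316697339113323098550517978842521428020361981646680111570239151100210531810613579287411281574070075588442188127018474537201265525269731498002523013250277774218562727323097119886385070831061608461845016665361837057745360032142777696895562089593138728175223301241231714401287411114179554716516222737946141151975949144815792796425813643762748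641174592623191970902252099302169268123123194647443775751683920932795446579901913458597506884957215199385788048706185645427254059190302336356677808735817409940263570423883359928502878970691713578261823254435080693132549333881113340369288910146874575456839343594068506077699478447898408819835927190977388124479515470574783712118050832658552815681533394178467871847809602353242875945219903381320026679415267556027236130109408954471386334035155659129478863351890227933901939483423874484641779124530427283732904645405863258479655428157640951360250188261446905458754315420630538385859022031893154187429211332948661035190006757693760052405900615796828904336699200911700256337654394539725645304137879113862961735809712851991259197518131672737374222815273290685948470735142934784193736498517731828492203232747864298309434385159188698579940881869893912720501702656200428440874651827885172051894741766179414212029298594345932486666172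932438961917559895605804264242441506576852916670849412496681526933214002682817062172152100888863828319961312094398411357206389529629637468433377783109195457697529354653020209227182988349324191531718243497253066032052335284210753434727687850318942025015695899567065138026400712939193686198900000243190377322107212395228555576687117943281050446793146982052586001211032730280845742455512248606106828126770874924281295344634416717177105114980448613521931064844333269244064565155285916956995643926390353701649989024495598353829706131814594349965284903679233661566201848200307006510096417746597309399594546093084641037588479537702958311342292013128468689686019963559531988628065018123530554850298339974419460860767720325755403898223433404379465175108640517032738097459501188822122092706321461215597894210960012437725208375759954478137953108299447714074552202520095476172065557454513376971532356941388922256148556015673573245925977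000978721168117034591614358529174373233663507761548173872405478812828856072796080595301193686261597138897593203538542664524964812475171115058927322272089427821544617826128876086195487191364056351500704007209736061421112720312594234013930139723949376810496561181173214907928275098589908037569993468167894874097782217458962906824925952326059264071755206803404215373099441671486446949438646385180096230929517723088474415038246836719409469347633065798353417397024521578055515300989911806828489590704912881733709700940886759798160973107505183050482117208405101550507371698439886867631430820039537154547157489007216526568773912718699352869604813724269544310650557414587782330779192930577577328598848005952513269509709404585028634286000137734141831046340075955623680107939897867180176941605002460640744509164034515458191271133399800026167285178302915662655162967034586606352392247486139342605642360978584692938102787599426394857238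975914385263247677530102905975656299399564245280825152872830014304480763495221236738858625440266215845554887054574434772365151075804838178537274809727020308982967583766771624501456131463793648126663342806023196018557205740140705450697978293002041351443556088711504948869898693245909378023644590532596985887457392313012902296184672612048409561918402048874762030312180969273452202164740095333645725662939699691378336988304022101820567295318726113010017960847195107748198021814470774676438758926083312827663156444117937809861801343976218444235961326802061361548745037867719073096668453951312315665315226884494867052484635927153418637501515966664828866253224231295188982996345259365824656454481098361460778709636557239281239108593177022621644062332789555443134383421223528887063934581922140758175919742793179871317566025964789880876898891684633348115531474047663427727694192759873727297901593324959248476938512579888174082741398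477044077307564658923248314263425695760872139723993350467285138883779120603576538687125538912562034580593805447286377703068747908437463954101197008071158559407882411978573956259726608968697359089982239721184334441954964900795532227812020320363944544580251522340275230616401941164265978789494519337601405626585430093037259101092859545434505419996928099104169903722034057083423562572693648931641601352167657143191533389682467206783934073619941126572123115270971909235556719085865569629587408499424700670737709276562344990925572430329818306596747074163290149537084758993711794976087477229027513455266447122448762780590255814291183086525038890598863399655664220941118514326003680997039372128039250940252070739846256176258158818718918888212376704187092734216938472610386135395238681171269418745959910869670591962825414820180839495570114727543616050206310734587809446641641920903407150938995246574428408123777070738130239794926160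701686040019745034494654024132827690678605292327736508800216454236688205127360189821395553974737515224239223289503315619385277713116347332173533986360705052291726365744004598907336452314505439435924683801859921051642061905098009776461733930888764514576295580399741432066030978085610841205655710401724063473384611680142512967094056192241113513253969131279187362698910863690419983249761458397069537417923733611053846455133844002336345276566585451804834671321638292336844852790122662174248535860417669798143683097881647029331272256346276278779652746791337741810292926068210986587863489695368084633889537027226372823160079747623523522672356768849397564354889013327672111184487736743572873586377861038889892523025573616107704330989670049577590489933597194617315429229100004854599603190545493818182179788262519809372755611623005457717087252818988514625721024954797800707081148311768612134633492644949672218779824873152088416667422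577210044414280369027096923610832892164487013051536915504891813840161993830694895315958455548650606297742749114449895550193127966163852619765937491358545023252797266941389505204211211374805210681827744234133312110405372837384477975267900908958995419947613614566700567351483686671774266954457331185383166529567181354621517674071809422639865250498410088544292052873330069645237953414276695152964458404124649605252472530126770184179611673277664140105276966434392047153383807293213709670075060161300498707788829079970399368306632781326020543964385100677932442250358452693813371265719923718505089361944523119274751771685785195202778598678329286403025830523531138883822877577024892961705824447849067531870711047028617898348591947424539465852465610992184736233819575814610915384470030581482536193893941742339497678871561042643696535587010079906285956225751225111488300819240981520329839736761823023175476073945088624201636779076907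321160961104559595873116458480112865515143597426666182947841861864755102651180580788670786783837657147412959919903082720212137402487680688355381892370771225864086784313878126617512494153497564142466738518384010917150953430501734696600489007681313045255116645826682859896254767080572861274066593367220237817473329810060683123242700334263725001273545252093982614742607248034523541409097281021350940102603281805657349175947559757043645806095388460276846446724814533091297349173026992222450582814836152910640254806100770744599388051995322543544124424805618844403656664992355266002682465038134904259174996637358322636548153309349824752630543761672755483558308878534301036073331174838132876787100532956933762464673440352382967793643963467110406570339485756710407977586217865788303781111112330286326872365131831103344760690064921621141968270241452817501631119095465083706833814881231534590908008906291595027978349136470127295443555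623693593757406354073450744273258323585167287989608689817940658053831078397507899697817739610976646689407707017259169003348062708525724507922277767562630944018853911219456455249330865431592005095631141386139359662067010847779591046802421360187193369518635153225799015810761240397920569492353552196767905233500227733563654388010966790687637508889050372237853795946534161588631472151833831281495908598762818989294478174716615570862302427467427681360070209657931838767803766966709978163198980244800548014787935734203879448239548475593313213217502940394517831959920410050057818345356092978991219439141156343198068159427263925607083513180550095703174559153675158879692903106273073711432766945624106694003845710389026226210822738099739087512288516750035414614453817645400368823780292277011753161357351371627188184902144938648599850788539427916616487307031825286402726317693140332229224706776333888889359839973667350361914371711178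516582199921921697114443935404649878856883011023219950354442656295572995237022405107880945667615462280849543363625264318229703495852787908807677066597754005668861899814771741209462811780717230872904864415241568965714180565763182670257421928179719497574683114140248765622113459455541228460251201935385984284341576473618176370600072209169635607444333115798275435776665932146269183099098142368902649519724220757469487335790433984236284486044768278358879623385270200202986044550781544409102083192761845283136277840960823146242731705142867110894888650141081360272043412604163737125549004636462674050534055565684452185440630331383801548266862006831766836691904000456691939455155552591115739603995666239620816760428206983450177165158018084062945276166243226163939636882830703386732024129854519056592379912369678836489615646377851770722552553221048211549664158627867525412430290263286466363456512749968317168318202319865106748623235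222701980364650143682227310390779329668072265066737465012434448429203008026268157410355937590151176071544937835319556098230588597765213708279883126843550663294223142121817780675525738472143041662018210948045869616846351151724281016520894651561738299104159424287556487589848991972578597077309210408357284867712100897013809796629115254017679781326586421626065369493578960137160414420023892885571912309937254367452075070788716722731537821879733251564880985794356165285392843784346797504632175283074196529628138899452303048006586360831918736105933958624633553157368958639616518340191453983507742930232387045244399776792583888387285804772452114497795657453450103534918495154801687023401447870114015757442041295066352087757069375779958965462560358190235295473451931073362864631425283738747556867036444135016366785037100462752693266982257967294638308073721597762750791032233602575227670022299614112904547382931891113709206124692565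249817141126022562994724961780998932592365689575749331544359656441537814479485976084673599900216581940653974640350140609854237636969807473127066200645187090636205946994485794602981566372269843971686566965340728086982534028362877814758475308749663495445582533829571863308002204107387624742822933226311784086726817369818778807243815336910262335245008139404370551211894617974079558442426914389008434603802213113421227424251228528845252172783965270295152061609134939416880503449117791248073925602012810347970148566947970046242039476738267449184280590178418409919281469597545253726675052110296810562080725484888428112032079607168888938396928028193822451193789234857663887272342347317985110123244687946704121539410129254177056641878415418746266909042381985473600235157502096298033865000510078458448202097751696402565076734677169785644426085153128482285382681842936749931736331376788333993781993657656594686137573632692473554301906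117780999427591919985865307607658620782733848822280613350491871868354467434700283882468399722294457852937244307213317335155169443214083299879621090597777887530982448511129434469048237270592341458446430188296092534656935529914670491326628688801667893747962240466313463583799760083963681064060846532124308633329191549963047732736780663015221601661672066672972011188395254277217838373886076717633301137676241002146587499118555532913982697935529309927319814057959434190655010351529921328411794659141310851317996573174866691242858573583953144865655058967910439055869631942329682973577201821659949998676071963012310152661046013784294420155030978781956768842472336152843918569880785467195900267540156692753997364716188569642716894397809203119944997573755786305135370158164237286848187785912501750389209818700063550346986877163432069101755992098318208104406563573374733396414966866002402263706952768268170300854424638250242012394683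23071236198610081904755499971166364488311891371770307222504483158979792922486556502507705272501281394207170586879691735945365779898183400563350672288727216619841150150549553516272615200986861486566965723946233472118958189732888964668091031225860023675453046548373019404071701670726412913531297704208787527954510928320926610463028557324652752846725367171686915802270839440415288643486246673679339335161799970593615642610831791828946103255940132784289432408729549127207770149436290196140652484893930265764806825124807125144413949124793086871513520014165765317015002342808323335323440347587081528070434727953740028482180047434528481541984601122745004952442452398030064073780020379648)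

noncomputable def rc6 : Nat := (nat_lit 111405384211197322149174500119222817926974285613149804616397888964933301566855191798164991348677629371796537660531778193527781701299598847706473630257821753547989644537577581732778705597019428770659338392951801405673181544861998023231419229610655800663128448635145210426039433680617790330325594670746276127402644669856595186216305625684845266759117902921450014845333726196358381298084379633646459065904753885829804211289108301618453550269456547429576449213724436329558150069730519380680183701526769415182384330868268226270677636663179531036460997611478925169679205189525243228571901346028954919685950799992931141648873831686804723922475710876315527225875450439168663989595373790598310561694621550792153642929643547692991190100162093729415223052153575260540929250599491272316762970660422906215971133716126461953299403364923179654839572712499138055306350501662367557260881687514442595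501775519120350050761301910043243297858532251118398950492428246928159201548530908221666757315825290189164406969368001649096775309793687511619082752741742386030871811392243977440275636955954078331297426718754741910575295132347708615024952616789237105167120809344220645734815389328060810596365186108306583248655781347678060364366523395469417835495184962116034337654570274414744264550160134363010540712241218071107331600979953936045068116743753311933741578441312341900731753983361042995458500764954064504391085813486539500374314220672123927018576394155829514839237876660284943495155681262047388275112677721781399610242484723058416813143456322459874664232698122908494498723926093793783136673004649729021838705738634928953401965562862009257652783910804842874171775713445850191418794736896786207306326592405771038374744750923989407837433599218075505387251808056436408560036965264252971954702636929677526711711164028900292031654571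346874383068103354840015603786500326650447848564134576072464266277309367449587545683637962024879632198247732202195179392518009276117366886503688143880465008052739638169406021154867070066895143091983370371920432540793185252373070170449728933091781114901966055416079938275623664539928196503786371929968892397249914525338935059276337379520095607371345218072592718920195710212711453758149306990777518219200762388725648859887399864425566991587046731169195214691223006247970959877365286261938316065641714761374406162974237781460161689637684306130466429114606754235332172128143786768572512355271388301201467917582256423482583674010786189685641938405293496552488565836892660815463233950087441288756596162917233588439787333275807287633019983398908751270353189017660792340285761943088770814840868578606133750374096860601677151723992941547134661395022479368798862161549807809675135996291052684301993286053255621108982188776683144315446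060366651785265959811652083155495441928840072844084915259224723336114312415030860746389032771835529040743850440904723456548304663893898624211394024554487213488936244449857198668683725393075706043912767898509373700648377335664553149944609542252185551041297249546169213607888681896762676222553935074592713738837603997900266748211269432576212979333278221350620644265233178647573129424707051516785367713573811991033058094414645107937222858131439973028800053158033723729669482906104145337479118568981648791057504133575532087622623659476437059065486404522988476430519457767785509636637094482683934612205726556804838477397261347226628302036055622237533254339741346500620299981347429294714335245328836789316992357299177993014468575735217255665100258665486400027848306614515958364166333829080405959108166942089899668050540470817034257007104326218611411072521952656290887713333261461987724528208159654037435577874630566351757469565884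643121744663099161010846477663035733400539950377406054522623353228674196827162325428266600352805329727570876471637521424971315787838639041595230400798741792903061593153044193033291428484594329992075831824866881418094180519483436784634181210903683108332541284452347395760374748149600827117460553985588264458681814487486553605471743521237510053121139167994692755391066053826210333272137807681257221768083969235575767754513758801679544436859389898890350717718281957820627317495519437833478999366498407890010251025084320102676852764557337559113009890394503173521293226195611314290160675635296317120277776208019297234455741649850666991752291279368512110925006012148543535989725433653308468928959571919994045579240926937160346986673025308656450572926805781447582638783138265143174524628303588987092098987099458237916813502612888469653781568969890024730147499354643577013934357952014739862862845893145280351916403128857829246539122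036673476700208069784317033808652128491055791980512060429103019158997265740871293734419357298162038075167321458911302280441106582424860696206036657592556442020613596764615376575773875035480198645078936524145748015314228235478651867445557157510372405174645897493498991880405776537634664691092639152070133284485917578489858472399090766173200572610772905586453306932297944927247714087923176934906691679848557709398977111666769090660909150724708619606260794367379512924359564712190174456568621491555242684874929789929974367832629518213014312910024888557762612341982239223731230744481358806217904110692121676414110210711882919781316392653341861926636057720282955330661450493211837437962976618102325788166230951772613349803358607522110598344882602889901191718490021429357988046468626596972727954739731671894957930162289120750693631754883105321529231272292837838693984908526550026213584470850786122682103724841263062521952433243032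154995958038470731242298642852163554065350465629593372793724118228720237617190652119237456258561940702659184703257277218346836396496237505242490932942922929840019664811907724883683370366351070579191628930224715001380576339030962102514784031089430455367950601015557112056848325560108813503267808930976856240020609852383195715217886759218420007505871506842539403114885186669647877388329106951572081148365355719328438714544515318211173836890090059394613728888380224258896006561987546781478946996492844329415213284997589170150712899831295077028153070334763157852028499841016652282712565651436674321759717081873419455549551891464964458728754112709696646148754298068489357379747040426260118161940208227757889060129476271442095263184118369316205747446937809020949730869098896031862567740293576358522477116435304568277848883760500001070441459401739231796902886400242583221652828128262997075557457384518866015245390229384594449784146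459645705683014942429373314706680302233665206330235401664137850566914573436027898364461331523033294635119038679570732693076057477208750926746254388228638017468859463469137031646719397399230597341382745028780249103930362365147082494197837201317882843261231234940031718716935445232237427739384215554824298475531400853430943382438383090554691701652114285783380819179406702892204050499150179490029514345010333164507002968079744968585203898996823353282810699942563080224695719434488372385280164443472332338585310905161720353428990543002178185115548753632831689736855658747300399831930116710298898365854737906668458092741431088297803212701467539319439686417257004406785025486688196001728733297581937400203422950998847675855981313537164412891071563034381732284989301425399582904713978481443445633515962745402840794580036800703517675806527923760620929704710013805806871425799619714328921438149493733206756009962861809862132784260786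489249528859959546686450108495216309181378259022536762380874394191161936632929514192657439461823874896189673931182163571969090498113610591170507691767849699932236110969972380704991658103318493921466332790973563025672858539371287155275602271812289857871386189064670522321363559118770275432288794746325780430129031528792611290392745937365387057511694701897253558783015444319571075995501599652805974252770205194614177882619456905447050019147546906514874873846146032876540854966951357714070180422615253245337558028714681222667845477998313046616840935454019456501599749180911471794110527945840177037343706954186885415066271523700588620296501763344341113611520585008654147613498162371366087299319065450953257976582110824637295332566963919656924867049529711194700778023334031052420566241464310819432720436752267635765847867478598119088523988026368301397410951644505309997625757478332118804244445310948378691932960742847699630442655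417171073329056976160086703113835168498092593850383797916378912422107840242477457471794415897851420218767504019446334011761662457855964358736738598055672656870650496343087870118130413165045296397124250476679005055665708781293350771272508383475937835172288132894944771498770861593038303719982758029286426201754867473257501533067076119662036203953165103815583117633426769644841216006118869742768825530095155040491077902034755893459558521173422203020653633807458366731377834893127570049061193416877559041525425948911572977395022476334990880766437517432277633077324662677863756722166858532303972883128720946922488239866468418809473409634017546848498195080944845464914674863907599013311735754709155791432466533448293593453871614316411405980765900241811762167912705412152399816405216543902914016918966960622714636320830746317951781029642525624167347773091570777510747157834856364489719241175541441143502277783349993567614357735300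423375861766124991844885257008837154293303644295816183688035824887186577315982196543518498773942481611463148922570787668499908149544175116833207158280858477822555322746509879567107038991132686138260166386576941485231773898754057257221797513840453349090902552070740266464682541655908026020402363458111096472977433639051523870986717343800325516325229393543056660445390107471614247986173186764505987483203845209070721032876788413388362517230528593136104885930000126619765206704083796452459080302926211101036266257272545418999807770580297818268397879721247796755015541111699551489934121150601877555116627899214732709256690768452452523924070824700350601960826815042778944342048841673367268026633077467986075844541508893517266182740578485027896828046809523701530865777695205888174729541815260553525425019967291384643545355654363963362603477985243770411868929940184261287589697703284499601290344738689755772000494082833052213791561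759009515485409575698370353192696009194365034186423000542004551189136931329073670753793359582832442459677619415984029384530528999638013857620598875694319132051828755332856005885325215962289230533344478886700092818318298120011932409202766333763975828368868825424395095169513437060567464900489490268944343462836650148673654439844163522337654749037165667142063036676308000565811098274630662281099360289308638258839235284448866415049685209174139630946023701097041953209138100495182341518728468392309357323420579656728507636766660734974262016410276768735861565377860572952682881427441389902180590270581966739829641601038871913709600422714706229668898721669683473899555674794668245071843593598957915385876069264535143594902348859094076982896840421126901657836703737009392428776576197213412206392575806979915713151808048922055407527508859188278823880424086216825958880755960309815175672865658914394620003331084830208250040715551286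266198088054787365890202526567561826200233874678854707051873645486140372396426649528871262753548752750447320325420313426686103981614672904118327133982578609972396199212955856290333358972541149322294122708882638014314255286794419369583155047578164997194813421862634173963654763439371855736385304846427942441282737182411475355600520603764886288816217581054863641178755277074104444393458316467055666370635099647133985036643888222409138116371037818471008080387119628264690167878547883878780433826430865994058016212058166086420734518721785692795716477784875204946283318033023195778841145926387239298795589961834225296868173224300334337082521179137094938002927854048832889344759068006493582530161515348501061186707074018510153973132333415179640768662202464316922019241085152321986877292859879901296896407516649269855350392494060726694769488252690487691224384466701310995214492327159804171734801329946806918664925488435181662547358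572414713129735104940602716253001190373112119572971853553190926858309893756632372940201298031489893201593980201537283280396021186054617787826734943800722343292545079085494254444040828111656727613345509411959031899771586412965122471623759891247827791232457121479038135258557927433903714456296371598810134331872553297437053580091768295318370703315701847908369063544250571021154495980988288988321930103728184836516265646608495979769869838146445454392579539363864330732237307628637391949924362453470235294834271346731303890687624835477837837369939926560551301756440128877767647486333171223187991050451323004104122063155021393524196291347198206757556093703639461081622429345661725123995871193966853040290734286971887464542537475830875842461396845105899788643191254892776161786620455299127917643217774570817436129476681534136090642909492467305511324206115303357688852230275183467410365116743388542249699359989649930089146016879540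722848404592016518456198666181480558551328659581122408457555568974777904508550007062048771529034281373616409382842117828260046331049413083378697173760610442115047535137686782509092890249890357606536170058636483590629416618979217972133021873987707556130929260894843300131087035887534871801554989900195099068282952257881558410336856276097398997471524779851634955368073621655811642459585692335431787854866237794595139775017852153008149670738635083454907730545074417203762204691750450569660510545543468880318523075978723989648309510369153667909795822420072048531005282833593615724106501602994305263065412128606030639325140311060069058991983239332387131753476091359694260635884443655712843533127415924631972586182134463655345142064411097291649036573479290777642683429822596225184664649620051767231232738140529325445105292904176721681012540418912184857251886346381023598311624299902083933846010163505519566487499799378871128260788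259178370325988646745645514894624773608993895156417261628247714245007282445224091125096560803925526962628391060497666927030095633920173836189462142490463308026018698378899013943485582658922680840564371213969830554504416329276534586224943131874782997996870509484474117700329069746559220766335148657940143832029662390282689182606509140220622906551076779371034089370844445460913281287610065757300734986408385122875175983617114299424349829570339347003720229527748279497306522830955284777293266183632727754005953184691341165194949756725153496202679250755598104244571172335968099656600368544486870154003473133898724777659575857223769365081405187655348622655348613241437316595776014446366691783784357116950744123421524295007093247140816538830410143708902551369177636233070001827940109307815385246409900201768398842296566235011774786969738009769556092047362244179864624487862878952026062346451662894703131302495900777177433871400092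246415443259982445568881147441030249352141283744731847082846280108842061722906218194715700820738282219423729039902080257353640356832582549869199949354720493351097720839732533217090170138955389387676377495001091381903217090835960662130425410826888286426109306223555173729489356882323931951119250341956555802549473917779011173208036817710232908314127531378408184999726932824854026275347873938608713947760649233308042484155735311481123957963135130967236968811107817596225939610177176681265579486800392629664386255484460222524680991358950946018105415900527529948603860873921593420266947153228246178564915013007161121319927686629549047006856291908388290688166827162038349350289863453455275146535017151586538836118223045679695345023803291767867860164434692077287630080610562058103729137665943575454032745369843335271541834759815287774605431480016033400389517110889342631822015595763173587015048545587132978262968181211250905220498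888165874298070489690720954299662613714193920368525453769542898301345130966985476523880561114138330844959510411220045512169222574510928749840889000429702122115691935599593943493133922275768090129816245384506063116947104417143008948611391246707916989223062787028095275347243015237865634397368349029568394205525617667615913859332182652723030147263850651244464620727807006367820964547952212735180195734945223571675591628721800824444022982916973237925038862672734717470586170117649990511094601781781750283568218125133246857265383767362694608337801447950432149118096050628315291541829074147627520660747102763917512076854584876722705191000853990333287740878734253737519119684327566152251793206711448596968996793572224575124629847329887979797925561396212340724316703707711688659033360290829089142189543843431425197367821981961642580493890378254757294242951431019564645090835272456780129340693729994459470634043133695157582564250002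41560404536131034234153879871517508873476556999270297505449521146751676407368973226860193366555364858253669833758539480623157852174408387076503374622723892656015921837716846671144914452142806072622461016515835570812179821132000410758841215502876541418350616898769452289866871229236104022308018618260751150463158295447176712268931490683371071142569342922765055328225756890252484278404533821137451988247406386039299259793250145596201963594541259979527935073786233692232402107068715225940128207596594283439610181285333681400786086831767508776380014379067763274126440358573214986677710798738711266935384971992618969350783055621300801630830825652179970658359015164177969682962798608384)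

noncomputable def rc7 : Nat := (nat_lit 111575263449364575562243794966370206000937921254408085924296886580284533485529596319232758499613712213695445184428640493124912446218593544865720570599275742834010987653948435690830320536843197157172778966244042640740349092574614010957728145393638027164921546961322315393391430973311436816687490139464795651301585633535580918324142571492067064794366251307841359964486293150247762048845759632537359698596002003368350998202675564362782961217746212213574807927922395498396171909447212209856927771297412587488941145004455156755808416987794946241177187311486106688952682756637122825056346463586743347550425430201218964593332950145825998889958100888076701014889692333555972297331723558358211902012394320488879956873312146082750422061475370572718043850172347544273017207929936743103143901428265431160814203237516668677583704724206559470816460626263071863129220759770806266386898387429844799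537555958323246353012795070721851692038545965611578360265935841579099069741909151638935828826073833421260571403928958330783793316210122277916832776152437308492390564461898847150366310338802906504300159827539225993210585051296066722244031501940101816024765336087956577614123926028424677581046159881535402831821273465382424868726674683493189171632895195602974043574030104172910036745691619038093287946482799027071552097317672648674369579526062653231962897630297112920464512425991565007661132241756553911724999893912777818774230149240271239998003654365245727599151072719930450554081381923187807979910407487100120183024956044353328296096866987731494923850050814493437367534427856267259028178398260284528696159693048631568776600672815529478717900912669727691738481380895213628104859841845021778843588271444729297420820616900193075679818895257907283000524565249983814085485485348065415827375723428094747028572986105383032696474782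468403286796588048935298538958322906858130198000382473765217357399611831686469476071210857788087566220786066297277358343711059751483242847037189801864853790924381772196693267031158548301405931399149365583680802000762357940075135539870774889763501902080884485719246385656736983163143617976613059207327128345143105432469518135114435122120393225720755310693455333479837013322885232017988860673963213356725886185137780971151167443672079979373494620963601792202869100752737495817308365123862763895653003712239884738313299924255015959723984886749340282214715649737054607404260063042699752031258543614657397013126560027205779945991596959465000884484369759797541738694183340347637889001931045081124458650696088931079022182890137792169622633144013622452323013688587398607400601795886492684210433579762668718337765881804893649459425289666376523757036148910315857702405820607904256519455578881701376953389707402441146036354116911776829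238199280194379733263240341264206367459874576102017824300274994588222075344154230458882921603300423300332709885780659899282259599884821923747378860558510836290506946832984579000453435678615628372624922186249577891733645407944562679806867862412241015587396180772799518361841396867035079755347315347284179608547773691720704631867083196623153014042635461670000873267318217633458176818998553024458931604765432788247074433766832415377054635123826569628639605328489834387389233334789700987500730713117287637585727881402824452525395752864947204491117941799705060871019391449742657475595374018826625119754239140628211113508215417441077471131322219161394320097963189771142552958027567228215278123820465806339652376615703280259822832096571056103402124878435440081835575150030819588867221405403617637590561931826220244510314464512477092557459931810139976194501682667177978662479179619209182380938144392195569102743130868655999182879534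179137901120111102914169980631964545442166534079656635174457309929371448604540439647018796596307925341498261021391526152393517489586317456798340008884269410789746163550532240598897647840533446578812765122071137560391496440358106071659730900279050338093614271855094803090373876740829070177591443750801106636199995490420672368131144642812970228648159542607658741420831597470315375651639221674023788059774876686540316204287870818011299592739533397508079997276203841586971563898044799964008024803923163117656271199532393135814066606096250375856620102424138272976640641265022193504611139190252550760151941217643061622896739460599012602190880489540889813936671970258514230589533379108797633707731474361555158376309769374354781221776474491661560989665157295351197630118888670339669812458212983936269278564416380532631347940486485498562959166681047646705488958716366969695929420461529801400138758959737740274070178322925703440221955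935739952402148735564361606049853876644859851751450097057075614972323835126733392121303554513785982614871114738394161007515785702217578478818939040603341970264584686772126240863182884484951342841010857015569675675867960668570592191272264139435251210316560094297583393488845499415786668583214227672540423390943762302341167826587693076507816734864677013261084336695504144177056854085689667450380727825211359330200905585206306976825556032866820646330755457281311973046096310160026658692902934835490758103238261189038408331491693058990160530375835248328498095763095052692158491498994069941184100404190014244817763306898144454148861381620744850449175883495119664200334325855498501503904270140408809964185234288216357594104069050037189446090153762955405510658609350153671633038115397434766634091347916029201287967447816135662649961160062393067667280931479764245030363784134637775298165797851068771832747779386111097199778453204519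001581464930886728444234618400221245288598091437943912745510678944128040500082700871388825270023110041366234996991584542767774101813803418600808842592267404108771710421638677804938510851070074001746837896570373385444209585700498811350364266753641920341122300885616240203449355381185494577885531607499818980150698415097200267087462932345127872134810142325630218152400300140724166800651138687929835362429300860511531933183497364003711830403128577638763432157918954568187167434314369124377739788569239374174435328060411659893797864026994384551063236035647317972939232251350216938236047769503814910048965077468471393143419922738718860517420553106072890670470543000446539445504885761177522050607200322194880842504479976859783445313691640912208739877388744772226008933150455243868896685767237364994045324685459609255785424258795274797230365793774464797558683176275044271308555903527752302922377856138005036702799298183653401136340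802891466406289286830851432254102516908247617668393201979737775825782270846274185424771640618417537583184301751195058931972640419762178144473495055502749508976819432916598161964345782427626180625094160347868585677137936801859810591208296628242897074732510644170722266334914760261993939497467112759518828688916273631604852886908022081690990323940144145933163069735342546082763409456108202805947160448137181549718746844561010095126463300926068259071243413687026362403039750383996358799614863542794610489635069491708651574827025901324918367178752007829553704980695684001579148250340209218066857953845608938782659530855000605568328126376338346618628319534172267157863584532920086643548383386102296478801444077284337210487181206172009319053268892277273880553176899802885000776840585810591813777522434493371683536867372211700699579272924896172961339566031792446272964485113086698020890531630816116803079556424886182977320901928732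351048104327486348837093007818469880993767870198455448627224907533687725958161393689855986117690103028573427155612013153046325246892022338956467480443800738633721949022845102130988359823082968418665170817961517751400387897388146544961433926830614242865195940516067356373724906511595031247146933981332319108076593562836840935394034331127420797606020266460003035640827253135060210906004941671826453032288606007961094327080371510059401872149272741350528939103233540484302687236788250266745466991483458401370578240116960933182393329260433264110239912110472777061978762213263275331031471131909810051119086005413296094752561963990161734472729341746038454537934119032762018571601993258949259925862557398406094432510680519287360233914425796960686516380434775004325138445884441927633938907635851449725511641125480790550862282790265427898476627351352428277583321283462631377285523790822834403330429954664807973437672435296485026775158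795842778285623641433872434979780652480968763820518971124364892268542093255133730922963617229680964551214824515563761150721584154473073970524052456904445364481149828656455379497879384432940688370076650615428493807982889351617289556095659849989660045136139534792641138839622597813900111057016936275570188054689591337514442594900084763934313998677072180928268893526454494993828307115604682498790487494663086905504554584108724048510708382309947481538757983221178683330097995144734504972380331035253078151502730004379874728710605443143246494912832239361360128870664689371349312205730071158338010958878721520573314830302179957189260922034269807214389855787585345881186643325435010239787446427005122920160899581783680182498825341042152302776097431374196703483802197924149712455806779775313942967270147360676779012049416217649349131018259902269638268781000755380065003375360937652235032657422793125717575470212716029416661471705951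623402148910117882541512526157380139796152106644855214810485847149368794631248646875324435628394653356664089362036457938061982156735223190587360618438500865730475363465956789953018263626177040704262544233555938415430451823605132019832511470185265824996890796916181285691287550538161960285617219906135549049012699279032767978343624476292395391208339136069940412113148763292566651600356658517949930308020222727201900501455183500847877121418233814305287820986389124886416914129944991373295644769360643987640560097571168872085991451782778569330639148732243190040859088677644870043824100997150129936452405725382927531307969479042112516331502028947050161694311845440102688961619919245112060480252003809940666612426142352738067061036643118304405013688529718119317335378033993683790412858253058238820833320404865220457000248567247232214654759191346048721952483971928552323958475511594561931460353772442865848360054447792899519979816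211157202263520657020413678663008691861215813675004327168263978547409476165318621461822477112036194891924423247470706334225797909569416950508291248429340488608325497436316586785714981641886537861510747749535369917608756459616361261171059844114864088728488138669810527351984070340815074430691244038297952440650387181132838791869716324370337196297646300682321068242201922746658982942421834489845298566080460646900654233333084183795893968246589018447642898927077512202385064111966965186666103274367431605224474047260370256012810292448503247167702903138005220277350790048688123708905135740060253880206918349134843690316961581238881062714873029735610191093671080062395547536712259955476376665940638053632689881865825159777680557798615188231379150289905427498470577760584500345769963612066380108243525700389342736285818139856374548795266067327014924354727900524239977506588871443521899037291723028694822325309227716253971057018393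959154816957578790633979029231701428380635219790555113180707096598885035877760656930208904424659407229244937148746719022704589587429351977041989665015849141480131357478055008534566922477782601087162780078482684263012887757179461773132358984280812961843834816980711304680102131480966919358606533969636661029349168204179591846668910017417009741694732039778786864776303725839452218030331229701206164059899269659631717974332073596339607794187464580733689587162120149775301864193075113486620405326081388624266067831969620559387336562967676400940998797254581950163020510778280631446758467115185212929238042588756286859431983597808780945255079159557285770499143069740381837927537021605348376293978517006043227256278783462376867413894290262877935966739266572773548227562428090896701025193270586475128195000312331766423254273468223038520230766050870984579756430683352375731133672929721299603405921229688111638041697557092160201892678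547071544273375254190634372650697987127093906722170871603784531958090286163275416344868394280784488777282109519765023899724312672666149328254501548940145549997658033339098628087238814030198218085075377112172637575057699119495668235605974798212737381706527649732525595238445571049858141311077870265476844711870076630766510460103739256028826064907087585284617859472911134061655306466185595260104722486825288880283926919165900686458691834065235316179849841432652067681588943020056894763603199867979966606758494836591882554914916641685669646018898218450975929373652998989255545364132066530153151103697280792115250362644119253059922092956446756911913028937032381420194115623279109052736014161651930066652406394242363929621076499017709846027788234580762798144366796257639750371091452968051861708370679647821389205649726176989961820755476290226479398789385055091091017877290793376814543389549905553476623677801120145674604651746107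200807096176669085039506356956274776475999156072431416123349058680811160911794073529252277036957371323784187795876864026546889257007714758051210400833860342185231277528596713150922407202960153168574856519393798895663788388403013740420385517609611010162259293653316003201956128686603316763748986871256841119067437504786677179437177881580833530211133446987361987340822303756677312735662649288660121537092876535227094435648813371436218355547328849072214819954746935761077577335904536447715120547253595115512698215522020728699534854193395494523316628021840985593430122471174632645724145380448090424033617633037560564044662671338193852927406703695612708571083561702059805107332020076938108287687488460772717579996562089997760995241386653330945274945517523913512330205161575448887276335577441016778324025813234018926597211240938463637126679909562648366914878722257967037017776745268404508442069263352967878183044344748417865121625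932778550420833651219220239714160713798678866985746869771344883455027143127427233885379653989017582925328527361511485510316833762060146888177772090758453740581678476445534397020976319714902214999644478097013566484742067184281457261166360718452326369163101705954764476694849376204820728175817961015010553161203947957513435734639756262975118126949110083517253714676231191988338672952667654144658904362177506655585330152934410396058693824739722287836935829436033353269816103953628667966310040255882100965306395740696100998585855466403013648797002291036366432923191157261817451211888255694679982066357723406348634797326254242420334061819161035679061495696626003112544301516638753038596843506980291871997983858072920401515899014924200688144293765514015903953895938698543731871081776398060494159414007968975097985130006484197377500711030255805672574102519767430674714006713269069585523781351872931149279633664357255866331693872053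292257348817851074577184387339969470404182817102142755688370090993863710320959962293460976183297439029377399339406943929181008176061863685392185591967487810697422200189100753170165430359374436037620978156227635845529999275314939478598555510307273763929324874142360050331130267950869332031688592353798355232473708899174131328717270207174341641597522397925820075158369705835006102335312260707653917058666732882119863133575624266469882544024669105744364705415457701399081539393654195324798230419073048309085712015961342695614665187403593439616851426917469816158322318765180796208634943778789774851888051451121261539264795026222725555595230870348711406310344113765560771417461570179659147553400020596168659502998927072877822537604378581567773711104897183658542593738555606083466672425915840165390706385068626720750477919675816366160142144752274634547011380466188804068370559093957415913902311495447432979251214302627136031714147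104071477646685047440034079366867650689167585908820156827907386964074067852822746018455477063580408313099000692715685958484299925127543852210581166577717756884634136152428154856844733930177685921858090405888660688276540890746328974868624479614961835247189679149087824267366547800864827386545861915353905945900668578284206156983029636753151150411938604560807900708230906797004053921936778075922953830512984596900675382067984624643115697919298824732633262236924330394162288926973307971387988034920928483884411586186712087971068216935892616946417108605249416390685319163719537114017173472869822664558600587196437128032586966674625371759015679707146058813511744774791950062719067481424685816045104535237314033698448235423642812108332704634253494214548975867802823140107387538325704395753765264355186441897881576761311266343864839521548058871878933431396072747527631905455026895205415480292153598239505188460787478620130458047460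40545022897334037694067313038705030505563080334698589319212455036565970864804214538624165793662608259551729154959719326221141600728859871231298595662867918172764636108643729585594878198620014605262615558877886353066905451784555731184189172304394494132041816876650912738150109482963167147145410481951411990281324639018813436603844720600098870022458949812457465973618136483126642615703970622276578651568008198757171446476500625860239981050091896345188077744849011678481371302646573021854864241391685192070407641037338240461224323990402350387488856972038126233012303847663595182129177239530289113580410020846835493270350328662367447717944636881301410033641827621352890734498182856704)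

end Vale.Agent.Lib.P154.PChain.BE.S9
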